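import Vale.Agent.Lib.P154.PChain.BD.L

set_option linter.all false

namespace Vale.Agent.Lib.P154.PChain.BD.S0

open Vale.Agent.Lib.P154.Chain

noncomputable def pc0 : PT := (PT.nd (nat_lit 8300292) (PT.nd (nat_lit 8034780) (PT.nd (nat_lit 7875582) (PT.nd (nat_lit 7822464) (PT.nd (nat_lit 7716384) (PT.nd (nat_lit 7716306) PT.nil (PT.lf (nat_lit 76) (nat_lit 6) (nat_lit 1) (nat_lit 3) (nat_lit 182) (nat_lit 145) (nat_lit 183))) (PT.nd (nat_lit 53040) (PT.lf (nat_lit 76) (nat_lit 6) (nat_lit 1) (nat_lit 1) (nat_lit 183) (nat_lit 145) (nat_lit 182)) (PT.lf (nat_lit 152) (nat_lit 3) (nat_lit 2) (nat_lit 1) (nat_lit 182) (nat_lit 146) (nat_lit 182)))) (PT.nd (nat_lit 78) (PT.lf (nat_lit 228) (nat_lit 6) (nat_lit 3) (nat_lit 3) (nat_lit 181) (nat_lit 147) (nat_lit 182)) (PT.nd (nat_lit 52962) (PT.lf (nat_lit 228) (nat_lit 6) (nat_lit 3) (nat_lit 1) (nat_lit 182) (nat_lit 147) (nat_lit 181))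 (PT.lf (nat_lit 304) (nat_lit 6) (nat_lit 4) (nat_lit 3) (nat_lit 180) (nat_lit 148) (nat_lit 182))))) (PT.nd (nat_lit 53118) (PT.nd (nat_lit 78) (PT.lf (nat_lit 380) (nat_lit 3) (nat_lit 5) (nat_lit 1) (nat_lit 181) (nat_lit 148) (nat_lit 181)) (PT.nd (nat_lit 52962) (PT.lf (nat_lit 304) (nat_lit 6) (nat_lit 4) (nat_lit 1) (nat_lit 182) (nat_lit 148) (nat_lit 180)) (PT.lf (nat_lit 456) (nat_lit 6) (nat_lit 6) (nat_lit 3) (nat_lit 180) (nat_lit 149) (nat_lit 181)))) (PT.nd (nat_lit 53040) (PT.nd (nat_lit 52962) (PT.lf (nat_lit 456) (nat_lit 6) (nat_lit 6) (nat_lit 1) (nat_lit 181) (nat_lit 149) (nat_lit 180)) (PT.lf (nat_lit 532) (nat_lit 6) (nat_lit 7) (nat_lit 3) (nat_lit 179) (nat_lit 150) (nat_lit 181))) (PT.nd (nat_lit 78) (PT.lf (nat_lit 608) (nat_lit 3) (nat_lit 8) (nat_lit 1) (nat_lit 180) (nat_lit 150) (nat_lit 180)) (PT.lf (nat_lit 532) (nat_lit 6) (nat_lit 7) (nat_lit 1) (nat_lit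 181) (nat_lit 150) (nat_lit 179)))))) (PT.nd (nat_lit 159198) (PT.nd (nat_lit 53118) (PT.nd (nat_lit 78) (PT.lf (nat_lit 684) (nat_lit 6) (nat_lit 9) (nat_lit 3) (nat_lit 179) (nat_lit 151) (nat_lit 180)) (PT.nd (nat_lit 52962) (PT.lf (nat_lit 684) (nat_lit 6) (nat_lit 9) (nat_lit 1) (nat_lit 180) (nat_lit 151) (nat_lit 179)) (PT.lf (nat_lit 760) (nat_lit 6) (nat_lit 10) (nat_lit 3) (nat_lit 178) (nat_lit 152) (nat_lit 180)))) (PT.nd (nat_lit 53040) (PT.nd (nat_lit 78) (PT.lf (nat_lit 836) (nat_lit 3) (nat_lit 11) (nat_lit 1) (nat_lit 179) (nat_lit 152) (nat_lit 179)) (PT.lf (nat_lit 760) (nat_lit 6) (nat_lit 10) (nat_lit 1) (nat_lit 180) (nat_lit 152) (nat_lit 178))) (PT.nd (nat_lit 78) (PT.lf (nat_lit 912) (nat_lit 6) (nat_lit 12) (nat_lit 3) (nat_lit 178) (nat_lit 153) (nat_lit 179)) (PT.lf (nat_lit 912) (nat_lit 6) (nat_lit 12) (nat_lit 1) (nat_lit 179) (nat_lit 153) (nat_lit 178)))))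 (PT.nd (nat_lit 53118) (PT.nd (nat_lit 78) (PT.lf (nat_lit 988) (nat_lit 6) (nat_lit 13) (nat_lit 3) (nat_lit 177) (nat_lit 154) (nat_lit 179)) (PT.nd (nat_lit 78) (PT.lf (nat_lit 1064) (nat_lit 3) (nat_lit 14) (nat_lit 1) (nat_lit 178) (nat_lit 154) (nat_lit 178)) (PT.lf (nat_lit 988) (nat_lit 6) (nat_lit 13) (nat_lit 1) (nat_lit 179) (nat_lit 154) (nat_lit 177)))) (PT.nd (nat_lit 53040) (PT.nd (nat_lit 78) (PT.lf (nat_lit 1140) (nat_lit 6) (nat_lit 15) (nat_lit 3) (nat_lit 177) (nat_lit 155) (nat_lit 178)) (PT.lf (nat_lit 1140) (nat_lit 6) (nat_lit 15) (nat_lit 1) (nat_lit 178) (nat_lit 155) (nat_lit 177))) (PT.nd (nat_lit 78) (PT.lf (nat_lit 1216) (nat_lit 6) (nat_lit 16) (nat_lit 3) (nat_lit 176) (nat_lit 156) (nat_lit 178)) (PT.lf (nat_lit 1292) (nat_lit 3) (nat_lit 17) (nat_lit 1) (nat_lit 177) (nat_lit 156) (nat_lit 177))))))) (PT.nd (nat_lit 318396) (PT.nd (nat_lit 159198) (PT.nd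 (nat_lit 106002) (PT.nd (nat_lit 52962) (PT.lf (nat_lit 1216) (nat_lit 6) (nat_lit 16) (nat_lit 1) (nat_lit 178) (nat_lit 156) (nat_lit 176)) (PT.nd (nat_lit 78) (PT.lf (nat_lit 1368) (nat_lit 6) (nat_lit 18) (nat_lit 3) (nat_lit 176) (nat_lit 157) (nat_lit 177)) (PT.lf (nat_lit 1368) (nat_lit 6) (nat_lit 18) (nat_lit 1) (nat_lit 177) (nat_lit 157) (nat_lit 176)))) (PT.nd (nat_lit 156) (PT.nd (nat_lit 78) (PT.lf (nat_lit 1444) (nat_lit 6) (nat_lit 19) (nat_lit 3) (nat_lit 175) (nat_lit 158) (nat_lit 177)) (PT.lf (nat_lit 1520) (nat_lit 3) (nat_lit 20) (nat_lit 1) (nat_lit 176) (nat_lit 158) (nat_lit 176))) (PT.nd (nat_lit 52962) (PT.lf (nat_lit 1444) (nat_lit 6) (nat_lit 19) (nat_lit 1) (nat_lit 177) (nat_lit 158) (nat_lit 175)) (PT.lf (nat_lit 1596) (nat_lit 6) (nat_lit 21) (nat_lit 3) (nat_lit 175) (nat_lit 159) (nat_lit 176))))) (PT.nd (nat_lit 53118) (PT.nd (nat_lit 52962) (PT.lf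 (nat_lit 1596) (nat_lit 6) (nat_lit 21) (nat_lit 1) (nat_lit 176) (nat_lit 159) (nat_lit 175)) (PT.nd (nat_lit 78) (PT.lf (nat_lit 1672) (nat_lit 6) (nat_lit 22) (nat_lit 3) (nat_lit 174) (nat_lit 160) (nat_lit 176)) (PT.lf (nat_lit 1748) (nat_lit 3) (nat_lit 23) (nat_lit 1) (nat_lit 175) (nat_lit 160) (nat_lit 175)))) (PT.nd (nat_lit 53040) (PT.nd (nat_lit 52962) (PT.lf (nat_lit 1672) (nat_lit 6) (nat_lit 22) (nat_lit 1) (nat_lit 176) (nat_lit 160) (nat_lit 174)) (PT.lf (nat_lit 1824) (nat_lit 6) (nat_lit 24) (nat_lit 3) (nat_lit 174) (nat_lit 161) (nat_lit 175))) (PT.nd (nat_lit 52962) (PT.lf (nat_lit 1824) (nat_lit 6) (nat_lit 24) (nat_lit 1) (nat_lit 175) (nat_lit 161) (nat_lit 174)) (PT.lf (nat_lit 1900) (nat_lit 6) (nat_lit 25) (nat_lit 3) (nat_lit 173) (nat_lit 162) (nat_lit 175)))))) (PT.nd (nat_lit 106158) (PT.nd (nat_lit 53040) (PT.nd (nat_lit 78) (PT.lf (nat_lit 1976) (nat_lit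 3) (nat_lit 26) (nat_lit 1) (nat_lit 174) (nat_lit 162) (nat_lit 174)) (PT.nd (nat_lit 52884) (PT.lf (nat_lit 1900) (nat_lit 6) (nat_lit 25) (nat_lit 1) (nat_lit 175) (nat_lit 162) (nat_lit 173)) (PT.lf (nat_lit 2052) (nat_lit 6) (nat_lit 27) (nat_lit 3) (nat_lit 172) (nat_lit 163) (nat_lit 175)))) (PT.nd (nat_lit 156) (PT.nd (nat_lit 78) (PT.lf (nat_lit 2128) (nat_lit 6) (nat_lit 28) (nat_lit 3) (nat_lit 173) (nat_lit 163) (nat_lit 174)) (PT.lf (nat_lit 2128) (nat_lit 6) (nat_lit 28) (nat_lit 1) (nat_lit 174) (nat_lit 163) (nat_lit 173))) (PT.nd (nat_lit 52884) (PT.lf (nat_lit 2052) (nat_lit 6) (nat_lit 27) (nat_lit 1) (nat_lit 175) (nat_lit 163) (nat_lit 172)) (PT.lf (nat_lit 2204) (nat_lit 6) (nat_lit 29) (nat_lit 3) (nat_lit 172) (nat_lit 164) (nat_lit 174))))) (PT.nd (nat_lit 53040) (PT.nd (nat_lit 78) (PT.lf (nat_lit 2280) (nat_lit 3) (nat_lit 30) (nat_lit 1) (nat_lit 173) (nat_lit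 164) (nat_lit 173)) (PT.nd (nat_lit 52884) (PT.lf (nat_lit 2204) (nat_lit 6) (nat_lit 29) (nat_lit 1) (nat_lit 174) (nat_lit 164) (nat_lit 172)) (PT.lf (nat_lit 2356) (nat_lit 6) (nat_lit 31) (nat_lit 3) (nat_lit 171) (nat_lit 165) (nat_lit 174)))) (PT.nd (nat_lit 156) (PT.nd (nat_lit 78) (PT.lf (nat_lit 2432) (nat_lit 6) (nat_lit 32) (nat_lit 3) (nat_lit 172) (nat_lit 165) (nat_lit 173)) (PT.lf (nat_lit 2432) (nat_lit 6) (nat_lit 32) (nat_lit 1) (nat_lit 173) (nat_lit 165) (nat_lit 172))) (PT.nd (nat_lit 52806) (PT.lf (nat_lit 2356) (nat_lit 6) (nat_lit 31) (nat_lit 1) (nat_lit 174) (nat_lit 165) (nat_lit 171)) (PT.lf (nat_lit 2660) (nat_lit 6) (nat_lit 35) (nat_lit 3) (nat_lit 170) (nat_lit 166) (nat_lit 174))))))))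
noncomputable def pc1 : PT := (PT.nd (nat_lit 212316) (PT.nd (nat_lit 106314) (PT.nd (nat_lit 53196) (PT.nd (nat_lit 234) (PT.nd (nat_lit 78) (PT.lf (nat_lit 2736) (nat_lit 6) (nat_lit 36) (nat_lit 3) (nat_lit 171) (nat_lit 166) (nat_lit 173)) (PT.nd (nat_lit 78) (PT.lf (nat_lit 2812) (nat_lit 3) (nat_lit 37) (nat_lit 1) (nat_lit 172) (nat_lit 166) (nat_lit 172)) (PT.lf (nat_lit 2736) (nat_lit 6) (nat_lit 36) (nat_lit 1) (nat_lit 173) (nat_lit 166) (nat_lit 171)))) (PT.nd (nat_lit 52806) (PT.nd (nat_lit 52728) (PT.lf (nat_lit 2660) (nat_lit 6) (nat_lit 35) (nat_lit 1) (nat_lit 174) (nat_lit 166) (nat_lit 170)) (PT.lf (nat_lit 2584) (nat_lit 6) (nat_lit 34) (nat_lit 3) (nat_lit 169) (nat_lit 167) (nat_lit 174))) (PT.nd (nat_lit 78) (PT.lf (nat_lit 2964) (nat_lit 6) (nat_lit 39) (nat_lit 3) (nat_lit 170) (nat_lit 167) (nat_lit 173)) (PT.lf (nat_lit 3040) (nat_lit 6) (nat_lit 40) (nat_lit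 3) (nat_lit 171) (nat_lit 167) (nat_lit 172))))) (PT.nd (nat_lit 52806) (PT.nd (nat_lit 78) (PT.lf (nat_lit 3040) (nat_lit 6) (nat_lit 40) (nat_lit 1) (nat_lit 172) (nat_lit 167) (nat_lit 171)) (PT.nd (nat_lit 78) (PT.lf (nat_lit 2964) (nat_lit 6) (nat_lit 39) (nat_lit 1) (nat_lit 173) (nat_lit 167) (nat_lit 170)) (PT.lf (nat_lit 2584) (nat_lit 6) (nat_lit 34) (nat_lit 1) (nat_lit 174) (nat_lit 167) (nat_lit 169)))) (PT.nd (nat_lit 156) (PT.nd (nat_lit 78) (PT.lf (nat_lit 2508) (nat_lit 3) (nat_lit 33) (nat_lit 3) (nat_lit 168) (nat_lit 168) (nat_lit 174)) (PT.lf (nat_lit 2888) (nat_lit 6) (nat_lit 38) (nat_lit 3) (nat_lit 169) (nat_lit 168) (nat_lit 173))) (PT.nd (nat_lit 78) (PT.lf (nat_lit 3192) (nat_lit 6) (nat_lit 42) (nat_lit 3) (nat_lit 170) (nat_lit 168) (nat_lit 172)) (PT.lf (nat_lit 3268) (nat_lit 3) (nat_lit 43) (nat_lit 1) (nat_lit 171) (nat_lit 168) (nat_lit 171)))))) (PT.nd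 (nat_lit 53040) (PT.nd (nat_lit 52728) (PT.nd (nat_lit 78) (PT.lf (nat_lit 3192) (nat_lit 6) (nat_lit 42) (nat_lit 1) (nat_lit 172) (nat_lit 168) (nat_lit 170)) (PT.nd (nat_lit 78) (PT.lf (nat_lit 2888) (nat_lit 6) (nat_lit 38) (nat_lit 1) (nat_lit 173) (nat_lit 168) (nat_lit 169)) (PT.lf (nat_lit 2508) (nat_lit 3) (nat_lit 33) (nat_lit 0) (nat_lit 174) (nat_lit 168) (nat_lit 168)))) (PT.nd (nat_lit 156) (PT.nd (nat_lit 78) (PT.lf (nat_lit 2584) (nat_lit 6) (nat_lit 34) (nat_lit 5) (nat_lit 167) (nat_lit 169) (nat_lit 174)) (PT.lf (nat_lit 2888) (nat_lit 6) (nat_lit 38) (nat_lit 5) (nat_lit 168) (nat_lit 169) (nat_lit 173))) (PT.nd (nat_lit 78) (PT.lf (nat_lit 3116) (nat_lit 3) (nat_lit 41) (nat_lit 3) (nat_lit 169) (nat_lit 169) (nat_lit 172)) (PT.lf (nat_lit 3344) (nat_lit 6) (nat_lit 44) (nat_lit 3) (nat_lit 170) (nat_lit 169) (nat_lit 171))))) (PT.nd (nat_lit 234) (PT.nd (nat_lit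 78) (PT.lf (nat_lit 3344) (nat_lit 6) (nat_lit 44) (nat_lit 1) (nat_lit 171) (nat_lit 169) (nat_lit 170)) (PT.nd (nat_lit 78) (PT.lf (nat_lit 3116) (nat_lit 3) (nat_lit 41) (nat_lit 0) (nat_lit 172) (nat_lit 169) (nat_lit 169)) (PT.lf (nat_lit 2888) (nat_lit 6) (nat_lit 38) (nat_lit 0) (nat_lit 173) (nat_lit 169) (nat_lit 168)))) (PT.nd (nat_lit 52572) (PT.nd (nat_lit 52494) (PT.lf (nat_lit 2584) (nat_lit 6) (nat_lit 34) (nat_lit 0) (nat_lit 174) (nat_lit 169) (nat_lit 167)) (PT.lf (nat_lit 2660) (nat_lit 6) (nat_lit 35) (nat_lit 5) (nat_lit 166) (nat_lit 170) (nat_lit 174))) (PT.nd (nat_lit 78) (PT.lf (nat_lit 2964) (nat_lit 6) (nat_lit 39) (nat_lit 5) (nat_lit 167) (nat_lit 170) (nat_lit 173)) (PT.lf (nat_lit 3192) (nat_lit 6) (nat_lit 42) (nat_lit 5) (nat_lit 168) (nat_lit 170) (nat_lit 172))))))) (PT.nd (nat_lit 53430) (PT.nd (nat_lit 52884) (PT.nd (nat_lit 234) (PT.nd (nat_lit 78)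 (PT.lf (nat_lit 3344) (nat_lit 6) (nat_lit 44) (nat_lit 5) (nat_lit 169) (nat_lit 170) (nat_lit 171)) (PT.nd (nat_lit 78) (PT.lf (nat_lit 3420) (nat_lit 1) (nat_lit 45) (nat_lit 0) (nat_lit 170) (nat_lit 170) (nat_lit 170)) (PT.lf (nat_lit 3344) (nat_lit 6) (nat_lit 44) (nat_lit 0) (nat_lit 171) (nat_lit 170) (nat_lit 169)))) (PT.nd (nat_lit 156) (PT.nd (nat_lit 78) (PT.lf (nat_lit 3192) (nat_lit 6) (nat_lit 42) (nat_lit 0) (nat_lit 172) (nat_lit 170) (nat_lit 168)) (PT.lf (nat_lit 2964) (nat_lit 6) (nat_lit 39) (nat_lit 0) (nat_lit 173) (nat_lit 170) (nat_lit 167))) (PT.nd (nat_lit 52416) (PT.lf (nat_lit 2660) (nat_lit 6) (nat_lit 35) (nat_lit 0) (nat_lit 174) (nat_lit 170) (nat_lit 166)) (PT.lf (nat_lit 2356) (nat_lit 6) (nat_lit 31) (nat_lit 5) (nat_lit 165) (nat_lit 171) (nat_lit 174))))) (PT.nd (nat_lit 234) (PT.nd (nat_lit 78) (PT.lf (nat_lit 2736) (nat_lit 6) (nat_lit 36) (nat_lit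 5) (nat_lit 166) (nat_lit 171) (nat_lit 173)) (PT.nd (nat_lit 78) (PT.lf (nat_lit 3040) (nat_lit 6) (nat_lit 40) (nat_lit 5) (nat_lit 167) (nat_lit 171) (nat_lit 172)) (PT.lf (nat_lit 3268) (nat_lit 3) (nat_lit 43) (nat_lit 4) (nat_lit 168) (nat_lit 171) (nat_lit 171)))) (PT.nd (nat_lit 156) (PT.nd (nat_lit 78) (PT.lf (nat_lit 3344) (nat_lit 6) (nat_lit 44) (nat_lit 4) (nat_lit 169) (nat_lit 171) (nat_lit 170)) (PT.lf (nat_lit 3344) (nat_lit 6) (nat_lit 44) (nat_lit 2) (nat_lit 170) (nat_lit 171) (nat_lit 169))) (PT.nd (nat_lit 78) (PT.lf (nat_lit 3268) (nat_lit 3) (nat_lit 43) (nat_lit 0) (nat_lit 171) (nat_lit 171) (nat_lit 168)) (PT.lf (nat_lit 3040) (nat_lit 6) (nat_lit 40) (nat_lit 0) (nat_lit 172) (nat_lit 171) (nat_lit 167)))))) (PT.nd (nat_lit 52728) (PT.nd (nat_lit 52416) (PT.nd (nat_lit 78) (PT.lf (nat_lit 2736) (nat_lit 6) (nat_lit 36) (nat_lit 0) (nat_lit 173) (nat_lit 171)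 (nat_lit 166)) (PT.nd (nat_lit 52260) (PT.lf (nat_lit 2356) (nat_lit 6) (nat_lit 31) (nat_lit 0) (nat_lit 174) (nat_lit 171) (nat_lit 165)) (PT.lf (nat_lit 2052) (nat_lit 6) (nat_lit 27) (nat_lit 5) (nat_lit 163) (nat_lit 172) (nat_lit 175)))) (PT.nd (nat_lit 156) (PT.nd (nat_lit 78) (PT.lf (nat_lit 2204) (nat_lit 6) (nat_lit 29) (nat_lit 5) (nat_lit 164) (nat_lit 172) (nat_lit 174)) (PT.lf (nat_lit 2432) (nat_lit 6) (nat_lit 32) (nat_lit 5) (nat_lit 165) (nat_lit 172) (nat_lit 173))) (PT.nd (nat_lit 78) (PT.lf (nat_lit 2812) (nat_lit 3) (nat_lit 37) (nat_lit 4) (nat_lit 166) (nat_lit 172) (nat_lit 172)) (PT.lf (nat_lit 3040) (nat_lit 6) (nat_lit 40) (nat_lit 4) (nat_lit 167) (nat_lit 172) (nat_lit 171))))) (PT.nd (nat_lit 234) (PT.nd (nat_lit 78) (PT.lf (nat_lit 3192) (nat_lit 6) (nat_lit 42) (nat_lit 4) (nat_lit 168) (nat_lit 172) (nat_lit 170)) (PT.nd (nat_lit 78) (PT.lf (nat_lit 3116)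 (nat_lit 3) (nat_lit 41) (nat_lit 2) (nat_lit 169) (nat_lit 172) (nat_lit 169)) (PT.lf (nat_lit 3192) (nat_lit 6) (nat_lit 42) (nat_lit 2) (nat_lit 170) (nat_lit 172) (nat_lit 168)))) (PT.nd (nat_lit 156) (PT.nd (nat_lit 78) (PT.lf (nat_lit 3040) (nat_lit 6) (nat_lit 40) (nat_lit 2) (nat_lit 171) (nat_lit 172) (nat_lit 167)) (PT.lf (nat_lit 2812) (nat_lit 3) (nat_lit 37) (nat_lit 0) (nat_lit 172) (nat_lit 172) (nat_lit 166))) (PT.nd (nat_lit 78) (PT.lf (nat_lit 2432) (nat_lit 6) (nat_lit 32) (nat_lit 0) (nat_lit 173) (nat_lit 172) (nat_lit 165)) (PT.lf (nat_lit 2204) (nat_lit 6) (nat_lit 29) (nat_lit 0) (nat_lit 174) (nat_lit 172) (nat_lit 164))))))))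
noncomputable def pc2 : PT := (PT.nd (nat_lit 106080) (PT.nd (nat_lit 53118) (PT.nd (nat_lit 52572) (PT.nd (nat_lit 52260) (PT.nd (nat_lit 52104) (PT.lf (nat_lit 2052) (nat_lit 6) (nat_lit 27) (nat_lit 0) (nat_lit 175) (nat_lit 172) (nat_lit 163)) (PT.nd (nat_lit 78) (PT.lf (nat_lit 1900) (nat_lit 6) (nat_lit 25) (nat_lit 5) (nat_lit 162) (nat_lit 173) (nat_lit 175)) (PT.lf (nat_lit 2128) (nat_lit 6) (nat_lit 28) (nat_lit 5) (nat_lit 163) (nat_lit 173) (nat_lit 174)))) (PT.nd (nat_lit 156) (PT.nd (nat_lit 78) (PT.lf (nat_lit 2280) (nat_lit 3) (nat_lit 30) (nat_lit 4) (nat_lit 164) (nat_lit 173) (nat_lit 173)) (PT.lf (nat_lit 2432) (nat_lit 6) (nat_lit 32) (nat_lit 4) (nat_lit 165) (nat_lit 173) (nat_lit 172))) (PT.nd (nat_lit 78) (PT.lf (nat_lit 2736) (nat_lit 6) (nat_lit 36) (nat_lit 4) (nat_lit 166) (nat_lit 173) (nat_lit 171)) (PT.lf (nat_lit 2964) (nat_lit 6) (nat_lit 39) (nat_lit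 4) (nat_lit 167) (nat_lit 173) (nat_lit 170))))) (PT.nd (nat_lit 234) (PT.nd (nat_lit 78) (PT.lf (nat_lit 2888) (nat_lit 6) (nat_lit 38) (nat_lit 4) (nat_lit 168) (nat_lit 173) (nat_lit 169)) (PT.nd (nat_lit 78) (PT.lf (nat_lit 2888) (nat_lit 6) (nat_lit 38) (nat_lit 2) (nat_lit 169) (nat_lit 173) (nat_lit 168)) (PT.lf (nat_lit 2964) (nat_lit 6) (nat_lit 39) (nat_lit 2) (nat_lit 170) (nat_lit 173) (nat_lit 167)))) (PT.nd (nat_lit 156) (PT.nd (nat_lit 78) (PT.lf (nat_lit 2736) (nat_lit 6) (nat_lit 36) (nat_lit 2) (nat_lit 171) (nat_lit 173) (nat_lit 166)) (PT.lf (nat_lit 2432) (nat_lit 6) (nat_lit 32) (nat_lit 2) (nat_lit 172) (nat_lit 173) (nat_lit 165))) (PT.nd (nat_lit 78) (PT.lf (nat_lit 2280) (nat_lit 3) (nat_lit 30) (nat_lit 0) (nat_lit 173) (nat_lit 173) (nat_lit 164)) (PT.lf (nat_lit 2128) (nat_lit 6) (nat_lit 28) (nat_lit 0) (nat_lit 174) (nat_lit 173) (nat_lit 163)))))) (PT.nd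 (nat_lit 52416) (PT.nd (nat_lit 52104) (PT.nd (nat_lit 51948) (PT.lf (nat_lit 1900) (nat_lit 6) (nat_lit 25) (nat_lit 0) (nat_lit 175) (nat_lit 173) (nat_lit 162)) (PT.nd (nat_lit 78) (PT.lf (nat_lit 1672) (nat_lit 6) (nat_lit 22) (nat_lit 5) (nat_lit 160) (nat_lit 174) (nat_lit 176)) (PT.lf (nat_lit 1824) (nat_lit 6) (nat_lit 24) (nat_lit 5) (nat_lit 161) (nat_lit 174) (nat_lit 175)))) (PT.nd (nat_lit 156) (PT.nd (nat_lit 78) (PT.lf (nat_lit 1976) (nat_lit 3) (nat_lit 26) (nat_lit 4) (nat_lit 162) (nat_lit 174) (nat_lit 174)) (PT.lf (nat_lit 2128) (nat_lit 6) (nat_lit 28) (nat_lit 4) (nat_lit 163) (nat_lit 174) (nat_lit 173))) (PT.nd (nat_lit 78) (PT.lf (nat_lit 2204) (nat_lit 6) (nat_lit 29) (nat_lit 4) (nat_lit 164) (nat_lit 174) (nat_lit 172)) (PT.lf (nat_lit 2356) (nat_lit 6) (nat_lit 31) (nat_lit 4) (nat_lit 165) (nat_lit 174) (nat_lit 171))))) (PT.nd (nat_lit 234) (PT.nd (nat_lit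 78) (PT.lf (nat_lit 2660) (nat_lit 6) (nat_lit 35) (nat_lit 4) (nat_lit 166) (nat_lit 174) (nat_lit 170)) (PT.nd (nat_lit 78) (PT.lf (nat_lit 2584) (nat_lit 6) (nat_lit 34) (nat_lit 4) (nat_lit 167) (nat_lit 174) (nat_lit 169)) (PT.lf (nat_lit 2508) (nat_lit 3) (nat_lit 33) (nat_lit 2) (nat_lit 168) (nat_lit 174) (nat_lit 168)))) (PT.nd (nat_lit 156) (PT.nd (nat_lit 78) (PT.lf (nat_lit 2584) (nat_lit 6) (nat_lit 34) (nat_lit 2) (nat_lit 169) (nat_lit 174) (nat_lit 167)) (PT.lf (nat_lit 2660) (nat_lit 6) (nat_lit 35) (nat_lit 2) (nat_lit 170) (nat_lit 174) (nat_lit 166))) (PT.nd (nat_lit 78) (PT.lf (nat_lit 2356) (nat_lit 6) (nat_lit 31) (nat_lit 2) (nat_lit 171) (nat_lit 174) (nat_lit 165)) (PT.lf (nat_lit 2204) (nat_lit 6) (nat_lit 29) (nat_lit 2) (nat_lit 172) (nat_lit 174) (nat_lit 164))))))) (PT.nd (nat_lit 53352) (PT.nd (nat_lit 52182) (PT.nd (nat_lit 234) (PT.nd (nat_lit 78) (PT.lf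 (nat_lit 2128) (nat_lit 6) (nat_lit 28) (nat_lit 2) (nat_lit 173) (nat_lit 174) (nat_lit 163)) (PT.nd (nat_lit 78) (PT.lf (nat_lit 1976) (nat_lit 3) (nat_lit 26) (nat_lit 0) (nat_lit 174) (nat_lit 174) (nat_lit 162)) (PT.lf (nat_lit 1824) (nat_lit 6) (nat_lit 24) (nat_lit 0) (nat_lit 175) (nat_lit 174) (nat_lit 161)))) (PT.nd (nat_lit 51792) (PT.nd (nat_lit 51714) (PT.lf (nat_lit 1672) (nat_lit 6) (nat_lit 22) (nat_lit 0) (nat_lit 176) (nat_lit 174) (nat_lit 160)) (PT.lf (nat_lit 1444) (nat_lit 6) (nat_lit 19) (nat_lit 5) (nat_lit 158) (nat_lit 175) (nat_lit 177))) (PT.nd (nat_lit 78) (PT.lf (nat_lit 1596) (nat_lit 6) (nat_lit 21) (nat_lit 5) (nat_lit 159) (nat_lit 175) (nat_lit 176)) (PT.lf (nat_lit 1748) (nat_lit 3) (nat_lit 23) (nat_lit 4) (nat_lit 160) (nat_lit 175) (nat_lit 175))))) (PT.nd (nat_lit 858) (PT.nd (nat_lit 78) (PT.lf (nat_lit 1824) (nat_lit 6) (nat_lit 24) (nat_lit 4)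 (nat_lit 161) (nat_lit 175) (nat_lit 174)) (PT.nd (nat_lit 78) (PT.lf (nat_lit 1900) (nat_lit 6) (nat_lit 25) (nat_lit 4) (nat_lit 162) (nat_lit 175) (nat_lit 173)) (PT.lf (nat_lit 2052) (nat_lit 6) (nat_lit 27) (nat_lit 4) (nat_lit 163) (nat_lit 175) (nat_lit 172)))) (PT.nd (nat_lit 156) (PT.nd (nat_lit 78) (PT.lf (nat_lit 2052) (nat_lit 6) (nat_lit 27) (nat_lit 2) (nat_lit 172) (nat_lit 175) (nat_lit 163)) (PT.lf (nat_lit 1900) (nat_lit 6) (nat_lit 25) (nat_lit 2) (nat_lit 173) (nat_lit 175) (nat_lit 162))) (PT.nd (nat_lit 78) (PT.lf (nat_lit 1824) (nat_lit 6) (nat_lit 24) (nat_lit 2) (nat_lit 174) (nat_lit 175) (nat_lit 161)) (PT.lf (nat_lit 1748) (nat_lit 3) (nat_lit 23) (nat_lit 0) (nat_lit 175) (nat_lit 175) (nat_lit 160)))))) (PT.nd (nat_lit 52962) (PT.nd (nat_lit 51636) (PT.nd (nat_lit 78) (PT.lf (nat_lit 1596) (nat_lit 6) (nat_lit 21) (nat_lit 0) (nat_lit 176) (nat_lit 175) (nat_lit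 159)) (PT.nd (nat_lit 51480) (PT.lf (nat_lit 1444) (nat_lit 6) (nat_lit 19) (nat_lit 0) (nat_lit 177) (nat_lit 175) (nat_lit 158)) (PT.lf (nat_lit 1216) (nat_lit 6) (nat_lit 16) (nat_lit 5) (nat_lit 156) (nat_lit 176) (nat_lit 178)))) (PT.nd (nat_lit 156) (PT.nd (nat_lit 78) (PT.lf (nat_lit 1368) (nat_lit 6) (nat_lit 18) (nat_lit 5) (nat_lit 157) (nat_lit 176) (nat_lit 177)) (PT.lf (nat_lit 1520) (nat_lit 3) (nat_lit 20) (nat_lit 4) (nat_lit 158) (nat_lit 176) (nat_lit 176))) (PT.nd (nat_lit 78) (PT.lf (nat_lit 1596) (nat_lit 6) (nat_lit 21) (nat_lit 4) (nat_lit 159) (nat_lit 176) (nat_lit 175)) (PT.lf (nat_lit 1672) (nat_lit 6) (nat_lit 22) (nat_lit 4) (nat_lit 160) (nat_lit 176) (nat_lit 174))))) (PT.nd (nat_lit 234) (PT.nd (nat_lit 78) (PT.lf (nat_lit 1672) (nat_lit 6) (nat_lit 22) (nat_lit 2) (nat_lit 174) (nat_lit 176) (nat_lit 160)) (PT.nd (nat_lit 78) (PT.lf (nat_lit 1596) (nat_lit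 6) (nat_lit 21) (nat_lit 2) (nat_lit 175) (nat_lit 176) (nat_lit 159)) (PT.lf (nat_lit 1520) (nat_lit 3) (nat_lit 20) (nat_lit 0) (nat_lit 176) (nat_lit 176) (nat_lit 158)))) (PT.nd (nat_lit 51324) (PT.nd (nat_lit 78) (PT.lf (nat_lit 1368) (nat_lit 6) (nat_lit 18) (nat_lit 0) (nat_lit 177) (nat_lit 176) (nat_lit 157)) (PT.lf (nat_lit 1216) (nat_lit 6) (nat_lit 16) (nat_lit 0) (nat_lit 178) (nat_lit 176) (nat_lit 156))) (PT.nd (nat_lit 78) (PT.lf (nat_lit 988) (nat_lit 6) (nat_lit 13) (nat_lit 5) (nat_lit 154) (nat_lit 177) (nat_lit 179)) (PT.lf (nat_lit 1140) (nat_lit 6) (nat_lit 15) (nat_lit 5) (nat_lit 155) (nat_lit 177) (nat_lit 178))))))))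
noncomputable def pc3 : PT := (PT.nd (nat_lit 158730) (PT.nd (nat_lit 54756) (PT.nd (nat_lit 1794) (PT.nd (nat_lit 1482) (PT.nd (nat_lit 78) (PT.lf (nat_lit 1292) (nat_lit 3) (nat_lit 17) (nat_lit 4) (nat_lit 156) (nat_lit 177) (nat_lit 177)) (PT.nd (nat_lit 78) (PT.lf (nat_lit 1368) (nat_lit 6) (nat_lit 18) (nat_lit 4) (nat_lit 157) (nat_lit 177) (nat_lit 176)) (PT.lf (nat_lit 1444) (nat_lit 6) (nat_lit 19) (nat_lit 4) (nat_lit 158) (nat_lit 177) (nat_lit 175)))) (PT.nd (nat_lit 156) (PT.nd (nat_lit 78) (PT.lf (nat_lit 1444) (nat_lit 6) (nat_lit 19) (nat_lit 2) (nat_lit 175) (nat_lit 177) (nat_lit 158)) (PT.lf (nat_lit 1368) (nat_lit 6) (nat_lit 18) (nat_lit 2) (nat_lit 176) (nat_lit 177) (nat_lit 157))) (PT.nd (nat_lit 78) (PT.lf (nat_lit 1292) (nat_lit 3) (nat_lit 17) (nat_lit 0) (nat_lit 177) (nat_lit 177) (nat_lit 156)) (PT.lf (nat_lit 1140) (nat_lit 6) (nat_lit 15) (nat_lit 0) (nat_lit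 178) (nat_lit 177) (nat_lit 155))))) (PT.nd (nat_lit 51168) (PT.nd (nat_lit 51012) (PT.lf (nat_lit 988) (nat_lit 6) (nat_lit 13) (nat_lit 0) (nat_lit 179) (nat_lit 177) (nat_lit 154)) (PT.nd (nat_lit 78) (PT.lf (nat_lit 760) (nat_lit 6) (nat_lit 10) (nat_lit 5) (nat_lit 152) (nat_lit 178) (nat_lit 180)) (PT.lf (nat_lit 912) (nat_lit 6) (nat_lit 12) (nat_lit 5) (nat_lit 153) (nat_lit 178) (nat_lit 179)))) (PT.nd (nat_lit 156) (PT.nd (nat_lit 78) (PT.lf (nat_lit 1064) (nat_lit 3) (nat_lit 14) (nat_lit 4) (nat_lit 154) (nat_lit 178) (nat_lit 178)) (PT.lf (nat_lit 1140) (nat_lit 6) (nat_lit 15) (nat_lit 4) (nat_lit 155) (nat_lit 178) (nat_lit 177))) (PT.nd (nat_lit 1560) (PT.lf (nat_lit 1216) (nat_lit 6) (nat_lit 16) (nat_lit 4) (nat_lit 156) (nat_lit 178) (nat_lit 176)) (PT.lf (nat_lit 1216) (nat_lit 6) (nat_lit 16) (nat_lit 2) (nat_lit 176) (nat_lit 178) (nat_lit 156)))))) (PT.nd (nat_lit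 51246) (PT.nd (nat_lit 234) (PT.nd (nat_lit 78) (PT.lf (nat_lit 1140) (nat_lit 6) (nat_lit 15) (nat_lit 2) (nat_lit 177) (nat_lit 178) (nat_lit 155)) (PT.nd (nat_lit 78) (PT.lf (nat_lit 1064) (nat_lit 3) (nat_lit 14) (nat_lit 0) (nat_lit 178) (nat_lit 178) (nat_lit 154)) (PT.lf (nat_lit 912) (nat_lit 6) (nat_lit 12) (nat_lit 0) (nat_lit 179) (nat_lit 178) (nat_lit 153)))) (PT.nd (nat_lit 50856) (PT.nd (nat_lit 50778) (PT.lf (nat_lit 760) (nat_lit 6) (nat_lit 10) (nat_lit 0) (nat_lit 180) (nat_lit 178) (nat_lit 152)) (PT.lf (nat_lit 532) (nat_lit 6) (nat_lit 7) (nat_lit 5) (nat_lit 150) (nat_lit 179) (nat_lit 181))) (PT.nd (nat_lit 78) (PT.lf (nat_lit 684) (nat_lit 6) (nat_lit 9) (nat_lit 5) (nat_lit 151) (nat_lit 179) (nat_lit 180)) (PT.lf (nat_lit 836) (nat_lit 3) (nat_lit 11) (nat_lit 4) (nat_lit 152) (nat_lit 179) (nat_lit 179))))) (PT.nd (nat_lit 1950) (PT.nd (nat_lit 78) (PT.lf (nat_lit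 912) (nat_lit 6) (nat_lit 12) (nat_lit 4) (nat_lit 153) (nat_lit 179) (nat_lit 178)) (PT.nd (nat_lit 1794) (PT.lf (nat_lit 988) (nat_lit 6) (nat_lit 13) (nat_lit 4) (nat_lit 154) (nat_lit 179) (nat_lit 177)) (PT.lf (nat_lit 988) (nat_lit 6) (nat_lit 13) (nat_lit 2) (nat_lit 177) (nat_lit 179) (nat_lit 154)))) (PT.nd (nat_lit 156) (PT.nd (nat_lit 78) (PT.lf (nat_lit 912) (nat_lit 6) (nat_lit 12) (nat_lit 2) (nat_lit 178) (nat_lit 179) (nat_lit 153)) (PT.lf (nat_lit 836) (nat_lit 3) (nat_lit 11) (nat_lit 0) (nat_lit 179) (nat_lit 179) (nat_lit 152))) (PT.nd (nat_lit 78) (PT.lf (nat_lit 684) (nat_lit 6) (nat_lit 9) (nat_lit 0) (nat_lit 180) (nat_lit 179) (nat_lit 151)) (PT.lf (nat_lit 532) (nat_lit 6) (nat_lit 7) (nat_lit 0) (nat_lit 181) (nat_lit 179) (nat_lit 150))))))) (PT.nd (nat_lit 55536) (PT.nd (nat_lit 2496) (PT.nd (nat_lit 234) (PT.nd (nat_lit 78) (PT.lf (nat_lit 304) (nat_lit 6)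 (nat_lit 4) (nat_lit 5) (nat_lit 148) (nat_lit 180) (nat_lit 182)) (PT.nd (nat_lit 78) (PT.lf (nat_lit 456) (nat_lit 6) (nat_lit 6) (nat_lit 5) (nat_lit 149) (nat_lit 180) (nat_lit 181)) (PT.lf (nat_lit 608) (nat_lit 3) (nat_lit 8) (nat_lit 4) (nat_lit 150) (nat_lit 180) (nat_lit 180)))) (PT.nd (nat_lit 2106) (PT.nd (nat_lit 78) (PT.lf (nat_lit 684) (nat_lit 6) (nat_lit 9) (nat_lit 4) (nat_lit 151) (nat_lit 180) (nat_lit 179)) (PT.lf (nat_lit 760) (nat_lit 6) (nat_lit 10) (nat_lit 4) (nat_lit 152) (nat_lit 180) (nat_lit 178))) (PT.nd (nat_lit 78) (PT.lf (nat_lit 760) (nat_lit 6) (nat_lit 10) (nat_lit 2) (nat_lit 178) (nat_lit 180) (nat_lit 152)) (PT.lf (nat_lit 684) (nat_lit 6) (nat_lit 9) (nat_lit 2) (nat_lit 179) (nat_lit 180) (nat_lit 151))))) (PT.nd (nat_lit 50544) (PT.nd (nat_lit 78) (PT.lf (nat_lit 608) (nat_lit 3) (nat_lit 8) (nat_lit 0) (nat_lit 180) (nat_lit 180) (nat_lit 150))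 (PT.nd (nat_lit 78) (PT.lf (nat_lit 456) (nat_lit 6) (nat_lit 6) (nat_lit 0) (nat_lit 181) (nat_lit 180) (nat_lit 149)) (PT.lf (nat_lit 304) (nat_lit 6) (nat_lit 4) (nat_lit 0) (nat_lit 182) (nat_lit 180) (nat_lit 148)))) (PT.nd (nat_lit 156) (PT.nd (nat_lit 78) (PT.lf (nat_lit 228) (nat_lit 6) (nat_lit 3) (nat_lit 5) (nat_lit 147) (nat_lit 181) (nat_lit 182)) (PT.lf (nat_lit 380) (nat_lit 3) (nat_lit 5) (nat_lit 4) (nat_lit 148) (nat_lit 181) (nat_lit 181))) (PT.nd (nat_lit 78) (PT.lf (nat_lit 456) (nat_lit 6) (nat_lit 6) (nat_lit 4) (nat_lit 149) (nat_lit 181) (nat_lit 180)) (PT.lf (nat_lit 532) (nat_lit 6) (nat_lit 7) (nat_lit 4) (nat_lit 150) (nat_lit 181) (nat_lit 179)))))) (PT.nd (nat_lit 50700) (PT.nd (nat_lit 234) (PT.nd (nat_lit 78) (PT.lf (nat_lit 532) (nat_lit 6) (nat_lit 7) (nat_lit 2) (nat_lit 179) (nat_lit 181) (nat_lit 150)) (PT.nd (nat_lit 78) (PT.lf (nat_lit 456) (nat_lit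 6) (nat_lit 6) (nat_lit 2) (nat_lit 180) (nat_lit 181) (nat_lit 149)) (PT.lf (nat_lit 380) (nat_lit 3) (nat_lit 5) (nat_lit 0) (nat_lit 181) (nat_lit 181) (nat_lit 148)))) (PT.nd (nat_lit 50310) (PT.nd (nat_lit 50232) (PT.lf (nat_lit 228) (nat_lit 6) (nat_lit 3) (nat_lit 0) (nat_lit 182) (nat_lit 181) (nat_lit 147)) (PT.lf (nat_lit 76) (nat_lit 6) (nat_lit 1) (nat_lit 5) (nat_lit 145) (nat_lit 182) (nat_lit 183))) (PT.nd (nat_lit 78) (PT.lf (nat_lit 152) (nat_lit 3) (nat_lit 2) (nat_lit 4) (nat_lit 146) (nat_lit 182) (nat_lit 182)) (PT.lf (nat_lit 228) (nat_lit 6) (nat_lit 3) (nat_lit 4) (nat_lit 147) (nat_lit 182) (nat_lit 181))))) (PT.nd (nat_lit 2652) (PT.nd (nat_lit 2496) (PT.lf (nat_lit 304) (nat_lit 6) (nat_lit 4) (nat_lit 4) (nat_lit 148) (nat_lit 182) (nat_lit 180)) (PT.nd (nat_lit 78) (PT.lf (nat_lit 304) (nat_lit 6) (nat_lit 4) (nat_lit 2) (nat_lit 180) (nat_lit 182) (nat_lit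 148)) (PT.lf (nat_lit 228) (nat_lit 6) (nat_lit 3) (nat_lit 2) (nat_lit 181) (nat_lit 182) (nat_lit 147)))) (PT.nd (nat_lit 50232) (PT.nd (nat_lit 78) (PT.lf (nat_lit 152) (nat_lit 3) (nat_lit 2) (nat_lit 0) (nat_lit 182) (nat_lit 182) (nat_lit 146)) (PT.lf (nat_lit 76) (nat_lit 6) (nat_lit 1) (nat_lit 0) (nat_lit 183) (nat_lit 182) (nat_lit 145))) (PT.nd (nat_lit 2886) (PT.lf (nat_lit 76) (nat_lit 6) (nat_lit 1) (nat_lit 4) (nat_lit 145) (nat_lit 183) (nat_lit 182)) (PT.lf (nat_lit 76) (nat_lit 6) (nat_lit 1) (nat_lit 2) (nat_lit 182) (nat_lit 183) (nat_lit 145))))))))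
noncomputable def xc0 : XT := (XT.nd (nat_lit 794742) (nat_lit 0) (nat_lit 0) (XT.nd (nat_lit 688740) (nat_lit 0) (nat_lit 0) (XT.nd (nat_lit 635622) (nat_lit 0) (nat_lit 0) (XT.nd (nat_lit 582582) (nat_lit 0) (nat_lit 0) (XT.nd (nat_lit 53040) (nat_lit 0) (nat_lit 0) (XT.lf (nat_lit 0) (nat_lit 1454249163804496) (nat_lit 76) (nat_lit 4502032497951570) (nat_lit 0) (nat_lit 1454249163804496) (nat_lit 1) (nat_lit 5) (nat_lit 2) (nat_lit 4) (nat_lit 1) (nat_lit 4) (nat_lit 462) (nat_lit 279) (nat_lit 279)) (XT.nd (nat_lit 476580) (nat_lit 0) (nat_lit 0) (XT.lf (nat_lit 0) (nat_lit 2529128962414025) (nat_lit 76) (nat_lit 7829621774668177) (nat_lit 0) (nat_lit 2529128962295671) (nat_lit 1) (nat_lit 5) (nat_lit 2) (nat_lit 4) (nat_lit 1) (nat_lit 4) (nat_lit 461) (nat_lit 280) (nat_lit 279)) (XT.lf (nat_lit 0) (nat_lit 88854853306080) (nat_lit 76) (nat_lit 275075820603500) (nat_lit 0) (nat_lit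 88854853306080) (nat_lit 1) (nat_lit 5) (nat_lit 2) (nat_lit 4) (nat_lit 1) (nat_lit 4) (nat_lit 442) (nat_lit 289) (nat_lit 289)))) (XT.nd (nat_lit 78) (nat_lit 0) (nat_lit 0) (XT.lf (nat_lit 0) (nat_lit 67186964153734) (nat_lit 76) (nat_lit 207996991408052) (nat_lit 0) (nat_lit 67186964153734) (nat_lit 1) (nat_lit 5) (nat_lit 2) (nat_lit 4) (nat_lit 1) (nat_lit 4) (nat_lit 440) (nat_lit 290) (nat_lit 290)) (XT.nd (nat_lit 52884) (nat_lit 0) (nat_lit 0) (XT.lf (nat_lit 0) (nat_lit 154530106375303) (nat_lit 76) (nat_lit 478392889666586) (nat_lit 0) (nat_lit 154530105896528) (nat_lit 1) (nat_lit 5) (nat_lit 2) (nat_lit 4) (nat_lit 1) (nat_lit 4) (nat_lit 441) (nat_lit 290) (nat_lit 289)) (XT.lf (nat_lit 0) (nat_lit 50802916415162) (nat_lit 76) (nat_lit 157275782247069) (nat_lit 0) (nat_lit 50802916415162) (nat_lit 1) (nat_lit 5) (nat_lit 2) (nat_lit 4) (nat_lit 1) (nat_lit 4) (nat_lit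 438) (nat_lit 291) (nat_lit 291))))) (XT.nd (nat_lit 52884) (nat_lit 0) (nat_lit 0) (XT.nd (nat_lit 78) (nat_lit 0) (nat_lit 0) (XT.lf (nat_lit 0) (nat_lit 116846809899845) (nat_lit 76) (nat_lit 361734080010533) (nat_lit 0) (nat_lit 116846809349255) (nat_lit 1) (nat_lit 5) (nat_lit 2) (nat_lit 4) (nat_lit 1) (nat_lit 4) (nat_lit 439) (nat_lit 291) (nat_lit 290)) (XT.nd (nat_lit 78) (nat_lit 0) (nat_lit 0) (XT.lf (nat_lit 0) (nat_lit 134373924795681) (nat_lit 76) (nat_lit 415993991478465) (nat_lit 0) (nat_lit 134373923766316) (nat_lit 1) (nat_lit 5) (nat_lit 2) (nat_lit 4) (nat_lit 1) (nat_lit 4) (nat_lit 440) (nat_lit 291) (nat_lit 289)) (XT.lf (nat_lit 0) (nat_lit 154530099331013) (nat_lit 76) (nat_lit 478392905861435) (nat_lit 0) (nat_lit 154530097885323) (nat_lit 1) (nat_lit 5) (nat_lit 2) (nat_lit 4) (nat_lit 1) (nat_lit 4) (nat_lit 441) (nat_lit 291) (nat_lit 288)))) (XT.nd (nat_lit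 78) (nat_lit 0) (nat_lit 0) (XT.lf (nat_lit 0) (nat_lit 38414210314766) (nat_lit 76) (nat_lit 118923287298918) (nat_lit 0) (nat_lit 38414210314766) (nat_lit 1) (nat_lit 5) (nat_lit 2) (nat_lit 4) (nat_lit 1) (nat_lit 4) (nat_lit 436) (nat_lit 292) (nat_lit 292)) (XT.nd (nat_lit 78) (nat_lit 0) (nat_lit 0) (XT.lf (nat_lit 0) (nat_lit 88352801190680) (nat_lit 76) (nat_lit 273523308756128) (nat_lit 0) (nat_lit 88352800557501) (nat_lit 1) (nat_lit 5) (nat_lit 2) (nat_lit 4) (nat_lit 1) (nat_lit 4) (nat_lit 437) (nat_lit 292) (nat_lit 291)) (XT.lf (nat_lit 0) (nat_lit 101605828791770) (nat_lit 76) (nat_lit 314551574455852) (nat_lit 0) (nat_lit 101605827608001) (nat_lit 1) (nat_lit 5) (nat_lit 2) (nat_lit 4) (nat_lit 1) (nat_lit 4) (nat_lit 438) (nat_lit 292) (nat_lit 290)))))) (XT.nd (nat_lit 53040) (nat_lit 0) (nat_lit 0) (XT.nd (nat_lit 52806) (nat_lit 0) (nat_lit 0) (XT.nd (nat_lit 78)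 (nat_lit 0) (nat_lit 0) (XT.lf (nat_lit 0) (nat_lit 116846801798913) (nat_lit 76) (nat_lit 361734098634609) (nat_lit 0) (nat_lit 116846800136369) (nat_lit 1) (nat_lit 5) (nat_lit 2) (nat_lit 4) (nat_lit 1) (nat_lit 4) (nat_lit 439) (nat_lit 292) (nat_lit 289)) (XT.nd (nat_lit 52650) (nat_lit 0) (nat_lit 0) (XT.lf (nat_lit 0) (nat_lit 134373913162247) (nat_lit 76) (nat_lit 415994017635028) (nat_lit 0) (nat_lit 134373911083377) (nat_lit 1) (nat_lit 5) (nat_lit 2) (nat_lit 4) (nat_lit 1) (nat_lit 4) (nat_lit 440) (nat_lit 292) (nat_lit 288)) (XT.lf (nat_lit 0) (nat_lit 29046554669036) (nat_lit 76) (nat_lit 89923321198889) (nat_lit 0) (nat_lit 29046554669036) (nat_lit 1) (nat_lit 5) (nat_lit 2) (nat_lit 4) (nat_lit 1) (nat_lit 4) (nat_lit 434) (nat_lit 293) (nat_lit 293)))) (XT.nd (nat_lit 78) (nat_lit 0) (nat_lit 0) (XT.lf (nat_lit 0) (nat_lit 66807210825507) (nat_lit 76) (nat_lit 206823348921356)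 (nat_lit 0) (nat_lit 66807210097351) (nat_lit 1) (nat_lit 5) (nat_lit 2) (nat_lit 4) (nat_lit 1) (nat_lit 4) (nat_lit 435) (nat_lit 293) (nat_lit 292)) (XT.nd (nat_lit 78) (nat_lit 0) (nat_lit 0) (XT.lf (nat_lit 0) (nat_lit 76828415985195) (nat_lit 76) (nat_lit 237846586053808) (nat_lit 0) (nat_lit 76828414623860) (nat_lit 1) (nat_lit 5) (nat_lit 2) (nat_lit 4) (nat_lit 1) (nat_lit 4) (nat_lit 436) (nat_lit 293) (nat_lit 291)) (XT.lf (nat_lit 0) (nat_lit 88352791874607) (nat_lit 76) (nat_lit 273523330173815) (nat_lit 0) (nat_lit 88352789962682) (nat_lit 1) (nat_lit 5) (nat_lit 2) (nat_lit 4) (nat_lit 1) (nat_lit 4) (nat_lit 437) (nat_lit 293) (nat_lit 290))))) (XT.nd (nat_lit 52728) (nat_lit 0) (nat_lit 0) (XT.nd (nat_lit 78) (nat_lit 0) (nat_lit 0) (XT.lf (nat_lit 0) (nat_lit 101605815413320) (nat_lit 76) (nat_lit 314551604535900) (nat_lit 0) (nat_lit 101605813022620) (nat_lit 1) (nat_lit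 5) (nat_lit 2) (nat_lit 4) (nat_lit 1) (nat_lit 4) (nat_lit 438) (nat_lit 293) (nat_lit 289)) (XT.nd (nat_lit 52572) (nat_lit 0) (nat_lit 0) (XT.lf (nat_lit 0) (nat_lit 116846784887961) (nat_lit 76) (nat_lit 361734136247144) (nat_lit 0) (nat_lit 116846782080935) (nat_lit 1) (nat_lit 5) (nat_lit 2) (nat_lit 4) (nat_lit 1) (nat_lit 4) (nat_lit 439) (nat_lit 293) (nat_lit 288)) (XT.lf (nat_lit 0) (nat_lit 21963245095897) (nat_lit 76) (nat_lit 67995215072585) (nat_lit 0) (nat_lit 21963245095897) (nat_lit 1) (nat_lit 5) (nat_lit 2) (nat_lit 4) (nat_lit 1) (nat_lit 4) (nat_lit 432) (nat_lit 294) (nat_lit 294)))) (XT.nd (nat_lit 78) (nat_lit 0) (nat_lit 0) (XT.lf (nat_lit 0) (nat_lit 50515619070297) (nat_lit 76) (nat_lit 156388661355443) (nat_lit 0) (nat_lit 50515618232918) (nat_lit 1) (nat_lit 5) (nat_lit 2) (nat_lit 4) (nat_lit 1) (nat_lit 4) (nat_lit 433) (nat_lit 294) (nat_lit 293)) (XT.nd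 (nat_lit 78) (nat_lit 0) (nat_lit 0) (XT.lf (nat_lit 0) (nat_lit 58093103997083) (nat_lit 76) (nat_lit 179846655572146) (nat_lit 0) (nat_lit 58093102431548) (nat_lit 1) (nat_lit 5) (nat_lit 2) (nat_lit 4) (nat_lit 1) (nat_lit 4) (nat_lit 434) (nat_lit 294) (nat_lit 292)) (XT.lf (nat_lit 0) (nat_lit 66807200112023) (nat_lit 76) (nat_lit 206823373551695) (nat_lit 0) (nat_lit 66807197913310) (nat_lit 1) (nat_lit 5) (nat_lit 2) (nat_lit 4) (nat_lit 1) (nat_lit 4) (nat_lit 435) (nat_lit 294) (nat_lit 291))))))) (XT.nd (nat_lit 105690) (nat_lit 0) (nat_lit 0) (XT.nd (nat_lit 52884) (nat_lit 0) (nat_lit 0) (XT.nd (nat_lit 52650) (nat_lit 0) (nat_lit 0) (XT.nd (nat_lit 78) (nat_lit 0) (nat_lit 0) (XT.lf (nat_lit 0) (nat_lit 76828400599977) (nat_lit 76) (nat_lit 237846620645863) (nat_lit 0) (nat_lit 76828397850673) (nat_lit 1) (nat_lit 5) (nat_lit 2) (nat_lit 4) (nat_lit 1) (nat_lit 4) (nat_lit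 436) (nat_lit 294) (nat_lit 290)) (XT.nd (nat_lit 78) (nat_lit 0) (nat_lit 0) (XT.lf (nat_lit 0) (nat_lit 88352772427012) (nat_lit 76) (nat_lit 273523373428230) (nat_lit 0) (nat_lit 88352769198934) (nat_lit 1) (nat_lit 5) (nat_lit 2) (nat_lit 4) (nat_lit 1) (nat_lit 4) (nat_lit 437) (nat_lit 294) (nat_lit 289)) (XT.lf (nat_lit 0) (nat_lit 101605792433224) (nat_lit 76) (nat_lit 314551655322802) (nat_lit 0) (nat_lit 101605788788819) (nat_lit 1) (nat_lit 5) (nat_lit 2) (nat_lit 4) (nat_lit 1) (nat_lit 4) (nat_lit 438) (nat_lit 294) (nat_lit 288)))) (XT.nd (nat_lit 78) (nat_lit 0) (nat_lit 0) (XT.lf (nat_lit 0) (nat_lit 16607226927583) (nat_lit 76) (nat_lit 51414456270232) (nat_lit 0) (nat_lit 16607226927583) (nat_lit 1) (nat_lit 5) (nat_lit 2) (nat_lit 4) (nat_lit 1) (nat_lit 4) (nat_lit 430) (nat_lit 295) (nat_lit 295)) (XT.nd (nat_lit 78) (nat_lit 0) (nat_lit 0) (XT.lf (nat_lit 0) (nat_lit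 38196800585635) (nat_lit 76) (nat_lit 118252866113304) (nat_lit 0) (nat_lit 38196799622649) (nat_lit 1) (nat_lit 5) (nat_lit 2) (nat_lit 4) (nat_lit 1) (nat_lit 4) (nat_lit 431) (nat_lit 295) (nat_lit 294)) (XT.lf (nat_lit 0) (nat_lit 43926484049658) (nat_lit 76) (nat_lit 135990445295694) (nat_lit 0) (nat_lit 43926482249292) (nat_lit 1) (nat_lit 5) (nat_lit 2) (nat_lit 4) (nat_lit 1) (nat_lit 4) (nat_lit 432) (nat_lit 295) (nat_lit 293))))) (XT.nd (nat_lit 234) (nat_lit 0) (nat_lit 0) (XT.nd (nat_lit 78) (nat_lit 0) (nat_lit 0) (XT.lf (nat_lit 0) (nat_lit 50515606749792) (nat_lit 76) (nat_lit 156388689680334) (nat_lit 0) (nat_lit 50515604221270) (nat_lit 1) (nat_lit 5) (nat_lit 2) (nat_lit 4) (nat_lit 1) (nat_lit 4) (nat_lit 433) (nat_lit 295) (nat_lit 292)) (XT.nd (nat_lit 78) (nat_lit 0) (nat_lit 0) (XT.lf (nat_lit 0) (nat_lit 58093086304083) (nat_lit 76) (nat_lit 179846695353009) (nat_lit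 0) (nat_lit 58093083142382) (nat_lit 1) (nat_lit 5) (nat_lit 2) (nat_lit 4) (nat_lit 1) (nat_lit 4) (nat_lit 434) (nat_lit 295) (nat_lit 291)) (XT.lf (nat_lit 0) (nat_lit 66807177747290) (nat_lit 76) (nat_lit 206823423294273) (nat_lit 0) (nat_lit 66807174034999) (nat_lit 1) (nat_lit 5) (nat_lit 2) (nat_lit 4) (nat_lit 1) (nat_lit 4) (nat_lit 435) (nat_lit 295) (nat_lit 290)))) (XT.nd (nat_lit 78) (nat_lit 0) (nat_lit 0) (XT.lf (nat_lit 0) (nat_lit 76828374172865) (nat_lit 76) (nat_lit 237846679050801) (nat_lit 0) (nat_lit 76828369981801) (nat_lit 1) (nat_lit 5) (nat_lit 2) (nat_lit 4) (nat_lit 1) (nat_lit 4) (nat_lit 436) (nat_lit 295) (nat_lit 289)) (XT.nd (nat_lit 52416) (nat_lit 0) (nat_lit 0) (XT.lf (nat_lit 0) (nat_lit 88352742467399) (nat_lit 76) (nat_lit 273523439365656) (nat_lit 0) (nat_lit 88352737860008) (nat_lit 1) (nat_lit 5) (nat_lit 2) (nat_lit 4) (nat_lit 1) (nat_lit 4)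 (nat_lit 437) (nat_lit 295) (nat_lit 288)) (XT.lf (nat_lit 0) (nat_lit 12557286442941) (nat_lit 76) (nat_lit 38877066250848) (nat_lit 0) (nat_lit 12557286442941) (nat_lit 1) (nat_lit 5) (nat_lit 2) (nat_lit 4) (nat_lit 1) (nat_lit 4) (nat_lit 428) (nat_lit 296) (nat_lit 296)))))) (XT.nd (nat_lit 468) (nat_lit 0) (nat_lit 0) (XT.nd (nat_lit 234) (nat_lit 0) (nat_lit 0) (XT.nd (nat_lit 78) (nat_lit 0) (nat_lit 0) (XT.lf (nat_lit 0) (nat_lit 28881964268787) (nat_lit 76) (nat_lit 89416811572488) (nat_lit 0) (nat_lit 28881963161353) (nat_lit 1) (nat_lit 5) (nat_lit 2) (nat_lit 4) (nat_lit 1) (nat_lit 4) (nat_lit 429) (nat_lit 296) (nat_lit 295)) (XT.nd (nat_lit 78) (nat_lit 0) (nat_lit 0) (XT.lf (nat_lit 0) (nat_lit 33214446791709) (nat_lit 76) (nat_lit 102828929963565) (nat_lit 0) (nat_lit 33214444721289) (nat_lit 1) (nat_lit 5) (nat_lit 2) (nat_lit 4) (nat_lit 1) (nat_lit 4) (nat_lit 430)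 (nat_lit 296) (nat_lit 294)) (XT.lf (nat_lit 0) (nat_lit 38196786417054) (nat_lit 76) (nat_lit 118252898686928) (nat_lit 0) (nat_lit 38196783509254) (nat_lit 1) (nat_lit 5) (nat_lit 2) (nat_lit 4) (nat_lit 1) (nat_lit 4) (nat_lit 431) (nat_lit 296) (nat_lit 293)))) (XT.nd (nat_lit 78) (nat_lit 0) (nat_lit 0) (XT.lf (nat_lit 0) (nat_lit 43926463702707) (nat_lit 76) (nat_lit 135990491043686) (nat_lit 0) (nat_lit 43926460066752) (nat_lit 1) (nat_lit 5) (nat_lit 2) (nat_lit 4) (nat_lit 1) (nat_lit 4) (nat_lit 432) (nat_lit 296) (nat_lit 292)) (XT.nd (nat_lit 78) (nat_lit 0) (nat_lit 0) (XT.lf (nat_lit 0) (nat_lit 50515581030347) (nat_lit 76) (nat_lit 156388746884298) (nat_lit 0) (nat_lit 50515576761213) (nat_lit 1) (nat_lit 5) (nat_lit 2) (nat_lit 4) (nat_lit 1) (nat_lit 4) (nat_lit 433) (nat_lit 296) (nat_lit 291)) (XT.lf (nat_lit 0) (nat_lit 58093055912904) (nat_lit 76) (nat_lit 179846762518688)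 (nat_lit 0) (nat_lit 58093051093180) (nat_lit 1) (nat_lit 5) (nat_lit 2) (nat_lit 4) (nat_lit 1) (nat_lit 4) (nat_lit 434) (nat_lit 296) (nat_lit 290))))) (XT.nd (nat_lit 52494) (nat_lit 0) (nat_lit 0) (XT.nd (nat_lit 78) (nat_lit 0) (nat_lit 0) (XT.lf (nat_lit 0) (nat_lit 66807143293734) (nat_lit 76) (nat_lit 206823499122312) (nat_lit 0) (nat_lit 66807137995235) (nat_lit 1) (nat_lit 5) (nat_lit 2) (nat_lit 4) (nat_lit 1) (nat_lit 4) (nat_lit 435) (nat_lit 296) (nat_lit 289)) (XT.nd (nat_lit 52338) (nat_lit 0) (nat_lit 0) (XT.lf (nat_lit 0) (nat_lit 76828336186808) (nat_lit 76) (nat_lit 237846762411328) (nat_lit 0) (nat_lit 76828330471983) (nat_lit 1) (nat_lit 5) (nat_lit 2) (nat_lit 4) (nat_lit 1) (nat_lit 4) (nat_lit 436) (nat_lit 296) (nat_lit 288)) (XT.lf (nat_lit 0) (nat_lit 9494925138094) (nat_lit 76) (nat_lit 29397050793452) (nat_lit 0) (nat_lit 9494925138094) (nat_lit 1) (nat_lit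 5) (nat_lit 2) (nat_lit 4) (nat_lit 1) (nat_lit 4) (nat_lit 426) (nat_lit 297) (nat_lit 297)))) (XT.nd (nat_lit 156) (nat_lit 0) (nat_lit 0) (XT.nd (nat_lit 78) (nat_lit 0) (nat_lit 0) (XT.lf (nat_lit 0) (nat_lit 21838564085141) (nat_lit 76) (nat_lit 67612709899808) (nat_lit 0) (nat_lit 21838562811592) (nat_lit 1) (nat_lit 5) (nat_lit 2) (nat_lit 4) (nat_lit 1) (nat_lit 4) (nat_lit 427) (nat_lit 297) (nat_lit 296)) (XT.lf (nat_lit 0) (nat_lit 25114564762906) (nat_lit 76) (nat_lit 77754152538264) (nat_lit 0) (nat_lit 25114562381923) (nat_lit 1) (nat_lit 5) (nat_lit 2) (nat_lit 4) (nat_lit 1) (nat_lit 4) (nat_lit 428) (nat_lit 297) (nat_lit 295))) (XT.nd (nat_lit 78) (nat_lit 0) (nat_lit 0) (XT.lf (nat_lit 0) (nat_lit 28881947974918) (nat_lit 76) (nat_lit 89416849032156) (nat_lit 0) (nat_lit 28881944630949) (nat_lit 1) (nat_lit 5) (nat_lit 2) (nat_lit 4) (nat_lit 1) (nat_lit 4) (nat_lit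 429) (nat_lit 297) (nat_lit 294)) (XT.lf (nat_lit 0) (nat_lit 33214423392717) (nat_lit 76) (nat_lit 102828982573756) (nat_lit 0) (nat_lit 33214419211368) (nat_lit 1) (nat_lit 5) (nat_lit 2) (nat_lit 4) (nat_lit 1) (nat_lit 4) (nat_lit 430) (nat_lit 297) (nat_lit 293))))))))
noncomputable def xc1 : XT := (XT.nd (nat_lit 105924) (nat_lit 0) (nat_lit 0) (XT.nd (nat_lit 53040) (nat_lit 0) (nat_lit 0) (XT.nd (nat_lit 52572) (nat_lit 0) (nat_lit 0) (XT.nd (nat_lit 234) (nat_lit 0) (nat_lit 0) (XT.nd (nat_lit 78) (nat_lit 0) (nat_lit 0) (XT.lf (nat_lit 0) (nat_lit 38196756839693) (nat_lit 76) (nat_lit 118252964471487) (nat_lit 0) (nat_lit 38196751930188) (nat_lit 1) (nat_lit 5) (nat_lit 2) (nat_lit 4) (nat_lit 1) (nat_lit 4) (nat_lit 431) (nat_lit 297) (nat_lit 292)) (XT.nd (nat_lit 78) (nat_lit 0) (nat_lit 0) (XT.lf (nat_lit 0) (nat_lit 43926428752853) (nat_lit 76) (nat_lit 135990568284217)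 (nat_lit 0) (nat_lit 43926423210169) (nat_lit 1) (nat_lit 5) (nat_lit 2) (nat_lit 4) (nat_lit 1) (nat_lit 4) (nat_lit 432) (nat_lit 297) (nat_lit 291)) (XT.lf (nat_lit 0) (nat_lit 50515541408758) (nat_lit 76) (nat_lit 156388834086543) (nat_lit 0) (nat_lit 50515535315484) (nat_lit 1) (nat_lit 5) (nat_lit 2) (nat_lit 4) (nat_lit 1) (nat_lit 4) (nat_lit 433) (nat_lit 297) (nat_lit 290)))) (XT.nd (nat_lit 78) (nat_lit 0) (nat_lit 0) (XT.lf (nat_lit 0) (nat_lit 58093012228938) (nat_lit 76) (nat_lit 179846858383294) (nat_lit 0) (nat_lit 58093005656889) (nat_lit 1) (nat_lit 5) (nat_lit 2) (nat_lit 4) (nat_lit 1) (nat_lit 4) (nat_lit 434) (nat_lit 297) (nat_lit 289)) (XT.nd (nat_lit 78) (nat_lit 0) (nat_lit 0) (XT.lf (nat_lit 0) (nat_lit 66807096077265) (nat_lit 76) (nat_lit 206823602519405) (nat_lit 0) (nat_lit 66807089088891) (nat_lit 1) (nat_lit 5) (nat_lit 2) (nat_lit 4) (nat_lit 1) (nat_lit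 4) (nat_lit 435) (nat_lit 297) (nat_lit 288)) (XT.lf (nat_lit 0) (nat_lit 76828285898598) (nat_lit 76) (nat_lit 237846872358410) (nat_lit 0) (nat_lit 76828278548202) (nat_lit 1) (nat_lit 5) (nat_lit 2) (nat_lit 4) (nat_lit 1) (nat_lit 4) (nat_lit 436) (nat_lit 297) (nat_lit 287))))) (XT.nd (nat_lit 234) (nat_lit 0) (nat_lit 0) (XT.nd (nat_lit 78) (nat_lit 0) (nat_lit 0) (XT.lf (nat_lit 0) (nat_lit 7179311907833) (nat_lit 76) (nat_lit 22228857641186) (nat_lit 0) (nat_lit 7179311907833) (nat_lit 1) (nat_lit 5) (nat_lit 2) (nat_lit 4) (nat_lit 1) (nat_lit 4) (nat_lit 424) (nat_lit 298) (nat_lit 298)) (XT.nd (nat_lit 78) (nat_lit 0) (nat_lit 0) (XT.lf (nat_lit 0) (nat_lit 16512689095671) (nat_lit 76) (nat_lit 51125789610826) (nat_lit 0) (nat_lit 16512687631089) (nat_lit 1) (nat_lit 5) (nat_lit 2) (nat_lit 4) (nat_lit 1) (nat_lit 4) (nat_lit 425) (nat_lit 298) (nat_lit 297)) (XT.lf (nat_lit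 0) (nat_lit 18989840934765) (nat_lit 76) (nat_lit 58794124628957) (nat_lit 0) (nat_lit 18989838196634) (nat_lit 1) (nat_lit 5) (nat_lit 2) (nat_lit 4) (nat_lit 1) (nat_lit 4) (nat_lit 426) (nat_lit 298) (nat_lit 296)))) (XT.nd (nat_lit 78) (nat_lit 0) (nat_lit 0) (XT.lf (nat_lit 0) (nat_lit 21838545347192) (nat_lit 76) (nat_lit 67612752978426) (nat_lit 0) (nat_lit 21838541501627) (nat_lit 1) (nat_lit 5) (nat_lit 2) (nat_lit 4) (nat_lit 1) (nat_lit 4) (nat_lit 427) (nat_lit 298) (nat_lit 295)) (XT.nd (nat_lit 78) (nat_lit 0) (nat_lit 0) (XT.lf (nat_lit 0) (nat_lit 25114537854065) (nat_lit 76) (nat_lit 77754213039983) (nat_lit 0) (nat_lit 25114533045514) (nat_lit 1) (nat_lit 5) (nat_lit 2) (nat_lit 4) (nat_lit 1) (nat_lit 4) (nat_lit 428) (nat_lit 298) (nat_lit 294)) (XT.lf (nat_lit 0) (nat_lit 28881913960954) (nat_lit 76) (nat_lit 89416924684398) (nat_lit 0) (nat_lit 28881908315023) (nat_lit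 1) (nat_lit 5) (nat_lit 2) (nat_lit 4) (nat_lit 1) (nat_lit 4) (nat_lit 429) (nat_lit 298) (nat_lit 293)))))) (XT.nd (nat_lit 468) (nat_lit 0) (nat_lit 0) (XT.nd (nat_lit 234) (nat_lit 0) (nat_lit 0) (XT.nd (nat_lit 78) (nat_lit 0) (nat_lit 0) (XT.lf (nat_lit 0) (nat_lit 33214383200383) (nat_lit 76) (nat_lit 102829071400366) (nat_lit 0) (nat_lit 33214376826297) (nat_lit 1) (nat_lit 5) (nat_lit 2) (nat_lit 4) (nat_lit 1) (nat_lit 4) (nat_lit 430) (nat_lit 298) (nat_lit 292)) (XT.nd (nat_lit 78) (nat_lit 0) (nat_lit 0) (XT.lf (nat_lit 0) (nat_lit 38196711274865) (nat_lit 76) (nat_lit 118253064754069) (nat_lit 0) (nat_lit 38196704267600) (nat_lit 1) (nat_lit 5) (nat_lit 2) (nat_lit 4) (nat_lit 1) (nat_lit 4) (nat_lit 431) (nat_lit 298) (nat_lit 291)) (XT.lf (nat_lit 0) (nat_lit 43926378516291) (nat_lit 76) (nat_lit 135990678528514) (nat_lit 0) (nat_lit 43926370958435) (nat_lit 1) (nat_lit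 5) (nat_lit 2) (nat_lit 4) (nat_lit 1) (nat_lit 4) (nat_lit 432) (nat_lit 298) (nat_lit 290)))) (XT.nd (nat_lit 78) (nat_lit 0) (nat_lit 0) (XT.lf (nat_lit 0) (nat_lit 50515487109819) (nat_lit 76) (nat_lit 156388952993201) (nat_lit 0) (nat_lit 50515479073189) (nat_lit 1) (nat_lit 5) (nat_lit 2) (nat_lit 4) (nat_lit 1) (nat_lit 4) (nat_lit 433) (nat_lit 298) (nat_lit 289)) (XT.nd (nat_lit 78) (nat_lit 0) (nat_lit 0) (XT.lf (nat_lit 0) (nat_lit 58092954397497) (nat_lit 76) (nat_lit 179846984822438) (nat_lit 0) (nat_lit 58092945944541) (nat_lit 1) (nat_lit 5) (nat_lit 2) (nat_lit 4) (nat_lit 1) (nat_lit 4) (nat_lit 434) (nat_lit 298) (nat_lit 288)) (XT.lf (nat_lit 0) (nat_lit 66807035174082) (nat_lit 76) (nat_lit 206823735508539) (nat_lit 0) (nat_lit 66807026359106) (nat_lit 1) (nat_lit 5) (nat_lit 2) (nat_lit 4) (nat_lit 1) (nat_lit 4) (nat_lit 435) (nat_lit 298) (nat_lit 287))))) (XT.nd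 (nat_lit 52182) (nat_lit 0) (nat_lit 0) (XT.nd (nat_lit 52026) (nat_lit 0) (nat_lit 0) (XT.lf (nat_lit 0) (nat_lit 76828222324336) (nat_lit 76) (nat_lit 237847011043187) (nat_lit 0) (nat_lit 76828213194558) (nat_lit 1) (nat_lit 5) (nat_lit 2) (nat_lit 4) (nat_lit 1) (nat_lit 4) (nat_lit 436) (nat_lit 298) (nat_lit 286)) (XT.nd (nat_lit 78) (nat_lit 0) (nat_lit 0) (XT.lf (nat_lit 0) (nat_lit 5428343286844) (nat_lit 76) (nat_lit 16808743360117) (nat_lit 0) (nat_lit 5428343286844) (nat_lit 1) (nat_lit 5) (nat_lit 2) (nat_lit 4) (nat_lit 1) (nat_lit 4) (nat_lit 422) (nat_lit 299) (nat_lit 299)) (XT.lf (nat_lit 0) (nat_lit 12485502023544) (nat_lit 76) (nat_lit 38659439319782) (nat_lit 0) (nat_lit 12485500339275) (nat_lit 1) (nat_lit 5) (nat_lit 2) (nat_lit 4) (nat_lit 1) (nat_lit 4) (nat_lit 423) (nat_lit 299) (nat_lit 298)))) (XT.nd (nat_lit 78) (nat_lit 0) (nat_lit 0) (XT.lf (nat_lit 0)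 (nat_lit 14358613073030) (nat_lit 76) (nat_lit 44457741780732) (nat_lit 0) (nat_lit 14358609924180) (nat_lit 1) (nat_lit 5) (nat_lit 2) (nat_lit 4) (nat_lit 1) (nat_lit 4) (nat_lit 424) (nat_lit 299) (nat_lit 297)) (XT.nd (nat_lit 78) (nat_lit 0) (nat_lit 0) (XT.lf (nat_lit 0) (nat_lit 16512667547029) (nat_lit 76) (nat_lit 51125839151236) (nat_lit 0) (nat_lit 16512663124629) (nat_lit 1) (nat_lit 5) (nat_lit 2) (nat_lit 4) (nat_lit 1) (nat_lit 4) (nat_lit 425) (nat_lit 299) (nat_lit 296)) (XT.lf (nat_lit 0) (nat_lit 18989809989597) (nat_lit 76) (nat_lit 58794194205934) (nat_lit 0) (nat_lit 18989804459763) (nat_lit 1) (nat_lit 5) (nat_lit 2) (nat_lit 4) (nat_lit 1) (nat_lit 4) (nat_lit 426) (nat_lit 299) (nat_lit 295))))))) (XT.nd (nat_lit 52806) (nat_lit 0) (nat_lit 0) (XT.nd (nat_lit 468) (nat_lit 0) (nat_lit 0) (XT.nd (nat_lit 234) (nat_lit 0) (nat_lit 0) (XT.nd (nat_lit 78) (nat_lit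 0) (nat_lit 0) (XT.lf (nat_lit 0) (nat_lit 21838506231132) (nat_lit 76) (nat_lit 67612839978505) (nat_lit 0) (nat_lit 21838499738312) (nat_lit 1) (nat_lit 5) (nat_lit 2) (nat_lit 4) (nat_lit 1) (nat_lit 4) (nat_lit 427) (nat_lit 299) (nat_lit 294)) (XT.nd (nat_lit 78) (nat_lit 0) (nat_lit 0) (XT.lf (nat_lit 0) (nat_lit 25114491632882) (nat_lit 76) (nat_lit 77754315190585) (nat_lit 0) (nat_lit 25114484302683) (nat_lit 1) (nat_lit 5) (nat_lit 2) (nat_lit 4) (nat_lit 1) (nat_lit 4) (nat_lit 428) (nat_lit 299) (nat_lit 293)) (XT.lf (nat_lit 0) (nat_lit 28881861561402) (nat_lit 76) (nat_lit 89417040009367) (nat_lit 0) (nat_lit 28881853503047) (nat_lit 1) (nat_lit 5) (nat_lit 2) (nat_lit 4) (nat_lit 1) (nat_lit 4) (nat_lit 429) (nat_lit 299) (nat_lit 292)))) (XT.nd (nat_lit 78) (nat_lit 0) (nat_lit 0) (XT.lf (nat_lit 0) (nat_lit 33214325428338) (nat_lit 76) (nat_lit 102829198181307) (nat_lit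 0) (nat_lit 33214316736804) (nat_lit 1) (nat_lit 5) (nat_lit 2) (nat_lit 4) (nat_lit 1) (nat_lit 4) (nat_lit 430) (nat_lit 299) (nat_lit 291)) (XT.nd (nat_lit 78) (nat_lit 0) (nat_lit 0) (XT.lf (nat_lit 0) (nat_lit 38196648831085) (nat_lit 76) (nat_lit 118253201496725) (nat_lit 0) (nat_lit 38196639588961) (nat_lit 1) (nat_lit 5) (nat_lit 2) (nat_lit 4) (nat_lit 1) (nat_lit 4) (nat_lit 431) (nat_lit 299) (nat_lit 290)) (XT.lf (nat_lit 0) (nat_lit 43926312010134) (nat_lit 76) (nat_lit 135990823933530) (nat_lit 0) (nat_lit 43926302289235) (nat_lit 1) (nat_lit 5) (nat_lit 2) (nat_lit 4) (nat_lit 1) (nat_lit 4) (nat_lit 432) (nat_lit 299) (nat_lit 289))))) (XT.nd (nat_lit 52104) (nat_lit 0) (nat_lit 0) (XT.nd (nat_lit 78) (nat_lit 0) (nat_lit 0) (XT.lf (nat_lit 0) (nat_lit 50515417071159) (nat_lit 76) (nat_lit 156389105930705) (nat_lit 0) (nat_lit 50515406933936) (nat_lit 1) (nat_lit 5) (nat_lit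 2) (nat_lit 4) (nat_lit 1) (nat_lit 4) (nat_lit 433) (nat_lit 299) (nat_lit 288)) (XT.nd (nat_lit 78) (nat_lit 0) (nat_lit 0) (XT.lf (nat_lit 0) (nat_lit 58092881287096) (nat_lit 76) (nat_lit 179847144309932) (nat_lit 0) (nat_lit 58092870787850) (nat_lit 1) (nat_lit 5) (nat_lit 2) (nat_lit 4) (nat_lit 1) (nat_lit 4) (nat_lit 434) (nat_lit 299) (nat_lit 287)) (XT.lf (nat_lit 0) (nat_lit 66806959392603) (nat_lit 76) (nat_lit 206823900691675) (nat_lit 0) (nat_lit 66806948578555) (nat_lit 1) (nat_lit 5) (nat_lit 2) (nat_lit 4) (nat_lit 1) (nat_lit 4) (nat_lit 435) (nat_lit 299) (nat_lit 286)))) (XT.nd (nat_lit 78) (nat_lit 0) (nat_lit 0) (XT.lf (nat_lit 0) (nat_lit 4104322260276) (nat_lit 76) (nat_lit 12710438283986) (nat_lit 0) (nat_lit 4104322260276) (nat_lit 1) (nat_lit 5) (nat_lit 2) (nat_lit 4) (nat_lit 1) (nat_lit 4) (nat_lit 420) (nat_lit 300) (nat_lit 300)) (XT.nd (nat_lit 78) (nat_lit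 0) (nat_lit 0) (XT.lf (nat_lit 0) (nat_lit 9440300532007) (nat_lit 76) (nat_lit 29233237083407) (nat_lit 0) (nat_lit 9440298595098) (nat_lit 1) (nat_lit 5) (nat_lit 2) (nat_lit 4) (nat_lit 1) (nat_lit 4) (nat_lit 421) (nat_lit 300) (nat_lit 299)) (XT.lf (nat_lit 0) (nat_lit 10856674219656) (nat_lit 76) (nat_lit 33617517193349) (nat_lit 0) (nat_lit 10856670598478) (nat_lit 1) (nat_lit 5) (nat_lit 2) (nat_lit 4) (nat_lit 1) (nat_lit 4) (nat_lit 422) (nat_lit 300) (nat_lit 298)))))) (XT.nd (nat_lit 468) (nat_lit 0) (nat_lit 0) (XT.nd (nat_lit 234) (nat_lit 0) (nat_lit 0) (XT.nd (nat_lit 78) (nat_lit 0) (nat_lit 0) (XT.lf (nat_lit 0) (nat_lit 12485477242606) (nat_lit 76) (nat_lit 38659496291254) (nat_lit 0) (nat_lit 12485472156846) (nat_lit 1) (nat_lit 5) (nat_lit 2) (nat_lit 4) (nat_lit 1) (nat_lit 4) (nat_lit 423) (nat_lit 300) (nat_lit 297)) (XT.nd (nat_lit 78) (nat_lit 0) (nat_lit 0)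 (XT.lf (nat_lit 0) (nat_lit 14358577486087) (nat_lit 76) (nat_lit 44457821794256) (nat_lit 0) (nat_lit 14358571126779) (nat_lit 1) (nat_lit 5) (nat_lit 2) (nat_lit 4) (nat_lit 1) (nat_lit 4) (nat_lit 424) (nat_lit 300) (nat_lit 296)) (XT.lf (nat_lit 0) (nat_lit 16512622563560) (nat_lit 76) (nat_lit 51125939201327) (nat_lit 0) (nat_lit 16512615096818) (nat_lit 1) (nat_lit 5) (nat_lit 2) (nat_lit 4) (nat_lit 1) (nat_lit 4) (nat_lit 425) (nat_lit 300) (nat_lit 295)))) (XT.nd (nat_lit 78) (nat_lit 0) (nat_lit 0) (XT.lf (nat_lit 0) (nat_lit 18989756835236) (nat_lit 76) (nat_lit 58794311679126) (nat_lit 0) (nat_lit 18989748405507) (nat_lit 1) (nat_lit 5) (nat_lit 2) (nat_lit 4) (nat_lit 1) (nat_lit 4) (nat_lit 426) (nat_lit 300) (nat_lit 294)) (XT.nd (nat_lit 78) (nat_lit 0) (nat_lit 0) (XT.lf (nat_lit 0) (nat_lit 21838445971648) (nat_lit 76) (nat_lit 67612972602219) (nat_lit 0) (nat_lit 21838436704540)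 (nat_lit 1) (nat_lit 5) (nat_lit 2) (nat_lit 4) (nat_lit 1) (nat_lit 4) (nat_lit 427) (nat_lit 300) (nat_lit 293)) (XT.lf (nat_lit 0) (nat_lit 25114425195029) (nat_lit 76) (nat_lit 77754460988667) (nat_lit 0) (nat_lit 25114415199765) (nat_lit 1) (nat_lit 5) (nat_lit 2) (nat_lit 4) (nat_lit 1) (nat_lit 4) (nat_lit 428) (nat_lit 300) (nat_lit 292))))) (XT.nd (nat_lit 234) (nat_lit 0) (nat_lit 0) (XT.nd (nat_lit 78) (nat_lit 0) (nat_lit 0) (XT.lf (nat_lit 0) (nat_lit 28881789751055) (nat_lit 76) (nat_lit 89417197263422) (nat_lit 0) (nat_lit 28881779122612) (nat_lit 1) (nat_lit 5) (nat_lit 2) (nat_lit 4) (nat_lit 1) (nat_lit 4) (nat_lit 429) (nat_lit 300) (nat_lit 291)) (XT.nd (nat_lit 78) (nat_lit 0) (nat_lit 0) (XT.lf (nat_lit 0) (nat_lit 33214248946257) (nat_lit 76) (nat_lit 102829365397076) (nat_lit 0) (nat_lit 33214237767223) (nat_lit 1) (nat_lit 5) (nat_lit 2) (nat_lit 4) (nat_lit 1)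 (nat_lit 4) (nat_lit 430) (nat_lit 300) (nat_lit 290)) (XT.lf (nat_lit 0) (nat_lit 38196568286627) (nat_lit 76) (nat_lit 118253377374855) (nat_lit 0) (nat_lit 38196556628819) (nat_lit 1) (nat_lit 5) (nat_lit 2) (nat_lit 4) (nat_lit 1) (nat_lit 4) (nat_lit 431) (nat_lit 300) (nat_lit 289)))) (XT.nd (nat_lit 156) (nat_lit 0) (nat_lit 0) (XT.nd (nat_lit 78) (nat_lit 0) (nat_lit 0) (XT.lf (nat_lit 0) (nat_lit 43926227933173) (nat_lit 76) (nat_lit 135991007344147) (nat_lit 0) (nat_lit 43926215859040) (nat_lit 1) (nat_lit 5) (nat_lit 2) (nat_lit 4) (nat_lit 1) (nat_lit 4) (nat_lit 432) (nat_lit 300) (nat_lit 288)) (XT.lf (nat_lit 0) (nat_lit 50515329922458) (nat_lit 76) (nat_lit 156389295891311) (nat_lit 0) (nat_lit 50515317486303) (nat_lit 1) (nat_lit 5) (nat_lit 2) (nat_lit 4) (nat_lit 1) (nat_lit 4) (nat_lit 433) (nat_lit 300) (nat_lit 287))) (XT.nd (nat_lit 51870) (nat_lit 0) (nat_lit 0)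 (XT.lf (nat_lit 0) (nat_lit 58092791467315) (nat_lit 76) (nat_lit 179847339966181) (nat_lit 0) (nat_lit 58092778716358) (nat_lit 1) (nat_lit 5) (nat_lit 2) (nat_lit 4) (nat_lit 1) (nat_lit 4) (nat_lit 434) (nat_lit 300) (nat_lit 286)) (XT.lf (nat_lit 0) (nat_lit 3103129374671) (nat_lit 76) (nat_lit 9611622869572) (nat_lit 0) (nat_lit 3103129374671) (nat_lit 1) (nat_lit 5) (nat_lit 2) (nat_lit 4) (nat_lit 1) (nat_lit 4) (nat_lit 418) (nat_lit 301) (nat_lit 301))))))))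
noncomputable def xc2 : XT := (XT.nd (nat_lit 53196) (nat_lit 0) (nat_lit 0) (XT.nd (nat_lit 936) (nat_lit 0) (nat_lit 0) (XT.nd (nat_lit 468) (nat_lit 0) (nat_lit 0) (XT.nd (nat_lit 234) (nat_lit 0) (nat_lit 0) (XT.nd (nat_lit 78) (nat_lit 0) (nat_lit 0) (XT.lf (nat_lit 0) (nat_lit 7137610795122) (nat_lit 76) (nat_lit 22105845984789) (nat_lit 0) (nat_lit 7137608567676) (nat_lit 1) (nat_lit 5) (nat_lit 2) (nat_lit 4) (nat_lit 1) (nat_lit 4) (nat_lit 419) (nat_lit 301) (nat_lit 300)) (XT.nd (nat_lit 78) (nat_lit 0) (nat_lit 0) (XT.lf (nat_lit 0) (nat_lit 8208630313415) (nat_lit 76) (nat_lit 25420911612053) (nat_lit 0) (nat_lit 8208626149060) (nat_lit 1) (nat_lit 5) (nat_lit 2) (nat_lit 4) (nat_lit 1) (nat_lit 4) (nat_lit 420) (nat_lit 301) (nat_lit 299)) (XT.lf (nat_lit 0) (nat_lit 9440272033929) (nat_lit 76) (nat_lit 29233302600600) (nat_lit 0) (nat_lit 9440266185305) (nat_lit 1) (nat_lit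 5) (nat_lit 2) (nat_lit 4) (nat_lit 1) (nat_lit 4) (nat_lit 421) (nat_lit 301) (nat_lit 298)))) (XT.nd (nat_lit 78) (nat_lit 0) (nat_lit 0) (XT.lf (nat_lit 0) (nat_lit 10856633294672) (nat_lit 76) (nat_lit 33617609208901) (nat_lit 0) (nat_lit 10856625981467) (nat_lit 1) (nat_lit 5) (nat_lit 2) (nat_lit 4) (nat_lit 1) (nat_lit 4) (nat_lit 422) (nat_lit 301) (nat_lit 297)) (XT.nd (nat_lit 78) (nat_lit 0) (nat_lit 0) (XT.lf (nat_lit 0) (nat_lit 12485425511617) (nat_lit 76) (nat_lit 38659611348858) (nat_lit 0) (nat_lit 12485416924863) (nat_lit 1) (nat_lit 5) (nat_lit 2) (nat_lit 4) (nat_lit 1) (nat_lit 4) (nat_lit 423) (nat_lit 301) (nat_lit 296)) (XT.lf (nat_lit 0) (nat_lit 14358516358572) (nat_lit 76) (nat_lit 44457956888427) (nat_lit 0) (nat_lit 14358506664384) (nat_lit 1) (nat_lit 5) (nat_lit 2) (nat_lit 4) (nat_lit 1) (nat_lit 4) (nat_lit 424) (nat_lit 301) (nat_lit 295))))) (XT.nd (nat_lit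 234) (nat_lit 0) (nat_lit 0) (XT.nd (nat_lit 78) (nat_lit 0) (nat_lit 0) (XT.lf (nat_lit 0) (nat_lit 16512553265153) (nat_lit 76) (nat_lit 51126091718599) (nat_lit 0) (nat_lit 16512542607979) (nat_lit 1) (nat_lit 5) (nat_lit 2) (nat_lit 4) (nat_lit 1) (nat_lit 4) (nat_lit 425) (nat_lit 301) (nat_lit 294)) (XT.nd (nat_lit 78) (nat_lit 0) (nat_lit 0) (XT.lf (nat_lit 0) (nat_lit 18989680431706) (nat_lit 76) (nat_lit 58794479346921) (nat_lit 0) (nat_lit 18989668937152) (nat_lit 1) (nat_lit 5) (nat_lit 2) (nat_lit 4) (nat_lit 1) (nat_lit 4) (nat_lit 426) (nat_lit 301) (nat_lit 293)) (XT.lf (nat_lit 0) (nat_lit 21838363389749) (nat_lit 76) (nat_lit 67613153444382) (nat_lit 0) (nat_lit 21838351167039) (nat_lit 1) (nat_lit 5) (nat_lit 2) (nat_lit 4) (nat_lit 1) (nat_lit 4) (nat_lit 427) (nat_lit 301) (nat_lit 292)))) (XT.nd (nat_lit 78) (nat_lit 0) (nat_lit 0) (XT.lf (nat_lit 0) (nat_lit 25114337240636)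 (nat_lit 76) (nat_lit 77754653286801) (nat_lit 0) (nat_lit 25114324384747) (nat_lit 1) (nat_lit 5) (nat_lit 2) (nat_lit 4) (nat_lit 1) (nat_lit 4) (nat_lit 428) (nat_lit 301) (nat_lit 291)) (XT.nd (nat_lit 78) (nat_lit 0) (nat_lit 0) (XT.lf (nat_lit 0) (nat_lit 28881697124928) (nat_lit 76) (nat_lit 89417399523271) (nat_lit 0) (nat_lit 28881683718449) (nat_lit 1) (nat_lit 5) (nat_lit 2) (nat_lit 4) (nat_lit 1) (nat_lit 4) (nat_lit 429) (nat_lit 301) (nat_lit 290)) (XT.lf (nat_lit 0) (nat_lit 33214152257752) (nat_lit 76) (nat_lit 102829576319286) (nat_lit 0) (nat_lit 33214138372498) (nat_lit 1) (nat_lit 5) (nat_lit 2) (nat_lit 4) (nat_lit 1) (nat_lit 4) (nat_lit 430) (nat_lit 301) (nat_lit 289)))))) (XT.nd (nat_lit 1560) (nat_lit 0) (nat_lit 0) (XT.nd (nat_lit 234) (nat_lit 0) (nat_lit 0) (XT.nd (nat_lit 78) (nat_lit 0) (nat_lit 0) (XT.lf (nat_lit 0) (nat_lit 38196468065620) (nat_lit 76)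 (nat_lit 118253595829552) (nat_lit 0) (nat_lit 38196453764041) (nat_lit 1) (nat_lit 5) (nat_lit 2) (nat_lit 4) (nat_lit 1) (nat_lit 4) (nat_lit 431) (nat_lit 301) (nat_lit 288)) (XT.nd (nat_lit 78) (nat_lit 0) (nat_lit 0) (XT.lf (nat_lit 0) (nat_lit 43926124640425) (nat_lit 76) (nat_lit 135991232348834) (nat_lit 0) (nat_lit 43926109976824) (nat_lit 1) (nat_lit 5) (nat_lit 2) (nat_lit 4) (nat_lit 1) (nat_lit 4) (nat_lit 432) (nat_lit 301) (nat_lit 287)) (XT.lf (nat_lit 0) (nat_lit 50515223958631) (nat_lit 76) (nat_lit 156389526591641) (nat_lit 0) (nat_lit 50515208980228) (nat_lit 1) (nat_lit 5) (nat_lit 2) (nat_lit 4) (nat_lit 1) (nat_lit 4) (nat_lit 433) (nat_lit 301) (nat_lit 286)))) (XT.nd (nat_lit 1170) (nat_lit 0) (nat_lit 0) (XT.lf (nat_lit 0) (nat_lit 58092683180811) (nat_lit 76) (nat_lit 179847575619243) (nat_lit 0) (nat_lit 58092667928667) (nat_lit 1) (nat_lit 5) (nat_lit 2) (nat_lit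 4) (nat_lit 1) (nat_lit 4) (nat_lit 434) (nat_lit 301) (nat_lit 285)) (XT.nd (nat_lit 78) (nat_lit 0) (nat_lit 0) (XT.lf (nat_lit 0) (nat_lit 472711342986479) (nat_lit 76) (nat_lit 1463414341565640) (nat_lit 0) (nat_lit 472711326133670) (nat_lit 1) (nat_lit 5) (nat_lit 2) (nat_lit 4) (nat_lit 1) (nat_lit 4) (nat_lit 449) (nat_lit 301) (nat_lit 270)) (XT.lf (nat_lit 0) (nat_lit 543618190328832) (nat_lit 76) (nat_lit 1682926176242269) (nat_lit 0) (nat_lit 543618173446778) (nat_lit 1) (nat_lit 5) (nat_lit 2) (nat_lit 4) (nat_lit 1) (nat_lit 4) (nat_lit 450) (nat_lit 301) (nat_lit 269))))) (XT.nd (nat_lit 50466) (nat_lit 0) (nat_lit 0) (XT.nd (nat_lit 78) (nat_lit 0) (nat_lit 0) (XT.lf (nat_lit 0) (nat_lit 625161064308495) (nat_lit 76) (nat_lit 1935364787109908) (nat_lit 0) (nat_lit 625161047400999) (nat_lit 1) (nat_lit 5) (nat_lit 2) (nat_lit 4) (nat_lit 1) (nat_lit 4) (nat_lit 451) (nat_lit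 301) (nat_lit 268)) (XT.nd (nat_lit 50310) (nat_lit 0) (nat_lit 0) (XT.lf (nat_lit 0) (nat_lit 718935368981585) (nat_lit 76) (nat_lit 2225669190468132) (nat_lit 0) (nat_lit 718935352051972) (nat_lit 1) (nat_lit 5) (nat_lit 2) (nat_lit 4) (nat_lit 1) (nat_lit 4) (nat_lit 452) (nat_lit 301) (nat_lit 267)) (XT.lf (nat_lit 0) (nat_lit 2346034527831) (nat_lit 76) (nat_lit 7268579035726) (nat_lit 0) (nat_lit 2346034527831) (nat_lit 1) (nat_lit 5) (nat_lit 2) (nat_lit 4) (nat_lit 1) (nat_lit 4) (nat_lit 416) (nat_lit 302) (nat_lit 302)))) (XT.nd (nat_lit 78) (nat_lit 0) (nat_lit 0) (XT.lf (nat_lit 0) (nat_lit 5396354632396) (nat_lit 76) (nat_lit 16716712174660) (nat_lit 0) (nat_lit 5396352070834) (nat_lit 1) (nat_lit 5) (nat_lit 2) (nat_lit 4) (nat_lit 1) (nat_lit 4) (nat_lit 417) (nat_lit 302) (nat_lit 301)) (XT.nd (nat_lit 78) (nat_lit 0) (nat_lit 0) (XT.lf (nat_lit 0) (nat_lit 6206242411135)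 (nat_lit 76) (nat_lit 19223286039836) (nat_lit 0) (nat_lit 6206237622127) (nat_lit 1) (nat_lit 5) (nat_lit 2) (nat_lit 4) (nat_lit 1) (nat_lit 4) (nat_lit 418) (nat_lit 302) (nat_lit 300)) (XT.lf (nat_lit 0) (nat_lit 7137578022331) (nat_lit 76) (nat_lit 22105921329561) (nat_lit 0) (nat_lit 7137571296414) (nat_lit 1) (nat_lit 5) (nat_lit 2) (nat_lit 4) (nat_lit 1) (nat_lit 4) (nat_lit 419) (nat_lit 302) (nat_lit 299))))))) (XT.nd (nat_lit 936) (nat_lit 0) (nat_lit 0) (XT.nd (nat_lit 468) (nat_lit 0) (nat_lit 0) (XT.nd (nat_lit 234) (nat_lit 0) (nat_lit 0) (XT.nd (nat_lit 78) (nat_lit 0) (nat_lit 0) (XT.lf (nat_lit 0) (nat_lit 8208583249683) (nat_lit 76) (nat_lit 25421017429938) (nat_lit 0) (nat_lit 8208574839498) (nat_lit 1) (nat_lit 5) (nat_lit 2) (nat_lit 4) (nat_lit 1) (nat_lit 4) (nat_lit 420) (nat_lit 302) (nat_lit 298)) (XT.nd (nat_lit 78) (nat_lit 0) (nat_lit 0) (XT.lf (nat_lit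 0) (nat_lit 9440212543291) (nat_lit 76) (nat_lit 29233434916844) (nat_lit 0) (nat_lit 9440202668524) (nat_lit 1) (nat_lit 5) (nat_lit 2) (nat_lit 4) (nat_lit 1) (nat_lit 4) (nat_lit 421) (nat_lit 302) (nat_lit 297)) (XT.lf (nat_lit 0) (nat_lit 10856562998030) (nat_lit 76) (nat_lit 33617764567197) (nat_lit 0) (nat_lit 10856551849714) (nat_lit 1) (nat_lit 5) (nat_lit 2) (nat_lit 4) (nat_lit 1) (nat_lit 4) (nat_lit 422) (nat_lit 302) (nat_lit 296)))) (XT.nd (nat_lit 78) (nat_lit 0) (nat_lit 0) (XT.lf (nat_lit 0) (nat_lit 12485345818449) (nat_lit 76) (nat_lit 38659786743721) (nat_lit 0) (nat_lit 12485333562698) (nat_lit 1) (nat_lit 5) (nat_lit 2) (nat_lit 4) (nat_lit 1) (nat_lit 4) (nat_lit 423) (nat_lit 302) (nat_lit 295)) (XT.nd (nat_lit 78) (nat_lit 0) (nat_lit 0) (XT.lf (nat_lit 0) (nat_lit 14358428494512) (nat_lit 76) (nat_lit 44458149706391) (nat_lit 0) (nat_lit 14358415275776) (nat_lit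 1) (nat_lit 5) (nat_lit 2) (nat_lit 4) (nat_lit 1) (nat_lit 4) (nat_lit 424) (nat_lit 302) (nat_lit 294)) (XT.lf (nat_lit 0) (nat_lit 16512458295969) (nat_lit 76) (nat_lit 51126299687086) (nat_lit 0) (nat_lit 16512444239854) (nat_lit 1) (nat_lit 5) (nat_lit 2) (nat_lit 4) (nat_lit 1) (nat_lit 4) (nat_lit 425) (nat_lit 302) (nat_lit 293))))) (XT.nd (nat_lit 234) (nat_lit 0) (nat_lit 0) (XT.nd (nat_lit 78) (nat_lit 0) (nat_lit 0) (XT.lf (nat_lit 0) (nat_lit 18989579284153) (nat_lit 76) (nat_lit 58794700489776) (nat_lit 0) (nat_lit 18989564499882) (nat_lit 1) (nat_lit 5) (nat_lit 2) (nat_lit 4) (nat_lit 1) (nat_lit 4) (nat_lit 426) (nat_lit 302) (nat_lit 292)) (XT.nd (nat_lit 78) (nat_lit 0) (nat_lit 0) (XT.lf (nat_lit 0) (nat_lit 21838256869702) (nat_lit 76) (nat_lit 67613386043208) (nat_lit 0) (nat_lit 21838241452252) (nat_lit 1) (nat_lit 5) (nat_lit 2) (nat_lit 4) (nat_lit 1) (nat_lit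 4) (nat_lit 427) (nat_lit 302) (nat_lit 291)) (XT.lf (nat_lit 0) (nat_lit 25114226048855) (nat_lit 76) (nat_lit 77754895847343) (nat_lit 0) (nat_lit 25114210080814) (nat_lit 1) (nat_lit 5) (nat_lit 2) (nat_lit 4) (nat_lit 1) (nat_lit 4) (nat_lit 428) (nat_lit 302) (nat_lit 290)))) (XT.nd (nat_lit 78) (nat_lit 0) (nat_lit 0) (XT.lf (nat_lit 0) (nat_lit 28881581870770) (nat_lit 76) (nat_lit 89417650746173) (nat_lit 0) (nat_lit 28881565423954) (nat_lit 1) (nat_lit 5) (nat_lit 2) (nat_lit 4) (nat_lit 1) (nat_lit 4) (nat_lit 429) (nat_lit 302) (nat_lit 289)) (XT.nd (nat_lit 78) (nat_lit 0) (nat_lit 0) (XT.lf (nat_lit 0) (nat_lit 33214033471092) (nat_lit 76) (nat_lit 102829835074676) (nat_lit 0) (nat_lit 33214016607951) (nat_lit 1) (nat_lit 5) (nat_lit 2) (nat_lit 4) (nat_lit 1) (nat_lit 4) (nat_lit 430) (nat_lit 302) (nat_lit 288)) (XT.lf (nat_lit 0) (nat_lit 38196346207219) (nat_lit 76) (nat_lit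 118253861134930) (nat_lit 0) (nat_lit 38196328982056) (nat_lit 1) (nat_lit 5) (nat_lit 2) (nat_lit 4) (nat_lit 1) (nat_lit 4) (nat_lit 431) (nat_lit 302) (nat_lit 287)))))) (XT.nd (nat_lit 1560) (nat_lit 0) (nat_lit 0) (XT.nd (nat_lit 1326) (nat_lit 0) (nat_lit 0) (XT.nd (nat_lit 78) (nat_lit 0) (nat_lit 0) (XT.lf (nat_lit 0) (nat_lit 43926000110945) (nat_lit 76) (nat_lit 135991503349855) (nat_lit 0) (nat_lit 43925982570980) (nat_lit 1) (nat_lit 5) (nat_lit 2) (nat_lit 4) (nat_lit 1) (nat_lit 4) (nat_lit 432) (nat_lit 302) (nat_lit 286)) (XT.nd (nat_lit 1170) (nat_lit 0) (nat_lit 0) (XT.lf (nat_lit 0) (nat_lit 50515097106473) (nat_lit 76) (nat_lit 156389802545395) (nat_lit 0) (nat_lit 50515079292767) (nat_lit 1) (nat_lit 5) (nat_lit 2) (nat_lit 4) (nat_lit 1) (nat_lit 4) (nat_lit 433) (nat_lit 302) (nat_lit 285)) (XT.lf (nat_lit 0) (nat_lit 411053073964926) (nat_lit 76) (nat_lit 1272534791228818)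 (nat_lit 0) (nat_lit 411053054550558) (nat_lit 1) (nat_lit 5) (nat_lit 2) (nat_lit 4) (nat_lit 1) (nat_lit 4) (nat_lit 448) (nat_lit 302) (nat_lit 270)))) (XT.nd (nat_lit 78) (nat_lit 0) (nat_lit 0) (XT.lf (nat_lit 0) (nat_lit 472711202304553) (nat_lit 76) (nat_lit 1463414647009129) (nat_lit 0) (nat_lit 472711182860930) (nat_lit 1) (nat_lit 5) (nat_lit 2) (nat_lit 4) (nat_lit 1) (nat_lit 4) (nat_lit 449) (nat_lit 302) (nat_lit 269)) (XT.nd (nat_lit 78) (nat_lit 0) (nat_lit 0) (XT.lf (nat_lit 0) (nat_lit 543618049431074) (nat_lit 76) (nat_lit 1682926482145995) (nat_lit 0) (nat_lit 543618029962012) (nat_lit 1) (nat_lit 5) (nat_lit 2) (nat_lit 4) (nat_lit 1) (nat_lit 4) (nat_lit 450) (nat_lit 302) (nat_lit 268)) (XT.lf (nat_lit 0) (nat_lit 625160923223051) (nat_lit 76) (nat_lit 1935365093413838) (nat_lit 0) (nat_lit 625160903731870) (nat_lit 1) (nat_lit 5) (nat_lit 2) (nat_lit 4) (nat_lit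 1) (nat_lit 4) (nat_lit 451) (nat_lit 302) (nat_lit 267))))) (XT.nd (nat_lit 50232) (nat_lit 0) (nat_lit 0) (XT.nd (nat_lit 78) (nat_lit 0) (nat_lit 0) (XT.lf (nat_lit 0) (nat_lit 718935227732939) (nat_lit 76) (nat_lit 2225669497120068) (nat_lit 0) (nat_lit 718935208222522) (nat_lit 1) (nat_lit 5) (nat_lit 2) (nat_lit 4) (nat_lit 1) (nat_lit 4) (nat_lit 452) (nat_lit 302) (nat_lit 266)) (XT.nd (nat_lit 50076) (nat_lit 0) (nat_lit 0) (XT.lf (nat_lit 0) (nat_lit 826775677614186) (nat_lit 76) (nat_lit 2559519562032849) (nat_lit 0) (nat_lit 826775658087046) (nat_lit 1) (nat_lit 5) (nat_lit 2) (nat_lit 4) (nat_lit 1) (nat_lit 4) (nat_lit 453) (nat_lit 302) (nat_lit 265)) (XT.lf (nat_lit 0) (nat_lit 1773505489205) (nat_lit 76) (nat_lit 5497022969133) (nat_lit 0) (nat_lit 1773505489205) (nat_lit 1) (nat_lit 5) (nat_lit 2) (nat_lit 4) (nat_lit 1) (nat_lit 4) (nat_lit 414) (nat_lit 303) (nat_lit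 303)))) (XT.nd (nat_lit 156) (nat_lit 0) (nat_lit 0) (XT.nd (nat_lit 78) (nat_lit 0) (nat_lit 0) (XT.lf (nat_lit 0) (nat_lit 4079609126315) (nat_lit 76) (nat_lit 12641980280369) (nat_lit 0) (nat_lit 4079606180519) (nat_lit 1) (nat_lit 5) (nat_lit 2) (nat_lit 4) (nat_lit 1) (nat_lit 4) (nat_lit 415) (nat_lit 303) (nat_lit 302)) (XT.lf (nat_lit 0) (nat_lit 4692050266723) (nat_lit 76) (nat_lit 14537204417249) (nat_lit 0) (nat_lit 4692044759364) (nat_lit 1) (nat_lit 5) (nat_lit 2) (nat_lit 4) (nat_lit 1) (nat_lit 4) (nat_lit 416) (nat_lit 303) (nat_lit 301))) (XT.nd (nat_lit 78) (nat_lit 0) (nat_lit 0) (XT.lf (nat_lit 0) (nat_lit 5396316943687) (nat_lit 76) (nat_lit 16716798821148) (nat_lit 0) (nat_lit 5396309208883) (nat_lit 1) (nat_lit 5) (nat_lit 2) (nat_lit 4) (nat_lit 1) (nat_lit 4) (nat_lit 417) (nat_lit 303) (nat_lit 300)) (XT.lf (nat_lit 0) (nat_lit 6206188287843) (nat_lit 76) (nat_lit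 19223407730404) (nat_lit 0) (nat_lit 6206178616130) (nat_lit 1) (nat_lit 5) (nat_lit 2) (nat_lit 4) (nat_lit 1) (nat_lit 4) (nat_lit 418) (nat_lit 303) (nat_lit 299))))))))
noncomputable def xc3 : XT := (XT.nd (nat_lit 52962) (nat_lit 0) (nat_lit 0) (XT.nd (nat_lit 936) (nat_lit 0) (nat_lit 0) (XT.nd (nat_lit 468) (nat_lit 0) (nat_lit 0) (XT.nd (nat_lit 234) (nat_lit 0) (nat_lit 0) (XT.nd (nat_lit 78) (nat_lit 0) (nat_lit 0) (XT.lf (nat_lit 0) (nat_lit 7137509608098) (nat_lit 76) (nat_lit 22106073493243) (nat_lit 0) (nat_lit 7137498252116) (nat_lit 1) (nat_lit 5) (nat_lit 2) (nat_lit 4) (nat_lit 1) (nat_lit 4) (nat_lit 419) (nat_lit 303) (nat_lit 298)) (XT.nd (nat_lit 78) (nat_lit 0) (nat_lit 0) (XT.lf (nat_lit 0) (nat_lit 8208502408545) (nat_lit 76) (nat_lit 25421196091979) (nat_lit 0) (nat_lit 8208489587981) (nat_lit 1) (nat_lit 5) (nat_lit 2) (nat_lit 4) (nat_lit 1) (nat_lit 4) (nat_lit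 420) (nat_lit 303) (nat_lit 297)) (XT.lf (nat_lit 0) (nat_lit 9440120896148) (nat_lit 76) (nat_lit 29233636620937) (nat_lit 0) (nat_lit 9440106802035) (nat_lit 1) (nat_lit 5) (nat_lit 2) (nat_lit 4) (nat_lit 1) (nat_lit 4) (nat_lit 421) (nat_lit 303) (nat_lit 296)))) (XT.nd (nat_lit 78) (nat_lit 0) (nat_lit 0) (XT.lf (nat_lit 0) (nat_lit 10856461954361) (nat_lit 76) (nat_lit 33617986307856) (nat_lit 0) (nat_lit 10856446752814) (nat_lit 1) (nat_lit 5) (nat_lit 2) (nat_lit 4) (nat_lit 1) (nat_lit 4) (nat_lit 422) (nat_lit 303) (nat_lit 295)) (XT.nd (nat_lit 78) (nat_lit 0) (nat_lit 0) (XT.lf (nat_lit 0) (nat_lit 12485236603887) (nat_lit 76) (nat_lit 38660025907481) (nat_lit 0) (nat_lit 12485220439354) (nat_lit 1) (nat_lit 5) (nat_lit 2) (nat_lit 4) (nat_lit 1) (nat_lit 4) (nat_lit 423) (nat_lit 303) (nat_lit 294)) (XT.lf (nat_lit 0) (nat_lit 14358312174827) (nat_lit 76) (nat_lit 44458404020674)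 (nat_lit 0) (nat_lit 14358295172915) (nat_lit 1) (nat_lit 5) (nat_lit 2) (nat_lit 4) (nat_lit 1) (nat_lit 4) (nat_lit 424) (nat_lit 303) (nat_lit 293))))) (XT.nd (nat_lit 234) (nat_lit 0) (nat_lit 0) (XT.nd (nat_lit 78) (nat_lit 0) (nat_lit 0) (XT.lf (nat_lit 0) (nat_lit 16512335797916) (nat_lit 76) (nat_lit 51126567175736) (nat_lit 0) (nat_lit 16512318067848) (nat_lit 1) (nat_lit 5) (nat_lit 2) (nat_lit 4) (nat_lit 1) (nat_lit 4) (nat_lit 425) (nat_lit 303) (nat_lit 292)) (XT.nd (nat_lit 78) (nat_lit 0) (nat_lit 0) (XT.lf (nat_lit 0) (nat_lit 18989451413606) (nat_lit 76) (nat_lit 58794979434398) (nat_lit 0) (nat_lit 18989433050359) (nat_lit 1) (nat_lit 5) (nat_lit 2) (nat_lit 4) (nat_lit 1) (nat_lit 4) (nat_lit 426) (nat_lit 303) (nat_lit 291)) (XT.lf (nat_lit 0) (nat_lit 21838124327421) (nat_lit 76) (nat_lit 67613674949546) (nat_lit 0) (nat_lit 21838105413583) (nat_lit 1) (nat_lit 5)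 (nat_lit 2) (nat_lit 4) (nat_lit 1) (nat_lit 4) (nat_lit 427) (nat_lit 303) (nat_lit 290)))) (XT.nd (nat_lit 78) (nat_lit 0) (nat_lit 0) (XT.lf (nat_lit 0) (nat_lit 25114089444196) (nat_lit 76) (nat_lit 77755193416041) (nat_lit 0) (nat_lit 25114070051584) (nat_lit 1) (nat_lit 5) (nat_lit 2) (nat_lit 4) (nat_lit 1) (nat_lit 4) (nat_lit 428) (nat_lit 303) (nat_lit 289)) (XT.nd (nat_lit 78) (nat_lit 0) (nat_lit 0) (XT.lf (nat_lit 0) (nat_lit 28881441733609) (nat_lit 76) (nat_lit 89417955847359) (nat_lit 0) (nat_lit 28881421924671) (nat_lit 1) (nat_lit 5) (nat_lit 2) (nat_lit 4) (nat_lit 1) (nat_lit 4) (nat_lit 429) (nat_lit 303) (nat_lit 288)) (XT.lf (nat_lit 0) (nat_lit 33213890262189) (nat_lit 76) (nat_lit 102830146725850) (nat_lit 0) (nat_lit 33213870091230) (nat_lit 1) (nat_lit 5) (nat_lit 2) (nat_lit 4) (nat_lit 1) (nat_lit 4) (nat_lit 430) (nat_lit 303) (nat_lit 287)))))) (XT.nd (nat_lit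 1638) (nat_lit 0) (nat_lit 0) (XT.nd (nat_lit 1404) (nat_lit 0) (nat_lit 0) (XT.nd (nat_lit 78) (nat_lit 0) (nat_lit 0) (XT.lf (nat_lit 0) (nat_lit 38196200327237) (nat_lit 76) (nat_lit 118254178481748) (nat_lit 0) (nat_lit 38196179841476) (nat_lit 1) (nat_lit 5) (nat_lit 2) (nat_lit 4) (nat_lit 1) (nat_lit 4) (nat_lit 431) (nat_lit 303) (nat_lit 286)) (XT.nd (nat_lit 1248) (nat_lit 0) (nat_lit 0) (XT.lf (nat_lit 0) (nat_lit 43925851908286) (nat_lit 76) (nat_lit 135991825649405) (nat_lit 0) (nat_lit 43925831148784) (nat_lit 1) (nat_lit 5) (nat_lit 2) (nat_lit 4) (nat_lit 1) (nat_lit 4) (nat_lit 432) (nat_lit 303) (nat_lit 285)) (XT.lf (nat_lit 0) (nat_lit 411052911932502) (nat_lit 76) (nat_lit 1272535143018100) (nat_lit 0) (nat_lit 411052889543081) (nat_lit 1) (nat_lit 5) (nat_lit 2) (nat_lit 4) (nat_lit 1) (nat_lit 4) (nat_lit 448) (nat_lit 303) (nat_lit 269)))) (XT.nd (nat_lit 78) (nat_lit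 0) (nat_lit 0) (XT.lf (nat_lit 0) (nat_lit 472711040056291) (nat_lit 76) (nat_lit 1463414999258651) (nat_lit 0) (nat_lit 472711017641432) (nat_lit 1) (nat_lit 5) (nat_lit 2) (nat_lit 4) (nat_lit 1) (nat_lit 4) (nat_lit 449) (nat_lit 303) (nat_lit 268)) (XT.nd (nat_lit 78) (nat_lit 0) (nat_lit 0) (XT.lf (nat_lit 0) (nat_lit 543617886995127) (nat_lit 76) (nat_lit 1682926834795723) (nat_lit 0) (nat_lit 543617864558147) (nat_lit 1) (nat_lit 5) (nat_lit 2) (nat_lit 4) (nat_lit 1) (nat_lit 4) (nat_lit 450) (nat_lit 303) (nat_lit 267)) (XT.lf (nat_lit 0) (nat_lit 625160760623898) (nat_lit 76) (nat_lit 1935365446411573) (nat_lit 0) (nat_lit 625160738167689) (nat_lit 1) (nat_lit 5) (nat_lit 2) (nat_lit 4) (nat_lit 1) (nat_lit 4) (nat_lit 451) (nat_lit 303) (nat_lit 266))))) (XT.nd (nat_lit 50154) (nat_lit 0) (nat_lit 0) (XT.nd (nat_lit 49998) (nat_lit 0) (nat_lit 0) (XT.lf (nat_lit 0) (nat_lit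 718935064991872) (nat_lit 76) (nat_lit 2225669850420413) (nat_lit 0) (nat_lit 718935042518933) (nat_lit 1) (nat_lit 5) (nat_lit 2) (nat_lit 4) (nat_lit 1) (nat_lit 4) (nat_lit 452) (nat_lit 303) (nat_lit 265)) (XT.nd (nat_lit 78) (nat_lit 0) (nat_lit 0) (XT.lf (nat_lit 0) (nat_lit 1340526232964) (nat_lit 76) (nat_lit 4157612012271) (nat_lit 0) (nat_lit 1340526232964) (nat_lit 1) (nat_lit 5) (nat_lit 2) (nat_lit 4) (nat_lit 1) (nat_lit 4) (nat_lit 412) (nat_lit 304) (nat_lit 304)) (XT.lf (nat_lit 0) (nat_lit 3083838812132) (nat_lit 76) (nat_lit 9561159197291) (nat_lit 0) (nat_lit 3083835424466) (nat_lit 1) (nat_lit 5) (nat_lit 2) (nat_lit 4) (nat_lit 1) (nat_lit 4) (nat_lit 413) (nat_lit 304) (nat_lit 303)))) (XT.nd (nat_lit 78) (nat_lit 0) (nat_lit 0) (XT.lf (nat_lit 0) (nat_lit 3546989371132) (nat_lit 76) (nat_lit 10994099235932) (nat_lit 0) (nat_lit 3546983037669) (nat_lit 1) (nat_lit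 5) (nat_lit 2) (nat_lit 4) (nat_lit 1) (nat_lit 4) (nat_lit 414) (nat_lit 304) (nat_lit 302)) (XT.nd (nat_lit 78) (nat_lit 0) (nat_lit 0) (XT.lf (nat_lit 0) (nat_lit 4079565784300) (nat_lit 76) (nat_lit 12642079923831) (nat_lit 0) (nat_lit 4079556889275) (nat_lit 1) (nat_lit 5) (nat_lit 2) (nat_lit 4) (nat_lit 1) (nat_lit 4) (nat_lit 415) (nat_lit 304) (nat_lit 301)) (XT.lf (nat_lit 0) (nat_lit 4691988024938) (nat_lit 76) (nat_lit 14537344361402) (nat_lit 0) (nat_lit 4691976902468) (nat_lit 1) (nat_lit 5) (nat_lit 2) (nat_lit 4) (nat_lit 1) (nat_lit 4) (nat_lit 416) (nat_lit 304) (nat_lit 300))))))) (XT.nd (nat_lit 936) (nat_lit 0) (nat_lit 0) (XT.nd (nat_lit 468) (nat_lit 0) (nat_lit 0) (XT.nd (nat_lit 234) (nat_lit 0) (nat_lit 0) (XT.nd (nat_lit 78) (nat_lit 0) (nat_lit 0) (XT.lf (nat_lit 0) (nat_lit 5396238267319) (nat_lit 76) (nat_lit 16716973809381) (nat_lit 0) (nat_lit 5396225207940)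 (nat_lit 1) (nat_lit 5) (nat_lit 2) (nat_lit 4) (nat_lit 1) (nat_lit 4) (nat_lit 417) (nat_lit 304) (nat_lit 299)) (XT.nd (nat_lit 78) (nat_lit 0) (nat_lit 0) (XT.lf (nat_lit 0) (nat_lit 6206095320534) (nat_lit 76) (nat_lit 19223613191751) (nat_lit 0) (nat_lit 6206080576886) (nat_lit 1) (nat_lit 5) (nat_lit 2) (nat_lit 4) (nat_lit 1) (nat_lit 4) (nat_lit 418) (nat_lit 304) (nat_lit 298)) (XT.lf (nat_lit 0) (nat_lit 7137404213884) (nat_lit 76) (nat_lit 22106305452949) (nat_lit 0) (nat_lit 7137388005654) (nat_lit 1) (nat_lit 5) (nat_lit 2) (nat_lit 4) (nat_lit 1) (nat_lit 4) (nat_lit 419) (nat_lit 304) (nat_lit 297)))) (XT.nd (nat_lit 78) (nat_lit 0) (nat_lit 0) (XT.lf (nat_lit 0) (nat_lit 8208386208325) (nat_lit 76) (nat_lit 25421451093736) (nat_lit 0) (nat_lit 8208368726546) (nat_lit 1) (nat_lit 5) (nat_lit 2) (nat_lit 4) (nat_lit 1) (nat_lit 4) (nat_lit 420) (nat_lit 304) (nat_lit 296))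 (XT.nd (nat_lit 78) (nat_lit 0) (nat_lit 0) (XT.lf (nat_lit 0) (nat_lit 9439995299402) (nat_lit 76) (nat_lit 29233911659261) (nat_lit 0) (nat_lit 9439976710189) (nat_lit 1) (nat_lit 5) (nat_lit 2) (nat_lit 4) (nat_lit 1) (nat_lit 4) (nat_lit 421) (nat_lit 304) (nat_lit 295)) (XT.lf (nat_lit 0) (nat_lit 10856328186723) (nat_lit 76) (nat_lit 33618278769281) (nat_lit 0) (nat_lit 10856308634524) (nat_lit 1) (nat_lit 5) (nat_lit 2) (nat_lit 4) (nat_lit 1) (nat_lit 4) (nat_lit 422) (nat_lit 304) (nat_lit 294))))) (XT.nd (nat_lit 234) (nat_lit 0) (nat_lit 0) (XT.nd (nat_lit 78) (nat_lit 0) (nat_lit 0) (XT.lf (nat_lit 0) (nat_lit 12485095731126) (nat_lit 76) (nat_lit 38660333519429) (nat_lit 0) (nat_lit 12485075341547) (nat_lit 1) (nat_lit 5) (nat_lit 2) (nat_lit 4) (nat_lit 1) (nat_lit 4) (nat_lit 423) (nat_lit 304) (nat_lit 293)) (XT.nd (nat_lit 78) (nat_lit 0) (nat_lit 0) (XT.lf (nat_lit 0)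 (nat_lit 14358165123698) (nat_lit 76) (nat_lit 44458724806990) (nat_lit 0) (nat_lit 14358144005963) (nat_lit 1) (nat_lit 5) (nat_lit 2) (nat_lit 4) (nat_lit 1) (nat_lit 4) (nat_lit 424) (nat_lit 304) (nat_lit 292)) (XT.lf (nat_lit 0) (nat_lit 16512183374292) (nat_lit 76) (nat_lit 51126899418024) (nat_lit 0) (nat_lit 16512161623379) (nat_lit 1) (nat_lit 5) (nat_lit 2) (nat_lit 4) (nat_lit 1) (nat_lit 4) (nat_lit 425) (nat_lit 304) (nat_lit 291)))) (XT.nd (nat_lit 78) (nat_lit 0) (nat_lit 0) (XT.lf (nat_lit 0) (nat_lit 18989294318248) (nat_lit 76) (nat_lit 58795321638401) (nat_lit 0) (nat_lit 18989272016744) (nat_lit 1) (nat_lit 5) (nat_lit 2) (nat_lit 4) (nat_lit 1) (nat_lit 4) (nat_lit 426) (nat_lit 304) (nat_lit 290)) (XT.nd (nat_lit 78) (nat_lit 0) (nat_lit 0) (XT.lf (nat_lit 0) (nat_lit 21837963169685) (nat_lit 76) (nat_lit 67614025815909) (nat_lit 0) (nat_lit 21837940389407) (nat_lit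 1) (nat_lit 5) (nat_lit 2) (nat_lit 4) (nat_lit 1) (nat_lit 4) (nat_lit 427) (nat_lit 304) (nat_lit 289)) (XT.lf (nat_lit 0) (nat_lit 25113924753959) (nat_lit 76) (nat_lit 77755551814892) (nat_lit 0) (nat_lit 25113901557355) (nat_lit 1) (nat_lit 5) (nat_lit 2) (nat_lit 4) (nat_lit 1) (nat_lit 4) (nat_lit 428) (nat_lit 304) (nat_lit 288)))))) (XT.nd (nat_lit 1638) (nat_lit 0) (nat_lit 0) (XT.nd (nat_lit 234) (nat_lit 0) (nat_lit 0) (XT.nd (nat_lit 78) (nat_lit 0) (nat_lit 0) (XT.lf (nat_lit 0) (nat_lit 28881273971630) (nat_lit 76) (nat_lit 89418320796198) (nat_lit 0) (nat_lit 28881250413004) (nat_lit 1) (nat_lit 5) (nat_lit 2) (nat_lit 4) (nat_lit 1) (nat_lit 4) (nat_lit 429) (nat_lit 304) (nat_lit 287)) (XT.nd (nat_lit 78) (nat_lit 0) (nat_lit 0) (XT.lf (nat_lit 0) (nat_lit 33213719829132) (nat_lit 76) (nat_lit 102830517370333) (nat_lit 0) (nat_lit 33213695955704) (nat_lit 1) (nat_lit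 5) (nat_lit 2) (nat_lit 4) (nat_lit 1) (nat_lit 4) (nat_lit 430) (nat_lit 304) (nat_lit 286)) (XT.lf (nat_lit 0) (nat_lit 38196027571502) (nat_lit 76) (nat_lit 118254554078963) (nat_lit 0) (nat_lit 38196003424334) (nat_lit 1) (nat_lit 5) (nat_lit 2) (nat_lit 4) (nat_lit 1) (nat_lit 4) (nat_lit 431) (nat_lit 304) (nat_lit 285)))) (XT.nd (nat_lit 1248) (nat_lit 0) (nat_lit 0) (XT.lf (nat_lit 0) (nat_lit 43925677132831) (nat_lit 76) (nat_lit 135992205553345) (nat_lit 0) (nat_lit 43925652747627) (nat_lit 1) (nat_lit 5) (nat_lit 2) (nat_lit 4) (nat_lit 1) (nat_lit 4) (nat_lit 432) (nat_lit 304) (nat_lit 284)) (XT.nd (nat_lit 78) (nat_lit 0) (nat_lit 0) (XT.lf (nat_lit 0) (nat_lit 411052725131160) (nat_lit 76) (nat_lit 1272535548565288) (nat_lit 0) (nat_lit 411052699328639) (nat_lit 1) (nat_lit 5) (nat_lit 2) (nat_lit 4) (nat_lit 1) (nat_lit 4) (nat_lit 448) (nat_lit 304) (nat_lit 268)) (XT.lf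 (nat_lit 0) (nat_lit 472710853067266) (nat_lit 76) (nat_lit 1463415405206043) (nat_lit 0) (nat_lit 472710827242624) (nat_lit 1) (nat_lit 5) (nat_lit 2) (nat_lit 4) (nat_lit 1) (nat_lit 4) (nat_lit 449) (nat_lit 304) (nat_lit 267))))) (XT.nd (nat_lit 49998) (nat_lit 0) (nat_lit 0) (XT.nd (nat_lit 78) (nat_lit 0) (nat_lit 0) (XT.lf (nat_lit 0) (nat_lit 543617699842899) (nat_lit 76) (nat_lit 1682927241091120) (nat_lit 0) (nat_lit 543617673999021) (nat_lit 1) (nat_lit 5) (nat_lit 2) (nat_lit 4) (nat_lit 1) (nat_lit 4) (nat_lit 450) (nat_lit 304) (nat_lit 266)) (XT.nd (nat_lit 78) (nat_lit 0) (nat_lit 0) (XT.lf (nat_lit 0) (nat_lit 625160573329757) (nat_lit 76) (nat_lit 1935365853009582) (nat_lit 0) (nat_lit 625160547469154) (nat_lit 1) (nat_lit 5) (nat_lit 2) (nat_lit 4) (nat_lit 1) (nat_lit 4) (nat_lit 451) (nat_lit 304) (nat_lit 265)) (XT.lf (nat_lit 0) (nat_lit 718934877574318) (nat_lit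 76) (nat_lit 2225670257281570) (nat_lit 0) (nat_lit 718934851699176) (nat_lit 1) (nat_lit 5) (nat_lit 2) (nat_lit 4) (nat_lit 1) (nat_lit 4) (nat_lit 452) (nat_lit 304) (nat_lit 264)))) (XT.nd (nat_lit 156) (nat_lit 0) (nat_lit 0) (XT.nd (nat_lit 78) (nat_lit 0) (nat_lit 0) (XT.lf (nat_lit 0) (nat_lit 1013056903544) (nat_lit 76) (nat_lit 3144985835108) (nat_lit 0) (nat_lit 1013056903544) (nat_lit 1) (nat_lit 5) (nat_lit 2) (nat_lit 4) (nat_lit 1) (nat_lit 4) (nat_lit 410) (nat_lit 305) (nat_lit 305)) (XT.lf (nat_lit 0) (nat_lit 2330753625913) (nat_lit 76) (nat_lit 7231916725176) (nat_lit 0) (nat_lit 2330749730097) (nat_lit 1) (nat_lit 5) (nat_lit 2) (nat_lit 4) (nat_lit 1) (nat_lit 4) (nat_lit 411) (nat_lit 305) (nat_lit 304))) (XT.nd (nat_lit 78) (nat_lit 0) (nat_lit 0) (XT.lf (nat_lit 0) (nat_lit 2681027617557) (nat_lit 76) (nat_lit 8315285316857) (nat_lit 0) (nat_lit 2681020334075)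 (nat_lit 1) (nat_lit 5) (nat_lit 2) (nat_lit 4) (nat_lit 1) (nat_lit 4) (nat_lit 412) (nat_lit 305) (nat_lit 303)) (XT.lf (nat_lit 0) (nat_lit 3083788968814) (nat_lit 76) (nat_lit 9561273787271) (nat_lit 0) (nat_lit 3083778739536) (nat_lit 1) (nat_lit 5) (nat_lit 2) (nat_lit 4) (nat_lit 1) (nat_lit 4) (nat_lit 413) (nat_lit 305) (nat_lit 302))))))))
noncomputable def xc4 : XT := (XT.nd (nat_lit 52806) (nat_lit 0) (nat_lit 0) (XT.nd (nat_lit 936) (nat_lit 0) (nat_lit 0) (XT.nd (nat_lit 468) (nat_lit 0) (nat_lit 0) (XT.nd (nat_lit 234) (nat_lit 0) (nat_lit 0) (XT.nd (nat_lit 78) (nat_lit 0) (nat_lit 0) (XT.lf (nat_lit 0) (nat_lit 3546917793079) (nat_lit 76) (nat_lit 10994260171708) (nat_lit 0) (nat_lit 3546905002238) (nat_lit 1) (nat_lit 5) (nat_lit 2) (nat_lit 4) (nat_lit 1) (nat_lit 4) (nat_lit 414) (nat_lit 305) (nat_lit 301)) (XT.nd (nat_lit 78) (nat_lit 0) (nat_lit 0) (XT.lf (nat_lit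 0) (nat_lit 4079475306477) (nat_lit 76) (nat_lit 12642281160299) (nat_lit 0) (nat_lit 4079460288190) (nat_lit 1) (nat_lit 5) (nat_lit 2) (nat_lit 4) (nat_lit 1) (nat_lit 4) (nat_lit 415) (nat_lit 305) (nat_lit 300)) (XT.lf (nat_lit 0) (nat_lit 4691881112533) (nat_lit 76) (nat_lit 14537580641951) (nat_lit 0) (nat_lit 4691864157337) (nat_lit 1) (nat_lit 5) (nat_lit 2) (nat_lit 4) (nat_lit 1) (nat_lit 4) (nat_lit 416) (nat_lit 305) (nat_lit 299)))) (XT.nd (nat_lit 78) (nat_lit 0) (nat_lit 0) (XT.lf (nat_lit 0) (nat_lit 5396117063972) (nat_lit 76) (nat_lit 16717240563043) (nat_lit 0) (nat_lit 5396098424508) (nat_lit 1) (nat_lit 5) (nat_lit 2) (nat_lit 4) (nat_lit 1) (nat_lit 4) (nat_lit 417) (nat_lit 305) (nat_lit 298)) (XT.nd (nat_lit 78) (nat_lit 0) (nat_lit 0) (XT.lf (nat_lit 0) (nat_lit 6205961690281) (nat_lit 76) (nat_lit 19223906443772) (nat_lit 0) (nat_lit 6205941586235) (nat_lit 1)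 (nat_lit 5) (nat_lit 2) (nat_lit 4) (nat_lit 1) (nat_lit 4) (nat_lit 418) (nat_lit 305) (nat_lit 297)) (XT.lf (nat_lit 0) (nat_lit 7137259777626) (nat_lit 76) (nat_lit 22106621747021) (nat_lit 0) (nat_lit 7137238400031) (nat_lit 1) (nat_lit 5) (nat_lit 2) (nat_lit 4) (nat_lit 1) (nat_lit 4) (nat_lit 419) (nat_lit 305) (nat_lit 296))))) (XT.nd (nat_lit 234) (nat_lit 0) (nat_lit 0) (XT.nd (nat_lit 78) (nat_lit 0) (nat_lit 0) (XT.lf (nat_lit 0) (nat_lit 8208232375542) (nat_lit 76) (nat_lit 25421787424376) (nat_lit 0) (nat_lit 8208209890513) (nat_lit 1) (nat_lit 5) (nat_lit 2) (nat_lit 4) (nat_lit 1) (nat_lit 4) (nat_lit 420) (nat_lit 305) (nat_lit 295)) (XT.nd (nat_lit 78) (nat_lit 0) (nat_lit 0) (XT.lf (nat_lit 0) (nat_lit 9439833295727) (nat_lit 76) (nat_lit 29234265413001) (nat_lit 0) (nat_lit 9439809847711) (nat_lit 1) (nat_lit 5) (nat_lit 2) (nat_lit 4) (nat_lit 1) (nat_lit 4) (nat_lit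 421) (nat_lit 305) (nat_lit 294)) (XT.lf (nat_lit 0) (nat_lit 10856159077924) (nat_lit 76) (nat_lit 33618647673544) (nat_lit 0) (nat_lit 10856134792529) (nat_lit 1) (nat_lit 5) (nat_lit 2) (nat_lit 4) (nat_lit 1) (nat_lit 4) (nat_lit 422) (nat_lit 305) (nat_lit 293)))) (XT.nd (nat_lit 78) (nat_lit 0) (nat_lit 0) (XT.lf (nat_lit 0) (nat_lit 12484920443959) (nat_lit 76) (nat_lit 38660715598060) (nat_lit 0) (nat_lit 12484895430408) (nat_lit 1) (nat_lit 5) (nat_lit 2) (nat_lit 4) (nat_lit 1) (nat_lit 4) (nat_lit 423) (nat_lit 305) (nat_lit 292)) (XT.nd (nat_lit 78) (nat_lit 0) (nat_lit 0) (XT.lf (nat_lit 0) (nat_lit 14357984464036) (nat_lit 76) (nat_lit 44459118341593) (nat_lit 0) (nat_lit 14357958817306) (nat_lit 1) (nat_lit 5) (nat_lit 2) (nat_lit 4) (nat_lit 1) (nat_lit 4) (nat_lit 424) (nat_lit 305) (nat_lit 291)) (XT.lf (nat_lit 0) (nat_lit 16511998042896) (nat_lit 76) (nat_lit 51127302914342)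 (nat_lit 0) (nat_lit 16511971845577) (nat_lit 1) (nat_lit 5) (nat_lit 2) (nat_lit 4) (nat_lit 1) (nat_lit 4) (nat_lit 425) (nat_lit 305) (nat_lit 290)))))) (XT.nd (nat_lit 1716) (nat_lit 0) (nat_lit 0) (XT.nd (nat_lit 234) (nat_lit 0) (nat_lit 0) (XT.nd (nat_lit 78) (nat_lit 0) (nat_lit 0) (XT.lf (nat_lit 0) (nat_lit 18989104924475) (nat_lit 76) (nat_lit 58795733797079) (nat_lit 0) (nat_lit 18989078248380) (nat_lit 1) (nat_lit 5) (nat_lit 2) (nat_lit 4) (nat_lit 1) (nat_lit 4) (nat_lit 426) (nat_lit 305) (nat_lit 289)) (XT.nd (nat_lit 78) (nat_lit 0) (nat_lit 0) (XT.lf (nat_lit 0) (nat_lit 21837770243410) (nat_lit 76) (nat_lit 67614445507075) (nat_lit 0) (nat_lit 21837743150990) (nat_lit 1) (nat_lit 5) (nat_lit 2) (nat_lit 4) (nat_lit 1) (nat_lit 4) (nat_lit 427) (nat_lit 305) (nat_lit 288)) (XT.lf (nat_lit 0) (nat_lit 25113728755942) (nat_lit 76) (nat_lit 77755978056047) (nat_lit 0)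 (nat_lit 25113701301501) (nat_lit 1) (nat_lit 5) (nat_lit 2) (nat_lit 4) (nat_lit 1) (nat_lit 4) (nat_lit 428) (nat_lit 305) (nat_lit 287)))) (XT.nd (nat_lit 78) (nat_lit 0) (nat_lit 0) (XT.lf (nat_lit 0) (nat_lit 28881075302534) (nat_lit 76) (nat_lit 89418752732996) (nat_lit 0) (nat_lit 28881047533291) (nat_lit 1) (nat_lit 5) (nat_lit 2) (nat_lit 4) (nat_lit 1) (nat_lit 4) (nat_lit 429) (nat_lit 305) (nat_lit 286)) (XT.nd (nat_lit 78) (nat_lit 0) (nat_lit 0) (XT.lf (nat_lit 0) (nat_lit 33213518837359) (nat_lit 76) (nat_lit 102830954259864) (nat_lit 0) (nat_lit 33213490794374) (nat_lit 1) (nat_lit 5) (nat_lit 2) (nat_lit 4) (nat_lit 1) (nat_lit 4) (nat_lit 430) (nat_lit 305) (nat_lit 285)) (XT.lf (nat_lit 0) (nat_lit 38195824560010) (nat_lit 76) (nat_lit 118254995275218) (nat_lit 0) (nat_lit 38195796278990) (nat_lit 1) (nat_lit 5) (nat_lit 2) (nat_lit 4) (nat_lit 1) (nat_lit 4) (nat_lit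 431) (nat_lit 305) (nat_lit 284))))) (XT.nd (nat_lit 234) (nat_lit 0) (nat_lit 0) (XT.nd (nat_lit 78) (nat_lit 0) (nat_lit 0) (XT.lf (nat_lit 0) (nat_lit 411052509906101) (nat_lit 76) (nat_lit 1272536015804995) (nat_lit 0) (nat_lit 411052480185641) (nat_lit 1) (nat_lit 5) (nat_lit 2) (nat_lit 4) (nat_lit 1) (nat_lit 4) (nat_lit 448) (nat_lit 305) (nat_lit 267)) (XT.nd (nat_lit 78) (nat_lit 0) (nat_lit 0) (XT.lf (nat_lit 0) (nat_lit 472710637679001) (nat_lit 76) (nat_lit 1463415872793757) (nat_lit 0) (nat_lit 472710607939308) (nat_lit 1) (nat_lit 5) (nat_lit 2) (nat_lit 4) (nat_lit 1) (nat_lit 4) (nat_lit 449) (nat_lit 305) (nat_lit 266)) (XT.lf (nat_lit 0) (nat_lit 543617484312718) (nat_lit 76) (nat_lit 1682927708981447) (nat_lit 0) (nat_lit 543617454556298) (nat_lit 1) (nat_lit 5) (nat_lit 2) (nat_lit 4) (nat_lit 1) (nat_lit 4) (nat_lit 450) (nat_lit 305) (nat_lit 265)))) (XT.nd (nat_lit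 49764) (nat_lit 0) (nat_lit 0) (XT.lf (nat_lit 0) (nat_lit 625160357676167) (nat_lit 76) (nat_lit 1935366321163051) (nat_lit 0) (nat_lit 625160327905209) (nat_lit 1) (nat_lit 5) (nat_lit 2) (nat_lit 4) (nat_lit 1) (nat_lit 4) (nat_lit 451) (nat_lit 305) (nat_lit 264)) (XT.nd (nat_lit 78) (nat_lit 0) (nat_lit 0) (XT.lf (nat_lit 0) (nat_lit 765357016116) (nat_lit 76) (nat_lit 2379480040050) (nat_lit 0) (nat_lit 765357016116) (nat_lit 1) (nat_lit 5) (nat_lit 2) (nat_lit 4) (nat_lit 1) (nat_lit 4) (nat_lit 408) (nat_lit 306) (nat_lit 306)) (XT.lf (nat_lit 0) (nat_lit 1761152296993) (nat_lit 76) (nat_lit 5471020792207) (nat_lit 0) (nat_lit 1761147816804) (nat_lit 1) (nat_lit 5) (nat_lit 2) (nat_lit 4) (nat_lit 1) (nat_lit 4) (nat_lit 409) (nat_lit 306) (nat_lit 305))))))) (XT.nd (nat_lit 936) (nat_lit 0) (nat_lit 0) (XT.nd (nat_lit 468) (nat_lit 0) (nat_lit 0) (XT.nd (nat_lit 234) (nat_lit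 0) (nat_lit 0) (XT.nd (nat_lit 78) (nat_lit 0) (nat_lit 0) (XT.lf (nat_lit 0) (nat_lit 2026085231462) (nat_lit 76) (nat_lit 6290042156379) (nat_lit 0) (nat_lit 2026076855457) (nat_lit 1) (nat_lit 5) (nat_lit 2) (nat_lit 4) (nat_lit 1) (nat_lit 4) (nat_lit 410) (nat_lit 306) (nat_lit 304)) (XT.nd (nat_lit 78) (nat_lit 0) (nat_lit 0) (XT.lf (nat_lit 0) (nat_lit 2330696306098) (nat_lit 76) (nat_lit 7232048503654) (nat_lit 0) (nat_lit 2330684542428) (nat_lit 1) (nat_lit 5) (nat_lit 2) (nat_lit 4) (nat_lit 1) (nat_lit 4) (nat_lit 411) (nat_lit 306) (nat_lit 303)) (XT.lf (nat_lit 0) (nat_lit 2680945302796) (nat_lit 76) (nat_lit 8315470393000) (nat_lit 0) (nat_lit 2680930593329) (nat_lit 1) (nat_lit 5) (nat_lit 2) (nat_lit 4) (nat_lit 1) (nat_lit 4) (nat_lit 412) (nat_lit 306) (nat_lit 302)))) (XT.nd (nat_lit 78) (nat_lit 0) (nat_lit 0) (XT.lf (nat_lit 0) (nat_lit 3083684919318) (nat_lit 76)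 (nat_lit 9561505209210) (nat_lit 0) (nat_lit 3083667648288) (nat_lit 1) (nat_lit 5) (nat_lit 2) (nat_lit 4) (nat_lit 1) (nat_lit 4) (nat_lit 413) (nat_lit 306) (nat_lit 301)) (XT.nd (nat_lit 78) (nat_lit 0) (nat_lit 0) (XT.lf (nat_lit 0) (nat_lit 3546794843812) (nat_lit 76) (nat_lit 10994531894339) (nat_lit 0) (nat_lit 3546775345337) (nat_lit 1) (nat_lit 5) (nat_lit 2) (nat_lit 4) (nat_lit 1) (nat_lit 4) (nat_lit 414) (nat_lit 306) (nat_lit 300)) (XT.lf (nat_lit 0) (nat_lit 4079335922628) (nat_lit 76) (nat_lit 12642587927010) (nat_lit 0) (nat_lit 4079314487244) (nat_lit 1) (nat_lit 5) (nat_lit 2) (nat_lit 4) (nat_lit 1) (nat_lit 4) (nat_lit 415) (nat_lit 306) (nat_lit 299))))) (XT.nd (nat_lit 234) (nat_lit 0) (nat_lit 0) (XT.nd (nat_lit 78) (nat_lit 0) (nat_lit 0) (XT.lf (nat_lit 0) (nat_lit 4691727437742) (nat_lit 76) (nat_lit 14537917881775) (nat_lit 0) (nat_lit 4691704318089) (nat_lit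 1) (nat_lit 5) (nat_lit 2) (nat_lit 4) (nat_lit 1) (nat_lit 4) (nat_lit 416) (nat_lit 306) (nat_lit 298)) (XT.nd (nat_lit 78) (nat_lit 0) (nat_lit 0) (XT.lf (nat_lit 0) (nat_lit 5395950962276) (nat_lit 76) (nat_lit 16717604301227) (nat_lit 0) (nat_lit 5395926378042) (nat_lit 1) (nat_lit 5) (nat_lit 2) (nat_lit 4) (nat_lit 1) (nat_lit 4) (nat_lit 417) (nat_lit 306) (nat_lit 297)) (XT.lf (nat_lit 0) (nat_lit 6205784782580) (nat_lit 76) (nat_lit 19224293224007) (nat_lit 0) (nat_lit 6205758924797) (nat_lit 1) (nat_lit 5) (nat_lit 2) (nat_lit 4) (nat_lit 1) (nat_lit 4) (nat_lit 418) (nat_lit 306) (nat_lit 296)))) (XT.nd (nat_lit 78) (nat_lit 0) (nat_lit 0) (XT.lf (nat_lit 0) (nat_lit 7137073473399) (nat_lit 76) (nat_lit 22107028563823) (nat_lit 0) (nat_lit 7137046508182) (nat_lit 1) (nat_lit 5) (nat_lit 2) (nat_lit 4) (nat_lit 1) (nat_lit 4) (nat_lit 419) (nat_lit 306) (nat_lit 295)) (XT.nd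 (nat_lit 78) (nat_lit 0) (nat_lit 0) (XT.lf (nat_lit 0) (nat_lit 8208037900423) (nat_lit 76) (nat_lit 25422211664278) (nat_lit 0) (nat_lit 8208009972219) (nat_lit 1) (nat_lit 5) (nat_lit 2) (nat_lit 4) (nat_lit 1) (nat_lit 4) (nat_lit 420) (nat_lit 306) (nat_lit 294)) (XT.lf (nat_lit 0) (nat_lit 9439631715484) (nat_lit 76) (nat_lit 29234704803427) (nat_lit 0) (nat_lit 9439602949901) (nat_lit 1) (nat_lit 5) (nat_lit 2) (nat_lit 4) (nat_lit 1) (nat_lit 4) (nat_lit 421) (nat_lit 306) (nat_lit 293)))))) (XT.nd (nat_lit 468) (nat_lit 0) (nat_lit 0) (XT.nd (nat_lit 234) (nat_lit 0) (nat_lit 0) (XT.nd (nat_lit 78) (nat_lit 0) (nat_lit 0) (XT.lf (nat_lit 0) (nat_lit 10855951319313) (nat_lit 76) (nat_lit 33619100238338) (nat_lit 0) (nat_lit 10855921825574) (nat_lit 1) (nat_lit 5) (nat_lit 2) (nat_lit 4) (nat_lit 1) (nat_lit 4) (nat_lit 422) (nat_lit 306) (nat_lit 292)) (XT.nd (nat_lit 78) (nat_lit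 0) (nat_lit 0) (XT.lf (nat_lit 0) (nat_lit 12484707312853) (nat_lit 76) (nat_lit 38661179618826) (nat_lit 0) (nat_lit 12484677185936) (nat_lit 1) (nat_lit 5) (nat_lit 2) (nat_lit 4) (nat_lit 1) (nat_lit 4) (nat_lit 423) (nat_lit 306) (nat_lit 291)) (XT.lf (nat_lit 0) (nat_lit 14357766661197) (nat_lit 76) (nat_lit 44459592324073) (nat_lit 0) (nat_lit 14357735983688) (nat_lit 1) (nat_lit 5) (nat_lit 2) (nat_lit 4) (nat_lit 1) (nat_lit 4) (nat_lit 424) (nat_lit 306) (nat_lit 290)))) (XT.nd (nat_lit 78) (nat_lit 0) (nat_lit 0) (XT.lf (nat_lit 0) (nat_lit 16511776177680) (nat_lit 76) (nat_lit 51127785559183) (nat_lit 0) (nat_lit 16511745021397) (nat_lit 1) (nat_lit 5) (nat_lit 2) (nat_lit 4) (nat_lit 1) (nat_lit 4) (nat_lit 425) (nat_lit 306) (nat_lit 289)) (XT.nd (nat_lit 78) (nat_lit 0) (nat_lit 0) (XT.lf (nat_lit 0) (nat_lit 18988879526756) (nat_lit 76) (nat_lit 58796223974407) (nat_lit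 0) (nat_lit 18988847954148) (nat_lit 1) (nat_lit 5) (nat_lit 2) (nat_lit 4) (nat_lit 1) (nat_lit 4) (nat_lit 426) (nat_lit 306) (nat_lit 288)) (XT.lf (nat_lit 0) (nat_lit 21837541773950) (nat_lit 76) (nat_lit 67614942234392) (nat_lit 0) (nat_lit 21837509839320) (nat_lit 1) (nat_lit 5) (nat_lit 2) (nat_lit 4) (nat_lit 1) (nat_lit 4) (nat_lit 427) (nat_lit 306) (nat_lit 287))))) (XT.nd (nat_lit 1560) (nat_lit 0) (nat_lit 0) (XT.nd (nat_lit 78) (nat_lit 0) (nat_lit 0) (XT.lf (nat_lit 0) (nat_lit 25113497615403) (nat_lit 76) (nat_lit 77756480479007) (nat_lit 0) (nat_lit 25113465365971) (nat_lit 1) (nat_lit 5) (nat_lit 2) (nat_lit 4) (nat_lit 1) (nat_lit 4) (nat_lit 428) (nat_lit 306) (nat_lit 286)) (XT.nd (nat_lit 78) (nat_lit 0) (nat_lit 0) (XT.lf (nat_lit 0) (nat_lit 28880841839318) (nat_lit 76) (nat_lit 89419260108689) (nat_lit 0) (nat_lit 28880809316145) (nat_lit 1) (nat_lit 5) (nat_lit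 2) (nat_lit 4) (nat_lit 1) (nat_lit 4) (nat_lit 429) (nat_lit 306) (nat_lit 285)) (XT.lf (nat_lit 0) (nat_lit 33213283354423) (nat_lit 76) (nat_lit 102831465942281) (nat_lit 0) (nat_lit 33213250593214) (nat_lit 1) (nat_lit 5) (nat_lit 2) (nat_lit 4) (nat_lit 1) (nat_lit 4) (nat_lit 430) (nat_lit 306) (nat_lit 284)))) (XT.nd (nat_lit 156) (nat_lit 0) (nat_lit 0) (XT.nd (nat_lit 78) (nat_lit 0) (nat_lit 0) (XT.lf (nat_lit 0) (nat_lit 411052262046391) (nat_lit 76) (nat_lit 1272536553878872) (nat_lit 0) (nat_lit 411052227826509) (nat_lit 1) (nat_lit 5) (nat_lit 2) (nat_lit 4) (nat_lit 1) (nat_lit 4) (nat_lit 448) (nat_lit 306) (nat_lit 266)) (XT.lf (nat_lit 0) (nat_lit 472710389677378) (nat_lit 76) (nat_lit 1463416411170246) (nat_lit 0) (nat_lit 472710355440768) (nat_lit 1) (nat_lit 5) (nat_lit 2) (nat_lit 4) (nat_lit 1) (nat_lit 4) (nat_lit 449) (nat_lit 306) (nat_lit 265))) (XT.nd (nat_lit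 49686) (nat_lit 0) (nat_lit 0) (XT.lf (nat_lit 0) (nat_lit 543617236187685) (nat_lit 76) (nat_lit 1682928247621081) (nat_lit 0) (nat_lit 543617201936535) (nat_lit 1) (nat_lit 5) (nat_lit 2) (nat_lit 4) (nat_lit 1) (nat_lit 4) (nat_lit 450) (nat_lit 306) (nat_lit 264)) (XT.lf (nat_lit 0) (nat_lit 577961382931) (nat_lit 76) (nat_lit 1800860518403) (nat_lit 0) (nat_lit 577961382931) (nat_lit 1) (nat_lit 5) (nat_lit 2) (nat_lit 4) (nat_lit 1) (nat_lit 4) (nat_lit 406) (nat_lit 307) (nat_lit 307))))))))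
noncomputable def xc5 : XT := (XT.nd (nat_lit 52884) (nat_lit 0) (nat_lit 0) (XT.nd (nat_lit 936) (nat_lit 0) (nat_lit 0) (XT.nd (nat_lit 468) (nat_lit 0) (nat_lit 0) (XT.nd (nat_lit 234) (nat_lit 0) (nat_lit 0) (XT.nd (nat_lit 78) (nat_lit 0) (nat_lit 0) (XT.lf (nat_lit 0) (nat_lit 1330267014655) (nat_lit 76) (nat_lit 4139928397432) (nat_lit 0) (nat_lit 1330261862438) (nat_lit 1) (nat_lit 5) (nat_lit 2) (nat_lit 4) (nat_lit 1) (nat_lit 4) (nat_lit 407) (nat_lit 307) (nat_lit 306)) (XT.nd (nat_lit 78) (nat_lit 0) (nat_lit 0) (XT.lf (nat_lit 0) (nat_lit 1530681170261) (nat_lit 76) (nat_lit 4759041139188) (nat_lit 0) (nat_lit 1530671537856) (nat_lit 1) (nat_lit 5) (nat_lit 2) (nat_lit 4) (nat_lit 1) (nat_lit 4) (nat_lit 408) (nat_lit 307) (nat_lit 305)) (XT.lf (nat_lit 0) (nat_lit 1761086379205) (nat_lit 76) (nat_lit 5471172337457) (nat_lit 0) (nat_lit 1761072850984) (nat_lit 1) (nat_lit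 5) (nat_lit 2) (nat_lit 4) (nat_lit 1) (nat_lit 4) (nat_lit 409) (nat_lit 307) (nat_lit 304)))) (XT.nd (nat_lit 78) (nat_lit 0) (nat_lit 0) (XT.lf (nat_lit 0) (nat_lit 2025990569487) (nat_lit 76) (nat_lit 6290254993943) (nat_lit 0) (nat_lit 2025973653600) (nat_lit 1) (nat_lit 5) (nat_lit 2) (nat_lit 4) (nat_lit 1) (nat_lit 4) (nat_lit 410) (nat_lit 307) (nat_lit 303)) (XT.nd (nat_lit 78) (nat_lit 0) (nat_lit 0) (XT.lf (nat_lit 0) (nat_lit 2330576649177) (nat_lit 76) (nat_lit 7232314638883) (nat_lit 0) (nat_lit 2330556787493) (nat_lit 1) (nat_lit 5) (nat_lit 2) (nat_lit 4) (nat_lit 1) (nat_lit 4) (nat_lit 411) (nat_lit 307) (nat_lit 302)) (XT.lf (nat_lit 0) (nat_lit 2680803911140) (nat_lit 76) (nat_lit 8315782874026) (nat_lit 0) (nat_lit 2680781487894) (nat_lit 1) (nat_lit 5) (nat_lit 2) (nat_lit 4) (nat_lit 1) (nat_lit 4) (nat_lit 412) (nat_lit 307) (nat_lit 301))))) (XT.nd (nat_lit 234)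 (nat_lit 0) (nat_lit 0) (XT.nd (nat_lit 78) (nat_lit 0) (nat_lit 0) (XT.lf (nat_lit 0) (nat_lit 3083524627891) (nat_lit 76) (nat_lit 9561857990928) (nat_lit 0) (nat_lit 3083499977200) (nat_lit 1) (nat_lit 5) (nat_lit 2) (nat_lit 4) (nat_lit 1) (nat_lit 4) (nat_lit 413) (nat_lit 307) (nat_lit 300)) (XT.nd (nat_lit 78) (nat_lit 0) (nat_lit 0) (XT.lf (nat_lit 0) (nat_lit 3546618117803) (nat_lit 76) (nat_lit 10994919720137) (nat_lit 0) (nat_lit 3546591530202) (nat_lit 1) (nat_lit 5) (nat_lit 2) (nat_lit 4) (nat_lit 1) (nat_lit 4) (nat_lit 414) (nat_lit 307) (nat_lit 299)) (XT.lf (nat_lit 0) (nat_lit 4079144905678) (nat_lit 76) (nat_lit 12643006225921) (nat_lit 0) (nat_lit 4079116633808) (nat_lit 1) (nat_lit 5) (nat_lit 2) (nat_lit 4) (nat_lit 1) (nat_lit 4) (nat_lit 415) (nat_lit 307) (nat_lit 298)))) (XT.nd (nat_lit 78) (nat_lit 0) (nat_lit 0) (XT.lf (nat_lit 0) (nat_lit 4691523993886) (nat_lit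 76) (nat_lit 14538362679045) (nat_lit 0) (nat_lit 4691494257435) (nat_lit 1) (nat_lit 5) (nat_lit 2) (nat_lit 4) (nat_lit 1) (nat_lit 4) (nat_lit 416) (nat_lit 307) (nat_lit 297)) (XT.nd (nat_lit 78) (nat_lit 0) (nat_lit 0) (XT.lf (nat_lit 0) (nat_lit 5395736712416) (nat_lit 76) (nat_lit 16718072140548) (nat_lit 0) (nat_lit 5395705702415) (nat_lit 1) (nat_lit 5) (nat_lit 2) (nat_lit 4) (nat_lit 1) (nat_lit 4) (nat_lit 417) (nat_lit 307) (nat_lit 296)) (XT.lf (nat_lit 0) (nat_lit 6205561136194) (nat_lit 76) (nat_lit 19224781099895) (nat_lit 0) (nat_lit 6205529018759) (nat_lit 1) (nat_lit 5) (nat_lit 2) (nat_lit 4) (nat_lit 1) (nat_lit 4) (nat_lit 418) (nat_lit 307) (nat_lit 295)))))) (XT.nd (nat_lit 468) (nat_lit 0) (nat_lit 0) (XT.nd (nat_lit 234) (nat_lit 0) (nat_lit 0) (XT.nd (nat_lit 78) (nat_lit 0) (nat_lit 0) (XT.lf (nat_lit 0) (nat_lit 7136841656120) (nat_lit 76) (nat_lit 22107533862812)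 (nat_lit 0) (nat_lit 7136808575700) (nat_lit 1) (nat_lit 5) (nat_lit 2) (nat_lit 4) (nat_lit 1) (nat_lit 4) (nat_lit 419) (nat_lit 307) (nat_lit 294)) (XT.nd (nat_lit 78) (nat_lit 0) (nat_lit 0) (XT.lf (nat_lit 0) (nat_lit 8207798978020) (nat_lit 76) (nat_lit 25422732113791) (nat_lit 0) (nat_lit 8207765060221) (nat_lit 1) (nat_lit 5) (nat_lit 2) (nat_lit 4) (nat_lit 1) (nat_lit 4) (nat_lit 420) (nat_lit 307) (nat_lit 293)) (XT.lf (nat_lit 0) (nat_lit 9439386614713) (nat_lit 76) (nat_lit 29235238427307) (nat_lit 0) (nat_lit 9439351968758) (nat_lit 1) (nat_lit 5) (nat_lit 2) (nat_lit 4) (nat_lit 1) (nat_lit 4) (nat_lit 421) (nat_lit 307) (nat_lit 292)))) (XT.nd (nat_lit 78) (nat_lit 0) (nat_lit 0) (XT.lf (nat_lit 0) (nat_lit 10855700846048) (nat_lit 76) (nat_lit 33619645318190) (nat_lit 0) (nat_lit 10855665566913) (nat_lit 1) (nat_lit 5) (nat_lit 2) (nat_lit 4) (nat_lit 1) (nat_lit 4) (nat_lit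 422) (nat_lit 307) (nat_lit 291)) (XT.nd (nat_lit 78) (nat_lit 0) (nat_lit 0) (XT.lf (nat_lit 0) (nat_lit 12484452167854) (nat_lit 76) (nat_lit 38661734660392) (nat_lit 0) (nat_lit 12484416338129) (nat_lit 1) (nat_lit 5) (nat_lit 2) (nat_lit 4) (nat_lit 1) (nat_lit 4) (nat_lit 423) (nat_lit 307) (nat_lit 290)) (XT.lf (nat_lit 0) (nat_lit 14357507453820) (nat_lit 76) (nat_lit 44460156028001) (nat_lit 0) (nat_lit 14357471145321) (nat_lit 1) (nat_lit 5) (nat_lit 2) (nat_lit 4) (nat_lit 1) (nat_lit 4) (nat_lit 424) (nat_lit 307) (nat_lit 289))))) (XT.nd (nat_lit 234) (nat_lit 0) (nat_lit 0) (XT.nd (nat_lit 78) (nat_lit 0) (nat_lit 0) (XT.lf (nat_lit 0) (nat_lit 16511513437801) (nat_lit 76) (nat_lit 51128356795598) (nat_lit 0) (nat_lit 16511476712976) (nat_lit 1) (nat_lit 5) (nat_lit 2) (nat_lit 4) (nat_lit 1) (nat_lit 4) (nat_lit 425) (nat_lit 307) (nat_lit 288)) (XT.nd (nat_lit 78) (nat_lit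 0) (nat_lit 0) (XT.lf (nat_lit 0) (nat_lit 18988613715136) (nat_lit 76) (nat_lit 58796801760812) (nat_lit 0) (nat_lit 18988576628289) (nat_lit 1) (nat_lit 5) (nat_lit 2) (nat_lit 4) (nat_lit 1) (nat_lit 4) (nat_lit 426) (nat_lit 307) (nat_lit 287)) (XT.lf (nat_lit 0) (nat_lit 21837273291251) (nat_lit 76) (nat_lit 67615525716439) (nat_lit 0) (nat_lit 21837235889602) (nat_lit 1) (nat_lit 5) (nat_lit 2) (nat_lit 4) (nat_lit 1) (nat_lit 4) (nat_lit 427) (nat_lit 307) (nat_lit 286)))) (XT.nd (nat_lit 78) (nat_lit 0) (nat_lit 0) (XT.lf (nat_lit 0) (nat_lit 25113226810027) (nat_lit 76) (nat_lit 77757068913787) (nat_lit 0) (nat_lit 25113189134637) (nat_lit 1) (nat_lit 5) (nat_lit 2) (nat_lit 4) (nat_lit 1) (nat_lit 4) (nat_lit 428) (nat_lit 307) (nat_lit 285)) (XT.nd (nat_lit 78) (nat_lit 0) (nat_lit 0) (XT.lf (nat_lit 0) (nat_lit 28880569014222) (nat_lit 76) (nat_lit 89419852850193) (nat_lit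 0) (nat_lit 28880531100797) (nat_lit 1) (nat_lit 5) (nat_lit 2) (nat_lit 4) (nat_lit 1) (nat_lit 4) (nat_lit 429) (nat_lit 307) (nat_lit 284)) (XT.lf (nat_lit 0) (nat_lit 33213008773049) (nat_lit 76) (nat_lit 102832062428762) (nat_lit 0) (nat_lit 33212970652636) (nat_lit 1) (nat_lit 5) (nat_lit 2) (nat_lit 4) (nat_lit 1) (nat_lit 4) (nat_lit 430) (nat_lit 307) (nat_lit 283))))))) (XT.nd (nat_lit 936) (nat_lit 0) (nat_lit 0) (XT.nd (nat_lit 468) (nat_lit 0) (nat_lit 0) (XT.nd (nat_lit 234) (nat_lit 0) (nat_lit 0) (XT.nd (nat_lit 78) (nat_lit 0) (nat_lit 0) (XT.lf (nat_lit 0) (nat_lit 436149589915) (nat_lit 76) (nat_lit 1363585794533) (nat_lit 0) (nat_lit 436149589915) (nat_lit 1) (nat_lit 5) (nat_lit 2) (nat_lit 4) (nat_lit 1) (nat_lit 4) (nat_lit 404) (nat_lit 308) (nat_lit 308)) (XT.nd (nat_lit 78) (nat_lit 0) (nat_lit 0) (XT.lf (nat_lit 0) (nat_lit 1004243265804) (nat_lit 76) (nat_lit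 3133888913298) (nat_lit 0) (nat_lit 1004237340755) (nat_lit 1) (nat_lit 5) (nat_lit 2) (nat_lit 4) (nat_lit 1) (nat_lit 4) (nat_lit 405) (nat_lit 308) (nat_lit 307)) (XT.lf (nat_lit 0) (nat_lit 1155884974595) (nat_lit 76) (nat_lit 3601814254756) (nat_lit 0) (nat_lit 1155873897329) (nat_lit 1) (nat_lit 5) (nat_lit 2) (nat_lit 4) (nat_lit 1) (nat_lit 4) (nat_lit 406) (nat_lit 308) (nat_lit 306)))) (XT.nd (nat_lit 78) (nat_lit 0) (nat_lit 0) (XT.lf (nat_lit 0) (nat_lit 1330191209199) (nat_lit 76) (nat_lit 4140102674468) (nat_lit 0) (nat_lit 1330175651745) (nat_lit 1) (nat_lit 5) (nat_lit 2) (nat_lit 4) (nat_lit 1) (nat_lit 4) (nat_lit 407) (nat_lit 308) (nat_lit 305)) (XT.nd (nat_lit 78) (nat_lit 0) (nat_lit 0) (XT.lf (nat_lit 0) (nat_lit 1530572308990) (nat_lit 76) (nat_lit 4759285902387) (nat_lit 0) (nat_lit 1530552855720) (nat_lit 1) (nat_lit 5) (nat_lit 2) (nat_lit 4) (nat_lit 1) (nat_lit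 4) (nat_lit 408) (nat_lit 308) (nat_lit 304)) (XT.lf (nat_lit 0) (nat_lit 1760948773746) (nat_lit 76) (nat_lit 5471478392971) (nat_lit 0) (nat_lit 1760925932810) (nat_lit 1) (nat_lit 5) (nat_lit 2) (nat_lit 4) (nat_lit 1) (nat_lit 4) (nat_lit 409) (nat_lit 308) (nat_lit 303))))) (XT.nd (nat_lit 234) (nat_lit 0) (nat_lit 0) (XT.nd (nat_lit 78) (nat_lit 0) (nat_lit 0) (XT.lf (nat_lit 0) (nat_lit 2025827969082) (nat_lit 76) (nat_lit 6290614347123) (nat_lit 0) (nat_lit 2025802182349) (nat_lit 1) (nat_lit 5) (nat_lit 2) (nat_lit 4) (nat_lit 1) (nat_lit 4) (nat_lit 410) (nat_lit 308) (nat_lit 302)) (XT.nd (nat_lit 78) (nat_lit 0) (nat_lit 0) (XT.lf (nat_lit 0) (nat_lit 2330392314037) (nat_lit 76) (nat_lit 7232720337859) (nat_lit 0) (nat_lit 2330363965741) (nat_lit 1) (nat_lit 5) (nat_lit 2) (nat_lit 4) (nat_lit 1) (nat_lit 4) (nat_lit 411) (nat_lit 308) (nat_lit 301)) (XT.lf (nat_lit 0) (nat_lit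 2680600676230) (nat_lit 76) (nat_lit 8316228873693) (nat_lit 0) (nat_lit 2680570100489) (nat_lit 1) (nat_lit 5) (nat_lit 2) (nat_lit 4) (nat_lit 1) (nat_lit 4) (nat_lit 412) (nat_lit 308) (nat_lit 300)))) (XT.nd (nat_lit 78) (nat_lit 0) (nat_lit 0) (XT.lf (nat_lit 0) (nat_lit 3083304958399) (nat_lit 76) (nat_lit 9562339034675) (nat_lit 0) (nat_lit 3083272445748) (nat_lit 1) (nat_lit 5) (nat_lit 2) (nat_lit 4) (nat_lit 1) (nat_lit 4) (nat_lit 413) (nat_lit 308) (nat_lit 299)) (XT.nd (nat_lit 78) (nat_lit 0) (nat_lit 0) (XT.lf (nat_lit 0) (nat_lit 3546384157369) (nat_lit 76) (nat_lit 10995431236998) (nat_lit 0) (nat_lit 3546349960450) (nat_lit 1) (nat_lit 5) (nat_lit 2) (nat_lit 4) (nat_lit 1) (nat_lit 4) (nat_lit 414) (nat_lit 308) (nat_lit 298)) (XT.lf (nat_lit 0) (nat_lit 4078898518338) (nat_lit 76) (nat_lit 12643544241141) (nat_lit 0) (nat_lit 4078862856837) (nat_lit 1) (nat_lit 5)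 (nat_lit 2) (nat_lit 4) (nat_lit 1) (nat_lit 4) (nat_lit 415) (nat_lit 308) (nat_lit 297)))))) (XT.nd (nat_lit 468) (nat_lit 0) (nat_lit 0) (XT.nd (nat_lit 234) (nat_lit 0) (nat_lit 0) (XT.nd (nat_lit 78) (nat_lit 0) (nat_lit 0) (XT.lf (nat_lit 0) (nat_lit 4691266800541) (nat_lit 76) (nat_lit 14538923736317) (nat_lit 0) (nat_lit 4691229865492) (nat_lit 1) (nat_lit 5) (nat_lit 2) (nat_lit 4) (nat_lit 1) (nat_lit 4) (nat_lit 416) (nat_lit 308) (nat_lit 296)) (XT.nd (nat_lit 78) (nat_lit 0) (nat_lit 0) (XT.lf (nat_lit 0) (nat_lit 5395470122545) (nat_lit 76) (nat_lit 16718653234386) (nat_lit 0) (nat_lit 5395432080061) (nat_lit 1) (nat_lit 5) (nat_lit 2) (nat_lit 4) (nat_lit 1) (nat_lit 4) (nat_lit 417) (nat_lit 308) (nat_lit 295)) (XT.lf (nat_lit 0) (nat_lit 6205286375431) (nat_lit 76) (nat_lit 19225379616835) (nat_lit 0) (nat_lit 6205247369961) (nat_lit 1) (nat_lit 5) (nat_lit 2) (nat_lit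 4) (nat_lit 1) (nat_lit 4) (nat_lit 418) (nat_lit 308) (nat_lit 294)))) (XT.nd (nat_lit 78) (nat_lit 0) (nat_lit 0) (XT.lf (nat_lit 0) (nat_lit 7136559790234) (nat_lit 76) (nat_lit 22108147530275) (nat_lit 0) (nat_lit 7136519947385) (nat_lit 1) (nat_lit 5) (nat_lit 2) (nat_lit 4) (nat_lit 1) (nat_lit 4) (nat_lit 419) (nat_lit 308) (nat_lit 293)) (XT.nd (nat_lit 78) (nat_lit 0) (nat_lit 0) (XT.lf (nat_lit 0) (nat_lit 8207510933766) (nat_lit 76) (nat_lit 25423358955621) (nat_lit 0) (nat_lit 8207470362761) (nat_lit 1) (nat_lit 5) (nat_lit 2) (nat_lit 4) (nat_lit 1) (nat_lit 4) (nat_lit 420) (nat_lit 308) (nat_lit 292)) (XT.lf (nat_lit 0) (nat_lit 9439093197964) (nat_lit 76) (nat_lit 29235876725109) (nat_lit 0) (nat_lit 9439051993781) (nat_lit 1) (nat_lit 5) (nat_lit 2) (nat_lit 4) (nat_lit 1) (nat_lit 4) (nat_lit 421) (nat_lit 308) (nat_lit 291))))) (XT.nd (nat_lit 234) (nat_lit 0) (nat_lit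 0) (XT.nd (nat_lit 78) (nat_lit 0) (nat_lit 0) (XT.lf (nat_lit 0) (nat_lit 10855402757565) (nat_lit 76) (nat_lit 33620293577707) (nat_lit 0) (nat_lit 10855361002790) (nat_lit 1) (nat_lit 5) (nat_lit 2) (nat_lit 4) (nat_lit 1) (nat_lit 4) (nat_lit 422) (nat_lit 308) (nat_lit 290)) (XT.nd (nat_lit 78) (nat_lit 0) (nat_lit 0) (XT.lf (nat_lit 0) (nat_lit 12484150016994) (nat_lit 76) (nat_lit 38662391582270) (nat_lit 0) (nat_lit 12484107783445) (nat_lit 1) (nat_lit 5) (nat_lit 2) (nat_lit 4) (nat_lit 1) (nat_lit 4) (nat_lit 423) (nat_lit 308) (nat_lit 289)) (XT.lf (nat_lit 0) (nat_lit 14357201770457) (nat_lit 76) (nat_lit 44460820482365) (nat_lit 0) (nat_lit 14357159120583) (nat_lit 1) (nat_lit 5) (nat_lit 2) (nat_lit 4) (nat_lit 1) (nat_lit 4) (nat_lit 424) (nat_lit 308) (nat_lit 288)))) (XT.nd (nat_lit 156) (nat_lit 0) (nat_lit 0) (XT.nd (nat_lit 78) (nat_lit 0) (nat_lit 0) (XT.lf (nat_lit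 0) (nat_lit 16511204682697) (nat_lit 76) (nat_lit 51129027799952) (nat_lit 0) (nat_lit 16511161670801) (nat_lit 1) (nat_lit 5) (nat_lit 2) (nat_lit 4) (nat_lit 1) (nat_lit 4) (nat_lit 425) (nat_lit 308) (nat_lit 287)) (XT.lf (nat_lit 0) (nat_lit 18988302288953) (nat_lit 76) (nat_lit 58797478460808) (nat_lit 0) (nat_lit 18988258962255) (nat_lit 1) (nat_lit 5) (nat_lit 2) (nat_lit 4) (nat_lit 1) (nat_lit 4) (nat_lit 426) (nat_lit 308) (nat_lit 286))) (XT.nd (nat_lit 78) (nat_lit 0) (nat_lit 0) (XT.lf (nat_lit 0) (nat_lit 21836959542391) (nat_lit 76) (nat_lit 67616207369169) (nat_lit 0) (nat_lit 21836915941952) (nat_lit 1) (nat_lit 5) (nat_lit 2) (nat_lit 4) (nat_lit 1) (nat_lit 4) (nat_lit 427) (nat_lit 308) (nat_lit 285)) (XT.lf (nat_lit 0) (nat_lit 25112911041447) (nat_lit 76) (nat_lit 77757754873240) (nat_lit 0) (nat_lit 25112867202973) (nat_lit 1) (nat_lit 5) (nat_lit 2) (nat_lit 4)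 (nat_lit 1) (nat_lit 4) (nat_lit 428) (nat_lit 308) (nat_lit 284))))))))
noncomputable def xc6 : XT := (XT.nd (nat_lit 52728) (nat_lit 0) (nat_lit 0) (XT.nd (nat_lit 51792) (nat_lit 0) (nat_lit 0) (XT.nd (nat_lit 51324) (nat_lit 0) (nat_lit 0) (XT.nd (nat_lit 51090) (nat_lit 0) (nat_lit 0) (XT.nd (nat_lit 78) (nat_lit 0) (nat_lit 0) (XT.lf (nat_lit 0) (nat_lit 28880251489364) (nat_lit 76) (nat_lit 89420542554625) (nat_lit 0) (nat_lit 28880207443902) (nat_lit 1) (nat_lit 5) (nat_lit 2) (nat_lit 4) (nat_lit 1) (nat_lit 4) (nat_lit 429) (nat_lit 308) (nat_lit 283)) (XT.nd (nat_lit 50934) (nat_lit 0) (nat_lit 0) (XT.lf (nat_lit 0) (nat_lit 33212689720993) (nat_lit 76) (nat_lit 102832755389696) (nat_lit 0) (nat_lit 33212645495542) (nat_lit 1) (nat_lit 5) (nat_lit 2) (nat_lit 4) (nat_lit 1) (nat_lit 4) (nat_lit 430) (nat_lit 308) (nat_lit 282)) (XT.lf (nat_lit 0) (nat_lit 328788663218) (nat_lit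 76) (nat_lit 1033224758890) (nat_lit 0) (nat_lit 328788663218) (nat_lit 1) (nat_lit 5) (nat_lit 2) (nat_lit 4) (nat_lit 1) (nat_lit 4) (nat_lit 402) (nat_lit 309) (nat_lit 309)))) (XT.nd (nat_lit 78) (nat_lit 0) (nat_lit 0) (XT.lf (nat_lit 0) (nat_lit 757478015752) (nat_lit 76) (nat_lit 2373704769198) (nat_lit 0) (nat_lit 757471201945) (nat_lit 1) (nat_lit 5) (nat_lit 2) (nat_lit 4) (nat_lit 1) (nat_lit 4) (nat_lit 403) (nat_lit 309) (nat_lit 308)) (XT.nd (nat_lit 78) (nat_lit 0) (nat_lit 0) (XT.lf (nat_lit 0) (nat_lit 872255719872) (nat_lit 76) (nat_lit 2727278789710) (nat_lit 0) (nat_lit 872242981016) (nat_lit 1) (nat_lit 5) (nat_lit 2) (nat_lit 4) (nat_lit 1) (nat_lit 4) (nat_lit 404) (nat_lit 309) (nat_lit 307)) (XT.lf (nat_lit 0) (nat_lit 1004156089530) (nat_lit 76) (nat_lit 3134089331890) (nat_lit 0) (nat_lit 1004138198458) (nat_lit 1) (nat_lit 5) (nat_lit 2) (nat_lit 4) (nat_lit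 1) (nat_lit 4) (nat_lit 405) (nat_lit 309) (nat_lit 306))))) (XT.nd (nat_lit 234) (nat_lit 0) (nat_lit 0) (XT.nd (nat_lit 78) (nat_lit 0) (nat_lit 0) (XT.lf (nat_lit 0) (nat_lit 1155759784133) (nat_lit 76) (nat_lit 3602095732434) (nat_lit 0) (nat_lit 1155737412872) (nat_lit 1) (nat_lit 5) (nat_lit 2) (nat_lit 4) (nat_lit 1) (nat_lit 4) (nat_lit 406) (nat_lit 309) (nat_lit 305)) (XT.nd (nat_lit 78) (nat_lit 0) (nat_lit 0) (XT.lf (nat_lit 0) (nat_lit 1330032962921) (nat_lit 76) (nat_lit 4140454638309) (nat_lit 0) (nat_lit 1330006695844) (nat_lit 1) (nat_lit 5) (nat_lit 2) (nat_lit 4) (nat_lit 1) (nat_lit 4) (nat_lit 407) (nat_lit 309) (nat_lit 304)) (XT.lf (nat_lit 0) (nat_lit 1530385318525) (nat_lit 76) (nat_lit 4759699158543) (nat_lit 0) (nat_lit 1530355663781) (nat_lit 1) (nat_lit 5) (nat_lit 2) (nat_lit 4) (nat_lit 1) (nat_lit 4) (nat_lit 408) (nat_lit 309) (nat_lit 303)))) (XT.nd (nat_lit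 78) (nat_lit 0) (nat_lit 0) (XT.lf (nat_lit 0) (nat_lit 1760736788335) (nat_lit 76) (nat_lit 5471944946792) (nat_lit 0) (nat_lit 1760704187795) (nat_lit 1) (nat_lit 5) (nat_lit 2) (nat_lit 4) (nat_lit 1) (nat_lit 4) (nat_lit 409) (nat_lit 309) (nat_lit 302)) (XT.nd (nat_lit 78) (nat_lit 0) (nat_lit 0) (XT.lf (nat_lit 0) (nat_lit 2025594248935) (nat_lit 76) (nat_lit 6291127246740) (nat_lit 0) (nat_lit 2025559086833) (nat_lit 1) (nat_lit 5) (nat_lit 2) (nat_lit 4) (nat_lit 1) (nat_lit 4) (nat_lit 410) (nat_lit 309) (nat_lit 301)) (XT.lf (nat_lit 0) (nat_lit 2330139694120) (nat_lit 76) (nat_lit 7233273538168) (nat_lit 0) (nat_lit 2330102304572) (nat_lit 1) (nat_lit 5) (nat_lit 2) (nat_lit 4) (nat_lit 1) (nat_lit 4) (nat_lit 411) (nat_lit 309) (nat_lit 300)))))) (XT.nd (nat_lit 468) (nat_lit 0) (nat_lit 0) (XT.nd (nat_lit 234) (nat_lit 0) (nat_lit 0) (XT.nd (nat_lit 78) (nat_lit 0) (nat_lit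 0) (XT.lf (nat_lit 0) (nat_lit 2680331621730) (nat_lit 76) (nat_lit 8316817118083) (nat_lit 0) (nat_lit 2680292295273) (nat_lit 1) (nat_lit 5) (nat_lit 2) (nat_lit 4) (nat_lit 1) (nat_lit 4) (nat_lit 412) (nat_lit 309) (nat_lit 299)) (XT.nd (nat_lit 78) (nat_lit 0) (nat_lit 0) (XT.lf (nat_lit 0) (nat_lit 3083021612958) (nat_lit 76) (nat_lit 9562957752178) (nat_lit 0) (nat_lit 3082980602232) (nat_lit 1) (nat_lit 5) (nat_lit 2) (nat_lit 4) (nat_lit 1) (nat_lit 4) (nat_lit 413) (nat_lit 309) (nat_lit 298)) (XT.lf (nat_lit 0) (nat_lit 3546088385022) (nat_lit 76) (nat_lit 10996076452860) (nat_lit 0) (nat_lit 3546045909715) (nat_lit 1) (nat_lit 5) (nat_lit 2) (nat_lit 4) (nat_lit 1) (nat_lit 4) (nat_lit 414) (nat_lit 309) (nat_lit 297)))) (XT.nd (nat_lit 78) (nat_lit 0) (nat_lit 0) (XT.lf (nat_lit 0) (nat_lit 4078591939986) (nat_lit 76) (nat_lit 12644212499055) (nat_lit 0) (nat_lit 4078548191130)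 (nat_lit 1) (nat_lit 5) (nat_lit 2) (nat_lit 4) (nat_lit 1) (nat_lit 4) (nat_lit 415) (nat_lit 309) (nat_lit 296)) (XT.nd (nat_lit 78) (nat_lit 0) (nat_lit 0) (XT.lf (nat_lit 0) (nat_lit 4690950825664) (nat_lit 76) (nat_lit 14539612030797) (nat_lit 0) (nat_lit 4690905969374) (nat_lit 1) (nat_lit 5) (nat_lit 2) (nat_lit 4) (nat_lit 1) (nat_lit 4) (nat_lit 416) (nat_lit 309) (nat_lit 295)) (XT.lf (nat_lit 0) (nat_lit 5395145976775) (nat_lit 76) (nat_lit 16719358951968) (nat_lit 0) (nat_lit 5395100157499) (nat_lit 1) (nat_lit 5) (nat_lit 2) (nat_lit 4) (nat_lit 1) (nat_lit 4) (nat_lit 417) (nat_lit 309) (nat_lit 294))))) (XT.nd (nat_lit 234) (nat_lit 0) (nat_lit 0) (XT.nd (nat_lit 78) (nat_lit 0) (nat_lit 0) (XT.lf (nat_lit 0) (nat_lit 6204955124538) (nat_lit 76) (nat_lit 19226100484939) (nat_lit 0) (nat_lit 6204908467882) (nat_lit 1) (nat_lit 5) (nat_lit 2) (nat_lit 4) (nat_lit 1) (nat_lit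 4) (nat_lit 418) (nat_lit 309) (nat_lit 293)) (XT.nd (nat_lit 78) (nat_lit 0) (nat_lit 0) (XT.lf (nat_lit 0) (nat_lit 7136222360973) (nat_lit 76) (nat_lit 22108881572747) (nat_lit 0) (nat_lit 7136174976161) (nat_lit 1) (nat_lit 5) (nat_lit 2) (nat_lit 4) (nat_lit 1) (nat_lit 4) (nat_lit 419) (nat_lit 309) (nat_lit 292)) (XT.lf (nat_lit 0) (nat_lit 8207168132010) (nat_lit 76) (nat_lit 25424104454065) (nat_lit 0) (nat_lit 8207120114019) (nat_lit 1) (nat_lit 5) (nat_lit 2) (nat_lit 4) (nat_lit 1) (nat_lit 4) (nat_lit 420) (nat_lit 309) (nat_lit 291)))) (XT.nd (nat_lit 78) (nat_lit 0) (nat_lit 0) (XT.lf (nat_lit 0) (nat_lit 9438745724475) (nat_lit 76) (nat_lit 29236632185268) (nat_lit 0) (nat_lit 9438697155894) (nat_lit 1) (nat_lit 5) (nat_lit 2) (nat_lit 4) (nat_lit 1) (nat_lit 4) (nat_lit 421) (nat_lit 309) (nat_lit 290)) (XT.nd (nat_lit 78) (nat_lit 0) (nat_lit 0) (XT.lf (nat_lit 0) (nat_lit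 10855051221698) (nat_lit 76) (nat_lit 33621057700226) (nat_lit 0) (nat_lit 10855002174342) (nat_lit 1) (nat_lit 5) (nat_lit 2) (nat_lit 4) (nat_lit 1) (nat_lit 4) (nat_lit 422) (nat_lit 309) (nat_lit 289)) (XT.lf (nat_lit 0) (nat_lit 12483794948624) (nat_lit 76) (nat_lit 38663163237277) (nat_lit 0) (nat_lit 12483745484944) (nat_lit 1) (nat_lit 5) (nat_lit 2) (nat_lit 4) (nat_lit 1) (nat_lit 4) (nat_lit 423) (nat_lit 309) (nat_lit 288))))))) (XT.nd (nat_lit 51636) (nat_lit 0) (nat_lit 0) (XT.nd (nat_lit 468) (nat_lit 0) (nat_lit 0) (XT.nd (nat_lit 234) (nat_lit 0) (nat_lit 0) (XT.nd (nat_lit 78) (nat_lit 0) (nat_lit 0) (XT.lf (nat_lit 0) (nat_lit 14356843630347) (nat_lit 76) (nat_lit 44461598687362) (nat_lit 0) (nat_lit 14356793804644) (nat_lit 1) (nat_lit 5) (nat_lit 2) (nat_lit 4) (nat_lit 1) (nat_lit 4) (nat_lit 424) (nat_lit 309) (nat_lit 287)) (XT.nd (nat_lit 78) (nat_lit 0) (nat_lit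 0) (XT.lf (nat_lit 0) (nat_lit 16510843871508) (nat_lit 76) (nat_lit 51129811700591) (nat_lit 0) (nat_lit 16510793731003) (nat_lit 1) (nat_lit 5) (nat_lit 2) (nat_lit 4) (nat_lit 1) (nat_lit 4) (nat_lit 425) (nat_lit 309) (nat_lit 286)) (XT.lf (nat_lit 0) (nat_lit 18987939155086) (nat_lit 76) (nat_lit 58798267314180) (nat_lit 0) (nat_lit 18987888740841) (nat_lit 1) (nat_lit 5) (nat_lit 2) (nat_lit 4) (nat_lit 1) (nat_lit 4) (nat_lit 426) (nat_lit 309) (nat_lit 285)))) (XT.nd (nat_lit 78) (nat_lit 0) (nat_lit 0) (XT.lf (nat_lit 0) (nat_lit 21836594388804) (nat_lit 76) (nat_lit 67617000529265) (nat_lit 0) (nat_lit 21836543736523) (nat_lit 1) (nat_lit 5) (nat_lit 2) (nat_lit 4) (nat_lit 1) (nat_lit 4) (nat_lit 427) (nat_lit 309) (nat_lit 284)) (XT.nd (nat_lit 78) (nat_lit 0) (nat_lit 0) (XT.lf (nat_lit 0) (nat_lit 25112544131583) (nat_lit 76) (nat_lit 77758551778314) (nat_lit 0) (nat_lit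 25112493272314) (nat_lit 1) (nat_lit 5) (nat_lit 2) (nat_lit 4) (nat_lit 1) (nat_lit 4) (nat_lit 428) (nat_lit 309) (nat_lit 283)) (XT.lf (nat_lit 0) (nat_lit 28879883052302) (nat_lit 76) (nat_lit 89421342716200) (nat_lit 0) (nat_lit 28879832013044) (nat_lit 1) (nat_lit 5) (nat_lit 2) (nat_lit 4) (nat_lit 1) (nat_lit 4) (nat_lit 429) (nat_lit 309) (nat_lit 282))))) (XT.nd (nat_lit 50934) (nat_lit 0) (nat_lit 0) (XT.nd (nat_lit 50778) (nat_lit 0) (nat_lit 0) (XT.lf (nat_lit 0) (nat_lit 33212319955932) (nat_lit 76) (nat_lit 102833558383013) (nat_lit 0) (nat_lit 33212268760163) (nat_lit 1) (nat_lit 5) (nat_lit 2) (nat_lit 4) (nat_lit 1) (nat_lit 4) (nat_lit 430) (nat_lit 309) (nat_lit 281)) (XT.nd (nat_lit 78) (nat_lit 0) (nat_lit 0) (XT.lf (nat_lit 0) (nat_lit 247457915302) (nat_lit 76) (nat_lit 783748053197) (nat_lit 0) (nat_lit 247457915302) (nat_lit 1) (nat_lit 5) (nat_lit 2) (nat_lit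 4) (nat_lit 1) (nat_lit 4) (nat_lit 400) (nat_lit 310) (nat_lit 310)) (XT.lf (nat_lit 0) (nat_lit 570606909099) (nat_lit 76) (nat_lit 1799501519667) (nat_lit 0) (nat_lit 570599073221) (nat_lit 1) (nat_lit 5) (nat_lit 2) (nat_lit 4) (nat_lit 1) (nat_lit 4) (nat_lit 401) (nat_lit 310) (nat_lit 309)))) (XT.nd (nat_lit 78) (nat_lit 0) (nat_lit 0) (XT.lf (nat_lit 0) (nat_lit 657527347485) (nat_lit 76) (nat_lit 2066572798518) (nat_lit 0) (nat_lit 657512697801) (nat_lit 1) (nat_lit 5) (nat_lit 2) (nat_lit 4) (nat_lit 1) (nat_lit 4) (nat_lit 402) (nat_lit 310) (nat_lit 308)) (XT.nd (nat_lit 78) (nat_lit 0) (nat_lit 0) (XT.lf (nat_lit 0) (nat_lit 757377763037) (nat_lit 76) (nat_lit 2373935250579) (nat_lit 0) (nat_lit 757357188303) (nat_lit 1) (nat_lit 5) (nat_lit 2) (nat_lit 4) (nat_lit 1) (nat_lit 4) (nat_lit 403) (nat_lit 310) (nat_lit 307)) (XT.lf (nat_lit 0) (nat_lit 872111750841) (nat_lit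 76) (nat_lit 2727602489040) (nat_lit 0) (nat_lit 872086023891) (nat_lit 1) (nat_lit 5) (nat_lit 2) (nat_lit 4) (nat_lit 1) (nat_lit 4) (nat_lit 404) (nat_lit 310) (nat_lit 306)))))) (XT.nd (nat_lit 468) (nat_lit 0) (nat_lit 0) (XT.nd (nat_lit 234) (nat_lit 0) (nat_lit 0) (XT.nd (nat_lit 78) (nat_lit 0) (nat_lit 0) (XT.lf (nat_lit 0) (nat_lit 1003974106311) (nat_lit 76) (nat_lit 3134494090308) (nat_lit 0) (nat_lit 1003943899172) (nat_lit 1) (nat_lit 5) (nat_lit 2) (nat_lit 4) (nat_lit 1) (nat_lit 4) (nat_lit 405) (nat_lit 310) (nat_lit 305)) (XT.nd (nat_lit 78) (nat_lit 0) (nat_lit 0) (XT.lf (nat_lit 0) (nat_lit 1155544745097) (nat_lit 76) (nat_lit 3602570977014) (nat_lit 0) (nat_lit 1155510642143) (nat_lit 1) (nat_lit 5) (nat_lit 2) (nat_lit 4) (nat_lit 1) (nat_lit 4) (nat_lit 406) (nat_lit 310) (nat_lit 304)) (XT.lf (nat_lit 0) (nat_lit 1329789179698) (nat_lit 76) (nat_lit 4140991175204)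 (nat_lit 0) (nat_lit 1329751689077) (nat_lit 1) (nat_lit 5) (nat_lit 2) (nat_lit 4) (nat_lit 1) (nat_lit 4) (nat_lit 407) (nat_lit 310) (nat_lit 303)))) (XT.nd (nat_lit 78) (nat_lit 0) (nat_lit 0) (XT.lf (nat_lit 0) (nat_lit 1530116540356) (nat_lit 76) (nat_lit 4760288993103) (nat_lit 0) (nat_lit 1530076103938) (nat_lit 1) (nat_lit 5) (nat_lit 2) (nat_lit 4) (nat_lit 1) (nat_lit 4) (nat_lit 408) (nat_lit 310) (nat_lit 302)) (XT.nd (nat_lit 78) (nat_lit 0) (nat_lit 0) (XT.lf (nat_lit 0) (nat_lit 1760446275430) (nat_lit 76) (nat_lit 5472581127149) (nat_lit 0) (nat_lit 1760403277450) (nat_lit 1) (nat_lit 5) (nat_lit 2) (nat_lit 4) (nat_lit 1) (nat_lit 4) (nat_lit 409) (nat_lit 310) (nat_lit 301)) (XT.lf (nat_lit 0) (nat_lit 2025284836261) (nat_lit 76) (nat_lit 6291803727789) (nat_lit 0) (nat_lit 2025239610835) (nat_lit 1) (nat_lit 5) (nat_lit 2) (nat_lit 4) (nat_lit 1) (nat_lit 4) (nat_lit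 410) (nat_lit 310) (nat_lit 300))))) (XT.nd (nat_lit 234) (nat_lit 0) (nat_lit 0) (XT.nd (nat_lit 78) (nat_lit 0) (nat_lit 0) (XT.lf (nat_lit 0) (nat_lit 2329813846863) (nat_lit 76) (nat_lit 7233985063297) (nat_lit 0) (nat_lit 2329766684529) (nat_lit 1) (nat_lit 5) (nat_lit 2) (nat_lit 4) (nat_lit 1) (nat_lit 4) (nat_lit 411) (nat_lit 310) (nat_lit 299)) (XT.nd (nat_lit 78) (nat_lit 0) (nat_lit 0) (XT.lf (nat_lit 0) (nat_lit 2679991483531) (nat_lit 76) (nat_lit 8317559116325) (nat_lit 0) (nat_lit 2679942636928) (nat_lit 1) (nat_lit 5) (nat_lit 2) (nat_lit 4) (nat_lit 1) (nat_lit 4) (nat_lit 412) (nat_lit 310) (nat_lit 298)) (XT.lf (nat_lit 0) (nat_lit 3082669047853) (nat_lit 76) (nat_lit 9563726248779) (nat_lit 0) (nat_lit 3082618736669) (nat_lit 1) (nat_lit 5) (nat_lit 2) (nat_lit 4) (nat_lit 1) (nat_lit 4) (nat_lit 413) (nat_lit 310) (nat_lit 297)))) (XT.nd (nat_lit 156) (nat_lit 0)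 (nat_lit 0) (XT.nd (nat_lit 78) (nat_lit 0) (nat_lit 0) (XT.lf (nat_lit 0) (nat_lit 3545725013913) (nat_lit 76) (nat_lit 10996867991512) (nat_lit 0) (nat_lit 3545673429179) (nat_lit 1) (nat_lit 5) (nat_lit 2) (nat_lit 4) (nat_lit 1) (nat_lit 4) (nat_lit 414) (nat_lit 310) (nat_lit 296)) (XT.lf (nat_lit 0) (nat_lit 4078219172351) (nat_lit 76) (nat_lit 12645024074274) (nat_lit 0) (nat_lit 4078166480183) (nat_lit 1) (nat_lit 5) (nat_lit 2) (nat_lit 4) (nat_lit 1) (nat_lit 4) (nat_lit 415) (nat_lit 310) (nat_lit 295))) (XT.nd (nat_lit 78) (nat_lit 0) (nat_lit 0) (XT.lf (nat_lit 0) (nat_lit 4690569887137) (nat_lit 76) (nat_lit 14540441029117) (nat_lit 0) (nat_lit 4690516231983) (nat_lit 1) (nat_lit 5) (nat_lit 2) (nat_lit 4) (nat_lit 1) (nat_lit 4) (nat_lit 416) (nat_lit 310) (nat_lit 294)) (XT.lf (nat_lit 0) (nat_lit 5394757933125) (nat_lit 76) (nat_lit 16720203100811) (nat_lit 0) (nat_lit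 5394703440592) (nat_lit 1) (nat_lit 5) (nat_lit 2) (nat_lit 4) (nat_lit 1) (nat_lit 4) (nat_lit 417) (nat_lit 310) (nat_lit 293))))))))
noncomputable def xc7 : XT := (XT.nd (nat_lit 52416) (nat_lit 0) (nat_lit 0) (XT.nd (nat_lit 936) (nat_lit 0) (nat_lit 0) (XT.nd (nat_lit 468) (nat_lit 0) (nat_lit 0) (XT.nd (nat_lit 234) (nat_lit 0) (nat_lit 0) (XT.nd (nat_lit 78) (nat_lit 0) (nat_lit 0) (XT.lf (nat_lit 0) (nat_lit 6204560902519) (nat_lit 76) (nat_lit 19226957808150) (nat_lit 0) (nat_lit 6204505681830) (nat_lit 1) (nat_lit 5) (nat_lit 2) (nat_lit 4) (nat_lit 1) (nat_lit 4) (nat_lit 418) (nat_lit 310) (nat_lit 292)) (XT.nd (nat_lit 78) (nat_lit 0) (nat_lit 0) (XT.lf (nat_lit 0) (nat_lit 7135822766459) (nat_lit 76) (nat_lit 22109750351930) (nat_lit 0) (nat_lit 7135766912591) (nat_lit 1) (nat_lit 5) (nat_lit 2) (nat_lit 4) (nat_lit 1) (nat_lit 4) (nat_lit 419) (nat_lit 310) (nat_lit 291))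 (XT.lf (nat_lit 0) (nat_lit 8206763865763) (nat_lit 76) (nat_lit 25424983194963) (nat_lit 0) (nat_lit 8206707461304) (nat_lit 1) (nat_lit 5) (nat_lit 2) (nat_lit 4) (nat_lit 1) (nat_lit 4) (nat_lit 420) (nat_lit 310) (nat_lit 290)))) (XT.nd (nat_lit 78) (nat_lit 0) (nat_lit 0) (XT.lf (nat_lit 0) (nat_lit 9438337395850) (nat_lit 76) (nat_lit 29237519588526) (nat_lit 0) (nat_lit 9438280512617) (nat_lit 1) (nat_lit 5) (nat_lit 2) (nat_lit 4) (nat_lit 1) (nat_lit 4) (nat_lit 421) (nat_lit 310) (nat_lit 289)) (XT.nd (nat_lit 78) (nat_lit 0) (nat_lit 0) (XT.lf (nat_lit 0) (nat_lit 10854639360571) (nat_lit 76) (nat_lit 33621952635972) (nat_lit 0) (nat_lit 10854582061012) (nat_lit 1) (nat_lit 5) (nat_lit 2) (nat_lit 4) (nat_lit 1) (nat_lit 4) (nat_lit 422) (nat_lit 310) (nat_lit 288)) (XT.lf (nat_lit 0) (nat_lit 12483380015757) (nat_lit 76) (nat_lit 38664064723012) (nat_lit 0) (nat_lit 12483322354176)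 (nat_lit 1) (nat_lit 5) (nat_lit 2) (nat_lit 4) (nat_lit 1) (nat_lit 4) (nat_lit 423) (nat_lit 310) (nat_lit 287))))) (XT.nd (nat_lit 234) (nat_lit 0) (nat_lit 0) (XT.nd (nat_lit 78) (nat_lit 0) (nat_lit 0) (XT.lf (nat_lit 0) (nat_lit 14356426026400) (nat_lit 76) (nat_lit 44462505868739) (nat_lit 0) (nat_lit 14356368050018) (nat_lit 1) (nat_lit 5) (nat_lit 2) (nat_lit 4) (nat_lit 1) (nat_lit 4) (nat_lit 424) (nat_lit 310) (nat_lit 286)) (XT.nd (nat_lit 78) (nat_lit 0) (nat_lit 0) (XT.lf (nat_lit 0) (nat_lit 16510423944883) (nat_lit 76) (nat_lit 51130723834701) (nat_lit 0) (nat_lit 16510365694760) (nat_lit 1) (nat_lit 5) (nat_lit 2) (nat_lit 4) (nat_lit 1) (nat_lit 4) (nat_lit 425) (nat_lit 310) (nat_lit 285)) (XT.lf (nat_lit 0) (nat_lit 18987517208742) (nat_lit 76) (nat_lit 58799183755015) (nat_lit 0) (nat_lit 18987458720584) (nat_lit 1) (nat_lit 5) (nat_lit 2) (nat_lit 4) (nat_lit 1)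 (nat_lit 4) (nat_lit 426) (nat_lit 310) (nat_lit 284)))) (XT.nd (nat_lit 78) (nat_lit 0) (nat_lit 0) (XT.lf (nat_lit 0) (nat_lit 21836170686182) (nat_lit 76) (nat_lit 67617920715077) (nat_lit 0) (nat_lit 21836111991036) (nat_lit 1) (nat_lit 5) (nat_lit 2) (nat_lit 4) (nat_lit 1) (nat_lit 4) (nat_lit 427) (nat_lit 310) (nat_lit 283)) (XT.nd (nat_lit 78) (nat_lit 0) (nat_lit 0) (XT.lf (nat_lit 0) (nat_lit 25112118901763) (nat_lit 76) (nat_lit 77759475220628) (nat_lit 0) (nat_lit 25112060026627) (nat_lit 1) (nat_lit 5) (nat_lit 2) (nat_lit 4) (nat_lit 1) (nat_lit 4) (nat_lit 428) (nat_lit 310) (nat_lit 282)) (XT.lf (nat_lit 0) (nat_lit 28879456494483) (nat_lit 76) (nat_lit 89422268990256) (nat_lit 0) (nat_lit 28879397462836) (nat_lit 1) (nat_lit 5) (nat_lit 2) (nat_lit 4) (nat_lit 1) (nat_lit 4) (nat_lit 429) (nat_lit 310) (nat_lit 281)))))) (XT.nd (nat_lit 51012) (nat_lit 0) (nat_lit 0)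 (XT.nd (nat_lit 50778) (nat_lit 0) (nat_lit 0) (XT.nd (nat_lit 50622) (nat_lit 0) (nat_lit 0) (XT.lf (nat_lit 0) (nat_lit 33211892243332) (nat_lit 76) (nat_lit 102834487119452) (nat_lit 0) (nat_lit 33211833075587) (nat_lit 1) (nat_lit 5) (nat_lit 2) (nat_lit 4) (nat_lit 1) (nat_lit 4) (nat_lit 430) (nat_lit 310) (nat_lit 280)) (XT.nd (nat_lit 78) (nat_lit 0) (nat_lit 0) (XT.lf (nat_lit 0) (nat_lit 185787152769) (nat_lit 76) (nat_lit 595480076279) (nat_lit 0) (nat_lit 185787152769) (nat_lit 1) (nat_lit 5) (nat_lit 2) (nat_lit 4) (nat_lit 1) (nat_lit 4) (nat_lit 398) (nat_lit 311) (nat_lit 311)) (XT.lf (nat_lit 0) (nat_lit 428982210858) (nat_lit 76) (nat_lit 1366017322353) (nat_lit 0) (nat_lit 428973199599) (nat_lit 1) (nat_lit 5) (nat_lit 2) (nat_lit 4) (nat_lit 1) (nat_lit 4) (nat_lit 399) (nat_lit 311) (nat_lit 310)))) (XT.nd (nat_lit 78) (nat_lit 0) (nat_lit 0) (XT.lf (nat_lit 0) (nat_lit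 494858354811) (nat_lit 76) (nat_lit 1567637879243) (nat_lit 0) (nat_lit 494841507675) (nat_lit 1) (nat_lit 5) (nat_lit 2) (nat_lit 4) (nat_lit 1) (nat_lit 4) (nat_lit 400) (nat_lit 311) (nat_lit 309)) (XT.nd (nat_lit 78) (nat_lit 0) (nat_lit 0) (XT.lf (nat_lit 0) (nat_lit 570491618477) (nat_lit 76) (nat_lit 1799766573255) (nat_lit 0) (nat_lit 570467957533) (nat_lit 1) (nat_lit 5) (nat_lit 2) (nat_lit 4) (nat_lit 1) (nat_lit 4) (nat_lit 401) (nat_lit 311) (nat_lit 308)) (XT.lf (nat_lit 0) (nat_lit 657361783099) (nat_lit 76) (nat_lit 2066945052749) (nat_lit 0) (nat_lit 657332197106) (nat_lit 1) (nat_lit 5) (nat_lit 2) (nat_lit 4) (nat_lit 1) (nat_lit 4) (nat_lit 402) (nat_lit 311) (nat_lit 307))))) (XT.nd (nat_lit 234) (nat_lit 0) (nat_lit 0) (XT.nd (nat_lit 78) (nat_lit 0) (nat_lit 0) (XT.lf (nat_lit 0) (nat_lit 757168482334) (nat_lit 76) (nat_lit 2374400722759) (nat_lit 0) (nat_lit 757133744125)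 (nat_lit 1) (nat_lit 5) (nat_lit 2) (nat_lit 4) (nat_lit 1) (nat_lit 4) (nat_lit 403) (nat_lit 311) (nat_lit 306)) (XT.nd (nat_lit 78) (nat_lit 0) (nat_lit 0) (XT.lf (nat_lit 0) (nat_lit 871864455950) (nat_lit 76) (nat_lit 2728149020307) (nat_lit 0) (nat_lit 871825237552) (nat_lit 1) (nat_lit 5) (nat_lit 2) (nat_lit 4) (nat_lit 1) (nat_lit 4) (nat_lit 404) (nat_lit 311) (nat_lit 305)) (XT.lf (nat_lit 0) (nat_lit 1003693755604) (nat_lit 76) (nat_lit 3135111107737) (nat_lit 0) (nat_lit 1003650641390) (nat_lit 1) (nat_lit 5) (nat_lit 2) (nat_lit 4) (nat_lit 1) (nat_lit 4) (nat_lit 405) (nat_lit 311) (nat_lit 304)))) (XT.nd (nat_lit 78) (nat_lit 0) (nat_lit 0) (XT.lf (nat_lit 0) (nat_lit 1155235650203) (nat_lit 76) (nat_lit 3603249286758) (nat_lit 0) (nat_lit 1155189148323) (nat_lit 1) (nat_lit 5) (nat_lit 2) (nat_lit 4) (nat_lit 1) (nat_lit 4) (nat_lit 406) (nat_lit 311) (nat_lit 303)) (XT.nd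 (nat_lit 78) (nat_lit 0) (nat_lit 0) (XT.lf (nat_lit 0) (nat_lit 1329455089858) (nat_lit 76) (nat_lit 4141722782614) (nat_lit 0) (nat_lit 1329405642181) (nat_lit 1) (nat_lit 5) (nat_lit 2) (nat_lit 4) (nat_lit 1) (nat_lit 4) (nat_lit 407) (nat_lit 311) (nat_lit 302)) (XT.lf (nat_lit 0) (nat_lit 1529760715780) (nat_lit 76) (nat_lit 4761066946309) (nat_lit 0) (nat_lit 1529708706541) (nat_lit 1) (nat_lit 5) (nat_lit 2) (nat_lit 4) (nat_lit 1) (nat_lit 4) (nat_lit 408) (nat_lit 311) (nat_lit 301))))))) (XT.nd (nat_lit 936) (nat_lit 0) (nat_lit 0) (XT.nd (nat_lit 468) (nat_lit 0) (nat_lit 0) (XT.nd (nat_lit 234) (nat_lit 0) (nat_lit 0) (XT.nd (nat_lit 78) (nat_lit 0) (nat_lit 0) (XT.lf (nat_lit 0) (nat_lit 1760071551085) (nat_lit 76) (nat_lit 5473399381046) (nat_lit 0) (nat_lit 1760017314400) (nat_lit 1) (nat_lit 5) (nat_lit 2) (nat_lit 4) (nat_lit 1) (nat_lit 4) (nat_lit 409) (nat_lit 311)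 (nat_lit 300)) (XT.nd (nat_lit 78) (nat_lit 0) (nat_lit 0) (XT.lf (nat_lit 0) (nat_lit 2024893677332) (nat_lit 76) (nat_lit 6292657025766) (nat_lit 0) (nat_lit 2024837503739) (nat_lit 1) (nat_lit 5) (nat_lit 2) (nat_lit 4) (nat_lit 1) (nat_lit 4) (nat_lit 410) (nat_lit 311) (nat_lit 299)) (XT.lf (nat_lit 0) (nat_lit 2329408396993) (nat_lit 76) (nat_lit 7234868834388) (nat_lit 0) (nat_lit 2329350539131) (nat_lit 1) (nat_lit 5) (nat_lit 2) (nat_lit 4) (nat_lit 1) (nat_lit 4) (nat_lit 411) (nat_lit 311) (nat_lit 298)))) (XT.nd (nat_lit 78) (nat_lit 0) (nat_lit 0) (XT.lf (nat_lit 0) (nat_lit 2679573606756) (nat_lit 76) (nat_lit 8318469385775) (nat_lit 0) (nat_lit 2679514284312) (nat_lit 1) (nat_lit 5) (nat_lit 2) (nat_lit 4) (nat_lit 1) (nat_lit 4) (nat_lit 412) (nat_lit 311) (nat_lit 297)) (XT.nd (nat_lit 78) (nat_lit 0) (nat_lit 0) (XT.lf (nat_lit 0) (nat_lit 3082240365073) (nat_lit 76)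 (nat_lit 9564659560281) (nat_lit 0) (nat_lit 3082179769080) (nat_lit 1) (nat_lit 5) (nat_lit 2) (nat_lit 4) (nat_lit 1) (nat_lit 4) (nat_lit 413) (nat_lit 311) (nat_lit 296)) (XT.lf (nat_lit 0) (nat_lit 3545286934607) (nat_lit 76) (nat_lit 10997821339581) (nat_lit 0) (nat_lit 3545225231180) (nat_lit 1) (nat_lit 5) (nat_lit 2) (nat_lit 4) (nat_lit 1) (nat_lit 4) (nat_lit 414) (nat_lit 311) (nat_lit 295))))) (XT.nd (nat_lit 234) (nat_lit 0) (nat_lit 0) (XT.nd (nat_lit 78) (nat_lit 0) (nat_lit 0) (XT.lf (nat_lit 0) (nat_lit 4077772922153) (nat_lit 76) (nat_lit 12645994845443) (nat_lit 0) (nat_lit 4077710255740) (nat_lit 1) (nat_lit 5) (nat_lit 2) (nat_lit 4) (nat_lit 1) (nat_lit 4) (nat_lit 415) (nat_lit 311) (nat_lit 294)) (XT.nd (nat_lit 78) (nat_lit 0) (nat_lit 0) (XT.lf (nat_lit 0) (nat_lit 4690116531815) (nat_lit 76) (nat_lit 14541426950810) (nat_lit 0) (nat_lit 4690053028023) (nat_lit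 1) (nat_lit 5) (nat_lit 2) (nat_lit 4) (nat_lit 1) (nat_lit 4) (nat_lit 416) (nat_lit 311) (nat_lit 293)) (XT.lf (nat_lit 0) (nat_lit 5394298399435) (nat_lit 76) (nat_lit 16721202196871) (nat_lit 0) (nat_lit 5394234167486) (nat_lit 1) (nat_lit 5) (nat_lit 2) (nat_lit 4) (nat_lit 1) (nat_lit 4) (nat_lit 417) (nat_lit 311) (nat_lit 292)))) (XT.nd (nat_lit 78) (nat_lit 0) (nat_lit 0) (XT.lf (nat_lit 0) (nat_lit 6204095996335) (nat_lit 76) (nat_lit 19227968360182) (nat_lit 0) (nat_lit 6204031131207) (nat_lit 1) (nat_lit 5) (nat_lit 2) (nat_lit 4) (nat_lit 1) (nat_lit 4) (nat_lit 418) (nat_lit 311) (nat_lit 291)) (XT.nd (nat_lit 78) (nat_lit 0) (nat_lit 0) (XT.lf (nat_lit 0) (nat_lit 7135353188541) (nat_lit 76) (nat_lit 22110770865677) (nat_lit 0) (nat_lit 7135287772823) (nat_lit 1) (nat_lit 5) (nat_lit 2) (nat_lit 4) (nat_lit 1) (nat_lit 4) (nat_lit 419) (nat_lit 311) (nat_lit 290)) (XT.lf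 (nat_lit 0) (nat_lit 8206290225467) (nat_lit 76) (nat_lit 25426012371070) (nat_lit 0) (nat_lit 8206224330975) (nat_lit 1) (nat_lit 5) (nat_lit 2) (nat_lit 4) (nat_lit 1) (nat_lit 4) (nat_lit 420) (nat_lit 311) (nat_lit 289)))))) (XT.nd (nat_lit 468) (nat_lit 0) (nat_lit 0) (XT.nd (nat_lit 234) (nat_lit 0) (nat_lit 0) (XT.nd (nat_lit 78) (nat_lit 0) (nat_lit 0) (XT.lf (nat_lit 0) (nat_lit 9437860223052) (nat_lit 76) (nat_lit 29238556297121) (nat_lit 0) (nat_lit 9437793912234) (nat_lit 1) (nat_lit 5) (nat_lit 2) (nat_lit 4) (nat_lit 1) (nat_lit 4) (nat_lit 421) (nat_lit 311) (nat_lit 288)) (XT.nd (nat_lit 78) (nat_lit 0) (nat_lit 0) (XT.lf (nat_lit 0) (nat_lit 10854159116032) (nat_lit 76) (nat_lit 33622995894556) (nat_lit 0) (nat_lit 10854092443192) (nat_lit 1) (nat_lit 5) (nat_lit 2) (nat_lit 4) (nat_lit 1) (nat_lit 4) (nat_lit 422) (nat_lit 311) (nat_lit 287)) (XT.lf (nat_lit 0) (nat_lit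 12482897100138) (nat_lit 76) (nat_lit 38665113677239) (nat_lit 0) (nat_lit 12482830112497) (nat_lit 1) (nat_lit 5) (nat_lit 2) (nat_lit 4) (nat_lit 1) (nat_lit 4) (nat_lit 423) (nat_lit 311) (nat_lit 286)))) (XT.nd (nat_lit 78) (nat_lit 0) (nat_lit 0) (XT.lf (nat_lit 0) (nat_lit 14355940788104) (nat_lit 76) (nat_lit 44463559775699) (nat_lit 0) (nat_lit 14355873526722) (nat_lit 1) (nat_lit 5) (nat_lit 2) (nat_lit 4) (nat_lit 1) (nat_lit 4) (nat_lit 424) (nat_lit 311) (nat_lit 285)) (XT.nd (nat_lit 78) (nat_lit 0) (nat_lit 0) (XT.lf (nat_lit 0) (nat_lit 16509936686868) (nat_lit 76) (nat_lit 51131782048385) (nat_lit 0) (nat_lit 16509869187450) (nat_lit 1) (nat_lit 5) (nat_lit 2) (nat_lit 4) (nat_lit 1) (nat_lit 4) (nat_lit 425) (nat_lit 311) (nat_lit 284)) (XT.lf (nat_lit 0) (nat_lit 18987028194449) (nat_lit 76) (nat_lit 58800245713676) (nat_lit 0) (nat_lit 18986960488044) (nat_lit 1) (nat_lit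 5) (nat_lit 2) (nat_lit 4) (nat_lit 1) (nat_lit 4) (nat_lit 426) (nat_lit 311) (nat_lit 283))))) (XT.nd (nat_lit 234) (nat_lit 0) (nat_lit 0) (XT.nd (nat_lit 78) (nat_lit 0) (nat_lit 0) (XT.lf (nat_lit 0) (nat_lit 21835680144691) (nat_lit 76) (nat_lit 67618985930241) (nat_lit 0) (nat_lit 21835612258297) (nat_lit 1) (nat_lit 5) (nat_lit 2) (nat_lit 4) (nat_lit 1) (nat_lit 4) (nat_lit 427) (nat_lit 311) (nat_lit 282)) (XT.nd (nat_lit 78) (nat_lit 0) (nat_lit 0) (XT.lf (nat_lit 0) (nat_lit 25111627032273) (nat_lit 76) (nat_lit 77760543267533) (nat_lit 0) (nat_lit 25111558989366) (nat_lit 1) (nat_lit 5) (nat_lit 2) (nat_lit 4) (nat_lit 1) (nat_lit 4) (nat_lit 428) (nat_lit 311) (nat_lit 281)) (XT.lf (nat_lit 0) (nat_lit 28878963470212) (nat_lit 76) (nat_lit 89423339499544) (nat_lit 0) (nat_lit 28878895291208) (nat_lit 1) (nat_lit 5) (nat_lit 2) (nat_lit 4) (nat_lit 1) (nat_lit 4) (nat_lit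 429) (nat_lit 311) (nat_lit 280)))) (XT.nd (nat_lit 50544) (nat_lit 0) (nat_lit 0) (XT.nd (nat_lit 50466) (nat_lit 0) (nat_lit 0) (XT.lf (nat_lit 0) (nat_lit 33211398214904) (nat_lit 76) (nat_lit 102835559769943) (nat_lit 0) (nat_lit 33211329917554) (nat_lit 1) (nat_lit 5) (nat_lit 2) (nat_lit 4) (nat_lit 1) (nat_lit 4) (nat_lit 430) (nat_lit 311) (nat_lit 279)) (XT.lf (nat_lit 0) (nat_lit 138956208801) (nat_lit 76) (nat_lit 453550530143) (nat_lit 0) (nat_lit 138956208801) (nat_lit 1) (nat_lit 5) (nat_lit 2) (nat_lit 4) (nat_lit 1) (nat_lit 4) (nat_lit 396) (nat_lit 312) (nat_lit 312))) (XT.nd (nat_lit 78) (nat_lit 0) (nat_lit 0) (XT.lf (nat_lit 0) (nat_lit 321521803655) (nat_lit 76) (nat_lit 1039041338276) (nat_lit 0) (nat_lit 321511440707) (nat_lit 1) (nat_lit 5) (nat_lit 2) (nat_lit 4) (nat_lit 1) (nat_lit 4) (nat_lit 397) (nat_lit 312) (nat_lit 311)) (XT.lf (nat_lit 0) (nat_lit 371508208376)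 (nat_lit 76) (nat_lit 1191123191335) (nat_lit 0) (nat_lit 371488834169) (nat_lit 1) (nat_lit 5) (nat_lit 2) (nat_lit 4) (nat_lit 1) (nat_lit 4) (nat_lit 398) (nat_lit 312) (nat_lit 310))))))))
noncomputable def xc8 : XT := (XT.nd (nat_lit 1872) (nat_lit 0) (nat_lit 0) (XT.nd (nat_lit 936) (nat_lit 0) (nat_lit 0) (XT.nd (nat_lit 468) (nat_lit 0) (nat_lit 0) (XT.nd (nat_lit 234) (nat_lit 0) (nat_lit 0) (XT.nd (nat_lit 78) (nat_lit 0) (nat_lit 0) (XT.lf (nat_lit 0) (nat_lit 428849626643) (nat_lit 76) (nat_lit 1366322133979) (nat_lit 0) (nat_lit 428822416558) (nat_lit 1) (nat_lit 5) (nat_lit 2) (nat_lit 4) (nat_lit 1) (nat_lit 4) (nat_lit 399) (nat_lit 312) (nat_lit 309)) (XT.nd (nat_lit 78) (nat_lit 0) (nat_lit 0) (XT.lf (nat_lit 0) (nat_lit 494667955768) (nat_lit 76) (nat_lit 1568065971608) (nat_lit 0) (nat_lit 494633931876) (nat_lit 1) (nat_lit 5) (nat_lit 2) (nat_lit 4) (nat_lit 1) (nat_lit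 4) (nat_lit 400) (nat_lit 312) (nat_lit 308)) (XT.lf (nat_lit 0) (nat_lit 570250945669) (nat_lit 76) (nat_lit 1800301866261) (nat_lit 0) (nat_lit 570210996728) (nat_lit 1) (nat_lit 5) (nat_lit 2) (nat_lit 4) (nat_lit 1) (nat_lit 4) (nat_lit 401) (nat_lit 312) (nat_lit 307)))) (XT.nd (nat_lit 78) (nat_lit 0) (nat_lit 0) (XT.lf (nat_lit 0) (nat_lit 657077393975) (nat_lit 76) (nat_lit 2067573563705) (nat_lit 0) (nat_lit 657032292817) (nat_lit 1) (nat_lit 5) (nat_lit 2) (nat_lit 4) (nat_lit 1) (nat_lit 4) (nat_lit 402) (nat_lit 312) (nat_lit 306)) (XT.nd (nat_lit 78) (nat_lit 0) (nat_lit 0) (XT.lf (nat_lit 0) (nat_lit 756846079022) (nat_lit 76) (nat_lit 2375110292802) (nat_lit 0) (nat_lit 756796497676) (nat_lit 1) (nat_lit 5) (nat_lit 2) (nat_lit 4) (nat_lit 1) (nat_lit 4) (nat_lit 403) (nat_lit 312) (nat_lit 305)) (XT.lf (nat_lit 0) (nat_lit 871508996822) (nat_lit 76) (nat_lit 2728929076513)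 (nat_lit 0) (nat_lit 871455519660) (nat_lit 1) (nat_lit 5) (nat_lit 2) (nat_lit 4) (nat_lit 1) (nat_lit 4) (nat_lit 404) (nat_lit 312) (nat_lit 304))))) (XT.nd (nat_lit 234) (nat_lit 0) (nat_lit 0) (XT.nd (nat_lit 78) (nat_lit 0) (nat_lit 0) (XT.lf (nat_lit 0) (nat_lit 1003309552288) (nat_lit 76) (nat_lit 3135952456258) (nat_lit 0) (nat_lit 1003252687460) (nat_lit 1) (nat_lit 5) (nat_lit 2) (nat_lit 4) (nat_lit 1) (nat_lit 4) (nat_lit 405) (nat_lit 312) (nat_lit 303)) (XT.nd (nat_lit 78) (nat_lit 0) (nat_lit 0) (XT.lf (nat_lit 0) (nat_lit 1154826451941) (nat_lit 76) (nat_lit 3604143932945) (nat_lit 0) (nat_lit 1154766641316) (nat_lit 1) (nat_lit 5) (nat_lit 2) (nat_lit 4) (nat_lit 1) (nat_lit 4) (nat_lit 406) (nat_lit 312) (nat_lit 302)) (XT.lf (nat_lit 0) (nat_lit 1329024156860) (nat_lit 76) (nat_lit 4142663774596) (nat_lit 0) (nat_lit 1328961784673) (nat_lit 1) (nat_lit 5) (nat_lit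 2) (nat_lit 4) (nat_lit 1) (nat_lit 4) (nat_lit 407) (nat_lit 312) (nat_lit 301)))) (XT.nd (nat_lit 78) (nat_lit 0) (nat_lit 0) (XT.lf (nat_lit 0) (nat_lit 1529310883012) (nat_lit 76) (nat_lit 4762048238983) (nat_lit 0) (nat_lit 1529246283380) (nat_lit 1) (nat_lit 5) (nat_lit 2) (nat_lit 4) (nat_lit 1) (nat_lit 4) (nat_lit 408) (nat_lit 312) (nat_lit 300)) (XT.nd (nat_lit 78) (nat_lit 0) (nat_lit 0) (XT.lf (nat_lit 0) (nat_lit 1759605283734) (nat_lit 76) (nat_lit 5474415717801) (nat_lit 0) (nat_lit 1759538747193) (nat_lit 1) (nat_lit 5) (nat_lit 2) (nat_lit 4) (nat_lit 1) (nat_lit 4) (nat_lit 409) (nat_lit 312) (nat_lit 299)) (XT.lf (nat_lit 0) (nat_lit 2024413119041) (nat_lit 76) (nat_lit 6293703835634) (nat_lit 0) (nat_lit 2024344898230) (nat_lit 1) (nat_lit 5) (nat_lit 2) (nat_lit 4) (nat_lit 1) (nat_lit 4) (nat_lit 410) (nat_lit 312) (nat_lit 298)))))) (XT.nd (nat_lit 468) (nat_lit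 0) (nat_lit 0) (XT.nd (nat_lit 234) (nat_lit 0) (nat_lit 0) (XT.nd (nat_lit 78) (nat_lit 0) (nat_lit 0) (XT.lf (nat_lit 0) (nat_lit 2328915411796) (nat_lit 76) (nat_lit 7235942142615) (nat_lit 0) (nat_lit 2328845726404) (nat_lit 1) (nat_lit 5) (nat_lit 2) (nat_lit 4) (nat_lit 1) (nat_lit 4) (nat_lit 411) (nat_lit 312) (nat_lit 297)) (XT.nd (nat_lit 78) (nat_lit 0) (nat_lit 0) (XT.lf (nat_lit 0) (nat_lit 2679069815554) (nat_lit 76) (nat_lit 8319565736053) (nat_lit 0) (nat_lit 2678998856613) (nat_lit 1) (nat_lit 5) (nat_lit 2) (nat_lit 4) (nat_lit 1) (nat_lit 4) (nat_lit 412) (nat_lit 312) (nat_lit 296)) (XT.lf (nat_lit 0) (nat_lit 3081727177345) (nat_lit 76) (nat_lit 9565775947126) (nat_lit 0) (nat_lit 3081655110970) (nat_lit 1) (nat_lit 5) (nat_lit 2) (nat_lit 4) (nat_lit 1) (nat_lit 4) (nat_lit 413) (nat_lit 312) (nat_lit 295)))) (XT.nd (nat_lit 78) (nat_lit 0) (nat_lit 0) (XT.lf (nat_lit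 0) (nat_lit 3544765575987) (nat_lit 76) (nat_lit 10998955149527) (nat_lit 0) (nat_lit 3544692546626) (nat_lit 1) (nat_lit 5) (nat_lit 2) (nat_lit 4) (nat_lit 1) (nat_lit 4) (nat_lit 414) (nat_lit 312) (nat_lit 294)) (XT.nd (nat_lit 78) (nat_lit 0) (nat_lit 0) (XT.lf (nat_lit 0) (nat_lit 4077244458410) (nat_lit 76) (nat_lit 12647143805913) (nat_lit 0) (nat_lit 4077170591669) (nat_lit 1) (nat_lit 5) (nat_lit 2) (nat_lit 4) (nat_lit 1) (nat_lit 4) (nat_lit 415) (nat_lit 312) (nat_lit 293)) (XT.lf (nat_lit 0) (nat_lit 4689581889703) (nat_lit 76) (nat_lit 14542589085647) (nat_lit 0) (nat_lit 4689507294807) (nat_lit 1) (nat_lit 5) (nat_lit 2) (nat_lit 4) (nat_lit 1) (nat_lit 4) (nat_lit 416) (nat_lit 312) (nat_lit 292))))) (XT.nd (nat_lit 234) (nat_lit 0) (nat_lit 0) (XT.nd (nat_lit 78) (nat_lit 0) (nat_lit 0) (XT.lf (nat_lit 0) (nat_lit 5393758384829) (nat_lit 76) (nat_lit 16722375787680)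 (nat_lit 0) (nat_lit 5393683156753) (nat_lit 1) (nat_lit 5) (nat_lit 2) (nat_lit 4) (nat_lit 1) (nat_lit 4) (nat_lit 417) (nat_lit 312) (nat_lit 291)) (XT.nd (nat_lit 78) (nat_lit 0) (nat_lit 0) (XT.lf (nat_lit 0) (nat_lit 6203551309994) (nat_lit 76) (nat_lit 19229151912706) (nat_lit 0) (nat_lit 6203475531328) (nat_lit 1) (nat_lit 5) (nat_lit 2) (nat_lit 4) (nat_lit 1) (nat_lit 4) (nat_lit 418) (nat_lit 312) (nat_lit 290)) (XT.lf (nat_lit 0) (nat_lit 7134804439823) (nat_lit 76) (nat_lit 22111963080561) (nat_lit 0) (nat_lit 7134728182383) (nat_lit 1) (nat_lit 5) (nat_lit 2) (nat_lit 4) (nat_lit 1) (nat_lit 4) (nat_lit 419) (nat_lit 312) (nat_lit 289)))) (XT.nd (nat_lit 78) (nat_lit 0) (nat_lit 0) (XT.lf (nat_lit 0) (nat_lit 8205737944247) (nat_lit 76) (nat_lit 25427212118442) (nat_lit 0) (nat_lit 8205661270481) (nat_lit 1) (nat_lit 5) (nat_lit 2) (nat_lit 4) (nat_lit 1) (nat_lit 4) (nat_lit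 420) (nat_lit 312) (nat_lit 288)) (XT.nd (nat_lit 78) (nat_lit 0) (nat_lit 0) (XT.lf (nat_lit 0) (nat_lit 9437304870091) (nat_lit 76) (nat_lit 29239762594482) (nat_lit 0) (nat_lit 9437227834303) (nat_lit 1) (nat_lit 5) (nat_lit 2) (nat_lit 4) (nat_lit 1) (nat_lit 4) (nat_lit 421) (nat_lit 312) (nat_lit 287)) (XT.lf (nat_lit 0) (nat_lit 10853601091992) (nat_lit 76) (nat_lit 33624207887560) (nat_lit 0) (nat_lit 10853523741402) (nat_lit 1) (nat_lit 5) (nat_lit 2) (nat_lit 4) (nat_lit 1) (nat_lit 4) (nat_lit 422) (nat_lit 312) (nat_lit 286))))))) (XT.nd (nat_lit 51168) (nat_lit 0) (nat_lit 0) (XT.nd (nat_lit 468) (nat_lit 0) (nat_lit 0) (XT.nd (nat_lit 234) (nat_lit 0) (nat_lit 0) (XT.nd (nat_lit 78) (nat_lit 0) (nat_lit 0) (XT.lf (nat_lit 0) (nat_lit 12482336753421) (nat_lit 76) (nat_lit 38666330622975) (nat_lit 0) (nat_lit 12482259129090) (nat_lit 1) (nat_lit 5) (nat_lit 2) (nat_lit 4)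 (nat_lit 1) (nat_lit 4) (nat_lit 423) (nat_lit 312) (nat_lit 285)) (XT.nd (nat_lit 78) (nat_lit 0) (nat_lit 0) (XT.lf (nat_lit 0) (nat_lit 14355378421667) (nat_lit 76) (nat_lit 44464781028160) (nat_lit 0) (nat_lit 14355300559301) (nat_lit 1) (nat_lit 5) (nat_lit 2) (nat_lit 4) (nat_lit 1) (nat_lit 4) (nat_lit 424) (nat_lit 312) (nat_lit 284)) (XT.lf (nat_lit 0) (nat_lit 16509372564153) (nat_lit 76) (nat_lit 51133007045824) (nat_lit 0) (nat_lit 16509294494800) (nat_lit 1) (nat_lit 5) (nat_lit 2) (nat_lit 4) (nat_lit 1) (nat_lit 4) (nat_lit 425) (nat_lit 312) (nat_lit 283)))) (XT.nd (nat_lit 78) (nat_lit 0) (nat_lit 0) (XT.lf (nat_lit 0) (nat_lit 18986462544536) (nat_lit 76) (nat_lit 58801473967617) (nat_lit 0) (nat_lit 18986384295194) (nat_lit 1) (nat_lit 5) (nat_lit 2) (nat_lit 4) (nat_lit 1) (nat_lit 4) (nat_lit 426) (nat_lit 312) (nat_lit 282)) (XT.nd (nat_lit 78) (nat_lit 0) (nat_lit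 0) (XT.lf (nat_lit 0) (nat_lit 21835113166780) (nat_lit 76) (nat_lit 67620217015922) (nat_lit 0) (nat_lit 21835034760925) (nat_lit 1) (nat_lit 5) (nat_lit 2) (nat_lit 4) (nat_lit 1) (nat_lit 4) (nat_lit 427) (nat_lit 312) (nat_lit 281)) (XT.lf (nat_lit 0) (nat_lit 25111058899580) (nat_lit 76) (nat_lit 77761776815598) (nat_lit 0) (nat_lit 25110980357628) (nat_lit 1) (nat_lit 5) (nat_lit 2) (nat_lit 4) (nat_lit 1) (nat_lit 4) (nat_lit 428) (nat_lit 312) (nat_lit 280))))) (XT.nd (nat_lit 50466) (nat_lit 0) (nat_lit 0) (XT.nd (nat_lit 78) (nat_lit 0) (nat_lit 0) (XT.lf (nat_lit 0) (nat_lit 28878394333362) (nat_lit 76) (nat_lit 89424575188812) (nat_lit 0) (nat_lit 28878315673064) (nat_lit 1) (nat_lit 5) (nat_lit 2) (nat_lit 4) (nat_lit 1) (nat_lit 4) (nat_lit 429) (nat_lit 312) (nat_lit 279)) (XT.nd (nat_lit 50310) (nat_lit 0) (nat_lit 0) (XT.lf (nat_lit 0) (nat_lit 33210828204873) (nat_lit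 76) (nat_lit 102836797321127) (nat_lit 0) (nat_lit 33210749441666) (nat_lit 1) (nat_lit 5) (nat_lit 2) (nat_lit 4) (nat_lit 1) (nat_lit 4) (nat_lit 430) (nat_lit 312) (nat_lit 278)) (XT.lf (nat_lit 0) (nat_lit 103316451552) (nat_lit 76) (nat_lit 346723708849) (nat_lit 0) (nat_lit 103316451552) (nat_lit 1) (nat_lit 5) (nat_lit 2) (nat_lit 4) (nat_lit 1) (nat_lit 4) (nat_lit 394) (nat_lit 313) (nat_lit 313)))) (XT.nd (nat_lit 78) (nat_lit 0) (nat_lit 0) (XT.lf (nat_lit 0) (nat_lit 239838740492) (nat_lit 76) (nat_lit 792720917142) (nat_lit 0) (nat_lit 239826823102) (nat_lit 1) (nat_lit 5) (nat_lit 2) (nat_lit 4) (nat_lit 1) (nat_lit 4) (nat_lit 395) (nat_lit 313) (nat_lit 312)) (XT.nd (nat_lit 78) (nat_lit 0) (nat_lit 0) (XT.lf (nat_lit 0) (nat_lit 277836405866) (nat_lit 76) (nat_lit 907288554879) (nat_lit 0) (nat_lit 277814125527) (nat_lit 1) (nat_lit 5) (nat_lit 2) (nat_lit 4) (nat_lit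 1) (nat_lit 4) (nat_lit 396) (nat_lit 313) (nat_lit 311)) (XT.lf (nat_lit 0) (nat_lit 321369331807) (nat_lit 76) (nat_lit 1039391871646) (nat_lit 0) (nat_lit 321338040209) (nat_lit 1) (nat_lit 5) (nat_lit 2) (nat_lit 4) (nat_lit 1) (nat_lit 4) (nat_lit 397) (nat_lit 313) (nat_lit 310)))))) (XT.nd (nat_lit 468) (nat_lit 0) (nat_lit 0) (XT.nd (nat_lit 234) (nat_lit 0) (nat_lit 0) (XT.nd (nat_lit 78) (nat_lit 0) (nat_lit 0) (XT.lf (nat_lit 0) (nat_lit 371289249476) (nat_lit 76) (nat_lit 1191615497554) (nat_lit 0) (nat_lit 371250122000) (nat_lit 1) (nat_lit 5) (nat_lit 2) (nat_lit 4) (nat_lit 1) (nat_lit 4) (nat_lit 398) (nat_lit 313) (nat_lit 309)) (XT.nd (nat_lit 78) (nat_lit 0) (nat_lit 0) (XT.lf (nat_lit 0) (nat_lit 428572852914) (nat_lit 76) (nat_lit 1366937720937) (nat_lit 0) (nat_lit 428526911632) (nat_lit 1) (nat_lit 5) (nat_lit 2) (nat_lit 4) (nat_lit 1) (nat_lit 4) (nat_lit 399)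 (nat_lit 313) (nat_lit 308)) (XT.lf (nat_lit 0) (nat_lit 494340908274) (nat_lit 76) (nat_lit 1568788759208) (nat_lit 0) (nat_lit 494289041943) (nat_lit 1) (nat_lit 5) (nat_lit 2) (nat_lit 4) (nat_lit 1) (nat_lit 4) (nat_lit 400) (nat_lit 313) (nat_lit 307)))) (XT.nd (nat_lit 78) (nat_lit 0) (nat_lit 0) (XT.lf (nat_lit 0) (nat_lit 569880181859) (nat_lit 76) (nat_lit 1801117871812) (nat_lit 0) (nat_lit 569823163311) (nat_lit 1) (nat_lit 5) (nat_lit 2) (nat_lit 4) (nat_lit 1) (nat_lit 4) (nat_lit 401) (nat_lit 313) (nat_lit 306)) (XT.nd (nat_lit 78) (nat_lit 0) (nat_lit 0) (XT.lf (nat_lit 0) (nat_lit 656668615977) (nat_lit 76) (nat_lit 2068470628342) (nat_lit 0) (nat_lit 656607117240) (nat_lit 1) (nat_lit 5) (nat_lit 2) (nat_lit 4) (nat_lit 1) (nat_lit 4) (nat_lit 402) (nat_lit 313) (nat_lit 305)) (XT.lf (nat_lit 0) (nat_lit 756404245208) (nat_lit 76) (nat_lit 2376077843602) (nat_lit 0)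 (nat_lit 756338850656) (nat_lit 1) (nat_lit 5) (nat_lit 2) (nat_lit 4) (nat_lit 1) (nat_lit 4) (nat_lit 403) (nat_lit 313) (nat_lit 304))))) (XT.nd (nat_lit 234) (nat_lit 0) (nat_lit 0) (XT.nd (nat_lit 78) (nat_lit 0) (nat_lit 0) (XT.lf (nat_lit 0) (nat_lit 871038418820) (nat_lit 76) (nat_lit 2729957919627) (nat_lit 0) (nat_lit 870969636602) (nat_lit 1) (nat_lit 5) (nat_lit 2) (nat_lit 4) (nat_lit 1) (nat_lit 4) (nat_lit 404) (nat_lit 313) (nat_lit 303)) (XT.nd (nat_lit 78) (nat_lit 0) (nat_lit 0) (XT.lf (nat_lit 0) (nat_lit 1002813979341) (nat_lit 76) (nat_lit 3137034597038) (nat_lit 0) (nat_lit 1002742251326) (nat_lit 1) (nat_lit 5) (nat_lit 2) (nat_lit 4) (nat_lit 1) (nat_lit 4) (nat_lit 405) (nat_lit 313) (nat_lit 302)) (XT.lf (nat_lit 0) (nat_lit 1154309144258) (nat_lit 76) (nat_lit 3605272419521) (nat_lit 0) (nat_lit 1154234854681) (nat_lit 1) (nat_lit 5) (nat_lit 2) (nat_lit 4)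 (nat_lit 1) (nat_lit 4) (nat_lit 406) (nat_lit 313) (nat_lit 301)))) (XT.nd (nat_lit 156) (nat_lit 0) (nat_lit 0) (XT.nd (nat_lit 78) (nat_lit 0) (nat_lit 0) (XT.lf (nat_lit 0) (nat_lit 1328487949408) (nat_lit 76) (nat_lit 4143832561864) (nat_lit 0) (nat_lit 1328411432385) (nat_lit 1) (nat_lit 5) (nat_lit 2) (nat_lit 4) (nat_lit 1) (nat_lit 4) (nat_lit 407) (nat_lit 313) (nat_lit 300)) (XT.lf (nat_lit 0) (nat_lit 1528758240977) (nat_lit 76) (nat_lit 4763252070331) (nat_lit 0) (nat_lit 1528679787045) (nat_lit 1) (nat_lit 5) (nat_lit 2) (nat_lit 4) (nat_lit 1) (nat_lit 4) (nat_lit 408) (nat_lit 313) (nat_lit 299))) (XT.nd (nat_lit 78) (nat_lit 0) (nat_lit 0) (XT.lf (nat_lit 0) (nat_lit 1759038350758) (nat_lit 76) (nat_lit 5475650022262) (nat_lit 0) (nat_lit 1758958212557) (nat_lit 1) (nat_lit 5) (nat_lit 2) (nat_lit 4) (nat_lit 1) (nat_lit 4) (nat_lit 409) (nat_lit 313) (nat_lit 298)) (XT.lf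 (nat_lit 0) (nat_lit 2023833759158) (nat_lit 76) (nat_lit 6294964638454) (nat_lit 0) (nat_lit 2023752156376) (nat_lit 1) (nat_lit 5) (nat_lit 2) (nat_lit 4) (nat_lit 1) (nat_lit 4) (nat_lit 410) (nat_lit 313) (nat_lit 297))))))))
noncomputable def xc9 : XT := (XT.nd (nat_lit 51948) (nat_lit 0) (nat_lit 0) (XT.nd (nat_lit 936) (nat_lit 0) (nat_lit 0) (XT.nd (nat_lit 468) (nat_lit 0) (nat_lit 0) (XT.nd (nat_lit 234) (nat_lit 0) (nat_lit 0) (XT.nd (nat_lit 78) (nat_lit 0) (nat_lit 0) (XT.lf (nat_lit 0) (nat_lit 2328325245909) (nat_lit 76) (nat_lit 7237225987487) (nat_lit 0) (nat_lit 2328242369577) (nat_lit 1) (nat_lit 5) (nat_lit 2) (nat_lit 4) (nat_lit 1) (nat_lit 4) (nat_lit 411) (nat_lit 313) (nat_lit 296)) (XT.nd (nat_lit 78) (nat_lit 0) (nat_lit 0) (XT.lf (nat_lit 0) (nat_lit 2678470253141) (nat_lit 76) (nat_lit 8320869617492) (nat_lit 0) (nat_lit 2678386269376) (nat_lit 1) (nat_lit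 5) (nat_lit 2) (nat_lit 4) (nat_lit 1) (nat_lit 4) (nat_lit 412) (nat_lit 313) (nat_lit 295)) (XT.lf (nat_lit 0) (nat_lit 3081119444040) (nat_lit 76) (nat_lit 9567097251665) (nat_lit 0) (nat_lit 3081034497289) (nat_lit 1) (nat_lit 5) (nat_lit 2) (nat_lit 4) (nat_lit 1) (nat_lit 4) (nat_lit 413) (nat_lit 313) (nat_lit 294)))) (XT.nd (nat_lit 78) (nat_lit 0) (nat_lit 0) (XT.lf (nat_lit 0) (nat_lit 3544150737558) (nat_lit 76) (nat_lit 11000291604590) (nat_lit 0) (nat_lit 3544064953427) (nat_lit 1) (nat_lit 5) (nat_lit 2) (nat_lit 4) (nat_lit 1) (nat_lit 4) (nat_lit 414) (nat_lit 313) (nat_lit 293)) (XT.nd (nat_lit 78) (nat_lit 0) (nat_lit 0) (XT.lf (nat_lit 0) (nat_lit 4076623441612) (nat_lit 76) (nat_lit 12648493435343) (nat_lit 0) (nat_lit 4076536929326) (nat_lit 1) (nat_lit 5) (nat_lit 2) (nat_lit 4) (nat_lit 1) (nat_lit 4) (nat_lit 415) (nat_lit 313) (nat_lit 292)) (XT.lf (nat_lit 0)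 (nat_lit 4688955500412) (nat_lit 76) (nat_lit 14543950171049) (nat_lit 0) (nat_lit 4688868354946) (nat_lit 1) (nat_lit 5) (nat_lit 2) (nat_lit 4) (nat_lit 1) (nat_lit 4) (nat_lit 416) (nat_lit 313) (nat_lit 291))))) (XT.nd (nat_lit 234) (nat_lit 0) (nat_lit 0) (XT.nd (nat_lit 78) (nat_lit 0) (nat_lit 0) (XT.lf (nat_lit 0) (nat_lit 5393127323803) (nat_lit 76) (nat_lit 16723746834797) (nat_lit 0) (nat_lit 5393039627747) (nat_lit 1) (nat_lit 5) (nat_lit 2) (nat_lit 4) (nat_lit 1) (nat_lit 4) (nat_lit 417) (nat_lit 313) (nat_lit 290)) (XT.nd (nat_lit 78) (nat_lit 0) (nat_lit 0) (XT.lf (nat_lit 0) (nat_lit 6202916186591) (nat_lit 76) (nat_lit 19230531622184) (nat_lit 0) (nat_lit 6202828011761) (nat_lit 1) (nat_lit 5) (nat_lit 2) (nat_lit 4) (nat_lit 1) (nat_lit 4) (nat_lit 418) (nat_lit 313) (nat_lit 289)) (XT.lf (nat_lit 0) (nat_lit 7134165783918) (nat_lit 76) (nat_lit 22113350322526) (nat_lit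 0) (nat_lit 7134077192762) (nat_lit 1) (nat_lit 5) (nat_lit 2) (nat_lit 4) (nat_lit 1) (nat_lit 4) (nat_lit 419) (nat_lit 313) (nat_lit 288)))) (XT.nd (nat_lit 78) (nat_lit 0) (nat_lit 0) (XT.lf (nat_lit 0) (nat_lit 8205096216601) (nat_lit 76) (nat_lit 25428605910396) (nat_lit 0) (nat_lit 8205007263423) (nat_lit 1) (nat_lit 5) (nat_lit 2) (nat_lit 4) (nat_lit 1) (nat_lit 4) (nat_lit 420) (nat_lit 313) (nat_lit 287)) (XT.nd (nat_lit 78) (nat_lit 0) (nat_lit 0) (XT.lf (nat_lit 0) (nat_lit 9436660471366) (nat_lit 76) (nat_lit 29241162082079) (nat_lit 0) (nat_lit 9436571203386) (nat_lit 1) (nat_lit 5) (nat_lit 2) (nat_lit 4) (nat_lit 1) (nat_lit 4) (nat_lit 421) (nat_lit 313) (nat_lit 286)) (XT.lf (nat_lit 0) (nat_lit 10852954370589) (nat_lit 76) (nat_lit 33625612327890) (nat_lit 0) (nat_lit 10852864828868) (nat_lit 1) (nat_lit 5) (nat_lit 2) (nat_lit 4) (nat_lit 1) (nat_lit 4) (nat_lit 422)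 (nat_lit 313) (nat_lit 285)))))) (XT.nd (nat_lit 468) (nat_lit 0) (nat_lit 0) (XT.nd (nat_lit 234) (nat_lit 0) (nat_lit 0) (XT.nd (nat_lit 78) (nat_lit 0) (nat_lit 0) (XT.lf (nat_lit 0) (nat_lit 12481688012299) (nat_lit 76) (nat_lit 38667739370029) (nat_lit 0) (nat_lit 12481598232542) (nat_lit 1) (nat_lit 5) (nat_lit 2) (nat_lit 4) (nat_lit 1) (nat_lit 4) (nat_lit 423) (nat_lit 313) (nat_lit 284)) (XT.nd (nat_lit 78) (nat_lit 0) (nat_lit 0) (XT.lf (nat_lit 0) (nat_lit 14354727924267) (nat_lit 76) (nat_lit 44466193520191) (nat_lit 0) (nat_lit 14354637937523) (nat_lit 1) (nat_lit 5) (nat_lit 2) (nat_lit 4) (nat_lit 1) (nat_lit 4) (nat_lit 424) (nat_lit 313) (nat_lit 283)) (XT.lf (nat_lit 0) (nat_lit 16508720539555) (nat_lit 76) (nat_lit 51134422794357) (nat_lit 0) (nat_lit 16508630372822) (nat_lit 1) (nat_lit 5) (nat_lit 2) (nat_lit 4) (nat_lit 1) (nat_lit 4) (nat_lit 425) (nat_lit 313)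 (nat_lit 282)))) (XT.nd (nat_lit 78) (nat_lit 0) (nat_lit 0) (XT.lf (nat_lit 0) (nat_lit 18985809191939) (nat_lit 76) (nat_lit 58802892547892) (nat_lit 0) (nat_lit 18985718868694) (nat_lit 1) (nat_lit 5) (nat_lit 2) (nat_lit 4) (nat_lit 1) (nat_lit 4) (nat_lit 426) (nat_lit 313) (nat_lit 281)) (XT.nd (nat_lit 78) (nat_lit 0) (nat_lit 0) (XT.lf (nat_lit 0) (nat_lit 21834458659402) (nat_lit 76) (nat_lit 67621638058581) (nat_lit 0) (nat_lit 21834368200059) (nat_lit 1) (nat_lit 5) (nat_lit 2) (nat_lit 4) (nat_lit 1) (nat_lit 4) (nat_lit 427) (nat_lit 313) (nat_lit 280)) (XT.lf (nat_lit 0) (nat_lit 25110403388045) (nat_lit 76) (nat_lit 77763199999460) (nat_lit 0) (nat_lit 25110312810356) (nat_lit 1) (nat_lit 5) (nat_lit 2) (nat_lit 4) (nat_lit 1) (nat_lit 4) (nat_lit 428) (nat_lit 313) (nat_lit 279))))) (XT.nd (nat_lit 50310) (nat_lit 0) (nat_lit 0) (XT.nd (nat_lit 78) (nat_lit 0) (nat_lit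 0) (XT.lf (nat_lit 0) (nat_lit 28877737948646) (nat_lit 76) (nat_lit 89426000234589) (nat_lit 0) (nat_lit 28877647268048) (nat_lit 1) (nat_lit 5) (nat_lit 2) (nat_lit 4) (nat_lit 1) (nat_lit 4) (nat_lit 429) (nat_lit 313) (nat_lit 278)) (XT.nd (nat_lit 50154) (nat_lit 0) (nat_lit 0) (XT.lf (nat_lit 0) (nat_lit 33210171060869) (nat_lit 76) (nat_lit 102838223985961) (nat_lit 0) (nat_lit 33210080290786) (nat_lit 1) (nat_lit 5) (nat_lit 2) (nat_lit 4) (nat_lit 1) (nat_lit 4) (nat_lit 430) (nat_lit 313) (nat_lit 277)) (XT.lf (nat_lit 0) (nat_lit 76104513939) (nat_lit 76) (nat_lit 266513436582) (nat_lit 0) (nat_lit 76104513939) (nat_lit 1) (nat_lit 5) (nat_lit 2) (nat_lit 4) (nat_lit 1) (nat_lit 4) (nat_lit 392) (nat_lit 314) (nat_lit 314)))) (XT.nd (nat_lit 78) (nat_lit 0) (nat_lit 0) (XT.lf (nat_lit 0) (nat_lit 177582919271) (nat_lit 76) (nat_lit 607525748948) (nat_lit 0) (nat_lit 177569214272)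 (nat_lit 1) (nat_lit 5) (nat_lit 2) (nat_lit 4) (nat_lit 1) (nat_lit 4) (nat_lit 393) (nat_lit 314) (nat_lit 313)) (XT.nd (nat_lit 78) (nat_lit 0) (nat_lit 0) (XT.lf (nat_lit 0) (nat_lit 206545489606) (nat_lit 76) (nat_lit 693663036480) (nat_lit 0) (nat_lit 206519867217) (nat_lit 1) (nat_lit 5) (nat_lit 2) (nat_lit 4) (nat_lit 1) (nat_lit 4) (nat_lit 394) (nat_lit 314) (nat_lit 312)) (XT.lf (nat_lit 0) (nat_lit 239663397868) (nat_lit 76) (nat_lit 793124030518) (nat_lit 0) (nat_lit 239627412530) (nat_lit 1) (nat_lit 5) (nat_lit 2) (nat_lit 4) (nat_lit 1) (nat_lit 4) (nat_lit 395) (nat_lit 314) (nat_lit 311))))))) (XT.nd (nat_lit 936) (nat_lit 0) (nat_lit 0) (XT.nd (nat_lit 468) (nat_lit 0) (nat_lit 0) (XT.nd (nat_lit 234) (nat_lit 0) (nat_lit 0) (XT.nd (nat_lit 78) (nat_lit 0) (nat_lit 0) (XT.lf (nat_lit 0) (nat_lit 277584603130) (nat_lit 76) (nat_lit 907854707031) (nat_lit 0) (nat_lit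 277539606533) (nat_lit 1) (nat_lit 5) (nat_lit 2) (nat_lit 4) (nat_lit 1) (nat_lit 4) (nat_lit 396) (nat_lit 314) (nat_lit 310)) (XT.nd (nat_lit 78) (nat_lit 0) (nat_lit 0) (XT.lf (nat_lit 0) (nat_lit 321051042019) (nat_lit 76) (nat_lit 1040099796648) (nat_lit 0) (nat_lit 320998209544) (nat_lit 1) (nat_lit 5) (nat_lit 2) (nat_lit 4) (nat_lit 1) (nat_lit 4) (nat_lit 397) (nat_lit 314) (nat_lit 309)) (XT.lf (nat_lit 0) (nat_lit 370913144859) (nat_lit 76) (nat_lit 1192446703295) (nat_lit 0) (nat_lit 370853498578) (nat_lit 1) (nat_lit 5) (nat_lit 2) (nat_lit 4) (nat_lit 1) (nat_lit 4) (nat_lit 398) (nat_lit 314) (nat_lit 308)))) (XT.nd (nat_lit 78) (nat_lit 0) (nat_lit 0) (XT.lf (nat_lit 0) (nat_lit 428146474533) (nat_lit 76) (nat_lit 1367876127320) (nat_lit 0) (nat_lit 428080903202) (nat_lit 1) (nat_lit 5) (nat_lit 2) (nat_lit 4) (nat_lit 1) (nat_lit 4) (nat_lit 399) (nat_lit 314) (nat_lit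 307)) (XT.nd (nat_lit 78) (nat_lit 0) (nat_lit 0) (XT.lf (nat_lit 0) (nat_lit 493870813577) (nat_lit 76) (nat_lit 1569820383540) (nat_lit 0) (nat_lit 493800090030) (nat_lit 1) (nat_lit 5) (nat_lit 2) (nat_lit 4) (nat_lit 1) (nat_lit 4) (nat_lit 400) (nat_lit 314) (nat_lit 306)) (XT.lf (nat_lit 0) (nat_lit 569372072973) (nat_lit 76) (nat_lit 1802230555231) (nat_lit 0) (nat_lit 569296869238) (nat_lit 1) (nat_lit 5) (nat_lit 2) (nat_lit 4) (nat_lit 1) (nat_lit 4) (nat_lit 401) (nat_lit 314) (nat_lit 305))))) (XT.nd (nat_lit 234) (nat_lit 0) (nat_lit 0) (XT.nd (nat_lit 78) (nat_lit 0) (nat_lit 0) (XT.lf (nat_lit 0) (nat_lit 656127451275) (nat_lit 76) (nat_lit 2069653797924) (nat_lit 0) (nat_lit 656048351724) (nat_lit 1) (nat_lit 5) (nat_lit 2) (nat_lit 4) (nat_lit 1) (nat_lit 4) (nat_lit 402) (nat_lit 314) (nat_lit 304)) (XT.nd (nat_lit 78) (nat_lit 0) (nat_lit 0) (XT.lf (nat_lit 0) (nat_lit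 755834336319) (nat_lit 76) (nat_lit 2377322305498) (nat_lit 0) (nat_lit 755751849101) (nat_lit 1) (nat_lit 5) (nat_lit 2) (nat_lit 4) (nat_lit 1) (nat_lit 4) (nat_lit 403) (nat_lit 314) (nat_lit 303)) (XT.lf (nat_lit 0) (nat_lit 870443514985) (nat_lit 76) (nat_lit 2731255679189) (nat_lit 0) (nat_lit 870358081971) (nat_lit 1) (nat_lit 5) (nat_lit 2) (nat_lit 4) (nat_lit 1) (nat_lit 4) (nat_lit 404) (nat_lit 314) (nat_lit 302)))) (XT.nd (nat_lit 78) (nat_lit 0) (nat_lit 0) (XT.lf (nat_lit 0) (nat_lit 1002197340770) (nat_lit 76) (nat_lit 3138378702395) (nat_lit 0) (nat_lit 1002109346194) (nat_lit 1) (nat_lit 5) (nat_lit 2) (nat_lit 4) (nat_lit 1) (nat_lit 4) (nat_lit 405) (nat_lit 314) (nat_lit 301)) (XT.nd (nat_lit 78) (nat_lit 0) (nat_lit 0) (XT.lf (nat_lit 0) (nat_lit 1153673605918) (nat_lit 76) (nat_lit 3606656825571) (nat_lit 0) (nat_lit 1153583383896) (nat_lit 1) (nat_lit 5) (nat_lit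 2) (nat_lit 4) (nat_lit 1) (nat_lit 4) (nat_lit 406) (nat_lit 314) (nat_lit 300)) (XT.lf (nat_lit 0) (nat_lit 1327835976485) (nat_lit 76) (nat_lit 4145252011994) (nat_lit 0) (nat_lit 1327743817554) (nat_lit 1) (nat_lit 5) (nat_lit 2) (nat_lit 4) (nat_lit 1) (nat_lit 4) (nat_lit 407) (nat_lit 314) (nat_lit 299)))))) (XT.nd (nat_lit 468) (nat_lit 0) (nat_lit 0) (XT.nd (nat_lit 234) (nat_lit 0) (nat_lit 0) (XT.nd (nat_lit 78) (nat_lit 0) (nat_lit 0) (XT.lf (nat_lit 0) (nat_lit 1528091977112) (nat_lit 76) (nat_lit 4764701993575) (nat_lit 0) (nat_lit 1527998133913) (nat_lit 1) (nat_lit 5) (nat_lit 2) (nat_lit 4) (nat_lit 1) (nat_lit 4) (nat_lit 408) (nat_lit 314) (nat_lit 298)) (XT.nd (nat_lit 78) (nat_lit 0) (nat_lit 0) (XT.lf (nat_lit 0) (nat_lit 1758359659988) (nat_lit 76) (nat_lit 5477126443864) (nat_lit 0) (nat_lit 1758264352206) (nat_lit 1) (nat_lit 5) (nat_lit 2) (nat_lit 4) (nat_lit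 1) (nat_lit 4) (nat_lit 409) (nat_lit 314) (nat_lit 297)) (XT.lf (nat_lit 0) (nat_lit 2023144262383) (nat_lit 76) (nat_lit 6296464102108) (nat_lit 0) (nat_lit 2023047681053) (nat_lit 1) (nat_lit 5) (nat_lit 2) (nat_lit 4) (nat_lit 1) (nat_lit 4) (nat_lit 410) (nat_lit 314) (nat_lit 296)))) (XT.nd (nat_lit 78) (nat_lit 0) (nat_lit 0) (XT.lf (nat_lit 0) (nat_lit 2327626352608) (nat_lit 76) (nat_lit 7238745487707) (nat_lit 0) (nat_lit 2327528663843) (nat_lit 1) (nat_lit 5) (nat_lit 2) (nat_lit 4) (nat_lit 1) (nat_lit 4) (nat_lit 411) (nat_lit 314) (nat_lit 295)) (XT.nd (nat_lit 78) (nat_lit 0) (nat_lit 0) (XT.lf (nat_lit 0) (nat_lit 2677763188948) (nat_lit 76) (nat_lit 8322406540814) (nat_lit 0) (nat_lit 2677664537197) (nat_lit 1) (nat_lit 5) (nat_lit 2) (nat_lit 4) (nat_lit 1) (nat_lit 4) (nat_lit 412) (nat_lit 314) (nat_lit 294)) (XT.lf (nat_lit 0) (nat_lit 3080405274724) (nat_lit 76)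 (nat_lit 9568649325510) (nat_lit 0) (nat_lit 3080305785594) (nat_lit 1) (nat_lit 5) (nat_lit 2) (nat_lit 4) (nat_lit 1) (nat_lit 4) (nat_lit 413) (nat_lit 314) (nat_lit 293))))) (XT.nd (nat_lit 234) (nat_lit 0) (nat_lit 0) (XT.nd (nat_lit 78) (nat_lit 0) (nat_lit 0) (XT.lf (nat_lit 0) (nat_lit 3543430389873) (nat_lit 76) (nat_lit 11001856852802) (nat_lit 0) (nat_lit 3543330172588) (nat_lit 1) (nat_lit 5) (nat_lit 2) (nat_lit 4) (nat_lit 1) (nat_lit 4) (nat_lit 414) (nat_lit 314) (nat_lit 292)) (XT.nd (nat_lit 78) (nat_lit 0) (nat_lit 0) (XT.lf (nat_lit 0) (nat_lit 4075897721433) (nat_lit 76) (nat_lit 12650070139527) (nat_lit 0) (nat_lit 4075796870968) (nat_lit 1) (nat_lit 5) (nat_lit 2) (nat_lit 4) (nat_lit 1) (nat_lit 4) (nat_lit 415) (nat_lit 314) (nat_lit 291)) (XT.lf (nat_lit 0) (nat_lit 4688225108499) (nat_lit 76) (nat_lit 14545536836948) (nat_lit 0) (nat_lit 4688123707443) (nat_lit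 1) (nat_lit 5) (nat_lit 2) (nat_lit 4) (nat_lit 1) (nat_lit 4) (nat_lit 416) (nat_lit 314) (nat_lit 290)))) (XT.nd (nat_lit 156) (nat_lit 0) (nat_lit 0) (XT.nd (nat_lit 78) (nat_lit 0) (nat_lit 0) (XT.lf (nat_lit 0) (nat_lit 5392392869512) (nat_lit 76) (nat_lit 16725342163057) (nat_lit 0) (nat_lit 5392290989683) (nat_lit 1) (nat_lit 5) (nat_lit 2) (nat_lit 4) (nat_lit 1) (nat_lit 4) (nat_lit 417) (nat_lit 314) (nat_lit 289)) (XT.lf (nat_lit 0) (nat_lit 6202178199798) (nat_lit 76) (nat_lit 19232134482931) (nat_lit 0) (nat_lit 6202075903643) (nat_lit 1) (nat_lit 5) (nat_lit 2) (nat_lit 4) (nat_lit 1) (nat_lit 4) (nat_lit 418) (nat_lit 314) (nat_lit 288))) (XT.nd (nat_lit 78) (nat_lit 0) (nat_lit 0) (XT.lf (nat_lit 0) (nat_lit 7133424725384) (nat_lit 76) (nat_lit 22114959733263) (nat_lit 0) (nat_lit 7133322067207) (nat_lit 1) (nat_lit 5) (nat_lit 2) (nat_lit 4) (nat_lit 1) (nat_lit 4) (nat_lit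 419) (nat_lit 314) (nat_lit 287)) (XT.lf (nat_lit 0) (nat_lit 8204352486988) (nat_lit 76) (nat_lit 25430221016776) (nat_lit 0) (nat_lit 8204249514009) (nat_lit 1) (nat_lit 5) (nat_lit 2) (nat_lit 4) (nat_lit 1) (nat_lit 4) (nat_lit 420) (nat_lit 314) (nat_lit 286))))))))
noncomputable def xc10 : XT := (XT.nd (nat_lit 51792) (nat_lit 0) (nat_lit 0) (XT.nd (nat_lit 50856) (nat_lit 0) (nat_lit 0) (XT.nd (nat_lit 468) (nat_lit 0) (nat_lit 0) (XT.nd (nat_lit 234) (nat_lit 0) (nat_lit 0) (XT.nd (nat_lit 78) (nat_lit 0) (nat_lit 0) (XT.lf (nat_lit 0) (nat_lit 9435914419075) (nat_lit 76) (nat_lit 29242782141191) (nat_lit 0) (nat_lit 9435811172356) (nat_lit 1) (nat_lit 5) (nat_lit 2) (nat_lit 4) (nat_lit 1) (nat_lit 4) (nat_lit 421) (nat_lit 314) (nat_lit 285)) (XT.nd (nat_lit 78) (nat_lit 0) (nat_lit 0) (XT.lf (nat_lit 0) (nat_lit 10852206298579) (nat_lit 76) (nat_lit 33627236693726) (nat_lit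 0) (nat_lit 10852102813824) (nat_lit 1) (nat_lit 5) (nat_lit 2) (nat_lit 4) (nat_lit 1) (nat_lit 4) (nat_lit 422) (nat_lit 314) (nat_lit 284)) (XT.lf (nat_lit 0) (nat_lit 12480938184011) (nat_lit 76) (nat_lit 38669367480843) (nat_lit 0) (nat_lit 12480834492268) (nat_lit 1) (nat_lit 5) (nat_lit 2) (nat_lit 4) (nat_lit 1) (nat_lit 4) (nat_lit 423) (nat_lit 314) (nat_lit 283)))) (XT.nd (nat_lit 78) (nat_lit 0) (nat_lit 0) (XT.lf (nat_lit 0) (nat_lit 14353976568781) (nat_lit 76) (nat_lit 44467824887507) (nat_lit 0) (nat_lit 14353872697049) (nat_lit 1) (nat_lit 5) (nat_lit 2) (nat_lit 4) (nat_lit 1) (nat_lit 4) (nat_lit 424) (nat_lit 314) (nat_lit 282)) (XT.nd (nat_lit 78) (nat_lit 0) (nat_lit 0) (XT.lf (nat_lit 0) (nat_lit 16507967856070) (nat_lit 76) (nat_lit 51136056993415) (nat_lit 0) (nat_lit 16507863827827) (nat_lit 1) (nat_lit 5) (nat_lit 2) (nat_lit 4) (nat_lit 1) (nat_lit 4) (nat_lit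 425) (nat_lit 314) (nat_lit 281)) (XT.lf (nat_lit 0) (nat_lit 18985055353674) (nat_lit 76) (nat_lit 58804529209332) (nat_lit 0) (nat_lit 18984951189332) (nat_lit 1) (nat_lit 5) (nat_lit 2) (nat_lit 4) (nat_lit 1) (nat_lit 4) (nat_lit 426) (nat_lit 314) (nat_lit 280))))) (XT.nd (nat_lit 234) (nat_lit 0) (nat_lit 0) (XT.nd (nat_lit 78) (nat_lit 0) (nat_lit 0) (XT.lf (nat_lit 0) (nat_lit 21833703816978) (nat_lit 76) (nat_lit 67623276861225) (nat_lit 0) (nat_lit 21833599534291) (nat_lit 1) (nat_lit 5) (nat_lit 2) (nat_lit 4) (nat_lit 1) (nat_lit 4) (nat_lit 427) (nat_lit 314) (nat_lit 279)) (XT.nd (nat_lit 78) (nat_lit 0) (nat_lit 0) (XT.lf (nat_lit 0) (nat_lit 25109647672441) (nat_lit 76) (nat_lit 77764840664019) (nat_lit 0) (nat_lit 25109543286844) (nat_lit 1) (nat_lit 5) (nat_lit 2) (nat_lit 4) (nat_lit 1) (nat_lit 4) (nat_lit 428) (nat_lit 314) (nat_lit 278)) (XT.lf (nat_lit 0) (nat_lit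 28876981473755) (nat_lit 76) (nat_lit 89427642518206) (nat_lit 0) (nat_lit 28876876998672) (nat_lit 1) (nat_lit 5) (nat_lit 2) (nat_lit 4) (nat_lit 1) (nat_lit 4) (nat_lit 429) (nat_lit 314) (nat_lit 277)))) (XT.nd (nat_lit 49998) (nat_lit 0) (nat_lit 0) (XT.lf (nat_lit 0) (nat_lit 33209413925728) (nat_lit 76) (nat_lit 102839867677454) (nat_lit 0) (nat_lit 33209309372831) (nat_lit 1) (nat_lit 5) (nat_lit 2) (nat_lit 4) (nat_lit 1) (nat_lit 4) (nat_lit 430) (nat_lit 314) (nat_lit 276)) (XT.nd (nat_lit 78) (nat_lit 0) (nat_lit 0) (XT.lf (nat_lit 0) (nat_lit 55225744643) (nat_lit 76) (nat_lit 206514022131) (nat_lit 0) (nat_lit 55225744643) (nat_lit 1) (nat_lit 5) (nat_lit 2) (nat_lit 4) (nat_lit 1) (nat_lit 4) (nat_lit 390) (nat_lit 315) (nat_lit 315)) (XT.lf (nat_lit 0) (nat_lit 129943130474) (nat_lit 76) (nat_lit 468708822431) (nat_lit 0) (nat_lit 129927369725) (nat_lit 1) (nat_lit 5)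 (nat_lit 2) (nat_lit 4) (nat_lit 1) (nat_lit 4) (nat_lit 391) (nat_lit 315) (nat_lit 314)))))) (XT.nd (nat_lit 468) (nat_lit 0) (nat_lit 0) (XT.nd (nat_lit 234) (nat_lit 0) (nat_lit 0) (XT.nd (nat_lit 78) (nat_lit 0) (nat_lit 0) (XT.lf (nat_lit 0) (nat_lit 152108502356) (nat_lit 76) (nat_lit 533274834765) (nat_lit 0) (nat_lit 152079036608) (nat_lit 1) (nat_lit 5) (nat_lit 2) (nat_lit 4) (nat_lit 1) (nat_lit 4) (nat_lit 392) (nat_lit 315) (nat_lit 313)) (XT.nd (nat_lit 78) (nat_lit 0) (nat_lit 0) (XT.lf (nat_lit 0) (nat_lit 177381275253) (nat_lit 76) (nat_lit 607989329330) (nat_lit 0) (nat_lit 177339892115) (nat_lit 1) (nat_lit 5) (nat_lit 2) (nat_lit 4) (nat_lit 1) (nat_lit 4) (nat_lit 393) (nat_lit 315) (nat_lit 312)) (XT.lf (nat_lit 0) (nat_lit 206255916460) (nat_lit 76) (nat_lit 694314111455) (nat_lit 0) (nat_lit 206204170374) (nat_lit 1) (nat_lit 5) (nat_lit 2) (nat_lit 4) (nat_lit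 1) (nat_lit 4) (nat_lit 394) (nat_lit 315) (nat_lit 311)))) (XT.nd (nat_lit 78) (nat_lit 0) (nat_lit 0) (XT.lf (nat_lit 0) (nat_lit 239297364611) (nat_lit 76) (nat_lit 793938144270) (nat_lit 0) (nat_lit 239236607265) (nat_lit 1) (nat_lit 5) (nat_lit 2) (nat_lit 4) (nat_lit 1) (nat_lit 4) (nat_lit 395) (nat_lit 315) (nat_lit 310)) (XT.nd (nat_lit 78) (nat_lit 0) (nat_lit 0) (XT.lf (nat_lit 0) (nat_lit 277152082821) (nat_lit 76) (nat_lit 908810593633) (nat_lit 0) (nat_lit 277083489598) (nat_lit 1) (nat_lit 5) (nat_lit 2) (nat_lit 4) (nat_lit 1) (nat_lit 4) (nat_lit 396) (nat_lit 315) (nat_lit 309)) (XT.lf (nat_lit 0) (nat_lit 320560706880) (nat_lit 76) (nat_lit 1041178963988) (nat_lit 0) (nat_lit 320485299851) (nat_lit 1) (nat_lit 5) (nat_lit 2) (nat_lit 4) (nat_lit 1) (nat_lit 4) (nat_lit 397) (nat_lit 315) (nat_lit 308))))) (XT.nd (nat_lit 234) (nat_lit 0) (nat_lit 0) (XT.nd (nat_lit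 78) (nat_lit 0) (nat_lit 0) (XT.lf (nat_lit 0) (nat_lit 370372535957) (nat_lit 76) (nat_lit 1193633071277) (nat_lit 0) (nat_lit 370291203878) (nat_lit 1) (nat_lit 5) (nat_lit 2) (nat_lit 4) (nat_lit 1) (nat_lit 4) (nat_lit 398) (nat_lit 315) (nat_lit 307)) (XT.nd (nat_lit 78) (nat_lit 0) (nat_lit 0) (XT.lf (nat_lit 0) (nat_lit 427562149314) (nat_lit 76) (nat_lit 1369155713252) (nat_lit 0) (nat_lit 427475665019) (nat_lit 1) (nat_lit 5) (nat_lit 2) (nat_lit 4) (nat_lit 1) (nat_lit 4) (nat_lit 399) (nat_lit 315) (nat_lit 306)) (XT.lf (nat_lit 0) (nat_lit 493248474170) (nat_lit 76) (nat_lit 1571181028559) (nat_lit 0) (nat_lit 493157509686) (nat_lit 1) (nat_lit 5) (nat_lit 2) (nat_lit 4) (nat_lit 1) (nat_lit 4) (nat_lit 400) (nat_lit 315) (nat_lit 305)))) (XT.nd (nat_lit 78) (nat_lit 0) (nat_lit 0) (XT.lf (nat_lit 0) (nat_lit 568716677751) (nat_lit 76) (nat_lit 1803661686412) (nat_lit 0) (nat_lit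 568621817451) (nat_lit 1) (nat_lit 5) (nat_lit 2) (nat_lit 4) (nat_lit 1) (nat_lit 4) (nat_lit 401) (nat_lit 315) (nat_lit 304)) (XT.nd (nat_lit 78) (nat_lit 0) (nat_lit 0) (XT.lf (nat_lit 0) (nat_lit 655443311865) (nat_lit 76) (nat_lit 2071146221420) (nat_lit 0) (nat_lit 655345063899) (nat_lit 1) (nat_lit 5) (nat_lit 2) (nat_lit 4) (nat_lit 1) (nat_lit 4) (nat_lit 402) (nat_lit 315) (nat_lit 303)) (XT.lf (nat_lit 0) (nat_lit 755125201963) (nat_lit 76) (nat_lit 2378868026660) (nat_lit 0) (nat_lit 755024008200) (nat_lit 1) (nat_lit 5) (nat_lit 2) (nat_lit 4) (nat_lit 1) (nat_lit 4) (nat_lit 403) (nat_lit 315) (nat_lit 302))))))) (XT.nd (nat_lit 936) (nat_lit 0) (nat_lit 0) (XT.nd (nat_lit 468) (nat_lit 0) (nat_lit 0) (XT.nd (nat_lit 234) (nat_lit 0) (nat_lit 0) (XT.nd (nat_lit 78) (nat_lit 0) (nat_lit 0) (XT.lf (nat_lit 0) (nat_lit 869712645894) (nat_lit 76) (nat_lit 2732847746147) (nat_lit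 0) (nat_lit 869608890568) (nat_lit 1) (nat_lit 5) (nat_lit 2) (nat_lit 4) (nat_lit 1) (nat_lit 4) (nat_lit 404) (nat_lit 315) (nat_lit 301)) (XT.nd (nat_lit 78) (nat_lit 0) (nat_lit 0) (XT.lf (nat_lit 0) (nat_lit 1001447571909) (nat_lit 76) (nat_lit 3140011070045) (nat_lit 0) (nat_lit 1001341589138) (nat_lit 1) (nat_lit 5) (nat_lit 2) (nat_lit 4) (nat_lit 1) (nat_lit 4) (nat_lit 405) (nat_lit 315) (nat_lit 300)) (XT.lf (nat_lit 0) (nat_lit 1152907402473) (nat_lit 76) (nat_lit 3608324237300) (nat_lit 0) (nat_lit 1152799482794) (nat_lit 1) (nat_lit 5) (nat_lit 2) (nat_lit 4) (nat_lit 1) (nat_lit 4) (nat_lit 406) (nat_lit 315) (nat_lit 299)))) (XT.nd (nat_lit 78) (nat_lit 0) (nat_lit 0) (XT.lf (nat_lit 0) (nat_lit 1327055482099) (nat_lit 76) (nat_lit 4146949896837) (nat_lit 0) (nat_lit 1326945878150) (nat_lit 1) (nat_lit 5) (nat_lit 2) (nat_lit 4) (nat_lit 1) (nat_lit 4) (nat_lit 407) (nat_lit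 315) (nat_lit 298)) (XT.nd (nat_lit 78) (nat_lit 0) (nat_lit 0) (XT.lf (nat_lit 0) (nat_lit 1527299055821) (nat_lit 76) (nat_lit 4766426376777) (nat_lit 0) (nat_lit 1527187987291) (nat_lit 1) (nat_lit 5) (nat_lit 2) (nat_lit 4) (nat_lit 1) (nat_lit 4) (nat_lit 408) (nat_lit 315) (nat_lit 297)) (XT.lf (nat_lit 0) (nat_lit 1757555932691) (nat_lit 76) (nat_lit 5478873869118) (nat_lit 0) (nat_lit 1757443590612) (nat_lit 1) (nat_lit 5) (nat_lit 2) (nat_lit 4) (nat_lit 1) (nat_lit 4) (nat_lit 409) (nat_lit 315) (nat_lit 296))))) (XT.nd (nat_lit 234) (nat_lit 0) (nat_lit 0) (XT.nd (nat_lit 78) (nat_lit 0) (nat_lit 0) (XT.lf (nat_lit 0) (nat_lit 2022331138561) (nat_lit 76) (nat_lit 6298231563929) (nat_lit 0) (nat_lit 2022217689048) (nat_lit 1) (nat_lit 5) (nat_lit 2) (nat_lit 4) (nat_lit 1) (nat_lit 4) (nat_lit 410) (nat_lit 315) (nat_lit 295)) (XT.nd (nat_lit 78) (nat_lit 0) (nat_lit 0) (XT.lf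 (nat_lit 0) (nat_lit 2326805057894) (nat_lit 76) (nat_lit 7240530372629) (nat_lit 0) (nat_lit 2326690645394) (nat_lit 1) (nat_lit 5) (nat_lit 2) (nat_lit 4) (nat_lit 1) (nat_lit 4) (nat_lit 411) (nat_lit 315) (nat_lit 294)) (XT.lf (nat_lit 0) (nat_lit 2676934789110) (nat_lit 76) (nat_lit 8324206576258) (nat_lit 0) (nat_lit 2676819539232) (nat_lit 1) (nat_lit 5) (nat_lit 2) (nat_lit 4) (nat_lit 1) (nat_lit 4) (nat_lit 412) (nat_lit 315) (nat_lit 293)))) (XT.nd (nat_lit 78) (nat_lit 0) (nat_lit 0) (XT.lf (nat_lit 0) (nat_lit 3079570696518) (nat_lit 76) (nat_lit 9570462535323) (nat_lit 0) (nat_lit 3079454718483) (nat_lit 1) (nat_lit 5) (nat_lit 2) (nat_lit 4) (nat_lit 1) (nat_lit 4) (nat_lit 413) (nat_lit 315) (nat_lit 292)) (XT.nd (nat_lit 78) (nat_lit 0) (nat_lit 0) (XT.lf (nat_lit 0) (nat_lit 3542590439173) (nat_lit 76) (nat_lit 11003681518586) (nat_lit 0) (nat_lit 3542473827960) (nat_lit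 1) (nat_lit 5) (nat_lit 2) (nat_lit 4) (nat_lit 1) (nat_lit 4) (nat_lit 414) (nat_lit 315) (nat_lit 291)) (XT.lf (nat_lit 0) (nat_lit 4075053098999) (nat_lit 76) (nat_lit 12651904767026) (nat_lit 0) (nat_lit 4074935937195) (nat_lit 1) (nat_lit 5) (nat_lit 2) (nat_lit 4) (nat_lit 1) (nat_lit 4) (nat_lit 415) (nat_lit 315) (nat_lit 290)))))) (XT.nd (nat_lit 468) (nat_lit 0) (nat_lit 0) (XT.nd (nat_lit 234) (nat_lit 0) (nat_lit 0) (XT.nd (nat_lit 78) (nat_lit 0) (nat_lit 0) (XT.lf (nat_lit 0) (nat_lit 4687376423687) (nat_lit 76) (nat_lit 14547380126808) (nat_lit 0) (nat_lit 4687258783108) (nat_lit 1) (nat_lit 5) (nat_lit 2) (nat_lit 4) (nat_lit 1) (nat_lit 4) (nat_lit 416) (nat_lit 315) (nat_lit 289)) (XT.nd (nat_lit 78) (nat_lit 0) (nat_lit 0) (XT.lf (nat_lit 0) (nat_lit 5391540652198) (nat_lit 76) (nat_lit 16727192985404) (nat_lit 0) (nat_lit 5391422595294) (nat_lit 1) (nat_lit 5) (nat_lit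 2) (nat_lit 4) (nat_lit 1) (nat_lit 4) (nat_lit 417) (nat_lit 315) (nat_lit 288)) (XT.lf (nat_lit 0) (nat_lit 6201322910743) (nat_lit 76) (nat_lit 19233991855267) (nat_lit 0) (nat_lit 6201204491817) (nat_lit 1) (nat_lit 5) (nat_lit 2) (nat_lit 4) (nat_lit 1) (nat_lit 4) (nat_lit 418) (nat_lit 315) (nat_lit 287)))) (XT.nd (nat_lit 78) (nat_lit 0) (nat_lit 0) (XT.lf (nat_lit 0) (nat_lit 7132566765250) (nat_lit 76) (nat_lit 22116822801242) (nat_lit 0) (nat_lit 7132448031522) (nat_lit 1) (nat_lit 5) (nat_lit 2) (nat_lit 4) (nat_lit 1) (nat_lit 4) (nat_lit 419) (nat_lit 315) (nat_lit 286)) (XT.nd (nat_lit 78) (nat_lit 0) (nat_lit 0) (XT.lf (nat_lit 0) (nat_lit 8203492204176) (nat_lit 76) (nat_lit 25432089037487) (nat_lit 0) (nat_lit 8203373196708) (nat_lit 1) (nat_lit 5) (nat_lit 2) (nat_lit 4) (nat_lit 1) (nat_lit 4) (nat_lit 420) (nat_lit 315) (nat_lit 285)) (XT.lf (nat_lit 0) (nat_lit 9435052116544)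 (nat_lit 76) (nat_lit 29244654468627) (nat_lit 0) (nat_lit 9434932871040) (nat_lit 1) (nat_lit 5) (nat_lit 2) (nat_lit 4) (nat_lit 1) (nat_lit 4) (nat_lit 421) (nat_lit 315) (nat_lit 284))))) (XT.nd (nat_lit 234) (nat_lit 0) (nat_lit 0) (XT.nd (nat_lit 78) (nat_lit 0) (nat_lit 0) (XT.lf (nat_lit 0) (nat_lit 10851342239770) (nat_lit 76) (nat_lit 33629112766140) (nat_lit 0) (nat_lit 10851222787278) (nat_lit 1) (nat_lit 5) (nat_lit 2) (nat_lit 4) (nat_lit 1) (nat_lit 4) (nat_lit 422) (nat_lit 315) (nat_lit 283)) (XT.nd (nat_lit 78) (nat_lit 0) (nat_lit 0) (XT.lf (nat_lit 0) (nat_lit 12480072598003) (nat_lit 76) (nat_lit 38671246809759) (nat_lit 0) (nat_lit 12479952965523) (nat_lit 1) (nat_lit 5) (nat_lit 2) (nat_lit 4) (nat_lit 1) (nat_lit 4) (nat_lit 423) (nat_lit 315) (nat_lit 282)) (XT.lf (nat_lit 0) (nat_lit 14353109654775) (nat_lit 76) (nat_lit 44469707048164) (nat_lit 0) (nat_lit 14352989865783)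 (nat_lit 1) (nat_lit 5) (nat_lit 2) (nat_lit 4) (nat_lit 1) (nat_lit 4) (nat_lit 424) (nat_lit 315) (nat_lit 281)))) (XT.nd (nat_lit 156) (nat_lit 0) (nat_lit 0) (XT.nd (nat_lit 78) (nat_lit 0) (nat_lit 0) (XT.lf (nat_lit 0) (nat_lit 16507099787284) (nat_lit 76) (nat_lit 51137941616455) (nat_lit 0) (nat_lit 16506979862193) (nat_lit 1) (nat_lit 5) (nat_lit 2) (nat_lit 4) (nat_lit 1) (nat_lit 4) (nat_lit 425) (nat_lit 315) (nat_lit 280)) (XT.lf (nat_lit 0) (nat_lit 18984186280729) (nat_lit 76) (nat_lit 58806415973576) (nat_lit 0) (nat_lit 18984066237293) (nat_lit 1) (nat_lit 5) (nat_lit 2) (nat_lit 4) (nat_lit 1) (nat_lit 4) (nat_lit 426) (nat_lit 315) (nat_lit 279))) (XT.nd (nat_lit 78) (nat_lit 0) (nat_lit 0) (XT.lf (nat_lit 0) (nat_lit 21832833870853) (nat_lit 76) (nat_lit 67625165487384) (nat_lit 0) (nat_lit 21832713724508) (nat_lit 1) (nat_lit 5) (nat_lit 2) (nat_lit 4) (nat_lit 1)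 (nat_lit 4) (nat_lit 427) (nat_lit 315) (nat_lit 278)) (XT.lf (nat_lit 0) (nat_lit 25108776967028) (nat_lit 76) (nat_lit 77766730909235) (nat_lit 0) (nat_lit 25108656731197) (nat_lit 1) (nat_lit 5) (nat_lit 2) (nat_lit 4) (nat_lit 1) (nat_lit 4) (nat_lit 428) (nat_lit 315) (nat_lit 277))))))))
noncomputable def xc11 : XT := (XT.nd (nat_lit 51558) (nat_lit 0) (nat_lit 0) (XT.nd (nat_lit 50622) (nat_lit 0) (nat_lit 0) (XT.nd (nat_lit 50154) (nat_lit 0) (nat_lit 0) (XT.nd (nat_lit 49920) (nat_lit 0) (nat_lit 0) (XT.nd (nat_lit 78) (nat_lit 0) (nat_lit 0) (XT.lf (nat_lit 0) (nat_lit 28876110108092) (nat_lit 76) (nat_lit 89429534171298) (nat_lit 0) (nat_lit 28875989794447) (nat_lit 1) (nat_lit 5) (nat_lit 2) (nat_lit 4) (nat_lit 1) (nat_lit 4) (nat_lit 429) (nat_lit 315) (nat_lit 276)) (XT.nd (nat_lit 2496) (nat_lit 0) (nat_lit 0) (XT.lf (nat_lit 0) (nat_lit 33208541985936) (nat_lit 76) (nat_lit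 102841760554785) (nat_lit 0) (nat_lit 33208421604626) (nat_lit 1) (nat_lit 5) (nat_lit 2) (nat_lit 4) (nat_lit 1) (nat_lit 4) (nat_lit 430) (nat_lit 315) (nat_lit 275)) (XT.lf (nat_lit 0) (nat_lit 2908491701570888) (nat_lit 76) (nat_lit 9004079380827143) (nat_lit 0) (nat_lit 2908491580743637) (nat_lit 1) (nat_lit 5) (nat_lit 2) (nat_lit 4) (nat_lit 1) (nat_lit 4) (nat_lit 462) (nat_lit 315) (nat_lit 243)))) (XT.nd (nat_lit 78) (nat_lit 0) (nat_lit 0) (XT.lf (nat_lit 0) (nat_lit 39090365216) (nat_lit 76) (nat_lit 161894581074) (nat_lit 0) (nat_lit 39090365216) (nat_lit 1) (nat_lit 5) (nat_lit 2) (nat_lit 4) (nat_lit 1) (nat_lit 4) (nat_lit 388) (nat_lit 316) (nat_lit 316)) (XT.nd (nat_lit 78) (nat_lit 0) (nat_lit 0) (XT.lf (nat_lit 0) (nat_lit 93270345460) (nat_lit 76) (nat_lit 365143093729) (nat_lit 0) (nat_lit 93252220599) (nat_lit 1) (nat_lit 5) (nat_lit 2) (nat_lit 4) (nat_lit 1) (nat_lit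 4) (nat_lit 389) (nat_lit 316) (nat_lit 315)) (XT.lf (nat_lit 0) (nat_lit 110335884937) (nat_lit 76) (nat_lit 413313200102) (nat_lit 0) (nat_lit 110301999327) (nat_lit 1) (nat_lit 5) (nat_lit 2) (nat_lit 4) (nat_lit 1) (nat_lit 4) (nat_lit 390) (nat_lit 316) (nat_lit 314))))) (XT.nd (nat_lit 234) (nat_lit 0) (nat_lit 0) (XT.nd (nat_lit 78) (nat_lit 0) (nat_lit 0) (XT.lf (nat_lit 0) (nat_lit 129711239852) (nat_lit 76) (nat_lit 469241939870) (nat_lit 0) (nat_lit 129663649243) (nat_lit 1) (nat_lit 5) (nat_lit 2) (nat_lit 4) (nat_lit 1) (nat_lit 4) (nat_lit 391) (nat_lit 316) (nat_lit 313)) (XT.nd (nat_lit 78) (nat_lit 0) (nat_lit 0) (XT.lf (nat_lit 0) (nat_lit 151775493238) (nat_lit 76) (nat_lit 534023570986) (nat_lit 0) (nat_lit 151715985239) (nat_lit 1) (nat_lit 5) (nat_lit 2) (nat_lit 4) (nat_lit 1) (nat_lit 4) (nat_lit 392) (nat_lit 316) (nat_lit 312)) (XT.lf (nat_lit 0) (nat_lit 176960337007)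 (nat_lit 76) (nat_lit 608925560145) (nat_lit 0) (nat_lit 176890466060) (nat_lit 1) (nat_lit 5) (nat_lit 2) (nat_lit 4) (nat_lit 1) (nat_lit 4) (nat_lit 393) (nat_lit 316) (nat_lit 311)))) (XT.nd (nat_lit 78) (nat_lit 0) (nat_lit 0) (XT.lf (nat_lit 0) (nat_lit 205758518104) (nat_lit 76) (nat_lit 695413381047) (nat_lit 0) (nat_lit 205679635898) (nat_lit 1) (nat_lit 5) (nat_lit 2) (nat_lit 4) (nat_lit 1) (nat_lit 4) (nat_lit 394) (nat_lit 316) (nat_lit 310)) (XT.nd (nat_lit 78) (nat_lit 0) (nat_lit 0) (XT.lf (nat_lit 0) (nat_lit 238733479202) (nat_lit 76) (nat_lit 795179186711) (nat_lit 0) (nat_lit 238646761118) (nat_lit 1) (nat_lit 5) (nat_lit 2) (nat_lit 4) (nat_lit 1) (nat_lit 4) (nat_lit 395) (nat_lit 316) (nat_lit 309)) (XT.lf (nat_lit 0) (nat_lit 276530382583) (nat_lit 76) (nat_lit 910174916812) (nat_lit 0) (nat_lit 276436850693) (nat_lit 1) (nat_lit 5) (nat_lit 2) (nat_lit 4) (nat_lit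 1) (nat_lit 4) (nat_lit 396) (nat_lit 316) (nat_lit 308)))))) (XT.nd (nat_lit 468) (nat_lit 0) (nat_lit 0) (XT.nd (nat_lit 234) (nat_lit 0) (nat_lit 0) (XT.nd (nat_lit 78) (nat_lit 0) (nat_lit 0) (XT.lf (nat_lit 0) (nat_lit 319888732879) (nat_lit 76) (nat_lit 1042650487809) (nat_lit 0) (nat_lit 319789275939) (nat_lit 1) (nat_lit 5) (nat_lit 2) (nat_lit 4) (nat_lit 1) (nat_lit 4) (nat_lit 397) (nat_lit 316) (nat_lit 307)) (XT.nd (nat_lit 78) (nat_lit 0) (nat_lit 0) (XT.lf (nat_lit 0) (nat_lit 369656845639) (nat_lit 76) (nat_lit 1195197813049) (nat_lit 0) (nat_lit 369552236482) (nat_lit 1) (nat_lit 5) (nat_lit 2) (nat_lit 4) (nat_lit 1) (nat_lit 4) (nat_lit 398) (nat_lit 316) (nat_lit 306)) (XT.lf (nat_lit 0) (nat_lit 426808444808) (nat_lit 76) (nat_lit 1370801514110) (nat_lit 0) (nat_lit 426699355463) (nat_lit 1) (nat_lit 5) (nat_lit 2) (nat_lit 4) (nat_lit 1) (nat_lit 4) (nat_lit 399)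 (nat_lit 316) (nat_lit 305)))) (XT.nd (nat_lit 78) (nat_lit 0) (nat_lit 0) (XT.lf (nat_lit 0) (nat_lit 492461713848) (nat_lit 76) (nat_lit 1572897315580) (nat_lit 0) (nat_lit 492348728687) (nat_lit 1) (nat_lit 5) (nat_lit 2) (nat_lit 4) (nat_lit 1) (nat_lit 4) (nat_lit 400) (nat_lit 316) (nat_lit 304)) (XT.nd (nat_lit 78) (nat_lit 0) (nat_lit 0) (XT.lf (nat_lit 0) (nat_lit 567901173241) (nat_lit 76) (nat_lit 1805439265748) (nat_lit 0) (nat_lit 567784800414) (nat_lit 1) (nat_lit 5) (nat_lit 2) (nat_lit 4) (nat_lit 1) (nat_lit 4) (nat_lit 401) (nat_lit 316) (nat_lit 303)) (XT.lf (nat_lit 0) (nat_lit 654602812410) (nat_lit 76) (nat_lit 2072977098421) (nat_lit 0) (nat_lit 654483493786) (nat_lit 1) (nat_lit 5) (nat_lit 2) (nat_lit 4) (nat_lit 1) (nat_lit 4) (nat_lit 402) (nat_lit 316) (nat_lit 302))))) (XT.nd (nat_lit 234) (nat_lit 0) (nat_lit 0) (XT.nd (nat_lit 78) (nat_lit 0) (nat_lit 0)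 (XT.lf (nat_lit 0) (nat_lit 754262967772) (nat_lit 76) (nat_lit 2380745249457) (nat_lit 0) (nat_lit 754141087586) (nat_lit 1) (nat_lit 5) (nat_lit 2) (nat_lit 4) (nat_lit 1) (nat_lit 4) (nat_lit 403) (nat_lit 316) (nat_lit 301)) (XT.nd (nat_lit 78) (nat_lit 0) (nat_lit 0) (XT.lf (nat_lit 0) (nat_lit 868831511933) (nat_lit 76) (nat_lit 2734765269636) (nat_lit 0) (nat_lit 868707404301) (nat_lit 1) (nat_lit 5) (nat_lit 2) (nat_lit 4) (nat_lit 1) (nat_lit 4) (nat_lit 404) (nat_lit 316) (nat_lit 300)) (XT.lf (nat_lit 0) (nat_lit 1000550003365) (nat_lit 76) (nat_lit 3141963637615) (nat_lit 0) (nat_lit 1000423958824) (nat_lit 1) (nat_lit 5) (nat_lit 2) (nat_lit 4) (nat_lit 1) (nat_lit 4) (nat_lit 405) (nat_lit 316) (nat_lit 299)))) (XT.nd (nat_lit 78) (nat_lit 0) (nat_lit 0) (XT.lf (nat_lit 0) (nat_lit 1151995542989) (nat_lit 76) (nat_lit 3610307277983) (nat_lit 0) (nat_lit 1151867814179) (nat_lit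 1) (nat_lit 5) (nat_lit 2) (nat_lit 4) (nat_lit 1) (nat_lit 4) (nat_lit 406) (nat_lit 316) (nat_lit 298)) (XT.nd (nat_lit 78) (nat_lit 0) (nat_lit 0) (XT.lf (nat_lit 0) (nat_lit 1326131195708) (nat_lit 76) (nat_lit 4148959435879) (nat_lit 0) (nat_lit 1326002002317) (nat_lit 1) (nat_lit 5) (nat_lit 2) (nat_lit 4) (nat_lit 1) (nat_lit 4) (nat_lit 407) (nat_lit 316) (nat_lit 297)) (XT.lf (nat_lit 0) (nat_lit 1526363963426) (nat_lit 76) (nat_lit 4768458957870) (nat_lit 0) (nat_lit 1526233496486) (nat_lit 1) (nat_lit 5) (nat_lit 2) (nat_lit 4) (nat_lit 1) (nat_lit 4) (nat_lit 408) (nat_lit 316) (nat_lit 296))))))) (XT.nd (nat_lit 936) (nat_lit 0) (nat_lit 0) (XT.nd (nat_lit 468) (nat_lit 0) (nat_lit 0) (XT.nd (nat_lit 234) (nat_lit 0) (nat_lit 0) (XT.nd (nat_lit 78) (nat_lit 0) (nat_lit 0) (XT.lf (nat_lit 0) (nat_lit 1756611443770) (nat_lit 76) (nat_lit 5480926486778) (nat_lit 0) (nat_lit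 1756479869396) (nat_lit 1) (nat_lit 5) (nat_lit 2) (nat_lit 4) (nat_lit 1) (nat_lit 4) (nat_lit 409) (nat_lit 316) (nat_lit 295)) (XT.nd (nat_lit 78) (nat_lit 0) (nat_lit 0) (XT.lf (nat_lit 0) (nat_lit 2021378478748) (nat_lit 76) (nat_lit 6300301604690) (nat_lit 0) (nat_lit 2021245941388) (nat_lit 1) (nat_lit 5) (nat_lit 2) (nat_lit 4) (nat_lit 1) (nat_lit 4) (nat_lit 410) (nat_lit 316) (nat_lit 294)) (XT.lf (nat_lit 0) (nat_lit 2325845292957) (nat_lit 76) (nat_lit 7242615563913) (nat_lit 0) (nat_lit 2325711918217) (nat_lit 1) (nat_lit 5) (nat_lit 2) (nat_lit 4) (nat_lit 1) (nat_lit 4) (nat_lit 411) (nat_lit 316) (nat_lit 293)))) (XT.nd (nat_lit 78) (nat_lit 0) (nat_lit 0) (XT.lf (nat_lit 0) (nat_lit 2675968845805) (nat_lit 76) (nat_lit 8326304941910) (nat_lit 0) (nat_lit 2675834742909) (nat_lit 1) (nat_lit 5) (nat_lit 2) (nat_lit 4) (nat_lit 1) (nat_lit 4) (nat_lit 412) (nat_lit 316)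 (nat_lit 292)) (XT.nd (nat_lit 78) (nat_lit 0) (nat_lit 0) (XT.lf (nat_lit 0) (nat_lit 3078599380718) (nat_lit 76) (nat_lit 9572572356946) (nat_lit 0) (nat_lit 3078464644643) (nat_lit 1) (nat_lit 5) (nat_lit 2) (nat_lit 4) (nat_lit 1) (nat_lit 4) (nat_lit 413) (nat_lit 316) (nat_lit 291)) (XT.lf (nat_lit 0) (nat_lit 3541614451640) (nat_lit 76) (nat_lit 11005801301925) (nat_lit 0) (nat_lit 3541479164974) (nat_lit 1) (nat_lit 5) (nat_lit 2) (nat_lit 4) (nat_lit 1) (nat_lit 4) (nat_lit 414) (nat_lit 316) (nat_lit 290))))) (XT.nd (nat_lit 234) (nat_lit 0) (nat_lit 0) (XT.nd (nat_lit 78) (nat_lit 0) (nat_lit 0) (XT.lf (nat_lit 0) (nat_lit 4074073049088) (nat_lit 76) (nat_lit 12654033212725) (nat_lit 0) (nat_lit 4073937283648) (nat_lit 1) (nat_lit 5) (nat_lit 2) (nat_lit 4) (nat_lit 1) (nat_lit 4) (nat_lit 415) (nat_lit 316) (nat_lit 289)) (XT.nd (nat_lit 78) (nat_lit 0) (nat_lit 0) (XT.lf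 (nat_lit 0) (nat_lit 4686392841274) (nat_lit 76) (nat_lit 14549516104994) (nat_lit 0) (nat_lit 4686256659509) (nat_lit 1) (nat_lit 5) (nat_lit 2) (nat_lit 4) (nat_lit 1) (nat_lit 4) (nat_lit 416) (nat_lit 316) (nat_lit 288)) (XT.lf (nat_lit 0) (nat_lit 5390553998044) (nat_lit 76) (nat_lit 16729335513580) (nat_lit 0) (nat_lit 5390417454257) (nat_lit 1) (nat_lit 5) (nat_lit 2) (nat_lit 4) (nat_lit 1) (nat_lit 4) (nat_lit 417) (nat_lit 316) (nat_lit 287)))) (XT.nd (nat_lit 78) (nat_lit 0) (nat_lit 0) (XT.lf (nat_lit 0) (nat_lit 6200333585510) (nat_lit 76) (nat_lit 19236140079086) (nat_lit 0) (nat_lit 6200196726921) (nat_lit 1) (nat_lit 5) (nat_lit 2) (nat_lit 4) (nat_lit 1) (nat_lit 4) (nat_lit 418) (nat_lit 316) (nat_lit 286)) (XT.nd (nat_lit 78) (nat_lit 0) (nat_lit 0) (XT.lf (nat_lit 0) (nat_lit 7131575117339) (nat_lit 76) (nat_lit 22118975977793) (nat_lit 0) (nat_lit 7131437985010) (nat_lit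 1) (nat_lit 5) (nat_lit 2) (nat_lit 4) (nat_lit 1) (nat_lit 4) (nat_lit 419) (nat_lit 316) (nat_lit 285)) (XT.lf (nat_lit 0) (nat_lit 8202498536546) (nat_lit 76) (nat_lit 25434246520763) (nat_lit 0) (nat_lit 8202361166181) (nat_lit 1) (nat_lit 5) (nat_lit 2) (nat_lit 4) (nat_lit 1) (nat_lit 4) (nat_lit 420) (nat_lit 316) (nat_lit 284)))))) (XT.nd (nat_lit 468) (nat_lit 0) (nat_lit 0) (XT.nd (nat_lit 234) (nat_lit 0) (nat_lit 0) (XT.nd (nat_lit 78) (nat_lit 0) (nat_lit 0) (XT.lf (nat_lit 0) (nat_lit 9434056692636) (nat_lit 76) (nat_lit 29246815696880) (nat_lit 0) (nat_lit 9433919115283) (nat_lit 1) (nat_lit 5) (nat_lit 2) (nat_lit 4) (nat_lit 1) (nat_lit 4) (nat_lit 421) (nat_lit 316) (nat_lit 283)) (XT.nd (nat_lit 78) (nat_lit 0) (nat_lit 0) (XT.lf (nat_lit 0) (nat_lit 10850345288663) (nat_lit 76) (nat_lit 33631277250895) (nat_lit 0) (nat_lit 10850207531322) (nat_lit 1) (nat_lit 5) (nat_lit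 2) (nat_lit 4) (nat_lit 1) (nat_lit 4) (nat_lit 422) (nat_lit 316) (nat_lit 282)) (XT.lf (nat_lit 0) (nat_lit 12479074318898) (nat_lit 76) (nat_lit 38673414126255) (nat_lit 0) (nat_lit 12478936405045) (nat_lit 1) (nat_lit 5) (nat_lit 2) (nat_lit 4) (nat_lit 1) (nat_lit 4) (nat_lit 423) (nat_lit 316) (nat_lit 281)))) (XT.nd (nat_lit 78) (nat_lit 0) (nat_lit 0) (XT.lf (nat_lit 0) (nat_lit 14352110220889) (nat_lit 76) (nat_lit 44471876827044) (nat_lit 0) (nat_lit 14351972170938) (nat_lit 1) (nat_lit 5) (nat_lit 2) (nat_lit 4) (nat_lit 1) (nat_lit 4) (nat_lit 424) (nat_lit 316) (nat_lit 280)) (XT.nd (nat_lit 78) (nat_lit 0) (nat_lit 0) (XT.lf (nat_lit 0) (nat_lit 16506099349240) (nat_lit 76) (nat_lit 51140113536538) (nat_lit 0) (nat_lit 16505961180943) (nat_lit 1) (nat_lit 5) (nat_lit 2) (nat_lit 4) (nat_lit 1) (nat_lit 4) (nat_lit 425) (nat_lit 316) (nat_lit 279)) (XT.lf (nat_lit 0) (nat_lit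 18983184969505) (nat_lit 76) (nat_lit 58808589755574) (nat_lit 0) (nat_lit 18983046698299) (nat_lit 1) (nat_lit 5) (nat_lit 2) (nat_lit 4) (nat_lit 1) (nat_lit 4) (nat_lit 426) (nat_lit 316) (nat_lit 278))))) (XT.nd (nat_lit 234) (nat_lit 0) (nat_lit 0) (XT.nd (nat_lit 78) (nat_lit 0) (nat_lit 0) (XT.lf (nat_lit 0) (nat_lit 21831831800342) (nat_lit 76) (nat_lit 67627340888439) (nat_lit 0) (nat_lit 21831693439649) (nat_lit 1) (nat_lit 5) (nat_lit 2) (nat_lit 4) (nat_lit 1) (nat_lit 4) (nat_lit 427) (nat_lit 316) (nat_lit 277)) (XT.nd (nat_lit 78) (nat_lit 0) (nat_lit 0) (XT.lf (nat_lit 0) (nat_lit 25107774236267) (nat_lit 76) (nat_lit 77768907718167) (nat_lit 0) (nat_lit 25107635797760) (nat_lit 1) (nat_lit 5) (nat_lit 2) (nat_lit 4) (nat_lit 1) (nat_lit 4) (nat_lit 428) (nat_lit 316) (nat_lit 276)) (XT.lf (nat_lit 0) (nat_lit 28875106803201) (nat_lit 76) (nat_lit 89431712204469) (nat_lit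 0) (nat_lit 28874968297029) (nat_lit 1) (nat_lit 5) (nat_lit 2) (nat_lit 4) (nat_lit 1) (nat_lit 4) (nat_lit 429) (nat_lit 316) (nat_lit 275)))) (XT.nd (nat_lit 49686) (nat_lit 0) (nat_lit 0) (XT.nd (nat_lit 2496) (nat_lit 0) (nat_lit 0) (XT.lf (nat_lit 0) (nat_lit 33207538181800) (nat_lit 76) (nat_lit 102843939652513) (nat_lit 0) (nat_lit 33207399616790) (nat_lit 1) (nat_lit 5) (nat_lit 2) (nat_lit 4) (nat_lit 1) (nat_lit 4) (nat_lit 430) (nat_lit 316) (nat_lit 274)) (XT.lf (nat_lit 0) (nat_lit 2908490694476464) (nat_lit 76) (nat_lit 9004081566940876) (nat_lit 0) (nat_lit 2908490555523680) (nat_lit 1) (nat_lit 5) (nat_lit 2) (nat_lit 4) (nat_lit 1) (nat_lit 4) (nat_lit 462) (nat_lit 316) (nat_lit 242))) (XT.nd (nat_lit 78) (nat_lit 0) (nat_lit 0) (XT.lf (nat_lit 0) (nat_lit 26489465463) (nat_lit 76) (nat_lit 129016919935) (nat_lit 0) (nat_lit 26489465463) (nat_lit 1) (nat_lit 5) (nat_lit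 2) (nat_lit 4) (nat_lit 1) (nat_lit 4) (nat_lit 386) (nat_lit 317) (nat_lit 317)) (XT.lf (nat_lit 0) (nat_lit 64792651846) (nat_lit 76) (nat_lit 288442306698) (nat_lit 0) (nat_lit 64771808256) (nat_lit 1) (nat_lit 5) (nat_lit 2) (nat_lit 4) (nat_lit 1) (nat_lit 4) (nat_lit 387) (nat_lit 317) (nat_lit 316))))))))
noncomputable def xc12 : XT := (XT.nd (nat_lit 1872) (nat_lit 0) (nat_lit 0) (XT.nd (nat_lit 936) (nat_lit 0) (nat_lit 0) (XT.nd (nat_lit 468) (nat_lit 0) (nat_lit 0) (XT.nd (nat_lit 234) (nat_lit 0) (nat_lit 0) (XT.nd (nat_lit 78) (nat_lit 0) (nat_lit 0) (XT.lf (nat_lit 0) (nat_lit 78047785430) (nat_lit 76) (nat_lit 324117091363) (nat_lit 0) (nat_lit 78008816978) (nat_lit 1) (nat_lit 5) (nat_lit 2) (nat_lit 4) (nat_lit 1) (nat_lit 4) (nat_lit 388) (nat_lit 317) (nat_lit 315)) (XT.nd (nat_lit 78) (nat_lit 0) (nat_lit 0) (XT.lf (nat_lit 0) (nat_lit 93003671245) (nat_lit 76) (nat_lit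 365756178784) (nat_lit 0) (nat_lit 92948942045) (nat_lit 1) (nat_lit 5) (nat_lit 2) (nat_lit 4) (nat_lit 1) (nat_lit 4) (nat_lit 389) (nat_lit 317) (nat_lit 314)) (XT.lf (nat_lit 0) (nat_lit 109952924451) (nat_lit 76) (nat_lit 414174246757) (nat_lit 0) (nat_lit 109884490252) (nat_lit 1) (nat_lit 5) (nat_lit 2) (nat_lit 4) (nat_lit 1) (nat_lit 4) (nat_lit 390) (nat_lit 317) (nat_lit 313)))) (XT.nd (nat_lit 78) (nat_lit 0) (nat_lit 0) (XT.lf (nat_lit 0) (nat_lit 129227160870) (nat_lit 76) (nat_lit 470318605307) (nat_lit 0) (nat_lit 129146809281) (nat_lit 1) (nat_lit 5) (nat_lit 2) (nat_lit 4) (nat_lit 1) (nat_lit 4) (nat_lit 391) (nat_lit 317) (nat_lit 312)) (XT.nd (nat_lit 78) (nat_lit 0) (nat_lit 0) (XT.lf (nat_lit 0) (nat_lit 151203485128) (nat_lit 76) (nat_lit 535287731016) (nat_lit 0) (nat_lit 151112770591) (nat_lit 1) (nat_lit 5) (nat_lit 2) (nat_lit 4) (nat_lit 1) (nat_lit 4) (nat_lit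 392) (nat_lit 317) (nat_lit 311)) (XT.lf (nat_lit 0) (nat_lit 176311868787) (nat_lit 76) (nat_lit 610352758952) (nat_lit 0) (nat_lit 176212142990) (nat_lit 1) (nat_lit 5) (nat_lit 2) (nat_lit 4) (nat_lit 1) (nat_lit 4) (nat_lit 393) (nat_lit 317) (nat_lit 310))))) (XT.nd (nat_lit 234) (nat_lit 0) (nat_lit 0) (XT.nd (nat_lit 78) (nat_lit 0) (nat_lit 0) (XT.lf (nat_lit 0) (nat_lit 205043562831) (nat_lit 76) (nat_lit 696982352703) (nat_lit 0) (nat_lit 204936001157) (nat_lit 1) (nat_lit 5) (nat_lit 2) (nat_lit 4) (nat_lit 1) (nat_lit 4) (nat_lit 394) (nat_lit 317) (nat_lit 309)) (XT.nd (nat_lit 78) (nat_lit 0) (nat_lit 0) (XT.lf (nat_lit 0) (nat_lit 237960709101) (nat_lit 76) (nat_lit 796871439106) (nat_lit 0) (nat_lit 237846333620) (nat_lit 1) (nat_lit 5) (nat_lit 2) (nat_lit 4) (nat_lit 1) (nat_lit 4) (nat_lit 395) (nat_lit 317) (nat_lit 308)) (XT.lf (nat_lit 0) (nat_lit 275707338718) (nat_lit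 76) (nat_lit 911974369849) (nat_lit 0) (nat_lit 275587038188) (nat_lit 1) (nat_lit 5) (nat_lit 2) (nat_lit 4) (nat_lit 1) (nat_lit 4) (nat_lit 396) (nat_lit 317) (nat_lit 307)))) (XT.nd (nat_lit 78) (nat_lit 0) (nat_lit 0) (XT.lf (nat_lit 0) (nat_lit 319021972697) (nat_lit 76) (nat_lit 1044543158797) (nat_lit 0) (nat_lit 318896519950) (nat_lit 1) (nat_lit 5) (nat_lit 2) (nat_lit 4) (nat_lit 1) (nat_lit 4) (nat_lit 397) (nat_lit 317) (nat_lit 306)) (XT.nd (nat_lit 78) (nat_lit 0) (nat_lit 0) (XT.lf (nat_lit 0) (nat_lit 368752071269) (nat_lit 76) (nat_lit 1197171543122) (nat_lit 0) (nat_lit 368622138334) (nat_lit 1) (nat_lit 5) (nat_lit 2) (nat_lit 4) (nat_lit 1) (nat_lit 4) (nat_lit 398) (nat_lit 317) (nat_lit 305)) (XT.lf (nat_lit 0) (nat_lit 425870614622) (nat_lit 76) (nat_lit 1372845730346) (nat_lit 0) (nat_lit 425736785871) (nat_lit 1) (nat_lit 5) (nat_lit 2) (nat_lit 4) (nat_lit 1)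 (nat_lit 4) (nat_lit 399) (nat_lit 317) (nat_lit 304)))))) (XT.nd (nat_lit 468) (nat_lit 0) (nat_lit 0) (XT.nd (nat_lit 234) (nat_lit 0) (nat_lit 0) (XT.nd (nat_lit 78) (nat_lit 0) (nat_lit 0) (XT.lf (nat_lit 0) (nat_lit 491495139475) (nat_lit 76) (nat_lit 1575002824131) (nat_lit 0) (nat_lit 491357923057) (nat_lit 1) (nat_lit 5) (nat_lit 2) (nat_lit 4) (nat_lit 1) (nat_lit 4) (nat_lit 400) (nat_lit 317) (nat_lit 303)) (XT.nd (nat_lit 78) (nat_lit 0) (nat_lit 0) (XT.lf (nat_lit 0) (nat_lit 566909603922) (nat_lit 76) (nat_lit 1807598071964) (nat_lit 0) (nat_lit 566769441708) (nat_lit 1) (nat_lit 5) (nat_lit 2) (nat_lit 4) (nat_lit 1) (nat_lit 4) (nat_lit 401) (nat_lit 317) (nat_lit 302)) (XT.lf (nat_lit 0) (nat_lit 653589508354) (nat_lit 76) (nat_lit 2075182250434) (nat_lit 0) (nat_lit 653446784578) (nat_lit 1) (nat_lit 5) (nat_lit 2) (nat_lit 4) (nat_lit 1) (nat_lit 4) (nat_lit 402) (nat_lit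 317) (nat_lit 301)))) (XT.nd (nat_lit 78) (nat_lit 0) (nat_lit 0) (XT.lf (nat_lit 0) (nat_lit 753230763947) (nat_lit 76) (nat_lit 2382990702162) (nat_lit 0) (nat_lit 753085812725) (nat_lit 1) (nat_lit 5) (nat_lit 2) (nat_lit 4) (nat_lit 1) (nat_lit 4) (nat_lit 403) (nat_lit 317) (nat_lit 300)) (XT.nd (nat_lit 78) (nat_lit 0) (nat_lit 0) (XT.lf (nat_lit 0) (nat_lit 867782873525) (nat_lit 76) (nat_lit 2737045766421) (nat_lit 0) (nat_lit 867635985394) (nat_lit 1) (nat_lit 5) (nat_lit 2) (nat_lit 4) (nat_lit 1) (nat_lit 4) (nat_lit 404) (nat_lit 317) (nat_lit 299)) (XT.lf (nat_lit 0) (nat_lit 999487074016) (nat_lit 76) (nat_lit 3144274607513) (nat_lit 0) (nat_lit 999338501616) (nat_lit 1) (nat_lit 5) (nat_lit 2) (nat_lit 4) (nat_lit 1) (nat_lit 4) (nat_lit 405) (nat_lit 317) (nat_lit 298))))) (XT.nd (nat_lit 234) (nat_lit 0) (nat_lit 0) (XT.nd (nat_lit 78) (nat_lit 0) (nat_lit 0) (XT.lf (nat_lit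 0) (nat_lit 1150920186734) (nat_lit 76) (nat_lit 3612644746240) (nat_lit 0) (nat_lit 1150770149753) (nat_lit 1) (nat_lit 5) (nat_lit 2) (nat_lit 4) (nat_lit 1) (nat_lit 4) (nat_lit 406) (nat_lit 317) (nat_lit 297)) (XT.nd (nat_lit 78) (nat_lit 0) (nat_lit 0) (XT.lf (nat_lit 0) (nat_lit 1325045033449) (nat_lit 76) (nat_lit 4151319946188) (nat_lit 0) (nat_lit 1324893722918) (nat_lit 1) (nat_lit 5) (nat_lit 2) (nat_lit 4) (nat_lit 1) (nat_lit 4) (nat_lit 407) (nat_lit 317) (nat_lit 296)) (XT.lf (nat_lit 0) (nat_lit 1525268404640) (nat_lit 76) (nat_lit 4770839504745) (nat_lit 0) (nat_lit 1525115986676) (nat_lit 1) (nat_lit 5) (nat_lit 2) (nat_lit 4) (nat_lit 1) (nat_lit 4) (nat_lit 408) (nat_lit 317) (nat_lit 295)))) (XT.nd (nat_lit 78) (nat_lit 0) (nat_lit 0) (XT.lf (nat_lit 0) (nat_lit 1755507714093) (nat_lit 76) (nat_lit 5483324456755) (nat_lit 0) (nat_lit 1755354333142) (nat_lit 1) (nat_lit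 5) (nat_lit 2) (nat_lit 4) (nat_lit 1) (nat_lit 4) (nat_lit 409) (nat_lit 317) (nat_lit 294)) (XT.nd (nat_lit 78) (nat_lit 0) (nat_lit 0) (XT.lf (nat_lit 0) (nat_lit 2020267643947) (nat_lit 76) (nat_lit 6302714725189) (nat_lit 0) (nat_lit 2020113425617) (nat_lit 1) (nat_lit 5) (nat_lit 2) (nat_lit 4) (nat_lit 1) (nat_lit 4) (nat_lit 410) (nat_lit 317) (nat_lit 293)) (XT.lf (nat_lit 0) (nat_lit 2324728279787) (nat_lit 76) (nat_lit 7245041858780) (nat_lit 0) (nat_lit 2324573333302) (nat_lit 1) (nat_lit 5) (nat_lit 2) (nat_lit 4) (nat_lit 1) (nat_lit 4) (nat_lit 411) (nat_lit 317) (nat_lit 292))))))) (XT.nd (nat_lit 936) (nat_lit 0) (nat_lit 0) (XT.nd (nat_lit 468) (nat_lit 0) (nat_lit 0) (XT.nd (nat_lit 234) (nat_lit 0) (nat_lit 0) (XT.nd (nat_lit 78) (nat_lit 0) (nat_lit 0) (XT.lf (nat_lit 0) (nat_lit 2674846460141) (nat_lit 76) (nat_lit 8328742692749) (nat_lit 0) (nat_lit 2674690880477)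 (nat_lit 1) (nat_lit 5) (nat_lit 2) (nat_lit 4) (nat_lit 1) (nat_lit 4) (nat_lit 412) (nat_lit 317) (nat_lit 291)) (XT.nd (nat_lit 78) (nat_lit 0) (nat_lit 0) (XT.lf (nat_lit 0) (nat_lit 3077472323320) (nat_lit 76) (nat_lit 9575020069500) (nat_lit 0) (nat_lit 3077316193065) (nat_lit 1) (nat_lit 5) (nat_lit 2) (nat_lit 4) (nat_lit 1) (nat_lit 4) (nat_lit 413) (nat_lit 317) (nat_lit 290)) (XT.lf (nat_lit 0) (nat_lit 3540483331864) (nat_lit 76) (nat_lit 11008257676839) (nat_lit 0) (nat_lit 3540326722835) (nat_lit 1) (nat_lit 5) (nat_lit 2) (nat_lit 4) (nat_lit 1) (nat_lit 4) (nat_lit 414) (nat_lit 317) (nat_lit 289)))) (XT.nd (nat_lit 78) (nat_lit 0) (nat_lit 0) (XT.lf (nat_lit 0) (nat_lit 4072938396810) (nat_lit 76) (nat_lit 12656497120128) (nat_lit 0) (nat_lit 4072781371455) (nat_lit 1) (nat_lit 5) (nat_lit 2) (nat_lit 4) (nat_lit 1) (nat_lit 4) (nat_lit 415) (nat_lit 317) (nat_lit 288))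 (XT.nd (nat_lit 78) (nat_lit 0) (nat_lit 0) (XT.lf (nat_lit 0) (nat_lit 4685255117255) (nat_lit 76) (nat_lit 14551986562386) (nat_lit 0) (nat_lit 4685097729878) (nat_lit 1) (nat_lit 5) (nat_lit 2) (nat_lit 4) (nat_lit 1) (nat_lit 4) (nat_lit 416) (nat_lit 317) (nat_lit 287)) (XT.lf (nat_lit 0) (nat_lit 5389413602947) (nat_lit 76) (nat_lit 16731811666614) (nat_lit 0) (nat_lit 5389255900767) (nat_lit 1) (nat_lit 5) (nat_lit 2) (nat_lit 4) (nat_lit 1) (nat_lit 4) (nat_lit 417) (nat_lit 317) (nat_lit 286))))) (XT.nd (nat_lit 234) (nat_lit 0) (nat_lit 0) (XT.nd (nat_lit 78) (nat_lit 0) (nat_lit 0) (XT.lf (nat_lit 0) (nat_lit 6199190867735) (nat_lit 76) (nat_lit 19238621184853) (nat_lit 0) (nat_lit 6199032891815) (nat_lit 1) (nat_lit 5) (nat_lit 2) (nat_lit 4) (nat_lit 1) (nat_lit 4) (nat_lit 418) (nat_lit 317) (nat_lit 285)) (XT.nd (nat_lit 78) (nat_lit 0) (nat_lit 0) (XT.lf (nat_lit 0) (nat_lit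 7130430379845) (nat_lit 76) (nat_lit 22121461390284) (nat_lit 0) (nat_lit 7130272165889) (nat_lit 1) (nat_lit 5) (nat_lit 2) (nat_lit 4) (nat_lit 1) (nat_lit 4) (nat_lit 419) (nat_lit 317) (nat_lit 284)) (XT.lf (nat_lit 0) (nat_lit 8201352042773) (nat_lit 76) (nat_lit 25436735678232) (nat_lit 0) (nat_lit 8201193621831) (nat_lit 1) (nat_lit 5) (nat_lit 2) (nat_lit 4) (nat_lit 1) (nat_lit 4) (nat_lit 420) (nat_lit 317) (nat_lit 283)))) (XT.nd (nat_lit 78) (nat_lit 0) (nat_lit 0) (XT.lf (nat_lit 0) (nat_lit 9432908671665) (nat_lit 76) (nat_lit 29249308110851) (nat_lit 0) (nat_lit 9432750070733) (nat_lit 1) (nat_lit 5) (nat_lit 2) (nat_lit 4) (nat_lit 1) (nat_lit 4) (nat_lit 421) (nat_lit 317) (nat_lit 282)) (XT.nd (nat_lit 78) (nat_lit 0) (nat_lit 0) (XT.lf (nat_lit 0) (nat_lit 10849195939694) (nat_lit 76) (nat_lit 33633772496607) (nat_lit 0) (nat_lit 10849037182250) (nat_lit 1) (nat_lit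 5) (nat_lit 2) (nat_lit 4) (nat_lit 1) (nat_lit 4) (nat_lit 422) (nat_lit 317) (nat_lit 281)) (XT.lf (nat_lit 0) (nat_lit 12477923815148) (nat_lit 76) (nat_lit 38675911834351) (nat_lit 0) (nat_lit 12477764921607) (nat_lit 1) (nat_lit 5) (nat_lit 2) (nat_lit 4) (nat_lit 1) (nat_lit 4) (nat_lit 423) (nat_lit 317) (nat_lit 280)))))) (XT.nd (nat_lit 468) (nat_lit 0) (nat_lit 0) (XT.nd (nat_lit 234) (nat_lit 0) (nat_lit 0) (XT.nd (nat_lit 78) (nat_lit 0) (nat_lit 0) (XT.lf (nat_lit 0) (nat_lit 14350958712981) (nat_lit 76) (nat_lit 44474376676343) (nat_lit 0) (nat_lit 14350799701094) (nat_lit 1) (nat_lit 5) (nat_lit 2) (nat_lit 4) (nat_lit 1) (nat_lit 4) (nat_lit 424) (nat_lit 317) (nat_lit 279)) (XT.nd (nat_lit 78) (nat_lit 0) (nat_lit 0) (XT.lf (nat_lit 0) (nat_lit 16504946968151) (nat_lit 76) (nat_lit 51142615247752) (nat_lit 0) (nat_lit 16504787853355) (nat_lit 1) (nat_lit 5) (nat_lit 2)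 (nat_lit 4) (nat_lit 1) (nat_lit 4) (nat_lit 425) (nat_lit 317) (nat_lit 278)) (XT.lf (nat_lit 0) (nat_lit 18982031829129) (nat_lit 76) (nat_lit 58811093085846) (nat_lit 0) (nat_lit 18981872624846) (nat_lit 1) (nat_lit 5) (nat_lit 2) (nat_lit 4) (nat_lit 1) (nat_lit 4) (nat_lit 426) (nat_lit 317) (nat_lit 277)))) (XT.nd (nat_lit 78) (nat_lit 0) (nat_lit 0) (XT.lf (nat_lit 0) (nat_lit 21830677999716) (nat_lit 76) (nat_lit 67629845626587) (nat_lit 0) (nat_lit 21830518717619) (nat_lit 1) (nat_lit 5) (nat_lit 2) (nat_lit 4) (nat_lit 1) (nat_lit 4) (nat_lit 427) (nat_lit 317) (nat_lit 276)) (XT.nd (nat_lit 78) (nat_lit 0) (nat_lit 0) (XT.lf (nat_lit 0) (nat_lit 25106619861511) (nat_lit 76) (nat_lit 77771413680554) (nat_lit 0) (nat_lit 25106460511749) (nat_lit 1) (nat_lit 5) (nat_lit 2) (nat_lit 4) (nat_lit 1) (nat_lit 4) (nat_lit 428) (nat_lit 317) (nat_lit 275)) (XT.lf (nat_lit 0) (nat_lit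 28873951929201) (nat_lit 76) (nat_lit 89434219231413) (nat_lit 0) (nat_lit 28873792520600) (nat_lit 1) (nat_lit 5) (nat_lit 2) (nat_lit 4) (nat_lit 1) (nat_lit 4) (nat_lit 429) (nat_lit 317) (nat_lit 274))))) (XT.nd (nat_lit 49686) (nat_lit 0) (nat_lit 0) (XT.nd (nat_lit 49530) (nat_lit 0) (nat_lit 0) (XT.lf (nat_lit 0) (nat_lit 33206382873675) (nat_lit 76) (nat_lit 102846447605158) (nat_lit 0) (nat_lit 33206223413911) (nat_lit 1) (nat_lit 5) (nat_lit 2) (nat_lit 4) (nat_lit 1) (nat_lit 4) (nat_lit 430) (nat_lit 317) (nat_lit 273)) (XT.nd (nat_lit 78) (nat_lit 0) (nat_lit 0) (XT.lf (nat_lit 0) (nat_lit 16501104915) (nat_lit 76) (nat_lit 105146888322) (nat_lit 0) (nat_lit 16501104915) (nat_lit 1) (nat_lit 5) (nat_lit 2) (nat_lit 4) (nat_lit 1) (nat_lit 4) (nat_lit 384) (nat_lit 318) (nat_lit 318)) (XT.lf (nat_lit 0) (nat_lit 42399454778) (nat_lit 76) (nat_lit 232296742615) (nat_lit 0)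 (nat_lit 42375484650) (nat_lit 1) (nat_lit 5) (nat_lit 2) (nat_lit 4) (nat_lit 1) (nat_lit 4) (nat_lit 385) (nat_lit 318) (nat_lit 317)))) (XT.nd (nat_lit 156) (nat_lit 0) (nat_lit 0) (XT.nd (nat_lit 78) (nat_lit 0) (nat_lit 0) (XT.lf (nat_lit 0) (nat_lit 52826044172) (nat_lit 76) (nat_lit 258410958468) (nat_lit 0) (nat_lit 52781230453) (nat_lit 1) (nat_lit 5) (nat_lit 2) (nat_lit 4) (nat_lit 1) (nat_lit 4) (nat_lit 386) (nat_lit 318) (nat_lit 316)) (XT.lf (nat_lit 0) (nat_lit 64485976500) (nat_lit 76) (nat_lit 289147354511) (nat_lit 0) (nat_lit 64423037920) (nat_lit 1) (nat_lit 5) (nat_lit 2) (nat_lit 4) (nat_lit 1) (nat_lit 4) (nat_lit 387) (nat_lit 318) (nat_lit 315))) (XT.nd (nat_lit 78) (nat_lit 0) (nat_lit 0) (XT.lf (nat_lit 0) (nat_lit 77607380871) (nat_lit 76) (nat_lit 325107295016) (nat_lit 0) (nat_lit 77528681542) (nat_lit 1) (nat_lit 5) (nat_lit 2) (nat_lit 4) (nat_lit 1) (nat_lit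 4) (nat_lit 388) (nat_lit 318) (nat_lit 314)) (XT.lf (nat_lit 0) (nat_lit 92446980416) (nat_lit 76) (nat_lit 366994344037) (nat_lit 0) (nat_lit 92354576088) (nat_lit 1) (nat_lit 5) (nat_lit 2) (nat_lit 4) (nat_lit 1) (nat_lit 4) (nat_lit 389) (nat_lit 318) (nat_lit 313))))))))
noncomputable def xc13 : XT := (XT.nd (nat_lit 1872) (nat_lit 0) (nat_lit 0) (XT.nd (nat_lit 936) (nat_lit 0) (nat_lit 0) (XT.nd (nat_lit 468) (nat_lit 0) (nat_lit 0) (XT.nd (nat_lit 234) (nat_lit 0) (nat_lit 0) (XT.nd (nat_lit 78) (nat_lit 0) (nat_lit 0) (XT.lf (nat_lit 0) (nat_lit 109295115125) (nat_lit 76) (nat_lit 415628030792) (nat_lit 0) (nat_lit 109190793407) (nat_lit 1) (nat_lit 5) (nat_lit 2) (nat_lit 4) (nat_lit 1) (nat_lit 4) (nat_lit 390) (nat_lit 318) (nat_lit 312)) (XT.nd (nat_lit 78) (nat_lit 0) (nat_lit 0) (XT.lf (nat_lit 0) (nat_lit 128481422417) (nat_lit 76) (nat_lit 471959883936) (nat_lit 0) (nat_lit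 128366737751) (nat_lit 1) (nat_lit 5) (nat_lit 2) (nat_lit 4) (nat_lit 1) (nat_lit 4) (nat_lit 391) (nat_lit 318) (nat_lit 311)) (XT.lf (nat_lit 0) (nat_lit 150381286564) (nat_lit 76) (nat_lit 537092048421) (nat_lit 0) (nat_lit 150257590639) (nat_lit 1) (nat_lit 5) (nat_lit 2) (nat_lit 4) (nat_lit 1) (nat_lit 4) (nat_lit 392) (nat_lit 318) (nat_lit 310)))) (XT.nd (nat_lit 78) (nat_lit 0) (nat_lit 0) (XT.lf (nat_lit 0) (nat_lit 175423183170) (nat_lit 76) (nat_lit 612298849206) (nat_lit 0) (nat_lit 175291651367) (nat_lit 1) (nat_lit 5) (nat_lit 2) (nat_lit 4) (nat_lit 1) (nat_lit 4) (nat_lit 393) (nat_lit 318) (nat_lit 309)) (XT.nd (nat_lit 78) (nat_lit 0) (nat_lit 0) (XT.lf (nat_lit 0) (nat_lit 204097062386) (nat_lit 76) (nat_lit 699051723696) (nat_lit 0) (nat_lit 203958716776) (nat_lit 1) (nat_lit 5) (nat_lit 2) (nat_lit 4) (nat_lit 1) (nat_lit 4) (nat_lit 394) (nat_lit 318) (nat_lit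 308)) (XT.lf (nat_lit 0) (nat_lit 236963934891) (nat_lit 76) (nat_lit 799048010741) (nat_lit 0) (nat_lit 236819664232) (nat_lit 1) (nat_lit 5) (nat_lit 2) (nat_lit 4) (nat_lit 1) (nat_lit 4) (nat_lit 395) (nat_lit 318) (nat_lit 307))))) (XT.nd (nat_lit 234) (nat_lit 0) (nat_lit 0) (XT.nd (nat_lit 78) (nat_lit 0) (nat_lit 0) (XT.lf (nat_lit 0) (nat_lit 274666848192) (nat_lit 76) (nat_lit 914244159434) (nat_lit 0) (nat_lit 274517425317) (nat_lit 1) (nat_lit 5) (nat_lit 2) (nat_lit 4) (nat_lit 1) (nat_lit 4) (nat_lit 396) (nat_lit 318) (nat_lit 306)) (XT.nd (nat_lit 78) (nat_lit 0) (nat_lit 0) (XT.lf (nat_lit 0) (nat_lit 317943467983) (nat_lit 76) (nat_lit 1046894007468) (nat_lit 0) (nat_lit 317789564919) (nat_lit 1) (nat_lit 5) (nat_lit 2) (nat_lit 4) (nat_lit 1) (nat_lit 4) (nat_lit 397) (nat_lit 318) (nat_lit 305)) (XT.lf (nat_lit 0) (nat_lit 367640510739) (nat_lit 76) (nat_lit 1199592877956)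 (nat_lit 0) (nat_lit 367482711859) (nat_lit 1) (nat_lit 5) (nat_lit 2) (nat_lit 4) (nat_lit 1) (nat_lit 4) (nat_lit 398) (nat_lit 318) (nat_lit 304)))) (XT.nd (nat_lit 78) (nat_lit 0) (nat_lit 0) (XT.lf (nat_lit 0) (nat_lit 424730309905) (nat_lit 76) (nat_lit 1375328357495) (nat_lit 0) (nat_lit 424569123358) (nat_lit 1) (nat_lit 5) (nat_lit 2) (nat_lit 4) (nat_lit 1) (nat_lit 4) (nat_lit 399) (nat_lit 318) (nat_lit 303)) (XT.nd (nat_lit 78) (nat_lit 0) (nat_lit 0) (XT.lf (nat_lit 0) (nat_lit 490329839811) (nat_lit 76) (nat_lit 1577538748946) (nat_lit 0) (nat_lit 490165707469) (nat_lit 1) (nat_lit 5) (nat_lit 2) (nat_lit 4) (nat_lit 1) (nat_lit 4) (nat_lit 400) (nat_lit 318) (nat_lit 302)) (XT.lf (nat_lit 0) (nat_lit 565722569523) (nat_lit 76) (nat_lit 1810180342575) (nat_lit 0) (nat_lit 565555875618) (nat_lit 1) (nat_lit 5) (nat_lit 2) (nat_lit 4) (nat_lit 1) (nat_lit 4) (nat_lit 401)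 (nat_lit 318) (nat_lit 301)))))) (XT.nd (nat_lit 468) (nat_lit 0) (nat_lit 0) (XT.nd (nat_lit 234) (nat_lit 0) (nat_lit 0) (XT.nd (nat_lit 78) (nat_lit 0) (nat_lit 0) (XT.lf (nat_lit 0) (nat_lit 652383574186) (nat_lit 76) (nat_lit 2077804821736) (nat_lit 0) (nat_lit 652214652835) (nat_lit 1) (nat_lit 5) (nat_lit 2) (nat_lit 4) (nat_lit 1) (nat_lit 4) (nat_lit 402) (nat_lit 318) (nat_lit 300)) (XT.nd (nat_lit 78) (nat_lit 0) (nat_lit 0) (XT.lf (nat_lit 0) (nat_lit 752008395195) (nat_lit 76) (nat_lit 2385648317544) (nat_lit 0) (nat_lit 751837536935) (nat_lit 1) (nat_lit 5) (nat_lit 2) (nat_lit 4) (nat_lit 1) (nat_lit 4) (nat_lit 403) (nat_lit 318) (nat_lit 299)) (XT.lf (nat_lit 0) (nat_lit 866546213832) (nat_lit 76) (nat_lit 2739733854917) (nat_lit 0) (nat_lit 866373671304) (nat_lit 1) (nat_lit 5) (nat_lit 2) (nat_lit 4) (nat_lit 1) (nat_lit 4) (nat_lit 404) (nat_lit 318) (nat_lit 298))))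 (XT.nd (nat_lit 78) (nat_lit 0) (nat_lit 0) (XT.lf (nat_lit 0) (nat_lit 998237987418) (nat_lit 76) (nat_lit 3146989194368) (nat_lit 0) (nat_lit 998063980308) (nat_lit 1) (nat_lit 5) (nat_lit 2) (nat_lit 4) (nat_lit 1) (nat_lit 4) (nat_lit 405) (nat_lit 318) (nat_lit 297)) (XT.nd (nat_lit 78) (nat_lit 0) (nat_lit 0) (XT.lf (nat_lit 0) (nat_lit 1149660294131) (nat_lit 76) (nat_lit 3615382375147) (nat_lit 0) (nat_lit 1149485013471) (nat_lit 1) (nat_lit 5) (nat_lit 2) (nat_lit 4) (nat_lit 1) (nat_lit 4) (nat_lit 406) (nat_lit 318) (nat_lit 296)) (XT.lf (nat_lit 0) (nat_lit 1323775744320) (nat_lit 76) (nat_lit 4154077611661) (nat_lit 0) (nat_lit 1323599356226) (nat_lit 1) (nat_lit 5) (nat_lit 2) (nat_lit 4) (nat_lit 1) (nat_lit 4) (nat_lit 407) (nat_lit 318) (nat_lit 295))))) (XT.nd (nat_lit 234) (nat_lit 0) (nat_lit 0) (XT.nd (nat_lit 78) (nat_lit 0) (nat_lit 0) (XT.lf (nat_lit 0) (nat_lit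 1523990944619) (nat_lit 76) (nat_lit 4773614593320) (nat_lit 0) (nat_lit 1523813593540) (nat_lit 1) (nat_lit 5) (nat_lit 2) (nat_lit 4) (nat_lit 1) (nat_lit 4) (nat_lit 408) (nat_lit 318) (nat_lit 294)) (XT.nd (nat_lit 78) (nat_lit 0) (nat_lit 0) (XT.lf (nat_lit 0) (nat_lit 1754223148948) (nat_lit 76) (nat_lit 5486114695852) (nat_lit 0) (nat_lit 1754044960489) (nat_lit 1) (nat_lit 5) (nat_lit 2) (nat_lit 4) (nat_lit 1) (nat_lit 4) (nat_lit 409) (nat_lit 318) (nat_lit 293)) (XT.lf (nat_lit 0) (nat_lit 2018976900434) (nat_lit 76) (nat_lit 6305518138655) (nat_lit 0) (nat_lit 2018797983819) (nat_lit 1) (nat_lit 5) (nat_lit 2) (nat_lit 4) (nat_lit 1) (nat_lit 4) (nat_lit 410) (nat_lit 318) (nat_lit 292)))) (XT.nd (nat_lit 78) (nat_lit 0) (nat_lit 0) (XT.lf (nat_lit 0) (nat_lit 2323432163780) (nat_lit 76) (nat_lit 7247856728217) (nat_lit 0) (nat_lit 2323252613986) (nat_lit 1) (nat_lit 5) (nat_lit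 2) (nat_lit 4) (nat_lit 1) (nat_lit 4) (nat_lit 411) (nat_lit 318) (nat_lit 291)) (XT.nd (nat_lit 78) (nat_lit 0) (nat_lit 0) (XT.lf (nat_lit 0) (nat_lit 2673545672400) (nat_lit 76) (nat_lit 8331567523901) (nat_lit 0) (nat_lit 2673365572016) (nat_lit 1) (nat_lit 5) (nat_lit 2) (nat_lit 4) (nat_lit 1) (nat_lit 4) (nat_lit 412) (nat_lit 318) (nat_lit 290)) (XT.lf (nat_lit 0) (nat_lit 3076167473201) (nat_lit 76) (nat_lit 9577853563013) (nat_lit 0) (nat_lit 3075986894043) (nat_lit 1) (nat_lit 5) (nat_lit 2) (nat_lit 4) (nat_lit 1) (nat_lit 4) (nat_lit 413) (nat_lit 318) (nat_lit 289))))))) (XT.nd (nat_lit 936) (nat_lit 0) (nat_lit 0) (XT.nd (nat_lit 468) (nat_lit 0) (nat_lit 0) (XT.nd (nat_lit 234) (nat_lit 0) (nat_lit 0) (XT.nd (nat_lit 78) (nat_lit 0) (nat_lit 0) (XT.lf (nat_lit 0) (nat_lit 3539174949243) (nat_lit 76) (nat_lit 11011098702839) (nat_lit 0) (nat_lit 3538993953759) (nat_lit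 1) (nat_lit 5) (nat_lit 2) (nat_lit 4) (nat_lit 1) (nat_lit 4) (nat_lit 414) (nat_lit 318) (nat_lit 288)) (XT.nd (nat_lit 78) (nat_lit 0) (nat_lit 0) (XT.lf (nat_lit 0) (nat_lit 4071626942448) (nat_lit 76) (nat_lit 12659344696117) (nat_lit 0) (nat_lit 4071445584942) (nat_lit 1) (nat_lit 5) (nat_lit 2) (nat_lit 4) (nat_lit 1) (nat_lit 4) (nat_lit 415) (nat_lit 318) (nat_lit 287)) (XT.lf (nat_lit 0) (nat_lit 4683940991814) (nat_lit 76) (nat_lit 14554839834018) (nat_lit 0) (nat_lit 4683759319506) (nat_lit 1) (nat_lit 5) (nat_lit 2) (nat_lit 4) (nat_lit 1) (nat_lit 4) (nat_lit 416) (nat_lit 318) (nat_lit 286)))) (XT.nd (nat_lit 78) (nat_lit 0) (nat_lit 0) (XT.lf (nat_lit 0) (nat_lit 5388097154828) (nat_lit 76) (nat_lit 16734669890979) (nat_lit 0) (nat_lit 5387915208779) (nat_lit 1) (nat_lit 5) (nat_lit 2) (nat_lit 4) (nat_lit 1) (nat_lit 4) (nat_lit 417) (nat_lit 318) (nat_lit 285)) (XT.nd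 (nat_lit 78) (nat_lit 0) (nat_lit 0) (XT.lf (nat_lit 0) (nat_lit 6197872399897) (nat_lit 76) (nat_lit 19241483715942) (nat_lit 0) (nat_lit 6197690215812) (nat_lit 1) (nat_lit 5) (nat_lit 2) (nat_lit 4) (nat_lit 1) (nat_lit 4) (nat_lit 418) (nat_lit 318) (nat_lit 284)) (XT.lf (nat_lit 0) (nat_lit 7129110155728) (nat_lit 76) (nat_lit 22124327666350) (nat_lit 0) (nat_lit 7128927764657) (nat_lit 1) (nat_lit 5) (nat_lit 2) (nat_lit 4) (nat_lit 1) (nat_lit 4) (nat_lit 419) (nat_lit 318) (nat_lit 283))))) (XT.nd (nat_lit 234) (nat_lit 0) (nat_lit 0) (XT.nd (nat_lit 78) (nat_lit 0) (nat_lit 0) (XT.lf (nat_lit 0) (nat_lit 8200030291459) (nat_lit 76) (nat_lit 25439605210800) (nat_lit 0) (nat_lit 8199847720398) (nat_lit 1) (nat_lit 5) (nat_lit 2) (nat_lit 4) (nat_lit 1) (nat_lit 4) (nat_lit 420) (nat_lit 318) (nat_lit 282)) (XT.nd (nat_lit 78) (nat_lit 0) (nat_lit 0) (XT.lf (nat_lit 0) (nat_lit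 9431585592352) (nat_lit 76) (nat_lit 29252180475161) (nat_lit 0) (nat_lit 9431402864780) (nat_lit 1) (nat_lit 5) (nat_lit 2) (nat_lit 4) (nat_lit 1) (nat_lit 4) (nat_lit 421) (nat_lit 318) (nat_lit 281)) (XT.lf (nat_lit 0) (nat_lit 10847871705600) (nat_lit 76) (nat_lit 33636647323300) (nat_lit 0) (nat_lit 10847688841930) (nat_lit 1) (nat_lit 5) (nat_lit 2) (nat_lit 4) (nat_lit 1) (nat_lit 4) (nat_lit 422) (nat_lit 318) (nat_lit 280)))) (XT.nd (nat_lit 78) (nat_lit 0) (nat_lit 0) (XT.lf (nat_lit 0) (nat_lit 12476598576897) (nat_lit 76) (nat_lit 38678788802247) (nat_lit 0) (nat_lit 12476415594881) (nat_lit 1) (nat_lit 5) (nat_lit 2) (nat_lit 4) (nat_lit 1) (nat_lit 4) (nat_lit 423) (nat_lit 318) (nat_lit 279)) (XT.nd (nat_lit 78) (nat_lit 0) (nat_lit 0) (XT.lf (nat_lit 0) (nat_lit 14349632601549) (nat_lit 76) (nat_lit 44477255506155) (nat_lit 0) (nat_lit 14349449516624) (nat_lit 1) (nat_lit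 5) (nat_lit 2) (nat_lit 4) (nat_lit 1) (nat_lit 4) (nat_lit 424) (nat_lit 318) (nat_lit 278)) (XT.lf (nat_lit 0) (nat_lit 16503620097432) (nat_lit 76) (nat_lit 51145495696621) (nat_lit 0) (nat_lit 16503436923020) (nat_lit 1) (nat_lit 5) (nat_lit 2) (nat_lit 4) (nat_lit 1) (nat_lit 4) (nat_lit 425) (nat_lit 318) (nat_lit 277)))))) (XT.nd (nat_lit 49686) (nat_lit 0) (nat_lit 0) (XT.nd (nat_lit 234) (nat_lit 0) (nat_lit 0) (XT.nd (nat_lit 78) (nat_lit 0) (nat_lit 0) (XT.lf (nat_lit 0) (nat_lit 18980704298160) (nat_lit 76) (nat_lit 58813974942591) (nat_lit 0) (nat_lit 18980521045934) (nat_lit 1) (nat_lit 5) (nat_lit 2) (nat_lit 4) (nat_lit 1) (nat_lit 4) (nat_lit 426) (nat_lit 318) (nat_lit 276)) (XT.nd (nat_lit 78) (nat_lit 0) (nat_lit 0) (XT.lf (nat_lit 0) (nat_lit 21829349894616) (nat_lit 76) (nat_lit 67632728707571) (nat_lit 0) (nat_lit 21829166574726) (nat_lit 1) (nat_lit 5) (nat_lit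 2) (nat_lit 4) (nat_lit 1) (nat_lit 4) (nat_lit 427) (nat_lit 318) (nat_lit 275)) (XT.lf (nat_lit 0) (nat_lit 25105291257167) (nat_lit 76) (nat_lit 77774297826095) (nat_lit 0) (nat_lit 25105107878438) (nat_lit 1) (nat_lit 5) (nat_lit 2) (nat_lit 4) (nat_lit 1) (nat_lit 4) (nat_lit 428) (nat_lit 318) (nat_lit 274)))) (XT.nd (nat_lit 78) (nat_lit 0) (nat_lit 0) (XT.lf (nat_lit 0) (nat_lit 28872622890732) (nat_lit 76) (nat_lit 89437104302655) (nat_lit 0) (nat_lit 28872439460839) (nat_lit 1) (nat_lit 5) (nat_lit 2) (nat_lit 4) (nat_lit 1) (nat_lit 4) (nat_lit 429) (nat_lit 318) (nat_lit 273)) (XT.nd (nat_lit 78) (nat_lit 0) (nat_lit 0) (XT.lf (nat_lit 0) (nat_lit 33205053457706) (nat_lit 76) (nat_lit 102849333481357) (nat_lit 0) (nat_lit 33204869983323) (nat_lit 1) (nat_lit 5) (nat_lit 2) (nat_lit 4) (nat_lit 1) (nat_lit 4) (nat_lit 430) (nat_lit 318) (nat_lit 272)) (XT.lf (nat_lit 0) (nat_lit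 38187347903966) (nat_lit 76) (nat_lit 118273398541786) (nat_lit 0) (nat_lit 38187164390895) (nat_lit 1) (nat_lit 5) (nat_lit 2) (nat_lit 4) (nat_lit 1) (nat_lit 4) (nat_lit 431) (nat_lit 318) (nat_lit 271))))) (XT.nd (nat_lit 234) (nat_lit 0) (nat_lit 0) (XT.nd (nat_lit 78) (nat_lit 0) (nat_lit 0) (XT.lf (nat_lit 0) (nat_lit 8419158843) (nat_lit 76) (nat_lit 88236449280) (nat_lit 0) (nat_lit 8419158843) (nat_lit 1) (nat_lit 5) (nat_lit 2) (nat_lit 4) (nat_lit 1) (nat_lit 4) (nat_lit 382) (nat_lit 319) (nat_lit 319)) (XT.nd (nat_lit 78) (nat_lit 0) (nat_lit 0) (XT.lf (nat_lit 0) (nat_lit 24478015834) (nat_lit 76) (nat_lit 191971567741) (nat_lit 0) (nat_lit 24450450186) (nat_lit 1) (nat_lit 5) (nat_lit 2) (nat_lit 4) (nat_lit 1) (nat_lit 4) (nat_lit 383) (nat_lit 319) (nat_lit 318)) (XT.lf (nat_lit 0) (nat_lit 32826390063) (nat_lit 76) (nat_lit 210727463031) (nat_lit 0) (nat_lit 32774854286)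 (nat_lit 1) (nat_lit 5) (nat_lit 2) (nat_lit 4) (nat_lit 1) (nat_lit 4) (nat_lit 384) (nat_lit 319) (nat_lit 317)))) (XT.nd (nat_lit 156) (nat_lit 0) (nat_lit 0) (XT.nd (nat_lit 78) (nat_lit 0) (nat_lit 0) (XT.lf (nat_lit 0) (nat_lit 42046778129) (nat_lit 76) (nat_lit 233107547601) (nat_lit 0) (nat_lit 41974398762) (nat_lit 1) (nat_lit 5) (nat_lit 2) (nat_lit 4) (nat_lit 1) (nat_lit 4) (nat_lit 385) (nat_lit 319) (nat_lit 316)) (XT.lf (nat_lit 0) (nat_lit 52319578930) (nat_lit 76) (nat_lit 259549692668) (nat_lit 0) (nat_lit 52229074702) (nat_lit 1) (nat_lit 5) (nat_lit 2) (nat_lit 4) (nat_lit 1) (nat_lit 4) (nat_lit 386) (nat_lit 319) (nat_lit 315))) (XT.nd (nat_lit 78) (nat_lit 0) (nat_lit 0) (XT.lf (nat_lit 0) (nat_lit 63845782046) (nat_lit 76) (nat_lit 290571244552) (nat_lit 0) (nat_lit 63739517069) (nat_lit 1) (nat_lit 5) (nat_lit 2) (nat_lit 4) (nat_lit 1) (nat_lit 4) (nat_lit 387)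 (nat_lit 319) (nat_lit 314)) (XT.lf (nat_lit 0) (nat_lit 76850900147) (nat_lit 76) (nat_lit 326779146656) (nat_lit 0) (nat_lit 76730930171) (nat_lit 1) (nat_lit 5) (nat_lit 2) (nat_lit 4) (nat_lit 1) (nat_lit 4) (nat_lit 388) (nat_lit 319) (nat_lit 313))))))))
noncomputable def xc14 : XT := (XT.nd (nat_lit 1872) (nat_lit 0) (nat_lit 0) (XT.nd (nat_lit 936) (nat_lit 0) (nat_lit 0) (XT.nd (nat_lit 468) (nat_lit 0) (nat_lit 0) (XT.nd (nat_lit 234) (nat_lit 0) (nat_lit 0) (XT.nd (nat_lit 78) (nat_lit 0) (nat_lit 0) (XT.lf (nat_lit 0) (nat_lit 91589381195) (nat_lit 76) (nat_lit 368881814459) (nat_lit 0) (nat_lit 91457493829) (nat_lit 1) (nat_lit 5) (nat_lit 2) (nat_lit 4) (nat_lit 1) (nat_lit 4) (nat_lit 389) (nat_lit 319) (nat_lit 312)) (XT.nd (nat_lit 78) (nat_lit 0) (nat_lit 0) (XT.lf (nat_lit 0) (nat_lit 108349586777) (nat_lit 76) (nat_lit 417702995807) (nat_lit 0) (nat_lit 108207336463)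 (nat_lit 1) (nat_lit 5) (nat_lit 2) (nat_lit 4) (nat_lit 1) (nat_lit 4) (nat_lit 390) (nat_lit 319) (nat_lit 311)) (XT.lf (nat_lit 0) (nat_lit 127459433958) (nat_lit 76) (nat_lit 474197887728) (nat_lit 0) (nat_lit 127308172384) (nat_lit 1) (nat_lit 5) (nat_lit 2) (nat_lit 4) (nat_lit 1) (nat_lit 4) (nat_lit 391) (nat_lit 319) (nat_lit 310)))) (XT.nd (nat_lit 78) (nat_lit 0) (nat_lit 0) (XT.lf (nat_lit 0) (nat_lit 149292811052) (nat_lit 76) (nat_lit 539471825063) (nat_lit 0) (nat_lit 149133713601) (nat_lit 1) (nat_lit 5) (nat_lit 2) (nat_lit 4) (nat_lit 1) (nat_lit 4) (nat_lit 392) (nat_lit 319) (nat_lit 309)) (XT.nd (nat_lit 78) (nat_lit 0) (nat_lit 0) (XT.lf (nat_lit 0) (nat_lit 174276892830) (nat_lit 76) (nat_lit 614801906586) (nat_lit 0) (nat_lit 174110981572) (nat_lit 1) (nat_lit 5) (nat_lit 2) (nat_lit 4) (nat_lit 1) (nat_lit 4) (nat_lit 393) (nat_lit 319) (nat_lit 308)) (XT.lf (nat_lit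 0) (nat_lit 202900498281) (nat_lit 76) (nat_lit 701661981719) (nat_lit 0) (nat_lit 202728661975) (nat_lit 1) (nat_lit 5) (nat_lit 2) (nat_lit 4) (nat_lit 1) (nat_lit 4) (nat_lit 394) (nat_lit 319) (nat_lit 307))))) (XT.nd (nat_lit 234) (nat_lit 0) (nat_lit 0) (XT.nd (nat_lit 78) (nat_lit 0) (nat_lit 0) (XT.lf (nat_lit 0) (nat_lit 235723654470) (nat_lit 76) (nat_lit 801751486713) (nat_lit 0) (nat_lit 235546665947) (nat_lit 1) (nat_lit 5) (nat_lit 2) (nat_lit 4) (nat_lit 1) (nat_lit 4) (nat_lit 395) (nat_lit 319) (nat_lit 306)) (XT.nd (nat_lit 78) (nat_lit 0) (nat_lit 0) (XT.lf (nat_lit 0) (nat_lit 273388553583) (nat_lit 76) (nat_lit 917028694493) (nat_lit 0) (nat_lit 273207084871) (nat_lit 1) (nat_lit 5) (nat_lit 2) (nat_lit 4) (nat_lit 1) (nat_lit 4) (nat_lit 396) (nat_lit 319) (nat_lit 305)) (XT.lf (nat_lit 0) (nat_lit 316632117558) (nat_lit 76) (nat_lit 1049749028690) (nat_lit 0) (nat_lit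 316446753030) (nat_lit 1) (nat_lit 5) (nat_lit 2) (nat_lit 4) (nat_lit 1) (nat_lit 4) (nat_lit 397) (nat_lit 319) (nat_lit 304)))) (XT.nd (nat_lit 78) (nat_lit 0) (nat_lit 0) (XT.lf (nat_lit 0) (nat_lit 366300416126) (nat_lit 76) (nat_lit 1202509191493) (nat_lit 0) (nat_lit 366111663932) (nat_lit 1) (nat_lit 5) (nat_lit 2) (nat_lit 4) (nat_lit 1) (nat_lit 4) (nat_lit 398) (nat_lit 319) (nat_lit 303)) (XT.nd (nat_lit 78) (nat_lit 0) (nat_lit 0) (XT.lf (nat_lit 0) (nat_lit 423365220346) (nat_lit 76) (nat_lit 1378297968697) (nat_lit 0) (nat_lit 423173522355) (nat_lit 1) (nat_lit 5) (nat_lit 2) (nat_lit 4) (nat_lit 1) (nat_lit 4) (nat_lit 399) (nat_lit 319) (nat_lit 302)) (XT.lf (nat_lit 0) (nat_lit 488943015517) (nat_lit 76) (nat_lit 1580554705944) (nat_lit 0) (nat_lit 488748755964) (nat_lit 1) (nat_lit 5) (nat_lit 2) (nat_lit 4) (nat_lit 1) (nat_lit 4) (nat_lit 400) (nat_lit 319) (nat_lit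 301)))))) (XT.nd (nat_lit 468) (nat_lit 0) (nat_lit 0) (XT.nd (nat_lit 234) (nat_lit 0) (nat_lit 0) (XT.nd (nat_lit 78) (nat_lit 0) (nat_lit 0) (XT.lf (nat_lit 0) (nat_lit 564316845459) (nat_lit 76) (nat_lit 1813236600265) (nat_lit 0) (nat_lit 564120358460) (nat_lit 1) (nat_lit 5) (nat_lit 2) (nat_lit 4) (nat_lit 1) (nat_lit 4) (nat_lit 401) (nat_lit 319) (nat_lit 300)) (XT.nd (nat_lit 78) (nat_lit 0) (nat_lit 0) (XT.lf (nat_lit 0) (nat_lit 650961415539) (nat_lit 76) (nat_lit 2080896123507) (nat_lit 0) (nat_lit 650762991631) (nat_lit 1) (nat_lit 5) (nat_lit 2) (nat_lit 4) (nat_lit 1) (nat_lit 4) (nat_lit 402) (nat_lit 319) (nat_lit 299)) (XT.lf (nat_lit 0) (nat_lit 750571945607) (nat_lit 76) (nat_lit 2388770092428) (nat_lit 0) (nat_lit 750371837430) (nat_lit 1) (nat_lit 5) (nat_lit 2) (nat_lit 4) (nat_lit 1) (nat_lit 4) (nat_lit 403) (nat_lit 319) (nat_lit 298)))) (XT.nd (nat_lit 78)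 (nat_lit 0) (nat_lit 0) (XT.lf (nat_lit 0) (nat_lit 865097337338) (nat_lit 76) (nat_lit 2742882128160) (nat_lit 0) (nat_lit 864895764580) (nat_lit 1) (nat_lit 5) (nat_lit 2) (nat_lit 4) (nat_lit 1) (nat_lit 4) (nat_lit 404) (nat_lit 319) (nat_lit 297)) (XT.nd (nat_lit 78) (nat_lit 0) (nat_lit 0) (XT.lf (nat_lit 0) (nat_lit 996778304919) (nat_lit 76) (nat_lit 3150160509662) (nat_lit 0) (nat_lit 996575458612) (nat_lit 1) (nat_lit 5) (nat_lit 2) (nat_lit 4) (nat_lit 1) (nat_lit 4) (nat_lit 405) (nat_lit 319) (nat_lit 296)) (XT.lf (nat_lit 0) (nat_lit 1148191215106) (nat_lit 76) (nat_lit 3618573727007) (nat_lit 0) (nat_lit 1147987261365) (nat_lit 1) (nat_lit 5) (nat_lit 2) (nat_lit 4) (nat_lit 1) (nat_lit 4) (nat_lit 406) (nat_lit 319) (nat_lit 295))))) (XT.nd (nat_lit 234) (nat_lit 0) (nat_lit 0) (XT.nd (nat_lit 78) (nat_lit 0) (nat_lit 0) (XT.lf (nat_lit 0) (nat_lit 1322298494403) (nat_lit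 76) (nat_lit 4157286386623) (nat_lit 0) (nat_lit 1322093577676) (nat_lit 1) (nat_lit 5) (nat_lit 2) (nat_lit 4) (nat_lit 1) (nat_lit 4) (nat_lit 407) (nat_lit 319) (nat_lit 294)) (XT.nd (nat_lit 78) (nat_lit 0) (nat_lit 0) (XT.lf (nat_lit 0) (nat_lit 1522506589579) (nat_lit 76) (nat_lit 4776838518805) (nat_lit 0) (nat_lit 1522300835472) (nat_lit 1) (nat_lit 5) (nat_lit 2) (nat_lit 4) (nat_lit 1) (nat_lit 4) (nat_lit 408) (nat_lit 319) (nat_lit 293)) (XT.lf (nat_lit 0) (nat_lit 1752732615539) (nat_lit 76) (nat_lit 5489351795705) (nat_lit 0) (nat_lit 1752526133276) (nat_lit 1) (nat_lit 5) (nat_lit 2) (nat_lit 4) (nat_lit 1) (nat_lit 4) (nat_lit 409) (nat_lit 319) (nat_lit 292)))) (XT.nd (nat_lit 78) (nat_lit 0) (nat_lit 0) (XT.lf (nat_lit 0) (nat_lit 2017480994531) (nat_lit 76) (nat_lit 6308766694479) (nat_lit 0) (nat_lit 2017273879089) (nat_lit 1) (nat_lit 5) (nat_lit 2) (nat_lit 4) (nat_lit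 1) (nat_lit 4) (nat_lit 410) (nat_lit 319) (nat_lit 291)) (XT.nd (nat_lit 78) (nat_lit 0) (nat_lit 0) (XT.lf (nat_lit 0) (nat_lit 2321931586143) (nat_lit 76) (nat_lit 7251115245757) (nat_lit 0) (nat_lit 2321723920111) (nat_lit 1) (nat_lit 5) (nat_lit 2) (nat_lit 4) (nat_lit 1) (nat_lit 4) (nat_lit 411) (nat_lit 319) (nat_lit 290)) (XT.lf (nat_lit 0) (nat_lit 2672041032385) (nat_lit 76) (nat_lit 8334834703801) (nat_lit 0) (nat_lit 2671832887579) (nat_lit 1) (nat_lit 5) (nat_lit 2) (nat_lit 4) (nat_lit 1) (nat_lit 4) (nat_lit 412) (nat_lit 319) (nat_lit 289))))))) (XT.nd (nat_lit 936) (nat_lit 0) (nat_lit 0) (XT.nd (nat_lit 468) (nat_lit 0) (nat_lit 0) (XT.nd (nat_lit 234) (nat_lit 0) (nat_lit 0) (XT.nd (nat_lit 78) (nat_lit 0) (nat_lit 0) (XT.lf (nat_lit 0) (nat_lit 3074659300685) (nat_lit 76) (nat_lit 9581128275400) (nat_lit 0) (nat_lit 3074450739553) (nat_lit 1) (nat_lit 5) (nat_lit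 2) (nat_lit 4) (nat_lit 1) (nat_lit 4) (nat_lit 413) (nat_lit 319) (nat_lit 288)) (XT.nd (nat_lit 78) (nat_lit 0) (nat_lit 0) (XT.lf (nat_lit 0) (nat_lit 3537663704986) (nat_lit 76) (nat_lit 11014379965216) (nat_lit 0) (nat_lit 3537454781832) (nat_lit 1) (nat_lit 5) (nat_lit 2) (nat_lit 4) (nat_lit 1) (nat_lit 4) (nat_lit 414) (nat_lit 319) (nat_lit 287)) (XT.lf (nat_lit 0) (nat_lit 4070113027112) (nat_lit 76) (nat_lit 12662631654136) (nat_lit 0) (nat_lit 4069903789156) (nat_lit 1) (nat_lit 5) (nat_lit 2) (nat_lit 4) (nat_lit 1) (nat_lit 4) (nat_lit 415) (nat_lit 319) (nat_lit 286)))) (XT.nd (nat_lit 78) (nat_lit 0) (nat_lit 0) (XT.lf (nat_lit 0) (nat_lit 4682424753800) (nat_lit 76) (nat_lit 14558131744770) (nat_lit 0) (nat_lit 4682215242103) (nat_lit 1) (nat_lit 5) (nat_lit 2) (nat_lit 4) (nat_lit 1) (nat_lit 4) (nat_lit 416) (nat_lit 319) (nat_lit 285)) (XT.nd (nat_lit 78) (nat_lit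 0) (nat_lit 0) (XT.lf (nat_lit 0) (nat_lit 5386578897094) (nat_lit 76) (nat_lit 16737966108455) (nat_lit 0) (nat_lit 5386369147362) (nat_lit 1) (nat_lit 5) (nat_lit 2) (nat_lit 4) (nat_lit 1) (nat_lit 4) (nat_lit 417) (nat_lit 319) (nat_lit 284)) (XT.lf (nat_lit 0) (nat_lit 6196352385885) (nat_lit 76) (nat_lit 19244783678396) (nat_lit 0) (nat_lit 6196142429165) (nat_lit 1) (nat_lit 5) (nat_lit 2) (nat_lit 4) (nat_lit 1) (nat_lit 4) (nat_lit 418) (nat_lit 319) (nat_lit 283))))) (XT.nd (nat_lit 234) (nat_lit 0) (nat_lit 0) (XT.nd (nat_lit 78) (nat_lit 0) (nat_lit 0) (XT.lf (nat_lit 0) (nat_lit 7127588614519) (nat_lit 76) (nat_lit 22127630885307) (nat_lit 0) (nat_lit 7127378477810) (nat_lit 1) (nat_lit 5) (nat_lit 2) (nat_lit 4) (nat_lit 1) (nat_lit 4) (nat_lit 419) (nat_lit 319) (nat_lit 282)) (XT.nd (nat_lit 78) (nat_lit 0) (nat_lit 0) (XT.lf (nat_lit 0) (nat_lit 8198507422251) (nat_lit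 76) (nat_lit 25442911261497) (nat_lit 0) (nat_lit 8198297129030) (nat_lit 1) (nat_lit 5) (nat_lit 2) (nat_lit 4) (nat_lit 1) (nat_lit 4) (nat_lit 420) (nat_lit 319) (nat_lit 281)) (XT.lf (nat_lit 0) (nat_lit 9430061568363) (nat_lit 76) (nat_lit 29255488988242) (nat_lit 0) (nat_lit 9429851139045) (nat_lit 1) (nat_lit 5) (nat_lit 2) (nat_lit 4) (nat_lit 1) (nat_lit 4) (nat_lit 421) (nat_lit 319) (nat_lit 280)))) (XT.nd (nat_lit 78) (nat_lit 0) (nat_lit 0) (XT.lf (nat_lit 0) (nat_lit 10846346677453) (nat_lit 76) (nat_lit 33639957977584) (nat_lit 0) (nat_lit 10846136129789) (nat_lit 1) (nat_lit 5) (nat_lit 2) (nat_lit 4) (nat_lit 1) (nat_lit 4) (nat_lit 422) (nat_lit 319) (nat_lit 279)) (XT.nd (nat_lit 78) (nat_lit 0) (nat_lit 0) (XT.lf (nat_lit 0) (nat_lit 12475072675569) (nat_lit 76) (nat_lit 38682101318447) (nat_lit 0) (nat_lit 12474862024996) (nat_lit 1) (nat_lit 5) (nat_lit 2) (nat_lit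 4) (nat_lit 1) (nat_lit 4) (nat_lit 423) (nat_lit 319) (nat_lit 278)) (XT.lf (nat_lit 0) (nat_lit 14348105940934) (nat_lit 76) (nat_lit 44480569641411) (nat_lit 0) (nat_lit 14347895200875) (nat_lit 1) (nat_lit 5) (nat_lit 2) (nat_lit 4) (nat_lit 1) (nat_lit 4) (nat_lit 424) (nat_lit 319) (nat_lit 277)))))) (XT.nd (nat_lit 468) (nat_lit 0) (nat_lit 0) (XT.nd (nat_lit 234) (nat_lit 0) (nat_lit 0) (XT.nd (nat_lit 78) (nat_lit 0) (nat_lit 0) (XT.lf (nat_lit 0) (nat_lit 16502092776567) (nat_lit 76) (nat_lit 51148811239754) (nat_lit 0) (nat_lit 16501881958693) (nat_lit 1) (nat_lit 5) (nat_lit 2) (nat_lit 4) (nat_lit 1) (nat_lit 4) (nat_lit 425) (nat_lit 319) (nat_lit 276)) (XT.nd (nat_lit 78) (nat_lit 0) (nat_lit 0) (XT.lf (nat_lit 0) (nat_lit 18979176403164) (nat_lit 76) (nat_lit 58817291709963) (nat_lit 0) (nat_lit 18978965517626) (nat_lit 1) (nat_lit 5) (nat_lit 2) (nat_lit 4) (nat_lit 1)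 (nat_lit 4) (nat_lit 426) (nat_lit 319) (nat_lit 275)) (XT.lf (nat_lit 0) (nat_lit 21827821500377) (nat_lit 76) (nat_lit 67636046539500) (nat_lit 0) (nat_lit 21827610556000) (nat_lit 1) (nat_lit 5) (nat_lit 2) (nat_lit 4) (nat_lit 1) (nat_lit 4) (nat_lit 427) (nat_lit 319) (nat_lit 274)))) (XT.nd (nat_lit 78) (nat_lit 0) (nat_lit 0) (XT.lf (nat_lit 0) (nat_lit 25103762428803) (nat_lit 76) (nat_lit 77777616583725) (nat_lit 0) (nat_lit 25103551433262) (nat_lit 1) (nat_lit 5) (nat_lit 2) (nat_lit 4) (nat_lit 1) (nat_lit 4) (nat_lit 428) (nat_lit 319) (nat_lit 273)) (XT.nd (nat_lit 78) (nat_lit 0) (nat_lit 0) (XT.lf (nat_lit 0) (nat_lit 28871093684868) (nat_lit 76) (nat_lit 89440423865242) (nat_lit 0) (nat_lit 28870882644836) (nat_lit 1) (nat_lit 5) (nat_lit 2) (nat_lit 4) (nat_lit 1) (nat_lit 4) (nat_lit 429) (nat_lit 319) (nat_lit 272)) (XT.lf (nat_lit 0) (nat_lit 33203523923582) (nat_lit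 76) (nat_lit 102852653743908) (nat_lit 0) (nat_lit 33203312844863) (nat_lit 1) (nat_lit 5) (nat_lit 2) (nat_lit 4) (nat_lit 1) (nat_lit 4) (nat_lit 430) (nat_lit 319) (nat_lit 271))))) (XT.nd (nat_lit 49218) (nat_lit 0) (nat_lit 0) (XT.nd (nat_lit 78) (nat_lit 0) (nat_lit 0) (XT.lf (nat_lit 0) (nat_lit 38185818084397) (nat_lit 76) (nat_lit 118276719413000) (nat_lit 0) (nat_lit 38185606972037) (nat_lit 1) (nat_lit 5) (nat_lit 2) (nat_lit 4) (nat_lit 1) (nat_lit 4) (nat_lit 431) (nat_lit 319) (nat_lit 270)) (XT.nd (nat_lit 49062) (nat_lit 0) (nat_lit 0) (XT.lf (nat_lit 0) (nat_lit 43915455835678) (nat_lit 76) (nat_lit 136014396070392) (nat_lit 0) (nat_lit 43915244694065) (nat_lit 1) (nat_lit 5) (nat_lit 2) (nat_lit 4) (nat_lit 1) (nat_lit 4) (nat_lit 432) (nat_lit 319) (nat_lit 269)) (XT.lf (nat_lit 0) (nat_lit 1699339430) (nat_lit 76) (nat_lit 76759272219) (nat_lit 0) (nat_lit 1699339430)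 (nat_lit 1) (nat_lit 5) (nat_lit 2) (nat_lit 4) (nat_lit 1) (nat_lit 4) (nat_lit 380) (nat_lit 320) (nat_lit 320)))) (XT.nd (nat_lit 156) (nat_lit 0) (nat_lit 0) (XT.nd (nat_lit 78) (nat_lit 0) (nat_lit 0) (XT.lf (nat_lit 0) (nat_lit 9789523759) (nat_lit 76) (nat_lit 163928220659) (nat_lit 0) (nat_lit 9757823264) (nat_lit 1) (nat_lit 5) (nat_lit 2) (nat_lit 4) (nat_lit 1) (nat_lit 4) (nat_lit 381) (nat_lit 320) (nat_lit 319)) (XT.lf (nat_lit 0) (nat_lit 16636124955) (nat_lit 76) (nat_lit 176971637907) (nat_lit 0) (nat_lit 16576858811) (nat_lit 1) (nat_lit 5) (nat_lit 2) (nat_lit 4) (nat_lit 1) (nat_lit 4) (nat_lit 382) (nat_lit 320) (nat_lit 318))) (XT.nd (nat_lit 78) (nat_lit 0) (nat_lit 0) (XT.lf (nat_lit 0) (nat_lit 24072437688) (nat_lit 76) (nat_lit 192903993474) (nat_lit 0) (nat_lit 23989201416) (nat_lit 1) (nat_lit 5) (nat_lit 2) (nat_lit 4) (nat_lit 1) (nat_lit 4) (nat_lit 383)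 (nat_lit 320) (nat_lit 317)) (XT.lf (nat_lit 0) (nat_lit 32243955035) (nat_lit 76) (nat_lit 212037007362) (nat_lit 0) (nat_lit 32139875172) (nat_lit 1) (nat_lit 5) (nat_lit 2) (nat_lit 4) (nat_lit 1) (nat_lit 4) (nat_lit 384) (nat_lit 320) (nat_lit 316))))))))
noncomputable def xc15 : XT := (XT.nd (nat_lit 1950) (nat_lit 0) (nat_lit 0) (XT.nd (nat_lit 936) (nat_lit 0) (nat_lit 0) (XT.nd (nat_lit 468) (nat_lit 0) (nat_lit 0) (XT.nd (nat_lit 234) (nat_lit 0) (nat_lit 0) (XT.nd (nat_lit 78) (nat_lit 0) (nat_lit 0) (XT.lf (nat_lit 0) (nat_lit 41310554508) (nat_lit 76) (nat_lit 234745021147) (nat_lit 0) (nat_lit 41188349784) (nat_lit 1) (nat_lit 5) (nat_lit 2) (nat_lit 4) (nat_lit 1) (nat_lit 4) (nat_lit 385) (nat_lit 320) (nat_lit 315)) (XT.nd (nat_lit 78) (nat_lit 0) (nat_lit 0) (XT.lf (nat_lit 0) (nat_lit 51449626097) (nat_lit 76) (nat_lit 261472322055) (nat_lit 0) (nat_lit 51311660625)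 (nat_lit 1) (nat_lit 5) (nat_lit 2) (nat_lit 4) (nat_lit 1) (nat_lit 4) (nat_lit 386) (nat_lit 320) (nat_lit 314)) (XT.lf (nat_lit 0) (nat_lit 62859542942) (nat_lit 76) (nat_lit 292741835537) (nat_lit 0) (nat_lit 62707872471) (nat_lit 1) (nat_lit 5) (nat_lit 2) (nat_lit 4) (nat_lit 1) (nat_lit 4) (nat_lit 387) (nat_lit 320) (nat_lit 313)))) (XT.nd (nat_lit 78) (nat_lit 0) (nat_lit 0) (XT.lf (nat_lit 0) (nat_lit 75763542546) (nat_lit 76) (nat_lit 329165356424) (nat_lit 0) (nat_lit 75599954684) (nat_lit 1) (nat_lit 5) (nat_lit 2) (nat_lit 4) (nat_lit 1) (nat_lit 4) (nat_lit 388) (nat_lit 320) (nat_lit 312)) (XT.nd (nat_lit 78) (nat_lit 0) (nat_lit 0) (XT.lf (nat_lit 0) (nat_lit 90414094467) (nat_lit 76) (nat_lit 371455518820) (nat_lit 0) (nat_lit 90240143657) (nat_lit 1) (nat_lit 5) (nat_lit 2) (nat_lit 4) (nat_lit 1) (nat_lit 4) (nat_lit 389) (nat_lit 320) (nat_lit 311)) (XT.lf (nat_lit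 0) (nat_lit 107097839938) (nat_lit 76) (nat_lit 420439738945) (nat_lit 0) (nat_lit 106914877869) (nat_lit 1) (nat_lit 5) (nat_lit 2) (nat_lit 4) (nat_lit 1) (nat_lit 4) (nat_lit 390) (nat_lit 320) (nat_lit 310))))) (XT.nd (nat_lit 234) (nat_lit 0) (nat_lit 0) (XT.nd (nat_lit 78) (nat_lit 0) (nat_lit 0) (XT.lf (nat_lit 0) (nat_lit 126141200066) (nat_lit 76) (nat_lit 477076403716) (nat_lit 0) (nat_lit 125950402120) (nat_lit 1) (nat_lit 5) (nat_lit 2) (nat_lit 4) (nat_lit 1) (nat_lit 4) (nat_lit 391) (nat_lit 320) (nat_lit 309)) (XT.nd (nat_lit 78) (nat_lit 0) (nat_lit 0) (XT.lf (nat_lit 0) (nat_lit 147916762332) (nat_lit 76) (nat_lit 542473621789) (nat_lit 0) (nat_lit 147719150579) (nat_lit 1) (nat_lit 5) (nat_lit 2) (nat_lit 4) (nat_lit 1) (nat_lit 4) (nat_lit 392) (nat_lit 320) (nat_lit 308)) (XT.lf (nat_lit 0) (nat_lit 172850570346) (nat_lit 76) (nat_lit 617910903955) (nat_lit 0) (nat_lit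 172647033544) (nat_lit 1) (nat_lit 5) (nat_lit 2) (nat_lit 4) (nat_lit 1) (nat_lit 4) (nat_lit 393) (nat_lit 320) (nat_lit 307)))) (XT.nd (nat_lit 78) (nat_lit 0) (nat_lit 0) (XT.lf (nat_lit 0) (nat_lit 201430459481) (nat_lit 76) (nat_lit 704864197037) (nat_lit 0) (nat_lit 201221770462) (nat_lit 1) (nat_lit 5) (nat_lit 2) (nat_lit 4) (nat_lit 1) (nat_lit 4) (nat_lit 394) (nat_lit 320) (nat_lit 306)) (XT.nd (nat_lit 78) (nat_lit 0) (nat_lit 0) (XT.lf (nat_lit 0) (nat_lit 234215601482) (nat_lit 76) (nat_lit 805034761118) (nat_lit 0) (nat_lit 234002432274) (nat_lit 1) (nat_lit 5) (nat_lit 2) (nat_lit 4) (nat_lit 1) (nat_lit 4) (nat_lit 395) (nat_lit 320) (nat_lit 305)) (XT.lf (nat_lit 0) (nat_lit 271847444778) (nat_lit 76) (nat_lit 920382455061) (nat_lit 0) (nat_lit 271630379755) (nat_lit 1) (nat_lit 5) (nat_lit 2) (nat_lit 4) (nat_lit 1) (nat_lit 4) (nat_lit 396) (nat_lit 320) (nat_lit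 304)))))) (XT.nd (nat_lit 468) (nat_lit 0) (nat_lit 0) (XT.nd (nat_lit 234) (nat_lit 0) (nat_lit 0) (XT.nd (nat_lit 78) (nat_lit 0) (nat_lit 0) (XT.lf (nat_lit 0) (nat_lit 315062264566) (nat_lit 76) (nat_lit 1053164081572) (nat_lit 0) (nat_lit 314841811876) (nat_lit 1) (nat_lit 5) (nat_lit 2) (nat_lit 4) (nat_lit 1) (nat_lit 4) (nat_lit 397) (nat_lit 320) (nat_lit 303)) (XT.nd (nat_lit 78) (nat_lit 0) (nat_lit 0) (XT.lf (nat_lit 0) (nat_lit 364705568188) (nat_lit 76) (nat_lit 1205977542041) (nat_lit 0) (nat_lit 364482169702) (nat_lit 1) (nat_lit 5) (nat_lit 2) (nat_lit 4) (nat_lit 1) (nat_lit 4) (nat_lit 398) (nat_lit 320) (nat_lit 302)) (XT.lf (nat_lit 0) (nat_lit 421748637672) (nat_lit 76) (nat_lit 1381812665041) (nat_lit 0) (nat_lit 421522677624) (nat_lit 1) (nat_lit 5) (nat_lit 2) (nat_lit 4) (nat_lit 1) (nat_lit 4) (nat_lit 399) (nat_lit 320) (nat_lit 301)))) (XT.nd (nat_lit 78)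 (nat_lit 0) (nat_lit 0) (XT.lf (nat_lit 0) (nat_lit 487307533074) (nat_lit 76) (nat_lit 1584109702980) (nat_lit 0) (nat_lit 487079345580) (nat_lit 1) (nat_lit 5) (nat_lit 2) (nat_lit 4) (nat_lit 1) (nat_lit 4) (nat_lit 400) (nat_lit 320) (nat_lit 300)) (XT.nd (nat_lit 78) (nat_lit 0) (nat_lit 0) (XT.lf (nat_lit 0) (nat_lit 562664928432) (nat_lit 76) (nat_lit 1816826641381) (nat_lit 0) (nat_lit 562434804029) (nat_lit 1) (nat_lit 5) (nat_lit 2) (nat_lit 4) (nat_lit 1) (nat_lit 4) (nat_lit 401) (nat_lit 320) (nat_lit 299)) (XT.lf (nat_lit 0) (nat_lit 649295207571) (nat_lit 76) (nat_lit 2084516637736) (nat_lit 0) (nat_lit 649063398899) (nat_lit 1) (nat_lit 5) (nat_lit 2) (nat_lit 4) (nat_lit 1) (nat_lit 4) (nat_lit 402) (nat_lit 320) (nat_lit 298))))) (XT.nd (nat_lit 234) (nat_lit 0) (nat_lit 0) (XT.nd (nat_lit 78) (nat_lit 0) (nat_lit 0) (XT.lf (nat_lit 0) (nat_lit 748893310734) (nat_lit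 76) (nat_lit 2392417105016) (nat_lit 0) (nat_lit 748660037480) (nat_lit 1) (nat_lit 5) (nat_lit 2) (nat_lit 4) (nat_lit 1) (nat_lit 4) (nat_lit 403) (nat_lit 320) (nat_lit 297)) (XT.nd (nat_lit 78) (nat_lit 0) (nat_lit 0) (XT.lf (nat_lit 0) (nat_lit 863407896460) (nat_lit 76) (nat_lit 2746552182799) (nat_lit 0) (nat_lit 863173349658) (nat_lit 1) (nat_lit 5) (nat_lit 2) (nat_lit 4) (nat_lit 1) (nat_lit 4) (nat_lit 404) (nat_lit 320) (nat_lit 296)) (XT.lf (nat_lit 0) (nat_lit 995079467515) (nat_lit 76) (nat_lit 3153850600868) (nat_lit 0) (nat_lit 994843813278) (nat_lit 1) (nat_lit 5) (nat_lit 2) (nat_lit 4) (nat_lit 1) (nat_lit 4) (nat_lit 405) (nat_lit 320) (nat_lit 295)))) (XT.nd (nat_lit 156) (nat_lit 0) (nat_lit 0) (XT.nd (nat_lit 78) (nat_lit 0) (nat_lit 0) (XT.lf (nat_lit 0) (nat_lit 1146484206810) (nat_lit 76) (nat_lit 3622281241315) (nat_lit 0) (nat_lit 1146247589587) (nat_lit 1)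 (nat_lit 5) (nat_lit 2) (nat_lit 4) (nat_lit 1) (nat_lit 4) (nat_lit 406) (nat_lit 320) (nat_lit 294)) (XT.lf (nat_lit 0) (nat_lit 1320584380983) (nat_lit 76) (nat_lit 4161009051453) (nat_lit 0) (nat_lit 1320346926381) (nat_lit 1) (nat_lit 5) (nat_lit 2) (nat_lit 4) (nat_lit 1) (nat_lit 4) (nat_lit 407) (nat_lit 320) (nat_lit 293))) (XT.nd (nat_lit 78) (nat_lit 0) (nat_lit 0) (XT.lf (nat_lit 0) (nat_lit 1520786297791) (nat_lit 76) (nat_lit 4780574358003) (nat_lit 0) (nat_lit 1520548115033) (nat_lit 1) (nat_lit 5) (nat_lit 2) (nat_lit 4) (nat_lit 1) (nat_lit 4) (nat_lit 408) (nat_lit 320) (nat_lit 292)) (XT.lf (nat_lit 0) (nat_lit 1751006951257) (nat_lit 76) (nat_lit 5493099090875) (nat_lit 0) (nat_lit 1750768135320) (nat_lit 1) (nat_lit 5) (nat_lit 2) (nat_lit 4) (nat_lit 1) (nat_lit 4) (nat_lit 409) (nat_lit 320) (nat_lit 291))))))) (XT.nd (nat_lit 936) (nat_lit 0) (nat_lit 0) (XT.nd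 (nat_lit 468) (nat_lit 0) (nat_lit 0) (XT.nd (nat_lit 234) (nat_lit 0) (nat_lit 0) (XT.nd (nat_lit 78) (nat_lit 0) (nat_lit 0) (XT.lf (nat_lit 0) (nat_lit 2015750658514) (nat_lit 76) (nat_lit 6312523951364) (nat_lit 0) (nat_lit 2015511291987) (nat_lit 1) (nat_lit 5) (nat_lit 2) (nat_lit 4) (nat_lit 1) (nat_lit 4) (nat_lit 410) (nat_lit 320) (nat_lit 290)) (XT.nd (nat_lit 78) (nat_lit 0) (nat_lit 0) (XT.lf (nat_lit 0) (nat_lit 2320197187749) (nat_lit 76) (nat_lit 7254881165002) (nat_lit 0) (nat_lit 2319957342447) (nat_lit 1) (nat_lit 5) (nat_lit 2) (nat_lit 4) (nat_lit 1) (nat_lit 4) (nat_lit 411) (nat_lit 320) (nat_lit 289)) (XT.lf (nat_lit 0) (nat_lit 2670303101489) (nat_lit 76) (nat_lit 8338608155534) (nat_lit 0) (nat_lit 2670062839862) (nat_lit 1) (nat_lit 5) (nat_lit 2) (nat_lit 4) (nat_lit 1) (nat_lit 4) (nat_lit 412) (nat_lit 320) (nat_lit 288)))) (XT.nd (nat_lit 78) (nat_lit 0)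 (nat_lit 0) (XT.lf (nat_lit 0) (nat_lit 3072918298048) (nat_lit 76) (nat_lit 9584908277123) (nat_lit 0) (nat_lit 3072677674398) (nat_lit 1) (nat_lit 5) (nat_lit 2) (nat_lit 4) (nat_lit 1) (nat_lit 4) (nat_lit 413) (nat_lit 320) (nat_lit 287)) (XT.nd (nat_lit 78) (nat_lit 0) (nat_lit 0) (XT.lf (nat_lit 0) (nat_lit 3535920031269) (nat_lit 76) (nat_lit 11018165662581) (nat_lit 0) (nat_lit 3535679092818) (nat_lit 1) (nat_lit 5) (nat_lit 2) (nat_lit 4) (nat_lit 1) (nat_lit 4) (nat_lit 414) (nat_lit 320) (nat_lit 286)) (XT.lf (nat_lit 0) (nat_lit 4068367030718) (nat_lit 76) (nat_lit 12666422304234) (nat_lit 0) (nat_lit 4068125818526) (nat_lit 1) (nat_lit 5) (nat_lit 2) (nat_lit 4) (nat_lit 1) (nat_lit 4) (nat_lit 415) (nat_lit 320) (nat_lit 285))))) (XT.nd (nat_lit 234) (nat_lit 0) (nat_lit 0) (XT.nd (nat_lit 78) (nat_lit 0) (nat_lit 0) (XT.lf (nat_lit 0) (nat_lit 4680676737686) (nat_lit 76)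 (nat_lit 14561926701592) (nat_lit 0) (nat_lit 4680435287459) (nat_lit 1) (nat_lit 5) (nat_lit 2) (nat_lit 4) (nat_lit 1) (nat_lit 4) (nat_lit 416) (nat_lit 320) (nat_lit 284)) (XT.nd (nat_lit 78) (nat_lit 0) (nat_lit 0) (XT.lf (nat_lit 0) (nat_lit 5384829124703) (nat_lit 76) (nat_lit 16741764810255) (nat_lit 0) (nat_lit 5384587467488) (nat_lit 1) (nat_lit 5) (nat_lit 2) (nat_lit 4) (nat_lit 1) (nat_lit 4) (nat_lit 417) (nat_lit 320) (nat_lit 283)) (XT.lf (nat_lit 0) (nat_lit 6194601086296) (nat_lit 76) (nat_lit 19248585636697) (nat_lit 0) (nat_lit 6194359249092) (nat_lit 1) (nat_lit 5) (nat_lit 2) (nat_lit 4) (nat_lit 1) (nat_lit 4) (nat_lit 418) (nat_lit 320) (nat_lit 282)))) (XT.nd (nat_lit 78) (nat_lit 0) (nat_lit 0) (XT.lf (nat_lit 0) (nat_lit 7125835986931) (nat_lit 76) (nat_lit 22131435675349) (nat_lit 0) (nat_lit 7125593993215) (nat_lit 1) (nat_lit 5) (nat_lit 2) (nat_lit 4) (nat_lit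 1) (nat_lit 4) (nat_lit 419) (nat_lit 320) (nat_lit 281)) (XT.nd (nat_lit 78) (nat_lit 0) (nat_lit 0) (XT.lf (nat_lit 0) (nat_lit 8196753639882) (nat_lit 76) (nat_lit 25446718513924) (nat_lit 0) (nat_lit 8196511510068) (nat_lit 1) (nat_lit 5) (nat_lit 2) (nat_lit 4) (nat_lit 1) (nat_lit 4) (nat_lit 420) (nat_lit 320) (nat_lit 280)) (XT.lf (nat_lit 0) (nat_lit 9428306781836) (nat_lit 76) (nat_lit 29259298381871) (nat_lit 0) (nat_lit 9428064533677) (nat_lit 1) (nat_lit 5) (nat_lit 2) (nat_lit 4) (nat_lit 1) (nat_lit 4) (nat_lit 421) (nat_lit 320) (nat_lit 279)))))) (XT.nd (nat_lit 468) (nat_lit 0) (nat_lit 0) (XT.nd (nat_lit 234) (nat_lit 0) (nat_lit 0) (XT.nd (nat_lit 78) (nat_lit 0) (nat_lit 0) (XT.lf (nat_lit 0) (nat_lit 10844591017746) (nat_lit 76) (nat_lit 33643769233129) (nat_lit 0) (nat_lit 10844348666678) (nat_lit 1) (nat_lit 5) (nat_lit 2) (nat_lit 4) (nat_lit 1) (nat_lit 4) (nat_lit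 422) (nat_lit 320) (nat_lit 278)) (XT.nd (nat_lit 78) (nat_lit 0) (nat_lit 0) (XT.lf (nat_lit 0) (nat_lit 12473316256575) (nat_lit 76) (nat_lit 38685914193049) (nat_lit 0) (nat_lit 12473073816020) (nat_lit 1) (nat_lit 5) (nat_lit 2) (nat_lit 4) (nat_lit 1) (nat_lit 4) (nat_lit 423) (nat_lit 320) (nat_lit 277)) (XT.lf (nat_lit 0) (nat_lit 14346348861690) (nat_lit 76) (nat_lit 44484383923889) (nat_lit 0) (nat_lit 14346106343321) (nat_lit 1) (nat_lit 5) (nat_lit 2) (nat_lit 4) (nat_lit 1) (nat_lit 4) (nat_lit 424) (nat_lit 320) (nat_lit 276)))) (XT.nd (nat_lit 78) (nat_lit 0) (nat_lit 0) (XT.lf (nat_lit 0) (nat_lit 16500335123192) (nat_lit 76) (nat_lit 51152626746472) (nat_lit 0) (nat_lit 16500092537159) (nat_lit 1) (nat_lit 5) (nat_lit 2) (nat_lit 4) (nat_lit 1) (nat_lit 4) (nat_lit 425) (nat_lit 320) (nat_lit 275)) (XT.nd (nat_lit 78) (nat_lit 0) (nat_lit 0) (XT.lf (nat_lit 0) (nat_lit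 18977418250546) (nat_lit 76) (nat_lit 58821108281237) (nat_lit 0) (nat_lit 18977175605674) (nat_lit 1) (nat_lit 5) (nat_lit 2) (nat_lit 4) (nat_lit 1) (nat_lit 4) (nat_lit 426) (nat_lit 320) (nat_lit 274)) (XT.lf (nat_lit 0) (nat_lit 21826062913634) (nat_lit 76) (nat_lit 67639864036475) (nat_lit 0) (nat_lit 21825820217597) (nat_lit 1) (nat_lit 5) (nat_lit 2) (nat_lit 4) (nat_lit 1) (nat_lit 4) (nat_lit 427) (nat_lit 320) (nat_lit 273))))) (XT.nd (nat_lit 234) (nat_lit 0) (nat_lit 0) (XT.nd (nat_lit 78) (nat_lit 0) (nat_lit 0) (XT.lf (nat_lit 0) (nat_lit 25102003464560) (nat_lit 76) (nat_lit 77781434885658) (nat_lit 0) (nat_lit 25101760724033) (nat_lit 1) (nat_lit 5) (nat_lit 2) (nat_lit 4) (nat_lit 1) (nat_lit 4) (nat_lit 428) (nat_lit 320) (nat_lit 272)) (XT.nd (nat_lit 78) (nat_lit 0) (nat_lit 0) (XT.lf (nat_lit 0) (nat_lit 28869334392364) (nat_lit 76) (nat_lit 89444242867138) (nat_lit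 0) (nat_lit 28869091613149) (nat_lit 1) (nat_lit 5) (nat_lit 2) (nat_lit 4) (nat_lit 1) (nat_lit 4) (nat_lit 429) (nat_lit 320) (nat_lit 271)) (XT.lf (nat_lit 0) (nat_lit 33201764345633) (nat_lit 76) (nat_lit 102856473354468) (nat_lit 0) (nat_lit 33201521532777) (nat_lit 1) (nat_lit 5) (nat_lit 2) (nat_lit 4) (nat_lit 1) (nat_lit 4) (nat_lit 430) (nat_lit 320) (nat_lit 270)))) (XT.nd (nat_lit 156) (nat_lit 0) (nat_lit 0) (XT.nd (nat_lit 78) (nat_lit 0) (nat_lit 0) (XT.lf (nat_lit 0) (nat_lit 38184058258236) (nat_lit 76) (nat_lit 118280539552832) (nat_lit 0) (nat_lit 38183815416127) (nat_lit 1) (nat_lit 5) (nat_lit 2) (nat_lit 4) (nat_lit 1) (nat_lit 4) (nat_lit 431) (nat_lit 320) (nat_lit 269)) (XT.lf (nat_lit 0) (nat_lit 43913695793680) (nat_lit 76) (nat_lit 136018216670461) (nat_lit 0) (nat_lit 43913452926134) (nat_lit 1) (nat_lit 5) (nat_lit 2) (nat_lit 4) (nat_lit 1) (nat_lit 4) (nat_lit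 432) (nat_lit 320) (nat_lit 268))) (XT.nd (nat_lit 78) (nat_lit 0) (nat_lit 0) (XT.lf (nat_lit 0) (nat_lit 50502778555920) (nat_lit 76) (nat_lit 156416546216178) (nat_lit 0) (nat_lit 50502535666254) (nat_lit 1) (nat_lit 5) (nat_lit 2) (nat_lit 4) (nat_lit 1) (nat_lit 4) (nat_lit 433) (nat_lit 320) (nat_lit 267)) (XT.lf (nat_lit 0) (nat_lit 58080223381608) (nat_lit 76) (nat_lit 179874625941964) (nat_lit 0) (nat_lit 58079980472707) (nat_lit 1) (nat_lit 5) (nat_lit 2) (nat_lit 4) (nat_lit 1) (nat_lit 4) (nat_lit 434) (nat_lit 320) (nat_lit 266))))))))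
noncomputable def xc16 : XT := (XT.nd (nat_lit 1872) (nat_lit 0) (nat_lit 0) (XT.nd (nat_lit 936) (nat_lit 0) (nat_lit 0) (XT.nd (nat_lit 468) (nat_lit 0) (nat_lit 0) (XT.nd (nat_lit 234) (nat_lit 0) (nat_lit 0) (XT.nd (nat_lit 78) (nat_lit 76) (nat_lit 0) (XT.lf (nat_lit 0) (nat_lit 53526575569) (nat_lit 76) (nat_lit 3896285205) (nat_lit 76) (nat_lit 3896285205) (nat_lit 2) (nat_lit 4) (nat_lit 3) (nat_lit 5) (nat_lit 3) (nat_lit 4) (nat_lit 378) (nat_lit 321) (nat_lit 321)) (XT.nd (nat_lit 78) (nat_lit 76) (nat_lit 0) (XT.lf (nat_lit 0) (nat_lit 135138967067) (nat_lit 76) (nat_lit 2544035803) (nat_lit 76) (nat_lit 2502111898) (nat_lit 2) (nat_lit 4) (nat_lit 3) (nat_lit 5) (nat_lit 3) (nat_lit 4) (nat_lit 379) (nat_lit 321) (nat_lit 320)) (XT.lf (nat_lit 0) (nat_lit 3166157219) (nat_lit 76) (nat_lit 154092094686) (nat_lit 0) (nat_lit 3098001154) (nat_lit 1) (nat_lit 5) (nat_lit 2) (nat_lit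 4) (nat_lit 1) (nat_lit 4) (nat_lit 380) (nat_lit 321) (nat_lit 319)))) (XT.nd (nat_lit 78) (nat_lit 0) (nat_lit 0) (XT.lf (nat_lit 0) (nat_lit 9323108891) (nat_lit 76) (nat_lit 165000510253) (nat_lit 0) (nat_lit 9227387178) (nat_lit 1) (nat_lit 5) (nat_lit 2) (nat_lit 4) (nat_lit 1) (nat_lit 4) (nat_lit 381) (nat_lit 321) (nat_lit 318)) (XT.nd (nat_lit 78) (nat_lit 0) (nat_lit 0) (XT.lf (nat_lit 0) (nat_lit 15966324672) (nat_lit 76) (nat_lit 178477613887) (nat_lit 0) (nat_lit 15846632830) (nat_lit 1) (nat_lit 5) (nat_lit 2) (nat_lit 4) (nat_lit 1) (nat_lit 4) (nat_lit 382) (nat_lit 321) (nat_lit 317)) (XT.lf (nat_lit 0) (nat_lit 23225780523) (nat_lit 76) (nat_lit 194787088053) (nat_lit 0) (nat_lit 23085245091) (nat_lit 1) (nat_lit 5) (nat_lit 2) (nat_lit 4) (nat_lit 1) (nat_lit 4) (nat_lit 383) (nat_lit 321) (nat_lit 316))))) (XT.nd (nat_lit 234) (nat_lit 0) (nat_lit 0) (XT.nd (nat_lit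 78) (nat_lit 0) (nat_lit 0) (XT.lf (nat_lit 0) (nat_lit 31243509276) (nat_lit 76) (nat_lit 214248031156) (nat_lit 0) (nat_lit 31084848983) (nat_lit 1) (nat_lit 5) (nat_lit 2) (nat_lit 4) (nat_lit 1) (nat_lit 4) (nat_lit 384) (nat_lit 321) (nat_lit 315)) (XT.nd (nat_lit 78) (nat_lit 0) (nat_lit 0) (XT.lf (nat_lit 0) (nat_lit 40176379538) (nat_lit 76) (nat_lit 237241200781) (nat_lit 0) (nat_lit 40001958496) (nat_lit 1) (nat_lit 5) (nat_lit 2) (nat_lit 4) (nat_lit 1) (nat_lit 4) (nat_lit 385) (nat_lit 321) (nat_lit 314)) (XT.lf (nat_lit 0) (nat_lit 50199164856) (nat_lit 76) (nat_lit 264216463288) (nat_lit 0) (nat_lit 50011038815) (nat_lit 1) (nat_lit 5) (nat_lit 2) (nat_lit 4) (nat_lit 1) (nat_lit 4) (nat_lit 386) (nat_lit 321) (nat_lit 313)))) (XT.nd (nat_lit 78) (nat_lit 0) (nat_lit 0) (XT.lf (nat_lit 0) (nat_lit 61507963204) (nat_lit 76) (nat_lit 295701595553) (nat_lit 0) (nat_lit 61307919773)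 (nat_lit 1) (nat_lit 5) (nat_lit 2) (nat_lit 4) (nat_lit 1) (nat_lit 4) (nat_lit 387) (nat_lit 321) (nat_lit 312)) (XT.nd (nat_lit 78) (nat_lit 0) (nat_lit 0) (XT.lf (nat_lit 0) (nat_lit 74324033681) (nat_lit 76) (nat_lit 332312611033) (nat_lit 0) (nat_lit 74113627302) (nat_lit 1) (nat_lit 5) (nat_lit 2) (nat_lit 4) (nat_lit 1) (nat_lit 4) (nat_lit 388) (nat_lit 321) (nat_lit 311)) (XT.lf (nat_lit 0) (nat_lit 88898125491) (nat_lit 76) (nat_lit 374765812206) (nat_lit 0) (nat_lit 88678707853) (nat_lit 1) (nat_lit 5) (nat_lit 2) (nat_lit 4) (nat_lit 1) (nat_lit 4) (nat_lit 389) (nat_lit 321) (nat_lit 310)))))) (XT.nd (nat_lit 468) (nat_lit 0) (nat_lit 0) (XT.nd (nat_lit 234) (nat_lit 0) (nat_lit 0) (XT.nd (nat_lit 78) (nat_lit 0) (nat_lit 0) (XT.lf (nat_lit 0) (nat_lit 105515383910) (nat_lit 76) (nat_lit 423891805180) (nat_lit 0) (nat_lit 105288130394) (nat_lit 1) (nat_lit 5) (nat_lit 2)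 (nat_lit 4) (nat_lit 1) (nat_lit 4) (nat_lit 390) (nat_lit 321) (nat_lit 309)) (XT.nd (nat_lit 78) (nat_lit 0) (nat_lit 0) (XT.lf (nat_lit 0) (nat_lit 124500929209) (nat_lit 76) (nat_lit 480651750689) (nat_lit 0) (nat_lit 124266861887) (nat_lit 1) (nat_lit 5) (nat_lit 2) (nat_lit 4) (nat_lit 1) (nat_lit 4) (nat_lit 391) (nat_lit 321) (nat_lit 308)) (XT.lf (nat_lit 0) (nat_lit 146226217712) (nat_lit 76) (nat_lit 546156169405) (nat_lit 0) (nat_lit 145986225340) (nat_lit 1) (nat_lit 5) (nat_lit 2) (nat_lit 4) (nat_lit 1) (nat_lit 4) (nat_lit 392) (nat_lit 321) (nat_lit 307)))) (XT.nd (nat_lit 78) (nat_lit 0) (nat_lit 0) (XT.lf (nat_lit 0) (nat_lit 171116309409) (nat_lit 76) (nat_lit 621686669520) (nat_lit 0) (nat_lit 170871164820) (nat_lit 1) (nat_lit 5) (nat_lit 2) (nat_lit 4) (nat_lit 1) (nat_lit 4) (nat_lit 393) (nat_lit 321) (nat_lit 306)) (XT.nd (nat_lit 78) (nat_lit 0) (nat_lit 0)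 (XT.lf (nat_lit 0) (nat_lit 199658184355) (nat_lit 76) (nat_lit 708721021689) (nat_lit 0) (nat_lit 199408559578) (nat_lit 1) (nat_lit 5) (nat_lit 2) (nat_lit 4) (nat_lit 1) (nat_lit 4) (nat_lit 394) (nat_lit 321) (nat_lit 305)) (XT.lf (nat_lit 0) (nat_lit 232410270540) (nat_lit 76) (nat_lit 808962071933) (nat_lit 0) (nat_lit 232156749947) (nat_lit 1) (nat_lit 5) (nat_lit 2) (nat_lit 4) (nat_lit 1) (nat_lit 4) (nat_lit 395) (nat_lit 321) (nat_lit 304))))) (XT.nd (nat_lit 234) (nat_lit 0) (nat_lit 0) (XT.nd (nat_lit 78) (nat_lit 0) (nat_lit 0) (XT.lf (nat_lit 0) (nat_lit 270013369649) (nat_lit 76) (nat_lit 924371058191) (nat_lit 0) (nat_lit 269756461390) (nat_lit 1) (nat_lit 5) (nat_lit 2) (nat_lit 4) (nat_lit 1) (nat_lit 4) (nat_lit 396) (nat_lit 321) (nat_lit 303)) (XT.nd (nat_lit 78) (nat_lit 0) (nat_lit 0) (XT.lf (nat_lit 0) (nat_lit 313203194491) (nat_lit 76) (nat_lit 1057205982367)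 (nat_lit 0) (nat_lit 312943340435) (nat_lit 1) (nat_lit 5) (nat_lit 2) (nat_lit 4) (nat_lit 1) (nat_lit 4) (nat_lit 397) (nat_lit 321) (nat_lit 302)) (XT.lf (nat_lit 0) (nat_lit 362824763378) (nat_lit 76) (nat_lit 1210065788632) (nat_lit 0) (nat_lit 362562347760) (nat_lit 1) (nat_lit 5) (nat_lit 2) (nat_lit 4) (nat_lit 1) (nat_lit 4) (nat_lit 398) (nat_lit 321) (nat_lit 301)))) (XT.nd (nat_lit 78) (nat_lit 0) (nat_lit 0) (XT.lf (nat_lit 0) (nat_lit 419848933092) (nat_lit 76) (nat_lit 1385941212324) (nat_lit 0) (nat_lit 419584290028) (nat_lit 1) (nat_lit 5) (nat_lit 2) (nat_lit 4) (nat_lit 1) (nat_lit 4) (nat_lit 399) (nat_lit 321) (nat_lit 300)) (XT.nd (nat_lit 78) (nat_lit 0) (nat_lit 0) (XT.lf (nat_lit 0) (nat_lit 485391393911) (nat_lit 76) (nat_lit 1588273294343) (nat_lit 0) (nat_lit 485124813938) (nat_lit 1) (nat_lit 5) (nat_lit 2) (nat_lit 4) (nat_lit 1) (nat_lit 4) (nat_lit 400)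 (nat_lit 321) (nat_lit 299)) (XT.lf (nat_lit 0) (nat_lit 560734498328) (nat_lit 76) (nat_lit 1821020705857) (nat_lit 0) (nat_lit 560466234087) (nat_lit 1) (nat_lit 5) (nat_lit 2) (nat_lit 4) (nat_lit 1) (nat_lit 4) (nat_lit 401) (nat_lit 321) (nat_lit 298))))))) (XT.nd (nat_lit 936) (nat_lit 0) (nat_lit 0) (XT.nd (nat_lit 468) (nat_lit 0) (nat_lit 0) (XT.nd (nat_lit 234) (nat_lit 0) (nat_lit 0) (XT.nd (nat_lit 78) (nat_lit 0) (nat_lit 0) (XT.lf (nat_lit 0) (nat_lit 647352350561) (nat_lit 76) (nat_lit 2088737200571) (nat_lit 0) (nat_lit 647082621738) (nat_lit 1) (nat_lit 5) (nat_lit 2) (nat_lit 4) (nat_lit 1) (nat_lit 4) (nat_lit 402) (nat_lit 321) (nat_lit 297)) (XT.nd (nat_lit 78) (nat_lit 0) (nat_lit 0) (XT.lf (nat_lit 0) (nat_lit 746939647719) (nat_lit 76) (nat_lit 2396660709903) (nat_lit 0) (nat_lit 746668645347) (nat_lit 1) (nat_lit 5) (nat_lit 2) (nat_lit 4) (nat_lit 1) (nat_lit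 4) (nat_lit 403) (nat_lit 321) (nat_lit 296)) (XT.lf (nat_lit 0) (nat_lit 861444836920) (nat_lit 76) (nat_lit 2750815824253) (nat_lit 0) (nat_lit 861172727113) (nat_lit 1) (nat_lit 5) (nat_lit 2) (nat_lit 4) (nat_lit 1) (nat_lit 4) (nat_lit 404) (nat_lit 321) (nat_lit 295)))) (XT.nd (nat_lit 78) (nat_lit 0) (nat_lit 0) (XT.lf (nat_lit 0) (nat_lit 993108237082) (nat_lit 76) (nat_lit 3158131665423) (nat_lit 0) (nat_lit 992835164290) (nat_lit 1) (nat_lit 5) (nat_lit 2) (nat_lit 4) (nat_lit 1) (nat_lit 4) (nat_lit 405) (nat_lit 321) (nat_lit 294)) (XT.nd (nat_lit 78) (nat_lit 0) (nat_lit 0) (XT.lf (nat_lit 0) (nat_lit 1144505871253) (nat_lit 76) (nat_lit 3626577456393) (nat_lit 0) (nat_lit 1144231961082) (nat_lit 1) (nat_lit 5) (nat_lit 2) (nat_lit 4) (nat_lit 1) (nat_lit 4) (nat_lit 406) (nat_lit 321) (nat_lit 293)) (XT.lf (nat_lit 0) (nat_lit 1318599867058) (nat_lit 76) (nat_lit 4165318440899)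 (nat_lit 0) (nat_lit 1318325228731) (nat_lit 1) (nat_lit 5) (nat_lit 2) (nat_lit 4) (nat_lit 1) (nat_lit 4) (nat_lit 407) (nat_lit 321) (nat_lit 292))))) (XT.nd (nat_lit 234) (nat_lit 0) (nat_lit 0) (XT.nd (nat_lit 78) (nat_lit 0) (nat_lit 0) (XT.lf (nat_lit 0) (nat_lit 1518796411372) (nat_lit 76) (nat_lit 4784895203421) (nat_lit 0) (nat_lit 1518521139865) (nat_lit 1) (nat_lit 5) (nat_lit 2) (nat_lit 4) (nat_lit 1) (nat_lit 4) (nat_lit 408) (nat_lit 321) (nat_lit 291)) (XT.nd (nat_lit 78) (nat_lit 0) (nat_lit 0) (XT.lf (nat_lit 0) (nat_lit 1749012393104) (nat_lit 76) (nat_lit 5497429898007) (nat_lit 0) (nat_lit 1748736571007) (nat_lit 1) (nat_lit 5) (nat_lit 2) (nat_lit 4) (nat_lit 1) (nat_lit 4) (nat_lit 409) (nat_lit 321) (nat_lit 290)) (XT.lf (nat_lit 0) (nat_lit 2013752037984) (nat_lit 76) (nat_lit 6316863420857) (nat_lit 0) (nat_lit 2013475737113) (nat_lit 1) (nat_lit 5) (nat_lit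 2) (nat_lit 4) (nat_lit 1) (nat_lit 4) (nat_lit 410) (nat_lit 321) (nat_lit 289)))) (XT.nd (nat_lit 78) (nat_lit 0) (nat_lit 0) (XT.lf (nat_lit 0) (nat_lit 2318195034716) (nat_lit 76) (nat_lit 7259228166983) (nat_lit 0) (nat_lit 2317918317520) (nat_lit 1) (nat_lit 5) (nat_lit 2) (nat_lit 4) (nat_lit 1) (nat_lit 4) (nat_lit 411) (nat_lit 321) (nat_lit 288)) (XT.nd (nat_lit 78) (nat_lit 0) (nat_lit 0) (XT.lf (nat_lit 0) (nat_lit 2668297876716) (nat_lit 76) (nat_lit 8342961707504) (nat_lit 0) (nat_lit 2668020797497) (nat_lit 1) (nat_lit 5) (nat_lit 2) (nat_lit 4) (nat_lit 1) (nat_lit 4) (nat_lit 412) (nat_lit 321) (nat_lit 287)) (XT.lf (nat_lit 0) (nat_lit 3070910402195) (nat_lit 76) (nat_lit 9589267524735) (nat_lit 0) (nat_lit 3070633008174) (nat_lit 1) (nat_lit 5) (nat_lit 2) (nat_lit 4) (nat_lit 1) (nat_lit 4) (nat_lit 413) (nat_lit 321) (nat_lit 286)))))) (XT.nd (nat_lit 468) (nat_lit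 0) (nat_lit 0) (XT.nd (nat_lit 234) (nat_lit 0) (nat_lit 0) (XT.nd (nat_lit 78) (nat_lit 0) (nat_lit 0) (XT.lf (nat_lit 0) (nat_lit 3533909812739) (nat_lit 76) (nat_lit 11022529862927) (nat_lit 0) (nat_lit 3533632144977) (nat_lit 1) (nat_lit 5) (nat_lit 2) (nat_lit 4) (nat_lit 1) (nat_lit 4) (nat_lit 414) (nat_lit 321) (nat_lit 285)) (XT.nd (nat_lit 78) (nat_lit 0) (nat_lit 0) (XT.lf (nat_lit 0) (nat_lit 4066354792468) (nat_lit 76) (nat_lit 12670790811304) (nat_lit 0) (nat_lit 4066076886671) (nat_lit 1) (nat_lit 5) (nat_lit 2) (nat_lit 4) (nat_lit 1) (nat_lit 4) (nat_lit 415) (nat_lit 321) (nat_lit 284)) (XT.lf (nat_lit 0) (nat_lit 4678662743159) (nat_lit 76) (nat_lit 14566298953639) (nat_lit 0) (nat_lit 4678384630374) (nat_lit 1) (nat_lit 5) (nat_lit 2) (nat_lit 4) (nat_lit 1) (nat_lit 4) (nat_lit 416) (nat_lit 321) (nat_lit 283)))) (XT.nd (nat_lit 78) (nat_lit 0) (nat_lit 0) (XT.lf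 (nat_lit 0) (nat_lit 5382813602977) (nat_lit 76) (nat_lit 16746140318804) (nat_lit 0) (nat_lit 5382535310204) (nat_lit 1) (nat_lit 5) (nat_lit 2) (nat_lit 4) (nat_lit 1) (nat_lit 4) (nat_lit 417) (nat_lit 321) (nat_lit 282)) (XT.nd (nat_lit 78) (nat_lit 0) (nat_lit 0) (XT.lf (nat_lit 0) (nat_lit 6192584236571) (nat_lit 76) (nat_lit 19252963976988) (nat_lit 0) (nat_lit 6192305787286) (nat_lit 1) (nat_lit 5) (nat_lit 2) (nat_lit 4) (nat_lit 1) (nat_lit 4) (nat_lit 418) (nat_lit 321) (nat_lit 281)) (XT.lf (nat_lit 0) (nat_lit 7123817982425) (nat_lit 76) (nat_lit 22135816478023) (nat_lit 0) (nat_lit 7123539397042) (nat_lit 1) (nat_lit 5) (nat_lit 2) (nat_lit 4) (nat_lit 1) (nat_lit 4) (nat_lit 419) (nat_lit 321) (nat_lit 280))))) (XT.nd (nat_lit 234) (nat_lit 0) (nat_lit 0) (XT.nd (nat_lit 78) (nat_lit 0) (nat_lit 0) (XT.lf (nat_lit 0) (nat_lit 8194734631219) (nat_lit 76) (nat_lit 25451101457801)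 (nat_lit 0) (nat_lit 8194455927490) (nat_lit 1) (nat_lit 5) (nat_lit 2) (nat_lit 4) (nat_lit 1) (nat_lit 4) (nat_lit 420) (nat_lit 321) (nat_lit 279)) (XT.nd (nat_lit 78) (nat_lit 0) (nat_lit 0) (XT.lf (nat_lit 0) (nat_lit 9426286899993) (nat_lit 76) (nat_lit 29263683187664) (nat_lit 0) (nat_lit 9426008093355) (nat_lit 1) (nat_lit 5) (nat_lit 2) (nat_lit 4) (nat_lit 1) (nat_lit 4) (nat_lit 421) (nat_lit 321) (nat_lit 278)) (XT.lf (nat_lit 0) (nat_lit 10842570376615) (nat_lit 76) (nat_lit 33648155657979) (nat_lit 0) (nat_lit 10842291480491) (nat_lit 1) (nat_lit 5) (nat_lit 2) (nat_lit 4) (nat_lit 1) (nat_lit 4) (nat_lit 422) (nat_lit 321) (nat_lit 277)))) (XT.nd (nat_lit 156) (nat_lit 0) (nat_lit 0) (XT.nd (nat_lit 78) (nat_lit 0) (nat_lit 0) (XT.lf (nat_lit 0) (nat_lit 12471294955194) (nat_lit 76) (nat_lit 38690302025774) (nat_lit 0) (nat_lit 12471015981255) (nat_lit 1) (nat_lit 5) (nat_lit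 2) (nat_lit 4) (nat_lit 1) (nat_lit 4) (nat_lit 423) (nat_lit 321) (nat_lit 276)) (XT.lf (nat_lit 0) (nat_lit 14344326986179) (nat_lit 76) (nat_lit 44488772980855) (nat_lit 0) (nat_lit 14344047944576) (nat_lit 1) (nat_lit 5) (nat_lit 2) (nat_lit 4) (nat_lit 1) (nat_lit 4) (nat_lit 424) (nat_lit 321) (nat_lit 275))) (XT.nd (nat_lit 78) (nat_lit 0) (nat_lit 0) (XT.lf (nat_lit 0) (nat_lit 16498312748437) (nat_lit 76) (nat_lit 51157016867993) (nat_lit 0) (nat_lit 16498033647995) (nat_lit 1) (nat_lit 5) (nat_lit 2) (nat_lit 4) (nat_lit 1) (nat_lit 4) (nat_lit 425) (nat_lit 321) (nat_lit 274)) (XT.lf (nat_lit 0) (nat_lit 18975395441666) (nat_lit 76) (nat_lit 58825499328460) (nat_lit 0) (nat_lit 18975116290060) (nat_lit 1) (nat_lit 5) (nat_lit 2) (nat_lit 4) (nat_lit 1) (nat_lit 4) (nat_lit 426) (nat_lit 321) (nat_lit 273))))))))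
noncomputable def xc17 : XT := (XT.nd (nat_lit 50310) (nat_lit 0) (nat_lit 0) (XT.nd (nat_lit 49374) (nat_lit 0) (nat_lit 0) (XT.nd (nat_lit 468) (nat_lit 0) (nat_lit 0) (XT.nd (nat_lit 234) (nat_lit 0) (nat_lit 0) (XT.nd (nat_lit 78) (nat_lit 0) (nat_lit 0) (XT.lf (nat_lit 0) (nat_lit 21824039727254) (nat_lit 76) (nat_lit 67644255888656) (nat_lit 0) (nat_lit 21823760531157) (nat_lit 1) (nat_lit 5) (nat_lit 2) (nat_lit 4) (nat_lit 1) (nat_lit 4) (nat_lit 427) (nat_lit 321) (nat_lit 272)) (XT.nd (nat_lit 78) (nat_lit 0) (nat_lit 0) (XT.lf (nat_lit 0) (nat_lit 25099979949919) (nat_lit 76) (nat_lit 77785827437801) (nat_lit 0) (nat_lit 25099700715135) (nat_lit 1) (nat_lit 5) (nat_lit 2) (nat_lit 4) (nat_lit 1) (nat_lit 4) (nat_lit 428) (nat_lit 321) (nat_lit 271)) (XT.lf (nat_lit 0) (nat_lit 28867310592278) (nat_lit 76) (nat_lit 89448636027945) (nat_lit 0) (nat_lit 28867031323853) (nat_lit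 1) (nat_lit 5) (nat_lit 2) (nat_lit 4) (nat_lit 1) (nat_lit 4) (nat_lit 429) (nat_lit 321) (nat_lit 270)))) (XT.nd (nat_lit 78) (nat_lit 0) (nat_lit 0) (XT.lf (nat_lit 0) (nat_lit 33199740297335) (nat_lit 76) (nat_lit 102860867044547) (nat_lit 0) (nat_lit 33199460999657) (nat_lit 1) (nat_lit 5) (nat_lit 2) (nat_lit 4) (nat_lit 1) (nat_lit 4) (nat_lit 430) (nat_lit 321) (nat_lit 269)) (XT.nd (nat_lit 78) (nat_lit 0) (nat_lit 0) (XT.lf (nat_lit 0) (nat_lit 38182033994101) (nat_lit 76) (nat_lit 118284933703149) (nat_lit 0) (nat_lit 38181754670985) (nat_lit 1) (nat_lit 5) (nat_lit 2) (nat_lit 4) (nat_lit 1) (nat_lit 4) (nat_lit 431) (nat_lit 321) (nat_lit 268)) (XT.lf (nat_lit 0) (nat_lit 43911671341861) (nat_lit 76) (nat_lit 136022611220984) (nat_lit 0) (nat_lit 43911391996626) (nat_lit 1) (nat_lit 5) (nat_lit 2) (nat_lit 4) (nat_lit 1) (nat_lit 4) (nat_lit 432) (nat_lit 321) (nat_lit 267)))))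 (XT.nd (nat_lit 48672) (nat_lit 0) (nat_lit 76) (XT.nd (nat_lit 78) (nat_lit 0) (nat_lit 0) (XT.lf (nat_lit 0) (nat_lit 50500753940897) (nat_lit 76) (nat_lit 156420941114707) (nat_lit 0) (nat_lit 50500474576427) (nat_lit 1) (nat_lit 5) (nat_lit 2) (nat_lit 4) (nat_lit 1) (nat_lit 4) (nat_lit 433) (nat_lit 321) (nat_lit 266)) (XT.nd (nat_lit 78) (nat_lit 0) (nat_lit 0) (XT.lf (nat_lit 0) (nat_lit 58078198624669) (nat_lit 76) (nat_lit 179879021143106) (nat_lit 0) (nat_lit 58077919243473) (nat_lit 1) (nat_lit 5) (nat_lit 2) (nat_lit 4) (nat_lit 1) (nat_lit 4) (nat_lit 434) (nat_lit 321) (nat_lit 265)) (XT.lf (nat_lit 0) (nat_lit 66792259745685) (nat_lit 76) (nat_lit 206855813741520) (nat_lit 0) (nat_lit 66791980349945) (nat_lit 1) (nat_lit 5) (nat_lit 2) (nat_lit 4) (nat_lit 1) (nat_lit 4) (nat_lit 435) (nat_lit 321) (nat_lit 264)))) (XT.nd (nat_lit 78) (nat_lit 0) (nat_lit 0) (XT.lf (nat_lit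 0) (nat_lit 29468066863) (nat_lit 76) (nat_lit 8837398264) (nat_lit 76) (nat_lit 8837398264) (nat_lit 2) (nat_lit 4) (nat_lit 3) (nat_lit 5) (nat_lit 3) (nat_lit 4) (nat_lit 376) (nat_lit 322) (nat_lit 322)) (XT.nd (nat_lit 78) (nat_lit 0) (nat_lit 0) (XT.lf (nat_lit 0) (nat_lit 81608573532) (nat_lit 76) (nat_lit 12945982815) (nat_lit 76) (nat_lit 12897770324) (nat_lit 2) (nat_lit 4) (nat_lit 3) (nat_lit 5) (nat_lit 3) (nat_lit 4) (nat_lit 377) (nat_lit 322) (nat_lit 321)) (XT.lf (nat_lit 0) (nat_lit 106506430990) (nat_lit 76) (nat_lit 8130292340) (nat_lit 76) (nat_lit 8040155945) (nat_lit 2) (nat_lit 4) (nat_lit 3) (nat_lit 5) (nat_lit 3) (nat_lit 4) (nat_lit 378) (nat_lit 322) (nat_lit 320)))))) (XT.nd (nat_lit 468) (nat_lit 0) (nat_lit 0) (XT.nd (nat_lit 234) (nat_lit 0) (nat_lit 0) (XT.nd (nat_lit 78) (nat_lit 76) (nat_lit 0) (XT.lf (nat_lit 0) (nat_lit 134116838095) (nat_lit 76)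 (nat_lit 3133505073) (nat_lit 76) (nat_lit 3006913108) (nat_lit 2) (nat_lit 4) (nat_lit 3) (nat_lit 5) (nat_lit 3) (nat_lit 4) (nat_lit 379) (nat_lit 322) (nat_lit 319)) (XT.nd (nat_lit 78) (nat_lit 0) (nat_lit 0) (XT.lf (nat_lit 0) (nat_lit 2395886894) (nat_lit 76) (nat_lit 155823967064) (nat_lit 0) (nat_lit 2258241276) (nat_lit 1) (nat_lit 5) (nat_lit 2) (nat_lit 4) (nat_lit 1) (nat_lit 4) (nat_lit 380) (nat_lit 322) (nat_lit 318)) (XT.lf (nat_lit 0) (nat_lit 8349453151) (nat_lit 76) (nat_lit 167166069018) (nat_lit 0) (nat_lit 8187837404) (nat_lit 1) (nat_lit 5) (nat_lit 2) (nat_lit 4) (nat_lit 1) (nat_lit 4) (nat_lit 381) (nat_lit 322) (nat_lit 317)))) (XT.nd (nat_lit 78) (nat_lit 0) (nat_lit 0) (XT.lf (nat_lit 0) (nat_lit 14815812050) (nat_lit 76) (nat_lit 181020291251) (nat_lit 0) (nat_lit 14633352713) (nat_lit 1) (nat_lit 5) (nat_lit 2) (nat_lit 4) (nat_lit 1) (nat_lit 4) (nat_lit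 382) (nat_lit 322) (nat_lit 316)) (XT.nd (nat_lit 78) (nat_lit 0) (nat_lit 0) (XT.lf (nat_lit 0) (nat_lit 21921479308) (nat_lit 76) (nat_lit 197657694631) (nat_lit 0) (nat_lit 21720895110) (nat_lit 1) (nat_lit 5) (nat_lit 2) (nat_lit 4) (nat_lit 1) (nat_lit 4) (nat_lit 383) (nat_lit 322) (nat_lit 315)) (XT.lf (nat_lit 0) (nat_lit 29805478849) (nat_lit 76) (nat_lit 217403793575) (nat_lit 0) (nat_lit 29589133903) (nat_lit 1) (nat_lit 5) (nat_lit 2) (nat_lit 4) (nat_lit 1) (nat_lit 4) (nat_lit 384) (nat_lit 322) (nat_lit 314))))) (XT.nd (nat_lit 234) (nat_lit 0) (nat_lit 0) (XT.nd (nat_lit 78) (nat_lit 0) (nat_lit 0) (XT.lf (nat_lit 0) (nat_lit 38622062840) (nat_lit 76) (nat_lit 240644924799) (nat_lit 0) (nat_lit 38392012894) (nat_lit 1) (nat_lit 5) (nat_lit 2) (nat_lit 4) (nat_lit 1) (nat_lit 4) (nat_lit 385) (nat_lit 322) (nat_lit 313)) (XT.nd (nat_lit 78) (nat_lit 0) (nat_lit 0) (XT.lf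 (nat_lit 0) (nat_lit 48543729661) (nat_lit 76) (nat_lit 267835806088) (nat_lit 0) (nat_lit 48301762326) (nat_lit 1) (nat_lit 5) (nat_lit 2) (nat_lit 4) (nat_lit 1) (nat_lit 4) (nat_lit 386) (nat_lit 322) (nat_lit 312)) (XT.lf (nat_lit 0) (nat_lit 59764598883) (nat_lit 76) (nat_lit 299508432946) (nat_lit 0) (nat_lit 59512268598) (nat_lit 1) (nat_lit 5) (nat_lit 2) (nat_lit 4) (nat_lit 1) (nat_lit 4) (nat_lit 387) (nat_lit 322) (nat_lit 311)))) (XT.nd (nat_lit 78) (nat_lit 0) (nat_lit 0) (XT.lf (nat_lit 0) (nat_lit 72504209249) (nat_lit 76) (nat_lit 336282487203) (nat_lit 0) (nat_lit 72242867705) (nat_lit 1) (nat_lit 5) (nat_lit 2) (nat_lit 4) (nat_lit 1) (nat_lit 4) (nat_lit 388) (nat_lit 322) (nat_lit 310)) (XT.nd (nat_lit 78) (nat_lit 0) (nat_lit 0) (XT.lf (nat_lit 0) (nat_lit 87011814006) (nat_lit 76) (nat_lit 378877461225) (nat_lit 0) (nat_lit 86742636585) (nat_lit 1) (nat_lit 5) (nat_lit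 2) (nat_lit 4) (nat_lit 1) (nat_lit 4) (nat_lit 389) (nat_lit 322) (nat_lit 309)) (XT.lf (nat_lit 0) (nat_lit 103571257596) (nat_lit 76) (nat_lit 428126734939) (nat_lit 0) (nat_lit 103295266368) (nat_lit 1) (nat_lit 5) (nat_lit 2) (nat_lit 4) (nat_lit 1) (nat_lit 4) (nat_lit 390) (nat_lit 322) (nat_lit 308))))))) (XT.nd (nat_lit 936) (nat_lit 0) (nat_lit 0) (XT.nd (nat_lit 468) (nat_lit 0) (nat_lit 0) (XT.nd (nat_lit 234) (nat_lit 0) (nat_lit 0) (XT.nd (nat_lit 78) (nat_lit 0) (nat_lit 0) (XT.lf (nat_lit 0) (nat_lit 122506529132) (nat_lit 76) (nat_lit 484993881089) (nat_lit 0) (nat_lit 122224612855) (nat_lit 1) (nat_lit 5) (nat_lit 2) (nat_lit 4) (nat_lit 1) (nat_lit 4) (nat_lit 391) (nat_lit 322) (nat_lit 307)) (XT.nd (nat_lit 78) (nat_lit 0) (nat_lit 0) (XT.lf (nat_lit 0) (nat_lit 144188101317) (nat_lit 76) (nat_lit 550591517755) (nat_lit 0) (nat_lit 143901032824) (nat_lit 1) (nat_lit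 5) (nat_lit 2) (nat_lit 4) (nat_lit 1) (nat_lit 4) (nat_lit 392) (nat_lit 322) (nat_lit 306)) (XT.lf (nat_lit 0) (nat_lit 169040178826) (nat_lit 76) (nat_lit 626203076957) (nat_lit 0) (nat_lit 168748630144) (nat_lit 1) (nat_lit 5) (nat_lit 2) (nat_lit 4) (nat_lit 1) (nat_lit 4) (nat_lit 393) (nat_lit 322) (nat_lit 305)))) (XT.nd (nat_lit 78) (nat_lit 0) (nat_lit 0) (XT.lf (nat_lit 0) (nat_lit 197548997957) (nat_lit 76) (nat_lit 713307915289) (nat_lit 0) (nat_lit 197253553459) (nat_lit 1) (nat_lit 5) (nat_lit 2) (nat_lit 4) (nat_lit 1) (nat_lit 4) (nat_lit 394) (nat_lit 322) (nat_lit 304)) (XT.nd (nat_lit 78) (nat_lit 0) (nat_lit 0) (XT.lf (nat_lit 0) (nat_lit 230272339954) (nat_lit 76) (nat_lit 813610257847) (nat_lit 0) (nat_lit 229973507790) (nat_lit 1) (nat_lit 5) (nat_lit 2) (nat_lit 4) (nat_lit 1) (nat_lit 4) (nat_lit 395) (nat_lit 322) (nat_lit 303)) (XT.lf (nat_lit 0) (nat_lit 267850444117)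 (nat_lit 76) (nat_lit 929072541770) (nat_lit 0) (nat_lit 267548666157) (nat_lit 1) (nat_lit 5) (nat_lit 2) (nat_lit 4) (nat_lit 1) (nat_lit 4) (nat_lit 396) (nat_lit 322) (nat_lit 302))))) (XT.nd (nat_lit 234) (nat_lit 0) (nat_lit 0) (XT.nd (nat_lit 78) (nat_lit 0) (nat_lit 0) (XT.lf (nat_lit 0) (nat_lit 311018534224) (nat_lit 76) (nat_lit 1061953811743) (nat_lit 0) (nat_lit 310714194701) (nat_lit 1) (nat_lit 5) (nat_lit 2) (nat_lit 4) (nat_lit 1) (nat_lit 4) (nat_lit 397) (nat_lit 322) (nat_lit 301)) (XT.nd (nat_lit 78) (nat_lit 0) (nat_lit 0) (XT.lf (nat_lit 0) (nat_lit 360621203340) (nat_lit 76) (nat_lit 1214853918700) (nat_lit 0) (nat_lit 360314636372) (nat_lit 1) (nat_lit 5) (nat_lit 2) (nat_lit 4) (nat_lit 1) (nat_lit 4) (nat_lit 398) (nat_lit 322) (nat_lit 300)) (XT.lf (nat_lit 0) (nat_lit 417628938472) (nat_lit 76) (nat_lit 1390764386472) (nat_lit 0) (nat_lit 417320434594) (nat_lit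 1) (nat_lit 5) (nat_lit 2) (nat_lit 4) (nat_lit 1) (nat_lit 4) (nat_lit 399) (nat_lit 322) (nat_lit 299)))) (XT.nd (nat_lit 78) (nat_lit 0) (nat_lit 0) (XT.lf (nat_lit 0) (nat_lit 483157108349) (nat_lit 76) (nat_lit 1593126941604) (nat_lit 0) (nat_lit 482846920203) (nat_lit 1) (nat_lit 5) (nat_lit 2) (nat_lit 4) (nat_lit 1) (nat_lit 4) (nat_lit 400) (nat_lit 322) (nat_lit 298)) (XT.nd (nat_lit 78) (nat_lit 0) (nat_lit 0) (XT.lf (nat_lit 0) (nat_lit 558487785861) (nat_lit 76) (nat_lit 1825900851478) (nat_lit 0) (nat_lit 558176133133) (nat_lit 1) (nat_lit 5) (nat_lit 2) (nat_lit 4) (nat_lit 1) (nat_lit 4) (nat_lit 401) (nat_lit 322) (nat_lit 297)) (XT.lf (nat_lit 0) (nat_lit 645094832089) (nat_lit 76) (nat_lit 2093640388243) (nat_lit 0) (nat_lit 644781905812) (nat_lit 1) (nat_lit 5) (nat_lit 2) (nat_lit 4) (nat_lit 1) (nat_lit 4) (nat_lit 402) (nat_lit 322) (nat_lit 296)))))) (XT.nd (nat_lit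 468) (nat_lit 0) (nat_lit 0) (XT.nd (nat_lit 234) (nat_lit 0) (nat_lit 0) (XT.nd (nat_lit 78) (nat_lit 0) (nat_lit 0) (XT.lf (nat_lit 0) (nat_lit 744672732721) (nat_lit 76) (nat_lit 2401583934142) (nat_lit 0) (nat_lit 744358699010) (nat_lit 1) (nat_lit 5) (nat_lit 2) (nat_lit 4) (nat_lit 1) (nat_lit 4) (nat_lit 403) (nat_lit 322) (nat_lit 295)) (XT.nd (nat_lit 78) (nat_lit 0) (nat_lit 0) (XT.lf (nat_lit 0) (nat_lit 859169751030) (nat_lit 76) (nat_lit 2755756471593) (nat_lit 0) (nat_lit 858854754332) (nat_lit 1) (nat_lit 5) (nat_lit 2) (nat_lit 4) (nat_lit 1) (nat_lit 4) (nat_lit 404) (nat_lit 322) (nat_lit 294)) (XT.lf (nat_lit 0) (nat_lit 990826046069) (nat_lit 76) (nat_lit 3163087463286) (nat_lit 0) (nat_lit 990510211992) (nat_lit 1) (nat_lit 5) (nat_lit 2) (nat_lit 4) (nat_lit 1) (nat_lit 4) (nat_lit 405) (nat_lit 322) (nat_lit 293)))) (XT.nd (nat_lit 78) (nat_lit 0) (nat_lit 0) (XT.lf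 (nat_lit 0) (nat_lit 1142217501872) (nat_lit 76) (nat_lit 3631546428624) (nat_lit 0) (nat_lit 1141900939639) (nat_lit 1) (nat_lit 5) (nat_lit 2) (nat_lit 4) (nat_lit 1) (nat_lit 4) (nat_lit 406) (nat_lit 322) (nat_lit 292)) (XT.nd (nat_lit 78) (nat_lit 0) (nat_lit 0) (XT.lf (nat_lit 0) (nat_lit 1316306125182) (nat_lit 76) (nat_lit 4170298869102) (nat_lit 0) (nat_lit 1315988929771) (nat_lit 1) (nat_lit 5) (nat_lit 2) (nat_lit 4) (nat_lit 1) (nat_lit 4) (nat_lit 407) (nat_lit 322) (nat_lit 291)) (XT.lf (nat_lit 0) (nat_lit 1516497997762) (nat_lit 76) (nat_lit 4789885593338) (nat_lit 0) (nat_lit 1516180251760) (nat_lit 1) (nat_lit 5) (nat_lit 2) (nat_lit 4) (nat_lit 1) (nat_lit 4) (nat_lit 408) (nat_lit 322) (nat_lit 290))))) (XT.nd (nat_lit 234) (nat_lit 0) (nat_lit 0) (XT.nd (nat_lit 78) (nat_lit 0) (nat_lit 0) (XT.lf (nat_lit 0) (nat_lit 1746709917116) (nat_lit 76) (nat_lit 5502428950285)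 (nat_lit 0) (nat_lit 1746391692340) (nat_lit 1) (nat_lit 5) (nat_lit 2) (nat_lit 4) (nat_lit 1) (nat_lit 4) (nat_lit 409) (nat_lit 322) (nat_lit 289)) (XT.nd (nat_lit 78) (nat_lit 0) (nat_lit 0) (XT.lf (nat_lit 0) (nat_lit 2011446029494) (nat_lit 76) (nat_lit 6321870005623) (nat_lit 0) (nat_lit 2011127388392) (nat_lit 1) (nat_lit 5) (nat_lit 2) (nat_lit 4) (nat_lit 1) (nat_lit 4) (nat_lit 410) (nat_lit 322) (nat_lit 288)) (XT.lf (nat_lit 0) (nat_lit 2315885954486) (nat_lit 76) (nat_lit 7264241301737) (nat_lit 0) (nat_lit 2315566951362) (nat_lit 1) (nat_lit 5) (nat_lit 2) (nat_lit 4) (nat_lit 1) (nat_lit 4) (nat_lit 411) (nat_lit 322) (nat_lit 287)))) (XT.nd (nat_lit 156) (nat_lit 0) (nat_lit 0) (XT.nd (nat_lit 78) (nat_lit 0) (nat_lit 0) (XT.lf (nat_lit 0) (nat_lit 2665986125406) (nat_lit 76) (nat_lit 8347980537901) (nat_lit 0) (nat_lit 2665666807480) (nat_lit 1) (nat_lit 5) (nat_lit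 2) (nat_lit 4) (nat_lit 1) (nat_lit 4) (nat_lit 412) (nat_lit 322) (nat_lit 286)) (XT.lf (nat_lit 0) (nat_lit 3068596328207) (nat_lit 76) (nat_lit 9594291307865) (nat_lit 0) (nat_lit 3068276736541) (nat_lit 1) (nat_lit 5) (nat_lit 2) (nat_lit 4) (nat_lit 1) (nat_lit 4) (nat_lit 413) (nat_lit 322) (nat_lit 285))) (XT.nd (nat_lit 78) (nat_lit 0) (nat_lit 0) (XT.lf (nat_lit 0) (nat_lit 3531593719032) (nat_lit 76) (nat_lit 11027557952781) (nat_lit 0) (nat_lit 3531273889330) (nat_lit 1) (nat_lit 5) (nat_lit 2) (nat_lit 4) (nat_lit 1) (nat_lit 4) (nat_lit 414) (nat_lit 322) (nat_lit 284)) (XT.lf (nat_lit 0) (nat_lit 4064036942483) (nat_lit 76) (nat_lit 12675822646135) (nat_lit 0) (nat_lit 4063716905794) (nat_lit 1) (nat_lit 5) (nat_lit 2) (nat_lit 4) (nat_lit 1) (nat_lit 4) (nat_lit 415) (nat_lit 322) (nat_lit 283))))))))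
noncomputable def xc18 : XT := (XT.nd (nat_lit 50076) (nat_lit 0) (nat_lit 0) (XT.nd (nat_lit 936) (nat_lit 0) (nat_lit 0) (XT.nd (nat_lit 468) (nat_lit 0) (nat_lit 0) (XT.nd (nat_lit 234) (nat_lit 0) (nat_lit 0) (XT.nd (nat_lit 78) (nat_lit 0) (nat_lit 0) (XT.lf (nat_lit 0) (nat_lit 4676343365976) (nat_lit 76) (nat_lit 14571334044973) (nat_lit 0) (nat_lit 4676023149297) (nat_lit 1) (nat_lit 5) (nat_lit 2) (nat_lit 4) (nat_lit 1) (nat_lit 4) (nat_lit 416) (nat_lit 322) (nat_lit 282)) (XT.nd (nat_lit 78) (nat_lit 0) (nat_lit 0) (XT.lf (nat_lit 0) (nat_lit 5380492897795) (nat_lit 76) (nat_lit 16751178241879) (nat_lit 0) (nat_lit 5380172524605) (nat_lit 1) (nat_lit 5) (nat_lit 2) (nat_lit 4) (nat_lit 1) (nat_lit 4) (nat_lit 417) (nat_lit 322) (nat_lit 281)) (XT.lf (nat_lit 0) (nat_lit 6190262376609) (nat_lit 76) (nat_lit 19258004362446) (nat_lit 0) (nat_lit 6189941867321) (nat_lit 1) (nat_lit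 5) (nat_lit 2) (nat_lit 4) (nat_lit 1) (nat_lit 4) (nat_lit 418) (nat_lit 322) (nat_lit 280)))) (XT.nd (nat_lit 78) (nat_lit 0) (nat_lit 0) (XT.lf (nat_lit 0) (nat_lit 7121495118305) (nat_lit 76) (nat_lit 22140859004685) (nat_lit 0) (nat_lit 7121174490671) (nat_lit 1) (nat_lit 5) (nat_lit 2) (nat_lit 4) (nat_lit 1) (nat_lit 4) (nat_lit 419) (nat_lit 322) (nat_lit 279)) (XT.nd (nat_lit 78) (nat_lit 0) (nat_lit 0) (XT.lf (nat_lit 0) (nat_lit 8192410893918) (nat_lit 76) (nat_lit 25456145846378) (nat_lit 0) (nat_lit 8192090163375) (nat_lit 1) (nat_lit 5) (nat_lit 2) (nat_lit 4) (nat_lit 1) (nat_lit 4) (nat_lit 420) (nat_lit 322) (nat_lit 278)) (XT.lf (nat_lit 0) (nat_lit 9423962403405) (nat_lit 76) (nat_lit 29268729195298) (nat_lit 0) (nat_lit 9423641583375) (nat_lit 1) (nat_lit 5) (nat_lit 2) (nat_lit 4) (nat_lit 1) (nat_lit 4) (nat_lit 421) (nat_lit 322) (nat_lit 277))))) (XT.nd (nat_lit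 234) (nat_lit 0) (nat_lit 0) (XT.nd (nat_lit 78) (nat_lit 0) (nat_lit 0) (XT.lf (nat_lit 0) (nat_lit 10840245219777) (nat_lit 76) (nat_lit 33653203073489) (nat_lit 0) (nat_lit 10839924321934) (nat_lit 1) (nat_lit 5) (nat_lit 2) (nat_lit 4) (nat_lit 1) (nat_lit 4) (nat_lit 422) (nat_lit 322) (nat_lit 276)) (XT.nd (nat_lit 78) (nat_lit 0) (nat_lit 0) (XT.lf (nat_lit 0) (nat_lit 12468969224225) (nat_lit 76) (nat_lit 38695350665525) (nat_lit 0) (nat_lit 12468648258717) (nat_lit 1) (nat_lit 5) (nat_lit 2) (nat_lit 4) (nat_lit 1) (nat_lit 4) (nat_lit 423) (nat_lit 322) (nat_lit 275)) (XT.lf (nat_lit 0) (nat_lit 14342000755967) (nat_lit 76) (nat_lit 44493822685161) (nat_lit 0) (nat_lit 14341679731620) (nat_lit 1) (nat_lit 5) (nat_lit 2) (nat_lit 4) (nat_lit 1) (nat_lit 4) (nat_lit 424) (nat_lit 322) (nat_lit 274)))) (XT.nd (nat_lit 78) (nat_lit 0) (nat_lit 0) (XT.lf (nat_lit 0) (nat_lit 16495986084100)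 (nat_lit 76) (nat_lit 51162067498001) (nat_lit 0) (nat_lit 16495665008589) (nat_lit 1) (nat_lit 5) (nat_lit 2) (nat_lit 4) (nat_lit 1) (nat_lit 4) (nat_lit 425) (nat_lit 322) (nat_lit 273)) (XT.nd (nat_lit 78) (nat_lit 0) (nat_lit 0) (XT.lf (nat_lit 0) (nat_lit 18973068399829) (nat_lit 76) (nat_lit 58830550763425) (nat_lit 0) (nat_lit 18972747279827) (nat_lit 1) (nat_lit 5) (nat_lit 2) (nat_lit 4) (nat_lit 1) (nat_lit 4) (nat_lit 426) (nat_lit 322) (nat_lit 272)) (XT.lf (nat_lit 0) (nat_lit 21821712357155) (nat_lit 76) (nat_lit 67649308023584) (nat_lit 0) (nat_lit 21821391198467) (nat_lit 1) (nat_lit 5) (nat_lit 2) (nat_lit 4) (nat_lit 1) (nat_lit 4) (nat_lit 427) (nat_lit 322) (nat_lit 271)))))) (XT.nd (nat_lit 468) (nat_lit 0) (nat_lit 0) (XT.nd (nat_lit 234) (nat_lit 0) (nat_lit 0) (XT.nd (nat_lit 78) (nat_lit 0) (nat_lit 0) (XT.lf (nat_lit 0) (nat_lit 25097652294376) (nat_lit 76)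 (nat_lit 77790880181393) (nat_lit 0) (nat_lit 25097331102046) (nat_lit 1) (nat_lit 5) (nat_lit 2) (nat_lit 4) (nat_lit 1) (nat_lit 4) (nat_lit 428) (nat_lit 322) (nat_lit 270)) (XT.nd (nat_lit 78) (nat_lit 0) (nat_lit 0) (XT.lf (nat_lit 0) (nat_lit 28864982688524) (nat_lit 76) (nat_lit 89453689300810) (nat_lit 0) (nat_lit 28864661466940) (nat_lit 1) (nat_lit 5) (nat_lit 2) (nat_lit 4) (nat_lit 1) (nat_lit 4) (nat_lit 429) (nat_lit 322) (nat_lit 269)) (XT.lf (nat_lit 0) (nat_lit 33197412177744) (nat_lit 76) (nat_lit 102865920777649) (nat_lit 0) (nat_lit 33197090930722) (nat_lit 1) (nat_lit 5) (nat_lit 2) (nat_lit 4) (nat_lit 1) (nat_lit 4) (nat_lit 430) (nat_lit 322) (nat_lit 268)))) (XT.nd (nat_lit 78) (nat_lit 0) (nat_lit 0) (XT.lf (nat_lit 0) (nat_lit 38179705686825) (nat_lit 76) (nat_lit 118289987836457) (nat_lit 0) (nat_lit 38179384417685) (nat_lit 1) (nat_lit 5) (nat_lit 2) (nat_lit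 4) (nat_lit 1) (nat_lit 4) (nat_lit 431) (nat_lit 322) (nat_lit 267)) (XT.nd (nat_lit 78) (nat_lit 0) (nat_lit 0) (XT.lf (nat_lit 0) (nat_lit 43909342871382) (nat_lit 76) (nat_lit 136027665702297) (nat_lit 0) (nat_lit 43909021583007) (nat_lit 1) (nat_lit 5) (nat_lit 2) (nat_lit 4) (nat_lit 1) (nat_lit 4) (nat_lit 432) (nat_lit 322) (nat_lit 266)) (XT.lf (nat_lit 0) (nat_lit 50498425328502) (nat_lit 76) (nat_lit 156425995898633) (nat_lit 0) (nat_lit 50498104023401) (nat_lit 1) (nat_lit 5) (nat_lit 2) (nat_lit 4) (nat_lit 1) (nat_lit 4) (nat_lit 433) (nat_lit 322) (nat_lit 265))))) (XT.nd (nat_lit 48438) (nat_lit 0) (nat_lit 76) (XT.nd (nat_lit 78) (nat_lit 0) (nat_lit 0) (XT.lf (nat_lit 0) (nat_lit 58075869888868) (nat_lit 76) (nat_lit 179884076190174) (nat_lit 0) (nat_lit 58075548569223) (nat_lit 1) (nat_lit 5) (nat_lit 2) (nat_lit 4) (nat_lit 1) (nat_lit 4) (nat_lit 434) (nat_lit 322)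 (nat_lit 264)) (XT.nd (nat_lit 78) (nat_lit 0) (nat_lit 0) (XT.lf (nat_lit 0) (nat_lit 66789930902574) (nat_lit 76) (nat_lit 206860869017408) (nat_lit 0) (nat_lit 66789609570283) (nat_lit 1) (nat_lit 5) (nat_lit 2) (nat_lit 4) (nat_lit 1) (nat_lit 4) (nat_lit 435) (nat_lit 322) (nat_lit 263)) (XT.lf (nat_lit 0) (nat_lit 76811100867716) (nat_lit 76) (nat_lit 237884181196519) (nat_lit 0) (nat_lit 76810779524426) (nat_lit 1) (nat_lit 5) (nat_lit 2) (nat_lit 4) (nat_lit 1) (nat_lit 4) (nat_lit 436) (nat_lit 322) (nat_lit 262)))) (XT.nd (nat_lit 78) (nat_lit 0) (nat_lit 0) (XT.lf (nat_lit 0) (nat_lit 9625520717) (nat_lit 76) (nat_lit 13457276645) (nat_lit 76) (nat_lit 13457276645) (nat_lit 2) (nat_lit 4) (nat_lit 3) (nat_lit 5) (nat_lit 3) (nat_lit 4) (nat_lit 374) (nat_lit 323) (nat_lit 323)) (XT.nd (nat_lit 78) (nat_lit 0) (nat_lit 0) (XT.lf (nat_lit 0) (nat_lit 38045520358) (nat_lit 76)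 (nat_lit 22464698113) (nat_lit 76) (nat_lit 22409253749) (nat_lit 2) (nat_lit 4) (nat_lit 3) (nat_lit 5) (nat_lit 3) (nat_lit 4) (nat_lit 375) (nat_lit 323) (nat_lit 322)) (XT.lf (nat_lit 0) (nat_lit 58307405555) (nat_lit 76) (nat_lit 18063176749) (nat_lit 76) (nat_lit 17959519894) (nat_lit 2) (nat_lit 4) (nat_lit 3) (nat_lit 5) (nat_lit 3) (nat_lit 4) (nat_lit 376) (nat_lit 323) (nat_lit 321))))))) (XT.nd (nat_lit 936) (nat_lit 0) (nat_lit 0) (XT.nd (nat_lit 468) (nat_lit 0) (nat_lit 0) (XT.nd (nat_lit 234) (nat_lit 76) (nat_lit 0) (XT.nd (nat_lit 78) (nat_lit 0) (nat_lit 0) (XT.lf (nat_lit 0) (nat_lit 80433125213) (nat_lit 76) (nat_lit 13623872475) (nat_lit 76) (nat_lit 13478291715) (nat_lit 2) (nat_lit 4) (nat_lit 3) (nat_lit 5) (nat_lit 3) (nat_lit 4) (nat_lit 377) (nat_lit 323) (nat_lit 320)) (XT.nd (nat_lit 78) (nat_lit 0) (nat_lit 0) (XT.lf (nat_lit 0) (nat_lit 104855573847) (nat_lit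 76) (nat_lit 9059929339) (nat_lit 76) (nat_lit 8877893010) (nat_lit 2) (nat_lit 4) (nat_lit 3) (nat_lit 5) (nat_lit 3) (nat_lit 4) (nat_lit 378) (nat_lit 323) (nat_lit 319)) (XT.lf (nat_lit 0) (nat_lit 132052581974) (nat_lit 76) (nat_lit 4282052802) (nat_lit 76) (nat_lit 4068315977) (nat_lit 2) (nat_lit 4) (nat_lit 3) (nat_lit 5) (nat_lit 3) (nat_lit 4) (nat_lit 379) (nat_lit 323) (nat_lit 318)))) (XT.nd (nat_lit 78) (nat_lit 0) (nat_lit 0) (XT.lf (nat_lit 0) (nat_lit 1072797379) (nat_lit 76) (nat_lit 158748046031) (nat_lit 0) (nat_lit 862969141) (nat_lit 1) (nat_lit 5) (nat_lit 2) (nat_lit 4) (nat_lit 1) (nat_lit 4) (nat_lit 380) (nat_lit 323) (nat_lit 317)) (XT.nd (nat_lit 78) (nat_lit 0) (nat_lit 0) (XT.lf (nat_lit 0) (nat_lit 6849506753) (nat_lit 76) (nat_lit 170467266583) (nat_lit 0) (nat_lit 6618834926) (nat_lit 1) (nat_lit 5) (nat_lit 2) (nat_lit 4) (nat_lit 1) (nat_lit 4) (nat_lit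 381) (nat_lit 323) (nat_lit 316)) (XT.lf (nat_lit 0) (nat_lit 13162077059) (nat_lit 76) (nat_lit 184649418031) (nat_lit 0) (nat_lit 12913280370) (nat_lit 1) (nat_lit 5) (nat_lit 2) (nat_lit 4) (nat_lit 1) (nat_lit 4) (nat_lit 382) (nat_lit 323) (nat_lit 315))))) (XT.nd (nat_lit 234) (nat_lit 0) (nat_lit 0) (XT.nd (nat_lit 78) (nat_lit 0) (nat_lit 0) (XT.lf (nat_lit 0) (nat_lit 20134015105) (nat_lit 76) (nat_lit 201571977252) (nat_lit 0) (nat_lit 19869457668) (nat_lit 1) (nat_lit 5) (nat_lit 2) (nat_lit 4) (nat_lit 1) (nat_lit 4) (nat_lit 383) (nat_lit 323) (nat_lit 314)) (XT.nd (nat_lit 78) (nat_lit 0) (nat_lit 0) (XT.lf (nat_lit 0) (nat_lit 27901728376) (nat_lit 76) (nat_lit 221566037795) (nat_lit 0) (nat_lit 27623465940) (nat_lit 1) (nat_lit 5) (nat_lit 2) (nat_lit 4) (nat_lit 1) (nat_lit 4) (nat_lit 384) (nat_lit 323) (nat_lit 313)) (XT.lf (nat_lit 0) (nat_lit 36617193870) (nat_lit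 76) (nat_lit 245022787801) (nat_lit 0) (nat_lit 36327014043) (nat_lit 1) (nat_lit 5) (nat_lit 2) (nat_lit 4) (nat_lit 1) (nat_lit 4) (nat_lit 385) (nat_lit 323) (nat_lit 312)))) (XT.nd (nat_lit 78) (nat_lit 0) (nat_lit 0) (XT.lf (nat_lit 0) (nat_lit 46450931564) (nat_lit 76) (nat_lit 272401163684) (nat_lit 0) (nat_lit 46150388789) (nat_lit 1) (nat_lit 5) (nat_lit 2) (nat_lit 4) (nat_lit 1) (nat_lit 4) (nat_lit 386) (nat_lit 323) (nat_lit 311)) (XT.nd (nat_lit 78) (nat_lit 0) (nat_lit 0) (XT.lf (nat_lit 0) (nat_lit 57595340674) (nat_lit 76) (nat_lit 304236829319) (nat_lit 0) (nat_lit 57285786640) (nat_lit 1) (nat_lit 5) (nat_lit 2) (nat_lit 4) (nat_lit 1) (nat_lit 4) (nat_lit 387) (nat_lit 323) (nat_lit 310)) (XT.lf (nat_lit 0) (nat_lit 70268463988) (nat_lit 76) (nat_lit 341152656425) (nat_lit 0) (nat_lit 69951074076) (nat_lit 1) (nat_lit 5) (nat_lit 2) (nat_lit 4) (nat_lit 1) (nat_lit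 4) (nat_lit 388) (nat_lit 323) (nat_lit 309)))))) (XT.nd (nat_lit 468) (nat_lit 0) (nat_lit 0) (XT.nd (nat_lit 234) (nat_lit 0) (nat_lit 0) (XT.nd (nat_lit 78) (nat_lit 0) (nat_lit 0) (XT.lf (nat_lit 0) (nat_lit 84718253917) (nat_lit 76) (nat_lit 383870911186) (nat_lit 0) (nat_lit 84394050198) (nat_lit 1) (nat_lit 5) (nat_lit 2) (nat_lit 4) (nat_lit 1) (nat_lit 4) (nat_lit 389) (nat_lit 323) (nat_lit 308)) (XT.nd (nat_lit 78) (nat_lit 0) (nat_lit 0) (XT.lf (nat_lit 0) (nat_lit 101227423742) (nat_lit 76) (nat_lit 433227385541) (nat_lit 0) (nat_lit 100897294975) (nat_lit 1) (nat_lit 5) (nat_lit 2) (nat_lit 4) (nat_lit 1) (nat_lit 4) (nat_lit 390) (nat_lit 323) (nat_lit 307)) (XT.lf (nat_lit 0) (nat_lit 120118978962) (nat_lit 76) (nat_lit 490187749642) (nat_lit 0) (nat_lit 119783697977) (nat_lit 1) (nat_lit 5) (nat_lit 2) (nat_lit 4) (nat_lit 1) (nat_lit 4) (nat_lit 391) (nat_lit 323) (nat_lit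 306)))) (XT.nd (nat_lit 78) (nat_lit 0) (nat_lit 0) (XT.lf (nat_lit 0) (nat_lit 141762536959) (nat_lit 76) (nat_lit 555866445394) (nat_lit 0) (nat_lit 141422775786) (nat_lit 1) (nat_lit 5) (nat_lit 2) (nat_lit 4) (nat_lit 1) (nat_lit 4) (nat_lit 392) (nat_lit 323) (nat_lit 305)) (XT.nd (nat_lit 78) (nat_lit 0) (nat_lit 0) (XT.lf (nat_lit 0) (nat_lit 166581558652) (nat_lit 76) (nat_lit 631548490759) (nat_lit 0) (nat_lit 166237901663) (nat_lit 1) (nat_lit 5) (nat_lit 2) (nat_lit 4) (nat_lit 1) (nat_lit 4) (nat_lit 393) (nat_lit 323) (nat_lit 304)) (XT.lf (nat_lit 0) (nat_lit 195061633595) (nat_lit 76) (nat_lit 718714621405) (nat_lit 0) (nat_lit 194714588941) (nat_lit 1) (nat_lit 5) (nat_lit 2) (nat_lit 4) (nat_lit 1) (nat_lit 4) (nat_lit 394) (nat_lit 323) (nat_lit 303))))) (XT.nd (nat_lit 234) (nat_lit 0) (nat_lit 0) (XT.nd (nat_lit 78) (nat_lit 0) (nat_lit 0) (XT.lf (nat_lit 0) (nat_lit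 227759980647) (nat_lit 76) (nat_lit 819070261629) (nat_lit 0) (nat_lit 227409990195) (nat_lit 1) (nat_lit 5) (nat_lit 2) (nat_lit 4) (nat_lit 1) (nat_lit 4) (nat_lit 395) (nat_lit 323) (nat_lit 302)) (XT.nd (nat_lit 78) (nat_lit 0) (nat_lit 0) (XT.lf (nat_lit 0) (nat_lit 265316350074) (nat_lit 76) (nat_lit 934578891348) (nat_lit 0) (nat_lit 264963798061) (nat_lit 1) (nat_lit 5) (nat_lit 2) (nat_lit 4) (nat_lit 1) (nat_lit 4) (nat_lit 396) (nat_lit 323) (nat_lit 301)) (XT.lf (nat_lit 0) (nat_lit 308465540411) (nat_lit 76) (nat_lit 1067500462013) (nat_lit 0) (nat_lit 308110760951) (nat_lit 1) (nat_lit 5) (nat_lit 2) (nat_lit 4) (nat_lit 1) (nat_lit 4) (nat_lit 397) (nat_lit 323) (nat_lit 300)))) (XT.nd (nat_lit 156) (nat_lit 0) (nat_lit 0) (XT.nd (nat_lit 78) (nat_lit 0) (nat_lit 0) (XT.lf (nat_lit 0) (nat_lit 358051774945) (nat_lit 76) (nat_lit 1220435613050) (nat_lit 0) (nat_lit 357695058576)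 (nat_lit 1) (nat_lit 5) (nat_lit 2) (nat_lit 4) (nat_lit 1) (nat_lit 4) (nat_lit 398) (nat_lit 323) (nat_lit 299)) (XT.lf (nat_lit 0) (nat_lit 415045219135) (nat_lit 76) (nat_lit 1396376553936) (nat_lit 0) (nat_lit 414686818498) (nat_lit 1) (nat_lit 5) (nat_lit 2) (nat_lit 4) (nat_lit 1) (nat_lit 4) (nat_lit 399) (nat_lit 323) (nat_lit 298))) (XT.nd (nat_lit 78) (nat_lit 0) (nat_lit 0) (XT.lf (nat_lit 0) (nat_lit 480560962107) (nat_lit 76) (nat_lit 1598765607427) (nat_lit 0) (nat_lit 480201096888) (nat_lit 1) (nat_lit 5) (nat_lit 2) (nat_lit 4) (nat_lit 1) (nat_lit 4) (nat_lit 400) (nat_lit 323) (nat_lit 297)) (XT.lf (nat_lit 0) (nat_lit 555880833614) (nat_lit 76) (nat_lit 1831562559352) (nat_lit 0) (nat_lit 555519694846) (nat_lit 1) (nat_lit 5) (nat_lit 2) (nat_lit 4) (nat_lit 1) (nat_lit 4) (nat_lit 401) (nat_lit 323) (nat_lit 296))))))))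
noncomputable def xc19 : XT := (XT.nd (nat_lit 1872) (nat_lit 0) (nat_lit 0) (XT.nd (nat_lit 936) (nat_lit 0) (nat_lit 0) (XT.nd (nat_lit 468) (nat_lit 0) (nat_lit 0) (XT.nd (nat_lit 234) (nat_lit 0) (nat_lit 0) (XT.nd (nat_lit 78) (nat_lit 0) (nat_lit 0) (XT.lf (nat_lit 0) (nat_lit 642478483316) (nat_lit 76) (nat_lit 2099322132684) (nat_lit 0) (nat_lit 642116237114) (nat_lit 1) (nat_lit 5) (nat_lit 2) (nat_lit 4) (nat_lit 1) (nat_lit 4) (nat_lit 402) (nat_lit 323) (nat_lit 295)) (XT.nd (nat_lit 78) (nat_lit 0) (nat_lit 0) (XT.lf (nat_lit 0) (nat_lit 742048213056) (nat_lit 76) (nat_lit 2407283101684) (nat_lit 0) (nat_lit 741685003868) (nat_lit 1) (nat_lit 5) (nat_lit 2) (nat_lit 4) (nat_lit 1) (nat_lit 4) (nat_lit 403) (nat_lit 323) (nat_lit 294)) (XT.lf (nat_lit 0) (nat_lit 856538126241) (nat_lit 76) (nat_lit 2761470789658) (nat_lit 0) (nat_lit 856174079673) (nat_lit 1) (nat_lit 5) (nat_lit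 2) (nat_lit 4) (nat_lit 1) (nat_lit 4) (nat_lit 404) (nat_lit 323) (nat_lit 293)))) (XT.nd (nat_lit 78) (nat_lit 0) (nat_lit 0) (XT.lf (nat_lit 0) (nat_lit 988188242911) (nat_lit 76) (nat_lit 3168814955719) (nat_lit 0) (nat_lit 987823468188) (nat_lit 1) (nat_lit 5) (nat_lit 2) (nat_lit 4) (nat_lit 1) (nat_lit 4) (nat_lit 405) (nat_lit 323) (nat_lit 292)) (XT.nd (nat_lit 78) (nat_lit 0) (nat_lit 0) (XT.lf (nat_lit 0) (nat_lit 1139574326220) (nat_lit 76) (nat_lit 3637285377028) (nat_lit 0) (nat_lit 1139208918318) (nat_lit 1) (nat_lit 5) (nat_lit 2) (nat_lit 4) (nat_lit 1) (nat_lit 4) (nat_lit 406) (nat_lit 323) (nat_lit 291)) (XT.lf (nat_lit 0) (nat_lit 1313658277797) (nat_lit 76) (nat_lit 4176047779221) (nat_lit 0) (nat_lit 1313292319304) (nat_lit 1) (nat_lit 5) (nat_lit 2) (nat_lit 4) (nat_lit 1) (nat_lit 4) (nat_lit 407) (nat_lit 323) (nat_lit 290))))) (XT.nd (nat_lit 234) (nat_lit 0)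 (nat_lit 0) (XT.nd (nat_lit 78) (nat_lit 0) (nat_lit 0) (XT.lf (nat_lit 0) (nat_lit 1513846087998) (nat_lit 76) (nat_lit 4795643165818) (nat_lit 0) (nat_lit 1513479650731) (nat_lit 1) (nat_lit 5) (nat_lit 2) (nat_lit 4) (nat_lit 1) (nat_lit 4) (nat_lit 408) (nat_lit 323) (nat_lit 289)) (XT.nd (nat_lit 78) (nat_lit 0) (nat_lit 0) (XT.lf (nat_lit 0) (nat_lit 1744054474851) (nat_lit 76) (nat_lit 5508194055253) (nat_lit 0) (nat_lit 1743687621258) (nat_lit 1) (nat_lit 5) (nat_lit 2) (nat_lit 4) (nat_lit 1) (nat_lit 4) (nat_lit 409) (nat_lit 323) (nat_lit 288)) (XT.lf (nat_lit 0) (nat_lit 2008787515488) (nat_lit 76) (nat_lit 6327641660579) (nat_lit 0) (nat_lit 2008420299873) (nat_lit 1) (nat_lit 5) (nat_lit 2) (nat_lit 4) (nat_lit 1) (nat_lit 4) (nat_lit 410) (nat_lit 323) (nat_lit 287)))) (XT.nd (nat_lit 78) (nat_lit 0) (nat_lit 0) (XT.lf (nat_lit 0) (nat_lit 2313224769400) (nat_lit 76) (nat_lit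 7270018652337) (nat_lit 0) (nat_lit 2312857238984) (nat_lit 1) (nat_lit 5) (nat_lit 2) (nat_lit 4) (nat_lit 1) (nat_lit 4) (nat_lit 411) (nat_lit 323) (nat_lit 286)) (XT.nd (nat_lit 78) (nat_lit 0) (nat_lit 0) (XT.lf (nat_lit 0) (nat_lit 2663322617643) (nat_lit 76) (nat_lit 8353762841233) (nat_lit 0) (nat_lit 2662954813486) (nat_lit 1) (nat_lit 5) (nat_lit 2) (nat_lit 4) (nat_lit 1) (nat_lit 4) (nat_lit 412) (nat_lit 323) (nat_lit 285)) (XT.lf (nat_lit 0) (nat_lit 3065930800725) (nat_lit 76) (nat_lit 9600077917922) (nat_lit 0) (nat_lit 3065562758532) (nat_lit 1) (nat_lit 5) (nat_lit 2) (nat_lit 4) (nat_lit 1) (nat_lit 4) (nat_lit 413) (nat_lit 323) (nat_lit 284)))))) (XT.nd (nat_lit 468) (nat_lit 0) (nat_lit 0) (XT.nd (nat_lit 234) (nat_lit 0) (nat_lit 0) (XT.nd (nat_lit 78) (nat_lit 0) (nat_lit 0) (XT.lf (nat_lit 0) (nat_lit 3528926435272) (nat_lit 76) (nat_lit 11033348307815) (nat_lit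 0) (nat_lit 3528558186092) (nat_lit 1) (nat_lit 5) (nat_lit 2) (nat_lit 4) (nat_lit 1) (nat_lit 4) (nat_lit 414) (nat_lit 323) (nat_lit 283)) (XT.nd (nat_lit 78) (nat_lit 0) (nat_lit 0) (XT.lf (nat_lit 0) (nat_lit 4061368131524) (nat_lit 76) (nat_lit 12681616257671) (nat_lit 0) (nat_lit 4060999702355) (nat_lit 1) (nat_lit 5) (nat_lit 2) (nat_lit 4) (nat_lit 1) (nat_lit 4) (nat_lit 415) (nat_lit 323) (nat_lit 282)) (XT.lf (nat_lit 0) (nat_lit 4673673227019) (nat_lit 76) (nat_lit 14577130488250) (nat_lit 0) (nat_lit 4673304641337) (nat_lit 1) (nat_lit 5) (nat_lit 2) (nat_lit 4) (nat_lit 1) (nat_lit 4) (nat_lit 416) (nat_lit 323) (nat_lit 281)))) (XT.nd (nat_lit 78) (nat_lit 0) (nat_lit 0) (XT.lf (nat_lit 0) (nat_lit 5377821604057) (nat_lit 76) (nat_lit 16756977147540) (nat_lit 0) (nat_lit 5377452882278) (nat_lit 1) (nat_lit 5) (nat_lit 2) (nat_lit 4) (nat_lit 1) (nat_lit 4) (nat_lit 417)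 (nat_lit 323) (nat_lit 280)) (XT.nd (nat_lit 78) (nat_lit 0) (nat_lit 0) (XT.lf (nat_lit 0) (nat_lit 6187590078713) (nat_lit 76) (nat_lit 19263805409310) (nat_lit 0) (nat_lit 6187221238588) (nat_lit 1) (nat_lit 5) (nat_lit 2) (nat_lit 4) (nat_lit 1) (nat_lit 4) (nat_lit 418) (nat_lit 323) (nat_lit 279)) (XT.lf (nat_lit 0) (nat_lit 7118821947229) (nat_lit 76) (nat_lit 22146661913464) (nat_lit 0) (nat_lit 7118453004195) (nat_lit 1) (nat_lit 5) (nat_lit 2) (nat_lit 4) (nat_lit 1) (nat_lit 4) (nat_lit 419) (nat_lit 323) (nat_lit 278))))) (XT.nd (nat_lit 234) (nat_lit 0) (nat_lit 0) (XT.nd (nat_lit 78) (nat_lit 0) (nat_lit 0) (XT.lf (nat_lit 0) (nat_lit 8189736963554) (nat_lit 76) (nat_lit 25461950374215) (nat_lit 0) (nat_lit 8189367931034) (nat_lit 1) (nat_lit 5) (nat_lit 2) (nat_lit 4) (nat_lit 1) (nat_lit 4) (nat_lit 420) (nat_lit 323) (nat_lit 277)) (XT.nd (nat_lit 78) (nat_lit 0) (nat_lit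 0) (XT.lf (nat_lit 0) (nat_lit 9421287812791) (nat_lit 76) (nat_lit 29274535131011) (nat_lit 0) (nat_lit 9420918702457) (nat_lit 1) (nat_lit 5) (nat_lit 2) (nat_lit 4) (nat_lit 1) (nat_lit 4) (nat_lit 421) (nat_lit 323) (nat_lit 276)) (XT.lf (nat_lit 0) (nat_lit 10837570055033) (nat_lit 76) (nat_lit 33659010233442) (nat_lit 0) (nat_lit 10837200877034) (nat_lit 1) (nat_lit 5) (nat_lit 2) (nat_lit 4) (nat_lit 1) (nat_lit 4) (nat_lit 422) (nat_lit 323) (nat_lit 275)))) (XT.nd (nat_lit 78) (nat_lit 0) (nat_lit 0) (XT.lf (nat_lit 0) (nat_lit 12466293560238) (nat_lit 76) (nat_lit 38701158890033) (nat_lit 0) (nat_lit 12465924323400) (nat_lit 1) (nat_lit 5) (nat_lit 2) (nat_lit 4) (nat_lit 1) (nat_lit 4) (nat_lit 423) (nat_lit 323) (nat_lit 274)) (XT.nd (nat_lit 78) (nat_lit 0) (nat_lit 0) (XT.lf (nat_lit 0) (nat_lit 14339324657854) (nat_lit 76) (nat_lit 44499631835371) (nat_lit 0) (nat_lit 14338955369852)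 (nat_lit 1) (nat_lit 5) (nat_lit 2) (nat_lit 4) (nat_lit 1) (nat_lit 4) (nat_lit 424) (nat_lit 323) (nat_lit 273)) (XT.lf (nat_lit 0) (nat_lit 16493309608487) (nat_lit 76) (nat_lit 51167877453168) (nat_lit 0) (nat_lit 16492940275995) (nat_lit 1) (nat_lit 5) (nat_lit 2) (nat_lit 4) (nat_lit 1) (nat_lit 4) (nat_lit 425) (nat_lit 323) (nat_lit 272))))))) (XT.nd (nat_lit 48984) (nat_lit 0) (nat_lit 0) (XT.nd (nat_lit 468) (nat_lit 0) (nat_lit 0) (XT.nd (nat_lit 234) (nat_lit 0) (nat_lit 0) (XT.nd (nat_lit 78) (nat_lit 0) (nat_lit 0) (XT.lf (nat_lit 0) (nat_lit 18970391595955) (nat_lit 76) (nat_lit 58836361418556) (nat_lit 0) (nat_lit 18970022224775) (nat_lit 1) (nat_lit 5) (nat_lit 2) (nat_lit 4) (nat_lit 1) (nat_lit 4) (nat_lit 426) (nat_lit 323) (nat_lit 271)) (XT.nd (nat_lit 78) (nat_lit 0) (nat_lit 0) (XT.lf (nat_lit 0) (nat_lit 21819035267837) (nat_lit 76) (nat_lit 67655119287378) (nat_lit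 0) (nat_lit 21818665863017) (nat_lit 1) (nat_lit 5) (nat_lit 2) (nat_lit 4) (nat_lit 1) (nat_lit 4) (nat_lit 427) (nat_lit 323) (nat_lit 270)) (XT.lf (nat_lit 0) (nat_lit 25094974956846) (nat_lit 76) (nat_lit 77796691974460) (nat_lit 0) (nat_lit 25094605522772) (nat_lit 1) (nat_lit 5) (nat_lit 2) (nat_lit 4) (nat_lit 1) (nat_lit 4) (nat_lit 428) (nat_lit 323) (nat_lit 269)))) (XT.nd (nat_lit 78) (nat_lit 0) (nat_lit 0) (XT.lf (nat_lit 0) (nat_lit 28862305135156) (nat_lit 76) (nat_lit 89459501554113) (nat_lit 0) (nat_lit 28861935675644) (nat_lit 1) (nat_lit 5) (nat_lit 2) (nat_lit 4) (nat_lit 1) (nat_lit 4) (nat_lit 429) (nat_lit 323) (nat_lit 268)) (XT.nd (nat_lit 78) (nat_lit 0) (nat_lit 0) (XT.lf (nat_lit 0) (nat_lit 33194734436692) (nat_lit 76) (nat_lit 102871733431159) (nat_lit 0) (nat_lit 33194364955061) (nat_lit 1) (nat_lit 5) (nat_lit 2) (nat_lit 4) (nat_lit 1) (nat_lit 4) (nat_lit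 430) (nat_lit 323) (nat_lit 267)) (XT.lf (nat_lit 0) (nat_lit 38177027782570) (nat_lit 76) (nat_lit 118295800837972) (nat_lit 0) (nat_lit 38176658281704) (nat_lit 1) (nat_lit 5) (nat_lit 2) (nat_lit 4) (nat_lit 1) (nat_lit 4) (nat_lit 431) (nat_lit 323) (nat_lit 266))))) (XT.nd (nat_lit 234) (nat_lit 0) (nat_lit 0) (XT.nd (nat_lit 78) (nat_lit 0) (nat_lit 0) (XT.lf (nat_lit 0) (nat_lit 43906664825210) (nat_lit 76) (nat_lit 136033479006426) (nat_lit 0) (nat_lit 43906295307619) (nat_lit 1) (nat_lit 5) (nat_lit 2) (nat_lit 4) (nat_lit 1) (nat_lit 4) (nat_lit 432) (nat_lit 323) (nat_lit 265)) (XT.nd (nat_lit 78) (nat_lit 0) (nat_lit 0) (XT.lf (nat_lit 0) (nat_lit 50495747158925) (nat_lit 76) (nat_lit 156431809465904) (nat_lit 0) (nat_lit 50495377626789) (nat_lit 1) (nat_lit 5) (nat_lit 2) (nat_lit 4) (nat_lit 1) (nat_lit 4) (nat_lit 433) (nat_lit 323) (nat_lit 264)) (XT.lf (nat_lit 0) (nat_lit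 58073191611982) (nat_lit 76) (nat_lit 179889889986264) (nat_lit 0) (nat_lit 58072822067199) (nat_lit 1) (nat_lit 5) (nat_lit 2) (nat_lit 4) (nat_lit 1) (nat_lit 4) (nat_lit 434) (nat_lit 323) (nat_lit 263)))) (XT.nd (nat_lit 78) (nat_lit 0) (nat_lit 0) (XT.lf (nat_lit 0) (nat_lit 66787252532376) (nat_lit 76) (nat_lit 206866683012471) (nat_lit 0) (nat_lit 66786882976596) (nat_lit 1) (nat_lit 5) (nat_lit 2) (nat_lit 4) (nat_lit 1) (nat_lit 4) (nat_lit 435) (nat_lit 323) (nat_lit 262)) (XT.nd (nat_lit 48126) (nat_lit 0) (nat_lit 152) (XT.lf (nat_lit 0) (nat_lit 76808422416376) (nat_lit 76) (nat_lit 237889995364603) (nat_lit 0) (nat_lit 76808052851034) (nat_lit 1) (nat_lit 5) (nat_lit 2) (nat_lit 4) (nat_lit 1) (nat_lit 4) (nat_lit 436) (nat_lit 323) (nat_lit 261)) (XT.lf (nat_lit 0) (nat_lit 10991343873) (nat_lit 152) (nat_lit 6628951278) (nat_lit 0) (nat_lit 10991343873) (nat_lit 3) (nat_lit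 5) (nat_lit 5) (nat_lit 4) (nat_lit 3) (nat_lit 4) (nat_lit 372) (nat_lit 324) (nat_lit 324)))))) (XT.nd (nat_lit 468) (nat_lit 76) (nat_lit 0) (XT.nd (nat_lit 234) (nat_lit 0) (nat_lit 0) (XT.nd (nat_lit 78) (nat_lit 0) (nat_lit 0) (XT.lf (nat_lit 0) (nat_lit 1556250716) (nat_lit 76) (nat_lit 31563565686) (nat_lit 76) (nat_lit 31499804667) (nat_lit 2) (nat_lit 4) (nat_lit 3) (nat_lit 5) (nat_lit 3) (nat_lit 4) (nat_lit 373) (nat_lit 324) (nat_lit 323)) (XT.nd (nat_lit 78) (nat_lit 0) (nat_lit 0) (XT.lf (nat_lit 0) (nat_lit 18528004038) (nat_lit 76) (nat_lit 27361190545) (nat_lit 76) (nat_lit 27241985161) (nat_lit 2) (nat_lit 4) (nat_lit 3) (nat_lit 5) (nat_lit 3) (nat_lit 4) (nat_lit 374) (nat_lit 324) (nat_lit 322)) (XT.lf (nat_lit 0) (nat_lit 36693754792) (nat_lit 76) (nat_lit 23244271222) (nat_lit 76) (nat_lit 23076853348) (nat_lit 2) (nat_lit 4) (nat_lit 3) (nat_lit 5) (nat_lit 3)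 (nat_lit 4) (nat_lit 375) (nat_lit 324) (nat_lit 321)))) (XT.nd (nat_lit 78) (nat_lit 0) (nat_lit 0) (XT.lf (nat_lit 0) (nat_lit 56408919841) (nat_lit 76) (nat_lit 19132259298) (nat_lit 76) (nat_lit 18922917519) (nat_lit 2) (nat_lit 4) (nat_lit 3) (nat_lit 5) (nat_lit 3) (nat_lit 4) (nat_lit 376) (nat_lit 324) (nat_lit 320)) (XT.nd (nat_lit 78) (nat_lit 0) (nat_lit 0) (XT.lf (nat_lit 0) (nat_lit 78059230674) (nat_lit 76) (nat_lit 14944702363) (nat_lit 76) (nat_lit 14698905014) (nat_lit 2) (nat_lit 4) (nat_lit 3) (nat_lit 5) (nat_lit 3) (nat_lit 4) (nat_lit 377) (nat_lit 324) (nat_lit 319)) (XT.lf (nat_lit 0) (nat_lit 102068280331) (nat_lit 76) (nat_lit 10599669957) (nat_lit 76) (nat_lit 10322172113) (nat_lit 2) (nat_lit 4) (nat_lit 3) (nat_lit 5) (nat_lit 3) (nat_lit 4) (nat_lit 378) (nat_lit 324) (nat_lit 318))))) (XT.nd (nat_lit 234) (nat_lit 0) (nat_lit 0) (XT.nd (nat_lit 78) (nat_lit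 76) (nat_lit 0) (XT.lf (nat_lit 0) (nat_lit 128905811086) (nat_lit 76) (nat_lit 6012150575) (nat_lit 76) (nat_lit 5707087083) (nat_lit 2) (nat_lit 4) (nat_lit 3) (nat_lit 5) (nat_lit 3) (nat_lit 4) (nat_lit 379) (nat_lit 324) (nat_lit 317)) (XT.nd (nat_lit 78) (nat_lit 76) (nat_lit 0) (XT.lf (nat_lit 0) (nat_lit 159096905063) (nat_lit 76) (nat_lit 1092388405) (nat_lit 76) (nat_lit 763354784) (nat_lit 2) (nat_lit 4) (nat_lit 3) (nat_lit 5) (nat_lit 3) (nat_lit 4) (nat_lit 380) (nat_lit 324) (nat_lit 316)) (XT.lf (nat_lit 0) (nat_lit 4793922920) (nat_lit 76) (nat_lit 174968691597) (nat_lit 0) (nat_lit 4489681867) (nat_lit 1) (nat_lit 5) (nat_lit 2) (nat_lit 4) (nat_lit 1) (nat_lit 4) (nat_lit 381) (nat_lit 324) (nat_lit 315)))) (XT.nd (nat_lit 156) (nat_lit 0) (nat_lit 0) (XT.nd (nat_lit 78) (nat_lit 0) (nat_lit 0) (XT.lf (nat_lit 0) (nat_lit 10972764014) (nat_lit 76) (nat_lit 189435998885)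 (nat_lit 0) (nat_lit 10652762212) (nat_lit 1) (nat_lit 5) (nat_lit 2) (nat_lit 4) (nat_lit 1) (nat_lit 4) (nat_lit 382) (nat_lit 324) (nat_lit 314)) (XT.lf (nat_lit 0) (nat_lit 17828415790) (nat_lit 76) (nat_lit 206606519705) (nat_lit 0) (nat_lit 17494708989) (nat_lit 1) (nat_lit 5) (nat_lit 2) (nat_lit 4) (nat_lit 1) (nat_lit 4) (nat_lit 383) (nat_lit 324) (nat_lit 313))) (XT.nd (nat_lit 78) (nat_lit 0) (nat_lit 0) (XT.lf (nat_lit 0) (nat_lit 25495010564) (nat_lit 76) (nat_lit 226816199030) (nat_lit 0) (nat_lit 25149386373) (nat_lit 1) (nat_lit 5) (nat_lit 2) (nat_lit 4) (nat_lit 1) (nat_lit 4) (nat_lit 384) (nat_lit 324) (nat_lit 312)) (XT.lf (nat_lit 0) (nat_lit 34122546931) (nat_lit 76) (nat_lit 250460443629) (nat_lit 0) (nat_lit 33766559791) (nat_lit 1) (nat_lit 5) (nat_lit 2) (nat_lit 4) (nat_lit 1) (nat_lit 4) (nat_lit 385) (nat_lit 324) (nat_lit 311))))))))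
noncomputable def xc20 : XT := (XT.nd (nat_lit 1872) (nat_lit 0) (nat_lit 0) (XT.nd (nat_lit 936) (nat_lit 0) (nat_lit 0) (XT.nd (nat_lit 468) (nat_lit 0) (nat_lit 0) (XT.nd (nat_lit 234) (nat_lit 0) (nat_lit 0) (XT.nd (nat_lit 78) (nat_lit 0) (nat_lit 0) (XT.lf (nat_lit 0) (nat_lit 43879824514) (nat_lit 76) (nat_lit 278001858289) (nat_lit 0) (nat_lit 43514826116) (nat_lit 1) (nat_lit 5) (nat_lit 2) (nat_lit 4) (nat_lit 1) (nat_lit 4) (nat_lit 386) (nat_lit 324) (nat_lit 310)) (XT.nd (nat_lit 78) (nat_lit 0) (nat_lit 0) (XT.lf (nat_lit 0) (nat_lit 54957746572) (nat_lit 76) (nat_lit 309979296773) (nat_lit 0) (nat_lit 54584912296) (nat_lit 1) (nat_lit 5) (nat_lit 2) (nat_lit 4) (nat_lit 1) (nat_lit 4) (nat_lit 387) (nat_lit 324) (nat_lit 309)) (XT.lf (nat_lit 0) (nat_lit 67573055056) (nat_lit 76) (nat_lit 347018404618) (nat_lit 0) (nat_lit 67193406974) (nat_lit 1) (nat_lit 5) (nat_lit 2)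 (nat_lit 4) (nat_lit 1) (nat_lit 4) (nat_lit 388) (nat_lit 324) (nat_lit 308)))) (XT.nd (nat_lit 78) (nat_lit 0) (nat_lit 0) (XT.lf (nat_lit 0) (nat_lit 81972571221) (nat_lit 76) (nat_lit 389843860021) (nat_lit 0) (nat_lit 81586998089) (nat_lit 1) (nat_lit 5) (nat_lit 2) (nat_lit 4) (nat_lit 1) (nat_lit 4) (nat_lit 389) (nat_lit 324) (nat_lit 307)) (XT.nd (nat_lit 78) (nat_lit 0) (nat_lit 0) (XT.lf (nat_lit 0) (nat_lit 98438024731) (nat_lit 76) (nat_lit 439293552326) (nat_lit 0) (nat_lit 98047299382) (nat_lit 1) (nat_lit 5) (nat_lit 2) (nat_lit 4) (nat_lit 1) (nat_lit 4) (nat_lit 390) (nat_lit 324) (nat_lit 306)) (XT.lf (nat_lit 0) (nat_lit 117291565762) (nat_lit 76) (nat_lit 496334975514) (nat_lit 0) (nat_lit 116896360225) (nat_lit 1) (nat_lit 5) (nat_lit 2) (nat_lit 4) (nat_lit 1) (nat_lit 4) (nat_lit 391) (nat_lit 324) (nat_lit 305))))) (XT.nd (nat_lit 234) (nat_lit 0) (nat_lit 0)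 (XT.nd (nat_lit 78) (nat_lit 0) (nat_lit 0) (XT.lf (nat_lit 0) (nat_lit 138902067943) (nat_lit 76) (nat_lit 562084157429) (nat_lit 0) (nat_lit 138502966590) (nat_lit 1) (nat_lit 5) (nat_lit 2) (nat_lit 4) (nat_lit 1) (nat_lit 4) (nat_lit 392) (nat_lit 324) (nat_lit 304)) (XT.nd (nat_lit 78) (nat_lit 0) (nat_lit 0) (XT.lf (nat_lit 0) (nat_lit 163692345448) (nat_lit 76) (nat_lit 637827495108) (nat_lit 0) (nat_lit 163289856429) (nat_lit 1) (nat_lit 5) (nat_lit 2) (nat_lit 4) (nat_lit 1) (nat_lit 4) (nat_lit 393) (nat_lit 324) (nat_lit 303)) (XT.lf (nat_lit 0) (nat_lit 192147425446) (nat_lit 76) (nat_lit 725046923420) (nat_lit 0) (nat_lit 191741990630) (nat_lit 1) (nat_lit 5) (nat_lit 2) (nat_lit 4) (nat_lit 1) (nat_lit 4) (nat_lit 394) (nat_lit 324) (nat_lit 302)))) (XT.nd (nat_lit 78) (nat_lit 0) (nat_lit 0) (XT.lf (nat_lit 0) (nat_lit 224824037762) (nat_lit 76) (nat_lit 825448909440) (nat_lit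 0) (nat_lit 224416041384) (nat_lit 1) (nat_lit 5) (nat_lit 2) (nat_lit 4) (nat_lit 1) (nat_lit 4) (nat_lit 395) (nat_lit 324) (nat_lit 301)) (XT.nd (nat_lit 78) (nat_lit 0) (nat_lit 0) (XT.lf (nat_lit 0) (nat_lit 262361507419) (nat_lit 76) (nat_lit 940997839851) (nat_lit 0) (nat_lit 261951283596) (nat_lit 1) (nat_lit 5) (nat_lit 2) (nat_lit 4) (nat_lit 1) (nat_lit 4) (nat_lit 396) (nat_lit 324) (nat_lit 300)) (XT.lf (nat_lit 0) (nat_lit 305494263173) (nat_lit 76) (nat_lit 1073954454596) (nat_lit 0) (nat_lit 305082102440) (nat_lit 1) (nat_lit 5) (nat_lit 2) (nat_lit 4) (nat_lit 1) (nat_lit 4) (nat_lit 397) (nat_lit 324) (nat_lit 299)))))) (XT.nd (nat_lit 468) (nat_lit 0) (nat_lit 0) (XT.nd (nat_lit 234) (nat_lit 0) (nat_lit 0) (XT.nd (nat_lit 78) (nat_lit 0) (nat_lit 0) (XT.lf (nat_lit 0) (nat_lit 355066206766) (nat_lit 76) (nat_lit 1226920078746) (nat_lit 0) (nat_lit 354652361764) (nat_lit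 1) (nat_lit 5) (nat_lit 2) (nat_lit 4) (nat_lit 1) (nat_lit 4) (nat_lit 398) (nat_lit 324) (nat_lit 298)) (XT.nd (nat_lit 78) (nat_lit 0) (nat_lit 0) (XT.lf (nat_lit 0) (nat_lit 412047224050) (nat_lit 76) (nat_lit 1402887517991) (nat_lit 0) (nat_lit 411631914467) (nat_lit 1) (nat_lit 5) (nat_lit 2) (nat_lit 4) (nat_lit 1) (nat_lit 4) (nat_lit 399) (nat_lit 324) (nat_lit 297)) (XT.lf (nat_lit 0) (nat_lit 477552161017) (nat_lit 76) (nat_lit 1605299613534) (nat_lit 0) (nat_lit 477135577885) (nat_lit 1) (nat_lit 5) (nat_lit 2) (nat_lit 4) (nat_lit 1) (nat_lit 4) (nat_lit 400) (nat_lit 324) (nat_lit 296)))) (XT.nd (nat_lit 78) (nat_lit 0) (nat_lit 0) (XT.lf (nat_lit 0) (nat_lit 552862635998) (nat_lit 76) (nat_lit 1838116602025) (nat_lit 0) (nat_lit 552444945432) (nat_lit 1) (nat_lit 5) (nat_lit 2) (nat_lit 4) (nat_lit 1) (nat_lit 4) (nat_lit 401) (nat_lit 324) (nat_lit 295)) (XT.nd (nat_lit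 78) (nat_lit 0) (nat_lit 0) (XT.lf (nat_lit 0) (nat_lit 639452114809) (nat_lit 76) (nat_lit 2105893598459) (nat_lit 0) (nat_lit 639033461256) (nat_lit 1) (nat_lit 5) (nat_lit 2) (nat_lit 4) (nat_lit 1) (nat_lit 4) (nat_lit 402) (nat_lit 324) (nat_lit 294)) (XT.lf (nat_lit 0) (nat_lit 739014739425) (nat_lit 76) (nat_lit 2413869717982) (nat_lit 0) (nat_lit 738595248493) (nat_lit 1) (nat_lit 5) (nat_lit 2) (nat_lit 4) (nat_lit 1) (nat_lit 4) (nat_lit 403) (nat_lit 324) (nat_lit 293))))) (XT.nd (nat_lit 234) (nat_lit 0) (nat_lit 0) (XT.nd (nat_lit 78) (nat_lit 0) (nat_lit 0) (XT.lf (nat_lit 0) (nat_lit 853498474241) (nat_lit 76) (nat_lit 2768070580323) (nat_lit 0) (nat_lit 853078255154) (nat_lit 1) (nat_lit 5) (nat_lit 2) (nat_lit 4) (nat_lit 1) (nat_lit 4) (nat_lit 404) (nat_lit 324) (nat_lit 292)) (XT.nd (nat_lit 78) (nat_lit 0) (nat_lit 0) (XT.lf (nat_lit 0) (nat_lit 985143218418) (nat_lit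 76) (nat_lit 3175426202356) (nat_lit 0) (nat_lit 984722366151) (nat_lit 1) (nat_lit 5) (nat_lit 2) (nat_lit 4) (nat_lit 1) (nat_lit 4) (nat_lit 405) (nat_lit 324) (nat_lit 291)) (XT.lf (nat_lit 0) (nat_lit 1136524629992) (nat_lit 76) (nat_lit 3643906585380) (nat_lit 0) (nat_lit 1136103227135) (nat_lit 1) (nat_lit 5) (nat_lit 2) (nat_lit 4) (nat_lit 1) (nat_lit 4) (nat_lit 406) (nat_lit 324) (nat_lit 290)))) (XT.nd (nat_lit 78) (nat_lit 0) (nat_lit 0) (XT.lf (nat_lit 0) (nat_lit 1310604519192) (nat_lit 76) (nat_lit 4182677649934) (nat_lit 0) (nat_lit 1310182637560) (nat_lit 1) (nat_lit 5) (nat_lit 2) (nat_lit 4) (nat_lit 1) (nat_lit 4) (nat_lit 407) (nat_lit 324) (nat_lit 289)) (XT.nd (nat_lit 78) (nat_lit 0) (nat_lit 0) (XT.lf (nat_lit 0) (nat_lit 1510788796891) (nat_lit 76) (nat_lit 4802280569018) (nat_lit 0) (nat_lit 1510366498934) (nat_lit 1) (nat_lit 5) (nat_lit 2) (nat_lit 4) (nat_lit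 1) (nat_lit 4) (nat_lit 408) (nat_lit 324) (nat_lit 288)) (XT.lf (nat_lit 0) (nat_lit 1740994112002) (nat_lit 76) (nat_lit 5514838008442) (nat_lit 0) (nat_lit 1740571452023) (nat_lit 1) (nat_lit 5) (nat_lit 2) (nat_lit 4) (nat_lit 1) (nat_lit 4) (nat_lit 409) (nat_lit 324) (nat_lit 287))))))) (XT.nd (nat_lit 936) (nat_lit 0) (nat_lit 0) (XT.nd (nat_lit 468) (nat_lit 0) (nat_lit 0) (XT.nd (nat_lit 234) (nat_lit 0) (nat_lit 0) (XT.nd (nat_lit 78) (nat_lit 0) (nat_lit 0) (XT.lf (nat_lit 0) (nat_lit 2005724481560) (nat_lit 76) (nat_lit 6334291309411) (nat_lit 0) (nat_lit 2005301506779) (nat_lit 1) (nat_lit 5) (nat_lit 2) (nat_lit 4) (nat_lit 1) (nat_lit 4) (nat_lit 410) (nat_lit 324) (nat_lit 286)) (XT.nd (nat_lit 78) (nat_lit 0) (nat_lit 0) (XT.lf (nat_lit 0) (nat_lit 2310159412795) (nat_lit 76) (nat_lit 7276673253902) (nat_lit 0) (nat_lit 2309736164274) (nat_lit 1) (nat_lit 5) (nat_lit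 2) (nat_lit 4) (nat_lit 1) (nat_lit 4) (nat_lit 411) (nat_lit 324) (nat_lit 285)) (XT.lf (nat_lit 0) (nat_lit 2660255241318) (nat_lit 76) (nat_lit 8360421749523) (nat_lit 0) (nat_lit 2659831754761) (nat_lit 1) (nat_lit 5) (nat_lit 2) (nat_lit 4) (nat_lit 1) (nat_lit 4) (nat_lit 412) (nat_lit 324) (nat_lit 284)))) (XT.nd (nat_lit 78) (nat_lit 0) (nat_lit 0) (XT.lf (nat_lit 0) (nat_lit 3062861668122) (nat_lit 76) (nat_lit 9606740571188) (nat_lit 0) (nat_lit 3062437974578) (nat_lit 1) (nat_lit 5) (nat_lit 2) (nat_lit 4) (nat_lit 1) (nat_lit 4) (nat_lit 413) (nat_lit 324) (nat_lit 283)) (XT.nd (nat_lit 78) (nat_lit 0) (nat_lit 0) (XT.lf (nat_lit 0) (nat_lit 3525855775471) (nat_lit 76) (nat_lit 11040014217584) (nat_lit 0) (nat_lit 3525431901938) (nat_lit 1) (nat_lit 5) (nat_lit 2) (nat_lit 4) (nat_lit 1) (nat_lit 4) (nat_lit 414) (nat_lit 324) (nat_lit 282)) (XT.lf (nat_lit 0) (nat_lit 4058296143725)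 (nat_lit 76) (nat_lit 12688284999181) (nat_lit 0) (nat_lit 4057872113680) (nat_lit 1) (nat_lit 5) (nat_lit 2) (nat_lit 4) (nat_lit 1) (nat_lit 4) (nat_lit 415) (nat_lit 324) (nat_lit 281))))) (XT.nd (nat_lit 234) (nat_lit 0) (nat_lit 0) (XT.nd (nat_lit 78) (nat_lit 0) (nat_lit 0) (XT.lf (nat_lit 0) (nat_lit 4670600084438) (nat_lit 76) (nat_lit 14583801692144) (nat_lit 0) (nat_lit 4670175918295) (nat_lit 1) (nat_lit 5) (nat_lit 2) (nat_lit 4) (nat_lit 1) (nat_lit 4) (nat_lit 416) (nat_lit 324) (nat_lit 280)) (XT.nd (nat_lit 78) (nat_lit 0) (nat_lit 0) (XT.lf (nat_lit 0) (nat_lit 5374747457319) (nat_lit 76) (nat_lit 16763650492637) (nat_lit 0) (nat_lit 5374323172831) (nat_lit 1) (nat_lit 5) (nat_lit 2) (nat_lit 4) (nat_lit 1) (nat_lit 4) (nat_lit 417) (nat_lit 324) (nat_lit 279)) (XT.lf (nat_lit 0) (nat_lit 6184515058795) (nat_lit 76) (nat_lit 19270480616322) (nat_lit 0) (nat_lit 6184090671396)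 (nat_lit 1) (nat_lit 5) (nat_lit 2) (nat_lit 4) (nat_lit 1) (nat_lit 4) (nat_lit 418) (nat_lit 324) (nat_lit 278)))) (XT.nd (nat_lit 78) (nat_lit 0) (nat_lit 0) (XT.lf (nat_lit 0) (nat_lit 7115746168023) (nat_lit 76) (nat_lit 22153338739534) (nat_lit 0) (nat_lit 7115321691139) (nat_lit 1) (nat_lit 5) (nat_lit 2) (nat_lit 4) (nat_lit 1) (nat_lit 4) (nat_lit 419) (nat_lit 324) (nat_lit 277)) (XT.nd (nat_lit 78) (nat_lit 0) (nat_lit 0) (XT.lf (nat_lit 0) (nat_lit 8186660524099) (nat_lit 76) (nat_lit 25468628608160) (nat_lit 0) (nat_lit 8186235969400) (nat_lit 1) (nat_lit 5) (nat_lit 2) (nat_lit 4) (nat_lit 1) (nat_lit 4) (nat_lit 420) (nat_lit 324) (nat_lit 276)) (XT.lf (nat_lit 0) (nat_lit 9418210799205) (nat_lit 76) (nat_lit 29281214589196) (nat_lit 0) (nat_lit 9417786176842) (nat_lit 1) (nat_lit 5) (nat_lit 2) (nat_lit 4) (nat_lit 1) (nat_lit 4) (nat_lit 421) (nat_lit 324) (nat_lit 275))))))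 (XT.nd (nat_lit 468) (nat_lit 0) (nat_lit 0) (XT.nd (nat_lit 234) (nat_lit 0) (nat_lit 0) (XT.nd (nat_lit 78) (nat_lit 0) (nat_lit 0) (XT.lf (nat_lit 0) (nat_lit 10834492542203) (nat_lit 76) (nat_lit 33665690756183) (nat_lit 0) (nat_lit 10834067861002) (nat_lit 1) (nat_lit 5) (nat_lit 2) (nat_lit 4) (nat_lit 1) (nat_lit 4) (nat_lit 422) (nat_lit 324) (nat_lit 274)) (XT.nd (nat_lit 78) (nat_lit 0) (nat_lit 0) (XT.lf (nat_lit 0) (nat_lit 12463215613283) (nat_lit 76) (nat_lit 38707840338476) (nat_lit 0) (nat_lit 12462790880917) (nat_lit 1) (nat_lit 5) (nat_lit 2) (nat_lit 4) (nat_lit 1) (nat_lit 4) (nat_lit 423) (nat_lit 324) (nat_lit 273)) (XT.lf (nat_lit 0) (nat_lit 14336246333399) (nat_lit 76) (nat_lit 44506314088771) (nat_lit 0) (nat_lit 14335821556542) (nat_lit 1) (nat_lit 5) (nat_lit 2) (nat_lit 4) (nat_lit 1) (nat_lit 4) (nat_lit 424) (nat_lit 324) (nat_lit 272)))) (XT.nd (nat_lit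 78) (nat_lit 0) (nat_lit 0) (XT.lf (nat_lit 0) (nat_lit 16490230955771) (nat_lit 76) (nat_lit 51174560406531) (nat_lit 0) (nat_lit 16489806140228) (nat_lit 1) (nat_lit 5) (nat_lit 2) (nat_lit 4) (nat_lit 1) (nat_lit 4) (nat_lit 425) (nat_lit 324) (nat_lit 271)) (XT.nd (nat_lit 78) (nat_lit 0) (nat_lit 0) (XT.lf (nat_lit 0) (nat_lit 18967312657795) (nat_lit 76) (nat_lit 58843044980582) (nat_lit 0) (nat_lit 18966887808610) (nat_lit 1) (nat_lit 5) (nat_lit 2) (nat_lit 4) (nat_lit 1) (nat_lit 4) (nat_lit 426) (nat_lit 324) (nat_lit 270)) (XT.lf (nat_lit 0) (nat_lit 21815956081465) (nat_lit 76) (nat_lit 67661803378677) (nat_lit 0) (nat_lit 21815531203027) (nat_lit 1) (nat_lit 5) (nat_lit 2) (nat_lit 4) (nat_lit 1) (nat_lit 4) (nat_lit 427) (nat_lit 324) (nat_lit 269))))) (XT.nd (nat_lit 234) (nat_lit 0) (nat_lit 0) (XT.nd (nat_lit 78) (nat_lit 0) (nat_lit 0) (XT.lf (nat_lit 0) (nat_lit 25091895554637)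 (nat_lit 76) (nat_lit 77803376525996) (nat_lit 0) (nat_lit 25091470650761) (nat_lit 1) (nat_lit 5) (nat_lit 2) (nat_lit 4) (nat_lit 1) (nat_lit 4) (nat_lit 428) (nat_lit 324) (nat_lit 268)) (XT.nd (nat_lit 78) (nat_lit 0) (nat_lit 0) (XT.lf (nat_lit 0) (nat_lit 28859225545263) (nat_lit 76) (nat_lit 89466186505856) (nat_lit 0) (nat_lit 28858800619267) (nat_lit 1) (nat_lit 5) (nat_lit 2) (nat_lit 4) (nat_lit 1) (nat_lit 4) (nat_lit 429) (nat_lit 324) (nat_lit 267)) (XT.lf (nat_lit 0) (nat_lit 33191654683595) (nat_lit 76) (nat_lit 102878418730907) (nat_lit 0) (nat_lit 33191229738365) (nat_lit 1) (nat_lit 5) (nat_lit 2) (nat_lit 4) (nat_lit 1) (nat_lit 4) (nat_lit 430) (nat_lit 324) (nat_lit 266)))) (XT.nd (nat_lit 156) (nat_lit 0) (nat_lit 0) (XT.nd (nat_lit 78) (nat_lit 0) (nat_lit 0) (XT.lf (nat_lit 0) (nat_lit 38173947887557) (nat_lit 76) (nat_lit 118302486440333) (nat_lit 0) (nat_lit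 38173522925601) (nat_lit 1) (nat_lit 5) (nat_lit 2) (nat_lit 4) (nat_lit 1) (nat_lit 4) (nat_lit 431) (nat_lit 324) (nat_lit 265)) (XT.lf (nat_lit 0) (nat_lit 43903584806792) (nat_lit 76) (nat_lit 136040164871929) (nat_lit 0) (nat_lit 43903159830292) (nat_lit 1) (nat_lit 5) (nat_lit 2) (nat_lit 4) (nat_lit 1) (nat_lit 4) (nat_lit 432) (nat_lit 324) (nat_lit 264))) (XT.nd (nat_lit 78) (nat_lit 0) (nat_lit 0) (XT.lf (nat_lit 0) (nat_lit 50492667033197) (nat_lit 76) (nat_lit 156438495560226) (nat_lit 0) (nat_lit 50492242044050) (nat_lit 1) (nat_lit 5) (nat_lit 2) (nat_lit 4) (nat_lit 1) (nat_lit 4) (nat_lit 433) (nat_lit 324) (nat_lit 263)) (XT.lf (nat_lit 0) (nat_lit 58070111392942) (nat_lit 76) (nat_lit 179896576279560) (nat_lit 0) (nat_lit 58069686392798) (nat_lit 1) (nat_lit 5) (nat_lit 2) (nat_lit 4) (nat_lit 1) (nat_lit 4) (nat_lit 434) (nat_lit 324) (nat_lit 262))))))))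
noncomputable def xc21 : XT := (XT.nd (nat_lit 49686) (nat_lit 0) (nat_lit 0) (XT.nd (nat_lit 48750) (nat_lit 0) (nat_lit 0) (XT.nd (nat_lit 48282) (nat_lit 0) (nat_lit 76) (XT.nd (nat_lit 48048) (nat_lit 0) (nat_lit 152) (XT.nd (nat_lit 78) (nat_lit 0) (nat_lit 0) (XT.lf (nat_lit 0) (nat_lit 66784172232195) (nat_lit 76) (nat_lit 206873369478787) (nat_lit 0) (nat_lit 66783747222488) (nat_lit 1) (nat_lit 5) (nat_lit 2) (nat_lit 4) (nat_lit 1) (nat_lit 4) (nat_lit 435) (nat_lit 324) (nat_lit 261)) (XT.nd (nat_lit 78) (nat_lit 0) (nat_lit 0) (XT.lf (nat_lit 0) (nat_lit 76805342045638) (nat_lit 76) (nat_lit 237896681981371) (nat_lit 0) (nat_lit 76804917027615) (nat_lit 1) (nat_lit 5) (nat_lit 2) (nat_lit 4) (nat_lit 1) (nat_lit 4) (nat_lit 436) (nat_lit 324) (nat_lit 260)) (XT.lf (nat_lit 0) (nat_lit 88329687199185) (nat_lit 76) (nat_lit 273573491640622) (nat_lit 0) (nat_lit 88329262173931)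 (nat_lit 1) (nat_lit 5) (nat_lit 2) (nat_lit 4) (nat_lit 1) (nat_lit 4) (nat_lit 437) (nat_lit 324) (nat_lit 259)))) (XT.nd (nat_lit 78) (nat_lit 0) (nat_lit 0) (XT.lf (nat_lit 0) (nat_lit 1225667409) (nat_lit 152) (nat_lit 20260594632) (nat_lit 0) (nat_lit 1225667409) (nat_lit 3) (nat_lit 5) (nat_lit 5) (nat_lit 4) (nat_lit 3) (nat_lit 4) (nat_lit 370) (nat_lit 325) (nat_lit 325)) (XT.nd (nat_lit 78) (nat_lit 0) (nat_lit 0) (XT.lf (nat_lit 0) (nat_lit 11760612182) (nat_lit 152) (nat_lit 27435433628) (nat_lit 0) (nat_lit 11687287010) (nat_lit 3) (nat_lit 5) (nat_lit 5) (nat_lit 4) (nat_lit 3) (nat_lit 4) (nat_lit 371) (nat_lit 325) (nat_lit 324)) (XT.lf (nat_lit 0) (nat_lit 21699257935) (nat_lit 152) (nat_lit 14015370305) (nat_lit 0) (nat_lit 21562171744) (nat_lit 3) (nat_lit 5) (nat_lit 5) (nat_lit 4) (nat_lit 3) (nat_lit 4) (nat_lit 372) (nat_lit 325) (nat_lit 323))))) (XT.nd (nat_lit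 234) (nat_lit 0) (nat_lit 0) (XT.nd (nat_lit 78) (nat_lit 0) (nat_lit 0) (XT.lf (nat_lit 0) (nat_lit 1720315) (nat_lit 76) (nat_lit 32460074761) (nat_lit 76) (nat_lit 32267544206) (nat_lit 2) (nat_lit 4) (nat_lit 3) (nat_lit 5) (nat_lit 3) (nat_lit 4) (nat_lit 373) (nat_lit 325) (nat_lit 322)) (XT.nd (nat_lit 78) (nat_lit 0) (nat_lit 0) (XT.lf (nat_lit 0) (nat_lit 16344745467) (nat_lit 76) (nat_lit 28590635476) (nat_lit 76) (nat_lit 28349892430) (nat_lit 2) (nat_lit 4) (nat_lit 3) (nat_lit 5) (nat_lit 3) (nat_lit 4) (nat_lit 374) (nat_lit 325) (nat_lit 321)) (XT.lf (nat_lit 0) (nat_lit 33963776073) (nat_lit 76) (nat_lit 24763225594) (nat_lit 76) (nat_lit 24480558643) (nat_lit 2) (nat_lit 4) (nat_lit 3) (nat_lit 5) (nat_lit 3) (nat_lit 4) (nat_lit 375) (nat_lit 325) (nat_lit 320)))) (XT.nd (nat_lit 78) (nat_lit 0) (nat_lit 0) (XT.lf (nat_lit 0) (nat_lit 53203532297) (nat_lit 76) (nat_lit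 20902961008) (nat_lit 76) (nat_lit 20583838487) (nat_lit 2) (nat_lit 4) (nat_lit 3) (nat_lit 5) (nat_lit 3) (nat_lit 4) (nat_lit 376) (nat_lit 325) (nat_lit 319)) (XT.nd (nat_lit 78) (nat_lit 0) (nat_lit 0) (XT.lf (nat_lit 0) (nat_lit 74440444153) (nat_lit 76) (nat_lit 16934314803) (nat_lit 76) (nat_lit 16583491787) (nat_lit 2) (nat_lit 4) (nat_lit 3) (nat_lit 5) (nat_lit 3) (nat_lit 4) (nat_lit 377) (nat_lit 325) (nat_lit 318)) (XT.lf (nat_lit 0) (nat_lit 98090016437) (nat_lit 76) (nat_lit 12779639553) (nat_lit 76) (nat_lit 12401250889) (nat_lit 2) (nat_lit 4) (nat_lit 3) (nat_lit 5) (nat_lit 3) (nat_lit 4) (nat_lit 378) (nat_lit 325) (nat_lit 317)))))) (XT.nd (nat_lit 468) (nat_lit 0) (nat_lit 0) (XT.nd (nat_lit 234) (nat_lit 0) (nat_lit 0) (XT.nd (nat_lit 78) (nat_lit 76) (nat_lit 0) (XT.lf (nat_lit 0) (nat_lit 124614958173) (nat_lit 76) (nat_lit 8357648133) (nat_lit 76) (nat_lit 7955289341)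 (nat_lit 2) (nat_lit 4) (nat_lit 3) (nat_lit 5) (nat_lit 3) (nat_lit 4) (nat_lit 379) (nat_lit 325) (nat_lit 316)) (XT.nd (nat_lit 78) (nat_lit 76) (nat_lit 0) (XT.lf (nat_lit 0) (nat_lit 154534235612) (nat_lit 76) (nat_lit 3581823321) (nat_lit 76) (nat_lit 3158620938) (nat_lit 2) (nat_lit 4) (nat_lit 3) (nat_lit 5) (nat_lit 3) (nat_lit 4) (nat_lit 380) (nat_lit 325) (nat_lit 315)) (XT.lf (nat_lit 0) (nat_lit 2142483708) (nat_lit 76) (nat_lit 180758415418) (nat_lit 0) (nat_lit 1758720887) (nat_lit 1) (nat_lit 5) (nat_lit 2) (nat_lit 4) (nat_lit 1) (nat_lit 4) (nat_lit 381) (nat_lit 325) (nat_lit 314)))) (XT.nd (nat_lit 78) (nat_lit 0) (nat_lit 0) (XT.lf (nat_lit 0) (nat_lit 8205038530) (nat_lit 76) (nat_lit 195473684305) (nat_lit 0) (nat_lit 7807570711) (nat_lit 1) (nat_lit 5) (nat_lit 2) (nat_lit 4) (nat_lit 1) (nat_lit 4) (nat_lit 382) (nat_lit 325) (nat_lit 313)) (XT.nd (nat_lit 78)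 (nat_lit 0) (nat_lit 0) (XT.lf (nat_lit 0) (nat_lit 14959571809) (nat_lit 76) (nat_lit 212859823907) (nat_lit 0) (nat_lit 14550186599) (nat_lit 1) (nat_lit 5) (nat_lit 2) (nat_lit 4) (nat_lit 1) (nat_lit 4) (nat_lit 383) (nat_lit 325) (nat_lit 312)) (XT.lf (nat_lit 0) (nat_lit 22538237456) (nat_lit 76) (nat_lit 233256997826) (nat_lit 0) (nat_lit 22118489298) (nat_lit 1) (nat_lit 5) (nat_lit 2) (nat_lit 4) (nat_lit 1) (nat_lit 4) (nat_lit 384) (nat_lit 325) (nat_lit 311))))) (XT.nd (nat_lit 234) (nat_lit 0) (nat_lit 0) (XT.nd (nat_lit 78) (nat_lit 0) (nat_lit 0) (XT.lf (nat_lit 0) (nat_lit 31089313712) (nat_lit 76) (nat_lit 257064281202) (nat_lit 0) (nat_lit 30660554295) (nat_lit 1) (nat_lit 5) (nat_lit 2) (nat_lit 4) (nat_lit 1) (nat_lit 4) (nat_lit 385) (nat_lit 325) (nat_lit 310)) (XT.nd (nat_lit 78) (nat_lit 0) (nat_lit 0) (XT.lf (nat_lit 0) (nat_lit 40780104243) (nat_lit 76) (nat_lit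 284747468711) (nat_lit 0) (nat_lit 40343508948) (nat_lit 1) (nat_lit 5) (nat_lit 2) (nat_lit 4) (nat_lit 1) (nat_lit 4) (nat_lit 386) (nat_lit 325) (nat_lit 309)) (XT.lf (nat_lit 0) (nat_lit 51800211472) (nat_lit 76) (nat_lit 316848187934) (nat_lit 0) (nat_lit 51356802370) (nat_lit 1) (nat_lit 5) (nat_lit 2) (nat_lit 4) (nat_lit 1) (nat_lit 4) (nat_lit 387) (nat_lit 325) (nat_lit 308)))) (XT.nd (nat_lit 78) (nat_lit 0) (nat_lit 0) (XT.lf (nat_lit 0) (nat_lit 64365246193) (nat_lit 76) (nat_lit 353994496421) (nat_lit 0) (nat_lit 63915912042) (nat_lit 1) (nat_lit 5) (nat_lit 2) (nat_lit 4) (nat_lit 1) (nat_lit 4) (nat_lit 388) (nat_lit 325) (nat_lit 307)) (XT.nd (nat_lit 78) (nat_lit 0) (nat_lit 0) (XT.lf (nat_lit 0) (nat_lit 78721046041) (nat_lit 76) (nat_lit 396913169774) (nat_lit 0) (nat_lit 78266559674) (nat_lit 1) (nat_lit 5) (nat_lit 2) (nat_lit 4) (nat_lit 1) (nat_lit 4) (nat_lit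 389) (nat_lit 325) (nat_lit 306)) (XT.lf (nat_lit 0) (nat_lit 95148485362) (nat_lit 76) (nat_lit 446443921166) (nat_lit 0) (nat_lit 94689518806) (nat_lit 1) (nat_lit 5) (nat_lit 2) (nat_lit 4) (nat_lit 1) (nat_lit 4) (nat_lit 390) (nat_lit 325) (nat_lit 305))))))) (XT.nd (nat_lit 936) (nat_lit 0) (nat_lit 0) (XT.nd (nat_lit 468) (nat_lit 0) (nat_lit 0) (XT.nd (nat_lit 234) (nat_lit 0) (nat_lit 0) (XT.nd (nat_lit 78) (nat_lit 0) (nat_lit 0) (XT.lf (nat_lit 0) (nat_lit 113968970578) (nat_lit 76) (nat_lit 503555830516) (nat_lit 0) (nat_lit 113506108205) (nat_lit 1) (nat_lit 5) (nat_lit 2) (nat_lit 4) (nat_lit 1) (nat_lit 4) (nat_lit 391) (nat_lit 325) (nat_lit 304)) (XT.nd (nat_lit 78) (nat_lit 0) (nat_lit 0) (XT.lf (nat_lit 0) (nat_lit 135550728571) (nat_lit 76) (nat_lit 569366304746) (nat_lit 0) (nat_lit 135084478533) (nat_lit 1) (nat_lit 5) (nat_lit 2) (nat_lit 4) (nat_lit 1) (nat_lit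 4) (nat_lit 392) (nat_lit 325) (nat_lit 303)) (XT.lf (nat_lit 0) (nat_lit 160316011131) (nat_lit 76) (nat_lit 645162940091) (nat_lit 0) (nat_lit 159846815296) (nat_lit 1) (nat_lit 5) (nat_lit 2) (nat_lit 4) (nat_lit 1) (nat_lit 4) (nat_lit 393) (nat_lit 325) (nat_lit 302)))) (XT.nd (nat_lit 78) (nat_lit 0) (nat_lit 0) (XT.lf (nat_lit 0) (nat_lit 188749356393) (nat_lit 76) (nat_lit 732428714198) (nat_lit 0) (nat_lit 188277598996) (nat_lit 1) (nat_lit 5) (nat_lit 2) (nat_lit 4) (nat_lit 1) (nat_lit 4) (nat_lit 394) (nat_lit 325) (nat_lit 301)) (XT.nd (nat_lit 78) (nat_lit 0) (nat_lit 0) (XT.lf (nat_lit 0) (nat_lit 221407068939) (nat_lit 76) (nat_lit 832871000911) (nat_lit 0) (nat_lit 220933084096) (nat_lit 1) (nat_lit 5) (nat_lit 2) (nat_lit 4) (nat_lit 1) (nat_lit 4) (nat_lit 395) (nat_lit 325) (nat_lit 300)) (XT.lf (nat_lit 0) (nat_lit 258928104014) (nat_lit 76) (nat_lit 948454975402)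 (nat_lit 0) (nat_lit 258452182262) (nat_lit 1) (nat_lit 5) (nat_lit 2) (nat_lit 4) (nat_lit 1) (nat_lit 4) (nat_lit 396) (nat_lit 325) (nat_lit 299))))) (XT.nd (nat_lit 234) (nat_lit 0) (nat_lit 0) (XT.nd (nat_lit 78) (nat_lit 0) (nat_lit 0) (XT.lf (nat_lit 0) (nat_lit 302046568826) (nat_lit 76) (nat_lit 1081442063260) (nat_lit 0) (nat_lit 301568962805) (nat_lit 1) (nat_lit 5) (nat_lit 2) (nat_lit 4) (nat_lit 1) (nat_lit 4) (nat_lit 397) (nat_lit 325) (nat_lit 298)) (XT.nd (nat_lit 78) (nat_lit 0) (nat_lit 0) (XT.lf (nat_lit 0) (nat_lit 351606085513) (nat_lit 76) (nat_lit 1234434185769) (nat_lit 0) (nat_lit 351127014911) (nat_lit 1) (nat_lit 5) (nat_lit 2) (nat_lit 4) (nat_lit 1) (nat_lit 4) (nat_lit 398) (nat_lit 325) (nat_lit 297)) (XT.lf (nat_lit 0) (nat_lit 408576296793) (nat_lit 76) (nat_lit 1410424667066) (nat_lit 0) (nat_lit 408095952641) (nat_lit 1) (nat_lit 5) (nat_lit 2) (nat_lit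 4) (nat_lit 1) (nat_lit 4) (nat_lit 399) (nat_lit 325) (nat_lit 296)))) (XT.nd (nat_lit 78) (nat_lit 0) (nat_lit 0) (XT.lf (nat_lit 0) (nat_lit 474071837234) (nat_lit 76) (nat_lit 1612856799175) (nat_lit 0) (nat_lit 473590385648) (nat_lit 1) (nat_lit 5) (nat_lit 2) (nat_lit 4) (nat_lit 1) (nat_lit 4) (nat_lit 400) (nat_lit 325) (nat_lit 295)) (XT.nd (nat_lit 78) (nat_lit 0) (nat_lit 0) (XT.lf (nat_lit 0) (nat_lit 549374141323) (nat_lit 76) (nat_lit 1845691210768) (nat_lit 0) (nat_lit 548891726751) (nat_lit 1) (nat_lit 5) (nat_lit 2) (nat_lit 4) (nat_lit 1) (nat_lit 4) (nat_lit 401) (nat_lit 325) (nat_lit 294)) (XT.lf (nat_lit 0) (nat_lit 635956515009) (nat_lit 76) (nat_lit 2113483357724) (nat_lit 0) (nat_lit 635473263059) (nat_lit 1) (nat_lit 5) (nat_lit 2) (nat_lit 4) (nat_lit 1) (nat_lit 4) (nat_lit 402) (nat_lit 325) (nat_lit 293)))))) (XT.nd (nat_lit 468) (nat_lit 0) (nat_lit 0) (XT.nd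 (nat_lit 234) (nat_lit 0) (nat_lit 0) (XT.nd (nat_lit 78) (nat_lit 0) (nat_lit 0) (XT.lf (nat_lit 0) (nat_lit 735512961257) (nat_lit 76) (nat_lit 2421472651614) (nat_lit 0) (nat_lit 735028981150) (nat_lit 1) (nat_lit 5) (nat_lit 2) (nat_lit 4) (nat_lit 1) (nat_lit 4) (nat_lit 403) (nat_lit 325) (nat_lit 292)) (XT.nd (nat_lit 78) (nat_lit 0) (nat_lit 0) (XT.lf (nat_lit 0) (nat_lit 849991323579) (nat_lit 76) (nat_lit 2775684969928) (nat_lit 0) (nat_lit 849506710294) (nat_lit 1) (nat_lit 5) (nat_lit 2) (nat_lit 4) (nat_lit 1) (nat_lit 4) (nat_lit 404) (nat_lit 325) (nat_lit 291)) (XT.lf (nat_lit 0) (nat_lit 981631396022) (nat_lit 76) (nat_lit 3183050553676) (nat_lit 0) (nat_lit 981146232146) (nat_lit 1) (nat_lit 5) (nat_lit 2) (nat_lit 4) (nat_lit 1) (nat_lit 4) (nat_lit 405) (nat_lit 325) (nat_lit 290)))) (XT.nd (nat_lit 78) (nat_lit 0) (nat_lit 0) (XT.lf (nat_lit 0) (nat_lit 1133008745219)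 (nat_lit 76) (nat_lit 3651539599061) (nat_lit 0) (nat_lit 1132523102569) (nat_lit 1) (nat_lit 5) (nat_lit 2) (nat_lit 4) (nat_lit 1) (nat_lit 4) (nat_lit 406) (nat_lit 325) (nat_lit 289)) (XT.nd (nat_lit 78) (nat_lit 0) (nat_lit 0) (XT.lf (nat_lit 0) (nat_lit 1307085101916) (nat_lit 76) (nat_lit 4190318196102) (nat_lit 0) (nat_lit 1306599042940) (nat_lit 1) (nat_lit 5) (nat_lit 2) (nat_lit 4) (nat_lit 1) (nat_lit 4) (nat_lit 407) (nat_lit 325) (nat_lit 288)) (XT.lf (nat_lit 0) (nat_lit 1507266307875) (nat_lit 76) (nat_lit 4809927665175) (nat_lit 0) (nat_lit 1506779886877) (nat_lit 1) (nat_lit 5) (nat_lit 2) (nat_lit 4) (nat_lit 1) (nat_lit 4) (nat_lit 408) (nat_lit 325) (nat_lit 287))))) (XT.nd (nat_lit 234) (nat_lit 0) (nat_lit 0) (XT.nd (nat_lit 78) (nat_lit 0) (nat_lit 0) (XT.lf (nat_lit 0) (nat_lit 1737468951907) (nat_lit 76) (nat_lit 5522490800242) (nat_lit 0) (nat_lit 1736982216107)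 (nat_lit 1) (nat_lit 5) (nat_lit 2) (nat_lit 4) (nat_lit 1) (nat_lit 4) (nat_lit 409) (nat_lit 325) (nat_lit 286)) (XT.nd (nat_lit 78) (nat_lit 0) (nat_lit 0) (XT.lf (nat_lit 0) (nat_lit 2002196998787) (nat_lit 76) (nat_lit 6341949053944) (nat_lit 0) (nat_lit 2001709989246) (nat_lit 1) (nat_lit 5) (nat_lit 2) (nat_lit 4) (nat_lit 1) (nat_lit 4) (nat_lit 410) (nat_lit 325) (nat_lit 285)) (XT.lf (nat_lit 0) (nat_lit 2306629910302) (nat_lit 76) (nat_lit 7284335305158) (nat_lit 0) (nat_lit 2306142662726) (nat_lit 1) (nat_lit 5) (nat_lit 2) (nat_lit 4) (nat_lit 1) (nat_lit 4) (nat_lit 411) (nat_lit 325) (nat_lit 284)))) (XT.nd (nat_lit 156) (nat_lit 0) (nat_lit 0) (XT.nd (nat_lit 78) (nat_lit 0) (nat_lit 0) (XT.lf (nat_lit 0) (nat_lit 2656723982548) (nat_lit 76) (nat_lit 8368087545757) (nat_lit 0) (nat_lit 2656236527984) (nat_lit 1) (nat_lit 5) (nat_lit 2) (nat_lit 4) (nat_lit 1) (nat_lit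 4) (nat_lit 412) (nat_lit 325) (nat_lit 283)) (XT.lf (nat_lit 0) (nat_lit 3059328882154) (nat_lit 76) (nat_lit 9614409623925) (nat_lit 0) (nat_lit 3058841247601) (nat_lit 1) (nat_lit 5) (nat_lit 2) (nat_lit 4) (nat_lit 1) (nat_lit 4) (nat_lit 413) (nat_lit 325) (nat_lit 282))) (XT.nd (nat_lit 78) (nat_lit 0) (nat_lit 0) (XT.lf (nat_lit 0) (nat_lit 3522321661504) (nat_lit 76) (nat_lit 11047686102061) (nat_lit 0) (nat_lit 3521833870439) (nat_lit 1) (nat_lit 5) (nat_lit 2) (nat_lit 4) (nat_lit 1) (nat_lit 4) (nat_lit 414) (nat_lit 325) (nat_lit 281)) (XT.lf (nat_lit 0) (nat_lit 4054760874977) (nat_lit 76) (nat_lit 12695959346042) (nat_lit 0) (nat_lit 4054272947815) (nat_lit 1) (nat_lit 5) (nat_lit 2) (nat_lit 4) (nat_lit 1) (nat_lit 4) (nat_lit 415) (nat_lit 325) (nat_lit 280))))))))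
noncomputable def xc22 : XT := (XT.nd (nat_lit 1872) (nat_lit 0) (nat_lit 0) (XT.nd (nat_lit 936) (nat_lit 0) (nat_lit 0) (XT.nd (nat_lit 468) (nat_lit 0) (nat_lit 0) (XT.nd (nat_lit 234) (nat_lit 0) (nat_lit 0) (XT.nd (nat_lit 78) (nat_lit 0) (nat_lit 0) (XT.lf (nat_lit 0) (nat_lit 4667063811532) (nat_lit 76) (nat_lit 14591478180208) (nat_lit 0) (nat_lit 4666575766024) (nat_lit 1) (nat_lit 5) (nat_lit 2) (nat_lit 4) (nat_lit 1) (nat_lit 4) (nat_lit 416) (nat_lit 325) (nat_lit 279)) (XT.nd (nat_lit 78) (nat_lit 0) (nat_lit 0) (XT.lf (nat_lit 0) (nat_lit 5371210311233) (nat_lit 76) (nat_lit 16771328842616) (nat_lit 0) (nat_lit 5370722162816) (nat_lit 1) (nat_lit 5) (nat_lit 2) (nat_lit 4) (nat_lit 1) (nat_lit 4) (nat_lit 417) (nat_lit 325) (nat_lit 278)) (XT.lf (nat_lit 0) (nat_lit 6180977153421) (nat_lit 76) (nat_lit 19278160585359) (nat_lit 0) (nat_lit 6180488915517) (nat_lit 1) (nat_lit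 5) (nat_lit 2) (nat_lit 4) (nat_lit 1) (nat_lit 4) (nat_lit 418) (nat_lit 325) (nat_lit 277)))) (XT.nd (nat_lit 78) (nat_lit 0) (nat_lit 0) (XT.lf (nat_lit 0) (nat_lit 7112207602399) (nat_lit 76) (nat_lit 22161020116447) (nat_lit 0) (nat_lit 7111719286682) (nat_lit 1) (nat_lit 5) (nat_lit 2) (nat_lit 4) (nat_lit 1) (nat_lit 4) (nat_lit 419) (nat_lit 325) (nat_lit 276)) (XT.nd (nat_lit 78) (nat_lit 0) (nat_lit 0) (XT.lf (nat_lit 0) (nat_lit 8183121384344) (nat_lit 76) (nat_lit 25476311209313) (nat_lit 0) (nat_lit 8182633000962) (nat_lit 1) (nat_lit 5) (nat_lit 2) (nat_lit 4) (nat_lit 1) (nat_lit 4) (nat_lit 420) (nat_lit 325) (nat_lit 275)) (XT.lf (nat_lit 0) (nat_lit 9414671160207) (nat_lit 76) (nat_lit 29288898254905) (nat_lit 0) (nat_lit 9414182717986) (nat_lit 1) (nat_lit 5) (nat_lit 2) (nat_lit 4) (nat_lit 1) (nat_lit 4) (nat_lit 421) (nat_lit 325) (nat_lit 274))))) (XT.nd (nat_lit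 234) (nat_lit 0) (nat_lit 0) (XT.nd (nat_lit 78) (nat_lit 0) (nat_lit 0) (XT.lf (nat_lit 0) (nat_lit 10830952469080) (nat_lit 76) (nat_lit 33673375347593) (nat_lit 0) (nat_lit 10830463975695) (nat_lit 1) (nat_lit 5) (nat_lit 2) (nat_lit 4) (nat_lit 1) (nat_lit 4) (nat_lit 422) (nat_lit 325) (nat_lit 273)) (XT.nd (nat_lit 78) (nat_lit 0) (nat_lit 0) (XT.lf (nat_lit 0) (nat_lit 12459675162660) (nat_lit 76) (nat_lit 38715525734843) (nat_lit 0) (nat_lit 12459186624784) (nat_lit 1) (nat_lit 5) (nat_lit 2) (nat_lit 4) (nat_lit 1) (nat_lit 4) (nat_lit 423) (nat_lit 325) (nat_lit 272)) (XT.lf (nat_lit 0) (nat_lit 14332705554515) (nat_lit 76) (nat_lit 44514000185102) (nat_lit 0) (nat_lit 14332216977952) (nat_lit 1) (nat_lit 5) (nat_lit 2) (nat_lit 4) (nat_lit 1) (nat_lit 4) (nat_lit 424) (nat_lit 325) (nat_lit 271)))) (XT.nd (nat_lit 78) (nat_lit 0) (nat_lit 0) (XT.lf (nat_lit 0) (nat_lit 16486689891443)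 (nat_lit 76) (nat_lit 51182247111526) (nat_lit 0) (nat_lit 16486201281239) (nat_lit 1) (nat_lit 5) (nat_lit 2) (nat_lit 4) (nat_lit 1) (nat_lit 4) (nat_lit 425) (nat_lit 325) (nat_lit 270)) (XT.nd (nat_lit 78) (nat_lit 0) (nat_lit 0) (XT.lf (nat_lit 0) (nat_lit 18963771345254) (nat_lit 76) (nat_lit 58850732214849) (nat_lit 0) (nat_lit 18963282705797) (nat_lit 1) (nat_lit 5) (nat_lit 2) (nat_lit 4) (nat_lit 1) (nat_lit 4) (nat_lit 426) (nat_lit 325) (nat_lit 269)) (XT.lf (nat_lit 0) (nat_lit 21812414553088) (nat_lit 76) (nat_lit 67669491073181) (nat_lit 0) (nat_lit 21811925888193) (nat_lit 1) (nat_lit 5) (nat_lit 2) (nat_lit 4) (nat_lit 1) (nat_lit 4) (nat_lit 427) (nat_lit 325) (nat_lit 268)))))) (XT.nd (nat_lit 468) (nat_lit 0) (nat_lit 0) (XT.nd (nat_lit 234) (nat_lit 0) (nat_lit 0) (XT.nd (nat_lit 78) (nat_lit 0) (nat_lit 0) (XT.lf (nat_lit 0) (nat_lit 25088353838575) (nat_lit 76)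 (nat_lit 77811064620706) (nat_lit 0) (nat_lit 25087865151560) (nat_lit 1) (nat_lit 5) (nat_lit 2) (nat_lit 4) (nat_lit 1) (nat_lit 4) (nat_lit 428) (nat_lit 325) (nat_lit 267)) (XT.nd (nat_lit 78) (nat_lit 0) (nat_lit 0) (XT.lf (nat_lit 0) (nat_lit 28855683665997) (nat_lit 76) (nat_lit 89473874948572) (nat_lit 0) (nat_lit 28855194959748) (nat_lit 1) (nat_lit 5) (nat_lit 2) (nat_lit 4) (nat_lit 1) (nat_lit 4) (nat_lit 429) (nat_lit 325) (nat_lit 266)) (XT.lf (nat_lit 0) (nat_lit 33188112662413) (nat_lit 76) (nat_lit 102886107476235) (nat_lit 0) (nat_lit 33187623939439) (nat_lit 1) (nat_lit 5) (nat_lit 2) (nat_lit 4) (nat_lit 1) (nat_lit 4) (nat_lit 430) (nat_lit 325) (nat_lit 265)))) (XT.nd (nat_lit 78) (nat_lit 0) (nat_lit 0) (XT.lf (nat_lit 0) (nat_lit 38170405742970) (nat_lit 76) (nat_lit 118310175448804) (nat_lit 0) (nat_lit 38169917005451) (nat_lit 1) (nat_lit 5) (nat_lit 2) (nat_lit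 4) (nat_lit 1) (nat_lit 4) (nat_lit 431) (nat_lit 325) (nat_lit 264)) (XT.nd (nat_lit 78) (nat_lit 0) (nat_lit 0) (XT.lf (nat_lit 0) (nat_lit 43900042554895) (nat_lit 76) (nat_lit 136047854109219) (nat_lit 0) (nat_lit 43899553804730) (nat_lit 1) (nat_lit 5) (nat_lit 2) (nat_lit 4) (nat_lit 1) (nat_lit 4) (nat_lit 432) (nat_lit 325) (nat_lit 263)) (XT.lf (nat_lit 0) (nat_lit 50489124687989) (nat_lit 76) (nat_lit 156446184996490) (nat_lit 0) (nat_lit 50488635926825) (nat_lit 1) (nat_lit 5) (nat_lit 2) (nat_lit 4) (nat_lit 1) (nat_lit 4) (nat_lit 433) (nat_lit 325) (nat_lit 262))))) (XT.nd (nat_lit 234) (nat_lit 0) (nat_lit 0) (XT.nd (nat_lit 78) (nat_lit 0) (nat_lit 0) (XT.lf (nat_lit 0) (nat_lit 58066568966592) (nat_lit 76) (nat_lit 179904265888843) (nat_lit 0) (nat_lit 58066080195866) (nat_lit 1) (nat_lit 5) (nat_lit 2) (nat_lit 4) (nat_lit 1) (nat_lit 4) (nat_lit 434) (nat_lit 325) (nat_lit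 261)) (XT.nd (nat_lit 78) (nat_lit 0) (nat_lit 0) (XT.lf (nat_lit 0) (nat_lit 66780629735288) (nat_lit 76) (nat_lit 206881059238522) (nat_lit 0) (nat_lit 66780140956247) (nat_lit 1) (nat_lit 5) (nat_lit 2) (nat_lit 4) (nat_lit 1) (nat_lit 4) (nat_lit 435) (nat_lit 325) (nat_lit 260)) (XT.lf (nat_lit 0) (nat_lit 76801799487377) (nat_lit 76) (nat_lit 237904371871934) (nat_lit 0) (nat_lit 76801310701104) (nat_lit 1) (nat_lit 5) (nat_lit 2) (nat_lit 4) (nat_lit 1) (nat_lit 4) (nat_lit 436) (nat_lit 325) (nat_lit 259)))) (XT.nd (nat_lit 78) (nat_lit 0) (nat_lit 0) (XT.lf (nat_lit 0) (nat_lit 88326144587573) (nat_lit 76) (nat_lit 273581181644949) (nat_lit 0) (nat_lit 88325655795012) (nat_lit 1) (nat_lit 5) (nat_lit 2) (nat_lit 4) (nat_lit 1) (nat_lit 4) (nat_lit 437) (nat_lit 325) (nat_lit 258)) (XT.nd (nat_lit 78) (nat_lit 0) (nat_lit 0) (XT.lf (nat_lit 0) (nat_lit 101579141353053) (nat_lit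 76) (nat_lit 314609513096605) (nat_lit 0) (nat_lit 101578652555026) (nat_lit 1) (nat_lit 5) (nat_lit 2) (nat_lit 4) (nat_lit 1) (nat_lit 4) (nat_lit 438) (nat_lit 325) (nat_lit 257)) (XT.lf (nat_lit 0) (nat_lit 116820087546622) (nat_lit 76) (nat_lit 361792094450955) (nat_lit 0) (nat_lit 116819598743840) (nat_lit 1) (nat_lit 5) (nat_lit 2) (nat_lit 4) (nat_lit 1) (nat_lit 4) (nat_lit 439) (nat_lit 325) (nat_lit 256))))))) (XT.nd (nat_lit 48282) (nat_lit 0) (nat_lit 0) (XT.nd (nat_lit 47814) (nat_lit 0) (nat_lit 76) (XT.nd (nat_lit 47580) (nat_lit 0) (nat_lit 152) (XT.nd (nat_lit 78) (nat_lit 0) (nat_lit 0) (XT.lf (nat_lit 0) (nat_lit 134347175593806) (nat_lit 76) (nat_lit 416052063169281) (nat_lit 0) (nat_lit 134346686786889) (nat_lit 1) (nat_lit 5) (nat_lit 2) (nat_lit 4) (nat_lit 1) (nat_lit 4) (nat_lit 440) (nat_lit 325) (nat_lit 255)) (XT.nd (nat_lit 47424) (nat_lit 0) (nat_lit 304)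 (XT.lf (nat_lit 0) (nat_lit 154503326782483) (nat_lit 76) (nat_lit 478451027335203) (nat_lit 0) (nat_lit 154502837971971) (nat_lit 1) (nat_lit 5) (nat_lit 2) (nat_lit 4) (nat_lit 1) (nat_lit 4) (nat_lit 441) (nat_lit 325) (nat_lit 254)) (XT.lf (nat_lit 0) (nat_lit 4442117589) (nat_lit 76) (nat_lit 6893147055) (nat_lit 76) (nat_lit 6893147055) (nat_lit 5) (nat_lit 4) (nat_lit 6) (nat_lit 5) (nat_lit 6) (nat_lit 4) (nat_lit 368) (nat_lit 326) (nat_lit 326)))) (XT.nd (nat_lit 78) (nat_lit 152) (nat_lit 0) (XT.lf (nat_lit 0) (nat_lit 28471060841) (nat_lit 76) (nat_lit 6127556930) (nat_lit 76) (nat_lit 6030584391) (nat_lit 5) (nat_lit 4) (nat_lit 6) (nat_lit 5) (nat_lit 6) (nat_lit 4) (nat_lit 369) (nat_lit 326) (nat_lit 325)) (XT.nd (nat_lit 78) (nat_lit 0) (nat_lit 0) (XT.lf (nat_lit 0) (nat_lit 2125390535) (nat_lit 152) (nat_lit 41392277175) (nat_lit 0) (nat_lit 1967741416) (nat_lit 3)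 (nat_lit 5) (nat_lit 5) (nat_lit 4) (nat_lit 3) (nat_lit 4) (nat_lit 370) (nat_lit 326) (nat_lit 324)) (XT.lf (nat_lit 0) (nat_lit 11077912915) (nat_lit 152) (nat_lit 29063989287) (nat_lit 0) (nat_lit 10856502776) (nat_lit 3) (nat_lit 5) (nat_lit 5) (nat_lit 4) (nat_lit 3) (nat_lit 4) (nat_lit 371) (nat_lit 326) (nat_lit 323))))) (XT.nd (nat_lit 234) (nat_lit 0) (nat_lit 0) (XT.nd (nat_lit 78) (nat_lit 76) (nat_lit 0) (XT.lf (nat_lit 0) (nat_lit 20706336943) (nat_lit 152) (nat_lit 16302593570) (nat_lit 0) (nat_lit 20429482440) (nat_lit 3) (nat_lit 5) (nat_lit 5) (nat_lit 4) (nat_lit 3) (nat_lit 4) (nat_lit 372) (nat_lit 326) (nat_lit 322)) (XT.nd (nat_lit 78) (nat_lit 76) (nat_lit 0) (XT.lf (nat_lit 0) (nat_lit 31199044828) (nat_lit 152) (nat_lit 2858410545) (nat_lit 0) (nat_lit 30873977834) (nat_lit 3) (nat_lit 5) (nat_lit 5) (nat_lit 4) (nat_lit 3) (nat_lit 4) (nat_lit 373) (nat_lit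 326) (nat_lit 321)) (XT.lf (nat_lit 0) (nat_lit 12658549791) (nat_lit 76) (nat_lit 30626942443) (nat_lit 76) (nat_lit 30259951544) (nat_lit 2) (nat_lit 4) (nat_lit 3) (nat_lit 5) (nat_lit 3) (nat_lit 4) (nat_lit 374) (nat_lit 326) (nat_lit 320)))) (XT.nd (nat_lit 78) (nat_lit 0) (nat_lit 0) (XT.lf (nat_lit 0) (nat_lit 29802171573) (nat_lit 76) (nat_lit 27051279899) (nat_lit 76) (nat_lit 26647833431) (nat_lit 2) (nat_lit 4) (nat_lit 3) (nat_lit 5) (nat_lit 3) (nat_lit 4) (nat_lit 375) (nat_lit 326) (nat_lit 319)) (XT.nd (nat_lit 78) (nat_lit 0) (nat_lit 0) (XT.lf (nat_lit 0) (nat_lit 48628528819) (nat_lit 76) (nat_lit 23409926043) (nat_lit 76) (nat_lit 22974779080) (nat_lit 2) (nat_lit 4) (nat_lit 3) (nat_lit 5) (nat_lit 3) (nat_lit 4) (nat_lit 376) (nat_lit 326) (nat_lit 318)) (XT.lf (nat_lit 0) (nat_lit 69505963303) (nat_lit 76) (nat_lit 19631636994) (nat_lit 76) (nat_lit 19168924383)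 (nat_lit 2) (nat_lit 4) (nat_lit 3) (nat_lit 5) (nat_lit 3) (nat_lit 4) (nat_lit 377) (nat_lit 326) (nat_lit 317)))))) (XT.nd (nat_lit 468) (nat_lit 0) (nat_lit 0) (XT.nd (nat_lit 234) (nat_lit 76) (nat_lit 0) (XT.nd (nat_lit 78) (nat_lit 0) (nat_lit 0) (XT.lf (nat_lit 0) (nat_lit 92842946568) (nat_lit 76) (nat_lit 15642489706) (nat_lit 76) (nat_lit 15155806966) (nat_lit 2) (nat_lit 4) (nat_lit 3) (nat_lit 5) (nat_lit 3) (nat_lit 4) (nat_lit 378) (nat_lit 326) (nat_lit 316)) (XT.nd (nat_lit 78) (nat_lit 0) (nat_lit 0) (XT.lf (nat_lit 0) (nat_lit 119096071766) (nat_lit 76) (nat_lit 11364435645) (nat_lit 76) (nat_lit 10856909314) (nat_lit 2) (nat_lit 4) (nat_lit 3) (nat_lit 5) (nat_lit 3) (nat_lit 4) (nat_lit 379) (nat_lit 326) (nat_lit 315)) (XT.lf (nat_lit 0) (nat_lit 148778986997) (nat_lit 76) (nat_lit 6713773752) (nat_lit 76) (nat_lit 6188122561) (nat_lit 2) (nat_lit 4) (nat_lit 3)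 (nat_lit 5) (nat_lit 3) (nat_lit 4) (nat_lit 380) (nat_lit 326) (nat_lit 314)))) (XT.nd (nat_lit 78) (nat_lit 76) (nat_lit 0) (XT.lf (nat_lit 0) (nat_lit 182472444952) (nat_lit 76) (nat_lit 1599512818) (nat_lit 76) (nat_lit 1058100878) (nat_lit 2) (nat_lit 4) (nat_lit 3) (nat_lit 5) (nat_lit 3) (nat_lit 4) (nat_lit 381) (nat_lit 326) (nat_lit 313)) (XT.nd (nat_lit 78) (nat_lit 0) (nat_lit 0) (XT.lf (nat_lit 0) (nat_lit 4804749457) (nat_lit 76) (nat_lit 202880602920) (nat_lit 0) (nat_lit 4322039075) (nat_lit 1) (nat_lit 5) (nat_lit 2) (nat_lit 4) (nat_lit 1) (nat_lit 4) (nat_lit 382) (nat_lit 326) (nat_lit 312)) (XT.lf (nat_lit 0) (nat_lit 11471353608) (nat_lit 76) (nat_lit 220454237116) (nat_lit 0) (nat_lit 10978280278) (nat_lit 1) (nat_lit 5) (nat_lit 2) (nat_lit 4) (nat_lit 1) (nat_lit 4) (nat_lit 383) (nat_lit 326) (nat_lit 311))))) (XT.nd (nat_lit 234) (nat_lit 0) (nat_lit 0) (XT.nd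 (nat_lit 78) (nat_lit 0) (nat_lit 0) (XT.lf (nat_lit 0) (nat_lit 18973559145) (nat_lit 76) (nat_lit 241014449811) (nat_lit 0) (nat_lit 18471474555) (nat_lit 1) (nat_lit 5) (nat_lit 2) (nat_lit 4) (nat_lit 1) (nat_lit 4) (nat_lit 384) (nat_lit 326) (nat_lit 310)) (XT.nd (nat_lit 78) (nat_lit 0) (nat_lit 0) (XT.lf (nat_lit 0) (nat_lit 27458148348) (nat_lit 76) (nat_lit 264963506037) (nat_lit 0) (nat_lit 26948227881) (nat_lit 1) (nat_lit 5) (nat_lit 2) (nat_lit 4) (nat_lit 1) (nat_lit 4) (nat_lit 385) (nat_lit 326) (nat_lit 309)) (XT.lf (nat_lit 0) (nat_lit 37091124050) (nat_lit 76) (nat_lit 292769974284) (nat_lit 0) (nat_lit 36574389776) (nat_lit 1) (nat_lit 5) (nat_lit 2) (nat_lit 4) (nat_lit 1) (nat_lit 4) (nat_lit 386) (nat_lit 326) (nat_lit 308)))) (XT.nd (nat_lit 156) (nat_lit 0) (nat_lit 0) (XT.nd (nat_lit 78) (nat_lit 0) (nat_lit 0) (XT.lf (nat_lit 0) (nat_lit 48060957515) (nat_lit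 76) (nat_lit 324977894150) (nat_lit 0) (nat_lit 47538298192) (nat_lit 1) (nat_lit 5) (nat_lit 2) (nat_lit 4) (nat_lit 1) (nat_lit 4) (nat_lit 387) (nat_lit 326) (nat_lit 307)) (XT.lf (nat_lit 0) (nat_lit 60582275919) (nat_lit 76) (nat_lit 362217420587) (nat_lit 0) (nat_lit 60054464380) (nat_lit 1) (nat_lit 5) (nat_lit 2) (nat_lit 4) (nat_lit 1) (nat_lit 4) (nat_lit 388) (nat_lit 326) (nat_lit 306))) (XT.nd (nat_lit 78) (nat_lit 0) (nat_lit 0) (XT.lf (nat_lit 0) (nat_lit 74900061579) (nat_lit 76) (nat_lit 405217153026) (nat_lit 0) (nat_lit 74367769852) (nat_lit 1) (nat_lit 5) (nat_lit 2) (nat_lit 4) (nat_lit 1) (nat_lit 4) (nat_lit 389) (nat_lit 326) (nat_lit 305)) (XT.lf (nat_lit 0) (nat_lit 91294445085) (nat_lit 76) (nat_lit 454818390580) (nat_lit 0) (nat_lit 90758257541) (nat_lit 1) (nat_lit 5) (nat_lit 2) (nat_lit 4) (nat_lit 1) (nat_lit 4) (nat_lit 390) (nat_lit 326) (nat_lit 304))))))))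
noncomputable def xc23 : XT := (XT.nd (nat_lit 1872) (nat_lit 0) (nat_lit 0) (XT.nd (nat_lit 936) (nat_lit 0) (nat_lit 0) (XT.nd (nat_lit 468) (nat_lit 0) (nat_lit 0) (XT.nd (nat_lit 234) (nat_lit 0) (nat_lit 0) (XT.nd (nat_lit 78) (nat_lit 0) (nat_lit 0) (XT.lf (nat_lit 0) (nat_lit 110086186112) (nat_lit 76) (nat_lit 511991592245) (nat_lit 0) (nat_lit 109546610902) (nat_lit 1) (nat_lit 5) (nat_lit 2) (nat_lit 4) (nat_lit 1) (nat_lit 4) (nat_lit 391) (nat_lit 326) (nat_lit 303)) (XT.nd (nat_lit 78) (nat_lit 0) (nat_lit 0) (XT.lf (nat_lit 0) (nat_lit 131642949160) (nat_lit 76) (nat_lit 577855364141) (nat_lit 0) (nat_lit 131100428153) (nat_lit 1) (nat_lit 5) (nat_lit 2) (nat_lit 4) (nat_lit 1) (nat_lit 4) (nat_lit 392) (nat_lit 326) (nat_lit 302)) (XT.lf (nat_lit 0) (nat_lit 156386496984) (nat_lit 76) (nat_lit 653698345281) (nat_lit 0) (nat_lit 155841414415) (nat_lit 1) (nat_lit 5) (nat_lit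 2) (nat_lit 4) (nat_lit 1) (nat_lit 4) (nat_lit 393) (nat_lit 326) (nat_lit 301)))) (XT.nd (nat_lit 78) (nat_lit 0) (nat_lit 0) (XT.lf (nat_lit 0) (nat_lit 184800942476) (nat_lit 76) (nat_lit 741004420081) (nat_lit 0) (nat_lit 184253632462) (nat_lit 1) (nat_lit 5) (nat_lit 2) (nat_lit 4) (nat_lit 1) (nat_lit 4) (nat_lit 394) (nat_lit 326) (nat_lit 300)) (XT.nd (nat_lit 78) (nat_lit 0) (nat_lit 0) (XT.lf (nat_lit 0) (nat_lit 217442220439) (nat_lit 76) (nat_lit 841481750874) (nat_lit 0) (nat_lit 216892973516) (nat_lit 1) (nat_lit 5) (nat_lit 2) (nat_lit 4) (nat_lit 1) (nat_lit 4) (nat_lit 395) (nat_lit 326) (nat_lit 299)) (XT.lf (nat_lit 0) (nat_lit 254948964573) (nat_lit 76) (nat_lit 957096198478) (nat_lit 0) (nat_lit 254398033380) (nat_lit 1) (nat_lit 5) (nat_lit 2) (nat_lit 4) (nat_lit 1) (nat_lit 4) (nat_lit 396) (nat_lit 326) (nat_lit 298))))) (XT.nd (nat_lit 234) (nat_lit 0) (nat_lit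 0) (XT.nd (nat_lit 78) (nat_lit 0) (nat_lit 0) (XT.lf (nat_lit 0) (nat_lit 298055002479) (nat_lit 76) (nat_lit 1090109784695) (nat_lit 0) (nat_lit 297502606706) (nat_lit 1) (nat_lit 5) (nat_lit 2) (nat_lit 4) (nat_lit 1) (nat_lit 4) (nat_lit 397) (nat_lit 326) (nat_lit 297)) (XT.nd (nat_lit 78) (nat_lit 0) (nat_lit 0) (XT.lf (nat_lit 0) (nat_lit 347603713162) (nat_lit 76) (nat_lit 1243124949256) (nat_lit 0) (nat_lit 347050043839) (nat_lit 1) (nat_lit 5) (nat_lit 2) (nat_lit 4) (nat_lit 1) (nat_lit 4) (nat_lit 398) (nat_lit 326) (nat_lit 296)) (XT.lf (nat_lit 0) (nat_lit 404564527916) (nat_lit 76) (nat_lit 1419135467119) (nat_lit 0) (nat_lit 404009751158) (nat_lit 1) (nat_lit 5) (nat_lit 2) (nat_lit 4) (nat_lit 1) (nat_lit 4) (nat_lit 399) (nat_lit 326) (nat_lit 295)))) (XT.nd (nat_lit 78) (nat_lit 0) (nat_lit 0) (XT.lf (nat_lit 0) (nat_lit 470051897464) (nat_lit 76) (nat_lit 1621585022329)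 (nat_lit 0) (nat_lit 469496157721) (nat_lit 1) (nat_lit 5) (nat_lit 2) (nat_lit 4) (nat_lit 1) (nat_lit 4) (nat_lit 400) (nat_lit 326) (nat_lit 294)) (XT.nd (nat_lit 78) (nat_lit 0) (nat_lit 0) (XT.lf (nat_lit 0) (nat_lit 545347096430) (nat_lit 76) (nat_lit 1854434584446) (nat_lit 0) (nat_lit 544790519307) (nat_lit 1) (nat_lit 5) (nat_lit 2) (nat_lit 4) (nat_lit 1) (nat_lit 4) (nat_lit 401) (nat_lit 326) (nat_lit 293)) (XT.lf (nat_lit 0) (nat_lit 631923291748) (nat_lit 76) (nat_lit 2122239905770) (nat_lit 0) (nat_lit 631365986470) (nat_lit 1) (nat_lit 5) (nat_lit 2) (nat_lit 4) (nat_lit 1) (nat_lit 4) (nat_lit 402) (nat_lit 326) (nat_lit 292)))))) (XT.nd (nat_lit 468) (nat_lit 0) (nat_lit 0) (XT.nd (nat_lit 234) (nat_lit 0) (nat_lit 0) (XT.nd (nat_lit 78) (nat_lit 0) (nat_lit 0) (XT.lf (nat_lit 0) (nat_lit 731474365502) (nat_lit 76) (nat_lit 2430240655632) (nat_lit 0) (nat_lit 730916427044)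 (nat_lit 1) (nat_lit 5) (nat_lit 2) (nat_lit 4) (nat_lit 1) (nat_lit 4) (nat_lit 403) (nat_lit 326) (nat_lit 291)) (XT.nd (nat_lit 78) (nat_lit 0) (nat_lit 0) (XT.lf (nat_lit 0) (nat_lit 845948056090) (nat_lit 76) (nat_lit 2784462935661) (nat_lit 0) (nat_lit 845389567042) (nat_lit 1) (nat_lit 5) (nat_lit 2) (nat_lit 4) (nat_lit 1) (nat_lit 4) (nat_lit 404) (nat_lit 326) (nat_lit 290)) (XT.lf (nat_lit 0) (nat_lit 977584066155) (nat_lit 76) (nat_lit 3191837181769) (nat_lit 0) (nat_lit 977025098333) (nat_lit 1) (nat_lit 5) (nat_lit 2) (nat_lit 4) (nat_lit 1) (nat_lit 4) (nat_lit 405) (nat_lit 326) (nat_lit 289)))) (XT.nd (nat_lit 78) (nat_lit 0) (nat_lit 0) (XT.lf (nat_lit 0) (nat_lit 1128957882850) (nat_lit 76) (nat_lit 3660333759641) (nat_lit 0) (nat_lit 1128398498702) (nat_lit 1) (nat_lit 5) (nat_lit 2) (nat_lit 4) (nat_lit 1) (nat_lit 4) (nat_lit 406) (nat_lit 326) (nat_lit 288)) (XT.nd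 (nat_lit 78) (nat_lit 0) (nat_lit 0) (XT.lf (nat_lit 0) (nat_lit 1303031167806) (nat_lit 76) (nat_lit 4199118906671) (nat_lit 0) (nat_lit 1302471421636) (nat_lit 1) (nat_lit 5) (nat_lit 2) (nat_lit 4) (nat_lit 1) (nat_lit 4) (nat_lit 407) (nat_lit 326) (nat_lit 287)) (XT.lf (nat_lit 0) (nat_lit 1503209702685) (nat_lit 76) (nat_lit 4818734071388) (nat_lit 0) (nat_lit 1502649641714) (nat_lit 1) (nat_lit 5) (nat_lit 2) (nat_lit 4) (nat_lit 1) (nat_lit 4) (nat_lit 408) (nat_lit 326) (nat_lit 286))))) (XT.nd (nat_lit 234) (nat_lit 0) (nat_lit 0) (XT.nd (nat_lit 78) (nat_lit 0) (nat_lit 0) (XT.lf (nat_lit 0) (nat_lit 1733410024040) (nat_lit 76) (nat_lit 5531302159187) (nat_lit 0) (nat_lit 1732849689327) (nat_lit 1) (nat_lit 5) (nat_lit 2) (nat_lit 4) (nat_lit 1) (nat_lit 4) (nat_lit 409) (nat_lit 326) (nat_lit 285)) (XT.nd (nat_lit 78) (nat_lit 0) (nat_lit 0) (XT.lf (nat_lit 0) (nat_lit 1998136051201)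 (nat_lit 76) (nat_lit 6350764719613) (nat_lit 0) (nat_lit 1997575478453) (nat_lit 1) (nat_lit 5) (nat_lit 2) (nat_lit 4) (nat_lit 1) (nat_lit 4) (nat_lit 410) (nat_lit 326) (nat_lit 284)) (XT.lf (nat_lit 0) (nat_lit 2302567206438) (nat_lit 76) (nat_lit 7293154715805) (nat_lit 0) (nat_lit 2302006426703) (nat_lit 1) (nat_lit 5) (nat_lit 2) (nat_lit 4) (nat_lit 1) (nat_lit 4) (nat_lit 411) (nat_lit 326) (nat_lit 283)))) (XT.nd (nat_lit 78) (nat_lit 0) (nat_lit 0) (XT.lf (nat_lit 0) (nat_lit 2652659751485) (nat_lit 76) (nat_lit 8376910212906) (nat_lit 0) (nat_lit 2652098791761) (nat_lit 1) (nat_lit 5) (nat_lit 2) (nat_lit 4) (nat_lit 1) (nat_lit 4) (nat_lit 412) (nat_lit 326) (nat_lit 282)) (XT.nd (nat_lit 78) (nat_lit 0) (nat_lit 0) (XT.lf (nat_lit 0) (nat_lit 3055263323093) (nat_lit 76) (nat_lit 9623235122815) (nat_lit 0) (nat_lit 3054702206856) (nat_lit 1) (nat_lit 5) (nat_lit 2) (nat_lit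 4) (nat_lit 1) (nat_lit 4) (nat_lit 413) (nat_lit 326) (nat_lit 281)) (XT.lf (nat_lit 0) (nat_lit 3518254947662) (nat_lit 76) (nat_lit 11056514063335) (nat_lit 0) (nat_lit 3517693695328) (nat_lit 1) (nat_lit 5) (nat_lit 2) (nat_lit 4) (nat_lit 1) (nat_lit 4) (nat_lit 414) (nat_lit 326) (nat_lit 280))))))) (XT.nd (nat_lit 936) (nat_lit 0) (nat_lit 0) (XT.nd (nat_lit 468) (nat_lit 0) (nat_lit 0) (XT.nd (nat_lit 234) (nat_lit 0) (nat_lit 0) (XT.nd (nat_lit 78) (nat_lit 0) (nat_lit 0) (XT.lf (nat_lit 0) (nat_lit 4050693156977) (nat_lit 76) (nat_lit 12704789448519) (nat_lit 0) (nat_lit 4050131786298) (nat_lit 1) (nat_lit 5) (nat_lit 2) (nat_lit 4) (nat_lit 1) (nat_lit 4) (nat_lit 415) (nat_lit 326) (nat_lit 279)) (XT.nd (nat_lit 78) (nat_lit 0) (nat_lit 0) (XT.lf (nat_lit 0) (nat_lit 4662995220352) (nat_lit 76) (nat_lit 14600310144600) (nat_lit 0) (nat_lit 4662433746763) (nat_lit 1) (nat_lit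 5) (nat_lit 2) (nat_lit 4) (nat_lit 1) (nat_lit 4) (nat_lit 416) (nat_lit 326) (nat_lit 278)) (XT.lf (nat_lit 0) (nat_lit 5367140960765) (nat_lit 76) (nat_lit 16780162426066) (nat_lit 0) (nat_lit 5366579397690) (nat_lit 1) (nat_lit 5) (nat_lit 2) (nat_lit 4) (nat_lit 1) (nat_lit 4) (nat_lit 417) (nat_lit 326) (nat_lit 277)))) (XT.nd (nat_lit 78) (nat_lit 0) (nat_lit 0) (XT.lf (nat_lit 0) (nat_lit 6176907142703) (nat_lit 76) (nat_lit 19286995576685) (nat_lit 0) (nat_lit 6176345501814) (nat_lit 1) (nat_lit 5) (nat_lit 2) (nat_lit 4) (nat_lit 1) (nat_lit 4) (nat_lit 418) (nat_lit 326) (nat_lit 276)) (XT.nd (nat_lit 78) (nat_lit 0) (nat_lit 0) (XT.lf (nat_lit 0) (nat_lit 7108137017552) (nat_lit 76) (nat_lit 22169856332012) (nat_lit 0) (nat_lit 7107575308998) (nat_lit 1) (nat_lit 5) (nat_lit 2) (nat_lit 4) (nat_lit 1) (nat_lit 4) (nat_lit 419) (nat_lit 326) (nat_lit 275)) (XT.lf (nat_lit 0)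 (nat_lit 8179050300253) (nat_lit 76) (nat_lit 25485148489434) (nat_lit 0) (nat_lit 8178488532860) (nat_lit 1) (nat_lit 5) (nat_lit 2) (nat_lit 4) (nat_lit 1) (nat_lit 4) (nat_lit 420) (nat_lit 326) (nat_lit 274))))) (XT.nd (nat_lit 234) (nat_lit 0) (nat_lit 0) (XT.nd (nat_lit 78) (nat_lit 0) (nat_lit 0) (XT.lf (nat_lit 0) (nat_lit 9410599641991) (nat_lit 76) (nat_lit 29297736460727) (nat_lit 0) (nat_lit 9410037823434) (nat_lit 1) (nat_lit 5) (nat_lit 2) (nat_lit 4) (nat_lit 1) (nat_lit 4) (nat_lit 421) (nat_lit 326) (nat_lit 273)) (XT.nd (nat_lit 78) (nat_lit 0) (nat_lit 0) (XT.lf (nat_lit 0) (nat_lit 10826880573364) (nat_lit 76) (nat_lit 33682214358373) (nat_lit 0) (nat_lit 10826318710317) (nat_lit 1) (nat_lit 5) (nat_lit 2) (nat_lit 4) (nat_lit 1) (nat_lit 4) (nat_lit 422) (nat_lit 326) (nat_lit 272)) (XT.lf (nat_lit 0) (nat_lit 12455602938682) (nat_lit 76) (nat_lit 38724365445587)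 (nat_lit 0) (nat_lit 12455041036947) (nat_lit 1) (nat_lit 5) (nat_lit 2) (nat_lit 4) (nat_lit 1) (nat_lit 4) (nat_lit 423) (nat_lit 326) (nat_lit 271)))) (XT.nd (nat_lit 78) (nat_lit 0) (nat_lit 0) (XT.lf (nat_lit 0) (nat_lit 14328633045093) (nat_lit 76) (nat_lit 44522840504509) (nat_lit 0) (nat_lit 14328071109717) (nat_lit 1) (nat_lit 5) (nat_lit 2) (nat_lit 4) (nat_lit 1) (nat_lit 4) (nat_lit 424) (nat_lit 326) (nat_lit 270)) (XT.nd (nat_lit 78) (nat_lit 0) (nat_lit 0) (XT.lf (nat_lit 0) (nat_lit 16482617133809) (nat_lit 76) (nat_lit 51191087960205) (nat_lit 0) (nat_lit 16482055169180) (nat_lit 1) (nat_lit 5) (nat_lit 2) (nat_lit 4) (nat_lit 1) (nat_lit 4) (nat_lit 425) (nat_lit 326) (nat_lit 269)) (XT.lf (nat_lit 0) (nat_lit 18959698371783) (nat_lit 76) (nat_lit 58859573523766) (nat_lit 0) (nat_lit 18959136381716) (nat_lit 1) (nat_lit 5) (nat_lit 2) (nat_lit 4) (nat_lit 1) (nat_lit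 4) (nat_lit 426) (nat_lit 326) (nat_lit 268)))))) (XT.nd (nat_lit 468) (nat_lit 0) (nat_lit 0) (XT.nd (nat_lit 234) (nat_lit 0) (nat_lit 0) (XT.nd (nat_lit 78) (nat_lit 0) (nat_lit 0) (XT.lf (nat_lit 0) (nat_lit 21808341391933) (nat_lit 76) (nat_lit 67678332782304) (nat_lit 0) (nat_lit 21807779379746) (nat_lit 1) (nat_lit 5) (nat_lit 2) (nat_lit 4) (nat_lit 1) (nat_lit 4) (nat_lit 427) (nat_lit 326) (nat_lit 267)) (XT.nd (nat_lit 78) (nat_lit 0) (nat_lit 0) (XT.lf (nat_lit 0) (nat_lit 25084280514216) (nat_lit 76) (nat_lit 77819906677834) (nat_lit 0) (nat_lit 25083718482795) (nat_lit 1) (nat_lit 5) (nat_lit 2) (nat_lit 4) (nat_lit 1) (nat_lit 4) (nat_lit 428) (nat_lit 326) (nat_lit 266)) (XT.lf (nat_lit 0) (nat_lit 28851610199722) (nat_lit 76) (nat_lit 89482717308313) (nat_lit 0) (nat_lit 28851048151576) (nat_lit 1) (nat_lit 5) (nat_lit 2) (nat_lit 4) (nat_lit 1) (nat_lit 4) (nat_lit 429)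 (nat_lit 326) (nat_lit 265)))) (XT.nd (nat_lit 78) (nat_lit 0) (nat_lit 0) (XT.lf (nat_lit 0) (nat_lit 33184039072733) (nat_lit 76) (nat_lit 102894950099119) (nat_lit 0) (nat_lit 33183477010042) (nat_lit 1) (nat_lit 5) (nat_lit 2) (nat_lit 4) (nat_lit 1) (nat_lit 4) (nat_lit 430) (nat_lit 326) (nat_lit 264)) (XT.nd (nat_lit 78) (nat_lit 0) (nat_lit 0) (XT.lf (nat_lit 0) (nat_lit 38166332045980) (nat_lit 76) (nat_lit 118319018300507) (nat_lit 0) (nat_lit 38165769970643) (nat_lit 1) (nat_lit 5) (nat_lit 2) (nat_lit 4) (nat_lit 1) (nat_lit 4) (nat_lit 431) (nat_lit 326) (nat_lit 263)) (XT.lf (nat_lit 0) (nat_lit 43895968764594) (nat_lit 76) (nat_lit 136056697159895) (nat_lit 0) (nat_lit 43895406678259) (nat_lit 1) (nat_lit 5) (nat_lit 2) (nat_lit 4) (nat_lit 1) (nat_lit 4) (nat_lit 432) (nat_lit 326) (nat_lit 262))))) (XT.nd (nat_lit 234) (nat_lit 0) (nat_lit 0) (XT.nd (nat_lit 78) (nat_lit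 0) (nat_lit 0) (XT.lf (nat_lit 0) (nat_lit 50485050816546) (nat_lit 76) (nat_lit 156455028220186) (nat_lit 0) (nat_lit 50484488720648) (nat_lit 1) (nat_lit 5) (nat_lit 2) (nat_lit 4) (nat_lit 1) (nat_lit 4) (nat_lit 433) (nat_lit 326) (nat_lit 261)) (XT.nd (nat_lit 78) (nat_lit 0) (nat_lit 0) (XT.lf (nat_lit 0) (nat_lit 58062495024592) (nat_lit 76) (nat_lit 179913109262992) (nat_lit 0) (nat_lit 58061932920378) (nat_lit 1) (nat_lit 5) (nat_lit 2) (nat_lit 4) (nat_lit 1) (nat_lit 4) (nat_lit 434) (nat_lit 326) (nat_lit 260)) (XT.lf (nat_lit 0) (nat_lit 66776555731934) (nat_lit 76) (nat_lit 206889902743499) (nat_lit 0) (nat_lit 66775993620489) (nat_lit 1) (nat_lit 5) (nat_lit 2) (nat_lit 4) (nat_lit 1) (nat_lit 4) (nat_lit 435) (nat_lit 326) (nat_lit 259)))) (XT.nd (nat_lit 156) (nat_lit 0) (nat_lit 0) (XT.nd (nat_lit 78) (nat_lit 0) (nat_lit 0) (XT.lf (nat_lit 0) (nat_lit 76797725430670)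 (nat_lit 76) (nat_lit 237913215490675) (nat_lit 0) (nat_lit 76797163312938) (nat_lit 1) (nat_lit 5) (nat_lit 2) (nat_lit 4) (nat_lit 1) (nat_lit 4) (nat_lit 436) (nat_lit 326) (nat_lit 258)) (XT.lf (nat_lit 0) (nat_lit 88322070484474) (nat_lit 76) (nat_lit 273590025362614) (nat_lit 0) (nat_lit 88321508361274) (nat_lit 1) (nat_lit 5) (nat_lit 2) (nat_lit 4) (nat_lit 1) (nat_lit 4) (nat_lit 437) (nat_lit 326) (nat_lit 257))) (XT.nd (nat_lit 78) (nat_lit 0) (nat_lit 0) (XT.lf (nat_lit 0) (nat_lit 101575067209613) (nat_lit 76) (nat_lit 314618356900292) (nat_lit 0) (nat_lit 101574505081659) (nat_lit 1) (nat_lit 5) (nat_lit 2) (nat_lit 4) (nat_lit 1) (nat_lit 4) (nat_lit 438) (nat_lit 326) (nat_lit 256)) (XT.lf (nat_lit 0) (nat_lit 116816013368102) (nat_lit 76) (nat_lit 361800938329443) (nat_lit 0) (nat_lit 116815451236014) (nat_lit 1) (nat_lit 5) (nat_lit 2) (nat_lit 4) (nat_lit 1) (nat_lit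 4) (nat_lit 439) (nat_lit 326) (nat_lit 255))))))))
noncomputable def xc24 : XT := (XT.nd (nat_lit 48984) (nat_lit 0) (nat_lit 0) (XT.nd (nat_lit 48048) (nat_lit 0) (nat_lit 0) (XT.nd (nat_lit 47580) (nat_lit 0) (nat_lit 76) (XT.nd (nat_lit 47346) (nat_lit 0) (nat_lit 304) (XT.nd (nat_lit 78) (nat_lit 0) (nat_lit 0) (XT.lf (nat_lit 0) (nat_lit 134343101384782) (nat_lit 76) (nat_lit 416060907112814) (nat_lit 0) (nat_lit 134342539249099) (nat_lit 1) (nat_lit 5) (nat_lit 2) (nat_lit 4) (nat_lit 1) (nat_lit 4) (nat_lit 440) (nat_lit 326) (nat_lit 254)) (XT.nd (nat_lit 78) (nat_lit 0) (nat_lit 0) (XT.lf (nat_lit 0) (nat_lit 154499252546934) (nat_lit 76) (nat_lit 478459871335297) (nat_lit 0) (nat_lit 154498690408124) (nat_lit 1) (nat_lit 5) (nat_lit 2) (nat_lit 4) (nat_lit 1) (nat_lit 4) (nat_lit 441) (nat_lit 326) (nat_lit 253)) (XT.lf (nat_lit 0) (nat_lit 177678826333818) (nat_lit 76) (nat_lit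 550218680296895) (nat_lit 0) (nat_lit 177678264192290) (nat_lit 1) (nat_lit 5) (nat_lit 2) (nat_lit 4) (nat_lit 1) (nat_lit 4) (nat_lit 442) (nat_lit 326) (nat_lit 252)))) (XT.nd (nat_lit 78) (nat_lit 76) (nat_lit 0) (XT.lf (nat_lit 0) (nat_lit 1365164442) (nat_lit 152) (nat_lit 12156084853) (nat_lit 0) (nat_lit 1365164442) (nat_lit 6) (nat_lit 5) (nat_lit 8) (nat_lit 4) (nat_lit 6) (nat_lit 4) (nat_lit 366) (nat_lit 327) (nat_lit 327)) (XT.nd (nat_lit 78) (nat_lit 76) (nat_lit 0) (XT.lf (nat_lit 0) (nat_lit 12077266507) (nat_lit 152) (nat_lit 8835557615) (nat_lit 0) (nat_lit 11965748086) (nat_lit 6) (nat_lit 5) (nat_lit 8) (nat_lit 4) (nat_lit 6) (nat_lit 4) (nat_lit 367) (nat_lit 327) (nat_lit 326)) (XT.lf (nat_lit 0) (nat_lit 8054499252) (nat_lit 76) (nat_lit 14334865390) (nat_lit 76) (nat_lit 14126374430) (nat_lit 5) (nat_lit 4) (nat_lit 6) (nat_lit 5) (nat_lit 6) (nat_lit 4) (nat_lit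 368) (nat_lit 327) (nat_lit 325))))) (XT.nd (nat_lit 234) (nat_lit 76) (nat_lit 0) (XT.nd (nat_lit 78) (nat_lit 152) (nat_lit 0) (XT.lf (nat_lit 0) (nat_lit 26919815413) (nat_lit 76) (nat_lit 7056174173) (nat_lit 76) (nat_lit 6763359264) (nat_lit 5) (nat_lit 4) (nat_lit 6) (nat_lit 5) (nat_lit 6) (nat_lit 4) (nat_lit 369) (nat_lit 327) (nat_lit 324)) (XT.nd (nat_lit 78) (nat_lit 0) (nat_lit 0) (XT.lf (nat_lit 0) (nat_lit 983531394) (nat_lit 152) (nat_lit 44022583930) (nat_lit 0) (nat_lit 665148716) (nat_lit 3) (nat_lit 5) (nat_lit 5) (nat_lit 4) (nat_lit 3) (nat_lit 4) (nat_lit 370) (nat_lit 327) (nat_lit 323)) (XT.lf (nat_lit 0) (nat_lit 9625832049) (nat_lit 152) (nat_lit 32352963649) (nat_lit 0) (nat_lit 9252005006) (nat_lit 3) (nat_lit 5) (nat_lit 5) (nat_lit 4) (nat_lit 3) (nat_lit 4) (nat_lit 371) (nat_lit 327) (nat_lit 322)))) (XT.nd (nat_lit 78) (nat_lit 76) (nat_lit 0) (XT.lf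 (nat_lit 0) (nat_lit 18984498055) (nat_lit 152) (nat_lit 20164322373) (nat_lit 0) (nat_lit 18562458521) (nat_lit 3) (nat_lit 5) (nat_lit 5) (nat_lit 4) (nat_lit 3) (nat_lit 4) (nat_lit 372) (nat_lit 327) (nat_lit 321)) (XT.nd (nat_lit 78) (nat_lit 76) (nat_lit 0) (XT.lf (nat_lit 0) (nat_lit 29242633747) (nat_lit 152) (nat_lit 7218186688) (nat_lit 0) (nat_lit 28778670309) (nat_lit 3) (nat_lit 5) (nat_lit 5) (nat_lit 4) (nat_lit 3) (nat_lit 4) (nat_lit 373) (nat_lit 327) (nat_lit 320)) (XT.lf (nat_lit 0) (nat_lit 7397295792) (nat_lit 76) (nat_lit 33509952233) (nat_lit 76) (nat_lit 33009533225) (nat_lit 2) (nat_lit 4) (nat_lit 3) (nat_lit 5) (nat_lit 3) (nat_lit 4) (nat_lit 374) (nat_lit 327) (nat_lit 319)))))) (XT.nd (nat_lit 468) (nat_lit 76) (nat_lit 0) (XT.nd (nat_lit 234) (nat_lit 0) (nat_lit 0) (XT.nd (nat_lit 78) (nat_lit 0) (nat_lit 0) (XT.lf (nat_lit 0) (nat_lit 24127518595) (nat_lit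 76) (nat_lit 30153200419) (nat_lit 76) (nat_lit 29621080916) (nat_lit 2) (nat_lit 4) (nat_lit 3) (nat_lit 5) (nat_lit 3) (nat_lit 4) (nat_lit 375) (nat_lit 327) (nat_lit 318)) (XT.nd (nat_lit 78) (nat_lit 0) (nat_lit 0) (XT.lf (nat_lit 0) (nat_lit 42594398470) (nat_lit 76) (nat_lit 26702203719) (nat_lit 76) (nat_lit 26142518568) (nat_lit 2) (nat_lit 4) (nat_lit 3) (nat_lit 5) (nat_lit 3) (nat_lit 4) (nat_lit 376) (nat_lit 327) (nat_lit 317)) (XT.lf (nat_lit 0) (nat_lit 63159243934) (nat_lit 76) (nat_lit 23089442632) (nat_lit 76) (nat_lit 22505787352) (nat_lit 2) (nat_lit 4) (nat_lit 3) (nat_lit 5) (nat_lit 3) (nat_lit 4) (nat_lit 377) (nat_lit 327) (nat_lit 316)))) (XT.nd (nat_lit 78) (nat_lit 0) (nat_lit 0) (XT.lf (nat_lit 0) (nat_lit 86224410661) (nat_lit 76) (nat_lit 19244232702) (nat_lit 76) (nat_lit 18639733832) (nat_lit 2) (nat_lit 4) (nat_lit 3) (nat_lit 5) (nat_lit 3) (nat_lit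 4) (nat_lit 378) (nat_lit 327) (nat_lit 315)) (XT.nd (nat_lit 78) (nat_lit 0) (nat_lit 0) (XT.lf (nat_lit 0) (nat_lit 112241173652) (nat_lit 76) (nat_lit 15091341561) (nat_lit 76) (nat_lit 14468717830) (nat_lit 2) (nat_lit 4) (nat_lit 3) (nat_lit 5) (nat_lit 3) (nat_lit 4) (nat_lit 379) (nat_lit 327) (nat_lit 314)) (XT.lf (nat_lit 0) (nat_lit 141718556529) (nat_lit 76) (nat_lit 10549516990) (nat_lit 76) (nat_lit 9911132510) (nat_lit 2) (nat_lit 4) (nat_lit 3) (nat_lit 5) (nat_lit 3) (nat_lit 4) (nat_lit 380) (nat_lit 327) (nat_lit 313))))) (XT.nd (nat_lit 234) (nat_lit 0) (nat_lit 0) (XT.nd (nat_lit 78) (nat_lit 76) (nat_lit 0) (XT.lf (nat_lit 0) (nat_lit 175233290698) (nat_lit 76) (nat_lit 5529897206) (nat_lit 76) (nat_lit 4877807727) (nat_lit 2) (nat_lit 4) (nat_lit 3) (nat_lit 5) (nat_lit 3) (nat_lit 4) (nat_lit 381) (nat_lit 327) (nat_lit 312)) (XT.nd (nat_lit 78) (nat_lit 0) (nat_lit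 0) (XT.lf (nat_lit 0) (nat_lit 705369398) (nat_lit 76) (nat_lit 211801672703) (nat_lit 0) (nat_lit 127972121) (nat_lit 1) (nat_lit 5) (nat_lit 2) (nat_lit 4) (nat_lit 1) (nat_lit 4) (nat_lit 382) (nat_lit 327) (nat_lit 311)) (XT.lf (nat_lit 0) (nat_lit 7295513439) (nat_lit 76) (nat_lit 229538345676) (nat_lit 0) (nat_lit 6709104902) (nat_lit 1) (nat_lit 5) (nat_lit 2) (nat_lit 4) (nat_lit 1) (nat_lit 4) (nat_lit 383) (nat_lit 327) (nat_lit 310)))) (XT.nd (nat_lit 78) (nat_lit 0) (nat_lit 0) (XT.lf (nat_lit 0) (nat_lit 14731231923) (nat_lit 76) (nat_lit 250240331221) (nat_lit 0) (nat_lit 14136987508) (nat_lit 1) (nat_lit 5) (nat_lit 2) (nat_lit 4) (nat_lit 1) (nat_lit 4) (nat_lit 384) (nat_lit 327) (nat_lit 309)) (XT.nd (nat_lit 78) (nat_lit 0) (nat_lit 0) (XT.lf (nat_lit 0) (nat_lit 23158006297) (nat_lit 76) (nat_lit 274312668185) (nat_lit 0) (nat_lit 22556948076) (nat_lit 1) (nat_lit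 5) (nat_lit 2) (nat_lit 4) (nat_lit 1) (nat_lit 4) (nat_lit 385) (nat_lit 327) (nat_lit 308)) (XT.lf (nat_lit 0) (nat_lit 32740708235) (nat_lit 76) (nat_lit 302226337074) (nat_lit 0) (nat_lit 32133724965) (nat_lit 1) (nat_lit 5) (nat_lit 2) (nat_lit 4) (nat_lit 1) (nat_lit 4) (nat_lit 386) (nat_lit 327) (nat_lit 307))))))) (XT.nd (nat_lit 936) (nat_lit 0) (nat_lit 0) (XT.nd (nat_lit 468) (nat_lit 0) (nat_lit 0) (XT.nd (nat_lit 234) (nat_lit 0) (nat_lit 0) (XT.nd (nat_lit 78) (nat_lit 0) (nat_lit 0) (XT.lf (nat_lit 0) (nat_lit 43666825384) (nat_lit 76) (nat_lit 334527474889) (nat_lit 0) (nat_lit 43054689897) (nat_lit 1) (nat_lit 5) (nat_lit 2) (nat_lit 4) (nat_lit 1) (nat_lit 4) (nat_lit 387) (nat_lit 327) (nat_lit 306)) (XT.nd (nat_lit 78) (nat_lit 0) (nat_lit 0) (XT.lf (nat_lit 0) (nat_lit 56150129600) (nat_lit 76) (nat_lit 371848060413) (nat_lit 0) (nat_lit 55533513924) (nat_lit 1)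 (nat_lit 5) (nat_lit 2) (nat_lit 4) (nat_lit 1) (nat_lit 4) (nat_lit 388) (nat_lit 327) (nat_lit 305)) (XT.lf (nat_lit 0) (nat_lit 70434859444) (nat_lit 76) (nat_lit 414918279015) (nat_lit 0) (nat_lit 69814347953) (nat_lit 1) (nat_lit 5) (nat_lit 2) (nat_lit 4) (nat_lit 1) (nat_lit 4) (nat_lit 389) (nat_lit 327) (nat_lit 304)))) (XT.nd (nat_lit 78) (nat_lit 0) (nat_lit 0) (XT.lf (nat_lit 0) (nat_lit 86800498762) (nat_lit 76) (nat_lit 464580808885) (nat_lit 0) (nat_lit 86176599604) (nat_lit 1) (nat_lit 5) (nat_lit 2) (nat_lit 4) (nat_lit 1) (nat_lit 4) (nat_lit 390) (nat_lit 327) (nat_lit 303)) (XT.nd (nat_lit 78) (nat_lit 0) (nat_lit 0) (XT.lf (nat_lit 0) (nat_lit 105567244843) (nat_lit 76) (nat_lit 521807308215) (nat_lit 0) (nat_lit 104940399889) (nat_lit 1) (nat_lit 5) (nat_lit 2) (nat_lit 4) (nat_lit 1) (nat_lit 4) (nat_lit 391) (nat_lit 327) (nat_lit 302)) (XT.lf (nat_lit 0) (nat_lit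 127102273156) (nat_lit 76) (nat_lit 587717425906) (nat_lit 0) (nat_lit 126472866639) (nat_lit 1) (nat_lit 5) (nat_lit 2) (nat_lit 4) (nat_lit 1) (nat_lit 4) (nat_lit 392) (nat_lit 327) (nat_lit 301))))) (XT.nd (nat_lit 234) (nat_lit 0) (nat_lit 0) (XT.nd (nat_lit 78) (nat_lit 0) (nat_lit 0) (XT.lf (nat_lit 0) (nat_lit 151826921210) (nat_lit 76) (nat_lit 663600707739) (nat_lit 0) (nat_lit 151195287248) (nat_lit 1) (nat_lit 5) (nat_lit 2) (nat_lit 4) (nat_lit 1) (nat_lit 4) (nat_lit 393) (nat_lit 327) (nat_lit 300)) (XT.nd (nat_lit 78) (nat_lit 0) (nat_lit 0) (XT.lf (nat_lit 0) (nat_lit 180224932119) (nat_lit 76) (nat_lit 750941826619) (nat_lit 0) (nat_lit 179591361248) (nat_lit 1) (nat_lit 5) (nat_lit 2) (nat_lit 4) (nat_lit 1) (nat_lit 4) (nat_lit 394) (nat_lit 327) (nat_lit 299)) (XT.lf (nat_lit 0) (nat_lit 212851919141) (nat_lit 76) (nat_lit 851449630525) (nat_lit 0) (nat_lit 212216664001)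 (nat_lit 1) (nat_lit 5) (nat_lit 2) (nat_lit 4) (nat_lit 1) (nat_lit 4) (nat_lit 395) (nat_lit 327) (nat_lit 298)))) (XT.nd (nat_lit 78) (nat_lit 0) (nat_lit 0) (XT.lf (nat_lit 0) (nat_lit 250346236369) (nat_lit 76) (nat_lit 967090576488) (nat_lit 0) (nat_lit 249709516647) (nat_lit 1) (nat_lit 5) (nat_lit 2) (nat_lit 4) (nat_lit 1) (nat_lit 4) (nat_lit 396) (nat_lit 327) (nat_lit 297)) (XT.nd (nat_lit 78) (nat_lit 0) (nat_lit 0) (XT.lf (nat_lit 0) (nat_lit 293441468271) (nat_lit 76) (nat_lit 1100127204757) (nat_lit 0) (nat_lit 292803475000) (nat_lit 1) (nat_lit 5) (nat_lit 2) (nat_lit 4) (nat_lit 1) (nat_lit 4) (nat_lit 397) (nat_lit 327) (nat_lit 296)) (XT.lf (nat_lit 0) (nat_lit 342980782427) (nat_lit 76) (nat_lit 1253162405884) (nat_lit 0) (nat_lit 342341681722) (nat_lit 1) (nat_lit 5) (nat_lit 2) (nat_lit 4) (nat_lit 1) (nat_lit 4) (nat_lit 398) (nat_lit 327) (nat_lit 295)))))) (XT.nd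 (nat_lit 468) (nat_lit 0) (nat_lit 0) (XT.nd (nat_lit 234) (nat_lit 0) (nat_lit 0) (XT.nd (nat_lit 78) (nat_lit 0) (nat_lit 0) (XT.lf (nat_lit 0) (nat_lit 399933426289) (nat_lit 76) (nat_lit 1429190346849) (nat_lit 0) (nat_lit 399293362598) (nat_lit 1) (nat_lit 5) (nat_lit 2) (nat_lit 4) (nat_lit 1) (nat_lit 4) (nat_lit 399) (nat_lit 327) (nat_lit 294)) (XT.nd (nat_lit 78) (nat_lit 0) (nat_lit 0) (XT.lf (nat_lit 0) (nat_lit 465413690714) (nat_lit 76) (nat_lit 1631655052582) (nat_lit 0) (nat_lit 464772789644) (nat_lit 1) (nat_lit 5) (nat_lit 2) (nat_lit 4) (nat_lit 1) (nat_lit 4) (nat_lit 400) (nat_lit 327) (nat_lit 293)) (XT.lf (nat_lit 0) (nat_lit 540702711311) (nat_lit 76) (nat_lit 1864517789066) (nat_lit 0) (nat_lit 540061082085) (nat_lit 1) (nat_lit 5) (nat_lit 2) (nat_lit 4) (nat_lit 1) (nat_lit 4) (nat_lit 401) (nat_lit 327) (nat_lit 292)))) (XT.nd (nat_lit 78) (nat_lit 0) (nat_lit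 0) (XT.lf (nat_lit 0) (nat_lit 627273534135) (nat_lit 76) (nat_lit 2132334566362) (nat_lit 0) (nat_lit 626631271730) (nat_lit 1) (nat_lit 5) (nat_lit 2) (nat_lit 4) (nat_lit 1) (nat_lit 4) (nat_lit 402) (nat_lit 327) (nat_lit 291)) (XT.nd (nat_lit 78) (nat_lit 0) (nat_lit 0) (XT.lf (nat_lit 0) (nat_lit 726819936155) (nat_lit 76) (nat_lit 2440345277939) (nat_lit 0) (nat_lit 726177123159) (nat_lit 1) (nat_lit 5) (nat_lit 2) (nat_lit 4) (nat_lit 1) (nat_lit 4) (nat_lit 403) (nat_lit 327) (nat_lit 290)) (XT.lf (nat_lit 0) (nat_lit 841289564366) (nat_lit 76) (nat_lit 2794576220328) (nat_lit 0) (nat_lit 840646272596) (nat_lit 1) (nat_lit 5) (nat_lit 2) (nat_lit 4) (nat_lit 1) (nat_lit 4) (nat_lit 404) (nat_lit 327) (nat_lit 289))))) (XT.nd (nat_lit 234) (nat_lit 0) (nat_lit 0) (XT.nd (nat_lit 78) (nat_lit 0) (nat_lit 0) (XT.lf (nat_lit 0) (nat_lit 972922041928) (nat_lit 76) (nat_lit 3201957998924)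 (nat_lit 0) (nat_lit 972278333833) (nat_lit 1) (nat_lit 5) (nat_lit 2) (nat_lit 4) (nat_lit 1) (nat_lit 4) (nat_lit 405) (nat_lit 327) (nat_lit 288)) (XT.nd (nat_lit 78) (nat_lit 0) (nat_lit 0) (XT.lf (nat_lit 0) (nat_lit 1124292786882) (nat_lit 76) (nat_lit 3670461126785) (nat_lit 0) (nat_lit 1123648716765) (nat_lit 1) (nat_lit 5) (nat_lit 2) (nat_lit 4) (nat_lit 1) (nat_lit 4) (nat_lit 406) (nat_lit 327) (nat_lit 287)) (XT.lf (nat_lit 0) (nat_lit 1298363400759) (nat_lit 76) (nat_lit 4209251969458) (nat_lit 0) (nat_lit 1297719015840) (nat_lit 1) (nat_lit 5) (nat_lit 2) (nat_lit 4) (nat_lit 1) (nat_lit 4) (nat_lit 407) (nat_lit 327) (nat_lit 286)))) (XT.nd (nat_lit 156) (nat_lit 0) (nat_lit 0) (XT.nd (nat_lit 78) (nat_lit 0) (nat_lit 0) (XT.lf (nat_lit 0) (nat_lit 1498539612961) (nat_lit 76) (nat_lit 4828872086907) (nat_lit 0) (nat_lit 1497894954301) (nat_lit 1) (nat_lit 5) (nat_lit 2)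 (nat_lit 4) (nat_lit 1) (nat_lit 4) (nat_lit 408) (nat_lit 327) (nat_lit 285)) (XT.lf (nat_lit 0) (nat_lit 1728737914596) (nat_lit 76) (nat_lit 5541444481431) (nat_lit 0) (nat_lit 1728093017901) (nat_lit 1) (nat_lit 5) (nat_lit 2) (nat_lit 4) (nat_lit 1) (nat_lit 4) (nat_lit 409) (nat_lit 327) (nat_lit 284))) (XT.nd (nat_lit 78) (nat_lit 0) (nat_lit 0) (XT.lf (nat_lit 0) (nat_lit 1993462185479) (nat_lit 76) (nat_lit 6360910786835) (nat_lit 0) (nat_lit 1992817081796) (nat_lit 1) (nat_lit 5) (nat_lit 2) (nat_lit 4) (nat_lit 1) (nat_lit 4) (nat_lit 410) (nat_lit 327) (nat_lit 283)) (XT.lf (nat_lit 0) (nat_lit 2297891813518) (nat_lit 76) (nat_lit 7303304039529) (nat_lit 0) (nat_lit 2297246529847) (nat_lit 1) (nat_lit 5) (nat_lit 2) (nat_lit 4) (nat_lit 1) (nat_lit 4) (nat_lit 411) (nat_lit 327) (nat_lit 282))))))))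
noncomputable def xc25 : XT := (XT.nd (nat_lit 1872) (nat_lit 0) (nat_lit 0) (XT.nd (nat_lit 936) (nat_lit 0) (nat_lit 0) (XT.nd (nat_lit 468) (nat_lit 0) (nat_lit 0) (XT.nd (nat_lit 234) (nat_lit 0) (nat_lit 0) (XT.nd (nat_lit 78) (nat_lit 0) (nat_lit 0) (XT.lf (nat_lit 0) (nat_lit 2647983030567) (nat_lit 76) (nat_lit 8387062368371) (nat_lit 0) (nat_lit 2647337590383) (nat_lit 1) (nat_lit 5) (nat_lit 2) (nat_lit 4) (nat_lit 1) (nat_lit 4) (nat_lit 412) (nat_lit 327) (nat_lit 281)) (XT.nd (nat_lit 78) (nat_lit 0) (nat_lit 0) (XT.lf (nat_lit 0) (nat_lit 3050585447393) (nat_lit 76) (nat_lit 9633389740663) (nat_lit 0) (nat_lit 3049939871112) (nat_lit 1) (nat_lit 5) (nat_lit 2) (nat_lit 4) (nat_lit 1) (nat_lit 4) (nat_lit 413) (nat_lit 327) (nat_lit 280)) (XT.lf (nat_lit 0) (nat_lit 3513576067805) (nat_lit 76) (nat_lit 11066670822386) (nat_lit 0) (nat_lit 3512930373178) (nat_lit 1) (nat_lit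 5) (nat_lit 2) (nat_lit 4) (nat_lit 1) (nat_lit 4) (nat_lit 414) (nat_lit 327) (nat_lit 279)))) (XT.nd (nat_lit 78) (nat_lit 0) (nat_lit 0) (XT.lf (nat_lit 0) (nat_lit 4046013403940) (nat_lit 76) (nat_lit 12714948069486) (nat_lit 0) (nat_lit 4045367606403) (nat_lit 1) (nat_lit 5) (nat_lit 2) (nat_lit 4) (nat_lit 1) (nat_lit 4) (nat_lit 415) (nat_lit 327) (nat_lit 278)) (XT.nd (nat_lit 78) (nat_lit 0) (nat_lit 0) (XT.lf (nat_lit 0) (nat_lit 4658314708027) (nat_lit 76) (nat_lit 14610470384624) (nat_lit 0) (nat_lit 4657668821004) (nat_lit 1) (nat_lit 5) (nat_lit 2) (nat_lit 4) (nat_lit 1) (nat_lit 4) (nat_lit 416) (nat_lit 327) (nat_lit 277)) (XT.lf (nat_lit 0) (nat_lit 5362459788191) (nat_lit 76) (nat_lit 16790324073966) (nat_lit 0) (nat_lit 5361813823353) (nat_lit 1) (nat_lit 5) (nat_lit 2) (nat_lit 4) (nat_lit 1) (nat_lit 4) (nat_lit 417) (nat_lit 327) (nat_lit 276))))) (XT.nd (nat_lit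 234) (nat_lit 0) (nat_lit 0) (XT.nd (nat_lit 78) (nat_lit 0) (nat_lit 0) (XT.lf (nat_lit 0) (nat_lit 6172225395998) (nat_lit 76) (nat_lit 19297158448824) (nat_lit 0) (nat_lit 6171579363496) (nat_lit 1) (nat_lit 5) (nat_lit 2) (nat_lit 4) (nat_lit 1) (nat_lit 4) (nat_lit 418) (nat_lit 327) (nat_lit 275)) (XT.nd (nat_lit 78) (nat_lit 0) (nat_lit 0) (XT.lf (nat_lit 0) (nat_lit 7103454771603) (nat_lit 76) (nat_lit 22180020268708) (nat_lit 0) (nat_lit 7102808680262) (nat_lit 1) (nat_lit 5) (nat_lit 2) (nat_lit 4) (nat_lit 1) (nat_lit 4) (nat_lit 419) (nat_lit 327) (nat_lit 274)) (XT.lf (nat_lit 0) (nat_lit 8174367620179) (nat_lit 76) (nat_lit 25495313351831) (nat_lit 0) (nat_lit 8173721477674) (nat_lit 1) (nat_lit 5) (nat_lit 2) (nat_lit 4) (nat_lit 1) (nat_lit 4) (nat_lit 420) (nat_lit 327) (nat_lit 273)))) (XT.nd (nat_lit 78) (nat_lit 0) (nat_lit 0) (XT.lf (nat_lit 0) (nat_lit 9405916584417)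 (nat_lit 76) (nat_lit 29307902128082) (nat_lit 0) (nat_lit 9405270397422) (nat_lit 1) (nat_lit 5) (nat_lit 2) (nat_lit 4) (nat_lit 1) (nat_lit 4) (nat_lit 421) (nat_lit 327) (nat_lit 272)) (XT.nd (nat_lit 78) (nat_lit 0) (nat_lit 0) (XT.lf (nat_lit 0) (nat_lit 10822197187529) (nat_lit 76) (nat_lit 33692380725691) (nat_lit 0) (nat_lit 10821550961847) (nat_lit 1) (nat_lit 5) (nat_lit 2) (nat_lit 4) (nat_lit 1) (nat_lit 4) (nat_lit 422) (nat_lit 327) (nat_lit 271)) (XT.lf (nat_lit 0) (nat_lit 12450919267403) (nat_lit 76) (nat_lit 38734532421568) (nat_lit 0) (nat_lit 12450273008079) (nat_lit 1) (nat_lit 5) (nat_lit 2) (nat_lit 4) (nat_lit 1) (nat_lit 4) (nat_lit 423) (nat_lit 327) (nat_lit 270)))))) (XT.nd (nat_lit 468) (nat_lit 0) (nat_lit 0) (XT.nd (nat_lit 234) (nat_lit 0) (nat_lit 0) (XT.nd (nat_lit 78) (nat_lit 0) (nat_lit 0) (XT.lf (nat_lit 0) (nat_lit 14323949125602) (nat_lit 76) (nat_lit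 44533008009763) (nat_lit 0) (nat_lit 14323302837025) (nat_lit 1) (nat_lit 5) (nat_lit 2) (nat_lit 4) (nat_lit 1) (nat_lit 4) (nat_lit 424) (nat_lit 327) (nat_lit 269)) (XT.nd (nat_lit 78) (nat_lit 0) (nat_lit 0) (XT.lf (nat_lit 0) (nat_lit 16477932998481) (nat_lit 76) (nat_lit 51201255925696) (nat_lit 0) (nat_lit 16477286684466) (nat_lit 1) (nat_lit 5) (nat_lit 2) (nat_lit 4) (nat_lit 1) (nat_lit 4) (nat_lit 425) (nat_lit 327) (nat_lit 268)) (XT.lf (nat_lit 0) (nat_lit 18955014048771) (nat_lit 76) (nat_lit 58869741889463) (nat_lit 0) (nat_lit 18954367712636) (nat_lit 1) (nat_lit 5) (nat_lit 2) (nat_lit 4) (nat_lit 1) (nat_lit 4) (nat_lit 426) (nat_lit 327) (nat_lit 267)))) (XT.nd (nat_lit 78) (nat_lit 0) (nat_lit 0) (XT.lf (nat_lit 0) (nat_lit 21803656905716) (nat_lit 76) (nat_lit 67688501496007) (nat_lit 0) (nat_lit 21803010550347) (nat_lit 1) (nat_lit 5) (nat_lit 2) (nat_lit 4) (nat_lit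 1) (nat_lit 4) (nat_lit 427) (nat_lit 327) (nat_lit 266)) (XT.nd (nat_lit 78) (nat_lit 0) (nat_lit 0) (XT.lf (nat_lit 0) (nat_lit 25079595886083) (nat_lit 76) (nat_lit 77830075694150) (nat_lit 0) (nat_lit 25078949513989) (nat_lit 1) (nat_lit 5) (nat_lit 2) (nat_lit 4) (nat_lit 1) (nat_lit 4) (nat_lit 428) (nat_lit 327) (nat_lit 265)) (XT.lf (nat_lit 0) (nat_lit 28846925448184) (nat_lit 76) (nat_lit 89492886587771) (nat_lit 0) (nat_lit 28846279061546) (nat_lit 1) (nat_lit 5) (nat_lit 2) (nat_lit 4) (nat_lit 1) (nat_lit 4) (nat_lit 429) (nat_lit 327) (nat_lit 264))))) (XT.nd (nat_lit 234) (nat_lit 0) (nat_lit 0) (XT.nd (nat_lit 78) (nat_lit 0) (nat_lit 0) (XT.lf (nat_lit 0) (nat_lit 33179354213886) (nat_lit 76) (nat_lit 102905119607396) (nat_lit 0) (nat_lit 33178707814600) (nat_lit 1) (nat_lit 5) (nat_lit 2) (nat_lit 4) (nat_lit 1) (nat_lit 4) (nat_lit 430) (nat_lit 327) (nat_lit 263))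 (XT.nd (nat_lit 78) (nat_lit 0) (nat_lit 0) (XT.lf (nat_lit 0) (nat_lit 38161647093821) (nat_lit 76) (nat_lit 118329188007757) (nat_lit 0) (nat_lit 38161000683538) (nat_lit 1) (nat_lit 5) (nat_lit 2) (nat_lit 4) (nat_lit 1) (nat_lit 4) (nat_lit 431) (nat_lit 327) (nat_lit 262)) (XT.lf (nat_lit 0) (nat_lit 43891283731293) (nat_lit 76) (nat_lit 136066867040166) (nat_lit 0) (nat_lit 43890637311448) (nat_lit 1) (nat_lit 5) (nat_lit 2) (nat_lit 4) (nat_lit 1) (nat_lit 4) (nat_lit 432) (nat_lit 327) (nat_lit 261)))) (XT.nd (nat_lit 78) (nat_lit 0) (nat_lit 0) (XT.lf (nat_lit 0) (nat_lit 50480365712688) (nat_lit 76) (nat_lit 156465198250908) (nat_lit 0) (nat_lit 50479719284527) (nat_lit 1) (nat_lit 5) (nat_lit 2) (nat_lit 4) (nat_lit 1) (nat_lit 4) (nat_lit 433) (nat_lit 327) (nat_lit 260)) (XT.nd (nat_lit 78) (nat_lit 0) (nat_lit 0) (XT.lf (nat_lit 0) (nat_lit 58057809859380) (nat_lit 76) (nat_lit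 179923279424543) (nat_lit 0) (nat_lit 58057163423987) (nat_lit 1) (nat_lit 5) (nat_lit 2) (nat_lit 4) (nat_lit 1) (nat_lit 4) (nat_lit 434) (nat_lit 327) (nat_lit 259)) (XT.lf (nat_lit 0) (nat_lit 66771870513370) (nat_lit 76) (nat_lit 206900073018814) (nat_lit 0) (nat_lit 66771224071690) (nat_lit 1) (nat_lit 5) (nat_lit 2) (nat_lit 4) (nat_lit 1) (nat_lit 4) (nat_lit 435) (nat_lit 327) (nat_lit 258))))))) (XT.nd (nat_lit 47970) (nat_lit 0) (nat_lit 76) (XT.nd (nat_lit 47502) (nat_lit 0) (nat_lit 304) (XT.nd (nat_lit 234) (nat_lit 0) (nat_lit 0) (XT.nd (nat_lit 78) (nat_lit 0) (nat_lit 0) (XT.lf (nat_lit 0) (nat_lit 76793040165714) (nat_lit 76) (nat_lit 237923385864914) (nat_lit 0) (nat_lit 76792393718567) (nat_lit 1) (nat_lit 5) (nat_lit 2) (nat_lit 4) (nat_lit 1) (nat_lit 4) (nat_lit 436) (nat_lit 327) (nat_lit 257)) (XT.nd (nat_lit 78) (nat_lit 0) (nat_lit 0) (XT.lf (nat_lit 0) (nat_lit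 88317385179176) (nat_lit 76) (nat_lit 273600195822875) (nat_lit 0) (nat_lit 88316738727274) (nat_lit 1) (nat_lit 5) (nat_lit 2) (nat_lit 4) (nat_lit 1) (nat_lit 4) (nat_lit 437) (nat_lit 327) (nat_lit 256)) (XT.lf (nat_lit 0) (nat_lit 101570381869236) (nat_lit 76) (nat_lit 314628527435354) (nat_lit 0) (nat_lit 101569735413199) (nat_lit 1) (nat_lit 5) (nat_lit 2) (nat_lit 4) (nat_lit 1) (nat_lit 4) (nat_lit 438) (nat_lit 327) (nat_lit 255)))) (XT.nd (nat_lit 78) (nat_lit 0) (nat_lit 0) (XT.lf (nat_lit 0) (nat_lit 116811327997221) (nat_lit 76) (nat_lit 361811108929551) (nat_lit 0) (nat_lit 116810681537590) (nat_lit 1) (nat_lit 5) (nat_lit 2) (nat_lit 4) (nat_lit 1) (nat_lit 4) (nat_lit 439) (nat_lit 327) (nat_lit 254)) (XT.nd (nat_lit 78) (nat_lit 0) (nat_lit 0) (XT.lf (nat_lit 0) (nat_lit 134338415987375) (nat_lit 76) (nat_lit 416071077769483) (nat_lit 0) (nat_lit 134337769524618) (nat_lit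 1) (nat_lit 5) (nat_lit 2) (nat_lit 4) (nat_lit 1) (nat_lit 4) (nat_lit 440) (nat_lit 327) (nat_lit 253)) (XT.lf (nat_lit 0) (nat_lit 154494567126462) (nat_lit 76) (nat_lit 478470042041147) (nat_lit 0) (nat_lit 154493920660987) (nat_lit 1) (nat_lit 5) (nat_lit 2) (nat_lit 4) (nat_lit 1) (nat_lit 4) (nat_lit 441) (nat_lit 327) (nat_lit 252))))) (XT.nd (nat_lit 234) (nat_lit 76) (nat_lit 0) (XT.nd (nat_lit 78) (nat_lit 228) (nat_lit 0) (XT.lf (nat_lit 0) (nat_lit 5598558466) (nat_lit 152) (nat_lit 1115267090) (nat_lit 0) (nat_lit 5598558466) (nat_lit 9) (nat_lit 5) (nat_lit 11) (nat_lit 4) (nat_lit 9) (nat_lit 4) (nat_lit 364) (nat_lit 328) (nat_lit 328)) (XT.nd (nat_lit 78) (nat_lit 152) (nat_lit 0) (XT.lf (nat_lit 0) (nat_lit 15379603918) (nat_lit 76) (nat_lit 5900019389) (nat_lit 76) (nat_lit 5752536278) (nat_lit 8) (nat_lit 4) (nat_lit 9) (nat_lit 5) (nat_lit 9) (nat_lit 4) (nat_lit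 365) (nat_lit 328) (nat_lit 327)) (XT.lf (nat_lit 0) (nat_lit 2446500774) (nat_lit 152) (nat_lit 25181416867) (nat_lit 0) (nat_lit 2206736170) (nat_lit 6) (nat_lit 5) (nat_lit 8) (nat_lit 4) (nat_lit 6) (nat_lit 4) (nat_lit 366) (nat_lit 328) (nat_lit 326)))) (XT.nd (nat_lit 78) (nat_lit 76) (nat_lit 0) (XT.lf (nat_lit 0) (nat_lit 11435112923) (nat_lit 152) (nat_lit 10460671873) (nat_lit 0) (nat_lit 11098375779) (nat_lit 6) (nat_lit 5) (nat_lit 8) (nat_lit 4) (nat_lit 6) (nat_lit 4) (nat_lit 367) (nat_lit 328) (nat_lit 325)) (XT.nd (nat_lit 78) (nat_lit 0) (nat_lit 0) (XT.lf (nat_lit 0) (nat_lit 5549057508) (nat_lit 76) (nat_lit 15782821183) (nat_lit 76) (nat_lit 15361760090) (nat_lit 5) (nat_lit 4) (nat_lit 6) (nat_lit 5) (nat_lit 6) (nat_lit 4) (nat_lit 368) (nat_lit 328) (nat_lit 324)) (XT.lf (nat_lit 0) (nat_lit 23786974102) (nat_lit 76) (nat_lit 8834604716) (nat_lit 76) (nat_lit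 8340218452) (nat_lit 5) (nat_lit 4) (nat_lit 6) (nat_lit 5) (nat_lit 6) (nat_lit 4) (nat_lit 369) (nat_lit 328) (nat_lit 323)))))) (XT.nd (nat_lit 468) (nat_lit 0) (nat_lit 0) (XT.nd (nat_lit 234) (nat_lit 76) (nat_lit 0) (XT.nd (nat_lit 78) (nat_lit 152) (nat_lit 0) (XT.lf (nat_lit 0) (nat_lit 43587613779) (nat_lit 76) (nat_lit 1461999879) (nat_lit 76) (nat_lit 903852596) (nat_lit 5) (nat_lit 4) (nat_lit 6) (nat_lit 5) (nat_lit 6) (nat_lit 4) (nat_lit 370) (nat_lit 328) (nat_lit 322)) (XT.nd (nat_lit 78) (nat_lit 0) (nat_lit 0) (XT.lf (nat_lit 0) (nat_lit 7375959306) (nat_lit 152) (nat_lit 37366706213) (nat_lit 0) (nat_lit 6842401352) (nat_lit 3) (nat_lit 5) (nat_lit 5) (nat_lit 4) (nat_lit 3) (nat_lit 4) (nat_lit 371) (nat_lit 328) (nat_lit 321)) (XT.lf (nat_lit 0) (nat_lit 16500053119) (nat_lit 152) (nat_lit 25676112278) (nat_lit 0) (nat_lit 15924571260) (nat_lit 3) (nat_lit 5) (nat_lit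 5) (nat_lit 4) (nat_lit 3) (nat_lit 4) (nat_lit 372) (nat_lit 328) (nat_lit 320)))) (XT.nd (nat_lit 78) (nat_lit 76) (nat_lit 0) (XT.lf (nat_lit 0) (nat_lit 26554212992) (nat_lit 152) (nat_lit 13163061235) (nat_lit 0) (nat_lit 25942275563) (nat_lit 3) (nat_lit 5) (nat_lit 5) (nat_lit 4) (nat_lit 3) (nat_lit 4) (nat_lit 373) (nat_lit 328) (nat_lit 319)) (XT.nd (nat_lit 78) (nat_lit 0) (nat_lit 0) (XT.lf (nat_lit 0) (nat_lit 458045890) (nat_lit 76) (nat_lit 37296071561) (nat_lit 76) (nat_lit 36652433637) (nat_lit 2) (nat_lit 4) (nat_lit 3) (nat_lit 5) (nat_lit 3) (nat_lit 4) (nat_lit 374) (nat_lit 328) (nat_lit 318)) (XT.lf (nat_lit 0) (nat_lit 16828791322) (nat_lit 76) (nat_lit 34129676903) (nat_lit 76) (nat_lit 33458473331) (nat_lit 2) (nat_lit 4) (nat_lit 3) (nat_lit 5) (nat_lit 3) (nat_lit 4) (nat_lit 375) (nat_lit 328) (nat_lit 317))))) (XT.nd (nat_lit 234) (nat_lit 0) (nat_lit 0)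 (XT.nd (nat_lit 78) (nat_lit 0) (nat_lit 0) (XT.lf (nat_lit 0) (nat_lit 34983082177) (nat_lit 76) (nat_lit 30844208165) (nat_lit 76) (nat_lit 30149034464) (nat_lit 2) (nat_lit 4) (nat_lit 3) (nat_lit 5) (nat_lit 3) (nat_lit 4) (nat_lit 376) (nat_lit 328) (nat_lit 316)) (XT.nd (nat_lit 78) (nat_lit 0) (nat_lit 0) (XT.lf (nat_lit 0) (nat_lit 55276111103) (nat_lit 76) (nat_lit 27375384436) (nat_lit 76) (nat_lit 26659367145) (nat_lit 2) (nat_lit 4) (nat_lit 3) (nat_lit 5) (nat_lit 3) (nat_lit 4) (nat_lit 377) (nat_lit 328) (nat_lit 315)) (XT.lf (nat_lit 0) (nat_lit 78104915623) (nat_lit 76) (nat_lit 23655337426) (nat_lit 76) (nat_lit 22921195274) (nat_lit 2) (nat_lit 4) (nat_lit 3) (nat_lit 5) (nat_lit 3) (nat_lit 4) (nat_lit 378) (nat_lit 328) (nat_lit 314)))) (XT.nd (nat_lit 156) (nat_lit 0) (nat_lit 0) (XT.nd (nat_lit 78) (nat_lit 0) (nat_lit 0) (XT.lf (nat_lit 0) (nat_lit 103916146259)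 (nat_lit 76) (nat_lit 19611283607) (nat_lit 76) (nat_lit 18861380706) (nat_lit 2) (nat_lit 4) (nat_lit 3) (nat_lit 5) (nat_lit 3) (nat_lit 4) (nat_lit 379) (nat_lit 328) (nat_lit 313)) (XT.lf (nat_lit 0) (nat_lit 133214805350) (nat_lit 76) (nat_lit 15164100186) (nat_lit 76) (nat_lit 14400492286) (nat_lit 2) (nat_lit 4) (nat_lit 3) (nat_lit 5) (nat_lit 3) (nat_lit 4) (nat_lit 380) (nat_lit 328) (nat_lit 312))) (XT.nd (nat_lit 78) (nat_lit 0) (nat_lit 0) (XT.lf (nat_lit 0) (nat_lit 166574127531) (nat_lit 76) (nat_lit 10226777053) (nat_lit 76) (nat_lit 9451251763) (nat_lit 2) (nat_lit 4) (nat_lit 3) (nat_lit 5) (nat_lit 3) (nat_lit 4) (nat_lit 381) (nat_lit 328) (nat_lit 311)) (XT.lf (nat_lit 0) (nat_lit 204646795191) (nat_lit 76) (nat_lit 4702714407) (nat_lit 76) (nat_lit 3916826169) (nat_lit 2) (nat_lit 4) (nat_lit 3) (nat_lit 5) (nat_lit 3) (nat_lit 4) (nat_lit 382) (nat_lit 328) (nat_lit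 310))))))))
noncomputable def xc26 : XT := (XT.nd (nat_lit 1872) (nat_lit 0) (nat_lit 0) (XT.nd (nat_lit 936) (nat_lit 0) (nat_lit 0) (XT.nd (nat_lit 468) (nat_lit 0) (nat_lit 0) (XT.nd (nat_lit 234) (nat_lit 0) (nat_lit 0) (XT.nd (nat_lit 78) (nat_lit 0) (nat_lit 0) (XT.lf (nat_lit 0) (nat_lit 2350350081) (nat_lit 76) (nat_lit 240289882146) (nat_lit 0) (nat_lit 1659133127) (nat_lit 1) (nat_lit 5) (nat_lit 2) (nat_lit 4) (nat_lit 1) (nat_lit 4) (nat_lit 383) (nat_lit 328) (nat_lit 309)) (XT.nd (nat_lit 78) (nat_lit 0) (nat_lit 0) (XT.lf (nat_lit 0) (nat_lit 9728253736) (nat_lit 76) (nat_lit 261115148429) (nat_lit 0) (nat_lit 9030222975) (nat_lit 1) (nat_lit 5) (nat_lit 2) (nat_lit 4) (nat_lit 1) (nat_lit 4) (nat_lit 384) (nat_lit 328) (nat_lit 308)) (XT.lf (nat_lit 0) (nat_lit 18104754346) (nat_lit 76) (nat_lit 285294686036) (nat_lit 0) (nat_lit 17400798536) (nat_lit 1) (nat_lit 5) (nat_lit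 2) (nat_lit 4) (nat_lit 1) (nat_lit 4) (nat_lit 385) (nat_lit 328) (nat_lit 307)))) (XT.nd (nat_lit 78) (nat_lit 0) (nat_lit 0) (XT.lf (nat_lit 0) (nat_lit 27643739968) (nat_lit 76) (nat_lit 313301572875) (nat_lit 0) (nat_lit 26934631941) (nat_lit 1) (nat_lit 5) (nat_lit 2) (nat_lit 4) (nat_lit 1) (nat_lit 4) (nat_lit 386) (nat_lit 328) (nat_lit 306)) (XT.nd (nat_lit 78) (nat_lit 0) (nat_lit 0) (XT.lf (nat_lit 0) (nat_lit 38531842928) (nat_lit 76) (nat_lit 345683769777) (nat_lit 0) (nat_lit 37818254713) (nat_lit 1) (nat_lit 5) (nat_lit 2) (nat_lit 4) (nat_lit 1) (nat_lit 4) (nat_lit 387) (nat_lit 328) (nat_lit 305)) (XT.lf (nat_lit 0) (nat_lit 50982091329) (nat_lit 76) (nat_lit 383074841463) (nat_lit 0) (nat_lit 50264607297) (nat_lit 1) (nat_lit 5) (nat_lit 2) (nat_lit 4) (nat_lit 1) (nat_lit 4) (nat_lit 388) (nat_lit 328) (nat_lit 304))))) (XT.nd (nat_lit 234) (nat_lit 0) (nat_lit 0)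 (XT.nd (nat_lit 78) (nat_lit 0) (nat_lit 0) (XT.lf (nat_lit 0) (nat_lit 65238076985) (nat_lit 76) (nat_lit 426206352380) (nat_lit 0) (nat_lit 64517205288) (nat_lit 1) (nat_lit 5) (nat_lit 2) (nat_lit 4) (nat_lit 1) (nat_lit 4) (nat_lit 389) (nat_lit 328) (nat_lit 303)) (XT.nd (nat_lit 78) (nat_lit 0) (nat_lit 0) (XT.lf (nat_lit 0) (nat_lit 81578721357) (nat_lit 76) (nat_lit 475922179915) (nat_lit 0) (nat_lit 80854903863) (nat_lit 1) (nat_lit 5) (nat_lit 2) (nat_lit 4) (nat_lit 1) (nat_lit 4) (nat_lit 390) (nat_lit 328) (nat_lit 302)) (XT.lf (nat_lit 0) (nat_lit 100323732703) (nat_lit 76) (nat_lit 533195025041) (nat_lit 0) (nat_lit 99597353647) (nat_lit 1) (nat_lit 5) (nat_lit 2) (nat_lit 4) (nat_lit 1) (nat_lit 4) (nat_lit 391) (nat_lit 328) (nat_lit 301)))) (XT.nd (nat_lit 78) (nat_lit 0) (nat_lit 0) (XT.lf (nat_lit 0) (nat_lit 121839861246) (nat_lit 76) (nat_lit 599145443425) (nat_lit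 0) (nat_lit 121111254744) (nat_lit 1) (nat_lit 5) (nat_lit 2) (nat_lit 4) (nat_lit 1) (nat_lit 4) (nat_lit 392) (nat_lit 328) (nat_lit 300)) (XT.nd (nat_lit 78) (nat_lit 0) (nat_lit 0) (XT.lf (nat_lit 0) (nat_lit 146548074717) (nat_lit 76) (nat_lit 675063769338) (nat_lit 0) (nat_lit 145817531306) (nat_lit 1) (nat_lit 5) (nat_lit 2) (nat_lit 4) (nat_lit 1) (nat_lit 4) (nat_lit 393) (nat_lit 328) (nat_lit 299)) (XT.lf (nat_lit 0) (nat_lit 174931794685) (nat_lit 76) (nat_lit 762435361331) (nat_lit 0) (nat_lit 174199567005) (nat_lit 1) (nat_lit 5) (nat_lit 2) (nat_lit 4) (nat_lit 1) (nat_lit 4) (nat_lit 394) (nat_lit 328) (nat_lit 298)))))) (XT.nd (nat_lit 468) (nat_lit 0) (nat_lit 0) (XT.nd (nat_lit 234) (nat_lit 0) (nat_lit 0) (XT.nd (nat_lit 78) (nat_lit 0) (nat_lit 0) (XT.lf (nat_lit 0) (nat_lit 207546354801) (nat_lit 76) (nat_lit 862969663596) (nat_lit 0) (nat_lit 206812662540) (nat_lit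 1) (nat_lit 5) (nat_lit 2) (nat_lit 4) (nat_lit 1) (nat_lit 4) (nat_lit 395) (nat_lit 328) (nat_lit 297)) (XT.nd (nat_lit 78) (nat_lit 0) (nat_lit 0) (XT.lf (nat_lit 0) (nat_lit 245029866024) (nat_lit 76) (nat_lit 978633651611) (nat_lit 0) (nat_lit 244294900214) (nat_lit 1) (nat_lit 5) (nat_lit 2) (nat_lit 4) (nat_lit 1) (nat_lit 4) (nat_lit 396) (nat_lit 328) (nat_lit 296)) (XT.lf (nat_lit 0) (nat_lit 288115701400) (nat_lit 76) (nat_lit 1111690316446) (nat_lit 0) (nat_lit 287379628156) (nat_lit 1) (nat_lit 5) (nat_lit 2) (nat_lit 4) (nat_lit 1) (nat_lit 4) (nat_lit 397) (nat_lit 328) (nat_lit 295)))) (XT.nd (nat_lit 78) (nat_lit 0) (nat_lit 0) (XT.lf (nat_lit 0) (nat_lit 337646844664) (nat_lit 76) (nat_lit 1264742940675) (nat_lit 0) (nat_lit 336909808434) (nat_lit 1) (nat_lit 5) (nat_lit 2) (nat_lit 4) (nat_lit 1) (nat_lit 4) (nat_lit 398) (nat_lit 328) (nat_lit 294)) (XT.nd (nat_lit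 78) (nat_lit 0) (nat_lit 0) (XT.lf (nat_lit 0) (nat_lit 394592383402) (nat_lit 76) (nat_lit 1440786032162) (nat_lit 0) (nat_lit 393854509792) (nat_lit 1) (nat_lit 5) (nat_lit 2) (nat_lit 4) (nat_lit 1) (nat_lit 4) (nat_lit 399) (nat_lit 328) (nat_lit 293)) (XT.lf (nat_lit 0) (nat_lit 460066469459) (nat_lit 76) (nat_lit 1643263912263) (nat_lit 0) (nat_lit 459327867693) (nat_lit 1) (nat_lit 5) (nat_lit 2) (nat_lit 4) (nat_lit 1) (nat_lit 4) (nat_lit 400) (nat_lit 328) (nat_lit 292))))) (XT.nd (nat_lit 234) (nat_lit 0) (nat_lit 0) (XT.nd (nat_lit 78) (nat_lit 0) (nat_lit 0) (XT.lf (nat_lit 0) (nat_lit 535350117562) (nat_lit 76) (nat_lit 1876138104719) (nat_lit 0) (nat_lit 534610882617) (nat_lit 1) (nat_lit 5) (nat_lit 2) (nat_lit 4) (nat_lit 1) (nat_lit 4) (nat_lit 401) (nat_lit 328) (nat_lit 291)) (XT.nd (nat_lit 78) (nat_lit 0) (nat_lit 0) (XT.lf (nat_lit 0) (nat_lit 621916268652) (nat_lit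 76) (nat_lit 2143964843729) (nat_lit 0) (nat_lit 621176483117) (nat_lit 1) (nat_lit 5) (nat_lit 2) (nat_lit 4) (nat_lit 1) (nat_lit 4) (nat_lit 402) (nat_lit 328) (nat_lit 290)) (XT.lf (nat_lit 0) (nat_lit 721458608294) (nat_lit 76) (nat_lit 2451984217667) (nat_lit 0) (nat_lit 720718343985) (nat_lit 1) (nat_lit 5) (nat_lit 2) (nat_lit 4) (nat_lit 1) (nat_lit 4) (nat_lit 403) (nat_lit 328) (nat_lit 289)))) (XT.nd (nat_lit 78) (nat_lit 0) (nat_lit 0) (XT.lf (nat_lit 0) (nat_lit 835924704003) (nat_lit 76) (nat_lit 2806222692544) (nat_lit 0) (nat_lit 835184023368) (nat_lit 1) (nat_lit 5) (nat_lit 2) (nat_lit 4) (nat_lit 1) (nat_lit 4) (nat_lit 404) (nat_lit 328) (nat_lit 288)) (XT.nd (nat_lit 78) (nat_lit 0) (nat_lit 0) (XT.lf (nat_lit 0) (nat_lit 967554109825) (nat_lit 76) (nat_lit 3213611021129) (nat_lit 0) (nat_lit 966813067167) (nat_lit 1) (nat_lit 5) (nat_lit 2) (nat_lit 4) (nat_lit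 1) (nat_lit 4) (nat_lit 405) (nat_lit 328) (nat_lit 287)) (XT.lf (nat_lit 0) (nat_lit 1118922183699) (nat_lit 76) (nat_lit 3682119844633) (nat_lit 0) (nat_lit 1118180826240) (nat_lit 1) (nat_lit 5) (nat_lit 2) (nat_lit 4) (nat_lit 1) (nat_lit 4) (nat_lit 406) (nat_lit 328) (nat_lit 286))))))) (XT.nd (nat_lit 936) (nat_lit 0) (nat_lit 0) (XT.nd (nat_lit 468) (nat_lit 0) (nat_lit 0) (XT.nd (nat_lit 234) (nat_lit 0) (nat_lit 0) (XT.nd (nat_lit 78) (nat_lit 0) (nat_lit 0) (XT.lf (nat_lit 0) (nat_lit 1292990474899) (nat_lit 76) (nat_lit 4220915640039) (nat_lit 0) (nat_lit 1292248843699) (nat_lit 1) (nat_lit 5) (nat_lit 2) (nat_lit 4) (nat_lit 1) (nat_lit 4) (nat_lit 407) (nat_lit 328) (nat_lit 285)) (XT.nd (nat_lit 78) (nat_lit 0) (nat_lit 0) (XT.lf (nat_lit 0) (nat_lit 1493164667381) (nat_lit 76) (nat_lit 4840540064212) (nat_lit 0) (nat_lit 1492422798146) (nat_lit 1) (nat_lit 5) (nat_lit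 2) (nat_lit 4) (nat_lit 1) (nat_lit 4) (nat_lit 408) (nat_lit 328) (nat_lit 284)) (XT.lf (nat_lit 0) (nat_lit 1723361212738) (nat_lit 76) (nat_lit 5553116203713) (nat_lit 0) (nat_lit 1722619136516) (nat_lit 1) (nat_lit 5) (nat_lit 2) (nat_lit 4) (nat_lit 1) (nat_lit 4) (nat_lit 409) (nat_lit 328) (nat_lit 283)))) (XT.nd (nat_lit 78) (nat_lit 0) (nat_lit 0) (XT.lf (nat_lit 0) (nat_lit 1988083956423) (nat_lit 76) (nat_lit 6372585765619) (nat_lit 0) (nat_lit 1987341700211) (nat_lit 1) (nat_lit 5) (nat_lit 2) (nat_lit 4) (nat_lit 1) (nat_lit 4) (nat_lit 410) (nat_lit 328) (nat_lit 282)) (XT.nd (nat_lit 78) (nat_lit 0) (nat_lit 0) (XT.lf (nat_lit 0) (nat_lit 2292512256464) (nat_lit 76) (nat_lit 7314981850055) (nat_lit 0) (nat_lit 2291769843740) (nat_lit 1) (nat_lit 5) (nat_lit 2) (nat_lit 4) (nat_lit 1) (nat_lit 4) (nat_lit 411) (nat_lit 328) (nat_lit 281)) (XT.lf (nat_lit 0) (nat_lit 2642602318732)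 (nat_lit 76) (nat_lit 8398742641280) (nat_lit 0) (nat_lit 2641859769910) (nat_lit 1) (nat_lit 5) (nat_lit 2) (nat_lit 4) (nat_lit 1) (nat_lit 4) (nat_lit 412) (nat_lit 328) (nat_lit 280))))) (XT.nd (nat_lit 234) (nat_lit 0) (nat_lit 0) (XT.nd (nat_lit 78) (nat_lit 0) (nat_lit 0) (XT.lf (nat_lit 0) (nat_lit 3045203731400) (nat_lit 76) (nat_lit 9645072154775) (nat_lit 0) (nat_lit 3044461064233) (nat_lit 1) (nat_lit 5) (nat_lit 2) (nat_lit 4) (nat_lit 1) (nat_lit 4) (nat_lit 413) (nat_lit 328) (nat_lit 279)) (XT.nd (nat_lit 78) (nat_lit 0) (nat_lit 0) (XT.lf (nat_lit 0) (nat_lit 3508193478631) (nat_lit 76) (nat_lit 11078355098414) (nat_lit 0) (nat_lit 3507450708555) (nat_lit 1) (nat_lit 5) (nat_lit 2) (nat_lit 4) (nat_lit 1) (nat_lit 4) (nat_lit 414) (nat_lit 328) (nat_lit 278)) (XT.lf (nat_lit 0) (nat_lit 4040630055479) (nat_lit 76) (nat_lit 12726633964571) (nat_lit 0) (nat_lit 4039887195916)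 (nat_lit 1) (nat_lit 5) (nat_lit 2) (nat_lit 4) (nat_lit 1) (nat_lit 4) (nat_lit 415) (nat_lit 328) (nat_lit 277)))) (XT.nd (nat_lit 78) (nat_lit 0) (nat_lit 0) (XT.lf (nat_lit 0) (nat_lit 4652930699316) (nat_lit 76) (nat_lit 14622157687585) (nat_lit 0) (nat_lit 4652187761940) (nat_lit 1) (nat_lit 5) (nat_lit 2) (nat_lit 4) (nat_lit 1) (nat_lit 4) (nat_lit 416) (nat_lit 328) (nat_lit 276)) (XT.nd (nat_lit 78) (nat_lit 0) (nat_lit 0) (XT.lf (nat_lit 0) (nat_lit 5357075205349) (nat_lit 76) (nat_lit 16802012601167) (nat_lit 0) (nat_lit 5356332200308) (nat_lit 1) (nat_lit 5) (nat_lit 2) (nat_lit 4) (nat_lit 1) (nat_lit 4) (nat_lit 417) (nat_lit 328) (nat_lit 275)) (XT.lf (nat_lit 0) (nat_lit 6166840313913) (nat_lit 76) (nat_lit 19308848040581) (nat_lit 0) (nat_lit 6166097250033) (nat_lit 1) (nat_lit 5) (nat_lit 2) (nat_lit 4) (nat_lit 1) (nat_lit 4) (nat_lit 418) (nat_lit 328) (nat_lit 274))))))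 (XT.nd (nat_lit 468) (nat_lit 0) (nat_lit 0) (XT.nd (nat_lit 234) (nat_lit 0) (nat_lit 0) (XT.nd (nat_lit 78) (nat_lit 0) (nat_lit 0) (XT.lf (nat_lit 0) (nat_lit 7098069255392) (nat_lit 76) (nat_lit 22191710786166) (nat_lit 0) (nat_lit 7097326140348) (nat_lit 1) (nat_lit 5) (nat_lit 2) (nat_lit 4) (nat_lit 1) (nat_lit 4) (nat_lit 419) (nat_lit 328) (nat_lit 273)) (XT.nd (nat_lit 78) (nat_lit 0) (nat_lit 0) (XT.lf (nat_lit 0) (nat_lit 8168981726469) (nat_lit 76) (nat_lit 25507004674247) (nat_lit 0) (nat_lit 8168238566934) (nat_lit 1) (nat_lit 5) (nat_lit 2) (nat_lit 4) (nat_lit 1) (nat_lit 4) (nat_lit 420) (nat_lit 328) (nat_lit 272)) (XT.lf (nat_lit 0) (nat_lit 9400530362445) (nat_lit 76) (nat_lit 29319594150461) (nat_lit 0) (nat_lit 9399787164223) (nat_lit 1) (nat_lit 5) (nat_lit 2) (nat_lit 4) (nat_lit 1) (nat_lit 4) (nat_lit 421) (nat_lit 328) (nat_lit 271)))) (XT.nd (nat_lit 78) (nat_lit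 0) (nat_lit 0) (XT.lf (nat_lit 0) (nat_lit 10816810680114) (nat_lit 76) (nat_lit 33704073356733) (nat_lit 0) (nat_lit 10816067448250) (nat_lit 1) (nat_lit 5) (nat_lit 2) (nat_lit 4) (nat_lit 1) (nat_lit 4) (nat_lit 422) (nat_lit 328) (nat_lit 270)) (XT.nd (nat_lit 78) (nat_lit 0) (nat_lit 0) (XT.lf (nat_lit 0) (nat_lit 12445532511775) (nat_lit 76) (nat_lit 38746225581883) (nat_lit 0) (nat_lit 12444789250659) (nat_lit 1) (nat_lit 5) (nat_lit 2) (nat_lit 4) (nat_lit 1) (nat_lit 4) (nat_lit 423) (nat_lit 328) (nat_lit 269)) (XT.lf (nat_lit 0) (nat_lit 14318562154137) (nat_lit 76) (nat_lit 44544701630315) (nat_lit 0) (nat_lit 14317818867583) (nat_lit 1) (nat_lit 5) (nat_lit 2) (nat_lit 4) (nat_lit 1) (nat_lit 4) (nat_lit 424) (nat_lit 328) (nat_lit 268))))) (XT.nd (nat_lit 234) (nat_lit 0) (nat_lit 0) (XT.nd (nat_lit 78) (nat_lit 0) (nat_lit 0) (XT.lf (nat_lit 0) (nat_lit 16472545839332)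 (nat_lit 76) (nat_lit 51212949946455) (nat_lit 0) (nat_lit 16471802530658) (nat_lit 1) (nat_lit 5) (nat_lit 2) (nat_lit 4) (nat_lit 1) (nat_lit 4) (nat_lit 425) (nat_lit 328) (nat_lit 267)) (XT.nd (nat_lit 78) (nat_lit 0) (nat_lit 0) (XT.lf (nat_lit 0) (nat_lit 18949626726418) (nat_lit 76) (nat_lit 58881436258227) (nat_lit 0) (nat_lit 18948883398510) (nat_lit 1) (nat_lit 5) (nat_lit 2) (nat_lit 4) (nat_lit 1) (nat_lit 4) (nat_lit 426) (nat_lit 328) (nat_lit 266)) (XT.lf (nat_lit 0) (nat_lit 21798269441447) (nat_lit 76) (nat_lit 67700196167384) (nat_lit 0) (nat_lit 21797526096813) (nat_lit 1) (nat_lit 5) (nat_lit 2) (nat_lit 4) (nat_lit 1) (nat_lit 4) (nat_lit 427) (nat_lit 328) (nat_lit 265)))) (XT.nd (nat_lit 156) (nat_lit 0) (nat_lit 0) (XT.nd (nat_lit 78) (nat_lit 0) (nat_lit 0) (XT.lf (nat_lit 0) (nat_lit 25074208298409) (nat_lit 76) (nat_lit 77841770628669) (nat_lit 0) (nat_lit 25073464939231)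 (nat_lit 1) (nat_lit 5) (nat_lit 2) (nat_lit 4) (nat_lit 1) (nat_lit 4) (nat_lit 428) (nat_lit 328) (nat_lit 264)) (XT.lf (nat_lit 0) (nat_lit 28841537753201) (nat_lit 76) (nat_lit 89504581751109) (nat_lit 0) (nat_lit 28840794381376) (nat_lit 1) (nat_lit 5) (nat_lit 2) (nat_lit 4) (nat_lit 1) (nat_lit 4) (nat_lit 429) (nat_lit 328) (nat_lit 263))) (XT.nd (nat_lit 78) (nat_lit 0) (nat_lit 0) (XT.lf (nat_lit 0) (nat_lit 33173966425590) (nat_lit 76) (nat_lit 102916814969708) (nat_lit 0) (nat_lit 33173223042768) (nat_lit 1) (nat_lit 5) (nat_lit 2) (nat_lit 4) (nat_lit 1) (nat_lit 4) (nat_lit 430) (nat_lit 328) (nat_lit 262)) (XT.lf (nat_lit 0) (nat_lit 38156259224384) (nat_lit 76) (nat_lit 118340883543089) (nat_lit 0) (nat_lit 38155515831999) (nat_lit 1) (nat_lit 5) (nat_lit 2) (nat_lit 4) (nat_lit 1) (nat_lit 4) (nat_lit 431) (nat_lit 328) (nat_lit 261))))))))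
noncomputable def xc27 : XT := (XT.nd (nat_lit 48750) (nat_lit 0) (nat_lit 0) (XT.nd (nat_lit 47814) (nat_lit 0) (nat_lit 76) (XT.nd (nat_lit 468) (nat_lit 0) (nat_lit 0) (XT.nd (nat_lit 234) (nat_lit 0) (nat_lit 0) (XT.nd (nat_lit 78) (nat_lit 0) (nat_lit 0) (XT.lf (nat_lit 0) (nat_lit 43885895791299) (nat_lit 76) (nat_lit 136078562725950) (nat_lit 0) (nat_lit 43885152390598) (nat_lit 1) (nat_lit 5) (nat_lit 2) (nat_lit 4) (nat_lit 1) (nat_lit 4) (nat_lit 432) (nat_lit 328) (nat_lit 260)) (XT.nd (nat_lit 78) (nat_lit 0) (nat_lit 0) (XT.lf (nat_lit 0) (nat_lit 50474977711340) (nat_lit 76) (nat_lit 156476894067520) (nat_lit 0) (nat_lit 50474234303408) (nat_lit 1) (nat_lit 5) (nat_lit 2) (nat_lit 4) (nat_lit 1) (nat_lit 4) (nat_lit 433) (nat_lit 328) (nat_lit 259)) (XT.lf (nat_lit 0) (nat_lit 58052421804680) (nat_lit 76) (nat_lit 179934975354918) (nat_lit 0) (nat_lit 58051678390460) (nat_lit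 1) (nat_lit 5) (nat_lit 2) (nat_lit 4) (nat_lit 1) (nat_lit 4) (nat_lit 434) (nat_lit 328) (nat_lit 258)))) (XT.nd (nat_lit 78) (nat_lit 0) (nat_lit 0) (XT.lf (nat_lit 0) (nat_lit 66766482412277) (nat_lit 76) (nat_lit 206911769048114) (nat_lit 0) (nat_lit 66765738992590) (nat_lit 1) (nat_lit 5) (nat_lit 2) (nat_lit 4) (nat_lit 1) (nat_lit 4) (nat_lit 435) (nat_lit 328) (nat_lit 257)) (XT.nd (nat_lit 78) (nat_lit 0) (nat_lit 0) (XT.lf (nat_lit 0) (nat_lit 76787652024280) (nat_lit 76) (nat_lit 237935081980236) (nat_lit 0) (nat_lit 76786908599838) (nat_lit 1) (nat_lit 5) (nat_lit 2) (nat_lit 4) (nat_lit 1) (nat_lit 4) (nat_lit 436) (nat_lit 328) (nat_lit 256)) (XT.lf (nat_lit 0) (nat_lit 88311997002662) (nat_lit 76) (nat_lit 273611892012998) (nat_lit 0) (nat_lit 88311253574086) (nat_lit 1) (nat_lit 5) (nat_lit 2) (nat_lit 4) (nat_lit 1) (nat_lit 4) (nat_lit 437) (nat_lit 328) (nat_lit 255)))))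 (XT.nd (nat_lit 234) (nat_lit 0) (nat_lit 0) (XT.nd (nat_lit 78) (nat_lit 0) (nat_lit 0) (XT.lf (nat_lit 0) (nat_lit 101564993662218) (nat_lit 76) (nat_lit 314640223690523) (nat_lit 0) (nat_lit 101564250230046) (nat_lit 1) (nat_lit 5) (nat_lit 2) (nat_lit 4) (nat_lit 1) (nat_lit 4) (nat_lit 438) (nat_lit 328) (nat_lit 254)) (XT.nd (nat_lit 78) (nat_lit 0) (nat_lit 0) (XT.lf (nat_lit 0) (nat_lit 116805939763678) (nat_lit 76) (nat_lit 361822805241280) (nat_lit 0) (nat_lit 116805196328381) (nat_lit 1) (nat_lit 5) (nat_lit 2) (nat_lit 4) (nat_lit 1) (nat_lit 4) (nat_lit 439) (nat_lit 328) (nat_lit 253)) (XT.lf (nat_lit 0) (nat_lit 134333027730767) (nat_lit 76) (nat_lit 416082774130394) (nat_lit 0) (nat_lit 134332284292751) (nat_lit 1) (nat_lit 5) (nat_lit 2) (nat_lit 4) (nat_lit 1) (nat_lit 4) (nat_lit 440) (nat_lit 328) (nat_lit 252)))) (XT.nd (nat_lit 46956) (nat_lit 0) (nat_lit 608) (XT.lf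 (nat_lit 0) (nat_lit 154489178849797) (nat_lit 76) (nat_lit 478481738444828) (nat_lit 0) (nat_lit 154488435409418) (nat_lit 1) (nat_lit 5) (nat_lit 2) (nat_lit 4) (nat_lit 1) (nat_lit 4) (nat_lit 441) (nat_lit 328) (nat_lit 251)) (XT.nd (nat_lit 78) (nat_lit 152) (nat_lit 0) (XT.lf (nat_lit 0) (nat_lit 4972351905) (nat_lit 76) (nat_lit 2677831718) (nat_lit 76) (nat_lit 2677831718) (nat_lit 11) (nat_lit 4) (nat_lit 12) (nat_lit 5) (nat_lit 12) (nat_lit 4) (nat_lit 362) (nat_lit 329) (nat_lit 329)) (XT.lf (nat_lit 0) (nat_lit 2478718287) (nat_lit 152) (nat_lit 17761681767) (nat_lit 0) (nat_lit 2309112709) (nat_lit 9) (nat_lit 5) (nat_lit 11) (nat_lit 4) (nat_lit 9) (nat_lit 4) (nat_lit 363) (nat_lit 329) (nat_lit 328)))))) (XT.nd (nat_lit 468) (nat_lit 228) (nat_lit 0) (XT.nd (nat_lit 234) (nat_lit 76) (nat_lit 0) (XT.nd (nat_lit 78) (nat_lit 228) (nat_lit 0) (XT.lf (nat_lit 0) (nat_lit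 11006008519) (nat_lit 152) (nat_lit 2983966886) (nat_lit 0) (nat_lit 10688919829) (nat_lit 9) (nat_lit 5) (nat_lit 11) (nat_lit 4) (nat_lit 9) (nat_lit 4) (nat_lit 364) (nat_lit 329) (nat_lit 327)) (XT.nd (nat_lit 78) (nat_lit 152) (nat_lit 0) (XT.lf (nat_lit 0) (nat_lit 13833354524) (nat_lit 76) (nat_lit 6877469140) (nat_lit 76) (nat_lit 6432134267) (nat_lit 8) (nat_lit 4) (nat_lit 9) (nat_lit 5) (nat_lit 9) (nat_lit 4) (nat_lit 365) (nat_lit 329) (nat_lit 326)) (XT.lf (nat_lit 0) (nat_lit 1349698680) (nat_lit 152) (nat_lit 27806165360) (nat_lit 0) (nat_lit 865478424) (nat_lit 6) (nat_lit 5) (nat_lit 8) (nat_lit 4) (nat_lit 6) (nat_lit 4) (nat_lit 366) (nat_lit 329) (nat_lit 325)))) (XT.nd (nat_lit 78) (nat_lit 76) (nat_lit 0) (XT.lf (nat_lit 0) (nat_lit 10026723461) (nat_lit 152) (nat_lit 13742696102) (nat_lit 0) (nat_lit 9458179257) (nat_lit 6) (nat_lit 5) (nat_lit 8) (nat_lit 4) (nat_lit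 6) (nat_lit 4) (nat_lit 367) (nat_lit 329) (nat_lit 324)) (XT.nd (nat_lit 78) (nat_lit 0) (nat_lit 0) (XT.lf (nat_lit 0) (nat_lit 1318890435) (nat_lit 76) (nat_lit 18158491058) (nat_lit 76) (nat_lit 17516621683) (nat_lit 5) (nat_lit 4) (nat_lit 6) (nat_lit 5) (nat_lit 6) (nat_lit 4) (nat_lit 368) (nat_lit 329) (nat_lit 323)) (XT.lf (nat_lit 0) (nat_lit 19011242189) (nat_lit 76) (nat_lit 11497643940) (nat_lit 76) (nat_lit 10792013545) (nat_lit 5) (nat_lit 4) (nat_lit 6) (nat_lit 5) (nat_lit 6) (nat_lit 4) (nat_lit 369) (nat_lit 329) (nat_lit 322))))) (XT.nd (nat_lit 234) (nat_lit 76) (nat_lit 0) (XT.nd (nat_lit 78) (nat_lit 152) (nat_lit 0) (XT.lf (nat_lit 0) (nat_lit 38337477657) (nat_lit 76) (nat_lit 4374925493) (nat_lit 76) (nat_lit 3613850734) (nat_lit 5) (nat_lit 4) (nat_lit 6) (nat_lit 5) (nat_lit 6) (nat_lit 4) (nat_lit 370) (nat_lit 329) (nat_lit 321)) (XT.nd (nat_lit 78) (nat_lit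 0) (nat_lit 0) (XT.lf (nat_lit 0) (nat_lit 4284275437) (nat_lit 152) (nat_lit 44203311943) (nat_lit 0) (nat_lit 3580547394) (nat_lit 3) (nat_lit 5) (nat_lit 5) (nat_lit 4) (nat_lit 3) (nat_lit 4) (nat_lit 371) (nat_lit 329) (nat_lit 320)) (XT.lf (nat_lit 0) (nat_lit 13204393431) (nat_lit 152) (nat_lit 32945802651) (nat_lit 0) (nat_lit 12464209818) (nat_lit 3) (nat_lit 5) (nat_lit 5) (nat_lit 4) (nat_lit 3) (nat_lit 4) (nat_lit 372) (nat_lit 329) (nat_lit 319)))) (XT.nd (nat_lit 78) (nat_lit 76) (nat_lit 0) (XT.lf (nat_lit 0) (nat_lit 23081183025) (nat_lit 152) (nat_lit 20809346950) (nat_lit 0) (nat_lit 22309298917) (nat_lit 3) (nat_lit 5) (nat_lit 5) (nat_lit 4) (nat_lit 3) (nat_lit 4) (nat_lit 373) (nat_lit 329) (nat_lit 318)) (XT.nd (nat_lit 78) (nat_lit 76) (nat_lit 0) (XT.lf (nat_lit 0) (nat_lit 34107885757) (nat_lit 152) (nat_lit 7556492447) (nat_lit 0) (nat_lit 33308436001) (nat_lit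 3) (nat_lit 5) (nat_lit 5) (nat_lit 4) (nat_lit 3) (nat_lit 4) (nat_lit 374) (nat_lit 329) (nat_lit 317)) (XT.lf (nat_lit 0) (nat_lit 7763188566) (nat_lit 76) (nat_lit 39058509978) (nat_lit 76) (nat_lit 38235090093) (nat_lit 2) (nat_lit 4) (nat_lit 3) (nat_lit 5) (nat_lit 3) (nat_lit 4) (nat_lit 375) (nat_lit 329) (nat_lit 316))))))) (XT.nd (nat_lit 936) (nat_lit 0) (nat_lit 0) (XT.nd (nat_lit 468) (nat_lit 76) (nat_lit 0) (XT.nd (nat_lit 234) (nat_lit 0) (nat_lit 0) (XT.nd (nat_lit 78) (nat_lit 0) (nat_lit 0) (XT.lf (nat_lit 0) (nat_lit 25645662883) (nat_lit 76) (nat_lit 35916978598) (nat_lit 76) (nat_lit 35072715123) (nat_lit 2) (nat_lit 4) (nat_lit 3) (nat_lit 5) (nat_lit 3) (nat_lit 4) (nat_lit 376) (nat_lit 329) (nat_lit 315)) (XT.nd (nat_lit 78) (nat_lit 0) (nat_lit 0) (XT.lf (nat_lit 0) (nat_lit 45702329602) (nat_lit 76) (nat_lit 32573317789) (nat_lit 76) (nat_lit 31710929453)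 (nat_lit 2) (nat_lit 4) (nat_lit 3) (nat_lit 5) (nat_lit 3) (nat_lit 4) (nat_lit 377) (nat_lit 329) (nat_lit 314)) (XT.lf (nat_lit 0) (nat_lit 68325601767) (nat_lit 76) (nat_lit 28962108101) (nat_lit 76) (nat_lit 28083959016) (nat_lit 2) (nat_lit 4) (nat_lit 3) (nat_lit 5) (nat_lit 3) (nat_lit 4) (nat_lit 378) (nat_lit 329) (nat_lit 313)))) (XT.nd (nat_lit 78) (nat_lit 0) (nat_lit 0) (XT.lf (nat_lit 0) (nat_lit 93958108617) (nat_lit 76) (nat_lit 25012695431) (nat_lit 76) (nat_lit 24120841347) (nat_lit 2) (nat_lit 4) (nat_lit 3) (nat_lit 5) (nat_lit 3) (nat_lit 4) (nat_lit 379) (nat_lit 329) (nat_lit 312)) (XT.nd (nat_lit 78) (nat_lit 0) (nat_lit 0) (XT.lf (nat_lit 0) (nat_lit 123101355720) (nat_lit 76) (nat_lit 20647808661) (nat_lit 76) (nat_lit 19744037187) (nat_lit 2) (nat_lit 4) (nat_lit 3) (nat_lit 5) (nat_lit 3) (nat_lit 4) (nat_lit 380) (nat_lit 329) (nat_lit 311)) (XT.lf (nat_lit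 0) (nat_lit 156325537042) (nat_lit 76) (nat_lit 15782047834) (nat_lit 76) (nat_lit 14867913412) (nat_lit 2) (nat_lit 4) (nat_lit 3) (nat_lit 5) (nat_lit 3) (nat_lit 4) (nat_lit 381) (nat_lit 329) (nat_lit 310))))) (XT.nd (nat_lit 234) (nat_lit 0) (nat_lit 0) (XT.nd (nat_lit 78) (nat_lit 76) (nat_lit 0) (XT.lf (nat_lit 0) (nat_lit 194280690912) (nat_lit 76) (nat_lit 10320213281) (nat_lit 76) (nat_lit 9397067599) (nat_lit 2) (nat_lit 4) (nat_lit 3) (nat_lit 5) (nat_lit 3) (nat_lit 4) (nat_lit 382) (nat_lit 329) (nat_lit 309)) (XT.nd (nat_lit 78) (nat_lit 76) (nat_lit 0) (XT.lf (nat_lit 0) (nat_lit 237709418167) (nat_lit 76) (nat_lit 4155443020) (nat_lit 76) (nat_lit 3224461461) (nat_lit 2) (nat_lit 4) (nat_lit 3) (nat_lit 5) (nat_lit 3) (nat_lit 4) (nat_lit 383) (nat_lit 329) (nat_lit 308)) (XT.lf (nat_lit 0) (nat_lit 3866740228) (nat_lit 76) (nat_lit 273851669600) (nat_lit 0) (nat_lit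 3051265998) (nat_lit 1) (nat_lit 5) (nat_lit 2) (nat_lit 4) (nat_lit 1) (nat_lit 4) (nat_lit 384) (nat_lit 329) (nat_lit 307)))) (XT.nd (nat_lit 78) (nat_lit 0) (nat_lit 0) (XT.lf (nat_lit 0) (nat_lit 12199524523) (nat_lit 76) (nat_lit 298124425156) (nat_lit 0) (nat_lit 11378898075) (nat_lit 1) (nat_lit 5) (nat_lit 2) (nat_lit 4) (nat_lit 1) (nat_lit 4) (nat_lit 385) (nat_lit 329) (nat_lit 306)) (XT.nd (nat_lit 78) (nat_lit 0) (nat_lit 0) (XT.lf (nat_lit 0) (nat_lit 21700495956) (nat_lit 76) (nat_lit 326212371082) (nat_lit 0) (nat_lit 20875389320) (nat_lit 1) (nat_lit 5) (nat_lit 2) (nat_lit 4) (nat_lit 1) (nat_lit 4) (nat_lit 386) (nat_lit 329) (nat_lit 305)) (XT.lf (nat_lit 0) (nat_lit 32555543101) (nat_lit 76) (nat_lit 358665054147) (nat_lit 0) (nat_lit 31726540648) (nat_lit 1) (nat_lit 5) (nat_lit 2) (nat_lit 4) (nat_lit 1) (nat_lit 4) (nat_lit 387) (nat_lit 329) (nat_lit 304))))))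 (XT.nd (nat_lit 468) (nat_lit 0) (nat_lit 0) (XT.nd (nat_lit 234) (nat_lit 0) (nat_lit 0) (XT.nd (nat_lit 78) (nat_lit 0) (nat_lit 0) (XT.lf (nat_lit 0) (nat_lit 44977047313) (nat_lit 76) (nat_lit 396117418148) (nat_lit 0) (nat_lit 44144657195) (nat_lit 1) (nat_lit 5) (nat_lit 2) (nat_lit 4) (nat_lit 1) (nat_lit 4) (nat_lit 388) (nat_lit 329) (nat_lit 303)) (XT.nd (nat_lit 78) (nat_lit 0) (nat_lit 0) (XT.lf (nat_lit 0) (nat_lit 59208038024) (nat_lit 76) (nat_lit 439302226730) (nat_lit 0) (nat_lit 58372702109) (nat_lit 1) (nat_lit 5) (nat_lit 2) (nat_lit 4) (nat_lit 1) (nat_lit 4) (nat_lit 389) (nat_lit 329) (nat_lit 302)) (XT.lf (nat_lit 0) (nat_lit 75526947660) (nat_lit 76) (nat_lit 489064400061) (nat_lit 0) (nat_lit 74689050183) (nat_lit 1) (nat_lit 5) (nat_lit 2) (nat_lit 4) (nat_lit 1) (nat_lit 4) (nat_lit 390) (nat_lit 329) (nat_lit 301)))) (XT.nd (nat_lit 78) (nat_lit 0) (nat_lit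 0) (XT.lf (nat_lit 0) (nat_lit 94253059236) (nat_lit 76) (nat_lit 546377545880) (nat_lit 0) (nat_lit 93412934314) (nat_lit 1) (nat_lit 5) (nat_lit 2) (nat_lit 4) (nat_lit 1) (nat_lit 4) (nat_lit 391) (nat_lit 329) (nat_lit 300)) (XT.nd (nat_lit 78) (nat_lit 0) (nat_lit 0) (XT.lf (nat_lit 0) (nat_lit 115752753196) (nat_lit 76) (nat_lit 612363008343) (nat_lit 0) (nat_lit 114910691364) (nat_lit 1) (nat_lit 5) (nat_lit 2) (nat_lit 4) (nat_lit 1) (nat_lit 4) (nat_lit 392) (nat_lit 329) (nat_lit 299)) (XT.lf (nat_lit 0) (nat_lit 140446675726) (nat_lit 76) (nat_lit 688311807369) (nat_lit 0) (nat_lit 139602929625) (nat_lit 1) (nat_lit 5) (nat_lit 2) (nat_lit 4) (nat_lit 1) (nat_lit 4) (nat_lit 393) (nat_lit 329) (nat_lit 298))))) (XT.nd (nat_lit 234) (nat_lit 0) (nat_lit 0) (XT.nd (nat_lit 78) (nat_lit 0) (nat_lit 0) (XT.lf (nat_lit 0) (nat_lit 168817968788) (nat_lit 76) (nat_lit 775709897722)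 (nat_lit 0) (nat_lit 167972758106) (nat_lit 1) (nat_lit 5) (nat_lit 2) (nat_lit 4) (nat_lit 1) (nat_lit 4) (nat_lit 394) (nat_lit 329) (nat_lit 297)) (XT.nd (nat_lit 78) (nat_lit 0) (nat_lit 0) (XT.lf (nat_lit 0) (nat_lit 201421722900) (nat_lit 76) (nat_lit 876267242038) (nat_lit 0) (nat_lit 200575238668) (nat_lit 1) (nat_lit 5) (nat_lit 2) (nat_lit 4) (nat_lit 1) (nat_lit 4) (nat_lit 395) (nat_lit 329) (nat_lit 296)) (XT.lf (nat_lit 0) (nat_lit 238895837597) (nat_lit 76) (nat_lit 991951266620) (nat_lit 0) (nat_lit 238048245932) (nat_lit 1) (nat_lit 5) (nat_lit 2) (nat_lit 4) (nat_lit 1) (nat_lit 4) (nat_lit 396) (nat_lit 329) (nat_lit 295)))) (XT.nd (nat_lit 156) (nat_lit 0) (nat_lit 0) (XT.nd (nat_lit 78) (nat_lit 0) (nat_lit 0) (XT.lf (nat_lit 0) (nat_lit 281973502081) (nat_lit 76) (nat_lit 1125025354556) (nat_lit 0) (nat_lit 281124947429) (nat_lit 1) (nat_lit 5) (nat_lit 2) (nat_lit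 4) (nat_lit 1) (nat_lit 4) (nat_lit 397) (nat_lit 329) (nat_lit 294)) (XT.lf (nat_lit 0) (nat_lit 331497540221) (nat_lit 76) (nat_lit 1278093129308) (nat_lit 0) (nat_lit 330648148191) (nat_lit 1) (nat_lit 5) (nat_lit 2) (nat_lit 4) (nat_lit 1) (nat_lit 4) (nat_lit 398) (nat_lit 329) (nat_lit 293))) (XT.nd (nat_lit 78) (nat_lit 0) (nat_lit 0) (XT.lf (nat_lit 0) (nat_lit 388436900591) (nat_lit 76) (nat_lit 1454149395163) (nat_lit 0) (nat_lit 387586780405) (nat_lit 1) (nat_lit 5) (nat_lit 2) (nat_lit 4) (nat_lit 1) (nat_lit 4) (nat_lit 399) (nat_lit 329) (nat_lit 292)) (XT.lf (nat_lit 0) (nat_lit 453905614154) (nat_lit 76) (nat_lit 1656638731236) (nat_lit 0) (nat_lit 453054860788) (nat_lit 1) (nat_lit 5) (nat_lit 2) (nat_lit 4) (nat_lit 1) (nat_lit 4) (nat_lit 400) (nat_lit 329) (nat_lit 291))))))))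
noncomputable def xc28 : XT := (XT.nd (nat_lit 1872) (nat_lit 0) (nat_lit 0) (XT.nd (nat_lit 936) (nat_lit 0) (nat_lit 0) (XT.nd (nat_lit 468) (nat_lit 0) (nat_lit 0) (XT.nd (nat_lit 234) (nat_lit 0) (nat_lit 0) (XT.nd (nat_lit 78) (nat_lit 0) (nat_lit 0) (XT.lf (nat_lit 0) (nat_lit 529184590523) (nat_lit 76) (nat_lit 1889522885406) (nat_lit 0) (nat_lit 528333286567) (nat_lit 1) (nat_lit 5) (nat_lit 2) (nat_lit 4) (nat_lit 1) (nat_lit 4) (nat_lit 401) (nat_lit 329) (nat_lit 290)) (XT.nd (nat_lit 78) (nat_lit 0) (nat_lit 0) (XT.lf (nat_lit 0) (nat_lit 615746679235) (nat_lit 76) (nat_lit 2157358286778) (nat_lit 0) (nat_lit 614894896505) (nat_lit 1) (nat_lit 5) (nat_lit 2) (nat_lit 4) (nat_lit 1) (nat_lit 4) (nat_lit 402) (nat_lit 329) (nat_lit 289)) (XT.lf (nat_lit 0) (nat_lit 715285486375) (nat_lit 76) (nat_lit 2465385193203) (nat_lit 0) (nat_lit 714433287319) (nat_lit 1) (nat_lit 5) (nat_lit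 2) (nat_lit 4) (nat_lit 1) (nat_lit 4) (nat_lit 403) (nat_lit 329) (nat_lit 288)))) (XT.nd (nat_lit 78) (nat_lit 0) (nat_lit 0) (XT.lf (nat_lit 0) (nat_lit 829748510343) (nat_lit 76) (nat_lit 2819630218069) (nat_lit 0) (nat_lit 828895949265) (nat_lit 1) (nat_lit 5) (nat_lit 2) (nat_lit 4) (nat_lit 1) (nat_lit 4) (nat_lit 404) (nat_lit 329) (nat_lit 287)) (XT.nd (nat_lit 78) (nat_lit 0) (nat_lit 0) (XT.lf (nat_lit 0) (nat_lit 961375245085) (nat_lit 76) (nat_lit 3227024242296) (nat_lit 0) (nat_lit 960522369205) (nat_lit 1) (nat_lit 5) (nat_lit 2) (nat_lit 4) (nat_lit 1) (nat_lit 4) (nat_lit 405) (nat_lit 329) (nat_lit 286)) (XT.lf (nat_lit 0) (nat_lit 1112740996283) (nat_lit 76) (nat_lit 3695538018533) (nat_lit 0) (nat_lit 1111887846662) (nat_lit 1) (nat_lit 5) (nat_lit 2) (nat_lit 4) (nat_lit 1) (nat_lit 4) (nat_lit 406) (nat_lit 329) (nat_lit 285))))) (XT.nd (nat_lit 234) (nat_lit 0)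 (nat_lit 0) (XT.nd (nat_lit 78) (nat_lit 0) (nat_lit 0) (XT.lf (nat_lit 0) (nat_lit 1286807267762) (nat_lit 76) (nat_lit 4234338120663) (nat_lit 0) (nat_lit 1285953880106) (nat_lit 1) (nat_lit 5) (nat_lit 2) (nat_lit 4) (nat_lit 1) (nat_lit 4) (nat_lit 407) (nat_lit 329) (nat_lit 284)) (XT.nd (nat_lit 78) (nat_lit 0) (nat_lit 0) (XT.lf (nat_lit 0) (nat_lit 1486979703967) (nat_lit 76) (nat_lit 4853966289814) (nat_lit 0) (nat_lit 1486126109323) (nat_lit 1) (nat_lit 5) (nat_lit 2) (nat_lit 4) (nat_lit 1) (nat_lit 4) (nat_lit 408) (nat_lit 329) (nat_lit 283)) (XT.lf (nat_lit 0) (nat_lit 1717174722126) (nat_lit 76) (nat_lit 5566545685818) (nat_lit 0) (nat_lit 1716320947493) (nat_lit 1) (nat_lit 5) (nat_lit 2) (nat_lit 4) (nat_lit 1) (nat_lit 4) (nat_lit 409) (nat_lit 329) (nat_lit 282)))) (XT.nd (nat_lit 78) (nat_lit 0) (nat_lit 0) (XT.lf (nat_lit 0) (nat_lit 1981896137812) (nat_lit 76) (nat_lit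 6386018079465) (nat_lit 0) (nat_lit 1981042206668) (nat_lit 1) (nat_lit 5) (nat_lit 2) (nat_lit 4) (nat_lit 1) (nat_lit 4) (nat_lit 410) (nat_lit 329) (nat_lit 281)) (XT.nd (nat_lit 78) (nat_lit 0) (nat_lit 0) (XT.lf (nat_lit 0) (nat_lit 2286323283072) (nat_lit 76) (nat_lit 7328416626283) (nat_lit 0) (nat_lit 2285469215830) (nat_lit 1) (nat_lit 5) (nat_lit 2) (nat_lit 4) (nat_lit 1) (nat_lit 4) (nat_lit 411) (nat_lit 329) (nat_lit 280)) (XT.lf (nat_lit 0) (nat_lit 2636412341182) (nat_lit 76) (nat_lit 8412179558712) (nat_lit 0) (nat_lit 2635558155594) (nat_lit 1) (nat_lit 5) (nat_lit 2) (nat_lit 4) (nat_lit 1) (nat_lit 4) (nat_lit 412) (nat_lit 329) (nat_lit 279)))))) (XT.nd (nat_lit 468) (nat_lit 0) (nat_lit 0) (XT.nd (nat_lit 234) (nat_lit 0) (nat_lit 0) (XT.nd (nat_lit 78) (nat_lit 0) (nat_lit 0) (XT.lf (nat_lit 0) (nat_lit 3039012880670) (nat_lit 76) (nat_lit 9658510934123) (nat_lit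 0) (nat_lit 3038158592173) (nat_lit 1) (nat_lit 5) (nat_lit 2) (nat_lit 4) (nat_lit 1) (nat_lit 4) (nat_lit 413) (nat_lit 329) (nat_lit 278)) (XT.nd (nat_lit 78) (nat_lit 0) (nat_lit 0) (XT.lf (nat_lit 0) (nat_lit 3502001868614) (nat_lit 76) (nat_lit 11091795496819) (nat_lit 0) (nat_lit 3501147490630) (nat_lit 1) (nat_lit 5) (nat_lit 2) (nat_lit 4) (nat_lit 1) (nat_lit 4) (nat_lit 414) (nat_lit 329) (nat_lit 277)) (XT.lf (nat_lit 0) (nat_lit 4034437785211) (nat_lit 76) (nat_lit 12740075770852) (nat_lit 0) (nat_lit 4033583329414) (nat_lit 1) (nat_lit 5) (nat_lit 2) (nat_lit 4) (nat_lit 1) (nat_lit 4) (nat_lit 415) (nat_lit 329) (nat_lit 276)))) (XT.nd (nat_lit 78) (nat_lit 0) (nat_lit 0) (XT.lf (nat_lit 0) (nat_lit 4646737854919) (nat_lit 76) (nat_lit 14635600718106) (nat_lit 0) (nat_lit 4645883331456) (nat_lit 1) (nat_lit 5) (nat_lit 2) (nat_lit 4) (nat_lit 1) (nat_lit 4) (nat_lit 416)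 (nat_lit 329) (nat_lit 275)) (XT.nd (nat_lit 78) (nat_lit 0) (nat_lit 0) (XT.lf (nat_lit 0) (nat_lit 5350881861708) (nat_lit 76) (nat_lit 16815456696243) (nat_lit 0) (nat_lit 5350027279407) (nat_lit 1) (nat_lit 5) (nat_lit 2) (nat_lit 4) (nat_lit 1) (nat_lit 4) (nat_lit 417) (nat_lit 329) (nat_lit 274)) (XT.lf (nat_lit 0) (nat_lit 6160646536146) (nat_lit 76) (nat_lit 19322293061359) (nat_lit 0) (nat_lit 6159791902681) (nat_lit 1) (nat_lit 5) (nat_lit 2) (nat_lit 4) (nat_lit 1) (nat_lit 4) (nat_lit 418) (nat_lit 329) (nat_lit 273))))) (XT.nd (nat_lit 234) (nat_lit 0) (nat_lit 0) (XT.nd (nat_lit 78) (nat_lit 0) (nat_lit 0) (XT.lf (nat_lit 0) (nat_lit 7091875100126) (nat_lit 76) (nat_lit 22205156611902) (nat_lit 0) (nat_lit 7091020422170) (nat_lit 1) (nat_lit 5) (nat_lit 2) (nat_lit 4) (nat_lit 1) (nat_lit 4) (nat_lit 419) (nat_lit 329) (nat_lit 272)) (XT.nd (nat_lit 78) (nat_lit 0) (nat_lit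 0) (XT.lf (nat_lit 0) (nat_lit 8162787242941) (nat_lit 76) (nat_lit 25520451199946) (nat_lit 0) (nat_lit 8161932526298) (nat_lit 1) (nat_lit 5) (nat_lit 2) (nat_lit 4) (nat_lit 1) (nat_lit 4) (nat_lit 420) (nat_lit 329) (nat_lit 271)) (XT.lf (nat_lit 0) (nat_lit 9394335593474) (nat_lit 76) (nat_lit 29333041284823) (nat_lit 0) (nat_lit 9393480843189) (nat_lit 1) (nat_lit 5) (nat_lit 2) (nat_lit 4) (nat_lit 1) (nat_lit 4) (nat_lit 421) (nat_lit 329) (nat_lit 270)))) (XT.nd (nat_lit 78) (nat_lit 0) (nat_lit 0) (XT.lf (nat_lit 0) (nat_lit 10810615662929) (nat_lit 76) (nat_lit 33717521020368) (nat_lit 0) (nat_lit 10809760883392) (nat_lit 1) (nat_lit 5) (nat_lit 2) (nat_lit 4) (nat_lit 1) (nat_lit 4) (nat_lit 422) (nat_lit 329) (nat_lit 269)) (XT.nd (nat_lit 78) (nat_lit 0) (nat_lit 0) (XT.lf (nat_lit 0) (nat_lit 12439337278754) (nat_lit 76) (nat_lit 38759673705755) (nat_lit 0) (nat_lit 12438482473779)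 (nat_lit 1) (nat_lit 5) (nat_lit 2) (nat_lit 4) (nat_lit 1) (nat_lit 4) (nat_lit 423) (nat_lit 329) (nat_lit 268)) (XT.lf (nat_lit 0) (nat_lit 14312366733432) (nat_lit 76) (nat_lit 44558150154393) (nat_lit 0) (nat_lit 14311511906337) (nat_lit 1) (nat_lit 5) (nat_lit 2) (nat_lit 4) (nat_lit 1) (nat_lit 4) (nat_lit 424) (nat_lit 329) (nat_lit 267))))))) (XT.nd (nat_lit 936) (nat_lit 0) (nat_lit 0) (XT.nd (nat_lit 468) (nat_lit 0) (nat_lit 0) (XT.nd (nat_lit 234) (nat_lit 0) (nat_lit 0) (XT.nd (nat_lit 78) (nat_lit 0) (nat_lit 0) (XT.lf (nat_lit 0) (nat_lit 16466350255423) (nat_lit 76) (nat_lit 51226398818538) (nat_lit 0) (nat_lit 16465495409094) (nat_lit 1) (nat_lit 5) (nat_lit 2) (nat_lit 4) (nat_lit 1) (nat_lit 4) (nat_lit 425) (nat_lit 329) (nat_lit 266)) (XT.nd (nat_lit 78) (nat_lit 0) (nat_lit 0) (XT.lf (nat_lit 0) (nat_lit 18943431000593) (nat_lit 76) (nat_lit 58894885432924) (nat_lit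 0) (nat_lit 18942576137538) (nat_lit 1) (nat_lit 5) (nat_lit 2) (nat_lit 4) (nat_lit 1) (nat_lit 4) (nat_lit 426) (nat_lit 329) (nat_lit 265)) (XT.lf (nat_lit 0) (nat_lit 21792073592217) (nat_lit 76) (nat_lit 67713645605223) (nat_lit 0) (nat_lit 21791218714618) (nat_lit 1) (nat_lit 5) (nat_lit 2) (nat_lit 4) (nat_lit 1) (nat_lit 4) (nat_lit 427) (nat_lit 329) (nat_lit 264)))) (XT.nd (nat_lit 78) (nat_lit 0) (nat_lit 0) (XT.lf (nat_lit 0) (nat_lit 25068012341870) (nat_lit 76) (nat_lit 77855220295327) (nat_lit 0) (nat_lit 25067157451624) (nat_lit 1) (nat_lit 5) (nat_lit 2) (nat_lit 4) (nat_lit 1) (nat_lit 4) (nat_lit 428) (nat_lit 329) (nat_lit 263)) (XT.nd (nat_lit 78) (nat_lit 0) (nat_lit 0) (XT.lf (nat_lit 0) (nat_lit 28835341703349) (nat_lit 76) (nat_lit 89518031616741) (nat_lit 0) (nat_lit 28834486802106) (nat_lit 1) (nat_lit 5) (nat_lit 2) (nat_lit 4) (nat_lit 1) (nat_lit 4) (nat_lit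 429) (nat_lit 329) (nat_lit 262)) (XT.lf (nat_lit 0) (nat_lit 33167770294597) (nat_lit 76) (nat_lit 102930265008359) (nat_lit 0) (nat_lit 33166915383791) (nat_lit 1) (nat_lit 5) (nat_lit 2) (nat_lit 4) (nat_lit 1) (nat_lit 4) (nat_lit 430) (nat_lit 329) (nat_lit 261))))) (XT.nd (nat_lit 234) (nat_lit 0) (nat_lit 0) (XT.nd (nat_lit 78) (nat_lit 0) (nat_lit 0) (XT.lf (nat_lit 0) (nat_lit 38150063022834) (nat_lit 76) (nat_lit 118354333732193) (nat_lit 0) (nat_lit 38149208103712) (nat_lit 1) (nat_lit 5) (nat_lit 2) (nat_lit 4) (nat_lit 1) (nat_lit 4) (nat_lit 431) (nat_lit 329) (nat_lit 260)) (XT.nd (nat_lit 78) (nat_lit 0) (nat_lit 0) (XT.lf (nat_lit 0) (nat_lit 43879699528394) (nat_lit 76) (nat_lit 136092013045881) (nat_lit 0) (nat_lit 43878844602042) (nat_lit 1) (nat_lit 5) (nat_lit 2) (nat_lit 4) (nat_lit 1) (nat_lit 4) (nat_lit 432) (nat_lit 329) (nat_lit 259)) (XT.lf (nat_lit 0) (nat_lit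 50468781395083) (nat_lit 76) (nat_lit 156490344501216) (nat_lit 0) (nat_lit 50467926462442) (nat_lit 1) (nat_lit 5) (nat_lit 2) (nat_lit 4) (nat_lit 1) (nat_lit 4) (nat_lit 433) (nat_lit 329) (nat_lit 258)))) (XT.nd (nat_lit 78) (nat_lit 0) (nat_lit 0) (XT.lf (nat_lit 0) (nat_lit 58046225442031) (nat_lit 76) (nat_lit 179948425887538) (nat_lit 0) (nat_lit 58045370503923) (nat_lit 1) (nat_lit 5) (nat_lit 2) (nat_lit 4) (nat_lit 1) (nat_lit 4) (nat_lit 434) (nat_lit 329) (nat_lit 257)) (XT.nd (nat_lit 78) (nat_lit 0) (nat_lit 0) (XT.lf (nat_lit 0) (nat_lit 66760286009287) (nat_lit 76) (nat_lit 206925219666756) (nat_lit 0) (nat_lit 66759431066424) (nat_lit 1) (nat_lit 5) (nat_lit 2) (nat_lit 4) (nat_lit 1) (nat_lit 4) (nat_lit 435) (nat_lit 329) (nat_lit 256)) (XT.lf (nat_lit 0) (nat_lit 76781455586210) (nat_lit 76) (nat_lit 237948532673679) (nat_lit 0) (nat_lit 76780600639213) (nat_lit 1)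 (nat_lit 5) (nat_lit 2) (nat_lit 4) (nat_lit 1) (nat_lit 4) (nat_lit 436) (nat_lit 329) (nat_lit 255)))))) (XT.nd (nat_lit 47268) (nat_lit 0) (nat_lit 380) (XT.nd (nat_lit 234) (nat_lit 0) (nat_lit 0) (XT.nd (nat_lit 78) (nat_lit 0) (nat_lit 0) (XT.lf (nat_lit 0) (nat_lit 88305800534088) (nat_lit 76) (nat_lit 273625342771486) (nat_lit 0) (nat_lit 88304945583496) (nat_lit 1) (nat_lit 5) (nat_lit 2) (nat_lit 4) (nat_lit 1) (nat_lit 4) (nat_lit 437) (nat_lit 329) (nat_lit 254)) (XT.nd (nat_lit 78) (nat_lit 0) (nat_lit 0) (XT.lf (nat_lit 0) (nat_lit 101558797167119) (nat_lit 76) (nat_lit 314653674505571) (nat_lit 0) (nat_lit 101557942213401) (nat_lit 1) (nat_lit 5) (nat_lit 2) (nat_lit 4) (nat_lit 1) (nat_lit 4) (nat_lit 438) (nat_lit 329) (nat_lit 253)) (XT.lf (nat_lit 0) (nat_lit 116799743245514) (nat_lit 76) (nat_lit 361836256105511) (nat_lit 0) (nat_lit 116798888289077) (nat_lit 1) (nat_lit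 5) (nat_lit 2) (nat_lit 4) (nat_lit 1) (nat_lit 4) (nat_lit 439) (nat_lit 329) (nat_lit 252)))) (XT.nd (nat_lit 46878) (nat_lit 0) (nat_lit 836) (XT.lf (nat_lit 0) (nat_lit 134326831192546) (nat_lit 76) (nat_lit 416096225037393) (nat_lit 0) (nat_lit 134325976233746) (nat_lit 1) (nat_lit 5) (nat_lit 2) (nat_lit 4) (nat_lit 1) (nat_lit 4) (nat_lit 440) (nat_lit 329) (nat_lit 251)) (XT.nd (nat_lit 78) (nat_lit 152) (nat_lit 0) (XT.lf (nat_lit 0) (nat_lit 7911024960) (nat_lit 76) (nat_lit 433705463) (nat_lit 76) (nat_lit 433705463) (nat_lit 14) (nat_lit 4) (nat_lit 15) (nat_lit 5) (nat_lit 15) (nat_lit 4) (nat_lit 360) (nat_lit 330) (nat_lit 330)) (XT.lf (nat_lit 0) (nat_lit 6712653319) (nat_lit 152) (nat_lit 5813025075) (nat_lit 0) (nat_lit 6488349942) (nat_lit 12) (nat_lit 5) (nat_lit 14) (nat_lit 4) (nat_lit 12) (nat_lit 4) (nat_lit 361) (nat_lit 330) (nat_lit 329))))) (XT.nd (nat_lit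 234) (nat_lit 228) (nat_lit 0) (XT.nd (nat_lit 78) (nat_lit 152) (nat_lit 0) (XT.lf (nat_lit 0) (nat_lit 9229052159) (nat_lit 76) (nat_lit 5949161701) (nat_lit 76) (nat_lit 5529811909) (nat_lit 11) (nat_lit 4) (nat_lit 12) (nat_lit 5) (nat_lit 12) (nat_lit 4) (nat_lit 362) (nat_lit 330) (nat_lit 328)) (XT.nd (nat_lit 78) (nat_lit 0) (nat_lit 0) (XT.lf (nat_lit 0) (nat_lit 1898229620) (nat_lit 152) (nat_lit 19381562085) (nat_lit 0) (nat_lit 1386094515) (nat_lit 9) (nat_lit 5) (nat_lit 11) (nat_lit 4) (nat_lit 9) (nat_lit 4) (nat_lit 363) (nat_lit 330) (nat_lit 327)) (XT.lf (nat_lit 0) (nat_lit 10111855511) (nat_lit 152) (nat_lit 5259006079) (nat_lit 0) (nat_lit 9471474223) (nat_lit 9) (nat_lit 5) (nat_lit 11) (nat_lit 4) (nat_lit 9) (nat_lit 4) (nat_lit 364) (nat_lit 330) (nat_lit 326)))) (XT.nd (nat_lit 156) (nat_lit 152) (nat_lit 0) (XT.nd (nat_lit 78) (nat_lit 0) (nat_lit 0) (XT.lf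 (nat_lit 0) (nat_lit 10710603029) (nat_lit 76) (nat_lit 8704009547) (nat_lit 76) (nat_lit 7952109838) (nat_lit 8) (nat_lit 4) (nat_lit 9) (nat_lit 5) (nat_lit 9) (nat_lit 4) (nat_lit 365) (nat_lit 330) (nat_lit 325)) (XT.lf (nat_lit 0) (nat_lit 28497507387) (nat_lit 76) (nat_lit 1331837972) (nat_lit 76) (nat_lit 482965724) (nat_lit 8) (nat_lit 4) (nat_lit 9) (nat_lit 5) (nat_lit 9) (nat_lit 4) (nat_lit 366) (nat_lit 330) (nat_lit 324))) (XT.nd (nat_lit 78) (nat_lit 0) (nat_lit 0) (XT.lf (nat_lit 0) (nat_lit 7824542673) (nat_lit 152) (nat_lit 18745843821) (nat_lit 0) (nat_lit 7013067720) (nat_lit 6) (nat_lit 5) (nat_lit 8) (nat_lit 4) (nat_lit 6) (nat_lit 4) (nat_lit 367) (nat_lit 330) (nat_lit 323)) (XT.lf (nat_lit 0) (nat_lit 16984983451) (nat_lit 152) (nat_lit 4298668915) (nat_lit 0) (nat_lit 16109747478) (nat_lit 6) (nat_lit 5) (nat_lit 8) (nat_lit 4) (nat_lit 6) (nat_lit 4) (nat_lit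 368) (nat_lit 330) (nat_lit 322))))))))
noncomputable def xc29 : XT := (XT.nd (nat_lit 1872) (nat_lit 0) (nat_lit 0) (XT.nd (nat_lit 936) (nat_lit 76) (nat_lit 0) (XT.nd (nat_lit 468) (nat_lit 76) (nat_lit 0) (XT.nd (nat_lit 234) (nat_lit 76) (nat_lit 0) (XT.nd (nat_lit 78) (nat_lit 76) (nat_lit 0) (XT.lf (nat_lit 0) (nat_lit 12499181439) (nat_lit 76) (nat_lit 15097394786) (nat_lit 76) (nat_lit 14166714449) (nat_lit 5) (nat_lit 4) (nat_lit 6) (nat_lit 5) (nat_lit 6) (nat_lit 4) (nat_lit 369) (nat_lit 330) (nat_lit 321)) (XT.nd (nat_lit 78) (nat_lit 76) (nat_lit 0) (XT.lf (nat_lit 0) (nat_lit 31412891508) (nat_lit 76) (nat_lit 8191968852) (nat_lit 76) (nat_lit 7213076025) (nat_lit 5) (nat_lit 4) (nat_lit 6) (nat_lit 5) (nat_lit 6) (nat_lit 4) (nat_lit 370) (nat_lit 330) (nat_lit 320)) (XT.lf (nat_lit 0) (nat_lit 331453165) (nat_lit 152) (nat_lit 308192426) (nat_lit 76) (nat_lit 52043635823)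 (nat_lit 4) (nat_lit 5) (nat_lit 6) (nat_lit 5) (nat_lit 5) (nat_lit 4) (nat_lit 371) (nat_lit 330) (nat_lit 319)))) (XT.nd (nat_lit 78) (nat_lit 0) (nat_lit 0) (XT.lf (nat_lit 0) (nat_lit 9033038691) (nat_lit 152) (nat_lit 42115626565) (nat_lit 0) (nat_lit 8113671472) (nat_lit 3) (nat_lit 5) (nat_lit 5) (nat_lit 4) (nat_lit 3) (nat_lit 4) (nat_lit 372) (nat_lit 330) (nat_lit 318)) (XT.nd (nat_lit 78) (nat_lit 0) (nat_lit 0) (XT.lf (nat_lit 0) (nat_lit 18755593261) (nat_lit 152) (nat_lit 30306645075) (nat_lit 0) (nat_lit 17808660394) (nat_lit 3) (nat_lit 5) (nat_lit 5) (nat_lit 4) (nat_lit 3) (nat_lit 4) (nat_lit 373) (nat_lit 330) (nat_lit 317)) (XT.lf (nat_lit 0) (nat_lit 29648178580) (nat_lit 152) (nat_lit 17338550756) (nat_lit 0) (nat_lit 28677275584) (nat_lit 3) (nat_lit 5) (nat_lit 5) (nat_lit 4) (nat_lit 3) (nat_lit 4) (nat_lit 374) (nat_lit 330) (nat_lit 316))))) (XT.nd (nat_lit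 234) (nat_lit 0) (nat_lit 0) (XT.nd (nat_lit 78) (nat_lit 76) (nat_lit 0) (XT.lf (nat_lit 0) (nat_lit 41923910447) (nat_lit 152) (nat_lit 2957620021) (nat_lit 0) (nat_lit 40932163861) (nat_lit 3) (nat_lit 5) (nat_lit 5) (nat_lit 4) (nat_lit 3) (nat_lit 4) (nat_lit 375) (nat_lit 330) (nat_lit 315)) (XT.nd (nat_lit 78) (nat_lit 0) (nat_lit 0) (XT.lf (nat_lit 0) (nat_lit 14399451949) (nat_lit 76) (nat_lit 42019764873) (nat_lit 76) (nat_lit 41009893426) (nat_lit 2) (nat_lit 4) (nat_lit 3) (nat_lit 5) (nat_lit 3) (nat_lit 4) (nat_lit 376) (nat_lit 330) (nat_lit 314)) (XT.lf (nat_lit 0) (nat_lit 34250586314) (nat_lit 76) (nat_lit 38784941387) (nat_lit 76) (nat_lit 37759309190) (nat_lit 2) (nat_lit 4) (nat_lit 3) (nat_lit 5) (nat_lit 3) (nat_lit 4) (nat_lit 377) (nat_lit 330) (nat_lit 313)))) (XT.nd (nat_lit 78) (nat_lit 0) (nat_lit 0) (XT.lf (nat_lit 0) (nat_lit 56695134693) (nat_lit 76) (nat_lit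 35268372848) (nat_lit 76) (nat_lit 34229035653) (nat_lit 2) (nat_lit 4) (nat_lit 3) (nat_lit 5) (nat_lit 3) (nat_lit 4) (nat_lit 378) (nat_lit 330) (nat_lit 312)) (XT.nd (nat_lit 78) (nat_lit 0) (nat_lit 0) (XT.lf (nat_lit 0) (nat_lit 82172229555) (nat_lit 76) (nat_lit 31401256830) (nat_lit 76) (nat_lit 30350002244) (nat_lit 2) (nat_lit 4) (nat_lit 3) (nat_lit 5) (nat_lit 3) (nat_lit 4) (nat_lit 379) (nat_lit 330) (nat_lit 311)) (XT.lf (nat_lit 0) (nat_lit 111180335799) (nat_lit 76) (nat_lit 27107932366) (nat_lit 76) (nat_lit 26046314832) (nat_lit 2) (nat_lit 4) (nat_lit 3) (nat_lit 5) (nat_lit 3) (nat_lit 4) (nat_lit 380) (nat_lit 330) (nat_lit 310)))))) (XT.nd (nat_lit 468) (nat_lit 0) (nat_lit 0) (XT.nd (nat_lit 234) (nat_lit 76) (nat_lit 0) (XT.nd (nat_lit 78) (nat_lit 0) (nat_lit 0) (XT.lf (nat_lit 0) (nat_lit 144287003330) (nat_lit 76) (nat_lit 22304399631) (nat_lit 76) (nat_lit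 21233770838) (nat_lit 2) (nat_lit 4) (nat_lit 3) (nat_lit 5) (nat_lit 3) (nat_lit 4) (nat_lit 381) (nat_lit 330) (nat_lit 309)) (XT.nd (nat_lit 78) (nat_lit 0) (nat_lit 0) (XT.lf (nat_lit 0) (nat_lit 182139971295) (nat_lit 76) (nat_lit 16896676461) (nat_lit 76) (nat_lit 15818211791) (nat_lit 2) (nat_lit 4) (nat_lit 3) (nat_lit 5) (nat_lit 3) (nat_lit 4) (nat_lit 382) (nat_lit 330) (nat_lit 308)) (XT.lf (nat_lit 0) (nat_lit 225479841242) (nat_lit 76) (nat_lit 10778959579) (nat_lit 76) (nat_lit 9693681102) (nat_lit 2) (nat_lit 4) (nat_lit 3) (nat_lit 5) (nat_lit 3) (nat_lit 4) (nat_lit 383) (nat_lit 330) (nat_lit 307)))) (XT.nd (nat_lit 78) (nat_lit 76) (nat_lit 0) (XT.lf (nat_lit 0) (nat_lit 275154567147) (nat_lit 76) (nat_lit 3831554522) (nat_lit 76) (nat_lit 2740350996) (nat_lit 2) (nat_lit 4) (nat_lit 3) (nat_lit 5) (nat_lit 3) (nat_lit 4) (nat_lit 384) (nat_lit 330) (nat_lit 306))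 (XT.nd (nat_lit 78) (nat_lit 0) (nat_lit 0) (XT.lf (nat_lit 0) (nat_lit 5326779721) (nat_lit 76) (nat_lit 313052902182) (nat_lit 0) (nat_lit 4373426901) (nat_lit 1) (nat_lit 5) (nat_lit 2) (nat_lit 4) (nat_lit 1) (nat_lit 4) (nat_lit 385) (nat_lit 330) (nat_lit 305)) (XT.lf (nat_lit 0) (nat_lit 14794695338) (nat_lit 76) (nat_lit 341211334270) (nat_lit 0) (nat_lit 13837446702) (nat_lit 1) (nat_lit 5) (nat_lit 2) (nat_lit 4) (nat_lit 1) (nat_lit 4) (nat_lit 386) (nat_lit 330) (nat_lit 304))))) (XT.nd (nat_lit 234) (nat_lit 0) (nat_lit 0) (XT.nd (nat_lit 78) (nat_lit 0) (nat_lit 0) (XT.lf (nat_lit 0) (nat_lit 25620998295) (nat_lit 76) (nat_lit 373725309650) (nat_lit 0) (nat_lit 24660361993) (nat_lit 1) (nat_lit 5) (nat_lit 2) (nat_lit 4) (nat_lit 1) (nat_lit 4) (nat_lit 387) (nat_lit 330) (nat_lit 303)) (XT.nd (nat_lit 78) (nat_lit 0) (nat_lit 0) (XT.lf (nat_lit 0) (nat_lit 38017507562)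 (nat_lit 76) (nat_lit 411230971316) (nat_lit 0) (nat_lit 37053925463) (nat_lit 1) (nat_lit 5) (nat_lit 2) (nat_lit 4) (nat_lit 1) (nat_lit 4) (nat_lit 388) (nat_lit 330) (nat_lit 302)) (XT.lf (nat_lit 0) (nat_lit 52226763537) (nat_lit 76) (nat_lit 454462125694) (nat_lit 0) (nat_lit 51260619876) (nat_lit 1) (nat_lit 5) (nat_lit 2) (nat_lit 4) (nat_lit 1) (nat_lit 4) (nat_lit 389) (nat_lit 330) (nat_lit 301)))) (XT.nd (nat_lit 78) (nat_lit 0) (nat_lit 0) (XT.lf (nat_lit 0) (nat_lit 68526773403) (nat_lit 76) (nat_lit 504264599717) (nat_lit 0) (nat_lit 67558402297) (nat_lit 1) (nat_lit 5) (nat_lit 2) (nat_lit 4) (nat_lit 1) (nat_lit 4) (nat_lit 390) (nat_lit 330) (nat_lit 300)) (XT.nd (nat_lit 78) (nat_lit 0) (nat_lit 0) (XT.lf (nat_lit 0) (nat_lit 87236450397) (nat_lit 76) (nat_lit 561612789616) (nat_lit 0) (nat_lit 86266142381) (nat_lit 1) (nat_lit 5) (nat_lit 2) (nat_lit 4) (nat_lit 1)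 (nat_lit 4) (nat_lit 391) (nat_lit 330) (nat_lit 299)) (XT.lf (nat_lit 0) (nat_lit 108721853415) (nat_lit 76) (nat_lit 627628725192) (nat_lit 0) (nat_lit 107749861131) (nat_lit 1) (nat_lit 5) (nat_lit 2) (nat_lit 4) (nat_lit 1) (nat_lit 4) (nat_lit 392) (nat_lit 330) (nat_lit 298))))))) (XT.nd (nat_lit 936) (nat_lit 0) (nat_lit 0) (XT.nd (nat_lit 468) (nat_lit 0) (nat_lit 0) (XT.nd (nat_lit 234) (nat_lit 0) (nat_lit 0) (XT.nd (nat_lit 78) (nat_lit 0) (nat_lit 0) (XT.lf (nat_lit 0) (nat_lit 133403349040) (nat_lit 76) (nat_lit 703604022578) (nat_lit 0) (nat_lit 132429892174) (nat_lit 1) (nat_lit 5) (nat_lit 2) (nat_lit 4) (nat_lit 1) (nat_lit 4) (nat_lit 393) (nat_lit 330) (nat_lit 297)) (XT.nd (nat_lit 78) (nat_lit 0) (nat_lit 0) (XT.lf (nat_lit 0) (nat_lit 161763836097) (nat_lit 76) (nat_lit 791025154982) (nat_lit 0) (nat_lit 160789105682) (nat_lit 1) (nat_lit 5) (nat_lit 2) (nat_lit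 4) (nat_lit 1) (nat_lit 4) (nat_lit 394) (nat_lit 330) (nat_lit 296)) (XT.lf (nat_lit 0) (nat_lit 194358193682) (nat_lit 76) (nat_lit 891602535865) (nat_lit 0) (nat_lit 193382355833) (nat_lit 1) (nat_lit 5) (nat_lit 2) (nat_lit 4) (nat_lit 1) (nat_lit 4) (nat_lit 395) (nat_lit 330) (nat_lit 295)))) (XT.nd (nat_lit 78) (nat_lit 0) (nat_lit 0) (XT.lf (nat_lit 0) (nat_lit 231824137488) (nat_lit 76) (nat_lit 1007303983548) (nat_lit 0) (nat_lit 230847336652) (nat_lit 1) (nat_lit 5) (nat_lit 2) (nat_lit 4) (nat_lit 1) (nat_lit 4) (nat_lit 396) (nat_lit 330) (nat_lit 294)) (XT.nd (nat_lit 78) (nat_lit 0) (nat_lit 0) (XT.lf (nat_lit 0) (nat_lit 274894696848) (nat_lit 76) (nat_lit 1140393222007) (nat_lit 0) (nat_lit 273917058633) (nat_lit 1) (nat_lit 5) (nat_lit 2) (nat_lit 4) (nat_lit 1) (nat_lit 4) (nat_lit 397) (nat_lit 330) (nat_lit 293)) (XT.lf (nat_lit 0) (nat_lit 324412556620) (nat_lit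 76) (nat_lit 1293474171127) (nat_lit 0) (nat_lit 323434190250) (nat_lit 1) (nat_lit 5) (nat_lit 2) (nat_lit 4) (nat_lit 1) (nat_lit 4) (nat_lit 398) (nat_lit 330) (nat_lit 292))))) (XT.nd (nat_lit 234) (nat_lit 0) (nat_lit 0) (XT.nd (nat_lit 78) (nat_lit 0) (nat_lit 0) (XT.lf (nat_lit 0) (nat_lit 381346544496) (nat_lit 76) (nat_lit 1469541892954) (nat_lit 0) (nat_lit 380367544946) (nat_lit 1) (nat_lit 5) (nat_lit 2) (nat_lit 4) (nat_lit 1) (nat_lit 4) (nat_lit 399) (nat_lit 330) (nat_lit 291)) (XT.nd (nat_lit 78) (nat_lit 0) (nat_lit 0) (XT.lf (nat_lit 0) (nat_lit 446810586324) (nat_lit 76) (nat_lit 1672041190741) (nat_lit 0) (nat_lit 445831036184) (nat_lit 1) (nat_lit 5) (nat_lit 2) (nat_lit 4) (nat_lit 1) (nat_lit 4) (nat_lit 400) (nat_lit 330) (nat_lit 290)) (XT.lf (nat_lit 0) (nat_lit 522085500316) (nat_lit 76) (nat_lit 1904934007272) (nat_lit 0) (nat_lit 521105471401) (nat_lit 1)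 (nat_lit 5) (nat_lit 2) (nat_lit 4) (nat_lit 1) (nat_lit 4) (nat_lit 401) (nat_lit 330) (nat_lit 289)))) (XT.nd (nat_lit 78) (nat_lit 0) (nat_lit 0) (XT.lf (nat_lit 0) (nat_lit 608644056526) (nat_lit 76) (nat_lit 2172776941131) (nat_lit 0) (nat_lit 607663611286) (nat_lit 1) (nat_lit 5) (nat_lit 2) (nat_lit 4) (nat_lit 1) (nat_lit 4) (nat_lit 402) (nat_lit 330) (nat_lit 288)) (XT.nd (nat_lit 78) (nat_lit 0) (nat_lit 0) (XT.lf (nat_lit 0) (nat_lit 708179791925) (nat_lit 76) (nat_lit 2480810397546) (nat_lit 0) (nat_lit 707198984663) (nat_lit 1) (nat_lit 5) (nat_lit 2) (nat_lit 4) (nat_lit 1) (nat_lit 4) (nat_lit 403) (nat_lit 330) (nat_lit 287)) (XT.lf (nat_lit 0) (nat_lit 822640144813) (nat_lit 76) (nat_lit 2835061118054) (nat_lit 0) (nat_lit 821659022749) (nat_lit 1) (nat_lit 5) (nat_lit 2) (nat_lit 4) (nat_lit 1) (nat_lit 4) (nat_lit 404) (nat_lit 330) (nat_lit 286)))))) (XT.nd (nat_lit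 468) (nat_lit 0) (nat_lit 0) (XT.nd (nat_lit 234) (nat_lit 0) (nat_lit 0) (XT.nd (nat_lit 78) (nat_lit 0) (nat_lit 0) (XT.lf (nat_lit 0) (nat_lit 954264556878) (nat_lit 76) (nat_lit 3242460095015) (nat_lit 0) (nat_lit 953283161074) (nat_lit 1) (nat_lit 5) (nat_lit 2) (nat_lit 4) (nat_lit 1) (nat_lit 4) (nat_lit 405) (nat_lit 330) (nat_lit 285)) (XT.nd (nat_lit 78) (nat_lit 0) (nat_lit 0) (XT.lf (nat_lit 0) (nat_lit 1105628288356) (nat_lit 76) (nat_lit 3710978177976) (nat_lit 0) (nat_lit 1104646654516) (nat_lit 1) (nat_lit 5) (nat_lit 2) (nat_lit 4) (nat_lit 1) (nat_lit 4) (nat_lit 406) (nat_lit 330) (nat_lit 284)) (XT.lf (nat_lit 0) (nat_lit 1279692803558) (nat_lit 76) (nat_lit 4249782025083) (nat_lit 0) (nat_lit 1278710962731) (nat_lit 1) (nat_lit 5) (nat_lit 2) (nat_lit 4) (nat_lit 1) (nat_lit 4) (nat_lit 407) (nat_lit 330) (nat_lit 283)))) (XT.nd (nat_lit 78) (nat_lit 0) (nat_lit 0)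 (XT.lf (nat_lit 0) (nat_lit 1479863712564) (nat_lit 76) (nat_lit 4869413450736) (nat_lit 0) (nat_lit 1478881691748) (nat_lit 1) (nat_lit 5) (nat_lit 2) (nat_lit 4) (nat_lit 1) (nat_lit 4) (nat_lit 408) (nat_lit 330) (nat_lit 282)) (XT.nd (nat_lit 78) (nat_lit 0) (nat_lit 0) (XT.lf (nat_lit 0) (nat_lit 1710057402725) (nat_lit 76) (nat_lit 5581995678481) (nat_lit 0) (nat_lit 1709075225397) (nat_lit 1) (nat_lit 5) (nat_lit 2) (nat_lit 4) (nat_lit 1) (nat_lit 4) (nat_lit 409) (nat_lit 330) (nat_lit 281)) (XT.lf (nat_lit 0) (nat_lit 1974777663630) (nat_lit 76) (nat_lit 6401470534511) (nat_lit 0) (nat_lit 1973795350204) (nat_lit 1) (nat_lit 5) (nat_lit 2) (nat_lit 4) (nat_lit 1) (nat_lit 4) (nat_lit 410) (nat_lit 330) (nat_lit 280))))) (XT.nd (nat_lit 234) (nat_lit 0) (nat_lit 0) (XT.nd (nat_lit 78) (nat_lit 0) (nat_lit 0) (XT.lf (nat_lit 0) (nat_lit 2279203804732) (nat_lit 76) (nat_lit 7343871222533)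 (nat_lit 0) (nat_lit 2278221372961) (nat_lit 1) (nat_lit 5) (nat_lit 2) (nat_lit 4) (nat_lit 1) (nat_lit 4) (nat_lit 411) (nat_lit 330) (nat_lit 279)) (XT.nd (nat_lit 78) (nat_lit 0) (nat_lit 0) (XT.lf (nat_lit 0) (nat_lit 2629291989662) (nat_lit 76) (nat_lit 8427636016877) (nat_lit 0) (nat_lit 2628309454981) (nat_lit 1) (nat_lit 5) (nat_lit 2) (nat_lit 4) (nat_lit 1) (nat_lit 4) (nat_lit 412) (nat_lit 330) (nat_lit 278)) (XT.lf (nat_lit 0) (nat_lit 3031891769862) (nat_lit 76) (nat_lit 9673969011346) (nat_lit 0) (nat_lit 3030909145695) (nat_lit 1) (nat_lit 5) (nat_lit 2) (nat_lit 4) (nat_lit 1) (nat_lit 4) (nat_lit 413) (nat_lit 330) (nat_lit 277)))) (XT.nd (nat_lit 156) (nat_lit 0) (nat_lit 0) (XT.nd (nat_lit 78) (nat_lit 0) (nat_lit 0) (XT.lf (nat_lit 0) (nat_lit 3494880097556) (nat_lit 76) (nat_lit 11107254981917) (nat_lit 0) (nat_lit 3493897395574) (nat_lit 1) (nat_lit 5) (nat_lit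 2) (nat_lit 4) (nat_lit 1) (nat_lit 4) (nat_lit 414) (nat_lit 330) (nat_lit 276)) (XT.lf (nat_lit 0) (nat_lit 4027315440023) (nat_lit 76) (nat_lit 12755536480190) (nat_lit 0) (nat_lit 4026332670377) (nat_lit 1) (nat_lit 5) (nat_lit 2) (nat_lit 4) (nat_lit 1) (nat_lit 4) (nat_lit 415) (nat_lit 330) (nat_lit 275))) (XT.nd (nat_lit 78) (nat_lit 0) (nat_lit 0) (XT.lf (nat_lit 0) (nat_lit 4639615010487) (nat_lit 76) (nat_lit 14651062492000) (nat_lit 0) (nat_lit 4638632182002) (nat_lit 1) (nat_lit 5) (nat_lit 2) (nat_lit 4) (nat_lit 1) (nat_lit 4) (nat_lit 416) (nat_lit 330) (nat_lit 274)) (XT.lf (nat_lit 0) (nat_lit 5343758583151) (nat_lit 76) (nat_lit 16830919395839) (nat_lit 0) (nat_lit 5342775703502) (nat_lit 1) (nat_lit 5) (nat_lit 2) (nat_lit 4) (nat_lit 1) (nat_lit 4) (nat_lit 417) (nat_lit 330) (nat_lit 273))))))))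
noncomputable def xc30 : XT := (XT.nd (nat_lit 48594) (nat_lit 0) (nat_lit 76) (XT.nd (nat_lit 936) (nat_lit 0) (nat_lit 0) (XT.nd (nat_lit 468) (nat_lit 0) (nat_lit 0) (XT.nd (nat_lit 234) (nat_lit 0) (nat_lit 0) (XT.nd (nat_lit 78) (nat_lit 0) (nat_lit 0) (XT.lf (nat_lit 0) (nat_lit 6153522880090) (nat_lit 76) (nat_lit 19337756565913) (nat_lit 0) (nat_lit 6152539955950) (nat_lit 1) (nat_lit 5) (nat_lit 2) (nat_lit 4) (nat_lit 1) (nat_lit 4) (nat_lit 418) (nat_lit 330) (nat_lit 272)) (XT.nd (nat_lit 78) (nat_lit 0) (nat_lit 0) (XT.lf (nat_lit 0) (nat_lit 7084751115808) (nat_lit 76) (nat_lit 22220620816418) (nat_lit 0) (nat_lit 7083768152981) (nat_lit 1) (nat_lit 5) (nat_lit 2) (nat_lit 4) (nat_lit 1) (nat_lit 4) (nat_lit 419) (nat_lit 330) (nat_lit 271)) (XT.lf (nat_lit 0) (nat_lit 8155662973179) (nat_lit 76) (nat_lit 25535916013126) (nat_lit 0) (nat_lit 8154679976711) (nat_lit 1) (nat_lit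 5) (nat_lit 2) (nat_lit 4) (nat_lit 1) (nat_lit 4) (nat_lit 420) (nat_lit 330) (nat_lit 270)))) (XT.nd (nat_lit 78) (nat_lit 0) (nat_lit 0) (XT.lf (nat_lit 0) (nat_lit 9387211075499) (nat_lit 76) (nat_lit 29348506627276) (nat_lit 0) (nat_lit 9386228049778) (nat_lit 1) (nat_lit 5) (nat_lit 2) (nat_lit 4) (nat_lit 1) (nat_lit 4) (nat_lit 421) (nat_lit 330) (nat_lit 269)) (XT.nd (nat_lit 78) (nat_lit 0) (nat_lit 0) (XT.lf (nat_lit 0) (nat_lit 10803490929118) (nat_lit 76) (nat_lit 33732986823058) (nat_lit 0) (nat_lit 10802507877959) (nat_lit 1) (nat_lit 5) (nat_lit 2) (nat_lit 4) (nat_lit 1) (nat_lit 4) (nat_lit 422) (nat_lit 330) (nat_lit 268)) (XT.lf (nat_lit 0) (nat_lit 12432212357259) (nat_lit 76) (nat_lit 38775139908651) (nat_lit 0) (nat_lit 12431229283980) (nat_lit 1) (nat_lit 5) (nat_lit 2) (nat_lit 4) (nat_lit 1) (nat_lit 4) (nat_lit 423) (nat_lit 330) (nat_lit 267))))) (XT.nd (nat_lit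 234) (nat_lit 0) (nat_lit 0) (XT.nd (nat_lit 78) (nat_lit 0) (nat_lit 0) (XT.lf (nat_lit 0) (nat_lit 14305241648733) (nat_lit 76) (nat_lit 44573616705294) (nat_lit 0) (nat_lit 14304258556220) (nat_lit 1) (nat_lit 5) (nat_lit 2) (nat_lit 4) (nat_lit 1) (nat_lit 4) (nat_lit 424) (nat_lit 330) (nat_lit 266)) (XT.nd (nat_lit 78) (nat_lit 0) (nat_lit 0) (XT.lf (nat_lit 0) (nat_lit 16459225028808) (nat_lit 76) (nat_lit 51241865672053) (nat_lit 0) (nat_lit 16458241919569) (nat_lit 1) (nat_lit 5) (nat_lit 2) (nat_lit 4) (nat_lit 1) (nat_lit 4) (nat_lit 425) (nat_lit 330) (nat_lit 265)) (XT.lf (nat_lit 0) (nat_lit 18936305650572) (nat_lit 76) (nat_lit 58910352549580) (nat_lit 0) (nat_lit 18935322526789) (nat_lit 1) (nat_lit 5) (nat_lit 2) (nat_lit 4) (nat_lit 1) (nat_lit 4) (nat_lit 426) (nat_lit 330) (nat_lit 264)))) (XT.nd (nat_lit 78) (nat_lit 0) (nat_lit 0) (XT.lf (nat_lit 0) (nat_lit 21784948134887)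 (nat_lit 76) (nat_lit 67729112950698) (nat_lit 0) (nat_lit 21783964998457) (nat_lit 1) (nat_lit 5) (nat_lit 2) (nat_lit 4) (nat_lit 1) (nat_lit 4) (nat_lit 427) (nat_lit 330) (nat_lit 263)) (XT.nd (nat_lit 78) (nat_lit 0) (nat_lit 0) (XT.lf (nat_lit 0) (nat_lit 25060886791227) (nat_lit 76) (nat_lit 77870687839776) (nat_lit 0) (nat_lit 25059903643800) (nat_lit 1) (nat_lit 5) (nat_lit 2) (nat_lit 4) (nat_lit 1) (nat_lit 4) (nat_lit 428) (nat_lit 330) (nat_lit 262)) (XT.lf (nat_lit 0) (nat_lit 28828216071566) (nat_lit 76) (nat_lit 89533499334210) (nat_lit 0) (nat_lit 28827232914576) (nat_lit 1) (nat_lit 5) (nat_lit 2) (nat_lit 4) (nat_lit 1) (nat_lit 4) (nat_lit 429) (nat_lit 330) (nat_lit 261)))))) (XT.nd (nat_lit 468) (nat_lit 0) (nat_lit 0) (XT.nd (nat_lit 234) (nat_lit 0) (nat_lit 0) (XT.nd (nat_lit 78) (nat_lit 0) (nat_lit 0) (XT.lf (nat_lit 0) (nat_lit 33160644592257) (nat_lit 76)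 (nat_lit 102945732876280) (nat_lit 0) (nat_lit 33159661426951) (nat_lit 1) (nat_lit 5) (nat_lit 2) (nat_lit 4) (nat_lit 1) (nat_lit 4) (nat_lit 430) (nat_lit 330) (nat_lit 260)) (XT.nd (nat_lit 78) (nat_lit 0) (nat_lit 0) (XT.lf (nat_lit 0) (nat_lit 38142937259139) (nat_lit 76) (nat_lit 118369801730942) (nat_lit 0) (nat_lit 38141954086602) (nat_lit 1) (nat_lit 5) (nat_lit 2) (nat_lit 4) (nat_lit 1) (nat_lit 4) (nat_lit 431) (nat_lit 330) (nat_lit 259)) (XT.lf (nat_lit 0) (nat_lit 43872573711348) (nat_lit 76) (nat_lit 136107481158395) (nat_lit 0) (nat_lit 43871590532523) (nat_lit 1) (nat_lit 5) (nat_lit 2) (nat_lit 4) (nat_lit 1) (nat_lit 4) (nat_lit 432) (nat_lit 330) (nat_lit 258)))) (XT.nd (nat_lit 78) (nat_lit 0) (nat_lit 0) (XT.lf (nat_lit 0) (nat_lit 50461655531644) (nat_lit 76) (nat_lit 156505812712654) (nat_lit 0) (nat_lit 50460672347352) (nat_lit 1) (nat_lit 5) (nat_lit 2) (nat_lit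 4) (nat_lit 1) (nat_lit 4) (nat_lit 433) (nat_lit 330) (nat_lit 257)) (XT.nd (nat_lit 78) (nat_lit 0) (nat_lit 0) (XT.lf (nat_lit 0) (nat_lit 58039099538250) (nat_lit 76) (nat_lit 179963894184998) (nat_lit 0) (nat_lit 58038116349204) (nat_lit 1) (nat_lit 5) (nat_lit 2) (nat_lit 4) (nat_lit 1) (nat_lit 4) (nat_lit 434) (nat_lit 330) (nat_lit 256)) (XT.lf (nat_lit 0) (nat_lit 66753160070427) (nat_lit 76) (nat_lit 206940688039017) (nat_lit 0) (nat_lit 66752176877245) (nat_lit 1) (nat_lit 5) (nat_lit 2) (nat_lit 4) (nat_lit 1) (nat_lit 4) (nat_lit 435) (nat_lit 330) (nat_lit 255))))) (XT.nd (nat_lit 234) (nat_lit 0) (nat_lit 0) (XT.nd (nat_lit 78) (nat_lit 0) (nat_lit 0) (XT.lf (nat_lit 0) (nat_lit 76774329616846) (nat_lit 76) (nat_lit 237964001110985) (nat_lit 0) (nat_lit 76773346420070) (nat_lit 1) (nat_lit 5) (nat_lit 2) (nat_lit 4) (nat_lit 1) (nat_lit 4) (nat_lit 436) (nat_lit 330) (nat_lit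 254)) (XT.nd (nat_lit 78) (nat_lit 0) (nat_lit 0) (XT.lf (nat_lit 0) (nat_lit 88298674538199) (nat_lit 76) (nat_lit 273640811265353) (nat_lit 0) (nat_lit 88297691338297) (nat_lit 1) (nat_lit 5) (nat_lit 2) (nat_lit 4) (nat_lit 1) (nat_lit 4) (nat_lit 437) (nat_lit 330) (nat_lit 253)) (XT.lf (nat_lit 0) (nat_lit 101551671148165) (nat_lit 76) (nat_lit 314669143048620) (nat_lit 0) (nat_lit 101550687945544) (nat_lit 1) (nat_lit 5) (nat_lit 2) (nat_lit 4) (nat_lit 1) (nat_lit 4) (nat_lit 438) (nat_lit 330) (nat_lit 252)))) (XT.nd (nat_lit 46800) (nat_lit 0) (nat_lit 988) (XT.lf (nat_lit 0) (nat_lit 116792617206502) (nat_lit 76) (nat_lit 361851724691328) (nat_lit 0) (nat_lit 116791634001519) (nat_lit 1) (nat_lit 5) (nat_lit 2) (nat_lit 4) (nat_lit 1) (nat_lit 4) (nat_lit 439) (nat_lit 330) (nat_lit 251)) (XT.nd (nat_lit 78) (nat_lit 76) (nat_lit 0) (XT.lf (nat_lit 0) (nat_lit 821567199) (nat_lit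 152) (nat_lit 5876985865) (nat_lit 0) (nat_lit 821567199) (nat_lit 15) (nat_lit 5) (nat_lit 17) (nat_lit 4) (nat_lit 15) (nat_lit 4) (nat_lit 358) (nat_lit 331) (nat_lit 331)) (XT.lf (nat_lit 0) (nat_lit 788033951) (nat_lit 76) (nat_lit 7868865037) (nat_lit 76) (nat_lit 7572223820) (nat_lit 14) (nat_lit 4) (nat_lit 15) (nat_lit 5) (nat_lit 15) (nat_lit 4) (nat_lit 359) (nat_lit 331) (nat_lit 330))))))) (XT.nd (nat_lit 936) (nat_lit 228) (nat_lit 0) (XT.nd (nat_lit 468) (nat_lit 228) (nat_lit 0) (XT.nd (nat_lit 234) (nat_lit 228) (nat_lit 0) (XT.nd (nat_lit 78) (nat_lit 228) (nat_lit 0) (XT.lf (nat_lit 0) (nat_lit 15204418000) (nat_lit 76) (nat_lit 1476433312) (nat_lit 76) (nat_lit 921843212) (nat_lit 14) (nat_lit 4) (nat_lit 15) (nat_lit 5) (nat_lit 15) (nat_lit 4) (nat_lit 360) (nat_lit 331) (nat_lit 329)) (XT.nd (nat_lit 78) (nat_lit 76) (nat_lit 0) (XT.lf (nat_lit 0) (nat_lit 6289432418)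 (nat_lit 152) (nat_lit 7214694771) (nat_lit 0) (nat_lit 5612133742) (nat_lit 12) (nat_lit 5) (nat_lit 14) (nat_lit 4) (nat_lit 12) (nat_lit 4) (nat_lit 361) (nat_lit 331) (nat_lit 328)) (XT.lf (nat_lit 0) (nat_lit 7068095323) (nat_lit 76) (nat_lit 7321918625) (nat_lit 76) (nat_lit 6475014371) (nat_lit 11) (nat_lit 4) (nat_lit 12) (nat_lit 5) (nat_lit 12) (nat_lit 4) (nat_lit 362) (nat_lit 331) (nat_lit 327)))) (XT.nd (nat_lit 78) (nat_lit 76) (nat_lit 0) (XT.lf (nat_lit 0) (nat_lit 231773312) (nat_lit 76) (nat_lit 338533979) (nat_lit 152) (nat_lit 22328500022) (nat_lit 9) (nat_lit 5) (nat_lit 10) (nat_lit 5) (nat_lit 11) (nat_lit 4) (nat_lit 363) (nat_lit 331) (nat_lit 326)) (XT.nd (nat_lit 78) (nat_lit 76) (nat_lit 0) (XT.lf (nat_lit 0) (nat_lit 8497163612) (nat_lit 152) (nat_lit 9100163395) (nat_lit 0) (nat_lit 7520960526) (nat_lit 9) (nat_lit 5) (nat_lit 11) (nat_lit 4) (nat_lit 9)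 (nat_lit 4) (nat_lit 364) (nat_lit 331) (nat_lit 325)) (XT.lf (nat_lit 0) (nat_lit 5950252123) (nat_lit 76) (nat_lit 11415377270) (nat_lit 76) (nat_lit 10342201644) (nat_lit 8) (nat_lit 4) (nat_lit 9) (nat_lit 5) (nat_lit 9) (nat_lit 4) (nat_lit 365) (nat_lit 331) (nat_lit 324))))) (XT.nd (nat_lit 234) (nat_lit 76) (nat_lit 0) (XT.nd (nat_lit 78) (nat_lit 152) (nat_lit 0) (XT.lf (nat_lit 0) (nat_lit 23264280165) (nat_lit 76) (nat_lit 4290261815) (nat_lit 76) (nat_lit 3132762241) (nat_lit 8) (nat_lit 4) (nat_lit 9) (nat_lit 5) (nat_lit 9) (nat_lit 4) (nat_lit 366) (nat_lit 331) (nat_lit 323)) (XT.nd (nat_lit 78) (nat_lit 0) (nat_lit 0) (XT.lf (nat_lit 0) (nat_lit 4785484415) (nat_lit 152) (nat_lit 25568002702) (nat_lit 0) (nat_lit 3715202028) (nat_lit 6) (nat_lit 5) (nat_lit 8) (nat_lit 4) (nat_lit 6) (nat_lit 4) (nat_lit 367) (nat_lit 331) (nat_lit 322)) (XT.lf (nat_lit 0) (nat_lit 13741051440)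 (nat_lit 152) (nat_lit 11552997262) (nat_lit 0) (nat_lit 12615324689) (nat_lit 6) (nat_lit 5) (nat_lit 8) (nat_lit 4) (nat_lit 6) (nat_lit 4) (nat_lit 368) (nat_lit 331) (nat_lit 321)))) (XT.nd (nat_lit 78) (nat_lit 0) (nat_lit 0) (XT.lf (nat_lit 0) (nat_lit 4123381969) (nat_lit 76) (nat_lit 19704287163) (nat_lit 76) (nat_lit 18530347920) (nat_lit 5) (nat_lit 4) (nat_lit 6) (nat_lit 5) (nat_lit 6) (nat_lit 4) (nat_lit 369) (nat_lit 331) (nat_lit 320)) (XT.nd (nat_lit 78) (nat_lit 0) (nat_lit 0) (XT.lf (nat_lit 0) (nat_lit 22678374299) (nat_lit 76) (nat_lit 12987811240) (nat_lit 76) (nat_lit 11771948093) (nat_lit 5) (nat_lit 4) (nat_lit 6) (nat_lit 5) (nat_lit 6) (nat_lit 4) (nat_lit 370) (nat_lit 331) (nat_lit 319)) (XT.lf (nat_lit 0) (nat_lit 43345969272) (nat_lit 76) (nat_lit 5617118298) (nat_lit 76) (nat_lit 4364799581) (nat_lit 5) (nat_lit 4) (nat_lit 6) (nat_lit 5) (nat_lit 6) (nat_lit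 4) (nat_lit 371) (nat_lit 331) (nat_lit 318)))))) (XT.nd (nat_lit 468) (nat_lit 0) (nat_lit 0) (XT.nd (nat_lit 234) (nat_lit 76) (nat_lit 0) (XT.nd (nat_lit 78) (nat_lit 0) (nat_lit 0) (XT.lf (nat_lit 0) (nat_lit 3904375438) (nat_lit 152) (nat_lit 53364993620) (nat_lit 0) (nat_lit 2787836992) (nat_lit 3) (nat_lit 5) (nat_lit 5) (nat_lit 4) (nat_lit 3) (nat_lit 4) (nat_lit 372) (nat_lit 331) (nat_lit 317)) (XT.nd (nat_lit 78) (nat_lit 0) (nat_lit 0) (XT.lf (nat_lit 0) (nat_lit 13492812595) (nat_lit 152) (nat_lit 41840772313) (nat_lit 0) (nat_lit 12352304021) (nat_lit 3) (nat_lit 5) (nat_lit 5) (nat_lit 4) (nat_lit 3) (nat_lit 4) (nat_lit 373) (nat_lit 331) (nat_lit 316)) (XT.lf (nat_lit 0) (nat_lit 24268774077) (nat_lit 152) (nat_lit 29120295543) (nat_lit 0) (nat_lit 23107421913) (nat_lit 3) (nat_lit 5) (nat_lit 5) (nat_lit 4) (nat_lit 3) (nat_lit 4) (nat_lit 374) (nat_lit 331) (nat_lit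 315)))) (XT.nd (nat_lit 78) (nat_lit 76) (nat_lit 0) (XT.lf (nat_lit 0) (nat_lit 36443093912) (nat_lit 152) (nat_lit 14954684418) (nat_lit 0) (nat_lit 35263616886) (nat_lit 3) (nat_lit 5) (nat_lit 5) (nat_lit 4) (nat_lit 3) (nat_lit 4) (nat_lit 375) (nat_lit 331) (nat_lit 314)) (XT.nd (nat_lit 78) (nat_lit 0) (nat_lit 0) (XT.lf (nat_lit 0) (nat_lit 1024414814) (nat_lit 76) (nat_lit 49271969333) (nat_lit 76) (nat_lit 48076731558) (nat_lit 2) (nat_lit 4) (nat_lit 3) (nat_lit 5) (nat_lit 3) (nat_lit 4) (nat_lit 376) (nat_lit 331) (nat_lit 313)) (XT.lf (nat_lit 0) (nat_lit 20696825392) (nat_lit 76) (nat_lit 46131786995) (nat_lit 76) (nat_lit 44922844222) (nat_lit 2) (nat_lit 4) (nat_lit 3) (nat_lit 5) (nat_lit 3) (nat_lit 4) (nat_lit 377) (nat_lit 331) (nat_lit 312))))) (XT.nd (nat_lit 234) (nat_lit 0) (nat_lit 0) (XT.nd (nat_lit 78) (nat_lit 0) (nat_lit 0) (XT.lf (nat_lit 0) (nat_lit 42985961784)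 (nat_lit 76) (nat_lit 42697515108) (nat_lit 76) (nat_lit 41476654945) (nat_lit 2) (nat_lit 4) (nat_lit 3) (nat_lit 5) (nat_lit 3) (nat_lit 4) (nat_lit 378) (nat_lit 331) (nat_lit 311)) (XT.nd (nat_lit 78) (nat_lit 0) (nat_lit 0) (XT.lf (nat_lit 0) (nat_lit 68327915786) (nat_lit 76) (nat_lit 38901961396) (nat_lit 76) (nat_lit 37670738284) (nat_lit 2) (nat_lit 4) (nat_lit 3) (nat_lit 5) (nat_lit 3) (nat_lit 4) (nat_lit 379) (nat_lit 331) (nat_lit 310)) (XT.lf (nat_lit 0) (nat_lit 97218508240) (nat_lit 76) (nat_lit 34670865024) (nat_lit 76) (nat_lit 33430630653) (nat_lit 2) (nat_lit 4) (nat_lit 3) (nat_lit 5) (nat_lit 3) (nat_lit 4) (nat_lit 380) (nat_lit 331) (nat_lit 309)))) (XT.nd (nat_lit 156) (nat_lit 0) (nat_lit 0) (XT.nd (nat_lit 78) (nat_lit 0) (nat_lit 0) (XT.lf (nat_lit 0) (nat_lit 130222989866) (nat_lit 76) (nat_lit 29921443673) (nat_lit 76) (nat_lit 28673373425) (nat_lit 2) (nat_lit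 4) (nat_lit 3) (nat_lit 5) (nat_lit 3) (nat_lit 4) (nat_lit 381) (nat_lit 331) (nat_lit 308)) (XT.lf (nat_lit 0) (nat_lit 167987100523) (nat_lit 76) (nat_lit 24560773882) (nat_lit 76) (nat_lit 23305889826) (nat_lit 2) (nat_lit 4) (nat_lit 3) (nat_lit 5) (nat_lit 3) (nat_lit 4) (nat_lit 382) (nat_lit 331) (nat_lit 307))) (XT.nd (nat_lit 78) (nat_lit 0) (nat_lit 0) (XT.lf (nat_lit 0) (nat_lit 211249703244) (nat_lit 76) (nat_lit 18483972980) (nat_lit 76) (nat_lit 17223163875) (nat_lit 2) (nat_lit 4) (nat_lit 3) (nat_lit 5) (nat_lit 3) (nat_lit 4) (nat_lit 383) (nat_lit 331) (nat_lit 306)) (XT.lf (nat_lit 0) (nat_lit 260857240258) (nat_lit 76) (nat_lit 11572147037) (nat_lit 76) (nat_lit 10306185715) (nat_lit 2) (nat_lit 4) (nat_lit 3) (nat_lit 5) (nat_lit 3) (nat_lit 4) (nat_lit 384) (nat_lit 331) (nat_lit 305))))))))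
noncomputable def xc31 : XT := (XT.nd (nat_lit 1950) (nat_lit 0) (nat_lit 0) (XT.nd (nat_lit 936) (nat_lit 0) (nat_lit 0) (XT.nd (nat_lit 468) (nat_lit 0) (nat_lit 0) (XT.nd (nat_lit 234) (nat_lit 0) (nat_lit 0) (XT.nd (nat_lit 78) (nat_lit 76) (nat_lit 0) (XT.lf (nat_lit 0) (nat_lit 317780293810) (nat_lit 76) (nat_lit 3690064675) (nat_lit 76) (nat_lit 2419623166) (nat_lit 2) (nat_lit 4) (nat_lit 3) (nat_lit 5) (nat_lit 3) (nat_lit 4) (nat_lit 385) (nat_lit 331) (nat_lit 304)) (XT.nd (nat_lit 78) (nat_lit 0) (nat_lit 0) (XT.lf (nat_lit 0) (nat_lit 6791224624) (nat_lit 76) (nat_lit 358591920413) (nat_lit 0) (nat_lit 5683105210) (nat_lit 1) (nat_lit 5) (nat_lit 2) (nat_lit 4) (nat_lit 1) (nat_lit 4) (nat_lit 386) (nat_lit 331) (nat_lit 303)) (XT.lf (nat_lit 0) (nat_lit 17592532635) (nat_lit 76) (nat_lit 391159193458) (nat_lit 0) (nat_lit 16481467425) (nat_lit 1) (nat_lit 5) (nat_lit 2)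 (nat_lit 4) (nat_lit 1) (nat_lit 4) (nat_lit 387) (nat_lit 331) (nat_lit 302)))) (XT.nd (nat_lit 78) (nat_lit 0) (nat_lit 0) (XT.lf (nat_lit 0) (nat_lit 29967307166) (nat_lit 76) (nat_lit 428711200921) (nat_lit 0) (nat_lit 28853680394) (nat_lit 1) (nat_lit 5) (nat_lit 2) (nat_lit 4) (nat_lit 1) (nat_lit 4) (nat_lit 388) (nat_lit 331) (nat_lit 301)) (XT.nd (nat_lit 78) (nat_lit 0) (nat_lit 0) (XT.lf (nat_lit 0) (nat_lit 44157663372) (nat_lit 76) (nat_lit 471982655991) (nat_lit 0) (nat_lit 43041809154) (nat_lit 1) (nat_lit 5) (nat_lit 2) (nat_lit 4) (nat_lit 1) (nat_lit 4) (nat_lit 389) (nat_lit 331) (nat_lit 300)) (XT.lf (nat_lit 0) (nat_lit 60441238655) (nat_lit 76) (nat_lit 521820174094) (nat_lit 0) (nat_lit 59323447528) (nat_lit 1) (nat_lit 5) (nat_lit 2) (nat_lit 4) (nat_lit 1) (nat_lit 4) (nat_lit 390) (nat_lit 331) (nat_lit 299))))) (XT.nd (nat_lit 234) (nat_lit 0) (nat_lit 0) (XT.nd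 (nat_lit 78) (nat_lit 0) (nat_lit 0) (XT.lf (nat_lit 0) (nat_lit 79136624707) (nat_lit 76) (nat_lit 579198837106) (nat_lit 0) (nat_lit 78017149311) (nat_lit 1) (nat_lit 5) (nat_lit 2) (nat_lit 4) (nat_lit 1) (nat_lit 4) (nat_lit 391) (nat_lit 331) (nat_lit 298)) (XT.nd (nat_lit 78) (nat_lit 0) (nat_lit 0) (XT.lf (nat_lit 0) (nat_lit 100609600820) (nat_lit 76) (nat_lit 645241271042) (nat_lit 0) (nat_lit 99488660843) (nat_lit 1) (nat_lit 5) (nat_lit 2) (nat_lit 4) (nat_lit 1) (nat_lit 4) (nat_lit 392) (nat_lit 331) (nat_lit 297)) (XT.lf (nat_lit 0) (nat_lit 125280290440) (nat_lit 76) (nat_lit 721239610479) (nat_lit 0) (nat_lit 124158076913) (nat_lit 1) (nat_lit 5) (nat_lit 2) (nat_lit 4) (nat_lit 1) (nat_lit 4) (nat_lit 393) (nat_lit 331) (nat_lit 296)))) (XT.nd (nat_lit 78) (nat_lit 0) (nat_lit 0) (XT.lf (nat_lit 0) (nat_lit 153631380971) (nat_lit 76) (nat_lit 808680779449) (nat_lit 0)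 (nat_lit 152508060011) (nat_lit 1) (nat_lit 5) (nat_lit 2) (nat_lit 4) (nat_lit 1) (nat_lit 4) (nat_lit 394) (nat_lit 331) (nat_lit 295)) (XT.nd (nat_lit 78) (nat_lit 0) (nat_lit 0) (XT.lf (nat_lit 0) (nat_lit 186217567665) (nat_lit 76) (nat_lit 909275583433) (nat_lit 0) (nat_lit 185093283718) (nat_lit 1) (nat_lit 5) (nat_lit 2) (nat_lit 4) (nat_lit 1) (nat_lit 4) (nat_lit 395) (nat_lit 331) (nat_lit 294)) (XT.lf (nat_lit 0) (nat_lit 223676406346) (nat_lit 76) (nat_lit 1024992181639) (nat_lit 0) (nat_lit 222551285020) (nat_lit 1) (nat_lit 5) (nat_lit 2) (nat_lit 4) (nat_lit 1) (nat_lit 4) (nat_lit 396) (nat_lit 331) (nat_lit 293)))))) (XT.nd (nat_lit 468) (nat_lit 0) (nat_lit 0) (XT.nd (nat_lit 234) (nat_lit 0) (nat_lit 0) (XT.nd (nat_lit 78) (nat_lit 0) (nat_lit 0) (XT.lf (nat_lit 0) (nat_lit 266740787338) (nat_lit 76) (nat_lit 1158094594467) (nat_lit 0) (nat_lit 265614937856) (nat_lit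 1) (nat_lit 5) (nat_lit 2) (nat_lit 4) (nat_lit 1) (nat_lit 4) (nat_lit 397) (nat_lit 331) (nat_lit 292)) (XT.nd (nat_lit 78) (nat_lit 0) (nat_lit 0) (XT.lf (nat_lit 0) (nat_lit 316253274616) (nat_lit 76) (nat_lit 1311186999558) (nat_lit 0) (nat_lit 315126791955) (nat_lit 1) (nat_lit 5) (nat_lit 2) (nat_lit 4) (nat_lit 1) (nat_lit 4) (nat_lit 398) (nat_lit 331) (nat_lit 291)) (XT.lf (nat_lit 0) (nat_lit 373182590757) (nat_lit 76) (nat_lit 1487264683100) (nat_lit 0) (nat_lit 372055557506) (nat_lit 1) (nat_lit 5) (nat_lit 2) (nat_lit 4) (nat_lit 1) (nat_lit 4) (nat_lit 399) (nat_lit 331) (nat_lit 290)))) (XT.nd (nat_lit 78) (nat_lit 0) (nat_lit 0) (XT.lf (nat_lit 0) (nat_lit 438642570209) (nat_lit 76) (nat_lit 1689772643248) (nat_lit 0) (nat_lit 437515058183) (nat_lit 1) (nat_lit 5) (nat_lit 2) (nat_lit 4) (nat_lit 1) (nat_lit 4) (nat_lit 400) (nat_lit 331) (nat_lit 289)) (XT.nd (nat_lit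 78) (nat_lit 0) (nat_lit 0) (XT.lf (nat_lit 0) (nat_lit 513913951698) (nat_lit 76) (nat_lit 1922672992266) (nat_lit 0) (nat_lit 512786023346) (nat_lit 1) (nat_lit 5) (nat_lit 2) (nat_lit 4) (nat_lit 1) (nat_lit 4) (nat_lit 401) (nat_lit 331) (nat_lit 288)) (XT.lf (nat_lit 0) (nat_lit 600469436167) (nat_lit 76) (nat_lit 2190522476115) (nat_lit 0) (nat_lit 599341145794) (nat_lit 1) (nat_lit 5) (nat_lit 2) (nat_lit 4) (nat_lit 1) (nat_lit 4) (nat_lit 402) (nat_lit 331) (nat_lit 287))))) (XT.nd (nat_lit 234) (nat_lit 0) (nat_lit 0) (XT.nd (nat_lit 78) (nat_lit 0) (nat_lit 0) (XT.lf (nat_lit 0) (nat_lit 700002500487) (nat_lit 76) (nat_lit 2498561628172) (nat_lit 0) (nat_lit 698873895311) (nat_lit 1) (nat_lit 5) (nat_lit 2) (nat_lit 4) (nat_lit 1) (nat_lit 4) (nat_lit 403) (nat_lit 331) (nat_lit 286)) (XT.nd (nat_lit 78) (nat_lit 0) (nat_lit 0) (XT.lf (nat_lit 0) (nat_lit 814460530698) (nat_lit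 76) (nat_lit 2852817301413) (nat_lit 0) (nat_lit 813331651782) (nat_lit 1) (nat_lit 5) (nat_lit 2) (nat_lit 4) (nat_lit 1) (nat_lit 4) (nat_lit 404) (nat_lit 331) (nat_lit 285)) (XT.lf (nat_lit 0) (nat_lit 946082923043) (nat_lit 76) (nat_lit 3260220585098) (nat_lit 0) (nat_lit 944953806092) (nat_lit 1) (nat_lit 5) (nat_lit 2) (nat_lit 4) (nat_lit 1) (nat_lit 4) (nat_lit 405) (nat_lit 331) (nat_lit 284)))) (XT.nd (nat_lit 156) (nat_lit 0) (nat_lit 0) (XT.nd (nat_lit 78) (nat_lit 0) (nat_lit 0) (XT.lf (nat_lit 0) (nat_lit 1097444898243) (nat_lit 76) (nat_lit 3728742413036) (nat_lit 0) (nat_lit 1096315574304) (nat_lit 1) (nat_lit 5) (nat_lit 2) (nat_lit 4) (nat_lit 1) (nat_lit 4) (nat_lit 406) (nat_lit 331) (nat_lit 283)) (XT.lf (nat_lit 0) (nat_lit 1271507886247) (nat_lit 76) (nat_lit 4267549516646) (nat_lit 0) (nat_lit 1270378382319) (nat_lit 1) (nat_lit 5) (nat_lit 2) (nat_lit 4) (nat_lit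 1) (nat_lit 4) (nat_lit 407) (nat_lit 331) (nat_lit 282))) (XT.nd (nat_lit 78) (nat_lit 0) (nat_lit 0) (XT.lf (nat_lit 0) (nat_lit 1471677467255) (nat_lit 76) (nat_lit 4887183774040) (nat_lit 0) (nat_lit 1470547806815) (nat_lit 1) (nat_lit 5) (nat_lit 2) (nat_lit 4) (nat_lit 1) (nat_lit 4) (nat_lit 408) (nat_lit 331) (nat_lit 281)) (XT.lf (nat_lit 0) (nat_lit 1701870002634) (nat_lit 76) (nat_lit 5599768464168) (nat_lit 0) (nat_lit 1700740206097) (nat_lit 1) (nat_lit 5) (nat_lit 2) (nat_lit 4) (nat_lit 1) (nat_lit 4) (nat_lit 409) (nat_lit 331) (nat_lit 280))))))) (XT.nd (nat_lit 936) (nat_lit 0) (nat_lit 0) (XT.nd (nat_lit 468) (nat_lit 0) (nat_lit 0) (XT.nd (nat_lit 234) (nat_lit 0) (nat_lit 0) (XT.nd (nat_lit 78) (nat_lit 0) (nat_lit 0) (XT.lf (nat_lit 0) (nat_lit 1966589259382) (nat_lit 76) (nat_lit 6419245461402) (nat_lit 0) (nat_lit 1965459344499) (nat_lit 1) (nat_lit 5) (nat_lit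 2) (nat_lit 4) (nat_lit 1) (nat_lit 4) (nat_lit 410) (nat_lit 331) (nat_lit 279)) (XT.nd (nat_lit 78) (nat_lit 0) (nat_lit 0) (XT.lf (nat_lit 0) (nat_lit 2271014527303) (nat_lit 76) (nat_lit 7361648011340) (nat_lit 0) (nat_lit 2269884509511) (nat_lit 1) (nat_lit 5) (nat_lit 2) (nat_lit 4) (nat_lit 1) (nat_lit 4) (nat_lit 411) (nat_lit 331) (nat_lit 278)) (XT.lf (nat_lit 0) (nat_lit 2621101952945) (nat_lit 76) (nat_lit 8445414424741) (nat_lit 0) (nat_lit 2619971845667) (nat_lit 1) (nat_lit 5) (nat_lit 2) (nat_lit 4) (nat_lit 1) (nat_lit 4) (nat_lit 412) (nat_lit 331) (nat_lit 277)))) (XT.nd (nat_lit 78) (nat_lit 0) (nat_lit 0) (XT.lf (nat_lit 0) (nat_lit 3023701072896) (nat_lit 76) (nat_lit 9691748827085) (nat_lit 0) (nat_lit 3022570887803) (nat_lit 1) (nat_lit 5) (nat_lit 2) (nat_lit 4) (nat_lit 1) (nat_lit 4) (nat_lit 413) (nat_lit 331) (nat_lit 276)) (XT.nd (nat_lit 78) (nat_lit 0)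 (nat_lit 0) (XT.lf (nat_lit 0) (nat_lit 3486688826460) (nat_lit 76) (nat_lit 11125036021896) (nat_lit 0) (nat_lit 3485558573702) (nat_lit 1) (nat_lit 5) (nat_lit 2) (nat_lit 4) (nat_lit 1) (nat_lit 4) (nat_lit 414) (nat_lit 331) (nat_lit 275)) (XT.lf (nat_lit 0) (nat_lit 4019123669683) (nat_lit 76) (nat_lit 12773318584725) (nat_lit 0) (nat_lit 4017993358087) (nat_lit 1) (nat_lit 5) (nat_lit 2) (nat_lit 4) (nat_lit 1) (nat_lit 4) (nat_lit 415) (nat_lit 331) (nat_lit 274))))) (XT.nd (nat_lit 234) (nat_lit 0) (nat_lit 0) (XT.nd (nat_lit 78) (nat_lit 0) (nat_lit 0) (XT.lf (nat_lit 0) (nat_lit 4631422806022) (nat_lit 76) (nat_lit 14668845522237) (nat_lit 0) (nat_lit 4630292443261) (nat_lit 1) (nat_lit 5) (nat_lit 2) (nat_lit 4) (nat_lit 1) (nat_lit 4) (nat_lit 416) (nat_lit 331) (nat_lit 273)) (XT.nd (nat_lit 78) (nat_lit 0) (nat_lit 0) (XT.lf (nat_lit 0) (nat_lit 5335566001186) (nat_lit 76)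 (nat_lit 16848703231033) (nat_lit 0) (nat_lit 5334435593935) (nat_lit 1) (nat_lit 5) (nat_lit 2) (nat_lit 4) (nat_lit 1) (nat_lit 4) (nat_lit 417) (nat_lit 331) (nat_lit 272)) (XT.lf (nat_lit 0) (nat_lit 6145329969863) (nat_lit 76) (nat_lit 19355541101070) (nat_lit 0) (nat_lit 6144199523925) (nat_lit 1) (nat_lit 5) (nat_lit 2) (nat_lit 4) (nat_lit 1) (nat_lit 4) (nat_lit 418) (nat_lit 331) (nat_lit 271)))) (XT.nd (nat_lit 78) (nat_lit 0) (nat_lit 0) (XT.lf (nat_lit 0) (nat_lit 7076557920138) (nat_lit 76) (nat_lit 22238405960239) (nat_lit 0) (nat_lit 7075427440558) (nat_lit 1) (nat_lit 5) (nat_lit 2) (nat_lit 4) (nat_lit 1) (nat_lit 4) (nat_lit 419) (nat_lit 331) (nat_lit 270)) (XT.nd (nat_lit 78) (nat_lit 0) (nat_lit 0) (XT.lf (nat_lit 0) (nat_lit 8147469529296) (nat_lit 76) (nat_lit 25553701686219) (nat_lit 0) (nat_lit 8146339020464) (nat_lit 1) (nat_lit 5) (nat_lit 2) (nat_lit 4) (nat_lit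 1) (nat_lit 4) (nat_lit 420) (nat_lit 331) (nat_lit 269)) (XT.lf (nat_lit 0) (nat_lit 9379017415780) (nat_lit 76) (nat_lit 29366292760606) (nat_lit 0) (nat_lit 9377886881509) (nat_lit 1) (nat_lit 5) (nat_lit 2) (nat_lit 4) (nat_lit 1) (nat_lit 4) (nat_lit 421) (nat_lit 331) (nat_lit 268)))))) (XT.nd (nat_lit 468) (nat_lit 0) (nat_lit 0) (XT.nd (nat_lit 234) (nat_lit 0) (nat_lit 0) (XT.nd (nat_lit 78) (nat_lit 0) (nat_lit 0) (XT.lf (nat_lit 0) (nat_lit 10795297081714) (nat_lit 76) (nat_lit 33750773356595) (nat_lit 0) (nat_lit 10794166525324) (nat_lit 1) (nat_lit 5) (nat_lit 2) (nat_lit 4) (nat_lit 1) (nat_lit 4) (nat_lit 422) (nat_lit 331) (nat_lit 267)) (XT.nd (nat_lit 78) (nat_lit 0) (nat_lit 0) (XT.lf (nat_lit 0) (nat_lit 12424018346651) (nat_lit 76) (nat_lit 38792926790193) (nat_lit 0) (nat_lit 12422887771027) (nat_lit 1) (nat_lit 5) (nat_lit 2) (nat_lit 4) (nat_lit 1) (nat_lit 4)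 (nat_lit 423) (nat_lit 331) (nat_lit 266)) (XT.lf (nat_lit 0) (nat_lit 14297047496209) (nat_lit 76) (nat_lit 44591403889449) (nat_lit 0) (nat_lit 14295916903859) (nat_lit 1) (nat_lit 5) (nat_lit 2) (nat_lit 4) (nat_lit 1) (nat_lit 4) (nat_lit 424) (nat_lit 331) (nat_lit 265)))) (XT.nd (nat_lit 78) (nat_lit 0) (nat_lit 0) (XT.lf (nat_lit 0) (nat_lit 16451030752878) (nat_lit 76) (nat_lit 51259653119350) (nat_lit 0) (nat_lit 16449900145984) (nat_lit 1) (nat_lit 5) (nat_lit 2) (nat_lit 4) (nat_lit 1) (nat_lit 4) (nat_lit 425) (nat_lit 331) (nat_lit 264)) (XT.nd (nat_lit 78) (nat_lit 0) (nat_lit 0) (XT.lf (nat_lit 0) (nat_lit 18928111267334) (nat_lit 76) (nat_lit 58928140225697) (nat_lit 0) (nat_lit 18926980647793) (nat_lit 1) (nat_lit 5) (nat_lit 2) (nat_lit 4) (nat_lit 1) (nat_lit 4) (nat_lit 426) (nat_lit 331) (nat_lit 263)) (XT.lf (nat_lit 0) (nat_lit 21776753658336) (nat_lit 76) (nat_lit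 67746900825788) (nat_lit 0) (nat_lit 21775623027798) (nat_lit 1) (nat_lit 5) (nat_lit 2) (nat_lit 4) (nat_lit 1) (nat_lit 4) (nat_lit 427) (nat_lit 331) (nat_lit 262))))) (XT.nd (nat_lit 234) (nat_lit 0) (nat_lit 0) (XT.nd (nat_lit 78) (nat_lit 0) (nat_lit 0) (XT.lf (nat_lit 0) (nat_lit 25052692233536) (nat_lit 76) (nat_lit 77888475887886) (nat_lit 0) (nat_lit 25051561593434) (nat_lit 1) (nat_lit 5) (nat_lit 2) (nat_lit 4) (nat_lit 1) (nat_lit 4) (nat_lit 428) (nat_lit 331) (nat_lit 261)) (XT.nd (nat_lit 78) (nat_lit 0) (nat_lit 0) (XT.lf (nat_lit 0) (nat_lit 28820021443317) (nat_lit 76) (nat_lit 89551287532772) (nat_lit 0) (nat_lit 28818890794900) (nat_lit 1) (nat_lit 5) (nat_lit 2) (nat_lit 4) (nat_lit 1) (nat_lit 4) (nat_lit 429) (nat_lit 331) (nat_lit 260)) (XT.lf (nat_lit 0) (nat_lit 33152449902653) (nat_lit 76) (nat_lit 102963521205671) (nat_lit 0) (nat_lit 33151319247005) (nat_lit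 1) (nat_lit 5) (nat_lit 2) (nat_lit 4) (nat_lit 1) (nat_lit 4) (nat_lit 430) (nat_lit 331) (nat_lit 259)))) (XT.nd (nat_lit 156) (nat_lit 0) (nat_lit 0) (XT.nd (nat_lit 78) (nat_lit 0) (nat_lit 0) (XT.lf (nat_lit 0) (nat_lit 38134742516184) (nat_lit 76) (nat_lit 118387590174096) (nat_lit 0) (nat_lit 38133611854248) (nat_lit 1) (nat_lit 5) (nat_lit 2) (nat_lit 4) (nat_lit 1) (nat_lit 4) (nat_lit 431) (nat_lit 331) (nat_lit 258)) (XT.lf (nat_lit 0) (nat_lit 43864378922000) (nat_lit 76) (nat_lit 136125269700473) (nat_lit 0) (nat_lit 43863248254597) (nat_lit 1) (nat_lit 5) (nat_lit 2) (nat_lit 4) (nat_lit 1) (nat_lit 4) (nat_lit 432) (nat_lit 331) (nat_lit 257))) (XT.nd (nat_lit 78) (nat_lit 0) (nat_lit 0) (XT.lf (nat_lit 0) (nat_lit 50453460701955) (nat_lit 76) (nat_lit 156523601340754) (nat_lit 0) (nat_lit 50452330029797) (nat_lit 1) (nat_lit 5) (nat_lit 2) (nat_lit 4) (nat_lit 1) (nat_lit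 4) (nat_lit 433) (nat_lit 331) (nat_lit 256)) (XT.lf (nat_lit 0) (nat_lit 58030904673482) (nat_lit 76) (nat_lit 179981682887899) (nat_lit 0) (nat_lit 58029773997189) (nat_lit 1) (nat_lit 5) (nat_lit 2) (nat_lit 4) (nat_lit 1) (nat_lit 4) (nat_lit 434) (nat_lit 331) (nat_lit 255))))))))
noncomputable def xc32 : XT := (XT.nd (nat_lit 48516) (nat_lit 0) (nat_lit 0) (XT.nd (nat_lit 47580) (nat_lit 0) (nat_lit 152) (XT.nd (nat_lit 47112) (nat_lit 0) (nat_lit 760) (XT.nd (nat_lit 234) (nat_lit 0) (nat_lit 0) (XT.nd (nat_lit 78) (nat_lit 0) (nat_lit 0) (XT.lf (nat_lit 0) (nat_lit 66744965175154) (nat_lit 76) (nat_lit 206958476806963) (nat_lit 0) (nat_lit 66743834495267) (nat_lit 1) (nat_lit 5) (nat_lit 2) (nat_lit 4) (nat_lit 1) (nat_lit 4) (nat_lit 435) (nat_lit 331) (nat_lit 254)) (XT.nd (nat_lit 78) (nat_lit 0) (nat_lit 0) (XT.lf (nat_lit 0) (nat_lit 76766134695048) (nat_lit 76) (nat_lit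 237981789935492) (nat_lit 0) (nat_lit 76765004012034) (nat_lit 1) (nat_lit 5) (nat_lit 2) (nat_lit 4) (nat_lit 1) (nat_lit 4) (nat_lit 436) (nat_lit 331) (nat_lit 253)) (XT.lf (nat_lit 0) (nat_lit 88290479593336) (nat_lit 76) (nat_lit 273658600139043) (nat_lit 0) (nat_lit 88289348907604) (nat_lit 1) (nat_lit 5) (nat_lit 2) (nat_lit 4) (nat_lit 1) (nat_lit 4) (nat_lit 437) (nat_lit 331) (nat_lit 252)))) (XT.nd (nat_lit 46722) (nat_lit 0) (nat_lit 1216) (XT.lf (nat_lit 0) (nat_lit 101543476183244) (nat_lit 76) (nat_lit 314686931965078) (nat_lit 0) (nat_lit 101542345495149) (nat_lit 1) (nat_lit 5) (nat_lit 2) (nat_lit 4) (nat_lit 1) (nat_lit 4) (nat_lit 438) (nat_lit 331) (nat_lit 251)) (XT.nd (nat_lit 78) (nat_lit 76) (nat_lit 0) (XT.lf (nat_lit 0) (nat_lit 1518069168) (nat_lit 152) (nat_lit 3460739233) (nat_lit 0) (nat_lit 1518069168) (nat_lit 18) (nat_lit 5) (nat_lit 20) (nat_lit 4) (nat_lit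 18) (nat_lit 4) (nat_lit 356) (nat_lit 332) (nat_lit 332)) (XT.lf (nat_lit 0) (nat_lit 4693938225) (nat_lit 76) (nat_lit 4833480213) (nat_lit 76) (nat_lit 4441172204) (nat_lit 17) (nat_lit 4) (nat_lit 18) (nat_lit 5) (nat_lit 18) (nat_lit 4) (nat_lit 357) (nat_lit 332) (nat_lit 331))))) (XT.nd (nat_lit 234) (nat_lit 228) (nat_lit 0) (XT.nd (nat_lit 78) (nat_lit 76) (nat_lit 0) (XT.lf (nat_lit 0) (nat_lit 1662644479) (nat_lit 152) (nat_lit 12401014695) (nat_lit 0) (nat_lit 1024865864) (nat_lit 15) (nat_lit 5) (nat_lit 17) (nat_lit 4) (nat_lit 15) (nat_lit 4) (nat_lit 358) (nat_lit 332) (nat_lit 330)) (XT.nd (nat_lit 78) (nat_lit 76) (nat_lit 0) (XT.lf (nat_lit 0) (nat_lit 8364102333) (nat_lit 152) (nat_lit 491811299) (nat_lit 0) (nat_lit 7468374834) (nat_lit 15) (nat_lit 5) (nat_lit 17) (nat_lit 4) (nat_lit 15) (nat_lit 4) (nat_lit 359) (nat_lit 332) (nat_lit 329)) (XT.lf (nat_lit 0) (nat_lit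 13339438136) (nat_lit 76) (nat_lit 2760826025) (nat_lit 76) (nat_lit 1640795150) (nat_lit 14) (nat_lit 4) (nat_lit 15) (nat_lit 5) (nat_lit 15) (nat_lit 4) (nat_lit 360) (nat_lit 332) (nat_lit 328)))) (XT.nd (nat_lit 78) (nat_lit 76) (nat_lit 0) (XT.lf (nat_lit 0) (nat_lit 5210406829) (nat_lit 152) (nat_lit 10045458134) (nat_lit 0) (nat_lit 4066861359) (nat_lit 12) (nat_lit 5) (nat_lit 14) (nat_lit 4) (nat_lit 12) (nat_lit 4) (nat_lit 361) (nat_lit 332) (nat_lit 327)) (XT.nd (nat_lit 78) (nat_lit 0) (nat_lit 0) (XT.lf (nat_lit 0) (nat_lit 3419553712) (nat_lit 76) (nat_lit 9500792497) (nat_lit 76) (nat_lit 8209763915) (nat_lit 11) (nat_lit 4) (nat_lit 12) (nat_lit 5) (nat_lit 12) (nat_lit 4) (nat_lit 362) (nat_lit 332) (nat_lit 326)) (XT.lf (nat_lit 0) (nat_lit 19021601803) (nat_lit 76) (nat_lit 2800506151) (nat_lit 76) (nat_lit 1381231385) (nat_lit 11) (nat_lit 4) (nat_lit 12) (nat_lit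 5) (nat_lit 12) (nat_lit 4) (nat_lit 363) (nat_lit 332) (nat_lit 325)))))) (XT.nd (nat_lit 468) (nat_lit 228) (nat_lit 0) (XT.nd (nat_lit 234) (nat_lit 152) (nat_lit 0) (XT.nd (nat_lit 78) (nat_lit 76) (nat_lit 0) (XT.lf (nat_lit 0) (nat_lit 6130341023) (nat_lit 152) (nat_lit 14582591912) (nat_lit 0) (nat_lit 4799216513) (nat_lit 9) (nat_lit 5) (nat_lit 11) (nat_lit 4) (nat_lit 9) (nat_lit 4) (nat_lit 364) (nat_lit 332) (nat_lit 324)) (XT.nd (nat_lit 78) (nat_lit 76) (nat_lit 0) (XT.lf (nat_lit 0) (nat_lit 14546180157) (nat_lit 152) (nat_lit 492686579) (nat_lit 0) (nat_lit 13130731700) (nat_lit 9) (nat_lit 5) (nat_lit 11) (nat_lit 4) (nat_lit 9) (nat_lit 4) (nat_lit 365) (nat_lit 332) (nat_lit 323)) (XT.lf (nat_lit 0) (nat_lit 16361995751) (nat_lit 76) (nat_lit 8154336761) (nat_lit 76) (nat_lit 6665563132) (nat_lit 8) (nat_lit 4) (nat_lit 9) (nat_lit 5) (nat_lit 9) (nat_lit 4) (nat_lit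 366) (nat_lit 332) (nat_lit 322)))) (XT.nd (nat_lit 78) (nat_lit 0) (nat_lit 0) (XT.lf (nat_lit 0) (nat_lit 324014280) (nat_lit 76) (nat_lit 548799174) (nat_lit 152) (nat_lit 33816575195) (nat_lit 6) (nat_lit 5) (nat_lit 7) (nat_lit 5) (nat_lit 8) (nat_lit 4) (nat_lit 367) (nat_lit 332) (nat_lit 321)) (XT.nd (nat_lit 78) (nat_lit 0) (nat_lit 0) (XT.lf (nat_lit 0) (nat_lit 9627504787) (nat_lit 152) (nat_lit 20703443861) (nat_lit 0) (nat_lit 8229262168) (nat_lit 6) (nat_lit 5) (nat_lit 8) (nat_lit 4) (nat_lit 6) (nat_lit 4) (nat_lit 368) (nat_lit 332) (nat_lit 320)) (XT.lf (nat_lit 0) (nat_lit 19388468034) (nat_lit 152) (nat_lit 5720938811) (nat_lit 0) (nat_lit 17948301510) (nat_lit 6) (nat_lit 5) (nat_lit 8) (nat_lit 4) (nat_lit 6) (nat_lit 4) (nat_lit 369) (nat_lit 332) (nat_lit 319))))) (XT.nd (nat_lit 234) (nat_lit 152) (nat_lit 0) (XT.nd (nat_lit 78) (nat_lit 0) (nat_lit 0) (XT.lf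 (nat_lit 0) (nat_lit 11963033302) (nat_lit 76) (nat_lit 18856284355) (nat_lit 76) (nat_lit 17379662261) (nat_lit 5) (nat_lit 4) (nat_lit 6) (nat_lit 5) (nat_lit 6) (nat_lit 4) (nat_lit 370) (nat_lit 332) (nat_lit 318)) (XT.nd (nat_lit 78) (nat_lit 0) (nat_lit 0) (XT.lf (nat_lit 0) (nat_lit 32359386129) (nat_lit 76) (nat_lit 11628464768) (nat_lit 76) (nat_lit 10120142179) (nat_lit 5) (nat_lit 4) (nat_lit 6) (nat_lit 5) (nat_lit 6) (nat_lit 4) (nat_lit 371) (nat_lit 332) (nat_lit 317)) (XT.lf (nat_lit 0) (nat_lit 55308086998) (nat_lit 76) (nat_lit 3583583297) (nat_lit 76) (nat_lit 2047695059) (nat_lit 5) (nat_lit 4) (nat_lit 6) (nat_lit 5) (nat_lit 6) (nat_lit 4) (nat_lit 372) (nat_lit 332) (nat_lit 316)))) (XT.nd (nat_lit 78) (nat_lit 0) (nat_lit 0) (XT.lf (nat_lit 0) (nat_lit 7189873580) (nat_lit 152) (nat_lit 55637396369) (nat_lit 0) (nat_lit 5833475001) (nat_lit 3) (nat_lit 5) (nat_lit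 5) (nat_lit 4) (nat_lit 3) (nat_lit 4) (nat_lit 373) (nat_lit 332) (nat_lit 315)) (XT.nd (nat_lit 78) (nat_lit 0) (nat_lit 0) (XT.lf (nat_lit 0) (nat_lit 17864423030) (nat_lit 152) (nat_lit 43132239209) (nat_lit 0) (nat_lit 16489899589) (nat_lit 3) (nat_lit 5) (nat_lit 5) (nat_lit 4) (nat_lit 3) (nat_lit 4) (nat_lit 374) (nat_lit 332) (nat_lit 314)) (XT.lf (nat_lit 0) (nat_lit 29950558489) (nat_lit 152) (nat_lit 29153862526) (nat_lit 0) (nat_lit 28560274299) (nat_lit 3) (nat_lit 5) (nat_lit 5) (nat_lit 4) (nat_lit 3) (nat_lit 4) (nat_lit 375) (nat_lit 332) (nat_lit 313))))))) (XT.nd (nat_lit 936) (nat_lit 0) (nat_lit 0) (XT.nd (nat_lit 468) (nat_lit 76) (nat_lit 0) (XT.nd (nat_lit 234) (nat_lit 0) (nat_lit 0) (XT.nd (nat_lit 78) (nat_lit 76) (nat_lit 0) (XT.lf (nat_lit 0) (nat_lit 43684747825) (nat_lit 152) (nat_lit 13428776343) (nat_lit 0) (nat_lit 42280758637) (nat_lit 3) (nat_lit 5)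 (nat_lit 5) (nat_lit 4) (nat_lit 3) (nat_lit 4) (nat_lit 376) (nat_lit 332) (nat_lit 312)) (XT.nd (nat_lit 78) (nat_lit 0) (nat_lit 0) (XT.lf (nat_lit 0) (nat_lit 4775864558) (nat_lit 76) (nat_lit 54757597246) (nat_lit 76) (nat_lit 53341690668) (nat_lit 2) (nat_lit 4) (nat_lit 3) (nat_lit 5) (nat_lit 3) (nat_lit 4) (nat_lit 377) (nat_lit 332) (nat_lit 311)) (XT.lf (nat_lit 0) (nat_lit 26929860090) (nat_lit 76) (nat_lit 51394887665) (nat_lit 76) (nat_lit 49968618138) (nat_lit 2) (nat_lit 4) (nat_lit 3) (nat_lit 5) (nat_lit 3) (nat_lit 4) (nat_lit 378) (nat_lit 332) (nat_lit 310)))) (XT.nd (nat_lit 78) (nat_lit 0) (nat_lit 0) (XT.lf (nat_lit 0) (nat_lit 52154300303) (nat_lit 76) (nat_lit 47661562044) (nat_lit 76) (nat_lit 46226281259) (nat_lit 2) (nat_lit 4) (nat_lit 3) (nat_lit 5) (nat_lit 3) (nat_lit 4) (nat_lit 379) (nat_lit 332) (nat_lit 309)) (XT.nd (nat_lit 78) (nat_lit 0) (nat_lit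 0) (XT.lf (nat_lit 0) (nat_lit 80942706851) (nat_lit 76) (nat_lit 43484577057) (nat_lit 76) (nat_lit 42041460394) (nat_lit 2) (nat_lit 4) (nat_lit 3) (nat_lit 5) (nat_lit 3) (nat_lit 4) (nat_lit 380) (nat_lit 332) (nat_lit 308)) (XT.lf (nat_lit 0) (nat_lit 113858331169) (nat_lit 76) (nat_lit 38782209084) (nat_lit 76) (nat_lit 37332278614) (nat_lit 2) (nat_lit 4) (nat_lit 3) (nat_lit 5) (nat_lit 3) (nat_lit 4) (nat_lit 381) (nat_lit 332) (nat_lit 307))))) (XT.nd (nat_lit 234) (nat_lit 76) (nat_lit 0) (XT.nd (nat_lit 78) (nat_lit 0) (nat_lit 0) (XT.lf (nat_lit 0) (nat_lit 151545174601) (nat_lit 76) (nat_lit 33462455273) (nat_lit 76) (nat_lit 32006599754) (nat_lit 2) (nat_lit 4) (nat_lit 3) (nat_lit 5) (nat_lit 3) (nat_lit 4) (nat_lit 382) (nat_lit 332) (nat_lit 306)) (XT.nd (nat_lit 78) (nat_lit 0) (nat_lit 0) (XT.lf (nat_lit 0) (nat_lit 194740588431) (nat_lit 76) (nat_lit 27421233485)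 (nat_lit 76) (nat_lit 25960225749) (nat_lit 2) (nat_lit 4) (nat_lit 3) (nat_lit 5) (nat_lit 3) (nat_lit 4) (nat_lit 383) (nat_lit 332) (nat_lit 305)) (XT.lf (nat_lit 0) (nat_lit 244289700322) (nat_lit 76) (nat_lit 20540345901) (nat_lit 76) (nat_lit 19074857977) (nat_lit 2) (nat_lit 4) (nat_lit 3) (nat_lit 5) (nat_lit 3) (nat_lit 4) (nat_lit 384) (nat_lit 332) (nat_lit 304)))) (XT.nd (nat_lit 78) (nat_lit 76) (nat_lit 0) (XT.lf (nat_lit 0) (nat_lit 301161949420) (nat_lit 76) (nat_lit 12685166461) (nat_lit 76) (nat_lit 11215782721) (nat_lit 2) (nat_lit 4) (nat_lit 3) (nat_lit 5) (nat_lit 3) (nat_lit 4) (nat_lit 385) (nat_lit 332) (nat_lit 303)) (XT.nd (nat_lit 78) (nat_lit 76) (nat_lit 0) (XT.lf (nat_lit 0) (nat_lit 366470053641) (nat_lit 76) (nat_lit 3702006872) (nat_lit 76) (nat_lit 2229235465) (nat_lit 2) (nat_lit 4) (nat_lit 3) (nat_lit 5) (nat_lit 3) (nat_lit 4) (nat_lit 386) (nat_lit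 332) (nat_lit 302)) (XT.lf (nat_lit 0) (nat_lit 8313067445) (nat_lit 76) (nat_lit 411307803299) (nat_lit 0) (nat_lit 7029835094) (nat_lit 1) (nat_lit 5) (nat_lit 2) (nat_lit 4) (nat_lit 1) (nat_lit 4) (nat_lit 387) (nat_lit 332) (nat_lit 301)))))) (XT.nd (nat_lit 468) (nat_lit 0) (nat_lit 0) (XT.nd (nat_lit 234) (nat_lit 0) (nat_lit 0) (XT.nd (nat_lit 78) (nat_lit 0) (nat_lit 0) (XT.lf (nat_lit 0) (nat_lit 20668942206) (nat_lit 76) (nat_lit 448900111454) (nat_lit 0) (nat_lit 19383482410) (nat_lit 1) (nat_lit 5) (nat_lit 2) (nat_lit 4) (nat_lit 1) (nat_lit 4) (nat_lit 388) (nat_lit 332) (nat_lit 300)) (XT.nd (nat_lit 78) (nat_lit 0) (nat_lit 0) (XT.lf (nat_lit 0) (nat_lit 34842863829) (nat_lit 76) (nat_lit 492206610605) (nat_lit 0) (nat_lit 33555467123) (nat_lit 1) (nat_lit 5) (nat_lit 2) (nat_lit 4) (nat_lit 1) (nat_lit 4) (nat_lit 389) (nat_lit 332) (nat_lit 299)) (XT.lf (nat_lit 0)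 (nat_lit 51112148171) (nat_lit 76) (nat_lit 542074601821) (nat_lit 0) (nat_lit 49823067197) (nat_lit 1) (nat_lit 5) (nat_lit 2) (nat_lit 4) (nat_lit 1) (nat_lit 4) (nat_lit 390) (nat_lit 332) (nat_lit 298)))) (XT.nd (nat_lit 78) (nat_lit 0) (nat_lit 0) (XT.lf (nat_lit 0) (nat_lit 69795107317) (nat_lit 76) (nat_lit 599479763192) (nat_lit 0) (nat_lit 68504561762) (nat_lit 1) (nat_lit 5) (nat_lit 2) (nat_lit 4) (nat_lit 1) (nat_lit 4) (nat_lit 391) (nat_lit 332) (nat_lit 297)) (XT.nd (nat_lit 78) (nat_lit 0) (nat_lit 0) (XT.lf (nat_lit 0) (nat_lit 91257277425) (nat_lit 76) (nat_lit 665545239179) (nat_lit 0) (nat_lit 89965458321) (nat_lit 1) (nat_lit 5) (nat_lit 2) (nat_lit 4) (nat_lit 1) (nat_lit 4) (nat_lit 392) (nat_lit 332) (nat_lit 296)) (XT.lf (nat_lit 0) (nat_lit 115918570519) (nat_lit 76) (nat_lit 741563615183) (nat_lit 0) (nat_lit 114625643980) (nat_lit 1) (nat_lit 5) (nat_lit 2)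 (nat_lit 4) (nat_lit 1) (nat_lit 4) (nat_lit 393) (nat_lit 332) (nat_lit 295))))) (XT.nd (nat_lit 234) (nat_lit 0) (nat_lit 0) (XT.nd (nat_lit 78) (nat_lit 0) (nat_lit 0) (XT.lf (nat_lit 0) (nat_lit 144261490158) (nat_lit 76) (nat_lit 829022207255) (nat_lit 0) (nat_lit 142967600633) (nat_lit 1) (nat_lit 5) (nat_lit 2) (nat_lit 4) (nat_lit 1) (nat_lit 4) (nat_lit 394) (nat_lit 332) (nat_lit 294)) (XT.nd (nat_lit 78) (nat_lit 0) (nat_lit 0) (XT.lf (nat_lit 0) (nat_lit 176840571728) (nat_lit 76) (nat_lit 929632161762) (nat_lit 0) (nat_lit 175545844824) (nat_lit 1) (nat_lit 5) (nat_lit 2) (nat_lit 4) (nat_lit 1) (nat_lit 4) (nat_lit 395) (nat_lit 332) (nat_lit 293)) (XT.lf (nat_lit 0) (nat_lit 214293232041) (nat_lit 76) (nat_lit 1045361934335) (nat_lit 0) (nat_lit 212997776981) (nat_lit 1) (nat_lit 5) (nat_lit 2) (nat_lit 4) (nat_lit 1) (nat_lit 4) (nat_lit 396) (nat_lit 332) (nat_lit 292))))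 (XT.nd (nat_lit 156) (nat_lit 0) (nat_lit 0) (XT.nd (nat_lit 78) (nat_lit 0) (nat_lit 0) (XT.lf (nat_lit 0) (nat_lit 257352240539) (nat_lit 76) (nat_lit 1178475803135) (nat_lit 0) (nat_lit 256056152300) (nat_lit 1) (nat_lit 5) (nat_lit 2) (nat_lit 4) (nat_lit 1) (nat_lit 4) (nat_lit 397) (nat_lit 332) (nat_lit 291)) (XT.lf (nat_lit 0) (nat_lit 306860056083) (nat_lit 76) (nat_lit 1331578169941) (nat_lit 0) (nat_lit 305563417253) (nat_lit 1) (nat_lit 5) (nat_lit 2) (nat_lit 4) (nat_lit 1) (nat_lit 4) (nat_lit 398) (nat_lit 332) (nat_lit 290))) (XT.nd (nat_lit 78) (nat_lit 0) (nat_lit 0) (XT.lf (nat_lit 0) (nat_lit 363785309847) (nat_lit 76) (nat_lit 1507664515843) (nat_lit 0) (nat_lit 362488192243) (nat_lit 1) (nat_lit 5) (nat_lit 2) (nat_lit 4) (nat_lit 1) (nat_lit 4) (nat_lit 399) (nat_lit 332) (nat_lit 289)) (XT.lf (nat_lit 0) (nat_lit 429241756796) (nat_lit 76) (nat_lit 1710180008479)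 (nat_lit 0) (nat_lit 427944222866) (nat_lit 1) (nat_lit 5) (nat_lit 2) (nat_lit 4) (nat_lit 1) (nat_lit 4) (nat_lit 400) (nat_lit 332) (nat_lit 288))))))))
noncomputable def xc33 : XT := (XT.nd (nat_lit 1872) (nat_lit 0) (nat_lit 0) (XT.nd (nat_lit 936) (nat_lit 0) (nat_lit 0) (XT.nd (nat_lit 468) (nat_lit 0) (nat_lit 0) (XT.nd (nat_lit 234) (nat_lit 0) (nat_lit 0) (XT.nd (nat_lit 78) (nat_lit 0) (nat_lit 0) (XT.lf (nat_lit 0) (nat_lit 504510066544) (nat_lit 76) (nat_lit 1943086907486) (nat_lit 0) (nat_lit 503212170592) (nat_lit 1) (nat_lit 5) (nat_lit 2) (nat_lit 4) (nat_lit 1) (nat_lit 4) (nat_lit 401) (nat_lit 332) (nat_lit 287)) (XT.nd (nat_lit 78) (nat_lit 0) (nat_lit 0) (XT.lf (nat_lit 0) (nat_lit 591062879934) (nat_lit 76) (nat_lit 2210942086977) (nat_lit 0) (nat_lit 589764669181) (nat_lit 1) (nat_lit 5) (nat_lit 2) (nat_lit 4) (nat_lit 1) (nat_lit 4) (nat_lit 402) (nat_lit 332)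 (nat_lit 286)) (XT.lf (nat_lit 0) (nat_lit 690593621576) (nat_lit 76) (nat_lit 2518986191767) (nat_lit 0) (nat_lit 689295137082) (nat_lit 1) (nat_lit 5) (nat_lit 2) (nat_lit 4) (nat_lit 1) (nat_lit 4) (nat_lit 403) (nat_lit 332) (nat_lit 285)))) (XT.nd (nat_lit 78) (nat_lit 0) (nat_lit 0) (XT.lf (nat_lit 0) (nat_lit 805049632068) (nat_lit 76) (nat_lit 2873246171733) (nat_lit 0) (nat_lit 803750909538) (nat_lit 1) (nat_lit 5) (nat_lit 2) (nat_lit 4) (nat_lit 1) (nat_lit 4) (nat_lit 404) (nat_lit 332) (nat_lit 284)) (XT.nd (nat_lit 78) (nat_lit 0) (nat_lit 0) (XT.lf (nat_lit 0) (nat_lit 936670268136) (nat_lit 76) (nat_lit 3280653200395) (nat_lit 0) (nat_lit 935371338619) (nat_lit 1) (nat_lit 5) (nat_lit 2) (nat_lit 4) (nat_lit 1) (nat_lit 4) (nat_lit 405) (nat_lit 332) (nat_lit 283)) (XT.lf (nat_lit 0) (nat_lit 1088030716137) (nat_lit 76) (nat_lit 3749178284836) (nat_lit 0) (nat_lit 1086731606631)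 (nat_lit 1) (nat_lit 5) (nat_lit 2) (nat_lit 4) (nat_lit 1) (nat_lit 4) (nat_lit 406) (nat_lit 332) (nat_lit 282))))) (XT.nd (nat_lit 234) (nat_lit 0) (nat_lit 0) (XT.nd (nat_lit 78) (nat_lit 0) (nat_lit 0) (XT.lf (nat_lit 0) (nat_lit 1262092376143) (nat_lit 76) (nat_lit 4287988220186) (nat_lit 0) (nat_lit 1260793110125) (nat_lit 1) (nat_lit 5) (nat_lit 2) (nat_lit 4) (nat_lit 1) (nat_lit 4) (nat_lit 407) (nat_lit 332) (nat_lit 281)) (XT.nd (nat_lit 78) (nat_lit 0) (nat_lit 0) (XT.lf (nat_lit 0) (nat_lit 1462260802369) (nat_lit 76) (nat_lit 4907624939964) (nat_lit 0) (nat_lit 1460961400254) (nat_lit 1) (nat_lit 5) (nat_lit 2) (nat_lit 4) (nat_lit 1) (nat_lit 4) (nat_lit 408) (nat_lit 332) (nat_lit 280)) (XT.lf (nat_lit 0) (nat_lit 1692452333591) (nat_lit 76) (nat_lit 5620211771295) (nat_lit 0) (nat_lit 1691152813130) (nat_lit 1) (nat_lit 5) (nat_lit 2) (nat_lit 4) (nat_lit 1) (nat_lit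 4) (nat_lit 409) (nat_lit 332) (nat_lit 279)))) (XT.nd (nat_lit 78) (nat_lit 0) (nat_lit 0) (XT.lf (nat_lit 0) (nat_lit 1957170717158) (nat_lit 76) (nat_lit 6439690630445) (nat_lit 0) (nat_lit 1955871093788) (nat_lit 1) (nat_lit 5) (nat_lit 2) (nat_lit 4) (nat_lit 1) (nat_lit 4) (nat_lit 410) (nat_lit 332) (nat_lit 278)) (XT.nd (nat_lit 78) (nat_lit 0) (nat_lit 0) (XT.lf (nat_lit 0) (nat_lit 2261595225792) (nat_lit 76) (nat_lit 7382094799439) (nat_lit 0) (nat_lit 2260295512935) (nat_lit 1) (nat_lit 5) (nat_lit 2) (nat_lit 4) (nat_lit 1) (nat_lit 4) (nat_lit 411) (nat_lit 332) (nat_lit 277)) (XT.lf (nat_lit 0) (nat_lit 2611681991184) (nat_lit 76) (nat_lit 8465862620716) (nat_lit 0) (nat_lit 2610382200513) (nat_lit 1) (nat_lit 5) (nat_lit 2) (nat_lit 4) (nat_lit 1) (nat_lit 4) (nat_lit 412) (nat_lit 332) (nat_lit 276)))))) (XT.nd (nat_lit 468) (nat_lit 0) (nat_lit 0) (XT.nd (nat_lit 234)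 (nat_lit 0) (nat_lit 0) (XT.nd (nat_lit 78) (nat_lit 0) (nat_lit 0) (XT.lf (nat_lit 0) (nat_lit 3014280537005) (nat_lit 76) (nat_lit 9712198247300) (nat_lit 0) (nat_lit 3012980678669) (nat_lit 1) (nat_lit 5) (nat_lit 2) (nat_lit 4) (nat_lit 1) (nat_lit 4) (nat_lit 413) (nat_lit 332) (nat_lit 275)) (XT.nd (nat_lit 78) (nat_lit 0) (nat_lit 0) (XT.lf (nat_lit 0) (nat_lit 3477267791325) (nat_lit 76) (nat_lit 11145486506668) (nat_lit 0) (nat_lit 3475967874150) (nat_lit 1) (nat_lit 5) (nat_lit 2) (nat_lit 4) (nat_lit 1) (nat_lit 4) (nat_lit 414) (nat_lit 332) (nat_lit 274)) (XT.lf (nat_lit 0) (nat_lit 4009702200423) (nat_lit 76) (nat_lit 12793769995198) (nat_lit 0) (nat_lit 4008402232085) (nat_lit 1) (nat_lit 5) (nat_lit 2) (nat_lit 4) (nat_lit 1) (nat_lit 4) (nat_lit 415) (nat_lit 332) (nat_lit 273)))) (XT.nd (nat_lit 78) (nat_lit 0) (nat_lit 0) (XT.lf (nat_lit 0) (nat_lit 4622000959261) (nat_lit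 76) (nat_lit 14689297737667) (nat_lit 0) (nat_lit 4620700946432) (nat_lit 1) (nat_lit 5) (nat_lit 2) (nat_lit 4) (nat_lit 1) (nat_lit 4) (nat_lit 416) (nat_lit 332) (nat_lit 272)) (XT.nd (nat_lit 78) (nat_lit 0) (nat_lit 0) (XT.lf (nat_lit 0) (nat_lit 5326143826165) (nat_lit 76) (nat_lit 16869156146427) (nat_lit 0) (nat_lit 5324843774648) (nat_lit 1) (nat_lit 5) (nat_lit 2) (nat_lit 4) (nat_lit 1) (nat_lit 4) (nat_lit 417) (nat_lit 332) (nat_lit 271)) (XT.lf (nat_lit 0) (nat_lit 6135907509398) (nat_lit 76) (nat_lit 19375994625127) (nat_lit 0) (nat_lit 6134607424240) (nat_lit 1) (nat_lit 5) (nat_lit 2) (nat_lit 4) (nat_lit 1) (nat_lit 4) (nat_lit 418) (nat_lit 332) (nat_lit 270))))) (XT.nd (nat_lit 234) (nat_lit 0) (nat_lit 0) (XT.nd (nat_lit 78) (nat_lit 0) (nat_lit 0) (XT.lf (nat_lit 0) (nat_lit 7067135211460) (nat_lit 76) (nat_lit 22258860013568) (nat_lit 0) (nat_lit 7065835097049)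 (nat_lit 1) (nat_lit 5) (nat_lit 2) (nat_lit 4) (nat_lit 1) (nat_lit 4) (nat_lit 419) (nat_lit 332) (nat_lit 269)) (XT.nd (nat_lit 78) (nat_lit 0) (nat_lit 0) (XT.lf (nat_lit 0) (nat_lit 8138046604782) (nat_lit 76) (nat_lit 25574156199786) (nat_lit 0) (nat_lit 8136746464933) (nat_lit 1) (nat_lit 5) (nat_lit 2) (nat_lit 4) (nat_lit 1) (nat_lit 4) (nat_lit 420) (nat_lit 332) (nat_lit 268)) (XT.lf (nat_lit 0) (nat_lit 9369594303581) (nat_lit 76) (nat_lit 29386747674379) (nat_lit 0) (nat_lit 9368294141613) (nat_lit 1) (nat_lit 5) (nat_lit 2) (nat_lit 4) (nat_lit 1) (nat_lit 4) (nat_lit 421) (nat_lit 332) (nat_lit 267)))) (XT.nd (nat_lit 78) (nat_lit 0) (nat_lit 0) (XT.lf (nat_lit 0) (nat_lit 10785873806312) (nat_lit 76) (nat_lit 33771228618373) (nat_lit 0) (nat_lit 10784573625109) (nat_lit 1) (nat_lit 5) (nat_lit 2) (nat_lit 4) (nat_lit 1) (nat_lit 4) (nat_lit 422) (nat_lit 332) (nat_lit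 266)) (XT.nd (nat_lit 78) (nat_lit 0) (nat_lit 0) (XT.lf (nat_lit 0) (nat_lit 12414594929333) (nat_lit 76) (nat_lit 38813382354585) (nat_lit 0) (nat_lit 12413294731404) (nat_lit 1) (nat_lit 5) (nat_lit 2) (nat_lit 4) (nat_lit 1) (nat_lit 4) (nat_lit 423) (nat_lit 332) (nat_lit 265)) (XT.lf (nat_lit 0) (nat_lit 14287623955485) (nat_lit 76) (nat_lit 44611859716983) (nat_lit 0) (nat_lit 14286323743012) (nat_lit 1) (nat_lit 5) (nat_lit 2) (nat_lit 4) (nat_lit 1) (nat_lit 4) (nat_lit 424) (nat_lit 332) (nat_lit 264))))))) (XT.nd (nat_lit 47580) (nat_lit 0) (nat_lit 532) (XT.nd (nat_lit 468) (nat_lit 0) (nat_lit 0) (XT.nd (nat_lit 234) (nat_lit 0) (nat_lit 0) (XT.nd (nat_lit 78) (nat_lit 0) (nat_lit 0) (XT.lf (nat_lit 0) (nat_lit 16441607104845) (nat_lit 76) (nat_lit 51280109175703) (nat_lit 0) (nat_lit 16440306879726) (nat_lit 1) (nat_lit 5) (nat_lit 2) (nat_lit 4) (nat_lit 1) (nat_lit 4)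 (nat_lit 425) (nat_lit 332) (nat_lit 263)) (XT.nd (nat_lit 78) (nat_lit 0) (nat_lit 0) (XT.lf (nat_lit 0) (nat_lit 18918687525988) (nat_lit 76) (nat_lit 58948596481023) (nat_lit 0) (nat_lit 18917387289872) (nat_lit 1) (nat_lit 5) (nat_lit 2) (nat_lit 4) (nat_lit 1) (nat_lit 4) (nat_lit 426) (nat_lit 332) (nat_lit 262)) (XT.lf (nat_lit 0) (nat_lit 21767329835850) (nat_lit 76) (nat_lit 67767357254134) (nat_lit 0) (nat_lit 21766029590170) (nat_lit 1) (nat_lit 5) (nat_lit 2) (nat_lit 4) (nat_lit 1) (nat_lit 4) (nat_lit 427) (nat_lit 332) (nat_lit 261)))) (XT.nd (nat_lit 78) (nat_lit 0) (nat_lit 0) (XT.lf (nat_lit 0) (nat_lit 25043268340492) (nat_lit 76) (nat_lit 77908932466685) (nat_lit 0) (nat_lit 25041968086497) (nat_lit 1) (nat_lit 5) (nat_lit 2) (nat_lit 4) (nat_lit 1) (nat_lit 4) (nat_lit 428) (nat_lit 332) (nat_lit 260)) (XT.nd (nat_lit 78) (nat_lit 0) (nat_lit 0) (XT.lf (nat_lit 0)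 (nat_lit 28810597488918) (nat_lit 76) (nat_lit 89571744242399) (nat_lit 0) (nat_lit 28809297227692) (nat_lit 1) (nat_lit 5) (nat_lit 2) (nat_lit 4) (nat_lit 1) (nat_lit 4) (nat_lit 429) (nat_lit 332) (nat_lit 259)) (XT.lf (nat_lit 0) (nat_lit 33143025894903) (nat_lit 76) (nat_lit 102983978029061) (nat_lit 0) (nat_lit 33141725627389) (nat_lit 1) (nat_lit 5) (nat_lit 2) (nat_lit 4) (nat_lit 1) (nat_lit 4) (nat_lit 430) (nat_lit 332) (nat_lit 258))))) (XT.nd (nat_lit 234) (nat_lit 0) (nat_lit 0) (XT.nd (nat_lit 78) (nat_lit 0) (nat_lit 0) (XT.lf (nat_lit 0) (nat_lit 38125318462042) (nat_lit 76) (nat_lit 118408047096411) (nat_lit 0) (nat_lit 38124018189059) (nat_lit 1) (nat_lit 5) (nat_lit 2) (nat_lit 4) (nat_lit 1) (nat_lit 4) (nat_lit 431) (nat_lit 332) (nat_lit 257)) (XT.nd (nat_lit 78) (nat_lit 0) (nat_lit 0) (XT.lf (nat_lit 0) (nat_lit 43854954827516) (nat_lit 76) (nat_lit 136145726708810)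 (nat_lit 0) (nat_lit 43853654549780) (nat_lit 1) (nat_lit 5) (nat_lit 2) (nat_lit 4) (nat_lit 1) (nat_lit 4) (nat_lit 432) (nat_lit 332) (nat_lit 256)) (XT.lf (nat_lit 0) (nat_lit 50444036572391) (nat_lit 76) (nat_lit 156544058423892) (nat_lit 0) (nat_lit 50442736290521) (nat_lit 1) (nat_lit 5) (nat_lit 2) (nat_lit 4) (nat_lit 1) (nat_lit 4) (nat_lit 433) (nat_lit 332) (nat_lit 255)))) (XT.nd (nat_lit 78) (nat_lit 0) (nat_lit 0) (XT.lf (nat_lit 0) (nat_lit 58021480513414) (nat_lit 76) (nat_lit 180002140036083) (nat_lit 0) (nat_lit 58020180227948) (nat_lit 1) (nat_lit 5) (nat_lit 2) (nat_lit 4) (nat_lit 1) (nat_lit 4) (nat_lit 434) (nat_lit 332) (nat_lit 254)) (XT.nd (nat_lit 78) (nat_lit 0) (nat_lit 0) (XT.lf (nat_lit 0) (nat_lit 66735540988561) (nat_lit 76) (nat_lit 206978934011707) (nat_lit 0) (nat_lit 66734240699970) (nat_lit 1) (nat_lit 5) (nat_lit 2) (nat_lit 4) (nat_lit 1) (nat_lit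 4) (nat_lit 435) (nat_lit 332) (nat_lit 253)) (XT.lf (nat_lit 0) (nat_lit 76756710485390) (nat_lit 76) (nat_lit 238002247189418) (nat_lit 0) (nat_lit 76755410194080) (nat_lit 1) (nat_lit 5) (nat_lit 2) (nat_lit 4) (nat_lit 1) (nat_lit 4) (nat_lit 436) (nat_lit 332) (nat_lit 252)))))) (XT.nd (nat_lit 468) (nat_lit 532) (nat_lit 0) (XT.nd (nat_lit 234) (nat_lit 228) (nat_lit 0) (XT.nd (nat_lit 78) (nat_lit 228) (nat_lit 0) (XT.lf (nat_lit 0) (nat_lit 1922430554) (nat_lit 152) (nat_lit 1817650999) (nat_lit 0) (nat_lit 1922430554) (nat_lit 21) (nat_lit 5) (nat_lit 23) (nat_lit 4) (nat_lit 21) (nat_lit 4) (nat_lit 354) (nat_lit 333) (nat_lit 333)) (XT.nd (nat_lit 78) (nat_lit 152) (nat_lit 0) (XT.lf (nat_lit 0) (nat_lit 6883607597) (nat_lit 76) (nat_lit 2883089473) (nat_lit 76) (nat_lit 2364262131) (nat_lit 20) (nat_lit 4) (nat_lit 21) (nat_lit 5) (nat_lit 21) (nat_lit 4) (nat_lit 355) (nat_lit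 333) (nat_lit 332)) (XT.lf (nat_lit 0) (nat_lit 3201263111) (nat_lit 152) (nat_lit 7477648995) (nat_lit 0) (nat_lit 2357800893) (nat_lit 18) (nat_lit 5) (nat_lit 20) (nat_lit 4) (nat_lit 18) (nat_lit 4) (nat_lit 356) (nat_lit 333) (nat_lit 331)))) (XT.nd (nat_lit 78) (nat_lit 152) (nat_lit 0) (XT.lf (nat_lit 0) (nat_lit 3552524618) (nat_lit 76) (nat_lit 5844033842) (nat_lit 76) (nat_lit 4659434225) (nat_lit 17) (nat_lit 4) (nat_lit 18) (nat_lit 5) (nat_lit 18) (nat_lit 4) (nat_lit 357) (nat_lit 333) (nat_lit 330)) (XT.nd (nat_lit 78) (nat_lit 0) (nat_lit 0) (XT.lf (nat_lit 0) (nat_lit 868843029) (nat_lit 76) (nat_lit 224219232) (nat_lit 152) (nat_lit 14139868332) (nat_lit 15) (nat_lit 5) (nat_lit 16) (nat_lit 5) (nat_lit 17) (nat_lit 4) (nat_lit 358) (nat_lit 333) (nat_lit 329)) (XT.lf (nat_lit 0) (nat_lit 7542039215) (nat_lit 152) (nat_lit 2934857168) (nat_lit 0) (nat_lit 6029700330)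 (nat_lit 15) (nat_lit 5) (nat_lit 17) (nat_lit 4) (nat_lit 15) (nat_lit 4) (nat_lit 359) (nat_lit 333) (nat_lit 328))))) (XT.nd (nat_lit 234) (nat_lit 304) (nat_lit 0) (XT.nd (nat_lit 78) (nat_lit 152) (nat_lit 0) (XT.lf (nat_lit 0) (nat_lit 10190621592) (nat_lit 76) (nat_lit 4745718489) (nat_lit 76) (nat_lit 3038333190) (nat_lit 14) (nat_lit 4) (nat_lit 15) (nat_lit 5) (nat_lit 15) (nat_lit 4) (nat_lit 360) (nat_lit 333) (nat_lit 327)) (XT.nd (nat_lit 78) (nat_lit 0) (nat_lit 0) (XT.lf (nat_lit 0) (nat_lit 3454465183) (nat_lit 152) (nat_lit 14360699665) (nat_lit 0) (nat_lit 1822299202) (nat_lit 12) (nat_lit 5) (nat_lit 14) (nat_lit 4) (nat_lit 12) (nat_lit 4) (nat_lit 361) (nat_lit 333) (nat_lit 326)) (XT.lf (nat_lit 0) (nat_lit 10814491768) (nat_lit 152) (nat_lit 1628780871) (nat_lit 0) (nat_lit 9054079604) (nat_lit 12) (nat_lit 5) (nat_lit 14) (nat_lit 4) (nat_lit 12) (nat_lit 4) (nat_lit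 362) (nat_lit 333) (nat_lit 325)))) (XT.nd (nat_lit 156) (nat_lit 76) (nat_lit 0) (XT.nd (nat_lit 78) (nat_lit 152) (nat_lit 0) (XT.lf (nat_lit 0) (nat_lit 13404914752) (nat_lit 76) (nat_lit 6039215486) (nat_lit 76) (nat_lit 4167284901) (nat_lit 11) (nat_lit 4) (nat_lit 12) (nat_lit 5) (nat_lit 12) (nat_lit 4) (nat_lit 363) (nat_lit 333) (nat_lit 324)) (XT.lf (nat_lit 0) (nat_lit 2965080345) (nat_lit 152) (nat_lit 21813556536) (nat_lit 0) (nat_lit 1252990672) (nat_lit 9) (nat_lit 5) (nat_lit 11) (nat_lit 4) (nat_lit 9) (nat_lit 4) (nat_lit 364) (nat_lit 333) (nat_lit 323))) (XT.nd (nat_lit 78) (nat_lit 76) (nat_lit 0) (XT.lf (nat_lit 0) (nat_lit 11201580875) (nat_lit 152) (nat_lit 8098240416) (nat_lit 0) (nat_lit 9416166029) (nat_lit 9) (nat_lit 5) (nat_lit 11) (nat_lit 4) (nat_lit 9) (nat_lit 4) (nat_lit 365) (nat_lit 333) (nat_lit 322)) (XT.lf (nat_lit 0) (nat_lit 7655609449) (nat_lit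 76) (nat_lit 12999664278) (nat_lit 76) (nat_lit 11150488413) (nat_lit 8) (nat_lit 4) (nat_lit 9) (nat_lit 5) (nat_lit 9) (nat_lit 4) (nat_lit 366) (nat_lit 333) (nat_lit 321))))))))
noncomputable def xc34 : XT := (XT.nd (nat_lit 1872) (nat_lit 0) (nat_lit 0) (XT.nd (nat_lit 936) (nat_lit 76) (nat_lit 0) (XT.nd (nat_lit 468) (nat_lit 228) (nat_lit 0) (XT.nd (nat_lit 234) (nat_lit 76) (nat_lit 0) (XT.nd (nat_lit 78) (nat_lit 152) (nat_lit 0) (XT.lf (nat_lit 0) (nat_lit 26014182305) (nat_lit 76) (nat_lit 5616922361) (nat_lit 76) (nat_lit 3712302132) (nat_lit 8) (nat_lit 4) (nat_lit 9) (nat_lit 5) (nat_lit 9) (nat_lit 4) (nat_lit 367) (nat_lit 333) (nat_lit 320)) (XT.nd (nat_lit 78) (nat_lit 0) (nat_lit 0) (XT.lf (nat_lit 0) (nat_lit 4563861057) (nat_lit 152) (nat_lit 31929039191) (nat_lit 0) (nat_lit 2865745649) (nat_lit 6) (nat_lit 5) (nat_lit 8) (nat_lit 4) (nat_lit 6) (nat_lit 4) (nat_lit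 368) (nat_lit 333) (nat_lit 319)) (XT.lf (nat_lit 0) (nat_lit 14190116486) (nat_lit 152) (nat_lit 17230692580) (nat_lit 0) (nat_lit 12455545508) (nat_lit 6) (nat_lit 5) (nat_lit 8) (nat_lit 4) (nat_lit 6) (nat_lit 4) (nat_lit 369) (nat_lit 333) (nat_lit 318)))) (XT.nd (nat_lit 78) (nat_lit 76) (nat_lit 0) (XT.lf (nat_lit 0) (nat_lit 25008465179) (nat_lit 152) (nat_lit 858846710) (nat_lit 0) (nat_lit 23242193706) (nat_lit 6) (nat_lit 5) (nat_lit 8) (nat_lit 4) (nat_lit 6) (nat_lit 4) (nat_lit 370) (nat_lit 333) (nat_lit 317)) (XT.nd (nat_lit 78) (nat_lit 0) (nat_lit 0) (XT.lf (nat_lit 0) (nat_lit 19217710633) (nat_lit 76) (nat_lit 18808624263) (nat_lit 76) (nat_lit 17014787141) (nat_lit 5) (nat_lit 4) (nat_lit 6) (nat_lit 5) (nat_lit 6) (nat_lit 4) (nat_lit 371) (nat_lit 333) (nat_lit 316)) (XT.lf (nat_lit 0) (nat_lit 41961313471) (nat_lit 76) (nat_lit 10871775574) (nat_lit 76) (nat_lit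 9053968324) (nat_lit 5) (nat_lit 4) (nat_lit 6) (nat_lit 5) (nat_lit 6) (nat_lit 4) (nat_lit 372) (nat_lit 333) (nat_lit 315))))) (XT.nd (nat_lit 234) (nat_lit 76) (nat_lit 0) (XT.nd (nat_lit 78) (nat_lit 152) (nat_lit 0) (XT.lf (nat_lit 0) (nat_lit 67733012589) (nat_lit 76) (nat_lit 1946373913) (nat_lit 76) (nat_lit 107723073) (nat_lit 5) (nat_lit 4) (nat_lit 6) (nat_lit 5) (nat_lit 6) (nat_lit 4) (nat_lit 373) (nat_lit 333) (nat_lit 314)) (XT.nd (nat_lit 78) (nat_lit 0) (nat_lit 0) (XT.lf (nat_lit 0) (nat_lit 10309822917) (nat_lit 152) (nat_lit 59648528476) (nat_lit 0) (nat_lit 8695235351) (nat_lit 3) (nat_lit 5) (nat_lit 5) (nat_lit 4) (nat_lit 3) (nat_lit 4) (nat_lit 374) (nat_lit 333) (nat_lit 313)) (XT.lf (nat_lit 0) (nat_lit 22319276310) (nat_lit 152) (nat_lit 45832964353) (nat_lit 0) (nat_lit 20690983745) (nat_lit 3) (nat_lit 5) (nat_lit 5) (nat_lit 4) (nat_lit 3) (nat_lit 4)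 (nat_lit 375) (nat_lit 333) (nat_lit 312)))) (XT.nd (nat_lit 78) (nat_lit 76) (nat_lit 0) (XT.lf (nat_lit 0) (nat_lit 35986785589) (nat_lit 152) (nat_lit 30249454307) (nat_lit 0) (nat_lit 34346575633) (nat_lit 3) (nat_lit 5) (nat_lit 5) (nat_lit 4) (nat_lit 3) (nat_lit 4) (nat_lit 376) (nat_lit 333) (nat_lit 311)) (XT.nd (nat_lit 78) (nat_lit 76) (nat_lit 0) (XT.lf (nat_lit 0) (nat_lit 51579758544) (nat_lit 152) (nat_lit 12593103579) (nat_lit 0) (nat_lit 49929185640) (nat_lit 3) (nat_lit 5) (nat_lit 5) (nat_lit 4) (nat_lit 3) (nat_lit 4) (nat_lit 377) (nat_lit 333) (nat_lit 310)) (XT.lf (nat_lit 0) (nat_lit 8212688494) (nat_lit 76) (nat_lit 61530656503) (nat_lit 76) (nat_lit 59871072340) (nat_lit 2) (nat_lit 4) (nat_lit 3) (nat_lit 5) (nat_lit 3) (nat_lit 4) (nat_lit 378) (nat_lit 333) (nat_lit 309)))))) (XT.nd (nat_lit 468) (nat_lit 76) (nat_lit 0) (XT.nd (nat_lit 234) (nat_lit 0) (nat_lit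 0) (XT.nd (nat_lit 78) (nat_lit 0) (nat_lit 0) (XT.lf (nat_lit 0) (nat_lit 33334942801) (nat_lit 76) (nat_lit 57851442267) (nat_lit 76) (nat_lit 56184022226) (nat_lit 2) (nat_lit 4) (nat_lit 3) (nat_lit 5) (nat_lit 3) (nat_lit 4) (nat_lit 379) (nat_lit 333) (nat_lit 308)) (XT.nd (nat_lit 78) (nat_lit 0) (nat_lit 0) (XT.lf (nat_lit 0) (nat_lit 62034492041) (nat_lit 76) (nat_lit 53721510657) (nat_lit 76) (nat_lit 52047276810) (nat_lit 2) (nat_lit 4) (nat_lit 3) (nat_lit 5) (nat_lit 3) (nat_lit 4) (nat_lit 380) (nat_lit 333) (nat_lit 307)) (XT.lf (nat_lit 0) (nat_lit 94872849134) (nat_lit 76) (nat_lit 49060058665) (nat_lit 76) (nat_lit 47379899768) (nat_lit 2) (nat_lit 4) (nat_lit 3) (nat_lit 5) (nat_lit 3) (nat_lit 4) (nat_lit 381) (nat_lit 333) (nat_lit 306)))) (XT.nd (nat_lit 78) (nat_lit 0) (nat_lit 0) (XT.lf (nat_lit 0) (nat_lit 132492503674) (nat_lit 76) (nat_lit 43775883967) (nat_lit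 76) (nat_lit 42090572854) (nat_lit 2) (nat_lit 4) (nat_lit 3) (nat_lit 5) (nat_lit 3) (nat_lit 4) (nat_lit 382) (nat_lit 333) (nat_lit 305)) (XT.nd (nat_lit 78) (nat_lit 0) (nat_lit 0) (XT.lf (nat_lit 0) (nat_lit 175629492382) (nat_lit 76) (nat_lit 37765600539) (nat_lit 76) (nat_lit 36075809237) (nat_lit 2) (nat_lit 4) (nat_lit 3) (nat_lit 5) (nat_lit 3) (nat_lit 4) (nat_lit 383) (nat_lit 333) (nat_lit 304)) (XT.lf (nat_lit 0) (nat_lit 225127799819) (nat_lit 76) (nat_lit 30911615877) (nat_lit 76) (nat_lit 29217928759) (nat_lit 2) (nat_lit 4) (nat_lit 3) (nat_lit 5) (nat_lit 3) (nat_lit 4) (nat_lit 384) (nat_lit 333) (nat_lit 303))))) (XT.nd (nat_lit 234) (nat_lit 76) (nat_lit 0) (XT.nd (nat_lit 78) (nat_lit 0) (nat_lit 0) (XT.lf (nat_lit 0) (nat_lit 281955871130) (nat_lit 76) (nat_lit 23079830281) (nat_lit 76) (nat_lit 21382755498) (nat_lit 2) (nat_lit 4) (nat_lit 3) (nat_lit 5) (nat_lit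 3) (nat_lit 4) (nat_lit 385) (nat_lit 333) (nat_lit 302)) (XT.nd (nat_lit 78) (nat_lit 0) (nat_lit 0) (XT.lf (nat_lit 0) (nat_lit 347225559885) (nat_lit 76) (nat_lit 14117013165) (nat_lit 76) (nat_lit 12416992585) (nat_lit 2) (nat_lit 4) (nat_lit 3) (nat_lit 5) (nat_lit 3) (nat_lit 4) (nat_lit 386) (nat_lit 333) (nat_lit 301)) (XT.lf (nat_lit 0) (nat_lit 422213881732) (nat_lit 76) (nat_lit 3847805063) (nat_lit 76) (nat_lit 2145222920) (nat_lit 2) (nat_lit 4) (nat_lit 3) (nat_lit 5) (nat_lit 3) (nat_lit 4) (nat_lit 387) (nat_lit 333) (nat_lit 300)))) (XT.nd (nat_lit 78) (nat_lit 0) (nat_lit 0) (XT.lf (nat_lit 0) (nat_lit 9940488149) (nat_lit 76) (nat_lit 472192703340) (nat_lit 0) (nat_lit 8458045029) (nat_lit 1) (nat_lit 5) (nat_lit 2) (nat_lit 4) (nat_lit 1) (nat_lit 4) (nat_lit 388) (nat_lit 333) (nat_lit 299)) (XT.nd (nat_lit 78) (nat_lit 0) (nat_lit 0) (XT.lf (nat_lit 0) (nat_lit 24100118830)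 (nat_lit 76) (nat_lit 515529675603) (nat_lit 0) (nat_lit 22615991441) (nat_lit 1) (nat_lit 5) (nat_lit 2) (nat_lit 4) (nat_lit 1) (nat_lit 4) (nat_lit 389) (nat_lit 333) (nat_lit 298)) (XT.lf (nat_lit 0) (nat_lit 40356976267) (nat_lit 76) (nat_lit 565424165179) (nat_lit 0) (nat_lit 38871384296) (nat_lit 1) (nat_lit 5) (nat_lit 2) (nat_lit 4) (nat_lit 1) (nat_lit 4) (nat_lit 390) (nat_lit 333) (nat_lit 297))))))) (XT.nd (nat_lit 936) (nat_lit 0) (nat_lit 0) (XT.nd (nat_lit 468) (nat_lit 0) (nat_lit 0) (XT.nd (nat_lit 234) (nat_lit 0) (nat_lit 0) (XT.nd (nat_lit 78) (nat_lit 0) (nat_lit 0) (XT.lf (nat_lit 0) (nat_lit 59029129409) (nat_lit 76) (nat_lit 622852368601) (nat_lit 0) (nat_lit 57542263889) (nat_lit 1) (nat_lit 5) (nat_lit 2) (nat_lit 4) (nat_lit 1) (nat_lit 4) (nat_lit 391) (nat_lit 333) (nat_lit 296)) (XT.nd (nat_lit 78) (nat_lit 0) (nat_lit 0) (XT.lf (nat_lit 0) (nat_lit 80481902991)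 (nat_lit 76) (nat_lit 688937881155) (nat_lit 0) (nat_lit 78993930037) (nat_lit 1) (nat_lit 5) (nat_lit 2) (nat_lit 4) (nat_lit 1) (nat_lit 4) (nat_lit 392) (nat_lit 333) (nat_lit 295)) (XT.lf (nat_lit 0) (nat_lit 105135025192) (nat_lit 76) (nat_lit 764973680260) (nat_lit 0) (nat_lit 103646089252) (nat_lit 1) (nat_lit 5) (nat_lit 2) (nat_lit 4) (nat_lit 1) (nat_lit 4) (nat_lit 393) (nat_lit 333) (nat_lit 294)))) (XT.nd (nat_lit 78) (nat_lit 0) (nat_lit 0) (XT.lf (nat_lit 0) (nat_lit 133470839708) (nat_lit 76) (nat_lit 852447422855) (nat_lit 0) (nat_lit 131981066389) (nat_lit 1) (nat_lit 5) (nat_lit 2) (nat_lit 4) (nat_lit 1) (nat_lit 4) (nat_lit 394) (nat_lit 333) (nat_lit 293)) (XT.nd (nat_lit 78) (nat_lit 0) (nat_lit 0) (XT.lf (nat_lit 0) (nat_lit 166043742909) (nat_lit 76) (nat_lit 953070551730) (nat_lit 0) (nat_lit 164553241434) (nat_lit 1) (nat_lit 5) (nat_lit 2) (nat_lit 4) (nat_lit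 1) (nat_lit 4) (nat_lit 395) (nat_lit 333) (nat_lit 292)) (XT.lf (nat_lit 0) (nat_lit 203491030728) (nat_lit 76) (nat_lit 1068811780275) (nat_lit 0) (nat_lit 201999896074) (nat_lit 1) (nat_lit 5) (nat_lit 2) (nat_lit 4) (nat_lit 1) (nat_lit 4) (nat_lit 396) (nat_lit 333) (nat_lit 291))))) (XT.nd (nat_lit 234) (nat_lit 0) (nat_lit 0) (XT.nd (nat_lit 78) (nat_lit 0) (nat_lit 0) (XT.lf (nat_lit 0) (nat_lit 246545367492) (nat_lit 76) (nat_lit 1201935610789) (nat_lit 0) (nat_lit 245053682247) (nat_lit 1) (nat_lit 5) (nat_lit 2) (nat_lit 4) (nat_lit 1) (nat_lit 4) (nat_lit 397) (nat_lit 333) (nat_lit 290)) (XT.nd (nat_lit 78) (nat_lit 0) (nat_lit 0) (XT.lf (nat_lit 0) (nat_lit 296049120658) (nat_lit 76) (nat_lit 1355046639956) (nat_lit 0) (nat_lit 294556956640) (nat_lit 1) (nat_lit 5) (nat_lit 2) (nat_lit 4) (nat_lit 1) (nat_lit 4) (nat_lit 398) (nat_lit 333) (nat_lit 289)) (XT.lf (nat_lit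 0) (nat_lit 352970841920) (nat_lit 76) (nat_lit 1531140518346) (nat_lit 0) (nat_lit 351478261576) (nat_lit 1) (nat_lit 5) (nat_lit 2) (nat_lit 4) (nat_lit 1) (nat_lit 4) (nat_lit 399) (nat_lit 333) (nat_lit 288)))) (XT.nd (nat_lit 78) (nat_lit 0) (nat_lit 0) (XT.lf (nat_lit 0) (nat_lit 418424217128) (nat_lit 76) (nat_lit 1733662560971) (nat_lit 0) (nat_lit 416931274762) (nat_lit 1) (nat_lit 5) (nat_lit 2) (nat_lit 4) (nat_lit 1) (nat_lit 4) (nat_lit 400) (nat_lit 333) (nat_lit 287)) (XT.nd (nat_lit 78) (nat_lit 0) (nat_lit 0) (XT.lf (nat_lit 0) (nat_lit 493689855797) (nat_lit 76) (nat_lit 1966575155621) (nat_lit 0) (nat_lit 492196598629) (nat_lit 1) (nat_lit 5) (nat_lit 2) (nat_lit 4) (nat_lit 1) (nat_lit 4) (nat_lit 401) (nat_lit 333) (nat_lit 286)) (XT.lf (nat_lit 0) (nat_lit 580240346510) (nat_lit 76) (nat_lit 2234435287845) (nat_lit 0) (nat_lit 578746815601) (nat_lit 1) (nat_lit 5)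 (nat_lit 2) (nat_lit 4) (nat_lit 1) (nat_lit 4) (nat_lit 402) (nat_lit 333) (nat_lit 285)))))) (XT.nd (nat_lit 468) (nat_lit 0) (nat_lit 0) (XT.nd (nat_lit 234) (nat_lit 0) (nat_lit 0) (XT.nd (nat_lit 78) (nat_lit 0) (nat_lit 0) (XT.lf (nat_lit 0) (nat_lit 679769068433) (nat_lit 76) (nat_lit 2542483699359) (nat_lit 0) (nat_lit 678275299488) (nat_lit 1) (nat_lit 5) (nat_lit 2) (nat_lit 4) (nat_lit 1) (nat_lit 4) (nat_lit 403) (nat_lit 333) (nat_lit 284)) (XT.nd (nat_lit 78) (nat_lit 0) (nat_lit 0) (XT.lf (nat_lit 0) (nat_lit 794223322646) (nat_lit 76) (nat_lit 2896747424302) (nat_lit 0) (nat_lit 792729346714) (nat_lit 1) (nat_lit 5) (nat_lit 2) (nat_lit 4) (nat_lit 1) (nat_lit 4) (nat_lit 404) (nat_lit 333) (nat_lit 283)) (XT.lf (nat_lit 0) (nat_lit 925842431516) (nat_lit 76) (nat_lit 3304157709466) (nat_lit 0) (nat_lit 924348275595) (nat_lit 1) (nat_lit 5) (nat_lit 2) (nat_lit 4) (nat_lit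 1) (nat_lit 4) (nat_lit 405) (nat_lit 333) (nat_lit 282)))) (XT.nd (nat_lit 78) (nat_lit 0) (nat_lit 0) (XT.lf (nat_lit 0) (nat_lit 1077201551519) (nat_lit 76) (nat_lit 3772685625648) (nat_lit 0) (nat_lit 1075707239086) (nat_lit 1) (nat_lit 5) (nat_lit 2) (nat_lit 4) (nat_lit 1) (nat_lit 4) (nat_lit 406) (nat_lit 333) (nat_lit 281)) (XT.nd (nat_lit 78) (nat_lit 0) (nat_lit 0) (XT.lf (nat_lit 0) (nat_lit 1251262056743) (nat_lit 76) (nat_lit 4311498023383) (nat_lit 0) (nat_lit 1249767608213) (nat_lit 1) (nat_lit 5) (nat_lit 2) (nat_lit 4) (nat_lit 1) (nat_lit 4) (nat_lit 407) (nat_lit 333) (nat_lit 280)) (XT.lf (nat_lit 0) (nat_lit 1451429478812) (nat_lit 76) (nat_lit 4931136884363) (nat_lit 0) (nat_lit 1449934911936) (nat_lit 1) (nat_lit 5) (nat_lit 2) (nat_lit 4) (nat_lit 1) (nat_lit 4) (nat_lit 408) (nat_lit 333) (nat_lit 279))))) (XT.nd (nat_lit 234) (nat_lit 0) (nat_lit 0) (XT.nd (nat_lit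 78) (nat_lit 0) (nat_lit 0) (XT.lf (nat_lit 0) (nat_lit 1681620136854) (nat_lit 76) (nat_lit 5643725577610) (nat_lit 0) (nat_lit 1680125467068) (nat_lit 1) (nat_lit 5) (nat_lit 2) (nat_lit 4) (nat_lit 1) (nat_lit 4) (nat_lit 409) (nat_lit 333) (nat_lit 278)) (XT.nd (nat_lit 78) (nat_lit 0) (nat_lit 0) (XT.lf (nat_lit 0) (nat_lit 1946337761133) (nat_lit 76) (nat_lit 6463206055817) (nat_lit 0) (nat_lit 1944843001861) (nat_lit 1) (nat_lit 5) (nat_lit 2) (nat_lit 4) (nat_lit 1) (nat_lit 4) (nat_lit 410) (nat_lit 333) (nat_lit 277)) (XT.lf (nat_lit 0) (nat_lit 2250761609518) (nat_lit 76) (nat_lit 7405611632687) (nat_lit 0) (nat_lit 2249266772431) (nat_lit 1) (nat_lit 5) (nat_lit 2) (nat_lit 4) (nat_lit 1) (nat_lit 4) (nat_lit 411) (nat_lit 333) (nat_lit 276)))) (XT.nd (nat_lit 156) (nat_lit 0) (nat_lit 0) (XT.nd (nat_lit 78) (nat_lit 0) (nat_lit 0) (XT.lf (nat_lit 0) (nat_lit 2600847800779)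 (nat_lit 76) (nat_lit 8489380678204) (nat_lit 0) (nat_lit 2599352896029) (nat_lit 1) (nat_lit 5) (nat_lit 2) (nat_lit 4) (nat_lit 1) (nat_lit 4) (nat_lit 412) (nat_lit 333) (nat_lit 275)) (XT.lf (nat_lit 0) (nat_lit 3003445847356) (nat_lit 76) (nat_lit 9735717369344) (nat_lit 0) (nat_lit 3001950883767) (nat_lit 1) (nat_lit 5) (nat_lit 2) (nat_lit 4) (nat_lit 1) (nat_lit 4) (nat_lit 413) (nat_lit 333) (nat_lit 274))) (XT.nd (nat_lit 78) (nat_lit 0) (nat_lit 0) (XT.lf (nat_lit 0) (nat_lit 3466432667550) (nat_lit 76) (nat_lit 11169006554413) (nat_lit 0) (nat_lit 3464937652797) (nat_lit 1) (nat_lit 5) (nat_lit 2) (nat_lit 4) (nat_lit 1) (nat_lit 4) (nat_lit 414) (nat_lit 333) (nat_lit 273)) (XT.lf (nat_lit 0) (nat_lit 3998866699149) (nat_lit 76) (nat_lit 12817290847901) (nat_lit 0) (nat_lit 3997371639905) (nat_lit 1) (nat_lit 5) (nat_lit 2) (nat_lit 4) (nat_lit 1) (nat_lit 4) (nat_lit 415)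 (nat_lit 333) (nat_lit 272))))))))
noncomputable def xc35 : XT := (XT.nd (nat_lit 48438) (nat_lit 0) (nat_lit 76) (XT.nd (nat_lit 936) (nat_lit 0) (nat_lit 0) (XT.nd (nat_lit 468) (nat_lit 0) (nat_lit 0) (XT.nd (nat_lit 234) (nat_lit 0) (nat_lit 0) (XT.nd (nat_lit 78) (nat_lit 0) (nat_lit 0) (XT.lf (nat_lit 0) (nat_lit 4611165129726) (nat_lit 76) (nat_lit 14712819290333) (nat_lit 0) (nat_lit 4609670031795) (nat_lit 1) (nat_lit 5) (nat_lit 2) (nat_lit 4) (nat_lit 1) (nat_lit 4) (nat_lit 416) (nat_lit 333) (nat_lit 271)) (XT.nd (nat_lit 78) (nat_lit 0) (nat_lit 0) (XT.lf (nat_lit 0) (nat_lit 5315307711185) (nat_lit 76) (nat_lit 16892678307756) (nat_lit 0) (nat_lit 5313812579613) (nat_lit 1) (nat_lit 5) (nat_lit 2) (nat_lit 4) (nat_lit 1) (nat_lit 4) (nat_lit 417) (nat_lit 333) (nat_lit 270)) (XT.lf (nat_lit 0) (nat_lit 6125071146206) (nat_lit 76) (nat_lit 19399517315729) (nat_lit 0) (nat_lit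 6123575985381) (nat_lit 1) (nat_lit 5) (nat_lit 2) (nat_lit 4) (nat_lit 1) (nat_lit 4) (nat_lit 418) (nat_lit 333) (nat_lit 269)))) (XT.nd (nat_lit 78) (nat_lit 0) (nat_lit 0) (XT.lf (nat_lit 0) (nat_lit 7056298632431) (nat_lit 76) (nat_lit 22282383164408) (nat_lit 0) (nat_lit 7054803446168) (nat_lit 1) (nat_lit 5) (nat_lit 2) (nat_lit 4) (nat_lit 1) (nat_lit 4) (nat_lit 419) (nat_lit 333) (nat_lit 268)) (XT.nd (nat_lit 78) (nat_lit 0) (nat_lit 0) (XT.lf (nat_lit 0) (nat_lit 8127209838069) (nat_lit 76) (nat_lit 25597679750831) (nat_lit 0) (nat_lit 8125714629686) (nat_lit 1) (nat_lit 5) (nat_lit 2) (nat_lit 4) (nat_lit 1) (nat_lit 4) (nat_lit 420) (nat_lit 333) (nat_lit 267)) (XT.lf (nat_lit 0) (nat_lit 9358757373664) (nat_lit 76) (nat_lit 29410271573430) (nat_lit 0) (nat_lit 9357262146047) (nat_lit 1) (nat_lit 5) (nat_lit 2) (nat_lit 4) (nat_lit 1) (nat_lit 4) (nat_lit 421) (nat_lit 333)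 (nat_lit 266))))) (XT.nd (nat_lit 234) (nat_lit 0) (nat_lit 0) (XT.nd (nat_lit 78) (nat_lit 0) (nat_lit 0) (XT.lf (nat_lit 0) (nat_lit 10775036734479) (nat_lit 76) (nat_lit 33794752820037) (nat_lit 0) (nat_lit 10773541490136) (nat_lit 1) (nat_lit 5) (nat_lit 2) (nat_lit 4) (nat_lit 1) (nat_lit 4) (nat_lit 422) (nat_lit 333) (nat_lit 265)) (XT.nd (nat_lit 78) (nat_lit 0) (nat_lit 0) (XT.lf (nat_lit 0) (nat_lit 12403757734094) (nat_lit 76) (nat_lit 38836906819391) (nat_lit 0) (nat_lit 12402262475207) (nat_lit 1) (nat_lit 5) (nat_lit 2) (nat_lit 4) (nat_lit 1) (nat_lit 4) (nat_lit 423) (nat_lit 333) (nat_lit 264)) (XT.lf (nat_lit 0) (nat_lit 14276786652937) (nat_lit 76) (nat_lit 44635384410608) (nat_lit 0) (nat_lit 14275291381403) (nat_lit 1) (nat_lit 5) (nat_lit 2) (nat_lit 4) (nat_lit 1) (nat_lit 4) (nat_lit 424) (nat_lit 333) (nat_lit 263)))) (XT.nd (nat_lit 78) (nat_lit 0) (nat_lit 0)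 (XT.lf (nat_lit 0) (nat_lit 16430769708986) (nat_lit 76) (nat_lit 51303634068301) (nat_lit 0) (nat_lit 16429274426454) (nat_lit 1) (nat_lit 5) (nat_lit 2) (nat_lit 4) (nat_lit 1) (nat_lit 4) (nat_lit 425) (nat_lit 333) (nat_lit 262)) (XT.nd (nat_lit 78) (nat_lit 0) (nat_lit 0) (XT.lf (nat_lit 0) (nat_lit 18907850048988) (nat_lit 76) (nat_lit 58972121546642) (nat_lit 0) (nat_lit 18906354756893) (nat_lit 1) (nat_lit 5) (nat_lit 2) (nat_lit 4) (nat_lit 1) (nat_lit 4) (nat_lit 426) (nat_lit 333) (nat_lit 261)) (XT.lf (nat_lit 0) (nat_lit 21756492288292) (nat_lit 76) (nat_lit 67790882470205) (nat_lit 0) (nat_lit 21754996987882) (nat_lit 1) (nat_lit 5) (nat_lit 2) (nat_lit 4) (nat_lit 1) (nat_lit 4) (nat_lit 427) (nat_lit 333) (nat_lit 260)))))) (XT.nd (nat_lit 468) (nat_lit 0) (nat_lit 0) (XT.nd (nat_lit 234) (nat_lit 0) (nat_lit 0) (XT.nd (nat_lit 78) (nat_lit 0) (nat_lit 0) (XT.lf (nat_lit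 0) (nat_lit 25032430731580) (nat_lit 76) (nat_lit 77932457813584) (nat_lit 0) (nat_lit 25030935423938) (nat_lit 1) (nat_lit 5) (nat_lit 2) (nat_lit 4) (nat_lit 1) (nat_lit 4) (nat_lit 428) (nat_lit 333) (nat_lit 259)) (XT.nd (nat_lit 78) (nat_lit 0) (nat_lit 0) (XT.lf (nat_lit 0) (nat_lit 28799759826655) (nat_lit 76) (nat_lit 89595269703061) (nat_lit 0) (nat_lit 28798264512726) (nat_lit 1) (nat_lit 5) (nat_lit 2) (nat_lit 4) (nat_lit 1) (nat_lit 4) (nat_lit 429) (nat_lit 333) (nat_lit 258)) (XT.lf (nat_lit 0) (nat_lit 33132188186247) (nat_lit 76) (nat_lit 103007503588649) (nat_lit 0) (nat_lit 33130692866850) (nat_lit 1) (nat_lit 5) (nat_lit 2) (nat_lit 4) (nat_lit 1) (nat_lit 4) (nat_lit 430) (nat_lit 333) (nat_lit 257)))) (XT.nd (nat_lit 78) (nat_lit 0) (nat_lit 0) (XT.lf (nat_lit 0) (nat_lit 38114480713043) (nat_lit 76) (nat_lit 118431572742020) (nat_lit 0) (nat_lit 38112985388892)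 (nat_lit 1) (nat_lit 5) (nat_lit 2) (nat_lit 4) (nat_lit 1) (nat_lit 4) (nat_lit 431) (nat_lit 333) (nat_lit 256)) (XT.nd (nat_lit 78) (nat_lit 0) (nat_lit 0) (XT.lf (nat_lit 0) (nat_lit 43844117043439) (nat_lit 76) (nat_lit 136169252429221) (nat_lit 0) (nat_lit 43842621715153) (nat_lit 1) (nat_lit 5) (nat_lit 2) (nat_lit 4) (nat_lit 1) (nat_lit 4) (nat_lit 432) (nat_lit 333) (nat_lit 255)) (XT.lf (nat_lit 0) (nat_lit 50433198757810) (nat_lit 76) (nat_lit 156567584209347) (nat_lit 0) (nat_lit 50431703425929) (nat_lit 1) (nat_lit 5) (nat_lit 2) (nat_lit 4) (nat_lit 1) (nat_lit 4) (nat_lit 433) (nat_lit 333) (nat_lit 254))))) (XT.nd (nat_lit 46800) (nat_lit 0) (nat_lit 1444) (XT.nd (nat_lit 78) (nat_lit 0) (nat_lit 0) (XT.lf (nat_lit 0) (nat_lit 58010642672307) (nat_lit 76) (nat_lit 180025665878098) (nat_lit 0) (nat_lit 58009147337301) (nat_lit 1) (nat_lit 5) (nat_lit 2) (nat_lit 4) (nat_lit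 1) (nat_lit 4) (nat_lit 434) (nat_lit 333) (nat_lit 253)) (XT.nd (nat_lit 46644) (nat_lit 0) (nat_lit 1748) (XT.lf (nat_lit 0) (nat_lit 66724703124389) (nat_lit 76) (nat_lit 207002459902905) (nat_lit 0) (nat_lit 66723207786665) (nat_lit 1) (nat_lit 5) (nat_lit 2) (nat_lit 4) (nat_lit 1) (nat_lit 4) (nat_lit 435) (nat_lit 333) (nat_lit 252)) (XT.lf (nat_lit 0) (nat_lit 2205036224) (nat_lit 152) (nat_lit 570605788) (nat_lit 0) (nat_lit 2205036224) (nat_lit 24) (nat_lit 5) (nat_lit 26) (nat_lit 4) (nat_lit 24) (nat_lit 4) (nat_lit 352) (nat_lit 334) (nat_lit 334)))) (XT.nd (nat_lit 78) (nat_lit 228) (nat_lit 0) (XT.lf (nat_lit 0) (nat_lit 8262149381) (nat_lit 76) (nat_lit 1525840796) (nat_lit 76) (nat_lit 839691637) (nat_lit 23) (nat_lit 4) (nat_lit 24) (nat_lit 5) (nat_lit 24) (nat_lit 4) (nat_lit 353) (nat_lit 334) (nat_lit 333)) (XT.nd (nat_lit 78) (nat_lit 76) (nat_lit 0) (XT.lf (nat_lit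 0) (nat_lit 4184388791) (nat_lit 152) (nat_lit 4110364660) (nat_lit 0) (nat_lit 3068910007) (nat_lit 21) (nat_lit 5) (nat_lit 23) (nat_lit 4) (nat_lit 21) (nat_lit 4) (nat_lit 354) (nat_lit 334) (nat_lit 332)) (XT.lf (nat_lit 0) (nat_lit 5908649454) (nat_lit 76) (nat_lit 3933618482) (nat_lit 76) (nat_lit 2366985489) (nat_lit 20) (nat_lit 4) (nat_lit 21) (nat_lit 5) (nat_lit 21) (nat_lit 4) (nat_lit 355) (nat_lit 334) (nat_lit 331))))))) (XT.nd (nat_lit 936) (nat_lit 456) (nat_lit 0) (XT.nd (nat_lit 468) (nat_lit 380) (nat_lit 0) (XT.nd (nat_lit 234) (nat_lit 228) (nat_lit 0) (XT.nd (nat_lit 78) (nat_lit 152) (nat_lit 0) (XT.lf (nat_lit 0) (nat_lit 2856405917) (nat_lit 152) (nat_lit 9157042178) (nat_lit 0) (nat_lit 1152978958) (nat_lit 18) (nat_lit 5) (nat_lit 20) (nat_lit 4) (nat_lit 18) (nat_lit 4) (nat_lit 356) (nat_lit 334) (nat_lit 330)) (XT.nd (nat_lit 78) (nat_lit 76) (nat_lit 0)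 (XT.lf (nat_lit 0) (nat_lit 1247365398) (nat_lit 76) (nat_lit 7492604793) (nat_lit 76) (nat_lit 5492536618) (nat_lit 17) (nat_lit 4) (nat_lit 18) (nat_lit 5) (nat_lit 18) (nat_lit 4) (nat_lit 357) (nat_lit 334) (nat_lit 329)) (XT.lf (nat_lit 0) (nat_lit 83680928) (nat_lit 152) (nat_lit 2078103061) (nat_lit 76) (nat_lit 13290432954) (nat_lit 16) (nat_lit 5) (nat_lit 18) (nat_lit 5) (nat_lit 17) (nat_lit 4) (nat_lit 358) (nat_lit 334) (nat_lit 328)))) (XT.nd (nat_lit 78) (nat_lit 152) (nat_lit 0) (XT.lf (nat_lit 0) (nat_lit 6141994985) (nat_lit 152) (nat_lit 6659058608) (nat_lit 0) (nat_lit 3983455476) (nat_lit 15) (nat_lit 5) (nat_lit 17) (nat_lit 4) (nat_lit 15) (nat_lit 4) (nat_lit 359) (nat_lit 334) (nat_lit 327)) (XT.nd (nat_lit 78) (nat_lit 76) (nat_lit 0) (XT.lf (nat_lit 0) (nat_lit 5696361089) (nat_lit 76) (nat_lit 7469945556) (nat_lit 76) (nat_lit 5141800469) (nat_lit 14) (nat_lit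 4) (nat_lit 15) (nat_lit 5) (nat_lit 15) (nat_lit 4) (nat_lit 360) (nat_lit 334) (nat_lit 326)) (XT.lf (nat_lit 0) (nat_lit 1050130122) (nat_lit 152) (nat_lit 217848435) (nat_lit 76) (nat_lit 18789221768) (nat_lit 13) (nat_lit 5) (nat_lit 15) (nat_lit 5) (nat_lit 14) (nat_lit 4) (nat_lit 361) (nat_lit 334) (nat_lit 325))))) (XT.nd (nat_lit 234) (nat_lit 228) (nat_lit 0) (XT.nd (nat_lit 78) (nat_lit 76) (nat_lit 0) (XT.lf (nat_lit 0) (nat_lit 8166134016) (nat_lit 152) (nat_lit 7885677673) (nat_lit 0) (nat_lit 5901895422) (nat_lit 12) (nat_lit 5) (nat_lit 14) (nat_lit 4) (nat_lit 12) (nat_lit 4) (nat_lit 362) (nat_lit 334) (nat_lit 324)) (XT.nd (nat_lit 78) (nat_lit 0) (nat_lit 0) (XT.lf (nat_lit 0) (nat_lit 6180743138) (nat_lit 76) (nat_lit 10158374706) (nat_lit 76) (nat_lit 7797163573) (nat_lit 11) (nat_lit 4) (nat_lit 12) (nat_lit 5) (nat_lit 12) (nat_lit 4) (nat_lit 363) (nat_lit 334)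 (nat_lit 323)) (XT.lf (nat_lit 0) (nat_lit 22578168399) (nat_lit 76) (nat_lit 3250053661) (nat_lit 76) (nat_lit 804518580) (nat_lit 11) (nat_lit 4) (nat_lit 12) (nat_lit 5) (nat_lit 12) (nat_lit 4) (nat_lit 364) (nat_lit 334) (nat_lit 322)))) (XT.nd (nat_lit 78) (nat_lit 76) (nat_lit 0) (XT.lf (nat_lit 0) (nat_lit 7020006483) (nat_lit 152) (nat_lit 17544946293) (nat_lit 0) (nat_lit 4829693219) (nat_lit 9) (nat_lit 5) (nat_lit 11) (nat_lit 4) (nat_lit 9) (nat_lit 4) (nat_lit 365) (nat_lit 334) (nat_lit 321)) (XT.nd (nat_lit 78) (nat_lit 76) (nat_lit 0) (XT.lf (nat_lit 0) (nat_lit 16021091124) (nat_lit 152) (nat_lit 2755894980) (nat_lit 0) (nat_lit 13775333496) (nat_lit 9) (nat_lit 5) (nat_lit 11) (nat_lit 4) (nat_lit 9) (nat_lit 4) (nat_lit 366) (nat_lit 334) (nat_lit 320)) (XT.lf (nat_lit 0) (nat_lit 15062983207) (nat_lit 76) (nat_lit 11679557472) (nat_lit 76) (nat_lit 9385587354) (nat_lit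 8) (nat_lit 4) (nat_lit 9) (nat_lit 5) (nat_lit 9) (nat_lit 4) (nat_lit 367) (nat_lit 334) (nat_lit 319)))))) (XT.nd (nat_lit 468) (nat_lit 228) (nat_lit 0) (XT.nd (nat_lit 234) (nat_lit 76) (nat_lit 0) (XT.nd (nat_lit 78) (nat_lit 152) (nat_lit 0) (XT.lf (nat_lit 0) (nat_lit 35358946469) (nat_lit 76) (nat_lit 3615933370) (nat_lit 76) (nat_lit 1280039347) (nat_lit 8) (nat_lit 4) (nat_lit 9) (nat_lit 5) (nat_lit 9) (nat_lit 4) (nat_lit 368) (nat_lit 334) (nat_lit 318)) (XT.nd (nat_lit 78) (nat_lit 0) (nat_lit 0) (XT.lf (nat_lit 0) (nat_lit 7960167155) (nat_lit 152) (nat_lit 30998162148) (nat_lit 0) (nat_lit 5897254466) (nat_lit 6) (nat_lit 5) (nat_lit 8) (nat_lit 4) (nat_lit 6) (nat_lit 4) (nat_lit 369) (nat_lit 334) (nat_lit 317)) (XT.lf (nat_lit 0) (nat_lit 18676657385) (nat_lit 152) (nat_lit 14841180882) (nat_lit 0) (nat_lit 16586179048) (nat_lit 6) (nat_lit 5) (nat_lit 8) (nat_lit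 4) (nat_lit 6) (nat_lit 4) (nat_lit 370) (nat_lit 334) (nat_lit 316)))) (XT.nd (nat_lit 78) (nat_lit 0) (nat_lit 0) (XT.lf (nat_lit 0) (nat_lit 3663823045) (nat_lit 76) (nat_lit 27298078163) (nat_lit 76) (nat_lit 25183629697) (nat_lit 5) (nat_lit 4) (nat_lit 6) (nat_lit 5) (nat_lit 6) (nat_lit 4) (nat_lit 371) (nat_lit 334) (nat_lit 315)) (XT.nd (nat_lit 78) (nat_lit 0) (nat_lit 0) (XT.lf (nat_lit 0) (nat_lit 26229079769) (nat_lit 76) (nat_lit 19455171024) (nat_lit 76) (nat_lit 17319878968) (nat_lit 5) (nat_lit 4) (nat_lit 6) (nat_lit 5) (nat_lit 6) (nat_lit 4) (nat_lit 372) (nat_lit 334) (nat_lit 314)) (XT.lf (nat_lit 0) (nat_lit 51845695309) (nat_lit 76) (nat_lit 10611457668) (nat_lit 76) (nat_lit 8458040750) (nat_lit 5) (nat_lit 4) (nat_lit 6) (nat_lit 5) (nat_lit 6) (nat_lit 4) (nat_lit 373) (nat_lit 334) (nat_lit 313))))) (XT.nd (nat_lit 234) (nat_lit 76) (nat_lit 0) (XT.nd (nat_lit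 78) (nat_lit 0) (nat_lit 0) (XT.lf (nat_lit 0) (nat_lit 1005662318) (nat_lit 76) (nat_lit 471007442) (nat_lit 152) (nat_lit 78540804107) (nat_lit 3) (nat_lit 5) (nat_lit 4) (nat_lit 5) (nat_lit 5) (nat_lit 4) (nat_lit 374) (nat_lit 334) (nat_lit 312)) (XT.nd (nat_lit 78) (nat_lit 0) (nat_lit 0) (XT.lf (nat_lit 0) (nat_lit 13399939682) (nat_lit 152) (nat_lit 65318320150) (nat_lit 0) (nat_lit 11501780842) (nat_lit 3) (nat_lit 5) (nat_lit 5) (nat_lit 4) (nat_lit 3) (nat_lit 4) (nat_lit 375) (nat_lit 334) (nat_lit 311)) (XT.lf (nat_lit 0) (nat_lit 27009466302) (nat_lit 152) (nat_lit 49857919790) (nat_lit 0) (nat_lit 25100944515) (nat_lit 3) (nat_lit 5) (nat_lit 5) (nat_lit 4) (nat_lit 3) (nat_lit 4) (nat_lit 376) (nat_lit 334) (nat_lit 310)))) (XT.nd (nat_lit 156) (nat_lit 76) (nat_lit 0) (XT.nd (nat_lit 78) (nat_lit 0) (nat_lit 0) (XT.lf (nat_lit 0) (nat_lit 42552019554) (nat_lit 152) (nat_lit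 32308620962) (nat_lit 0) (nat_lit 40634486507) (nat_lit 3) (nat_lit 5) (nat_lit 5) (nat_lit 4) (nat_lit 3) (nat_lit 4) (nat_lit 377) (nat_lit 334) (nat_lit 309)) (XT.lf (nat_lit 0) (nat_lit 60331692870) (nat_lit 152) (nat_lit 12327067818) (nat_lit 0) (nat_lit 58406323946) (nat_lit 3) (nat_lit 5) (nat_lit 5) (nat_lit 4) (nat_lit 3) (nat_lit 4) (nat_lit 378) (nat_lit 334) (nat_lit 308))) (XT.nd (nat_lit 78) (nat_lit 0) (nat_lit 0) (XT.lf (nat_lit 0) (nat_lit 11501638461) (nat_lit 76) (nat_lit 69670969285) (nat_lit 76) (nat_lit 67738786554) (nat_lit 2) (nat_lit 4) (nat_lit 3) (nat_lit 5) (nat_lit 3) (nat_lit 4) (nat_lit 379) (nat_lit 334) (nat_lit 307)) (XT.lf (nat_lit 0) (nat_lit 40123920476) (nat_lit 76) (nat_lit 65581953656) (nat_lit 76) (nat_lit 63643845876) (nat_lit 2) (nat_lit 4) (nat_lit 3) (nat_lit 5) (nat_lit 3) (nat_lit 4) (nat_lit 380) (nat_lit 334) (nat_lit 306))))))))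
noncomputable def xc36 : XT := (XT.nd (nat_lit 1872) (nat_lit 0) (nat_lit 0) (XT.nd (nat_lit 936) (nat_lit 0) (nat_lit 0) (XT.nd (nat_lit 468) (nat_lit 76) (nat_lit 0) (XT.nd (nat_lit 234) (nat_lit 0) (nat_lit 0) (XT.nd (nat_lit 78) (nat_lit 0) (nat_lit 0) (XT.lf (nat_lit 0) (nat_lit 72895088677) (nat_lit 76) (nat_lit 60956080777) (nat_lit 76) (nat_lit 59012820780) (nat_lit 2) (nat_lit 4) (nat_lit 3) (nat_lit 5) (nat_lit 3) (nat_lit 4) (nat_lit 381) (nat_lit 334) (nat_lit 305)) (XT.nd (nat_lit 78) (nat_lit 0) (nat_lit 0) (XT.lf (nat_lit 0) (nat_lit 110456318095) (nat_lit 76) (nat_lit 55702844439) (nat_lit 76) (nat_lit 53755104254) (nat_lit 2) (nat_lit 4) (nat_lit 3) (nat_lit 5) (nat_lit 3) (nat_lit 4) (nat_lit 382) (nat_lit 334) (nat_lit 304)) (XT.lf (nat_lit 0) (nat_lit 153542502349) (nat_lit 76) (nat_lit 49719463932) (nat_lit 76) (nat_lit 47767827930) (nat_lit 2) (nat_lit 4) (nat_lit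 3) (nat_lit 5) (nat_lit 3) (nat_lit 4) (nat_lit 383) (nat_lit 334) (nat_lit 303)))) (XT.nd (nat_lit 78) (nat_lit 0) (nat_lit 0) (XT.lf (nat_lit 0) (nat_lit 202996631999) (nat_lit 76) (nat_lit 42888873114) (nat_lit 76) (nat_lit 40933849447) (nat_lit 2) (nat_lit 4) (nat_lit 3) (nat_lit 5) (nat_lit 3) (nat_lit 4) (nat_lit 384) (nat_lit 334) (nat_lit 302)) (XT.nd (nat_lit 78) (nat_lit 0) (nat_lit 0) (XT.lf (nat_lit 0) (nat_lit 259786287843) (nat_lit 76) (nat_lit 35077429993) (nat_lit 76) (nat_lit 33119460529) (nat_lit 2) (nat_lit 4) (nat_lit 3) (nat_lit 5) (nat_lit 3) (nat_lit 4) (nat_lit 385) (nat_lit 334) (nat_lit 301)) (XT.lf (nat_lit 0) (nat_lit 325022571844) (nat_lit 76) (nat_lit 26132301984) (nat_lit 76) (nat_lit 24171770958) (nat_lit 2) (nat_lit 4) (nat_lit 3) (nat_lit 5) (nat_lit 3) (nat_lit 4) (nat_lit 386) (nat_lit 334) (nat_lit 300))))) (XT.nd (nat_lit 234) (nat_lit 0) (nat_lit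 0) (XT.nd (nat_lit 78) (nat_lit 76) (nat_lit 0) (XT.lf (nat_lit 0) (nat_lit 399981846080) (nat_lit 76) (nat_lit 15878475715) (nat_lit 76) (nat_lit 13915717243) (nat_lit 2) (nat_lit 4) (nat_lit 3) (nat_lit 5) (nat_lit 3) (nat_lit 4) (nat_lit 387) (nat_lit 334) (nat_lit 299)) (XT.nd (nat_lit 78) (nat_lit 76) (nat_lit 0) (XT.lf (nat_lit 0) (nat_lit 486130705047) (nat_lit 76) (nat_lit 4115332844) (nat_lit 76) (nat_lit 2150637463) (nat_lit 2) (nat_lit 4) (nat_lit 3) (nat_lit 5) (nat_lit 3) (nat_lit 4) (nat_lit 388) (nat_lit 334) (nat_lit 298)) (XT.lf (nat_lit 0) (nat_lit 11719244235) (nat_lit 76) (nat_lit 542408171824) (nat_lit 0) (nat_lit 10009348888) (nat_lit 1) (nat_lit 5) (nat_lit 2) (nat_lit 4) (nat_lit 1) (nat_lit 4) (nat_lit 389) (nat_lit 334) (nat_lit 297)))) (XT.nd (nat_lit 78) (nat_lit 0) (nat_lit 0) (XT.lf (nat_lit 0) (nat_lit 27965295667) (nat_lit 76) (nat_lit 592325703451) (nat_lit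 0) (nat_lit 26254126770) (nat_lit 1) (nat_lit 5) (nat_lit 2) (nat_lit 4) (nat_lit 1) (nat_lit 4) (nat_lit 390) (nat_lit 334) (nat_lit 296)) (XT.nd (nat_lit 78) (nat_lit 0) (nat_lit 0) (XT.lf (nat_lit 0) (nat_lit 46628052283) (nat_lit 76) (nat_lit 649773943440) (nat_lit 0) (nat_lit 44915775952) (nat_lit 1) (nat_lit 5) (nat_lit 2) (nat_lit 4) (nat_lit 1) (nat_lit 4) (nat_lit 391) (nat_lit 334) (nat_lit 295)) (XT.lf (nat_lit 0) (nat_lit 68072654973) (nat_lit 76) (nat_lit 715876879096) (nat_lit 0) (nat_lit 66359415656) (nat_lit 1) (nat_lit 5) (nat_lit 2) (nat_lit 4) (nat_lit 1) (nat_lit 4) (nat_lit 392) (nat_lit 334) (nat_lit 294)))))) (XT.nd (nat_lit 468) (nat_lit 0) (nat_lit 0) (XT.nd (nat_lit 234) (nat_lit 0) (nat_lit 0) (XT.nd (nat_lit 78) (nat_lit 0) (nat_lit 0) (XT.lf (nat_lit 0) (nat_lit 92718672051) (nat_lit 76) (nat_lit 791927828723) (nat_lit 0) (nat_lit 91004595354) (nat_lit 1)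 (nat_lit 5) (nat_lit 2) (nat_lit 4) (nat_lit 1) (nat_lit 4) (nat_lit 393) (nat_lit 334) (nat_lit 293)) (XT.nd (nat_lit 78) (nat_lit 0) (nat_lit 0) (XT.lf (nat_lit 0) (nat_lit 121048308198) (nat_lit 76) (nat_lit 879414745686) (nat_lit 0) (nat_lit 119333503346) (nat_lit 1) (nat_lit 5) (nat_lit 2) (nat_lit 4) (nat_lit 1) (nat_lit 4) (nat_lit 394) (nat_lit 334) (nat_lit 292)) (XT.lf (nat_lit 0) (nat_lit 153615838905) (nat_lit 76) (nat_lit 980049330533) (nat_lit 0) (nat_lit 151900400874) (nat_lit 1) (nat_lit 5) (nat_lit 2) (nat_lit 4) (nat_lit 1) (nat_lit 4) (nat_lit 395) (nat_lit 334) (nat_lit 291)))) (XT.nd (nat_lit 78) (nat_lit 0) (nat_lit 0) (XT.lf (nat_lit 0) (nat_lit 191058454990) (nat_lit 76) (nat_lit 1095800520793) (nat_lit 0) (nat_lit 189342466369) (nat_lit 1) (nat_lit 5) (nat_lit 2) (nat_lit 4) (nat_lit 1) (nat_lit 4) (nat_lit 396) (nat_lit 334) (nat_lit 290)) (XT.nd (nat_lit 78)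 (nat_lit 0) (nat_lit 0) (XT.lf (nat_lit 0) (nat_lit 234108729376) (nat_lit 76) (nat_lit 1228933013668) (nat_lit 0) (nat_lit 232392261980) (nat_lit 1) (nat_lit 5) (nat_lit 2) (nat_lit 4) (nat_lit 1) (nat_lit 4) (nat_lit 397) (nat_lit 334) (nat_lit 289)) (XT.lf (nat_lit 0) (nat_lit 283608950041) (nat_lit 76) (nat_lit 1382051575322) (nat_lit 0) (nat_lit 281892066319) (nat_lit 1) (nat_lit 5) (nat_lit 2) (nat_lit 4) (nat_lit 1) (nat_lit 4) (nat_lit 398) (nat_lit 334) (nat_lit 288))))) (XT.nd (nat_lit 234) (nat_lit 0) (nat_lit 0) (XT.nd (nat_lit 78) (nat_lit 0) (nat_lit 0) (XT.lf (nat_lit 0) (nat_lit 340527599561) (nat_lit 76) (nat_lit 1558152003701) (nat_lit 0) (nat_lit 338810353818) (nat_lit 1) (nat_lit 5) (nat_lit 2) (nat_lit 4) (nat_lit 1) (nat_lit 4) (nat_lit 399) (nat_lit 334) (nat_lit 287)) (XT.nd (nat_lit 78) (nat_lit 0) (nat_lit 0) (XT.lf (nat_lit 0) (nat_lit 405978303690) (nat_lit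 76) (nat_lit 1760679741968) (nat_lit 0) (nat_lit 404260743145) (nat_lit 1) (nat_lit 5) (nat_lit 2) (nat_lit 4) (nat_lit 1) (nat_lit 4) (nat_lit 400) (nat_lit 334) (nat_lit 286)) (XT.lf (nat_lit 0) (nat_lit 481241619682) (nat_lit 76) (nat_lit 1993597289352) (nat_lit 0) (nat_lit 479523785396) (nat_lit 1) (nat_lit 5) (nat_lit 2) (nat_lit 4) (nat_lit 1) (nat_lit 4) (nat_lit 401) (nat_lit 334) (nat_lit 285)))) (XT.nd (nat_lit 78) (nat_lit 0) (nat_lit 0) (XT.lf (nat_lit 0) (nat_lit 567790090675) (nat_lit 76) (nat_lit 2261461728299) (nat_lit 0) (nat_lit 566072018353) (nat_lit 1) (nat_lit 5) (nat_lit 2) (nat_lit 4) (nat_lit 1) (nat_lit 4) (nat_lit 402) (nat_lit 334) (nat_lit 284)) (XT.nd (nat_lit 78) (nat_lit 0) (nat_lit 0) (XT.lf (nat_lit 0) (nat_lit 667317056320) (nat_lit 76) (nat_lit 2569513884791) (nat_lit 0) (nat_lit 665598777011) (nat_lit 1) (nat_lit 5) (nat_lit 2) (nat_lit 4) (nat_lit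 1) (nat_lit 4) (nat_lit 403) (nat_lit 334) (nat_lit 283)) (XT.lf (nat_lit 0) (nat_lit 781769783335) (nat_lit 76) (nat_lit 2923780866236) (nat_lit 0) (nat_lit 780051324037) (nat_lit 1) (nat_lit 5) (nat_lit 2) (nat_lit 4) (nat_lit 1) (nat_lit 4) (nat_lit 404) (nat_lit 334) (nat_lit 282))))))) (XT.nd (nat_lit 936) (nat_lit 0) (nat_lit 0) (XT.nd (nat_lit 468) (nat_lit 0) (nat_lit 0) (XT.nd (nat_lit 234) (nat_lit 0) (nat_lit 0) (XT.nd (nat_lit 78) (nat_lit 0) (nat_lit 0) (XT.lf (nat_lit 0) (nat_lit 913387564206) (nat_lit 76) (nat_lit 3331193983142) (nat_lit 0) (nat_lit 911668948396) (nat_lit 1) (nat_lit 5) (nat_lit 2) (nat_lit 4) (nat_lit 1) (nat_lit 4) (nat_lit 405) (nat_lit 334) (nat_lit 281)) (XT.nd (nat_lit 78) (nat_lit 0) (nat_lit 0) (XT.lf (nat_lit 0) (nat_lit 1064745529428) (nat_lit 76) (nat_lit 3799724361708) (nat_lit 0) (nat_lit 1063026777520) (nat_lit 1) (nat_lit 5) (nat_lit 2) (nat_lit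 4) (nat_lit 1) (nat_lit 4) (nat_lit 406) (nat_lit 334) (nat_lit 280)) (XT.lf (nat_lit 0) (nat_lit 1238805030495) (nat_lit 76) (nat_lit 4338538900645) (nat_lit 0) (nat_lit 1237086160241) (nat_lit 1) (nat_lit 5) (nat_lit 2) (nat_lit 4) (nat_lit 1) (nat_lit 4) (nat_lit 407) (nat_lit 334) (nat_lit 279)))) (XT.nd (nat_lit 78) (nat_lit 0) (nat_lit 0) (XT.lf (nat_lit 0) (nat_lit 1438971579383) (nat_lit 76) (nat_lit 4958179623541) (nat_lit 0) (nat_lit 1437252606221) (nat_lit 1) (nat_lit 5) (nat_lit 2) (nat_lit 4) (nat_lit 1) (nat_lit 4) (nat_lit 408) (nat_lit 334) (nat_lit 278)) (XT.nd (nat_lit 78) (nat_lit 0) (nat_lit 0) (XT.lf (nat_lit 0) (nat_lit 1669161478137) (nat_lit 76) (nat_lit 5670769935845) (nat_lit 0) (nat_lit 1667442415488) (nat_lit 1) (nat_lit 5) (nat_lit 2) (nat_lit 4) (nat_lit 1) (nat_lit 4) (nat_lit 409) (nat_lit 334) (nat_lit 277)) (XT.lf (nat_lit 0) (nat_lit 1933878442167) (nat_lit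 76) (nat_lit 6490251821928) (nat_lit 0) (nat_lit 1932159301704) (nat_lit 1) (nat_lit 5) (nat_lit 2) (nat_lit 4) (nat_lit 1) (nat_lit 4) (nat_lit 410) (nat_lit 334) (nat_lit 276))))) (XT.nd (nat_lit 234) (nat_lit 0) (nat_lit 0) (XT.nd (nat_lit 78) (nat_lit 0) (nat_lit 0) (XT.lf (nat_lit 0) (nat_lit 2238301716421) (nat_lit 76) (nat_lit 7432658623038) (nat_lit 0) (nat_lit 2236582508293) (nat_lit 1) (nat_lit 5) (nat_lit 2) (nat_lit 4) (nat_lit 1) (nat_lit 4) (nat_lit 411) (nat_lit 334) (nat_lit 275)) (XT.nd (nat_lit 78) (nat_lit 0) (nat_lit 0) (XT.lf (nat_lit 0) (nat_lit 2588387408439) (nat_lit 76) (nat_lit 8516428733111) (nat_lit 0) (nat_lit 2586668141472) (nat_lit 1) (nat_lit 5) (nat_lit 2) (nat_lit 4) (nat_lit 1) (nat_lit 4) (nat_lit 412) (nat_lit 334) (nat_lit 274)) (XT.lf (nat_lit 0) (nat_lit 2990985020891) (nat_lit 76) (nat_lit 9762766349952) (nat_lit 0) (nat_lit 2989265702760) (nat_lit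 1) (nat_lit 5) (nat_lit 2) (nat_lit 4) (nat_lit 1) (nat_lit 4) (nat_lit 413) (nat_lit 334) (nat_lit 273)))) (XT.nd (nat_lit 78) (nat_lit 0) (nat_lit 0) (XT.lf (nat_lit 0) (nat_lit 3453971463585) (nat_lit 76) (nat_lit 11196056339979) (nat_lit 0) (nat_lit 3452252100964) (nat_lit 1) (nat_lit 5) (nat_lit 2) (nat_lit 4) (nat_lit 1) (nat_lit 4) (nat_lit 414) (nat_lit 334) (nat_lit 272)) (XT.nd (nat_lit 78) (nat_lit 0) (nat_lit 0) (XT.lf (nat_lit 0) (nat_lit 3986405166923) (nat_lit 76) (nat_lit 12844341333430) (nat_lit 0) (nat_lit 3984685765614) (nat_lit 1) (nat_lit 5) (nat_lit 2) (nat_lit 4) (nat_lit 1) (nat_lit 4) (nat_lit 415) (nat_lit 334) (nat_lit 271)) (XT.lf (nat_lit 0) (nat_lit 4598703312056) (nat_lit 76) (nat_lit 14739870384525) (nat_lit 0) (nat_lit 4596983877106) (nat_lit 1) (nat_lit 5) (nat_lit 2) (nat_lit 4) (nat_lit 1) (nat_lit 4) (nat_lit 416) (nat_lit 334) (nat_lit 270)))))) (XT.nd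 (nat_lit 468) (nat_lit 0) (nat_lit 0) (XT.nd (nat_lit 234) (nat_lit 0) (nat_lit 0) (XT.nd (nat_lit 78) (nat_lit 0) (nat_lit 0) (XT.lf (nat_lit 0) (nat_lit 5302845645302) (nat_lit 76) (nat_lit 16919729931221) (nat_lit 0) (nat_lit 5301126181099) (nat_lit 1) (nat_lit 5) (nat_lit 2) (nat_lit 4) (nat_lit 1) (nat_lit 4) (nat_lit 417) (nat_lit 334) (nat_lit 269)) (XT.nd (nat_lit 78) (nat_lit 0) (nat_lit 0) (XT.lf (nat_lit 0) (nat_lit 6112608864487) (nat_lit 76) (nat_lit 19426569399431) (nat_lit 0) (nat_lit 6110889374846) (nat_lit 1) (nat_lit 5) (nat_lit 2) (nat_lit 4) (nat_lit 1) (nat_lit 4) (nat_lit 418) (nat_lit 334) (nat_lit 268)) (XT.lf (nat_lit 0) (nat_lit 7043836163027) (nat_lit 76) (nat_lit 22309435648316) (nat_lit 0) (nat_lit 7042116651267) (nat_lit 1) (nat_lit 5) (nat_lit 2) (nat_lit 4) (nat_lit 1) (nat_lit 4) (nat_lit 419) (nat_lit 334) (nat_lit 267)))) (XT.nd (nat_lit 78) (nat_lit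 0) (nat_lit 0) (XT.lf (nat_lit 0) (nat_lit 8114747205461) (nat_lit 76) (nat_lit 25624732582745) (nat_lit 0) (nat_lit 8113027674467) (nat_lit 1) (nat_lit 5) (nat_lit 2) (nat_lit 4) (nat_lit 1) (nat_lit 4) (nat_lit 420) (nat_lit 334) (nat_lit 266)) (XT.nd (nat_lit 78) (nat_lit 0) (nat_lit 0) (XT.lf (nat_lit 0) (nat_lit 9346294599140) (nat_lit 76) (nat_lit 29437324707957) (nat_lit 0) (nat_lit 9344575051420) (nat_lit 1) (nat_lit 5) (nat_lit 2) (nat_lit 4) (nat_lit 1) (nat_lit 4) (nat_lit 421) (nat_lit 334) (nat_lit 265)) (XT.lf (nat_lit 0) (nat_lit 10762573836550) (nat_lit 76) (nat_lit 33821806217706) (nat_lit 0) (nat_lit 10760854274285) (nat_lit 1) (nat_lit 5) (nat_lit 2) (nat_lit 4) (nat_lit 1) (nat_lit 4) (nat_lit 422) (nat_lit 334) (nat_lit 264))))) (XT.nd (nat_lit 234) (nat_lit 0) (nat_lit 0) (XT.nd (nat_lit 78) (nat_lit 0) (nat_lit 0) (XT.lf (nat_lit 0) (nat_lit 12391294728856) (nat_lit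 76) (nat_lit 38863960445879) (nat_lit 0) (nat_lit 12389575153945) (nat_lit 1) (nat_lit 5) (nat_lit 2) (nat_lit 4) (nat_lit 1) (nat_lit 4) (nat_lit 423) (nat_lit 334) (nat_lit 263)) (XT.nd (nat_lit 78) (nat_lit 0) (nat_lit 0) (XT.lf (nat_lit 0) (nat_lit 14264323554387) (nat_lit 76) (nat_lit 44662438236070) (nat_lit 0) (nat_lit 14262603968478) (nat_lit 1) (nat_lit 5) (nat_lit 2) (nat_lit 4) (nat_lit 1) (nat_lit 4) (nat_lit 424) (nat_lit 334) (nat_lit 262)) (XT.lf (nat_lit 0) (nat_lit 16418306529294) (nat_lit 76) (nat_lit 51330688066783) (nat_lit 0) (nat_lit 16416586933822) (nat_lit 1) (nat_lit 5) (nat_lit 2) (nat_lit 4) (nat_lit 1) (nat_lit 4) (nat_lit 425) (nat_lit 334) (nat_lit 261)))) (XT.nd (nat_lit 156) (nat_lit 0) (nat_lit 0) (XT.nd (nat_lit 78) (nat_lit 0) (nat_lit 0) (XT.lf (nat_lit 0) (nat_lit 18895386798739) (nat_lit 76) (nat_lit 58999175695575) (nat_lit 0) (nat_lit 18893667194951)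 (nat_lit 1) (nat_lit 5) (nat_lit 2) (nat_lit 4) (nat_lit 1) (nat_lit 4) (nat_lit 426) (nat_lit 334) (nat_lit 260)) (XT.lf (nat_lit 0) (nat_lit 21744028976688) (nat_lit 76) (nat_lit 67817936749967) (nat_lit 0) (nat_lit 21742309365670) (nat_lit 1) (nat_lit 5) (nat_lit 2) (nat_lit 4) (nat_lit 1) (nat_lit 4) (nat_lit 427) (nat_lit 334) (nat_lit 259))) (XT.nd (nat_lit 78) (nat_lit 0) (nat_lit 0) (XT.lf (nat_lit 0) (nat_lit 25019967366625) (nat_lit 76) (nat_lit 77959512207109) (nat_lit 0) (nat_lit 25018247749318) (nat_lit 1) (nat_lit 5) (nat_lit 2) (nat_lit 4) (nat_lit 1) (nat_lit 4) (nat_lit 428) (nat_lit 334) (nat_lit 258)) (XT.lf (nat_lit 0) (nat_lit 28787296415307) (nat_lit 76) (nat_lit 89622324195512) (nat_lit 0) (nat_lit 28785576792533) (nat_lit 1) (nat_lit 5) (nat_lit 2) (nat_lit 4) (nat_lit 1) (nat_lit 4) (nat_lit 429) (nat_lit 334) (nat_lit 257))))))))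
noncomputable def xc37 : XT := (XT.nd (nat_lit 48282) (nat_lit 0) (nat_lit 0) (XT.nd (nat_lit 47346) (nat_lit 0) (nat_lit 532) (XT.nd (nat_lit 46878) (nat_lit 0) (nat_lit 1444) (XT.nd (nat_lit 234) (nat_lit 0) (nat_lit 0) (XT.nd (nat_lit 78) (nat_lit 0) (nat_lit 0) (XT.lf (nat_lit 0) (nat_lit 33119724734557) (nat_lit 76) (nat_lit 103034558167121) (nat_lit 0) (nat_lit 33118005107029) (nat_lit 1) (nat_lit 5) (nat_lit 2) (nat_lit 4) (nat_lit 1) (nat_lit 4) (nat_lit 430) (nat_lit 334) (nat_lit 256)) (XT.nd (nat_lit 78) (nat_lit 0) (nat_lit 0) (XT.lf (nat_lit 0) (nat_lit 38102017226274) (nat_lit 76) (nat_lit 118458627395294) (nat_lit 0) (nat_lit 38100297594612) (nat_lit 1) (nat_lit 5) (nat_lit 2) (nat_lit 4) (nat_lit 1) (nat_lit 4) (nat_lit 431) (nat_lit 334) (nat_lit 255)) (XT.lf (nat_lit 0) (nat_lit 43831653526166) (nat_lit 76) (nat_lit 136196307147539) (nat_lit 0) (nat_lit 43829933890909)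 (nat_lit 1) (nat_lit 5) (nat_lit 2) (nat_lit 4) (nat_lit 1) (nat_lit 4) (nat_lit 432) (nat_lit 334) (nat_lit 254)))) (XT.nd (nat_lit 78) (nat_lit 0) (nat_lit 0) (XT.lf (nat_lit 0) (nat_lit 50420735214012) (nat_lit 76) (nat_lit 156594638984226) (nat_lit 0) (nat_lit 50419015575629) (nat_lit 1) (nat_lit 5) (nat_lit 2) (nat_lit 4) (nat_lit 1) (nat_lit 4) (nat_lit 433) (nat_lit 334) (nat_lit 253)) (XT.nd (nat_lit 78) (nat_lit 0) (nat_lit 0) (XT.lf (nat_lit 0) (nat_lit 57998179105445) (nat_lit 76) (nat_lit 180052720702160) (nat_lit 0) (nat_lit 57996459464342) (nat_lit 1) (nat_lit 5) (nat_lit 2) (nat_lit 4) (nat_lit 1) (nat_lit 4) (nat_lit 434) (nat_lit 334) (nat_lit 252)) (XT.lf (nat_lit 0) (nat_lit 66712239537469) (nat_lit 76) (nat_lit 207029514769735) (nat_lit 0) (nat_lit 66710519894004) (nat_lit 1) (nat_lit 5) (nat_lit 2) (nat_lit 4) (nat_lit 1) (nat_lit 4) (nat_lit 435) (nat_lit 334) (nat_lit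 251))))) (XT.nd (nat_lit 234) (nat_lit 304) (nat_lit 0) (XT.nd (nat_lit 78) (nat_lit 152) (nat_lit 0) (XT.lf (nat_lit 0) (nat_lit 566267770) (nat_lit 152) (nat_lit 1929438545) (nat_lit 152) (nat_lit 1929438545) (nat_lit 26) (nat_lit 4) (nat_lit 28) (nat_lit 5) (nat_lit 28) (nat_lit 4) (nat_lit 350) (nat_lit 335) (nat_lit 335)) (XT.nd (nat_lit 78) (nat_lit 76) (nat_lit 0) (XT.lf (nat_lit 0) (nat_lit 401904336) (nat_lit 228) (nat_lit 43337939) (nat_lit 76) (nat_lit 8954994025) (nat_lit 25) (nat_lit 5) (nat_lit 28) (nat_lit 5) (nat_lit 26) (nat_lit 4) (nat_lit 351) (nat_lit 335) (nat_lit 334)) (XT.lf (nat_lit 0) (nat_lit 4964445781) (nat_lit 152) (nat_lit 1542983804) (nat_lit 0) (nat_lit 3489225089) (nat_lit 24) (nat_lit 5) (nat_lit 26) (nat_lit 4) (nat_lit 24) (nat_lit 4) (nat_lit 352) (nat_lit 335) (nat_lit 333)))) (XT.nd (nat_lit 78) (nat_lit 228) (nat_lit 0) (XT.lf (nat_lit 0) (nat_lit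 7437603194) (nat_lit 76) (nat_lit 2666532224) (nat_lit 76) (nat_lit 594660091) (nat_lit 23) (nat_lit 4) (nat_lit 24) (nat_lit 5) (nat_lit 24) (nat_lit 4) (nat_lit 353) (nat_lit 335) (nat_lit 332)) (XT.nd (nat_lit 78) (nat_lit 76) (nat_lit 0) (XT.lf (nat_lit 0) (nat_lit 4094135986) (nat_lit 152) (nat_lit 5544847348) (nat_lit 0) (nat_lit 1841353834) (nat_lit 21) (nat_lit 5) (nat_lit 23) (nat_lit 4) (nat_lit 21) (nat_lit 4) (nat_lit 354) (nat_lit 335) (nat_lit 331)) (XT.lf (nat_lit 0) (nat_lit 3939657899) (nat_lit 76) (nat_lit 5536402988) (nat_lit 76) (nat_lit 2891312828) (nat_lit 20) (nat_lit 4) (nat_lit 21) (nat_lit 5) (nat_lit 21) (nat_lit 4) (nat_lit 355) (nat_lit 335) (nat_lit 330)))))) (XT.nd (nat_lit 468) (nat_lit 456) (nat_lit 0) (XT.nd (nat_lit 234) (nat_lit 228) (nat_lit 0) (XT.nd (nat_lit 78) (nat_lit 76) (nat_lit 0) (XT.lf (nat_lit 0) (nat_lit 1361456521) (nat_lit 76) (nat_lit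 660722120) (nat_lit 152) (nat_lit 11359152680) (nat_lit 18) (nat_lit 5) (nat_lit 19) (nat_lit 5) (nat_lit 20) (nat_lit 4) (nat_lit 356) (nat_lit 335) (nat_lit 329)) (XT.nd (nat_lit 78) (nat_lit 76) (nat_lit 0) (XT.lf (nat_lit 0) (nat_lit 7638664085) (nat_lit 152) (nat_lit 2064848373) (nat_lit 0) (nat_lit 4783995584) (nat_lit 18) (nat_lit 5) (nat_lit 20) (nat_lit 4) (nat_lit 18) (nat_lit 4) (nat_lit 357) (nat_lit 335) (nat_lit 328)) (XT.lf (nat_lit 0) (nat_lit 9515413515) (nat_lit 76) (nat_lit 4656077514) (nat_lit 76) (nat_lit 1577105636) (nat_lit 17) (nat_lit 4) (nat_lit 18) (nat_lit 5) (nat_lit 18) (nat_lit 4) (nat_lit 358) (nat_lit 335) (nat_lit 327)))) (XT.nd (nat_lit 78) (nat_lit 76) (nat_lit 0) (XT.lf (nat_lit 0) (nat_lit 4136577474) (nat_lit 152) (nat_lit 11737280432) (nat_lit 0) (nat_lit 1289605045) (nat_lit 15) (nat_lit 5) (nat_lit 17) (nat_lit 4) (nat_lit 15) (nat_lit 4) (nat_lit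 359) (nat_lit 335) (nat_lit 326)) (XT.nd (nat_lit 78) (nat_lit 76) (nat_lit 0) (XT.lf (nat_lit 0) (nat_lit 10765109348) (nat_lit 152) (nat_lit 210684898) (nat_lit 0) (nat_lit 7770653809) (nat_lit 15) (nat_lit 5) (nat_lit 17) (nat_lit 4) (nat_lit 15) (nat_lit 4) (nat_lit 360) (nat_lit 335) (nat_lit 325)) (XT.lf (nat_lit 0) (nat_lit 13659537186) (nat_lit 76) (nat_lit 4995042138) (nat_lit 76) (nat_lit 1872340414) (nat_lit 14) (nat_lit 4) (nat_lit 15) (nat_lit 5) (nat_lit 15) (nat_lit 4) (nat_lit 361) (nat_lit 335) (nat_lit 324))))) (XT.nd (nat_lit 234) (nat_lit 228) (nat_lit 0) (XT.nd (nat_lit 78) (nat_lit 76) (nat_lit 0) (XT.lf (nat_lit 0) (nat_lit 4781860831) (nat_lit 152) (nat_lit 15777986559) (nat_lit 0) (nat_lit 1969495488) (nat_lit 12) (nat_lit 5) (nat_lit 14) (nat_lit 4) (nat_lit 12) (nat_lit 4) (nat_lit 362) (nat_lit 335) (nat_lit 323)) (XT.nd (nat_lit 78) (nat_lit 76) (nat_lit 0)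 (XT.lf (nat_lit 0) (nat_lit 12561941873) (nat_lit 152) (nat_lit 2543669633) (nat_lit 0) (nat_lit 9665252583) (nat_lit 12) (nat_lit 5) (nat_lit 14) (nat_lit 4) (nat_lit 12) (nat_lit 4) (nat_lit 363) (nat_lit 335) (nat_lit 322)) (XT.lf (nat_lit 0) (nat_lit 13336129768) (nat_lit 76) (nat_lit 8469049044) (nat_lit 76) (nat_lit 5499034582) (nat_lit 11) (nat_lit 4) (nat_lit 12) (nat_lit 5) (nat_lit 12) (nat_lit 4) (nat_lit 364) (nat_lit 335) (nat_lit 321)))) (XT.nd (nat_lit 78) (nat_lit 76) (nat_lit 0) (XT.lf (nat_lit 0) (nat_lit 1163667621) (nat_lit 76) (nat_lit 788631496) (nat_lit 152) (nat_lit 28261655115) (nat_lit 9) (nat_lit 5) (nat_lit 10) (nat_lit 5) (nat_lit 11) (nat_lit 4) (nat_lit 365) (nat_lit 335) (nat_lit 320)) (XT.nd (nat_lit 78) (nat_lit 76) (nat_lit 0) (XT.lf (nat_lit 0) (nat_lit 10802810166) (nat_lit 152) (nat_lit 14474878238) (nat_lit 0) (nat_lit 8116532039) (nat_lit 9) (nat_lit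 5) (nat_lit 11) (nat_lit 4) (nat_lit 9) (nat_lit 4) (nat_lit 366) (nat_lit 335) (nat_lit 319)) (XT.lf (nat_lit 0) (nat_lit 1963632574) (nat_lit 76) (nat_lit 18915673543) (nat_lit 76) (nat_lit 16187471511) (nat_lit 8) (nat_lit 4) (nat_lit 9) (nat_lit 5) (nat_lit 9) (nat_lit 4) (nat_lit 367) (nat_lit 335) (nat_lit 318))))))) (XT.nd (nat_lit 936) (nat_lit 152) (nat_lit 0) (XT.nd (nat_lit 468) (nat_lit 152) (nat_lit 0) (XT.nd (nat_lit 234) (nat_lit 76) (nat_lit 0) (XT.nd (nat_lit 78) (nat_lit 152) (nat_lit 0) (XT.lf (nat_lit 0) (nat_lit 22055158356) (nat_lit 76) (nat_lit 10958858619) (nat_lit 76) (nat_lit 8194201018) (nat_lit 8) (nat_lit 4) (nat_lit 9) (nat_lit 5) (nat_lit 9) (nat_lit 4) (nat_lit 368) (nat_lit 335) (nat_lit 317)) (XT.nd (nat_lit 78) (nat_lit 76) (nat_lit 0) (XT.lf (nat_lit 0) (nat_lit 717983359) (nat_lit 152) (nat_lit 1252693872) (nat_lit 76) (nat_lit 44022689494) (nat_lit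 7) (nat_lit 5) (nat_lit 9) (nat_lit 5) (nat_lit 8) (nat_lit 4) (nat_lit 369) (nat_lit 335) (nat_lit 316)) (XT.lf (nat_lit 0) (nat_lit 11204647382) (nat_lit 152) (nat_lit 31322568570) (nat_lit 0) (nat_lit 8749061517) (nat_lit 6) (nat_lit 5) (nat_lit 8) (nat_lit 4) (nat_lit 6) (nat_lit 4) (nat_lit 370) (nat_lit 335) (nat_lit 315)))) (XT.nd (nat_lit 78) (nat_lit 76) (nat_lit 0) (XT.lf (nat_lit 0) (nat_lit 23261160474) (nat_lit 152) (nat_lit 13306212015) (nat_lit 0) (nat_lit 20784731019) (nat_lit 6) (nat_lit 5) (nat_lit 8) (nat_lit 4) (nat_lit 6) (nat_lit 4) (nat_lit 371) (nat_lit 335) (nat_lit 314)) (XT.nd (nat_lit 78) (nat_lit 0) (nat_lit 0) (XT.lf (nat_lit 0) (nat_lit 7803581320) (nat_lit 76) (nat_lit 29501705646) (nat_lit 76) (nat_lit 27007151330) (nat_lit 5) (nat_lit 4) (nat_lit 6) (nat_lit 5) (nat_lit 6) (nat_lit 4) (nat_lit 372) (nat_lit 335) (nat_lit 313)) (XT.lf (nat_lit 0) (nat_lit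 33285341576) (nat_lit 76) (nat_lit 20729025598) (nat_lit 76) (nat_lit 18218710533) (nat_lit 5) (nat_lit 4) (nat_lit 6) (nat_lit 5) (nat_lit 6) (nat_lit 4) (nat_lit 373) (nat_lit 335) (nat_lit 312))))) (XT.nd (nat_lit 234) (nat_lit 0) (nat_lit 0) (XT.nd (nat_lit 78) (nat_lit 152) (nat_lit 0) (XT.lf (nat_lit 0) (nat_lit 62337245120) (nat_lit 76) (nat_lit 10773244945) (nat_lit 76) (nat_lit 8249224881) (nat_lit 5) (nat_lit 4) (nat_lit 6) (nat_lit 5) (nat_lit 6) (nat_lit 4) (nat_lit 374) (nat_lit 335) (nat_lit 311)) (XT.nd (nat_lit 78) (nat_lit 0) (nat_lit 0) (XT.lf (nat_lit 0) (nat_lit 3018039843) (nat_lit 152) (nat_lit 87991165140) (nat_lit 0) (nat_lit 812876839) (nat_lit 3) (nat_lit 5) (nat_lit 5) (nat_lit 4) (nat_lit 3) (nat_lit 4) (nat_lit 375) (nat_lit 335) (nat_lit 310)) (XT.lf (nat_lit 0) (nat_lit 16577146760) (nat_lit 152) (nat_lit 72637816680) (nat_lit 0) (nat_lit 14362972497) (nat_lit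 3) (nat_lit 5) (nat_lit 5) (nat_lit 4) (nat_lit 3) (nat_lit 4) (nat_lit 376) (nat_lit 335) (nat_lit 309)))) (XT.nd (nat_lit 78) (nat_lit 0) (nat_lit 0) (XT.lf (nat_lit 0) (nat_lit 32075856792) (nat_lit 152) (nat_lit 55181606461) (nat_lit 0) (nat_lit 29853846651) (nat_lit 3) (nat_lit 5) (nat_lit 5) (nat_lit 4) (nat_lit 3) (nat_lit 4) (nat_lit 377) (nat_lit 335) (nat_lit 308)) (XT.nd (nat_lit 78) (nat_lit 0) (nat_lit 0) (XT.lf (nat_lit 0) (nat_lit 49817405569) (nat_lit 152) (nat_lit 35280999934) (nat_lit 0) (nat_lit 47588581622) (nat_lit 3) (nat_lit 5) (nat_lit 5) (nat_lit 4) (nat_lit 3) (nat_lit 4) (nat_lit 378) (nat_lit 335) (nat_lit 307)) (XT.lf (nat_lit 0) (nat_lit 70148910350) (nat_lit 152) (nat_lit 12546637407) (nat_lit 0) (nat_lit 67914161354) (nat_lit 3) (nat_lit 5) (nat_lit 5) (nat_lit 4) (nat_lit 3) (nat_lit 4) (nat_lit 379) (nat_lit 335) (nat_lit 306)))))) (XT.nd (nat_lit 468)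 (nat_lit 76) (nat_lit 0) (XT.nd (nat_lit 234) (nat_lit 0) (nat_lit 0) (XT.nd (nat_lit 78) (nat_lit 0) (nat_lit 0) (XT.lf (nat_lit 0) (nat_lit 14782307060) (nat_lit 76) (nat_lit 79297958198) (nat_lit 76) (nat_lit 77058056985) (nat_lit 2) (nat_lit 4) (nat_lit 3) (nat_lit 5) (nat_lit 3) (nat_lit 4) (nat_lit 380) (nat_lit 335) (nat_lit 305)) (XT.nd (nat_lit 78) (nat_lit 0) (nat_lit 0) (XT.lf (nat_lit 0) (nat_lit 47495050139) (nat_lit 76) (nat_lit 74703023679) (nat_lit 76) (nat_lit 72458642277) (nat_lit 2) (nat_lit 4) (nat_lit 3) (nat_lit 5) (nat_lit 3) (nat_lit 4) (nat_lit 381) (nat_lit 335) (nat_lit 304)) (XT.lf (nat_lit 0) (nat_lit 85005475102) (nat_lit 76) (nat_lit 69476690263) (nat_lit 76) (nat_lit 67228413045) (nat_lit 2) (nat_lit 4) (nat_lit 3) (nat_lit 5) (nat_lit 3) (nat_lit 4) (nat_lit 382) (nat_lit 335) (nat_lit 303)))) (XT.nd (nat_lit 78) (nat_lit 0) (nat_lit 0) (XT.lf (nat_lit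 0) (nat_lit 128047481569) (nat_lit 76) (nat_lit 63516703600) (nat_lit 76) (nat_lit 61265038716) (nat_lit 2) (nat_lit 4) (nat_lit 3) (nat_lit 5) (nat_lit 3) (nat_lit 4) (nat_lit 383) (nat_lit 335) (nat_lit 302)) (XT.nd (nat_lit 78) (nat_lit 0) (nat_lit 0) (XT.lf (nat_lit 0) (nat_lit 177463195752) (nat_lit 76) (nat_lit 56706455256) (nat_lit 76) (nat_lit 54451844576) (nat_lit 2) (nat_lit 4) (nat_lit 3) (nat_lit 5) (nat_lit 3) (nat_lit 4) (nat_lit 384) (nat_lit 335) (nat_lit 301)) (XT.lf (nat_lit 0) (nat_lit 234219446843) (nat_lit 76) (nat_lit 48912701242) (nat_lit 76) (nat_lit 46655529000) (nat_lit 2) (nat_lit 4) (nat_lit 3) (nat_lit 5) (nat_lit 3) (nat_lit 4) (nat_lit 385) (nat_lit 335) (nat_lit 300))))) (XT.nd (nat_lit 234) (nat_lit 76) (nat_lit 0) (XT.nd (nat_lit 78) (nat_lit 0) (nat_lit 0) (XT.lf (nat_lit 0) (nat_lit 299426683233) (nat_lit 76) (nat_lit 39982955066) (nat_lit 76) (nat_lit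 37723555378) (nat_lit 2) (nat_lit 4) (nat_lit 3) (nat_lit 5) (nat_lit 3) (nat_lit 4) (nat_lit 386) (nat_lit 335) (nat_lit 299)) (XT.nd (nat_lit 78) (nat_lit 0) (nat_lit 0) (XT.lf (nat_lit 0) (nat_lit 374360698676) (nat_lit 76) (nat_lit 29742504303) (nat_lit 76) (nat_lit 27481167706) (nat_lit 2) (nat_lit 4) (nat_lit 3) (nat_lit 5) (nat_lit 3) (nat_lit 4) (nat_lit 387) (nat_lit 335) (nat_lit 298)) (XT.lf (nat_lit 0) (nat_lit 460487593475) (nat_lit 76) (nat_lit 17990992308) (nat_lit 76) (nat_lit 15727971442) (nat_lit 2) (nat_lit 4) (nat_lit 3) (nat_lit 5) (nat_lit 3) (nat_lit 4) (nat_lit 388) (nat_lit 335) (nat_lit 297)))) (XT.nd (nat_lit 156) (nat_lit 0) (nat_lit 0) (XT.nd (nat_lit 78) (nat_lit 76) (nat_lit 0) (XT.lf (nat_lit 0) (nat_lit 559492459049) (nat_lit 76) (nat_lit 4498498193) (nat_lit 76) (nat_lit 2234012745) (nat_lit 2) (nat_lit 4) (nat_lit 3) (nat_lit 5) (nat_lit 3) (nat_lit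 4) (nat_lit 389) (nat_lit 335) (nat_lit 296)) (XT.lf (nat_lit 0) (nat_lit 13694660446) (nat_lit 76) (nat_lit 623305551083) (nat_lit 0) (nat_lit 11724435232) (nat_lit 1) (nat_lit 5) (nat_lit 2) (nat_lit 4) (nat_lit 1) (nat_lit 4) (nat_lit 390) (nat_lit 335) (nat_lit 295))) (XT.nd (nat_lit 78) (nat_lit 0) (nat_lit 0) (XT.lf (nat_lit 0) (nat_lit 32349246170) (nat_lit 76) (nat_lit 680771214173) (nat_lit 0) (nat_lit 30378057969) (nat_lit 1) (nat_lit 5) (nat_lit 2) (nat_lit 4) (nat_lit 1) (nat_lit 4) (nat_lit 391) (nat_lit 335) (nat_lit 294)) (XT.lf (nat_lit 0) (nat_lit 53786743736) (nat_lit 76) (nat_lit 746889300351) (nat_lit 0) (nat_lit 51814718156) (nat_lit 1) (nat_lit 5) (nat_lit 2) (nat_lit 4) (nat_lit 1) (nat_lit 4) (nat_lit 392) (nat_lit 335) (nat_lit 293))))))))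
noncomputable def xc38 : XT := (XT.nd (nat_lit 1872) (nat_lit 0) (nat_lit 0) (XT.nd (nat_lit 936) (nat_lit 0) (nat_lit 0) (XT.nd (nat_lit 468) (nat_lit 0) (nat_lit 0) (XT.nd (nat_lit 234) (nat_lit 0) (nat_lit 0) (XT.nd (nat_lit 78) (nat_lit 0) (nat_lit 0) (XT.lf (nat_lit 0) (nat_lit 78426582446) (nat_lit 76) (nat_lit 822953424347) (nat_lit 0) (nat_lit 76453828710) (nat_lit 1) (nat_lit 5) (nat_lit 2) (nat_lit 4) (nat_lit 1) (nat_lit 4) (nat_lit 393) (nat_lit 335) (nat_lit 292)) (XT.nd (nat_lit 78) (nat_lit 0) (nat_lit 0) (XT.lf (nat_lit 0) (nat_lit 106750846099) (nat_lit 76) (nat_lit 910451797281) (nat_lit 0) (nat_lit 104777459184) (nat_lit 1) (nat_lit 5) (nat_lit 2) (nat_lit 4) (nat_lit 1) (nat_lit 4) (nat_lit 394) (nat_lit 335) (nat_lit 291)) (XT.lf (nat_lit 0) (nat_lit 139313705072) (nat_lit 76) (nat_lit 1011096343843) (nat_lit 0) (nat_lit 137339767567) (nat_lit 1) (nat_lit 5) (nat_lit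 2) (nat_lit 4) (nat_lit 1) (nat_lit 4) (nat_lit 395) (nat_lit 335) (nat_lit 290)))) (XT.nd (nat_lit 78) (nat_lit 0) (nat_lit 0) (XT.lf (nat_lit 0) (nat_lit 176752258780) (nat_lit 76) (nat_lit 1126856196464) (nat_lit 0) (nat_lit 174777842500) (nat_lit 1) (nat_lit 5) (nat_lit 2) (nat_lit 4) (nat_lit 1) (nat_lit 4) (nat_lit 396) (nat_lit 335) (nat_lit 289)) (XT.nd (nat_lit 78) (nat_lit 0) (nat_lit 0) (XT.lf (nat_lit 0) (nat_lit 219799000664) (nat_lit 76) (nat_lit 1259996221826) (nat_lit 0) (nat_lit 217824168058) (nat_lit 1) (nat_lit 5) (nat_lit 2) (nat_lit 4) (nat_lit 1) (nat_lit 4) (nat_lit 397) (nat_lit 335) (nat_lit 288)) (XT.lf (nat_lit 0) (nat_lit 269296149587) (nat_lit 76) (nat_lit 1413121333469) (nat_lit 0) (nat_lit 267320954960) (nat_lit 1) (nat_lit 5) (nat_lit 2) (nat_lit 4) (nat_lit 1) (nat_lit 4) (nat_lit 398) (nat_lit 335) (nat_lit 287))))) (XT.nd (nat_lit 234) (nat_lit 0) (nat_lit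 0) (XT.nd (nat_lit 78) (nat_lit 0) (nat_lit 0) (XT.lf (nat_lit 0) (nat_lit 326212128029) (nat_lit 76) (nat_lit 1589227457491) (nat_lit 0) (nat_lit 324236618599) (nat_lit 1) (nat_lit 5) (nat_lit 2) (nat_lit 4) (nat_lit 1) (nat_lit 4) (nat_lit 399) (nat_lit 335) (nat_lit 286)) (XT.nd (nat_lit 78) (nat_lit 0) (nat_lit 0) (XT.lf (nat_lit 0) (nat_lit 391660509480) (nat_lit 76) (nat_lit 1791760148491) (nat_lit 0) (nat_lit 389684726310) (nat_lit 1) (nat_lit 5) (nat_lit 2) (nat_lit 4) (nat_lit 1) (nat_lit 4) (nat_lit 400) (nat_lit 335) (nat_lit 285)) (XT.lf (nat_lit 0) (nat_lit 466921805752) (nat_lit 76) (nat_lit 2024682002599) (nat_lit 0) (nat_lit 464945784546) (nat_lit 1) (nat_lit 5) (nat_lit 2) (nat_lit 4) (nat_lit 1) (nat_lit 4) (nat_lit 401) (nat_lit 335) (nat_lit 284)))) (XT.nd (nat_lit 78) (nat_lit 0) (nat_lit 0) (XT.lf (nat_lit 0) (nat_lit 553468520467) (nat_lit 76) (nat_lit 2292550186524)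 (nat_lit 0) (nat_lit 551492292274) (nat_lit 1) (nat_lit 5) (nat_lit 2) (nat_lit 4) (nat_lit 1) (nat_lit 4) (nat_lit 402) (nat_lit 335) (nat_lit 283)) (XT.nd (nat_lit 78) (nat_lit 0) (nat_lit 0) (XT.lf (nat_lit 0) (nat_lit 652993958914) (nat_lit 76) (nat_lit 2600605599518) (nat_lit 0) (nat_lit 651017550732) (nat_lit 1) (nat_lit 5) (nat_lit 2) (nat_lit 4) (nat_lit 1) (nat_lit 4) (nat_lit 403) (nat_lit 335) (nat_lit 282)) (XT.lf (nat_lit 0) (nat_lit 767445357931) (nat_lit 76) (nat_lit 2954875412704) (nat_lit 0) (nat_lit 765468793237) (nat_lit 1) (nat_lit 5) (nat_lit 2) (nat_lit 4) (nat_lit 1) (nat_lit 4) (nat_lit 404) (nat_lit 335) (nat_lit 281)))))) (XT.nd (nat_lit 468) (nat_lit 0) (nat_lit 0) (XT.nd (nat_lit 234) (nat_lit 0) (nat_lit 0) (XT.nd (nat_lit 78) (nat_lit 0) (nat_lit 0) (XT.lf (nat_lit 0) (nat_lit 899061984021) (nat_lit 76) (nat_lit 3362290991993) (nat_lit 0) (nat_lit 897085283229)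 (nat_lit 1) (nat_lit 5) (nat_lit 2) (nat_lit 4) (nat_lit 1) (nat_lit 4) (nat_lit 405) (nat_lit 335) (nat_lit 280)) (XT.nd (nat_lit 78) (nat_lit 0) (nat_lit 0) (XT.lf (nat_lit 0) (nat_lit 1050418945085) (nat_lit 76) (nat_lit 3830823511762) (nat_lit 0) (nat_lit 1048442125948) (nat_lit 1) (nat_lit 5) (nat_lit 2) (nat_lit 4) (nat_lit 1) (nat_lit 4) (nat_lit 406) (nat_lit 335) (nat_lit 279)) (XT.lf (nat_lit 0) (nat_lit 1224477572971) (nat_lit 76) (nat_lit 4369639912615) (nat_lit 0) (nat_lit 1222500650925) (nat_lit 1) (nat_lit 5) (nat_lit 2) (nat_lit 4) (nat_lit 1) (nat_lit 4) (nat_lit 407) (nat_lit 335) (nat_lit 278)))) (XT.nd (nat_lit 78) (nat_lit 0) (nat_lit 0) (XT.lf (nat_lit 0) (nat_lit 1424643362572) (nat_lit 76) (nat_lit 4989282254569) (nat_lit 0) (nat_lit 1422666351040) (nat_lit 1) (nat_lit 5) (nat_lit 2) (nat_lit 4) (nat_lit 1) (nat_lit 4) (nat_lit 408) (nat_lit 335) (nat_lit 277))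 (XT.nd (nat_lit 78) (nat_lit 0) (nat_lit 0) (XT.lf (nat_lit 0) (nat_lit 1654832601076) (nat_lit 76) (nat_lit 5701873974748) (nat_lit 0) (nat_lit 1652855511729) (nat_lit 1) (nat_lit 5) (nat_lit 2) (nat_lit 4) (nat_lit 1) (nat_lit 4) (nat_lit 409) (nat_lit 335) (nat_lit 276)) (XT.lf (nat_lit 0) (nat_lit 1919548990976) (nat_lit 76) (nat_lit 6521357085071) (nat_lit 0) (nat_lit 1917571833964) (nat_lit 1) (nat_lit 5) (nat_lit 2) (nat_lit 4) (nat_lit 1) (nat_lit 4) (nat_lit 410) (nat_lit 335) (nat_lit 275))))) (XT.nd (nat_lit 234) (nat_lit 0) (nat_lit 0) (XT.nd (nat_lit 78) (nat_lit 0) (nat_lit 0) (XT.lf (nat_lit 0) (nat_lit 2223971765986) (nat_lit 76) (nat_lit 7463764950737) (nat_lit 0) (nat_lit 2221994550136) (nat_lit 1) (nat_lit 5) (nat_lit 2) (nat_lit 4) (nat_lit 1) (nat_lit 4) (nat_lit 411) (nat_lit 335) (nat_lit 274)) (XT.nd (nat_lit 78) (nat_lit 0) (nat_lit 0) (XT.lf (nat_lit 0) (nat_lit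 2574057023879) (nat_lit 76) (nat_lit 8547535986511) (nat_lit 0) (nat_lit 2572079756864) (nat_lit 1) (nat_lit 5) (nat_lit 2) (nat_lit 4) (nat_lit 1) (nat_lit 4) (nat_lit 412) (nat_lit 335) (nat_lit 273)) (XT.lf (nat_lit 0) (nat_lit 2976654258831) (nat_lit 76) (nat_lit 9793874408310) (nat_lit 0) (nat_lit 2974676947326) (nat_lit 1) (nat_lit 5) (nat_lit 2) (nat_lit 4) (nat_lit 1) (nat_lit 4) (nat_lit 413) (nat_lit 335) (nat_lit 272)))) (XT.nd (nat_lit 78) (nat_lit 0) (nat_lit 0) (XT.lf (nat_lit 0) (nat_lit 3439640373264) (nat_lit 76) (nat_lit 11227165098300) (nat_lit 0) (nat_lit 3437663023072) (nat_lit 1) (nat_lit 5) (nat_lit 2) (nat_lit 4) (nat_lit 1) (nat_lit 4) (nat_lit 414) (nat_lit 335) (nat_lit 271)) (XT.nd (nat_lit 78) (nat_lit 0) (nat_lit 0) (XT.lf (nat_lit 0) (nat_lit 3972073791157) (nat_lit 76) (nat_lit 12875450700415) (nat_lit 0) (nat_lit 3970096407324) (nat_lit 1) (nat_lit 5)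 (nat_lit 2) (nat_lit 4) (nat_lit 1) (nat_lit 4) (nat_lit 415) (nat_lit 335) (nat_lit 270)) (XT.lf (nat_lit 0) (nat_lit 4584371688078) (nat_lit 76) (nat_lit 14770980280783) (nat_lit 0) (nat_lit 4582394274992) (nat_lit 1) (nat_lit 5) (nat_lit 2) (nat_lit 4) (nat_lit 1) (nat_lit 4) (nat_lit 416) (nat_lit 335) (nat_lit 269))))))) (XT.nd (nat_lit 936) (nat_lit 0) (nat_lit 0) (XT.nd (nat_lit 468) (nat_lit 0) (nat_lit 0) (XT.nd (nat_lit 234) (nat_lit 0) (nat_lit 0) (XT.nd (nat_lit 78) (nat_lit 0) (nat_lit 0) (XT.lf (nat_lit 0) (nat_lit 5288513805488) (nat_lit 76) (nat_lit 16950840287716) (nat_lit 0) (nat_lit 5286536366964) (nat_lit 1) (nat_lit 5) (nat_lit 2) (nat_lit 4) (nat_lit 1) (nat_lit 4) (nat_lit 417) (nat_lit 335) (nat_lit 268)) (XT.nd (nat_lit 78) (nat_lit 0) (nat_lit 0) (XT.lf (nat_lit 0) (nat_lit 6098276836988) (nat_lit 76) (nat_lit 19457680156132) (nat_lit 0) (nat_lit 6096299376344)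 (nat_lit 1) (nat_lit 5) (nat_lit 2) (nat_lit 4) (nat_lit 1) (nat_lit 4) (nat_lit 418) (nat_lit 335) (nat_lit 267)) (XT.lf (nat_lit 0) (nat_lit 7029503972325) (nat_lit 76) (nat_lit 22340546753022) (nat_lit 0) (nat_lit 7027526492446) (nat_lit 1) (nat_lit 5) (nat_lit 2) (nat_lit 4) (nat_lit 1) (nat_lit 4) (nat_lit 419) (nat_lit 335) (nat_lit 266)))) (XT.nd (nat_lit 78) (nat_lit 0) (nat_lit 0) (XT.lf (nat_lit 0) (nat_lit 8100414872843) (nat_lit 76) (nat_lit 25655843990064) (nat_lit 0) (nat_lit 8098437376239) (nat_lit 1) (nat_lit 5) (nat_lit 2) (nat_lit 4) (nat_lit 1) (nat_lit 4) (nat_lit 420) (nat_lit 335) (nat_lit 265)) (XT.nd (nat_lit 78) (nat_lit 0) (nat_lit 0) (XT.lf (nat_lit 0) (nat_lit 9331962143116) (nat_lit 76) (nat_lit 29468436378418) (nat_lit 0) (nat_lit 9329984631968) (nat_lit 1) (nat_lit 5) (nat_lit 2) (nat_lit 4) (nat_lit 1) (nat_lit 4) (nat_lit 421) (nat_lit 335) (nat_lit 264))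 (XT.lf (nat_lit 0) (nat_lit 10748241273217) (nat_lit 76) (nat_lit 33852918116986) (nat_lit 0) (nat_lit 10746263749421) (nat_lit 1) (nat_lit 5) (nat_lit 2) (nat_lit 4) (nat_lit 1) (nat_lit 4) (nat_lit 422) (nat_lit 335) (nat_lit 263))))) (XT.nd (nat_lit 234) (nat_lit 0) (nat_lit 0) (XT.nd (nat_lit 78) (nat_lit 0) (nat_lit 0) (XT.lf (nat_lit 0) (nat_lit 12376962072211) (nat_lit 76) (nat_lit 38895072544132) (nat_lit 0) (nat_lit 12374984537418) (nat_lit 1) (nat_lit 5) (nat_lit 2) (nat_lit 4) (nat_lit 1) (nat_lit 4) (nat_lit 423) (nat_lit 335) (nat_lit 262)) (XT.nd (nat_lit 78) (nat_lit 0) (nat_lit 0) (XT.lf (nat_lit 0) (nat_lit 14249990816600) (nat_lit 76) (nat_lit 44693550507344) (nat_lit 0) (nat_lit 14248013272245) (nat_lit 1) (nat_lit 5) (nat_lit 2) (nat_lit 4) (nat_lit 1) (nat_lit 4) (nat_lit 424) (nat_lit 335) (nat_lit 261)) (XT.lf (nat_lit 0) (nat_lit 16403973720950) (nat_lit 76) (nat_lit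 51361800488509) (nat_lit 0) (nat_lit 16401996168279) (nat_lit 1) (nat_lit 5) (nat_lit 2) (nat_lit 4) (nat_lit 1) (nat_lit 4) (nat_lit 425) (nat_lit 335) (nat_lit 260)))) (XT.nd (nat_lit 78) (nat_lit 0) (nat_lit 0) (XT.lf (nat_lit 0) (nat_lit 18881053929040) (nat_lit 76) (nat_lit 59030288248130) (nat_lit 0) (nat_lit 18879076369138) (nat_lit 1) (nat_lit 5) (nat_lit 2) (nat_lit 4) (nat_lit 1) (nat_lit 4) (nat_lit 426) (nat_lit 335) (nat_lit 259)) (XT.nd (nat_lit 78) (nat_lit 0) (nat_lit 0) (XT.lf (nat_lit 0) (nat_lit 21729696053638) (nat_lit 76) (nat_lit 67849049416285) (nat_lit 0) (nat_lit 21727718487449) (nat_lit 1) (nat_lit 5) (nat_lit 2) (nat_lit 4) (nat_lit 1) (nat_lit 4) (nat_lit 427) (nat_lit 335) (nat_lit 258)) (XT.lf (nat_lit 0) (nat_lit 25005634397182) (nat_lit 76) (nat_lit 77990624972352) (nat_lit 0) (nat_lit 25003656825525) (nat_lit 1) (nat_lit 5) (nat_lit 2) (nat_lit 4) (nat_lit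 1) (nat_lit 4) (nat_lit 428) (nat_lit 335) (nat_lit 257)))))) (XT.nd (nat_lit 46800) (nat_lit 0) (nat_lit 1520) (XT.nd (nat_lit 234) (nat_lit 0) (nat_lit 0) (XT.nd (nat_lit 78) (nat_lit 0) (nat_lit 0) (XT.lf (nat_lit 0) (nat_lit 28772963405523) (nat_lit 76) (nat_lit 89653437046776) (nat_lit 0) (nat_lit 28770985829111) (nat_lit 1) (nat_lit 5) (nat_lit 2) (nat_lit 4) (nat_lit 1) (nat_lit 4) (nat_lit 429) (nat_lit 335) (nat_lit 256)) (XT.nd (nat_lit 78) (nat_lit 0) (nat_lit 0) (XT.lf (nat_lit 0) (nat_lit 33105391689694) (nat_lit 76) (nat_lit 103065671093186) (nat_lit 0) (nat_lit 33103414109148) (nat_lit 1) (nat_lit 5) (nat_lit 2) (nat_lit 4) (nat_lit 1) (nat_lit 4) (nat_lit 430) (nat_lit 335) (nat_lit 255)) (XT.lf (nat_lit 0) (nat_lit 38087684150907) (nat_lit 76) (nat_lit 118489740386404) (nat_lit 0) (nat_lit 38085706566766) (nat_lit 1) (nat_lit 5) (nat_lit 2) (nat_lit 4) (nat_lit 1) (nat_lit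 4) (nat_lit 431) (nat_lit 335) (nat_lit 254)))) (XT.nd (nat_lit 78) (nat_lit 0) (nat_lit 0) (XT.lf (nat_lit 0) (nat_lit 43817320424273) (nat_lit 76) (nat_lit 136227420195210) (nat_lit 0) (nat_lit 43815342837006) (nat_lit 1) (nat_lit 5) (nat_lit 2) (nat_lit 4) (nat_lit 1) (nat_lit 4) (nat_lit 432) (nat_lit 335) (nat_lit 253)) (XT.nd (nat_lit 78) (nat_lit 0) (nat_lit 0) (XT.lf (nat_lit 0) (nat_lit 50406402089054) (nat_lit 76) (nat_lit 156625752081080) (nat_lit 0) (nat_lit 50404424499068) (nat_lit 1) (nat_lit 5) (nat_lit 2) (nat_lit 4) (nat_lit 1) (nat_lit 4) (nat_lit 433) (nat_lit 335) (nat_lit 252)) (XT.lf (nat_lit 0) (nat_lit 57983845960430) (nat_lit 76) (nat_lit 180083833841782) (nat_lit 0) (nat_lit 57981868368080) (nat_lit 1) (nat_lit 5) (nat_lit 2) (nat_lit 4) (nat_lit 1) (nat_lit 4) (nat_lit 434) (nat_lit 335) (nat_lit 251))))) (XT.nd (nat_lit 234) (nat_lit 380) (nat_lit 0) (XT.nd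 (nat_lit 78) (nat_lit 304) (nat_lit 0) (XT.lf (nat_lit 0) (nat_lit 1758495677) (nat_lit 152) (nat_lit 1111813968) (nat_lit 152) (nat_lit 1111813968) (nat_lit 30) (nat_lit 4) (nat_lit 32) (nat_lit 5) (nat_lit 32) (nat_lit 4) (nat_lit 348) (nat_lit 336) (nat_lit 336)) (XT.nd (nat_lit 78) (nat_lit 152) (nat_lit 0) (XT.lf (nat_lit 0) (nat_lit 1656148965) (nat_lit 152) (nat_lit 6125027593) (nat_lit 0) (nat_lit 612601863) (nat_lit 28) (nat_lit 5) (nat_lit 30) (nat_lit 4) (nat_lit 28) (nat_lit 4) (nat_lit 349) (nat_lit 336) (nat_lit 335)) (XT.lf (nat_lit 0) (nat_lit 765467761) (nat_lit 152) (nat_lit 5035511040) (nat_lit 152) (nat_lit 3084531676) (nat_lit 26) (nat_lit 4) (nat_lit 28) (nat_lit 5) (nat_lit 28) (nat_lit 4) (nat_lit 350) (nat_lit 336) (nat_lit 334)))) (XT.nd (nat_lit 156) (nat_lit 228) (nat_lit 0) (XT.nd (nat_lit 78) (nat_lit 76) (nat_lit 0) (XT.lf (nat_lit 0) (nat_lit 894063914)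 (nat_lit 228) (nat_lit 817813480) (nat_lit 76) (nat_lit 7750850772) (nat_lit 25) (nat_lit 5) (nat_lit 28) (nat_lit 5) (nat_lit 26) (nat_lit 4) (nat_lit 351) (nat_lit 336) (nat_lit 333)) (XT.lf (nat_lit 0) (nat_lit 5163191521) (nat_lit 152) (nat_lit 2756161250) (nat_lit 0) (nat_lit 2183887124) (nat_lit 24) (nat_lit 5) (nat_lit 26) (nat_lit 4) (nat_lit 24) (nat_lit 4) (nat_lit 352) (nat_lit 336) (nat_lit 332))) (XT.nd (nat_lit 78) (nat_lit 152) (nat_lit 0) (XT.lf (nat_lit 0) (nat_lit 5772378395) (nat_lit 76) (nat_lit 4284083798) (nat_lit 76) (nat_lit 785952060) (nat_lit 23) (nat_lit 4) (nat_lit 24) (nat_lit 5) (nat_lit 24) (nat_lit 4) (nat_lit 353) (nat_lit 336) (nat_lit 331)) (XT.lf (nat_lit 0) (nat_lit 3572336879) (nat_lit 152) (nat_lit 7966816029) (nat_lit 0) (nat_lit 138175186) (nat_lit 21) (nat_lit 5) (nat_lit 23) (nat_lit 4) (nat_lit 21) (nat_lit 4) (nat_lit 354) (nat_lit 336) (nat_lit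 330))))))))
noncomputable def xc39 : XT := (XT.nd (nat_lit 1872) (nat_lit 152) (nat_lit 0) (XT.nd (nat_lit 936) (nat_lit 456) (nat_lit 0) (XT.nd (nat_lit 468) (nat_lit 456) (nat_lit 0) (XT.nd (nat_lit 234) (nat_lit 228) (nat_lit 0) (XT.nd (nat_lit 78) (nat_lit 152) (nat_lit 0) (XT.lf (nat_lit 0) (nat_lit 938109185) (nat_lit 76) (nat_lit 7722801818) (nat_lit 76) (nat_lit 3947502726) (nat_lit 20) (nat_lit 4) (nat_lit 21) (nat_lit 5) (nat_lit 21) (nat_lit 4) (nat_lit 355) (nat_lit 336) (nat_lit 329)) (XT.nd (nat_lit 78) (nat_lit 76) (nat_lit 0) (XT.lf (nat_lit 0) (nat_lit 836660143) (nat_lit 152) (nat_lit 2273120999) (nat_lit 76) (nat_lit 10552689208) (nat_lit 19) (nat_lit 5) (nat_lit 21) (nat_lit 5) (nat_lit 20) (nat_lit 4) (nat_lit 356) (nat_lit 336) (nat_lit 328)) (XT.lf (nat_lit 0) (nat_lit 6079953159) (nat_lit 152) (nat_lit 6429871210) (nat_lit 0) (nat_lit 2314832123) (nat_lit 18) (nat_lit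 5) (nat_lit 20) (nat_lit 4) (nat_lit 18) (nat_lit 4) (nat_lit 357) (nat_lit 336) (nat_lit 327)))) (XT.nd (nat_lit 78) (nat_lit 152) (nat_lit 0) (XT.lf (nat_lit 0) (nat_lit 4420270793) (nat_lit 76) (nat_lit 7839323134) (nat_lit 76) (nat_lit 3879155683) (nat_lit 17) (nat_lit 4) (nat_lit 18) (nat_lit 5) (nat_lit 18) (nat_lit 4) (nat_lit 358) (nat_lit 336) (nat_lit 326)) (XT.nd (nat_lit 78) (nat_lit 76) (nat_lit 0) (XT.lf (nat_lit 0) (nat_lit 1612357569) (nat_lit 152) (nat_lit 663204254) (nat_lit 76) (nat_lit 15356439752) (nat_lit 16) (nat_lit 5) (nat_lit 18) (nat_lit 5) (nat_lit 17) (nat_lit 4) (nat_lit 359) (nat_lit 336) (nat_lit 325)) (XT.lf (nat_lit 0) (nat_lit 7976033761) (nat_lit 152) (nat_lit 7022018147) (nat_lit 0) (nat_lit 4256680595) (nat_lit 15) (nat_lit 5) (nat_lit 17) (nat_lit 4) (nat_lit 15) (nat_lit 4) (nat_lit 360) (nat_lit 336) (nat_lit 324))))) (XT.nd (nat_lit 234) (nat_lit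 228) (nat_lit 0) (XT.nd (nat_lit 78) (nat_lit 152) (nat_lit 0) (XT.lf (nat_lit 0) (nat_lit 5915531591) (nat_lit 76) (nat_lit 9508397765) (nat_lit 76) (nat_lit 5677526178) (nat_lit 14) (nat_lit 4) (nat_lit 15) (nat_lit 5) (nat_lit 15) (nat_lit 4) (nat_lit 361) (nat_lit 336) (nat_lit 323)) (XT.nd (nat_lit 78) (nat_lit 76) (nat_lit 0) (XT.lf (nat_lit 0) (nat_lit 821862625) (nat_lit 152) (nat_lit 2160839481) (nat_lit 76) (nat_lit 20218859210) (nat_lit 13) (nat_lit 5) (nat_lit 15) (nat_lit 5) (nat_lit 14) (nat_lit 4) (nat_lit 362) (nat_lit 336) (nat_lit 322)) (XT.lf (nat_lit 0) (nat_lit 8256433656) (nat_lit 152) (nat_lit 12470893507) (nat_lit 0) (nat_lit 4767591852) (nat_lit 12) (nat_lit 5) (nat_lit 14) (nat_lit 4) (nat_lit 12) (nat_lit 4) (nat_lit 363) (nat_lit 336) (nat_lit 321)))) (XT.nd (nat_lit 78) (nat_lit 152) (nat_lit 0) (XT.lf (nat_lit 0) (nat_lit 2204797584) (nat_lit 76) (nat_lit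 14730378231) (nat_lit 76) (nat_lit 11177775409) (nat_lit 11) (nat_lit 4) (nat_lit 12) (nat_lit 5) (nat_lit 12) (nat_lit 4) (nat_lit 364) (nat_lit 336) (nat_lit 320)) (XT.nd (nat_lit 78) (nat_lit 152) (nat_lit 0) (XT.lf (nat_lit 0) (nat_lit 20046020054) (nat_lit 76) (nat_lit 7309854894) (nat_lit 76) (nat_lit 3701807707) (nat_lit 11) (nat_lit 4) (nat_lit 12) (nat_lit 5) (nat_lit 12) (nat_lit 4) (nat_lit 365) (nat_lit 336) (nat_lit 319)) (XT.lf (nat_lit 0) (nat_lit 4581331592) (nat_lit 152) (nat_lit 28412180071) (nat_lit 0) (nat_lit 1401975350) (nat_lit 9) (nat_lit 5) (nat_lit 11) (nat_lit 4) (nat_lit 9) (nat_lit 4) (nat_lit 366) (nat_lit 336) (nat_lit 318)))))) (XT.nd (nat_lit 468) (nat_lit 228) (nat_lit 0) (XT.nd (nat_lit 234) (nat_lit 152) (nat_lit 0) (XT.nd (nat_lit 78) (nat_lit 76) (nat_lit 0) (XT.lf (nat_lit 0) (nat_lit 14487354724) (nat_lit 152) (nat_lit 12334722450) (nat_lit 0) (nat_lit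 11271542913) (nat_lit 9) (nat_lit 5) (nat_lit 11) (nat_lit 4) (nat_lit 9) (nat_lit 4) (nat_lit 367) (nat_lit 336) (nat_lit 317)) (XT.nd (nat_lit 78) (nat_lit 0) (nat_lit 0) (XT.lf (nat_lit 0) (nat_lit 6373592823) (nat_lit 76) (nat_lit 19602909380) (nat_lit 76) (nat_lit 16355397073) (nat_lit 8) (nat_lit 4) (nat_lit 9) (nat_lit 5) (nat_lit 9) (nat_lit 4) (nat_lit 368) (nat_lit 336) (nat_lit 316)) (XT.lf (nat_lit 0) (nat_lit 28942054164) (nat_lit 76) (nat_lit 10733022025) (nat_lit 76) (nat_lit 7457944070) (nat_lit 8) (nat_lit 4) (nat_lit 9) (nat_lit 5) (nat_lit 9) (nat_lit 4) (nat_lit 369) (nat_lit 336) (nat_lit 315)))) (XT.nd (nat_lit 78) (nat_lit 0) (nat_lit 0) (XT.lf (nat_lit 0) (nat_lit 2001664971) (nat_lit 76) (nat_lit 463782960) (nat_lit 152) (nat_lit 50180893010) (nat_lit 6) (nat_lit 5) (nat_lit 7) (nat_lit 5) (nat_lit 8) (nat_lit 4) (nat_lit 370) (nat_lit 336) (nat_lit 314)) (XT.nd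 (nat_lit 78) (nat_lit 0) (nat_lit 0) (XT.lf (nat_lit 0) (nat_lit 14435783168) (nat_lit 152) (nat_lit 32750392117) (nat_lit 0) (nat_lit 11548920843) (nat_lit 6) (nat_lit 5) (nat_lit 8) (nat_lit 4) (nat_lit 6) (nat_lit 4) (nat_lit 371) (nat_lit 336) (nat_lit 313)) (XT.lf (nat_lit 0) (nat_lit 28098542092) (nat_lit 152) (nat_lit 12458177088) (nat_lit 0) (nat_lit 25195919019) (nat_lit 6) (nat_lit 5) (nat_lit 8) (nat_lit 4) (nat_lit 6) (nat_lit 4) (nat_lit 372) (nat_lit 336) (nat_lit 312))))) (XT.nd (nat_lit 234) (nat_lit 152) (nat_lit 0) (XT.nd (nat_lit 78) (nat_lit 0) (nat_lit 0) (XT.lf (nat_lit 0) (nat_lit 11688814032) (nat_lit 76) (nat_lit 32497030119) (nat_lit 76) (nat_lit 29580702047) (nat_lit 5) (nat_lit 4) (nat_lit 6) (nat_lit 5) (nat_lit 6) (nat_lit 4) (nat_lit 373) (nat_lit 336) (nat_lit 311)) (XT.nd (nat_lit 78) (nat_lit 0) (nat_lit 0) (XT.lf (nat_lit 0) (nat_lit 40638747607) (nat_lit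 76) (nat_lit 22594960852) (nat_lit 76) (nat_lit 19666715389) (nat_lit 5) (nat_lit 4) (nat_lit 6) (nat_lit 5) (nat_lit 6) (nat_lit 4) (nat_lit 374) (nat_lit 336) (nat_lit 310)) (XT.lf (nat_lit 0) (nat_lit 73740531710) (nat_lit 76) (nat_lit 11307998133) (nat_lit 76) (nat_lit 8369389722) (nat_lit 5) (nat_lit 4) (nat_lit 6) (nat_lit 5) (nat_lit 6) (nat_lit 4) (nat_lit 375) (nat_lit 336) (nat_lit 309)))) (XT.nd (nat_lit 78) (nat_lit 0) (nat_lit 0) (XT.lf (nat_lit 0) (nat_lit 4485716364) (nat_lit 152) (nat_lit 99034838613) (nat_lit 0) (nat_lit 1922568825) (nat_lit 3) (nat_lit 5) (nat_lit 5) (nat_lit 4) (nat_lit 3) (nat_lit 4) (nat_lit 376) (nat_lit 336) (nat_lit 308)) (XT.nd (nat_lit 78) (nat_lit 0) (nat_lit 0) (XT.lf (nat_lit 0) (nat_lit 19946301857) (nat_lit 152) (nat_lit 81659575011) (nat_lit 0) (nat_lit 17376340511) (nat_lit 3) (nat_lit 5) (nat_lit 5) (nat_lit 4) (nat_lit 3) (nat_lit 4)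 (nat_lit 377) (nat_lit 336) (nat_lit 307)) (XT.lf (nat_lit 0) (nat_lit 37654698861) (nat_lit 152) (nat_lit 61829356846) (nat_lit 0) (nat_lit 35078812466) (nat_lit 3) (nat_lit 5) (nat_lit 5) (nat_lit 4) (nat_lit 3) (nat_lit 4) (nat_lit 378) (nat_lit 336) (nat_lit 306))))))) (XT.nd (nat_lit 936) (nat_lit 76) (nat_lit 0) (XT.nd (nat_lit 468) (nat_lit 0) (nat_lit 0) (XT.nd (nat_lit 234) (nat_lit 0) (nat_lit 0) (XT.nd (nat_lit 78) (nat_lit 76) (nat_lit 0) (XT.lf (nat_lit 0) (nat_lit 57957376013) (nat_lit 152) (nat_lit 39156201591) (nat_lit 0) (nat_lit 55376337401) (nat_lit 3) (nat_lit 5) (nat_lit 5) (nat_lit 4) (nat_lit 3) (nat_lit 4) (nat_lit 379) (nat_lit 336) (nat_lit 305)) (XT.nd (nat_lit 78) (nat_lit 76) (nat_lit 0) (XT.lf (nat_lit 0) (nat_lit 81251559606) (nat_lit 152) (nat_lit 13196504032) (nat_lit 0) (nat_lit 78666040806) (nat_lit 3) (nat_lit 5) (nat_lit 5) (nat_lit 4) (nat_lit 3)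 (nat_lit 4) (nat_lit 380) (nat_lit 336) (nat_lit 304)) (XT.lf (nat_lit 0) (nat_lit 18175776242) (nat_lit 76) (nat_lit 90569849297) (nat_lit 76) (nat_lit 87980434681) (nat_lit 2) (nat_lit 4) (nat_lit 3) (nat_lit 5) (nat_lit 3) (nat_lit 4) (nat_lit 381) (nat_lit 336) (nat_lit 303)))) (XT.nd (nat_lit 78) (nat_lit 0) (nat_lit 0) (XT.lf (nat_lit 0) (nat_lit 55642023419) (nat_lit 76) (nat_lit 85366909726) (nat_lit 76) (nat_lit 82774107443) (nat_lit 2) (nat_lit 4) (nat_lit 3) (nat_lit 5) (nat_lit 3) (nat_lit 4) (nat_lit 382) (nat_lit 336) (nat_lit 302)) (XT.nd (nat_lit 78) (nat_lit 0) (nat_lit 0) (XT.lf (nat_lit 0) (nat_lit 98645614419) (nat_lit 76) (nat_lit 79427265537) (nat_lit 76) (nat_lit 76831517458) (nat_lit 2) (nat_lit 4) (nat_lit 3) (nat_lit 5) (nat_lit 3) (nat_lit 4) (nat_lit 383) (nat_lit 336) (nat_lit 301)) (XT.lf (nat_lit 0) (nat_lit 148027923849) (nat_lit 76) (nat_lit 72634706301)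 (nat_lit 76) (nat_lit 70036396659) (nat_lit 2) (nat_lit 4) (nat_lit 3) (nat_lit 5) (nat_lit 3) (nat_lit 4) (nat_lit 384) (nat_lit 336) (nat_lit 300))))) (XT.nd (nat_lit 234) (nat_lit 0) (nat_lit 0) (XT.nd (nat_lit 78) (nat_lit 0) (nat_lit 0) (XT.lf (nat_lit 0) (nat_lit 204755127328) (nat_lit 76) (nat_lit 64856334119) (nat_lit 76) (nat_lit 62255797032) (nat_lit 2) (nat_lit 4) (nat_lit 3) (nat_lit 5) (nat_lit 3) (nat_lit 4) (nat_lit 385) (nat_lit 336) (nat_lit 299)) (XT.nd (nat_lit 78) (nat_lit 0) (nat_lit 0) (XT.lf (nat_lit 0) (nat_lit 269937104925) (nat_lit 76) (nat_lit 55939963450) (nat_lit 76) (nat_lit 53337489454) (nat_lit 2) (nat_lit 4) (nat_lit 3) (nat_lit 5) (nat_lit 3) (nat_lit 4) (nat_lit 386) (nat_lit 336) (nat_lit 298)) (XT.lf (nat_lit 0) (nat_lit 344849156200) (nat_lit 76) (nat_lit 45711143562) (nat_lit 76) (nat_lit 43106985298) (nat_lit 2) (nat_lit 4) (nat_lit 3) (nat_lit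 5) (nat_lit 3) (nat_lit 4) (nat_lit 387) (nat_lit 336) (nat_lit 297)))) (XT.nd (nat_lit 78) (nat_lit 0) (nat_lit 0) (XT.lf (nat_lit 0) (nat_lit 430956951723) (nat_lit 76) (nat_lit 33969745371) (nat_lit 76) (nat_lit 31364122525) (nat_lit 2) (nat_lit 4) (nat_lit 3) (nat_lit 5) (nat_lit 3) (nat_lit 4) (nat_lit 388) (nat_lit 336) (nat_lit 296)) (XT.nd (nat_lit 78) (nat_lit 0) (nat_lit 0) (XT.lf (nat_lit 0) (nat_lit 529945209231) (nat_lit 76) (nat_lit 20486045869) (nat_lit 76) (nat_lit 17879149474) (nat_lit 2) (nat_lit 4) (nat_lit 3) (nat_lit 5) (nat_lit 3) (nat_lit 4) (nat_lit 389) (nat_lit 336) (nat_lit 295)) (XT.lf (nat_lit 0) (nat_lit 643750655503) (nat_lit 76) (nat_lit 4996233544) (nat_lit 76) (nat_lit 2388229714) (nat_lit 2) (nat_lit 4) (nat_lit 3) (nat_lit 5) (nat_lit 3) (nat_lit 4) (nat_lit 390) (nat_lit 336) (nat_lit 294)))))) (XT.nd (nat_lit 468) (nat_lit 0) (nat_lit 0) (XT.nd (nat_lit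 234) (nat_lit 0) (nat_lit 0) (XT.nd (nat_lit 78) (nat_lit 0) (nat_lit 0) (XT.lf (nat_lit 0) (nat_lit 15913343124) (nat_lit 76) (nat_lit 716450649140) (nat_lit 0) (nat_lit 13644676328) (nat_lit 1) (nat_lit 5) (nat_lit 2) (nat_lit 4) (nat_lit 1) (nat_lit 4) (nat_lit 391) (nat_lit 336) (nat_lit 293)) (XT.nd (nat_lit 78) (nat_lit 0) (nat_lit 0) (XT.lf (nat_lit 0) (nat_lit 37344662323) (nat_lit 76) (nat_lit 782581909686) (nat_lit 0) (nat_lit 35075267370) (nat_lit 1) (nat_lit 5) (nat_lit 2) (nat_lit 4) (nat_lit 1) (nat_lit 4) (nat_lit 392) (nat_lit 336) (nat_lit 292)) (XT.lf (nat_lit 0) (nat_lit 61979128538) (nat_lit 76) (nat_lit 858657489653) (nat_lit 0) (nat_lit 59709100407) (nat_lit 1) (nat_lit 5) (nat_lit 2) (nat_lit 4) (nat_lit 1) (nat_lit 4) (nat_lit 393) (nat_lit 336) (nat_lit 291)))) (XT.nd (nat_lit 78) (nat_lit 0) (nat_lit 0) (XT.lf (nat_lit 0) (nat_lit 90298720457) (nat_lit 76) (nat_lit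 946165824303) (nat_lit 0) (nat_lit 88028141735) (nat_lit 1) (nat_lit 5) (nat_lit 2) (nat_lit 4) (nat_lit 1) (nat_lit 4) (nat_lit 394) (nat_lit 336) (nat_lit 290)) (XT.nd (nat_lit 78) (nat_lit 0) (nat_lit 0) (XT.lf (nat_lit 0) (nat_lit 122857517053) (nat_lit 76) (nat_lit 1046819033225) (nat_lit 0) (nat_lit 120586459557) (nat_lit 1) (nat_lit 5) (nat_lit 2) (nat_lit 4) (nat_lit 1) (nat_lit 4) (nat_lit 395) (nat_lit 336) (nat_lit 289)) (XT.lf (nat_lit 0) (nat_lit 160292538258) (nat_lit 76) (nat_lit 1162586418333) (nat_lit 0) (nat_lit 158021064437) (nat_lit 1) (nat_lit 5) (nat_lit 2) (nat_lit 4) (nat_lit 1) (nat_lit 4) (nat_lit 396) (nat_lit 336) (nat_lit 288))))) (XT.nd (nat_lit 234) (nat_lit 0) (nat_lit 0) (XT.nd (nat_lit 78) (nat_lit 0) (nat_lit 0) (XT.lf (nat_lit 0) (nat_lit 203336208401) (nat_lit 76) (nat_lit 1295732993685) (nat_lit 0) (nat_lit 201064372557) (nat_lit 1) (nat_lit 5) (nat_lit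 2) (nat_lit 4) (nat_lit 1) (nat_lit 4) (nat_lit 397) (nat_lit 336) (nat_lit 287)) (XT.nd (nat_lit 78) (nat_lit 0) (nat_lit 0) (XT.lf (nat_lit 0) (nat_lit 252830686245) (nat_lit 76) (nat_lit 1448863800971) (nat_lit 0) (nat_lit 250558535600) (nat_lit 1) (nat_lit 5) (nat_lit 2) (nat_lit 4) (nat_lit 1) (nat_lit 4) (nat_lit 398) (nat_lit 336) (nat_lit 286)) (XT.lf (nat_lit 0) (nat_lit 309744342009) (nat_lit 76) (nat_lit 1624974877725) (nat_lit 0) (nat_lit 307471917623) (nat_lit 1) (nat_lit 5) (nat_lit 2) (nat_lit 4) (nat_lit 1) (nat_lit 4) (nat_lit 399) (nat_lit 336) (nat_lit 285)))) (XT.nd (nat_lit 156) (nat_lit 0) (nat_lit 0) (XT.nd (nat_lit 78) (nat_lit 0) (nat_lit 0) (XT.lf (nat_lit 0) (nat_lit 375190703741) (nat_lit 76) (nat_lit 1827511875450) (nat_lit 0) (nat_lit 372918041319) (nat_lit 1) (nat_lit 5) (nat_lit 2) (nat_lit 4) (nat_lit 1) (nat_lit 4) (nat_lit 400) (nat_lit 336) (nat_lit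 284)) (XT.lf (nat_lit 0) (nat_lit 450450243735) (nat_lit 76) (nat_lit 2060437474535) (nat_lit 0) (nat_lit 448177374326) (nat_lit 1) (nat_lit 5) (nat_lit 2) (nat_lit 4) (nat_lit 1) (nat_lit 4) (nat_lit 401) (nat_lit 336) (nat_lit 283))) (XT.nd (nat_lit 78) (nat_lit 0) (nat_lit 0) (XT.lf (nat_lit 0) (nat_lit 536995431252) (nat_lit 76) (nat_lit 2328308914962) (nat_lit 0) (nat_lit 534722381854) (nat_lit 1) (nat_lit 5) (nat_lit 2) (nat_lit 4) (nat_lit 1) (nat_lit 4) (nat_lit 402) (nat_lit 336) (nat_lit 282)) (XT.lf (nat_lit 0) (nat_lit 636519541700) (nat_lit 76) (nat_lit 2636367159697) (nat_lit 0) (nat_lit 634246335790) (nat_lit 1) (nat_lit 5) (nat_lit 2) (nat_lit 4) (nat_lit 1) (nat_lit 4) (nat_lit 403) (nat_lit 336) (nat_lit 281))))))))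
noncomputable def xc40 : XT := (XT.nd (nat_lit 1872) (nat_lit 0) (nat_lit 0) (XT.nd (nat_lit 936) (nat_lit 0) (nat_lit 0) (XT.nd (nat_lit 468) (nat_lit 0) (nat_lit 0) (XT.nd (nat_lit 234) (nat_lit 0) (nat_lit 0) (XT.nd (nat_lit 78) (nat_lit 0) (nat_lit 0) (XT.lf (nat_lit 0) (nat_lit 750969785936) (nat_lit 76) (nat_lit 2990639435267) (nat_lit 0) (nat_lit 748696443928) (nat_lit 1) (nat_lit 5) (nat_lit 2) (nat_lit 4) (nat_lit 1) (nat_lit 4) (nat_lit 404) (nat_lit 336) (nat_lit 280)) (XT.nd (nat_lit 78) (nat_lit 0) (nat_lit 0) (XT.lf (nat_lit 0) (nat_lit 882585407868) (nat_lit 76) (nat_lit 3398057155759) (nat_lit 0) (nat_lit 880311947515) (nat_lit 1) (nat_lit 5) (nat_lit 2) (nat_lit 4) (nat_lit 1) (nat_lit 4) (nat_lit 405) (nat_lit 336) (nat_lit 279)) (XT.lf (nat_lit 0) (nat_lit 1033941495752) (nat_lit 76) (nat_lit 3866591537444) (nat_lit 0) (nat_lit 1031667932490) (nat_lit 1) (nat_lit 5)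 (nat_lit 2) (nat_lit 4) (nat_lit 1) (nat_lit 4) (nat_lit 406) (nat_lit 336) (nat_lit 278)))) (XT.nd (nat_lit 78) (nat_lit 0) (nat_lit 0) (XT.lf (nat_lit 0) (nat_lit 1207999364351) (nat_lit 76) (nat_lit 4405409557354) (nat_lit 0) (nat_lit 1205725711602) (nat_lit 1) (nat_lit 5) (nat_lit 2) (nat_lit 4) (nat_lit 1) (nat_lit 4) (nat_lit 407) (nat_lit 336) (nat_lit 277)) (XT.nd (nat_lit 78) (nat_lit 0) (nat_lit 0) (XT.lf (nat_lit 0) (nat_lit 1408164493702) (nat_lit 76) (nat_lit 5025053307183) (nat_lit 0) (nat_lit 1405890763139) (nat_lit 1) (nat_lit 5) (nat_lit 2) (nat_lit 4) (nat_lit 1) (nat_lit 4) (nat_lit 408) (nat_lit 336) (nat_lit 276)) (XT.lf (nat_lit 0) (nat_lit 1638353158076) (nat_lit 76) (nat_lit 5737646251603) (nat_lit 0) (nat_lit 1636079359848) (nat_lit 1) (nat_lit 5) (nat_lit 2) (nat_lit 4) (nat_lit 1) (nat_lit 4) (nat_lit 409) (nat_lit 336) (nat_lit 275))))) (XT.nd (nat_lit 234)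 (nat_lit 0) (nat_lit 0) (XT.nd (nat_lit 78) (nat_lit 0) (nat_lit 0) (XT.lf (nat_lit 0) (nat_lit 1903069048732) (nat_lit 76) (nat_lit 6557130426481) (nat_lit 0) (nat_lit 1900795191665) (nat_lit 1) (nat_lit 5) (nat_lit 2) (nat_lit 4) (nat_lit 1) (nat_lit 4) (nat_lit 410) (nat_lit 336) (nat_lit 274)) (XT.nd (nat_lit 78) (nat_lit 0) (nat_lit 0) (XT.lf (nat_lit 0) (nat_lit 2207491389617) (nat_lit 76) (nat_lit 7499539217849) (nat_lit 0) (nat_lit 2205217481386) (nat_lit 1) (nat_lit 5) (nat_lit 2) (nat_lit 4) (nat_lit 1) (nat_lit 4) (nat_lit 411) (nat_lit 336) (nat_lit 273)) (XT.lf (nat_lit 0) (nat_lit 2557576270010) (nat_lit 76) (nat_lit 8583311058581) (nat_lit 0) (nat_lit 2555302317289) (nat_lit 1) (nat_lit 5) (nat_lit 2) (nat_lit 4) (nat_lit 1) (nat_lit 4) (nat_lit 412) (nat_lit 336) (nat_lit 272)))) (XT.nd (nat_lit 78) (nat_lit 0) (nat_lit 0) (XT.lf (nat_lit 0) (nat_lit 2960173176700) (nat_lit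 76) (nat_lit 9829650180343) (nat_lit 0) (nat_lit 2957899185292) (nat_lit 1) (nat_lit 5) (nat_lit 2) (nat_lit 4) (nat_lit 1) (nat_lit 4) (nat_lit 413) (nat_lit 336) (nat_lit 271)) (XT.nd (nat_lit 78) (nat_lit 0) (nat_lit 0) (XT.lf (nat_lit 0) (nat_lit 3423159005690) (nat_lit 76) (nat_lit 11262941478996) (nat_lit 0) (nat_lit 3420884980640) (nat_lit 1) (nat_lit 5) (nat_lit 2) (nat_lit 4) (nat_lit 1) (nat_lit 4) (nat_lit 414) (nat_lit 336) (nat_lit 270)) (XT.lf (nat_lit 0) (nat_lit 3955592175371) (nat_lit 76) (nat_lit 12911227610383) (nat_lit 0) (nat_lit 3953318121068) (nat_lit 1) (nat_lit 5) (nat_lit 2) (nat_lit 4) (nat_lit 1) (nat_lit 4) (nat_lit 415) (nat_lit 336) (nat_lit 269)))))) (XT.nd (nat_lit 468) (nat_lit 0) (nat_lit 0) (XT.nd (nat_lit 234) (nat_lit 0) (nat_lit 0) (XT.nd (nat_lit 78) (nat_lit 0) (nat_lit 0) (XT.lf (nat_lit 0) (nat_lit 4567889856455) (nat_lit 76) (nat_lit 14806757650988)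 (nat_lit 0) (nat_lit 4565615776714) (nat_lit 1) (nat_lit 5) (nat_lit 2) (nat_lit 4) (nat_lit 1) (nat_lit 4) (nat_lit 416) (nat_lit 336) (nat_lit 268)) (XT.nd (nat_lit 78) (nat_lit 0) (nat_lit 0) (XT.lf (nat_lit 0) (nat_lit 5272031786180) (nat_lit 76) (nat_lit 16986618058127) (nat_lit 0) (nat_lit 5269757684320) (nat_lit 1) (nat_lit 5) (nat_lit 2) (nat_lit 4) (nat_lit 1) (nat_lit 4) (nat_lit 417) (nat_lit 336) (nat_lit 267)) (XT.lf (nat_lit 0) (nat_lit 6081794654476) (nat_lit 76) (nat_lit 19493458274549) (nat_lit 0) (nat_lit 6079520533382) (nat_lit 1) (nat_lit 5) (nat_lit 2) (nat_lit 4) (nat_lit 1) (nat_lit 4) (nat_lit 418) (nat_lit 336) (nat_lit 266)))) (XT.nd (nat_lit 78) (nat_lit 0) (nat_lit 0) (XT.lf (nat_lit 0) (nat_lit 7013021647897) (nat_lit 76) (nat_lit 22376325174052) (nat_lit 0) (nat_lit 7010747510077) (nat_lit 1) (nat_lit 5) (nat_lit 2) (nat_lit 4) (nat_lit 1) (nat_lit 4) (nat_lit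 419) (nat_lit 336) (nat_lit 265)) (XT.nd (nat_lit 78) (nat_lit 0) (nat_lit 0) (XT.lf (nat_lit 0) (nat_lit 8083932425009) (nat_lit 76) (nat_lit 25691622674237) (nat_lit 0) (nat_lit 8081658272645) (nat_lit 1) (nat_lit 5) (nat_lit 2) (nat_lit 4) (nat_lit 1) (nat_lit 4) (nat_lit 420) (nat_lit 336) (nat_lit 264)) (XT.lf (nat_lit 0) (nat_lit 9315479587974) (nat_lit 76) (nat_lit 29504215291410) (nat_lit 0) (nat_lit 9313205422963) (nat_lit 1) (nat_lit 5) (nat_lit 2) (nat_lit 4) (nat_lit 1) (nat_lit 4) (nat_lit 421) (nat_lit 336) (nat_lit 263))))) (XT.nd (nat_lit 234) (nat_lit 0) (nat_lit 0) (XT.nd (nat_lit 78) (nat_lit 0) (nat_lit 0) (XT.lf (nat_lit 0) (nat_lit 10731758624762) (nat_lit 76) (nat_lit 33888697228951) (nat_lit 0) (nat_lit 10729484448753) (nat_lit 1) (nat_lit 5) (nat_lit 2) (nat_lit 4) (nat_lit 1) (nat_lit 4) (nat_lit 422) (nat_lit 336) (nat_lit 262)) (XT.nd (nat_lit 78) (nat_lit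 0) (nat_lit 0) (XT.lf (nat_lit 0) (nat_lit 12360479342615) (nat_lit 76) (nat_lit 38930851829118) (nat_lit 0) (nat_lit 12358205157043) (nat_lit 1) (nat_lit 5) (nat_lit 2) (nat_lit 4) (nat_lit 1) (nat_lit 4) (nat_lit 423) (nat_lit 336) (nat_lit 261)) (XT.lf (nat_lit 0) (nat_lit 14233508016447) (nat_lit 76) (nat_lit 44729329942781) (nat_lit 0) (nat_lit 14231233822560) (nat_lit 1) (nat_lit 5) (nat_lit 2) (nat_lit 4) (nat_lit 1) (nat_lit 4) (nat_lit 424) (nat_lit 336) (nat_lit 260)))) (XT.nd (nat_lit 78) (nat_lit 0) (nat_lit 0) (XT.lf (nat_lit 0) (nat_lit 16387490859443) (nat_lit 76) (nat_lit 51397580054775) (nat_lit 0) (nat_lit 16385216658324) (nat_lit 1) (nat_lit 5) (nat_lit 2) (nat_lit 4) (nat_lit 1) (nat_lit 4) (nat_lit 425) (nat_lit 336) (nat_lit 259)) (XT.nd (nat_lit 78) (nat_lit 0) (nat_lit 0) (XT.lf (nat_lit 0) (nat_lit 18864571014182) (nat_lit 76) (nat_lit 59066067928159) (nat_lit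 0) (nat_lit 18862296806775) (nat_lit 1) (nat_lit 5) (nat_lit 2) (nat_lit 4) (nat_lit 1) (nat_lit 4) (nat_lit 426) (nat_lit 336) (nat_lit 258)) (XT.lf (nat_lit 0) (nat_lit 21713213092387) (nat_lit 76) (nat_lit 67884829195239) (nat_lit 0) (nat_lit 21710938879513) (nat_lit 1) (nat_lit 5) (nat_lit 2) (nat_lit 4) (nat_lit 1) (nat_lit 4) (nat_lit 427) (nat_lit 336) (nat_lit 257))))))) (XT.nd (nat_lit 47190) (nat_lit 0) (nat_lit 836) (XT.nd (nat_lit 46722) (nat_lit 0) (nat_lit 1824) (XT.nd (nat_lit 234) (nat_lit 0) (nat_lit 0) (XT.nd (nat_lit 78) (nat_lit 0) (nat_lit 0) (XT.lf (nat_lit 0) (nat_lit 24989151395589) (nat_lit 76) (nat_lit 78026404837328) (nat_lit 0) (nat_lit 24986877177961) (nat_lit 1) (nat_lit 5) (nat_lit 2) (nat_lit 4) (nat_lit 1) (nat_lit 4) (nat_lit 428) (nat_lit 336) (nat_lit 256)) (XT.nd (nat_lit 78) (nat_lit 0) (nat_lit 0) (XT.lf (nat_lit 0) (nat_lit 28756480368850) (nat_lit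 76) (nat_lit 89689216986553) (nat_lit 0) (nat_lit 28754206147088) (nat_lit 1) (nat_lit 5) (nat_lit 2) (nat_lit 4) (nat_lit 1) (nat_lit 4) (nat_lit 429) (nat_lit 336) (nat_lit 255)) (XT.lf (nat_lit 0) (nat_lit 33088908622517) (nat_lit 76) (nat_lit 103101451098008) (nat_lit 0) (nat_lit 33086634397160) (nat_lit 1) (nat_lit 5) (nat_lit 2) (nat_lit 4) (nat_lit 1) (nat_lit 4) (nat_lit 430) (nat_lit 336) (nat_lit 254)))) (XT.nd (nat_lit 78) (nat_lit 0) (nat_lit 0) (XT.lf (nat_lit 0) (nat_lit 38071201057206) (nat_lit 76) (nat_lit 118525520447786) (nat_lit 0) (nat_lit 38068926828722) (nat_lit 1) (nat_lit 5) (nat_lit 2) (nat_lit 4) (nat_lit 1) (nat_lit 4) (nat_lit 431) (nat_lit 336) (nat_lit 253)) (XT.nd (nat_lit 78) (nat_lit 0) (nat_lit 0) (XT.lf (nat_lit 0) (nat_lit 43800837307507) (nat_lit 76) (nat_lit 136263200305775) (nat_lit 0) (nat_lit 43798563076305) (nat_lit 1) (nat_lit 5) (nat_lit 2)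 (nat_lit 4) (nat_lit 1) (nat_lit 4) (nat_lit 432) (nat_lit 336) (nat_lit 252)) (XT.lf (nat_lit 0) (nat_lit 50389918952230) (nat_lit 76) (nat_lit 156661532234414) (nat_lit 0) (nat_lit 50387644718664) (nat_lit 1) (nat_lit 5) (nat_lit 2) (nat_lit 4) (nat_lit 1) (nat_lit 4) (nat_lit 433) (nat_lit 336) (nat_lit 251))))) (XT.nd (nat_lit 234) (nat_lit 380) (nat_lit 0) (XT.nd (nat_lit 78) (nat_lit 532) (nat_lit 0) (XT.lf (nat_lit 0) (nat_lit 3087391799) (nat_lit 228) (nat_lit 280434446) (nat_lit 228) (nat_lit 280434446) (nat_lit 37) (nat_lit 4) (nat_lit 40) (nat_lit 5) (nat_lit 40) (nat_lit 4) (nat_lit 346) (nat_lit 337) (nat_lit 337)) (XT.nd (nat_lit 78) (nat_lit 152) (nat_lit 0) (XT.lf (nat_lit 0) (nat_lit 3042092108) (nat_lit 380) (nat_lit 2904260466) (nat_lit 0) (nat_lit 1662001066) (nat_lit 32) (nat_lit 5) (nat_lit 37) (nat_lit 4) (nat_lit 32) (nat_lit 4) (nat_lit 347) (nat_lit 337) (nat_lit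 336)) (XT.lf (nat_lit 0) (nat_lit 3219546628) (nat_lit 152) (nat_lit 3679166906) (nat_lit 152) (nat_lit 1098996697) (nat_lit 30) (nat_lit 4) (nat_lit 32) (nat_lit 5) (nat_lit 32) (nat_lit 4) (nat_lit 348) (nat_lit 337) (nat_lit 335)))) (XT.nd (nat_lit 78) (nat_lit 228) (nat_lit 0) (XT.lf (nat_lit 0) (nat_lit 1580637914) (nat_lit 76) (nat_lit 839992423) (nat_lit 152) (nat_lit 6038753527) (nat_lit 28) (nat_lit 5) (nat_lit 29) (nat_lit 5) (nat_lit 30) (nat_lit 4) (nat_lit 349) (nat_lit 337) (nat_lit 334)) (XT.nd (nat_lit 78) (nat_lit 228) (nat_lit 0) (XT.lf (nat_lit 0) (nat_lit 6308736763) (nat_lit 152) (nat_lit 312388462) (nat_lit 0) (nat_lit 2368606699) (nat_lit 28) (nat_lit 5) (nat_lit 30) (nat_lit 4) (nat_lit 28) (nat_lit 4) (nat_lit 350) (nat_lit 337) (nat_lit 333)) (XT.lf (nat_lit 0) (nat_lit 1061365913) (nat_lit 228) (nat_lit 2344342508) (nat_lit 76) (nat_lit 6188862369) (nat_lit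 25) (nat_lit 5) (nat_lit 28) (nat_lit 5) (nat_lit 26) (nat_lit 4) (nat_lit 351) (nat_lit 337) (nat_lit 332)))))) (XT.nd (nat_lit 468) (nat_lit 456) (nat_lit 0) (XT.nd (nat_lit 234) (nat_lit 228) (nat_lit 0) (XT.nd (nat_lit 78) (nat_lit 228) (nat_lit 0) (XT.lf (nat_lit 0) (nat_lit 5010198172) (nat_lit 152) (nat_lit 4804479994) (nat_lit 0) (nat_lit 468519333) (nat_lit 24) (nat_lit 5) (nat_lit 26) (nat_lit 4) (nat_lit 24) (nat_lit 4) (nat_lit 352) (nat_lit 337) (nat_lit 331)) (XT.nd (nat_lit 78) (nat_lit 152) (nat_lit 0) (XT.lf (nat_lit 0) (nat_lit 3233894499) (nat_lit 76) (nat_lit 6410143264) (nat_lit 76) (nat_lit 1417310215) (nat_lit 23) (nat_lit 4) (nat_lit 24) (nat_lit 5) (nat_lit 24) (nat_lit 4) (nat_lit 353) (nat_lit 337) (nat_lit 330)) (XT.lf (nat_lit 0) (nat_lit 426422391) (nat_lit 76) (nat_lit 2276630375) (nat_lit 152) (nat_lit 9241297079) (nat_lit 21) (nat_lit 5) (nat_lit 22) (nat_lit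 5) (nat_lit 23) (nat_lit 4) (nat_lit 354) (nat_lit 337) (nat_lit 329)))) (XT.nd (nat_lit 78) (nat_lit 228) (nat_lit 0) (XT.lf (nat_lit 0) (nat_lit 7511500036) (nat_lit 152) (nat_lit 2873867416) (nat_lit 0) (nat_lit 2532127465) (nat_lit 21) (nat_lit 5) (nat_lit 23) (nat_lit 4) (nat_lit 21) (nat_lit 4) (nat_lit 355) (nat_lit 337) (nat_lit 328)) (XT.nd (nat_lit 78) (nat_lit 152) (nat_lit 0) (XT.lf (nat_lit 0) (nat_lit 7080979715) (nat_lit 76) (nat_lit 6087006625) (nat_lit 76) (nat_lit 849685170) (nat_lit 20) (nat_lit 4) (nat_lit 21) (nat_lit 5) (nat_lit 21) (nat_lit 4) (nat_lit 356) (nat_lit 337) (nat_lit 327)) (XT.lf (nat_lit 0) (nat_lit 3174019456) (nat_lit 76) (nat_lit 842559281) (nat_lit 152) (nat_lit 11236484125) (nat_lit 18) (nat_lit 5) (nat_lit 19) (nat_lit 5) (nat_lit 20) (nat_lit 4) (nat_lit 357) (nat_lit 337) (nat_lit 326))))) (XT.nd (nat_lit 234) (nat_lit 228) (nat_lit 0) (XT.nd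 (nat_lit 78) (nat_lit 228) (nat_lit 0) (XT.lf (nat_lit 0) (nat_lit 9854638518) (nat_lit 152) (nat_lit 1827983760) (nat_lit 0) (nat_lit 4935793956) (nat_lit 18) (nat_lit 5) (nat_lit 20) (nat_lit 4) (nat_lit 18) (nat_lit 4) (nat_lit 358) (nat_lit 337) (nat_lit 325)) (XT.nd (nat_lit 78) (nat_lit 152) (nat_lit 0) (XT.lf (nat_lit 0) (nat_lit 10396662809) (nat_lit 76) (nat_lit 6411182483) (nat_lit 76) (nat_lit 1344854810) (nat_lit 17) (nat_lit 4) (nat_lit 18) (nat_lit 5) (nat_lit 18) (nat_lit 4) (nat_lit 359) (nat_lit 337) (nat_lit 324)) (XT.lf (nat_lit 0) (nat_lit 4499814699) (nat_lit 76) (nat_lit 9203233) (nat_lit 152) (nat_lit 15369211182) (nat_lit 15) (nat_lit 5) (nat_lit 16) (nat_lit 5) (nat_lit 17) (nat_lit 4) (nat_lit 360) (nat_lit 337) (nat_lit 323)))) (XT.nd (nat_lit 156) (nat_lit 152) (nat_lit 0) (XT.nd (nat_lit 78) (nat_lit 76) (nat_lit 0) (XT.lf (nat_lit 0) (nat_lit 11606442353)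 (nat_lit 152) (nat_lit 3178644612) (nat_lit 0) (nat_lit 6992449068) (nat_lit 15) (nat_lit 5) (nat_lit 17) (nat_lit 4) (nat_lit 15) (nat_lit 4) (nat_lit 361) (nat_lit 337) (nat_lit 322)) (XT.lf (nat_lit 0) (nat_lit 11476961393) (nat_lit 76) (nat_lit 8570626690) (nat_lit 76) (nat_lit 3872309457) (nat_lit 14) (nat_lit 4) (nat_lit 15) (nat_lit 5) (nat_lit 15) (nat_lit 4) (nat_lit 362) (nat_lit 337) (nat_lit 321))) (XT.nd (nat_lit 78) (nat_lit 0) (nat_lit 0) (XT.lf (nat_lit 0) (nat_lit 1959826777) (nat_lit 76) (nat_lit 1171089121) (nat_lit 152) (nat_lit 23222812455) (nat_lit 12) (nat_lit 5) (nat_lit 13) (nat_lit 5) (nat_lit 14) (nat_lit 4) (nat_lit 363) (nat_lit 337) (nat_lit 320)) (XT.lf (nat_lit 0) (nat_lit 11579808874) (nat_lit 152) (nat_lit 10051326372) (nat_lit 0) (nat_lit 7375110245) (nat_lit 12) (nat_lit 5) (nat_lit 14) (nat_lit 4) (nat_lit 12) (nat_lit 4) (nat_lit 364) (nat_lit 337)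 (nat_lit 319))))))))
noncomputable def xc41 : XT := (XT.nd (nat_lit 1872) (nat_lit 76) (nat_lit 0) (XT.nd (nat_lit 936) (nat_lit 228) (nat_lit 0) (XT.nd (nat_lit 468) (nat_lit 228) (nat_lit 0) (XT.nd (nat_lit 234) (nat_lit 76) (nat_lit 0) (XT.nd (nat_lit 78) (nat_lit 152) (nat_lit 0) (XT.lf (nat_lit 0) (nat_lit 6630709240) (nat_lit 76) (nat_lit 14827281482) (nat_lit 76) (nat_lit 10574370362) (nat_lit 11) (nat_lit 4) (nat_lit 12) (nat_lit 5) (nat_lit 12) (nat_lit 4) (nat_lit 365) (nat_lit 337) (nat_lit 318)) (XT.nd (nat_lit 78) (nat_lit 152) (nat_lit 0) (XT.lf (nat_lit 0) (nat_lit 26613959599) (nat_lit 76) (nat_lit 6569243142) (nat_lit 76) (nat_lit 2274408117) (nat_lit 11) (nat_lit 4) (nat_lit 12) (nat_lit 5) (nat_lit 12) (nat_lit 4) (nat_lit 366) (nat_lit 337) (nat_lit 317)) (XT.lf (nat_lit 0) (nat_lit 7063420925) (nat_lit 152) (nat_lit 28924974452) (nat_lit 0) (nat_lit 3297081277) (nat_lit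 9) (nat_lit 5) (nat_lit 11) (nat_lit 4) (nat_lit 9) (nat_lit 4) (nat_lit 367) (nat_lit 337) (nat_lit 316)))) (XT.nd (nat_lit 78) (nat_lit 76) (nat_lit 0) (XT.lf (nat_lit 0) (nat_lit 18221231493) (nat_lit 152) (nat_lit 10924902445) (nat_lit 0) (nat_lit 14427326197) (nat_lit 9) (nat_lit 5) (nat_lit 11) (nat_lit 4) (nat_lit 9) (nat_lit 4) (nat_lit 368) (nat_lit 337) (nat_lit 315)) (XT.nd (nat_lit 78) (nat_lit 0) (nat_lit 0) (XT.lf (nat_lit 0) (nat_lit 10441477012) (nat_lit 76) (nat_lit 20917549798) (nat_lit 76) (nat_lit 17099674374) (nat_lit 8) (nat_lit 4) (nat_lit 9) (nat_lit 5) (nat_lit 9) (nat_lit 4) (nat_lit 369) (nat_lit 337) (nat_lit 314)) (XT.lf (nat_lit 0) (nat_lit 35989314693) (nat_lit 76) (nat_lit 10929239686) (nat_lit 76) (nat_lit 7090520672) (nat_lit 8) (nat_lit 4) (nat_lit 9) (nat_lit 5) (nat_lit 9) (nat_lit 4) (nat_lit 370) (nat_lit 337) (nat_lit 313))))) (XT.nd (nat_lit 234)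 (nat_lit 76) (nat_lit 0) (XT.nd (nat_lit 78) (nat_lit 0) (nat_lit 0) (XT.lf (nat_lit 0) (nat_lit 4161387766) (nat_lit 152) (nat_lit 55375325733) (nat_lit 0) (nat_lit 807610483) (nat_lit 6) (nat_lit 5) (nat_lit 8) (nat_lit 4) (nat_lit 6) (nat_lit 4) (nat_lit 371) (nat_lit 337) (nat_lit 312)) (XT.nd (nat_lit 78) (nat_lit 0) (nat_lit 0) (XT.lf (nat_lit 0) (nat_lit 17773505032) (nat_lit 152) (nat_lit 35189936387) (nat_lit 0) (nat_lit 14406022750) (nat_lit 6) (nat_lit 5) (nat_lit 8) (nat_lit 4) (nat_lit 6) (nat_lit 4) (nat_lit 372) (nat_lit 337) (nat_lit 311)) (XT.lf (nat_lit 0) (nat_lit 33332762005) (nat_lit 152) (nat_lit 12176456218) (nat_lit 0) (nat_lit 29953362332) (nat_lit 6) (nat_lit 5) (nat_lit 8) (nat_lit 4) (nat_lit 6) (nat_lit 4) (nat_lit 373) (nat_lit 337) (nat_lit 310)))) (XT.nd (nat_lit 78) (nat_lit 0) (nat_lit 0) (XT.lf (nat_lit 0) (nat_lit 15494835959) (nat_lit 76) (nat_lit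 36290351084) (nat_lit 76) (nat_lit 32900588464) (nat_lit 5) (nat_lit 4) (nat_lit 6) (nat_lit 5) (nat_lit 6) (nat_lit 4) (nat_lit 374) (nat_lit 337) (nat_lit 309)) (XT.nd (nat_lit 78) (nat_lit 0) (nat_lit 0) (XT.lf (nat_lit 0) (nat_lit 48519516115) (nat_lit 76) (nat_lit 25044001890) (nat_lit 76) (nat_lit 21645228010) (nat_lit 5) (nat_lit 4) (nat_lit 6) (nat_lit 5) (nat_lit 6) (nat_lit 4) (nat_lit 375) (nat_lit 337) (nat_lit 308)) (XT.lf (nat_lit 0) (nat_lit 86353747438) (nat_lit 76) (nat_lit 12186629950) (nat_lit 76) (nat_lit 8780020192) (nat_lit 5) (nat_lit 4) (nat_lit 6) (nat_lit 5) (nat_lit 6) (nat_lit 4) (nat_lit 376) (nat_lit 337) (nat_lit 307)))))) (XT.nd (nat_lit 468) (nat_lit 0) (nat_lit 0) (XT.nd (nat_lit 234) (nat_lit 76) (nat_lit 0) (XT.nd (nat_lit 78) (nat_lit 0) (nat_lit 0) (XT.lf (nat_lit 0) (nat_lit 5926037369) (nat_lit 152) (nat_lit 112260573822) (nat_lit 0) (nat_lit 2957842965)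 (nat_lit 3) (nat_lit 5) (nat_lit 5) (nat_lit 4) (nat_lit 3) (nat_lit 4) (nat_lit 377) (nat_lit 337) (nat_lit 306)) (XT.nd (nat_lit 78) (nat_lit 0) (nat_lit 0) (XT.lf (nat_lit 0) (nat_lit 23605606744) (nat_lit 152) (nat_lit 92491562928) (nat_lit 0) (nat_lit 20632260124) (nat_lit 3) (nat_lit 5) (nat_lit 5) (nat_lit 4) (nat_lit 3) (nat_lit 4) (nat_lit 378) (nat_lit 337) (nat_lit 305)) (XT.lf (nat_lit 0) (nat_lit 43883216393) (nat_lit 152) (nat_lit 69871631387) (nat_lit 0) (nat_lit 40905389584) (nat_lit 3) (nat_lit 5) (nat_lit 5) (nat_lit 4) (nat_lit 3) (nat_lit 4) (nat_lit 379) (nat_lit 337) (nat_lit 304)))) (XT.nd (nat_lit 78) (nat_lit 76) (nat_lit 0) (XT.lf (nat_lit 0) (nat_lit 67155602157) (nat_lit 152) (nat_lit 43958215320) (nat_lit 0) (nat_lit 64173879532) (nat_lit 3) (nat_lit 5) (nat_lit 5) (nat_lit 4) (nat_lit 3) (nat_lit 4) (nat_lit 380) (nat_lit 337) (nat_lit 303)) (XT.nd (nat_lit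 78) (nat_lit 76) (nat_lit 0) (XT.lf (nat_lit 0) (nat_lit 93878093323) (nat_lit 152) (nat_lit 14244313107) (nat_lit 0) (nat_lit 90892983032) (nat_lit 3) (nat_lit 5) (nat_lit 5) (nat_lit 4) (nat_lit 3) (nat_lit 4) (nat_lit 381) (nat_lit 337) (nat_lit 302)) (XT.lf (nat_lit 0) (nat_lit 21791460730) (nat_lit 76) (nat_lit 103684398427) (nat_lit 76) (nat_lit 100696342339) (nat_lit 2) (nat_lit 4) (nat_lit 3) (nat_lit 5) (nat_lit 3) (nat_lit 4) (nat_lit 382) (nat_lit 337) (nat_lit 301))))) (XT.nd (nat_lit 234) (nat_lit 0) (nat_lit 0) (XT.nd (nat_lit 78) (nat_lit 0) (nat_lit 0) (XT.lf (nat_lit 0) (nat_lit 64761646977) (nat_lit 76) (nat_lit 97762443345) (nat_lit 76) (nat_lit 94771825695) (nat_lit 2) (nat_lit 4) (nat_lit 3) (nat_lit 5) (nat_lit 3) (nat_lit 4) (nat_lit 383) (nat_lit 337) (nat_lit 300)) (XT.nd (nat_lit 78) (nat_lit 0) (nat_lit 0) (XT.lf (nat_lit 0) (nat_lit 114114908795) (nat_lit 76)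 (nat_lit 90985265942) (nat_lit 76) (nat_lit 87992420847) (nat_lit 2) (nat_lit 4) (nat_lit 3) (nat_lit 5) (nat_lit 3) (nat_lit 4) (nat_lit 384) (nat_lit 337) (nat_lit 299)) (XT.lf (nat_lit 0) (nat_lit 170816853481) (nat_lit 76) (nat_lit 83220269267) (nat_lit 76) (nat_lit 80225487263) (nat_lit 2) (nat_lit 4) (nat_lit 3) (nat_lit 5) (nat_lit 3) (nat_lit 4) (nat_lit 385) (nat_lit 337) (nat_lit 298)))) (XT.nd (nat_lit 78) (nat_lit 0) (nat_lit 0) (XT.lf (nat_lit 0) (nat_lit 235976866910) (nat_lit 76) (nat_lit 74315529473) (nat_lit 76) (nat_lit 71319063200) (nat_lit 2) (nat_lit 4) (nat_lit 3) (nat_lit 5) (nat_lit 3) (nat_lit 4) (nat_lit 386) (nat_lit 337) (nat_lit 297)) (XT.nd (nat_lit 78) (nat_lit 0) (nat_lit 0) (XT.lf (nat_lit 0) (nat_lit 310869818909) (nat_lit 76) (nat_lit 64096823390) (nat_lit 76) (nat_lit 61098892535) (nat_lit 2) (nat_lit 4) (nat_lit 3) (nat_lit 5) (nat_lit 3) (nat_lit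 4) (nat_lit 387) (nat_lit 337) (nat_lit 296)) (XT.lf (nat_lit 0) (nat_lit 396961006365) (nat_lit 76) (nat_lit 52364219812) (nat_lit 76) (nat_lit 49365015408) (nat_lit 2) (nat_lit 4) (nat_lit 3) (nat_lit 5) (nat_lit 3) (nat_lit 4) (nat_lit 388) (nat_lit 337) (nat_lit 295))))))) (XT.nd (nat_lit 936) (nat_lit 0) (nat_lit 0) (XT.nd (nat_lit 468) (nat_lit 0) (nat_lit 0) (XT.nd (nat_lit 234) (nat_lit 76) (nat_lit 0) (XT.nd (nat_lit 78) (nat_lit 0) (nat_lit 0) (XT.lf (nat_lit 0) (nat_lit 495934822077) (nat_lit 76) (nat_lit 38888167799) (nat_lit 76) (nat_lit 35887855961) (nat_lit 2) (nat_lit 4) (nat_lit 3) (nat_lit 5) (nat_lit 3) (nat_lit 4) (nat_lit 389) (nat_lit 337) (nat_lit 294)) (XT.nd (nat_lit 78) (nat_lit 0) (nat_lit 0) (XT.lf (nat_lit 0) (nat_lit 609727710264) (nat_lit 76) (nat_lit 23405005465) (nat_lit 76) (nat_lit 20403730640) (nat_lit 2) (nat_lit 4) (nat_lit 3) (nat_lit 5) (nat_lit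 3) (nat_lit 4) (nat_lit 390) (nat_lit 337) (nat_lit 293)) (XT.lf (nat_lit 0) (nat_lit 740566053522) (nat_lit 76) (nat_lit 5611801371) (nat_lit 76) (nat_lit 2609689168) (nat_lit 2) (nat_lit 4) (nat_lit 3) (nat_lit 5) (nat_lit 3) (nat_lit 4) (nat_lit 391) (nat_lit 337) (nat_lit 292)))) (XT.nd (nat_lit 78) (nat_lit 0) (nat_lit 0) (XT.lf (nat_lit 0) (nat_lit 18424717834) (nat_lit 76) (nat_lit 823653040760) (nat_lit 0) (nat_lit 15813552304) (nat_lit 1) (nat_lit 5) (nat_lit 2) (nat_lit 4) (nat_lit 1) (nat_lit 4) (nat_lit 392) (nat_lit 337) (nat_lit 291)) (XT.nd (nat_lit 78) (nat_lit 0) (nat_lit 0) (XT.lf (nat_lit 0) (nat_lit 43054512315) (nat_lit 76) (nat_lit 899738582443) (nat_lit 0) (nat_lit 40442796195) (nat_lit 1) (nat_lit 5) (nat_lit 2) (nat_lit 4) (nat_lit 1) (nat_lit 4) (nat_lit 393) (nat_lit 337) (nat_lit 290)) (XT.lf (nat_lit 0) (nat_lit 71370041857) (nat_lit 76) (nat_lit 987255579452)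 (nat_lit 0) (nat_lit 68757846962) (nat_lit 1) (nat_lit 5) (nat_lit 2) (nat_lit 4) (nat_lit 1) (nat_lit 4) (nat_lit 394) (nat_lit 337) (nat_lit 289))))) (XT.nd (nat_lit 234) (nat_lit 0) (nat_lit 0) (XT.nd (nat_lit 78) (nat_lit 0) (nat_lit 0) (XT.lf (nat_lit 0) (nat_lit 103925305950) (nat_lit 76) (nat_lit 1087916320862) (nat_lit 0) (nat_lit 101312694730) (nat_lit 1) (nat_lit 5) (nat_lit 2) (nat_lit 4) (nat_lit 1) (nat_lit 4) (nat_lit 395) (nat_lit 337) (nat_lit 288)) (XT.nd (nat_lit 78) (nat_lit 0) (nat_lit 0) (XT.lf (nat_lit 0) (nat_lit 141357255415) (nat_lit 76) (nat_lit 1203690255960) (nat_lit 0) (nat_lit 138744282173) (nat_lit 1) (nat_lit 5) (nat_lit 2) (nat_lit 4) (nat_lit 1) (nat_lit 4) (nat_lit 396) (nat_lit 337) (nat_lit 287)) (XT.lf (nat_lit 0) (nat_lit 184398254479) (nat_lit 76) (nat_lit 1336842526954) (nat_lit 0) (nat_lit 181784966434) (nat_lit 1) (nat_lit 5) (nat_lit 2) (nat_lit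 4) (nat_lit 1) (nat_lit 4) (nat_lit 397) (nat_lit 337) (nat_lit 286)))) (XT.nd (nat_lit 78) (nat_lit 0) (nat_lit 0) (XT.lf (nat_lit 0) (nat_lit 233890409645) (nat_lit 76) (nat_lit 1489978286973) (nat_lit 0) (nat_lit 231276847860) (nat_lit 1) (nat_lit 5) (nat_lit 2) (nat_lit 4) (nat_lit 1) (nat_lit 4) (nat_lit 398) (nat_lit 337) (nat_lit 285)) (XT.nd (nat_lit 78) (nat_lit 0) (nat_lit 0) (XT.lf (nat_lit 0) (nat_lit 290802045690) (nat_lit 76) (nat_lit 1666093670451) (nat_lit 0) (nat_lit 288188245870) (nat_lit 1) (nat_lit 5) (nat_lit 2) (nat_lit 4) (nat_lit 1) (nat_lit 4) (nat_lit 399) (nat_lit 337) (nat_lit 284)) (XT.lf (nat_lit 0) (nat_lit 356246651144) (nat_lit 76) (nat_lit 1868634413154) (nat_lit 0) (nat_lit 353632644336) (nat_lit 1) (nat_lit 5) (nat_lit 2) (nat_lit 4) (nat_lit 1) (nat_lit 4) (nat_lit 400) (nat_lit 337) (nat_lit 283)))))) (XT.nd (nat_lit 468) (nat_lit 0) (nat_lit 0) (XT.nd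 (nat_lit 234) (nat_lit 0) (nat_lit 0) (XT.nd (nat_lit 78) (nat_lit 0) (nat_lit 0) (XT.lf (nat_lit 0) (nat_lit 431504663940) (nat_lit 76) (nat_lit 2101563268741) (nat_lit 0) (nat_lit 428890477143) (nat_lit 1) (nat_lit 5) (nat_lit 2) (nat_lit 4) (nat_lit 1) (nat_lit 4) (nat_lit 401) (nat_lit 337) (nat_lit 282)) (XT.nd (nat_lit 78) (nat_lit 0) (nat_lit 0) (XT.lf (nat_lit 0) (nat_lit 518048523458) (nat_lit 76) (nat_lit 2369437540909) (nat_lit 0) (nat_lit 515434180150) (nat_lit 1) (nat_lit 5) (nat_lit 2) (nat_lit 4) (nat_lit 1) (nat_lit 4) (nat_lit 402) (nat_lit 337) (nat_lit 281)) (XT.lf (nat_lit 0) (nat_lit 617571479125) (nat_lit 76) (nat_lit 2677498248028) (nat_lit 0) (nat_lit 614956999719) (nat_lit 1) (nat_lit 5) (nat_lit 2) (nat_lit 4) (nat_lit 1) (nat_lit 4) (nat_lit 403) (nat_lit 337) (nat_lit 280)))) (XT.nd (nat_lit 78) (nat_lit 0) (nat_lit 0) (XT.lf (nat_lit 0) (nat_lit 732020719203)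 (nat_lit 76) (nat_lit 3031772664801) (nat_lit 0) (nat_lit 729406121451) (nat_lit 1) (nat_lit 5) (nat_lit 2) (nat_lit 4) (nat_lit 1) (nat_lit 4) (nat_lit 404) (nat_lit 337) (nat_lit 279)) (XT.nd (nat_lit 78) (nat_lit 0) (nat_lit 0) (XT.lf (nat_lit 0) (nat_lit 863635467955) (nat_lit 76) (nat_lit 3439192247209) (nat_lit 0) (nat_lit 861020767294) (nat_lit 1) (nat_lit 5) (nat_lit 2) (nat_lit 4) (nat_lit 1) (nat_lit 4) (nat_lit 405) (nat_lit 337) (nat_lit 278)) (XT.lf (nat_lit 0) (nat_lit 1014990796552) (nat_lit 76) (nat_lit 3907728247950) (nat_lit 0) (nat_lit 1012376006404) (nat_lit 1) (nat_lit 5) (nat_lit 2) (nat_lit 4) (nat_lit 1) (nat_lit 4) (nat_lit 406) (nat_lit 337) (nat_lit 277))))) (XT.nd (nat_lit 234) (nat_lit 0) (nat_lit 0) (XT.nd (nat_lit 78) (nat_lit 0) (nat_lit 0) (XT.lf (nat_lit 0) (nat_lit 1189048004901) (nat_lit 76) (nat_lit 4446547675736) (nat_lit 0) (nat_lit 1186433136939)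 (nat_lit 1) (nat_lit 5) (nat_lit 2) (nat_lit 4) (nat_lit 1) (nat_lit 4) (nat_lit 407) (nat_lit 337) (nat_lit 276)) (XT.nd (nat_lit 78) (nat_lit 0) (nat_lit 0) (XT.lf (nat_lit 0) (nat_lit 1389212560122) (nat_lit 76) (nat_lit 5066192649805) (nat_lit 0) (nat_lit 1386597624495) (nat_lit 1) (nat_lit 5) (nat_lit 2) (nat_lit 4) (nat_lit 1) (nat_lit 4) (nat_lit 408) (nat_lit 337) (nat_lit 275)) (XT.lf (nat_lit 0) (nat_lit 1619400725252) (nat_lit 76) (nat_lit 5778786658781) (nat_lit 0) (nat_lit 1616785730786) (nat_lit 1) (nat_lit 5) (nat_lit 2) (nat_lit 4) (nat_lit 1) (nat_lit 4) (nat_lit 409) (nat_lit 337) (nat_lit 274)))) (XT.nd (nat_lit 156) (nat_lit 0) (nat_lit 0) (XT.nd (nat_lit 78) (nat_lit 0) (nat_lit 0) (XT.lf (nat_lit 0) (nat_lit 1884116181782) (nat_lit 76) (nat_lit 6598271759361) (nat_lit 0) (nat_lit 1881501136153) (nat_lit 1) (nat_lit 5) (nat_lit 2) (nat_lit 4) (nat_lit 1) (nat_lit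 4) (nat_lit 410) (nat_lit 337) (nat_lit 273)) (XT.lf (nat_lit 0) (nat_lit 2188538145167) (nat_lit 76) (nat_lit 7540681355686) (nat_lit 0) (nat_lit 2185923055047) (nat_lit 1) (nat_lit 5) (nat_lit 2) (nat_lit 4) (nat_lit 1) (nat_lit 4) (nat_lit 411) (nat_lit 337) (nat_lit 272))) (XT.nd (nat_lit 78) (nat_lit 0) (nat_lit 0) (XT.lf (nat_lit 0) (nat_lit 2538622697299) (nat_lit 76) (nat_lit 8624453896381) (nat_lit 0) (nat_lit 2536007568492) (nat_lit 1) (nat_lit 5) (nat_lit 2) (nat_lit 4) (nat_lit 1) (nat_lit 4) (nat_lit 412) (nat_lit 337) (nat_lit 271)) (XT.lf (nat_lit 0) (nat_lit 2941219318546) (nat_lit 76) (nat_lit 9870793626807) (nat_lit 0) (nat_lit 2938604156097) (nat_lit 1) (nat_lit 5) (nat_lit 2) (nat_lit 4) (nat_lit 1) (nat_lit 4) (nat_lit 413) (nat_lit 337) (nat_lit 270))))))))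
noncomputable def xc42 : XT := (XT.nd (nat_lit 48048) (nat_lit 0) (nat_lit 380) (XT.nd (nat_lit 936) (nat_lit 0) (nat_lit 0) (XT.nd (nat_lit 468) (nat_lit 0) (nat_lit 0) (XT.nd (nat_lit 234) (nat_lit 0) (nat_lit 0) (XT.nd (nat_lit 78) (nat_lit 0) (nat_lit 0) (XT.lf (nat_lit 0) (nat_lit 3404204899323) (nat_lit 76) (nat_lit 11304085454733) (nat_lit 0) (nat_lit 3401589707621) (nat_lit 1) (nat_lit 5) (nat_lit 2) (nat_lit 4) (nat_lit 1) (nat_lit 4) (nat_lit 414) (nat_lit 337) (nat_lit 269)) (XT.nd (nat_lit 78) (nat_lit 0) (nat_lit 0) (XT.lf (nat_lit 0) (nat_lit 3936637853167) (nat_lit 76) (nat_lit 12952372046357) (nat_lit 0) (nat_lit 3934022636027) (nat_lit 1) (nat_lit 5) (nat_lit 2) (nat_lit 4) (nat_lit 1) (nat_lit 4) (nat_lit 415) (nat_lit 337) (nat_lit 268)) (XT.lf (nat_lit 0) (nat_lit 4548935346566) (nat_lit 76) (nat_lit 14847902487168) (nat_lit 0) (nat_lit 4546320107307) (nat_lit 1) (nat_lit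 5) (nat_lit 2) (nat_lit 4) (nat_lit 1) (nat_lit 4) (nat_lit 416) (nat_lit 337) (nat_lit 267)))) (XT.nd (nat_lit 78) (nat_lit 0) (nat_lit 0) (XT.lf (nat_lit 0) (nat_lit 5253077113088) (nat_lit 76) (nat_lit 17027763242313) (nat_lit 0) (nat_lit 5250461854595) (nat_lit 1) (nat_lit 5) (nat_lit 2) (nat_lit 4) (nat_lit 1) (nat_lit 4) (nat_lit 417) (nat_lit 337) (nat_lit 266)) (XT.nd (nat_lit 78) (nat_lit 0) (nat_lit 0) (XT.lf (nat_lit 0) (nat_lit 6062839839468) (nat_lit 76) (nat_lit 19534603761347) (nat_lit 0) (nat_lit 6060224564249) (nat_lit 1) (nat_lit 5) (nat_lit 2) (nat_lit 4) (nat_lit 1) (nat_lit 4) (nat_lit 418) (nat_lit 337) (nat_lit 265)) (XT.lf (nat_lit 0) (nat_lit 6994066709484) (nat_lit 76) (nat_lit 22417470923993) (nat_lit 0) (nat_lit 6991451419720) (nat_lit 1) (nat_lit 5) (nat_lit 2) (nat_lit 4) (nat_lit 1) (nat_lit 4) (nat_lit 419) (nat_lit 337) (nat_lit 264))))) (XT.nd (nat_lit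 234) (nat_lit 0) (nat_lit 0) (XT.nd (nat_lit 78) (nat_lit 0) (nat_lit 0) (XT.lf (nat_lit 0) (nat_lit 8064977379287) (nat_lit 76) (nat_lit 25732768652996) (nat_lit 0) (nat_lit 8062362076877) (nat_lit 1) (nat_lit 5) (nat_lit 2) (nat_lit 4) (nat_lit 1) (nat_lit 4) (nat_lit 420) (nat_lit 337) (nat_lit 263)) (XT.nd (nat_lit 78) (nat_lit 0) (nat_lit 0) (XT.lf (nat_lit 0) (nat_lit 9296524448939) (nat_lit 76) (nat_lit 29545361469143) (nat_lit 0) (nat_lit 9293909135532) (nat_lit 1) (nat_lit 5) (nat_lit 2) (nat_lit 4) (nat_lit 1) (nat_lit 4) (nat_lit 421) (nat_lit 337) (nat_lit 262)) (XT.lf (nat_lit 0) (nat_lit 10712803404586) (nat_lit 76) (nat_lit 33929843579704) (nat_lit 0) (nat_lit 10710188081616) (nat_lit 1) (nat_lit 5) (nat_lit 2) (nat_lit 4) (nat_lit 1) (nat_lit 4) (nat_lit 422) (nat_lit 337) (nat_lit 261)))) (XT.nd (nat_lit 78) (nat_lit 0) (nat_lit 0) (XT.lf (nat_lit 0) (nat_lit 12341524051881)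 (nat_lit 76) (nat_lit 38971998330323) (nat_lit 0) (nat_lit 12338908720596) (nat_lit 1) (nat_lit 5) (nat_lit 2) (nat_lit 4) (nat_lit 1) (nat_lit 4) (nat_lit 423) (nat_lit 337) (nat_lit 260)) (XT.nd (nat_lit 78) (nat_lit 0) (nat_lit 0) (XT.lf (nat_lit 0) (nat_lit 14214552664359) (nat_lit 76) (nat_lit 44770476574815) (nat_lit 0) (nat_lit 14211937325843) (nat_lit 1) (nat_lit 5) (nat_lit 2) (nat_lit 4) (nat_lit 1) (nat_lit 4) (nat_lit 424) (nat_lit 337) (nat_lit 259)) (XT.lf (nat_lit 0) (nat_lit 16368535454003) (nat_lit 76) (nat_lit 51438726800572) (nat_lit 0) (nat_lit 16365920109199) (nat_lit 1) (nat_lit 5) (nat_lit 2) (nat_lit 4) (nat_lit 1) (nat_lit 4) (nat_lit 425) (nat_lit 337) (nat_lit 258)))))) (XT.nd (nat_lit 468) (nat_lit 0) (nat_lit 0) (XT.nd (nat_lit 234) (nat_lit 0) (nat_lit 0) (XT.nd (nat_lit 78) (nat_lit 0) (nat_lit 0) (XT.lf (nat_lit 0) (nat_lit 18845615562350) (nat_lit 76)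 (nat_lit 59107214772881) (nat_lit 0) (nat_lit 18843000212077) (nat_lit 1) (nat_lit 5) (nat_lit 2) (nat_lit 4) (nat_lit 1) (nat_lit 4) (nat_lit 426) (nat_lit 337) (nat_lit 257)) (XT.nd (nat_lit 78) (nat_lit 0) (nat_lit 0) (XT.lf (nat_lit 0) (nat_lit 21694257600213) (nat_lit 76) (nat_lit 67925976125983) (nat_lit 0) (nat_lit 21691642245187) (nat_lit 1) (nat_lit 5) (nat_lit 2) (nat_lit 4) (nat_lit 1) (nat_lit 4) (nat_lit 427) (nat_lit 337) (nat_lit 256)) (XT.lf (nat_lit 0) (nat_lit 24970195868336) (nat_lit 76) (nat_lit 78067551842873) (nat_lit 0) (nat_lit 24967580509175) (nat_lit 1) (nat_lit 5) (nat_lit 2) (nat_lit 4) (nat_lit 1) (nat_lit 4) (nat_lit 428) (nat_lit 337) (nat_lit 255)))) (XT.nd (nat_lit 78) (nat_lit 0) (nat_lit 0) (XT.lf (nat_lit 0) (nat_lit 28737524811093) (nat_lit 76) (nat_lit 89730364057143) (nat_lit 0) (nat_lit 28734909448337) (nat_lit 1) (nat_lit 5) (nat_lit 2) (nat_lit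 4) (nat_lit 1) (nat_lit 4) (nat_lit 429) (nat_lit 337) (nat_lit 254)) (XT.nd (nat_lit 78) (nat_lit 0) (nat_lit 0) (XT.lf (nat_lit 0) (nat_lit 33069953038235) (nat_lit 76) (nat_lit 103142598225158) (nat_lit 0) (nat_lit 33067337672353) (nat_lit 1) (nat_lit 5) (nat_lit 2) (nat_lit 4) (nat_lit 1) (nat_lit 4) (nat_lit 430) (nat_lit 337) (nat_lit 253)) (XT.lf (nat_lit 0) (nat_lit 38052245449858) (nat_lit 76) (nat_lit 118566667624119) (nat_lit 0) (nat_lit 38049630081257) (nat_lit 1) (nat_lit 5) (nat_lit 2) (nat_lit 4) (nat_lit 1) (nat_lit 4) (nat_lit 431) (nat_lit 337) (nat_lit 252))))) (XT.nd (nat_lit 46410) (nat_lit 0) (nat_lit 2204) (XT.nd (nat_lit 46254) (nat_lit 0) (nat_lit 2736) (XT.lf (nat_lit 0) (nat_lit 43781881680102) (nat_lit 76) (nat_lit 136304347524876) (nat_lit 0) (nat_lit 43779266309138) (nat_lit 1) (nat_lit 5) (nat_lit 2) (nat_lit 4) (nat_lit 1) (nat_lit 4) (nat_lit 432) (nat_lit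 337) (nat_lit 251)) (XT.nd (nat_lit 78) (nat_lit 228) (nat_lit 0) (XT.lf (nat_lit 0) (nat_lit 658258994) (nat_lit 228) (nat_lit 2089116215) (nat_lit 0) (nat_lit 658258994) (nat_lit 40) (nat_lit 5) (nat_lit 43) (nat_lit 4) (nat_lit 40) (nat_lit 4) (nat_lit 344) (nat_lit 338) (nat_lit 338)) (XT.lf (nat_lit 0) (nat_lit 541680833) (nat_lit 228) (nat_lit 4159062132) (nat_lit 228) (nat_lit 2333891729) (nat_lit 37) (nat_lit 4) (nat_lit 40) (nat_lit 5) (nat_lit 40) (nat_lit 4) (nat_lit 345) (nat_lit 338) (nat_lit 337)))) (XT.nd (nat_lit 78) (nat_lit 456) (nat_lit 0) (XT.lf (nat_lit 0) (nat_lit 923634611) (nat_lit 304) (nat_lit 1426460686) (nat_lit 76) (nat_lit 4972977790) (nat_lit 36) (nat_lit 5) (nat_lit 40) (nat_lit 5) (nat_lit 37) (nat_lit 4) (nat_lit 346) (nat_lit 338) (nat_lit 336)) (XT.nd (nat_lit 78) (nat_lit 152) (nat_lit 0) (XT.lf (nat_lit 0) (nat_lit 4178384272) (nat_lit 380) (nat_lit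 3486833369) (nat_lit 0) (nat_lit 11109365) (nat_lit 32) (nat_lit 5) (nat_lit 37) (nat_lit 4) (nat_lit 32) (nat_lit 4) (nat_lit 347) (nat_lit 338) (nat_lit 335)) (XT.lf (nat_lit 0) (nat_lit 2321392875) (nat_lit 152) (nat_lit 5494091541) (nat_lit 152) (nat_lit 283269531) (nat_lit 30) (nat_lit 4) (nat_lit 32) (nat_lit 5) (nat_lit 32) (nat_lit 4) (nat_lit 348) (nat_lit 338) (nat_lit 334))))))) (XT.nd (nat_lit 936) (nat_lit 760) (nat_lit 0) (XT.nd (nat_lit 468) (nat_lit 456) (nat_lit 0) (XT.nd (nat_lit 234) (nat_lit 228) (nat_lit 0) (XT.nd (nat_lit 78) (nat_lit 228) (nat_lit 0) (XT.lf (nat_lit 0) (nat_lit 180826794) (nat_lit 76) (nat_lit 2748978352) (nat_lit 152) (nat_lit 5660752901) (nat_lit 28) (nat_lit 5) (nat_lit 29) (nat_lit 5) (nat_lit 30) (nat_lit 4) (nat_lit 349) (nat_lit 338) (nat_lit 333)) (XT.nd (nat_lit 78) (nat_lit 228) (nat_lit 0) (XT.lf (nat_lit 0) (nat_lit 6573434338) (nat_lit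 152) (nat_lit 2017172752) (nat_lit 0) (nat_lit 567064073) (nat_lit 28) (nat_lit 5) (nat_lit 30) (nat_lit 4) (nat_lit 28) (nat_lit 4) (nat_lit 350) (nat_lit 338) (nat_lit 332)) (XT.lf (nat_lit 0) (nat_lit 907083632) (nat_lit 228) (nat_lit 4652791897) (nat_lit 76) (nat_lit 4238468173) (nat_lit 25) (nat_lit 5) (nat_lit 28) (nat_lit 5) (nat_lit 26) (nat_lit 4) (nat_lit 351) (nat_lit 338) (nat_lit 331)))) (XT.nd (nat_lit 78) (nat_lit 152) (nat_lit 0) (XT.lf (nat_lit 0) (nat_lit 2723668659) (nat_lit 76) (nat_lit 1855641902) (nat_lit 152) (nat_lit 5949212109) (nat_lit 24) (nat_lit 5) (nat_lit 25) (nat_lit 5) (nat_lit 26) (nat_lit 4) (nat_lit 352) (nat_lit 338) (nat_lit 330)) (XT.nd (nat_lit 78) (nat_lit 152) (nat_lit 0) (XT.lf (nat_lit 0) (nat_lit 8868213846) (nat_lit 152) (nat_lit 207259570) (nat_lit 0) (nat_lit 2282993621) (nat_lit 24) (nat_lit 5) (nat_lit 26) (nat_lit 4) (nat_lit 24) (nat_lit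 4) (nat_lit 353) (nat_lit 338) (nat_lit 329)) (XT.lf (nat_lit 0) (nat_lit 1566306538) (nat_lit 152) (nat_lit 3558798565) (nat_lit 76) (nat_lit 7146967062) (nat_lit 22) (nat_lit 5) (nat_lit 24) (nat_lit 5) (nat_lit 23) (nat_lit 4) (nat_lit 354) (nat_lit 338) (nat_lit 328))))) (XT.nd (nat_lit 234) (nat_lit 228) (nat_lit 0) (XT.nd (nat_lit 78) (nat_lit 152) (nat_lit 0) (XT.lf (nat_lit 0) (nat_lit 5621336725) (nat_lit 76) (nat_lit 352772839) (nat_lit 152) (nat_lit 7331239449) (nat_lit 21) (nat_lit 5) (nat_lit 22) (nat_lit 5) (nat_lit 23) (nat_lit 4) (nat_lit 355) (nat_lit 338) (nat_lit 327)) (XT.nd (nat_lit 78) (nat_lit 76) (nat_lit 0) (XT.lf (nat_lit 0) (nat_lit 1591333442) (nat_lit 76) (nat_lit 9686178612) (nat_lit 76) (nat_lit 3181006679) (nat_lit 20) (nat_lit 4) (nat_lit 21) (nat_lit 5) (nat_lit 21) (nat_lit 4) (nat_lit 356) (nat_lit 338) (nat_lit 326)) (XT.lf (nat_lit 0) (nat_lit 1651584236)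 (nat_lit 152) (nat_lit 3149312240) (nat_lit 76) (nat_lit 10943700476) (nat_lit 19) (nat_lit 5) (nat_lit 21) (nat_lit 5) (nat_lit 20) (nat_lit 4) (nat_lit 357) (nat_lit 338) (nat_lit 325)))) (XT.nd (nat_lit 78) (nat_lit 152) (nat_lit 0) (XT.lf (nat_lit 0) (nat_lit 7068241404) (nat_lit 152) (nat_lit 9010457933) (nat_lit 0) (nat_lit 1094481468) (nat_lit 18) (nat_lit 5) (nat_lit 20) (nat_lit 4) (nat_lit 18) (nat_lit 4) (nat_lit 358) (nat_lit 338) (nat_lit 324)) (XT.nd (nat_lit 78) (nat_lit 76) (nat_lit 0) (XT.lf (nat_lit 0) (nat_lit 2312683790) (nat_lit 76) (nat_lit 11280520527) (nat_lit 76) (nat_lit 5178514407) (nat_lit 17) (nat_lit 4) (nat_lit 18) (nat_lit 5) (nat_lit 18) (nat_lit 4) (nat_lit 359) (nat_lit 338) (nat_lit 323)) (XT.lf (nat_lit 0) (nat_lit 737607960) (nat_lit 152) (nat_lit 4627667425) (nat_lit 76) (nat_lit 15197654502) (nat_lit 16) (nat_lit 5) (nat_lit 18) (nat_lit 5) (nat_lit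 17) (nat_lit 4) (nat_lit 360) (nat_lit 338) (nat_lit 322)))))) (XT.nd (nat_lit 468) (nat_lit 380) (nat_lit 0) (XT.nd (nat_lit 234) (nat_lit 228) (nat_lit 0) (XT.nd (nat_lit 78) (nat_lit 76) (nat_lit 0) (XT.lf (nat_lit 0) (nat_lit 7301457181) (nat_lit 152) (nat_lit 13426758976) (nat_lit 0) (nat_lit 1814068415) (nat_lit 15) (nat_lit 5) (nat_lit 17) (nat_lit 4) (nat_lit 15) (nat_lit 4) (nat_lit 361) (nat_lit 338) (nat_lit 321)) (XT.nd (nat_lit 78) (nat_lit 0) (nat_lit 0) (XT.lf (nat_lit 0) (nat_lit 51757223) (nat_lit 76) (nat_lit 15138250993) (nat_lit 76) (nat_lit 9577537055) (nat_lit 14) (nat_lit 4) (nat_lit 15) (nat_lit 5) (nat_lit 15) (nat_lit 4) (nat_lit 362) (nat_lit 338) (nat_lit 320)) (XT.lf (nat_lit 0) (nat_lit 16732796765) (nat_lit 76) (nat_lit 8068673820) (nat_lit 76) (nat_lit 2444198863) (nat_lit 14) (nat_lit 4) (nat_lit 15) (nat_lit 5) (nat_lit 15) (nat_lit 4) (nat_lit 363) (nat_lit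 338) (nat_lit 319)))) (XT.nd (nat_lit 78) (nat_lit 76) (nat_lit 0) (XT.lf (nat_lit 0) (nat_lit 5357752500) (nat_lit 152) (nat_lit 24266610958) (nat_lit 0) (nat_lit 418692221) (nat_lit 12) (nat_lit 5) (nat_lit 14) (nat_lit 4) (nat_lit 12) (nat_lit 4) (nat_lit 364) (nat_lit 338) (nat_lit 318)) (XT.nd (nat_lit 78) (nat_lit 76) (nat_lit 0) (XT.lf (nat_lit 0) (nat_lit 14893271828) (nat_lit 152) (nat_lit 8315016888) (nat_lit 0) (nat_lit 9912287644) (nat_lit 12) (nat_lit 5) (nat_lit 14) (nat_lit 4) (nat_lit 12) (nat_lit 4) (nat_lit 365) (nat_lit 338) (nat_lit 317)) (XT.lf (nat_lit 0) (nat_lit 10721869136) (nat_lit 76) (nat_lit 15453904151) (nat_lit 76) (nat_lit 10436464398) (nat_lit 11) (nat_lit 4) (nat_lit 12) (nat_lit 5) (nat_lit 12) (nat_lit 4) (nat_lit 366) (nat_lit 338) (nat_lit 316))))) (XT.nd (nat_lit 234) (nat_lit 228) (nat_lit 0) (XT.nd (nat_lit 78) (nat_lit 152) (nat_lit 0) (XT.lf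 (nat_lit 0) (nat_lit 33298708766) (nat_lit 76) (nat_lit 6165525654) (nat_lit 76) (nat_lit 1116385405) (nat_lit 11) (nat_lit 4) (nat_lit 12) (nat_lit 5) (nat_lit 12) (nat_lit 4) (nat_lit 367) (nat_lit 338) (nat_lit 315)) (XT.nd (nat_lit 78) (nat_lit 0) (nat_lit 0) (XT.lf (nat_lit 0) (nat_lit 9480128463) (nat_lit 152) (nat_lit 30428913340) (nat_lit 0) (nat_lit 5065601597) (nat_lit 9) (nat_lit 5) (nat_lit 11) (nat_lit 4) (nat_lit 9) (nat_lit 4) (nat_lit 368) (nat_lit 338) (nat_lit 314)) (XT.lf (nat_lit 0) (nat_lit 22134585260) (nat_lit 152) (nat_lit 10098588003) (nat_lit 0) (nat_lit 17699214803) (nat_lit 9) (nat_lit 5) (nat_lit 11) (nat_lit 4) (nat_lit 9) (nat_lit 4) (nat_lit 369) (nat_lit 338) (nat_lit 313)))) (XT.nd (nat_lit 156) (nat_lit 152) (nat_lit 0) (XT.nd (nat_lit 78) (nat_lit 0) (nat_lit 0) (XT.lf (nat_lit 0) (nat_lit 14360700654) (nat_lit 76) (nat_lit 22825846927) (nat_lit 76)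 (nat_lit 18372351608) (nat_lit 8) (nat_lit 4) (nat_lit 9) (nat_lit 5) (nat_lit 9) (nat_lit 4) (nat_lit 370) (nat_lit 338) (nat_lit 312)) (XT.lf (nat_lit 0) (nat_lit 43433800671) (nat_lit 76) (nat_lit 11499638386) (nat_lit 76) (nat_lit 7030382319) (nat_lit 8) (nat_lit 4) (nat_lit 9) (nat_lit 5) (nat_lit 9) (nat_lit 4) (nat_lit 371) (nat_lit 338) (nat_lit 311))) (XT.nd (nat_lit 78) (nat_lit 0) (nat_lit 0) (XT.lf (nat_lit 0) (nat_lit 5805034530) (nat_lit 152) (nat_lit 61531177161) (nat_lit 0) (nat_lit 1906807516) (nat_lit 6) (nat_lit 5) (nat_lit 8) (nat_lit 4) (nat_lit 6) (nat_lit 4) (nat_lit 372) (nat_lit 338) (nat_lit 310)) (XT.lf (nat_lit 0) (nat_lit 21325999134) (nat_lit 152) (nat_lit 38598472556) (nat_lit 0) (nat_lit 17417409172) (nat_lit 6) (nat_lit 5) (nat_lit 8) (nat_lit 4) (nat_lit 6) (nat_lit 4) (nat_lit 373) (nat_lit 338) (nat_lit 309))))))))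
noncomputable def xc43 : XT := (XT.nd (nat_lit 1872) (nat_lit 0) (nat_lit 0) (XT.nd (nat_lit 936) (nat_lit 76) (nat_lit 0) (XT.nd (nat_lit 468) (nat_lit 76) (nat_lit 0) (XT.nd (nat_lit 234) (nat_lit 152) (nat_lit 0) (XT.nd (nat_lit 78) (nat_lit 76) (nat_lit 0) (XT.lf (nat_lit 0) (nat_lit 39103518346) (nat_lit 152) (nat_lit 12376877443) (nat_lit 0) (nat_lit 35185917125) (nat_lit 6) (nat_lit 5) (nat_lit 8) (nat_lit 4) (nat_lit 6) (nat_lit 4) (nat_lit 374) (nat_lit 338) (nat_lit 308)) (XT.nd (nat_lit 78) (nat_lit 0) (nat_lit 0) (XT.lf (nat_lit 0) (nat_lit 19371197324) (nat_lit 76) (nat_lit 40916335843) (nat_lit 76) (nat_lit 36990898744) (nat_lit 5) (nat_lit 4) (nat_lit 6) (nat_lit 5) (nat_lit 6) (nat_lit 4) (nat_lit 375) (nat_lit 338) (nat_lit 307)) (XT.lf (nat_lit 0) (nat_lit 57147126986) (nat_lit 76) (nat_lit 28089673562) (nat_lit 76) (nat_lit 24157422656) (nat_lit 5) (nat_lit 4) (nat_lit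 6) (nat_lit 5) (nat_lit 6) (nat_lit 4) (nat_lit 376) (nat_lit 338) (nat_lit 306)))) (XT.nd (nat_lit 78) (nat_lit 152) (nat_lit 0) (XT.lf (nat_lit 0) (nat_lit 100480447339) (nat_lit 76) (nat_lit 13396425649) (nat_lit 76) (nat_lit 9458249694) (nat_lit 5) (nat_lit 4) (nat_lit 6) (nat_lit 5) (nat_lit 6) (nat_lit 4) (nat_lit 377) (nat_lit 338) (nat_lit 305)) (XT.nd (nat_lit 78) (nat_lit 0) (nat_lit 0) (XT.lf (nat_lit 0) (nat_lit 7395255677) (nat_lit 152) (nat_lit 127867530909) (nat_lit 0) (nat_lit 3966274659) (nat_lit 3) (nat_lit 5) (nat_lit 5) (nat_lit 4) (nat_lit 3) (nat_lit 4) (nat_lit 378) (nat_lit 338) (nat_lit 304)) (XT.lf (nat_lit 0) (nat_lit 27651067497) (nat_lit 152) (nat_lit 105293880858) (nat_lit 0) (nat_lit 24218190663) (nat_lit 3) (nat_lit 5) (nat_lit 5) (nat_lit 4) (nat_lit 3) (nat_lit 4) (nat_lit 379) (nat_lit 338) (nat_lit 303))))) (XT.nd (nat_lit 234) (nat_lit 76) (nat_lit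 0) (XT.nd (nat_lit 78) (nat_lit 0) (nat_lit 0) (XT.lf (nat_lit 0) (nat_lit 50904498627) (nat_lit 152) (nat_lit 79420709565) (nat_lit 0) (nat_lit 47468234127) (nat_lit 3) (nat_lit 5) (nat_lit 5) (nat_lit 4) (nat_lit 3) (nat_lit 4) (nat_lit 380) (nat_lit 338) (nat_lit 302)) (XT.nd (nat_lit 78) (nat_lit 0) (nat_lit 0) (XT.lf (nat_lit 0) (nat_lit 77610507503) (nat_lit 152) (nat_lit 49741802809) (nat_lit 0) (nat_lit 74171297205) (nat_lit 3) (nat_lit 5) (nat_lit 5) (nat_lit 4) (nat_lit 3) (nat_lit 4) (nat_lit 381) (nat_lit 338) (nat_lit 301)) (XT.lf (nat_lit 0) (nat_lit 108291602992) (nat_lit 152) (nat_lit 15676486327) (nat_lit 0) (nat_lit 104849831133) (nat_lit 3) (nat_lit 5) (nat_lit 5) (nat_lit 4) (nat_lit 3) (nat_lit 4) (nat_lit 382) (nat_lit 338) (nat_lit 300)))) (XT.nd (nat_lit 78) (nat_lit 0) (nat_lit 0) (XT.lf (nat_lit 0) (nat_lit 25732632052) (nat_lit 76) (nat_lit 118880968765) (nat_lit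 76) (nat_lit 115436969460) (nat_lit 2) (nat_lit 4) (nat_lit 3) (nat_lit 5) (nat_lit 3) (nat_lit 4) (nat_lit 383) (nat_lit 338) (nat_lit 299)) (XT.nd (nat_lit 78) (nat_lit 0) (nat_lit 0) (XT.lf (nat_lit 0) (nat_lit 75060635078) (nat_lit 76) (nat_lit 112117166868) (nat_lit 76) (nat_lit 108671230654) (nat_lit 2) (nat_lit 4) (nat_lit 3) (nat_lit 5) (nat_lit 3) (nat_lit 4) (nat_lit 384) (nat_lit 338) (nat_lit 298)) (XT.lf (nat_lit 0) (nat_lit 131740615596) (nat_lit 76) (nat_lit 104363801069) (nat_lit 76) (nat_lit 100916180586) (nat_lit 2) (nat_lit 4) (nat_lit 3) (nat_lit 5) (nat_lit 3) (nat_lit 4) (nat_lit 385) (nat_lit 338) (nat_lit 297)))))) (XT.nd (nat_lit 468) (nat_lit 76) (nat_lit 0) (XT.nd (nat_lit 234) (nat_lit 0) (nat_lit 0) (XT.nd (nat_lit 78) (nat_lit 0) (nat_lit 0) (XT.lf (nat_lit 0) (nat_lit 196881529749) (nat_lit 76) (nat_lit 95469175080) (nat_lit 76) (nat_lit 92020090015) (nat_lit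 2) (nat_lit 4) (nat_lit 3) (nat_lit 5) (nat_lit 3) (nat_lit 4) (nat_lit 386) (nat_lit 338) (nat_lit 296)) (XT.nd (nat_lit 78) (nat_lit 0) (nat_lit 0) (XT.lf (nat_lit 0) (nat_lit 271757873681) (nat_lit 76) (nat_lit 85259263609) (nat_lit 76) (nat_lit 81808904996) (nat_lit 2) (nat_lit 4) (nat_lit 3) (nat_lit 5) (nat_lit 3) (nat_lit 4) (nat_lit 387) (nat_lit 338) (nat_lit 295)) (XT.lf (nat_lit 0) (nat_lit 357834619341) (nat_lit 76) (nat_lit 73534307521) (nat_lit 76) (nat_lit 70082841473) (nat_lit 2) (nat_lit 4) (nat_lit 3) (nat_lit 5) (nat_lit 3) (nat_lit 4) (nat_lit 388) (nat_lit 338) (nat_lit 294)))) (XT.nd (nat_lit 78) (nat_lit 0) (nat_lit 0) (XT.lf (nat_lit 0) (nat_lit 456795876969) (nat_lit 76) (nat_lit 60064905499) (nat_lit 76) (nat_lit 56612476465) (nat_lit 2) (nat_lit 4) (nat_lit 3) (nat_lit 5) (nat_lit 3) (nat_lit 4) (nat_lit 389) (nat_lit 338) (nat_lit 293)) (XT.nd (nat_lit 78)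 (nat_lit 0) (nat_lit 0) (XT.lf (nat_lit 0) (nat_lit 570577845083) (nat_lit 76) (nat_lit 44587525765) (nat_lit 76) (nat_lit 41134259351) (nat_lit 2) (nat_lit 4) (nat_lit 3) (nat_lit 5) (nat_lit 3) (nat_lit 4) (nat_lit 390) (nat_lit 338) (nat_lit 292)) (XT.lf (nat_lit 0) (nat_lit 701406692625) (nat_lit 76) (nat_lit 26799350019) (nat_lit 76) (nat_lit 23345355450) (nat_lit 2) (nat_lit 4) (nat_lit 3) (nat_lit 5) (nat_lit 3) (nat_lit 4) (nat_lit 391) (nat_lit 338) (nat_lit 291))))) (XT.nd (nat_lit 234) (nat_lit 0) (nat_lit 0) (XT.nd (nat_lit 78) (nat_lit 76) (nat_lit 0) (XT.lf (nat_lit 0) (nat_lit 851842114439) (nat_lit 76) (nat_lit 6352348738) (nat_lit 76) (nat_lit 2897720990) (nat_lit 2) (nat_lit 4) (nat_lit 3) (nat_lit 5) (nat_lit 3) (nat_lit 4) (nat_lit 392) (nat_lit 338) (nat_lit 290)) (XT.nd (nat_lit 78) (nat_lit 0) (nat_lit 0) (XT.lf (nat_lit 0) (nat_lit 21282469548) (nat_lit 76) (nat_lit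 947000463226) (nat_lit 0) (nat_lit 18277966645) (nat_lit 1) (nat_lit 5) (nat_lit 2) (nat_lit 4) (nat_lit 1) (nat_lit 4) (nat_lit 393) (nat_lit 338) (nat_lit 289)) (XT.lf (nat_lit 0) (nat_lit 49594466587) (nat_lit 76) (nat_lit 1034524992723) (nat_lit 0) (nat_lit 46589547359) (nat_lit 1) (nat_lit 5) (nat_lit 2) (nat_lit 4) (nat_lit 1) (nat_lit 4) (nat_lit 394) (nat_lit 338) (nat_lit 288)))) (XT.nd (nat_lit 78) (nat_lit 0) (nat_lit 0) (XT.lf (nat_lit 0) (nat_lit 82146658940) (nat_lit 76) (nat_lit 1135192284122) (nat_lit 0) (nat_lit 79141377689) (nat_lit 1) (nat_lit 5) (nat_lit 2) (nat_lit 4) (nat_lit 1) (nat_lit 4) (nat_lit 395) (nat_lit 338) (nat_lit 287)) (XT.nd (nat_lit 78) (nat_lit 0) (nat_lit 0) (XT.lf (nat_lit 0) (nat_lit 119575937325) (nat_lit 76) (nat_lit 1250971914862) (nat_lit 0) (nat_lit 116570341272) (nat_lit 1) (nat_lit 5) (nat_lit 2) (nat_lit 4) (nat_lit 1) (nat_lit 4) (nat_lit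 396) (nat_lit 338) (nat_lit 286)) (XT.lf (nat_lit 0) (nat_lit 162614613711) (nat_lit 76) (nat_lit 1384129138589) (nat_lit 0) (nat_lit 159608743918) (nat_lit 1) (nat_lit 5) (nat_lit 2) (nat_lit 4) (nat_lit 1) (nat_lit 4) (nat_lit 397) (nat_lit 338) (nat_lit 285))))))) (XT.nd (nat_lit 936) (nat_lit 0) (nat_lit 0) (XT.nd (nat_lit 468) (nat_lit 0) (nat_lit 0) (XT.nd (nat_lit 234) (nat_lit 0) (nat_lit 0) (XT.nd (nat_lit 78) (nat_lit 0) (nat_lit 0) (XT.lf (nat_lit 0) (nat_lit 212104749158) (nat_lit 76) (nat_lit 1537269205332) (nat_lit 0) (nat_lit 209098641330) (nat_lit 1) (nat_lit 5) (nat_lit 2) (nat_lit 4) (nat_lit 1) (nat_lit 4) (nat_lit 398) (nat_lit 338) (nat_lit 284)) (XT.nd (nat_lit 78) (nat_lit 0) (nat_lit 0) (XT.lf (nat_lit 0) (nat_lit 269014628925) (nat_lit 76) (nat_lit 1713388333788) (nat_lit 0) (nat_lit 266008314109) (nat_lit 1) (nat_lit 5) (nat_lit 2) (nat_lit 4) (nat_lit 1) (nat_lit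 4) (nat_lit 399) (nat_lit 338) (nat_lit 283)) (XT.lf (nat_lit 0) (nat_lit 334457707181) (nat_lit 76) (nat_lit 1915932332993) (nat_lit 0) (nat_lit 331451212376) (nat_lit 1) (nat_lit 5) (nat_lit 2) (nat_lit 4) (nat_lit 1) (nat_lit 4) (nat_lit 400) (nat_lit 338) (nat_lit 282)))) (XT.nd (nat_lit 78) (nat_lit 0) (nat_lit 0) (XT.lf (nat_lit 0) (nat_lit 409714391978) (nat_lit 76) (nat_lit 2148864020321) (nat_lit 0) (nat_lit 406707740661) (nat_lit 1) (nat_lit 5) (nat_lit 2) (nat_lit 4) (nat_lit 1) (nat_lit 4) (nat_lit 401) (nat_lit 338) (nat_lit 281)) (XT.nd (nat_lit 78) (nat_lit 0) (nat_lit 0) (XT.lf (nat_lit 0) (nat_lit 496257096716) (nat_lit 76) (nat_lit 2416740754873) (nat_lit 0) (nat_lit 493250309301) (nat_lit 1) (nat_lit 5) (nat_lit 2) (nat_lit 4) (nat_lit 1) (nat_lit 4) (nat_lit 402) (nat_lit 338) (nat_lit 280)) (XT.lf (nat_lit 0) (nat_lit 595779048225) (nat_lit 76) (nat_lit 2724803603195)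 (nat_lit 0) (nat_lit 592772142465) (nat_lit 1) (nat_lit 5) (nat_lit 2) (nat_lit 4) (nat_lit 1) (nat_lit 4) (nat_lit 403) (nat_lit 338) (nat_lit 279))))) (XT.nd (nat_lit 234) (nat_lit 0) (nat_lit 0) (XT.nd (nat_lit 78) (nat_lit 0) (nat_lit 0) (XT.lf (nat_lit 0) (nat_lit 710227415123) (nat_lit 76) (nat_lit 3079079881884) (nat_lit 0) (nat_lit 707220406453) (nat_lit 1) (nat_lit 5) (nat_lit 2) (nat_lit 4) (nat_lit 1) (nat_lit 4) (nat_lit 404) (nat_lit 338) (nat_lit 278)) (XT.nd (nat_lit 78) (nat_lit 0) (nat_lit 0) (XT.lf (nat_lit 0) (nat_lit 841841404587) (nat_lit 76) (nat_lit 3486501083348) (nat_lit 0) (nat_lit 838834306431) (nat_lit 1) (nat_lit 5) (nat_lit 2) (nat_lit 4) (nat_lit 1) (nat_lit 4) (nat_lit 405) (nat_lit 338) (nat_lit 277)) (XT.lf (nat_lit 0) (nat_lit 993196072934) (nat_lit 76) (nat_lit 3955038491966) (nat_lit 0) (nat_lit 990188896964) (nat_lit 1) (nat_lit 5) (nat_lit 2) (nat_lit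 4) (nat_lit 1) (nat_lit 4) (nat_lit 406) (nat_lit 338) (nat_lit 276)))) (XT.nd (nat_lit 78) (nat_lit 0) (nat_lit 0) (XT.lf (nat_lit 0) (nat_lit 1167252707152) (nat_lit 76) (nat_lit 4493859143991) (nat_lit 0) (nat_lit 1164245463518) (nat_lit 1) (nat_lit 5) (nat_lit 2) (nat_lit 4) (nat_lit 1) (nat_lit 4) (nat_lit 407) (nat_lit 338) (nat_lit 275)) (XT.nd (nat_lit 78) (nat_lit 0) (nat_lit 0) (XT.lf (nat_lit 0) (nat_lit 1367416763130) (nat_lit 76) (nat_lit 5113505182617) (nat_lit 0) (nat_lit 1364409460656) (nat_lit 1) (nat_lit 5) (nat_lit 2) (nat_lit 4) (nat_lit 1) (nat_lit 4) (nat_lit 408) (nat_lit 338) (nat_lit 274)) (XT.lf (nat_lit 0) (nat_lit 1597604494134) (nat_lit 76) (nat_lit 5826100117294) (nat_lit 0) (nat_lit 1594597140497) (nat_lit 1) (nat_lit 5) (nat_lit 2) (nat_lit 4) (nat_lit 1) (nat_lit 4) (nat_lit 409) (nat_lit 338) (nat_lit 273)))))) (XT.nd (nat_lit 468) (nat_lit 0) (nat_lit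 0) (XT.nd (nat_lit 234) (nat_lit 0) (nat_lit 0) (XT.nd (nat_lit 78) (nat_lit 0) (nat_lit 0) (XT.lf (nat_lit 0) (nat_lit 1862319573165) (nat_lit 76) (nat_lit 6645586022831) (nat_lit 0) (nat_lit 1859312175037) (nat_lit 1) (nat_lit 5) (nat_lit 2) (nat_lit 4) (nat_lit 1) (nat_lit 4) (nat_lit 410) (nat_lit 338) (nat_lit 272)) (XT.nd (nat_lit 78) (nat_lit 0) (nat_lit 0) (XT.lf (nat_lit 0) (nat_lit 2166741208289) (nat_lit 76) (nat_lit 7587996319120) (nat_lit 0) (nat_lit 2163733771474) (nat_lit 1) (nat_lit 5) (nat_lit 2) (nat_lit 4) (nat_lit 1) (nat_lit 4) (nat_lit 411) (nat_lit 338) (nat_lit 271)) (XT.lf (nat_lit 0) (nat_lit 2516825474977) (nat_lit 76) (nat_lit 8671769468478) (nat_lit 0) (nat_lit 2513818004520) (nat_lit 1) (nat_lit 5) (nat_lit 2) (nat_lit 4) (nat_lit 1) (nat_lit 4) (nat_lit 412) (nat_lit 338) (nat_lit 270)))) (XT.nd (nat_lit 78) (nat_lit 0) (nat_lit 0) (XT.lf (nat_lit 0) (nat_lit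 2919421848011) (nat_lit 76) (nat_lit 9918109728176) (nat_lit 0) (nat_lit 2916414348301) (nat_lit 1) (nat_lit 5) (nat_lit 2) (nat_lit 4) (nat_lit 1) (nat_lit 4) (nat_lit 413) (nat_lit 338) (nat_lit 269)) (XT.nd (nat_lit 78) (nat_lit 0) (nat_lit 0) (XT.lf (nat_lit 0) (nat_lit 3382407212951) (nat_lit 76) (nat_lit 11351402016339) (nat_lit 0) (nat_lit 3379399687803) (nat_lit 1) (nat_lit 5) (nat_lit 2) (nat_lit 4) (nat_lit 1) (nat_lit 4) (nat_lit 414) (nat_lit 338) (nat_lit 268)) (XT.lf (nat_lit 0) (nat_lit 3914839979111) (nat_lit 76) (nat_lit 12999689008170) (nat_lit 0) (nat_lit 3911832431844) (nat_lit 1) (nat_lit 5) (nat_lit 2) (nat_lit 4) (nat_lit 1) (nat_lit 4) (nat_lit 415) (nat_lit 338) (nat_lit 267))))) (XT.nd (nat_lit 234) (nat_lit 0) (nat_lit 0) (XT.nd (nat_lit 78) (nat_lit 0) (nat_lit 0) (XT.lf (nat_lit 0) (nat_lit 4527137309307) (nat_lit 76) (nat_lit 14895219796986) (nat_lit 0) (nat_lit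 4524129742805) (nat_lit 1) (nat_lit 5) (nat_lit 2) (nat_lit 4) (nat_lit 1) (nat_lit 4) (nat_lit 416) (nat_lit 338) (nat_lit 266)) (XT.nd (nat_lit 78) (nat_lit 0) (nat_lit 0) (XT.lf (nat_lit 0) (nat_lit 5231278933912) (nat_lit 76) (nat_lit 17075080854744) (nat_lit 0) (nat_lit 5228271350685) (nat_lit 1) (nat_lit 5) (nat_lit 2) (nat_lit 4) (nat_lit 1) (nat_lit 4) (nat_lit 417) (nat_lit 338) (nat_lit 265)) (XT.lf (nat_lit 0) (nat_lit 6041041536887) (nat_lit 76) (nat_lit 19581921636921) (nat_lit 0) (nat_lit 6038033939115) (nat_lit 1) (nat_lit 5) (nat_lit 2) (nat_lit 4) (nat_lit 1) (nat_lit 4) (nat_lit 418) (nat_lit 338) (nat_lit 264)))) (XT.nd (nat_lit 156) (nat_lit 0) (nat_lit 0) (XT.nd (nat_lit 78) (nat_lit 0) (nat_lit 0) (XT.lf (nat_lit 0) (nat_lit 6972268299593) (nat_lit 76) (nat_lit 22464789028386) (nat_lit 0) (nat_lit 6969260689175) (nat_lit 1) (nat_lit 5) (nat_lit 2) (nat_lit 4) (nat_lit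 1) (nat_lit 4) (nat_lit 419) (nat_lit 338) (nat_lit 263)) (XT.lf (nat_lit 0) (nat_lit 8043178876084) (nat_lit 76) (nat_lit 25780086956362) (nat_lit 0) (nat_lit 8040171254668) (nat_lit 1) (nat_lit 5) (nat_lit 2) (nat_lit 4) (nat_lit 1) (nat_lit 4) (nat_lit 420) (nat_lit 338) (nat_lit 262))) (XT.nd (nat_lit 78) (nat_lit 0) (nat_lit 0) (XT.lf (nat_lit 0) (nat_lit 9274725864596) (nat_lit 76) (nat_lit 29592679945529) (nat_lit 0) (nat_lit 9271718233617) (nat_lit 1) (nat_lit 5) (nat_lit 2) (nat_lit 4) (nat_lit 1) (nat_lit 4) (nat_lit 421) (nat_lit 338) (nat_lit 261)) (XT.lf (nat_lit 0) (nat_lit 10691004749685) (nat_lit 76) (nat_lit 33977162206543) (nat_lit 0) (nat_lit 10687997110391) (nat_lit 1) (nat_lit 5) (nat_lit 2) (nat_lit 4) (nat_lit 1) (nat_lit 4) (nat_lit 422) (nat_lit 338) (nat_lit 260))))))))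
noncomputable def xc44 : XT := (XT.nd (nat_lit 47658) (nat_lit 0) (nat_lit 304) (XT.nd (nat_lit 2262) (nat_lit 0) (nat_lit 0) (XT.nd (nat_lit 468) (nat_lit 0) (nat_lit 0) (XT.nd (nat_lit 234) (nat_lit 0) (nat_lit 0) (XT.nd (nat_lit 78) (nat_lit 0) (nat_lit 0) (XT.lf (nat_lit 0) (nat_lit 12319725335626) (nat_lit 76) (nat_lit 39019317087990) (nat_lit 0) (nat_lit 12316717689101) (nat_lit 1) (nat_lit 5) (nat_lit 2) (nat_lit 4) (nat_lit 1) (nat_lit 4) (nat_lit 423) (nat_lit 338) (nat_lit 259)) (XT.nd (nat_lit 78) (nat_lit 0) (nat_lit 0) (XT.lf (nat_lit 0) (nat_lit 14192753894753) (nat_lit 76) (nat_lit 44817795446245) (nat_lit 0) (nat_lit 14189746241939) (nat_lit 1) (nat_lit 5) (nat_lit 2) (nat_lit 4) (nat_lit 1) (nat_lit 4) (nat_lit 424) (nat_lit 338) (nat_lit 258)) (XT.lf (nat_lit 0) (nat_lit 16346736638004) (nat_lit 76) (nat_lit 51486045770927) (nat_lit 0) (nat_lit 16343728979723) (nat_lit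 1) (nat_lit 5) (nat_lit 2) (nat_lit 4) (nat_lit 1) (nat_lit 4) (nat_lit 425) (nat_lit 338) (nat_lit 257)))) (XT.nd (nat_lit 78) (nat_lit 0) (nat_lit 0) (XT.lf (nat_lit 0) (nat_lit 18823816706009) (nat_lit 76) (nat_lit 59154533829257) (nat_lit 0) (nat_lit 18820809042973) (nat_lit 1) (nat_lit 5) (nat_lit 2) (nat_lit 4) (nat_lit 1) (nat_lit 4) (nat_lit 426) (nat_lit 338) (nat_lit 256)) (XT.nd (nat_lit 78) (nat_lit 0) (nat_lit 0) (XT.lf (nat_lit 0) (nat_lit 21672458708793) (nat_lit 76) (nat_lit 67973295257161) (nat_lit 0) (nat_lit 21669451041623) (nat_lit 1) (nat_lit 5) (nat_lit 2) (nat_lit 4) (nat_lit 1) (nat_lit 4) (nat_lit 427) (nat_lit 338) (nat_lit 255)) (XT.lf (nat_lit 0) (nat_lit 24948396946412) (nat_lit 76) (nat_lit 78114871039096) (nat_lit 0) (nat_lit 24945389275647) (nat_lit 1) (nat_lit 5) (nat_lit 2) (nat_lit 4) (nat_lit 1) (nat_lit 4) (nat_lit 428) (nat_lit 338) (nat_lit 254)))))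 (XT.nd (nat_lit 1560) (nat_lit 0) (nat_lit 0) (XT.nd (nat_lit 78) (nat_lit 0) (nat_lit 0) (XT.lf (nat_lit 0) (nat_lit 28715725862644) (nat_lit 76) (nat_lit 89777683309926) (nat_lit 0) (nat_lit 28712718188753) (nat_lit 1) (nat_lit 5) (nat_lit 2) (nat_lit 4) (nat_lit 1) (nat_lit 4) (nat_lit 429) (nat_lit 338) (nat_lit 253)) (XT.nd (nat_lit 78) (nat_lit 0) (nat_lit 0) (XT.lf (nat_lit 0) (nat_lit 33048154066720) (nat_lit 76) (nat_lit 103189917527124) (nat_lit 0) (nat_lit 33045146390112) (nat_lit 1) (nat_lit 5) (nat_lit 2) (nat_lit 4) (nat_lit 1) (nat_lit 4) (nat_lit 430) (nat_lit 338) (nat_lit 252)) (XT.lf (nat_lit 0) (nat_lit 38030446458286) (nat_lit 76) (nat_lit 118613986968854) (nat_lit 0) (nat_lit 38027438779313) (nat_lit 1) (nat_lit 5) (nat_lit 2) (nat_lit 4) (nat_lit 1) (nat_lit 4) (nat_lit 431) (nat_lit 338) (nat_lit 251)))) (XT.nd (nat_lit 78) (nat_lit 0) (nat_lit 0) (XT.lf (nat_lit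 0) (nat_lit 472545177884844) (nat_lit 76) (nat_lit 1463775038683251) (nat_lit 0) (nat_lit 472542170191384) (nat_lit 1) (nat_lit 5) (nat_lit 2) (nat_lit 4) (nat_lit 1) (nat_lit 4) (nat_lit 449) (nat_lit 338) (nat_lit 233)) (XT.nd (nat_lit 78) (nat_lit 0) (nat_lit 0) (XT.lf (nat_lit 0) (nat_lit 543452023581847) (nat_lit 76) (nat_lit 1683286876868328) (nat_lit 0) (nat_lit 543449015888222) (nat_lit 1) (nat_lit 5) (nat_lit 2) (nat_lit 4) (nat_lit 1) (nat_lit 4) (nat_lit 450) (nat_lit 338) (nat_lit 232)) (XT.lf (nat_lit 0) (nat_lit 624994896130771) (nat_lit 76) (nat_lit 1935725490786789) (nat_lit 0) (nat_lit 624991888436996) (nat_lit 1) (nat_lit 5) (nat_lit 2) (nat_lit 4) (nat_lit 1) (nat_lit 4) (nat_lit 451) (nat_lit 338) (nat_lit 231)))))) (XT.nd (nat_lit 44928) (nat_lit 0) (nat_lit 1824) (XT.nd (nat_lit 44694) (nat_lit 0) (nat_lit 2660) (XT.nd (nat_lit 44538) (nat_lit 0) (nat_lit 3116) (XT.lf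 (nat_lit 0) (nat_lit 718769199559735) (nat_lit 76) (nat_lit 2226029896797911) (nat_lit 0) (nat_lit 718766191865835) (nat_lit 1) (nat_lit 5) (nat_lit 2) (nat_lit 4) (nat_lit 1) (nat_lit 4) (nat_lit 452) (nat_lit 338) (nat_lit 230)) (XT.nd (nat_lit 78) (nat_lit 76) (nat_lit 0) (XT.lf (nat_lit 0) (nat_lit 279490341) (nat_lit 76) (nat_lit 1491611979) (nat_lit 76) (nat_lit 1491611979) (nat_lit 43) (nat_lit 4) (nat_lit 44) (nat_lit 5) (nat_lit 44) (nat_lit 4) (nat_lit 342) (nat_lit 339) (nat_lit 339)) (XT.lf (nat_lit 0) (nat_lit 225897872) (nat_lit 152) (nat_lit 1928107431) (nat_lit 76) (nat_lit 4500510651) (nat_lit 42) (nat_lit 5) (nat_lit 44) (nat_lit 5) (nat_lit 43) (nat_lit 4) (nat_lit 343) (nat_lit 339) (nat_lit 338)))) (XT.nd (nat_lit 78) (nat_lit 304) (nat_lit 0) (XT.lf (nat_lit 0) (nat_lit 2389238709) (nat_lit 152) (nat_lit 820981072) (nat_lit 228) (nat_lit 3632083886) (nat_lit 40)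 (nat_lit 5) (nat_lit 42) (nat_lit 5) (nat_lit 43) (nat_lit 4) (nat_lit 344) (nat_lit 339) (nat_lit 337)) (XT.nd (nat_lit 78) (nat_lit 76) (nat_lit 0) (XT.lf (nat_lit 0) (nat_lit 47416698) (nat_lit 228) (nat_lit 6284532436) (nat_lit 228) (nat_lit 773311371) (nat_lit 37) (nat_lit 4) (nat_lit 40) (nat_lit 5) (nat_lit 40) (nat_lit 4) (nat_lit 345) (nat_lit 339) (nat_lit 336)) (XT.lf (nat_lit 0) (nat_lit 2146924762) (nat_lit 304) (nat_lit 2275423868) (nat_lit 76) (nat_lit 2991574187) (nat_lit 36) (nat_lit 5) (nat_lit 40) (nat_lit 5) (nat_lit 37) (nat_lit 4) (nat_lit 346) (nat_lit 339) (nat_lit 335))))) (XT.nd (nat_lit 234) (nat_lit 304) (nat_lit 0) (XT.nd (nat_lit 78) (nat_lit 228) (nat_lit 0) (XT.lf (nat_lit 0) (nat_lit 3048666517) (nat_lit 304) (nat_lit 2132755711) (nat_lit 380) (nat_lit 2618934494) (nat_lit 32) (nat_lit 5) (nat_lit 36) (nat_lit 5) (nat_lit 37) (nat_lit 4) (nat_lit 347)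 (nat_lit 339) (nat_lit 334)) (XT.nd (nat_lit 78) (nat_lit 0) (nat_lit 0) (XT.lf (nat_lit 0) (nat_lit 218190295) (nat_lit 228) (nat_lit 7474315540) (nat_lit 76) (nat_lit 575361826) (nat_lit 29) (nat_lit 5) (nat_lit 32) (nat_lit 5) (nat_lit 30) (nat_lit 4) (nat_lit 348) (nat_lit 339) (nat_lit 333)) (XT.lf (nat_lit 0) (nat_lit 3245543502) (nat_lit 228) (nat_lit 1754577677) (nat_lit 76) (nat_lit 3781960043) (nat_lit 29) (nat_lit 5) (nat_lit 32) (nat_lit 5) (nat_lit 30) (nat_lit 4) (nat_lit 349) (nat_lit 339) (nat_lit 332)))) (XT.nd (nat_lit 78) (nat_lit 228) (nat_lit 0) (XT.lf (nat_lit 0) (nat_lit 4862217593) (nat_lit 76) (nat_lit 1780044248) (nat_lit 152) (nat_lit 2744050405) (nat_lit 28) (nat_lit 5) (nat_lit 29) (nat_lit 5) (nat_lit 30) (nat_lit 4) (nat_lit 350) (nat_lit 339) (nat_lit 331)) (XT.nd (nat_lit 78) (nat_lit 0) (nat_lit 0) (XT.lf (nat_lit 0) (nat_lit 428198505) (nat_lit 228)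 (nat_lit 7788326960) (nat_lit 76) (nat_lit 1861508299) (nat_lit 25) (nat_lit 5) (nat_lit 28) (nat_lit 5) (nat_lit 26) (nat_lit 4) (nat_lit 351) (nat_lit 339) (nat_lit 330)) (XT.lf (nat_lit 0) (nat_lit 3865718742) (nat_lit 228) (nat_lit 848812659) (nat_lit 76) (nat_lit 6128940776) (nat_lit 25) (nat_lit 5) (nat_lit 28) (nat_lit 5) (nat_lit 26) (nat_lit 4) (nat_lit 352) (nat_lit 339) (nat_lit 329))))))) (XT.nd (nat_lit 936) (nat_lit 684) (nat_lit 0) (XT.nd (nat_lit 468) (nat_lit 380) (nat_lit 0) (XT.nd (nat_lit 234) (nat_lit 228) (nat_lit 0) (XT.nd (nat_lit 78) (nat_lit 152) (nat_lit 0) (XT.lf (nat_lit 0) (nat_lit 7429485252) (nat_lit 76) (nat_lit 469073453) (nat_lit 152) (nat_lit 3813313810) (nat_lit 24) (nat_lit 5) (nat_lit 25) (nat_lit 5) (nat_lit 26) (nat_lit 4) (nat_lit 353) (nat_lit 339) (nat_lit 328)) (XT.nd (nat_lit 78) (nat_lit 0) (nat_lit 0) (XT.lf (nat_lit 0) (nat_lit 32950538)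 (nat_lit 152) (nat_lit 8532246224) (nat_lit 76) (nat_lit 4117746296) (nat_lit 22) (nat_lit 5) (nat_lit 24) (nat_lit 5) (nat_lit 23) (nat_lit 4) (nat_lit 354) (nat_lit 339) (nat_lit 327)) (XT.lf (nat_lit 0) (nat_lit 4108328297) (nat_lit 152) (nat_lit 28132925) (nat_lit 76) (nat_lit 9629653030) (nat_lit 22) (nat_lit 5) (nat_lit 24) (nat_lit 5) (nat_lit 23) (nat_lit 4) (nat_lit 355) (nat_lit 339) (nat_lit 326)))) (XT.nd (nat_lit 78) (nat_lit 152) (nat_lit 0) (XT.lf (nat_lit 0) (nat_lit 9091160587) (nat_lit 152) (nat_lit 4685372413) (nat_lit 0) (nat_lit 1190863072) (nat_lit 21) (nat_lit 5) (nat_lit 23) (nat_lit 4) (nat_lit 21) (nat_lit 4) (nat_lit 356) (nat_lit 339) (nat_lit 325)) (XT.nd (nat_lit 78) (nat_lit 76) (nat_lit 0) (XT.lf (nat_lit 0) (nat_lit 5776547243) (nat_lit 76) (nat_lit 9301863378) (nat_lit 76) (nat_lit 1231960285) (nat_lit 20) (nat_lit 4) (nat_lit 21) (nat_lit 5) (nat_lit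 21) (nat_lit 4) (nat_lit 357) (nat_lit 339) (nat_lit 324)) (XT.lf (nat_lit 0) (nat_lit 3821235373) (nat_lit 152) (nat_lit 1730152) (nat_lit 76) (nat_lit 13994629503) (nat_lit 19) (nat_lit 5) (nat_lit 21) (nat_lit 5) (nat_lit 20) (nat_lit 4) (nat_lit 358) (nat_lit 339) (nat_lit 323))))) (XT.nd (nat_lit 234) (nat_lit 152) (nat_lit 0) (XT.nd (nat_lit 78) (nat_lit 152) (nat_lit 0) (XT.lf (nat_lit 0) (nat_lit 10010744327) (nat_lit 152) (nat_lit 6702049221) (nat_lit 0) (nat_lit 2753672684) (nat_lit 18) (nat_lit 5) (nat_lit 20) (nat_lit 4) (nat_lit 18) (nat_lit 4) (nat_lit 359) (nat_lit 339) (nat_lit 322)) (XT.nd (nat_lit 78) (nat_lit 76) (nat_lit 0) (XT.lf (nat_lit 0) (nat_lit 6153201151) (nat_lit 76) (nat_lit 11260400614) (nat_lit 76) (nat_lit 3906356432) (nat_lit 17) (nat_lit 4) (nat_lit 18) (nat_lit 5) (nat_lit 18) (nat_lit 4) (nat_lit 360) (nat_lit 339) (nat_lit 321)) (XT.lf (nat_lit 0)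 (nat_lit 2471314165) (nat_lit 152) (nat_lit 2125042675) (nat_lit 76) (nat_lit 18807321539) (nat_lit 16) (nat_lit 5) (nat_lit 18) (nat_lit 5) (nat_lit 17) (nat_lit 4) (nat_lit 361) (nat_lit 339) (nat_lit 320)))) (XT.nd (nat_lit 78) (nat_lit 76) (nat_lit 0) (XT.lf (nat_lit 0) (nat_lit 9997072588) (nat_lit 152) (nat_lit 12221128698) (nat_lit 0) (nat_lit 3465165369) (nat_lit 15) (nat_lit 5) (nat_lit 17) (nat_lit 4) (nat_lit 15) (nat_lit 4) (nat_lit 362) (nat_lit 339) (nat_lit 319)) (XT.nd (nat_lit 78) (nat_lit 0) (nat_lit 0) (XT.lf (nat_lit 0) (nat_lit 3132817470) (nat_lit 76) (nat_lit 15854600056) (nat_lit 76) (nat_lit 9267248473) (nat_lit 14) (nat_lit 4) (nat_lit 15) (nat_lit 5) (nat_lit 15) (nat_lit 4) (nat_lit 363) (nat_lit 339) (nat_lit 318)) (XT.lf (nat_lit 0) (nat_lit 21915148162) (nat_lit 76) (nat_lit 7927332644) (nat_lit 76) (nat_lit 1291768570) (nat_lit 14) (nat_lit 4) (nat_lit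 15) (nat_lit 5) (nat_lit 15) (nat_lit 4) (nat_lit 364) (nat_lit 339) (nat_lit 317)))))) (XT.nd (nat_lit 468) (nat_lit 304) (nat_lit 0) (XT.nd (nat_lit 234) (nat_lit 152) (nat_lit 0) (XT.nd (nat_lit 78) (nat_lit 76) (nat_lit 0) (XT.lf (nat_lit 0) (nat_lit 7532277655) (nat_lit 152) (nat_lit 25085725698) (nat_lit 0) (nat_lit 1725766369) (nat_lit 12) (nat_lit 5) (nat_lit 14) (nat_lit 4) (nat_lit 12) (nat_lit 4) (nat_lit 365) (nat_lit 339) (nat_lit 316)) (XT.nd (nat_lit 78) (nat_lit 76) (nat_lit 0) (XT.lf (nat_lit 0) (nat_lit 18319316758) (nat_lit 152) (nat_lit 7109332983) (nat_lit 0) (nat_lit 12481104977) (nat_lit 12) (nat_lit 5) (nat_lit 14) (nat_lit 4) (nat_lit 12) (nat_lit 4) (nat_lit 366) (nat_lit 339) (nat_lit 315)) (XT.lf (nat_lit 0) (nat_lit 14671588834) (nat_lit 76) (nat_lit 16564073288) (nat_lit 76) (nat_lit 10698295858) (nat_lit 11) (nat_lit 4) (nat_lit 12) (nat_lit 5) (nat_lit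 12) (nat_lit 4) (nat_lit 367) (nat_lit 339) (nat_lit 314)))) (XT.nd (nat_lit 78) (nat_lit 152) (nat_lit 0) (XT.lf (nat_lit 0) (nat_lit 40329549279) (nat_lit 76) (nat_lit 6039992340) (nat_lit 76) (nat_lit 150244782) (nat_lit 11) (nat_lit 4) (nat_lit 12) (nat_lit 5) (nat_lit 12) (nat_lit 4) (nat_lit 368) (nat_lit 339) (nat_lit 313)) (XT.nd (nat_lit 78) (nat_lit 0) (nat_lit 0) (XT.lf (nat_lit 0) (nat_lit 11928381684) (nat_lit 152) (nat_lit 32849728767) (nat_lit 0) (nat_lit 6788737207) (nat_lit 9) (nat_lit 5) (nat_lit 11) (nat_lit 4) (nat_lit 9) (nat_lit 4) (nat_lit 369) (nat_lit 339) (nat_lit 312)) (XT.lf (nat_lit 0) (nat_lit 26347150398) (nat_lit 152) (nat_lit 9749444400) (nat_lit 0) (nat_lit 21191745172) (nat_lit 9) (nat_lit 5) (nat_lit 11) (nat_lit 4) (nat_lit 9) (nat_lit 4) (nat_lit 370) (nat_lit 339) (nat_lit 311))))) (XT.nd (nat_lit 234) (nat_lit 76) (nat_lit 0) (XT.nd (nat_lit 78)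 (nat_lit 152) (nat_lit 0) (XT.lf (nat_lit 0) (nat_lit 18294013383) (nat_lit 76) (nat_lit 25320169832) (nat_lit 76) (nat_lit 20151059608) (nat_lit 8) (nat_lit 4) (nat_lit 9) (nat_lit 5) (nat_lit 9) (nat_lit 4) (nat_lit 371) (nat_lit 339) (nat_lit 310)) (XT.nd (nat_lit 78) (nat_lit 152) (nat_lit 0) (XT.lf (nat_lit 0) (nat_lit 51496007842) (nat_lit 76) (nat_lit 12416276202) (nat_lit 76) (nat_lit 7235248587) (nat_lit 8) (nat_lit 4) (nat_lit 9) (nat_lit 5) (nat_lit 9) (nat_lit 4) (nat_lit 372) (nat_lit 339) (nat_lit 309)) (XT.lf (nat_lit 0) (nat_lit 7446631750) (nat_lit 152) (nat_lit 69134806527) (nat_lit 0) (nat_lit 2932379087) (nat_lit 6) (nat_lit 5) (nat_lit 8) (nat_lit 4) (nat_lit 6) (nat_lit 4) (nat_lit 373) (nat_lit 339) (nat_lit 308)))) (XT.nd (nat_lit 156) (nat_lit 76) (nat_lit 0) (XT.nd (nat_lit 78) (nat_lit 0) (nat_lit 0) (XT.lf (nat_lit 0) (nat_lit 25195196430) (nat_lit 152) (nat_lit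 42974289345) (nat_lit 0) (nat_lit 20673107889) (nat_lit 6) (nat_lit 5) (nat_lit 8) (nat_lit 4) (nat_lit 6) (nat_lit 4) (nat_lit 374) (nat_lit 339) (nat_lit 307)) (XT.lf (nat_lit 0) (nat_lit 45551913426) (nat_lit 152) (nat_lit 13003883761) (nat_lit 0) (nat_lit 41023011078) (nat_lit 6) (nat_lit 5) (nat_lit 8) (nat_lit 4) (nat_lit 6) (nat_lit 4) (nat_lit 375) (nat_lit 339) (nat_lit 306))) (XT.nd (nat_lit 78) (nat_lit 0) (nat_lit 0) (XT.lf (nat_lit 0) (nat_lit 23450514709) (nat_lit 76) (nat_lit 46435587426) (nat_lit 76) (nat_lit 41900760029) (nat_lit 5) (nat_lit 4) (nat_lit 6) (nat_lit 5) (nat_lit 6) (nat_lit 4) (nat_lit 376) (nat_lit 339) (nat_lit 305)) (XT.lf (nat_lit 0) (nat_lit 66739750630) (nat_lit 76) (nat_lit 31765560428) (nat_lit 76) (nat_lit 27225580814) (nat_lit 5) (nat_lit 4) (nat_lit 6) (nat_lit 5) (nat_lit 6) (nat_lit 4) (nat_lit 377) (nat_lit 339) (nat_lit 304))))))))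
noncomputable def xc45 : XT := (XT.nd (nat_lit 1872) (nat_lit 0) (nat_lit 0) (XT.nd (nat_lit 936) (nat_lit 76) (nat_lit 0) (XT.nd (nat_lit 468) (nat_lit 76) (nat_lit 0) (XT.nd (nat_lit 234) (nat_lit 0) (nat_lit 0) (XT.nd (nat_lit 78) (nat_lit 152) (nat_lit 0) (XT.lf (nat_lit 0) (nat_lit 116439953219) (nat_lit 76) (nat_lit 14938442394) (nat_lit 76) (nat_lit 10393982592) (nat_lit 5) (nat_lit 4) (nat_lit 6) (nat_lit 5) (nat_lit 6) (nat_lit 4) (nat_lit 378) (nat_lit 339) (nat_lit 303)) (XT.nd (nat_lit 78) (nat_lit 0) (nat_lit 0) (XT.lf (nat_lit 0) (nat_lit 8943343804) (nat_lit 152) (nat_lit 146115994015) (nat_lit 0) (nat_lit 4988251963) (nat_lit 3) (nat_lit 5) (nat_lit 5) (nat_lit 4) (nat_lit 3) (nat_lit 4) (nat_lit 379) (nat_lit 339) (nat_lit 302)) (XT.lf (nat_lit 0) (nat_lit 32180292644) (nat_lit 152) (nat_lit 120277818178) (nat_lit 0) (nat_lit 28222255006) (nat_lit 3) (nat_lit 5) (nat_lit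 5) (nat_lit 4) (nat_lit 3) (nat_lit 4) (nat_lit 380) (nat_lit 339) (nat_lit 301)))) (XT.nd (nat_lit 78) (nat_lit 0) (nat_lit 0) (XT.lf (nat_lit 0) (nat_lit 58871969093) (nat_lit 152) (nat_lit 90629342253) (nat_lit 0) (nat_lit 54911369892) (nat_lit 3) (nat_lit 5) (nat_lit 5) (nat_lit 4) (nat_lit 3) (nat_lit 4) (nat_lit 381) (nat_lit 339) (nat_lit 300)) (XT.nd (nat_lit 78) (nat_lit 0) (nat_lit 0) (XT.lf (nat_lit 0) (nat_lit 89540601603) (nat_lit 152) (nat_lit 56590487364) (nat_lit 0) (nat_lit 85577774957) (nat_lit 3) (nat_lit 5) (nat_lit 5) (nat_lit 4) (nat_lit 3) (nat_lit 4) (nat_lit 382) (nat_lit 339) (nat_lit 299)) (XT.lf (nat_lit 0) (nat_lit 124786228637) (nat_lit 152) (nat_lit 17495275913) (nat_lit 0) (nat_lit 120821465082) (nat_lit 3) (nat_lit 5) (nat_lit 5) (nat_lit 4) (nat_lit 3) (nat_lit 4) (nat_lit 383) (nat_lit 339) (nat_lit 298))))) (XT.nd (nat_lit 234) (nat_lit 0) (nat_lit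 0) (XT.nd (nat_lit 78) (nat_lit 0) (nat_lit 0) (XT.lf (nat_lit 0) (nat_lit 30100997342) (nat_lit 76) (nat_lit 136443859316) (nat_lit 76) (nat_lit 132477411492) (nat_lit 2) (nat_lit 4) (nat_lit 3) (nat_lit 5) (nat_lit 3) (nat_lit 4) (nat_lit 384) (nat_lit 339) (nat_lit 297)) (XT.nd (nat_lit 78) (nat_lit 0) (nat_lit 0) (XT.lf (nat_lit 0) (nat_lit 86761878585) (nat_lit 76) (nat_lit 128700607321) (nat_lit 76) (nat_lit 124732694916) (nat_lit 2) (nat_lit 4) (nat_lit 3) (nat_lit 5) (nat_lit 3) (nat_lit 4) (nat_lit 385) (nat_lit 339) (nat_lit 296)) (XT.lf (nat_lit 0) (nat_lit 151886184671) (nat_lit 76) (nat_lit 119814775945) (nat_lit 76) (nat_lit 115845589990) (nat_lit 2) (nat_lit 4) (nat_lit 3) (nat_lit 5) (nat_lit 3) (nat_lit 4) (nat_lit 386) (nat_lit 339) (nat_lit 295)))) (XT.nd (nat_lit 78) (nat_lit 0) (nat_lit 0) (XT.lf (nat_lit 0) (nat_lit 226748086807) (nat_lit 76) (nat_lit 109612511964)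 (nat_lit 76) (nat_lit 105642218575) (nat_lit 2) (nat_lit 4) (nat_lit 3) (nat_lit 5) (nat_lit 3) (nat_lit 4) (nat_lit 387) (nat_lit 339) (nat_lit 294)) (XT.nd (nat_lit 78) (nat_lit 0) (nat_lit 0) (XT.lf (nat_lit 0) (nat_lit 312812274382) (nat_lit 76) (nat_lit 97894205866) (nat_lit 76) (nat_lit 93922949491) (nat_lit 2) (nat_lit 4) (nat_lit 3) (nat_lit 5) (nat_lit 3) (nat_lit 4) (nat_lit 388) (nat_lit 339) (nat_lit 293)) (XT.lf (nat_lit 0) (nat_lit 411762611937) (nat_lit 76) (nat_lit 84430586444) (nat_lit 76) (nat_lit 80458492690) (nat_lit 2) (nat_lit 4) (nat_lit 3) (nat_lit 5) (nat_lit 3) (nat_lit 4) (nat_lit 389) (nat_lit 339) (nat_lit 292)))))) (XT.nd (nat_lit 468) (nat_lit 0) (nat_lit 0) (XT.nd (nat_lit 234) (nat_lit 76) (nat_lit 0) (XT.nd (nat_lit 78) (nat_lit 0) (nat_lit 0) (XT.lf (nat_lit 0) (nat_lit 525535084335) (nat_lit 76) (nat_lit 68958235059) (nat_lit 76) (nat_lit 64985413148)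 (nat_lit 2) (nat_lit 4) (nat_lit 3) (nat_lit 5) (nat_lit 3) (nat_lit 4) (nat_lit 390) (nat_lit 339) (nat_lit 291)) (XT.nd (nat_lit 78) (nat_lit 0) (nat_lit 0) (XT.lf (nat_lit 0) (nat_lit 656355674733) (nat_lit 76) (nat_lit 51174431790) (nat_lit 76) (nat_lit 47200976701) (nat_lit 2) (nat_lit 4) (nat_lit 3) (nat_lit 5) (nat_lit 3) (nat_lit 4) (nat_lit 391) (nat_lit 339) (nat_lit 290)) (XT.lf (nat_lit 0) (nat_lit 806783916422) (nat_lit 76) (nat_lit 30731232662) (nat_lit 76) (nat_lit 26757226983) (nat_lit 2) (nat_lit 4) (nat_lit 3) (nat_lit 5) (nat_lit 3) (nat_lit 4) (nat_lit 392) (nat_lit 339) (nat_lit 289)))) (XT.nd (nat_lit 78) (nat_lit 76) (nat_lit 0) (XT.lf (nat_lit 0) (nat_lit 979762970651) (nat_lit 76) (nat_lit 7228662040) (nat_lit 76) (nat_lit 3254177586) (nat_lit 2) (nat_lit 4) (nat_lit 3) (nat_lit 5) (nat_lit 3) (nat_lit 4) (nat_lit 393) (nat_lit 339) (nat_lit 288)) (XT.nd (nat_lit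 78) (nat_lit 0) (nat_lit 0) (XT.lf (nat_lit 0) (nat_lit 24545950784) (nat_lit 76) (nat_lit 1088898900461) (nat_lit 0) (nat_lit 21089515324) (nat_lit 1) (nat_lit 5) (nat_lit 2) (nat_lit 4) (nat_lit 1) (nat_lit 4) (nat_lit 394) (nat_lit 339) (nat_lit 287)) (XT.lf (nat_lit 0) (nat_lit 57095472058) (nat_lit 76) (nat_lit 1189571887502) (nat_lit 0) (nat_lit 53638721795) (nat_lit 1) (nat_lit 5) (nat_lit 2) (nat_lit 4) (nat_lit 1) (nat_lit 4) (nat_lit 395) (nat_lit 339) (nat_lit 286))))) (XT.nd (nat_lit 234) (nat_lit 0) (nat_lit 0) (XT.nd (nat_lit 78) (nat_lit 0) (nat_lit 0) (XT.lf (nat_lit 0) (nat_lit 94522427765) (nat_lit 76) (nat_lit 1305356470976) (nat_lit 0) (nat_lit 91065403762) (nat_lit 1) (nat_lit 5) (nat_lit 2) (nat_lit 4) (nat_lit 1) (nat_lit 4) (nat_lit 396) (nat_lit 339) (nat_lit 285)) (XT.nd (nat_lit 78) (nat_lit 0) (nat_lit 0) (XT.lf (nat_lit 0) (nat_lit 137559084432) (nat_lit 76)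 (nat_lit 1438518001427) (nat_lit 0) (nat_lit 134101822393) (nat_lit 1) (nat_lit 5) (nat_lit 2) (nat_lit 4) (nat_lit 1) (nat_lit 4) (nat_lit 397) (nat_lit 339) (nat_lit 284)) (XT.lf (nat_lit 0) (nat_lit 187047463601) (nat_lit 76) (nat_lit 1591661813147) (nat_lit 0) (nat_lit 183589994575) (nat_lit 1) (nat_lit 5) (nat_lit 2) (nat_lit 4) (nat_lit 1) (nat_lit 4) (nat_lit 398) (nat_lit 339) (nat_lit 283)))) (XT.nd (nat_lit 78) (nat_lit 0) (nat_lit 0) (XT.lf (nat_lit 0) (nat_lit 243955816170) (nat_lit 76) (nat_lit 1767784198106) (nat_lit 0) (nat_lit 240498167155) (nat_lit 1) (nat_lit 5) (nat_lit 2) (nat_lit 4) (nat_lit 1) (nat_lit 4) (nat_lit 399) (nat_lit 339) (nat_lit 282)) (XT.nd (nat_lit 78) (nat_lit 0) (nat_lit 0) (XT.lf (nat_lit 0) (nat_lit 309397566427) (nat_lit 76) (nat_lit 1970331029051) (nat_lit 0) (nat_lit 305939760900) (nat_lit 1) (nat_lit 5) (nat_lit 2) (nat_lit 4) (nat_lit 1) (nat_lit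 4) (nat_lit 400) (nat_lit 339) (nat_lit 281)) (XT.lf (nat_lit 0) (nat_lit 384653096443) (nat_lit 76) (nat_lit 2203265178763) (nat_lit 0) (nat_lit 381195154819) (nat_lit 1) (nat_lit 5) (nat_lit 2) (nat_lit 4) (nat_lit 1) (nat_lit 4) (nat_lit 401) (nat_lit 339) (nat_lit 280))))))) (XT.nd (nat_lit 936) (nat_lit 0) (nat_lit 0) (XT.nd (nat_lit 468) (nat_lit 0) (nat_lit 0) (XT.nd (nat_lit 234) (nat_lit 0) (nat_lit 0) (XT.nd (nat_lit 78) (nat_lit 0) (nat_lit 0) (XT.lf (nat_lit 0) (nat_lit 471194797023) (nat_lit 76) (nat_lit 2471144054518) (nat_lit 0) (nat_lit 467736737053) (nat_lit 1) (nat_lit 5) (nat_lit 2) (nat_lit 4) (nat_lit 1) (nat_lit 4) (nat_lit 402) (nat_lit 339) (nat_lit 279)) (XT.nd (nat_lit 78) (nat_lit 0) (nat_lit 0) (XT.lf (nat_lit 0) (nat_lit 570715875352) (nat_lit 76) (nat_lit 2779208764756) (nat_lit 0) (nat_lit 567257712472) (nat_lit 1) (nat_lit 5) (nat_lit 2) (nat_lit 4) (nat_lit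 1) (nat_lit 4) (nat_lit 403) (nat_lit 339) (nat_lit 278)) (XT.lf (nat_lit 0) (nat_lit 685163482962) (nat_lit 76) (nat_lit 3133486662501) (nat_lit 0) (nat_lit 681705230596) (nat_lit 1) (nat_lit 5) (nat_lit 2) (nat_lit 4) (nat_lit 1) (nat_lit 4) (nat_lit 404) (nat_lit 339) (nat_lit 277)))) (XT.nd (nat_lit 78) (nat_lit 0) (nat_lit 0) (XT.lf (nat_lit 0) (nat_lit 816776812177) (nat_lit 76) (nat_lit 3540909271842) (nat_lit 0) (nat_lit 813318481997) (nat_lit 1) (nat_lit 5) (nat_lit 2) (nat_lit 4) (nat_lit 1) (nat_lit 4) (nat_lit 405) (nat_lit 339) (nat_lit 276)) (XT.nd (nat_lit 78) (nat_lit 0) (nat_lit 0) (XT.lf (nat_lit 0) (nat_lit 968130906393) (nat_lit 76) (nat_lit 4009447904699) (nat_lit 0) (nat_lit 964672508548) (nat_lit 1) (nat_lit 5) (nat_lit 2) (nat_lit 4) (nat_lit 1) (nat_lit 4) (nat_lit 406) (nat_lit 339) (nat_lit 275)) (XT.lf (nat_lit 0) (nat_lit 1142187041368) (nat_lit 76) (nat_lit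 4548269621281) (nat_lit 0) (nat_lit 1138728584684) (nat_lit 1) (nat_lit 5) (nat_lit 2) (nat_lit 4) (nat_lit 1) (nat_lit 4) (nat_lit 407) (nat_lit 339) (nat_lit 274))))) (XT.nd (nat_lit 234) (nat_lit 0) (nat_lit 0) (XT.nd (nat_lit 78) (nat_lit 0) (nat_lit 0) (XT.lf (nat_lit 0) (nat_lit 1342350663220) (nat_lit 76) (nat_lit 5167916585608) (nat_lit 0) (nat_lit 1338892155372) (nat_lit 1) (nat_lit 5) (nat_lit 2) (nat_lit 4) (nat_lit 1) (nat_lit 4) (nat_lit 408) (nat_lit 339) (nat_lit 273)) (XT.nd (nat_lit 78) (nat_lit 0) (nat_lit 0) (XT.lf (nat_lit 0) (nat_lit 1572538016725) (nat_lit 76) (nat_lit 5880512325242) (nat_lit 0) (nat_lit 1569079464387) (nat_lit 1) (nat_lit 5) (nat_lit 2) (nat_lit 4) (nat_lit 1) (nat_lit 4) (nat_lit 409) (nat_lit 339) (nat_lit 272)) (XT.lf (nat_lit 0) (nat_lit 1837252767494) (nat_lit 76) (nat_lit 6699998930743) (nat_lit 0) (nat_lit 1833794176469) (nat_lit 1) (nat_lit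 5) (nat_lit 2) (nat_lit 4) (nat_lit 1) (nat_lit 4) (nat_lit 410) (nat_lit 339) (nat_lit 271)))) (XT.nd (nat_lit 78) (nat_lit 0) (nat_lit 0) (XT.lf (nat_lit 0) (nat_lit 2141674117174) (nat_lit 76) (nat_lit 7642409835695) (nat_lit 0) (nat_lit 2138215492508) (nat_lit 1) (nat_lit 5) (nat_lit 2) (nat_lit 4) (nat_lit 1) (nat_lit 4) (nat_lit 411) (nat_lit 339) (nat_lit 270)) (XT.nd (nat_lit 78) (nat_lit 0) (nat_lit 0) (XT.lf (nat_lit 0) (nat_lit 2491758135650) (nat_lit 76) (nat_lit 8726183514326) (nat_lit 0) (nat_lit 2488299481730) (nat_lit 1) (nat_lit 5) (nat_lit 2) (nat_lit 4) (nat_lit 1) (nat_lit 4) (nat_lit 412) (nat_lit 339) (nat_lit 269)) (XT.lf (nat_lit 0) (nat_lit 2894354292847) (nat_lit 76) (nat_lit 9972524234261) (nat_lit 0) (nat_lit 2890895613489) (nat_lit 1) (nat_lit 5) (nat_lit 2) (nat_lit 4) (nat_lit 1) (nat_lit 4) (nat_lit 413) (nat_lit 339) (nat_lit 268)))))) (XT.nd (nat_lit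 468) (nat_lit 0) (nat_lit 0) (XT.nd (nat_lit 234) (nat_lit 0) (nat_lit 0) (XT.nd (nat_lit 78) (nat_lit 0) (nat_lit 0) (XT.lf (nat_lit 0) (nat_lit 3357339470103) (nat_lit 76) (nat_lit 11405816922630) (nat_lit 0) (nat_lit 3353880768626) (nat_lit 1) (nat_lit 5) (nat_lit 2) (nat_lit 4) (nat_lit 1) (nat_lit 4) (nat_lit 414) (nat_lit 339) (nat_lit 267)) (XT.nd (nat_lit 78) (nat_lit 0) (nat_lit 0) (XT.lf (nat_lit 0) (nat_lit 3889772073059) (nat_lit 76) (nat_lit 13054104262466) (nat_lit 0) (nat_lit 3886313352347) (nat_lit 1) (nat_lit 5) (nat_lit 2) (nat_lit 4) (nat_lit 1) (nat_lit 4) (nat_lit 415) (nat_lit 339) (nat_lit 266)) (XT.lf (nat_lit 0) (nat_lit 4502069261339) (nat_lit 76) (nat_lit 14949635353896) (nat_lit 0) (nat_lit 4498610523901) (nat_lit 1) (nat_lit 5) (nat_lit 2) (nat_lit 4) (nat_lit 1) (nat_lit 4) (nat_lit 416) (nat_lit 339) (nat_lit 265)))) (XT.nd (nat_lit 78) (nat_lit 0) (nat_lit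 0) (XT.lf (nat_lit 0) (nat_lit 5206210762539) (nat_lit 76) (nat_lit 17129496674796) (nat_lit 0) (nat_lit 5202752010557) (nat_lit 1) (nat_lit 5) (nat_lit 2) (nat_lit 4) (nat_lit 1) (nat_lit 4) (nat_lit 417) (nat_lit 339) (nat_lit 264)) (XT.nd (nat_lit 78) (nat_lit 0) (nat_lit 0) (XT.lf (nat_lit 0) (nat_lit 6015973258204) (nat_lit 76) (nat_lit 19636337685792) (nat_lit 0) (nat_lit 6012514493576) (nat_lit 1) (nat_lit 5) (nat_lit 2) (nat_lit 4) (nat_lit 1) (nat_lit 4) (nat_lit 418) (nat_lit 339) (nat_lit 263)) (XT.lf (nat_lit 0) (nat_lit 6947199927598) (nat_lit 76) (nat_lit 22519205276230) (nat_lit 0) (nat_lit 6943741151973) (nat_lit 1) (nat_lit 5) (nat_lit 2) (nat_lit 4) (nat_lit 1) (nat_lit 4) (nat_lit 419) (nat_lit 339) (nat_lit 262))))) (XT.nd (nat_lit 234) (nat_lit 0) (nat_lit 0) (XT.nd (nat_lit 78) (nat_lit 0) (nat_lit 0) (XT.lf (nat_lit 0) (nat_lit 8018110422948) (nat_lit 76) (nat_lit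 25834503377227) (nat_lit 0) (nat_lit 8014651637760) (nat_lit 1) (nat_lit 5) (nat_lit 2) (nat_lit 4) (nat_lit 1) (nat_lit 4) (nat_lit 420) (nat_lit 339) (nat_lit 261)) (XT.nd (nat_lit 78) (nat_lit 0) (nat_lit 0) (XT.lf (nat_lit 0) (nat_lit 9249657340902) (nat_lit 76) (nat_lit 29647096516846) (nat_lit 0) (nat_lit 9246198547398) (nat_lit 1) (nat_lit 5) (nat_lit 2) (nat_lit 4) (nat_lit 1) (nat_lit 4) (nat_lit 421) (nat_lit 339) (nat_lit 260)) (XT.lf (nat_lit 0) (nat_lit 10665936164637) (nat_lit 76) (nat_lit 34031578908688) (nat_lit 0) (nat_lit 10662477363902) (nat_lit 1) (nat_lit 5) (nat_lit 2) (nat_lit 4) (nat_lit 1) (nat_lit 4) (nat_lit 422) (nat_lit 339) (nat_lit 259)))) (XT.nd (nat_lit 156) (nat_lit 0) (nat_lit 0) (XT.nd (nat_lit 78) (nat_lit 0) (nat_lit 0) (XT.lf (nat_lit 0) (nat_lit 12294656697227) (nat_lit 76) (nat_lit 39073733903898) (nat_lit 0) (nat_lit 12291197890204) (nat_lit 1)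 (nat_lit 5) (nat_lit 2) (nat_lit 4) (nat_lit 1) (nat_lit 4) (nat_lit 423) (nat_lit 339) (nat_lit 258)) (XT.lf (nat_lit 0) (nat_lit 14167685209961) (nat_lit 76) (nat_lit 44872212361078) (nat_lit 0) (nat_lit 14164226397470) (nat_lit 1) (nat_lit 5) (nat_lit 2) (nat_lit 4) (nat_lit 1) (nat_lit 4) (nat_lit 424) (nat_lit 339) (nat_lit 257))) (XT.nd (nat_lit 78) (nat_lit 0) (nat_lit 0) (XT.lf (nat_lit 0) (nat_lit 16321667912870) (nat_lit 76) (nat_lit 51540462771782) (nat_lit 0) (nat_lit 16318209095625) (nat_lit 1) (nat_lit 5) (nat_lit 2) (nat_lit 4) (nat_lit 1) (nat_lit 4) (nat_lit 425) (nat_lit 339) (nat_lit 256)) (XT.lf (nat_lit 0) (nat_lit 18798747945796) (nat_lit 76) (nat_lit 59208950904914) (nat_lit 0) (nat_lit 18795289124416) (nat_lit 1) (nat_lit 5) (nat_lit 2) (nat_lit 4) (nat_lit 1) (nat_lit 4) (nat_lit 426) (nat_lit 339) (nat_lit 255))))))))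
noncomputable def xc46 : XT := (XT.nd (nat_lit 47502) (nat_lit 0) (nat_lit 304) (XT.nd (nat_lit 46566) (nat_lit 0) (nat_lit 1748) (XT.nd (nat_lit 1794) (nat_lit 0) (nat_lit 0) (XT.nd (nat_lit 234) (nat_lit 0) (nat_lit 0) (XT.nd (nat_lit 78) (nat_lit 0) (nat_lit 0) (XT.lf (nat_lit 0) (nat_lit 21647389918076) (nat_lit 76) (nat_lit 68027712397862) (nat_lit 0) (nat_lit 21643931093102) (nat_lit 1) (nat_lit 5) (nat_lit 2) (nat_lit 4) (nat_lit 1) (nat_lit 4) (nat_lit 427) (nat_lit 339) (nat_lit 254)) (XT.nd (nat_lit 78) (nat_lit 0) (nat_lit 0) (XT.lf (nat_lit 0) (nat_lit 24923328129169) (nat_lit 76) (nat_lit 78169288236357) (nat_lit 0) (nat_lit 24919869301069) (nat_lit 1) (nat_lit 5) (nat_lit 2) (nat_lit 4) (nat_lit 1) (nat_lit 4) (nat_lit 428) (nat_lit 339) (nat_lit 253)) (XT.lf (nat_lit 0) (nat_lit 28690657022336) (nat_lit 76) (nat_lit 89832100556370) (nat_lit 0) (nat_lit 28687198191517) (nat_lit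 1) (nat_lit 5) (nat_lit 2) (nat_lit 4) (nat_lit 1) (nat_lit 4) (nat_lit 429) (nat_lit 339) (nat_lit 252)))) (XT.nd (nat_lit 1404) (nat_lit 0) (nat_lit 0) (XT.lf (nat_lit 0) (nat_lit 33023085206356) (nat_lit 76) (nat_lit 103244334816337) (nat_lit 0) (nat_lit 33019626373173) (nat_lit 1) (nat_lit 5) (nat_lit 2) (nat_lit 4) (nat_lit 1) (nat_lit 4) (nat_lit 430) (nat_lit 339) (nat_lit 251)) (XT.nd (nat_lit 78) (nat_lit 0) (nat_lit 0) (XT.lf (nat_lit 0) (nat_lit 410861982205889) (nat_lit 76) (nat_lit 1272949596948785) (nat_lit 0) (nat_lit 410858523358224) (nat_lit 1) (nat_lit 5) (nat_lit 2) (nat_lit 4) (nat_lit 1) (nat_lit 4) (nat_lit 448) (nat_lit 339) (nat_lit 233)) (XT.lf (nat_lit 0) (nat_lit 472520108900163) (nat_lit 76) (nat_lit 1463829456237546) (nat_lit 0) (nat_lit 472516650052330) (nat_lit 1) (nat_lit 5) (nat_lit 2) (nat_lit 4) (nat_lit 1) (nat_lit 4) (nat_lit 449) (nat_lit 339) (nat_lit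 232))))) (XT.nd (nat_lit 44538) (nat_lit 0) (nat_lit 3192) (XT.nd (nat_lit 78) (nat_lit 0) (nat_lit 0) (XT.lf (nat_lit 0) (nat_lit 543426954595942) (nat_lit 76) (nat_lit 1683341294425239) (nat_lit 0) (nat_lit 543423495747960) (nat_lit 1) (nat_lit 5) (nat_lit 2) (nat_lit 4) (nat_lit 1) (nat_lit 4) (nat_lit 450) (nat_lit 339) (nat_lit 231)) (XT.nd (nat_lit 78) (nat_lit 0) (nat_lit 0) (XT.lf (nat_lit 0) (nat_lit 624969827143792) (nat_lit 76) (nat_lit 1935779908345977) (nat_lit 0) (nat_lit 624966368295689) (nat_lit 1) (nat_lit 5) (nat_lit 2) (nat_lit 4) (nat_lit 1) (nat_lit 4) (nat_lit 451) (nat_lit 339) (nat_lit 230)) (XT.lf (nat_lit 0) (nat_lit 718744130571835) (nat_lit 76) (nat_lit 2226084314359069) (nat_lit 0) (nat_lit 718740671723620) (nat_lit 1) (nat_lit 5) (nat_lit 2) (nat_lit 4) (nat_lit 1) (nat_lit 4) (nat_lit 452) (nat_lit 339) (nat_lit 229)))) (XT.nd (nat_lit 78) (nat_lit 152)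 (nat_lit 0) (XT.lf (nat_lit 0) (nat_lit 1073741823) (nat_lit 0) (nat_lit 0) (nat_lit 0) (nat_lit 0) (nat_lit 45) (nat_lit 0) (nat_lit 1) (nat_lit 0) (nat_lit 1) (nat_lit 0) (nat_lit 340) (nat_lit 340) (nat_lit 340)) (XT.nd (nat_lit 78) (nat_lit 76) (nat_lit 0) (XT.lf (nat_lit 0) (nat_lit 3060050821) (nat_lit 76) (nat_lit 3118411024) (nat_lit 0) (nat_lit 284194784) (nat_lit 44) (nat_lit 5) (nat_lit 45) (nat_lit 0) (nat_lit 44) (nat_lit 4) (nat_lit 341) (nat_lit 340) (nat_lit 339)) (XT.lf (nat_lit 0) (nat_lit 372826636) (nat_lit 76) (nat_lit 5690399901) (nat_lit 76) (nat_lit 500756006) (nat_lit 43) (nat_lit 4) (nat_lit 44) (nat_lit 5) (nat_lit 44) (nat_lit 4) (nat_lit 342) (nat_lit 340) (nat_lit 338)))))) (XT.nd (nat_lit 468) (nat_lit 532) (nat_lit 0) (XT.nd (nat_lit 234) (nat_lit 608) (nat_lit 0) (XT.nd (nat_lit 78) (nat_lit 228) (nat_lit 0) (XT.lf (nat_lit 0) (nat_lit 2254951842) (nat_lit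 152) (nat_lit 2440443397) (nat_lit 76) (nat_lit 2017365365) (nat_lit 42) (nat_lit 5) (nat_lit 44) (nat_lit 5) (nat_lit 43) (nat_lit 4) (nat_lit 343) (nat_lit 340) (nat_lit 337)) (XT.nd (nat_lit 78) (nat_lit 76) (nat_lit 0) (XT.lf (nat_lit 0) (nat_lit 1650400831) (nat_lit 152) (nat_lit 3356185724) (nat_lit 228) (nat_lit 1929081048) (nat_lit 40) (nat_lit 5) (nat_lit 42) (nat_lit 5) (nat_lit 43) (nat_lit 4) (nat_lit 344) (nat_lit 340) (nat_lit 336)) (XT.lf (nat_lit 0) (nat_lit 614949890) (nat_lit 228) (nat_lit 960662865) (nat_lit 76) (nat_lit 5652196787) (nat_lit 39) (nat_lit 5) (nat_lit 42) (nat_lit 5) (nat_lit 40) (nat_lit 5) (nat_lit 345) (nat_lit 340) (nat_lit 335)))) (XT.nd (nat_lit 78) (nat_lit 380) (nat_lit 0) (XT.lf (nat_lit 0) (nat_lit 3182867924) (nat_lit 304) (nat_lit 3662013096) (nat_lit 76) (nat_lit 729450703) (nat_lit 36) (nat_lit 5) (nat_lit 40) (nat_lit 5) (nat_lit 37) (nat_lit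 4) (nat_lit 346) (nat_lit 340) (nat_lit 334)) (XT.nd (nat_lit 78) (nat_lit 76) (nat_lit 0) (XT.lf (nat_lit 0) (nat_lit 1344415099) (nat_lit 304) (nat_lit 4652394823) (nat_lit 380) (nat_lit 1997162642) (nat_lit 32) (nat_lit 5) (nat_lit 36) (nat_lit 5) (nat_lit 37) (nat_lit 4) (nat_lit 347) (nat_lit 340) (nat_lit 333)) (XT.lf (nat_lit 0) (nat_lit 580747919) (nat_lit 380) (nat_lit 1345833344) (nat_lit 76) (nat_lit 6561712743) (nat_lit 31) (nat_lit 5) (nat_lit 36) (nat_lit 5) (nat_lit 32) (nat_lit 5) (nat_lit 348) (nat_lit 340) (nat_lit 332))))) (XT.nd (nat_lit 234) (nat_lit 304) (nat_lit 0) (XT.nd (nat_lit 78) (nat_lit 76) (nat_lit 0) (XT.lf (nat_lit 0) (nat_lit 3331181500) (nat_lit 228) (nat_lit 4355551104) (nat_lit 76) (nat_lit 1357394187) (nat_lit 29) (nat_lit 5) (nat_lit 32) (nat_lit 5) (nat_lit 30) (nat_lit 4) (nat_lit 349) (nat_lit 340) (nat_lit 331)) (XT.nd (nat_lit 78) (nat_lit 0)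 (nat_lit 0) (XT.lf (nat_lit 0) (nat_lit 1832233569) (nat_lit 76) (nat_lit 4654499613) (nat_lit 152) (nat_lit 3197870310) (nat_lit 28) (nat_lit 5) (nat_lit 29) (nat_lit 5) (nat_lit 30) (nat_lit 4) (nat_lit 350) (nat_lit 340) (nat_lit 330)) (XT.lf (nat_lit 0) (nat_lit 9110844583) (nat_lit 76) (nat_lit 1002604113) (nat_lit 152) (nat_lit 308160476) (nat_lit 28) (nat_lit 5) (nat_lit 29) (nat_lit 5) (nat_lit 30) (nat_lit 4) (nat_lit 351) (nat_lit 340) (nat_lit 329)))) (XT.nd (nat_lit 78) (nat_lit 76) (nat_lit 0) (XT.lf (nat_lit 0) (nat_lit 2946839207) (nat_lit 228) (nat_lit 5041882072) (nat_lit 76) (nat_lit 3231780088) (nat_lit 25) (nat_lit 5) (nat_lit 28) (nat_lit 5) (nat_lit 26) (nat_lit 4) (nat_lit 352) (nat_lit 340) (nat_lit 328)) (XT.nd (nat_lit 78) (nat_lit 0) (nat_lit 0) (XT.lf (nat_lit 0) (nat_lit 2665223772) (nat_lit 76) (nat_lit 4024984385) (nat_lit 152) (nat_lit 5442154610) (nat_lit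 24) (nat_lit 5) (nat_lit 25) (nat_lit 5) (nat_lit 26) (nat_lit 4) (nat_lit 353) (nat_lit 340) (nat_lit 327)) (XT.lf (nat_lit 0) (nat_lit 11103570617) (nat_lit 152) (nat_lit 1405807932) (nat_lit 0) (nat_lit 655427152) (nat_lit 24) (nat_lit 5) (nat_lit 26) (nat_lit 4) (nat_lit 24) (nat_lit 4) (nat_lit 354) (nat_lit 340) (nat_lit 326))))))) (XT.nd (nat_lit 936) (nat_lit 532) (nat_lit 0) (XT.nd (nat_lit 468) (nat_lit 456) (nat_lit 0) (XT.nd (nat_lit 234) (nat_lit 228) (nat_lit 0) (XT.nd (nat_lit 78) (nat_lit 76) (nat_lit 0) (XT.lf (nat_lit 0) (nat_lit 2044045969) (nat_lit 152) (nat_lit 6277748006) (nat_lit 76) (nat_lit 5962052509) (nat_lit 22) (nat_lit 5) (nat_lit 24) (nat_lit 5) (nat_lit 23) (nat_lit 4) (nat_lit 355) (nat_lit 340) (nat_lit 325)) (XT.nd (nat_lit 78) (nat_lit 0) (nat_lit 0) (XT.lf (nat_lit 0) (nat_lit 3338168932) (nat_lit 76) (nat_lit 3269115806) (nat_lit 152) (nat_lit 8940805700)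 (nat_lit 21) (nat_lit 5) (nat_lit 22) (nat_lit 5) (nat_lit 23) (nat_lit 4) (nat_lit 356) (nat_lit 340) (nat_lit 324)) (XT.lf (nat_lit 0) (nat_lit 12146882536) (nat_lit 152) (nat_lit 2261945373) (nat_lit 0) (nat_lit 2549405288) (nat_lit 21) (nat_lit 5) (nat_lit 23) (nat_lit 4) (nat_lit 21) (nat_lit 4) (nat_lit 357) (nat_lit 340) (nat_lit 323)))) (XT.nd (nat_lit 78) (nat_lit 76) (nat_lit 0) (XT.lf (nat_lit 0) (nat_lit 380604071) (nat_lit 152) (nat_lit 8907424678) (nat_lit 76) (nat_lit 9226661452) (nat_lit 19) (nat_lit 5) (nat_lit 21) (nat_lit 5) (nat_lit 20) (nat_lit 4) (nat_lit 358) (nat_lit 340) (nat_lit 322)) (XT.nd (nat_lit 78) (nat_lit 0) (nat_lit 0) (XT.lf (nat_lit 0) (nat_lit 3002541467) (nat_lit 76) (nat_lit 2969450773) (nat_lit 152) (nat_lit 14281300492) (nat_lit 18) (nat_lit 5) (nat_lit 19) (nat_lit 5) (nat_lit 20) (nat_lit 4) (nat_lit 359) (nat_lit 340) (nat_lit 321)) (XT.lf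 (nat_lit 0) (nat_lit 12935620030) (nat_lit 152) (nat_lit 4939887870) (nat_lit 0) (nat_lit 4297172733) (nat_lit 18) (nat_lit 5) (nat_lit 20) (nat_lit 4) (nat_lit 18) (nat_lit 4) (nat_lit 360) (nat_lit 340) (nat_lit 320))))) (XT.nd (nat_lit 234) (nat_lit 228) (nat_lit 0) (XT.nd (nat_lit 78) (nat_lit 152) (nat_lit 0) (XT.lf (nat_lit 0) (nat_lit 9717856025) (nat_lit 76) (nat_lit 11654793038) (nat_lit 76) (nat_lit 2943020569) (nat_lit 17) (nat_lit 4) (nat_lit 18) (nat_lit 5) (nat_lit 18) (nat_lit 4) (nat_lit 361) (nat_lit 340) (nat_lit 319)) (XT.nd (nat_lit 78) (nat_lit 76) (nat_lit 0) (XT.lf (nat_lit 0) (nat_lit 4069281619) (nat_lit 152) (nat_lit 26578007) (nat_lit 76) (nat_lit 22634105109) (nat_lit 16) (nat_lit 5) (nat_lit 18) (nat_lit 5) (nat_lit 17) (nat_lit 4) (nat_lit 362) (nat_lit 340) (nat_lit 318)) (XT.lf (nat_lit 0) (nat_lit 12706763404) (nat_lit 152) (nat_lit 11619784488) (nat_lit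 0) (nat_lit 5027652228) (nat_lit 15) (nat_lit 5) (nat_lit 17) (nat_lit 4) (nat_lit 15) (nat_lit 4) (nat_lit 363) (nat_lit 340) (nat_lit 317)))) (XT.nd (nat_lit 78) (nat_lit 152) (nat_lit 0) (XT.lf (nat_lit 0) (nat_lit 5926593901) (nat_lit 76) (nat_lit 17057448979) (nat_lit 76) (nat_lit 9336413898) (nat_lit 14) (nat_lit 4) (nat_lit 15) (nat_lit 5) (nat_lit 15) (nat_lit 4) (nat_lit 364) (nat_lit 340) (nat_lit 316)) (XT.nd (nat_lit 78) (nat_lit 152) (nat_lit 0) (XT.lf (nat_lit 0) (nat_lit 27223162829) (nat_lit 76) (nat_lit 8094396815) (nat_lit 76) (nat_lit 336906164) (nat_lit 14) (nat_lit 4) (nat_lit 15) (nat_lit 5) (nat_lit 15) (nat_lit 4) (nat_lit 365) (nat_lit 340) (nat_lit 315)) (XT.lf (nat_lit 0) (nat_lit 9698688135) (nat_lit 152) (nat_lit 26715596346) (nat_lit 0) (nat_lit 2925478443) (nat_lit 12) (nat_lit 5) (nat_lit 14) (nat_lit 4) (nat_lit 12) (nat_lit 4) (nat_lit 366) (nat_lit 340)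 (nat_lit 314)))))) (XT.nd (nat_lit 468) (nat_lit 228) (nat_lit 0) (XT.nd (nat_lit 234) (nat_lit 152) (nat_lit 0) (XT.nd (nat_lit 78) (nat_lit 152) (nat_lit 0) (XT.lf (nat_lit 0) (nat_lit 21968578474) (nat_lit 152) (nat_lit 6320960577) (nat_lit 0) (nat_lit 15171398653) (nat_lit 12) (nat_lit 5) (nat_lit 14) (nat_lit 4) (nat_lit 12) (nat_lit 4) (nat_lit 367) (nat_lit 340) (nat_lit 313)) (XT.nd (nat_lit 78) (nat_lit 76) (nat_lit 0) (XT.lf (nat_lit 0) (nat_lit 18642791679) (nat_lit 76) (nat_lit 18135325879) (nat_lit 76) (nat_lit 11317302468) (nat_lit 11) (nat_lit 4) (nat_lit 12) (nat_lit 5) (nat_lit 12) (nat_lit 4) (nat_lit 368) (nat_lit 340) (nat_lit 312)) (XT.lf (nat_lit 0) (nat_lit 623453378) (nat_lit 152) (nat_lit 5495723507) (nat_lit 76) (nat_lit 47262473049) (nat_lit 10) (nat_lit 5) (nat_lit 12) (nat_lit 5) (nat_lit 11) (nat_lit 4) (nat_lit 369) (nat_lit 340) (nat_lit 311)))) (XT.nd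 (nat_lit 78) (nat_lit 76) (nat_lit 0) (XT.lf (nat_lit 0) (nat_lit 14493619239) (nat_lit 152) (nat_lit 36156377819) (nat_lit 0) (nat_lit 8535437482) (nat_lit 9) (nat_lit 5) (nat_lit 11) (nat_lit 4) (nat_lit 9) (nat_lit 4) (nat_lit 370) (nat_lit 340) (nat_lit 310)) (XT.nd (nat_lit 78) (nat_lit 76) (nat_lit 0) (XT.lf (nat_lit 0) (nat_lit 30973988438) (nat_lit 152) (nat_lit 9802460831) (nat_lit 0) (nat_lit 25003889291) (nat_lit 9) (nat_lit 5) (nat_lit 11) (nat_lit 4) (nat_lit 9) (nat_lit 4) (nat_lit 371) (nat_lit 340) (nat_lit 309)) (XT.lf (nat_lit 0) (nat_lit 22383451972) (nat_lit 76) (nat_lit 28415318836) (nat_lit 76) (nat_lit 22434856741) (nat_lit 8) (nat_lit 4) (nat_lit 9) (nat_lit 5) (nat_lit 9) (nat_lit 4) (nat_lit 372) (nat_lit 340) (nat_lit 308))))) (XT.nd (nat_lit 234) (nat_lit 76) (nat_lit 0) (XT.nd (nat_lit 78) (nat_lit 152) (nat_lit 0) (XT.lf (nat_lit 0) (nat_lit 60390266916)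 (nat_lit 76) (nat_lit 13667520701) (nat_lit 76) (nat_lit 7678047346) (nat_lit 8) (nat_lit 4) (nat_lit 9) (nat_lit 5) (nat_lit 9) (nat_lit 4) (nat_lit 373) (nat_lit 340) (nat_lit 307)) (XT.nd (nat_lit 78) (nat_lit 0) (nat_lit 0) (XT.lf (nat_lit 0) (nat_lit 9146493840) (nat_lit 152) (nat_lit 78275502207) (nat_lit 0) (nat_lit 3931442334) (nat_lit 6) (nat_lit 5) (nat_lit 8) (nat_lit 4) (nat_lit 6) (nat_lit 4) (nat_lit 374) (nat_lit 340) (nat_lit 306)) (XT.lf (nat_lit 0) (nat_lit 29481317049) (nat_lit 152) (nat_lit 48351280313) (nat_lit 0) (nat_lit 24260340494) (nat_lit 6) (nat_lit 5) (nat_lit 8) (nat_lit 4) (nat_lit 6) (nat_lit 4) (nat_lit 375) (nat_lit 340) (nat_lit 305)))) (XT.nd (nat_lit 156) (nat_lit 0) (nat_lit 0) (XT.nd (nat_lit 78) (nat_lit 76) (nat_lit 0) (XT.lf (nat_lit 0) (nat_lit 52825431878) (nat_lit 152) (nat_lit 14024768556) (nat_lit 0) (nat_lit 47599303106) (nat_lit 6) (nat_lit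 5) (nat_lit 8) (nat_lit 4) (nat_lit 6) (nat_lit 4) (nat_lit 376) (nat_lit 340) (nat_lit 304)) (XT.lf (nat_lit 0) (nat_lit 27855530694) (nat_lit 76) (nat_lit 52933478438) (nat_lit 76) (nat_lit 47702869477) (nat_lit 5) (nat_lit 4) (nat_lit 6) (nat_lit 5) (nat_lit 6) (nat_lit 4) (nat_lit 377) (nat_lit 340) (nat_lit 303))) (XT.nd (nat_lit 78) (nat_lit 0) (nat_lit 0) (XT.lf (nat_lit 0) (nat_lit 77522399120) (nat_lit 76) (nat_lit 36123918751) (nat_lit 76) (nat_lit 30889413974) (nat_lit 5) (nat_lit 4) (nat_lit 6) (nat_lit 5) (nat_lit 6) (nat_lit 4) (nat_lit 378) (nat_lit 340) (nat_lit 302)) (XT.lf (nat_lit 0) (nat_lit 134576977415) (nat_lit 76) (nat_lit 16825751587) (nat_lit 76) (nat_lit 11587859143) (nat_lit 5) (nat_lit 4) (nat_lit 6) (nat_lit 5) (nat_lit 6) (nat_lit 4) (nat_lit 379) (nat_lit 340) (nat_lit 301))))))))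
noncomputable def xc47 : XT := (XT.nd (nat_lit 1950) (nat_lit 0) (nat_lit 0) (XT.nd (nat_lit 936) (nat_lit 76) (nat_lit 0) (XT.nd (nat_lit 468) (nat_lit 0) (nat_lit 0) (XT.nd (nat_lit 234) (nat_lit 76) (nat_lit 0) (XT.nd (nat_lit 78) (nat_lit 0) (nat_lit 0) (XT.lf (nat_lit 0) (nat_lit 10616641047) (nat_lit 152) (nat_lit 167328919371) (nat_lit 0) (nat_lit 6059390403) (nat_lit 3) (nat_lit 5) (nat_lit 5) (nat_lit 4) (nat_lit 3) (nat_lit 4) (nat_lit 380) (nat_lit 340) (nat_lit 300)) (XT.nd (nat_lit 78) (nat_lit 0) (nat_lit 0) (XT.lf (nat_lit 0) (nat_lit 37295854516) (nat_lit 152) (nat_lit 137706905038) (nat_lit 0) (nat_lit 32736376427) (nat_lit 3) (nat_lit 5) (nat_lit 5) (nat_lit 4) (nat_lit 3) (nat_lit 4) (nat_lit 381) (nat_lit 340) (nat_lit 299)) (XT.lf (nat_lit 0) (nat_lit 67953649653) (nat_lit 152) (nat_lit 103691060229) (nat_lit 0) (nat_lit 63392234655) (nat_lit 3) (nat_lit 5) (nat_lit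 5) (nat_lit 4) (nat_lit 3) (nat_lit 4) (nat_lit 382) (nat_lit 340) (nat_lit 298)))) (XT.nd (nat_lit 78) (nat_lit 76) (nat_lit 0) (XT.lf (nat_lit 0) (nat_lit 103189852884) (nat_lit 152) (nat_lit 64615857545) (nat_lit 0) (nat_lit 98626753617) (nat_lit 3) (nat_lit 5) (nat_lit 5) (nat_lit 4) (nat_lit 3) (nat_lit 4) (nat_lit 383) (nat_lit 340) (nat_lit 297)) (XT.nd (nat_lit 78) (nat_lit 76) (nat_lit 0) (XT.lf (nat_lit 0) (nat_lit 143693868185) (nat_lit 152) (nat_lit 19716782149) (nat_lit 0) (nat_lit 139129304337) (nat_lit 3) (nat_lit 5) (nat_lit 5) (nat_lit 4) (nat_lit 3) (nat_lit 4) (nat_lit 384) (nat_lit 340) (nat_lit 296)) (XT.lf (nat_lit 0) (nat_lit 35000623679) (nat_lit 76) (nat_lit 156706842929) (nat_lit 76) (nat_lit 152141005531) (nat_lit 2) (nat_lit 4) (nat_lit 3) (nat_lit 5) (nat_lit 3) (nat_lit 4) (nat_lit 385) (nat_lit 340) (nat_lit 295))))) (XT.nd (nat_lit 234) (nat_lit 0) (nat_lit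 0) (XT.nd (nat_lit 78) (nat_lit 0) (nat_lit 0) (XT.lf (nat_lit 0) (nat_lit 100110487968) (nat_lit 76) (nat_lit 147828659042) (nat_lit 76) (nat_lit 143261714210) (nat_lit 2) (nat_lit 4) (nat_lit 3) (nat_lit 5) (nat_lit 3) (nat_lit 4) (nat_lit 386) (nat_lit 340) (nat_lit 294)) (XT.nd (nat_lit 78) (nat_lit 0) (nat_lit 0) (XT.lf (nat_lit 0) (nat_lit 174959832020) (nat_lit 76) (nat_lit 137633045051) (nat_lit 76) (nat_lit 133065137234) (nat_lit 2) (nat_lit 4) (nat_lit 3) (nat_lit 5) (nat_lit 3) (nat_lit 4) (nat_lit 387) (nat_lit 340) (nat_lit 293)) (XT.lf (nat_lit 0) (nat_lit 261013099522) (nat_lit 76) (nat_lit 125920521554) (nat_lit 76) (nat_lit 121351776357) (nat_lit 2) (nat_lit 4) (nat_lit 3) (nat_lit 5) (nat_lit 3) (nat_lit 4) (nat_lit 388) (nat_lit 340) (nat_lit 292)))) (XT.nd (nat_lit 78) (nat_lit 0) (nat_lit 0) (XT.lf (nat_lit 0) (nat_lit 359953941361) (nat_lit 76) (nat_lit 112461930481)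 (nat_lit 76) (nat_lit 107892457128) (nat_lit 2) (nat_lit 4) (nat_lit 3) (nat_lit 5) (nat_lit 3) (nat_lit 4) (nat_lit 389) (nat_lit 340) (nat_lit 291)) (XT.nd (nat_lit 78) (nat_lit 0) (nat_lit 0) (XT.lf (nat_lit 0) (nat_lit 473718156615) (nat_lit 76) (nat_lit 96993951572) (nat_lit 76) (nat_lit 92423845040) (nat_lit 2) (nat_lit 4) (nat_lit 3) (nat_lit 5) (nat_lit 3) (nat_lit 4) (nat_lit 390) (nat_lit 340) (nat_lit 290)) (XT.lf (nat_lit 0) (nat_lit 604531566888) (nat_lit 76) (nat_lit 79213950457) (nat_lit 76) (nat_lit 74643293335) (nat_lit 2) (nat_lit 4) (nat_lit 3) (nat_lit 5) (nat_lit 3) (nat_lit 4) (nat_lit 391) (nat_lit 340) (nat_lit 289)))))) (XT.nd (nat_lit 468) (nat_lit 0) (nat_lit 0) (XT.nd (nat_lit 234) (nat_lit 76) (nat_lit 0) (XT.nd (nat_lit 78) (nat_lit 0) (nat_lit 0) (XT.lf (nat_lit 0) (nat_lit 754953564989) (nat_lit 76) (nat_lit 58774057550) (nat_lit 76) (nat_lit 54202921654)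 (nat_lit 2) (nat_lit 4) (nat_lit 3) (nat_lit 5) (nat_lit 3) (nat_lit 4) (nat_lit 392) (nat_lit 340) (nat_lit 288)) (XT.nd (nat_lit 78) (nat_lit 0) (nat_lit 0) (XT.lf (nat_lit 0) (nat_lit 927927190012) (nat_lit 76) (nat_lit 35274361902) (nat_lit 76) (nat_lit 30702809680) (nat_lit 2) (nat_lit 4) (nat_lit 3) (nat_lit 5) (nat_lit 3) (nat_lit 4) (nat_lit 393) (nat_lit 340) (nat_lit 287)) (XT.lf (nat_lit 0) (nat_lit 1126836708532) (nat_lit 76) (nat_lit 8255086859) (nat_lit 76) (nat_lit 3683172615) (nat_lit 2) (nat_lit 4) (nat_lit 3) (nat_lit 5) (nat_lit 3) (nat_lit 4) (nat_lit 394) (nat_lit 340) (nat_lit 286)))) (XT.nd (nat_lit 78) (nat_lit 0) (nat_lit 0) (XT.lf (nat_lit 0) (nat_lit 28281613386) (nat_lit 76) (nat_lit 1252119079766) (nat_lit 0) (nat_lit 24305762042) (nat_lit 1) (nat_lit 5) (nat_lit 2) (nat_lit 4) (nat_lit 1) (nat_lit 4) (nat_lit 395) (nat_lit 340) (nat_lit 285)) (XT.nd (nat_lit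 78) (nat_lit 0) (nat_lit 0) (XT.lf (nat_lit 0) (nat_lit 65706549374) (nat_lit 76) (nat_lit 1367907969963) (nat_lit 0) (nat_lit 61730459994) (nat_lit 1) (nat_lit 5) (nat_lit 2) (nat_lit 4) (nat_lit 1) (nat_lit 4) (nat_lit 396) (nat_lit 340) (nat_lit 284)) (XT.lf (nat_lit 0) (nat_lit 108741449763) (nat_lit 76) (nat_lit 1501073245392) (nat_lit 0) (nat_lit 104765153396) (nat_lit 1) (nat_lit 5) (nat_lit 2) (nat_lit 4) (nat_lit 1) (nat_lit 4) (nat_lit 397) (nat_lit 340) (nat_lit 283))))) (XT.nd (nat_lit 234) (nat_lit 0) (nat_lit 0) (XT.nd (nat_lit 78) (nat_lit 0) (nat_lit 0) (XT.lf (nat_lit 0) (nat_lit 158228301734) (nat_lit 76) (nat_lit 1654220313614) (nat_lit 0) (nat_lit 154251825378) (nat_lit 1) (nat_lit 5) (nat_lit 2) (nat_lit 4) (nat_lit 1) (nat_lit 4) (nat_lit 398) (nat_lit 340) (nat_lit 282)) (XT.nd (nat_lit 78) (nat_lit 0) (nat_lit 0) (XT.lf (nat_lit 0) (nat_lit 215135326304) (nat_lit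 76) (nat_lit 1830345530314) (nat_lit 0) (nat_lit 211158693436) (nat_lit 1) (nat_lit 5) (nat_lit 2) (nat_lit 4) (nat_lit 1) (nat_lit 4) (nat_lit 399) (nat_lit 340) (nat_lit 281)) (XT.lf (nat_lit 0) (nat_lit 280575921780) (nat_lit 76) (nat_lit 2032894823643) (nat_lit 0) (nat_lit 276599152815) (nat_lit 1) (nat_lit 5) (nat_lit 2) (nat_lit 4) (nat_lit 1) (nat_lit 4) (nat_lit 400) (nat_lit 340) (nat_lit 280)))) (XT.nd (nat_lit 156) (nat_lit 0) (nat_lit 0) (XT.nd (nat_lit 78) (nat_lit 0) (nat_lit 0) (XT.lf (nat_lit 0) (nat_lit 355830447639) (nat_lit 76) (nat_lit 2265831114558) (nat_lit 0) (nat_lit 351853560328) (nat_lit 1) (nat_lit 5) (nat_lit 2) (nat_lit 4) (nat_lit 1) (nat_lit 4) (nat_lit 401) (nat_lit 340) (nat_lit 279)) (XT.lf (nat_lit 0) (nat_lit 442371275039) (nat_lit 76) (nat_lit 2533711852229) (nat_lit 0) (nat_lit 438394284818) (nat_lit 1) (nat_lit 5) (nat_lit 2) (nat_lit 4) (nat_lit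 1) (nat_lit 4) (nat_lit 402) (nat_lit 340) (nat_lit 278))) (XT.nd (nat_lit 78) (nat_lit 0) (nat_lit 0) (XT.lf (nat_lit 0) (nat_lit 541891594080) (nat_lit 76) (nat_lit 2841778181523) (nat_lit 0) (nat_lit 537914514373) (nat_lit 1) (nat_lit 5) (nat_lit 2) (nat_lit 4) (nat_lit 1) (nat_lit 4) (nat_lit 403) (nat_lit 340) (nat_lit 277)) (XT.lf (nat_lit 0) (nat_lit 656338541440) (nat_lit 76) (nat_lit 3196057487145) (nat_lit 0) (nat_lit 652361383919) (nat_lit 1) (nat_lit 5) (nat_lit 2) (nat_lit 4) (nat_lit 1) (nat_lit 4) (nat_lit 404) (nat_lit 340) (nat_lit 276))))))) (XT.nd (nat_lit 936) (nat_lit 0) (nat_lit 0) (XT.nd (nat_lit 468) (nat_lit 0) (nat_lit 0) (XT.nd (nat_lit 234) (nat_lit 0) (nat_lit 0) (XT.nd (nat_lit 78) (nat_lit 0) (nat_lit 0) (XT.lf (nat_lit 0) (nat_lit 787951296524) (nat_lit 76) (nat_lit 3603481320725) (nat_lit 0) (nat_lit 783974071339) (nat_lit 1) (nat_lit 5) (nat_lit 2) (nat_lit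 4) (nat_lit 1) (nat_lit 4) (nat_lit 405) (nat_lit 340) (nat_lit 275)) (XT.nd (nat_lit 78) (nat_lit 0) (nat_lit 0) (XT.lf (nat_lit 0) (nat_lit 939304891497) (nat_lit 76) (nat_lit 4072021018139) (nat_lit 0) (nat_lit 935327607472) (nat_lit 1) (nat_lit 5) (nat_lit 2) (nat_lit 4) (nat_lit 1) (nat_lit 4) (nat_lit 406) (nat_lit 340) (nat_lit 274)) (XT.lf (nat_lit 0) (nat_lit 1113360592347) (nat_lit 76) (nat_lit 4610843660422) (nat_lit 0) (nat_lit 1109383257158) (nat_lit 1) (nat_lit 5) (nat_lit 2) (nat_lit 4) (nat_lit 1) (nat_lit 4) (nat_lit 407) (nat_lit 340) (nat_lit 273)))) (XT.nd (nat_lit 78) (nat_lit 0) (nat_lit 0) (XT.lf (nat_lit 0) (nat_lit 1313523836699) (nat_lit 76) (nat_lit 5230491429706) (nat_lit 0) (nat_lit 1309546457020) (nat_lit 1) (nat_lit 5) (nat_lit 2) (nat_lit 4) (nat_lit 1) (nat_lit 4) (nat_lit 408) (nat_lit 340) (nat_lit 272)) (XT.nd (nat_lit 78) (nat_lit 0) (nat_lit 0) (XT.lf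 (nat_lit 0) (nat_lit 1543710861943) (nat_lit 76) (nat_lit 5943087869304) (nat_lit 0) (nat_lit 1539733443576) (nat_lit 1) (nat_lit 5) (nat_lit 2) (nat_lit 4) (nat_lit 1) (nat_lit 4) (nat_lit 409) (nat_lit 340) (nat_lit 271)) (XT.lf (nat_lit 0) (nat_lit 1808425327268) (nat_lit 76) (nat_lit 6762575083468) (nat_lit 0) (nat_lit 1804447875260) (nat_lit 1) (nat_lit 5) (nat_lit 2) (nat_lit 4) (nat_lit 1) (nat_lit 4) (nat_lit 410) (nat_lit 340) (nat_lit 270))))) (XT.nd (nat_lit 234) (nat_lit 0) (nat_lit 0) (XT.nd (nat_lit 78) (nat_lit 0) (nat_lit 0) (XT.lf (nat_lit 0) (nat_lit 2112846428736) (nat_lit 76) (nat_lit 7704986517692) (nat_lit 0) (nat_lit 2108868947474) (nat_lit 1) (nat_lit 5) (nat_lit 2) (nat_lit 4) (nat_lit 1) (nat_lit 4) (nat_lit 411) (nat_lit 340) (nat_lit 269)) (XT.nd (nat_lit 78) (nat_lit 0) (nat_lit 0) (XT.lf (nat_lit 0) (nat_lit 2462930231374) (nat_lit 76) (nat_lit 8788760656561)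 (nat_lit 0) (nat_lit 2458952724675) (nat_lit 1) (nat_lit 5) (nat_lit 2) (nat_lit 4) (nat_lit 1) (nat_lit 4) (nat_lit 412) (nat_lit 340) (nat_lit 268)) (XT.lf (nat_lit 0) (nat_lit 2865526200887) (nat_lit 76) (nat_lit 10035101776702) (nat_lit 0) (nat_lit 2861548672069) (nat_lit 1) (nat_lit 5) (nat_lit 2) (nat_lit 4) (nat_lit 1) (nat_lit 4) (nat_lit 413) (nat_lit 340) (nat_lit 267)))) (XT.nd (nat_lit 78) (nat_lit 0) (nat_lit 0) (XT.lf (nat_lit 0) (nat_lit 3328511214939) (nat_lit 76) (nat_lit 11468394813076) (nat_lit 0) (nat_lit 3324533666886) (nat_lit 1) (nat_lit 5) (nat_lit 2) (nat_lit 4) (nat_lit 1) (nat_lit 4) (nat_lit 414) (nat_lit 340) (nat_lit 266)) (XT.nd (nat_lit 78) (nat_lit 0) (nat_lit 0) (XT.lf (nat_lit 0) (nat_lit 3860943675979) (nat_lit 76) (nat_lit 13116682455526) (nat_lit 0) (nat_lit 3856966111201) (nat_lit 1) (nat_lit 5) (nat_lit 2) (nat_lit 4) (nat_lit 1) (nat_lit 4) (nat_lit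 415) (nat_lit 340) (nat_lit 265)) (XT.lf (nat_lit 0) (nat_lit 4473240740854) (nat_lit 76) (nat_lit 15012213810098) (nat_lit 0) (nat_lit 4469263161531) (nat_lit 1) (nat_lit 5) (nat_lit 2) (nat_lit 4) (nat_lit 1) (nat_lit 4) (nat_lit 416) (nat_lit 340) (nat_lit 264)))))) (XT.nd (nat_lit 468) (nat_lit 0) (nat_lit 0) (XT.nd (nat_lit 234) (nat_lit 0) (nat_lit 0) (XT.nd (nat_lit 78) (nat_lit 0) (nat_lit 0) (XT.lf (nat_lit 0) (nat_lit 5177382134745) (nat_lit 76) (nat_lit 17192075359817) (nat_lit 0) (nat_lit 5173404542775) (nat_lit 1) (nat_lit 5) (nat_lit 2) (nat_lit 4) (nat_lit 1) (nat_lit 4) (nat_lit 417) (nat_lit 340) (nat_lit 263)) (XT.nd (nat_lit 78) (nat_lit 0) (nat_lit 0) (XT.lf (nat_lit 0) (nat_lit 5987144537098) (nat_lit 76) (nat_lit 19698916569786) (nat_lit 0) (nat_lit 5983166934131) (nat_lit 1) (nat_lit 5) (nat_lit 2) (nat_lit 4) (nat_lit 1) (nat_lit 4) (nat_lit 418) (nat_lit 340)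 (nat_lit 262)) (XT.lf (nat_lit 0) (nat_lit 6918371125351) (nat_lit 76) (nat_lit 22581784333244) (nat_lit 0) (nat_lit 6914393512821) (nat_lit 1) (nat_lit 5) (nat_lit 2) (nat_lit 4) (nat_lit 1) (nat_lit 4) (nat_lit 419) (nat_lit 340) (nat_lit 261)))) (XT.nd (nat_lit 78) (nat_lit 0) (nat_lit 0) (XT.lf (nat_lit 0) (nat_lit 7989281550143) (nat_lit 76) (nat_lit 25897082584693) (nat_lit 0) (nat_lit 7985303929298) (nat_lit 1) (nat_lit 5) (nat_lit 2) (nat_lit 4) (nat_lit 1) (nat_lit 4) (nat_lit 420) (nat_lit 340) (nat_lit 260)) (XT.nd (nat_lit 78) (nat_lit 0) (nat_lit 0) (XT.lf (nat_lit 0) (nat_lit 9220828406743) (nat_lit 76) (nat_lit 29709675855140) (nat_lit 0) (nat_lit 9216850778666) (nat_lit 1) (nat_lit 5) (nat_lit 2) (nat_lit 4) (nat_lit 1) (nat_lit 4) (nat_lit 421) (nat_lit 340) (nat_lit 259)) (XT.lf (nat_lit 0) (nat_lit 10637107177126) (nat_lit 76) (nat_lit 34094158360746) (nat_lit 0) (nat_lit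 10633129542762) (nat_lit 1) (nat_lit 5) (nat_lit 2) (nat_lit 4) (nat_lit 1) (nat_lit 4) (nat_lit 422) (nat_lit 340) (nat_lit 258))))) (XT.nd (nat_lit 234) (nat_lit 0) (nat_lit 0) (XT.nd (nat_lit 78) (nat_lit 0) (nat_lit 0) (XT.lf (nat_lit 0) (nat_lit 12265827663323) (nat_lit 76) (nat_lit 39136313454881) (nat_lit 0) (nat_lit 12261850023491) (nat_lit 1) (nat_lit 5) (nat_lit 2) (nat_lit 4) (nat_lit 1) (nat_lit 4) (nat_lit 423) (nat_lit 340) (nat_lit 257)) (XT.nd (nat_lit 78) (nat_lit 0) (nat_lit 0) (XT.lf (nat_lit 0) (nat_lit 14138856135716) (nat_lit 76) (nat_lit 44934791998083) (nat_lit 0) (nat_lit 14134878491129) (nat_lit 1) (nat_lit 5) (nat_lit 2) (nat_lit 4) (nat_lit 1) (nat_lit 4) (nat_lit 424) (nat_lit 340) (nat_lit 256)) (XT.lf (nat_lit 0) (nat_lit 16292838803546) (nat_lit 76) (nat_lit 51603042483588) (nat_lit 0) (nat_lit 16288861154825) (nat_lit 1) (nat_lit 5) (nat_lit 2) (nat_lit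 4) (nat_lit 1) (nat_lit 4) (nat_lit 425) (nat_lit 340) (nat_lit 255)))) (XT.nd (nat_lit 156) (nat_lit 0) (nat_lit 0) (XT.nd (nat_lit 78) (nat_lit 0) (nat_lit 0) (XT.lf (nat_lit 0) (nat_lit 18769918805967) (nat_lit 76) (nat_lit 59271530681764) (nat_lit 0) (nat_lit 18765941153651) (nat_lit 1) (nat_lit 5) (nat_lit 2) (nat_lit 4) (nat_lit 1) (nat_lit 4) (nat_lit 426) (nat_lit 340) (nat_lit 254)) (XT.lf (nat_lit 0) (nat_lit 21618560751722) (nat_lit 76) (nat_lit 68090292231273) (nat_lit 0) (nat_lit 21614583096281) (nat_lit 1) (nat_lit 5) (nat_lit 2) (nat_lit 4) (nat_lit 1) (nat_lit 4) (nat_lit 427) (nat_lit 340) (nat_lit 253))) (XT.nd (nat_lit 1560) (nat_lit 0) (nat_lit 0) (XT.lf (nat_lit 0) (nat_lit 24894498939750) (nat_lit 76) (nat_lit 78231868118951) (nat_lit 0) (nat_lit 24890521281590) (nat_lit 1) (nat_lit 5) (nat_lit 2) (nat_lit 4) (nat_lit 1) (nat_lit 4) (nat_lit 428) (nat_lit 340) (nat_lit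 252)) (XT.lf (nat_lit 0) (nat_lit 410833152872099) (nat_lit 76) (nat_lit 1273012177139233) (nat_lit 0) (nat_lit 410829175196922) (nat_lit 1) (nat_lit 5) (nat_lit 2) (nat_lit 4) (nat_lit 1) (nat_lit 4) (nat_lit 448) (nat_lit 340) (nat_lit 232))))))))
noncomputable def xc48 : XT := (XT.nd (nat_lit 46254) (nat_lit 0) (nat_lit 152) (XT.nd (nat_lit 45318) (nat_lit 0) (nat_lit 1292) (XT.nd (nat_lit 44850) (nat_lit 0) (nat_lit 2280) (XT.nd (nat_lit 234) (nat_lit 0) (nat_lit 0) (XT.nd (nat_lit 78) (nat_lit 0) (nat_lit 0) (XT.lf (nat_lit 0) (nat_lit 472491279565145) (nat_lit 76) (nat_lit 1463892036430608) (nat_lit 0) (nat_lit 472487301889825) (nat_lit 1) (nat_lit 5) (nat_lit 2) (nat_lit 4) (nat_lit 1) (nat_lit 4) (nat_lit 449) (nat_lit 340) (nat_lit 231)) (XT.nd (nat_lit 78) (nat_lit 0) (nat_lit 0) (XT.lf (nat_lit 0) (nat_lit 543398125259855) (nat_lit 76) (nat_lit 1683403874620574) (nat_lit 0)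 (nat_lit 543394147584412) (nat_lit 1) (nat_lit 5) (nat_lit 2) (nat_lit 4) (nat_lit 1) (nat_lit 4) (nat_lit 450) (nat_lit 340) (nat_lit 230)) (XT.lf (nat_lit 0) (nat_lit 624940997806780) (nat_lit 76) (nat_lit 1935842488543288) (nat_lit 0) (nat_lit 624937020131229) (nat_lit 1) (nat_lit 5) (nat_lit 2) (nat_lit 4) (nat_lit 1) (nat_lit 4) (nat_lit 451) (nat_lit 340) (nat_lit 229)))) (XT.nd (nat_lit 44460) (nat_lit 0) (nat_lit 3040) (XT.lf (nat_lit 0) (nat_lit 718715301234017) (nat_lit 76) (nat_lit 2226146894558095) (nat_lit 0) (nat_lit 718711323558370) (nat_lit 1) (nat_lit 5) (nat_lit 2) (nat_lit 4) (nat_lit 1) (nat_lit 4) (nat_lit 452) (nat_lit 340) (nat_lit 228)) (XT.nd (nat_lit 78) (nat_lit 228) (nat_lit 0) (XT.lf (nat_lit 0) (nat_lit 1460478801) (nat_lit 0) (nat_lit 1460478801) (nat_lit 76) (nat_lit 341501949) (nat_lit 44) (nat_lit 5) (nat_lit 44) (nat_lit 3) (nat_lit 45) (nat_lit 0) (nat_lit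 341) (nat_lit 341) (nat_lit 338)) (XT.lf (nat_lit 0) (nat_lit 1747659819) (nat_lit 228) (nat_lit 342184746) (nat_lit 228) (nat_lit 4563914797) (nat_lit 41) (nat_lit 3) (nat_lit 44) (nat_lit 3) (nat_lit 44) (nat_lit 5) (nat_lit 342) (nat_lit 341) (nat_lit 337))))) (XT.nd (nat_lit 234) (nat_lit 608) (nat_lit 0) (XT.nd (nat_lit 78) (nat_lit 152) (nat_lit 0) (XT.lf (nat_lit 76) (nat_lit 3434455140) (nat_lit 0) (nat_lit 750483679) (nat_lit 228) (nat_lit 2655781736) (nat_lit 42) (nat_lit 5) (nat_lit 41) (nat_lit 3) (nat_lit 44) (nat_lit 5) (nat_lit 343) (nat_lit 341) (nat_lit 336)) (XT.nd (nat_lit 78) (nat_lit 76) (nat_lit 0) (XT.lf (nat_lit 0) (nat_lit 470884803) (nat_lit 152) (nat_lit 6210038083) (nat_lit 228) (nat_lit 421240269) (nat_lit 40) (nat_lit 5) (nat_lit 42) (nat_lit 5) (nat_lit 43) (nat_lit 4) (nat_lit 344) (nat_lit 341) (nat_lit 335)) (XT.lf (nat_lit 0) (nat_lit 1822527647) (nat_lit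 228) (nat_lit 2518886688) (nat_lit 76) (nat_lit 3068571139) (nat_lit 39) (nat_lit 5) (nat_lit 42) (nat_lit 5) (nat_lit 40) (nat_lit 5) (nat_lit 345) (nat_lit 341) (nat_lit 334)))) (XT.nd (nat_lit 78) (nat_lit 380) (nat_lit 0) (XT.lf (nat_lit 0) (nat_lit 2096976436) (nat_lit 228) (nat_lit 2039194822) (nat_lit 304) (nat_lit 3658601175) (nat_lit 36) (nat_lit 5) (nat_lit 39) (nat_lit 5) (nat_lit 40) (nat_lit 5) (nat_lit 346) (nat_lit 341) (nat_lit 333)) (XT.nd (nat_lit 78) (nat_lit 380) (nat_lit 0) (XT.lf (nat_lit 0) (nat_lit 6679582533) (nat_lit 304) (nat_lit 870912087) (nat_lit 76) (nat_lit 704605756) (nat_lit 36) (nat_lit 5) (nat_lit 40) (nat_lit 5) (nat_lit 37) (nat_lit 4) (nat_lit 347) (nat_lit 341) (nat_lit 332)) (XT.lf (nat_lit 0) (nat_lit 798511401) (nat_lit 380) (nat_lit 4078932255) (nat_lit 76) (nat_lit 3894392068) (nat_lit 31) (nat_lit 5) (nat_lit 36) (nat_lit 5) (nat_lit 32) (nat_lit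 5) (nat_lit 348) (nat_lit 341) (nat_lit 331)))))) (XT.nd (nat_lit 468) (nat_lit 456) (nat_lit 0) (XT.nd (nat_lit 234) (nat_lit 304) (nat_lit 0) (XT.nd (nat_lit 78) (nat_lit 76) (nat_lit 0) (XT.lf (nat_lit 0) (nat_lit 1616132557) (nat_lit 152) (nat_lit 1632367307) (nat_lit 228) (nat_lit 6124306090) (nat_lit 29) (nat_lit 5) (nat_lit 31) (nat_lit 5) (nat_lit 32) (nat_lit 5) (nat_lit 349) (nat_lit 341) (nat_lit 330)) (XT.nd (nat_lit 78) (nat_lit 76) (nat_lit 0) (XT.lf (nat_lit 0) (nat_lit 6159979829) (nat_lit 228) (nat_lit 1802901338) (nat_lit 76) (nat_lit 2087073703) (nat_lit 29) (nat_lit 5) (nat_lit 32) (nat_lit 5) (nat_lit 30) (nat_lit 4) (nat_lit 350) (nat_lit 341) (nat_lit 329)) (XT.lf (nat_lit 0) (nat_lit 5167324562) (nat_lit 76) (nat_lit 4444459969) (nat_lit 152) (nat_lit 1201466083) (nat_lit 28) (nat_lit 5) (nat_lit 29) (nat_lit 5) (nat_lit 30) (nat_lit 4) (nat_lit 351) (nat_lit 341)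 (nat_lit 328)))) (XT.nd (nat_lit 78) (nat_lit 76) (nat_lit 0) (XT.lf (nat_lit 0) (nat_lit 1494015651) (nat_lit 152) (nat_lit 206445378) (nat_lit 228) (nat_lit 9982160795) (nat_lit 25) (nat_lit 5) (nat_lit 27) (nat_lit 5) (nat_lit 28) (nat_lit 5) (nat_lit 352) (nat_lit 341) (nat_lit 327)) (XT.nd (nat_lit 78) (nat_lit 76) (nat_lit 0) (XT.lf (nat_lit 0) (nat_lit 5244752367) (nat_lit 228) (nat_lit 2838093356) (nat_lit 76) (nat_lit 4541534281) (nat_lit 25) (nat_lit 5) (nat_lit 28) (nat_lit 5) (nat_lit 26) (nat_lit 4) (nat_lit 353) (nat_lit 341) (nat_lit 326)) (XT.lf (nat_lit 0) (nat_lit 5890529681) (nat_lit 76) (nat_lit 3534023580) (nat_lit 152) (nat_lit 4267334469) (nat_lit 24) (nat_lit 5) (nat_lit 25) (nat_lit 5) (nat_lit 26) (nat_lit 4) (nat_lit 354) (nat_lit 341) (nat_lit 325))))) (XT.nd (nat_lit 234) (nat_lit 228) (nat_lit 0) (XT.nd (nat_lit 78) (nat_lit 152) (nat_lit 0) (XT.lf (nat_lit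 0) (nat_lit 1127643932) (nat_lit 76) (nat_lit 13232628149) (nat_lit 76) (nat_lit 539964490) (nat_lit 23) (nat_lit 4) (nat_lit 24) (nat_lit 5) (nat_lit 24) (nat_lit 4) (nat_lit 355) (nat_lit 341) (nat_lit 324)) (XT.nd (nat_lit 78) (nat_lit 76) (nat_lit 0) (XT.lf (nat_lit 0) (nat_lit 3867592638) (nat_lit 152) (nat_lit 4546945064) (nat_lit 76) (nat_lit 7783879681) (nat_lit 22) (nat_lit 5) (nat_lit 24) (nat_lit 5) (nat_lit 23) (nat_lit 4) (nat_lit 356) (nat_lit 341) (nat_lit 323)) (XT.lf (nat_lit 0) (nat_lit 6389883726) (nat_lit 76) (nat_lit 2633202820) (nat_lit 152) (nat_lit 8643106651) (nat_lit 21) (nat_lit 5) (nat_lit 22) (nat_lit 5) (nat_lit 23) (nat_lit 4) (nat_lit 357) (nat_lit 341) (nat_lit 322)))) (XT.nd (nat_lit 78) (nat_lit 228) (nat_lit 0) (XT.lf (nat_lit 0) (nat_lit 15248346190) (nat_lit 152) (nat_lit 237355968) (nat_lit 0) (nat_lit 3823999640) (nat_lit 21) (nat_lit 5) (nat_lit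 23) (nat_lit 4) (nat_lit 21) (nat_lit 4) (nat_lit 358) (nat_lit 341) (nat_lit 321)) (XT.nd (nat_lit 78) (nat_lit 76) (nat_lit 0) (XT.lf (nat_lit 0) (nat_lit 1701384006) (nat_lit 152) (nat_lit 7863343476) (nat_lit 76) (nat_lit 11537346924) (nat_lit 19) (nat_lit 5) (nat_lit 21) (nat_lit 5) (nat_lit 20) (nat_lit 4) (nat_lit 359) (nat_lit 341) (nat_lit 320)) (XT.lf (nat_lit 0) (nat_lit 5724926913) (nat_lit 76) (nat_lit 2335803296) (nat_lit 152) (nat_lit 15051384323) (nat_lit 18) (nat_lit 5) (nat_lit 19) (nat_lit 5) (nat_lit 20) (nat_lit 4) (nat_lit 360) (nat_lit 341) (nat_lit 319))))))) (XT.nd (nat_lit 936) (nat_lit 456) (nat_lit 0) (XT.nd (nat_lit 468) (nat_lit 304) (nat_lit 0) (XT.nd (nat_lit 234) (nat_lit 152) (nat_lit 0) (XT.nd (nat_lit 78) (nat_lit 228) (nat_lit 0) (XT.lf (nat_lit 0) (nat_lit 15952155136) (nat_lit 152) (nat_lit 3588267092) (nat_lit 0) (nat_lit 5796530606) (nat_lit 18)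 (nat_lit 5) (nat_lit 20) (nat_lit 4) (nat_lit 18) (nat_lit 4) (nat_lit 361) (nat_lit 341) (nat_lit 318)) (XT.nd (nat_lit 78) (nat_lit 152) (nat_lit 0) (XT.lf (nat_lit 0) (nat_lit 13173020026) (nat_lit 76) (nat_lit 12424057234) (nat_lit 76) (nat_lit 2212988340) (nat_lit 17) (nat_lit 4) (nat_lit 18) (nat_lit 5) (nat_lit 18) (nat_lit 4) (nat_lit 362) (nat_lit 341) (nat_lit 317)) (XT.lf (nat_lit 0) (nat_lit 1972837316) (nat_lit 76) (nat_lit 3716520219) (nat_lit 152) (nat_lit 24898517146) (nat_lit 15) (nat_lit 5) (nat_lit 16) (nat_lit 5) (nat_lit 17) (nat_lit 4) (nat_lit 363) (nat_lit 341) (nat_lit 316)))) (XT.nd (nat_lit 78) (nat_lit 152) (nat_lit 0) (XT.lf (nat_lit 0) (nat_lit 15527809996) (nat_lit 152) (nat_lit 11521910184) (nat_lit 0) (nat_lit 6570240178) (nat_lit 15) (nat_lit 5) (nat_lit 17) (nat_lit 4) (nat_lit 15) (nat_lit 4) (nat_lit 364) (nat_lit 341) (nat_lit 315)) (XT.nd (nat_lit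 78) (nat_lit 76) (nat_lit 0) (XT.lf (nat_lit 0) (nat_lit 8572750328) (nat_lit 76) (nat_lit 18727339607) (nat_lit 76) (nat_lit 9738069294) (nat_lit 14) (nat_lit 4) (nat_lit 15) (nat_lit 5) (nat_lit 15) (nat_lit 4) (nat_lit 365) (nat_lit 341) (nat_lit 314)) (XT.lf (nat_lit 0) (nat_lit 438255911) (nat_lit 152) (nat_lit 8074585752) (nat_lit 76) (nat_lit 32373444113) (nat_lit 13) (nat_lit 5) (nat_lit 15) (nat_lit 5) (nat_lit 14) (nat_lit 4) (nat_lit 366) (nat_lit 341) (nat_lit 313))))) (XT.nd (nat_lit 234) (nat_lit 152) (nat_lit 0) (XT.nd (nat_lit 78) (nat_lit 76) (nat_lit 0) (XT.lf (nat_lit 0) (nat_lit 11937286313) (nat_lit 152) (nat_lit 29110090272) (nat_lit 0) (nat_lit 4075715800) (nat_lit 12) (nat_lit 5) (nat_lit 14) (nat_lit 4) (nat_lit 12) (nat_lit 4) (nat_lit 367) (nat_lit 341) (nat_lit 312)) (XT.nd (nat_lit 78) (nat_lit 76) (nat_lit 0) (XT.lf (nat_lit 0) (nat_lit 25945426078) (nat_lit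 152) (nat_lit 5866630294) (nat_lit 0) (nat_lit 18065730704) (nat_lit 12) (nat_lit 5) (nat_lit 14) (nat_lit 4) (nat_lit 12) (nat_lit 4) (nat_lit 368) (nat_lit 341) (nat_lit 311)) (XT.lf (nat_lit 0) (nat_lit 22777935966) (nat_lit 76) (nat_lit 20164994589) (nat_lit 76) (nat_lit 12269538467) (nat_lit 11) (nat_lit 4) (nat_lit 12) (nat_lit 5) (nat_lit 12) (nat_lit 4) (nat_lit 369) (nat_lit 341) (nat_lit 310)))) (XT.nd (nat_lit 78) (nat_lit 76) (nat_lit 0) (XT.lf (nat_lit 0) (nat_lit 1307408190) (nat_lit 152) (nat_lit 5098233511) (nat_lit 76) (nat_lit 54894652619) (nat_lit 10) (nat_lit 5) (nat_lit 12) (nat_lit 5) (nat_lit 11) (nat_lit 4) (nat_lit 370) (nat_lit 341) (nat_lit 309)) (XT.nd (nat_lit 78) (nat_lit 0) (nat_lit 0) (XT.lf (nat_lit 0) (nat_lit 17254414718) (nat_lit 152) (nat_lit 40354269075) (nat_lit 0) (nat_lit 10366520359) (nat_lit 9) (nat_lit 5) (nat_lit 11) (nat_lit 4) (nat_lit 9)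 (nat_lit 4) (nat_lit 371) (nat_lit 341) (nat_lit 308)) (XT.lf (nat_lit 0) (nat_lit 36130306349) (nat_lit 152) (nat_lit 10207120898) (nat_lit 0) (nat_lit 29233400732) (nat_lit 9) (nat_lit 5) (nat_lit 11) (nat_lit 4) (nat_lit 9) (nat_lit 4) (nat_lit 372) (nat_lit 341) (nat_lit 307)))))) (XT.nd (nat_lit 468) (nat_lit 152) (nat_lit 0) (XT.nd (nat_lit 234) (nat_lit 76) (nat_lit 0) (XT.nd (nat_lit 78) (nat_lit 152) (nat_lit 0) (XT.lf (nat_lit 0) (nat_lit 26758237505) (nat_lit 76) (nat_lit 32146141069) (nat_lit 76) (nat_lit 25241399574) (nat_lit 8) (nat_lit 4) (nat_lit 9) (nat_lit 5) (nat_lit 9) (nat_lit 4) (nat_lit 373) (nat_lit 341) (nat_lit 306)) (XT.nd (nat_lit 78) (nat_lit 152) (nat_lit 0) (XT.lf (nat_lit 0) (nat_lit 70333387594) (nat_lit 76) (nat_lit 15255496117) (nat_lit 76) (nat_lit 8343940816) (nat_lit 8) (nat_lit 4) (nat_lit 9) (nat_lit 5) (nat_lit 9) (nat_lit 4) (nat_lit 374) (nat_lit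 341) (nat_lit 305)) (XT.lf (nat_lit 0) (nat_lit 10959199355) (nat_lit 152) (nat_lit 89087129770) (nat_lit 0) (nat_lit 4943999050) (nat_lit 6) (nat_lit 5) (nat_lit 8) (nat_lit 4) (nat_lit 6) (nat_lit 4) (nat_lit 375) (nat_lit 341) (nat_lit 304)))) (XT.nd (nat_lit 78) (nat_lit 76) (nat_lit 0) (XT.lf (nat_lit 0) (nat_lit 34286759336) (nat_lit 152) (nat_lit 54795539518) (nat_lit 0) (nat_lit 28267078842) (nat_lit 6) (nat_lit 5) (nat_lit 8) (nat_lit 4) (nat_lit 6) (nat_lit 4) (nat_lit 376) (nat_lit 341) (nat_lit 303)) (XT.nd (nat_lit 78) (nat_lit 76) (nat_lit 0) (XT.lf (nat_lit 0) (nat_lit 61082502946) (nat_lit 152) (nat_lit 15425498759) (nat_lit 0) (nat_lit 55058926637) (nat_lit 6) (nat_lit 5) (nat_lit 8) (nat_lit 4) (nat_lit 6) (nat_lit 4) (nat_lit 377) (nat_lit 341) (nat_lit 302)) (XT.lf (nat_lit 0) (nat_lit 32704891511) (nat_lit 76) (nat_lit 60520043037) (nat_lit 76) (nat_lit 54493079062)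 (nat_lit 5) (nat_lit 4) (nat_lit 6) (nat_lit 5) (nat_lit 6) (nat_lit 4) (nat_lit 378) (nat_lit 341) (nat_lit 301))))) (XT.nd (nat_lit 234) (nat_lit 0) (nat_lit 0) (XT.nd (nat_lit 78) (nat_lit 152) (nat_lit 0) (XT.lf (nat_lit 0) (nat_lit 89734264390) (nat_lit 76) (nat_lit 41235152506) (nat_lit 76) (nat_lit 35205242734) (nat_lit 5) (nat_lit 4) (nat_lit 6) (nat_lit 5) (nat_lit 6) (nat_lit 4) (nat_lit 379) (nat_lit 341) (nat_lit 300)) (XT.nd (nat_lit 78) (nat_lit 152) (nat_lit 0) (XT.lf (nat_lit 0) (nat_lit 155270920030) (nat_lit 76) (nat_lit 19082349927) (nat_lit 76) (nat_lit 13049878592) (nat_lit 5) (nat_lit 4) (nat_lit 6) (nat_lit 5) (nat_lit 6) (nat_lit 4) (nat_lit 380) (nat_lit 341) (nat_lit 299)) (XT.lf (nat_lit 0) (nat_lit 12460022399) (nat_lit 152) (nat_lit 191895573914) (nat_lit 0) (nat_lit 7212458243) (nat_lit 3) (nat_lit 5) (nat_lit 5) (nat_lit 4) (nat_lit 3) (nat_lit 4) (nat_lit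 381) (nat_lit 341) (nat_lit 298)))) (XT.nd (nat_lit 156) (nat_lit 0) (nat_lit 0) (XT.nd (nat_lit 78) (nat_lit 0) (nat_lit 0) (XT.lf (nat_lit 0) (nat_lit 43108393733) (nat_lit 152) (nat_lit 157899737870) (nat_lit 0) (nat_lit 37859145308) (nat_lit 3) (nat_lit 5) (nat_lit 5) (nat_lit 4) (nat_lit 3) (nat_lit 4) (nat_lit 382) (nat_lit 341) (nat_lit 297)) (XT.lf (nat_lit 0) (nat_lit 78336402353) (nat_lit 152) (nat_lit 118841934112) (nat_lit 0) (nat_lit 73085689346) (nat_lit 3) (nat_lit 5) (nat_lit 5) (nat_lit 4) (nat_lit 3) (nat_lit 4) (nat_lit 383) (nat_lit 341) (nat_lit 296))) (XT.nd (nat_lit 78) (nat_lit 0) (nat_lit 0) (XT.lf (nat_lit 0) (nat_lit 118833291905) (nat_lit 152) (nat_lit 73957988219) (nat_lit 0) (nat_lit 113581305349) (nat_lit 3) (nat_lit 5) (nat_lit 5) (nat_lit 4) (nat_lit 3) (nat_lit 4) (nat_lit 384) (nat_lit 341) (nat_lit 295)) (XT.lf (nat_lit 0) (nat_lit 165391392838) (nat_lit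 152) (nat_lit 22369736031) (nat_lit 0) (nat_lit 160138298847) (nat_lit 3) (nat_lit 5) (nat_lit 5) (nat_lit 4) (nat_lit 3) (nat_lit 4) (nat_lit 385) (nat_lit 341) (nat_lit 294))))))))
noncomputable def xc49 : XT := (XT.nd (nat_lit 1872) (nat_lit 0) (nat_lit 0) (XT.nd (nat_lit 936) (nat_lit 0) (nat_lit 0) (XT.nd (nat_lit 468) (nat_lit 76) (nat_lit 0) (XT.nd (nat_lit 234) (nat_lit 0) (nat_lit 0) (XT.nd (nat_lit 78) (nat_lit 0) (nat_lit 0) (XT.lf (nat_lit 0) (nat_lit 40541436880) (nat_lit 76) (nat_lit 180058922083) (nat_lit 76) (nat_lit 174804865107) (nat_lit 2) (nat_lit 4) (nat_lit 3) (nat_lit 5) (nat_lit 3) (nat_lit 4) (nat_lit 386) (nat_lit 341) (nat_lit 293)) (XT.nd (nat_lit 78) (nat_lit 0) (nat_lit 0) (XT.lf (nat_lit 0) (nat_lit 115379860858) (nat_lit 76) (nat_lit 169869090693) (nat_lit 76) (nat_lit 164614196338) (nat_lit 2) (nat_lit 4) (nat_lit 3) (nat_lit 5) (nat_lit 3) (nat_lit 4)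 (nat_lit 387) (nat_lit 341) (nat_lit 292)) (XT.lf (nat_lit 0) (nat_lit 201423632645) (nat_lit 76) (nat_lit 158161595544) (nat_lit 76) (nat_lit 152905973033) (nat_lit 2) (nat_lit 4) (nat_lit 3) (nat_lit 5) (nat_lit 3) (nat_lit 4) (nat_lit 388) (nat_lit 341) (nat_lit 291)))) (XT.nd (nat_lit 78) (nat_lit 0) (nat_lit 0) (XT.lf (nat_lit 0) (nat_lit 300356217339) (nat_lit 76) (nat_lit 144707376948) (nat_lit 76) (nat_lit 139451121257) (nat_lit 2) (nat_lit 4) (nat_lit 3) (nat_lit 5) (nat_lit 3) (nat_lit 4) (nat_lit 389) (nat_lit 341) (nat_lit 290)) (XT.nd (nat_lit 78) (nat_lit 0) (nat_lit 0) (XT.lf (nat_lit 0) (nat_lit 414113252468) (nat_lit 76) (nat_lit 129243200193) (nat_lit 76) (nat_lit 123986393912) (nat_lit 2) (nat_lit 4) (nat_lit 3) (nat_lit 5) (nat_lit 3) (nat_lit 4) (nat_lit 390) (nat_lit 341) (nat_lit 289)) (XT.lf (nat_lit 0) (nat_lit 544920419153) (nat_lit 76) (nat_lit 111466505299)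 (nat_lit 76) (nat_lit 106209220244) (nat_lit 2) (nat_lit 4) (nat_lit 3) (nat_lit 5) (nat_lit 3) (nat_lit 4) (nat_lit 391) (nat_lit 341) (nat_lit 288))))) (XT.nd (nat_lit 234) (nat_lit 76) (nat_lit 0) (XT.nd (nat_lit 78) (nat_lit 0) (nat_lit 0) (XT.lf (nat_lit 0) (nat_lit 695336988048) (nat_lit 76) (nat_lit 91029487366) (nat_lit 76) (nat_lit 85771785986) (nat_lit 2) (nat_lit 4) (nat_lit 3) (nat_lit 5) (nat_lit 3) (nat_lit 4) (nat_lit 392) (nat_lit 341) (nat_lit 287)) (XT.nd (nat_lit 78) (nat_lit 0) (nat_lit 0) (XT.lf (nat_lit 0) (nat_lit 868305892022) (nat_lit 76) (nat_lit 67532291696) (nat_lit 76) (nat_lit 62274228293) (nat_lit 2) (nat_lit 4) (nat_lit 3) (nat_lit 5) (nat_lit 3) (nat_lit 4) (nat_lit 393) (nat_lit 341) (nat_lit 286)) (XT.lf (nat_lit 0) (nat_lit 1067211305282) (nat_lit 76) (nat_lit 40515190547) (nat_lit 76) (nat_lit 35256812342) (nat_lit 2) (nat_lit 4) (nat_lit 3) (nat_lit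 5) (nat_lit 3) (nat_lit 4) (nat_lit 394) (nat_lit 341) (nat_lit 285)))) (XT.nd (nat_lit 78) (nat_lit 76) (nat_lit 0) (XT.lf (nat_lit 0) (nat_lit 1295944855481) (nat_lit 76) (nat_lit 9449588462) (nat_lit 76) (nat_lit 4190936516) (nat_lit 2) (nat_lit 4) (nat_lit 3) (nat_lit 5) (nat_lit 3) (nat_lit 4) (nat_lit 395) (nat_lit 341) (nat_lit 284)) (XT.nd (nat_lit 78) (nat_lit 0) (nat_lit 0) (XT.lf (nat_lit 0) (nat_lit 32564513227) (nat_lit 76) (nat_lit 1439850245500) (nat_lit 0) (nat_lit 27991565418) (nat_lit 1) (nat_lit 5) (nat_lit 2) (nat_lit 4) (nat_lit 1) (nat_lit 4) (nat_lit 396) (nat_lit 341) (nat_lit 283)) (XT.lf (nat_lit 0) (nat_lit 75597886418) (nat_lit 76) (nat_lit 1573018777431) (nat_lit 0) (nat_lit 71024758619) (nat_lit 1) (nat_lit 5) (nat_lit 2) (nat_lit 4) (nat_lit 1) (nat_lit 4) (nat_lit 397) (nat_lit 341) (nat_lit 282)))))) (XT.nd (nat_lit 468) (nat_lit 0) (nat_lit 0) (XT.nd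 (nat_lit 234) (nat_lit 0) (nat_lit 0) (XT.nd (nat_lit 78) (nat_lit 0) (nat_lit 0) (XT.lf (nat_lit 0) (nat_lit 125083410391) (nat_lit 76) (nat_lit 1726168677395) (nat_lit 0) (nat_lit 120510126080) (nat_lit 1) (nat_lit 5) (nat_lit 2) (nat_lit 4) (nat_lit 1) (nat_lit 4) (nat_lit 398) (nat_lit 341) (nat_lit 281)) (XT.nd (nat_lit 78) (nat_lit 0) (nat_lit 0) (XT.lf (nat_lit 0) (nat_lit 181989280180) (nat_lit 76) (nat_lit 1902296356478) (nat_lit 0) (nat_lit 177415859771) (nat_lit 1) (nat_lit 5) (nat_lit 2) (nat_lit 4) (nat_lit 1) (nat_lit 4) (nat_lit 399) (nat_lit 341) (nat_lit 280)) (XT.lf (nat_lit 0) (nat_lit 247428871498) (nat_lit 76) (nat_lit 2104847791010) (nat_lit 0) (nat_lit 242855332744) (nat_lit 1) (nat_lit 5) (nat_lit 2) (nat_lit 4) (nat_lit 1) (nat_lit 4) (nat_lit 400) (nat_lit 341) (nat_lit 279)))) (XT.nd (nat_lit 78) (nat_lit 0) (nat_lit 0) (XT.lf (nat_lit 0) (nat_lit 322682524176)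 (nat_lit 76) (nat_lit 2337785943841) (nat_lit 0) (nat_lit 318108882513) (nat_lit 1) (nat_lit 5) (nat_lit 2) (nat_lit 4) (nat_lit 1) (nat_lit 4) (nat_lit 401) (nat_lit 341) (nat_lit 278)) (XT.nd (nat_lit 78) (nat_lit 0) (nat_lit 0) (XT.lf (nat_lit 0) (nat_lit 409222592288) (nat_lit 76) (nat_lit 2605668300569) (nat_lit 0) (nat_lit 404648861139) (nat_lit 1) (nat_lit 5) (nat_lit 2) (nat_lit 4) (nat_lit 1) (nat_lit 4) (nat_lit 402) (nat_lit 341) (nat_lit 277)) (XT.lf (nat_lit 0) (nat_lit 508742251080) (nat_lit 76) (nat_lit 2913736037739) (nat_lit 0) (nat_lit 504168442116) (nat_lit 1) (nat_lit 5) (nat_lit 2) (nat_lit 4) (nat_lit 1) (nat_lit 4) (nat_lit 403) (nat_lit 341) (nat_lit 276))))) (XT.nd (nat_lit 234) (nat_lit 0) (nat_lit 0) (XT.nd (nat_lit 78) (nat_lit 0) (nat_lit 0) (XT.lf (nat_lit 0) (nat_lit 623188624310) (nat_lit 76) (nat_lit 3268016567600) (nat_lit 0) (nat_lit 618614747682) (nat_lit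 1) (nat_lit 5) (nat_lit 2) (nat_lit 4) (nat_lit 1) (nat_lit 4) (nat_lit 404) (nat_lit 341) (nat_lit 275)) (XT.nd (nat_lit 78) (nat_lit 0) (nat_lit 0) (XT.lf (nat_lit 0) (nat_lit 754800880150) (nat_lit 76) (nat_lit 3675441465737) (nat_lit 0) (nat_lit 750226944683) (nat_lit 1) (nat_lit 5) (nat_lit 2) (nat_lit 4) (nat_lit 1) (nat_lit 4) (nat_lit 405) (nat_lit 341) (nat_lit 274)) (XT.lf (nat_lit 0) (nat_lit 906154040998) (nat_lit 76) (nat_lit 4143982088852) (nat_lit 0) (nat_lit 901580054367) (nat_lit 1) (nat_lit 5) (nat_lit 2) (nat_lit 4) (nat_lit 1) (nat_lit 4) (nat_lit 406) (nat_lit 341) (nat_lit 273)))) (XT.nd (nat_lit 78) (nat_lit 0) (nat_lit 0) (XT.lf (nat_lit 0) (nat_lit 1080209364347) (nat_lit 76) (nat_lit 4682805536093) (nat_lit 0) (nat_lit 1075635333226) (nat_lit 1) (nat_lit 5) (nat_lit 2) (nat_lit 4) (nat_lit 1) (nat_lit 4) (nat_lit 407) (nat_lit 341) (nat_lit 272)) (XT.nd (nat_lit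 78) (nat_lit 0) (nat_lit 0) (XT.lf (nat_lit 0) (nat_lit 1280372280439) (nat_lit 76) (nat_lit 5302454005340) (nat_lit 0) (nat_lit 1275798210629) (nat_lit 1) (nat_lit 5) (nat_lit 2) (nat_lit 4) (nat_lit 1) (nat_lit 4) (nat_lit 408) (nat_lit 341) (nat_lit 271)) (XT.lf (nat_lit 0) (nat_lit 1510559020238) (nat_lit 76) (nat_lit 6015051053601) (nat_lit 0) (nat_lit 1505984916788) (nat_lit 1) (nat_lit 5) (nat_lit 2) (nat_lit 4) (nat_lit 1) (nat_lit 4) (nat_lit 409) (nat_lit 341) (nat_lit 270))))))) (XT.nd (nat_lit 936) (nat_lit 0) (nat_lit 0) (XT.nd (nat_lit 468) (nat_lit 0) (nat_lit 0) (XT.nd (nat_lit 234) (nat_lit 0) (nat_lit 0) (XT.nd (nat_lit 78) (nat_lit 0) (nat_lit 0) (XT.lf (nat_lit 0) (nat_lit 1775273237351) (nat_lit 76) (nat_lit 6834538797038) (nat_lit 0) (nat_lit 1770699104648) (nat_lit 1) (nat_lit 5) (nat_lit 2) (nat_lit 4) (nat_lit 1) (nat_lit 4) (nat_lit 410) (nat_lit 341) (nat_lit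 269)) (XT.nd (nat_lit 78) (nat_lit 0) (nat_lit 0) (XT.lf (nat_lit 0) (nat_lit 2079694122982) (nat_lit 76) (nat_lit 7776950691499) (nat_lit 0) (nat_lit 2075119964841) (nat_lit 1) (nat_lit 5) (nat_lit 2) (nat_lit 4) (nat_lit 1) (nat_lit 4) (nat_lit 411) (nat_lit 341) (nat_lit 268)) (XT.lf (nat_lit 0) (nat_lit 2429777737936) (nat_lit 76) (nat_lit 8860725230574) (nat_lit 0) (nat_lit 2425203557675) (nat_lit 1) (nat_lit 5) (nat_lit 2) (nat_lit 4) (nat_lit 1) (nat_lit 4) (nat_lit 412) (nat_lit 341) (nat_lit 267)))) (XT.nd (nat_lit 78) (nat_lit 0) (nat_lit 0) (XT.lf (nat_lit 0) (nat_lit 2832373544245) (nat_lit 76) (nat_lit 10107066698721) (nat_lit 0) (nat_lit 2827799344750) (nat_lit 1) (nat_lit 5) (nat_lit 2) (nat_lit 4) (nat_lit 1) (nat_lit 4) (nat_lit 413) (nat_lit 341) (nat_lit 266)) (XT.nd (nat_lit 78) (nat_lit 0) (nat_lit 0) (XT.lf (nat_lit 0) (nat_lit 3295358416381) (nat_lit 76) (nat_lit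 11540360037708) (nat_lit 0) (nat_lit 3290784200160) (nat_lit 1) (nat_lit 5) (nat_lit 2) (nat_lit 4) (nat_lit 1) (nat_lit 4) (nat_lit 414) (nat_lit 341) (nat_lit 265)) (XT.lf (nat_lit 0) (nat_lit 3827790754016) (nat_lit 76) (nat_lit 13188647943300) (nat_lit 0) (nat_lit 3823216523251) (nat_lit 1) (nat_lit 5) (nat_lit 2) (nat_lit 4) (nat_lit 1) (nat_lit 4) (nat_lit 415) (nat_lit 341) (nat_lit 264))))) (XT.nd (nat_lit 234) (nat_lit 0) (nat_lit 0) (XT.nd (nat_lit 78) (nat_lit 0) (nat_lit 0) (XT.lf (nat_lit 0) (nat_lit 4440087711581) (nat_lit 76) (nat_lit 15084179526691) (nat_lit 0) (nat_lit 4435513468169) (nat_lit 1) (nat_lit 5) (nat_lit 2) (nat_lit 4) (nat_lit 1) (nat_lit 4) (nat_lit 416) (nat_lit 341) (nat_lit 263)) (XT.nd (nat_lit 78) (nat_lit 0) (nat_lit 0) (XT.lf (nat_lit 0) (nat_lit 5144229012160) (nat_lit 76) (nat_lit 17264041275383) (nat_lit 0) (nat_lit 5139654757751) (nat_lit 1) (nat_lit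 5) (nat_lit 2) (nat_lit 4) (nat_lit 1) (nat_lit 4) (nat_lit 417) (nat_lit 341) (nat_lit 262)) (XT.lf (nat_lit 0) (nat_lit 5953991333372) (nat_lit 76) (nat_lit 19770882658372) (nat_lit 0) (nat_lit 5949417069400) (nat_lit 1) (nat_lit 5) (nat_lit 2) (nat_lit 4) (nat_lit 1) (nat_lit 4) (nat_lit 418) (nat_lit 341) (nat_lit 261)))) (XT.nd (nat_lit 78) (nat_lit 0) (nat_lit 0) (XT.lf (nat_lit 0) (nat_lit 6885217851068) (nat_lit 76) (nat_lit 22653750572283) (nat_lit 0) (nat_lit 6880643578780) (nat_lit 1) (nat_lit 5) (nat_lit 2) (nat_lit 4) (nat_lit 1) (nat_lit 4) (nat_lit 419) (nat_lit 341) (nat_lit 260)) (XT.nd (nat_lit 78) (nat_lit 0) (nat_lit 0) (XT.lf (nat_lit 0) (nat_lit 7956128214506) (nat_lit 76) (nat_lit 25969048954560) (nat_lit 0) (nat_lit 7951553934987) (nat_lit 1) (nat_lit 5) (nat_lit 2) (nat_lit 4) (nat_lit 1) (nat_lit 4) (nat_lit 420) (nat_lit 341) (nat_lit 259)) (XT.lf (nat_lit 0)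 (nat_lit 9187675017754) (nat_lit 76) (nat_lit 29781642338771) (nat_lit 0) (nat_lit 9183100731947) (nat_lit 1) (nat_lit 5) (nat_lit 2) (nat_lit 4) (nat_lit 1) (nat_lit 4) (nat_lit 421) (nat_lit 341) (nat_lit 258)))))) (XT.nd (nat_lit 468) (nat_lit 0) (nat_lit 0) (XT.nd (nat_lit 234) (nat_lit 0) (nat_lit 0) (XT.nd (nat_lit 78) (nat_lit 0) (nat_lit 0) (XT.lf (nat_lit 0) (nat_lit 10603953741745) (nat_lit 76) (nat_lit 34166124943301) (nat_lit 0) (nat_lit 10599379450470) (nat_lit 1) (nat_lit 5) (nat_lit 2) (nat_lit 4) (nat_lit 1) (nat_lit 4) (nat_lit 422) (nat_lit 341) (nat_lit 257)) (XT.nd (nat_lit 78) (nat_lit 0) (nat_lit 0) (XT.lf (nat_lit 0) (nat_lit 12232674187600) (nat_lit 76) (nat_lit 39208280123458) (nat_lit 0) (nat_lit 12228099891571) (nat_lit 1) (nat_lit 5) (nat_lit 2) (nat_lit 4) (nat_lit 1) (nat_lit 4) (nat_lit 423) (nat_lit 341) (nat_lit 256)) (XT.lf (nat_lit 0) (nat_lit 14105702624913)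 (nat_lit 76) (nat_lit 45006758741461) (nat_lit 0) (nat_lit 14101128324750) (nat_lit 1) (nat_lit 5) (nat_lit 2) (nat_lit 4) (nat_lit 1) (nat_lit 4) (nat_lit 424) (nat_lit 341) (nat_lit 255)))) (XT.nd (nat_lit 78) (nat_lit 0) (nat_lit 0) (XT.lf (nat_lit 0) (nat_lit 16259685262239) (nat_lit 76) (nat_lit 51675009292010) (nat_lit 0) (nat_lit 16255110958481) (nat_lit 1) (nat_lit 5) (nat_lit 2) (nat_lit 4) (nat_lit 1) (nat_lit 4) (nat_lit 425) (nat_lit 341) (nat_lit 254)) (XT.nd (nat_lit 78) (nat_lit 0) (nat_lit 0) (XT.lf (nat_lit 0) (nat_lit 18736765238135) (nat_lit 76) (nat_lit 59343497546748) (nat_lit 0) (nat_lit 18732190931251) (nat_lit 1) (nat_lit 5) (nat_lit 2) (nat_lit 4) (nat_lit 1) (nat_lit 4) (nat_lit 426) (nat_lit 341) (nat_lit 253)) (XT.lf (nat_lit 0) (nat_lit 21585407160825) (nat_lit 76) (nat_lit 68162259145440) (nat_lit 0) (nat_lit 21580832851223) (nat_lit 1) (nat_lit 5) (nat_lit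 2) (nat_lit 4) (nat_lit 1) (nat_lit 4) (nat_lit 427) (nat_lit 341) (nat_lit 252))))) (XT.nd (nat_lit 1716) (nat_lit 0) (nat_lit 0) (XT.nd (nat_lit 1560) (nat_lit 0) (nat_lit 0) (XT.lf (nat_lit 0) (nat_lit 24861345328796) (nat_lit 76) (nat_lit 78303835075886) (nat_lit 0) (nat_lit 24856771016830) (nat_lit 1) (nat_lit 5) (nat_lit 2) (nat_lit 4) (nat_lit 1) (nat_lit 4) (nat_lit 428) (nat_lit 341) (nat_lit 251)) (XT.nd (nat_lit 78) (nat_lit 0) (nat_lit 0) (XT.lf (nat_lit 0) (nat_lit 410799999135601) (nat_lit 76) (nat_lit 1273084144363866) (nat_lit 0) (nat_lit 410795424808840) (nat_lit 1) (nat_lit 5) (nat_lit 2) (nat_lit 4) (nat_lit 1) (nat_lit 4) (nat_lit 448) (nat_lit 341) (nat_lit 231)) (XT.lf (nat_lit 0) (nat_lit 472458125827583) (nat_lit 76) (nat_lit 1463964003657514) (nat_lit 0) (nat_lit 472453551500695) (nat_lit 1) (nat_lit 5) (nat_lit 2) (nat_lit 4) (nat_lit 1) (nat_lit 4) (nat_lit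 449) (nat_lit 341) (nat_lit 230)))) (XT.nd (nat_lit 44694) (nat_lit 0) (nat_lit 3040) (XT.nd (nat_lit 78) (nat_lit 0) (nat_lit 0) (XT.lf (nat_lit 0) (nat_lit 543364971521367) (nat_lit 76) (nat_lit 1683475841849456) (nat_lit 0) (nat_lit 543360397194371) (nat_lit 1) (nat_lit 5) (nat_lit 2) (nat_lit 4) (nat_lit 1) (nat_lit 4) (nat_lit 450) (nat_lit 341) (nat_lit 229)) (XT.lf (nat_lit 0) (nat_lit 624907844067490) (nat_lit 76) (nat_lit 1935914455773884) (nat_lit 0) (nat_lit 624903269740397) (nat_lit 1) (nat_lit 5) (nat_lit 2) (nat_lit 4) (nat_lit 1) (nat_lit 4) (nat_lit 451) (nat_lit 341) (nat_lit 228))) (XT.nd (nat_lit 78) (nat_lit 0) (nat_lit 0) (XT.lf (nat_lit 0) (nat_lit 1958695846) (nat_lit 228) (nat_lit 722800198) (nat_lit 228) (nat_lit 722800198) (nat_lit 41) (nat_lit 3) (nat_lit 44) (nat_lit 3) (nat_lit 44) (nat_lit 5) (nat_lit 342) (nat_lit 342) (nat_lit 336)) (XT.lf (nat_lit 76)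 (nat_lit 2113260552) (nat_lit 0) (nat_lit 4012679581) (nat_lit 228) (nat_lit 904111134) (nat_lit 42) (nat_lit 5) (nat_lit 41) (nat_lit 3) (nat_lit 44) (nat_lit 5) (nat_lit 343) (nat_lit 342) (nat_lit 335))))))))
noncomputable def xc50 : XT := (XT.nd (nat_lit 1872) (nat_lit 836) (nat_lit 0) (XT.nd (nat_lit 936) (nat_lit 836) (nat_lit 0) (XT.nd (nat_lit 468) (nat_lit 532) (nat_lit 0) (XT.nd (nat_lit 234) (nat_lit 532) (nat_lit 0) (XT.nd (nat_lit 78) (nat_lit 0) (nat_lit 76) (XT.lf (nat_lit 0) (nat_lit 987179520) (nat_lit 228) (nat_lit 1205829241) (nat_lit 304) (nat_lit 5124084726) (nat_lit 38) (nat_lit 5) (nat_lit 41) (nat_lit 3) (nat_lit 42) (nat_lit 5) (nat_lit 344) (nat_lit 342) (nat_lit 334)) (XT.nd (nat_lit 78) (nat_lit 0) (nat_lit 0) (XT.lf (nat_lit 0) (nat_lit 2900848233) (nat_lit 228) (nat_lit 4590859656) (nat_lit 76) (nat_lit 174604755) (nat_lit 39) (nat_lit 5) (nat_lit 42) (nat_lit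 5) (nat_lit 40) (nat_lit 5) (nat_lit 345) (nat_lit 342) (nat_lit 333)) (XT.lf (nat_lit 0) (nat_lit 5002122066) (nat_lit 228) (nat_lit 274935875) (nat_lit 76) (nat_lit 2806004622) (nat_lit 39) (nat_lit 5) (nat_lit 42) (nat_lit 5) (nat_lit 40) (nat_lit 5) (nat_lit 346) (nat_lit 342) (nat_lit 332)))) (XT.nd (nat_lit 78) (nat_lit 380) (nat_lit 0) (XT.lf (nat_lit 0) (nat_lit 4914134726) (nat_lit 228) (nat_lit 2473233755) (nat_lit 304) (nat_lit 1179840225) (nat_lit 36) (nat_lit 5) (nat_lit 39) (nat_lit 5) (nat_lit 40) (nat_lit 5) (nat_lit 347) (nat_lit 342) (nat_lit 331)) (XT.nd (nat_lit 78) (nat_lit 0) (nat_lit 0) (XT.lf (nat_lit 0) (nat_lit 815483846) (nat_lit 380) (nat_lit 7502467598) (nat_lit 76) (nat_lit 815127545) (nat_lit 31) (nat_lit 5) (nat_lit 36) (nat_lit 5) (nat_lit 32) (nat_lit 5) (nat_lit 348) (nat_lit 342) (nat_lit 330)) (XT.lf (nat_lit 0) (nat_lit 3104130853) (nat_lit 380) (nat_lit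 2064718521) (nat_lit 76) (nat_lit 4589462522) (nat_lit 31) (nat_lit 5) (nat_lit 36) (nat_lit 5) (nat_lit 32) (nat_lit 5) (nat_lit 349) (nat_lit 342) (nat_lit 329))))) (XT.nd (nat_lit 234) (nat_lit 228) (nat_lit 0) (XT.nd (nat_lit 78) (nat_lit 152) (nat_lit 0) (XT.lf (nat_lit 0) (nat_lit 4365239941) (nat_lit 152) (nat_lit 1375064306) (nat_lit 228) (nat_lit 4736505994) (nat_lit 29) (nat_lit 5) (nat_lit 31) (nat_lit 5) (nat_lit 32) (nat_lit 5) (nat_lit 350) (nat_lit 342) (nat_lit 328)) (XT.nd (nat_lit 78) (nat_lit 76) (nat_lit 0) (XT.lf (nat_lit 0) (nat_lit 385134072) (nat_lit 76) (nat_lit 8475940486) (nat_lit 152) (nat_lit 2428733058) (nat_lit 28) (nat_lit 5) (nat_lit 29) (nat_lit 5) (nat_lit 30) (nat_lit 4) (nat_lit 351) (nat_lit 342) (nat_lit 327)) (XT.lf (nat_lit 0) (nat_lit 446914126) (nat_lit 152) (nat_lit 3954112711) (nat_lit 76) (nat_lit 7786140862) (nat_lit 27) (nat_lit 5) (nat_lit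 29) (nat_lit 5) (nat_lit 28) (nat_lit 5) (nat_lit 352) (nat_lit 342) (nat_lit 326)))) (XT.nd (nat_lit 78) (nat_lit 76) (nat_lit 0) (XT.lf (nat_lit 0) (nat_lit 3559514477) (nat_lit 228) (nat_lit 9133091562) (nat_lit 76) (nat_lit 501104044) (nat_lit 25) (nat_lit 5) (nat_lit 28) (nat_lit 5) (nat_lit 26) (nat_lit 4) (nat_lit 353) (nat_lit 342) (nat_lit 325)) (XT.nd (nat_lit 78) (nat_lit 76) (nat_lit 0) (XT.lf (nat_lit 0) (nat_lit 7434782636) (nat_lit 228) (nat_lit 1025568399) (nat_lit 76) (nat_lit 5846573255) (nat_lit 25) (nat_lit 5) (nat_lit 28) (nat_lit 5) (nat_lit 26) (nat_lit 4) (nat_lit 354) (nat_lit 342) (nat_lit 324)) (XT.lf (nat_lit 0) (nat_lit 8910609960) (nat_lit 76) (nat_lit 3236370245) (nat_lit 152) (nat_lit 3401844218) (nat_lit 24) (nat_lit 5) (nat_lit 25) (nat_lit 5) (nat_lit 26) (nat_lit 4) (nat_lit 355) (nat_lit 342) (nat_lit 323)))))) (XT.nd (nat_lit 468) (nat_lit 380) (nat_lit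 0) (XT.nd (nat_lit 234) (nat_lit 228) (nat_lit 0) (XT.nd (nat_lit 78) (nat_lit 76) (nat_lit 0) (XT.lf (nat_lit 0) (nat_lit 753400979) (nat_lit 152) (nat_lit 13488886207) (nat_lit 76) (nat_lit 2698575609) (nat_lit 22) (nat_lit 5) (nat_lit 24) (nat_lit 5) (nat_lit 23) (nat_lit 4) (nat_lit 356) (nat_lit 342) (nat_lit 322)) (XT.nd (nat_lit 78) (nat_lit 76) (nat_lit 0) (XT.lf (nat_lit 0) (nat_lit 5594755938) (nat_lit 152) (nat_lit 3208219229) (nat_lit 76) (nat_lit 9652799476) (nat_lit 22) (nat_lit 5) (nat_lit 24) (nat_lit 5) (nat_lit 23) (nat_lit 4) (nat_lit 357) (nat_lit 342) (nat_lit 321)) (XT.lf (nat_lit 0) (nat_lit 9277280807) (nat_lit 76) (nat_lit 2176553483) (nat_lit 152) (nat_lit 8700389357) (nat_lit 21) (nat_lit 5) (nat_lit 22) (nat_lit 5) (nat_lit 23) (nat_lit 4) (nat_lit 358) (nat_lit 342) (nat_lit 320)))) (XT.nd (nat_lit 78) (nat_lit 152) (nat_lit 0) (XT.lf (nat_lit 0) (nat_lit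 1662479901) (nat_lit 76) (nat_lit 16909391821) (nat_lit 76) (nat_lit 3478578379) (nat_lit 20) (nat_lit 4) (nat_lit 21) (nat_lit 5) (nat_lit 21) (nat_lit 4) (nat_lit 359) (nat_lit 342) (nat_lit 319)) (XT.nd (nat_lit 78) (nat_lit 76) (nat_lit 0) (XT.lf (nat_lit 0) (nat_lit 2912122287) (nat_lit 152) (nat_lit 7243075694) (nat_lit 76) (nat_lit 13968656904) (nat_lit 19) (nat_lit 5) (nat_lit 21) (nat_lit 5) (nat_lit 20) (nat_lit 4) (nat_lit 360) (nat_lit 342) (nat_lit 318)) (XT.lf (nat_lit 0) (nat_lit 8301627558) (nat_lit 76) (nat_lit 1870245553) (nat_lit 152) (nat_lit 16271578744) (nat_lit 18) (nat_lit 5) (nat_lit 19) (nat_lit 5) (nat_lit 20) (nat_lit 4) (nat_lit 361) (nat_lit 342) (nat_lit 317))))) (XT.nd (nat_lit 234) (nat_lit 152) (nat_lit 0) (XT.nd (nat_lit 78) (nat_lit 228) (nat_lit 0) (XT.lf (nat_lit 0) (nat_lit 19158734248) (nat_lit 152) (nat_lit 2544197925) (nat_lit 0) (nat_lit 7312348165)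 (nat_lit 18) (nat_lit 5) (nat_lit 20) (nat_lit 4) (nat_lit 18) (nat_lit 4) (nat_lit 362) (nat_lit 342) (nat_lit 316)) (XT.nd (nat_lit 78) (nat_lit 152) (nat_lit 0) (XT.lf (nat_lit 0) (nat_lit 16659359114) (nat_lit 76) (nat_lit 13547435378) (nat_lit 76) (nat_lit 1659125389) (nat_lit 17) (nat_lit 4) (nat_lit 18) (nat_lit 5) (nat_lit 18) (nat_lit 4) (nat_lit 363) (nat_lit 342) (nat_lit 315)) (XT.lf (nat_lit 0) (nat_lit 3785881272) (nat_lit 76) (nat_lit 3521396323) (nat_lit 152) (nat_lit 27754000852) (nat_lit 15) (nat_lit 5) (nat_lit 16) (nat_lit 5) (nat_lit 17) (nat_lit 4) (nat_lit 364) (nat_lit 342) (nat_lit 314)))) (XT.nd (nat_lit 78) (nat_lit 152) (nat_lit 0) (XT.lf (nat_lit 0) (nat_lit 18548877209) (nat_lit 152) (nat_lit 11858255707) (nat_lit 0) (nat_lit 8151950206) (nat_lit 15) (nat_lit 5) (nat_lit 17) (nat_lit 4) (nat_lit 15) (nat_lit 4) (nat_lit 365) (nat_lit 342) (nat_lit 313)) (XT.nd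 (nat_lit 78) (nat_lit 76) (nat_lit 0) (XT.lf (nat_lit 0) (nat_lit 11187333836) (nat_lit 76) (nat_lit 20864435468) (nat_lit 76) (nat_lit 10443538336) (nat_lit 14) (nat_lit 4) (nat_lit 15) (nat_lit 5) (nat_lit 15) (nat_lit 4) (nat_lit 366) (nat_lit 342) (nat_lit 312)) (XT.lf (nat_lit 0) (nat_lit 1102259119) (nat_lit 152) (nat_lit 8071883615) (nat_lit 76) (nat_lit 37755289025) (nat_lit 13) (nat_lit 5) (nat_lit 15) (nat_lit 5) (nat_lit 14) (nat_lit 4) (nat_lit 367) (nat_lit 342) (nat_lit 311))))))) (XT.nd (nat_lit 936) (nat_lit 228) (nat_lit 0) (XT.nd (nat_lit 468) (nat_lit 304) (nat_lit 0) (XT.nd (nat_lit 234) (nat_lit 152) (nat_lit 0) (XT.nd (nat_lit 78) (nat_lit 76) (nat_lit 0) (XT.lf (nat_lit 0) (nat_lit 14320540854) (nat_lit 152) (nat_lit 32257060883) (nat_lit 0) (nat_lit 5225005564) (nat_lit 12) (nat_lit 5) (nat_lit 14) (nat_lit 4) (nat_lit 12) (nat_lit 4) (nat_lit 368) (nat_lit 342)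 (nat_lit 310)) (XT.nd (nat_lit 78) (nat_lit 76) (nat_lit 0) (XT.lf (nat_lit 0) (nat_lit 30352597897) (nat_lit 152) (nat_lit 5686152724) (nat_lit 0) (nat_lit 21243357608) (nat_lit 12) (nat_lit 5) (nat_lit 14) (nat_lit 4) (nat_lit 12) (nat_lit 4) (nat_lit 369) (nat_lit 342) (nat_lit 309)) (XT.lf (nat_lit 0) (nat_lit 27206895197) (nat_lit 76) (nat_lit 22667528147) (nat_lit 76) (nat_lit 13546370468) (nat_lit 11) (nat_lit 4) (nat_lit 12) (nat_lit 5) (nat_lit 12) (nat_lit 4) (nat_lit 370) (nat_lit 342) (nat_lit 308)))) (XT.nd (nat_lit 78) (nat_lit 76) (nat_lit 0) (XT.lf (nat_lit 0) (nat_lit 1949974470) (nat_lit 152) (nat_lit 4939075515) (nat_lit 76) (nat_lit 63539291808) (nat_lit 10) (nat_lit 5) (nat_lit 12) (nat_lit 5) (nat_lit 11) (nat_lit 4) (nat_lit 371) (nat_lit 342) (nat_lit 307)) (XT.nd (nat_lit 78) (nat_lit 0) (nat_lit 0) (XT.lf (nat_lit 0) (nat_lit 20286246182) (nat_lit 152) (nat_lit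 45480705908) (nat_lit 0) (nat_lit 12337957585) (nat_lit 9) (nat_lit 5) (nat_lit 11) (nat_lit 4) (nat_lit 9) (nat_lit 4) (nat_lit 372) (nat_lit 342) (nat_lit 306)) (XT.lf (nat_lit 0) (nat_lit 41935651656) (nat_lit 152) (nat_lit 10932359878) (nat_lit 0) (nat_lit 33980549252) (nat_lit 9) (nat_lit 5) (nat_lit 11) (nat_lit 4) (nat_lit 9) (nat_lit 4) (nat_lit 373) (nat_lit 342) (nat_lit 305))))) (XT.nd (nat_lit 234) (nat_lit 76) (nat_lit 0) (XT.nd (nat_lit 78) (nat_lit 152) (nat_lit 0) (XT.lf (nat_lit 0) (nat_lit 31541173689) (nat_lit 76) (nat_lit 36566190326) (nat_lit 76) (nat_lit 28605162873) (nat_lit 8) (nat_lit 4) (nat_lit 9) (nat_lit 5) (nat_lit 9) (nat_lit 4) (nat_lit 374) (nat_lit 342) (nat_lit 304)) (XT.nd (nat_lit 78) (nat_lit 152) (nat_lit 0) (XT.lf (nat_lit 0) (nat_lit 81552265783) (nat_lit 76) (nat_lit 17194366706) (nat_lit 76) (nat_lit 9228187036) (nat_lit 8) (nat_lit 4) (nat_lit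 9) (nat_lit 5) (nat_lit 9) (nat_lit 4) (nat_lit 375) (nat_lit 342) (nat_lit 303)) (XT.lf (nat_lit 0) (nat_lit 12936335545) (nat_lit 152) (nat_lit 101747214155) (nat_lit 0) (nat_lit 6005326973) (nat_lit 6) (nat_lit 5) (nat_lit 8) (nat_lit 4) (nat_lit 6) (nat_lit 4) (nat_lit 376) (nat_lit 342) (nat_lit 302)))) (XT.nd (nat_lit 78) (nat_lit 76) (nat_lit 0) (XT.lf (nat_lit 0) (nat_lit 39719561312) (nat_lit 152) (nat_lit 62403579072) (nat_lit 0) (nat_lit 32785165073) (nat_lit 6) (nat_lit 5) (nat_lit 8) (nat_lit 4) (nat_lit 6) (nat_lit 4) (nat_lit 377) (nat_lit 342) (nat_lit 301)) (XT.nd (nat_lit 78) (nat_lit 76) (nat_lit 0) (XT.lf (nat_lit 0) (nat_lit 70496868019) (nat_lit 152) (nat_lit 17207765857) (nat_lit 0) (nat_lit 63559525984) (nat_lit 6) (nat_lit 5) (nat_lit 8) (nat_lit 4) (nat_lit 6) (nat_lit 4) (nat_lit 378) (nat_lit 342) (nat_lit 300)) (XT.lf (nat_lit 0) (nat_lit 38118021240) (nat_lit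 76) (nat_lit 69330785095) (nat_lit 76) (nat_lit 62390881498) (nat_lit 5) (nat_lit 4) (nat_lit 6) (nat_lit 5) (nat_lit 6) (nat_lit 4) (nat_lit 379) (nat_lit 342) (nat_lit 299)))))) (XT.nd (nat_lit 468) (nat_lit 76) (nat_lit 0) (XT.nd (nat_lit 234) (nat_lit 0) (nat_lit 0) (XT.nd (nat_lit 78) (nat_lit 152) (nat_lit 0) (XT.lf (nat_lit 0) (nat_lit 103635617964) (nat_lit 76) (nat_lit 47188021558) (nat_lit 76) (nat_lit 40245890515) (nat_lit 5) (nat_lit 4) (nat_lit 6) (nat_lit 5) (nat_lit 6) (nat_lit 4) (nat_lit 380) (nat_lit 342) (nat_lit 298)) (XT.nd (nat_lit 78) (nat_lit 152) (nat_lit 0) (XT.lf (nat_lit 0) (nat_lit 178945222308) (nat_lit 76) (nat_lit 21742612134) (nat_lit 76) (nat_lit 14798544182) (nat_lit 5) (nat_lit 4) (nat_lit 6) (nat_lit 5) (nat_lit 6) (nat_lit 4) (nat_lit 381) (nat_lit 342) (nat_lit 297)) (XT.lf (nat_lit 0) (nat_lit 14518731011) (nat_lit 152) (nat_lit 220277124850) (nat_lit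 0) (nat_lit 8478946472) (nat_lit 3) (nat_lit 5) (nat_lit 5) (nat_lit 4) (nat_lit 3) (nat_lit 4) (nat_lit 382) (nat_lit 342) (nat_lit 296)))) (XT.nd (nat_lit 78) (nat_lit 0) (nat_lit 0) (XT.lf (nat_lit 0) (nat_lit 49739613882) (nat_lit 152) (nat_lit 181234450594) (nat_lit 0) (nat_lit 43698555793) (nat_lit 3) (nat_lit 5) (nat_lit 5) (nat_lit 4) (nat_lit 3) (nat_lit 4) (nat_lit 383) (nat_lit 342) (nat_lit 295)) (XT.nd (nat_lit 78) (nat_lit 0) (nat_lit 0) (XT.lf (nat_lit 0) (nat_lit 90230307131) (nat_lit 152) (nat_lit 136363660788) (nat_lit 0) (nat_lit 84188141608) (nat_lit 3) (nat_lit 5) (nat_lit 5) (nat_lit 4) (nat_lit 3) (nat_lit 4) (nat_lit 384) (nat_lit 342) (nat_lit 294)) (XT.lf (nat_lit 0) (nat_lit 136783019973) (nat_lit 152) (nat_lit 84786848677) (nat_lit 0) (nat_lit 130739891464) (nat_lit 3) (nat_lit 5) (nat_lit 5) (nat_lit 4) (nat_lit 3) (nat_lit 4) (nat_lit 385) (nat_lit 342) (nat_lit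 293))))) (XT.nd (nat_lit 234) (nat_lit 0) (nat_lit 0) (XT.nd (nat_lit 78) (nat_lit 76) (nat_lit 0) (XT.lf (nat_lit 0) (nat_lit 190308566357) (nat_lit 152) (nat_lit 25494902718) (nat_lit 0) (nat_lit 184264600469) (nat_lit 3) (nat_lit 5) (nat_lit 5) (nat_lit 4) (nat_lit 3) (nat_lit 4) (nat_lit 386) (nat_lit 342) (nat_lit 292)) (XT.nd (nat_lit 78) (nat_lit 0) (nat_lit 0) (XT.lf (nat_lit 0) (nat_lit 46842478233) (nat_lit 76) (nat_lit 206951354131) (nat_lit 76) (nat_lit 200906660086) (nat_lit 2) (nat_lit 4) (nat_lit 3) (nat_lit 5) (nat_lit 3) (nat_lit 4) (nat_lit 387) (nat_lit 342) (nat_lit 291)) (XT.lf (nat_lit 0) (nat_lit 132877992875) (nat_lit 76) (nat_lit 195248231458) (nat_lit 76) (nat_lit 189202904235) (nat_lit 2) (nat_lit 4) (nat_lit 3) (nat_lit 5) (nat_lit 3) (nat_lit 4) (nat_lit 388) (nat_lit 342) (nat_lit 290)))) (XT.nd (nat_lit 156) (nat_lit 0) (nat_lit 0) (XT.nd (nat_lit 78) (nat_lit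 0) (nat_lit 0) (XT.lf (nat_lit 0) (nat_lit 231803397444) (nat_lit 76) (nat_lit 181797815016) (nat_lit 76) (nat_lit 175751937202) (nat_lit 2) (nat_lit 4) (nat_lit 3) (nat_lit 5) (nat_lit 3) (nat_lit 4) (nat_lit 389) (nat_lit 342) (nat_lit 289)) (XT.lf (nat_lit 0) (nat_lit 345554188985) (nat_lit 76) (nat_lit 166336944482) (nat_lit 76) (nat_lit 160290587894) (nat_lit 2) (nat_lit 4) (nat_lit 3) (nat_lit 5) (nat_lit 3) (nat_lit 4) (nat_lit 390) (nat_lit 342) (nat_lit 288))) (XT.nd (nat_lit 78) (nat_lit 0) (nat_lit 0) (XT.lf (nat_lit 0) (nat_lit 476355926465) (nat_lit 76) (nat_lit 148563124562) (nat_lit 76) (nat_lit 142516351649) (nat_lit 2) (nat_lit 4) (nat_lit 3) (nat_lit 5) (nat_lit 3) (nat_lit 4) (nat_lit 391) (nat_lit 342) (nat_lit 287)) (XT.lf (nat_lit 0) (nat_lit 626767774310) (nat_lit 76) (nat_lit 128128606607) (nat_lit 76) (nat_lit 122081471672) (nat_lit 2) (nat_lit 4) (nat_lit 3)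 (nat_lit 5) (nat_lit 3) (nat_lit 4) (nat_lit 392) (nat_lit 342) (nat_lit 286))))))))
noncomputable def xc51 : XT := (XT.nd (nat_lit 1872) (nat_lit 0) (nat_lit 0) (XT.nd (nat_lit 936) (nat_lit 0) (nat_lit 0) (XT.nd (nat_lit 468) (nat_lit 0) (nat_lit 0) (XT.nd (nat_lit 234) (nat_lit 76) (nat_lit 0) (XT.nd (nat_lit 78) (nat_lit 0) (nat_lit 0) (XT.lf (nat_lit 0) (nat_lit 799732573024) (nat_lit 76) (nat_lit 104633584831) (nat_lit 76) (nat_lit 98586135093) (nat_lit 2) (nat_lit 4) (nat_lit 3) (nat_lit 5) (nat_lit 3) (nat_lit 4) (nat_lit 393) (nat_lit 342) (nat_lit 285)) (XT.nd (nat_lit 78) (nat_lit 0) (nat_lit 0) (XT.lf (nat_lit 0) (nat_lit 998634416493) (nat_lit 76) (nat_lit 77618374024) (nat_lit 76) (nat_lit 71570650546) (nat_lit 2) (nat_lit 4) (nat_lit 3) (nat_lit 5) (nat_lit 3) (nat_lit 4) (nat_lit 394) (nat_lit 342) (nat_lit 284)) (XT.lf (nat_lit 0) (nat_lit 1227364862526) (nat_lit 76)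 (nat_lit 46554415715) (nat_lit 76) (nat_lit 40506454201) (nat_lit 2) (nat_lit 4) (nat_lit 3) (nat_lit 5) (nat_lit 3) (nat_lit 4) (nat_lit 395) (nat_lit 342) (nat_lit 283)))) (XT.nd (nat_lit 78) (nat_lit 76) (nat_lit 0) (XT.lf (nat_lit 0) (nat_lit 1490399072021) (nat_lit 76) (nat_lit 10833936805) (nat_lit 76) (nat_lit 4785768304) (nat_lit 2) (nat_lit 4) (nat_lit 3) (nat_lit 5) (nat_lit 3) (nat_lit 4) (nat_lit 396) (nat_lit 342) (nat_lit 282)) (XT.nd (nat_lit 78) (nat_lit 0) (nat_lit 0) (XT.lf (nat_lit 0) (nat_lit 37479933374) (nat_lit 76) (nat_lit 1655762227520) (nat_lit 0) (nat_lit 32220499905) (nat_lit 1) (nat_lit 5) (nat_lit 2) (nat_lit 4) (nat_lit 1) (nat_lit 4) (nat_lit 397) (nat_lit 342) (nat_lit 281)) (XT.lf (nat_lit 0) (nat_lit 86964302566) (nat_lit 76) (nat_lit 1808914589867) (nat_lit 0) (nat_lit 81704732999) (nat_lit 1) (nat_lit 5) (nat_lit 2) (nat_lit 4) (nat_lit 1) (nat_lit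 4) (nat_lit 398) (nat_lit 342) (nat_lit 280))))) (XT.nd (nat_lit 234) (nat_lit 0) (nat_lit 0) (XT.nd (nat_lit 78) (nat_lit 0) (nat_lit 0) (XT.lf (nat_lit 0) (nat_lit 143869168197) (nat_lit 76) (nat_lit 1985044410153) (nat_lit 0) (nat_lit 138609480285) (nat_lit 1) (nat_lit 5) (nat_lit 2) (nat_lit 4) (nat_lit 1) (nat_lit 4) (nat_lit 399) (nat_lit 342) (nat_lit 279)) (XT.nd (nat_lit 78) (nat_lit 0) (nat_lit 0) (XT.lf (nat_lit 0) (nat_lit 209307886335) (nat_lit 76) (nat_lit 2187597706601) (nat_lit 0) (nat_lit 204048095513) (nat_lit 1) (nat_lit 5) (nat_lit 2) (nat_lit 4) (nat_lit 1) (nat_lit 4) (nat_lit 400) (nat_lit 342) (nat_lit 278)) (XT.lf (nat_lit 0) (nat_lit 284560779726) (nat_lit 76) (nat_lit 2420537478489) (nat_lit 0) (nat_lit 279300899418) (nat_lit 1) (nat_lit 5) (nat_lit 2) (nat_lit 4) (nat_lit 1) (nat_lit 4) (nat_lit 401) (nat_lit 342) (nat_lit 277)))) (XT.nd (nat_lit 78) (nat_lit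 0) (nat_lit 0) (XT.lf (nat_lit 0) (nat_lit 371100187588) (nat_lit 76) (nat_lit 2688421243093) (nat_lit 0) (nat_lit 365840229466) (nat_lit 1) (nat_lit 5) (nat_lit 2) (nat_lit 4) (nat_lit 1) (nat_lit 4) (nat_lit 402) (nat_lit 342) (nat_lit 276)) (XT.nd (nat_lit 78) (nat_lit 0) (nat_lit 0) (XT.lf (nat_lit 0) (nat_lit 470619272249) (nat_lit 76) (nat_lit 2996490204503) (nat_lit 0) (nat_lit 465359246462) (nat_lit 1) (nat_lit 5) (nat_lit 2) (nat_lit 4) (nat_lit 1) (nat_lit 4) (nat_lit 403) (nat_lit 342) (nat_lit 275)) (XT.lf (nat_lit 0) (nat_lit 585065146236) (nat_lit 76) (nat_lit 3350771798920) (nat_lit 0) (nat_lit 579805061610) (nat_lit 1) (nat_lit 5) (nat_lit 2) (nat_lit 4) (nat_lit 1) (nat_lit 4) (nat_lit 404) (nat_lit 342) (nat_lit 274)))))) (XT.nd (nat_lit 468) (nat_lit 0) (nat_lit 0) (XT.nd (nat_lit 234) (nat_lit 0) (nat_lit 0) (XT.nd (nat_lit 78) (nat_lit 0) (nat_lit 0) (XT.lf (nat_lit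 0) (nat_lit 716676967951) (nat_lit 76) (nat_lit 3758197622758) (nat_lit 0) (nat_lit 711416832161) (nat_lit 1) (nat_lit 5) (nat_lit 2) (nat_lit 4) (nat_lit 1) (nat_lit 4) (nat_lit 405) (nat_lit 342) (nat_lit 273)) (XT.nd (nat_lit 78) (nat_lit 0) (nat_lit 0) (XT.lf (nat_lit 0) (nat_lit 868029751298) (nat_lit 76) (nat_lit 4226739050831) (nat_lit 0) (nat_lit 862769571018) (nat_lit 1) (nat_lit 5) (nat_lit 2) (nat_lit 4) (nat_lit 1) (nat_lit 4) (nat_lit 406) (nat_lit 342) (nat_lit 272)) (XT.lf (nat_lit 0) (nat_lit 1042084746387) (nat_lit 76) (nat_lit 4765563198034) (nat_lit 0) (nat_lit 1036824527419) (nat_lit 1) (nat_lit 5) (nat_lit 2) (nat_lit 4) (nat_lit 1) (nat_lit 4) (nat_lit 407) (nat_lit 342) (nat_lit 271)))) (XT.nd (nat_lit 78) (nat_lit 0) (nat_lit 0) (XT.lf (nat_lit 0) (nat_lit 1242247377034) (nat_lit 76) (nat_lit 5385212275945) (nat_lit 0) (nat_lit 1236987124425) (nat_lit 1) (nat_lit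 5) (nat_lit 2) (nat_lit 4) (nat_lit 1) (nat_lit 4) (nat_lit 408) (nat_lit 342) (nat_lit 270)) (XT.nd (nat_lit 78) (nat_lit 0) (nat_lit 0) (XT.lf (nat_lit 0) (nat_lit 1472433868621) (nat_lit 76) (nat_lit 6097809853479) (nat_lit 0) (nat_lit 1467173586759) (nat_lit 1) (nat_lit 5) (nat_lit 2) (nat_lit 4) (nat_lit 1) (nat_lit 4) (nat_lit 409) (nat_lit 342) (nat_lit 269)) (XT.lf (nat_lit 0) (nat_lit 1737147869897) (nat_lit 76) (nat_lit 6917298057153) (nat_lit 0) (nat_lit 1731887562598) (nat_lit 1) (nat_lit 5) (nat_lit 2) (nat_lit 4) (nat_lit 1) (nat_lit 4) (nat_lit 410) (nat_lit 342) (nat_lit 268))))) (XT.nd (nat_lit 234) (nat_lit 0) (nat_lit 0) (XT.nd (nat_lit 78) (nat_lit 0) (nat_lit 0) (XT.lf (nat_lit 0) (nat_lit 2041568567844) (nat_lit 76) (nat_lit 7859710351821) (nat_lit 0) (nat_lit 2036308238424) (nat_lit 1) (nat_lit 5) (nat_lit 2) (nat_lit 4) (nat_lit 1) (nat_lit 4) (nat_lit 411) (nat_lit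 342) (nat_lit 267)) (XT.nd (nat_lit 78) (nat_lit 0) (nat_lit 0) (XT.lf (nat_lit 0) (nat_lit 2391652019594) (nat_lit 76) (nat_lit 8943485238900) (nat_lit 0) (nat_lit 2386391670940) (nat_lit 1) (nat_lit 5) (nat_lit 2) (nat_lit 4) (nat_lit 1) (nat_lit 4) (nat_lit 412) (nat_lit 342) (nat_lit 266)) (XT.lf (nat_lit 0) (nat_lit 2794247683988) (nat_lit 76) (nat_lit 10189827009661) (nat_lit 0) (nat_lit 2788987318608) (nat_lit 1) (nat_lit 5) (nat_lit 2) (nat_lit 4) (nat_lit 1) (nat_lit 4) (nat_lit 413) (nat_lit 342) (nat_lit 265)))) (XT.nd (nat_lit 78) (nat_lit 0) (nat_lit 0) (XT.lf (nat_lit 0) (nat_lit 3257232432718) (nat_lit 76) (nat_lit 11623120611790) (nat_lit 0) (nat_lit 3251972052794) (nat_lit 1) (nat_lit 5) (nat_lit 2) (nat_lit 4) (nat_lit 1) (nat_lit 4) (nat_lit 414) (nat_lit 342) (nat_lit 264)) (XT.nd (nat_lit 78) (nat_lit 0) (nat_lit 0) (XT.lf (nat_lit 0) (nat_lit 3789664663043) (nat_lit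 76) (nat_lit 13271408746201) (nat_lit 0) (nat_lit 3784404270473) (nat_lit 1) (nat_lit 5) (nat_lit 2) (nat_lit 4) (nat_lit 1) (nat_lit 4) (nat_lit 415) (nat_lit 342) (nat_lit 263)) (XT.lf (nat_lit 0) (nat_lit 4401961527297) (nat_lit 76) (nat_lit 15166940528565) (nat_lit 0) (nat_lit 4396701123728) (nat_lit 1) (nat_lit 5) (nat_lit 2) (nat_lit 4) (nat_lit 1) (nat_lit 4) (nat_lit 416) (nat_lit 342) (nat_lit 262))))))) (XT.nd (nat_lit 2418) (nat_lit 0) (nat_lit 0) (XT.nd (nat_lit 468) (nat_lit 0) (nat_lit 0) (XT.nd (nat_lit 234) (nat_lit 0) (nat_lit 0) (XT.nd (nat_lit 78) (nat_lit 0) (nat_lit 0) (XT.lf (nat_lit 0) (nat_lit 5106102746734) (nat_lit 76) (nat_lit 17346802450278) (nat_lit 0) (nat_lit 5100842333603) (nat_lit 1) (nat_lit 5) (nat_lit 2) (nat_lit 4) (nat_lit 1) (nat_lit 4) (nat_lit 417) (nat_lit 342) (nat_lit 261)) (XT.nd (nat_lit 78) (nat_lit 0) (nat_lit 0) (XT.lf (nat_lit 0) (nat_lit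 5915864997389) (nat_lit 76) (nat_lit 19853643983719) (nat_lit 0) (nat_lit 5910604575942) (nat_lit 1) (nat_lit 5) (nat_lit 2) (nat_lit 4) (nat_lit 1) (nat_lit 4) (nat_lit 418) (nat_lit 342) (nat_lit 260)) (XT.lf (nat_lit 0) (nat_lit 6847091453730) (nat_lit 76) (nat_lit 22736512028458) (nat_lit 0) (nat_lit 6841831025053) (nat_lit 1) (nat_lit 5) (nat_lit 2) (nat_lit 4) (nat_lit 1) (nat_lit 4) (nat_lit 419) (nat_lit 342) (nat_lit 259)))) (XT.nd (nat_lit 78) (nat_lit 0) (nat_lit 0) (XT.lf (nat_lit 0) (nat_lit 7918001763817) (nat_lit 76) (nat_lit 26051810524499) (nat_lit 0) (nat_lit 7912741328851) (nat_lit 1) (nat_lit 5) (nat_lit 2) (nat_lit 4) (nat_lit 1) (nat_lit 4) (nat_lit 420) (nat_lit 342) (nat_lit 258)) (XT.nd (nat_lit 78) (nat_lit 0) (nat_lit 0) (XT.lf (nat_lit 0) (nat_lit 9149548520672) (nat_lit 76) (nat_lit 29864404007634) (nat_lit 0) (nat_lit 9144288080239) (nat_lit 1) (nat_lit 5)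 (nat_lit 2) (nat_lit 4) (nat_lit 1) (nat_lit 4) (nat_lit 421) (nat_lit 342) (nat_lit 257)) (XT.lf (nat_lit 0) (nat_lit 10565827204322) (nat_lit 76) (nat_lit 34248886698186) (nat_lit 0) (nat_lit 10560566759134) (nat_lit 1) (nat_lit 5) (nat_lit 2) (nat_lit 4) (nat_lit 1) (nat_lit 4) (nat_lit 422) (nat_lit 342) (nat_lit 256))))) (XT.nd (nat_lit 234) (nat_lit 0) (nat_lit 0) (XT.nd (nat_lit 78) (nat_lit 0) (nat_lit 0) (XT.lf (nat_lit 0) (nat_lit 12194547615097) (nat_lit 76) (nat_lit 39291041953144) (nat_lit 0) (nat_lit 12189287165776) (nat_lit 1) (nat_lit 5) (nat_lit 2) (nat_lit 4) (nat_lit 1) (nat_lit 4) (nat_lit 423) (nat_lit 342) (nat_lit 255)) (XT.nd (nat_lit 78) (nat_lit 0) (nat_lit 0) (XT.lf (nat_lit 0) (nat_lit 14067576021906) (nat_lit 76) (nat_lit 45089520636192) (nat_lit 0) (nat_lit 14062315568989) (nat_lit 1) (nat_lit 5) (nat_lit 2) (nat_lit 4) (nat_lit 1) (nat_lit 4) (nat_lit 424)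 (nat_lit 342) (nat_lit 254)) (XT.lf (nat_lit 0) (nat_lit 16221558632707) (nat_lit 76) (nat_lit 51757771243302) (nat_lit 0) (nat_lit 16216298176664) (nat_lit 1) (nat_lit 5) (nat_lit 2) (nat_lit 4) (nat_lit 1) (nat_lit 4) (nat_lit 425) (nat_lit 342) (nat_lit 253)))) (XT.nd (nat_lit 78) (nat_lit 0) (nat_lit 0) (XT.lf (nat_lit 0) (nat_lit 18698638585538) (nat_lit 76) (nat_lit 59426259547223) (nat_lit 0) (nat_lit 18693378126777) (nat_lit 1) (nat_lit 5) (nat_lit 2) (nat_lit 4) (nat_lit 1) (nat_lit 4) (nat_lit 426) (nat_lit 342) (nat_lit 252)) (XT.nd (nat_lit 78) (nat_lit 0) (nat_lit 0) (XT.lf (nat_lit 0) (nat_lit 21547280488171) (nat_lit 76) (nat_lit 68245021188682) (nat_lit 0) (nat_lit 21542020027046) (nat_lit 1) (nat_lit 5) (nat_lit 2) (nat_lit 4) (nat_lit 1) (nat_lit 4) (nat_lit 427) (nat_lit 342) (nat_lit 251)) (XT.lf (nat_lit 0) (nat_lit 24823218638702) (nat_lit 76) (nat_lit 78386597156318)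 (nat_lit 0) (nat_lit 24817958175521) (nat_lit 1) (nat_lit 5) (nat_lit 2) (nat_lit 4) (nat_lit 1) (nat_lit 4) (nat_lit 428) (nat_lit 342) (nat_lit 250)))))) (XT.nd (nat_lit 45162) (nat_lit 0) (nat_lit 2052) (XT.nd (nat_lit 44928) (nat_lit 0) (nat_lit 2812) (XT.nd (nat_lit 78) (nat_lit 0) (nat_lit 0) (XT.lf (nat_lit 0) (nat_lit 410761872336339) (nat_lit 76) (nat_lit 1273166906677080) (nat_lit 0) (nat_lit 410756611860293) (nat_lit 1) (nat_lit 5) (nat_lit 2) (nat_lit 4) (nat_lit 1) (nat_lit 4) (nat_lit 448) (nat_lit 342) (nat_lit 230)) (XT.nd (nat_lit 78) (nat_lit 0) (nat_lit 0) (XT.lf (nat_lit 0) (nat_lit 472419999027394) (nat_lit 76) (nat_lit 1464046765972705) (nat_lit 0) (nat_lit 472414738551238) (nat_lit 1) (nat_lit 5) (nat_lit 2) (nat_lit 4) (nat_lit 1) (nat_lit 4) (nat_lit 449) (nat_lit 342) (nat_lit 229)) (XT.lf (nat_lit 0) (nat_lit 543326844720375) (nat_lit 76) (nat_lit 1683558604166363)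 (nat_lit 0) (nat_lit 543321584244121) (nat_lit 1) (nat_lit 5) (nat_lit 2) (nat_lit 4) (nat_lit 1) (nat_lit 4) (nat_lit 450) (nat_lit 342) (nat_lit 228)))) (XT.nd (nat_lit 78) (nat_lit 0) (nat_lit 0) (XT.lf (nat_lit 0) (nat_lit 168842248) (nat_lit 0) (nat_lit 168842248) (nat_lit 228) (nat_lit 3308117965) (nat_lit 38) (nat_lit 5) (nat_lit 38) (nat_lit 3) (nat_lit 41) (nat_lit 3) (nat_lit 343) (nat_lit 343) (nat_lit 334)) (XT.nd (nat_lit 78) (nat_lit 0) (nat_lit 0) (XT.lf (nat_lit 0) (nat_lit 2330598610) (nat_lit 228) (nat_lit 3363508419) (nat_lit 304) (nat_lit 1902383758) (nat_lit 38) (nat_lit 5) (nat_lit 41) (nat_lit 3) (nat_lit 42) (nat_lit 5) (nat_lit 344) (nat_lit 343) (nat_lit 333)) (XT.lf (nat_lit 76) (nat_lit 623355237) (nat_lit 0) (nat_lit 3387941417) (nat_lit 304) (nat_lit 3969466383) (nat_lit 39) (nat_lit 5) (nat_lit 38) (nat_lit 5) (nat_lit 42) (nat_lit 5) (nat_lit 345) (nat_lit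 343) (nat_lit 332))))) (XT.nd (nat_lit 234) (nat_lit 532) (nat_lit 0) (XT.nd (nat_lit 78) (nat_lit 228) (nat_lit 0) (XT.lf (nat_lit 76) (nat_lit 5412986741) (nat_lit 0) (nat_lit 469576608) (nat_lit 304) (nat_lit 2549544148) (nat_lit 39) (nat_lit 5) (nat_lit 38) (nat_lit 5) (nat_lit 42) (nat_lit 5) (nat_lit 346) (nat_lit 343) (nat_lit 331)) (XT.nd (nat_lit 78) (nat_lit 76) (nat_lit 0) (XT.lf (nat_lit 0) (nat_lit 1829108895) (nat_lit 228) (nat_lit 6196587254) (nat_lit 304) (nat_lit 926955814) (nat_lit 36) (nat_lit 5) (nat_lit 39) (nat_lit 5) (nat_lit 40) (nat_lit 5) (nat_lit 347) (nat_lit 343) (nat_lit 330)) (XT.lf (nat_lit 0) (nat_lit 849434441) (nat_lit 304) (nat_lit 2047289275) (nat_lit 76) (nat_lit 6649752322) (nat_lit 35) (nat_lit 5) (nat_lit 39) (nat_lit 5) (nat_lit 36) (nat_lit 5) (nat_lit 348) (nat_lit 343) (nat_lit 329)))) (XT.nd (nat_lit 156) (nat_lit 228) (nat_lit 0) (XT.nd (nat_lit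 78) (nat_lit 0) (nat_lit 0) (XT.lf (nat_lit 0) (nat_lit 2838539242) (nat_lit 380) (nat_lit 6344312892) (nat_lit 76) (nat_lit 1033841584) (nat_lit 31) (nat_lit 5) (nat_lit 36) (nat_lit 5) (nat_lit 32) (nat_lit 5) (nat_lit 349) (nat_lit 343) (nat_lit 328)) (XT.lf (nat_lit 0) (nat_lit 5222561629) (nat_lit 380) (nat_lit 388752521) (nat_lit 76) (nat_lit 5361747037) (nat_lit 31) (nat_lit 5) (nat_lit 36) (nat_lit 5) (nat_lit 32) (nat_lit 5) (nat_lit 350) (nat_lit 343) (nat_lit 327))) (XT.nd (nat_lit 78) (nat_lit 76) (nat_lit 0) (XT.lf (nat_lit 0) (nat_lit 6915441811) (nat_lit 152) (nat_lit 1201620287) (nat_lit 228) (nat_lit 3702977349) (nat_lit 29) (nat_lit 5) (nat_lit 31) (nat_lit 5) (nat_lit 32) (nat_lit 5) (nat_lit 351) (nat_lit 343) (nat_lit 326)) (XT.lf (nat_lit 0) (nat_lit 2455072150) (nat_lit 76) (nat_lit 9150165726) (nat_lit 152) (nat_lit 1164977086) (nat_lit 28) (nat_lit 5) (nat_lit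 29) (nat_lit 5) (nat_lit 30) (nat_lit 4) (nat_lit 352) (nat_lit 343) (nat_lit 325))))))))
noncomputable def xc52 : XT := (XT.nd (nat_lit 1872) (nat_lit 532) (nat_lit 0) (XT.nd (nat_lit 936) (nat_lit 684) (nat_lit 0) (XT.nd (nat_lit 468) (nat_lit 380) (nat_lit 0) (XT.nd (nat_lit 234) (nat_lit 152) (nat_lit 0) (XT.nd (nat_lit 78) (nat_lit 228) (nat_lit 0) (XT.lf (nat_lit 0) (nat_lit 1803624501) (nat_lit 152) (nat_lit 2670866986) (nat_lit 76) (nat_lit 9346685274) (nat_lit 27) (nat_lit 5) (nat_lit 29) (nat_lit 5) (nat_lit 28) (nat_lit 5) (nat_lit 353) (nat_lit 343) (nat_lit 324)) (XT.nd (nat_lit 78) (nat_lit 76) (nat_lit 0) (XT.lf (nat_lit 0) (nat_lit 5313717660) (nat_lit 228) (nat_lit 8556760548) (nat_lit 76) (nat_lit 1118712113) (nat_lit 25) (nat_lit 5) (nat_lit 28) (nat_lit 5) (nat_lit 26) (nat_lit 4) (nat_lit 354) (nat_lit 343) (nat_lit 323)) (XT.lf (nat_lit 0) (nat_lit 563163243) (nat_lit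 76) (nat_lit 9071265751) (nat_lit 152) (nat_lit 6655404486) (nat_lit 24) (nat_lit 5) (nat_lit 25) (nat_lit 5) (nat_lit 26) (nat_lit 4) (nat_lit 355) (nat_lit 343) (nat_lit 322)))) (XT.nd (nat_lit 78) (nat_lit 152) (nat_lit 0) (XT.lf (nat_lit 0) (nat_lit 11862703024) (nat_lit 76) (nat_lit 3095922665) (nat_lit 152) (nat_lit 2773678188) (nat_lit 24) (nat_lit 5) (nat_lit 25) (nat_lit 5) (nat_lit 26) (nat_lit 4) (nat_lit 356) (nat_lit 343) (nat_lit 321)) (XT.nd (nat_lit 78) (nat_lit 0) (nat_lit 0) (XT.lf (nat_lit 0) (nat_lit 1863823650) (nat_lit 152) (nat_lit 13755029926) (nat_lit 76) (nat_lit 3713220943) (nat_lit 22) (nat_lit 5) (nat_lit 24) (nat_lit 5) (nat_lit 23) (nat_lit 4) (nat_lit 357) (nat_lit 343) (nat_lit 320)) (XT.lf (nat_lit 0) (nat_lit 7301284567) (nat_lit 152) (nat_lit 2161461494) (nat_lit 76) (nat_lit 11631031565) (nat_lit 22) (nat_lit 5) (nat_lit 24) (nat_lit 5) (nat_lit 23)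 (nat_lit 4) (nat_lit 358) (nat_lit 343) (nat_lit 319))))) (XT.nd (nat_lit 234) (nat_lit 152) (nat_lit 0) (XT.nd (nat_lit 78) (nat_lit 152) (nat_lit 0) (XT.lf (nat_lit 0) (nat_lit 12127409428) (nat_lit 76) (nat_lit 1859082056) (nat_lit 152) (nat_lit 9068447162) (nat_lit 21) (nat_lit 5) (nat_lit 22) (nat_lit 5) (nat_lit 23) (nat_lit 4) (nat_lit 359) (nat_lit 343) (nat_lit 318)) (XT.nd (nat_lit 78) (nat_lit 76) (nat_lit 0) (XT.lf (nat_lit 0) (nat_lit 3395492596) (nat_lit 76) (nat_lit 18755113265) (nat_lit 76) (nat_lit 3088267669) (nat_lit 20) (nat_lit 4) (nat_lit 21) (nat_lit 5) (nat_lit 21) (nat_lit 4) (nat_lit 360) (nat_lit 343) (nat_lit 317)) (XT.lf (nat_lit 0) (nat_lit 4071459103) (nat_lit 152) (nat_lit 6968652887) (nat_lit 76) (nat_lit 16593791313) (nat_lit 19) (nat_lit 5) (nat_lit 21) (nat_lit 5) (nat_lit 20) (nat_lit 4) (nat_lit 361) (nat_lit 343) (nat_lit 316)))) (XT.nd (nat_lit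 78) (nat_lit 76) (nat_lit 0) (XT.lf (nat_lit 0) (nat_lit 10845897482) (nat_lit 76) (nat_lit 1533823416) (nat_lit 152) (nat_lit 17927806500) (nat_lit 18) (nat_lit 5) (nat_lit 19) (nat_lit 5) (nat_lit 20) (nat_lit 4) (nat_lit 362) (nat_lit 343) (nat_lit 315)) (XT.nd (nat_lit 78) (nat_lit 76) (nat_lit 0) (XT.lf (nat_lit 0) (nat_lit 22647860713) (nat_lit 152) (nat_lit 1729374509) (nat_lit 0) (nat_lit 8897924751) (nat_lit 18) (nat_lit 5) (nat_lit 20) (nat_lit 4) (nat_lit 18) (nat_lit 4) (nat_lit 363) (nat_lit 343) (nat_lit 314)) (XT.lf (nat_lit 0) (nat_lit 20300331854) (nat_lit 76) (nat_lit 15019830124) (nat_lit 76) (nat_lit 1238193667) (nat_lit 17) (nat_lit 4) (nat_lit 18) (nat_lit 5) (nat_lit 18) (nat_lit 4) (nat_lit 364) (nat_lit 343) (nat_lit 313)))))) (XT.nd (nat_lit 468) (nat_lit 304) (nat_lit 0) (XT.nd (nat_lit 234) (nat_lit 152) (nat_lit 0) (XT.nd (nat_lit 78) (nat_lit 76) (nat_lit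 0) (XT.lf (nat_lit 0) (nat_lit 5500922903) (nat_lit 76) (nat_lit 3480530588) (nat_lit 152) (nat_lit 31252228492) (nat_lit 15) (nat_lit 5) (nat_lit 16) (nat_lit 5) (nat_lit 17) (nat_lit 4) (nat_lit 365) (nat_lit 343) (nat_lit 312)) (XT.nd (nat_lit 78) (nat_lit 76) (nat_lit 0) (XT.lf (nat_lit 0) (nat_lit 21854381353) (nat_lit 152) (nat_lit 12584486688) (nat_lit 0) (nat_lit 9825535933) (nat_lit 15) (nat_lit 5) (nat_lit 17) (nat_lit 4) (nat_lit 15) (nat_lit 4) (nat_lit 366) (nat_lit 343) (nat_lit 311)) (XT.lf (nat_lit 0) (nat_lit 13870100042) (nat_lit 76) (nat_lit 23485968403) (nat_lit 76) (nat_lit 11438998121) (nat_lit 14) (nat_lit 4) (nat_lit 15) (nat_lit 5) (nat_lit 15) (nat_lit 4) (nat_lit 367) (nat_lit 343) (nat_lit 310)))) (XT.nd (nat_lit 78) (nat_lit 76) (nat_lit 0) (XT.lf (nat_lit 0) (nat_lit 1719972143) (nat_lit 152) (nat_lit 8364790922) (nat_lit 76) (nat_lit 43816184114) (nat_lit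 13) (nat_lit 5) (nat_lit 15) (nat_lit 5) (nat_lit 14) (nat_lit 4) (nat_lit 368) (nat_lit 343) (nat_lit 309)) (XT.nd (nat_lit 78) (nat_lit 0) (nat_lit 0) (XT.lf (nat_lit 0) (nat_lit 16916759293) (nat_lit 152) (nat_lit 36173470352) (nat_lit 0) (nat_lit 6415510572) (nat_lit 12) (nat_lit 5) (nat_lit 14) (nat_lit 4) (nat_lit 12) (nat_lit 4) (nat_lit 369) (nat_lit 343) (nat_lit 308)) (XT.lf (nat_lit 0) (nat_lit 35295172200) (nat_lit 152) (nat_lit 5737206360) (nat_lit 0) (nat_lit 24783560531) (nat_lit 12) (nat_lit 5) (nat_lit 14) (nat_lit 4) (nat_lit 12) (nat_lit 4) (nat_lit 370) (nat_lit 343) (nat_lit 307))))) (XT.nd (nat_lit 234) (nat_lit 76) (nat_lit 0) (XT.nd (nat_lit 78) (nat_lit 152) (nat_lit 0) (XT.lf (nat_lit 0) (nat_lit 32053350146) (nat_lit 76) (nat_lit 25672787327) (nat_lit 76) (nat_lit 15152164399) (nat_lit 11) (nat_lit 4) (nat_lit 12) (nat_lit 5) (nat_lit 12) (nat_lit 4) (nat_lit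 371) (nat_lit 343) (nat_lit 306)) (XT.nd (nat_lit 78) (nat_lit 76) (nat_lit 0) (XT.lf (nat_lit 0) (nat_lit 2580054800) (nat_lit 152) (nat_lit 4981340984) (nat_lit 76) (nat_lit 73380538166) (nat_lit 10) (nat_lit 5) (nat_lit 12) (nat_lit 5) (nat_lit 11) (nat_lit 4) (nat_lit 372) (nat_lit 343) (nat_lit 305)) (XT.lf (nat_lit 0) (nat_lit 23664660808) (nat_lit 152) (nat_lit 51602090790) (nat_lit 0) (nat_lit 14503554189) (nat_lit 9) (nat_lit 5) (nat_lit 11) (nat_lit 4) (nat_lit 9) (nat_lit 4) (nat_lit 373) (nat_lit 343) (nat_lit 304)))) (XT.nd (nat_lit 78) (nat_lit 76) (nat_lit 0) (XT.lf (nat_lit 0) (nat_lit 48517719142) (nat_lit 152) (nat_lit 11962891247) (nat_lit 0) (nat_lit 39351460306) (nat_lit 9) (nat_lit 5) (nat_lit 11) (nat_lit 4) (nat_lit 9) (nat_lit 4) (nat_lit 374) (nat_lit 343) (nat_lit 303)) (XT.nd (nat_lit 78) (nat_lit 0) (nat_lit 0) (XT.lf (nat_lit 0) (nat_lit 36853975872) (nat_lit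 76) (nat_lit 41747245980) (nat_lit 76) (nat_lit 32576506955) (nat_lit 8) (nat_lit 4) (nat_lit 9) (nat_lit 5) (nat_lit 9) (nat_lit 4) (nat_lit 375) (nat_lit 343) (nat_lit 302)) (XT.lf (nat_lit 0) (nat_lit 94290867503) (nat_lit 76) (nat_lit 19509284412) (nat_lit 76) (nat_lit 10334649571) (nat_lit 8) (nat_lit 4) (nat_lit 9) (nat_lit 5) (nat_lit 9) (nat_lit 4) (nat_lit 376) (nat_lit 343) (nat_lit 301))))))) (XT.nd (nat_lit 936) (nat_lit 76) (nat_lit 0) (XT.nd (nat_lit 468) (nat_lit 228) (nat_lit 0) (XT.nd (nat_lit 234) (nat_lit 76) (nat_lit 0) (XT.nd (nat_lit 78) (nat_lit 0) (nat_lit 0) (XT.lf (nat_lit 0) (nat_lit 15128775507) (nat_lit 152) (nat_lit 116477738562) (nat_lit 0) (nat_lit 7147886370) (nat_lit 6) (nat_lit 5) (nat_lit 8) (nat_lit 4) (nat_lit 6) (nat_lit 4) (nat_lit 377) (nat_lit 343) (nat_lit 300)) (XT.nd (nat_lit 78) (nat_lit 0) (nat_lit 0) (XT.lf (nat_lit 0) (nat_lit 45896616926)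 (nat_lit 152) (nat_lit 71301891831) (nat_lit 0) (nat_lit 37913166227) (nat_lit 6) (nat_lit 5) (nat_lit 8) (nat_lit 4) (nat_lit 6) (nat_lit 4) (nat_lit 378) (nat_lit 343) (nat_lit 299)) (XT.lf (nat_lit 0) (nat_lit 81261938585) (nat_lit 152) (nat_lit 19386996734) (nat_lit 0) (nat_lit 73276260441) (nat_lit 6) (nat_lit 5) (nat_lit 8) (nat_lit 4) (nat_lit 6) (nat_lit 4) (nat_lit 379) (nat_lit 343) (nat_lit 298)))) (XT.nd (nat_lit 78) (nat_lit 0) (nat_lit 0) (XT.lf (nat_lit 0) (nat_lit 44219388700) (nat_lit 76) (nat_lit 79528312577) (nat_lit 76) (nat_lit 71540697524) (nat_lit 5) (nat_lit 4) (nat_lit 6) (nat_lit 5) (nat_lit 6) (nat_lit 4) (nat_lit 380) (nat_lit 343) (nat_lit 297)) (XT.nd (nat_lit 78) (nat_lit 0) (nat_lit 0) (XT.lf (nat_lit 0) (nat_lit 119514581766) (nat_lit 76) (nat_lit 54090494111) (nat_lit 76) (nat_lit 46101194789) (nat_lit 5) (nat_lit 4) (nat_lit 6) (nat_lit 5) (nat_lit 6)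 (nat_lit 4) (nat_lit 381) (nat_lit 343) (nat_lit 296)) (XT.lf (nat_lit 0) (nat_lit 206077110966) (nat_lit 76) (nat_lit 24851194667) (nat_lit 76) (nat_lit 16860430763) (nat_lit 5) (nat_lit 4) (nat_lit 6) (nat_lit 5) (nat_lit 6) (nat_lit 4) (nat_lit 382) (nat_lit 343) (nat_lit 295))))) (XT.nd (nat_lit 234) (nat_lit 76) (nat_lit 0) (XT.nd (nat_lit 78) (nat_lit 0) (nat_lit 0) (XT.lf (nat_lit 0) (nat_lit 16839985088) (nat_lit 152) (nat_lit 253014130136) (nat_lit 0) (nat_lit 9890387303) (nat_lit 3) (nat_lit 5) (nat_lit 5) (nat_lit 4) (nat_lit 3) (nat_lit 4) (nat_lit 383) (nat_lit 343) (nat_lit 294)) (XT.nd (nat_lit 78) (nat_lit 0) (nat_lit 0) (XT.lf (nat_lit 0) (nat_lit 57325290247) (nat_lit 152) (nat_lit 208154780408) (nat_lit 0) (nat_lit 50374729476) (nat_lit 3) (nat_lit 5) (nat_lit 5) (nat_lit 4) (nat_lit 3) (nat_lit 4) (nat_lit 384) (nat_lit 343) (nat_lit 293)) (XT.lf (nat_lit 0) (nat_lit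 103873317794) (nat_lit 152) (nat_lit 156587916189) (nat_lit 0) (nat_lit 96921919643) (nat_lit 3) (nat_lit 5) (nat_lit 5) (nat_lit 4) (nat_lit 3) (nat_lit 4) (nat_lit 385) (nat_lit 343) (nat_lit 292)))) (XT.nd (nat_lit 78) (nat_lit 76) (nat_lit 0) (XT.lf (nat_lit 0) (nat_lit 157394790007) (nat_lit 152) (nat_lit 97304620572) (nat_lit 0) (nat_lit 150442663701) (nat_lit 3) (nat_lit 5) (nat_lit 5) (nat_lit 4) (nat_lit 3) (nat_lit 4) (nat_lit 386) (nat_lit 343) (nat_lit 291)) (XT.nd (nat_lit 78) (nat_lit 76) (nat_lit 0) (XT.lf (nat_lit 0) (nat_lit 218936866126) (nat_lit 152) (nat_lit 29145002990) (nat_lit 0) (nat_lit 211984106640) (nat_lit 3) (nat_lit 5) (nat_lit 5) (nat_lit 4) (nat_lit 3) (nat_lit 4) (nat_lit 387) (nat_lit 343) (nat_lit 290)) (XT.lf (nat_lit 0) (nat_lit 54035069870) (nat_lit 76) (nat_lit 237906037390) (nat_lit 76) (nat_lit 230952727314) (nat_lit 2) (nat_lit 4) (nat_lit 3)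 (nat_lit 5) (nat_lit 3) (nat_lit 4) (nat_lit 388) (nat_lit 343) (nat_lit 289)))))) (XT.nd (nat_lit 468) (nat_lit 76) (nat_lit 0) (XT.nd (nat_lit 234) (nat_lit 0) (nat_lit 0) (XT.nd (nat_lit 78) (nat_lit 0) (nat_lit 0) (XT.lf (nat_lit 0) (nat_lit 152954230852) (nat_lit 76) (nat_lit 224458927168) (nat_lit 76) (nat_lit 217505138318) (nat_lit 2) (nat_lit 4) (nat_lit 3) (nat_lit 5) (nat_lit 3) (nat_lit 4) (nat_lit 389) (nat_lit 343) (nat_lit 288)) (XT.nd (nat_lit 78) (nat_lit 0) (nat_lit 0) (XT.lf (nat_lit 0) (nat_lit 266699593187) (nat_lit 76) (nat_lit 209000931609) (nat_lit 76) (nat_lit 202046726433) (nat_lit 2) (nat_lit 4) (nat_lit 3) (nat_lit 5) (nat_lit 3) (nat_lit 4) (nat_lit 390) (nat_lit 343) (nat_lit 287)) (XT.lf (nat_lit 0) (nat_lit 397496609617) (nat_lit 76) (nat_lit 191229611667) (nat_lit 76) (nat_lit 184275044469) (nat_lit 2) (nat_lit 4) (nat_lit 3) (nat_lit 5) (nat_lit 3) (nat_lit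 4) (nat_lit 391) (nat_lit 343) (nat_lit 286)))) (XT.nd (nat_lit 78) (nat_lit 0) (nat_lit 0) (XT.lf (nat_lit 0) (nat_lit 547904352203) (nat_lit 76) (nat_lit 170797267606) (nat_lit 76) (nat_lit 163842385606) (nat_lit 2) (nat_lit 4) (nat_lit 3) (nat_lit 5) (nat_lit 3) (nat_lit 4) (nat_lit 392) (nat_lit 343) (nat_lit 285)) (XT.nd (nat_lit 78) (nat_lit 0) (nat_lit 0) (XT.lf (nat_lit 0) (nat_lit 720865581126) (nat_lit 76) (nat_lit 147304136172) (nat_lit 76) (nat_lit 140348980431) (nat_lit 2) (nat_lit 4) (nat_lit 3) (nat_lit 5) (nat_lit 3) (nat_lit 4) (nat_lit 393) (nat_lit 343) (nat_lit 284)) (XT.lf (nat_lit 0) (nat_lit 919764320429) (nat_lit 76) (nat_lit 120290569141) (nat_lit 76) (nat_lit 113335175365) (nat_lit 2) (nat_lit 4) (nat_lit 3) (nat_lit 5) (nat_lit 3) (nat_lit 4) (nat_lit 394) (nat_lit 343) (nat_lit 283))))) (XT.nd (nat_lit 234) (nat_lit 76) (nat_lit 0) (XT.nd (nat_lit 78) (nat_lit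 0) (nat_lit 0) (XT.lf (nat_lit 0) (nat_lit 1148492067186) (nat_lit 76) (nat_lit 89228040202) (nat_lit 76) (nat_lit 82272439439) (nat_lit 2) (nat_lit 4) (nat_lit 3) (nat_lit 5) (nat_lit 3) (nat_lit 4) (nat_lit 395) (nat_lit 343) (nat_lit 282)) (XT.nd (nat_lit 78) (nat_lit 0) (nat_lit 0) (XT.lf (nat_lit 0) (nat_lit 1411523929486) (nat_lit 76) (nat_lit 53508804223) (nat_lit 76) (nat_lit 46553023471) (nat_lit 2) (nat_lit 4) (nat_lit 3) (nat_lit 5) (nat_lit 3) (nat_lit 4) (nat_lit 396) (nat_lit 343) (nat_lit 281)) (XT.lf (nat_lit 0) (nat_lit 1714006182895) (nat_lit 76) (nat_lit 12434006588) (nat_lit 76) (nat_lit 5478069324) (nat_lit 2) (nat_lit 4) (nat_lit 3) (nat_lit 5) (nat_lit 3) (nat_lit 4) (nat_lit 397) (nat_lit 343) (nat_lit 280)))) (XT.nd (nat_lit 156) (nat_lit 0) (nat_lit 0) (XT.nd (nat_lit 78) (nat_lit 0) (nat_lit 0) (XT.lf (nat_lit 0) (nat_lit 43125169629) (nat_lit 76) (nat_lit 1904076992797)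 (nat_lit 0) (nat_lit 37076410183) (nat_lit 1) (nat_lit 5) (nat_lit 2) (nat_lit 4) (nat_lit 1) (nat_lit 4) (nat_lit 398) (nat_lit 343) (nat_lit 279)) (XT.lf (nat_lit 0) (nat_lit 100029162080) (nat_lit 76) (nat_lit 2080208674998) (nat_lit 0) (nat_lit 93980299725) (nat_lit 1) (nat_lit 5) (nat_lit 2) (nat_lit 4) (nat_lit 1) (nat_lit 4) (nat_lit 399) (nat_lit 343) (nat_lit 278))) (XT.nd (nat_lit 78) (nat_lit 0) (nat_lit 0) (XT.lf (nat_lit 0) (nat_lit 165467120930) (nat_lit 76) (nat_lit 2282763590503) (nat_lit 0) (nat_lit 159418169089) (nat_lit 1) (nat_lit 5) (nat_lit 2) (nat_lit 4) (nat_lit 1) (nat_lit 4) (nat_lit 400) (nat_lit 343) (nat_lit 277)) (XT.lf (nat_lit 0) (nat_lit 240719354071) (nat_lit 76) (nat_lit 2515704770267) (nat_lit 0) (nat_lit 234670324416) (nat_lit 1) (nat_lit 5) (nat_lit 2) (nat_lit 4) (nat_lit 1) (nat_lit 4) (nat_lit 401) (nat_lit 343) (nat_lit 276))))))))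
noncomputable def xc53 : XT := (XT.nd (nat_lit 1872) (nat_lit 0) (nat_lit 0) (XT.nd (nat_lit 936) (nat_lit 0) (nat_lit 0) (XT.nd (nat_lit 468) (nat_lit 0) (nat_lit 0) (XT.nd (nat_lit 234) (nat_lit 0) (nat_lit 0) (XT.nd (nat_lit 78) (nat_lit 0) (nat_lit 0) (XT.lf (nat_lit 0) (nat_lit 327258187803) (nat_lit 76) (nat_lit 2783589759111) (nat_lit 0) (nat_lit 321209090483) (nat_lit 1) (nat_lit 5) (nat_lit 2) (nat_lit 4) (nat_lit 1) (nat_lit 4) (nat_lit 402) (nat_lit 343) (nat_lit 275)) (XT.nd (nat_lit 78) (nat_lit 0) (nat_lit 0) (XT.lf (nat_lit 0) (nat_lit 426776773220) (nat_lit 76) (nat_lit 3091659785077) (nat_lit 0) (nat_lit 420727617062) (nat_lit 1) (nat_lit 5) (nat_lit 2) (nat_lit 4) (nat_lit 1) (nat_lit 4) (nat_lit 403) (nat_lit 343) (nat_lit 274)) (XT.lf (nat_lit 0) (nat_lit 541222213081) (nat_lit 76) (nat_lit 3445942305196) (nat_lit 0) (nat_lit 535173005759) (nat_lit 1) (nat_lit 5) (nat_lit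 2) (nat_lit 4) (nat_lit 1) (nat_lit 4) (nat_lit 404) (nat_lit 343) (nat_lit 273)))) (XT.nd (nat_lit 78) (nat_lit 0) (nat_lit 0) (XT.lf (nat_lit 0) (nat_lit 672833657297) (nat_lit 76) (nat_lit 3853368933991) (nat_lit 0) (nat_lit 666784405484) (nat_lit 1) (nat_lit 5) (nat_lit 2) (nat_lit 4) (nat_lit 1) (nat_lit 4) (nat_lit 405) (nat_lit 343) (nat_lit 272)) (XT.nd (nat_lit 78) (nat_lit 0) (nat_lit 0) (XT.lf (nat_lit 0) (nat_lit 824186112383) (nat_lit 76) (nat_lit 4321911062027) (nat_lit 0) (nat_lit 818136821883) (nat_lit 1) (nat_lit 5) (nat_lit 2) (nat_lit 4) (nat_lit 1) (nat_lit 4) (nat_lit 406) (nat_lit 343) (nat_lit 271)) (XT.lf (nat_lit 0) (nat_lit 998240822028) (nat_lit 76) (nat_lit 4860735817894) (nat_lit 0) (nat_lit 992191497886) (nat_lit 1) (nat_lit 5) (nat_lit 2) (nat_lit 4) (nat_lit 1) (nat_lit 4) (nat_lit 407) (nat_lit 343) (nat_lit 270))))) (XT.nd (nat_lit 234) (nat_lit 0) (nat_lit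 0) (XT.nd (nat_lit 78) (nat_lit 0) (nat_lit 0) (XT.lf (nat_lit 0) (nat_lit 1198403204462) (nat_lit 76) (nat_lit 5480385425078) (nat_lit 0) (nat_lit 1192353851067) (nat_lit 1) (nat_lit 5) (nat_lit 2) (nat_lit 4) (nat_lit 1) (nat_lit 4) (nat_lit 408) (nat_lit 343) (nat_lit 269)) (XT.nd (nat_lit 78) (nat_lit 0) (nat_lit 0) (XT.lf (nat_lit 0) (nat_lit 1428589480213) (nat_lit 76) (nat_lit 6192983462849) (nat_lit 0) (nat_lit 1422540101380) (nat_lit 1) (nat_lit 5) (nat_lit 2) (nat_lit 4) (nat_lit 1) (nat_lit 4) (nat_lit 409) (nat_lit 343) (nat_lit 268)) (XT.lf (nat_lit 0) (nat_lit 1693303293805) (nat_lit 76) (nat_lit 7012472066728) (nat_lit 0) (nat_lit 1687253892852) (nat_lit 1) (nat_lit 5) (nat_lit 2) (nat_lit 4) (nat_lit 1) (nat_lit 4) (nat_lit 410) (nat_lit 343) (nat_lit 267)))) (XT.nd (nat_lit 78) (nat_lit 0) (nat_lit 0) (XT.lf (nat_lit 0) (nat_lit 1997723828547) (nat_lit 76) (nat_lit 7954884709402)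 (nat_lit 0) (nat_lit 1991674408361) (nat_lit 1) (nat_lit 5) (nat_lit 2) (nat_lit 4) (nat_lit 1) (nat_lit 4) (nat_lit 411) (nat_lit 343) (nat_lit 266)) (XT.nd (nat_lit 78) (nat_lit 0) (nat_lit 0) (XT.lf (nat_lit 0) (nat_lit 2347807138382) (nat_lit 76) (nat_lit 9038659899095) (nat_lit 0) (nat_lit 2341757701469) (nat_lit 1) (nat_lit 5) (nat_lit 2) (nat_lit 4) (nat_lit 1) (nat_lit 4) (nat_lit 412) (nat_lit 343) (nat_lit 265)) (XT.lf (nat_lit 0) (nat_lit 2750402679369) (nat_lit 76) (nat_lit 10285001932997) (nat_lit 0) (nat_lit 2744353227913) (nat_lit 1) (nat_lit 5) (nat_lit 2) (nat_lit 4) (nat_lit 1) (nat_lit 4) (nat_lit 413) (nat_lit 343) (nat_lit 264)))))) (XT.nd (nat_lit 468) (nat_lit 0) (nat_lit 0) (XT.nd (nat_lit 234) (nat_lit 0) (nat_lit 0) (XT.nd (nat_lit 78) (nat_lit 0) (nat_lit 0) (XT.lf (nat_lit 0) (nat_lit 3213387320791) (nat_lit 76) (nat_lit 11718295763946) (nat_lit 0) (nat_lit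 3207337856687) (nat_lit 1) (nat_lit 5) (nat_lit 2) (nat_lit 4) (nat_lit 1) (nat_lit 4) (nat_lit 414) (nat_lit 343) (nat_lit 263)) (XT.nd (nat_lit 78) (nat_lit 0) (nat_lit 0) (XT.lf (nat_lit 0) (nat_lit 3745819457804) (nat_lit 76) (nat_lit 13366584097330) (nat_lit 0) (nat_lit 3739769982703) (nat_lit 1) (nat_lit 5) (nat_lit 2) (nat_lit 4) (nat_lit 1) (nat_lit 4) (nat_lit 415) (nat_lit 343) (nat_lit 262)) (XT.lf (nat_lit 0) (nat_lit 4358116240916) (nat_lit 76) (nat_lit 15262116052714) (nat_lit 0) (nat_lit 4352066756252) (nat_lit 1) (nat_lit 5) (nat_lit 2) (nat_lit 4) (nat_lit 1) (nat_lit 4) (nat_lit 416) (nat_lit 343) (nat_lit 261)))) (XT.nd (nat_lit 78) (nat_lit 0) (nat_lit 0) (XT.lf (nat_lit 0) (nat_lit 5062257389796) (nat_lit 76) (nat_lit 17441978124879) (nat_lit 0) (nat_lit 5056207896817) (nat_lit 1) (nat_lit 5) (nat_lit 2) (nat_lit 4) (nat_lit 1) (nat_lit 4) (nat_lit 417) (nat_lit 343)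 (nat_lit 260)) (XT.nd (nat_lit 78) (nat_lit 0) (nat_lit 0) (XT.lf (nat_lit 0) (nat_lit 5872019579097) (nat_lit 76) (nat_lit 19948819789149) (nat_lit 0) (nat_lit 5865970078886) (nat_lit 1) (nat_lit 5) (nat_lit 2) (nat_lit 4) (nat_lit 1) (nat_lit 4) (nat_lit 418) (nat_lit 343) (nat_lit 259)) (XT.lf (nat_lit 0) (nat_lit 6803245982086) (nat_lit 76) (nat_lit 22831687947651) (nat_lit 0) (nat_lit 6797196475588) (nat_lit 1) (nat_lit 5) (nat_lit 2) (nat_lit 4) (nat_lit 1) (nat_lit 4) (nat_lit 419) (nat_lit 343) (nat_lit 258))))) (XT.nd (nat_lit 234) (nat_lit 0) (nat_lit 0) (XT.nd (nat_lit 78) (nat_lit 0) (nat_lit 0) (XT.lf (nat_lit 0) (nat_lit 7874156245780) (nat_lit 76) (nat_lit 26146986542616) (nat_lit 0) (nat_lit 7868106733815) (nat_lit 1) (nat_lit 5) (nat_lit 2) (nat_lit 4) (nat_lit 1) (nat_lit 4) (nat_lit 420) (nat_lit 343) (nat_lit 257)) (XT.nd (nat_lit 78) (nat_lit 0) (nat_lit 0) (XT.lf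 (nat_lit 0) (nat_lit 9105702962294) (nat_lit 76) (nat_lit 29959580111773) (nat_lit 0) (nat_lit 9099653445574) (nat_lit 1) (nat_lit 5) (nat_lit 2) (nat_lit 4) (nat_lit 1) (nat_lit 4) (nat_lit 421) (nat_lit 343) (nat_lit 256)) (XT.lf (nat_lit 0) (nat_lit 10521981610864) (nat_lit 76) (nat_lit 34344062877127) (nat_lit 0) (nat_lit 10515932090010) (nat_lit 1) (nat_lit 5) (nat_lit 2) (nat_lit 4) (nat_lit 1) (nat_lit 4) (nat_lit 422) (nat_lit 343) (nat_lit 255)))) (XT.nd (nat_lit 78) (nat_lit 0) (nat_lit 0) (XT.lf (nat_lit 0) (nat_lit 12150701991136) (nat_lit 76) (nat_lit 39386218197130) (nat_lit 0) (nat_lit 12144652466687) (nat_lit 1) (nat_lit 5) (nat_lit 2) (nat_lit 4) (nat_lit 1) (nat_lit 4) (nat_lit 423) (nat_lit 343) (nat_lit 254)) (XT.nd (nat_lit 78) (nat_lit 0) (nat_lit 0) (XT.lf (nat_lit 0) (nat_lit 14023730371420) (nat_lit 76) (nat_lit 45184696936738) (nat_lit 0) (nat_lit 14017680843844)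 (nat_lit 1) (nat_lit 5) (nat_lit 2) (nat_lit 4) (nat_lit 1) (nat_lit 4) (nat_lit 424) (nat_lit 343) (nat_lit 253)) (XT.lf (nat_lit 0) (nat_lit 16177712959155) (nat_lit 76) (nat_lit 51852947593031) (nat_lit 0) (nat_lit 16171663428861) (nat_lit 1) (nat_lit 5) (nat_lit 2) (nat_lit 4) (nat_lit 1) (nat_lit 4) (nat_lit 425) (nat_lit 343) (nat_lit 252))))))) (XT.nd (nat_lit 47268) (nat_lit 0) (nat_lit 1292) (XT.nd (nat_lit 46800) (nat_lit 0) (nat_lit 2280) (XT.nd (nat_lit 1716) (nat_lit 0) (nat_lit 0) (XT.nd (nat_lit 78) (nat_lit 0) (nat_lit 0) (XT.lf (nat_lit 0) (nat_lit 18654792891929) (nat_lit 76) (nat_lit 59521435939720) (nat_lit 0) (nat_lit 18648743359271) (nat_lit 1) (nat_lit 5) (nat_lit 2) (nat_lit 4) (nat_lit 1) (nat_lit 4) (nat_lit 426) (nat_lit 343) (nat_lit 251)) (XT.nd (nat_lit 78) (nat_lit 0) (nat_lit 0) (XT.lf (nat_lit 0) (nat_lit 21503434777122) (nat_lit 76) (nat_lit 68340197618369)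 (nat_lit 0) (nat_lit 21497385242408) (nat_lit 1) (nat_lit 5) (nat_lit 2) (nat_lit 4) (nat_lit 1) (nat_lit 4) (nat_lit 427) (nat_lit 343) (nat_lit 250)) (XT.lf (nat_lit 0) (nat_lit 24779372912486) (nat_lit 76) (nat_lit 78481773618344) (nat_lit 0) (nat_lit 24773323375986) (nat_lit 1) (nat_lit 5) (nat_lit 2) (nat_lit 4) (nat_lit 1) (nat_lit 4) (nat_lit 428) (nat_lit 343) (nat_lit 249)))) (XT.nd (nat_lit 78) (nat_lit 0) (nat_lit 0) (XT.lf (nat_lit 0) (nat_lit 410718026515197) (nat_lit 76) (nat_lit 1273262083341523) (nat_lit 0) (nat_lit 410711976967508) (nat_lit 1) (nat_lit 5) (nat_lit 2) (nat_lit 4) (nat_lit 1) (nat_lit 4) (nat_lit 448) (nat_lit 343) (nat_lit 229)) (XT.nd (nat_lit 44928) (nat_lit 0) (nat_lit 2812) (XT.lf (nat_lit 0) (nat_lit 472376153205445) (nat_lit 76) (nat_lit 1464141942638866) (nat_lit 0) (nat_lit 472370103657661) (nat_lit 1) (nat_lit 5) (nat_lit 2) (nat_lit 4) (nat_lit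 1) (nat_lit 4) (nat_lit 449) (nat_lit 343) (nat_lit 228)) (XT.lf (nat_lit 0) (nat_lit 921790317) (nat_lit 0) (nat_lit 921790317) (nat_lit 228) (nat_lit 2129561457) (nat_lit 38) (nat_lit 5) (nat_lit 38) (nat_lit 3) (nat_lit 41) (nat_lit 3) (nat_lit 344) (nat_lit 344) (nat_lit 332))))) (XT.nd (nat_lit 234) (nat_lit 532) (nat_lit 0) (XT.nd (nat_lit 78) (nat_lit 0) (nat_lit 0) (XT.lf (nat_lit 0) (nat_lit 5158647876) (nat_lit 228) (nat_lit 2168414272) (nat_lit 304) (nat_lit 1034969473) (nat_lit 38) (nat_lit 5) (nat_lit 41) (nat_lit 3) (nat_lit 42) (nat_lit 5) (nat_lit 345) (nat_lit 344) (nat_lit 331)) (XT.nd (nat_lit 78) (nat_lit 0) (nat_lit 0) (XT.lf (nat_lit 76) (nat_lit 2339223459) (nat_lit 0) (nat_lit 4496128518) (nat_lit 304) (nat_lit 2007289773) (nat_lit 39) (nat_lit 5) (nat_lit 38) (nat_lit 5) (nat_lit 42) (nat_lit 5) (nat_lit 346) (nat_lit 344) (nat_lit 330)) (XT.lf (nat_lit 76) (nat_lit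 7635686871) (nat_lit 0) (nat_lit 1061748653) (nat_lit 304) (nat_lit 707978756) (nat_lit 39) (nat_lit 5) (nat_lit 38) (nat_lit 5) (nat_lit 42) (nat_lit 5) (nat_lit 347) (nat_lit 344) (nat_lit 329)))) (XT.nd (nat_lit 78) (nat_lit 304) (nat_lit 0) (XT.lf (nat_lit 0) (nat_lit 842344767) (nat_lit 304) (nat_lit 6323966005) (nat_lit 76) (nat_lit 2862606702) (nat_lit 35) (nat_lit 5) (nat_lit 39) (nat_lit 5) (nat_lit 36) (nat_lit 5) (nat_lit 348) (nat_lit 344) (nat_lit 328)) (XT.nd (nat_lit 78) (nat_lit 304) (nat_lit 0) (XT.lf (nat_lit 0) (nat_lit 2553755115) (nat_lit 304) (nat_lit 768323736) (nat_lit 76) (nat_lit 7418756944) (nat_lit 35) (nat_lit 5) (nat_lit 39) (nat_lit 5) (nat_lit 36) (nat_lit 5) (nat_lit 349) (nat_lit 344) (nat_lit 327)) (XT.lf (nat_lit 0) (nat_lit 4701547213) (nat_lit 380) (nat_lit 5569286976) (nat_lit 76) (nat_lit 1261844027) (nat_lit 31) (nat_lit 5) (nat_lit 36) (nat_lit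 5) (nat_lit 32) (nat_lit 5) (nat_lit 350) (nat_lit 344) (nat_lit 326)))))) (XT.nd (nat_lit 468) (nat_lit 456) (nat_lit 0) (XT.nd (nat_lit 234) (nat_lit 304) (nat_lit 0) (XT.nd (nat_lit 78) (nat_lit 76) (nat_lit 0) (XT.lf (nat_lit 0) (nat_lit 1157431839) (nat_lit 152) (nat_lit 6146203500) (nat_lit 228) (nat_lit 5119918129) (nat_lit 29) (nat_lit 5) (nat_lit 31) (nat_lit 5) (nat_lit 32) (nat_lit 5) (nat_lit 351) (nat_lit 344) (nat_lit 325)) (XT.nd (nat_lit 78) (nat_lit 76) (nat_lit 0) (XT.lf (nat_lit 0) (nat_lit 9385964797) (nat_lit 152) (nat_lit 1094752808) (nat_lit 228) (nat_lit 2939705960) (nat_lit 29) (nat_lit 5) (nat_lit 31) (nat_lit 5) (nat_lit 32) (nat_lit 5) (nat_lit 352) (nat_lit 344) (nat_lit 324)) (XT.lf (nat_lit 0) (nat_lit 4344821039) (nat_lit 76) (nat_lit 10071147423) (nat_lit 152) (nat_lit 108671904) (nat_lit 28) (nat_lit 5) (nat_lit 29) (nat_lit 5) (nat_lit 30) (nat_lit 4)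 (nat_lit 353) (nat_lit 344) (nat_lit 323)))) (XT.nd (nat_lit 78) (nat_lit 228) (nat_lit 0) (XT.lf (nat_lit 0) (nat_lit 3049346442) (nat_lit 152) (nat_lit 1652697313) (nat_lit 76) (nat_lit 11045567673) (nat_lit 27) (nat_lit 5) (nat_lit 29) (nat_lit 5) (nat_lit 28) (nat_lit 5) (nat_lit 354) (nat_lit 344) (nat_lit 322)) (XT.nd (nat_lit 78) (nat_lit 76) (nat_lit 0) (XT.lf (nat_lit 0) (nat_lit 7033479288) (nat_lit 228) (nat_lit 8368596181) (nat_lit 76) (nat_lit 1696683363) (nat_lit 25) (nat_lit 5) (nat_lit 28) (nat_lit 5) (nat_lit 26) (nat_lit 4) (nat_lit 355) (nat_lit 344) (nat_lit 321)) (XT.lf (nat_lit 0) (nat_lit 2052421704) (nat_lit 76) (nat_lit 9887692034) (nat_lit 152) (nat_lit 6663765017) (nat_lit 24) (nat_lit 5) (nat_lit 25) (nat_lit 5) (nat_lit 26) (nat_lit 4) (nat_lit 356) (nat_lit 344) (nat_lit 320))))) (XT.nd (nat_lit 234) (nat_lit 304) (nat_lit 0) (XT.nd (nat_lit 78) (nat_lit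 152) (nat_lit 0) (XT.lf (nat_lit 0) (nat_lit 14863659760) (nat_lit 76) (nat_lit 3087038386) (nat_lit 152) (nat_lit 2328903706) (nat_lit 24) (nat_lit 5) (nat_lit 25) (nat_lit 5) (nat_lit 26) (nat_lit 4) (nat_lit 357) (nat_lit 344) (nat_lit 319)) (XT.nd (nat_lit 78) (nat_lit 0) (nat_lit 0) (XT.lf (nat_lit 0) (nat_lit 2897584362) (nat_lit 152) (nat_lit 14489596920) (nat_lit 76) (nat_lit 4731345100) (nat_lit 22) (nat_lit 5) (nat_lit 24) (nat_lit 5) (nat_lit 23) (nat_lit 4) (nat_lit 358) (nat_lit 344) (nat_lit 318)) (XT.lf (nat_lit 0) (nat_lit 9052292178) (nat_lit 152) (nat_lit 1330300288) (nat_lit 76) (nat_lit 13776678487) (nat_lit 22) (nat_lit 5) (nat_lit 24) (nat_lit 5) (nat_lit 23) (nat_lit 4) (nat_lit 359) (nat_lit 344) (nat_lit 317)))) (XT.nd (nat_lit 156) (nat_lit 152) (nat_lit 0) (XT.nd (nat_lit 78) (nat_lit 76) (nat_lit 0) (XT.lf (nat_lit 0) (nat_lit 15049383981) (nat_lit 76) (nat_lit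 1651022285) (nat_lit 152) (nat_lit 9720207168) (nat_lit 21) (nat_lit 5) (nat_lit 22) (nat_lit 5) (nat_lit 23) (nat_lit 4) (nat_lit 360) (nat_lit 344) (nat_lit 316)) (XT.lf (nat_lit 0) (nat_lit 5026662013) (nat_lit 76) (nat_lit 21046121405) (nat_lit 76) (nat_lit 2861831095) (nat_lit 20) (nat_lit 4) (nat_lit 21) (nat_lit 5) (nat_lit 21) (nat_lit 4) (nat_lit 361) (nat_lit 344) (nat_lit 315))) (XT.nd (nat_lit 78) (nat_lit 76) (nat_lit 0) (XT.lf (nat_lit 0) (nat_lit 5228505736) (nat_lit 152) (nat_lit 6984926880) (nat_lit 76) (nat_lit 19483492050) (nat_lit 19) (nat_lit 5) (nat_lit 21) (nat_lit 5) (nat_lit 20) (nat_lit 4) (nat_lit 362) (nat_lit 344) (nat_lit 314)) (XT.lf (nat_lit 0) (nat_lit 13455032229) (nat_lit 76) (nat_lit 1297387311) (nat_lit 152) (nat_lit 20023775920) (nat_lit 18) (nat_lit 5) (nat_lit 19) (nat_lit 5) (nat_lit 20) (nat_lit 4) (nat_lit 363) (nat_lit 344) (nat_lit 313))))))))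
noncomputable def xc54 : XT := (XT.nd (nat_lit 1872) (nat_lit 152) (nat_lit 0) (XT.nd (nat_lit 936) (nat_lit 456) (nat_lit 0) (XT.nd (nat_lit 468) (nat_lit 304) (nat_lit 0) (XT.nd (nat_lit 234) (nat_lit 152) (nat_lit 0) (XT.nd (nat_lit 78) (nat_lit 228) (nat_lit 0) (XT.lf (nat_lit 0) (nat_lit 26510307363) (nat_lit 152) (nat_lit 1084090247) (nat_lit 0) (nat_lit 10602159295) (nat_lit 18) (nat_lit 5) (nat_lit 20) (nat_lit 4) (nat_lit 18) (nat_lit 4) (nat_lit 364) (nat_lit 344) (nat_lit 312)) (XT.nd (nat_lit 78) (nat_lit 152) (nat_lit 0) (XT.lf (nat_lit 0) (nat_lit 24208949778) (nat_lit 76) (nat_lit 16849575485) (nat_lit 76) (nat_lit 917457288) (nat_lit 17) (nat_lit 4) (nat_lit 18) (nat_lit 5) (nat_lit 18) (nat_lit 4) (nat_lit 365) (nat_lit 344) (nat_lit 311)) (XT.lf (nat_lit 0) (nat_lit 7193478684) (nat_lit 76) (nat_lit 3572307581) (nat_lit 152) (nat_lit 35437323644) (nat_lit 15) (nat_lit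 5) (nat_lit 16) (nat_lit 5) (nat_lit 17) (nat_lit 4) (nat_lit 366) (nat_lit 344) (nat_lit 310)))) (XT.nd (nat_lit 78) (nat_lit 152) (nat_lit 0) (XT.lf (nat_lit 0) (nat_lit 25528132176) (nat_lit 152) (nat_lit 13676312905) (nat_lit 0) (nat_lit 11640230743) (nat_lit 15) (nat_lit 5) (nat_lit 17) (nat_lit 4) (nat_lit 15) (nat_lit 4) (nat_lit 367) (nat_lit 344) (nat_lit 309)) (XT.nd (nat_lit 78) (nat_lit 76) (nat_lit 0) (XT.lf (nat_lit 0) (nat_lit 16710286981) (nat_lit 76) (nat_lit 26624642577) (nat_lit 76) (nat_lit 12723036145) (nat_lit 14) (nat_lit 4) (nat_lit 15) (nat_lit 5) (nat_lit 15) (nat_lit 4) (nat_lit 368) (nat_lit 344) (nat_lit 308)) (XT.lf (nat_lit 0) (nat_lit 2320027818) (nat_lit 152) (nat_lit 8925464014) (nat_lit 76) (nat_lit 50689255766) (nat_lit 13) (nat_lit 5) (nat_lit 15) (nat_lit 5) (nat_lit 14) (nat_lit 4) (nat_lit 369) (nat_lit 344) (nat_lit 307))))) (XT.nd (nat_lit 234)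 (nat_lit 152) (nat_lit 0) (XT.nd (nat_lit 78) (nat_lit 76) (nat_lit 0) (XT.lf (nat_lit 0) (nat_lit 19793129377) (nat_lit 152) (nat_lit 40902213276) (nat_lit 0) (nat_lit 7685401750) (nat_lit 12) (nat_lit 5) (nat_lit 14) (nat_lit 4) (nat_lit 12) (nat_lit 4) (nat_lit 370) (nat_lit 344) (nat_lit 306)) (XT.nd (nat_lit 78) (nat_lit 76) (nat_lit 0) (XT.lf (nat_lit 0) (nat_lit 40884105586) (nat_lit 152) (nat_lit 5991458942) (nat_lit 0) (nat_lit 28768542082) (nat_lit 12) (nat_lit 5) (nat_lit 14) (nat_lit 4) (nat_lit 12) (nat_lit 4) (nat_lit 371) (nat_lit 344) (nat_lit 305)) (XT.lf (nat_lit 0) (nat_lit 37440120660) (nat_lit 76) (nat_lit 29225126945) (nat_lit 76) (nat_lit 17102749634) (nat_lit 11) (nat_lit 4) (nat_lit 12) (nat_lit 5) (nat_lit 12) (nat_lit 4) (nat_lit 372) (nat_lit 344) (nat_lit 304)))) (XT.nd (nat_lit 78) (nat_lit 76) (nat_lit 0) (XT.lf (nat_lit 0) (nat_lit 3222325145) (nat_lit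 152) (nat_lit 5200303297) (nat_lit 76) (nat_lit 84622290034) (nat_lit 10) (nat_lit 5) (nat_lit 12) (nat_lit 5) (nat_lit 11) (nat_lit 4) (nat_lit 373) (nat_lit 344) (nat_lit 303)) (XT.nd (nat_lit 78) (nat_lit 0) (nat_lit 0) (XT.lf (nat_lit 0) (nat_lit 27468029267) (nat_lit 152) (nat_lit 58812558658) (nat_lit 0) (nat_lit 16917199200) (nat_lit 9) (nat_lit 5) (nat_lit 11) (nat_lit 4) (nat_lit 9) (nat_lit 4) (nat_lit 374) (nat_lit 344) (nat_lit 302)) (XT.lf (nat_lit 0) (nat_lit 56015959046) (nat_lit 152) (nat_lit 13296589499) (nat_lit 0) (nat_lit 45461233163) (nat_lit 9) (nat_lit 5) (nat_lit 11) (nat_lit 4) (nat_lit 9) (nat_lit 4) (nat_lit 375) (nat_lit 344) (nat_lit 301)))))) (XT.nd (nat_lit 468) (nat_lit 152) (nat_lit 0) (XT.nd (nat_lit 234) (nat_lit 76) (nat_lit 0) (XT.nd (nat_lit 78) (nat_lit 152) (nat_lit 0) (XT.lf (nat_lit 0) (nat_lit 42821865168) (nat_lit 76) (nat_lit 47779561312) (nat_lit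 76) (nat_lit 37221447762) (nat_lit 8) (nat_lit 4) (nat_lit 9) (nat_lit 5) (nat_lit 9) (nat_lit 4) (nat_lit 376) (nat_lit 344) (nat_lit 300)) (XT.nd (nat_lit 78) (nat_lit 152) (nat_lit 0) (XT.lf (nat_lit 0) (nat_lit 108816926250) (nat_lit 76) (nat_lit 22235875712) (nat_lit 76) (nat_lit 11674816366) (nat_lit 8) (nat_lit 4) (nat_lit 9) (nat_lit 5) (nat_lit 9) (nat_lit 4) (nat_lit 377) (nat_lit 344) (nat_lit 299)) (XT.lf (nat_lit 0) (nat_lit 17588632196) (nat_lit 152) (nat_lit 133547465345) (nat_lit 0) (nat_lit 8402874885) (nat_lit 6) (nat_lit 5) (nat_lit 8) (nat_lit 4) (nat_lit 6) (nat_lit 4) (nat_lit 378) (nat_lit 344) (nat_lit 298)))) (XT.nd (nat_lit 78) (nat_lit 76) (nat_lit 0) (XT.lf (nat_lit 0) (nat_lit 52946796738) (nat_lit 152) (nat_lit 81647667779) (nat_lit 0) (nat_lit 43759102517) (nat_lit 6) (nat_lit 5) (nat_lit 8) (nat_lit 4) (nat_lit 6) (nat_lit 4) (nat_lit 379) (nat_lit 344)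 (nat_lit 297)) (XT.nd (nat_lit 78) (nat_lit 76) (nat_lit 0) (XT.lf (nat_lit 0) (nat_lit 93595305262) (nat_lit 152) (nat_lit 21991126395) (nat_lit 0) (nat_lit 84405926772) (nat_lit 6) (nat_lit 5) (nat_lit 8) (nat_lit 4) (nat_lit 6) (nat_lit 4) (nat_lit 380) (nat_lit 344) (nat_lit 296)) (XT.lf (nat_lit 0) (nat_lit 51142402316) (nat_lit 76) (nat_lit 91304750177) (nat_lit 76) (nat_lit 82113907106) (nat_lit 5) (nat_lit 4) (nat_lit 6) (nat_lit 5) (nat_lit 6) (nat_lit 4) (nat_lit 381) (nat_lit 344) (nat_lit 295))))) (XT.nd (nat_lit 234) (nat_lit 0) (nat_lit 0) (XT.nd (nat_lit 78) (nat_lit 152) (nat_lit 0) (XT.lf (nat_lit 0) (nat_lit 137694034519) (nat_lit 76) (nat_lit 62071190587) (nat_lit 76) (nat_lit 52879073967) (nat_lit 5) (nat_lit 4) (nat_lit 6) (nat_lit 5) (nat_lit 6) (nat_lit 4) (nat_lit 382) (nat_lit 344) (nat_lit 294)) (XT.nd (nat_lit 78) (nat_lit 152) (nat_lit 0) (XT.lf (nat_lit 0)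 (nat_lit 237208038905) (nat_lit 76) (nat_lit 28463328092) (nat_lit 76) (nat_lit 19270104038) (nat_lit 5) (nat_lit 4) (nat_lit 6) (nat_lit 5) (nat_lit 6) (nat_lit 4) (nat_lit 383) (nat_lit 344) (nat_lit 293)) (XT.lf (nat_lit 0) (nat_lit 19474447445) (nat_lit 152) (nat_lit 290735955939) (nat_lit 0) (nat_lit 11479502193) (nat_lit 3) (nat_lit 5) (nat_lit 5) (nat_lit 4) (nat_lit 3) (nat_lit 4) (nat_lit 384) (nat_lit 344) (nat_lit 292)))) (XT.nd (nat_lit 78) (nat_lit 0) (nat_lit 0) (XT.lf (nat_lit 0) (nat_lit 66018400822) (nat_lit 152) (nat_lit 239177742062) (nat_lit 0) (nat_lit 58022727414) (nat_lit 3) (nat_lit 5) (nat_lit 5) (nat_lit 4) (nat_lit 3) (nat_lit 4) (nat_lit 385) (nat_lit 344) (nat_lit 291)) (XT.nd (nat_lit 78) (nat_lit 0) (nat_lit 0) (XT.lf (nat_lit 0) (nat_lit 119536330279) (nat_lit 152) (nat_lit 179901968481) (nat_lit 0) (nat_lit 111540023691) (nat_lit 3) (nat_lit 5) (nat_lit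 5) (nat_lit 4) (nat_lit 3) (nat_lit 4) (nat_lit 386) (nat_lit 344) (nat_lit 290)) (XT.lf (nat_lit 0) (nat_lit 181075325739) (nat_lit 152) (nat_lit 111748891800) (nat_lit 0) (nat_lit 173078468561) (nat_lit 3) (nat_lit 5) (nat_lit 5) (nat_lit 4) (nat_lit 3) (nat_lit 4) (nat_lit 387) (nat_lit 344) (nat_lit 289))))))) (XT.nd (nat_lit 936) (nat_lit 0) (nat_lit 0) (XT.nd (nat_lit 468) (nat_lit 76) (nat_lit 0) (XT.nd (nat_lit 234) (nat_lit 0) (nat_lit 0) (XT.nd (nat_lit 78) (nat_lit 76) (nat_lit 0) (XT.lf (nat_lit 0) (nat_lit 251839411028) (nat_lit 152) (nat_lit 33385082258) (nat_lit 0) (nat_lit 243842075076) (nat_lit 3) (nat_lit 5) (nat_lit 5) (nat_lit 4) (nat_lit 3) (nat_lit 4) (nat_lit 388) (nat_lit 344) (nat_lit 288)) (XT.nd (nat_lit 78) (nat_lit 0) (nat_lit 0) (XT.lf (nat_lit 0) (nat_lit 62266016478) (nat_lit 76) (nat_lit 273525387339) (nat_lit 76) (nat_lit 265527635061) (nat_lit 2) (nat_lit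 4) (nat_lit 3) (nat_lit 5) (nat_lit 3) (nat_lit 4) (nat_lit 389) (nat_lit 344) (nat_lit 287)) (XT.lf (nat_lit 0) (nat_lit 176006657764) (nat_lit 76) (nat_lit 258069891757) (nat_lit 76) (nat_lit 250071777457) (nat_lit 2) (nat_lit 4) (nat_lit 3) (nat_lit 5) (nat_lit 3) (nat_lit 4) (nat_lit 390) (nat_lit 344) (nat_lit 286)))) (XT.nd (nat_lit 78) (nat_lit 0) (nat_lit 0) (XT.lf (nat_lit 0) (nat_lit 306799568934) (nat_lit 76) (nat_lit 240300745709) (nat_lit 76) (nat_lit 232302316608) (nat_lit 2) (nat_lit 4) (nat_lit 3) (nat_lit 5) (nat_lit 3) (nat_lit 4) (nat_lit 391) (nat_lit 344) (nat_lit 285)) (XT.nd (nat_lit 78) (nat_lit 0) (nat_lit 0) (XT.lf (nat_lit 0) (nat_lit 457203741729) (nat_lit 76) (nat_lit 219870291991) (nat_lit 76) (nat_lit 211871589148) (nat_lit 2) (nat_lit 4) (nat_lit 3) (nat_lit 5) (nat_lit 3) (nat_lit 4) (nat_lit 392) (nat_lit 344) (nat_lit 284)) (XT.lf (nat_lit 0) (nat_lit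 630161866485) (nat_lit 76) (nat_lit 196378804333) (nat_lit 76) (nat_lit 188379863455) (nat_lit 2) (nat_lit 4) (nat_lit 3) (nat_lit 5) (nat_lit 3) (nat_lit 4) (nat_lit 393) (nat_lit 344) (nat_lit 283))))) (XT.nd (nat_lit 234) (nat_lit 76) (nat_lit 0) (XT.nd (nat_lit 78) (nat_lit 0) (nat_lit 0) (XT.lf (nat_lit 0) (nat_lit 829057906513) (nat_lit 76) (nat_lit 169366666672) (nat_lit 76) (nat_lit 161367518807) (nat_lit 2) (nat_lit 4) (nat_lit 3) (nat_lit 5) (nat_lit 3) (nat_lit 4) (nat_lit 394) (nat_lit 344) (nat_lit 282)) (XT.nd (nat_lit 78) (nat_lit 0) (nat_lit 0) (XT.lf (nat_lit 0) (nat_lit 1057783306074) (nat_lit 76) (nat_lit 138305380664) (nat_lit 76) (nat_lit 130306052810) (nat_lit 2) (nat_lit 4) (nat_lit 3) (nat_lit 5) (nat_lit 3) (nat_lit 4) (nat_lit 395) (nat_lit 344) (nat_lit 281)) (XT.lf (nat_lit 0) (nat_lit 1320813127334) (nat_lit 76) (nat_lit 102587225495) (nat_lit 76) (nat_lit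 94587741128) (nat_lit 2) (nat_lit 4) (nat_lit 3) (nat_lit 5) (nat_lit 3) (nat_lit 4) (nat_lit 396) (nat_lit 344) (nat_lit 280)))) (XT.nd (nat_lit 78) (nat_lit 76) (nat_lit 0) (XT.lf (nat_lit 0) (nat_lit 1623293605926) (nat_lit 76) (nat_lit 61513367694) (nat_lit 76) (nat_lit 53513747230) (nat_lit 2) (nat_lit 4) (nat_lit 3) (nat_lit 5) (nat_lit 3) (nat_lit 4) (nat_lit 397) (nat_lit 344) (nat_lit 279)) (XT.nd (nat_lit 78) (nat_lit 76) (nat_lit 0) (XT.lf (nat_lit 0) (nat_lit 1971142838171) (nat_lit 76) (nat_lit 14280188304) (nat_lit 76) (nat_lit 6280449495) (nat_lit 2) (nat_lit 4) (nat_lit 3) (nat_lit 5) (nat_lit 3) (nat_lit 4) (nat_lit 398) (nat_lit 344) (nat_lit 278)) (XT.lf (nat_lit 0) (nat_lit 49611522576) (nat_lit 76) (nat_lit 2189651060543) (nat_lit 0) (nat_lit 42655138473) (nat_lit 1) (nat_lit 5) (nat_lit 2) (nat_lit 4) (nat_lit 1) (nat_lit 4) (nat_lit 399) (nat_lit 344) (nat_lit 277))))))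 (XT.nd (nat_lit 468) (nat_lit 0) (nat_lit 0) (XT.nd (nat_lit 234) (nat_lit 0) (nat_lit 0) (XT.nd (nat_lit 78) (nat_lit 0) (nat_lit 0) (XT.lf (nat_lit 0) (nat_lit 115048821177) (nat_lit 76) (nat_lit 2392207383924) (nat_lit 0) (nat_lit 108092359259) (nat_lit 1) (nat_lit 5) (nat_lit 2) (nat_lit 4) (nat_lit 1) (nat_lit 4) (nat_lit 400) (nat_lit 344) (nat_lit 276)) (XT.nd (nat_lit 78) (nat_lit 0) (nat_lit 0) (XT.lf (nat_lit 0) (nat_lit 190300480188) (nat_lit 76) (nat_lit 2625149787927) (nat_lit 0) (nat_lit 183343950605) (nat_lit 1) (nat_lit 5) (nat_lit 2) (nat_lit 4) (nat_lit 1) (nat_lit 4) (nat_lit 401) (nat_lit 344) (nat_lit 275)) (XT.lf (nat_lit 0) (nat_lit 276838814676) (nat_lit 76) (nat_lit 2893035841327) (nat_lit 0) (nat_lit 269882226255) (nat_lit 1) (nat_lit 5) (nat_lit 2) (nat_lit 4) (nat_lit 1) (nat_lit 4) (nat_lit 402) (nat_lit 344) (nat_lit 274)))) (XT.nd (nat_lit 78) (nat_lit 0)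 (nat_lit 0) (XT.lf (nat_lit 0) (nat_lit 376356965968) (nat_lit 76) (nat_lit 3201106792995) (nat_lit 0) (nat_lit 369400326383) (nat_lit 1) (nat_lit 5) (nat_lit 2) (nat_lit 4) (nat_lit 1) (nat_lit 4) (nat_lit 403) (nat_lit 344) (nat_lit 273)) (XT.nd (nat_lit 78) (nat_lit 0) (nat_lit 0) (XT.lf (nat_lit 0) (nat_lit 490802028329) (nat_lit 76) (nat_lit 3555390118071) (nat_lit 0) (nat_lit 483845344253) (nat_lit 1) (nat_lit 5) (nat_lit 2) (nat_lit 4) (nat_lit 1) (nat_lit 4) (nat_lit 404) (nat_lit 344) (nat_lit 272)) (XT.lf (nat_lit 0) (nat_lit 622413144283) (nat_lit 76) (nat_lit 3962817446830) (nat_lit 0) (nat_lit 615456421520) (nat_lit 1) (nat_lit 5) (nat_lit 2) (nat_lit 4) (nat_lit 1) (nat_lit 4) (nat_lit 405) (nat_lit 344) (nat_lit 271))))) (XT.nd (nat_lit 234) (nat_lit 0) (nat_lit 0) (XT.nd (nat_lit 78) (nat_lit 0) (nat_lit 0) (XT.lf (nat_lit 0) (nat_lit 773765313926) (nat_lit 76) (nat_lit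 4431360183529) (nat_lit 0) (nat_lit 766808557522) (nat_lit 1) (nat_lit 5) (nat_lit 2) (nat_lit 4) (nat_lit 1) (nat_lit 4) (nat_lit 406) (nat_lit 344) (nat_lit 270)) (XT.nd (nat_lit 78) (nat_lit 0) (nat_lit 0) (XT.lf (nat_lit 0) (nat_lit 947819775358) (nat_lit 76) (nat_lit 4970185468669) (nat_lit 0) (nat_lit 940862989700) (nat_lit 1) (nat_lit 5) (nat_lit 2) (nat_lit 4) (nat_lit 1) (nat_lit 4) (nat_lit 407) (nat_lit 344) (nat_lit 269)) (XT.lf (nat_lit 0) (nat_lit 1147981941956) (nat_lit 76) (nat_lit 5589835536090) (nat_lit 0) (nat_lit 1141025130860) (nat_lit 1) (nat_lit 5) (nat_lit 2) (nat_lit 4) (nat_lit 1) (nat_lit 4) (nat_lit 408) (nat_lit 344) (nat_lit 268)))) (XT.nd (nat_lit 156) (nat_lit 0) (nat_lit 0) (XT.nd (nat_lit 78) (nat_lit 0) (nat_lit 0) (XT.lf (nat_lit 0) (nat_lit 1378168030022) (nat_lit 76) (nat_lit 6302433974067) (nat_lit 0) (nat_lit 1371211196807) (nat_lit 1) (nat_lit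 5) (nat_lit 2) (nat_lit 4) (nat_lit 1) (nat_lit 4) (nat_lit 409) (nat_lit 344) (nat_lit 267)) (XT.lf (nat_lit 0) (nat_lit 1642881680410) (nat_lit 76) (nat_lit 7121922925952) (nat_lit 0) (nat_lit 1635924827961) (nat_lit 1) (nat_lit 5) (nat_lit 2) (nat_lit 4) (nat_lit 1) (nat_lit 4) (nat_lit 410) (nat_lit 344) (nat_lit 266))) (XT.nd (nat_lit 78) (nat_lit 0) (nat_lit 0) (XT.lf (nat_lit 0) (nat_lit 1947302073236) (nat_lit 76) (nat_lit 8064335871238) (nat_lit 0) (nat_lit 1940345204062) (nat_lit 1) (nat_lit 5) (nat_lit 2) (nat_lit 4) (nat_lit 1) (nat_lit 4) (nat_lit 411) (nat_lit 344) (nat_lit 265)) (XT.lf (nat_lit 0) (nat_lit 2297385259665) (nat_lit 76) (nat_lit 9148111324074) (nat_lit 0) (nat_lit 2290428375946) (nat_lit 1) (nat_lit 5) (nat_lit 2) (nat_lit 4) (nat_lit 1) (nat_lit 4) (nat_lit 412) (nat_lit 344) (nat_lit 264))))))))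
noncomputable def xc55 : XT := (XT.nd (nat_lit 48360) (nat_lit 0) (nat_lit 608) (XT.nd (nat_lit 936) (nat_lit 0) (nat_lit 0) (XT.nd (nat_lit 468) (nat_lit 0) (nat_lit 0) (XT.nd (nat_lit 234) (nat_lit 0) (nat_lit 0) (XT.nd (nat_lit 78) (nat_lit 0) (nat_lit 0) (XT.lf (nat_lit 0) (nat_lit 2699980693344) (nat_lit 76) (nat_lit 10394453586795) (nat_lit 0) (nat_lit 2693023796978) (nat_lit 1) (nat_lit 5) (nat_lit 2) (nat_lit 4) (nat_lit 1) (nat_lit 4) (nat_lit 413) (nat_lit 344) (nat_lit 263)) (XT.nd (nat_lit 78) (nat_lit 0) (nat_lit 0) (XT.lf (nat_lit 0) (nat_lit 3162965241453) (nat_lit 76) (nat_lit 11827747616717) (nat_lit 0) (nat_lit 3156008334090) (nat_lit 1) (nat_lit 5) (nat_lit 2) (nat_lit 4) (nat_lit 1) (nat_lit 4) (nat_lit 414) (nat_lit 344) (nat_lit 262)) (XT.lf (nat_lit 0) (nat_lit 3695397297325) (nat_lit 76) (nat_lit 13476036123121) (nat_lit 0) (nat_lit 3688440380399) (nat_lit 1) (nat_lit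 5) (nat_lit 2) (nat_lit 4) (nat_lit 1) (nat_lit 4) (nat_lit 415) (nat_lit 344) (nat_lit 261)))) (XT.nd (nat_lit 78) (nat_lit 0) (nat_lit 0) (XT.lf (nat_lit 0) (nat_lit 4307694009880) (nat_lit 76) (nat_lit 15371568228958) (nat_lit 0) (nat_lit 4300737084638) (nat_lit 1) (nat_lit 5) (nat_lit 2) (nat_lit 4) (nat_lit 1) (nat_lit 4) (nat_lit 416) (nat_lit 344) (nat_lit 260)) (XT.nd (nat_lit 78) (nat_lit 0) (nat_lit 0) (XT.lf (nat_lit 0) (nat_lit 5011835097406) (nat_lit 76) (nat_lit 17551430431951) (nat_lit 0) (nat_lit 5004878164933) (nat_lit 1) (nat_lit 5) (nat_lit 2) (nat_lit 4) (nat_lit 1) (nat_lit 4) (nat_lit 417) (nat_lit 344) (nat_lit 259)) (XT.lf (nat_lit 0) (nat_lit 5821597233355) (nat_lit 76) (nat_lit 20058272209984) (nat_lit 0) (nat_lit 5814640294594) (nat_lit 1) (nat_lit 5) (nat_lit 2) (nat_lit 4) (nat_lit 1) (nat_lit 4) (nat_lit 418) (nat_lit 344) (nat_lit 258))))) (XT.nd (nat_lit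 234) (nat_lit 0) (nat_lit 0) (XT.nd (nat_lit 78) (nat_lit 0) (nat_lit 0) (XT.lf (nat_lit 0) (nat_lit 6752823589952) (nat_lit 76) (nat_lit 22941140467411) (nat_lit 0) (nat_lit 6745866645723) (nat_lit 1) (nat_lit 5) (nat_lit 2) (nat_lit 4) (nat_lit 1) (nat_lit 4) (nat_lit 419) (nat_lit 344) (nat_lit 257)) (XT.nd (nat_lit 78) (nat_lit 0) (nat_lit 0) (XT.lf (nat_lit 0) (nat_lit 7823733813304) (nat_lit 76) (nat_lit 26256439148398) (nat_lit 0) (nat_lit 7816776864321) (nat_lit 1) (nat_lit 5) (nat_lit 2) (nat_lit 4) (nat_lit 1) (nat_lit 4) (nat_lit 420) (nat_lit 344) (nat_lit 256)) (XT.lf (nat_lit 0) (nat_lit 9055280494738) (nat_lit 76) (nat_lit 30069032792357) (nat_lit 0) (nat_lit 9048323541621) (nat_lit 1) (nat_lit 5) (nat_lit 2) (nat_lit 4) (nat_lit 1) (nat_lit 4) (nat_lit 421) (nat_lit 344) (nat_lit 255)))) (XT.nd (nat_lit 78) (nat_lit 0) (nat_lit 0) (XT.lf (nat_lit 0) (nat_lit 10471559112804)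 (nat_lit 76) (nat_lit 34453515622755) (nat_lit 0) (nat_lit 10464602156092) (nat_lit 1) (nat_lit 5) (nat_lit 2) (nat_lit 4) (nat_lit 1) (nat_lit 4) (nat_lit 422) (nat_lit 344) (nat_lit 254)) (XT.nd (nat_lit 78) (nat_lit 0) (nat_lit 0) (XT.lf (nat_lit 0) (nat_lit 12100279466551) (nat_lit 76) (nat_lit 39495670999318) (nat_lit 0) (nat_lit 12093322506713) (nat_lit 1) (nat_lit 5) (nat_lit 2) (nat_lit 4) (nat_lit 1) (nat_lit 4) (nat_lit 423) (nat_lit 344) (nat_lit 253)) (XT.lf (nat_lit 0) (nat_lit 13973307823769) (nat_lit 76) (nat_lit 45294149788110) (nat_lit 0) (nat_lit 13966350861213) (nat_lit 1) (nat_lit 5) (nat_lit 2) (nat_lit 4) (nat_lit 1) (nat_lit 4) (nat_lit 424) (nat_lit 344) (nat_lit 252)))))) (XT.nd (nat_lit 46956) (nat_lit 0) (nat_lit 2280) (XT.nd (nat_lit 234) (nat_lit 0) (nat_lit 0) (XT.nd (nat_lit 78) (nat_lit 0) (nat_lit 0) (XT.lf (nat_lit 0) (nat_lit 16127290391448) (nat_lit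 76) (nat_lit 51962400487171) (nat_lit 0) (nat_lit 16120333426528) (nat_lit 1) (nat_lit 5) (nat_lit 2) (nat_lit 4) (nat_lit 1) (nat_lit 4) (nat_lit 425) (nat_lit 344) (nat_lit 251)) (XT.nd (nat_lit 78) (nat_lit 0) (nat_lit 0) (XT.lf (nat_lit 0) (nat_lit 18604370306781) (nat_lit 76) (nat_lit 59630888871049) (nat_lit 0) (nat_lit 18597413339806) (nat_lit 1) (nat_lit 5) (nat_lit 2) (nat_lit 4) (nat_lit 1) (nat_lit 4) (nat_lit 426) (nat_lit 344) (nat_lit 250)) (XT.lf (nat_lit 0) (nat_lit 21453012176808) (nat_lit 76) (nat_lit 68449650582037) (nat_lit 0) (nat_lit 21446055208045) (nat_lit 1) (nat_lit 5) (nat_lit 2) (nat_lit 4) (nat_lit 1) (nat_lit 4) (nat_lit 427) (nat_lit 344) (nat_lit 249)))) (XT.nd (nat_lit 78) (nat_lit 0) (nat_lit 0) (XT.lf (nat_lit 0) (nat_lit 24728950298985) (nat_lit 76) (nat_lit 78591226610132) (nat_lit 0) (nat_lit 24721993328668) (nat_lit 1) (nat_lit 5) (nat_lit 2) (nat_lit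 4) (nat_lit 1) (nat_lit 4) (nat_lit 428) (nat_lit 344) (nat_lit 248)) (XT.nd (nat_lit 46566) (nat_lit 0) (nat_lit 2812) (XT.lf (nat_lit 0) (nat_lit 28496279114833) (nat_lit 76) (nat_lit 90254039095015) (nat_lit 0) (nat_lit 28489322143164) (nat_lit 1) (nat_lit 5) (nat_lit 2) (nat_lit 4) (nat_lit 1) (nat_lit 4) (nat_lit 429) (nat_lit 344) (nat_lit 247)) (XT.lf (nat_lit 0) (nat_lit 1610245429) (nat_lit 0) (nat_lit 1610245429) (nat_lit 228) (nat_lit 1182625769) (nat_lit 38) (nat_lit 5) (nat_lit 38) (nat_lit 3) (nat_lit 41) (nat_lit 3) (nat_lit 345) (nat_lit 345) (nat_lit 330))))) (XT.nd (nat_lit 234) (nat_lit 228) (nat_lit 0) (XT.nd (nat_lit 78) (nat_lit 304) (nat_lit 0) (XT.lf (nat_lit 0) (nat_lit 7806516494) (nat_lit 228) (nat_lit 1208519204) (nat_lit 304) (nat_lit 318553761) (nat_lit 38) (nat_lit 5) (nat_lit 41) (nat_lit 3) (nat_lit 42) (nat_lit 5) (nat_lit 346) (nat_lit 345) (nat_lit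 329)) (XT.nd (nat_lit 78) (nat_lit 304) (nat_lit 0) (XT.lf (nat_lit 76) (nat_lit 3916847951) (nat_lit 0) (nat_lit 5624230886) (nat_lit 304) (nat_lit 374472791) (nat_lit 39) (nat_lit 5) (nat_lit 38) (nat_lit 5) (nat_lit 42) (nat_lit 5) (nat_lit 347) (nat_lit 345) (nat_lit 328)) (XT.lf (nat_lit 0) (nat_lit 790256114) (nat_lit 304) (nat_lit 783953030) (nat_lit 380) (nat_lit 9016206225) (nat_lit 34) (nat_lit 5) (nat_lit 38) (nat_lit 5) (nat_lit 39) (nat_lit 5) (nat_lit 348) (nat_lit 345) (nat_lit 327)))) (XT.nd (nat_lit 78) (nat_lit 304) (nat_lit 0) (XT.lf (nat_lit 0) (nat_lit 2339918663) (nat_lit 304) (nat_lit 5893379228) (nat_lit 76) (nat_lit 3093338380) (nat_lit 35) (nat_lit 5) (nat_lit 39) (nat_lit 5) (nat_lit 36) (nat_lit 5) (nat_lit 349) (nat_lit 345) (nat_lit 326)) (XT.nd (nat_lit 78) (nat_lit 0) (nat_lit 0) (XT.lf (nat_lit 0) (nat_lit 346570194) (nat_lit 304) (nat_lit 3796966035)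 (nat_lit 380) (nat_lit 8026603782) (nat_lit 31) (nat_lit 5) (nat_lit 35) (nat_lit 5) (nat_lit 36) (nat_lit 5) (nat_lit 350) (nat_lit 345) (nat_lit 325)) (XT.lf (nat_lit 0) (nat_lit 6493529454) (nat_lit 380) (nat_lit 5099067280) (nat_lit 76) (nat_lit 1506263320) (nat_lit 31) (nat_lit 5) (nat_lit 36) (nat_lit 5) (nat_lit 32) (nat_lit 5) (nat_lit 351) (nat_lit 345) (nat_lit 324))))))) (XT.nd (nat_lit 936) (nat_lit 760) (nat_lit 0) (XT.nd (nat_lit 468) (nat_lit 380) (nat_lit 0) (XT.nd (nat_lit 234) (nat_lit 228) (nat_lit 0) (XT.nd (nat_lit 78) (nat_lit 152) (nat_lit 0) (XT.lf (nat_lit 0) (nat_lit 2577313323) (nat_lit 152) (nat_lit 6818472702) (nat_lit 228) (nat_lit 4741194551) (nat_lit 29) (nat_lit 5) (nat_lit 31) (nat_lit 5) (nat_lit 32) (nat_lit 5) (nat_lit 352) (nat_lit 345) (nat_lit 323)) (XT.nd (nat_lit 78) (nat_lit 152) (nat_lit 0) (XT.lf (nat_lit 0) (nat_lit 11877569698) (nat_lit 152)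 (nat_lit 1041868927) (nat_lit 228) (nat_lit 2383521596) (nat_lit 29) (nat_lit 5) (nat_lit 31) (nat_lit 5) (nat_lit 32) (nat_lit 5) (nat_lit 353) (nat_lit 345) (nat_lit 322)) (XT.lf (nat_lit 0) (nat_lit 734134342) (nat_lit 152) (nat_lit 10467878486) (nat_lit 76) (nat_lit 5374498214) (nat_lit 27) (nat_lit 5) (nat_lit 29) (nat_lit 5) (nat_lit 28) (nat_lit 5) (nat_lit 354) (nat_lit 345) (nat_lit 321)))) (XT.nd (nat_lit 78) (nat_lit 228) (nat_lit 0) (XT.lf (nat_lit 0) (nat_lit 4244123278) (nat_lit 152) (nat_lit 827785486) (nat_lit 76) (nat_lit 12926886460) (nat_lit 27) (nat_lit 5) (nat_lit 29) (nat_lit 5) (nat_lit 28) (nat_lit 5) (nat_lit 355) (nat_lit 345) (nat_lit 320)) (XT.nd (nat_lit 78) (nat_lit 76) (nat_lit 0) (XT.lf (nat_lit 0) (nat_lit 8786197951) (nat_lit 228) (nat_lit 8511085269) (nat_lit 76) (nat_lit 2261329106) (nat_lit 25) (nat_lit 5) (nat_lit 28) (nat_lit 5) (nat_lit 26) (nat_lit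 4) (nat_lit 356) (nat_lit 345) (nat_lit 319)) (XT.lf (nat_lit 0) (nat_lit 3422503466) (nat_lit 76) (nat_lit 10959304380) (nat_lit 152) (nat_lit 6914785240) (nat_lit 24) (nat_lit 5) (nat_lit 25) (nat_lit 5) (nat_lit 26) (nat_lit 4) (nat_lit 357) (nat_lit 345) (nat_lit 318))))) (XT.nd (nat_lit 234) (nat_lit 228) (nat_lit 0) (XT.nd (nat_lit 78) (nat_lit 152) (nat_lit 0) (XT.lf (nat_lit 0) (nat_lit 18016876990) (nat_lit 76) (nat_lit 3192232006) (nat_lit 152) (nat_lit 2027330975) (nat_lit 24) (nat_lit 5) (nat_lit 25) (nat_lit 5) (nat_lit 26) (nat_lit 4) (nat_lit 358) (nat_lit 345) (nat_lit 317)) (XT.nd (nat_lit 78) (nat_lit 0) (nat_lit 0) (XT.lf (nat_lit 0) (nat_lit 3902495865) (nat_lit 152) (nat_lit 15658357823) (nat_lit 76) (nat_lit 5789735724) (nat_lit 22) (nat_lit 5) (nat_lit 24) (nat_lit 5) (nat_lit 23) (nat_lit 4) (nat_lit 359) (nat_lit 345) (nat_lit 316)) (XT.lf (nat_lit 0) (nat_lit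 10906026308) (nat_lit 152) (nat_lit 656211736) (nat_lit 76) (nat_lit 16146387963) (nat_lit 22) (nat_lit 5) (nat_lit 24) (nat_lit 5) (nat_lit 23) (nat_lit 4) (nat_lit 360) (nat_lit 345) (nat_lit 315)))) (XT.nd (nat_lit 78) (nat_lit 152) (nat_lit 0) (XT.lf (nat_lit 0) (nat_lit 18140714556) (nat_lit 76) (nat_lit 1530492581) (nat_lit 152) (nat_lit 10642505110) (nat_lit 21) (nat_lit 5) (nat_lit 22) (nat_lit 5) (nat_lit 23) (nat_lit 4) (nat_lit 361) (nat_lit 345) (nat_lit 314)) (XT.nd (nat_lit 78) (nat_lit 76) (nat_lit 0) (XT.lf (nat_lit 0) (nat_lit 6628937707) (nat_lit 76) (nat_lit 23808136893) (nat_lit 76) (nat_lit 2769611072) (nat_lit 20) (nat_lit 4) (nat_lit 21) (nat_lit 5) (nat_lit 21) (nat_lit 4) (nat_lit 362) (nat_lit 345) (nat_lit 313)) (XT.lf (nat_lit 0) (nat_lit 6425883878) (nat_lit 152) (nat_lit 7254575976) (nat_lit 76) (nat_lit 22708951238) (nat_lit 19) (nat_lit 5) (nat_lit 21)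 (nat_lit 5) (nat_lit 20) (nat_lit 4) (nat_lit 363) (nat_lit 345) (nat_lit 312)))))) (XT.nd (nat_lit 468) (nat_lit 380) (nat_lit 0) (XT.nd (nat_lit 234) (nat_lit 228) (nat_lit 0) (XT.nd (nat_lit 78) (nat_lit 76) (nat_lit 0) (XT.lf (nat_lit 0) (nat_lit 16216009275) (nat_lit 76) (nat_lit 1139247114) (nat_lit 152) (nat_lit 22578796709) (nat_lit 18) (nat_lit 5) (nat_lit 19) (nat_lit 5) (nat_lit 20) (nat_lit 4) (nat_lit 364) (nat_lit 345) (nat_lit 311)) (XT.nd (nat_lit 78) (nat_lit 76) (nat_lit 0) (XT.lf (nat_lit 0) (nat_lit 30838662575) (nat_lit 152) (nat_lit 562627838) (nat_lit 0) (nat_lit 12471912929) (nat_lit 18) (nat_lit 5) (nat_lit 20) (nat_lit 4) (nat_lit 18) (nat_lit 4) (nat_lit 365) (nat_lit 345) (nat_lit 310)) (XT.lf (nat_lit 0) (nat_lit 28493273830) (nat_lit 76) (nat_lit 19056989761) (nat_lit 76) (nat_lit 672115254) (nat_lit 17) (nat_lit 4) (nat_lit 18) (nat_lit 5) (nat_lit 18) (nat_lit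 4) (nat_lit 366) (nat_lit 345) (nat_lit 309)))) (XT.nd (nat_lit 78) (nat_lit 76) (nat_lit 0) (XT.lf (nat_lit 0) (nat_lit 8928392620) (nat_lit 76) (nat_lit 3782783136) (nat_lit 152) (nat_lit 40372779187) (nat_lit 15) (nat_lit 5) (nat_lit 16) (nat_lit 5) (nat_lit 17) (nat_lit 4) (nat_lit 367) (nat_lit 345) (nat_lit 308)) (XT.nd (nat_lit 78) (nat_lit 76) (nat_lit 0) (XT.lf (nat_lit 0) (nat_lit 29656477613) (nat_lit 152) (nat_lit 15125985333) (nat_lit 0) (nat_lit 13644007827) (nat_lit 15) (nat_lit 5) (nat_lit 17) (nat_lit 4) (nat_lit 15) (nat_lit 4) (nat_lit 368) (nat_lit 345) (nat_lit 307)) (XT.lf (nat_lit 0) (nat_lit 19791251149) (nat_lit 76) (nat_lit 30327812623) (nat_lit 76) (nat_lit 14304979888) (nat_lit 14) (nat_lit 4) (nat_lit 15) (nat_lit 5) (nat_lit 15) (nat_lit 4) (nat_lit 369) (nat_lit 345) (nat_lit 306))))) (XT.nd (nat_lit 234) (nat_lit 228) (nat_lit 0) (XT.nd (nat_lit 78) (nat_lit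 76) (nat_lit 0) (XT.lf (nat_lit 0) (nat_lit 2926678382) (nat_lit 152) (nat_lit 9739485471) (nat_lit 76) (nat_lit 58519974214) (nat_lit 13) (nat_lit 5) (nat_lit 15) (nat_lit 5) (nat_lit 14) (nat_lit 4) (nat_lit 370) (nat_lit 345) (nat_lit 305)) (XT.nd (nat_lit 78) (nat_lit 0) (nat_lit 0) (XT.lf (nat_lit 0) (nat_lit 23018322745) (nat_lit 152) (nat_lit 46510303204) (nat_lit 0) (nat_lit 9070775031) (nat_lit 12) (nat_lit 5) (nat_lit 14) (nat_lit 4) (nat_lit 12) (nat_lit 4) (nat_lit 371) (nat_lit 345) (nat_lit 304)) (XT.lf (nat_lit 0) (nat_lit 47239524870) (nat_lit 152) (nat_lit 6431706424) (nat_lit 0) (nat_lit 33286052106) (nat_lit 12) (nat_lit 5) (nat_lit 14) (nat_lit 4) (nat_lit 12) (nat_lit 4) (nat_lit 372) (nat_lit 345) (nat_lit 303)))) (XT.nd (nat_lit 156) (nat_lit 76) (nat_lit 0) (XT.nd (nat_lit 78) (nat_lit 76) (nat_lit 0) (XT.lf (nat_lit 0) (nat_lit 43493770511) (nat_lit 76) (nat_lit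 33383127759) (nat_lit 76) (nat_lit 19424502778) (nat_lit 11) (nat_lit 4) (nat_lit 12) (nat_lit 5) (nat_lit 12) (nat_lit 4) (nat_lit 373) (nat_lit 345) (nat_lit 302)) (XT.lf (nat_lit 0) (nat_lit 3898688756) (nat_lit 152) (nat_lit 5580924343) (nat_lit 76) (nat_lit 97493078637) (nat_lit 10) (nat_lit 5) (nat_lit 12) (nat_lit 5) (nat_lit 11) (nat_lit 4) (nat_lit 374) (nat_lit 345) (nat_lit 301))) (XT.nd (nat_lit 78) (nat_lit 0) (nat_lit 0) (XT.lf (nat_lit 0) (nat_lit 31780044121) (nat_lit 152) (nat_lit 67233802949) (nat_lit 0) (nat_lit 19634825873) (nat_lit 9) (nat_lit 5) (nat_lit 11) (nat_lit 4) (nat_lit 9) (nat_lit 4) (nat_lit 375) (nat_lit 345) (nat_lit 300)) (XT.lf (nat_lit 0) (nat_lit 64585144610) (nat_lit 152) (nat_lit 14942695742) (nat_lit 0) (nat_lit 52436980566) (nat_lit 9) (nat_lit 5) (nat_lit 11) (nat_lit 4) (nat_lit 9) (nat_lit 4) (nat_lit 376) (nat_lit 345) (nat_lit 299))))))))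
noncomputable def xc56 : XT := (XT.nd (nat_lit 1872) (nat_lit 0) (nat_lit 0) (XT.nd (nat_lit 936) (nat_lit 152) (nat_lit 0) (XT.nd (nat_lit 468) (nat_lit 152) (nat_lit 0) (XT.nd (nat_lit 234) (nat_lit 76) (nat_lit 0) (XT.nd (nat_lit 78) (nat_lit 152) (nat_lit 0) (XT.lf (nat_lit 0) (nat_lit 49577691571) (nat_lit 76) (nat_lit 54772755194) (nat_lit 76) (nat_lit 42622029588) (nat_lit 8) (nat_lit 4) (nat_lit 9) (nat_lit 5) (nat_lit 9) (nat_lit 4) (nat_lit 377) (nat_lit 345) (nat_lit 298)) (XT.nd (nat_lit 78) (nat_lit 152) (nat_lit 0) (XT.lf (nat_lit 0) (nat_lit 125428636168) (nat_lit 76) (nat_lit 25420178535) (nat_lit 76) (nat_lit 13267225483) (nat_lit 8) (nat_lit 4) (nat_lit 9) (nat_lit 5) (nat_lit 9) (nat_lit 4) (nat_lit 378) (nat_lit 345) (nat_lit 297)) (XT.lf (nat_lit 0) (nat_lit 20371002915) (nat_lit 152) (nat_lit 153275665297) (nat_lit 0) (nat_lit 9801533383) (nat_lit 6) (nat_lit 5)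 (nat_lit 8) (nat_lit 4) (nat_lit 6) (nat_lit 4) (nat_lit 379) (nat_lit 345) (nat_lit 296)))) (XT.nd (nat_lit 78) (nat_lit 76) (nat_lit 0) (XT.lf (nat_lit 0) (nat_lit 61014099630) (nat_lit 152) (nat_lit 93630539815) (nat_lit 0) (nat_lit 50443165517) (nat_lit 6) (nat_lit 5) (nat_lit 8) (nat_lit 4) (nat_lit 6) (nat_lit 4) (nat_lit 380) (nat_lit 345) (nat_lit 295)) (XT.nd (nat_lit 78) (nat_lit 76) (nat_lit 0) (XT.lf (nat_lit 0) (nat_lit 107743543122) (nat_lit 152) (nat_lit 25059988284) (nat_lit 0) (nat_lit 97171335460) (nat_lit 6) (nat_lit 5) (nat_lit 8) (nat_lit 4) (nat_lit 6) (nat_lit 4) (nat_lit 381) (nat_lit 345) (nat_lit 294)) (XT.lf (nat_lit 0) (nat_lit 59033123958) (nat_lit 76) (nat_lit 104884916929) (nat_lit 76) (nat_lit 94311601832) (nat_lit 5) (nat_lit 4) (nat_lit 6) (nat_lit 5) (nat_lit 6) (nat_lit 4) (nat_lit 382) (nat_lit 345) (nat_lit 293))))) (XT.nd (nat_lit 234) (nat_lit 0)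 (nat_lit 0) (XT.nd (nat_lit 78) (nat_lit 152) (nat_lit 0) (XT.lf (nat_lit 0) (nat_lit 158538888648) (nat_lit 76) (nat_lit 71281394589) (nat_lit 76) (nat_lit 60707116506) (nat_lit 5) (nat_lit 4) (nat_lit 6) (nat_lit 5) (nat_lit 6) (nat_lit 4) (nat_lit 383) (nat_lit 345) (nat_lit 292)) (XT.nd (nat_lit 78) (nat_lit 152) (nat_lit 0) (XT.lf (nat_lit 0) (nat_lit 272955113394) (nat_lit 76) (nat_lit 32645458100) (nat_lit 76) (nat_lit 22070342638) (nat_lit 5) (nat_lit 4) (nat_lit 6) (nat_lit 5) (nat_lit 6) (nat_lit 4) (nat_lit 384) (nat_lit 345) (nat_lit 291)) (XT.lf (nat_lit 0) (nat_lit 22477629377) (nat_lit 152) (nat_lit 334172214194) (nat_lit 0) (nat_lit 13281243623) (nat_lit 3) (nat_lit 5) (nat_lit 5) (nat_lit 4) (nat_lit 3) (nat_lit 4) (nat_lit 385) (nat_lit 345) (nat_lit 290)))) (XT.nd (nat_lit 78) (nat_lit 0) (nat_lit 0) (XT.lf (nat_lit 0) (nat_lit 75992478176) (nat_lit 152) (nat_lit 274902981514)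 (nat_lit 0) (nat_lit 66795541831) (nat_lit 3) (nat_lit 5) (nat_lit 5) (nat_lit 4) (nat_lit 3) (nat_lit 4) (nat_lit 386) (nat_lit 345) (nat_lit 289)) (XT.nd (nat_lit 78) (nat_lit 0) (nat_lit 0) (XT.lf (nat_lit 0) (nat_lit 137528794804) (nat_lit 152) (nat_lit 206755592573) (nat_lit 0) (nat_lit 128331379685) (nat_lit 3) (nat_lit 5) (nat_lit 5) (nat_lit 4) (nat_lit 3) (nat_lit 4) (nat_lit 387) (nat_lit 345) (nat_lit 288)) (XT.lf (nat_lit 0) (nat_lit 208290550673) (nat_lit 152) (nat_lit 128396728892) (nat_lit 0) (nat_lit 199092719228) (nat_lit 3) (nat_lit 5) (nat_lit 5) (nat_lit 4) (nat_lit 3) (nat_lit 4) (nat_lit 388) (nat_lit 345) (nat_lit 287)))))) (XT.nd (nat_lit 468) (nat_lit 76) (nat_lit 0) (XT.nd (nat_lit 234) (nat_lit 0) (nat_lit 0) (XT.nd (nat_lit 78) (nat_lit 76) (nat_lit 0) (XT.lf (nat_lit 0) (nat_lit 289662214920) (nat_lit 152) (nat_lit 38293282267) (nat_lit 0) (nat_lit 280464021453)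 (nat_lit 3) (nat_lit 5) (nat_lit 5) (nat_lit 4) (nat_lit 3) (nat_lit 4) (nat_lit 389) (nat_lit 345) (nat_lit 286)) (XT.nd (nat_lit 78) (nat_lit 0) (nat_lit 0) (XT.lf (nat_lit 0) (nat_lit 71700955718) (nat_lit 76) (nat_lit 314503869799) (nat_lit 76) (nat_lit 305305361530) (nat_lit 2) (nat_lit 4) (nat_lit 3) (nat_lit 5) (nat_lit 3) (nat_lit 4) (nat_lit 390) (nat_lit 345) (nat_lit 285)) (XT.lf (nat_lit 0) (nat_lit 202490297097) (nat_lit 76) (nat_lit 296736614094) (nat_lit 76) (nat_lit 287537832084) (nat_lit 2) (nat_lit 4) (nat_lit 3) (nat_lit 5) (nat_lit 3) (nat_lit 4) (nat_lit 391) (nat_lit 345) (nat_lit 284)))) (XT.nd (nat_lit 78) (nat_lit 0) (nat_lit 0) (XT.lf (nat_lit 0) (nat_lit 352891365725) (nat_lit 76) (nat_lit 276307804151) (nat_lit 76) (nat_lit 267108784106) (nat_lit 2) (nat_lit 4) (nat_lit 3) (nat_lit 5) (nat_lit 3) (nat_lit 4) (nat_lit 392) (nat_lit 345) (nat_lit 283)) (XT.nd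 (nat_lit 78) (nat_lit 0) (nat_lit 0) (XT.lf (nat_lit 0) (nat_lit 525846791206) (nat_lit 76) (nat_lit 252817745864) (nat_lit 76) (nat_lit 243618518831) (nat_lit 2) (nat_lit 4) (nat_lit 3) (nat_lit 5) (nat_lit 3) (nat_lit 4) (nat_lit 393) (nat_lit 345) (nat_lit 282)) (XT.lf (nat_lit 0) (nat_lit 724740484038) (nat_lit 76) (nat_lit 225806851134) (nat_lit 76) (nat_lit 216607444113) (nat_lit 2) (nat_lit 4) (nat_lit 3) (nat_lit 5) (nat_lit 3) (nat_lit 4) (nat_lit 394) (nat_lit 345) (nat_lit 281))))) (XT.nd (nat_lit 234) (nat_lit 76) (nat_lit 0) (XT.nd (nat_lit 78) (nat_lit 0) (nat_lit 0) (XT.lf (nat_lit 0) (nat_lit 953463842560) (nat_lit 76) (nat_lit 194746645935) (nat_lit 76) (nat_lit 185547082402) (nat_lit 2) (nat_lit 4) (nat_lit 3) (nat_lit 5) (nat_lit 3) (nat_lit 4) (nat_lit 395) (nat_lit 345) (nat_lit 280)) (XT.nd (nat_lit 78) (nat_lit 0) (nat_lit 0) (XT.lf (nat_lit 0) (nat_lit 1216491889003)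 (nat_lit 76) (nat_lit 159029430600) (nat_lit 76) (nat_lit 149829730969) (nat_lit 2) (nat_lit 4) (nat_lit 3) (nat_lit 5) (nat_lit 3) (nat_lit 4) (nat_lit 396) (nat_lit 345) (nat_lit 279)) (XT.lf (nat_lit 0) (nat_lit 1518970824276) (nat_lit 76) (nat_lit 117956390047) (nat_lit 76) (nat_lit 108756572070) (nat_lit 2) (nat_lit 4) (nat_lit 3) (nat_lit 5) (nat_lit 3) (nat_lit 4) (nat_lit 397) (nat_lit 345) (nat_lit 278)))) (XT.nd (nat_lit 78) (nat_lit 76) (nat_lit 0) (XT.lf (nat_lit 0) (nat_lit 1866818714504) (nat_lit 76) (nat_lit 70723921307) (nat_lit 76) (nat_lit 61524000421) (nat_lit 2) (nat_lit 4) (nat_lit 3) (nat_lit 5) (nat_lit 3) (nat_lit 4) (nat_lit 398) (nat_lit 345) (nat_lit 277)) (XT.nd (nat_lit 78) (nat_lit 76) (nat_lit 0) (XT.lf (nat_lit 0) (nat_lit 2266841279278) (nat_lit 76) (nat_lit 16407910862) (nat_lit 76) (nat_lit 7207900490) (nat_lit 2) (nat_lit 4) (nat_lit 3) (nat_lit 5)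 (nat_lit 3) (nat_lit 4) (nat_lit 399) (nat_lit 345) (nat_lit 276)) (XT.lf (nat_lit 0) (nat_lit 57066542081) (nat_lit 76) (nat_lit 2518070378473) (nat_lit 0) (nat_lit 49066465397) (nat_lit 1) (nat_lit 5) (nat_lit 2) (nat_lit 4) (nat_lit 1) (nat_lit 4) (nat_lit 400) (nat_lit 345) (nat_lit 275))))))) (XT.nd (nat_lit 936) (nat_lit 0) (nat_lit 0) (XT.nd (nat_lit 468) (nat_lit 0) (nat_lit 0) (XT.nd (nat_lit 234) (nat_lit 0) (nat_lit 0) (XT.nd (nat_lit 78) (nat_lit 0) (nat_lit 0) (XT.lf (nat_lit 0) (nat_lit 132317701847) (nat_lit 76) (nat_lit 2751013847033) (nat_lit 0) (nat_lit 124317566325) (nat_lit 1) (nat_lit 5) (nat_lit 2) (nat_lit 4) (nat_lit 1) (nat_lit 4) (nat_lit 401) (nat_lit 345) (nat_lit 274)) (XT.nd (nat_lit 78) (nat_lit 0) (nat_lit 0) (XT.lf (nat_lit 0) (nat_lit 218855602210) (nat_lit 76) (nat_lit 3018900826134) (nat_lit 0) (nat_lit 210855415523) (nat_lit 1) (nat_lit 5) (nat_lit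 2) (nat_lit 4) (nat_lit 1) (nat_lit 4) (nat_lit 402) (nat_lit 345) (nat_lit 273)) (XT.lf (nat_lit 0) (nat_lit 318373376003) (nat_lit 76) (nat_lit 3326972582759) (nat_lit 0) (nat_lit 310373144825) (nat_lit 1) (nat_lit 5) (nat_lit 2) (nat_lit 4) (nat_lit 1) (nat_lit 4) (nat_lit 403) (nat_lit 345) (nat_lit 272)))) (XT.nd (nat_lit 78) (nat_lit 0) (nat_lit 0) (XT.lf (nat_lit 0) (nat_lit 432818110103) (nat_lit 76) (nat_lit 3681256607799) (nat_lit 0) (nat_lit 424817840238) (nat_lit 1) (nat_lit 5) (nat_lit 2) (nat_lit 4) (nat_lit 1) (nat_lit 4) (nat_lit 404) (nat_lit 345) (nat_lit 271)) (XT.nd (nat_lit 78) (nat_lit 0) (nat_lit 0) (XT.lf (nat_lit 0) (nat_lit 564428940613) (nat_lit 76) (nat_lit 4088684545221) (nat_lit 0) (nat_lit 556428637107) (nat_lit 1) (nat_lit 5) (nat_lit 2) (nat_lit 4) (nat_lit 1) (nat_lit 4) (nat_lit 405) (nat_lit 345) (nat_lit 270)) (XT.lf (nat_lit 0) (nat_lit 715780862043)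 (nat_lit 76) (nat_lit 4557227811193) (nat_lit 0) (nat_lit 707780529284) (nat_lit 1) (nat_lit 5) (nat_lit 2) (nat_lit 4) (nat_lit 1) (nat_lit 4) (nat_lit 406) (nat_lit 345) (nat_lit 269))))) (XT.nd (nat_lit 234) (nat_lit 0) (nat_lit 0) (XT.nd (nat_lit 78) (nat_lit 0) (nat_lit 0) (XT.lf (nat_lit 0) (nat_lit 889835107638) (nat_lit 76) (nat_lit 5096053556570) (nat_lit 0) (nat_lit 881834749441) (nat_lit 1) (nat_lit 5) (nat_lit 2) (nat_lit 4) (nat_lit 1) (nat_lit 4) (nat_lit 407) (nat_lit 345) (nat_lit 268)) (XT.nd (nat_lit 78) (nat_lit 0) (nat_lit 0) (XT.lf (nat_lit 0) (nat_lit 1089997086552) (nat_lit 76) (nat_lit 5715704024197) (nat_lit 0) (nat_lit 1081996706235) (nat_lit 1) (nat_lit 5) (nat_lit 2) (nat_lit 4) (nat_lit 1) (nat_lit 4) (nat_lit 408) (nat_lit 345) (nat_lit 267)) (XT.lf (nat_lit 0) (nat_lit 1320183011414) (nat_lit 76) (nat_lit 6428302810179) (nat_lit 0) (nat_lit 1312182611863)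 (nat_lit 1) (nat_lit 5) (nat_lit 2) (nat_lit 4) (nat_lit 1) (nat_lit 4) (nat_lit 409) (nat_lit 345) (nat_lit 266)))) (XT.nd (nat_lit 78) (nat_lit 0) (nat_lit 0) (XT.lf (nat_lit 0) (nat_lit 1584896519886) (nat_lit 76) (nat_lit 7247792064678) (nat_lit 0) (nat_lit 1576896103609) (nat_lit 1) (nat_lit 5) (nat_lit 2) (nat_lit 4) (nat_lit 1) (nat_lit 4) (nat_lit 410) (nat_lit 345) (nat_lit 265)) (XT.nd (nat_lit 78) (nat_lit 0) (nat_lit 0) (XT.lf (nat_lit 0) (nat_lit 1889316789307) (nat_lit 76) (nat_lit 8190205273106) (nat_lit 0) (nat_lit 1881316358486) (nat_lit 1) (nat_lit 5) (nat_lit 2) (nat_lit 4) (nat_lit 1) (nat_lit 4) (nat_lit 411) (nat_lit 345) (nat_lit 264)) (XT.lf (nat_lit 0) (nat_lit 2239399868427) (nat_lit 76) (nat_lit 9273980954760) (nat_lit 0) (nat_lit 2231399424959) (nat_lit 1) (nat_lit 5) (nat_lit 2) (nat_lit 4) (nat_lit 1) (nat_lit 4) (nat_lit 412) (nat_lit 345) (nat_lit 263))))))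 (XT.nd (nat_lit 468) (nat_lit 0) (nat_lit 0) (XT.nd (nat_lit 234) (nat_lit 0) (nat_lit 0) (XT.nd (nat_lit 78) (nat_lit 0) (nat_lit 0) (XT.lf (nat_lit 0) (nat_lit 2641995208793) (nat_lit 76) (nat_lit 10520323416455) (nat_lit 0) (nat_lit 2633994754328) (nat_lit 1) (nat_lit 5) (nat_lit 2) (nat_lit 4) (nat_lit 1) (nat_lit 4) (nat_lit 413) (nat_lit 345) (nat_lit 262)) (XT.nd (nat_lit 78) (nat_lit 0) (nat_lit 0) (XT.lf (nat_lit 0) (nat_lit 3104979675761) (nat_lit 76) (nat_lit 11953617619397) (nat_lit 0) (nat_lit 3096979211733) (nat_lit 1) (nat_lit 5) (nat_lit 2) (nat_lit 4) (nat_lit 1) (nat_lit 4) (nat_lit 414) (nat_lit 345) (nat_lit 261)) (XT.lf (nat_lit 0) (nat_lit 3637411661076) (nat_lit 76) (nat_lit 13601906276254) (nat_lit 0) (nat_lit 3629411188733) (nat_lit 1) (nat_lit 5) (nat_lit 2) (nat_lit 4) (nat_lit 1) (nat_lit 4) (nat_lit 415) (nat_lit 345) (nat_lit 260)))) (XT.nd (nat_lit 78) (nat_lit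 0) (nat_lit 0) (XT.lf (nat_lit 0) (nat_lit 4249708312276) (nat_lit 76) (nat_lit 15497438512919) (nat_lit 0) (nat_lit 4241707832702) (nat_lit 1) (nat_lit 5) (nat_lit 2) (nat_lit 4) (nat_lit 1) (nat_lit 4) (nat_lit 416) (nat_lit 345) (nat_lit 259)) (XT.nd (nat_lit 78) (nat_lit 0) (nat_lit 0) (XT.lf (nat_lit 0) (nat_lit 4953849346451) (nat_lit 76) (nat_lit 17677300829675) (nat_lit 0) (nat_lit 4945848860588) (nat_lit 1) (nat_lit 5) (nat_lit 2) (nat_lit 4) (nat_lit 1) (nat_lit 4) (nat_lit 417) (nat_lit 345) (nat_lit 258)) (XT.lf (nat_lit 0) (nat_lit 5763611436007) (nat_lit 76) (nat_lit 20184142706633) (nat_lit 0) (nat_lit 5755610944677) (nat_lit 1) (nat_lit 5) (nat_lit 2) (nat_lit 4) (nat_lit 1) (nat_lit 4) (nat_lit 418) (nat_lit 345) (nat_lit 257))))) (XT.nd (nat_lit 234) (nat_lit 0) (nat_lit 0) (XT.nd (nat_lit 78) (nat_lit 0) (nat_lit 0) (XT.lf (nat_lit 0) (nat_lit 6694837752262) (nat_lit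 76) (nat_lit 23067011050082) (nat_lit 0) (nat_lit 6686837256178) (nat_lit 1) (nat_lit 5) (nat_lit 2) (nat_lit 4) (nat_lit 1) (nat_lit 4) (nat_lit 419) (nat_lit 345) (nat_lit 256)) (XT.nd (nat_lit 78) (nat_lit 0) (nat_lit 0) (XT.lf (nat_lit 0) (nat_lit 7765747940535) (nat_lit 76) (nat_lit 26382309805870) (nat_lit 0) (nat_lit 7757747440317) (nat_lit 1) (nat_lit 5) (nat_lit 2) (nat_lit 4) (nat_lit 1) (nat_lit 4) (nat_lit 420) (nat_lit 345) (nat_lit 255)) (XT.lf (nat_lit 0) (nat_lit 8997294591466) (nat_lit 76) (nat_lit 30194903514873) (nat_lit 0) (nat_lit 8989294087652) (nat_lit 1) (nat_lit 5) (nat_lit 2) (nat_lit 4) (nat_lit 1) (nat_lit 4) (nat_lit 421) (nat_lit 345) (nat_lit 254)))) (XT.nd (nat_lit 156) (nat_lit 0) (nat_lit 0) (XT.nd (nat_lit 78) (nat_lit 0) (nat_lit 0) (XT.lf (nat_lit 0) (nat_lit 10413573183007) (nat_lit 76) (nat_lit 34579386401832) (nat_lit 0) (nat_lit 10405572676067)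 (nat_lit 1) (nat_lit 5) (nat_lit 2) (nat_lit 4) (nat_lit 1) (nat_lit 4) (nat_lit 422) (nat_lit 345) (nat_lit 253)) (XT.lf (nat_lit 0) (nat_lit 12042293513688) (nat_lit 76) (nat_lit 39621541827579) (nat_lit 0) (nat_lit 12034293004030) (nat_lit 1) (nat_lit 5) (nat_lit 2) (nat_lit 4) (nat_lit 1) (nat_lit 4) (nat_lit 423) (nat_lit 345) (nat_lit 252))) (XT.nd (nat_lit 78) (nat_lit 0) (nat_lit 0) (XT.lf (nat_lit 0) (nat_lit 13915321850850) (nat_lit 76) (nat_lit 45420020659138) (nat_lit 0) (nat_lit 13907321338827) (nat_lit 1) (nat_lit 5) (nat_lit 2) (nat_lit 4) (nat_lit 1) (nat_lit 4) (nat_lit 424) (nat_lit 345) (nat_lit 251)) (XT.lf (nat_lit 0) (nat_lit 16069304401088) (nat_lit 76) (nat_lit 52088271395389) (nat_lit 0) (nat_lit 16061303887010) (nat_lit 1) (nat_lit 5) (nat_lit 2) (nat_lit 4) (nat_lit 1) (nat_lit 4) (nat_lit 425) (nat_lit 345) (nat_lit 250))))))))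
noncomputable def xc57 : XT := (XT.nd (nat_lit 48438) (nat_lit 0) (nat_lit 152) (XT.nd (nat_lit 47502) (nat_lit 0) (nat_lit 1292) (XT.nd (nat_lit 47034) (nat_lit 0) (nat_lit 2128) (XT.nd (nat_lit 234) (nat_lit 0) (nat_lit 0) (XT.nd (nat_lit 78) (nat_lit 0) (nat_lit 0) (XT.lf (nat_lit 0) (nat_lit 18546384301255) (nat_lit 76) (nat_lit 59756759811606) (nat_lit 0) (nat_lit 18538383785390) (nat_lit 1) (nat_lit 5) (nat_lit 2) (nat_lit 4) (nat_lit 1) (nat_lit 4) (nat_lit 426) (nat_lit 345) (nat_lit 249)) (XT.nd (nat_lit 78) (nat_lit 0) (nat_lit 0) (XT.lf (nat_lit 0) (nat_lit 21395026158094) (nat_lit 76) (nat_lit 68575521550714) (nat_lit 0) (nat_lit 21387025640675) (nat_lit 1) (nat_lit 5) (nat_lit 2) (nat_lit 4) (nat_lit 1) (nat_lit 4) (nat_lit 427) (nat_lit 345) (nat_lit 248)) (XT.lf (nat_lit 0) (nat_lit 24670964268803) (nat_lit 76) (nat_lit 78717097603262) (nat_lit 0) (nat_lit 24662963750033)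 (nat_lit 1) (nat_lit 5) (nat_lit 2) (nat_lit 4) (nat_lit 1) (nat_lit 4) (nat_lit 428) (nat_lit 345) (nat_lit 247)))) (XT.nd (nat_lit 46644) (nat_lit 0) (nat_lit 2812) (XT.lf (nat_lit 0) (nat_lit 28438293074680) (nat_lit 76) (nat_lit 90379910109408) (nat_lit 0) (nat_lit 28430292554734) (nat_lit 1) (nat_lit 5) (nat_lit 2) (nat_lit 4) (nat_lit 1) (nat_lit 4) (nat_lit 429) (nat_lit 345) (nat_lit 246)) (XT.nd (nat_lit 78) (nat_lit 0) (nat_lit 0) (XT.lf (nat_lit 0) (nat_lit 2267802329) (nat_lit 0) (nat_lit 2267802329) (nat_lit 228) (nat_lit 402462048) (nat_lit 38) (nat_lit 5) (nat_lit 38) (nat_lit 3) (nat_lit 41) (nat_lit 3) (nat_lit 346) (nat_lit 346) (nat_lit 328)) (XT.lf (nat_lit 0) (nat_lit 10086493412) (nat_lit 0) (nat_lit 321375269) (nat_lit 228) (nat_lit 109965794) (nat_lit 38) (nat_lit 5) (nat_lit 38) (nat_lit 3) (nat_lit 41) (nat_lit 3) (nat_lit 347) (nat_lit 346) (nat_lit 327)))))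 (XT.nd (nat_lit 234) (nat_lit 380) (nat_lit 0) (XT.nd (nat_lit 78) (nat_lit 0) (nat_lit 0) (XT.lf (nat_lit 0) (nat_lit 939823992) (nat_lit 304) (nat_lit 5821963960) (nat_lit 380) (nat_lit 4443016405) (nat_lit 34) (nat_lit 5) (nat_lit 38) (nat_lit 5) (nat_lit 39) (nat_lit 5) (nat_lit 348) (nat_lit 346) (nat_lit 326)) (XT.nd (nat_lit 78) (nat_lit 0) (nat_lit 76) (XT.lf (nat_lit 76) (nat_lit 20938287) (nat_lit 0) (nat_lit 2047096142) (nat_lit 380) (nat_lit 9936243785) (nat_lit 35) (nat_lit 5) (nat_lit 34) (nat_lit 5) (nat_lit 39) (nat_lit 5) (nat_lit 349) (nat_lit 346) (nat_lit 325)) (XT.lf (nat_lit 0) (nat_lit 3727747431) (nat_lit 304) (nat_lit 5734526620) (nat_lit 76) (nat_lit 3407124145) (nat_lit 35) (nat_lit 5) (nat_lit 39) (nat_lit 5) (nat_lit 36) (nat_lit 5) (nat_lit 350) (nat_lit 346) (nat_lit 324)))) (XT.nd (nat_lit 78) (nat_lit 152) (nat_lit 0) (XT.lf (nat_lit 0) (nat_lit 1394012511)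 (nat_lit 304) (nat_lit 4313874737) (nat_lit 380) (nat_lit 8145735572) (nat_lit 31) (nat_lit 5) (nat_lit 35) (nat_lit 5) (nat_lit 36) (nat_lit 5) (nat_lit 351) (nat_lit 346) (nat_lit 323)) (XT.nd (nat_lit 78) (nat_lit 152) (nat_lit 0) (XT.lf (nat_lit 0) (nat_lit 8289298123) (nat_lit 380) (nat_lit 4876696566) (nat_lit 76) (nat_lit 1773898613) (nat_lit 31) (nat_lit 5) (nat_lit 36) (nat_lit 5) (nat_lit 32) (nat_lit 5) (nat_lit 352) (nat_lit 346) (nat_lit 322)) (XT.lf (nat_lit 0) (nat_lit 3906267000) (nat_lit 152) (nat_lit 7652463779) (nat_lit 228) (nat_lit 4585295248) (nat_lit 29) (nat_lit 5) (nat_lit 31) (nat_lit 5) (nat_lit 32) (nat_lit 5) (nat_lit 353) (nat_lit 346) (nat_lit 321)))))) (XT.nd (nat_lit 468) (nat_lit 456) (nat_lit 0) (XT.nd (nat_lit 234) (nat_lit 228) (nat_lit 0) (XT.nd (nat_lit 78) (nat_lit 152) (nat_lit 0) (XT.lf (nat_lit 0) (nat_lit 14478645743) (nat_lit 152) (nat_lit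 1033992893) (nat_lit 228) (nat_lit 1987068544) (nat_lit 29) (nat_lit 5) (nat_lit 31) (nat_lit 5) (nat_lit 32) (nat_lit 5) (nat_lit 354) (nat_lit 346) (nat_lit 320)) (XT.nd (nat_lit 78) (nat_lit 0) (nat_lit 0) (XT.lf (nat_lit 0) (nat_lit 1485450033) (nat_lit 152) (nat_lit 11105176412) (nat_lit 76) (nat_lit 6375876108) (nat_lit 27) (nat_lit 5) (nat_lit 29) (nat_lit 5) (nat_lit 28) (nat_lit 5) (nat_lit 355) (nat_lit 346) (nat_lit 319)) (XT.lf (nat_lit 0) (nat_lit 5438303108) (nat_lit 152) (nat_lit 140749964) (nat_lit 76) (nat_lit 15035661309) (nat_lit 27) (nat_lit 5) (nat_lit 29) (nat_lit 5) (nat_lit 28) (nat_lit 5) (nat_lit 356) (nat_lit 346) (nat_lit 318)))) (XT.nd (nat_lit 78) (nat_lit 76) (nat_lit 0) (XT.lf (nat_lit 0) (nat_lit 10631686638) (nat_lit 228) (nat_lit 8946311129) (nat_lit 76) (nat_lit 2835041317) (nat_lit 25) (nat_lit 5) (nat_lit 28) (nat_lit 5) (nat_lit 26) (nat_lit 4) (nat_lit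 357) (nat_lit 346) (nat_lit 317)) (XT.nd (nat_lit 78) (nat_lit 0) (nat_lit 0) (XT.lf (nat_lit 0) (nat_lit 4739068782) (nat_lit 76) (nat_lit 12292015569) (nat_lit 152) (nat_lit 7385995819) (nat_lit 24) (nat_lit 5) (nat_lit 25) (nat_lit 5) (nat_lit 26) (nat_lit 4) (nat_lit 358) (nat_lit 346) (nat_lit 316)) (XT.lf (nat_lit 0) (nat_lit 21417834448) (nat_lit 76) (nat_lit 3400471617) (nat_lit 152) (nat_lit 1839250441) (nat_lit 24) (nat_lit 5) (nat_lit 25) (nat_lit 5) (nat_lit 26) (nat_lit 4) (nat_lit 359) (nat_lit 346) (nat_lit 315))))) (XT.nd (nat_lit 234) (nat_lit 228) (nat_lit 0) (XT.nd (nat_lit 78) (nat_lit 76) (nat_lit 0) (XT.lf (nat_lit 0) (nat_lit 4919079204) (nat_lit 152) (nat_lit 17247430109) (nat_lit 76) (nat_lit 6921854955) (nat_lit 22) (nat_lit 5) (nat_lit 24) (nat_lit 5) (nat_lit 23) (nat_lit 4) (nat_lit 360) (nat_lit 346) (nat_lit 314)) (XT.nd (nat_lit 78) (nat_lit 76) (nat_lit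 0) (XT.lf (nat_lit 0) (nat_lit 12916894566) (nat_lit 152) (nat_lit 94050985) (nat_lit 76) (nat_lit 18797614742) (nat_lit 22) (nat_lit 5) (nat_lit 24) (nat_lit 5) (nat_lit 23) (nat_lit 4) (nat_lit 361) (nat_lit 346) (nat_lit 313)) (XT.lf (nat_lit 0) (nat_lit 21492387318) (nat_lit 76) (nat_lit 1481667189) (nat_lit 152) (nat_lit 11833789660) (nat_lit 21) (nat_lit 5) (nat_lit 22) (nat_lit 5) (nat_lit 23) (nat_lit 4) (nat_lit 362) (nat_lit 346) (nat_lit 312)))) (XT.nd (nat_lit 78) (nat_lit 152) (nat_lit 0) (XT.lf (nat_lit 0) (nat_lit 8264697184) (nat_lit 76) (nat_lit 27080754235) (nat_lit 76) (nat_lit 2790727828) (nat_lit 20) (nat_lit 4) (nat_lit 21) (nat_lit 5) (nat_lit 21) (nat_lit 4) (nat_lit 363) (nat_lit 346) (nat_lit 311)) (XT.nd (nat_lit 78) (nat_lit 76) (nat_lit 0) (XT.lf (nat_lit 0) (nat_lit 7702131135) (nat_lit 152) (nat_lit 7754414595) (nat_lit 76) (nat_lit 26344356593) (nat_lit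 19) (nat_lit 5) (nat_lit 21) (nat_lit 5) (nat_lit 20) (nat_lit 4) (nat_lit 364) (nat_lit 346) (nat_lit 310)) (XT.lf (nat_lit 0) (nat_lit 19210015364) (nat_lit 76) (nat_lit 1043405794) (nat_lit 152) (nat_lit 25626451301) (nat_lit 18) (nat_lit 5) (nat_lit 19) (nat_lit 5) (nat_lit 20) (nat_lit 4) (nat_lit 365) (nat_lit 346) (nat_lit 309))))))) (XT.nd (nat_lit 936) (nat_lit 456) (nat_lit 0) (XT.nd (nat_lit 468) (nat_lit 304) (nat_lit 0) (XT.nd (nat_lit 234) (nat_lit 152) (nat_lit 0) (XT.nd (nat_lit 78) (nat_lit 228) (nat_lit 0) (XT.lf (nat_lit 0) (nat_lit 35730480190) (nat_lit 152) (nat_lit 129762320) (nat_lit 0) (nat_lit 14553988896) (nat_lit 18) (nat_lit 5) (nat_lit 20) (nat_lit 4) (nat_lit 18) (nat_lit 4) (nat_lit 366) (nat_lit 346) (nat_lit 308)) (XT.nd (nat_lit 78) (nat_lit 152) (nat_lit 0) (XT.lf (nat_lit 0) (nat_lit 33261012794) (nat_lit 76) (nat_lit 21673555581) (nat_lit 76) (nat_lit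 483359289) (nat_lit 17) (nat_lit 4) (nat_lit 18) (nat_lit 5) (nat_lit 18) (nat_lit 4) (nat_lit 367) (nat_lit 346) (nat_lit 307)) (XT.lf (nat_lit 0) (nat_lit 10763600195) (nat_lit 76) (nat_lit 4104173700) (nat_lit 152) (nat_lit 46141253341) (nat_lit 15) (nat_lit 5) (nat_lit 16) (nat_lit 5) (nat_lit 17) (nat_lit 4) (nat_lit 368) (nat_lit 346) (nat_lit 306)))) (XT.nd (nat_lit 78) (nat_lit 152) (nat_lit 0) (XT.lf (nat_lit 0) (nat_lit 34331131192) (nat_lit 152) (nat_lit 16939855150) (nat_lit 0) (nat_lit 15885499339) (nat_lit 15) (nat_lit 5) (nat_lit 17) (nat_lit 4) (nat_lit 15) (nat_lit 4) (nat_lit 369) (nat_lit 346) (nat_lit 305)) (XT.nd (nat_lit 78) (nat_lit 76) (nat_lit 0) (XT.lf (nat_lit 0) (nat_lit 23194283715) (nat_lit 76) (nat_lit 34657304864) (nat_lit 76) (nat_lit 16203837134) (nat_lit 14) (nat_lit 4) (nat_lit 15) (nat_lit 5) (nat_lit 15) (nat_lit 4) (nat_lit 370) (nat_lit 346) (nat_lit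 304)) (XT.lf (nat_lit 0) (nat_lit 3561253971) (nat_lit 152) (nat_lit 10803585498) (nat_lit 76) (nat_lit 67469864548) (nat_lit 13) (nat_lit 5) (nat_lit 15) (nat_lit 5) (nat_lit 14) (nat_lit 4) (nat_lit 371) (nat_lit 346) (nat_lit 303))))) (XT.nd (nat_lit 234) (nat_lit 152) (nat_lit 0) (XT.nd (nat_lit 78) (nat_lit 76) (nat_lit 0) (XT.lf (nat_lit 0) (nat_lit 26664813284) (nat_lit 152) (nat_lit 53088177938) (nat_lit 0) (nat_lit 10607242339) (nat_lit 12) (nat_lit 5) (nat_lit 14) (nat_lit 4) (nat_lit 12) (nat_lit 4) (nat_lit 372) (nat_lit 346) (nat_lit 302)) (XT.nd (nat_lit 78) (nat_lit 76) (nat_lit 0) (XT.lf (nat_lit 0) (nat_lit 54493925015) (nat_lit 152) (nat_lit 7049792173) (nat_lit 0) (nat_lit 38431873882) (nat_lit 12) (nat_lit 5) (nat_lit 14) (nat_lit 4) (nat_lit 12) (nat_lit 4) (nat_lit 373) (nat_lit 346) (nat_lit 301)) (XT.lf (nat_lit 0) (nat_lit 50348748565) (nat_lit 76) (nat_lit 38219883706)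 (nat_lit 76) (nat_lit 22153936758) (nat_lit 11) (nat_lit 4) (nat_lit 12) (nat_lit 5) (nat_lit 12) (nat_lit 4) (nat_lit 374) (nat_lit 346) (nat_lit 300)))) (XT.nd (nat_lit 78) (nat_lit 76) (nat_lit 0) (XT.lf (nat_lit 0) (nat_lit 4629439017) (nat_lit 152) (nat_lit 6116040726) (nat_lit 76) (nat_lit 112251214420) (nat_lit 10) (nat_lit 5) (nat_lit 12) (nat_lit 5) (nat_lit 11) (nat_lit 4) (nat_lit 375) (nat_lit 346) (nat_lit 299)) (XT.nd (nat_lit 78) (nat_lit 0) (nat_lit 0) (XT.lf (nat_lit 0) (nat_lit 36692087006) (nat_lit 152) (nat_lit 77015932364) (nat_lit 0) (nat_lit 22716190996) (nat_lit 9) (nat_lit 5) (nat_lit 11) (nat_lit 4) (nat_lit 9) (nat_lit 4) (nat_lit 376) (nat_lit 346) (nat_lit 298)) (XT.lf (nat_lit 0) (nat_lit 74399034795) (nat_lit 152) (nat_lit 16920673123) (nat_lit 0) (nat_lit 60420911340) (nat_lit 9) (nat_lit 5) (nat_lit 11) (nat_lit 4) (nat_lit 9) (nat_lit 4) (nat_lit 377)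 (nat_lit 346) (nat_lit 297)))))) (XT.nd (nat_lit 468) (nat_lit 152) (nat_lit 0) (XT.nd (nat_lit 234) (nat_lit 76) (nat_lit 0) (XT.nd (nat_lit 78) (nat_lit 152) (nat_lit 0) (XT.lf (nat_lit 0) (nat_lit 57265798334) (nat_lit 76) (nat_lit 62857295835) (nat_lit 76) (nat_lit 48877235471) (nat_lit 8) (nat_lit 4) (nat_lit 9) (nat_lit 5) (nat_lit 9) (nat_lit 4) (nat_lit 378) (nat_lit 346) (nat_lit 296)) (XT.nd (nat_lit 78) (nat_lit 152) (nat_lit 0) (XT.lf (nat_lit 0) (nat_lit 144461586400) (nat_lit 76) (nat_lit 29118968239) (nat_lit 76) (nat_lit 15137223606) (nat_lit 8) (nat_lit 4) (nat_lit 9) (nat_lit 5) (nat_lit 9) (nat_lit 4) (nat_lit 379) (nat_lit 346) (nat_lit 295)) (XT.lf (nat_lit 0) (nat_lit 23535595423) (nat_lit 152) (nat_lit 176037208022) (nat_lit 0) (nat_lit 11376283062) (nat_lit 6) (nat_lit 5) (nat_lit 8) (nat_lit 4) (nat_lit 6) (nat_lit 4) (nat_lit 380) (nat_lit 346) (nat_lit 294))))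 (XT.nd (nat_lit 78) (nat_lit 76) (nat_lit 0) (XT.lf (nat_lit 0) (nat_lit 70260946810) (nat_lit 152) (nat_lit 107475288553) (nat_lit 0) (nat_lit 58100527015) (nat_lit 6) (nat_lit 5) (nat_lit 8) (nat_lit 4) (nat_lit 6) (nat_lit 4) (nat_lit 381) (nat_lit 346) (nat_lit 293)) (XT.nd (nat_lit 78) (nat_lit 76) (nat_lit 0) (XT.lf (nat_lit 0) (nat_lit 123987450448) (nat_lit 152) (nat_lit 28645219366) (nat_lit 0) (nat_lit 111826067667) (nat_lit 6) (nat_lit 5) (nat_lit 8) (nat_lit 4) (nat_lit 6) (nat_lit 4) (nat_lit 382) (nat_lit 346) (nat_lit 292)) (XT.lf (nat_lit 0) (nat_lit 68053961205) (nat_lit 76) (nat_lit 120530285262) (nat_lit 76) (nat_lit 108368065102) (nat_lit 5) (nat_lit 4) (nat_lit 6) (nat_lit 5) (nat_lit 6) (nat_lit 4) (nat_lit 383) (nat_lit 346) (nat_lit 291))))) (XT.nd (nat_lit 234) (nat_lit 0) (nat_lit 0) (XT.nd (nat_lit 78) (nat_lit 152) (nat_lit 0) (XT.lf (nat_lit 0) (nat_lit 182463955557)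 (nat_lit 76) (nat_lit 81897630554) (nat_lit 76) (nat_lit 69734682238) (nat_lit 5) (nat_lit 4) (nat_lit 6) (nat_lit 5) (nat_lit 6) (nat_lit 4) (nat_lit 384) (nat_lit 346) (nat_lit 290)) (XT.nd (nat_lit 78) (nat_lit 152) (nat_lit 0) (XT.lf (nat_lit 0) (nat_lit 314023800934) (nat_lit 76) (nat_lit 37476213144) (nat_lit 76) (nat_lit 25312631648) (nat_lit 5) (nat_lit 4) (nat_lit 6) (nat_lit 5) (nat_lit 6) (nat_lit 4) (nat_lit 385) (nat_lit 346) (nat_lit 289)) (XT.lf (nat_lit 0) (nat_lit 25911288767) (nat_lit 152) (nat_lit 384166375143) (nat_lit 0) (nat_lit 15333782606) (nat_lit 3) (nat_lit 5) (nat_lit 5) (nat_lit 4) (nat_lit 3) (nat_lit 4) (nat_lit 386) (nat_lit 346) (nat_lit 288)))) (XT.nd (nat_lit 156) (nat_lit 0) (nat_lit 0) (XT.nd (nat_lit 78) (nat_lit 0) (nat_lit 0) (XT.lf (nat_lit 0) (nat_lit 87445275975) (nat_lit 152) (nat_lit 316023932063) (nat_lit 0) (nat_lit 76867353488) (nat_lit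 3) (nat_lit 5) (nat_lit 5) (nat_lit 4) (nat_lit 3) (nat_lit 4) (nat_lit 387) (nat_lit 346) (nat_lit 287)) (XT.lf (nat_lit 0) (nat_lit 158205006262) (nat_lit 152) (nat_lit 237669369130) (nat_lit 0) (nat_lit 147626721752) (nat_lit 3) (nat_lit 5) (nat_lit 5) (nat_lit 4) (nat_lit 3) (nat_lit 4) (nat_lit 388) (nat_lit 346) (nat_lit 286))) (XT.nd (nat_lit 78) (nat_lit 0) (nat_lit 0) (XT.lf (nat_lit 0) (nat_lit 239574909132) (nat_lit 152) (nat_lit 147569662287) (nat_lit 0) (nat_lit 228996309821) (nat_lit 3) (nat_lit 5) (nat_lit 5) (nat_lit 4) (nat_lit 3) (nat_lit 4) (nat_lit 389) (nat_lit 346) (nat_lit 285)) (XT.lf (nat_lit 0) (nat_lit 333147004426) (nat_lit 152) (nat_lit 43961991183) (nat_lit 0) (nat_lit 322568131374) (nat_lit 3) (nat_lit 5) (nat_lit 5) (nat_lit 4) (nat_lit 3) (nat_lit 4) (nat_lit 390) (nat_lit 346) (nat_lit 284))))))))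
noncomputable def xc58 : XT := (XT.nd (nat_lit 1872) (nat_lit 0) (nat_lit 0) (XT.nd (nat_lit 936) (nat_lit 0) (nat_lit 0) (XT.nd (nat_lit 468) (nat_lit 76) (nat_lit 0) (XT.nd (nat_lit 234) (nat_lit 0) (nat_lit 0) (XT.nd (nat_lit 78) (nat_lit 0) (nat_lit 0) (XT.lf (nat_lit 0) (nat_lit 82527960527) (nat_lit 76) (nat_lit 361641396855) (nat_lit 76) (nat_lit 351062285768) (nat_lit 2) (nat_lit 4) (nat_lit 3) (nat_lit 5) (nat_lit 3) (nat_lit 4) (nat_lit 391) (nat_lit 346) (nat_lit 283)) (XT.nd (nat_lit 78) (nat_lit 0) (nat_lit 0) (XT.lf (nat_lit 0) (nat_lit 232926329880) (nat_lit 76) (nat_lit 341214016283) (nat_lit 76) (nat_lit 330634698208) (nat_lit 2) (nat_lit 4) (nat_lit 3) (nat_lit 5) (nat_lit 3) (nat_lit 4) (nat_lit 392) (nat_lit 346) (nat_lit 282)) (XT.lf (nat_lit 0) (nat_lit 405879408165) (nat_lit 76) (nat_lit 317725200926) (nat_lit 76) (nat_lit 307145702862) (nat_lit 2) (nat_lit 4) (nat_lit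 3) (nat_lit 5) (nat_lit 3) (nat_lit 4) (nat_lit 393) (nat_lit 346) (nat_lit 281)))) (XT.nd (nat_lit 78) (nat_lit 0) (nat_lit 0) (XT.lf (nat_lit 0) (nat_lit 604771059958) (nat_lit 76) (nat_lit 290715387006) (nat_lit 76) (nat_lit 280135732430) (nat_lit 2) (nat_lit 4) (nat_lit 3) (nat_lit 5) (nat_lit 3) (nat_lit 4) (nat_lit 394) (nat_lit 346) (nat_lit 280)) (XT.nd (nat_lit 78) (nat_lit 0) (nat_lit 0) (XT.lf (nat_lit 0) (nat_lit 833492643662) (nat_lit 76) (nat_lit 259656121641) (nat_lit 76) (nat_lit 249076330968) (nat_lit 2) (nat_lit 4) (nat_lit 3) (nat_lit 5) (nat_lit 3) (nat_lit 4) (nat_lit 395) (nat_lit 346) (nat_lit 279)) (XT.lf (nat_lit 0) (nat_lit 1096519146786) (nat_lit 76) (nat_lit 223939723553) (nat_lit 76) (nat_lit 213359814534) (nat_lit 2) (nat_lit 4) (nat_lit 3) (nat_lit 5) (nat_lit 3) (nat_lit 4) (nat_lit 396) (nat_lit 346) (nat_lit 278))))) (XT.nd (nat_lit 234) (nat_lit 76)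 (nat_lit 0) (XT.nd (nat_lit 78) (nat_lit 0) (nat_lit 0) (XT.lf (nat_lit 0) (nat_lit 1398996740042) (nat_lit 76) (nat_lit 182867393649) (nat_lit 76) (nat_lit 172287381721) (nat_lit 2) (nat_lit 4) (nat_lit 3) (nat_lit 5) (nat_lit 3) (nat_lit 4) (nat_lit 397) (nat_lit 346) (nat_lit 277)) (XT.nd (nat_lit 78) (nat_lit 0) (nat_lit 0) (XT.lf (nat_lit 0) (nat_lit 1746843463298) (nat_lit 76) (nat_lit 135635542866) (nat_lit 76) (nat_lit 125055441451) (nat_lit 2) (nat_lit 4) (nat_lit 3) (nat_lit 5) (nat_lit 3) (nat_lit 4) (nat_lit 398) (nat_lit 346) (nat_lit 276)) (XT.lf (nat_lit 0) (nat_lit 2146865013315) (nat_lit 76) (nat_lit 81320069774) (nat_lit 76) (nat_lit 70739890545) (nat_lit 2) (nat_lit 4) (nat_lit 3) (nat_lit 5) (nat_lit 3) (nat_lit 4) (nat_lit 399) (nat_lit 346) (nat_lit 275)))) (XT.nd (nat_lit 78) (nat_lit 76) (nat_lit 0) (XT.lf (nat_lit 0) (nat_lit 2606887898679) (nat_lit 76) (nat_lit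 18858280336) (nat_lit 76) (nat_lit 8278033443) (nat_lit 2) (nat_lit 4) (nat_lit 3) (nat_lit 5) (nat_lit 3) (nat_lit 4) (nat_lit 400) (nat_lit 346) (nat_lit 274)) (XT.nd (nat_lit 78) (nat_lit 0) (nat_lit 0) (XT.lf (nat_lit 0) (nat_lit 65636573387) (nat_lit 76) (nat_lit 2895759505262) (nat_lit 0) (nat_lit 56436307533) (nat_lit 1) (nat_lit 5) (nat_lit 2) (nat_lit 4) (nat_lit 1) (nat_lit 4) (nat_lit 401) (nat_lit 346) (nat_lit 273)) (XT.lf (nat_lit 0) (nat_lit 152174096250) (nat_lit 76) (nat_lit 3163647289321) (nat_lit 0) (nat_lit 142973785906) (nat_lit 1) (nat_lit 5) (nat_lit 2) (nat_lit 4) (nat_lit 1) (nat_lit 4) (nat_lit 402) (nat_lit 346) (nat_lit 272)))))) (XT.nd (nat_lit 468) (nat_lit 0) (nat_lit 0) (XT.nd (nat_lit 234) (nat_lit 0) (nat_lit 0) (XT.nd (nat_lit 78) (nat_lit 0) (nat_lit 0) (XT.lf (nat_lit 0) (nat_lit 251691541782) (nat_lit 76) (nat_lit 3471719745909) (nat_lit 0) (nat_lit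 242491192750) (nat_lit 1) (nat_lit 5) (nat_lit 2) (nat_lit 4) (nat_lit 1) (nat_lit 4) (nat_lit 403) (nat_lit 346) (nat_lit 271)) (XT.nd (nat_lit 78) (nat_lit 0) (nat_lit 0) (XT.lf (nat_lit 0) (nat_lit 366135990438) (nat_lit 76) (nat_lit 3826004379612) (nat_lit 0) (nat_lit 356935607764) (nat_lit 1) (nat_lit 5) (nat_lit 2) (nat_lit 4) (nat_lit 1) (nat_lit 4) (nat_lit 404) (nat_lit 346) (nat_lit 270)) (XT.lf (nat_lit 0) (nat_lit 497746572735) (nat_lit 76) (nat_lit 4233432846307) (nat_lit 0) (nat_lit 488546160809) (nat_lit 1) (nat_lit 5) (nat_lit 2) (nat_lit 4) (nat_lit 1) (nat_lit 4) (nat_lit 405) (nat_lit 346) (nat_lit 269)))) (XT.nd (nat_lit 78) (nat_lit 0) (nat_lit 0) (XT.lf (nat_lit 0) (nat_lit 649098278328) (nat_lit 76) (nat_lit 4701976572516) (nat_lit 0) (nat_lit 639897840964) (nat_lit 1) (nat_lit 5) (nat_lit 2) (nat_lit 4) (nat_lit 1) (nat_lit 4) (nat_lit 406) (nat_lit 346) (nat_lit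 268)) (XT.nd (nat_lit 78) (nat_lit 0) (nat_lit 0) (XT.lf (nat_lit 0) (nat_lit 823152336239) (nat_lit 76) (nat_lit 5240802718099) (nat_lit 0) (nat_lit 813951876756) (nat_lit 1) (nat_lit 5) (nat_lit 2) (nat_lit 4) (nat_lit 1) (nat_lit 4) (nat_lit 407) (nat_lit 346) (nat_lit 267)) (XT.lf (nat_lit 0) (nat_lit 1023314151949) (nat_lit 76) (nat_lit 5860453533731) (nat_lit 0) (nat_lit 1014113673231) (nat_lit 1) (nat_lit 5) (nat_lit 2) (nat_lit 4) (nat_lit 1) (nat_lit 4) (nat_lit 408) (nat_lit 346) (nat_lit 266))))) (XT.nd (nat_lit 234) (nat_lit 0) (nat_lit 0) (XT.nd (nat_lit 78) (nat_lit 0) (nat_lit 0) (XT.lf (nat_lit 0) (nat_lit 1253499934895) (nat_lit 76) (nat_lit 6573052622327) (nat_lit 0) (nat_lit 1244299439452) (nat_lit 1) (nat_lit 5) (nat_lit 2) (nat_lit 4) (nat_lit 1) (nat_lit 4) (nat_lit 409) (nat_lit 346) (nat_lit 265)) (XT.nd (nat_lit 78) (nat_lit 0) (nat_lit 0) (XT.lf (nat_lit 0) (nat_lit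 1518213319962) (nat_lit 76) (nat_lit 7392542139968) (nat_lit 0) (nat_lit 1509012809974) (nat_lit 1) (nat_lit 5) (nat_lit 2) (nat_lit 4) (nat_lit 1) (nat_lit 4) (nat_lit 410) (nat_lit 346) (nat_lit 264)) (XT.lf (nat_lit 0) (nat_lit 1822633482074) (nat_lit 76) (nat_lit 8334955577215) (nat_lit 0) (nat_lit 1813432959439) (nat_lit 1) (nat_lit 5) (nat_lit 2) (nat_lit 4) (nat_lit 1) (nat_lit 4) (nat_lit 411) (nat_lit 346) (nat_lit 263)))) (XT.nd (nat_lit 78) (nat_lit 0) (nat_lit 0) (XT.lf (nat_lit 0) (nat_lit 2172716467882) (nat_lit 76) (nat_lit 9418731457843) (nat_lit 0) (nat_lit 2163515934249) (nat_lit 1) (nat_lit 5) (nat_lit 2) (nat_lit 4) (nat_lit 1) (nat_lit 4) (nat_lit 412) (nat_lit 346) (nat_lit 262)) (XT.nd (nat_lit 78) (nat_lit 0) (nat_lit 0) (XT.lf (nat_lit 0) (nat_lit 2575311727107) (nat_lit 76) (nat_lit 10665074092558) (nat_lit 0) (nat_lit 2566111183912) (nat_lit 1) (nat_lit 5) (nat_lit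 2) (nat_lit 4) (nat_lit 1) (nat_lit 4) (nat_lit 413) (nat_lit 346) (nat_lit 261)) (XT.lf (nat_lit 0) (nat_lit 3038296123517) (nat_lit 76) (nat_lit 12098368445952) (nat_lit 0) (nat_lit 3029095572007) (nat_lit 1) (nat_lit 5) (nat_lit 2) (nat_lit 4) (nat_lit 1) (nat_lit 4) (nat_lit 414) (nat_lit 346) (nat_lit 260))))))) (XT.nd (nat_lit 936) (nat_lit 0) (nat_lit 0) (XT.nd (nat_lit 468) (nat_lit 0) (nat_lit 0) (XT.nd (nat_lit 234) (nat_lit 0) (nat_lit 0) (XT.nd (nat_lit 78) (nat_lit 0) (nat_lit 0) (XT.lf (nat_lit 0) (nat_lit 3570728047478) (nat_lit 76) (nat_lit 13746657233637) (nat_lit 0) (nat_lit 3561527488736) (nat_lit 1) (nat_lit 5) (nat_lit 2) (nat_lit 4) (nat_lit 1) (nat_lit 4) (nat_lit 415) (nat_lit 346) (nat_lit 259)) (XT.nd (nat_lit 78) (nat_lit 0) (nat_lit 0) (XT.lf (nat_lit 0) (nat_lit 4183024645326) (nat_lit 76) (nat_lit 15642189584065) (nat_lit 0) (nat_lit 4173824080297) (nat_lit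 1) (nat_lit 5) (nat_lit 2) (nat_lit 4) (nat_lit 1) (nat_lit 4) (nat_lit 416) (nat_lit 346) (nat_lit 258)) (XT.lf (nat_lit 0) (nat_lit 4887165633108) (nat_lit 76) (nat_lit 17822051999746) (nat_lit 0) (nat_lit 4877965062611) (nat_lit 1) (nat_lit 5) (nat_lit 2) (nat_lit 4) (nat_lit 1) (nat_lit 4) (nat_lit 417) (nat_lit 346) (nat_lit 257)))) (XT.nd (nat_lit 78) (nat_lit 0) (nat_lit 0) (XT.lf (nat_lit 0) (nat_lit 5696927682323) (nat_lit 76) (nat_lit 20328893962726) (nat_lit 0) (nat_lit 5687727107071) (nat_lit 1) (nat_lit 5) (nat_lit 2) (nat_lit 4) (nat_lit 1) (nat_lit 4) (nat_lit 418) (nat_lit 346) (nat_lit 256)) (XT.nd (nat_lit 78) (nat_lit 0) (nat_lit 0) (XT.lf (nat_lit 0) (nat_lit 6628153963499) (nat_lit 76) (nat_lit 23211762380976) (nat_lit 0) (nat_lit 6618953384113) (nat_lit 1) (nat_lit 5) (nat_lit 2) (nat_lit 4) (nat_lit 1) (nat_lit 4) (nat_lit 419) (nat_lit 346) (nat_lit 255)) (XT.lf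 (nat_lit 0) (nat_lit 7699064121268) (nat_lit 76) (nat_lit 26527061201809) (nat_lit 0) (nat_lit 7689863538287) (nat_lit 1) (nat_lit 5) (nat_lit 2) (nat_lit 4) (nat_lit 1) (nat_lit 4) (nat_lit 420) (nat_lit 346) (nat_lit 254))))) (XT.nd (nat_lit 234) (nat_lit 0) (nat_lit 0) (XT.nd (nat_lit 78) (nat_lit 0) (nat_lit 0) (XT.lf (nat_lit 0) (nat_lit 8930610745673) (nat_lit 76) (nat_lit 30339654967373) (nat_lit 0) (nat_lit 8921410159566) (nat_lit 1) (nat_lit 5) (nat_lit 2) (nat_lit 4) (nat_lit 1) (nat_lit 4) (nat_lit 421) (nat_lit 346) (nat_lit 253)) (XT.nd (nat_lit 78) (nat_lit 0) (nat_lit 0) (XT.lf (nat_lit 0) (nat_lit 10346889314149) (nat_lit 76) (nat_lit 34724137903515) (nat_lit 0) (nat_lit 10337688725323) (nat_lit 1) (nat_lit 5) (nat_lit 2) (nat_lit 4) (nat_lit 1) (nat_lit 4) (nat_lit 422) (nat_lit 346) (nat_lit 252)) (XT.lf (nat_lit 0) (nat_lit 11975609624773) (nat_lit 76) (nat_lit 39766293372029)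 (nat_lit 0) (nat_lit 11966409033584) (nat_lit 1) (nat_lit 5) (nat_lit 2) (nat_lit 4) (nat_lit 1) (nat_lit 4) (nat_lit 423) (nat_lit 346) (nat_lit 251)))) (XT.nd (nat_lit 78) (nat_lit 0) (nat_lit 0) (XT.lf (nat_lit 0) (nat_lit 13848637944494) (nat_lit 76) (nat_lit 45564772240778) (nat_lit 0) (nat_lit 13839437351249) (nat_lit 1) (nat_lit 5) (nat_lit 2) (nat_lit 4) (nat_lit 1) (nat_lit 4) (nat_lit 424) (nat_lit 346) (nat_lit 250)) (XT.nd (nat_lit 78) (nat_lit 0) (nat_lit 0) (XT.lf (nat_lit 0) (nat_lit 16002620479566) (nat_lit 76) (nat_lit 52233023009368) (nat_lit 0) (nat_lit 15993419884534) (nat_lit 1) (nat_lit 5) (nat_lit 2) (nat_lit 4) (nat_lit 1) (nat_lit 4) (nat_lit 425) (nat_lit 346) (nat_lit 249)) (XT.lf (nat_lit 0) (nat_lit 18479700366546) (nat_lit 76) (nat_lit 59901511453705) (nat_lit 0) (nat_lit 18470499769960) (nat_lit 1) (nat_lit 5) (nat_lit 2) (nat_lit 4) (nat_lit 1) (nat_lit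 4) (nat_lit 426) (nat_lit 346) (nat_lit 248)))))) (XT.nd (nat_lit 47112) (nat_lit 0) (nat_lit 1976) (XT.nd (nat_lit 46878) (nat_lit 0) (nat_lit 2432) (XT.nd (nat_lit 78) (nat_lit 0) (nat_lit 0) (XT.lf (nat_lit 0) (nat_lit 21328342211917) (nat_lit 76) (nat_lit 68720273217266) (nat_lit 0) (nat_lit 21319141613979) (nat_lit 1) (nat_lit 5) (nat_lit 2) (nat_lit 4) (nat_lit 1) (nat_lit 4) (nat_lit 427) (nat_lit 346) (nat_lit 247)) (XT.nd (nat_lit 78) (nat_lit 0) (nat_lit 0) (XT.lf (nat_lit 0) (nat_lit 24604280312655) (nat_lit 76) (nat_lit 78861849291078) (nat_lit 0) (nat_lit 24595079713542) (nat_lit 1) (nat_lit 5) (nat_lit 2) (nat_lit 4) (nat_lit 1) (nat_lit 4) (nat_lit 428) (nat_lit 346) (nat_lit 246)) (XT.lf (nat_lit 0) (nat_lit 28371609109860) (nat_lit 76) (nat_lit 90524661815714) (nat_lit 0) (nat_lit 28362408509725) (nat_lit 1) (nat_lit 5) (nat_lit 2) (nat_lit 4) (nat_lit 1) (nat_lit 4)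 (nat_lit 429) (nat_lit 346) (nat_lit 245)))) (XT.nd (nat_lit 78) (nat_lit 0) (nat_lit 0) (XT.lf (nat_lit 0) (nat_lit 237964160) (nat_lit 380) (nat_lit 2672140437) (nat_lit 380) (nat_lit 2672140437) (nat_lit 33) (nat_lit 3) (nat_lit 38) (nat_lit 3) (nat_lit 38) (nat_lit 5) (nat_lit 347) (nat_lit 347) (nat_lit 326)) (XT.nd (nat_lit 78) (nat_lit 0) (nat_lit 76) (XT.lf (nat_lit 76) (nat_lit 185726727) (nat_lit 0) (nat_lit 853876461) (nat_lit 380) (nat_lit 10882657635) (nat_lit 34) (nat_lit 5) (nat_lit 33) (nat_lit 3) (nat_lit 38) (nat_lit 5) (nat_lit 348) (nat_lit 347) (nat_lit 325)) (XT.lf (nat_lit 0) (nat_lit 2088078364) (nat_lit 304) (nat_lit 5894719248) (nat_lit 380) (nat_lit 4750927913) (nat_lit 34) (nat_lit 5) (nat_lit 38) (nat_lit 5) (nat_lit 39) (nat_lit 5) (nat_lit 349) (nat_lit 347) (nat_lit 324))))) (XT.nd (nat_lit 234) (nat_lit 304) (nat_lit 0) (XT.nd (nat_lit 78) (nat_lit 228)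 (nat_lit 0) (XT.lf (nat_lit 76) (nat_lit 788230186) (nat_lit 0) (nat_lit 2497547601) (nat_lit 380) (nat_lit 10382396326) (nat_lit 35) (nat_lit 5) (nat_lit 34) (nat_lit 5) (nat_lit 39) (nat_lit 5) (nat_lit 350) (nat_lit 347) (nat_lit 323)) (XT.nd (nat_lit 78) (nat_lit 304) (nat_lit 0) (XT.lf (nat_lit 0) (nat_lit 5070910278) (nat_lit 304) (nat_lit 5806154013) (nat_lit 76) (nat_lit 3804608651) (nat_lit 35) (nat_lit 5) (nat_lit 39) (nat_lit 5) (nat_lit 36) (nat_lit 5) (nat_lit 351) (nat_lit 347) (nat_lit 322)) (XT.lf (nat_lit 0) (nat_lit 2355822734) (nat_lit 304) (nat_lit 4921155417) (nat_lit 380) (nat_lit 8547286814) (nat_lit 31) (nat_lit 5) (nat_lit 35) (nat_lit 5) (nat_lit 36) (nat_lit 5) (nat_lit 352) (nat_lit 347) (nat_lit 321)))) (XT.nd (nat_lit 156) (nat_lit 152) (nat_lit 0) (XT.nd (nat_lit 78) (nat_lit 152) (nat_lit 0) (XT.lf (nat_lit 0) (nat_lit 10154045771) (nat_lit 380) (nat_lit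 4861712728) (nat_lit 76) (nat_lit 2071511417) (nat_lit 31) (nat_lit 5) (nat_lit 36) (nat_lit 5) (nat_lit 32) (nat_lit 5) (nat_lit 353) (nat_lit 347) (nat_lit 320)) (XT.lf (nat_lit 0) (nat_lit 5204764086) (nat_lit 152) (nat_lit 8657588674) (nat_lit 228) (nat_lit 4617453630) (nat_lit 29) (nat_lit 5) (nat_lit 31) (nat_lit 5) (nat_lit 32) (nat_lit 5) (nat_lit 354) (nat_lit 347) (nat_lit 319))) (XT.nd (nat_lit 78) (nat_lit 152) (nat_lit 0) (XT.lf (nat_lit 0) (nat_lit 17270057417) (nat_lit 152) (nat_lit 1064966026) (nat_lit 228) (nat_lit 1715010646) (nat_lit 29) (nat_lit 5) (nat_lit 31) (nat_lit 5) (nat_lit 32) (nat_lit 5) (nat_lit 355) (nat_lit 347) (nat_lit 318)) (XT.lf (nat_lit 0) (nat_lit 2193103484) (nat_lit 152) (nat_lit 12065558661) (nat_lit 76) (nat_lit 7479859159) (nat_lit 27) (nat_lit 5) (nat_lit 29) (nat_lit 5) (nat_lit 28) (nat_lit 5) (nat_lit 356) (nat_lit 347) (nat_lit 317))))))))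
noncomputable def xc59 : XT := (XT.nd (nat_lit 1872) (nat_lit 532) (nat_lit 0) (XT.nd (nat_lit 936) (nat_lit 684) (nat_lit 0) (XT.nd (nat_lit 468) (nat_lit 304) (nat_lit 0) (XT.nd (nat_lit 234) (nat_lit 228) (nat_lit 0) (XT.nd (nat_lit 78) (nat_lit 76) (nat_lit 0) (XT.lf (nat_lit 0) (nat_lit 495650003) (nat_lit 152) (nat_lit 6200518855) (nat_lit 228) (nat_lit 16944233558) (nat_lit 25) (nat_lit 5) (nat_lit 27) (nat_lit 5) (nat_lit 28) (nat_lit 5) (nat_lit 357) (nat_lit 347) (nat_lit 316)) (XT.nd (nat_lit 78) (nat_lit 76) (nat_lit 0) (XT.lf (nat_lit 0) (nat_lit 12625350027) (nat_lit 228) (nat_lit 9652010593) (nat_lit 76) (nat_lit 3437622918) (nat_lit 25) (nat_lit 5) (nat_lit 28) (nat_lit 5) (nat_lit 26) (nat_lit 4) (nat_lit 358) (nat_lit 347) (nat_lit 315)) (XT.lf (nat_lit 0) (nat_lit 6057255978) (nat_lit 76) (nat_lit 13900517739) (nat_lit 152) (nat_lit 8065912427) (nat_lit 24) (nat_lit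 5) (nat_lit 25) (nat_lit 5) (nat_lit 26) (nat_lit 4) (nat_lit 359) (nat_lit 347) (nat_lit 314)))) (XT.nd (nat_lit 78) (nat_lit 228) (nat_lit 0) (XT.lf (nat_lit 0) (nat_lit 25158619945) (nat_lit 76) (nat_lit 3705933520) (nat_lit 152) (nat_lit 1742979082) (nat_lit 24) (nat_lit 5) (nat_lit 25) (nat_lit 5) (nat_lit 26) (nat_lit 4) (nat_lit 360) (nat_lit 347) (nat_lit 313)) (XT.nd (nat_lit 78) (nat_lit 76) (nat_lit 0) (XT.lf (nat_lit 0) (nat_lit 5982997008) (nat_lit 152) (nat_lit 19260116354) (nat_lit 76) (nat_lit 8159497184) (nat_lit 22) (nat_lit 5) (nat_lit 24) (nat_lit 5) (nat_lit 23) (nat_lit 4) (nat_lit 361) (nat_lit 347) (nat_lit 312)) (XT.lf (nat_lit 0) (nat_lit 429589213) (nat_lit 76) (nat_lit 14726154801) (nat_lit 152) (nat_lit 21378816102) (nat_lit 21) (nat_lit 5) (nat_lit 22) (nat_lit 5) (nat_lit 23) (nat_lit 4) (nat_lit 362) (nat_lit 347) (nat_lit 311))))) (XT.nd (nat_lit 234)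 (nat_lit 152) (nat_lit 0) (XT.nd (nat_lit 78) (nat_lit 152) (nat_lit 0) (XT.lf (nat_lit 0) (nat_lit 25193043585) (nat_lit 76) (nat_lit 1493407415) (nat_lit 152) (nat_lit 13302550951) (nat_lit 21) (nat_lit 5) (nat_lit 22) (nat_lit 5) (nat_lit 23) (nat_lit 4) (nat_lit 363) (nat_lit 347) (nat_lit 310)) (XT.nd (nat_lit 78) (nat_lit 76) (nat_lit 0) (XT.lf (nat_lit 0) (nat_lit 9989406542) (nat_lit 76) (nat_lit 30917080458) (nat_lit 76) (nat_lit 2911170722) (nat_lit 20) (nat_lit 4) (nat_lit 21) (nat_lit 5) (nat_lit 21) (nat_lit 4) (nat_lit 364) (nat_lit 347) (nat_lit 309)) (XT.lf (nat_lit 0) (nat_lit 9093643375) (nat_lit 152) (nat_lit 8472701338) (nat_lit 76) (nat_lit 30469214369) (nat_lit 19) (nat_lit 5) (nat_lit 21) (nat_lit 5) (nat_lit 20) (nat_lit 4) (nat_lit 365) (nat_lit 347) (nat_lit 308)))) (XT.nd (nat_lit 78) (nat_lit 76) (nat_lit 0) (XT.lf (nat_lit 0) (nat_lit 22516171503) (nat_lit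 76) (nat_lit 998231681) (nat_lit 152) (nat_lit 29213961594) (nat_lit 18) (nat_lit 5) (nat_lit 19) (nat_lit 5) (nat_lit 20) (nat_lit 4) (nat_lit 366) (nat_lit 347) (nat_lit 307)) (XT.nd (nat_lit 78) (nat_lit 0) (nat_lit 0) (XT.lf (nat_lit 0) (nat_lit 265535808) (nat_lit 76) (nat_lit 41036659680) (nat_lit 76) (nat_lit 16642311555) (nat_lit 17) (nat_lit 4) (nat_lit 18) (nat_lit 5) (nat_lit 18) (nat_lit 4) (nat_lit 367) (nat_lit 347) (nat_lit 306)) (XT.lf (nat_lit 0) (nat_lit 38623509054) (nat_lit 76) (nat_lit 24741615274) (nat_lit 76) (nat_lit 336904200) (nat_lit 17) (nat_lit 4) (nat_lit 18) (nat_lit 5) (nat_lit 18) (nat_lit 4) (nat_lit 368) (nat_lit 347) (nat_lit 305)))))) (XT.nd (nat_lit 468) (nat_lit 304) (nat_lit 0) (XT.nd (nat_lit 234) (nat_lit 152) (nat_lit 0) (XT.nd (nat_lit 78) (nat_lit 76) (nat_lit 0) (XT.lf (nat_lit 0) (nat_lit 12753148681) (nat_lit 76) (nat_lit 4533768069) (nat_lit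 152) (nat_lit 52845093346) (nat_lit 15) (nat_lit 5) (nat_lit 16) (nat_lit 5) (nat_lit 17) (nat_lit 4) (nat_lit 369) (nat_lit 347) (nat_lit 304)) (XT.nd (nat_lit 78) (nat_lit 76) (nat_lit 0) (XT.lf (nat_lit 0) (nat_lit 39651826909) (nat_lit 152) (nat_lit 19136766895) (nat_lit 0) (nat_lit 18415689335) (nat_lit 15) (nat_lit 5) (nat_lit 17) (nat_lit 4) (nat_lit 15) (nat_lit 4) (nat_lit 370) (nat_lit 347) (nat_lit 303)) (XT.lf (nat_lit 0) (nat_lit 27001853412) (nat_lit 76) (nat_lit 39689791215) (nat_lit 76) (nat_lit 18447728592) (nat_lit 14) (nat_lit 4) (nat_lit 15) (nat_lit 5) (nat_lit 15) (nat_lit 4) (nat_lit 371) (nat_lit 347) (nat_lit 302)))) (XT.nd (nat_lit 78) (nat_lit 76) (nat_lit 0) (XT.lf (nat_lit 0) (nat_lit 4243323981) (nat_lit 152) (nat_lit 12124068280) (nat_lit 76) (nat_lit 77720320943) (nat_lit 13) (nat_lit 5) (nat_lit 15) (nat_lit 5) (nat_lit 14) (nat_lit 4) (nat_lit 372) (nat_lit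 347) (nat_lit 301)) (XT.nd (nat_lit 78) (nat_lit 0) (nat_lit 0) (XT.lf (nat_lit 0) (nat_lit 30811032158) (nat_lit 152) (nat_lit 60749952267) (nat_lit 0) (nat_lit 12331297351) (nat_lit 12) (nat_lit 5) (nat_lit 14) (nat_lit 4) (nat_lit 12) (nat_lit 4) (nat_lit 373) (nat_lit 347) (nat_lit 300)) (XT.lf (nat_lit 0) (nat_lit 62795402360) (nat_lit 152) (nat_lit 7845128511) (nat_lit 0) (nat_lit 44312279886) (nat_lit 12) (nat_lit 5) (nat_lit 14) (nat_lit 4) (nat_lit 12) (nat_lit 4) (nat_lit 374) (nat_lit 347) (nat_lit 299))))) (XT.nd (nat_lit 234) (nat_lit 76) (nat_lit 0) (XT.nd (nat_lit 78) (nat_lit 152) (nat_lit 0) (XT.lf (nat_lit 0) (nat_lit 58151278225) (nat_lit 76) (nat_lit 43823782545) (nat_lit 76) (nat_lit 25337714275) (nat_lit 11) (nat_lit 4) (nat_lit 12) (nat_lit 5) (nat_lit 12) (nat_lit 4) (nat_lit 375) (nat_lit 347) (nat_lit 298)) (XT.nd (nat_lit 78) (nat_lit 76) (nat_lit 0) (XT.lf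 (nat_lit 0) (nat_lit 5434211731) (nat_lit 152) (nat_lit 6805074610) (nat_lit 76) (nat_lit 129190351395) (nat_lit 10) (nat_lit 5) (nat_lit 12) (nat_lit 5) (nat_lit 11) (nat_lit 4) (nat_lit 376) (nat_lit 347) (nat_lit 297)) (XT.lf (nat_lit 0) (nat_lit 42305568312) (nat_lit 152) (nat_lit 88339255279) (nat_lit 0) (nat_lit 26226561983) (nat_lit 9) (nat_lit 5) (nat_lit 11) (nat_lit 4) (nat_lit 9) (nat_lit 4) (nat_lit 377) (nat_lit 347) (nat_lit 296)))) (XT.nd (nat_lit 78) (nat_lit 76) (nat_lit 0) (XT.lf (nat_lit 0) (nat_lit 85654253714) (nat_lit 152) (nat_lit 19259585449) (nat_lit 0) (nat_lit 69573563117) (nat_lit 9) (nat_lit 5) (nat_lit 11) (nat_lit 4) (nat_lit 9) (nat_lit 4) (nat_lit 378) (nat_lit 347) (nat_lit 295)) (XT.nd (nat_lit 78) (nat_lit 0) (nat_lit 0) (XT.lf (nat_lit 0) (nat_lit 66045802698) (nat_lit 76) (nat_lit 72186553622) (nat_lit 76) (nat_lit 56104398444) (nat_lit 8) (nat_lit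 4) (nat_lit 9) (nat_lit 5) (nat_lit 9) (nat_lit 4) (nat_lit 379) (nat_lit 347) (nat_lit 294)) (XT.lf (nat_lit 0) (nat_lit 166296158806) (nat_lit 76) (nat_lit 33400433833) (nat_lit 76) (nat_lit 17317005105) (nat_lit 8) (nat_lit 4) (nat_lit 9) (nat_lit 5) (nat_lit 9) (nat_lit 4) (nat_lit 380) (nat_lit 347) (nat_lit 293))))))) (XT.nd (nat_lit 936) (nat_lit 76) (nat_lit 0) (XT.nd (nat_lit 468) (nat_lit 228) (nat_lit 0) (XT.nd (nat_lit 234) (nat_lit 76) (nat_lit 0) (XT.nd (nat_lit 78) (nat_lit 0) (nat_lit 0) (XT.lf (nat_lit 0) (nat_lit 27148310594) (nat_lit 152) (nat_lit 202269022065) (nat_lit 0) (nat_lit 13161757410) (nat_lit 6) (nat_lit 5) (nat_lit 8) (nat_lit 4) (nat_lit 6) (nat_lit 4) (nat_lit 381) (nat_lit 347) (nat_lit 292)) (XT.nd (nat_lit 78) (nat_lit 0) (nat_lit 0) (XT.lf (nat_lit 0) (nat_lit 80871720012) (nat_lit 152) (nat_lit 123445479957) (nat_lit 0) (nat_lit 66884329448) (nat_lit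 6) (nat_lit 5) (nat_lit 8) (nat_lit 4) (nat_lit 6) (nat_lit 4) (nat_lit 382) (nat_lit 347) (nat_lit 291)) (XT.lf (nat_lit 0) (nat_lit 142647855998) (nat_lit 152) (nat_lit 32810609334) (nat_lit 0) (nat_lit 128659737278) (nat_lit 6) (nat_lit 5) (nat_lit 8) (nat_lit 4) (nat_lit 6) (nat_lit 4) (nat_lit 383) (nat_lit 347) (nat_lit 290)))) (XT.nd (nat_lit 78) (nat_lit 0) (nat_lit 0) (XT.lf (nat_lit 0) (nat_lit 78387475917) (nat_lit 76) (nat_lit 138543764380) (nat_lit 76) (nat_lit 124555012481) (nat_lit 5) (nat_lit 4) (nat_lit 6) (nat_lit 5) (nat_lit 6) (nat_lit 4) (nat_lit 384) (nat_lit 347) (nat_lit 289)) (XT.nd (nat_lit 78) (nat_lit 0) (nat_lit 0) (XT.lf (nat_lit 0) (nat_lit 209942610222) (nat_lit 76) (nat_lit 94124828467) (nat_lit 76) (nat_lit 80135525978) (nat_lit 5) (nat_lit 4) (nat_lit 6) (nat_lit 5) (nat_lit 6) (nat_lit 4) (nat_lit 385) (nat_lit 347) (nat_lit 288)) (XT.lf (nat_lit 0)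 (nat_lit 361222207016) (nat_lit 76) (nat_lit 43047691488) (nat_lit 76) (nat_lit 29057910225) (nat_lit 5) (nat_lit 4) (nat_lit 6) (nat_lit 5) (nat_lit 6) (nat_lit 4) (nat_lit 386) (nat_lit 347) (nat_lit 287))))) (XT.nd (nat_lit 234) (nat_lit 76) (nat_lit 0) (XT.nd (nat_lit 78) (nat_lit 0) (nat_lit 0) (XT.lf (nat_lit 0) (nat_lit 29844874320) (nat_lit 152) (nat_lit 441691769086) (nat_lit 0) (nat_lit 17679485112) (nat_lit 3) (nat_lit 5) (nat_lit 5) (nat_lit 4) (nat_lit 3) (nat_lit 4) (nat_lit 387) (nat_lit 347) (nat_lit 286)) (XT.nd (nat_lit 78) (nat_lit 0) (nat_lit 0) (XT.lf (nat_lit 0) (nat_lit 100602843230) (nat_lit 152) (nat_lit 363340945934) (nat_lit 0) (nat_lit 88437139220) (nat_lit 3) (nat_lit 5) (nat_lit 5) (nat_lit 4) (nat_lit 3) (nat_lit 4) (nat_lit 388) (nat_lit 347) (nat_lit 285)) (XT.lf (nat_lit 0) (nat_lit 181971214469) (nat_lit 152) (nat_lit 273244491075) (nat_lit 0) (nat_lit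 169805236719) (nat_lit 3) (nat_lit 5) (nat_lit 5) (nat_lit 4) (nat_lit 3) (nat_lit 4) (nat_lit 389) (nat_lit 347) (nat_lit 284)))) (XT.nd (nat_lit 78) (nat_lit 76) (nat_lit 0) (XT.lf (nat_lit 0) (nat_lit 275541977909) (nat_lit 152) (nat_lit 169639647782) (nat_lit 0) (nat_lit 263375762123) (nat_lit 3) (nat_lit 5) (nat_lit 5) (nat_lit 4) (nat_lit 3) (nat_lit 4) (nat_lit 390) (nat_lit 347) (nat_lit 283)) (XT.nd (nat_lit 78) (nat_lit 76) (nat_lit 0) (XT.lf (nat_lit 0) (nat_lit 383145865878) (nat_lit 152) (nat_lit 50499364775) (nat_lit 0) (nat_lit 370979443105) (nat_lit 3) (nat_lit 5) (nat_lit 5) (nat_lit 4) (nat_lit 3) (nat_lit 4) (nat_lit 391) (nat_lit 347) (nat_lit 282)) (XT.lf (nat_lit 0) (nat_lit 94961492187) (nat_lit 76) (nat_lit 415858832535) (nat_lit 76) (nat_lit 403692229773) (nat_lit 2) (nat_lit 4) (nat_lit 3) (nat_lit 5) (nat_lit 3) (nat_lit 4) (nat_lit 392) (nat_lit 347) (nat_lit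 281)))))) (XT.nd (nat_lit 468) (nat_lit 76) (nat_lit 0) (XT.nd (nat_lit 234) (nat_lit 0) (nat_lit 0) (XT.nd (nat_lit 78) (nat_lit 0) (nat_lit 0) (XT.lf (nat_lit 0) (nat_lit 267912529433) (nat_lit 76) (nat_lit 392371097987) (nat_lit 76) (nat_lit 380204338713) (nat_lit 2) (nat_lit 4) (nat_lit 3) (nat_lit 5) (nat_lit 3) (nat_lit 4) (nat_lit 393) (nat_lit 347) (nat_lit 280)) (XT.nd (nat_lit 78) (nat_lit 0) (nat_lit 0) (XT.lf (nat_lit 0) (nat_lit 466802406408) (nat_lit 76) (nat_lit 365362223901) (nat_lit 76) (nat_lit 353195328530) (nat_lit 2) (nat_lit 4) (nat_lit 3) (nat_lit 5) (nat_lit 3) (nat_lit 4) (nat_lit 394) (nat_lit 347) (nat_lit 279)) (XT.lf (nat_lit 0) (nat_lit 695522446793) (nat_lit 76) (nat_lit 334303775784) (nat_lit 76) (nat_lit 322136762067) (nat_lit 2) (nat_lit 4) (nat_lit 3) (nat_lit 5) (nat_lit 3) (nat_lit 4) (nat_lit 395) (nat_lit 347) (nat_lit 278)))) (XT.nd (nat_lit 78)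 (nat_lit 0) (nat_lit 0) (XT.lf (nat_lit 0) (nat_lit 958547607900) (nat_lit 76) (nat_lit 298588088346) (nat_lit 76) (nat_lit 286420971719) (nat_lit 2) (nat_lit 4) (nat_lit 3) (nat_lit 5) (nat_lit 3) (nat_lit 4) (nat_lit 396) (nat_lit 347) (nat_lit 277)) (XT.nd (nat_lit 78) (nat_lit 0) (nat_lit 0) (XT.lf (nat_lit 0) (nat_lit 1261024034185) (nat_lit 76) (nat_lit 257516376398) (nat_lit 76) (nat_lit 245349170285) (nat_lit 2) (nat_lit 4) (nat_lit 3) (nat_lit 5) (nat_lit 3) (nat_lit 4) (nat_lit 397) (nat_lit 347) (nat_lit 276)) (XT.lf (nat_lit 0) (nat_lit 1608869742684) (nat_lit 76) (nat_lit 210285062968) (nat_lit 76) (nat_lit 198117779041) (nat_lit 2) (nat_lit 4) (nat_lit 3) (nat_lit 5) (nat_lit 3) (nat_lit 4) (nat_lit 398) (nat_lit 347) (nat_lit 275))))) (XT.nd (nat_lit 234) (nat_lit 76) (nat_lit 0) (XT.nd (nat_lit 78) (nat_lit 0) (nat_lit 0) (XT.lf (nat_lit 0) (nat_lit 2008890410303) (nat_lit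 76) (nat_lit 155970057140) (nat_lit 76) (nat_lit 143802705548) (nat_lit 2) (nat_lit 4) (nat_lit 3) (nat_lit 5) (nat_lit 3) (nat_lit 4) (nat_lit 399) (nat_lit 347) (nat_lit 274)) (XT.nd (nat_lit 78) (nat_lit 0) (nat_lit 0) (XT.lf (nat_lit 0) (nat_lit 2468912528364) (nat_lit 76) (nat_lit 93508674018) (nat_lit 76) (nat_lit 81341263588) (nat_lit 2) (nat_lit 4) (nat_lit 3) (nat_lit 5) (nat_lit 3) (nat_lit 4) (nat_lit 400) (nat_lit 347) (nat_lit 273)) (XT.lf (nat_lit 0) (nat_lit 2997936529612) (nat_lit 76) (nat_lit 21678843063) (nat_lit 76) (nat_lit 9511381468) (nat_lit 2) (nat_lit 4) (nat_lit 3) (nat_lit 5) (nat_lit 3) (nat_lit 4) (nat_lit 401) (nat_lit 347) (nat_lit 272)))) (XT.nd (nat_lit 156) (nat_lit 0) (nat_lit 0) (XT.nd (nat_lit 78) (nat_lit 0) (nat_lit 0) (XT.lf (nat_lit 0) (nat_lit 75489658635) (nat_lit 76) (nat_lit 3330107226906) (nat_lit 0) (nat_lit 64909218561) (nat_lit 1) (nat_lit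 5) (nat_lit 2) (nat_lit 4) (nat_lit 1) (nat_lit 4) (nat_lit 402) (nat_lit 347) (nat_lit 271)) (XT.lf (nat_lit 0) (nat_lit 175006818722) (nat_lit 76) (nat_lit 3638180292158) (nat_lit 0) (nat_lit 164426345007) (nat_lit 1) (nat_lit 5) (nat_lit 2) (nat_lit 4) (nat_lit 1) (nat_lit 4) (nat_lit 403) (nat_lit 347) (nat_lit 270))) (XT.nd (nat_lit 78) (nat_lit 0) (nat_lit 0) (XT.lf (nat_lit 0) (nat_lit 289451019166) (nat_lit 76) (nat_lit 3992465455134) (nat_lit 0) (nat_lit 278870516197) (nat_lit 1) (nat_lit 5) (nat_lit 2) (nat_lit 4) (nat_lit 1) (nat_lit 4) (nat_lit 404) (nat_lit 347) (nat_lit 269)) (XT.lf (nat_lit 0) (nat_lit 421061385627) (nat_lit 76) (nat_lit 4399894382066) (nat_lit 0) (nat_lit 410480857221) (nat_lit 1) (nat_lit 5) (nat_lit 2) (nat_lit 4) (nat_lit 1) (nat_lit 4) (nat_lit 405) (nat_lit 347) (nat_lit 268))))))))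
noncomputable def xc60 : XT := (XT.nd (nat_lit 1872) (nat_lit 0) (nat_lit 0) (XT.nd (nat_lit 936) (nat_lit 0) (nat_lit 0) (XT.nd (nat_lit 468) (nat_lit 0) (nat_lit 0) (XT.nd (nat_lit 234) (nat_lit 0) (nat_lit 0) (XT.nd (nat_lit 78) (nat_lit 0) (nat_lit 0) (XT.lf (nat_lit 0) (nat_lit 572412903536) (nat_lit 76) (nat_lit 4868438508480) (nat_lit 0) (nat_lit 561832353010) (nat_lit 1) (nat_lit 5) (nat_lit 2) (nat_lit 4) (nat_lit 1) (nat_lit 4) (nat_lit 406) (nat_lit 347) (nat_lit 267)) (XT.nd (nat_lit 78) (nat_lit 0) (nat_lit 0) (XT.lf (nat_lit 0) (nat_lit 746466798243) (nat_lit 76) (nat_lit 5407265002069) (nat_lit 0) (nat_lit 735886228483) (nat_lit 1) (nat_lit 5) (nat_lit 2) (nat_lit 4) (nat_lit 1) (nat_lit 4) (nat_lit 407) (nat_lit 347) (nat_lit 266)) (XT.lf (nat_lit 0) (nat_lit 946628472037) (nat_lit 76) (nat_lit 6026916120315) (nat_lit 0) (nat_lit 936047885550) (nat_lit 1) (nat_lit 5) (nat_lit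 2) (nat_lit 4) (nat_lit 1) (nat_lit 4) (nat_lit 408) (nat_lit 347) (nat_lit 265)))) (XT.nd (nat_lit 78) (nat_lit 0) (nat_lit 0) (XT.lf (nat_lit 0) (nat_lit 1176814131577) (nat_lit 76) (nat_lit 6739515472053) (nat_lit 0) (nat_lit 1166233530547) (nat_lit 1) (nat_lit 5) (nat_lit 2) (nat_lit 4) (nat_lit 1) (nat_lit 4) (nat_lit 409) (nat_lit 347) (nat_lit 264)) (XT.nd (nat_lit 78) (nat_lit 0) (nat_lit 0) (XT.lf (nat_lit 0) (nat_lit 1441527409335) (nat_lit 76) (nat_lit 7559005218512) (nat_lit 0) (nat_lit 1430946795658) (nat_lit 1) (nat_lit 5) (nat_lit 2) (nat_lit 4) (nat_lit 1) (nat_lit 4) (nat_lit 410) (nat_lit 347) (nat_lit 263)) (XT.lf (nat_lit 0) (nat_lit 1745947478135) (nat_lit 76) (nat_lit 8501418854733) (nat_lit 0) (nat_lit 1735366853460) (nat_lit 1) (nat_lit 5) (nat_lit 2) (nat_lit 4) (nat_lit 1) (nat_lit 4) (nat_lit 411) (nat_lit 347) (nat_lit 262))))) (XT.nd (nat_lit 234) (nat_lit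 0) (nat_lit 0) (XT.nd (nat_lit 78) (nat_lit 0) (nat_lit 0) (XT.lf (nat_lit 0) (nat_lit 2096030382801) (nat_lit 76) (nat_lit 9585194908381) (nat_lit 0) (nat_lit 2085449748564) (nat_lit 1) (nat_lit 5) (nat_lit 2) (nat_lit 4) (nat_lit 1) (nat_lit 4) (nat_lit 412) (nat_lit 347) (nat_lit 261)) (XT.nd (nat_lit 78) (nat_lit 0) (nat_lit 0) (XT.lf (nat_lit 0) (nat_lit 2498625571469) (nat_lit 76) (nat_lit 10831537693548) (nat_lit 0) (nat_lit 2488044928916) (nat_lit 1) (nat_lit 5) (nat_lit 2) (nat_lit 4) (nat_lit 1) (nat_lit 4) (nat_lit 413) (nat_lit 347) (nat_lit 260)) (XT.lf (nat_lit 0) (nat_lit 2961609906525) (nat_lit 76) (nat_lit 12264832177771) (nat_lit 0) (nat_lit 2951029256741) (nat_lit 1) (nat_lit 5) (nat_lit 2) (nat_lit 4) (nat_lit 1) (nat_lit 4) (nat_lit 414) (nat_lit 347) (nat_lit 259)))) (XT.nd (nat_lit 78) (nat_lit 0) (nat_lit 0) (XT.lf (nat_lit 0) (nat_lit 3494041777134) (nat_lit 76)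 (nat_lit 13913121079219) (nat_lit 0) (nat_lit 3483461121062) (nat_lit 1) (nat_lit 5) (nat_lit 2) (nat_lit 4) (nat_lit 1) (nat_lit 4) (nat_lit 415) (nat_lit 347) (nat_lit 258)) (XT.nd (nat_lit 78) (nat_lit 0) (nat_lit 0) (XT.lf (nat_lit 0) (nat_lit 4106338328590) (nat_lit 76) (nat_lit 15808653528572) (nat_lit 0) (nat_lit 4095757667051) (nat_lit 1) (nat_lit 5) (nat_lit 2) (nat_lit 4) (nat_lit 1) (nat_lit 4) (nat_lit 416) (nat_lit 347) (nat_lit 257)) (XT.lf (nat_lit 0) (nat_lit 4810479276030) (nat_lit 76) (nat_lit 17988516030275) (nat_lit 0) (nat_lit 4799898609736) (nat_lit 1) (nat_lit 5) (nat_lit 2) (nat_lit 4) (nat_lit 1) (nat_lit 4) (nat_lit 417) (nat_lit 347) (nat_lit 256)))))) (XT.nd (nat_lit 468) (nat_lit 0) (nat_lit 0) (XT.nd (nat_lit 234) (nat_lit 0) (nat_lit 0) (XT.nd (nat_lit 78) (nat_lit 0) (nat_lit 0) (XT.lf (nat_lit 0) (nat_lit 5620241290165) (nat_lit 76) (nat_lit 20495358068056)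 (nat_lit 0) (nat_lit 5609660619737) (nat_lit 1) (nat_lit 5) (nat_lit 2) (nat_lit 4) (nat_lit 1) (nat_lit 4) (nat_lit 418) (nat_lit 347) (nat_lit 255)) (XT.nd (nat_lit 78) (nat_lit 0) (nat_lit 0) (XT.lf (nat_lit 0) (nat_lit 6551467540838) (nat_lit 76) (nat_lit 23378226551351) (nat_lit 0) (nat_lit 6540886866814) (nat_lit 1) (nat_lit 5) (nat_lit 2) (nat_lit 4) (nat_lit 1) (nat_lit 4) (nat_lit 419) (nat_lit 347) (nat_lit 254)) (XT.lf (nat_lit 0) (nat_lit 7622377672081) (nat_lit 76) (nat_lit 26693525428745) (nat_lit 0) (nat_lit 7611796994932) (nat_lit 1) (nat_lit 5) (nat_lit 2) (nat_lit 4) (nat_lit 1) (nat_lit 4) (nat_lit 420) (nat_lit 347) (nat_lit 253)))) (XT.nd (nat_lit 78) (nat_lit 0) (nat_lit 0) (XT.lf (nat_lit 0) (nat_lit 8853924273421) (nat_lit 76) (nat_lit 30506119243491) (nat_lit 0) (nat_lit 8843343593554) (nat_lit 1) (nat_lit 5) (nat_lit 2) (nat_lit 4) (nat_lit 1) (nat_lit 4) (nat_lit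 421) (nat_lit 347) (nat_lit 252)) (XT.nd (nat_lit 78) (nat_lit 0) (nat_lit 0) (XT.lf (nat_lit 0) (nat_lit 10270202821840) (nat_lit 76) (nat_lit 34890602222401) (nat_lit 0) (nat_lit 10259622139608) (nat_lit 1) (nat_lit 5) (nat_lit 2) (nat_lit 4) (nat_lit 1) (nat_lit 4) (nat_lit 422) (nat_lit 347) (nat_lit 251)) (XT.lf (nat_lit 0) (nat_lit 11898923115024) (nat_lit 76) (nat_lit 39932757728105) (nat_lit 0) (nat_lit 11888342430737) (nat_lit 1) (nat_lit 5) (nat_lit 2) (nat_lit 4) (nat_lit 1) (nat_lit 4) (nat_lit 423) (nat_lit 347) (nat_lit 250))))) (XT.nd (nat_lit 234) (nat_lit 0) (nat_lit 0) (XT.nd (nat_lit 78) (nat_lit 0) (nat_lit 0) (XT.lf (nat_lit 0) (nat_lit 13771951419579) (nat_lit 76) (nat_lit 45731236629193) (nat_lit 0) (nat_lit 13761370733504) (nat_lit 1) (nat_lit 5) (nat_lit 2) (nat_lit 4) (nat_lit 1) (nat_lit 4) (nat_lit 424) (nat_lit 347) (nat_lit 249)) (XT.nd (nat_lit 78) (nat_lit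 0) (nat_lit 0) (XT.lf (nat_lit 0) (nat_lit 15925933941463) (nat_lit 76) (nat_lit 52399487425903) (nat_lit 0) (nat_lit 15915353253835) (nat_lit 1) (nat_lit 5) (nat_lit 2) (nat_lit 4) (nat_lit 1) (nat_lit 4) (nat_lit 425) (nat_lit 347) (nat_lit 248)) (XT.lf (nat_lit 0) (nat_lit 18403013816975) (nat_lit 76) (nat_lit 60067975894693) (nat_lit 0) (nat_lit 18392433127995) (nat_lit 1) (nat_lit 5) (nat_lit 2) (nat_lit 4) (nat_lit 1) (nat_lit 4) (nat_lit 426) (nat_lit 347) (nat_lit 247)))) (XT.nd (nat_lit 78) (nat_lit 0) (nat_lit 0) (XT.lf (nat_lit 0) (nat_lit 21251655652375) (nat_lit 76) (nat_lit 68886737679517) (nat_lit 0) (nat_lit 21241074962220) (nat_lit 1) (nat_lit 5) (nat_lit 2) (nat_lit 4) (nat_lit 1) (nat_lit 4) (nat_lit 427) (nat_lit 347) (nat_lit 246)) (XT.nd (nat_lit 78) (nat_lit 0) (nat_lit 0) (XT.lf (nat_lit 0) (nat_lit 24527593744441) (nat_lit 76) (nat_lit 79028313771818) (nat_lit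 0) (nat_lit 24517013053264) (nat_lit 1) (nat_lit 5) (nat_lit 2) (nat_lit 4) (nat_lit 1) (nat_lit 4) (nat_lit 428) (nat_lit 347) (nat_lit 245)) (XT.lf (nat_lit 0) (nat_lit 28294922534107) (nat_lit 76) (nat_lit 90691126312532) (nat_lit 0) (nat_lit 28284341842041) (nat_lit 1) (nat_lit 5) (nat_lit 2) (nat_lit 4) (nat_lit 1) (nat_lit 4) (nat_lit 429) (nat_lit 347) (nat_lit 244))))))) (XT.nd (nat_lit 47580) (nat_lit 0) (nat_lit 1064) (XT.nd (nat_lit 47112) (nat_lit 0) (nat_lit 1824) (XT.nd (nat_lit 46878) (nat_lit 0) (nat_lit 2508) (XT.nd (nat_lit 46722) (nat_lit 0) (nat_lit 2432) (XT.lf (nat_lit 0) (nat_lit 32627350628125) (nat_lit 76) (nat_lit 104103360764413) (nat_lit 0) (nat_lit 32616769935286) (nat_lit 1) (nat_lit 5) (nat_lit 2) (nat_lit 4) (nat_lit 1) (nat_lit 4) (nat_lit 430) (nat_lit 347) (nat_lit 243)) (XT.nd (nat_lit 78) (nat_lit 0) (nat_lit 0) (XT.lf (nat_lit 0) (nat_lit 772404393)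 (nat_lit 380) (nat_lit 2786005934) (nat_lit 380) (nat_lit 2786005934) (nat_lit 33) (nat_lit 3) (nat_lit 38) (nat_lit 3) (nat_lit 38) (nat_lit 5) (nat_lit 348) (nat_lit 348) (nat_lit 324)) (XT.lf (nat_lit 76) (nat_lit 761410002) (nat_lit 0) (nat_lit 1324201567) (nat_lit 380) (nat_lit 11490863087) (nat_lit 34) (nat_lit 5) (nat_lit 33) (nat_lit 3) (nat_lit 38) (nat_lit 5) (nat_lit 349) (nat_lit 348) (nat_lit 323)))) (XT.nd (nat_lit 78) (nat_lit 0) (nat_lit 0) (XT.lf (nat_lit 0) (nat_lit 3162939096) (nat_lit 304) (nat_lit 6173604408) (nat_lit 380) (nat_lit 5192458629) (nat_lit 34) (nat_lit 5) (nat_lit 38) (nat_lit 5) (nat_lit 39) (nat_lit 5) (nat_lit 350) (nat_lit 348) (nat_lit 322)) (XT.nd (nat_lit 78) (nat_lit 0) (nat_lit 76) (XT.lf (nat_lit 76) (nat_lit 1484272771) (nat_lit 0) (nat_lit 2980600942) (nat_lit 380) (nat_lit 11150127020) (nat_lit 35) (nat_lit 5) (nat_lit 34) (nat_lit 5) (nat_lit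 39) (nat_lit 5) (nat_lit 351) (nat_lit 348) (nat_lit 321)) (XT.lf (nat_lit 0) (nat_lit 6424364009) (nat_lit 304) (nat_lit 6080818815) (nat_lit 76) (nat_lit 4289414040) (nat_lit 35) (nat_lit 5) (nat_lit 39) (nat_lit 5) (nat_lit 36) (nat_lit 5) (nat_lit 352) (nat_lit 348) (nat_lit 320))))) (XT.nd (nat_lit 234) (nat_lit 304) (nat_lit 0) (XT.nd (nat_lit 78) (nat_lit 152) (nat_lit 0) (XT.lf (nat_lit 0) (nat_lit 3278351793) (nat_lit 304) (nat_lit 5629233809) (nat_lit 380) (nat_lit 9209108309) (nat_lit 31) (nat_lit 5) (nat_lit 35) (nat_lit 5) (nat_lit 36) (nat_lit 5) (nat_lit 353) (nat_lit 348) (nat_lit 319)) (XT.nd (nat_lit 78) (nat_lit 152) (nat_lit 0) (XT.lf (nat_lit 0) (nat_lit 12146984721) (nat_lit 380) (nat_lit 5026517220) (nat_lit 76) (nat_lit 2406077835) (nat_lit 31) (nat_lit 5) (nat_lit 36) (nat_lit 5) (nat_lit 32) (nat_lit 5) (nat_lit 354) (nat_lit 348) (nat_lit 318)) (XT.lf (nat_lit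 0) (nat_lit 6524274188) (nat_lit 152) (nat_lit 9848291496) (nat_lit 228) (nat_lit 4814316736) (nat_lit 29) (nat_lit 5) (nat_lit 31) (nat_lit 5) (nat_lit 32) (nat_lit 5) (nat_lit 355) (nat_lit 348) (nat_lit 317)))) (XT.nd (nat_lit 78) (nat_lit 304) (nat_lit 0) (XT.lf (nat_lit 0) (nat_lit 20329083847) (nat_lit 152) (nat_lit 1130853991) (nat_lit 228) (nat_lit 1541170993) (nat_lit 29) (nat_lit 5) (nat_lit 31) (nat_lit 5) (nat_lit 32) (nat_lit 5) (nat_lit 356) (nat_lit 348) (nat_lit 316)) (XT.nd (nat_lit 78) (nat_lit 152) (nat_lit 0) (XT.lf (nat_lit 0) (nat_lit 2888674637) (nat_lit 152) (nat_lit 13342013093) (nat_lit 76) (nat_lit 8713446074) (nat_lit 27) (nat_lit 5) (nat_lit 29) (nat_lit 5) (nat_lit 28) (nat_lit 5) (nat_lit 357) (nat_lit 348) (nat_lit 315)) (XT.lf (nat_lit 0) (nat_lit 1079132355) (nat_lit 152) (nat_lit 6961331526) (nat_lit 228) (nat_lit 19094866400) (nat_lit 25) (nat_lit 5)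 (nat_lit 27) (nat_lit 5) (nat_lit 28) (nat_lit 5) (nat_lit 358) (nat_lit 348) (nat_lit 314)))))) (XT.nd (nat_lit 468) (nat_lit 456) (nat_lit 0) (XT.nd (nat_lit 234) (nat_lit 228) (nat_lit 0) (XT.nd (nat_lit 78) (nat_lit 76) (nat_lit 0) (XT.lf (nat_lit 0) (nat_lit 14820786098) (nat_lit 228) (nat_lit 10618717886) (nat_lit 76) (nat_lit 4087349836) (nat_lit 25) (nat_lit 5) (nat_lit 28) (nat_lit 5) (nat_lit 26) (nat_lit 4) (nat_lit 359) (nat_lit 348) (nat_lit 313)) (XT.nd (nat_lit 78) (nat_lit 0) (nat_lit 0) (XT.lf (nat_lit 0) (nat_lit 7425070748) (nat_lit 76) (nat_lit 15807674671) (nat_lit 152) (nat_lit 8952182834) (nat_lit 24) (nat_lit 5) (nat_lit 25) (nat_lit 5) (nat_lit 26) (nat_lit 4) (nat_lit 360) (nat_lit 348) (nat_lit 312)) (XT.lf (nat_lit 0) (nat_lit 29331740218) (nat_lit 76) (nat_lit 4107109870) (nat_lit 152) (nat_lit 1723020329) (nat_lit 24) (nat_lit 5) (nat_lit 25) (nat_lit 5)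 (nat_lit 26) (nat_lit 4) (nat_lit 361) (nat_lit 348) (nat_lit 311)))) (XT.nd (nat_lit 78) (nat_lit 76) (nat_lit 0) (XT.lf (nat_lit 0) (nat_lit 7126991681) (nat_lit 152) (nat_lit 21714783509) (nat_lit 76) (nat_lit 9534169578) (nat_lit 22) (nat_lit 5) (nat_lit 24) (nat_lit 5) (nat_lit 23) (nat_lit 4) (nat_lit 362) (nat_lit 348) (nat_lit 310)) (XT.nd (nat_lit 78) (nat_lit 0) (nat_lit 0) (XT.lf (nat_lit 0) (nat_lit 908634698) (nat_lit 76) (nat_lit 16752025976) (nat_lit 152) (nat_lit 24319284467) (nat_lit 21) (nat_lit 5) (nat_lit 22) (nat_lit 5) (nat_lit 23) (nat_lit 4) (nat_lit 363) (nat_lit 348) (nat_lit 309)) (XT.lf (nat_lit 0) (nat_lit 29332528039) (nat_lit 76) (nat_lit 1558242836) (nat_lit 152) (nat_lit 15066321376) (nat_lit 21) (nat_lit 5) (nat_lit 22) (nat_lit 5) (nat_lit 23) (nat_lit 4) (nat_lit 364) (nat_lit 348) (nat_lit 308))))) (XT.nd (nat_lit 234) (nat_lit 228) (nat_lit 0) (XT.nd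 (nat_lit 78) (nat_lit 152) (nat_lit 0) (XT.lf (nat_lit 0) (nat_lit 11854550816) (nat_lit 76) (nat_lit 35383915182) (nat_lit 76) (nat_lit 3122389786) (nat_lit 20) (nat_lit 4) (nat_lit 21) (nat_lit 5) (nat_lit 21) (nat_lit 4) (nat_lit 365) (nat_lit 348) (nat_lit 307)) (XT.nd (nat_lit 78) (nat_lit 76) (nat_lit 0) (XT.lf (nat_lit 0) (nat_lit 10636285398) (nat_lit 152) (nat_lit 9407216787) (nat_lit 76) (nat_lit 35170563848) (nat_lit 19) (nat_lit 5) (nat_lit 21) (nat_lit 5) (nat_lit 20) (nat_lit 4) (nat_lit 366) (nat_lit 348) (nat_lit 306)) (XT.lf (nat_lit 0) (nat_lit 26214696537) (nat_lit 76) (nat_lit 995463612) (nat_lit 152) (nat_lit 33402137193) (nat_lit 18) (nat_lit 5) (nat_lit 19) (nat_lit 5) (nat_lit 20) (nat_lit 4) (nat_lit 367) (nat_lit 348) (nat_lit 305)))) (XT.nd (nat_lit 156) (nat_lit 152) (nat_lit 0) (XT.nd (nat_lit 78) (nat_lit 0) (nat_lit 0) (XT.lf (nat_lit 0) (nat_lit 630013431)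 (nat_lit 76) (nat_lit 47033051116) (nat_lit 76) (nat_lit 18948259174) (nat_lit 17) (nat_lit 4) (nat_lit 18) (nat_lit 5) (nat_lit 18) (nat_lit 4) (nat_lit 368) (nat_lit 348) (nat_lit 304)) (XT.lf (nat_lit 0) (nat_lit 44699337371) (nat_lit 76) (nat_lit 28314503202) (nat_lit 76) (nat_lit 221875383) (nat_lit 17) (nat_lit 4) (nat_lit 18) (nat_lit 5) (nat_lit 18) (nat_lit 4) (nat_lit 369) (nat_lit 348) (nat_lit 303))) (XT.nd (nat_lit 78) (nat_lit 0) (nat_lit 0) (XT.lf (nat_lit 0) (nat_lit 14949681252) (nat_lit 76) (nat_lit 5073166598) (nat_lit 152) (nat_lit 60607511037) (nat_lit 15) (nat_lit 5) (nat_lit 16) (nat_lit 5) (nat_lit 17) (nat_lit 4) (nat_lit 370) (nat_lit 348) (nat_lit 302)) (XT.lf (nat_lit 0) (nat_lit 45728921202) (nat_lit 152) (nat_lit 21747118203) (nat_lit 0) (nat_lit 21289471919) (nat_lit 15) (nat_lit 5) (nat_lit 17) (nat_lit 4) (nat_lit 15) (nat_lit 4) (nat_lit 371) (nat_lit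 348) (nat_lit 301))))))))
noncomputable def xc61 : XT := (XT.nd (nat_lit 1872) (nat_lit 76) (nat_lit 0) (XT.nd (nat_lit 936) (nat_lit 304) (nat_lit 0) (XT.nd (nat_lit 468) (nat_lit 304) (nat_lit 0) (XT.nd (nat_lit 234) (nat_lit 152) (nat_lit 0) (XT.nd (nat_lit 78) (nat_lit 152) (nat_lit 0) (XT.lf (nat_lit 0) (nat_lit 31300469527) (nat_lit 76) (nat_lit 45517657343) (nat_lit 76) (nat_lit 21073727872) (nat_lit 14) (nat_lit 4) (nat_lit 15) (nat_lit 5) (nat_lit 15) (nat_lit 4) (nat_lit 372) (nat_lit 348) (nat_lit 300)) (XT.nd (nat_lit 78) (nat_lit 76) (nat_lit 0) (XT.lf (nat_lit 0) (nat_lit 4991642551) (nat_lit 152) (nat_lit 13715793801) (nat_lit 76) (nat_lit 89476650153) (nat_lit 13) (nat_lit 5) (nat_lit 15) (nat_lit 5) (nat_lit 14) (nat_lit 4) (nat_lit 373) (nat_lit 348) (nat_lit 299)) (XT.lf (nat_lit 0) (nat_lit 35543459671) (nat_lit 152) (nat_lit 69634503814) (nat_lit 0) (nat_lit 14281535364)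 (nat_lit 12) (nat_lit 5) (nat_lit 14) (nat_lit 4) (nat_lit 12) (nat_lit 4) (nat_lit 374) (nat_lit 348) (nat_lit 298)))) (XT.nd (nat_lit 78) (nat_lit 152) (nat_lit 0) (XT.lf (nat_lit 0) (nat_lit 72311036792) (nat_lit 152) (nat_lit 8823687967) (nat_lit 0) (nat_lit 51046550922) (nat_lit 12) (nat_lit 5) (nat_lit 14) (nat_lit 4) (nat_lit 12) (nat_lit 4) (nat_lit 375) (nat_lit 348) (nat_lit 297)) (XT.nd (nat_lit 78) (nat_lit 76) (nat_lit 0) (XT.lf (nat_lit 0) (nat_lit 67063170242) (nat_lit 76) (nat_lit 50299744092) (nat_lit 76) (nat_lit 29033030777) (nat_lit 11) (nat_lit 4) (nat_lit 12) (nat_lit 5) (nat_lit 12) (nat_lit 4) (nat_lit 376) (nat_lit 348) (nat_lit 296)) (XT.lf (nat_lit 0) (nat_lit 6332789132) (nat_lit 152) (nat_lit 7653153589) (nat_lit 76) (nat_lit 148645618517) (nat_lit 10) (nat_lit 5) (nat_lit 12) (nat_lit 5) (nat_lit 11) (nat_lit 4) (nat_lit 377) (nat_lit 348) (nat_lit 295)))))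 (XT.nd (nat_lit 234) (nat_lit 152) (nat_lit 0) (XT.nd (nat_lit 78) (nat_lit 76) (nat_lit 0) (XT.lf (nat_lit 0) (nat_lit 48734328515) (nat_lit 152) (nat_lit 101416936055) (nat_lit 0) (nat_lit 30238385477) (nat_lit 9) (nat_lit 5) (nat_lit 11) (nat_lit 4) (nat_lit 9) (nat_lit 4) (nat_lit 378) (nat_lit 348) (nat_lit 294)) (XT.nd (nat_lit 78) (nat_lit 76) (nat_lit 0) (XT.lf (nat_lit 0) (nat_lit 98574500429) (nat_lit 152) (nat_lit 21997908035) (nat_lit 0) (nat_lit 80077283843) (nat_lit 9) (nat_lit 5) (nat_lit 11) (nat_lit 4) (nat_lit 9) (nat_lit 4) (nat_lit 379) (nat_lit 348) (nat_lit 293)) (XT.lf (nat_lit 0) (nat_lit 76096442187) (nat_lit 76) (nat_lit 82939423934) (nat_lit 76) (nat_lit 64441099913) (nat_lit 8) (nat_lit 4) (nat_lit 9) (nat_lit 5) (nat_lit 9) (nat_lit 4) (nat_lit 380) (nat_lit 348) (nat_lit 292)))) (XT.nd (nat_lit 78) (nat_lit 152) (nat_lit 0) (XT.lf (nat_lit 0) (nat_lit 191365599222)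 (nat_lit 76) (nat_lit 38345183489) (nat_lit 76) (nat_lit 19845896482) (nat_lit 8) (nat_lit 4) (nat_lit 9) (nat_lit 5) (nat_lit 9) (nat_lit 4) (nat_lit 381) (nat_lit 348) (nat_lit 291)) (XT.nd (nat_lit 78) (nat_lit 0) (nat_lit 0) (XT.lf (nat_lit 0) (nat_lit 31282845166) (nat_lit 152) (nat_lit 232477982437) (nat_lit 0) (nat_lit 15195780483) (nat_lit 6) (nat_lit 5) (nat_lit 8) (nat_lit 4) (nat_lit 6) (nat_lit 4) (nat_lit 382) (nat_lit 348) (nat_lit 290)) (XT.lf (nat_lit 0) (nat_lit 93056641477) (nat_lit 152) (nat_lit 141848047222) (nat_lit 0) (nat_lit 76968943615) (nat_lit 6) (nat_lit 5) (nat_lit 8) (nat_lit 4) (nat_lit 6) (nat_lit 4) (nat_lit 383) (nat_lit 348) (nat_lit 289)))))) (XT.nd (nat_lit 468) (nat_lit 76) (nat_lit 0) (XT.nd (nat_lit 234) (nat_lit 152) (nat_lit 0) (XT.nd (nat_lit 78) (nat_lit 76) (nat_lit 0) (XT.lf (nat_lit 0) (nat_lit 164092133061) (nat_lit 152) (nat_lit 37632848796)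 (nat_lit 0) (nat_lit 148003884609) (nat_lit 6) (nat_lit 5) (nat_lit 8) (nat_lit 4) (nat_lit 6) (nat_lit 4) (nat_lit 384) (nat_lit 348) (nat_lit 288)) (XT.nd (nat_lit 78) (nat_lit 0) (nat_lit 0) (XT.lf (nat_lit 0) (nat_lit 90240433246) (nat_lit 76) (nat_lit 159275375410) (nat_lit 76) (nat_lit 143186648183) (nat_lit 5) (nat_lit 4) (nat_lit 6) (nat_lit 5) (nat_lit 6) (nat_lit 4) (nat_lit 385) (nat_lit 348) (nat_lit 287)) (XT.lf (nat_lit 0) (nat_lit 241516467791) (nat_lit 76) (nat_lit 108200114800) (nat_lit 76) (nat_lit 92110971248) (nat_lit 5) (nat_lit 4) (nat_lit 6) (nat_lit 5) (nat_lit 6) (nat_lit 4) (nat_lit 386) (nat_lit 348) (nat_lit 286)))) (XT.nd (nat_lit 78) (nat_lit 152) (nat_lit 0) (XT.lf (nat_lit 0) (nat_lit 415477247664) (nat_lit 76) (nat_lit 49467073093) (nat_lit 76) (nat_lit 33377567518) (nat_lit 5) (nat_lit 4) (nat_lit 6) (nat_lit 5) (nat_lit 6) (nat_lit 4) (nat_lit 387) (nat_lit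 348) (nat_lit 285)) (XT.nd (nat_lit 78) (nat_lit 0) (nat_lit 0) (XT.lf (nat_lit 0) (nat_lit 34357062736) (nat_lit 152) (nat_lit 507870251024) (nat_lit 0) (nat_lit 20365914582) (nat_lit 3) (nat_lit 5) (nat_lit 5) (nat_lit 4) (nat_lit 3) (nat_lit 4) (nat_lit 388) (nat_lit 348) (nat_lit 284)) (XT.lf (nat_lit 0) (nat_lit 115724102121) (nat_lit 152) (nat_lit 417776623977) (nat_lit 0) (nat_lit 101732715932) (nat_lit 3) (nat_lit 5) (nat_lit 5) (nat_lit 4) (nat_lit 3) (nat_lit 4) (nat_lit 389) (nat_lit 348) (nat_lit 283))))) (XT.nd (nat_lit 234) (nat_lit 76) (nat_lit 0) (XT.nd (nat_lit 78) (nat_lit 0) (nat_lit 0) (XT.lf (nat_lit 0) (nat_lit 209293707428) (nat_lit 152) (nat_lit 314174239651) (nat_lit 0) (nat_lit 195302114252) (nat_lit 3) (nat_lit 5) (nat_lit 5) (nat_lit 4) (nat_lit 3) (nat_lit 4) (nat_lit 390) (nat_lit 348) (nat_lit 282)) (XT.nd (nat_lit 78) (nat_lit 0) (nat_lit 0) (XT.lf (nat_lit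 0) (nat_lit 316896588325) (nat_lit 152) (nat_lit 195036094876) (nat_lit 0) (nat_lit 302904815159) (nat_lit 3) (nat_lit 5) (nat_lit 5) (nat_lit 4) (nat_lit 3) (nat_lit 4) (nat_lit 391) (nat_lit 348) (nat_lit 281)) (XT.lf (nat_lit 0) (nat_lit 440638018568) (nat_lit 152) (nat_lit 58031225949) (nat_lit 0) (nat_lit 426646088890) (nat_lit 3) (nat_lit 5) (nat_lit 5) (nat_lit 4) (nat_lit 3) (nat_lit 4) (nat_lit 392) (nat_lit 348) (nat_lit 280)))) (XT.nd (nat_lit 78) (nat_lit 0) (nat_lit 0) (XT.lf (nat_lit 0) (nat_lit 109246803033) (nat_lit 76) (nat_lit 478215900252) (nat_lit 76) (nat_lit 464223834477) (nat_lit 2) (nat_lit 4) (nat_lit 3) (nat_lit 5) (nat_lit 3) (nat_lit 4) (nat_lit 393) (nat_lit 348) (nat_lit 279)) (XT.nd (nat_lit 78) (nat_lit 0) (nat_lit 0) (XT.lf (nat_lit 0) (nat_lit 308135136689) (nat_lit 76) (nat_lit 451207843413) (nat_lit 76) (nat_lit 437215659292) (nat_lit 2) (nat_lit 4)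 (nat_lit 3) (nat_lit 5) (nat_lit 3) (nat_lit 4) (nat_lit 394) (nat_lit 348) (nat_lit 278)) (XT.lf (nat_lit 0) (nat_lit 536853835057) (nat_lit 76) (nat_lit 420150105946) (nat_lit 76) (nat_lit 406157818915) (nat_lit 2) (nat_lit 4) (nat_lit 3) (nat_lit 5) (nat_lit 3) (nat_lit 4) (nat_lit 395) (nat_lit 348) (nat_lit 277))))))) (XT.nd (nat_lit 936) (nat_lit 0) (nat_lit 0) (XT.nd (nat_lit 468) (nat_lit 76) (nat_lit 0) (XT.nd (nat_lit 234) (nat_lit 0) (nat_lit 0) (XT.nd (nat_lit 78) (nat_lit 0) (nat_lit 0) (XT.lf (nat_lit 0) (nat_lit 799877829193) (nat_lit 76) (nat_lit 384435036464) (nat_lit 76) (nat_lit 370442659947) (nat_lit 2) (nat_lit 4) (nat_lit 3) (nat_lit 5) (nat_lit 3) (nat_lit 4) (nat_lit 396) (nat_lit 348) (nat_lit 276)) (XT.nd (nat_lit 78) (nat_lit 0) (nat_lit 0) (XT.lf (nat_lit 0) (nat_lit 1102353240721) (nat_lit 76) (nat_lit 343363861869) (nat_lit 76) (nat_lit 329371407539) (nat_lit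 2) (nat_lit 4) (nat_lit 3) (nat_lit 5) (nat_lit 3) (nat_lit 4) (nat_lit 397) (nat_lit 348) (nat_lit 275)) (XT.lf (nat_lit 0) (nat_lit 1450198066822) (nat_lit 76) (nat_lit 296133015703) (nat_lit 76) (nat_lit 282140493708) (nat_lit 2) (nat_lit 4) (nat_lit 3) (nat_lit 5) (nat_lit 3) (nat_lit 4) (nat_lit 398) (nat_lit 348) (nat_lit 274)))) (XT.nd (nat_lit 78) (nat_lit 0) (nat_lit 0) (XT.lf (nat_lit 0) (nat_lit 1850217967138) (nat_lit 76) (nat_lit 241818416191) (nat_lit 76) (nat_lit 227825835357) (nat_lit 2) (nat_lit 4) (nat_lit 3) (nat_lit 5) (nat_lit 3) (nat_lit 4) (nat_lit 399) (nat_lit 348) (nat_lit 273)) (XT.nd (nat_lit 78) (nat_lit 0) (nat_lit 0) (XT.lf (nat_lit 0) (nat_lit 2310239417980) (nat_lit 76) (nat_lit 179357386388) (nat_lit 76) (nat_lit 165364754390) (nat_lit 2) (nat_lit 4) (nat_lit 3) (nat_lit 5) (nat_lit 3) (nat_lit 4) (nat_lit 400) (nat_lit 348) (nat_lit 272)) (XT.lf (nat_lit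 0) (nat_lit 2839262839037) (nat_lit 76) (nat_lit 107527862666) (nat_lit 76) (nat_lit 93535186177) (nat_lit 2) (nat_lit 4) (nat_lit 3) (nat_lit 5) (nat_lit 3) (nat_lit 4) (nat_lit 401) (nat_lit 348) (nat_lit 271))))) (XT.nd (nat_lit 234) (nat_lit 0) (nat_lit 0) (XT.nd (nat_lit 78) (nat_lit 76) (nat_lit 0) (XT.lf (nat_lit 0) (nat_lit 3447638688549) (nat_lit 76) (nat_lit 24924484779) (nat_lit 76) (nat_lit 10931769603) (nat_lit 2) (nat_lit 4) (nat_lit 3) (nat_lit 5) (nat_lit 3) (nat_lit 4) (nat_lit 402) (nat_lit 348) (nat_lit 270)) (XT.nd (nat_lit 78) (nat_lit 0) (nat_lit 0) (XT.lf (nat_lit 0) (nat_lit 86818853548) (nat_lit 76) (nat_lit 3829611058281) (nat_lit 0) (nat_lit 74651245880) (nat_lit 1) (nat_lit 5) (nat_lit 2) (nat_lit 4) (nat_lit 1) (nat_lit 4) (nat_lit 403) (nat_lit 348) (nat_lit 269)) (XT.lf (nat_lit 0) (nat_lit 201262838154) (nat_lit 76) (nat_lit 4183896681493) (nat_lit 0) (nat_lit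 189095205049) (nat_lit 1) (nat_lit 5) (nat_lit 2) (nat_lit 4) (nat_lit 1) (nat_lit 4) (nat_lit 404) (nat_lit 348) (nat_lit 268)))) (XT.nd (nat_lit 78) (nat_lit 0) (nat_lit 0) (XT.lf (nat_lit 0) (nat_lit 332873016931) (nat_lit 76) (nat_lit 4591326008631) (nat_lit 0) (nat_lit 320705361706) (nat_lit 1) (nat_lit 5) (nat_lit 2) (nat_lit 4) (nat_lit 1) (nat_lit 4) (nat_lit 405) (nat_lit 348) (nat_lit 267)) (XT.nd (nat_lit 78) (nat_lit 0) (nat_lit 0) (XT.lf (nat_lit 0) (nat_lit 484224371636) (nat_lit 76) (nat_lit 5059870483052) (nat_lit 0) (nat_lit 472056697177) (nat_lit 1) (nat_lit 5) (nat_lit 2) (nat_lit 4) (nat_lit 1) (nat_lit 4) (nat_lit 406) (nat_lit 348) (nat_lit 266)) (XT.lf (nat_lit 0) (nat_lit 658278124427) (nat_lit 76) (nat_lit 5598697279253) (nat_lit 0) (nat_lit 646110433243) (nat_lit 1) (nat_lit 5) (nat_lit 2) (nat_lit 4) (nat_lit 1) (nat_lit 4) (nat_lit 407) (nat_lit 348) (nat_lit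 265)))))) (XT.nd (nat_lit 468) (nat_lit 0) (nat_lit 0) (XT.nd (nat_lit 234) (nat_lit 0) (nat_lit 0) (XT.nd (nat_lit 78) (nat_lit 0) (nat_lit 0) (XT.lf (nat_lit 0) (nat_lit 858439674815) (nat_lit 76) (nat_lit 6218348660641) (nat_lit 0) (nat_lit 846271969087) (nat_lit 1) (nat_lit 5) (nat_lit 2) (nat_lit 4) (nat_lit 1) (nat_lit 4) (nat_lit 408) (nat_lit 348) (nat_lit 264)) (XT.nd (nat_lit 78) (nat_lit 0) (nat_lit 0) (XT.lf (nat_lit 0) (nat_lit 1088625227047) (nat_lit 76) (nat_lit 6930948241198) (nat_lit 0) (nat_lit 1076457508671) (nat_lit 1) (nat_lit 5) (nat_lit 2) (nat_lit 4) (nat_lit 1) (nat_lit 4) (nat_lit 409) (nat_lit 348) (nat_lit 263)) (XT.lf (nat_lit 0) (nat_lit 1353338411492) (nat_lit 76) (nat_lit 7750438186631) (nat_lit 0) (nat_lit 1341170682119) (nat_lit 1) (nat_lit 5) (nat_lit 2) (nat_lit 4) (nat_lit 1) (nat_lit 4) (nat_lit 410) (nat_lit 348) (nat_lit 262)))) (XT.nd (nat_lit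 78) (nat_lit 0) (nat_lit 0) (XT.lf (nat_lit 0) (nat_lit 1657758399151) (nat_lit 76) (nat_lit 8692851995872) (nat_lit 0) (nat_lit 1645590660215) (nat_lit 1) (nat_lit 5) (nat_lit 2) (nat_lit 4) (nat_lit 1) (nat_lit 4) (nat_lit 411) (nat_lit 348) (nat_lit 261)) (XT.nd (nat_lit 78) (nat_lit 0) (nat_lit 0) (XT.lf (nat_lit 0) (nat_lit 2007841233260) (nat_lit 76) (nat_lit 9776628199972) (nat_lit 0) (nat_lit 1995673486008) (nat_lit 1) (nat_lit 5) (nat_lit 2) (nat_lit 4) (nat_lit 1) (nat_lit 4) (nat_lit 412) (nat_lit 348) (nat_lit 260)) (XT.lf (nat_lit 0) (nat_lit 2410436360573) (nat_lit 76) (nat_lit 11022971115967) (nat_lit 0) (nat_lit 2398268606091) (nat_lit 1) (nat_lit 5) (nat_lit 2) (nat_lit 4) (nat_lit 1) (nat_lit 4) (nat_lit 413) (nat_lit 348) (nat_lit 259))))) (XT.nd (nat_lit 234) (nat_lit 0) (nat_lit 0) (XT.nd (nat_lit 78) (nat_lit 0) (nat_lit 0) (XT.lf (nat_lit 0) (nat_lit 2873420642278)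 (nat_lit 76) (nat_lit 12456265713954) (nat_lit 0) (nat_lit 2861252881508) (nat_lit 1) (nat_lit 5) (nat_lit 2) (nat_lit 4) (nat_lit 1) (nat_lit 4) (nat_lit 414) (nat_lit 348) (nat_lit 258)) (XT.nd (nat_lit 78) (nat_lit 0) (nat_lit 0) (XT.lf (nat_lit 0) (nat_lit 3405852466494) (nat_lit 76) (nat_lit 14104554714326) (nat_lit 0) (nat_lit 3393684700257) (nat_lit 1) (nat_lit 5) (nat_lit 2) (nat_lit 4) (nat_lit 1) (nat_lit 4) (nat_lit 415) (nat_lit 348) (nat_lit 257)) (XT.lf (nat_lit 0) (nat_lit 4018148977609) (nat_lit 76) (nat_lit 16000087249701) (nat_lit 0) (nat_lit 4005981206617) (nat_lit 1) (nat_lit 5) (nat_lit 2) (nat_lit 4) (nat_lit 1) (nat_lit 4) (nat_lit 416) (nat_lit 348) (nat_lit 256)))) (XT.nd (nat_lit 156) (nat_lit 0) (nat_lit 0) (XT.nd (nat_lit 78) (nat_lit 0) (nat_lit 0) (XT.lf (nat_lit 0) (nat_lit 4722289889970) (nat_lit 76) (nat_lit 18179949826206) (nat_lit 0) (nat_lit 4710122114843)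 (nat_lit 1) (nat_lit 5) (nat_lit 2) (nat_lit 4) (nat_lit 1) (nat_lit 4) (nat_lit 417) (nat_lit 348) (nat_lit 255)) (XT.lf (nat_lit 0) (nat_lit 5532051873601) (nat_lit 76) (nat_lit 20686791929032) (nat_lit 0) (nat_lit 5519884094879) (nat_lit 1) (nat_lit 5) (nat_lit 2) (nat_lit 4) (nat_lit 1) (nat_lit 4) (nat_lit 418) (nat_lit 348) (nat_lit 254))) (XT.nd (nat_lit 78) (nat_lit 0) (nat_lit 0) (XT.lf (nat_lit 0) (nat_lit 6463278097748) (nat_lit 76) (nat_lit 23569660468887) (nat_lit 0) (nat_lit 6451110315900) (nat_lit 1) (nat_lit 5) (nat_lit 2) (nat_lit 4) (nat_lit 1) (nat_lit 4) (nat_lit 419) (nat_lit 348) (nat_lit 253)) (XT.lf (nat_lit 0) (nat_lit 7534188205926) (nat_lit 76) (nat_lit 26884959395464) (nat_lit 0) (nat_lit 7522020421360) (nat_lit 1) (nat_lit 5) (nat_lit 2) (nat_lit 4) (nat_lit 1) (nat_lit 4) (nat_lit 420) (nat_lit 348) (nat_lit 252))))))))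
noncomputable def xc62 : XT := (XT.nd (nat_lit 48594) (nat_lit 0) (nat_lit 304) (XT.nd (nat_lit 47658) (nat_lit 0) (nat_lit 1748) (XT.nd (nat_lit 468) (nat_lit 0) (nat_lit 0) (XT.nd (nat_lit 234) (nat_lit 0) (nat_lit 0) (XT.nd (nat_lit 78) (nat_lit 0) (nat_lit 0) (XT.lf (nat_lit 0) (nat_lit 8765734787209) (nat_lit 76) (nat_lit 30697553252979) (nat_lit 0) (nat_lit 8753567000279) (nat_lit 1) (nat_lit 5) (nat_lit 2) (nat_lit 4) (nat_lit 1) (nat_lit 4) (nat_lit 421) (nat_lit 348) (nat_lit 251)) (XT.nd (nat_lit 78) (nat_lit 0) (nat_lit 0) (XT.lf (nat_lit 0) (nat_lit 10182013318187) (nat_lit 76) (nat_lit 35082036269078) (nat_lit 0) (nat_lit 10169845529202) (nat_lit 1) (nat_lit 5) (nat_lit 2) (nat_lit 4) (nat_lit 1) (nat_lit 4) (nat_lit 422) (nat_lit 348) (nat_lit 250)) (XT.lf (nat_lit 0) (nat_lit 11810733596205) (nat_lit 76) (nat_lit 40124191807121) (nat_lit 0) (nat_lit 11798565805432) (nat_lit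 1) (nat_lit 5) (nat_lit 2) (nat_lit 4) (nat_lit 1) (nat_lit 4) (nat_lit 423) (nat_lit 348) (nat_lit 249)))) (XT.nd (nat_lit 78) (nat_lit 0) (nat_lit 0) (XT.lf (nat_lit 0) (nat_lit 13683761887573) (nat_lit 76) (nat_lit 45922670736329) (nat_lit 0) (nat_lit 13671594095245) (nat_lit 1) (nat_lit 5) (nat_lit 2) (nat_lit 4) (nat_lit 1) (nat_lit 4) (nat_lit 424) (nat_lit 348) (nat_lit 248)) (XT.nd (nat_lit 78) (nat_lit 0) (nat_lit 0) (XT.lf (nat_lit 0) (nat_lit 15837744397990) (nat_lit 76) (nat_lit 52590921557492) (nat_lit 0) (nat_lit 15825576604311) (nat_lit 1) (nat_lit 5) (nat_lit 2) (nat_lit 4) (nat_lit 1) (nat_lit 4) (nat_lit 425) (nat_lit 348) (nat_lit 247)) (XT.lf (nat_lit 0) (nat_lit 18314824263530) (nat_lit 76) (nat_lit 60259410047545) (nat_lit 0) (nat_lit 18302656468676) (nat_lit 1) (nat_lit 5) (nat_lit 2) (nat_lit 4) (nat_lit 1) (nat_lit 4) (nat_lit 426) (nat_lit 348) (nat_lit 246)))))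 (XT.nd (nat_lit 234) (nat_lit 0) (nat_lit 0) (XT.nd (nat_lit 78) (nat_lit 0) (nat_lit 0) (XT.lf (nat_lit 0) (nat_lit 21163466090258) (nat_lit 76) (nat_lit 69078171850859) (nat_lit 0) (nat_lit 21151298294382) (nat_lit 1) (nat_lit 5) (nat_lit 2) (nat_lit 4) (nat_lit 1) (nat_lit 4) (nat_lit 427) (nat_lit 348) (nat_lit 245)) (XT.nd (nat_lit 78) (nat_lit 0) (nat_lit 0) (XT.lf (nat_lit 0) (nat_lit 24439404174785) (nat_lit 76) (nat_lit 79219747959238) (nat_lit 0) (nat_lit 24427236378020) (nat_lit 1) (nat_lit 5) (nat_lit 2) (nat_lit 4) (nat_lit 1) (nat_lit 4) (nat_lit 428) (nat_lit 348) (nat_lit 244)) (XT.lf (nat_lit 0) (nat_lit 28206732957893) (nat_lit 76) (nat_lit 90882560513933) (nat_lit 0) (nat_lit 28194565160356) (nat_lit 1) (nat_lit 5) (nat_lit 2) (nat_lit 4) (nat_lit 1) (nat_lit 4) (nat_lit 429) (nat_lit 348) (nat_lit 243)))) (XT.nd (nat_lit 46800) (nat_lit 0) (nat_lit 2432) (XT.lf (nat_lit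 0) (nat_lit 32539161046210) (nat_lit 76) (nat_lit 104294794977970) (nat_lit 0) (nat_lit 32526993248001) (nat_lit 1) (nat_lit 5) (nat_lit 2) (nat_lit 4) (nat_lit 1) (nat_lit 4) (nat_lit 430) (nat_lit 348) (nat_lit 242)) (XT.nd (nat_lit 78) (nat_lit 0) (nat_lit 0) (XT.lf (nat_lit 0) (nat_lit 1265388386) (nat_lit 380) (nat_lit 2986927189) (nat_lit 380) (nat_lit 2986927189) (nat_lit 33) (nat_lit 3) (nat_lit 38) (nat_lit 3) (nat_lit 38) (nat_lit 5) (nat_lit 349) (nat_lit 349) (nat_lit 322)) (XT.lf (nat_lit 76) (nat_lit 1289855352) (nat_lit 0) (nat_lit 1781617161) (nat_lit 380) (nat_lit 12440055353) (nat_lit 34) (nat_lit 5) (nat_lit 33) (nat_lit 3) (nat_lit 38) (nat_lit 5) (nat_lit 350) (nat_lit 349) (nat_lit 321)))))) (XT.nd (nat_lit 468) (nat_lit 380) (nat_lit 0) (XT.nd (nat_lit 234) (nat_lit 380) (nat_lit 0) (XT.nd (nat_lit 78) (nat_lit 0) (nat_lit 0) (XT.lf (nat_lit 0) (nat_lit 4213296011)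 (nat_lit 304) (nat_lit 6641934123) (nat_lit 380) (nat_lit 5766330470) (nat_lit 34) (nat_lit 5) (nat_lit 38) (nat_lit 5) (nat_lit 39) (nat_lit 5) (nat_lit 351) (nat_lit 349) (nat_lit 320)) (XT.nd (nat_lit 78) (nat_lit 0) (nat_lit 76) (XT.lf (nat_lit 76) (nat_lit 2143819590) (nat_lit 0) (nat_lit 3509673088) (nat_lit 380) (nat_lit 12225573291) (nat_lit 35) (nat_lit 5) (nat_lit 34) (nat_lit 5) (nat_lit 39) (nat_lit 5) (nat_lit 352) (nat_lit 349) (nat_lit 319)) (XT.lf (nat_lit 0) (nat_lit 7836273573) (nat_lit 304) (nat_lit 6542084701) (nat_lit 76) (nat_lit 4867884059) (nat_lit 35) (nat_lit 5) (nat_lit 39) (nat_lit 5) (nat_lit 36) (nat_lit 5) (nat_lit 353) (nat_lit 349) (nat_lit 318)))) (XT.nd (nat_lit 78) (nat_lit 152) (nat_lit 0) (XT.lf (nat_lit 0) (nat_lit 4200468002) (nat_lit 304) (nat_lit 6450862798) (nat_lit 380) (nat_lit 10121460168) (nat_lit 31) (nat_lit 5) (nat_lit 35) (nat_lit 5)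 (nat_lit 36) (nat_lit 5) (nat_lit 354) (nat_lit 349) (nat_lit 317)) (XT.nd (nat_lit 78) (nat_lit 152) (nat_lit 0) (XT.lf (nat_lit 0) (nat_lit 14324292983) (nat_lit 380) (nat_lit 5353687682) (nat_lit 76) (nat_lit 2785015753) (nat_lit 31) (nat_lit 5) (nat_lit 36) (nat_lit 5) (nat_lit 32) (nat_lit 5) (nat_lit 355) (nat_lit 349) (nat_lit 316)) (XT.lf (nat_lit 0) (nat_lit 7910322114) (nat_lit 152) (nat_lit 11243920491) (nat_lit 228) (nat_lit 5161602290) (nat_lit 29) (nat_lit 5) (nat_lit 31) (nat_lit 5) (nat_lit 32) (nat_lit 5) (nat_lit 356) (nat_lit 349) (nat_lit 315))))) (XT.nd (nat_lit 234) (nat_lit 76) (nat_lit 0) (XT.nd (nat_lit 78) (nat_lit 304) (nat_lit 0) (XT.lf (nat_lit 0) (nat_lit 23732713205) (nat_lit 152) (nat_lit 1229512759) (nat_lit 228) (nat_lit 1446379723) (nat_lit 29) (nat_lit 5) (nat_lit 31) (nat_lit 5) (nat_lit 32) (nat_lit 5) (nat_lit 357) (nat_lit 349) (nat_lit 314)) (XT.nd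 (nat_lit 78) (nat_lit 152) (nat_lit 0) (XT.lf (nat_lit 0) (nat_lit 3599182359) (nat_lit 152) (nat_lit 14940003626) (nat_lit 76) (nat_lit 10104854698) (nat_lit 27) (nat_lit 5) (nat_lit 29) (nat_lit 5) (nat_lit 28) (nat_lit 5) (nat_lit 358) (nat_lit 349) (nat_lit 313)) (XT.lf (nat_lit 0) (nat_lit 1625981301) (nat_lit 152) (nat_lit 7877542478) (nat_lit 228) (nat_lit 21663442529) (nat_lit 25) (nat_lit 5) (nat_lit 27) (nat_lit 5) (nat_lit 28) (nat_lit 5) (nat_lit 359) (nat_lit 349) (nat_lit 312)))) (XT.nd (nat_lit 78) (nat_lit 76) (nat_lit 0) (XT.lf (nat_lit 0) (nat_lit 17271982325) (nat_lit 228) (nat_lit 11847749164) (nat_lit 76) (nat_lit 4801838687) (nat_lit 25) (nat_lit 5) (nat_lit 28) (nat_lit 5) (nat_lit 26) (nat_lit 4) (nat_lit 360) (nat_lit 349) (nat_lit 311)) (XT.nd (nat_lit 78) (nat_lit 0) (nat_lit 0) (XT.lf (nat_lit 0) (nat_lit 8886072474) (nat_lit 76) (nat_lit 18044292238) (nat_lit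 152) (nat_lit 10050309725) (nat_lit 24) (nat_lit 5) (nat_lit 25) (nat_lit 5) (nat_lit 26) (nat_lit 4) (nat_lit 361) (nat_lit 349) (nat_lit 310)) (XT.lf (nat_lit 0) (nat_lit 34033450045) (nat_lit 76) (nat_lit 4606190583) (nat_lit 152) (nat_lit 1768690305) (nat_lit 24) (nat_lit 5) (nat_lit 25) (nat_lit 5) (nat_lit 26) (nat_lit 4) (nat_lit 362) (nat_lit 349) (nat_lit 309))))))) (XT.nd (nat_lit 936) (nat_lit 608) (nat_lit 0) (XT.nd (nat_lit 468) (nat_lit 380) (nat_lit 0) (XT.nd (nat_lit 234) (nat_lit 228) (nat_lit 0) (XT.nd (nat_lit 78) (nat_lit 76) (nat_lit 0) (XT.lf (nat_lit 0) (nat_lit 8382463966) (nat_lit 152) (nat_lit 24643569807) (nat_lit 76) (nat_lit 11078282021) (nat_lit 22) (nat_lit 5) (nat_lit 24) (nat_lit 5) (nat_lit 23) (nat_lit 4) (nat_lit 363) (nat_lit 349) (nat_lit 308)) (XT.nd (nat_lit 78) (nat_lit 0) (nat_lit 0) (XT.lf (nat_lit 0) (nat_lit 1358432439) (nat_lit 76) (nat_lit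 19126416228) (nat_lit 152) (nat_lit 27765775209) (nat_lit 21) (nat_lit 5) (nat_lit 22) (nat_lit 5) (nat_lit 23) (nat_lit 4) (nat_lit 364) (nat_lit 349) (nat_lit 307)) (XT.lf (nat_lit 0) (nat_lit 34005018145) (nat_lit 76) (nat_lit 1671619571) (nat_lit 152) (nat_lit 17151137471) (nat_lit 21) (nat_lit 5) (nat_lit 22) (nat_lit 5) (nat_lit 23) (nat_lit 4) (nat_lit 365) (nat_lit 349) (nat_lit 306)))) (XT.nd (nat_lit 78) (nat_lit 152) (nat_lit 0) (XT.lf (nat_lit 0) (nat_lit 13910036496) (nat_lit 76) (nat_lit 40562408059) (nat_lit 76) (nat_lit 3420270716) (nat_lit 20) (nat_lit 4) (nat_lit 21) (nat_lit 5) (nat_lit 21) (nat_lit 4) (nat_lit 366) (nat_lit 349) (nat_lit 305)) (XT.nd (nat_lit 78) (nat_lit 76) (nat_lit 0) (XT.lf (nat_lit 0) (nat_lit 12366772076) (nat_lit 152) (nat_lit 10563940325) (nat_lit 76) (nat_lit 40545178539) (nat_lit 19) (nat_lit 5) (nat_lit 21) (nat_lit 5) (nat_lit 20) (nat_lit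 4) (nat_lit 367) (nat_lit 349) (nat_lit 304)) (XT.lf (nat_lit 0) (nat_lit 30389698226) (nat_lit 76) (nat_lit 1029469111) (nat_lit 152) (nat_lit 38265827420) (nat_lit 18) (nat_lit 5) (nat_lit 19) (nat_lit 5) (nat_lit 20) (nat_lit 4) (nat_lit 368) (nat_lit 349) (nat_lit 303))))) (XT.nd (nat_lit 234) (nat_lit 152) (nat_lit 0) (XT.nd (nat_lit 78) (nat_lit 152) (nat_lit 0) (XT.lf (nat_lit 0) (nat_lit 969995410) (nat_lit 76) (nat_lit 53967700642) (nat_lit 76) (nat_lit 21646528966) (nat_lit 17) (nat_lit 4) (nat_lit 18) (nat_lit 5) (nat_lit 18) (nat_lit 4) (nat_lit 369) (nat_lit 349) (nat_lit 302)) (XT.nd (nat_lit 78) (nat_lit 152) (nat_lit 0) (XT.lf (nat_lit 0) (nat_lit 51617698815) (nat_lit 76) (nat_lit 32457062908) (nat_lit 76) (nat_lit 129966182) (nat_lit 17) (nat_lit 4) (nat_lit 18) (nat_lit 5) (nat_lit 18) (nat_lit 4) (nat_lit 370) (nat_lit 349) (nat_lit 301)) (XT.lf (nat_lit 0) (nat_lit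 17406545741) (nat_lit 76) (nat_lit 5727777367) (nat_lit 152) (nat_lit 69574368271) (nat_lit 15) (nat_lit 5) (nat_lit 16) (nat_lit 5) (nat_lit 17) (nat_lit 4) (nat_lit 371) (nat_lit 349) (nat_lit 300)))) (XT.nd (nat_lit 78) (nat_lit 152) (nat_lit 0) (XT.lf (nat_lit 0) (nat_lit 52686044075) (nat_lit 152) (nat_lit 24812464779) (nat_lit 0) (nat_lit 24567149178) (nat_lit 15) (nat_lit 5) (nat_lit 17) (nat_lit 4) (nat_lit 15) (nat_lit 4) (nat_lit 372) (nat_lit 349) (nat_lit 299)) (XT.nd (nat_lit 78) (nat_lit 76) (nat_lit 0) (XT.lf (nat_lit 0) (nat_lit 36183319239) (nat_lit 76) (nat_lit 52250332368) (nat_lit 76) (nat_lit 24128049806) (nat_lit 14) (nat_lit 4) (nat_lit 15) (nat_lit 5) (nat_lit 15) (nat_lit 4) (nat_lit 373) (nat_lit 349) (nat_lit 298)) (XT.lf (nat_lit 0) (nat_lit 5824940898) (nat_lit 152) (nat_lit 15601605427) (nat_lit 76) (nat_lit 102972462283) (nat_lit 13) (nat_lit 5) (nat_lit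 15) (nat_lit 5) (nat_lit 14) (nat_lit 4) (nat_lit 374) (nat_lit 349) (nat_lit 297)))))) (XT.nd (nat_lit 468) (nat_lit 304) (nat_lit 0) (XT.nd (nat_lit 234) (nat_lit 152) (nat_lit 0) (XT.nd (nat_lit 78) (nat_lit 76) (nat_lit 0) (XT.lf (nat_lit 0) (nat_lit 40958738690) (nat_lit 152) (nat_lit 79907323021) (nat_lit 0) (nat_lit 16499790932) (nat_lit 12) (nat_lit 5) (nat_lit 14) (nat_lit 4) (nat_lit 12) (nat_lit 4) (nat_lit 375) (nat_lit 349) (nat_lit 296)) (XT.nd (nat_lit 78) (nat_lit 76) (nat_lit 0) (XT.lf (nat_lit 0) (nat_lit 83230527152) (nat_lit 152) (nat_lit 9997366061) (nat_lit 0) (nat_lit 58769642485) (nat_lit 12) (nat_lit 5) (nat_lit 14) (nat_lit 4) (nat_lit 12) (nat_lit 4) (nat_lit 376) (nat_lit 349) (nat_lit 295)) (XT.lf (nat_lit 0) (nat_lit 77265708374) (nat_lit 76) (nat_lit 57770901672) (nat_lit 76) (nat_lit 33308332736) (nat_lit 11) (nat_lit 4) (nat_lit 12) (nat_lit 5) (nat_lit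 12) (nat_lit 4) (nat_lit 377) (nat_lit 349) (nat_lit 294)))) (XT.nd (nat_lit 78) (nat_lit 76) (nat_lit 0) (XT.lf (nat_lit 0) (nat_lit 7345804395) (nat_lit 152) (nat_lit 8670554067) (nat_lit 76) (nat_lit 171000468412) (nat_lit 10) (nat_lit 5) (nat_lit 12) (nat_lit 5) (nat_lit 11) (nat_lit 4) (nat_lit 378) (nat_lit 349) (nat_lit 293)) (XT.nd (nat_lit 78) (nat_lit 0) (nat_lit 0) (XT.lf (nat_lit 0) (nat_lit 56107180973) (nat_lit 152) (nat_lit 116498506697) (nat_lit 0) (nat_lit 34833000915) (nat_lit 9) (nat_lit 5) (nat_lit 11) (nat_lit 4) (nat_lit 9) (nat_lit 4) (nat_lit 379) (nat_lit 349) (nat_lit 292)) (XT.lf (nat_lit 0) (nat_lit 113415199999) (nat_lit 152) (nat_lit 25183707488) (nat_lit 0) (nat_lit 92140056955) (nat_lit 9) (nat_lit 5) (nat_lit 11) (nat_lit 4) (nat_lit 9) (nat_lit 4) (nat_lit 380) (nat_lit 349) (nat_lit 291))))) (XT.nd (nat_lit 234) (nat_lit 76) (nat_lit 0) (XT.nd (nat_lit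 78) (nat_lit 152) (nat_lit 0) (XT.lf (nat_lit 0) (nat_lit 87619618597) (nat_lit 76) (nat_lit 95323541507) (nat_lit 76) (nat_lit 74047561084) (nat_lit 8) (nat_lit 4) (nat_lit 9) (nat_lit 5) (nat_lit 9) (nat_lit 4) (nat_lit 381) (nat_lit 349) (nat_lit 290)) (XT.nd (nat_lit 78) (nat_lit 152) (nat_lit 0) (XT.lf (nat_lit 0) (nat_lit 220164969612) (nat_lit 76) (nat_lit 44047573171) (nat_lit 76) (nat_lit 22770864592) (nat_lit 8) (nat_lit 4) (nat_lit 9) (nat_lit 5) (nat_lit 9) (nat_lit 4) (nat_lit 382) (nat_lit 349) (nat_lit 289)) (XT.lf (nat_lit 0) (nat_lit 36022370605) (nat_lit 152) (nat_lit 267250327865) (nat_lit 0) (nat_lit 17520334293) (nat_lit 6) (nat_lit 5) (nat_lit 8) (nat_lit 4) (nat_lit 6) (nat_lit 4) (nat_lit 383) (nat_lit 349) (nat_lit 288)))) (XT.nd (nat_lit 156) (nat_lit 76) (nat_lit 0) (XT.nd (nat_lit 78) (nat_lit 0) (nat_lit 0) (XT.lf (nat_lit 0) (nat_lit 107056093059) (nat_lit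 152) (nat_lit 163038861316) (nat_lit 0) (nat_lit 88553577973) (nat_lit 6) (nat_lit 5) (nat_lit 8) (nat_lit 4) (nat_lit 6) (nat_lit 4) (nat_lit 384) (nat_lit 349) (nat_lit 287)) (XT.lf (nat_lit 0) (nat_lit 188741566377) (nat_lit 152) (nat_lit 43202651776) (nat_lit 0) (nat_lit 170238634966) (nat_lit 6) (nat_lit 5) (nat_lit 8) (nat_lit 4) (nat_lit 6) (nat_lit 4) (nat_lit 385) (nat_lit 349) (nat_lit 286))) (XT.nd (nat_lit 78) (nat_lit 0) (nat_lit 0) (XT.lf (nat_lit 0) (nat_lit 103848207829) (nat_lit 76) (nat_lit 183128909603) (nat_lit 76) (nat_lit 164625616170) (nat_lit 5) (nat_lit 4) (nat_lit 6) (nat_lit 5) (nat_lit 6) (nat_lit 4) (nat_lit 386) (nat_lit 349) (nat_lit 285)) (XT.lf (nat_lit 0) (nat_lit 277806294130) (nat_lit 76) (nat_lit 124397286700) (nat_lit 76) (nat_lit 105893678465) (nat_lit 5) (nat_lit 4) (nat_lit 6) (nat_lit 5) (nat_lit 6) (nat_lit 4) (nat_lit 387) (nat_lit 349) (nat_lit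 284))))))))
noncomputable def xc63 : XT := (XT.nd (nat_lit 1950) (nat_lit 0) (nat_lit 0) (XT.nd (nat_lit 936) (nat_lit 76) (nat_lit 0) (XT.nd (nat_lit 468) (nat_lit 76) (nat_lit 0) (XT.nd (nat_lit 234) (nat_lit 0) (nat_lit 0) (XT.nd (nat_lit 78) (nat_lit 152) (nat_lit 0) (XT.lf (nat_lit 0) (nat_lit 477853057571) (nat_lit 76) (nat_lit 56858572908) (nat_lit 76) (nat_lit 38354690932) (nat_lit 5) (nat_lit 4) (nat_lit 6) (nat_lit 5) (nat_lit 6) (nat_lit 4) (nat_lit 388) (nat_lit 349) (nat_lit 283)) (XT.nd (nat_lit 78) (nat_lit 0) (nat_lit 0) (XT.lf (nat_lit 0) (nat_lit 39537432935) (nat_lit 152) (nat_lit 583993863593) (nat_lit 0) (nat_lit 23446893795) (nat_lit 3) (nat_lit 5) (nat_lit 5) (nat_lit 4) (nat_lit 3) (nat_lit 4) (nat_lit 389) (nat_lit 349) (nat_lit 282)) (XT.lf (nat_lit 0) (nat_lit 133106031169) (nat_lit 152) (nat_lit 480393617499) (nat_lit 0) (nat_lit 117015312040) (nat_lit 3) (nat_lit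 5) (nat_lit 5) (nat_lit 4) (nat_lit 3) (nat_lit 4) (nat_lit 390) (nat_lit 349) (nat_lit 281)))) (XT.nd (nat_lit 78) (nat_lit 0) (nat_lit 0) (XT.lf (nat_lit 0) (nat_lit 240708036350) (nat_lit 152) (nat_lit 361257332057) (nat_lit 0) (nat_lit 224617160709) (nat_lit 3) (nat_lit 5) (nat_lit 5) (nat_lit 4) (nat_lit 3) (nat_lit 4) (nat_lit 391) (nat_lit 349) (nat_lit 280)) (XT.nd (nat_lit 78) (nat_lit 0) (nat_lit 0) (XT.lf (nat_lit 0) (nat_lit 364448705102) (nat_lit 152) (nat_lit 224254079940) (nat_lit 0) (nat_lit 348357693363) (nat_lit 3) (nat_lit 5) (nat_lit 5) (nat_lit 4) (nat_lit 3) (nat_lit 4) (nat_lit 392) (nat_lit 349) (nat_lit 279)) (XT.lf (nat_lit 0) (nat_lit 506749050509) (nat_lit 152) (nat_lit 66703362740) (nat_lit 0) (nat_lit 490657920424) (nat_lit 3) (nat_lit 5) (nat_lit 5) (nat_lit 4) (nat_lit 3) (nat_lit 4) (nat_lit 393) (nat_lit 349) (nat_lit 278))))) (XT.nd (nat_lit 234) (nat_lit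 0) (nat_lit 0) (XT.nd (nat_lit 78) (nat_lit 0) (nat_lit 0) (XT.lf (nat_lit 0) (nat_lit 125664891176) (nat_lit 76) (nat_lit 549931833748) (nat_lit 76) (nat_lit 533840600755) (nat_lit 2) (nat_lit 4) (nat_lit 3) (nat_lit 5) (nat_lit 3) (nat_lit 4) (nat_lit 394) (nat_lit 349) (nat_lit 277)) (XT.nd (nat_lit 78) (nat_lit 0) (nat_lit 0) (XT.lf (nat_lit 0) (nat_lit 354382422574) (nat_lit 76) (nat_lit 518874714237) (nat_lit 76) (nat_lit 502783391757) (nat_lit 2) (nat_lit 4) (nat_lit 3) (nat_lit 5) (nat_lit 3) (nat_lit 4) (nat_lit 395) (nat_lit 349) (nat_lit 276)) (XT.lf (nat_lit 0) (nat_lit 617405401952) (nat_lit 76) (nat_lit 483160182109) (nat_lit 76) (nat_lit 467068781814) (nat_lit 2) (nat_lit 4) (nat_lit 3) (nat_lit 5) (nat_lit 3) (nat_lit 4) (nat_lit 396) (nat_lit 349) (nat_lit 275)))) (XT.nd (nat_lit 78) (nat_lit 0) (nat_lit 0) (XT.lf (nat_lit 0) (nat_lit 919879931082) (nat_lit 76) (nat_lit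 442089474778) (nat_lit 76) (nat_lit 425998006819) (nat_lit 2) (nat_lit 4) (nat_lit 3) (nat_lit 5) (nat_lit 3) (nat_lit 4) (nat_lit 397) (nat_lit 349) (nat_lit 274)) (XT.nd (nat_lit 78) (nat_lit 0) (nat_lit 0) (XT.lf (nat_lit 0) (nat_lit 1267723989880) (nat_lit 76) (nat_lit 394859034928) (nat_lit 76) (nat_lit 378767508130) (nat_lit 2) (nat_lit 4) (nat_lit 3) (nat_lit 5) (nat_lit 3) (nat_lit 4) (nat_lit 398) (nat_lit 349) (nat_lit 273)) (XT.lf (nat_lit 0) (nat_lit 1667743222977) (nat_lit 76) (nat_lit 340544788735) (nat_lit 76) (nat_lit 324453210773) (nat_lit 2) (nat_lit 4) (nat_lit 3) (nat_lit 5) (nat_lit 3) (nat_lit 4) (nat_lit 399) (nat_lit 349) (nat_lit 272)))))) (XT.nd (nat_lit 468) (nat_lit 0) (nat_lit 0) (XT.nd (nat_lit 234) (nat_lit 76) (nat_lit 0) (XT.nd (nat_lit 78) (nat_lit 0) (nat_lit 0) (XT.lf (nat_lit 0) (nat_lit 2127764093628) (nat_lit 76) (nat_lit 278084066165) (nat_lit 76)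 (nat_lit 261992443712) (nat_lit 2) (nat_lit 4) (nat_lit 3) (nat_lit 5) (nat_lit 3) (nat_lit 4) (nat_lit 400) (nat_lit 349) (nat_lit 271)) (XT.nd (nat_lit 78) (nat_lit 0) (nat_lit 0) (XT.lf (nat_lit 0) (nat_lit 2656787010172) (nat_lit 76) (nat_lit 206254809602) (nat_lit 76) (nat_lit 190163148463) (nat_lit 2) (nat_lit 4) (nat_lit 3) (nat_lit 5) (nat_lit 3) (nat_lit 4) (nat_lit 401) (nat_lit 349) (nat_lit 270)) (XT.lf (nat_lit 0) (nat_lit 3265162420976) (nat_lit 76) (nat_lit 123651664028) (nat_lit 76) (nat_lit 107559969247) (nat_lit 2) (nat_lit 4) (nat_lit 3) (nat_lit 5) (nat_lit 3) (nat_lit 4) (nat_lit 402) (nat_lit 349) (nat_lit 269)))) (XT.nd (nat_lit 78) (nat_lit 76) (nat_lit 0) (XT.lf (nat_lit 0) (nat_lit 3964793323207) (nat_lit 76) (nat_lit 28658480941) (nat_lit 76) (nat_lit 12566756907) (nat_lit 2) (nat_lit 4) (nat_lit 3) (nat_lit 5) (nat_lit 3) (nat_lit 4) (nat_lit 403) (nat_lit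 349) (nat_lit 268)) (XT.nd (nat_lit 78) (nat_lit 0) (nat_lit 0) (XT.lf (nat_lit 0) (nat_lit 99846026470) (nat_lit 76) (nat_lit 4404043452250) (nat_lit 0) (nat_lit 85853200842) (nat_lit 1) (nat_lit 5) (nat_lit 2) (nat_lit 4) (nat_lit 1) (nat_lit 4) (nat_lit 404) (nat_lit 349) (nat_lit 267)) (XT.lf (nat_lit 0) (nat_lit 231456042043) (nat_lit 76) (nat_lit 4811473127393) (nat_lit 0) (nat_lit 217463197180) (nat_lit 1) (nat_lit 5) (nat_lit 2) (nat_lit 4) (nat_lit 1) (nat_lit 4) (nat_lit 405) (nat_lit 349) (nat_lit 266))))) (XT.nd (nat_lit 234) (nat_lit 0) (nat_lit 0) (XT.nd (nat_lit 78) (nat_lit 0) (nat_lit 0) (XT.lf (nat_lit 0) (nat_lit 382807254832) (nat_lit 76) (nat_lit 5280017904427) (nat_lit 0) (nat_lit 368814393244) (nat_lit 1) (nat_lit 5) (nat_lit 2) (nat_lit 4) (nat_lit 1) (nat_lit 4) (nat_lit 406) (nat_lit 349) (nat_lit 265)) (XT.nd (nat_lit 78) (nat_lit 0) (nat_lit 0) (XT.lf (nat_lit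 0) (nat_lit 556860884217) (nat_lit 76) (nat_lit 5818844963771) (nat_lit 0) (nat_lit 542868008085) (nat_lit 1) (nat_lit 5) (nat_lit 2) (nat_lit 4) (nat_lit 1) (nat_lit 4) (nat_lit 407) (nat_lit 349) (nat_lit 264)) (XT.lf (nat_lit 0) (nat_lit 757022327296) (nat_lit 76) (nat_lit 6438496573978) (nat_lit 0) (nat_lit 743029438517) (nat_lit 1) (nat_lit 5) (nat_lit 2) (nat_lit 4) (nat_lit 1) (nat_lit 4) (nat_lit 408) (nat_lit 349) (nat_lit 263)))) (XT.nd (nat_lit 156) (nat_lit 0) (nat_lit 0) (XT.nd (nat_lit 78) (nat_lit 0) (nat_lit 0) (XT.lf (nat_lit 0) (nat_lit 987207786216) (nat_lit 76) (nat_lit 7151096353508) (nat_lit 0) (nat_lit 973214886440) (nat_lit 1) (nat_lit 5) (nat_lit 2) (nat_lit 4) (nat_lit 1) (nat_lit 4) (nat_lit 409) (nat_lit 349) (nat_lit 262)) (XT.lf (nat_lit 0) (nat_lit 1251920889520) (nat_lit 76) (nat_lit 7970586471961) (nat_lit 0) (nat_lit 1237927980181) (nat_lit 1) (nat_lit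 5) (nat_lit 2) (nat_lit 4) (nat_lit 1) (nat_lit 4) (nat_lit 410) (nat_lit 349) (nat_lit 261))) (XT.nd (nat_lit 78) (nat_lit 0) (nat_lit 0) (XT.lf (nat_lit 0) (nat_lit 1556340806621) (nat_lit 76) (nat_lit 8913000431655) (nat_lit 0) (nat_lit 1542347888966) (nat_lit 1) (nat_lit 5) (nat_lit 2) (nat_lit 4) (nat_lit 1) (nat_lit 4) (nat_lit 411) (nat_lit 349) (nat_lit 260)) (XT.lf (nat_lit 0) (nat_lit 1906423579376) (nat_lit 76) (nat_lit 9996776766583) (nat_lit 0) (nat_lit 1892430654490) (nat_lit 1) (nat_lit 5) (nat_lit 2) (nat_lit 4) (nat_lit 1) (nat_lit 4) (nat_lit 412) (nat_lit 349) (nat_lit 259))))))) (XT.nd (nat_lit 936) (nat_lit 0) (nat_lit 0) (XT.nd (nat_lit 468) (nat_lit 0) (nat_lit 0) (XT.nd (nat_lit 234) (nat_lit 0) (nat_lit 0) (XT.nd (nat_lit 78) (nat_lit 0) (nat_lit 0) (XT.lf (nat_lit 0) (nat_lit 2309018653338) (nat_lit 76) (nat_lit 11243119796341) (nat_lit 0) (nat_lit 2295025722164)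 (nat_lit 1) (nat_lit 5) (nat_lit 2) (nat_lit 4) (nat_lit 1) (nat_lit 4) (nat_lit 413) (nat_lit 349) (nat_lit 258)) (XT.nd (nat_lit 78) (nat_lit 0) (nat_lit 0) (XT.lf (nat_lit 0) (nat_lit 2772002888650) (nat_lit 76) (nat_lit 12676414493253) (nat_lit 0) (nat_lit 2758009952009) (nat_lit 1) (nat_lit 5) (nat_lit 2) (nat_lit 4) (nat_lit 1) (nat_lit 4) (nat_lit 414) (nat_lit 349) (nat_lit 257)) (XT.lf (nat_lit 0) (nat_lit 3304434672525) (nat_lit 76) (nat_lit 14324703579647) (nat_lit 0) (nat_lit 3290441731129) (nat_lit 1) (nat_lit 5) (nat_lit 2) (nat_lit 4) (nat_lit 1) (nat_lit 4) (nat_lit 415) (nat_lit 349) (nat_lit 256)))) (XT.nd (nat_lit 78) (nat_lit 0) (nat_lit 0) (XT.lf (nat_lit 0) (nat_lit 3916731148560) (nat_lit 76) (nat_lit 16220236189823) (nat_lit 0) (nat_lit 3902738203030) (nat_lit 1) (nat_lit 5) (nat_lit 2) (nat_lit 4) (nat_lit 1) (nat_lit 4) (nat_lit 416) (nat_lit 349) (nat_lit 255))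 (XT.nd (nat_lit 78) (nat_lit 0) (nat_lit 0) (XT.lf (nat_lit 0) (nat_lit 4620872030416) (nat_lit 76) (nat_lit 18400098831372) (nat_lit 0) (nat_lit 4606879081291) (nat_lit 1) (nat_lit 5) (nat_lit 2) (nat_lit 4) (nat_lit 1) (nat_lit 4) (nat_lit 417) (nat_lit 349) (nat_lit 254)) (XT.lf (nat_lit 0) (nat_lit 5430633987523) (nat_lit 76) (nat_lit 20906940990759) (nat_lit 0) (nat_lit 5416641035271) (nat_lit 1) (nat_lit 5) (nat_lit 2) (nat_lit 4) (nat_lit 1) (nat_lit 4) (nat_lit 418) (nat_lit 349) (nat_lit 253))))) (XT.nd (nat_lit 234) (nat_lit 0) (nat_lit 0) (XT.nd (nat_lit 78) (nat_lit 0) (nat_lit 0) (XT.lf (nat_lit 0) (nat_lit 6361860188604) (nat_lit 76) (nat_lit 23789809579797) (nat_lit 0) (nat_lit 6347867233635) (nat_lit 1) (nat_lit 5) (nat_lit 2) (nat_lit 4) (nat_lit 1) (nat_lit 4) (nat_lit 419) (nat_lit 349) (nat_lit 252)) (XT.nd (nat_lit 78) (nat_lit 0) (nat_lit 0) (XT.lf (nat_lit 0) (nat_lit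 7432770276726) (nat_lit 76) (nat_lit 27105108549142) (nat_lit 0) (nat_lit 7418777319392) (nat_lit 1) (nat_lit 5) (nat_lit 2) (nat_lit 4) (nat_lit 1) (nat_lit 4) (nat_lit 420) (nat_lit 349) (nat_lit 251)) (XT.lf (nat_lit 0) (nat_lit 8664316840568) (nat_lit 76) (nat_lit 30917702443846) (nat_lit 0) (nat_lit 8650323881179) (nat_lit 1) (nat_lit 5) (nat_lit 2) (nat_lit 4) (nat_lit 1) (nat_lit 4) (nat_lit 421) (nat_lit 349) (nat_lit 250)))) (XT.nd (nat_lit 78) (nat_lit 0) (nat_lit 0) (XT.lf (nat_lit 0) (nat_lit 10080595356380) (nat_lit 76) (nat_lit 35302185492284) (nat_lit 0) (nat_lit 10066602395204) (nat_lit 1) (nat_lit 5) (nat_lit 2) (nat_lit 4) (nat_lit 1) (nat_lit 4) (nat_lit 422) (nat_lit 349) (nat_lit 249)) (XT.nd (nat_lit 78) (nat_lit 0) (nat_lit 0) (XT.lf (nat_lit 0) (nat_lit 11709315621211) (nat_lit 76) (nat_lit 40344341058448) (nat_lit 0) (nat_lit 11695322658480) (nat_lit 1) (nat_lit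 5) (nat_lit 2) (nat_lit 4) (nat_lit 1) (nat_lit 4) (nat_lit 423) (nat_lit 349) (nat_lit 248)) (XT.lf (nat_lit 0) (nat_lit 13582343901110) (nat_lit 76) (nat_lit 46142820012109) (nat_lit 0) (nat_lit 13568350937028) (nat_lit 1) (nat_lit 5) (nat_lit 2) (nat_lit 4) (nat_lit 1) (nat_lit 4) (nat_lit 424) (nat_lit 349) (nat_lit 247)))))) (XT.nd (nat_lit 47268) (nat_lit 0) (nat_lit 2280) (XT.nd (nat_lit 234) (nat_lit 0) (nat_lit 0) (XT.nd (nat_lit 78) (nat_lit 0) (nat_lit 0) (XT.lf (nat_lit 0) (nat_lit 15736326401555) (nat_lit 76) (nat_lit 52811070854535) (nat_lit 0) (nat_lit 15722333436298) (nat_lit 1) (nat_lit 5) (nat_lit 2) (nat_lit 4) (nat_lit 1) (nat_lit 4) (nat_lit 425) (nat_lit 349) (nat_lit 246)) (XT.nd (nat_lit 78) (nat_lit 0) (nat_lit 0) (XT.lf (nat_lit 0) (nat_lit 18213406258425) (nat_lit 76) (nat_lit 60479559363078) (nat_lit 0) (nat_lit 18199413292145) (nat_lit 1) (nat_lit 5) (nat_lit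 2) (nat_lit 4) (nat_lit 1) (nat_lit 4) (nat_lit 426) (nat_lit 349) (nat_lit 245)) (XT.lf (nat_lit 0) (nat_lit 21062048077613) (nat_lit 76) (nat_lit 69298321182470) (nat_lit 0) (nat_lit 21048055110445) (nat_lit 1) (nat_lit 5) (nat_lit 2) (nat_lit 4) (nat_lit 1) (nat_lit 4) (nat_lit 427) (nat_lit 349) (nat_lit 244)))) (XT.nd (nat_lit 78) (nat_lit 0) (nat_lit 0) (XT.lf (nat_lit 0) (nat_lit 24337986155583) (nat_lit 76) (nat_lit 79439897304830) (nat_lit 0) (nat_lit 24323993187642) (nat_lit 1) (nat_lit 5) (nat_lit 2) (nat_lit 4) (nat_lit 1) (nat_lit 4) (nat_lit 428) (nat_lit 349) (nat_lit 243)) (XT.nd (nat_lit 78) (nat_lit 0) (nat_lit 0) (XT.lf (nat_lit 0) (nat_lit 28105314932990) (nat_lit 76) (nat_lit 91102709871682) (nat_lit 0) (nat_lit 28091321964378) (nat_lit 1) (nat_lit 5) (nat_lit 2) (nat_lit 4) (nat_lit 1) (nat_lit 4) (nat_lit 429) (nat_lit 349) (nat_lit 242)) (XT.lf (nat_lit 0) (nat_lit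 32437743016349) (nat_lit 76) (nat_lit 104514944346291) (nat_lit 0) (nat_lit 32423750047152) (nat_lit 1) (nat_lit 5) (nat_lit 2) (nat_lit 4) (nat_lit 1) (nat_lit 4) (nat_lit 430) (nat_lit 349) (nat_lit 241))))) (XT.nd (nat_lit 234) (nat_lit 152) (nat_lit 0) (XT.nd (nat_lit 78) (nat_lit 0) (nat_lit 0) (XT.lf (nat_lit 0) (nat_lit 1740356065) (nat_lit 380) (nat_lit 3270898490) (nat_lit 380) (nat_lit 3270898490) (nat_lit 33) (nat_lit 3) (nat_lit 38) (nat_lit 3) (nat_lit 38) (nat_lit 5) (nat_lit 350) (nat_lit 350) (nat_lit 320)) (XT.nd (nat_lit 78) (nat_lit 0) (nat_lit 76) (XT.lf (nat_lit 76) (nat_lit 1796553957) (nat_lit 0) (nat_lit 2244538645) (nat_lit 380) (nat_lit 13720477874) (nat_lit 34) (nat_lit 5) (nat_lit 33) (nat_lit 3) (nat_lit 38) (nat_lit 5) (nat_lit 351) (nat_lit 350) (nat_lit 319)) (XT.lf (nat_lit 0) (nat_lit 5280765687) (nat_lit 304) (nat_lit 7292129008) (nat_lit 380) (nat_lit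 6476272893) (nat_lit 34) (nat_lit 5) (nat_lit 38) (nat_lit 5) (nat_lit 39) (nat_lit 5) (nat_lit 352) (nat_lit 350) (nat_lit 318)))) (XT.nd (nat_lit 156) (nat_lit 228) (nat_lit 0) (XT.nd (nat_lit 78) (nat_lit 0) (nat_lit 76) (XT.lf (nat_lit 76) (nat_lit 2795756161) (nat_lit 0) (nat_lit 4098114225) (nat_lit 380) (nat_lit 13607936482) (nat_lit 35) (nat_lit 5) (nat_lit 34) (nat_lit 5) (nat_lit 39) (nat_lit 5) (nat_lit 353) (nat_lit 350) (nat_lit 317)) (XT.lf (nat_lit 0) (nat_lit 9350659761) (nat_lit 304) (nat_lit 7182484788) (nat_lit 76) (nat_lit 5548961121) (nat_lit 35) (nat_lit 5) (nat_lit 39) (nat_lit 5) (nat_lit 36) (nat_lit 5) (nat_lit 354) (nat_lit 350) (nat_lit 316))) (XT.nd (nat_lit 78) (nat_lit 0) (nat_lit 0) (XT.lf (nat_lit 0) (nat_lit 5155954793) (nat_lit 304) (nat_lit 7401285349) (nat_lit 380) (nat_lit 11285036934) (nat_lit 31) (nat_lit 5) (nat_lit 35) (nat_lit 5) (nat_lit 36)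 (nat_lit 5) (nat_lit 355) (nat_lit 350) (nat_lit 315)) (XT.lf (nat_lit 0) (nat_lit 16741564950) (nat_lit 380) (nat_lit 5834013333) (nat_lit 76) (nat_lit 3216398546) (nat_lit 31) (nat_lit 5) (nat_lit 36) (nat_lit 5) (nat_lit 32) (nat_lit 5) (nat_lit 356) (nat_lit 350) (nat_lit 314))))))))
noncomputable def xc64 : XT := (XT.nd (nat_lit 1872) (nat_lit 608) (nat_lit 0) (XT.nd (nat_lit 936) (nat_lit 760) (nat_lit 0) (XT.nd (nat_lit 468) (nat_lit 380) (nat_lit 0) (XT.nd (nat_lit 234) (nat_lit 228) (nat_lit 0) (XT.nd (nat_lit 78) (nat_lit 152) (nat_lit 0) (XT.lf (nat_lit 0) (nat_lit 9404928501) (nat_lit 152) (nat_lit 12868796104) (nat_lit 228) (nat_lit 5652393138) (nat_lit 29) (nat_lit 5) (nat_lit 31) (nat_lit 5) (nat_lit 32) (nat_lit 5) (nat_lit 357) (nat_lit 350) (nat_lit 313)) (XT.nd (nat_lit 78) (nat_lit 152) (nat_lit 0) (XT.lf (nat_lit 0) (nat_lit 27560496768) (nat_lit 152) (nat_lit 1360276664)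 (nat_lit 228) (nat_lit 1416858859) (nat_lit 29) (nat_lit 5) (nat_lit 31) (nat_lit 5) (nat_lit 32) (nat_lit 5) (nat_lit 358) (nat_lit 350) (nat_lit 312)) (XT.lf (nat_lit 0) (nat_lit 4348667672) (nat_lit 152) (nat_lit 16876042786) (nat_lit 76) (nat_lit 11684395163) (nat_lit 27) (nat_lit 5) (nat_lit 29) (nat_lit 5) (nat_lit 28) (nat_lit 5) (nat_lit 359) (nat_lit 350) (nat_lit 311)))) (XT.nd (nat_lit 78) (nat_lit 76) (nat_lit 0) (XT.lf (nat_lit 0) (nat_lit 2160978000) (nat_lit 152) (nat_lit 8962395946) (nat_lit 228) (nat_lit 24689402137) (nat_lit 25) (nat_lit 5) (nat_lit 27) (nat_lit 5) (nat_lit 28) (nat_lit 5) (nat_lit 360) (nat_lit 350) (nat_lit 310)) (XT.nd (nat_lit 78) (nat_lit 76) (nat_lit 0) (XT.lf (nat_lit 0) (nat_lit 20035239645) (nat_lit 228) (nat_lit 13349844314) (nat_lit 76) (nat_lit 5598777155) (nat_lit 25) (nat_lit 5) (nat_lit 28) (nat_lit 5) (nat_lit 26) (nat_lit 4) (nat_lit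 361) (nat_lit 350) (nat_lit 309)) (XT.lf (nat_lit 0) (nat_lit 10481547515) (nat_lit 76) (nat_lit 20649209319) (nat_lit 152) (nat_lit 11372827424) (nat_lit 24) (nat_lit 5) (nat_lit 25) (nat_lit 5) (nat_lit 26) (nat_lit 4) (nat_lit 362) (nat_lit 350) (nat_lit 308))))) (XT.nd (nat_lit 234) (nat_lit 152) (nat_lit 0) (XT.nd (nat_lit 78) (nat_lit 228) (nat_lit 0) (XT.lf (nat_lit 0) (nat_lit 39366784221) (nat_lit 76) (nat_lit 5208661123) (nat_lit 152) (nat_lit 1873099277) (nat_lit 24) (nat_lit 5) (nat_lit 25) (nat_lit 5) (nat_lit 26) (nat_lit 4) (nat_lit 363) (nat_lit 350) (nat_lit 307)) (XT.nd (nat_lit 78) (nat_lit 76) (nat_lit 0) (XT.lf (nat_lit 0) (nat_lit 9780796535) (nat_lit 152) (nat_lit 28091764085) (nat_lit 76) (nat_lit 12826214878) (nat_lit 22) (nat_lit 5) (nat_lit 24) (nat_lit 5) (nat_lit 23) (nat_lit 4) (nat_lit 364) (nat_lit 350) (nat_lit 306)) (XT.lf (nat_lit 0) (nat_lit 1799250262)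 (nat_lit 76) (nat_lit 21890718061) (nat_lit 152) (nat_lit 31778352698) (nat_lit 21) (nat_lit 5) (nat_lit 22) (nat_lit 5) (nat_lit 23) (nat_lit 4) (nat_lit 365) (nat_lit 350) (nat_lit 305)))) (XT.nd (nat_lit 78) (nat_lit 152) (nat_lit 0) (XT.lf (nat_lit 0) (nat_lit 39311903873) (nat_lit 76) (nat_lit 1831353288) (nat_lit 152) (nat_lit 19591383055) (nat_lit 21) (nat_lit 5) (nat_lit 22) (nat_lit 5) (nat_lit 23) (nat_lit 4) (nat_lit 366) (nat_lit 350) (nat_lit 304)) (XT.nd (nat_lit 78) (nat_lit 76) (nat_lit 0) (XT.lf (nat_lit 0) (nat_lit 16206222921) (nat_lit 76) (nat_lit 46549155354) (nat_lit 76) (nat_lit 3804405812) (nat_lit 20) (nat_lit 4) (nat_lit 21) (nat_lit 5) (nat_lit 21) (nat_lit 4) (nat_lit 367) (nat_lit 350) (nat_lit 303)) (XT.lf (nat_lit 0) (nat_lit 14323900454) (nat_lit 152) (nat_lit 11956199442) (nat_lit 76) (nat_lit 46701836313) (nat_lit 19) (nat_lit 5) (nat_lit 21) (nat_lit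 5) (nat_lit 20) (nat_lit 4) (nat_lit 368) (nat_lit 350) (nat_lit 302)))))) (XT.nd (nat_lit 468) (nat_lit 380) (nat_lit 0) (XT.nd (nat_lit 234) (nat_lit 228) (nat_lit 0) (XT.nd (nat_lit 78) (nat_lit 76) (nat_lit 0) (XT.lf (nat_lit 0) (nat_lit 35131742532) (nat_lit 76) (nat_lit 1096695494) (nat_lit 152) (nat_lit 43894827921) (nat_lit 18) (nat_lit 5) (nat_lit 19) (nat_lit 5) (nat_lit 20) (nat_lit 4) (nat_lit 369) (nat_lit 350) (nat_lit 301)) (XT.nd (nat_lit 78) (nat_lit 0) (nat_lit 0) (XT.lf (nat_lit 0) (nat_lit 1301112842) (nat_lit 76) (nat_lit 61971885499) (nat_lit 76) (nat_lit 24784646999) (nat_lit 17) (nat_lit 4) (nat_lit 18) (nat_lit 5) (nat_lit 18) (nat_lit 4) (nat_lit 370) (nat_lit 350) (nat_lit 300)) (XT.lf (nat_lit 0) (nat_lit 59521760698) (nat_lit 76) (nat_lit 37246517789) (nat_lit 76) (nat_lit 54799100) (nat_lit 17) (nat_lit 4) (nat_lit 18) (nat_lit 5) (nat_lit 18) (nat_lit 4)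 (nat_lit 371) (nat_lit 350) (nat_lit 299)))) (XT.nd (nat_lit 78) (nat_lit 76) (nat_lit 0) (XT.lf (nat_lit 0) (nat_lit 20179654107) (nat_lit 76) (nat_lit 6506517340) (nat_lit 152) (nat_lit 79916557975) (nat_lit 15) (nat_lit 5) (nat_lit 16) (nat_lit 5) (nat_lit 17) (nat_lit 4) (nat_lit 372) (nat_lit 350) (nat_lit 298)) (XT.nd (nat_lit 78) (nat_lit 76) (nat_lit 0) (XT.lf (nat_lit 0) (nat_lit 60662889962) (nat_lit 152) (nat_lit 28385585041) (nat_lit 0) (nat_lit 28315931553) (nat_lit 15) (nat_lit 5) (nat_lit 17) (nat_lit 4) (nat_lit 15) (nat_lit 4) (nat_lit 373) (nat_lit 350) (nat_lit 297)) (XT.lf (nat_lit 0) (nat_lit 41752805241) (nat_lit 76) (nat_lit 60016068556) (nat_lit 76) (nat_lit 27666548584) (nat_lit 14) (nat_lit 4) (nat_lit 15) (nat_lit 5) (nat_lit 15) (nat_lit 4) (nat_lit 374) (nat_lit 350) (nat_lit 296))))) (XT.nd (nat_lit 234) (nat_lit 228) (nat_lit 0) (XT.nd (nat_lit 78) (nat_lit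 76) (nat_lit 0) (XT.lf (nat_lit 0) (nat_lit 6762615465) (nat_lit 152) (nat_lit 17812124166) (nat_lit 76) (nat_lit 118474524146) (nat_lit 13) (nat_lit 5) (nat_lit 15) (nat_lit 5) (nat_lit 14) (nat_lit 4) (nat_lit 375) (nat_lit 350) (nat_lit 295)) (XT.nd (nat_lit 78) (nat_lit 0) (nat_lit 0) (XT.lf (nat_lit 0) (nat_lit 47165884138) (nat_lit 152) (nat_lit 91763095299) (nat_lit 0) (nat_lit 19032245593) (nat_lit 12) (nat_lit 5) (nat_lit 14) (nat_lit 4) (nat_lit 12) (nat_lit 4) (nat_lit 376) (nat_lit 350) (nat_lit 294)) (XT.lf (nat_lit 0) (nat_lit 95770179829) (nat_lit 152) (nat_lit 11383643863) (nat_lit 0) (nat_lit 67635076703) (nat_lit 12) (nat_lit 5) (nat_lit 14) (nat_lit 4) (nat_lit 12) (nat_lit 4) (nat_lit 377) (nat_lit 350) (nat_lit 293)))) (XT.nd (nat_lit 78) (nat_lit 152) (nat_lit 0) (XT.lf (nat_lit 0) (nat_lit 88963740507) (nat_lit 76) (nat_lit 66380730469) (nat_lit 76) (nat_lit 38244353794)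 (nat_lit 11) (nat_lit 4) (nat_lit 12) (nat_lit 5) (nat_lit 12) (nat_lit 4) (nat_lit 378) (nat_lit 350) (nat_lit 292)) (XT.nd (nat_lit 78) (nat_lit 76) (nat_lit 0) (XT.lf (nat_lit 0) (nat_lit 8495385370) (nat_lit 152) (nat_lit 9872405562) (nat_lit 76) (nat_lit 196694400388) (nat_lit 10) (nat_lit 5) (nat_lit 12) (nat_lit 5) (nat_lit 11) (nat_lit 4) (nat_lit 379) (nat_lit 350) (nat_lit 291)) (XT.lf (nat_lit 0) (nat_lit 64570670732) (nat_lit 152) (nat_lit 133874250743) (nat_lit 0) (nat_lit 40102455866) (nat_lit 9) (nat_lit 5) (nat_lit 11) (nat_lit 4) (nat_lit 9) (nat_lit 4) (nat_lit 380) (nat_lit 350) (nat_lit 290))))))) (XT.nd (nat_lit 936) (nat_lit 152) (nat_lit 0) (XT.nd (nat_lit 468) (nat_lit 228) (nat_lit 0) (XT.nd (nat_lit 234) (nat_lit 152) (nat_lit 0) (XT.nd (nat_lit 78) (nat_lit 76) (nat_lit 0) (XT.lf (nat_lit 0) (nat_lit 130468708358) (nat_lit 152) (nat_lit 28875148864) (nat_lit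 0) (nat_lit 105999765336) (nat_lit 9) (nat_lit 5) (nat_lit 11) (nat_lit 4) (nat_lit 9) (nat_lit 4) (nat_lit 381) (nat_lit 350) (nat_lit 289)) (XT.nd (nat_lit 78) (nat_lit 0) (nat_lit 0) (XT.lf (nat_lit 0) (nat_lit 100844761827) (nat_lit 76) (nat_lit 109579126785) (nat_lit 76) (nat_lit 85109550584) (nat_lit 8) (nat_lit 4) (nat_lit 9) (nat_lit 5) (nat_lit 9) (nat_lit 4) (nat_lit 382) (nat_lit 350) (nat_lit 288)) (XT.lf (nat_lit 0) (nat_lit 253261193698) (nat_lit 76) (nat_lit 50617364844) (nat_lit 76) (nat_lit 26147238053) (nat_lit 8) (nat_lit 4) (nat_lit 9) (nat_lit 5) (nat_lit 9) (nat_lit 4) (nat_lit 383) (nat_lit 350) (nat_lit 287)))) (XT.nd (nat_lit 78) (nat_lit 0) (nat_lit 0) (XT.lf (nat_lit 0) (nat_lit 41461339552) (nat_lit 152) (nat_lit 307262752706) (nat_lit 0) (nat_lit 20182552104) (nat_lit 6) (nat_lit 5) (nat_lit 8) (nat_lit 4) (nat_lit 6) (nat_lit 4) (nat_lit 384) (nat_lit 350)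 (nat_lit 286)) (XT.nd (nat_lit 78) (nat_lit 0) (nat_lit 0) (XT.lf (nat_lit 0) (nat_lit 123145475154) (nat_lit 152) (nat_lit 187429365002) (nat_lit 0) (nat_lit 101866325683) (nat_lit 6) (nat_lit 5) (nat_lit 8) (nat_lit 4) (nat_lit 6) (nat_lit 4) (nat_lit 385) (nat_lit 350) (nat_lit 285)) (XT.lf (nat_lit 0) (nat_lit 217079730148) (nat_lit 152) (nat_lit 49626244750) (nat_lit 0) (nat_lit 195800265875) (nat_lit 6) (nat_lit 5) (nat_lit 8) (nat_lit 4) (nat_lit 6) (nat_lit 4) (nat_lit 386) (nat_lit 350) (nat_lit 284))))) (XT.nd (nat_lit 234) (nat_lit 152) (nat_lit 0) (XT.nd (nat_lit 78) (nat_lit 0) (nat_lit 0) (XT.lf (nat_lit 0) (nat_lit 119479661760) (nat_lit 76) (nat_lit 210569684895) (nat_lit 76) (nat_lit 189289946882) (nat_lit 5) (nat_lit 4) (nat_lit 6) (nat_lit 5) (nat_lit 6) (nat_lit 4) (nat_lit 387) (nat_lit 350) (nat_lit 283)) (XT.nd (nat_lit 78) (nat_lit 0) (nat_lit 0) (XT.lf (nat_lit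 0) (nat_lit 319524388474) (nat_lit 76) (nat_lit 143032043924) (nat_lit 76) (nat_lit 121752067875) (nat_lit 5) (nat_lit 4) (nat_lit 6) (nat_lit 5) (nat_lit 6) (nat_lit 4) (nat_lit 388) (nat_lit 350) (nat_lit 282)) (XT.lf (nat_lit 0) (nat_lit 549572016401) (nat_lit 76) (nat_lit 65365762513) (nat_lit 76) (nat_lit 44085579477) (nat_lit 5) (nat_lit 4) (nat_lit 6) (nat_lit 5) (nat_lit 6) (nat_lit 4) (nat_lit 389) (nat_lit 350) (nat_lit 281)))) (XT.nd (nat_lit 78) (nat_lit 0) (nat_lit 0) (XT.lf (nat_lit 0) (nat_lit 45488320683) (nat_lit 152) (nat_lit 671549899589) (nat_lit 0) (nat_lit 26983657183) (nat_lit 3) (nat_lit 5) (nat_lit 5) (nat_lit 4) (nat_lit 3) (nat_lit 4) (nat_lit 390) (nat_lit 350) (nat_lit 280)) (XT.nd (nat_lit 78) (nat_lit 0) (nat_lit 0) (XT.lf (nat_lit 0) (nat_lit 153089564373) (nat_lit 152) (nat_lit 552415230957) (nat_lit 0) (nat_lit 134584764776) (nat_lit 3) (nat_lit 5) (nat_lit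 5) (nat_lit 4) (nat_lit 3) (nat_lit 4) (nat_lit 391) (nat_lit 350) (nat_lit 279)) (XT.lf (nat_lit 0) (nat_lit 276829570958) (nat_lit 152) (nat_lit 415413384763) (nat_lit 0) (nat_lit 258324653015) (nat_lit 3) (nat_lit 5) (nat_lit 5) (nat_lit 4) (nat_lit 3) (nat_lit 4) (nat_lit 392) (nat_lit 350) (nat_lit 278)))))) (XT.nd (nat_lit 468) (nat_lit 76) (nat_lit 0) (XT.nd (nat_lit 234) (nat_lit 0) (nat_lit 0) (XT.nd (nat_lit 78) (nat_lit 76) (nat_lit 0) (XT.lf (nat_lit 0) (nat_lit 419129340568) (nat_lit 152) (nat_lit 257863890103) (nat_lit 0) (nat_lit 400624319716) (nat_lit 3) (nat_lit 5) (nat_lit 5) (nat_lit 4) (nat_lit 3) (nat_lit 4) (nat_lit 393) (nat_lit 350) (nat_lit 277)) (XT.nd (nat_lit 78) (nat_lit 76) (nat_lit 0) (XT.lf (nat_lit 0) (nat_lit 582772999129) (nat_lit 152) (nat_lit 76684256865) (nat_lit 0) (nat_lit 564267888790) (nat_lit 3) (nat_lit 5) (nat_lit 5) (nat_lit 4) (nat_lit 3)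 (nat_lit 4) (nat_lit 394) (nat_lit 350) (nat_lit 276)) (XT.lf (nat_lit 0) (nat_lit 144538116489) (nat_lit 76) (nat_lit 632409169082) (nat_lit 76) (nat_lit 613903980929) (nat_lit 2) (nat_lit 4) (nat_lit 3) (nat_lit 5) (nat_lit 3) (nat_lit 4) (nat_lit 395) (nat_lit 350) (nat_lit 275)))) (XT.nd (nat_lit 78) (nat_lit 0) (nat_lit 0) (XT.lf (nat_lit 0) (nat_lit 407560213469) (nat_lit 76) (nat_lit 596695104217) (nat_lit 76) (nat_lit 578189848400) (nat_lit 2) (nat_lit 4) (nat_lit 3) (nat_lit 5) (nat_lit 3) (nat_lit 4) (nat_lit 396) (nat_lit 350) (nat_lit 274)) (XT.nd (nat_lit 78) (nat_lit 0) (nat_lit 0) (XT.lf (nat_lit 0) (nat_lit 710033975296) (nat_lit 76) (nat_lit 555624803203) (nat_lit 76) (nat_lit 537119488547) (nat_lit 2) (nat_lit 4) (nat_lit 3) (nat_lit 5) (nat_lit 3) (nat_lit 4) (nat_lit 397) (nat_lit 350) (nat_lit 273)) (XT.lf (nat_lit 0) (nat_lit 1057877366876) (nat_lit 76) (nat_lit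 508394716671) (nat_lit 76) (nat_lit 489889350851) (nat_lit 2) (nat_lit 4) (nat_lit 3) (nat_lit 5) (nat_lit 3) (nat_lit 4) (nat_lit 398) (nat_lit 350) (nat_lit 272))))) (XT.nd (nat_lit 234) (nat_lit 76) (nat_lit 0) (XT.nd (nat_lit 78) (nat_lit 0) (nat_lit 0) (XT.lf (nat_lit 0) (nat_lit 1457896019782) (nat_lit 76) (nat_lit 454080777712) (nat_lit 76) (nat_lit 435575367401) (nat_lit 2) (nat_lit 4) (nat_lit 3) (nat_lit 5) (nat_lit 3) (nat_lit 4) (nat_lit 399) (nat_lit 350) (nat_lit 271)) (XT.nd (nat_lit 78) (nat_lit 0) (nat_lit 0) (XT.lf (nat_lit 0) (nat_lit 1917916385919) (nat_lit 76) (nat_lit 391620322301) (nat_lit 76) (nat_lit 373114873303) (nat_lit 2) (nat_lit 4) (nat_lit 3) (nat_lit 5) (nat_lit 3) (nat_lit 4) (nat_lit 400) (nat_lit 350) (nat_lit 270)) (XT.lf (nat_lit 0) (nat_lit 2446938863755) (nat_lit 76) (nat_lit 319791298052) (nat_lit 76) (nat_lit 301285815412) (nat_lit 2) (nat_lit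 4) (nat_lit 3) (nat_lit 5) (nat_lit 3) (nat_lit 4) (nat_lit 401) (nat_lit 350) (nat_lit 269)))) (XT.nd (nat_lit 156) (nat_lit 76) (nat_lit 0) (XT.nd (nat_lit 78) (nat_lit 0) (nat_lit 0) (XT.lf (nat_lit 0) (nat_lit 3055313893074) (nat_lit 76) (nat_lit 237188354488) (nat_lit 76) (nat_lit 218682842595) (nat_lit 2) (nat_lit 4) (nat_lit 3) (nat_lit 5) (nat_lit 3) (nat_lit 4) (nat_lit 402) (nat_lit 350) (nat_lit 268)) (XT.lf (nat_lit 0) (nat_lit 3754944463579) (nat_lit 76) (nat_lit 142195347063) (nat_lit 76) (nat_lit 123689809733) (nat_lit 2) (nat_lit 4) (nat_lit 3) (nat_lit 5) (nat_lit 3) (nat_lit 4) (nat_lit 403) (nat_lit 350) (nat_lit 267))) (XT.nd (nat_lit 78) (nat_lit 76) (nat_lit 0) (XT.lf (nat_lit 0) (nat_lit 4559518999478) (nat_lit 76) (nat_lit 32953716935) (nat_lit 76) (nat_lit 14448157485) (nat_lit 2) (nat_lit 4) (nat_lit 3) (nat_lit 5) (nat_lit 3) (nat_lit 4) (nat_lit 404) (nat_lit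 350) (nat_lit 266)) (XT.lf (nat_lit 0) (nat_lit 114826215801) (nat_lit 76) (nat_lit 5064642964588) (nat_lit 0) (nat_lit 98734408250) (nat_lit 1) (nat_lit 5) (nat_lit 2) (nat_lit 4) (nat_lit 1) (nat_lit 4) (nat_lit 405) (nat_lit 350) (nat_lit 265))))))))
noncomputable def xc65 : XT := (XT.nd (nat_lit 1872) (nat_lit 0) (nat_lit 0) (XT.nd (nat_lit 936) (nat_lit 0) (nat_lit 0) (XT.nd (nat_lit 468) (nat_lit 0) (nat_lit 0) (XT.nd (nat_lit 234) (nat_lit 0) (nat_lit 0) (XT.nd (nat_lit 78) (nat_lit 0) (nat_lit 0) (XT.lf (nat_lit 0) (nat_lit 266177305185) (nat_lit 76) (nat_lit 5533188004764) (nat_lit 0) (nat_lit 250085483089) (nat_lit 1) (nat_lit 5) (nat_lit 2) (nat_lit 4) (nat_lit 1) (nat_lit 4) (nat_lit 406) (nat_lit 350) (nat_lit 264)) (XT.nd (nat_lit 78) (nat_lit 0) (nat_lit 0) (XT.lf (nat_lit 0) (nat_lit 440230827261) (nat_lit 76) (nat_lit 6072015292927) (nat_lit 0) (nat_lit 424138992519)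 (nat_lit 1) (nat_lit 5) (nat_lit 2) (nat_lit 4) (nat_lit 1) (nat_lit 4) (nat_lit 407) (nat_lit 350) (nat_lit 263)) (XT.lf (nat_lit 0) (nat_lit 640392177028) (nat_lit 76) (nat_lit 6691667102107) (nat_lit 0) (nat_lit 624300331288) (nat_lit 1) (nat_lit 5) (nat_lit 2) (nat_lit 4) (nat_lit 1) (nat_lit 4) (nat_lit 408) (nat_lit 350) (nat_lit 262)))) (XT.nd (nat_lit 78) (nat_lit 0) (nat_lit 0) (XT.lf (nat_lit 0) (nat_lit 870577554807) (nat_lit 76) (nat_lit 7404267054658) (nat_lit 0) (nat_lit 854485699504) (nat_lit 1) (nat_lit 5) (nat_lit 2) (nat_lit 4) (nat_lit 1) (nat_lit 4) (nat_lit 409) (nat_lit 350) (nat_lit 261)) (XT.nd (nat_lit 78) (nat_lit 0) (nat_lit 0) (XT.lf (nat_lit 0) (nat_lit 1135290587553) (nat_lit 76) (nat_lit 8223757323563) (nat_lit 0) (nat_lit 1119198723935) (nat_lit 1) (nat_lit 5) (nat_lit 2) (nat_lit 4) (nat_lit 1) (nat_lit 4) (nat_lit 410) (nat_lit 350) (nat_lit 260)) (XT.lf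 (nat_lit 0) (nat_lit 1439710443300) (nat_lit 76) (nat_lit 9166171414085) (nat_lit 0) (nat_lit 1423618572451) (nat_lit 1) (nat_lit 5) (nat_lit 2) (nat_lit 4) (nat_lit 1) (nat_lit 4) (nat_lit 411) (nat_lit 350) (nat_lit 259))))) (XT.nd (nat_lit 234) (nat_lit 0) (nat_lit 0) (XT.nd (nat_lit 78) (nat_lit 0) (nat_lit 0) (XT.lf (nat_lit 0) (nat_lit 1789793162703) (nat_lit 76) (nat_lit 10249947862776) (nat_lit 0) (nat_lit 1773701285566) (nat_lit 1) (nat_lit 5) (nat_lit 2) (nat_lit 4) (nat_lit 1) (nat_lit 4) (nat_lit 412) (nat_lit 350) (nat_lit 258)) (XT.nd (nat_lit 78) (nat_lit 0) (nat_lit 0) (XT.lf (nat_lit 0) (nat_lit 2192388190273) (nat_lit 76) (nat_lit 11496290991460) (nat_lit 0) (nat_lit 2176296307668) (nat_lit 1) (nat_lit 5) (nat_lit 2) (nat_lit 4) (nat_lit 1) (nat_lit 4) (nat_lit 413) (nat_lit 350) (nat_lit 257)) (XT.lf (nat_lit 0) (nat_lit 2655372385243) (nat_lit 76) (nat_lit 12929585774393)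 (nat_lit 0) (nat_lit 2639280497884) (nat_lit 1) (nat_lit 5) (nat_lit 2) (nat_lit 4) (nat_lit 1) (nat_lit 4) (nat_lit 414) (nat_lit 350) (nat_lit 256)))) (XT.nd (nat_lit 78) (nat_lit 0) (nat_lit 0) (XT.lf (nat_lit 0) (nat_lit 3187804134038) (nat_lit 76) (nat_lit 14577874935588) (nat_lit 0) (nat_lit 3171712242545) (nat_lit 1) (nat_lit 5) (nat_lit 2) (nat_lit 4) (nat_lit 1) (nat_lit 4) (nat_lit 415) (nat_lit 350) (nat_lit 255)) (XT.nd (nat_lit 78) (nat_lit 0) (nat_lit 0) (XT.lf (nat_lit 0) (nat_lit 3800100579570) (nat_lit 76) (nat_lit 16473407610809) (nat_lit 0) (nat_lit 3784008684481) (nat_lit 1) (nat_lit 5) (nat_lit 2) (nat_lit 4) (nat_lit 1) (nat_lit 4) (nat_lit 416) (nat_lit 350) (nat_lit 254)) (XT.lf (nat_lit 0) (nat_lit 4504241434901) (nat_lit 76) (nat_lit 18653270308919) (nat_lit 0) (nat_lit 4488149536686) (nat_lit 1) (nat_lit 5) (nat_lit 2) (nat_lit 4) (nat_lit 1) (nat_lit 4) (nat_lit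 417) (nat_lit 350) (nat_lit 253)))))) (XT.nd (nat_lit 468) (nat_lit 0) (nat_lit 0) (XT.nd (nat_lit 234) (nat_lit 0) (nat_lit 0) (XT.nd (nat_lit 78) (nat_lit 0) (nat_lit 0) (XT.lf (nat_lit 0) (nat_lit 5314003368942) (nat_lit 76) (nat_lit 21160112517489) (nat_lit 0) (nat_lit 5297911468009) (nat_lit 1) (nat_lit 5) (nat_lit 2) (nat_lit 4) (nat_lit 1) (nat_lit 4) (nat_lit 418) (nat_lit 350) (nat_lit 252)) (XT.nd (nat_lit 78) (nat_lit 0) (nat_lit 0) (XT.lf (nat_lit 0) (nat_lit 6245229549967) (nat_lit 76) (nat_lit 24042981149295) (nat_lit 0) (nat_lit 6229137646669) (nat_lit 1) (nat_lit 5) (nat_lit 2) (nat_lit 4) (nat_lit 1) (nat_lit 4) (nat_lit 419) (nat_lit 350) (nat_lit 251)) (XT.lf (nat_lit 0) (nat_lit 7316139620648) (nat_lit 76) (nat_lit 27358280155829) (nat_lit 0) (nat_lit 7300047715295) (nat_lit 1) (nat_lit 5) (nat_lit 2) (nat_lit 4) (nat_lit 1) (nat_lit 4) (nat_lit 420) (nat_lit 350)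 (nat_lit 250)))) (XT.nd (nat_lit 78) (nat_lit 0) (nat_lit 0) (XT.lf (nat_lit 0) (nat_lit 8547686169324) (nat_lit 76) (nat_lit 31170874082872) (nat_lit 0) (nat_lit 8531594262184) (nat_lit 1) (nat_lit 5) (nat_lit 2) (nat_lit 4) (nat_lit 1) (nat_lit 4) (nat_lit 421) (nat_lit 350) (nat_lit 249)) (XT.nd (nat_lit 78) (nat_lit 0) (nat_lit 0) (XT.lf (nat_lit 0) (nat_lit 9963964671948) (nat_lit 76) (nat_lit 35555357159431) (nat_lit 0) (nat_lit 9947872763254) (nat_lit 1) (nat_lit 5) (nat_lit 2) (nat_lit 4) (nat_lit 1) (nat_lit 4) (nat_lit 422) (nat_lit 350) (nat_lit 248)) (XT.lf (nat_lit 0) (nat_lit 11592684925311) (nat_lit 76) (nat_lit 40597512750047) (nat_lit 0) (nat_lit 11576593015265) (nat_lit 1) (nat_lit 5) (nat_lit 2) (nat_lit 4) (nat_lit 1) (nat_lit 4) (nat_lit 423) (nat_lit 350) (nat_lit 247))))) (XT.nd (nat_lit 234) (nat_lit 0) (nat_lit 0) (XT.nd (nat_lit 78) (nat_lit 0) (nat_lit 0) (XT.lf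 (nat_lit 0) (nat_lit 13465713195239) (nat_lit 76) (nat_lit 46395991724971) (nat_lit 0) (nat_lit 13449621284018) (nat_lit 1) (nat_lit 5) (nat_lit 2) (nat_lit 4) (nat_lit 1) (nat_lit 4) (nat_lit 424) (nat_lit 350) (nat_lit 246)) (XT.nd (nat_lit 78) (nat_lit 0) (nat_lit 0) (XT.lf (nat_lit 0) (nat_lit 15619695687013) (nat_lit 76) (nat_lit 53064242585887) (nat_lit 0) (nat_lit 15603603774770) (nat_lit 1) (nat_lit 5) (nat_lit 2) (nat_lit 4) (nat_lit 1) (nat_lit 4) (nat_lit 425) (nat_lit 350) (nat_lit 245)) (XT.lf (nat_lit 0) (nat_lit 18096775536342) (nat_lit 76) (nat_lit 60732731110508) (nat_lit 0) (nat_lit 18080683623211) (nat_lit 1) (nat_lit 5) (nat_lit 2) (nat_lit 4) (nat_lit 1) (nat_lit 4) (nat_lit 426) (nat_lit 350) (nat_lit 244)))) (XT.nd (nat_lit 78) (nat_lit 0) (nat_lit 0) (XT.lf (nat_lit 0) (nat_lit 20945417348974) (nat_lit 76) (nat_lit 69551492943881) (nat_lit 0) (nat_lit 20929325435070)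 (nat_lit 1) (nat_lit 5) (nat_lit 2) (nat_lit 4) (nat_lit 1) (nat_lit 4) (nat_lit 427) (nat_lit 350) (nat_lit 243)) (XT.nd (nat_lit 78) (nat_lit 0) (nat_lit 0) (XT.lf (nat_lit 0) (nat_lit 24221355421242) (nat_lit 76) (nat_lit 79693069078398) (nat_lit 0) (nat_lit 24205263506666) (nat_lit 1) (nat_lit 5) (nat_lit 2) (nat_lit 4) (nat_lit 1) (nat_lit 4) (nat_lit 428) (nat_lit 350) (nat_lit 242)) (XT.lf (nat_lit 0) (nat_lit 27988684193692) (nat_lit 76) (nat_lit 91355881655822) (nat_lit 0) (nat_lit 27972592278531) (nat_lit 1) (nat_lit 5) (nat_lit 2) (nat_lit 4) (nat_lit 1) (nat_lit 4) (nat_lit 429) (nat_lit 350) (nat_lit 241))))))) (XT.nd (nat_lit 47814) (nat_lit 0) (nat_lit 1064) (XT.nd (nat_lit 47346) (nat_lit 0) (nat_lit 1824) (XT.nd (nat_lit 47112) (nat_lit 0) (nat_lit 2508) (XT.nd (nat_lit 46956) (nat_lit 0) (nat_lit 2432) (XT.lf (nat_lit 0) (nat_lit 32321112272740) (nat_lit 76) (nat_lit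 104768116139624) (nat_lit 0) (nat_lit 32305020357071) (nat_lit 1) (nat_lit 5) (nat_lit 2) (nat_lit 4) (nat_lit 1) (nat_lit 4) (nat_lit 430) (nat_lit 350) (nat_lit 240)) (XT.nd (nat_lit 78) (nat_lit 0) (nat_lit 0) (XT.lf (nat_lit 0) (nat_lit 2217030965) (nat_lit 380) (nat_lit 3637474452) (nat_lit 380) (nat_lit 3637474452) (nat_lit 33) (nat_lit 3) (nat_lit 38) (nat_lit 3) (nat_lit 38) (nat_lit 5) (nat_lit 351) (nat_lit 351) (nat_lit 318)) (XT.lf (nat_lit 76) (nat_lit 2302876598) (nat_lit 0) (nat_lit 2729180811) (nat_lit 380) (nat_lit 15335762574) (nat_lit 34) (nat_lit 5) (nat_lit 33) (nat_lit 3) (nat_lit 38) (nat_lit 5) (nat_lit 352) (nat_lit 351) (nat_lit 317)))) (XT.nd (nat_lit 78) (nat_lit 0) (nat_lit 0) (XT.lf (nat_lit 0) (nat_lit 6402162412) (nat_lit 304) (nat_lit 8124250641) (nat_lit 380) (nat_lit 7330506153) (nat_lit 34) (nat_lit 5) (nat_lit 38) (nat_lit 5) (nat_lit 39) (nat_lit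 5) (nat_lit 353) (nat_lit 351) (nat_lit 316)) (XT.nd (nat_lit 78) (nat_lit 0) (nat_lit 76) (XT.lf (nat_lit 76) (nat_lit 3464921954) (nat_lit 0) (nat_lit 4759704836) (nat_lit 380) (nat_lit 15307748654) (nat_lit 35) (nat_lit 5) (nat_lit 34) (nat_lit 5) (nat_lit 39) (nat_lit 5) (nat_lit 354) (nat_lit 351) (nat_lit 315)) (XT.lf (nat_lit 0) (nat_lit 11009549956) (nat_lit 304) (nat_lit 8002078589) (nat_lit 76) (nat_lit 6344174440) (nat_lit 35) (nat_lit 5) (nat_lit 39) (nat_lit 5) (nat_lit 36) (nat_lit 5) (nat_lit 355) (nat_lit 351) (nat_lit 314))))) (XT.nd (nat_lit 234) (nat_lit 304) (nat_lit 0) (XT.nd (nat_lit 78) (nat_lit 152) (nat_lit 0) (XT.lf (nat_lit 0) (nat_lit 6175409705) (nat_lit 304) (nat_lit 8498467288) (nat_lit 380) (nat_lit 12709631976) (nat_lit 31) (nat_lit 5) (nat_lit 35) (nat_lit 5) (nat_lit 36) (nat_lit 5) (nat_lit 356) (nat_lit 351) (nat_lit 313)) (XT.nd (nat_lit 78) (nat_lit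 152) (nat_lit 0) (XT.lf (nat_lit 0) (nat_lit 19455921067) (nat_lit 380) (nat_lit 6465086976) (nat_lit 76) (nat_lit 3709164890) (nat_lit 31) (nat_lit 5) (nat_lit 36) (nat_lit 5) (nat_lit 32) (nat_lit 5) (nat_lit 357) (nat_lit 351) (nat_lit 312)) (XT.lf (nat_lit 0) (nat_lit 11048603935) (nat_lit 152) (nat_lit 14752452033) (nat_lit 228) (nat_lit 6285923568) (nat_lit 29) (nat_lit 5) (nat_lit 31) (nat_lit 5) (nat_lit 32) (nat_lit 5) (nat_lit 358) (nat_lit 351) (nat_lit 311)))) (XT.nd (nat_lit 78) (nat_lit 304) (nat_lit 0) (XT.lf (nat_lit 0) (nat_lit 31897124465) (nat_lit 152) (nat_lit 1523741219) (nat_lit 228) (nat_lit 1443015044) (nat_lit 29) (nat_lit 5) (nat_lit 31) (nat_lit 5) (nat_lit 32) (nat_lit 5) (nat_lit 359) (nat_lit 351) (nat_lit 310)) (XT.nd (nat_lit 78) (nat_lit 152) (nat_lit 0) (XT.lf (nat_lit 0) (nat_lit 5159461553) (nat_lit 152) (nat_lit 19176854584) (nat_lit 76) (nat_lit 13485305673)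 (nat_lit 27) (nat_lit 5) (nat_lit 29) (nat_lit 5) (nat_lit 28) (nat_lit 5) (nat_lit 360) (nat_lit 351) (nat_lit 309)) (XT.lf (nat_lit 0) (nat_lit 2705237746) (nat_lit 152) (nat_lit 10233577340) (nat_lit 228) (nat_lit 28223771420) (nat_lit 25) (nat_lit 5) (nat_lit 27) (nat_lit 5) (nat_lit 28) (nat_lit 5) (nat_lit 361) (nat_lit 351) (nat_lit 308)))))) (XT.nd (nat_lit 468) (nat_lit 456) (nat_lit 0) (XT.nd (nat_lit 234) (nat_lit 228) (nat_lit 0) (XT.nd (nat_lit 78) (nat_lit 76) (nat_lit 0) (XT.lf (nat_lit 0) (nat_lit 23170930106) (nat_lit 228) (nat_lit 15144330621) (nat_lit 76) (nat_lit 6496561717) (nat_lit 25) (nat_lit 5) (nat_lit 28) (nat_lit 5) (nat_lit 26) (nat_lit 4) (nat_lit 362) (nat_lit 351) (nat_lit 307)) (XT.nd (nat_lit 78) (nat_lit 0) (nat_lit 0) (XT.lf (nat_lit 0) (nat_lit 12252315876) (nat_lit 76) (nat_lit 23669670676) (nat_lit 152) (nat_lit 12938843212) (nat_lit 24) (nat_lit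 5) (nat_lit 25) (nat_lit 5) (nat_lit 26) (nat_lit 4) (nat_lit 363) (nat_lit 351) (nat_lit 306)) (XT.lf (nat_lit 0) (nat_lit 45444442057) (nat_lit 76) (nat_lit 5923073299) (nat_lit 152) (nat_lit 2032404755) (nat_lit 24) (nat_lit 5) (nat_lit 25) (nat_lit 5) (nat_lit 26) (nat_lit 4) (nat_lit 364) (nat_lit 351) (nat_lit 305)))) (XT.nd (nat_lit 78) (nat_lit 76) (nat_lit 0) (XT.lf (nat_lit 0) (nat_lit 11354504275) (nat_lit 152) (nat_lit 32117747077) (nat_lit 76) (nat_lit 14815319550) (nat_lit 22) (nat_lit 5) (nat_lit 24) (nat_lit 5) (nat_lit 23) (nat_lit 4) (nat_lit 365) (nat_lit 351) (nat_lit 304)) (XT.nd (nat_lit 78) (nat_lit 0) (nat_lit 0) (XT.lf (nat_lit 0) (nat_lit 2248383894) (nat_lit 76) (nat_lit 25095187320) (nat_lit 152) (nat_lit 36429953396) (nat_lit 21) (nat_lit 5) (nat_lit 22) (nat_lit 5) (nat_lit 23) (nat_lit 4) (nat_lit 366) (nat_lit 351) (nat_lit 303)) (XT.lf (nat_lit 0) (nat_lit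 45364555622) (nat_lit 76) (nat_lit 2037240237) (nat_lit 152) (nat_lit 22429958160) (nat_lit 21) (nat_lit 5) (nat_lit 22) (nat_lit 5) (nat_lit 23) (nat_lit 4) (nat_lit 367) (nat_lit 351) (nat_lit 302))))) (XT.nd (nat_lit 234) (nat_lit 228) (nat_lit 0) (XT.nd (nat_lit 78) (nat_lit 152) (nat_lit 0) (XT.lf (nat_lit 0) (nat_lit 18795705282) (nat_lit 76) (nat_lit 53457718515) (nat_lit 76) (nat_lit 4277595599) (nat_lit 20) (nat_lit 4) (nat_lit 21) (nat_lit 5) (nat_lit 21) (nat_lit 4) (nat_lit 368) (nat_lit 351) (nat_lit 301)) (XT.nd (nat_lit 78) (nat_lit 76) (nat_lit 0) (XT.lf (nat_lit 0) (nat_lit 16549697292) (nat_lit 152) (nat_lit 13604198786) (nat_lit 76) (nat_lit 53763732548) (nat_lit 19) (nat_lit 5) (nat_lit 21) (nat_lit 5) (nat_lit 20) (nat_lit 4) (nat_lit 369) (nat_lit 351) (nat_lit 300)) (XT.lf (nat_lit 0) (nat_lit 40540324004) (nat_lit 76) (nat_lit 1195268640) (nat_lit 152) (nat_lit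 50395215730) (nat_lit 18) (nat_lit 5) (nat_lit 19) (nat_lit 5) (nat_lit 20) (nat_lit 4) (nat_lit 370) (nat_lit 351) (nat_lit 299)))) (XT.nd (nat_lit 156) (nat_lit 76) (nat_lit 0) (XT.nd (nat_lit 78) (nat_lit 76) (nat_lit 0) (XT.lf (nat_lit 0) (nat_lit 1636633735) (nat_lit 76) (nat_lit 71198881754) (nat_lit 76) (nat_lit 28420029257) (nat_lit 17) (nat_lit 4) (nat_lit 18) (nat_lit 5) (nat_lit 18) (nat_lit 4) (nat_lit 371) (nat_lit 351) (nat_lit 298)) (XT.lf (nat_lit 0) (nat_lit 7797122) (nat_lit 152) (nat_lit 42765476348) (nat_lit 76) (nat_lit 68563867031) (nat_lit 16) (nat_lit 5) (nat_lit 18) (nat_lit 5) (nat_lit 17) (nat_lit 4) (nat_lit 372) (nat_lit 351) (nat_lit 297))) (XT.nd (nat_lit 78) (nat_lit 0) (nat_lit 0) (XT.lf (nat_lit 0) (nat_lit 23329193152) (nat_lit 76) (nat_lit 7421680853) (nat_lit 152) (nat_lit 91832990226) (nat_lit 15) (nat_lit 5) (nat_lit 16) (nat_lit 5) (nat_lit 17)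 (nat_lit 4) (nat_lit 373) (nat_lit 351) (nat_lit 296)) (XT.lf (nat_lit 0) (nat_lit 69818232172) (nat_lit 152) (nat_lit 32530946839) (nat_lit 0) (nat_lit 32611495197) (nat_lit 15) (nat_lit 5) (nat_lit 17) (nat_lit 4) (nat_lit 15) (nat_lit 4) (nat_lit 374) (nat_lit 351) (nat_lit 295))))))))
noncomputable def xc66 : XT := (XT.nd (nat_lit 1872) (nat_lit 76) (nat_lit 0) (XT.nd (nat_lit 936) (nat_lit 304) (nat_lit 0) (XT.nd (nat_lit 468) (nat_lit 304) (nat_lit 0) (XT.nd (nat_lit 234) (nat_lit 152) (nat_lit 0) (XT.nd (nat_lit 78) (nat_lit 152) (nat_lit 0) (XT.lf (nat_lit 0) (nat_lit 48123089442) (nat_lit 76) (nat_lit 68964177389) (nat_lit 76) (nat_lit 31755503504) (nat_lit 14) (nat_lit 4) (nat_lit 15) (nat_lit 5) (nat_lit 15) (nat_lit 4) (nat_lit 375) (nat_lit 351) (nat_lit 294)) (XT.nd (nat_lit 78) (nat_lit 76) (nat_lit 0) (XT.lf (nat_lit 0) (nat_lit 7825350645) (nat_lit 152) (nat_lit 20385854265)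 (nat_lit 76) (nat_lit 136288192386) (nat_lit 13) (nat_lit 5) (nat_lit 15) (nat_lit 5) (nat_lit 14) (nat_lit 4) (nat_lit 376) (nat_lit 351) (nat_lit 293)) (XT.lf (nat_lit 0) (nat_lit 54288656849) (nat_lit 152) (nat_lit 105429014283) (nat_lit 0) (nat_lit 21930550123) (nat_lit 12) (nat_lit 5) (nat_lit 14) (nat_lit 4) (nat_lit 12) (nat_lit 4) (nat_lit 377) (nat_lit 351) (nat_lit 292)))) (XT.nd (nat_lit 78) (nat_lit 152) (nat_lit 0) (XT.lf (nat_lit 0) (nat_lit 110177350360) (nat_lit 152) (nat_lit 13005498867) (nat_lit 0) (nat_lit 77818136200) (nat_lit 12) (nat_lit 5) (nat_lit 14) (nat_lit 4) (nat_lit 12) (nat_lit 4) (nat_lit 378) (nat_lit 351) (nat_lit 291)) (XT.nd (nat_lit 78) (nat_lit 76) (nat_lit 0) (XT.lf (nat_lit 0) (nat_lit 102390098086) (nat_lit 76) (nat_lit 76295642344) (nat_lit 76) (nat_lit 43935465197) (nat_lit 11) (nat_lit 4) (nat_lit 12) (nat_lit 5) (nat_lit 12) (nat_lit 4) (nat_lit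 379) (nat_lit 351) (nat_lit 290)) (XT.lf (nat_lit 0) (nat_lit 9805769029) (nat_lit 152) (nat_lit 11278611111) (nat_lit 76) (nat_lit 226231726204) (nat_lit 10) (nat_lit 5) (nat_lit 12) (nat_lit 5) (nat_lit 11) (nat_lit 4) (nat_lit 380) (nat_lit 351) (nat_lit 289))))) (XT.nd (nat_lit 234) (nat_lit 152) (nat_lit 0) (XT.nd (nat_lit 78) (nat_lit 76) (nat_lit 0) (XT.lf (nat_lit 0) (nat_lit 74292122089) (nat_lit 152) (nat_lit 153880505966) (nat_lit 0) (nat_lit 46151476279) (nat_lit 9) (nat_lit 5) (nat_lit 11) (nat_lit 4) (nat_lit 9) (nat_lit 4) (nat_lit 381) (nat_lit 351) (nat_lit 288)) (XT.nd (nat_lit 78) (nat_lit 76) (nat_lit 0) (XT.lf (nat_lit 0) (nat_lit 150070189174) (nat_lit 152) (nat_lit 33141306073) (nat_lit 0) (nat_lit 121928992774) (nat_lit 9) (nat_lit 5) (nat_lit 11) (nat_lit 4) (nat_lit 9) (nat_lit 4) (nat_lit 382) (nat_lit 351) (nat_lit 287)) (XT.lf (nat_lit 0) (nat_lit 116033631444)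 (nat_lit 76) (nat_lit 125983522495) (nat_lit 76) (nat_lit 97841847321) (nat_lit 8) (nat_lit 4) (nat_lit 9) (nat_lit 5) (nat_lit 9) (nat_lit 4) (nat_lit 383) (nat_lit 351) (nat_lit 286)))) (XT.nd (nat_lit 78) (nat_lit 152) (nat_lit 0) (XT.lf (nat_lit 0) (nat_lit 291304420877) (nat_lit 76) (nat_lit 58181731912) (nat_lit 76) (nat_lit 30039640412) (nat_lit 8) (nat_lit 4) (nat_lit 9) (nat_lit 5) (nat_lit 9) (nat_lit 4) (nat_lit 384) (nat_lit 351) (nat_lit 285)) (XT.nd (nat_lit 78) (nat_lit 0) (nat_lit 0) (XT.lf (nat_lit 0) (nat_lit 47707469298) (nat_lit 152) (nat_lit 353295360819) (nat_lit 0) (nat_lit 23235770583) (nat_lit 6) (nat_lit 5) (nat_lit 8) (nat_lit 4) (nat_lit 6) (nat_lit 4) (nat_lit 385) (nat_lit 351) (nat_lit 284)) (XT.lf (nat_lit 0) (nat_lit 141640712787) (nat_lit 152) (nat_lit 215494374280) (nat_lit 0) (nat_lit 117168740331) (nat_lit 6) (nat_lit 5) (nat_lit 8) (nat_lit 4) (nat_lit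 6) (nat_lit 4) (nat_lit 386) (nat_lit 351) (nat_lit 283)))))) (XT.nd (nat_lit 468) (nat_lit 76) (nat_lit 0) (XT.nd (nat_lit 234) (nat_lit 152) (nat_lit 0) (XT.nd (nat_lit 78) (nat_lit 76) (nat_lit 0) (XT.lf (nat_lit 0) (nat_lit 249662051722) (nat_lit 152) (nat_lit 57027228878) (nat_lit 0) (nat_lit 225189841231) (nat_lit 6) (nat_lit 5) (nat_lit 8) (nat_lit 4) (nat_lit 6) (nat_lit 4) (nat_lit 387) (nat_lit 351) (nat_lit 282)) (XT.nd (nat_lit 78) (nat_lit 0) (nat_lit 0) (XT.lf (nat_lit 0) (nat_lit 137442611218) (nat_lit 76) (nat_lit 242133541298) (nat_lit 76) (nat_lit 217661123819) (nat_lit 5) (nat_lit 4) (nat_lit 6) (nat_lit 5) (nat_lit 6) (nat_lit 4) (nat_lit 388) (nat_lit 351) (nat_lit 281)) (XT.lf (nat_lit 0) (nat_lit 367488699087) (nat_lit 76) (nat_lit 164468071094) (nat_lit 76) (nat_lit 139995473626) (nat_lit 5) (nat_lit 4) (nat_lit 6) (nat_lit 5) (nat_lit 6) (nat_lit 4) (nat_lit 389)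 (nat_lit 351) (nat_lit 280)))) (XT.nd (nat_lit 78) (nat_lit 152) (nat_lit 0) (XT.lf (nat_lit 0) (nat_lit 632038820898) (nat_lit 76) (nat_lit 75154296961) (nat_lit 76) (nat_lit 50681542981) (nat_lit 5) (nat_lit 4) (nat_lit 6) (nat_lit 5) (nat_lit 6) (nat_lit 4) (nat_lit 390) (nat_lit 351) (nat_lit 279)) (XT.nd (nat_lit 78) (nat_lit 0) (nat_lit 0) (XT.lf (nat_lit 0) (nat_lit 52326897941) (nat_lit 152) (nat_lit 772249837426) (nat_lit 0) (nat_lit 31046123961) (nat_lit 3) (nat_lit 5) (nat_lit 5) (nat_lit 4) (nat_lit 3) (nat_lit 4) (nat_lit 391) (nat_lit 351) (nat_lit 278)) (XT.lf (nat_lit 0) (nat_lit 176066328730) (nat_lit 152) (nat_lit 635249213773) (nat_lit 0) (nat_lit 154785451840) (nat_lit 3) (nat_lit 5) (nat_lit 5) (nat_lit 4) (nat_lit 3) (nat_lit 4) (nat_lit 392) (nat_lit 351) (nat_lit 277))))) (XT.nd (nat_lit 234) (nat_lit 76) (nat_lit 0) (XT.nd (nat_lit 78) (nat_lit 0) (nat_lit 0)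 (XT.lf (nat_lit 0) (nat_lit 318365597646) (nat_lit 152) (nat_lit 477700782192) (nat_lit 0) (nat_lit 297084631270) (nat_lit 3) (nat_lit 5) (nat_lit 5) (nat_lit 4) (nat_lit 3) (nat_lit 4) (nat_lit 393) (nat_lit 351) (nat_lit 276)) (XT.nd (nat_lit 78) (nat_lit 0) (nat_lit 0) (XT.lf (nat_lit 0) (nat_lit 482008820822) (nat_lit 152) (nat_lit 296522073371) (nat_lit 0) (nat_lit 460727776632) (nat_lit 3) (nat_lit 5) (nat_lit 5) (nat_lit 4) (nat_lit 3) (nat_lit 4) (nat_lit 394) (nat_lit 351) (nat_lit 275)) (XT.lf (nat_lit 0) (nat_lit 670197713493) (nat_lit 152) (nat_lit 88168286484) (nat_lit 0) (nat_lit 648916601638) (nat_lit 3) (nat_lit 5) (nat_lit 5) (nat_lit 4) (nat_lit 3) (nat_lit 4) (nat_lit 395) (nat_lit 351) (nat_lit 274)))) (XT.nd (nat_lit 78) (nat_lit 0) (nat_lit 0) (XT.lf (nat_lit 0) (nat_lit 166236597014) (nat_lit 76) (nat_lit 727261138222) (nat_lit 76) (nat_lit 705979967529) (nat_lit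 2) (nat_lit 4) (nat_lit 3) (nat_lit 5) (nat_lit 3) (nat_lit 4) (nat_lit 396) (nat_lit 351) (nat_lit 273)) (XT.nd (nat_lit 78) (nat_lit 0) (nat_lit 0) (XT.lf (nat_lit 0) (nat_lit 468709691621) (nat_lit 76) (nat_lit 686191190527) (nat_lit 76) (nat_lit 664909968669) (nat_lit 2) (nat_lit 4) (nat_lit 3) (nat_lit 5) (nat_lit 3) (nat_lit 4) (nat_lit 397) (nat_lit 351) (nat_lit 272)) (XT.lf (nat_lit 0) (nat_lit 816552503010) (nat_lit 76) (nat_lit 638961411228) (nat_lit 76) (nat_lit 617680144880) (nat_lit 2) (nat_lit 4) (nat_lit 3) (nat_lit 5) (nat_lit 3) (nat_lit 4) (nat_lit 398) (nat_lit 351) (nat_lit 271))))))) (XT.nd (nat_lit 936) (nat_lit 0) (nat_lit 0) (XT.nd (nat_lit 468) (nat_lit 76) (nat_lit 0) (XT.nd (nat_lit 234) (nat_lit 0) (nat_lit 0) (XT.nd (nat_lit 78) (nat_lit 0) (nat_lit 0) (XT.lf (nat_lit 0) (nat_lit 1216570651402) (nat_lit 76) (nat_lit 584647739428) (nat_lit 76) (nat_lit 563366434393)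 (nat_lit 2) (nat_lit 4) (nat_lit 3) (nat_lit 5) (nat_lit 3) (nat_lit 4) (nat_lit 399) (nat_lit 351) (nat_lit 270)) (XT.nd (nat_lit 78) (nat_lit 0) (nat_lit 0) (XT.lf (nat_lit 0) (nat_lit 1676590578831) (nat_lit 76) (nat_lit 522187516331) (nat_lit 76) (nat_lit 500906177654) (nat_lit 2) (nat_lit 4) (nat_lit 3) (nat_lit 5) (nat_lit 3) (nat_lit 4) (nat_lit 400) (nat_lit 351) (nat_lit 269)) (XT.lf (nat_lit 0) (nat_lit 2205612675182) (nat_lit 76) (nat_lit 450358694092) (nat_lit 76) (nat_lit 429077326162) (nat_lit 2) (nat_lit 4) (nat_lit 3) (nat_lit 5) (nat_lit 3) (nat_lit 4) (nat_lit 401) (nat_lit 351) (nat_lit 268)))) (XT.nd (nat_lit 78) (nat_lit 0) (nat_lit 0) (XT.lf (nat_lit 0) (nat_lit 2813987372775) (nat_lit 76) (nat_lit 367755926190) (nat_lit 76) (nat_lit 346474532823) (nat_lit 2) (nat_lit 4) (nat_lit 3) (nat_lit 5) (nat_lit 3) (nat_lit 4) (nat_lit 402) (nat_lit 351) (nat_lit 267)) (XT.nd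 (nat_lit 78) (nat_lit 0) (nat_lit 0) (XT.lf (nat_lit 0) (nat_lit 3513617654824) (nat_lit 76) (nat_lit 272763071514) (nat_lit 76) (nat_lit 251481656027) (nat_lit 2) (nat_lit 4) (nat_lit 3) (nat_lit 5) (nat_lit 3) (nat_lit 4) (nat_lit 403) (nat_lit 351) (nat_lit 266)) (XT.lf (nat_lit 0) (nat_lit 4318191939889) (nat_lit 76) (nat_lit 163521574212) (nat_lit 76) (nat_lit 142240139490) (nat_lit 2) (nat_lit 4) (nat_lit 3) (nat_lit 5) (nat_lit 3) (nat_lit 4) (nat_lit 404) (nat_lit 351) (nat_lit 265))))) (XT.nd (nat_lit 234) (nat_lit 0) (nat_lit 0) (XT.nd (nat_lit 78) (nat_lit 76) (nat_lit 0) (XT.lf (nat_lit 0) (nat_lit 5243451898767) (nat_lit 76) (nat_lit 37894100640) (nat_lit 76) (nat_lit 16612649192) (nat_lit 2) (nat_lit 4) (nat_lit 3) (nat_lit 5) (nat_lit 3) (nat_lit 4) (nat_lit 405) (nat_lit 351) (nat_lit 264)) (XT.nd (nat_lit 78) (nat_lit 0) (nat_lit 0) (XT.lf (nat_lit 0) (nat_lit 132052632377)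 (nat_lit 76) (nat_lit 5824334112113) (nat_lit 0) (nat_lit 113547009775) (nat_lit 1) (nat_lit 5) (nat_lit 2) (nat_lit 4) (nat_lit 1) (nat_lit 4) (nat_lit 406) (nat_lit 351) (nat_lit 263)) (XT.lf (nat_lit 0) (nat_lit 306106061141) (nat_lit 76) (nat_lit 6363161599249) (nat_lit 0) (nat_lit 287600427542) (nat_lit 1) (nat_lit 5) (nat_lit 2) (nat_lit 4) (nat_lit 1) (nat_lit 4) (nat_lit 407) (nat_lit 351) (nat_lit 262)))) (XT.nd (nat_lit 78) (nat_lit 0) (nat_lit 0) (XT.lf (nat_lit 0) (nat_lit 506267329767) (nat_lit 76) (nat_lit 6982813581449) (nat_lit 0) (nat_lit 487761686605) (nat_lit 1) (nat_lit 5) (nat_lit 2) (nat_lit 4) (nat_lit 1) (nat_lit 4) (nat_lit 408) (nat_lit 351) (nat_lit 261)) (XT.nd (nat_lit 78) (nat_lit 0) (nat_lit 0) (XT.lf (nat_lit 0) (nat_lit 736452636988) (nat_lit 76) (nat_lit 7695413684452) (nat_lit 0) (nat_lit 717946985511) (nat_lit 1) (nat_lit 5) (nat_lit 2) (nat_lit 4)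 (nat_lit 1) (nat_lit 4) (nat_lit 409) (nat_lit 351) (nat_lit 260)) (XT.lf (nat_lit 0) (nat_lit 1001165608380) (nat_lit 76) (nat_lit 8514904084186) (nat_lit 0) (nat_lit 982659949672) (nat_lit 1) (nat_lit 5) (nat_lit 2) (nat_lit 4) (nat_lit 1) (nat_lit 4) (nat_lit 410) (nat_lit 351) (nat_lit 259)))))) (XT.nd (nat_lit 468) (nat_lit 0) (nat_lit 0) (XT.nd (nat_lit 234) (nat_lit 0) (nat_lit 0) (XT.nd (nat_lit 78) (nat_lit 0) (nat_lit 0) (XT.lf (nat_lit 0) (nat_lit 1305585410775) (nat_lit 76) (nat_lit 9457318288471) (nat_lit 0) (nat_lit 1287079745780) (nat_lit 1) (nat_lit 5) (nat_lit 2) (nat_lit 4) (nat_lit 1) (nat_lit 4) (nat_lit 411) (nat_lit 351) (nat_lit 258)) (XT.nd (nat_lit 78) (nat_lit 0) (nat_lit 0) (XT.lf (nat_lit 0) (nat_lit 1655668083786) (nat_lit 76) (nat_lit 10541094836087) (nat_lit 0) (nat_lit 1637162413322) (nat_lit 1) (nat_lit 5) (nat_lit 2) (nat_lit 4) (nat_lit 1) (nat_lit 4)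 (nat_lit 412) (nat_lit 351) (nat_lit 257)) (XT.lf (nat_lit 0) (nat_lit 2058263071014) (nat_lit 76) (nat_lit 11787438050793) (nat_lit 0) (nat_lit 2039757395796) (nat_lit 1) (nat_lit 5) (nat_lit 2) (nat_lit 4) (nat_lit 1) (nat_lit 4) (nat_lit 413) (nat_lit 351) (nat_lit 256)))) (XT.nd (nat_lit 78) (nat_lit 0) (nat_lit 0) (XT.lf (nat_lit 0) (nat_lit 2521247230905) (nat_lit 76) (nat_lit 13220732908527) (nat_lit 0) (nat_lit 2502741551553) (nat_lit 1) (nat_lit 5) (nat_lit 2) (nat_lit 4) (nat_lit 1) (nat_lit 4) (nat_lit 414) (nat_lit 351) (nat_lit 255)) (XT.nd (nat_lit 78) (nat_lit 0) (nat_lit 0) (XT.lf (nat_lit 0) (nat_lit 3053678949196) (nat_lit 76) (nat_lit 14869022134767) (nat_lit 0) (nat_lit 3035173266249) (nat_lit 1) (nat_lit 5) (nat_lit 2) (nat_lit 4) (nat_lit 1) (nat_lit 4) (nat_lit 415) (nat_lit 351) (nat_lit 254)) (XT.lf (nat_lit 0) (nat_lit 3665975368202) (nat_lit 76) (nat_lit 16764554866549)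 (nat_lit 0) (nat_lit 3647469682128) (nat_lit 1) (nat_lit 5) (nat_lit 2) (nat_lit 4) (nat_lit 1) (nat_lit 4) (nat_lit 416) (nat_lit 351) (nat_lit 253))))) (XT.nd (nat_lit 234) (nat_lit 0) (nat_lit 0) (XT.nd (nat_lit 78) (nat_lit 0) (nat_lit 0) (XT.lf (nat_lit 0) (nat_lit 4370116200468) (nat_lit 76) (nat_lit 18944417613841) (nat_lit 0) (nat_lit 4351610511676) (nat_lit 1) (nat_lit 5) (nat_lit 2) (nat_lit 4) (nat_lit 1) (nat_lit 4) (nat_lit 417) (nat_lit 351) (nat_lit 252)) (XT.nd (nat_lit 78) (nat_lit 0) (nat_lit 0) (XT.lf (nat_lit 0) (nat_lit 5179878114452) (nat_lit 76) (nat_lit 21451259865179) (nat_lit 0) (nat_lit 5161372423296) (nat_lit 1) (nat_lit 5) (nat_lit 2) (nat_lit 4) (nat_lit 1) (nat_lit 4) (nat_lit 418) (nat_lit 351) (nat_lit 251)) (XT.lf (nat_lit 0) (nat_lit 6111104278036) (nat_lit 76) (nat_lit 24334128534175) (nat_lit 0) (nat_lit 6092598584825) (nat_lit 1) (nat_lit 5) (nat_lit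 2) (nat_lit 4) (nat_lit 1) (nat_lit 4) (nat_lit 419) (nat_lit 351) (nat_lit 250)))) (XT.nd (nat_lit 156) (nat_lit 0) (nat_lit 0) (XT.nd (nat_lit 78) (nat_lit 0) (nat_lit 0) (XT.lf (nat_lit 0) (nat_lit 7182014333551) (nat_lit 76) (nat_lit 27649427573048) (nat_lit 0) (nat_lit 7163508638553) (nat_lit 1) (nat_lit 5) (nat_lit 2) (nat_lit 4) (nat_lit 1) (nat_lit 4) (nat_lit 420) (nat_lit 351) (nat_lit 249)) (XT.lf (nat_lit 0) (nat_lit 8413560869040) (nat_lit 76) (nat_lit 31462021528211) (nat_lit 0) (nat_lit 8395055172487) (nat_lit 1) (nat_lit 5) (nat_lit 2) (nat_lit 4) (nat_lit 1) (nat_lit 4) (nat_lit 421) (nat_lit 351) (nat_lit 248))) (XT.nd (nat_lit 78) (nat_lit 0) (nat_lit 0) (XT.lf (nat_lit 0) (nat_lit 9829839360197) (nat_lit 76) (nat_lit 35846504629223) (nat_lit 0) (nat_lit 9811333662293) (nat_lit 1) (nat_lit 5) (nat_lit 2) (nat_lit 4) (nat_lit 1) (nat_lit 4) (nat_lit 422) (nat_lit 351)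 (nat_lit 247)) (XT.lf (nat_lit 0) (nat_lit 11458559603588) (nat_lit 76) (nat_lit 40888660241102) (nat_lit 0) (nat_lit 11440053904508) (nat_lit 1) (nat_lit 5) (nat_lit 2) (nat_lit 4) (nat_lit 1) (nat_lit 4) (nat_lit 423) (nat_lit 351) (nat_lit 246))))))))
noncomputable def xc67 : XT := (XT.nd (nat_lit 48828) (nat_lit 0) (nat_lit 152) (XT.nd (nat_lit 47892) (nat_lit 0) (nat_lit 1520) (XT.nd (nat_lit 468) (nat_lit 0) (nat_lit 0) (XT.nd (nat_lit 234) (nat_lit 0) (nat_lit 0) (XT.nd (nat_lit 78) (nat_lit 0) (nat_lit 0) (XT.lf (nat_lit 0) (nat_lit 13331587864844) (nat_lit 76) (nat_lit 46687139234516) (nat_lit 0) (nat_lit 13313082164743) (nat_lit 1) (nat_lit 5) (nat_lit 2) (nat_lit 4) (nat_lit 1) (nat_lit 4) (nat_lit 424) (nat_lit 351) (nat_lit 245)) (XT.nd (nat_lit 78) (nat_lit 0) (nat_lit 0) (XT.lf (nat_lit 0) (nat_lit 15485570349078) (nat_lit 76) (nat_lit 53355390111510) (nat_lit 0) (nat_lit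 15467064648089) (nat_lit 1) (nat_lit 5) (nat_lit 2) (nat_lit 4) (nat_lit 1) (nat_lit 4) (nat_lit 425) (nat_lit 351) (nat_lit 244)) (XT.lf (nat_lit 0) (nat_lit 17962650191851) (nat_lit 76) (nat_lit 61023878650112) (nat_lit 0) (nat_lit 17944144490088) (nat_lit 1) (nat_lit 5) (nat_lit 2) (nat_lit 4) (nat_lit 1) (nat_lit 4) (nat_lit 426) (nat_lit 351) (nat_lit 243)))) (XT.nd (nat_lit 78) (nat_lit 0) (nat_lit 0) (XT.lf (nat_lit 0) (nat_lit 20811291998781) (nat_lit 76) (nat_lit 69842640495642) (nat_lit 0) (nat_lit 20792786296347) (nat_lit 1) (nat_lit 5) (nat_lit 2) (nat_lit 4) (nat_lit 1) (nat_lit 4) (nat_lit 427) (nat_lit 351) (nat_lit 242)) (XT.nd (nat_lit 78) (nat_lit 0) (nat_lit 0) (XT.lf (nat_lit 0) (nat_lit 24087230066092) (nat_lit 76) (nat_lit 79984216640731) (nat_lit 0) (nat_lit 24068724363073) (nat_lit 1) (nat_lit 5) (nat_lit 2) (nat_lit 4) (nat_lit 1) (nat_lit 4) (nat_lit 428) (nat_lit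 351) (nat_lit 241)) (XT.lf (nat_lit 0) (nat_lit 27854558834230) (nat_lit 76) (nat_lit 91647029227348) (nat_lit 0) (nat_lit 27836053130703) (nat_lit 1) (nat_lit 5) (nat_lit 2) (nat_lit 4) (nat_lit 1) (nat_lit 4) (nat_lit 429) (nat_lit 351) (nat_lit 240))))) (XT.nd (nat_lit 47190) (nat_lit 0) (nat_lit 2508) (XT.nd (nat_lit 47034) (nat_lit 0) (nat_lit 2432) (XT.lf (nat_lit 0) (nat_lit 32186986909530) (nat_lit 76) (nat_lit 105059263719143) (nat_lit 0) (nat_lit 32168481205561) (nat_lit 1) (nat_lit 5) (nat_lit 2) (nat_lit 4) (nat_lit 1) (nat_lit 4) (nat_lit 430) (nat_lit 351) (nat_lit 239)) (XT.nd (nat_lit 78) (nat_lit 0) (nat_lit 0) (XT.lf (nat_lit 0) (nat_lit 2712626435) (nat_lit 380) (nat_lit 4089289336) (nat_lit 380) (nat_lit 4089289336) (nat_lit 33) (nat_lit 3) (nat_lit 38) (nat_lit 3) (nat_lit 38) (nat_lit 5) (nat_lit 352) (nat_lit 352) (nat_lit 316)) (XT.lf (nat_lit 76) (nat_lit 2827392813)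 (nat_lit 0) (nat_lit 3250437985) (nat_lit 380) (nat_lit 17301316388) (nat_lit 34) (nat_lit 5) (nat_lit 33) (nat_lit 3) (nat_lit 38) (nat_lit 5) (nat_lit 353) (nat_lit 352) (nat_lit 315)))) (XT.nd (nat_lit 78) (nat_lit 0) (nat_lit 0) (XT.lf (nat_lit 0) (nat_lit 7611471176) (nat_lit 304) (nat_lit 9145007164) (nat_lit 380) (nat_lit 8341456236) (nat_lit 34) (nat_lit 5) (nat_lit 38) (nat_lit 5) (nat_lit 39) (nat_lit 5) (nat_lit 354) (nat_lit 352) (nat_lit 314)) (XT.nd (nat_lit 78) (nat_lit 0) (nat_lit 76) (XT.lf (nat_lit 76) (nat_lit 4173546726) (nat_lit 0) (nat_lit 5509103644) (nat_lit 380) (nat_lit 17345779911) (nat_lit 35) (nat_lit 5) (nat_lit 34) (nat_lit 5) (nat_lit 39) (nat_lit 5) (nat_lit 355) (nat_lit 352) (nat_lit 313)) (XT.lf (nat_lit 0) (nat_lit 12854775440) (nat_lit 304) (nat_lit 9007472482) (nat_lit 76) (nat_lit 7267724350) (nat_lit 35) (nat_lit 5) (nat_lit 39) (nat_lit 5) (nat_lit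 36) (nat_lit 5) (nat_lit 356) (nat_lit 352) (nat_lit 312)))))) (XT.nd (nat_lit 468) (nat_lit 304) (nat_lit 0) (XT.nd (nat_lit 234) (nat_lit 304) (nat_lit 0) (XT.nd (nat_lit 78) (nat_lit 152) (nat_lit 0) (XT.lf (nat_lit 0) (nat_lit 7287779152) (nat_lit 304) (nat_lit 9763399298) (nat_lit 380) (nat_lit 14413308911) (nat_lit 31) (nat_lit 5) (nat_lit 35) (nat_lit 5) (nat_lit 36) (nat_lit 5) (nat_lit 357) (nat_lit 352) (nat_lit 311)) (XT.nd (nat_lit 78) (nat_lit 152) (nat_lit 0) (XT.lf (nat_lit 0) (nat_lit 22527898169) (nat_lit 380) (nat_lit 7250329525) (nat_lit 76) (nat_lit 4273332866) (nat_lit 31) (nat_lit 5) (nat_lit 36) (nat_lit 5) (nat_lit 32) (nat_lit 5) (nat_lit 358) (nat_lit 352) (nat_lit 310)) (XT.lf (nat_lit 0) (nat_lit 12882027727) (nat_lit 152) (nat_lit 16930035538) (nat_lit 228) (nat_lit 7066748935) (nat_lit 29) (nat_lit 5) (nat_lit 31) (nat_lit 5) (nat_lit 32) (nat_lit 5) (nat_lit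 359) (nat_lit 352) (nat_lit 309)))) (XT.nd (nat_lit 78) (nat_lit 304) (nat_lit 0) (XT.lf (nat_lit 0) (nat_lit 36834852440) (nat_lit 152) (nat_lit 1721620402) (nat_lit 228) (nat_lit 1518542806) (nat_lit 29) (nat_lit 5) (nat_lit 31) (nat_lit 5) (nat_lit 32) (nat_lit 5) (nat_lit 360) (nat_lit 352) (nat_lit 308)) (XT.nd (nat_lit 78) (nat_lit 152) (nat_lit 0) (XT.lf (nat_lit 0) (nat_lit 6053224817) (nat_lit 152) (nat_lit 21879020110) (nat_lit 76) (nat_lit 15544586391) (nat_lit 27) (nat_lit 5) (nat_lit 29) (nat_lit 5) (nat_lit 28) (nat_lit 5) (nat_lit 361) (nat_lit 352) (nat_lit 307)) (XT.lf (nat_lit 0) (nat_lit 3277460493) (nat_lit 152) (nat_lit 11713280861) (nat_lit 228) (nat_lit 32329517823) (nat_lit 25) (nat_lit 5) (nat_lit 27) (nat_lit 5) (nat_lit 28) (nat_lit 5) (nat_lit 362) (nat_lit 352) (nat_lit 306))))) (XT.nd (nat_lit 234) (nat_lit 228) (nat_lit 0) (XT.nd (nat_lit 78) (nat_lit 76)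 (nat_lit 0) (XT.lf (nat_lit 0) (nat_lit 26745174170) (nat_lit 228) (nat_lit 17258709636) (nat_lit 76) (nat_lit 7514878102) (nat_lit 25) (nat_lit 5) (nat_lit 28) (nat_lit 5) (nat_lit 26) (nat_lit 4) (nat_lit 363) (nat_lit 352) (nat_lit 305)) (XT.nd (nat_lit 78) (nat_lit 0) (nat_lit 0) (XT.lf (nat_lit 0) (nat_lit 14240285173) (nat_lit 76) (nat_lit 27161958675) (nat_lit 152) (nat_lit 14773878900) (nat_lit 24) (nat_lit 5) (nat_lit 25) (nat_lit 5) (nat_lit 26) (nat_lit 4) (nat_lit 364) (nat_lit 352) (nat_lit 304)) (XT.lf (nat_lit 0) (nat_lit 52391649162) (nat_lit 76) (nat_lit 6760958119) (nat_lit 152) (nat_lit 2245273474) (nat_lit 24) (nat_lit 5) (nat_lit 25) (nat_lit 5) (nat_lit 26) (nat_lit 4) (nat_lit 365) (nat_lit 352) (nat_lit 303)))) (XT.nd (nat_lit 78) (nat_lit 76) (nat_lit 0) (XT.lf (nat_lit 0) (nat_lit 13138275954) (nat_lit 152) (nat_lit 36793419256) (nat_lit 76) (nat_lit 17086897211)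 (nat_lit 22) (nat_lit 5) (nat_lit 24) (nat_lit 5) (nat_lit 23) (nat_lit 4) (nat_lit 366) (nat_lit 352) (nat_lit 302)) (XT.nd (nat_lit 78) (nat_lit 0) (nat_lit 0) (XT.lf (nat_lit 0) (nat_lit 2721177275) (nat_lit 76) (nat_lit 28799625380) (nat_lit 152) (nat_lit 41807374794) (nat_lit 21) (nat_lit 5) (nat_lit 22) (nat_lit 5) (nat_lit 23) (nat_lit 4) (nat_lit 367) (nat_lit 352) (nat_lit 301)) (XT.lf (nat_lit 0) (nat_lit 52287096180) (nat_lit 76) (nat_lit 2290791457) (nat_lit 152) (nat_lit 25718737439) (nat_lit 21) (nat_lit 5) (nat_lit 22) (nat_lit 5) (nat_lit 23) (nat_lit 4) (nat_lit 368) (nat_lit 352) (nat_lit 300))))))) (XT.nd (nat_lit 936) (nat_lit 608) (nat_lit 0) (XT.nd (nat_lit 468) (nat_lit 304) (nat_lit 0) (XT.nd (nat_lit 234) (nat_lit 228) (nat_lit 0) (XT.nd (nat_lit 78) (nat_lit 152) (nat_lit 0) (XT.lf (nat_lit 0) (nat_lit 21734946838) (nat_lit 76) (nat_lit 61420565221) (nat_lit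 76) (nat_lit 4845532794) (nat_lit 20) (nat_lit 4) (nat_lit 21) (nat_lit 5) (nat_lit 21) (nat_lit 4) (nat_lit 369) (nat_lit 352) (nat_lit 299)) (XT.nd (nat_lit 78) (nat_lit 76) (nat_lit 0) (XT.lf (nat_lit 0) (nat_lit 19090535077) (nat_lit 152) (nat_lit 15534862197) (nat_lit 76) (nat_lit 61871105881) (nat_lit 19) (nat_lit 5) (nat_lit 21) (nat_lit 5) (nat_lit 20) (nat_lit 4) (nat_lit 370) (nat_lit 352) (nat_lit 298)) (XT.lf (nat_lit 0) (nat_lit 46726340538) (nat_lit 76) (nat_lit 1324705494) (nat_lit 152) (nat_lit 57891105742) (nat_lit 18) (nat_lit 5) (nat_lit 19) (nat_lit 5) (nat_lit 20) (nat_lit 4) (nat_lit 371) (nat_lit 352) (nat_lit 297)))) (XT.nd (nat_lit 78) (nat_lit 152) (nat_lit 0) (XT.lf (nat_lit 0) (nat_lit 1988256558) (nat_lit 76) (nat_lit 81826701488) (nat_lit 76) (nat_lit 32620791838) (nat_lit 17) (nat_lit 4) (nat_lit 18) (nat_lit 5) (nat_lit 18) (nat_lit 4) (nat_lit 372) (nat_lit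 352) (nat_lit 296)) (XT.nd (nat_lit 78) (nat_lit 76) (nat_lit 0) (XT.lf (nat_lit 0) (nat_lit 58271571) (nat_lit 152) (nat_lit 49083187334) (nat_lit 76) (nat_lit 78888849916) (nat_lit 16) (nat_lit 5) (nat_lit 18) (nat_lit 5) (nat_lit 17) (nat_lit 4) (nat_lit 373) (nat_lit 352) (nat_lit 295)) (XT.lf (nat_lit 0) (nat_lit 26921268480) (nat_lit 76) (nat_lit 8488948793) (nat_lit 152) (nat_lit 105554213659) (nat_lit 15) (nat_lit 5) (nat_lit 16) (nat_lit 5) (nat_lit 17) (nat_lit 4) (nat_lit 374) (nat_lit 352) (nat_lit 294))))) (XT.nd (nat_lit 234) (nat_lit 152) (nat_lit 0) (XT.nd (nat_lit 78) (nat_lit 152) (nat_lit 0) (XT.lf (nat_lit 0) (nat_lit 80333242019) (nat_lit 152) (nat_lit 37325540881) (nat_lit 0) (nat_lit 37539645874) (nat_lit 15) (nat_lit 5) (nat_lit 17) (nat_lit 4) (nat_lit 15) (nat_lit 4) (nat_lit 375) (nat_lit 352) (nat_lit 293)) (XT.nd (nat_lit 78) (nat_lit 76) (nat_lit 0) (XT.lf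 (nat_lit 0) (nat_lit 55422735024) (nat_lit 76) (nat_lit 79267744299) (nat_lit 76) (nat_lit 36472683572) (nat_lit 14) (nat_lit 4) (nat_lit 15) (nat_lit 5) (nat_lit 15) (nat_lit 4) (nat_lit 376) (nat_lit 352) (nat_lit 292)) (XT.lf (nat_lit 0) (nat_lit 9035707389) (nat_lit 152) (nat_lit 23369563388) (nat_lit 76) (nat_lit 156763549499) (nat_lit 13) (nat_lit 5) (nat_lit 15) (nat_lit 5) (nat_lit 14) (nat_lit 4) (nat_lit 377) (nat_lit 352) (nat_lit 291)))) (XT.nd (nat_lit 78) (nat_lit 76) (nat_lit 0) (XT.lf (nat_lit 0) (nat_lit 62468167166) (nat_lit 152) (nat_lit 121168852012) (nat_lit 0) (nat_lit 25253000461) (nat_lit 12) (nat_lit 5) (nat_lit 14) (nat_lit 4) (nat_lit 12) (nat_lit 4) (nat_lit 378) (nat_lit 352) (nat_lit 290)) (XT.nd (nat_lit 78) (nat_lit 76) (nat_lit 0) (XT.lf (nat_lit 0) (nat_lit 126735441426) (nat_lit 152) (nat_lit 14891528555) (nat_lit 0) (nat_lit 89519437343) (nat_lit 12)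 (nat_lit 5) (nat_lit 14) (nat_lit 4) (nat_lit 12) (nat_lit 4) (nat_lit 379) (nat_lit 352) (nat_lit 289)) (XT.lf (nat_lit 0) (nat_lit 117810462707) (nat_lit 76) (nat_lit 87708081174) (nat_lit 76) (nat_lit 50491348935) (nat_lit 11) (nat_lit 4) (nat_lit 12) (nat_lit 5) (nat_lit 12) (nat_lit 4) (nat_lit 380) (nat_lit 352) (nat_lit 288)))))) (XT.nd (nat_lit 468) (nat_lit 228) (nat_lit 0) (XT.nd (nat_lit 234) (nat_lit 228) (nat_lit 0) (XT.nd (nat_lit 78) (nat_lit 76) (nat_lit 0) (XT.lf (nat_lit 0) (nat_lit 11303912912) (nat_lit 152) (nat_lit 12913952656) (nat_lit 76) (nat_lit 260191563213) (nat_lit 10) (nat_lit 5) (nat_lit 12) (nat_lit 5) (nat_lit 11) (nat_lit 4) (nat_lit 381) (nat_lit 352) (nat_lit 287)) (XT.nd (nat_lit 78) (nat_lit 0) (nat_lit 0) (XT.lf (nat_lit 0) (nat_lit 85463048717) (nat_lit 152) (nat_lit 176905960016) (nat_lit 0) (nat_lit 53099643492) (nat_lit 9) (nat_lit 5) (nat_lit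 11) (nat_lit 4) (nat_lit 9) (nat_lit 4) (nat_lit 382) (nat_lit 352) (nat_lit 286)) (XT.lf (nat_lit 0) (nat_lit 172604289999) (nat_lit 152) (nat_lit 38063265598) (nat_lit 0) (nat_lit 140240468448) (nat_lit 9) (nat_lit 5) (nat_lit 11) (nat_lit 4) (nat_lit 9) (nat_lit 4) (nat_lit 383) (nat_lit 352) (nat_lit 285)))) (XT.nd (nat_lit 78) (nat_lit 152) (nat_lit 0) (XT.lf (nat_lit 0) (nat_lit 133485674529) (nat_lit 76) (nat_lit 144856496384) (nat_lit 76) (nat_lit 112492312812) (nat_lit 8) (nat_lit 4) (nat_lit 9) (nat_lit 5) (nat_lit 9) (nat_lit 4) (nat_lit 384) (nat_lit 352) (nat_lit 284)) (XT.nd (nat_lit 78) (nat_lit 152) (nat_lit 0) (XT.lf (nat_lit 0) (nat_lit 335040952155) (nat_lit 76) (nat_lit 66887639973) (nat_lit 76) (nat_lit 34523141598) (nat_lit 8) (nat_lit 4) (nat_lit 9) (nat_lit 5) (nat_lit 9) (nat_lit 4) (nat_lit 385) (nat_lit 352) (nat_lit 283)) (XT.lf (nat_lit 0) (nat_lit 54883951745)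 (nat_lit 152) (nat_lit 406246712357) (nat_lit 0) (nat_lit 26740671645) (nat_lit 6) (nat_lit 5) (nat_lit 8) (nat_lit 4) (nat_lit 6) (nat_lit 4) (nat_lit 386) (nat_lit 352) (nat_lit 282))))) (XT.nd (nat_lit 234) (nat_lit 152) (nat_lit 0) (XT.nd (nat_lit 78) (nat_lit 76) (nat_lit 0) (XT.lf (nat_lit 0) (nat_lit 162904525837) (nat_lit 152) (nat_lit 247781180349) (nat_lit 0) (nat_lit 134761038749) (nat_lit 6) (nat_lit 5) (nat_lit 8) (nat_lit 4) (nat_lit 6) (nat_lit 4) (nat_lit 387) (nat_lit 352) (nat_lit 281)) (XT.nd (nat_lit 78) (nat_lit 76) (nat_lit 0) (XT.lf (nat_lit 0) (nat_lit 287126756117) (nat_lit 152) (nat_lit 65548834885) (nat_lit 0) (nat_lit 258983089040) (nat_lit 6) (nat_lit 5) (nat_lit 8) (nat_lit 4) (nat_lit 6) (nat_lit 4) (nat_lit 388) (nat_lit 352) (nat_lit 280)) (XT.lf (nat_lit 0) (nat_lit 158090004938) (nat_lit 76) (nat_lit 278437242563) (nat_lit 76) (nat_lit 250293418975)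 (nat_lit 5) (nat_lit 4) (nat_lit 6) (nat_lit 5) (nat_lit 6) (nat_lit 4) (nat_lit 389) (nat_lit 352) (nat_lit 279)))) (XT.nd (nat_lit 156) (nat_lit 152) (nat_lit 0) (XT.nd (nat_lit 78) (nat_lit 0) (nat_lit 0) (XT.lf (nat_lit 0) (nat_lit 422638962244) (nat_lit 76) (nat_lit 189124081819) (nat_lit 76) (nat_lit 160980122133) (nat_lit 5) (nat_lit 4) (nat_lit 6) (nat_lit 5) (nat_lit 6) (nat_lit 4) (nat_lit 390) (nat_lit 352) (nat_lit 278)) (XT.lf (nat_lit 0) (nat_lit 726868086027) (nat_lit 76) (nat_lit 86415093733) (nat_lit 76) (nat_lit 58271015701) (nat_lit 5) (nat_lit 4) (nat_lit 6) (nat_lit 5) (nat_lit 6) (nat_lit 4) (nat_lit 391) (nat_lit 352) (nat_lit 277))) (XT.nd (nat_lit 78) (nat_lit 0) (nat_lit 0) (XT.lf (nat_lit 0) (nat_lit 60187523676) (nat_lit 152) (nat_lit 888062702754) (nat_lit 0) (nat_lit 35714322858) (nat_lit 3) (nat_lit 5) (nat_lit 5) (nat_lit 4) (nat_lit 3) (nat_lit 4) (nat_lit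 392) (nat_lit 352) (nat_lit 276)) (XT.lf (nat_lit 0) (nat_lit 202486357208) (nat_lit 152) (nat_lit 730515195591) (nat_lit 0) (nat_lit 178013078575) (nat_lit 3) (nat_lit 5) (nat_lit 5) (nat_lit 4) (nat_lit 3) (nat_lit 4) (nat_lit 393) (nat_lit 352) (nat_lit 275))))))))
noncomputable def xc68 : XT := (XT.nd (nat_lit 1872) (nat_lit 0) (nat_lit 0) (XT.nd (nat_lit 936) (nat_lit 76) (nat_lit 0) (XT.nd (nat_lit 468) (nat_lit 0) (nat_lit 0) (XT.nd (nat_lit 234) (nat_lit 76) (nat_lit 0) (XT.nd (nat_lit 78) (nat_lit 0) (nat_lit 0) (XT.lf (nat_lit 0) (nat_lit 366129201787) (nat_lit 152) (nat_lit 549337290610) (nat_lit 0) (nat_lit 341655855490) (nat_lit 3) (nat_lit 5) (nat_lit 5) (nat_lit 4) (nat_lit 3) (nat_lit 4) (nat_lit 394) (nat_lit 352) (nat_lit 274)) (XT.nd (nat_lit 78) (nat_lit 0) (nat_lit 0) (XT.lf (nat_lit 0) (nat_lit 554317765245) (nat_lit 152) (nat_lit 340984202715) (nat_lit 0) (nat_lit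 529844360109) (nat_lit 3) (nat_lit 5) (nat_lit 5) (nat_lit 4) (nat_lit 3) (nat_lit 4) (nat_lit 395) (nat_lit 352) (nat_lit 273)) (XT.lf (nat_lit 0) (nat_lit 770733997734) (nat_lit 152) (nat_lit 101379458446) (nat_lit 0) (nat_lit 746260541434) (nat_lit 3) (nat_lit 5) (nat_lit 5) (nat_lit 4) (nat_lit 3) (nat_lit 4) (nat_lit 396) (nat_lit 352) (nat_lit 272)))) (XT.nd (nat_lit 78) (nat_lit 0) (nat_lit 0) (XT.lf (nat_lit 0) (nat_lit 191185517985) (nat_lit 76) (nat_lit 836343196501) (nat_lit 76) (nat_lit 811869695710) (nat_lit 2) (nat_lit 4) (nat_lit 3) (nat_lit 5) (nat_lit 3) (nat_lit 4) (nat_lit 397) (nat_lit 352) (nat_lit 271)) (XT.nd (nat_lit 78) (nat_lit 0) (nat_lit 0) (XT.lf (nat_lit 0) (nat_lit 539027824859) (nat_lit 76) (nat_lit 789113684362) (nat_lit 76) (nat_lit 764640144884) (nat_lit 2) (nat_lit 4) (nat_lit 3) (nat_lit 5) (nat_lit 3) (nat_lit 4) (nat_lit 398) (nat_lit 352) (nat_lit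 270)) (XT.lf (nat_lit 0) (nat_lit 939045534544) (nat_lit 76) (nat_lit 734800244875) (nat_lit 76) (nat_lit 710326671755) (nat_lit 2) (nat_lit 4) (nat_lit 3) (nat_lit 5) (nat_lit 3) (nat_lit 4) (nat_lit 399) (nat_lit 352) (nat_lit 269))))) (XT.nd (nat_lit 234) (nat_lit 0) (nat_lit 0) (XT.nd (nat_lit 78) (nat_lit 0) (nat_lit 0) (XT.lf (nat_lit 0) (nat_lit 1399065080488) (nat_lit 76) (nat_lit 672340223788) (nat_lit 76) (nat_lit 647866621415) (nat_lit 2) (nat_lit 4) (nat_lit 3) (nat_lit 5) (nat_lit 3) (nat_lit 4) (nat_lit 400) (nat_lit 352) (nat_lit 268)) (XT.nd (nat_lit 78) (nat_lit 0) (nat_lit 0) (XT.lf (nat_lit 0) (nat_lit 1928086845113) (nat_lit 76) (nat_lit 600511577211) (nat_lit 76) (nat_lit 576037949401) (nat_lit 2) (nat_lit 4) (nat_lit 3) (nat_lit 5) (nat_lit 3) (nat_lit 4) (nat_lit 401) (nat_lit 352) (nat_lit 267)) (XT.lf (nat_lit 0) (nat_lit 2536461254249) (nat_lit 76) (nat_lit 517908962058)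 (nat_lit 76) (nat_lit 493435312129) (nat_lit 2) (nat_lit 4) (nat_lit 3) (nat_lit 5) (nat_lit 3) (nat_lit 4) (nat_lit 402) (nat_lit 352) (nat_lit 266)))) (XT.nd (nat_lit 78) (nat_lit 0) (nat_lit 0) (XT.lf (nat_lit 0) (nat_lit 3236091285465) (nat_lit 76) (nat_lit 422916240208) (nat_lit 76) (nat_lit 398442571044) (nat_lit 2) (nat_lit 4) (nat_lit 3) (nat_lit 5) (nat_lit 3) (nat_lit 4) (nat_lit 403) (nat_lit 352) (nat_lit 265)) (XT.nd (nat_lit 78) (nat_lit 0) (nat_lit 0) (XT.lf (nat_lit 0) (nat_lit 4040665352415) (nat_lit 76) (nat_lit 313674858406) (nat_lit 76) (nat_lit 289201172516) (nat_lit 2) (nat_lit 4) (nat_lit 3) (nat_lit 5) (nat_lit 3) (nat_lit 4) (nat_lit 404) (nat_lit 352) (nat_lit 264)) (XT.lf (nat_lit 0) (nat_lit 4965925121628) (nat_lit 76) (nat_lit 188047485269) (nat_lit 76) (nat_lit 163573784835) (nat_lit 2) (nat_lit 4) (nat_lit 3) (nat_lit 5) (nat_lit 3) (nat_lit 4) (nat_lit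 405) (nat_lit 352) (nat_lit 263)))))) (XT.nd (nat_lit 468) (nat_lit 0) (nat_lit 0) (XT.nd (nat_lit 234) (nat_lit 0) (nat_lit 0) (XT.nd (nat_lit 78) (nat_lit 76) (nat_lit 0) (XT.lf (nat_lit 0) (nat_lit 6029973501630) (nat_lit 76) (nat_lit 43576193932) (nat_lit 76) (nat_lit 19102480851) (nat_lit 2) (nat_lit 4) (nat_lit 3) (nat_lit 5) (nat_lit 3) (nat_lit 4) (nat_lit 406) (nat_lit 352) (nat_lit 262)) (XT.nd (nat_lit 78) (nat_lit 0) (nat_lit 0) (XT.lf (nat_lit 0) (nat_lit 151862405649) (nat_lit 76) (nat_lit 6697980223513) (nat_lit 0) (nat_lit 130580906450) (nat_lit 1) (nat_lit 5) (nat_lit 2) (nat_lit 4) (nat_lit 1) (nat_lit 4) (nat_lit 407) (nat_lit 352) (nat_lit 261)) (XT.lf (nat_lit 0) (nat_lit 352023603717) (nat_lit 76) (nat_lit 7317632356165) (nat_lit 0) (nat_lit 330742096203) (nat_lit 1) (nat_lit 5) (nat_lit 2) (nat_lit 4) (nat_lit 1) (nat_lit 4) (nat_lit 408) (nat_lit 352) (nat_lit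 260)))) (XT.nd (nat_lit 78) (nat_lit 0) (nat_lit 0) (XT.lf (nat_lit 0) (nat_lit 582208849584) (nat_lit 76) (nat_lit 8030232589996) (nat_lit 0) (nat_lit 560927334839) (nat_lit 1) (nat_lit 5) (nat_lit 2) (nat_lit 4) (nat_lit 1) (nat_lit 4) (nat_lit 409) (nat_lit 352) (nat_lit 259)) (XT.nd (nat_lit 78) (nat_lit 0) (nat_lit 0) (XT.lf (nat_lit 0) (nat_lit 846921767625) (nat_lit 76) (nat_lit 8849723103493) (nat_lit 0) (nat_lit 825640246592) (nat_lit 1) (nat_lit 5) (nat_lit 2) (nat_lit 4) (nat_lit 1) (nat_lit 4) (nat_lit 410) (nat_lit 352) (nat_lit 258)) (XT.lf (nat_lit 0) (nat_lit 1151341523627) (nat_lit 76) (nat_lit 9792137406703) (nat_lit 0) (nat_lit 1130059997127) (nat_lit 1) (nat_lit 5) (nat_lit 2) (nat_lit 4) (nat_lit 1) (nat_lit 4) (nat_lit 411) (nat_lit 352) (nat_lit 257))))) (XT.nd (nat_lit 234) (nat_lit 0) (nat_lit 0) (XT.nd (nat_lit 78) (nat_lit 0) (nat_lit 0) (XT.lf (nat_lit 0) (nat_lit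 1501424156296) (nat_lit 76) (nat_lit 10875914040341) (nat_lit 0) (nat_lit 1480142625041) (nat_lit 1) (nat_lit 5) (nat_lit 2) (nat_lit 4) (nat_lit 1) (nat_lit 4) (nat_lit 412) (nat_lit 352) (nat_lit 256)) (XT.nd (nat_lit 78) (nat_lit 0) (nat_lit 0) (XT.lf (nat_lit 0) (nat_lit 1904019108445) (nat_lit 76) (nat_lit 12122257329848) (nat_lit 0) (nat_lit 1882737573055) (nat_lit 1) (nat_lit 5) (nat_lit 2) (nat_lit 4) (nat_lit 1) (nat_lit 4) (nat_lit 413) (nat_lit 352) (nat_lit 255)) (XT.lf (nat_lit 0) (nat_lit 2367003237832) (nat_lit 76) (nat_lit 13555552252627) (nat_lit 0) (nat_lit 2345721698847) (nat_lit 1) (nat_lit 5) (nat_lit 2) (nat_lit 4) (nat_lit 1) (nat_lit 4) (nat_lit 414) (nat_lit 352) (nat_lit 254)))) (XT.nd (nat_lit 78) (nat_lit 0) (nat_lit 0) (XT.lf (nat_lit 0) (nat_lit 2899434929598) (nat_lit 76) (nat_lit 15203841535428) (nat_lit 0) (nat_lit 2878153387487) (nat_lit 1) (nat_lit 5)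 (nat_lit 2) (nat_lit 4) (nat_lit 1) (nat_lit 4) (nat_lit 415) (nat_lit 352) (nat_lit 253)) (XT.nd (nat_lit 78) (nat_lit 0) (nat_lit 0) (XT.lf (nat_lit 0) (nat_lit 3511731325538) (nat_lit 76) (nat_lit 17099374316393) (nat_lit 0) (nat_lit 3490449780710) (nat_lit 1) (nat_lit 5) (nat_lit 2) (nat_lit 4) (nat_lit 1) (nat_lit 4) (nat_lit 416) (nat_lit 352) (nat_lit 252)) (XT.lf (nat_lit 0) (nat_lit 4215872137748) (nat_lit 76) (nat_lit 19279237106453) (nat_lit 0) (nat_lit 4194590590555) (nat_lit 1) (nat_lit 5) (nat_lit 2) (nat_lit 4) (nat_lit 1) (nat_lit 4) (nat_lit 417) (nat_lit 352) (nat_lit 251))))))) (XT.nd (nat_lit 48048) (nat_lit 0) (nat_lit 1748) (XT.nd (nat_lit 468) (nat_lit 0) (nat_lit 0) (XT.nd (nat_lit 234) (nat_lit 0) (nat_lit 0) (XT.nd (nat_lit 78) (nat_lit 0) (nat_lit 0) (XT.lf (nat_lit 0) (nat_lit 5025634034291) (nat_lit 76) (nat_lit 21786079394980) (nat_lit 0) (nat_lit 5004352485043)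 (nat_lit 1) (nat_lit 5) (nat_lit 2) (nat_lit 4) (nat_lit 1) (nat_lit 4) (nat_lit 418) (nat_lit 352) (nat_lit 250)) (XT.nd (nat_lit 78) (nat_lit 0) (nat_lit 0) (XT.lf (nat_lit 0) (nat_lit 5956860182709) (nat_lit 76) (nat_lit 24668948096315) (nat_lit 0) (nat_lit 5935578631674) (nat_lit 1) (nat_lit 5) (nat_lit 2) (nat_lit 4) (nat_lit 1) (nat_lit 4) (nat_lit 419) (nat_lit 352) (nat_lit 249)) (XT.lf (nat_lit 0) (nat_lit 7027770225037) (nat_lit 76) (nat_lit 27984247163309) (nat_lit 0) (nat_lit 7006488672447) (nat_lit 1) (nat_lit 5) (nat_lit 2) (nat_lit 4) (nat_lit 1) (nat_lit 4) (nat_lit 420) (nat_lit 352) (nat_lit 248)))) (XT.nd (nat_lit 78) (nat_lit 0) (nat_lit 0) (XT.lf (nat_lit 0) (nat_lit 8259316749058) (nat_lit 76) (nat_lit 31796841142925) (nat_lit 0) (nat_lit 8238035195116) (nat_lit 1) (nat_lit 5) (nat_lit 2) (nat_lit 4) (nat_lit 1) (nat_lit 4) (nat_lit 421) (nat_lit 352) (nat_lit 247))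 (XT.nd (nat_lit 78) (nat_lit 0) (nat_lit 0) (XT.lf (nat_lit 0) (nat_lit 9675595230243) (nat_lit 76) (nat_lit 36181324265200) (nat_lit 0) (nat_lit 9654313675126) (nat_lit 1) (nat_lit 5) (nat_lit 2) (nat_lit 4) (nat_lit 1) (nat_lit 4) (nat_lit 422) (nat_lit 352) (nat_lit 246)) (XT.lf (nat_lit 0) (nat_lit 11304315464963) (nat_lit 76) (nat_lit 41223479895569) (nat_lit 0) (nat_lit 11283033908824) (nat_lit 1) (nat_lit 5) (nat_lit 2) (nat_lit 4) (nat_lit 1) (nat_lit 4) (nat_lit 423) (nat_lit 352) (nat_lit 245))))) (XT.nd (nat_lit 234) (nat_lit 0) (nat_lit 0) (XT.nd (nat_lit 78) (nat_lit 0) (nat_lit 0) (XT.lf (nat_lit 0) (nat_lit 13177343718679) (nat_lit 76) (nat_lit 47021958905061) (nat_lit 0) (nat_lit 13156062161652) (nat_lit 1) (nat_lit 5) (nat_lit 2) (nat_lit 4) (nat_lit 1) (nat_lit 4) (nat_lit 424) (nat_lit 352) (nat_lit 244)) (XT.nd (nat_lit 78) (nat_lit 0) (nat_lit 0) (XT.lf (nat_lit 0)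 (nat_lit 15331326196357) (nat_lit 76) (nat_lit 53690209796035) (nat_lit 0) (nat_lit 15310044638557) (nat_lit 1) (nat_lit 5) (nat_lit 2) (nat_lit 4) (nat_lit 1) (nat_lit 4) (nat_lit 425) (nat_lit 352) (nat_lit 243)) (XT.lf (nat_lit 0) (nat_lit 17808406033428) (nat_lit 76) (nat_lit 61358698346795) (nat_lit 0) (nat_lit 17787124474956) (nat_lit 1) (nat_lit 5) (nat_lit 2) (nat_lit 4) (nat_lit 1) (nat_lit 4) (nat_lit 426) (nat_lit 352) (nat_lit 242)))) (XT.nd (nat_lit 78) (nat_lit 0) (nat_lit 0) (XT.lf (nat_lit 0) (nat_lit 20657047835400) (nat_lit 76) (nat_lit 70177460202897) (nat_lit 0) (nat_lit 20635766276344) (nat_lit 1) (nat_lit 5) (nat_lit 2) (nat_lit 4) (nat_lit 1) (nat_lit 4) (nat_lit 427) (nat_lit 352) (nat_lit 241)) (XT.nd (nat_lit 78) (nat_lit 0) (nat_lit 0) (XT.lf (nat_lit 0) (nat_lit 23932985898400) (nat_lit 76) (nat_lit 80319036357178) (nat_lit 0) (nat_lit 23911704338836) (nat_lit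 1) (nat_lit 5) (nat_lit 2) (nat_lit 4) (nat_lit 1) (nat_lit 4) (nat_lit 428) (nat_lit 352) (nat_lit 240)) (XT.lf (nat_lit 0) (nat_lit 27700314662790) (nat_lit 76) (nat_lit 91981848951788) (nat_lit 0) (nat_lit 27679033102784) (nat_lit 1) (nat_lit 5) (nat_lit 2) (nat_lit 4) (nat_lit 1) (nat_lit 4) (nat_lit 429) (nat_lit 352) (nat_lit 239)))))) (XT.nd (nat_lit 468) (nat_lit 532) (nat_lit 0) (XT.nd (nat_lit 234) (nat_lit 152) (nat_lit 0) (XT.nd (nat_lit 78) (nat_lit 0) (nat_lit 0) (XT.lf (nat_lit 0) (nat_lit 3242802687) (nat_lit 380) (nat_lit 4631751709) (nat_lit 380) (nat_lit 4631751709) (nat_lit 33) (nat_lit 3) (nat_lit 38) (nat_lit 3) (nat_lit 38) (nat_lit 5) (nat_lit 353) (nat_lit 353) (nat_lit 314)) (XT.nd (nat_lit 78) (nat_lit 0) (nat_lit 76) (XT.lf (nat_lit 76) (nat_lit 3386915515) (nat_lit 0) (nat_lit 3822601075) (nat_lit 380) (nat_lit 19643348953) (nat_lit 34) (nat_lit 5) (nat_lit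 33) (nat_lit 3) (nat_lit 38) (nat_lit 5) (nat_lit 354) (nat_lit 353) (nat_lit 313)) (XT.lf (nat_lit 0) (nat_lit 8941459831) (nat_lit 304) (nat_lit 10367131718) (nat_lit 380) (nat_lit 9525660804) (nat_lit 34) (nat_lit 5) (nat_lit 38) (nat_lit 5) (nat_lit 39) (nat_lit 5) (nat_lit 355) (nat_lit 353) (nat_lit 312)))) (XT.nd (nat_lit 78) (nat_lit 228) (nat_lit 0) (XT.lf (nat_lit 76) (nat_lit 4942404049) (nat_lit 0) (nat_lit 6362269253) (nat_lit 380) (nat_lit 19752462746) (nat_lit 35) (nat_lit 5) (nat_lit 34) (nat_lit 5) (nat_lit 39) (nat_lit 5) (nat_lit 356) (nat_lit 353) (nat_lit 311)) (XT.nd (nat_lit 78) (nat_lit 304) (nat_lit 0) (XT.lf (nat_lit 0) (nat_lit 14929527098) (nat_lit 304) (nat_lit 10211207422) (nat_lit 76) (nat_lit 8336653319) (nat_lit 35) (nat_lit 5) (nat_lit 39) (nat_lit 5) (nat_lit 36) (nat_lit 5) (nat_lit 357) (nat_lit 353) (nat_lit 310)) (XT.lf (nat_lit 0) (nat_lit 8521632597)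 (nat_lit 304) (nat_lit 11220470189) (nat_lit 380) (nat_lit 16421983612) (nat_lit 31) (nat_lit 5) (nat_lit 35) (nat_lit 5) (nat_lit 36) (nat_lit 5) (nat_lit 358) (nat_lit 353) (nat_lit 309))))) (XT.nd (nat_lit 234) (nat_lit 380) (nat_lit 0) (XT.nd (nat_lit 78) (nat_lit 152) (nat_lit 0) (XT.lf (nat_lit 0) (nat_lit 26023218200) (nat_lit 380) (nat_lit 8198354949) (nat_lit 76) (nat_lit 4920225607) (nat_lit 31) (nat_lit 5) (nat_lit 36) (nat_lit 5) (nat_lit 32) (nat_lit 5) (nat_lit 359) (nat_lit 353) (nat_lit 308)) (XT.nd (nat_lit 78) (nat_lit 0) (nat_lit 0) (XT.lf (nat_lit 0) (nat_lit 14947513891) (nat_lit 152) (nat_lit 19442860869) (nat_lit 228) (nat_lit 8004218236) (nat_lit 29) (nat_lit 5) (nat_lit 31) (nat_lit 5) (nat_lit 32) (nat_lit 5) (nat_lit 360) (nat_lit 353) (nat_lit 307)) (XT.lf (nat_lit 0) (nat_lit 42475890745) (nat_lit 152) (nat_lit 1956663463) (nat_lit 228) (nat_lit 1639765063)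 (nat_lit 29) (nat_lit 5) (nat_lit 31) (nat_lit 5) (nat_lit 32) (nat_lit 5) (nat_lit 361) (nat_lit 353) (nat_lit 306)))) (XT.nd (nat_lit 156) (nat_lit 76) (nat_lit 0) (XT.nd (nat_lit 78) (nat_lit 152) (nat_lit 0) (XT.lf (nat_lit 0) (nat_lit 7051827845) (nat_lit 152) (nat_lit 25029029905) (nat_lit 76) (nat_lit 17903862151) (nat_lit 27) (nat_lit 5) (nat_lit 29) (nat_lit 5) (nat_lit 28) (nat_lit 5) (nat_lit 362) (nat_lit 353) (nat_lit 305)) (XT.lf (nat_lit 0) (nat_lit 3894929916) (nat_lit 152) (nat_lit 13428433232) (nat_lit 228) (nat_lit 37082295735) (nat_lit 25) (nat_lit 5) (nat_lit 27) (nat_lit 5) (nat_lit 28) (nat_lit 5) (nat_lit 363) (nat_lit 353) (nat_lit 304))) (XT.nd (nat_lit 78) (nat_lit 76) (nat_lit 0) (XT.lf (nat_lit 0) (nat_lit 30831509501) (nat_lit 228) (nat_lit 19728596929) (nat_lit 76) (nat_lit 8675253203) (nat_lit 25) (nat_lit 5) (nat_lit 28) (nat_lit 5) (nat_lit 26) (nat_lit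 4) (nat_lit 364) (nat_lit 353) (nat_lit 303)) (XT.lf (nat_lit 0) (nat_lit 16489841685) (nat_lit 76) (nat_lit 31192273193) (nat_lit 152) (nat_lit 16909967696) (nat_lit 24) (nat_lit 5) (nat_lit 25) (nat_lit 5) (nat_lit 26) (nat_lit 4) (nat_lit 365) (nat_lit 353) (nat_lit 302))))))))
noncomputable def xc69 : XT := (XT.nd (nat_lit 1872) (nat_lit 380) (nat_lit 0) (XT.nd (nat_lit 936) (nat_lit 608) (nat_lit 0) (XT.nd (nat_lit 468) (nat_lit 380) (nat_lit 0) (XT.nd (nat_lit 234) (nat_lit 152) (nat_lit 0) (XT.nd (nat_lit 78) (nat_lit 228) (nat_lit 0) (XT.lf (nat_lit 0) (nat_lit 60349104133) (nat_lit 76) (nat_lit 7736858981) (nat_lit 152) (nat_lit 2512505331) (nat_lit 24) (nat_lit 5) (nat_lit 25) (nat_lit 5) (nat_lit 26) (nat_lit 4) (nat_lit 366) (nat_lit 353) (nat_lit 301)) (XT.nd (nat_lit 78) (nat_lit 76) (nat_lit 0) (XT.lf (nat_lit 0) (nat_lit 15169959530) (nat_lit 152) (nat_lit 42205067393)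 (nat_lit 76) (nat_lit 19687194347) (nat_lit 22) (nat_lit 5) (nat_lit 24) (nat_lit 5) (nat_lit 23) (nat_lit 4) (nat_lit 367) (nat_lit 353) (nat_lit 300)) (XT.lf (nat_lit 0) (nat_lit 3231838402) (nat_lit 76) (nat_lit 33074321521) (nat_lit 152) (nat_lit 48012642366) (nat_lit 21) (nat_lit 5) (nat_lit 22) (nat_lit 5) (nat_lit 23) (nat_lit 4) (nat_lit 368) (nat_lit 353) (nat_lit 299)))) (XT.nd (nat_lit 78) (nat_lit 152) (nat_lit 0) (XT.lf (nat_lit 0) (nat_lit 60219277594) (nat_lit 76) (nat_lit 2595064379) (nat_lit 152) (nat_lit 29519297057) (nat_lit 21) (nat_lit 5) (nat_lit 22) (nat_lit 5) (nat_lit 23) (nat_lit 4) (nat_lit 369) (nat_lit 353) (nat_lit 298)) (XT.nd (nat_lit 78) (nat_lit 76) (nat_lit 0) (XT.lf (nat_lit 0) (nat_lit 25085839725) (nat_lit 76) (nat_lit 70591448816) (nat_lit 76) (nat_lit 5516633304) (nat_lit 20) (nat_lit 4) (nat_lit 21) (nat_lit 5) (nat_lit 21) (nat_lit 4) (nat_lit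 370) (nat_lit 353) (nat_lit 297)) (XT.lf (nat_lit 0) (nat_lit 21998261419) (nat_lit 152) (nat_lit 17781941125) (nat_lit 76) (nat_lit 71184144883) (nat_lit 19) (nat_lit 5) (nat_lit 21) (nat_lit 5) (nat_lit 20) (nat_lit 4) (nat_lit 371) (nat_lit 353) (nat_lit 296))))) (XT.nd (nat_lit 234) (nat_lit 152) (nat_lit 0) (XT.nd (nat_lit 78) (nat_lit 152) (nat_lit 0) (XT.lf (nat_lit 0) (nat_lit 53814662457) (nat_lit 76) (nat_lit 1485714953) (nat_lit 152) (nat_lit 66526837881) (nat_lit 18) (nat_lit 5) (nat_lit 19) (nat_lit 5) (nat_lit 20) (nat_lit 4) (nat_lit 372) (nat_lit 353) (nat_lit 295)) (XT.nd (nat_lit 78) (nat_lit 76) (nat_lit 0) (XT.lf (nat_lit 0) (nat_lit 2366742877) (nat_lit 76) (nat_lit 94061377766) (nat_lit 76) (nat_lit 37466846864) (nat_lit 17) (nat_lit 4) (nat_lit 18) (nat_lit 5) (nat_lit 18) (nat_lit 4) (nat_lit 373) (nat_lit 353) (nat_lit 294)) (XT.lf (nat_lit 0) (nat_lit 104293879)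 (nat_lit 152) (nat_lit 56372235969) (nat_lit 76) (nat_lit 90752727748) (nat_lit 16) (nat_lit 5) (nat_lit 18) (nat_lit 5) (nat_lit 17) (nat_lit 4) (nat_lit 374) (nat_lit 353) (nat_lit 293)))) (XT.nd (nat_lit 78) (nat_lit 76) (nat_lit 0) (XT.lf (nat_lit 0) (nat_lit 31029550514) (nat_lit 76) (nat_lit 9727520459) (nat_lit 152) (nat_lit 121346721813) (nat_lit 15) (nat_lit 5) (nat_lit 16) (nat_lit 5) (nat_lit 17) (nat_lit 4) (nat_lit 375) (nat_lit 353) (nat_lit 292)) (XT.nd (nat_lit 78) (nat_lit 76) (nat_lit 0) (XT.lf (nat_lit 0) (nat_lit 92415194312) (nat_lit 152) (nat_lit 42860063519) (nat_lit 0) (nat_lit 43198136345) (nat_lit 15) (nat_lit 5) (nat_lit 17) (nat_lit 4) (nat_lit 15) (nat_lit 4) (nat_lit 376) (nat_lit 353) (nat_lit 291)) (XT.lf (nat_lit 0) (nat_lit 63797530659) (nat_lit 76) (nat_lit 91126858913) (nat_lit 76) (nat_lit 41908693513) (nat_lit 14) (nat_lit 4) (nat_lit 15) (nat_lit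 5) (nat_lit 15) (nat_lit 4) (nat_lit 377) (nat_lit 353) (nat_lit 290)))))) (XT.nd (nat_lit 468) (nat_lit 228) (nat_lit 0) (XT.nd (nat_lit 234) (nat_lit 228) (nat_lit 0) (XT.nd (nat_lit 78) (nat_lit 76) (nat_lit 0) (XT.lf (nat_lit 0) (nat_lit 10418703685) (nat_lit 152) (nat_lit 26818915463) (nat_lit 76) (nat_lit 180302375501) (nat_lit 13) (nat_lit 5) (nat_lit 15) (nat_lit 5) (nat_lit 14) (nat_lit 4) (nat_lit 378) (nat_lit 353) (nat_lit 289)) (XT.nd (nat_lit 78) (nat_lit 0) (nat_lit 0) (XT.lf (nat_lit 0) (nat_lit 71865773555) (nat_lit 152) (nat_lit 139287836212) (nat_lit 0) (nat_lit 29065803324) (nat_lit 12) (nat_lit 5) (nat_lit 14) (nat_lit 4) (nat_lit 12) (nat_lit 4) (nat_lit 379) (nat_lit 353) (nat_lit 288)) (XT.lf (nat_lit 0) (nat_lit 145769567479) (nat_lit 152) (nat_lit 17076263402) (nat_lit 0) (nat_lit 102968964069) (nat_lit 12) (nat_lit 5) (nat_lit 14) (nat_lit 4) (nat_lit 12) (nat_lit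 4) (nat_lit 380) (nat_lit 353) (nat_lit 287)))) (XT.nd (nat_lit 78) (nat_lit 152) (nat_lit 0) (XT.lf (nat_lit 0) (nat_lit 135528799530) (nat_lit 76) (nat_lit 100840166681) (nat_lit 76) (nat_lit 58039012680) (nat_lit 11) (nat_lit 4) (nat_lit 12) (nat_lit 5) (nat_lit 12) (nat_lit 4) (nat_lit 381) (nat_lit 353) (nat_lit 286)) (XT.nd (nat_lit 78) (nat_lit 76) (nat_lit 0) (XT.lf (nat_lit 0) (nat_lit 13020126335) (nat_lit 152) (nat_lit 14808361152) (nat_lit 76) (nat_lit 299239260324) (nat_lit 10) (nat_lit 5) (nat_lit 12) (nat_lit 5) (nat_lit 11) (nat_lit 4) (nat_lit 382) (nat_lit 353) (nat_lit 285)) (XT.lf (nat_lit 0) (nat_lit 98303003806) (nat_lit 152) (nat_lit 203399039770) (nat_lit 0) (nat_lit 61083830675) (nat_lit 9) (nat_lit 5) (nat_lit 11) (nat_lit 4) (nat_lit 9) (nat_lit 4) (nat_lit 383) (nat_lit 353) (nat_lit 284))))) (XT.nd (nat_lit 234) (nat_lit 152) (nat_lit 0) (XT.nd (nat_lit 78)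 (nat_lit 76) (nat_lit 0) (XT.lf (nat_lit 0) (nat_lit 198512757656) (nat_lit 152) (nat_lit 43735525656) (nat_lit 0) (nat_lit 161293269723) (nat_lit 9) (nat_lit 5) (nat_lit 11) (nat_lit 4) (nat_lit 9) (nat_lit 4) (nat_lit 384) (nat_lit 353) (nat_lit 283)) (XT.nd (nat_lit 78) (nat_lit 0) (nat_lit 0) (XT.lf (nat_lit 0) (nat_lit 153544063227) (nat_lit 76) (nat_lit 166566404123) (nat_lit 76) (nat_lit 129346642450) (nat_lit 8) (nat_lit 4) (nat_lit 9) (nat_lit 5) (nat_lit 9) (nat_lit 4) (nat_lit 385) (nat_lit 353) (nat_lit 282)) (XT.lf (nat_lit 0) (nat_lit 385327997168) (nat_lit 76) (nat_lit 76904640996) (nat_lit 76) (nat_lit 39684641287) (nat_lit 8) (nat_lit 4) (nat_lit 9) (nat_lit 5) (nat_lit 9) (nat_lit 4) (nat_lit 386) (nat_lit 353) (nat_lit 281)))) (XT.nd (nat_lit 78) (nat_lit 0) (nat_lit 0) (XT.lf (nat_lit 0) (nat_lit 63131941144) (nat_lit 152) (nat_lit 467151240886) (nat_lit 0) (nat_lit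 30766544017) (nat_lit 6) (nat_lit 5) (nat_lit 8) (nat_lit 4) (nat_lit 6) (nat_lit 4) (nat_lit 387) (nat_lit 353) (nat_lit 280)) (XT.nd (nat_lit 78) (nat_lit 0) (nat_lit 0) (XT.lf (nat_lit 0) (nat_lit 187353593092) (nat_lit 152) (nat_lit 284920115380) (nat_lit 0) (nat_lit 154988039453) (nat_lit 6) (nat_lit 5) (nat_lit 8) (nat_lit 4) (nat_lit 6) (nat_lit 4) (nat_lit 388) (nat_lit 353) (nat_lit 279)) (XT.lf (nat_lit 0) (nat_lit 330207411604) (nat_lit 152) (nat_lit 75356601838) (nat_lit 0) (nat_lit 297841721867) (nat_lit 6) (nat_lit 5) (nat_lit 8) (nat_lit 4) (nat_lit 6) (nat_lit 4) (nat_lit 389) (nat_lit 353) (nat_lit 278))))))) (XT.nd (nat_lit 936) (nat_lit 76) (nat_lit 0) (XT.nd (nat_lit 468) (nat_lit 76) (nat_lit 0) (XT.nd (nat_lit 234) (nat_lit 152) (nat_lit 0) (XT.nd (nat_lit 78) (nat_lit 0) (nat_lit 0) (XT.lf (nat_lit 0) (nat_lit 181826947673) (nat_lit 76) (nat_lit 320190481175) (nat_lit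 76) (nat_lit 287824673093) (nat_lit 5) (nat_lit 4) (nat_lit 6) (nat_lit 5) (nat_lit 6) (nat_lit 4) (nat_lit 390) (nat_lit 353) (nat_lit 277)) (XT.nd (nat_lit 78) (nat_lit 0) (nat_lit 0) (XT.lf (nat_lit 0) (nat_lit 486055190923) (nat_lit 76) (nat_lit 217481956899) (nat_lit 76) (nat_lit 185116045907) (nat_lit 5) (nat_lit 4) (nat_lit 6) (nat_lit 5) (nat_lit 6) (nat_lit 4) (nat_lit 391) (nat_lit 353) (nat_lit 276)) (XT.lf (nat_lit 0) (nat_lit 835916024447) (nat_lit 76) (nat_lit 99368021103) (nat_lit 76) (nat_lit 67002020624) (nat_lit 5) (nat_lit 4) (nat_lit 6) (nat_lit 5) (nat_lit 6) (nat_lit 4) (nat_lit 392) (nat_lit 353) (nat_lit 275)))) (XT.nd (nat_lit 78) (nat_lit 0) (nat_lit 0) (XT.lf (nat_lit 0) (nat_lit 69224416722) (nat_lit 152) (nat_lit 1021253499256) (nat_lit 0) (nat_lit 41080000816) (nat_lit 3) (nat_lit 5) (nat_lit 5) (nat_lit 4) (nat_lit 3) (nat_lit 4) (nat_lit 393) (nat_lit 353)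 (nat_lit 274)) (XT.nd (nat_lit 78) (nat_lit 0) (nat_lit 0) (XT.lf (nat_lit 0) (nat_lit 232866932088) (nat_lit 152) (nat_lit 840076293268) (nat_lit 0) (nat_lit 204722457343) (nat_lit 3) (nat_lit 5) (nat_lit 5) (nat_lit 4) (nat_lit 3) (nat_lit 4) (nat_lit 394) (nat_lit 353) (nat_lit 273)) (XT.lf (nat_lit 0) (nat_lit 421055209273) (nat_lit 152) (nat_lit 631723813191) (nat_lit 0) (nat_lit 392910683363) (nat_lit 3) (nat_lit 5) (nat_lit 5) (nat_lit 4) (nat_lit 3) (nat_lit 4) (nat_lit 395) (nat_lit 353) (nat_lit 272))))) (XT.nd (nat_lit 234) (nat_lit 0) (nat_lit 0) (XT.nd (nat_lit 78) (nat_lit 76) (nat_lit 0) (XT.lf (nat_lit 0) (nat_lit 637471192829) (nat_lit 152) (nat_lit 392119597461) (nat_lit 0) (nat_lit 609326622429) (nat_lit 3) (nat_lit 5) (nat_lit 5) (nat_lit 4) (nat_lit 3) (nat_lit 4) (nat_lit 396) (nat_lit 353) (nat_lit 271)) (XT.nd (nat_lit 78) (nat_lit 76) (nat_lit 0) (XT.lf (nat_lit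 0) (nat_lit 886349108522) (nat_lit 152) (nat_lit 116575737508) (nat_lit 0) (nat_lit 858204499435) (nat_lit 3) (nat_lit 5) (nat_lit 5) (nat_lit 4) (nat_lit 3) (nat_lit 4) (nat_lit 397) (nat_lit 353) (nat_lit 270)) (XT.lf (nat_lit 0) (nat_lit 219873501765) (nat_lit 76) (nat_lit 961789297938) (nat_lit 76) (nat_lit 933644655209) (nat_lit 2) (nat_lit 4) (nat_lit 3) (nat_lit 5) (nat_lit 3) (nat_lit 4) (nat_lit 398) (nat_lit 353) (nat_lit 269)))) (XT.nd (nat_lit 78) (nat_lit 0) (nat_lit 0) (XT.lf (nat_lit 0) (nat_lit 619890829964) (nat_lit 76) (nat_lit 907476060462) (nat_lit 76) (nat_lit 879331388480) (nat_lit 2) (nat_lit 4) (nat_lit 3) (nat_lit 5) (nat_lit 3) (nat_lit 4) (nat_lit 399) (nat_lit 353) (nat_lit 268)) (XT.nd (nat_lit 78) (nat_lit 0) (nat_lit 0) (XT.lf (nat_lit 0) (nat_lit 1079910044183) (nat_lit 76) (nat_lit 845016215037) (nat_lit 76) (nat_lit 816871517617) (nat_lit 2) (nat_lit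 4) (nat_lit 3) (nat_lit 5) (nat_lit 3) (nat_lit 4) (nat_lit 400) (nat_lit 353) (nat_lit 267)) (XT.lf (nat_lit 0) (nat_lit 1608931520351) (nat_lit 76) (nat_lit 773187721209) (nat_lit 76) (nat_lit 745043001670) (nat_lit 2) (nat_lit 4) (nat_lit 3) (nat_lit 5) (nat_lit 3) (nat_lit 4) (nat_lit 401) (nat_lit 353) (nat_lit 266)))))) (XT.nd (nat_lit 468) (nat_lit 76) (nat_lit 0) (XT.nd (nat_lit 234) (nat_lit 0) (nat_lit 0) (XT.nd (nat_lit 78) (nat_lit 0) (nat_lit 0) (XT.lf (nat_lit 0) (nat_lit 2217305678654) (nat_lit 76) (nat_lit 690585238882) (nat_lit 76) (nat_lit 662440500109) (nat_lit 2) (nat_lit 4) (nat_lit 3) (nat_lit 5) (nat_lit 3) (nat_lit 4) (nat_lit 402) (nat_lit 353) (nat_lit 265)) (XT.nd (nat_lit 78) (nat_lit 0) (nat_lit 0) (XT.lf (nat_lit 0) (nat_lit 2916935491754) (nat_lit 76) (nat_lit 595592632532) (nat_lit 76) (nat_lit 567447877033) (nat_lit 2) (nat_lit 4) (nat_lit 3) (nat_lit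 5) (nat_lit 3) (nat_lit 4) (nat_lit 403) (nat_lit 353) (nat_lit 264)) (XT.lf (nat_lit 0) (nat_lit 3721509369039) (nat_lit 76) (nat_lit 486351351165) (nat_lit 76) (nat_lit 458206581122) (nat_lit 2) (nat_lit 4) (nat_lit 3) (nat_lit 5) (nat_lit 3) (nat_lit 4) (nat_lit 404) (nat_lit 353) (nat_lit 263)))) (XT.nd (nat_lit 78) (nat_lit 0) (nat_lit 0) (XT.lf (nat_lit 0) (nat_lit 4646768973325) (nat_lit 76) (nat_lit 360724065363) (nat_lit 76) (nat_lit 332579282673) (nat_lit 2) (nat_lit 4) (nat_lit 3) (nat_lit 5) (nat_lit 3) (nat_lit 4) (nat_lit 405) (nat_lit 353) (nat_lit 262)) (XT.nd (nat_lit 78) (nat_lit 0) (nat_lit 0) (XT.lf (nat_lit 0) (nat_lit 5710817209913) (nat_lit 76) (nat_lit 216252849970) (nat_lit 76) (nat_lit 188108056282) (nat_lit 2) (nat_lit 4) (nat_lit 3) (nat_lit 5) (nat_lit 3) (nat_lit 4) (nat_lit 406) (nat_lit 353) (nat_lit 261)) (XT.lf (nat_lit 0) (nat_lit 6934472413867) (nat_lit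 76) (nat_lit 50111094248) (nat_lit 76) (nat_lit 21966290997) (nat_lit 2) (nat_lit 4) (nat_lit 3) (nat_lit 5) (nat_lit 3) (nat_lit 4) (nat_lit 407) (nat_lit 353) (nat_lit 260))))) (XT.nd (nat_lit 234) (nat_lit 0) (nat_lit 0) (XT.nd (nat_lit 78) (nat_lit 0) (nat_lit 0) (XT.lf (nat_lit 0) (nat_lit 174643186849) (nat_lit 76) (nat_lit 7702674228369) (nat_lit 0) (nat_lit 150169437661) (nat_lit 1) (nat_lit 5) (nat_lit 2) (nat_lit 4) (nat_lit 1) (nat_lit 4) (nat_lit 408) (nat_lit 353) (nat_lit 259)) (XT.nd (nat_lit 78) (nat_lit 0) (nat_lit 0) (XT.lf (nat_lit 0) (nat_lit 404828379364) (nat_lit 76) (nat_lit 8415274575964) (nat_lit 0) (nat_lit 380354623888) (nat_lit 1) (nat_lit 5) (nat_lit 2) (nat_lit 4) (nat_lit 1) (nat_lit 4) (nat_lit 409) (nat_lit 353) (nat_lit 258)) (XT.lf (nat_lit 0) (nat_lit 669541251012) (nat_lit 76) (nat_lit 9234765188386) (nat_lit 0) (nat_lit 645067490069) (nat_lit 1) (nat_lit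 5) (nat_lit 2) (nat_lit 4) (nat_lit 1) (nat_lit 4) (nat_lit 410) (nat_lit 353) (nat_lit 257)))) (XT.nd (nat_lit 156) (nat_lit 0) (nat_lit 0) (XT.nd (nat_lit 78) (nat_lit 0) (nat_lit 0) (XT.lf (nat_lit 0) (nat_lit 973960966673) (nat_lit 76) (nat_lit 10177179577617) (nat_lit 0) (nat_lit 949487200975) (nat_lit 1) (nat_lit 5) (nat_lit 2) (nat_lit 4) (nat_lit 1) (nat_lit 4) (nat_lit 411) (nat_lit 353) (nat_lit 256)) (XT.lf (nat_lit 0) (nat_lit 1324043564263) (nat_lit 76) (nat_lit 11260956286057) (nat_lit 0) (nat_lit 1299569794430) (nat_lit 1) (nat_lit 5) (nat_lit 2) (nat_lit 4) (nat_lit 1) (nat_lit 4) (nat_lit 412) (nat_lit 353) (nat_lit 255))) (XT.nd (nat_lit 78) (nat_lit 0) (nat_lit 0) (XT.lf (nat_lit 0) (nat_lit 1726638485907) (nat_lit 76) (nat_lit 12507299640608) (nat_lit 0) (nat_lit 1702164712480) (nat_lit 1) (nat_lit 5) (nat_lit 2) (nat_lit 4) (nat_lit 1) (nat_lit 4) (nat_lit 413) (nat_lit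 353) (nat_lit 254)) (XT.lf (nat_lit 0) (nat_lit 2189622588769) (nat_lit 76) (nat_lit 13940594619948) (nat_lit 0) (nat_lit 2165148812216) (nat_lit 1) (nat_lit 5) (nat_lit 2) (nat_lit 4) (nat_lit 1) (nat_lit 4) (nat_lit 414) (nat_lit 353) (nat_lit 253))))))))
noncomputable def xc70 : XT := (XT.nd (nat_lit 49062) (nat_lit 0) (nat_lit 532) (XT.nd (nat_lit 936) (nat_lit 0) (nat_lit 0) (XT.nd (nat_lit 468) (nat_lit 0) (nat_lit 0) (XT.nd (nat_lit 234) (nat_lit 0) (nat_lit 0) (XT.nd (nat_lit 78) (nat_lit 0) (nat_lit 0) (XT.lf (nat_lit 0) (nat_lit 2722054257470) (nat_lit 76) (nat_lit 15588883951932) (nat_lit 0) (nat_lit 2697580478198) (nat_lit 1) (nat_lit 5) (nat_lit 2) (nat_lit 4) (nat_lit 1) (nat_lit 4) (nat_lit 415) (nat_lit 353) (nat_lit 252)) (XT.nd (nat_lit 78) (nat_lit 0) (nat_lit 0) (XT.lf (nat_lit 0) (nat_lit 3334350633353) (nat_lit 76) (nat_lit 17484416775664) (nat_lit 0) (nat_lit 3309876851718)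 (nat_lit 1) (nat_lit 5) (nat_lit 2) (nat_lit 4) (nat_lit 1) (nat_lit 4) (nat_lit 416) (nat_lit 353) (nat_lit 251)) (XT.lf (nat_lit 0) (nat_lit 4038491428122) (nat_lit 76) (nat_lit 19664279602914) (nat_lit 0) (nat_lit 4014017644431) (nat_lit 1) (nat_lit 5) (nat_lit 2) (nat_lit 4) (nat_lit 1) (nat_lit 4) (nat_lit 417) (nat_lit 353) (nat_lit 250)))) (XT.nd (nat_lit 78) (nat_lit 0) (nat_lit 0) (XT.lf (nat_lit 0) (nat_lit 4848253309499) (nat_lit 76) (nat_lit 22171121923780) (nat_lit 0) (nat_lit 4823779524021) (nat_lit 1) (nat_lit 5) (nat_lit 2) (nat_lit 4) (nat_lit 1) (nat_lit 4) (nat_lit 418) (nat_lit 353) (nat_lit 249)) (XT.nd (nat_lit 78) (nat_lit 0) (nat_lit 0) (XT.lf (nat_lit 0) (nat_lit 5779479444730) (nat_lit 76) (nat_lit 25053990653235) (nat_lit 0) (nat_lit 5755005657697) (nat_lit 1) (nat_lit 5) (nat_lit 2) (nat_lit 4) (nat_lit 1) (nat_lit 4) (nat_lit 419) (nat_lit 353) (nat_lit 248))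 (XT.lf (nat_lit 0) (nat_lit 6850389475590) (nat_lit 76) (nat_lit 28369289744682) (nat_lit 0) (nat_lit 6825915687206) (nat_lit 1) (nat_lit 5) (nat_lit 2) (nat_lit 4) (nat_lit 1) (nat_lit 4) (nat_lit 420) (nat_lit 353) (nat_lit 247))))) (XT.nd (nat_lit 234) (nat_lit 0) (nat_lit 0) (XT.nd (nat_lit 78) (nat_lit 0) (nat_lit 0) (XT.lf (nat_lit 0) (nat_lit 8081935989639) (nat_lit 76) (nat_lit 32181883745561) (nat_lit 0) (nat_lit 8057462200080) (nat_lit 1) (nat_lit 5) (nat_lit 2) (nat_lit 4) (nat_lit 1) (nat_lit 4) (nat_lit 421) (nat_lit 353) (nat_lit 246)) (XT.nd (nat_lit 78) (nat_lit 0) (nat_lit 0) (XT.lf (nat_lit 0) (nat_lit 9498214462153) (nat_lit 76) (nat_lit 36566366886326) (nat_lit 0) (nat_lit 9473740671572) (nat_lit 1) (nat_lit 5) (nat_lit 2) (nat_lit 4) (nat_lit 1) (nat_lit 4) (nat_lit 422) (nat_lit 353) (nat_lit 245)) (XT.lf (nat_lit 0) (nat_lit 11126934689333) (nat_lit 76) (nat_lit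 41608522532773) (nat_lit 0) (nat_lit 11102460897863) (nat_lit 1) (nat_lit 5) (nat_lit 2) (nat_lit 4) (nat_lit 1) (nat_lit 4) (nat_lit 423) (nat_lit 353) (nat_lit 244)))) (XT.nd (nat_lit 78) (nat_lit 0) (nat_lit 0) (XT.lf (nat_lit 0) (nat_lit 12999962936493) (nat_lit 76) (nat_lit 47407001556246) (nat_lit 0) (nat_lit 12975489144250) (nat_lit 1) (nat_lit 5) (nat_lit 2) (nat_lit 4) (nat_lit 1) (nat_lit 4) (nat_lit 424) (nat_lit 353) (nat_lit 243)) (XT.nd (nat_lit 78) (nat_lit 0) (nat_lit 0) (XT.lf (nat_lit 0) (nat_lit 15153945408469) (nat_lit 76) (nat_lit 54075252459378) (nat_lit 0) (nat_lit 15129471615554) (nat_lit 1) (nat_lit 5) (nat_lit 2) (nat_lit 4) (nat_lit 1) (nat_lit 4) (nat_lit 425) (nat_lit 353) (nat_lit 242)) (XT.lf (nat_lit 0) (nat_lit 17631025240582) (nat_lit 76) (nat_lit 61743741020709) (nat_lit 0) (nat_lit 17606551447083) (nat_lit 1) (nat_lit 5) (nat_lit 2) (nat_lit 4) (nat_lit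 1) (nat_lit 4) (nat_lit 426) (nat_lit 353) (nat_lit 241)))))) (XT.nd (nat_lit 47658) (nat_lit 0) (nat_lit 2128) (XT.nd (nat_lit 47424) (nat_lit 0) (nat_lit 2432) (XT.nd (nat_lit 78) (nat_lit 0) (nat_lit 0) (XT.lf (nat_lit 0) (nat_lit 20479667038244) (nat_lit 76) (nat_lit 70562502886003) (nat_lit 0) (nat_lit 20455193244237) (nat_lit 1) (nat_lit 5) (nat_lit 2) (nat_lit 4) (nat_lit 1) (nat_lit 4) (nat_lit 427) (nat_lit 353) (nat_lit 240)) (XT.nd (nat_lit 78) (nat_lit 0) (nat_lit 0) (XT.lf (nat_lit 0) (nat_lit 23755605097495) (nat_lit 76) (nat_lit 80704079048278) (nat_lit 0) (nat_lit 23731131303046) (nat_lit 1) (nat_lit 5) (nat_lit 2) (nat_lit 4) (nat_lit 1) (nat_lit 4) (nat_lit 428) (nat_lit 353) (nat_lit 239)) (XT.lf (nat_lit 0) (nat_lit 27522933858624) (nat_lit 76) (nat_lit 92366891649840) (nat_lit 0) (nat_lit 27498460063791) (nat_lit 1) (nat_lit 5) (nat_lit 2) (nat_lit 4) (nat_lit 1)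 (nat_lit 4) (nat_lit 429) (nat_lit 353) (nat_lit 238)))) (XT.nd (nat_lit 78) (nat_lit 0) (nat_lit 0) (XT.lf (nat_lit 0) (nat_lit 3822442211) (nat_lit 380) (nat_lit 5272880418) (nat_lit 380) (nat_lit 5272880418) (nat_lit 33) (nat_lit 3) (nat_lit 38) (nat_lit 3) (nat_lit 38) (nat_lit 5) (nat_lit 354) (nat_lit 354) (nat_lit 312)) (XT.nd (nat_lit 78) (nat_lit 0) (nat_lit 76) (XT.lf (nat_lit 76) (nat_lit 3997345115) (nat_lit 0) (nat_lit 4459959020) (nat_lit 380) (nat_lit 22398422265) (nat_lit 34) (nat_lit 5) (nat_lit 33) (nat_lit 3) (nat_lit 38) (nat_lit 5) (nat_lit 355) (nat_lit 354) (nat_lit 311)) (XT.lf (nat_lit 0) (nat_lit 10425036445) (nat_lit 304) (nat_lit 11809062330) (nat_lit 380) (nat_lit 10903837813) (nat_lit 34) (nat_lit 5) (nat_lit 38) (nat_lit 5) (nat_lit 39) (nat_lit 5) (nat_lit 356) (nat_lit 354) (nat_lit 310))))) (XT.nd (nat_lit 234) (nat_lit 152) (nat_lit 0) (XT.nd (nat_lit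 78) (nat_lit 228) (nat_lit 0) (XT.lf (nat_lit 76) (nat_lit 5791761114) (nat_lit 0) (nat_lit 7336874339) (nat_lit 380) (nat_lit 22567744898) (nat_lit 35) (nat_lit 5) (nat_lit 34) (nat_lit 5) (nat_lit 39) (nat_lit 5) (nat_lit 357) (nat_lit 354) (nat_lit 309)) (XT.nd (nat_lit 78) (nat_lit 304) (nat_lit 0) (XT.lf (nat_lit 0) (nat_lit 17279757935) (nat_lit 304) (nat_lit 11631443596) (nat_lit 76) (nat_lit 9571098627) (nat_lit 35) (nat_lit 5) (nat_lit 39) (nat_lit 5) (nat_lit 36) (nat_lit 5) (nat_lit 358) (nat_lit 354) (nat_lit 308)) (XT.lf (nat_lit 0) (nat_lit 9906256747) (nat_lit 304) (nat_lit 12897915762) (nat_lit 380) (nat_lit 18769347971) (nat_lit 31) (nat_lit 5) (nat_lit 35) (nat_lit 5) (nat_lit 36) (nat_lit 5) (nat_lit 359) (nat_lit 354) (nat_lit 307)))) (XT.nd (nat_lit 78) (nat_lit 152) (nat_lit 0) (XT.lf (nat_lit 0) (nat_lit 30014515905) (nat_lit 380) (nat_lit 9322607999) (nat_lit 76)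 (nat_lit 5662715259) (nat_lit 31) (nat_lit 5) (nat_lit 36) (nat_lit 5) (nat_lit 32) (nat_lit 5) (nat_lit 360) (nat_lit 354) (nat_lit 306)) (XT.nd (nat_lit 78) (nat_lit 0) (nat_lit 0) (XT.lf (nat_lit 0) (nat_lit 17290345704) (nat_lit 152) (nat_lit 22339116087) (nat_lit 228) (nat_lit 9112190829) (nat_lit 29) (nat_lit 5) (nat_lit 31) (nat_lit 5) (nat_lit 32) (nat_lit 5) (nat_lit 361) (nat_lit 354) (nat_lit 305)) (XT.lf (nat_lit 0) (nat_lit 48934843687) (nat_lit 152) (nat_lit 2232620449) (nat_lit 228) (nat_lit 1805155786) (nat_lit 29) (nat_lit 5) (nat_lit 31) (nat_lit 5) (nat_lit 32) (nat_lit 5) (nat_lit 362) (nat_lit 354) (nat_lit 304))))))) (XT.nd (nat_lit 936) (nat_lit 684) (nat_lit 0) (XT.nd (nat_lit 468) (nat_lit 380) (nat_lit 0) (XT.nd (nat_lit 234) (nat_lit 228) (nat_lit 0) (XT.nd (nat_lit 78) (nat_lit 152) (nat_lit 0) (XT.lf (nat_lit 0) (nat_lit 8178123235) (nat_lit 152) (nat_lit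 28683691973) (nat_lit 76) (nat_lit 20610301814) (nat_lit 27) (nat_lit 5) (nat_lit 29) (nat_lit 5) (nat_lit 28) (nat_lit 5) (nat_lit 363) (nat_lit 354) (nat_lit 303)) (XT.nd (nat_lit 78) (nat_lit 0) (nat_lit 0) (XT.lf (nat_lit 0) (nat_lit 4574330347) (nat_lit 152) (nat_lit 15411061348) (nat_lit 228) (nat_lit 42571558990) (nat_lit 25) (nat_lit 5) (nat_lit 27) (nat_lit 5) (nat_lit 28) (nat_lit 5) (nat_lit 364) (nat_lit 354) (nat_lit 302)) (XT.lf (nat_lit 0) (nat_lit 35512613396) (nat_lit 228) (nat_lit 22597966505) (nat_lit 76) (nat_lit 10001602345) (nat_lit 25) (nat_lit 5) (nat_lit 28) (nat_lit 5) (nat_lit 26) (nat_lit 4) (nat_lit 365) (nat_lit 354) (nat_lit 301)))) (XT.nd (nat_lit 78) (nat_lit 152) (nat_lit 0) (XT.lf (nat_lit 0) (nat_lit 19049150631) (nat_lit 76) (nat_lit 35837859516) (nat_lit 152) (nat_lit 19385976621) (nat_lit 24) (nat_lit 5) (nat_lit 25) (nat_lit 5) (nat_lit 26) (nat_lit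 4) (nat_lit 366) (nat_lit 354) (nat_lit 300)) (XT.nd (nat_lit 78) (nat_lit 152) (nat_lit 0) (XT.lf (nat_lit 0) (nat_lit 69476106877) (nat_lit 76) (nat_lit 8868470736) (nat_lit 152) (nat_lit 2836784409) (nat_lit 24) (nat_lit 5) (nat_lit 25) (nat_lit 5) (nat_lit 26) (nat_lit 4) (nat_lit 367) (nat_lit 354) (nat_lit 299)) (XT.lf (nat_lit 0) (nat_lit 17491534506) (nat_lit 152) (nat_lit 48454644325) (nat_lit 76) (nat_lit 22668449344) (nat_lit 22) (nat_lit 5) (nat_lit 24) (nat_lit 5) (nat_lit 23) (nat_lit 4) (nat_lit 368) (nat_lit 354) (nat_lit 298))))) (XT.nd (nat_lit 234) (nat_lit 228) (nat_lit 0) (XT.nd (nat_lit 78) (nat_lit 76) (nat_lit 0) (XT.lf (nat_lit 0) (nat_lit 3794107194) (nat_lit 76) (nat_lit 38001256013) (nat_lit 152) (nat_lit 55164755244) (nat_lit 21) (nat_lit 5) (nat_lit 22) (nat_lit 5) (nat_lit 23) (nat_lit 4) (nat_lit 369) (nat_lit 354) (nat_lit 297)) (XT.nd (nat_lit 78) (nat_lit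 76) (nat_lit 0) (XT.lf (nat_lit 0) (nat_lit 69319554479) (nat_lit 76) (nat_lit 2954572961) (nat_lit 152) (nat_lit 33903901636) (nat_lit 21) (nat_lit 5) (nat_lit 22) (nat_lit 5) (nat_lit 23) (nat_lit 4) (nat_lit 370) (nat_lit 354) (nat_lit 296)) (XT.lf (nat_lit 0) (nat_lit 28917260759) (nat_lit 76) (nat_lit 81148255977) (nat_lit 76) (nat_lit 6301988859) (nat_lit 20) (nat_lit 4) (nat_lit 21) (nat_lit 5) (nat_lit 21) (nat_lit 4) (nat_lit 371) (nat_lit 354) (nat_lit 295)))) (XT.nd (nat_lit 78) (nat_lit 152) (nat_lit 0) (XT.lf (nat_lit 0) (nat_lit 25331381411) (nat_lit 152) (nat_lit 20386358644) (nat_lit 76) (nat_lit 81886245345) (nat_lit 19) (nat_lit 5) (nat_lit 21) (nat_lit 5) (nat_lit 20) (nat_lit 4) (nat_lit 372) (nat_lit 354) (nat_lit 294)) (XT.nd (nat_lit 78) (nat_lit 76) (nat_lit 0) (XT.lf (nat_lit 0) (nat_lit 61946877582) (nat_lit 76) (nat_lit 1680068328) (nat_lit 152) (nat_lit 76469618783)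 (nat_lit 18) (nat_lit 5) (nat_lit 19) (nat_lit 5) (nat_lit 20) (nat_lit 4) (nat_lit 373) (nat_lit 354) (nat_lit 293)) (XT.lf (nat_lit 0) (nat_lit 2782433202) (nat_lit 76) (nat_lit 108140846099) (nat_lit 76) (nat_lit 43051286938) (nat_lit 17) (nat_lit 4) (nat_lit 18) (nat_lit 5) (nat_lit 18) (nat_lit 4) (nat_lit 374) (nat_lit 354) (nat_lit 292)))))) (XT.nd (nat_lit 468) (nat_lit 304) (nat_lit 0) (XT.nd (nat_lit 234) (nat_lit 228) (nat_lit 0) (XT.nd (nat_lit 78) (nat_lit 76) (nat_lit 0) (XT.lf (nat_lit 0) (nat_lit 148128186) (nat_lit 152) (nat_lit 64772548140) (nat_lit 76) (nat_lit 104388737359) (nat_lit 16) (nat_lit 5) (nat_lit 18) (nat_lit 5) (nat_lit 17) (nat_lit 4) (nat_lit 375) (nat_lit 354) (nat_lit 291)) (XT.nd (nat_lit 78) (nat_lit 0) (nat_lit 0) (XT.lf (nat_lit 0) (nat_lit 35736982533) (nat_lit 76) (nat_lit 11160356920) (nat_lit 152) (nat_lit 139518012585) (nat_lit 15) (nat_lit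 5) (nat_lit 16) (nat_lit 5) (nat_lit 17) (nat_lit 4) (nat_lit 376) (nat_lit 354) (nat_lit 290)) (XT.lf (nat_lit 0) (nat_lit 106301644339) (nat_lit 152) (nat_lit 49240446587) (nat_lit 0) (nat_lit 49698683708) (nat_lit 15) (nat_lit 5) (nat_lit 17) (nat_lit 4) (nat_lit 15) (nat_lit 4) (nat_lit 377) (nat_lit 354) (nat_lit 289)))) (XT.nd (nat_lit 78) (nat_lit 152) (nat_lit 0) (XT.lf (nat_lit 0) (nat_lit 73413576425) (nat_lit 76) (nat_lit 104772411735) (nat_lit 76) (nat_lit 48168613725) (nat_lit 14) (nat_lit 4) (nat_lit 15) (nat_lit 5) (nat_lit 15) (nat_lit 4) (nat_lit 378) (nat_lit 354) (nat_lit 288)) (XT.nd (nat_lit 78) (nat_lit 76) (nat_lit 0) (XT.lf (nat_lit 0) (nat_lit 12002409190) (nat_lit 152) (nat_lit 30799346406) (nat_lit 76) (nat_lit 207366101260) (nat_lit 13) (nat_lit 5) (nat_lit 15) (nat_lit 5) (nat_lit 14) (nat_lit 4) (nat_lit 379) (nat_lit 354) (nat_lit 287)) (XT.lf (nat_lit 0)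 (nat_lit 82666343796) (nat_lit 152) (nat_lit 160138407786) (nat_lit 0) (nat_lit 33444466105) (nat_lit 12) (nat_lit 5) (nat_lit 14) (nat_lit 4) (nat_lit 12) (nat_lit 4) (nat_lit 380) (nat_lit 354) (nat_lit 286))))) (XT.nd (nat_lit 234) (nat_lit 152) (nat_lit 0) (XT.nd (nat_lit 78) (nat_lit 152) (nat_lit 0) (XT.lf (nat_lit 0) (nat_lit 167653006260) (nat_lit 152) (nat_lit 19600656080) (nat_lit 0) (nat_lit 118430649795) (nat_lit 12) (nat_lit 5) (nat_lit 14) (nat_lit 4) (nat_lit 12) (nat_lit 4) (nat_lit 381) (nat_lit 354) (nat_lit 285)) (XT.nd (nat_lit 78) (nat_lit 76) (nat_lit 0) (XT.lf (nat_lit 0) (nat_lit 155893482345) (nat_lit 76) (nat_lit 115947948455) (nat_lit 76) (nat_lit 66725175664) (nat_lit 11) (nat_lit 4) (nat_lit 12) (nat_lit 5) (nat_lit 12) (nat_lit 4) (nat_lit 382) (nat_lit 354) (nat_lit 284)) (XT.lf (nat_lit 0) (nat_lit 14988741873) (nat_lit 152) (nat_lit 16997339785) (nat_lit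 76) (nat_lit 344139487845) (nat_lit 10) (nat_lit 5) (nat_lit 12) (nat_lit 5) (nat_lit 11) (nat_lit 4) (nat_lit 383) (nat_lit 354) (nat_lit 283)))) (XT.nd (nat_lit 156) (nat_lit 76) (nat_lit 0) (XT.nd (nat_lit 78) (nat_lit 0) (nat_lit 0) (XT.lf (nat_lit 0) (nat_lit 113063953644) (nat_lit 152) (nat_lit 233876522013) (nat_lit 0) (nat_lit 70260953979) (nat_lit 9) (nat_lit 5) (nat_lit 11) (nat_lit 4) (nat_lit 9) (nat_lit 4) (nat_lit 384) (nat_lit 354) (nat_lit 282)) (XT.lf (nat_lit 0) (nat_lit 228303148928) (nat_lit 152) (nat_lit 50267703441) (nat_lit 0) (nat_lit 185499911227) (nat_lit 9) (nat_lit 5) (nat_lit 11) (nat_lit 4) (nat_lit 9) (nat_lit 4) (nat_lit 385) (nat_lit 354) (nat_lit 281))) (XT.nd (nat_lit 78) (nat_lit 0) (nat_lit 0) (XT.lf (nat_lit 0) (nat_lit 176602544181) (nat_lit 76) (nat_lit 191537325635) (nat_lit 76) (nat_lit 148733880947) (nat_lit 8) (nat_lit 4) (nat_lit 9) (nat_lit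 5) (nat_lit 9) (nat_lit 4) (nat_lit 386) (nat_lit 354) (nat_lit 280)) (XT.lf (nat_lit 0) (nat_lit 443150563239) (nat_lit 76) (nat_lit 88428129227) (nat_lit 76) (nat_lit 45624504550) (nat_lit 8) (nat_lit 4) (nat_lit 9) (nat_lit 5) (nat_lit 9) (nat_lit 4) (nat_lit 387) (nat_lit 354) (nat_lit 279))))))))
noncomputable def xc71 : XT := (XT.nd (nat_lit 1872) (nat_lit 0) (nat_lit 0) (XT.nd (nat_lit 936) (nat_lit 76) (nat_lit 0) (XT.nd (nat_lit 468) (nat_lit 228) (nat_lit 0) (XT.nd (nat_lit 234) (nat_lit 76) (nat_lit 0) (XT.nd (nat_lit 78) (nat_lit 0) (nat_lit 0) (XT.lf (nat_lit 0) (nat_lit 72613374385) (nat_lit 152) (nat_lit 537199368739) (nat_lit 0) (nat_lit 35392695090) (nat_lit 6) (nat_lit 5) (nat_lit 8) (nat_lit 4) (nat_lit 6) (nat_lit 4) (nat_lit 388) (nat_lit 354) (nat_lit 278)) (XT.nd (nat_lit 78) (nat_lit 0) (nat_lit 0) (XT.lf (nat_lit 0) (nat_lit 215466755595) (nat_lit 152) (nat_lit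 327636777661) (nat_lit 0) (nat_lit 178245957954) (nat_lit 6) (nat_lit 5) (nat_lit 8) (nat_lit 4) (nat_lit 6) (nat_lit 4) (nat_lit 389) (nat_lit 354) (nat_lit 277)) (XT.lf (nat_lit 0) (nat_lit 379747326421) (nat_lit 152) (nat_lit 86641522526) (nat_lit 0) (nat_lit 342526425872) (nat_lit 6) (nat_lit 5) (nat_lit 8) (nat_lit 4) (nat_lit 6) (nat_lit 4) (nat_lit 390) (nat_lit 354) (nat_lit 276)))) (XT.nd (nat_lit 78) (nat_lit 0) (nat_lit 0) (XT.lf (nat_lit 0) (nat_lit 209118715340) (nat_lit 76) (nat_lit 368209716662) (nat_lit 76) (nat_lit 330988726625) (nat_lit 5) (nat_lit 4) (nat_lit 6) (nat_lit 5) (nat_lit 6) (nat_lit 4) (nat_lit 391) (nat_lit 354) (nat_lit 275)) (XT.nd (nat_lit 78) (nat_lit 0) (nat_lit 0) (XT.lf (nat_lit 0) (nat_lit 558978883054) (nat_lit 76) (nat_lit 250096131573) (nat_lit 76) (nat_lit 212875063722) (nat_lit 5) (nat_lit 4) (nat_lit 6) (nat_lit 5) (nat_lit 6) (nat_lit 4)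 (nat_lit 392) (nat_lit 354) (nat_lit 274)) (XT.lf (nat_lit 0) (nat_lit 961316831150) (nat_lit 76) (nat_lit 114266164389) (nat_lit 76) (nat_lit 77045028874) (nat_lit 5) (nat_lit 4) (nat_lit 6) (nat_lit 5) (nat_lit 6) (nat_lit 4) (nat_lit 393) (nat_lit 354) (nat_lit 273))))) (XT.nd (nat_lit 234) (nat_lit 76) (nat_lit 0) (XT.nd (nat_lit 78) (nat_lit 0) (nat_lit 0) (XT.lf (nat_lit 0) (nat_lit 79614706448) (nat_lit 152) (nat_lit 1174427453135) (nat_lit 0) (nat_lit 47248450488) (nat_lit 3) (nat_lit 5) (nat_lit 5) (nat_lit 4) (nat_lit 3) (nat_lit 4) (nat_lit 394) (nat_lit 354) (nat_lit 272)) (XT.nd (nat_lit 78) (nat_lit 0) (nat_lit 0) (XT.lf (nat_lit 0) (nat_lit 267802734699) (nat_lit 152) (nat_lit 966075501597) (nat_lit 0) (nat_lit 235436434249) (nat_lit 3) (nat_lit 5) (nat_lit 5) (nat_lit 4) (nat_lit 3) (nat_lit 4) (nat_lit 395) (nat_lit 354) (nat_lit 271)) (XT.lf (nat_lit 0) (nat_lit 484218501792)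 (nat_lit 152) (nat_lit 726471745465) (nat_lit 0) (nat_lit 451852162654) (nat_lit 3) (nat_lit 5) (nat_lit 5) (nat_lit 4) (nat_lit 3) (nat_lit 4) (nat_lit 396) (nat_lit 354) (nat_lit 270)))) (XT.nd (nat_lit 78) (nat_lit 76) (nat_lit 0) (XT.lf (nat_lit 0) (nat_lit 733096229256) (nat_lit 152) (nat_lit 450928285163) (nat_lit 0) (nat_lit 700729856477) (nat_lit 3) (nat_lit 5) (nat_lit 5) (nat_lit 4) (nat_lit 3) (nat_lit 4) (nat_lit 397) (nat_lit 354) (nat_lit 269)) (XT.nd (nat_lit 78) (nat_lit 76) (nat_lit 0) (XT.lf (nat_lit 0) (nat_lit 1019305263933) (nat_lit 152) (nat_lit 134054052989) (nat_lit 0) (nat_lit 986938861901) (nat_lit 3) (nat_lit 5) (nat_lit 5) (nat_lit 4) (nat_lit 3) (nat_lit 4) (nat_lit 398) (nat_lit 354) (nat_lit 268)) (XT.lf (nat_lit 0) (nat_lit 252862206487) (nat_lit 76) (nat_lit 1106053626059) (nat_lit 76) (nat_lit 1073687198589) (nat_lit 2) (nat_lit 4) (nat_lit 3) (nat_lit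 5) (nat_lit 3) (nat_lit 4) (nat_lit 399) (nat_lit 354) (nat_lit 267)))))) (XT.nd (nat_lit 468) (nat_lit 76) (nat_lit 0) (XT.nd (nat_lit 234) (nat_lit 0) (nat_lit 0) (XT.nd (nat_lit 78) (nat_lit 0) (nat_lit 0) (XT.lf (nat_lit 0) (nat_lit 712881132248) (nat_lit 76) (nat_lit 1043593933384) (nat_lit 76) (nat_lit 1011227483794) (nat_lit 2) (nat_lit 4) (nat_lit 3) (nat_lit 5) (nat_lit 3) (nat_lit 4) (nat_lit 400) (nat_lit 354) (nat_lit 266)) (XT.nd (nat_lit 78) (nat_lit 0) (nat_lit 0) (XT.lf (nat_lit 0) (nat_lit 1241902357583) (nat_lit 76) (nat_lit 971765572381) (nat_lit 76) (nat_lit 939399103558) (nat_lit 2) (nat_lit 4) (nat_lit 3) (nat_lit 5) (nat_lit 3) (nat_lit 4) (nat_lit 401) (nat_lit 354) (nat_lit 265)) (XT.lf (nat_lit 0) (nat_lit 1850276297771) (nat_lit 76) (nat_lit 889163205555) (nat_lit 76) (nat_lit 856796720005) (nat_lit 2) (nat_lit 4) (nat_lit 3) (nat_lit 5) (nat_lit 3) (nat_lit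 4) (nat_lit 402) (nat_lit 354) (nat_lit 264)))) (XT.nd (nat_lit 78) (nat_lit 0) (nat_lit 0) (XT.lf (nat_lit 0) (nat_lit 2549905921206) (nat_lit 76) (nat_lit 794170699640) (nat_lit 76) (nat_lit 761804199547) (nat_lit 2) (nat_lit 4) (nat_lit 3) (nat_lit 5) (nat_lit 3) (nat_lit 4) (nat_lit 403) (nat_lit 354) (nat_lit 263)) (XT.nd (nat_lit 78) (nat_lit 0) (nat_lit 0) (XT.lf (nat_lit 0) (nat_lit 3354479633565) (nat_lit 76) (nat_lit 684929505608) (nat_lit 76) (nat_lit 652562992868) (nat_lit 2) (nat_lit 4) (nat_lit 3) (nat_lit 5) (nat_lit 3) (nat_lit 4) (nat_lit 404) (nat_lit 354) (nat_lit 262)) (XT.lf (nat_lit 0) (nat_lit 4279739094437) (nat_lit 76) (nat_lit 559302295750) (nat_lit 76) (nat_lit 526935772012) (nat_lit 2) (nat_lit 4) (nat_lit 3) (nat_lit 5) (nat_lit 3) (nat_lit 4) (nat_lit 405) (nat_lit 354) (nat_lit 261))))) (XT.nd (nat_lit 234) (nat_lit 76) (nat_lit 0) (XT.nd (nat_lit 78) (nat_lit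 0) (nat_lit 0) (XT.lf (nat_lit 0) (nat_lit 5343787206316) (nat_lit 76) (nat_lit 414831146394) (nat_lit 76) (nat_lit 382464613093) (nat_lit 2) (nat_lit 4) (nat_lit 3) (nat_lit 5) (nat_lit 3) (nat_lit 4) (nat_lit 406) (nat_lit 354) (nat_lit 260)) (XT.nd (nat_lit 78) (nat_lit 0) (nat_lit 0) (XT.lf (nat_lit 0) (nat_lit 6567442301828) (nat_lit 76) (nat_lit 248689448096) (nat_lit 76) (nat_lit 216322906480) (nat_lit 2) (nat_lit 4) (nat_lit 3) (nat_lit 5) (nat_lit 3) (nat_lit 4) (nat_lit 407) (nat_lit 354) (nat_lit 259)) (XT.lf (nat_lit 0) (nat_lit 7974645458928) (nat_lit 76) (nat_lit 57626602412) (nat_lit 76) (nat_lit 25260053565) (nat_lit 2) (nat_lit 4) (nat_lit 3) (nat_lit 5) (nat_lit 3) (nat_lit 4) (nat_lit 408) (nat_lit 354) (nat_lit 258)))) (XT.nd (nat_lit 78) (nat_lit 0) (nat_lit 0) (XT.lf (nat_lit 0) (nat_lit 200840738866) (nat_lit 76) (nat_lit 8858073072515) (nat_lit 0) (nat_lit 172695908314)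 (nat_lit 1) (nat_lit 5) (nat_lit 2) (nat_lit 4) (nat_lit 1) (nat_lit 4) (nat_lit 409) (nat_lit 354) (nat_lit 257)) (XT.nd (nat_lit 78) (nat_lit 0) (nat_lit 0) (XT.lf (nat_lit 0) (nat_lit 465553570173) (nat_lit 76) (nat_lit 9677563770958) (nat_lit 0) (nat_lit 437408734866) (nat_lit 1) (nat_lit 5) (nat_lit 2) (nat_lit 4) (nat_lit 1) (nat_lit 4) (nat_lit 410) (nat_lit 354) (nat_lit 256)) (XT.lf (nat_lit 0) (nat_lit 769973250755) (nat_lit 76) (nat_lit 10619978234991) (nat_lit 0) (nat_lit 741828411313) (nat_lit 1) (nat_lit 5) (nat_lit 2) (nat_lit 4) (nat_lit 1) (nat_lit 4) (nat_lit 411) (nat_lit 354) (nat_lit 255))))))) (XT.nd (nat_lit 936) (nat_lit 0) (nat_lit 0) (XT.nd (nat_lit 468) (nat_lit 0) (nat_lit 0) (XT.nd (nat_lit 234) (nat_lit 0) (nat_lit 0) (XT.nd (nat_lit 78) (nat_lit 0) (nat_lit 0) (XT.lf (nat_lit 0) (nat_lit 1120055817840) (nat_lit 76) (nat_lit 11703755008475) (nat_lit 0) (nat_lit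 1091910974804) (nat_lit 1) (nat_lit 5) (nat_lit 2) (nat_lit 4) (nat_lit 1) (nat_lit 4) (nat_lit 412) (nat_lit 354) (nat_lit 254)) (XT.nd (nat_lit 78) (nat_lit 0) (nat_lit 0) (XT.lf (nat_lit 0) (nat_lit 1522650712959) (nat_lit 76) (nat_lit 12950098419587) (nat_lit 0) (nat_lit 1494505866797) (nat_lit 1) (nat_lit 5) (nat_lit 2) (nat_lit 4) (nat_lit 1) (nat_lit 4) (nat_lit 413) (nat_lit 354) (nat_lit 253)) (XT.lf (nat_lit 0) (nat_lit 1985634792756) (nat_lit 76) (nat_lit 14383393448110) (nat_lit 0) (nat_lit 1957489943875) (nat_lit 1) (nat_lit 5) (nat_lit 2) (nat_lit 4) (nat_lit 1) (nat_lit 4) (nat_lit 414) (nat_lit 354) (nat_lit 252)))) (XT.nd (nat_lit 78) (nat_lit 0) (nat_lit 0) (XT.lf (nat_lit 0) (nat_lit 2518066441400) (nat_lit 76) (nat_lit 16031682822862) (nat_lit 0) (nat_lit 2489921590155) (nat_lit 1) (nat_lit 5) (nat_lit 2) (nat_lit 4) (nat_lit 1) (nat_lit 4) (nat_lit 415) (nat_lit 354)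 (nat_lit 251)) (XT.nd (nat_lit 78) (nat_lit 0) (nat_lit 0) (XT.lf (nat_lit 0) (nat_lit 3130362799843) (nat_lit 76) (nat_lit 17927215683784) (nat_lit 0) (nat_lit 3102217946543) (nat_lit 1) (nat_lit 5) (nat_lit 2) (nat_lit 4) (nat_lit 1) (nat_lit 4) (nat_lit 416) (nat_lit 354) (nat_lit 250)) (XT.lf (nat_lit 0) (nat_lit 3834503579446) (nat_lit 76) (nat_lit 20107078543373) (nat_lit 0) (nat_lit 3806358724358) (nat_lit 1) (nat_lit 5) (nat_lit 2) (nat_lit 4) (nat_lit 1) (nat_lit 4) (nat_lit 417) (nat_lit 354) (nat_lit 249))))) (XT.nd (nat_lit 234) (nat_lit 0) (nat_lit 0) (XT.nd (nat_lit 78) (nat_lit 0) (nat_lit 0) (XT.lf (nat_lit 0) (nat_lit 4644265447635) (nat_lit 76) (nat_lit 22613920892359) (nat_lit 0) (nat_lit 4616120590994) (nat_lit 1) (nat_lit 5) (nat_lit 2) (nat_lit 4) (nat_lit 1) (nat_lit 4) (nat_lit 418) (nat_lit 354) (nat_lit 248)) (XT.nd (nat_lit 78) (nat_lit 0) (nat_lit 0) (XT.lf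 (nat_lit 0) (nat_lit 5575491571398) (nat_lit 76) (nat_lit 25496789646267) (nat_lit 0) (nat_lit 5547346713405) (nat_lit 1) (nat_lit 5) (nat_lit 2) (nat_lit 4) (nat_lit 1) (nat_lit 4) (nat_lit 419) (nat_lit 354) (nat_lit 247)) (XT.lf (nat_lit 0) (nat_lit 6646401592286) (nat_lit 76) (nat_lit 28812088758977) (nat_lit 0) (nat_lit 6618256733118) (nat_lit 1) (nat_lit 5) (nat_lit 2) (nat_lit 4) (nat_lit 1) (nat_lit 4) (nat_lit 420) (nat_lit 354) (nat_lit 246)))) (XT.nd (nat_lit 78) (nat_lit 0) (nat_lit 0) (XT.lf (nat_lit 0) (nat_lit 7877948097665) (nat_lit 76) (nat_lit 32624682778346) (nat_lit 0) (nat_lit 7849803237474) (nat_lit 1) (nat_lit 5) (nat_lit 2) (nat_lit 4) (nat_lit 1) (nat_lit 4) (nat_lit 421) (nat_lit 354) (nat_lit 245)) (XT.nd (nat_lit 78) (nat_lit 0) (nat_lit 0) (XT.lf (nat_lit 0) (nat_lit 9294226562639) (nat_lit 76) (nat_lit 37009165935189) (nat_lit 0) (nat_lit 9266081701560) (nat_lit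 1) (nat_lit 5) (nat_lit 2) (nat_lit 4) (nat_lit 1) (nat_lit 4) (nat_lit 422) (nat_lit 354) (nat_lit 244)) (XT.lf (nat_lit 0) (nat_lit 10922946783262) (nat_lit 76) (nat_lit 42051321595617) (nat_lit 0) (nat_lit 10894801921410) (nat_lit 1) (nat_lit 5) (nat_lit 2) (nat_lit 4) (nat_lit 1) (nat_lit 4) (nat_lit 423) (nat_lit 354) (nat_lit 243)))))) (XT.nd (nat_lit 468) (nat_lit 0) (nat_lit 0) (XT.nd (nat_lit 234) (nat_lit 0) (nat_lit 0) (XT.nd (nat_lit 78) (nat_lit 0) (nat_lit 0) (XT.lf (nat_lit 0) (nat_lit 12795975024720) (nat_lit 76) (nat_lit 47849800631247) (nat_lit 0) (nat_lit 12767830162197) (nat_lit 1) (nat_lit 5) (nat_lit 2) (nat_lit 4) (nat_lit 1) (nat_lit 4) (nat_lit 424) (nat_lit 354) (nat_lit 242)) (XT.nd (nat_lit 78) (nat_lit 0) (nat_lit 0) (XT.lf (nat_lit 0) (nat_lit 14949957491739) (nat_lit 76) (nat_lit 54518051544951) (nat_lit 0) (nat_lit 14921812628631) (nat_lit 1) (nat_lit 5)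 (nat_lit 2) (nat_lit 4) (nat_lit 1) (nat_lit 4) (nat_lit 425) (nat_lit 354) (nat_lit 241)) (XT.lf (nat_lit 0) (nat_lit 17427037319541) (nat_lit 76) (nat_lit 62186540115474) (nat_lit 0) (nat_lit 17398892455925) (nat_lit 1) (nat_lit 5) (nat_lit 2) (nat_lit 4) (nat_lit 1) (nat_lit 4) (nat_lit 426) (nat_lit 354) (nat_lit 240)))) (XT.nd (nat_lit 78) (nat_lit 0) (nat_lit 0) (XT.lf (nat_lit 0) (nat_lit 20275679113454) (nat_lit 76) (nat_lit 71005301988762) (nat_lit 0) (nat_lit 20247534249396) (nat_lit 1) (nat_lit 5) (nat_lit 2) (nat_lit 4) (nat_lit 1) (nat_lit 4) (nat_lit 427) (nat_lit 354) (nat_lit 239)) (XT.nd (nat_lit 78) (nat_lit 0) (nat_lit 0) (XT.lf (nat_lit 0) (nat_lit 23551617169445) (nat_lit 76) (nat_lit 81146878157988) (nat_lit 0) (nat_lit 23523472305002) (nat_lit 1) (nat_lit 5) (nat_lit 2) (nat_lit 4) (nat_lit 1) (nat_lit 4) (nat_lit 428) (nat_lit 354) (nat_lit 238)) (XT.lf (nat_lit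 0) (nat_lit 27318945927740) (nat_lit 76) (nat_lit 92809690765594) (nat_lit 0) (nat_lit 27290801062964) (nat_lit 1) (nat_lit 5) (nat_lit 2) (nat_lit 4) (nat_lit 1) (nat_lit 4) (nat_lit 429) (nat_lit 354) (nat_lit 237))))) (XT.nd (nat_lit 47424) (nat_lit 0) (nat_lit 2280) (XT.nd (nat_lit 47268) (nat_lit 0) (nat_lit 2432) (XT.lf (nat_lit 0) (nat_lit 31651373994480) (nat_lit 76) (nat_lit 106221925275641) (nat_lit 0) (nat_lit 31623229129414) (nat_lit 1) (nat_lit 5) (nat_lit 2) (nat_lit 4) (nat_lit 1) (nat_lit 4) (nat_lit 430) (nat_lit 354) (nat_lit 236)) (XT.nd (nat_lit 78) (nat_lit 0) (nat_lit 0) (XT.lf (nat_lit 0) (nat_lit 4466295590) (nat_lit 380) (nat_lit 6023257435) (nat_lit 380) (nat_lit 6023257435) (nat_lit 33) (nat_lit 3) (nat_lit 38) (nat_lit 3) (nat_lit 38) (nat_lit 5) (nat_lit 355) (nat_lit 355) (nat_lit 310)) (XT.lf (nat_lit 76) (nat_lit 4674370150) (nat_lit 0) (nat_lit 5177321707)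 (nat_lit 380) (nat_lit 25613437755) (nat_lit 34) (nat_lit 5) (nat_lit 33) (nat_lit 3) (nat_lit 38) (nat_lit 5) (nat_lit 356) (nat_lit 355) (nat_lit 309)))) (XT.nd (nat_lit 156) (nat_lit 228) (nat_lit 0) (XT.nd (nat_lit 78) (nat_lit 0) (nat_lit 0) (XT.lf (nat_lit 0) (nat_lit 12096434740) (nat_lit 304) (nat_lit 13494872231) (nat_lit 380) (nat_lit 12501098089) (nat_lit 34) (nat_lit 5) (nat_lit 38) (nat_lit 5) (nat_lit 39) (nat_lit 5) (nat_lit 357) (nat_lit 355) (nat_lit 308)) (XT.lf (nat_lit 76) (nat_lit 6742186119) (nat_lit 0) (nat_lit 8452728513) (nat_lit 380) (nat_lit 25841309461) (nat_lit 35) (nat_lit 5) (nat_lit 34) (nat_lit 5) (nat_lit 39) (nat_lit 5) (nat_lit 358) (nat_lit 355) (nat_lit 307))) (XT.nd (nat_lit 78) (nat_lit 304) (nat_lit 0) (XT.lf (nat_lit 0) (nat_lit 19955503683) (nat_lit 304) (nat_lit 13291891750) (nat_lit 76) (nat_lit 10994625281) (nat_lit 35) (nat_lit 5) (nat_lit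 39) (nat_lit 5) (nat_lit 36) (nat_lit 5) (nat_lit 359) (nat_lit 355) (nat_lit 306)) (XT.lf (nat_lit 0) (nat_lit 11472633264) (nat_lit 304) (nat_lit 14828349851) (nat_lit 380) (nat_lit 21497088024) (nat_lit 31) (nat_lit 5) (nat_lit 35) (nat_lit 5) (nat_lit 36) (nat_lit 5) (nat_lit 360) (nat_lit 355) (nat_lit 305))))))))
noncomputable def xc72 : XT := (XT.nd (nat_lit 1872) (nat_lit 608) (nat_lit 0) (XT.nd (nat_lit 936) (nat_lit 760) (nat_lit 0) (XT.nd (nat_lit 468) (nat_lit 380) (nat_lit 0) (XT.nd (nat_lit 234) (nat_lit 304) (nat_lit 0) (XT.nd (nat_lit 78) (nat_lit 152) (nat_lit 0) (XT.lf (nat_lit 0) (nat_lit 34583094029) (nat_lit 380) (nat_lit 10641225896) (nat_lit 76) (nat_lit 6515491782) (nat_lit 31) (nat_lit 5) (nat_lit 36) (nat_lit 5) (nat_lit 32) (nat_lit 5) (nat_lit 361) (nat_lit 355) (nat_lit 304)) (XT.nd (nat_lit 78) (nat_lit 0) (nat_lit 0) (XT.lf (nat_lit 0) (nat_lit 19960044803)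 (nat_lit 152) (nat_lit 25674729124) (nat_lit 228) (nat_lit 10408955074) (nat_lit 29) (nat_lit 5) (nat_lit 31) (nat_lit 5) (nat_lit 32) (nat_lit 5) (nat_lit 362) (nat_lit 355) (nat_lit 303)) (XT.lf (nat_lit 0) (nat_lit 56341285234) (nat_lit 152) (nat_lit 2554248841) (nat_lit 228) (nat_lit 2015003606) (nat_lit 29) (nat_lit 5) (nat_lit 31) (nat_lit 5) (nat_lit 32) (nat_lit 5) (nat_lit 363) (nat_lit 355) (nat_lit 302)))) (XT.nd (nat_lit 78) (nat_lit 152) (nat_lit 0) (XT.lf (nat_lit 0) (nat_lit 9456653602) (nat_lit 152) (nat_lit 32910863979) (nat_lit 76) (nat_lit 23717620501) (nat_lit 27) (nat_lit 5) (nat_lit 29) (nat_lit 5) (nat_lit 28) (nat_lit 5) (nat_lit 364) (nat_lit 355) (nat_lit 301)) (XT.nd (nat_lit 78) (nat_lit 0) (nat_lit 0) (XT.lf (nat_lit 0) (nat_lit 5332435245) (nat_lit 152) (nat_lit 17698798533) (nat_lit 228) (nat_lit 48902033023) (nat_lit 25) (nat_lit 5) (nat_lit 27) (nat_lit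 5) (nat_lit 28) (nat_lit 5) (nat_lit 365) (nat_lit 355) (nat_lit 300)) (XT.lf (nat_lit 0) (nat_lit 40882134873) (nat_lit 228) (nat_lit 25919669069) (nat_lit 76) (nat_lit 11520792535) (nat_lit 25) (nat_lit 5) (nat_lit 28) (nat_lit 5) (nat_lit 26) (nat_lit 4) (nat_lit 366) (nat_lit 355) (nat_lit 299))))) (XT.nd (nat_lit 234) (nat_lit 152) (nat_lit 0) (XT.nd (nat_lit 78) (nat_lit 152) (nat_lit 0) (XT.lf (nat_lit 0) (nat_lit 21971425073) (nat_lit 76) (nat_lit 41188393145) (nat_lit 152) (nat_lit 22248136835) (nat_lit 24) (nat_lit 5) (nat_lit 25) (nat_lit 5) (nat_lit 26) (nat_lit 4) (nat_lit 367) (nat_lit 355) (nat_lit 298)) (XT.nd (nat_lit 78) (nat_lit 152) (nat_lit 0) (XT.lf (nat_lit 0) (nat_lit 79953959298) (nat_lit 76) (nat_lit 10176875870) (nat_lit 152) (nat_lit 3222531393) (nat_lit 24) (nat_lit 5) (nat_lit 25) (nat_lit 5) (nat_lit 26) (nat_lit 4) (nat_lit 368) (nat_lit 355) (nat_lit 297))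 (XT.lf (nat_lit 0) (nat_lit 20150108573) (nat_lit 152) (nat_lit 55661454830) (nat_lit 76) (nat_lit 26090021733) (nat_lit 22) (nat_lit 5) (nat_lit 24) (nat_lit 5) (nat_lit 23) (nat_lit 4) (nat_lit 369) (nat_lit 355) (nat_lit 296)))) (XT.nd (nat_lit 78) (nat_lit 76) (nat_lit 0) (XT.lf (nat_lit 0) (nat_lit 4421819139) (nat_lit 76) (nat_lit 43675573915) (nat_lit 152) (nat_lit 63401825070) (nat_lit 21) (nat_lit 5) (nat_lit 22) (nat_lit 5) (nat_lit 23) (nat_lit 4) (nat_lit 370) (nat_lit 355) (nat_lit 295)) (XT.nd (nat_lit 78) (nat_lit 76) (nat_lit 0) (XT.lf (nat_lit 0) (nat_lit 79768440578) (nat_lit 76) (nat_lit 3375262819) (nat_lit 152) (nat_lit 38956753438) (nat_lit 21) (nat_lit 5) (nat_lit 22) (nat_lit 5) (nat_lit 23) (nat_lit 4) (nat_lit 371) (nat_lit 355) (nat_lit 294)) (XT.lf (nat_lit 0) (nat_lit 33306679797) (nat_lit 76) (nat_lit 93296365707) (nat_lit 76) (nat_lit 7215423717) (nat_lit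 20) (nat_lit 4) (nat_lit 21) (nat_lit 5) (nat_lit 21) (nat_lit 4) (nat_lit 372) (nat_lit 355) (nat_lit 293)))))) (XT.nd (nat_lit 468) (nat_lit 380) (nat_lit 0) (XT.nd (nat_lit 234) (nat_lit 152) (nat_lit 0) (XT.nd (nat_lit 78) (nat_lit 152) (nat_lit 0) (XT.lf (nat_lit 0) (nat_lit 29156329288) (nat_lit 152) (nat_lit 23396770929) (nat_lit 76) (nat_lit 94187691583) (nat_lit 19) (nat_lit 5) (nat_lit 21) (nat_lit 5) (nat_lit 20) (nat_lit 4) (nat_lit 373) (nat_lit 355) (nat_lit 292)) (XT.nd (nat_lit 78) (nat_lit 76) (nat_lit 0) (XT.lf (nat_lit 0) (nat_lit 71284289753) (nat_lit 76) (nat_lit 1910525558) (nat_lit 152) (nat_lit 87912655339) (nat_lit 18) (nat_lit 5) (nat_lit 19) (nat_lit 5) (nat_lit 20) (nat_lit 4) (nat_lit 374) (nat_lit 355) (nat_lit 291)) (XT.lf (nat_lit 0) (nat_lit 3245680142) (nat_lit 76) (nat_lit 124339486562) (nat_lit 76) (nat_lit 49482071128) (nat_lit 17) (nat_lit 4) (nat_lit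 18) (nat_lit 5) (nat_lit 18) (nat_lit 4) (nat_lit 375) (nat_lit 355) (nat_lit 290)))) (XT.nd (nat_lit 78) (nat_lit 76) (nat_lit 0) (XT.lf (nat_lit 0) (nat_lit 191663275) (nat_lit 152) (nat_lit 74446446826) (nat_lit 76) (nat_lit 120064515222) (nat_lit 16) (nat_lit 5) (nat_lit 18) (nat_lit 5) (nat_lit 17) (nat_lit 4) (nat_lit 376) (nat_lit 355) (nat_lit 289)) (XT.nd (nat_lit 78) (nat_lit 0) (nat_lit 0) (XT.lf (nat_lit 0) (nat_lit 41137605105) (nat_lit 76) (nat_lit 12814530224) (nat_lit 152) (nat_lit 160422487629) (nat_lit 15) (nat_lit 5) (nat_lit 16) (nat_lit 5) (nat_lit 17) (nat_lit 4) (nat_lit 377) (nat_lit 355) (nat_lit 288)) (XT.lf (nat_lit 0) (nat_lit 122265167648) (nat_lit 152) (nat_lit 56589744984) (nat_lit 0) (nat_lit 57169234401) (nat_lit 15) (nat_lit 5) (nat_lit 17) (nat_lit 4) (nat_lit 15) (nat_lit 4) (nat_lit 378) (nat_lit 355) (nat_lit 287))))) (XT.nd (nat_lit 234) (nat_lit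 152) (nat_lit 0) (XT.nd (nat_lit 78) (nat_lit 152) (nat_lit 0) (XT.lf (nat_lit 0) (nat_lit 84460710179) (nat_lit 76) (nat_lit 120470522255) (nat_lit 76) (nat_lit 55373955829) (nat_lit 14) (nat_lit 4) (nat_lit 15) (nat_lit 5) (nat_lit 15) (nat_lit 4) (nat_lit 379) (nat_lit 355) (nat_lit 286)) (XT.nd (nat_lit 78) (nat_lit 76) (nat_lit 0) (XT.lf (nat_lit 0) (nat_lit 13818573935) (nat_lit 152) (nat_lit 35387183054) (nat_lit 76) (nat_lit 238484906381) (nat_lit 13) (nat_lit 5) (nat_lit 15) (nat_lit 5) (nat_lit 14) (nat_lit 4) (nat_lit 380) (nat_lit 355) (nat_lit 285)) (XT.lf (nat_lit 0) (nat_lit 95081950721) (nat_lit 152) (nat_lit 184126954317) (nat_lit 0) (nat_lit 38475345686) (nat_lit 12) (nat_lit 5) (nat_lit 14) (nat_lit 4) (nat_lit 12) (nat_lit 4) (nat_lit 381) (nat_lit 355) (nat_lit 284)))) (XT.nd (nat_lit 78) (nat_lit 152) (nat_lit 0) (XT.lf (nat_lit 0) (nat_lit 192814570552) (nat_lit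 152) (nat_lit 22512741764) (nat_lit 0) (nat_lit 136207603495) (nat_lit 12) (nat_lit 5) (nat_lit 14) (nat_lit 4) (nat_lit 12) (nat_lit 4) (nat_lit 382) (nat_lit 355) (nat_lit 283)) (XT.nd (nat_lit 78) (nat_lit 76) (nat_lit 0) (XT.lf (nat_lit 0) (nat_lit 179304244119) (nat_lit 76) (nat_lit 133326346221) (nat_lit 76) (nat_lit 76719064362) (nat_lit 11) (nat_lit 4) (nat_lit 12) (nat_lit 5) (nat_lit 12) (nat_lit 4) (nat_lit 383) (nat_lit 355) (nat_lit 282)) (XT.lf (nat_lit 0) (nat_lit 17248846414) (nat_lit 152) (nat_lit 19522535808) (nat_lit 76) (nat_lit 395771252967) (nat_lit 10) (nat_lit 5) (nat_lit 12) (nat_lit 5) (nat_lit 11) (nat_lit 4) (nat_lit 384) (nat_lit 355) (nat_lit 281))))))) (XT.nd (nat_lit 936) (nat_lit 76) (nat_lit 0) (XT.nd (nat_lit 468) (nat_lit 228) (nat_lit 0) (XT.nd (nat_lit 234) (nat_lit 152) (nat_lit 0) (XT.nd (nat_lit 78) (nat_lit 76) (nat_lit 0) (XT.lf (nat_lit 0) (nat_lit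 130035266364) (nat_lit 152) (nat_lit 268933521129) (nat_lit 0) (nat_lit 80811097985) (nat_lit 9) (nat_lit 5) (nat_lit 11) (nat_lit 4) (nat_lit 9) (nat_lit 4) (nat_lit 385) (nat_lit 355) (nat_lit 280)) (XT.nd (nat_lit 78) (nat_lit 76) (nat_lit 0) (XT.lf (nat_lit 0) (nat_lit 262558812287) (nat_lit 152) (nat_lit 57786572708) (nat_lit 0) (nat_lit 213334463920) (nat_lit 9) (nat_lit 5) (nat_lit 11) (nat_lit 4) (nat_lit 9) (nat_lit 4) (nat_lit 386) (nat_lit 355) (nat_lit 279)) (XT.lf (nat_lit 0) (nat_lit 203113244500) (nat_lit 76) (nat_lit 220257308899) (nat_lit 76) (nat_lit 171032804019) (nat_lit 8) (nat_lit 4) (nat_lit 9) (nat_lit 5) (nat_lit 9) (nat_lit 4) (nat_lit 387) (nat_lit 355) (nat_lit 278)))) (XT.nd (nat_lit 78) (nat_lit 152) (nat_lit 0) (XT.lf (nat_lit 0) (nat_lit 509640816153) (nat_lit 76) (nat_lit 101683117670) (nat_lit 76) (nat_lit 52458476693) (nat_lit 8) (nat_lit 4) (nat_lit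 9) (nat_lit 5) (nat_lit 9) (nat_lit 4) (nat_lit 388) (nat_lit 355) (nat_lit 277)) (XT.nd (nat_lit 78) (nat_lit 0) (nat_lit 0) (XT.lf (nat_lit 0) (nat_lit 83514183620) (nat_lit 152) (nat_lit 617760704463) (nat_lit 0) (nat_lit 40710045078) (nat_lit 6) (nat_lit 5) (nat_lit 8) (nat_lit 4) (nat_lit 6) (nat_lit 4) (nat_lit 389) (nat_lit 355) (nat_lit 276)) (XT.lf (nat_lit 0) (nat_lit 247794423784) (nat_lit 152) (nat_lit 376766146843) (nat_lit 0) (nat_lit 204990195755) (nat_lit 6) (nat_lit 5) (nat_lit 8) (nat_lit 4) (nat_lit 6) (nat_lit 4) (nat_lit 390) (nat_lit 355) (nat_lit 275))))) (XT.nd (nat_lit 234) (nat_lit 152) (nat_lit 0) (XT.nd (nat_lit 78) (nat_lit 76) (nat_lit 0) (XT.lf (nat_lit 0) (nat_lit 436716081776) (nat_lit 152) (nat_lit 99623709629) (nat_lit 0) (nat_lit 393911775933) (nat_lit 6) (nat_lit 5) (nat_lit 8) (nat_lit 4) (nat_lit 6) (nat_lit 4) (nat_lit 391) (nat_lit 355) (nat_lit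 274)) (XT.nd (nat_lit 78) (nat_lit 0) (nat_lit 0) (XT.lf (nat_lit 0) (nat_lit 240499925677) (nat_lit 76) (nat_lit 423434114282) (nat_lit 76) (nat_lit 380629740775) (nat_lit 5) (nat_lit 4) (nat_lit 6) (nat_lit 5) (nat_lit 6) (nat_lit 4) (nat_lit 392) (nat_lit 355) (nat_lit 273)) (XT.lf (nat_lit 0) (nat_lit 642837370326) (nat_lit 76) (nat_lit 287604412283) (nat_lit 76) (nat_lit 244799979938) (nat_lit 5) (nat_lit 4) (nat_lit 6) (nat_lit 5) (nat_lit 6) (nat_lit 4) (nat_lit 393) (nat_lit 355) (nat_lit 272)))) (XT.nd (nat_lit 78) (nat_lit 152) (nat_lit 0) (XT.lf (nat_lit 0) (nat_lit 1105524490443) (nat_lit 76) (nat_lit 131400750765) (nat_lit 76) (nat_lit 88596267255) (nat_lit 5) (nat_lit 4) (nat_lit 6) (nat_lit 5) (nat_lit 6) (nat_lit 4) (nat_lit 394) (nat_lit 355) (nat_lit 271)) (XT.nd (nat_lit 78) (nat_lit 0) (nat_lit 0) (XT.lf (nat_lit 0) (nat_lit 91561923543) (nat_lit 152) (nat_lit 1350580931399)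 (nat_lit 0) (nat_lit 54340594847) (nat_lit 3) (nat_lit 5) (nat_lit 5) (nat_lit 4) (nat_lit 3) (nat_lit 4) (nat_lit 395) (nat_lit 355) (nat_lit 270)) (XT.lf (nat_lit 0) (nat_lit 307977502406) (nat_lit 152) (nat_lit 1110977574918) (nat_lit 0) (nat_lit 270756140069) (nat_lit 3) (nat_lit 5) (nat_lit 5) (nat_lit 4) (nat_lit 3) (nat_lit 4) (nat_lit 396) (nat_lit 355) (nat_lit 269)))))) (XT.nd (nat_lit 468) (nat_lit 0) (nat_lit 0) (XT.nd (nat_lit 234) (nat_lit 76) (nat_lit 0) (XT.nd (nat_lit 78) (nat_lit 0) (nat_lit 0) (XT.lf (nat_lit 0) (nat_lit 556855066193) (nat_lit 152) (nat_lit 835434462139) (nat_lit 0) (nat_lit 519633674603) (nat_lit 3) (nat_lit 5) (nat_lit 5) (nat_lit 4) (nat_lit 3) (nat_lit 4) (nat_lit 397) (nat_lit 355) (nat_lit 268)) (XT.nd (nat_lit 78) (nat_lit 0) (nat_lit 0) (XT.lf (nat_lit 0) (nat_lit 843063958542) (nat_lit 152) (nat_lit 518560532158) (nat_lit 0) (nat_lit 805842541514)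 (nat_lit 3) (nat_lit 5) (nat_lit 5) (nat_lit 4) (nat_lit 3) (nat_lit 4) (nat_lit 398) (nat_lit 355) (nat_lit 267)) (XT.lf (nat_lit 0) (nat_lit 1172203918652) (nat_lit 152) (nat_lit 154156077651) (nat_lit 0) (nat_lit 1134982479504) (nat_lit 3) (nat_lit 5) (nat_lit 5) (nat_lit 4) (nat_lit 3) (nat_lit 4) (nat_lit 399) (nat_lit 355) (nat_lit 266)))) (XT.nd (nat_lit 78) (nat_lit 0) (nat_lit 0) (XT.lf (nat_lit 0) (nat_lit 290797344233) (nat_lit 76) (nat_lit 1271958595057) (nat_lit 76) (nat_lit 1234737136675) (nat_lit 2) (nat_lit 4) (nat_lit 3) (nat_lit 5) (nat_lit 3) (nat_lit 4) (nat_lit 400) (nat_lit 355) (nat_lit 265)) (XT.nd (nat_lit 78) (nat_lit 0) (nat_lit 0) (XT.lf (nat_lit 0) (nat_lit 819818351453) (nat_lit 76) (nat_lit 1200130349556) (nat_lit 76) (nat_lit 1162908874448) (nat_lit 2) (nat_lit 4) (nat_lit 3) (nat_lit 5) (nat_lit 3) (nat_lit 4) (nat_lit 401) (nat_lit 355) (nat_lit 264))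 (XT.lf (nat_lit 0) (nat_lit 1428192101976) (nat_lit 76) (nat_lit 1117528083164) (nat_lit 76) (nat_lit 1080306593513) (nat_lit 2) (nat_lit 4) (nat_lit 3) (nat_lit 5) (nat_lit 3) (nat_lit 4) (nat_lit 402) (nat_lit 355) (nat_lit 263))))) (XT.nd (nat_lit 234) (nat_lit 0) (nat_lit 0) (XT.nd (nat_lit 78) (nat_lit 0) (nat_lit 0) (XT.lf (nat_lit 0) (nat_lit 2127821560484) (nat_lit 76) (nat_lit 1022535664585) (nat_lit 76) (nat_lit 985314162286) (nat_lit 2) (nat_lit 4) (nat_lit 3) (nat_lit 5) (nat_lit 3) (nat_lit 4) (nat_lit 403) (nat_lit 355) (nat_lit 262)) (XT.nd (nat_lit 78) (nat_lit 0) (nat_lit 0) (XT.lf (nat_lit 0) (nat_lit 2932395129429) (nat_lit 76) (nat_lit 913294546496) (nat_lit 76) (nat_lit 876073033200) (nat_lit 2) (nat_lit 4) (nat_lit 3) (nat_lit 5) (nat_lit 3) (nat_lit 4) (nat_lit 404) (nat_lit 355) (nat_lit 261)) (XT.lf (nat_lit 0) (nat_lit 3857654465592) (nat_lit 76) (nat_lit 787667402675)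 (nat_lit 76) (nat_lit 750445879816) (nat_lit 2) (nat_lit 4) (nat_lit 3) (nat_lit 5) (nat_lit 3) (nat_lit 4) (nat_lit 405) (nat_lit 355) (nat_lit 260)))) (XT.nd (nat_lit 156) (nat_lit 0) (nat_lit 0) (XT.nd (nat_lit 78) (nat_lit 0) (nat_lit 0) (XT.lf (nat_lit 0) (nat_lit 4921702469030) (nat_lit 76) (nat_lit 643196310744) (nat_lit 76) (nat_lit 605974779569) (nat_lit 2) (nat_lit 4) (nat_lit 3) (nat_lit 5) (nat_lit 3) (nat_lit 4) (nat_lit 406) (nat_lit 355) (nat_lit 259)) (XT.lf (nat_lit 0) (nat_lit 6145357470245) (nat_lit 76) (nat_lit 477054662380) (nat_lit 76) (nat_lit 439833123975) (nat_lit 2) (nat_lit 4) (nat_lit 3) (nat_lit 5) (nat_lit 3) (nat_lit 4) (nat_lit 407) (nat_lit 355) (nat_lit 258))) (XT.nd (nat_lit 78) (nat_lit 0) (nat_lit 0) (XT.lf (nat_lit 0) (nat_lit 7552560545347) (nat_lit 76) (nat_lit 285991860117) (nat_lit 76) (nat_lit 248770315424) (nat_lit 2) (nat_lit 4) (nat_lit 3)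 (nat_lit 5) (nat_lit 3) (nat_lit 4) (nat_lit 408) (nat_lit 355) (nat_lit 257)) (XT.lf (nat_lit 0) (nat_lit 9170843928415) (nat_lit 76) (nat_lit 66269718693) (nat_lit 76) (nat_lit 29048168532) (nat_lit 2) (nat_lit 4) (nat_lit 3) (nat_lit 5) (nat_lit 3) (nat_lit 4) (nat_lit 409) (nat_lit 355) (nat_lit 256))))))))
noncomputable def xc73 : XT := (XT.nd (nat_lit 48984) (nat_lit 0) (nat_lit 912) (XT.nd (nat_lit 936) (nat_lit 0) (nat_lit 0) (XT.nd (nat_lit 468) (nat_lit 0) (nat_lit 0) (XT.nd (nat_lit 234) (nat_lit 0) (nat_lit 0) (XT.nd (nat_lit 78) (nat_lit 0) (nat_lit 0) (XT.lf (nat_lit 0) (nat_lit 230967661787) (nat_lit 76) (nat_lit 10186782301740) (nat_lit 0) (nat_lit 198601092296) (nat_lit 1) (nat_lit 5) (nat_lit 2) (nat_lit 4) (nat_lit 1) (nat_lit 4) (nat_lit 410) (nat_lit 355) (nat_lit 255)) (XT.nd (nat_lit 78) (nat_lit 0) (nat_lit 0) (XT.lf (nat_lit 0) (nat_lit 535387311865) (nat_lit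 76) (nat_lit 11129196830817) (nat_lit 0) (nat_lit 503020738778) (nat_lit 1) (nat_lit 5) (nat_lit 2) (nat_lit 4) (nat_lit 1) (nat_lit 4) (nat_lit 411) (nat_lit 355) (nat_lit 254)) (XT.lf (nat_lit 0) (nat_lit 885469852425) (nat_lit 76) (nat_lit 12212973660862) (nat_lit 0) (nat_lit 853103276213) (nat_lit 1) (nat_lit 5) (nat_lit 2) (nat_lit 4) (nat_lit 1) (nat_lit 4) (nat_lit 412) (nat_lit 355) (nat_lit 253)))) (XT.nd (nat_lit 78) (nat_lit 0) (nat_lit 0) (XT.lf (nat_lit 0) (nat_lit 1288064724479) (nat_lit 76) (nat_lit 13459317121157) (nat_lit 0) (nat_lit 1255698145548) (nat_lit 1) (nat_lit 5) (nat_lit 2) (nat_lit 4) (nat_lit 1) (nat_lit 4) (nat_lit 413) (nat_lit 355) (nat_lit 252)) (XT.nd (nat_lit 78) (nat_lit 0) (nat_lit 0) (XT.lf (nat_lit 0) (nat_lit 1751048784219) (nat_lit 76) (nat_lit 14892612192448) (nat_lit 0) (nat_lit 1718682202924) (nat_lit 1) (nat_lit 5) (nat_lit 2) (nat_lit 4) (nat_lit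 1) (nat_lit 4) (nat_lit 414) (nat_lit 355) (nat_lit 251)) (XT.lf (nat_lit 0) (nat_lit 2283480415422) (nat_lit 76) (nat_lit 16540901604389) (nat_lit 0) (nat_lit 2251113832072) (nat_lit 1) (nat_lit 5) (nat_lit 2) (nat_lit 4) (nat_lit 1) (nat_lit 4) (nat_lit 415) (nat_lit 355) (nat_lit 250))))) (XT.nd (nat_lit 234) (nat_lit 0) (nat_lit 0) (XT.nd (nat_lit 78) (nat_lit 0) (nat_lit 0) (XT.lf (nat_lit 0) (nat_lit 2895776758699) (nat_lit 76) (nat_lit 18436434497650) (nat_lit 0) (nat_lit 2863410173561) (nat_lit 1) (nat_lit 5) (nat_lit 2) (nat_lit 4) (nat_lit 1) (nat_lit 4) (nat_lit 416) (nat_lit 355) (nat_lit 249)) (XT.nd (nat_lit 78) (nat_lit 0) (nat_lit 0) (XT.lf (nat_lit 0) (nat_lit 3599917525115) (nat_lit 76) (nat_lit 20616297385360) (nat_lit 0) (nat_lit 3567550938422) (nat_lit 1) (nat_lit 5) (nat_lit 2) (nat_lit 4) (nat_lit 1) (nat_lit 4) (nat_lit 417) (nat_lit 355) (nat_lit 248)) (XT.lf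 (nat_lit 0) (nat_lit 4409679381837) (nat_lit 76) (nat_lit 23123139758799) (nat_lit 0) (nat_lit 4377312793793) (nat_lit 1) (nat_lit 5) (nat_lit 2) (nat_lit 4) (nat_lit 1) (nat_lit 4) (nat_lit 418) (nat_lit 355) (nat_lit 247)))) (XT.nd (nat_lit 78) (nat_lit 0) (nat_lit 0) (XT.lf (nat_lit 0) (nat_lit 5340905495628) (nat_lit 76) (nat_lit 26006008533970) (nat_lit 0) (nat_lit 5308538906409) (nat_lit 1) (nat_lit 5) (nat_lit 2) (nat_lit 4) (nat_lit 1) (nat_lit 4) (nat_lit 419) (nat_lit 355) (nat_lit 246)) (XT.nd (nat_lit 78) (nat_lit 0) (nat_lit 0) (XT.lf (nat_lit 0) (nat_lit 6411815507845) (nat_lit 76) (nat_lit 29321307665169) (nat_lit 0) (nat_lit 6379448917604) (nat_lit 1) (nat_lit 5) (nat_lit 2) (nat_lit 4) (nat_lit 1) (nat_lit 4) (nat_lit 420) (nat_lit 355) (nat_lit 245)) (XT.lf (nat_lit 0) (nat_lit 7643362005683) (nat_lit 76) (nat_lit 33133901700617) (nat_lit 0) (nat_lit 7610995414553) (nat_lit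 1) (nat_lit 5) (nat_lit 2) (nat_lit 4) (nat_lit 1) (nat_lit 4) (nat_lit 421) (nat_lit 355) (nat_lit 244)))))) (XT.nd (nat_lit 468) (nat_lit 0) (nat_lit 0) (XT.nd (nat_lit 234) (nat_lit 0) (nat_lit 0) (XT.nd (nat_lit 78) (nat_lit 0) (nat_lit 0) (XT.lf (nat_lit 0) (nat_lit 9059640464100) (nat_lit 76) (nat_lit 37518384871440) (nat_lit 0) (nat_lit 9027273872198) (nat_lit 1) (nat_lit 5) (nat_lit 2) (nat_lit 4) (nat_lit 1) (nat_lit 4) (nat_lit 422) (nat_lit 355) (nat_lit 243)) (XT.nd (nat_lit 78) (nat_lit 0) (nat_lit 0) (XT.lf (nat_lit 0) (nat_lit 10688360679022) (nat_lit 76) (nat_lit 42560540544025) (nat_lit 0) (nat_lit 10655994086448) (nat_lit 1) (nat_lit 5) (nat_lit 2) (nat_lit 4) (nat_lit 1) (nat_lit 4) (nat_lit 423) (nat_lit 355) (nat_lit 242)) (XT.lf (nat_lit 0) (nat_lit 12561388915523) (nat_lit 76) (nat_lit 48359019590227) (nat_lit 0) (nat_lit 12529022322364) (nat_lit 1) (nat_lit 5)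 (nat_lit 2) (nat_lit 4) (nat_lit 1) (nat_lit 4) (nat_lit 424) (nat_lit 355) (nat_lit 241)))) (XT.nd (nat_lit 78) (nat_lit 0) (nat_lit 0) (XT.lf (nat_lit 0) (nat_lit 14715371378230) (nat_lit 76) (nat_lit 55027270513123) (nat_lit 0) (nat_lit 14683004784563) (nat_lit 1) (nat_lit 5) (nat_lit 2) (nat_lit 4) (nat_lit 1) (nat_lit 4) (nat_lit 425) (nat_lit 355) (nat_lit 240)) (XT.nd (nat_lit 78) (nat_lit 0) (nat_lit 0) (XT.lf (nat_lit 0) (nat_lit 17192451202283) (nat_lit 76) (nat_lit 62695759091641) (nat_lit 0) (nat_lit 17160084608175) (nat_lit 1) (nat_lit 5) (nat_lit 2) (nat_lit 4) (nat_lit 1) (nat_lit 4) (nat_lit 426) (nat_lit 355) (nat_lit 239)) (XT.lf (nat_lit 0) (nat_lit 20041092992936) (nat_lit 76) (nat_lit 71514520971880) (nat_lit 0) (nat_lit 20008726398444) (nat_lit 1) (nat_lit 5) (nat_lit 2) (nat_lit 4) (nat_lit 1) (nat_lit 4) (nat_lit 427) (nat_lit 355) (nat_lit 238))))) (XT.nd (nat_lit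 234) (nat_lit 0) (nat_lit 0) (XT.nd (nat_lit 78) (nat_lit 0) (nat_lit 0) (XT.lf (nat_lit 0) (nat_lit 23317031046093) (nat_lit 76) (nat_lit 81656097147150) (nat_lit 0) (nat_lit 23284664451266) (nat_lit 1) (nat_lit 5) (nat_lit 2) (nat_lit 4) (nat_lit 1) (nat_lit 4) (nat_lit 428) (nat_lit 355) (nat_lit 237)) (XT.nd (nat_lit 78) (nat_lit 0) (nat_lit 0) (XT.lf (nat_lit 0) (nat_lit 27084359801923) (nat_lit 76) (nat_lit 93318909760012) (nat_lit 0) (nat_lit 27051993206806) (nat_lit 1) (nat_lit 5) (nat_lit 2) (nat_lit 4) (nat_lit 1) (nat_lit 4) (nat_lit 429) (nat_lit 355) (nat_lit 236)) (XT.lf (nat_lit 0) (nat_lit 31416787866520) (nat_lit 76) (nat_lit 106731144274629) (nat_lit 0) (nat_lit 31384421271150) (nat_lit 1) (nat_lit 5) (nat_lit 2) (nat_lit 4) (nat_lit 1) (nat_lit 4) (nat_lit 430) (nat_lit 355) (nat_lit 235)))) (XT.nd (nat_lit 78) (nat_lit 0) (nat_lit 0) (XT.lf (nat_lit 0) (nat_lit 36399080136799)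 (nat_lit 76) (nat_lit 122155213974983) (nat_lit 0) (nat_lit 36366713541210) (nat_lit 1) (nat_lit 5) (nat_lit 2) (nat_lit 4) (nat_lit 1) (nat_lit 4) (nat_lit 431) (nat_lit 355) (nat_lit 234)) (XT.nd (nat_lit 47190) (nat_lit 0) (nat_lit 2432) (XT.lf (nat_lit 0) (nat_lit 42128716244135) (nat_lit 76) (nat_lit 139892894137820) (nat_lit 0) (nat_lit 42096349648355) (nat_lit 1) (nat_lit 5) (nat_lit 2) (nat_lit 4) (nat_lit 1) (nat_lit 4) (nat_lit 432) (nat_lit 355) (nat_lit 233)) (XT.lf (nat_lit 0) (nat_lit 5189538263) (nat_lit 380) (nat_lit 6896080610) (nat_lit 380) (nat_lit 6896080610) (nat_lit 33) (nat_lit 3) (nat_lit 38) (nat_lit 3) (nat_lit 38) (nat_lit 5) (nat_lit 356) (nat_lit 356) (nat_lit 308))))))) (XT.nd (nat_lit 936) (nat_lit 836) (nat_lit 0) (XT.nd (nat_lit 468) (nat_lit 532) (nat_lit 0) (XT.nd (nat_lit 234) (nat_lit 152) (nat_lit 0) (XT.nd (nat_lit 78) (nat_lit 0) (nat_lit 76) (XT.lf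 (nat_lit 76) (nat_lit 5434068787) (nat_lit 0) (nat_lit 5990493750) (nat_lit 380) (nat_lit 29346003249) (nat_lit 34) (nat_lit 5) (nat_lit 33) (nat_lit 3) (nat_lit 38) (nat_lit 5) (nat_lit 357) (nat_lit 356) (nat_lit 307)) (XT.nd (nat_lit 78) (nat_lit 0) (nat_lit 0) (XT.lf (nat_lit 0) (nat_lit 13992293393) (nat_lit 304) (nat_lit 15454415392) (nat_lit 380) (nat_lit 14347290858) (nat_lit 34) (nat_lit 5) (nat_lit 38) (nat_lit 5) (nat_lit 39) (nat_lit 5) (nat_lit 358) (nat_lit 356) (nat_lit 306)) (XT.lf (nat_lit 76) (nat_lit 7815261362) (nat_lit 0) (nat_lit 9732224197) (nat_lit 380) (nat_lit 29633122385) (nat_lit 35) (nat_lit 5) (nat_lit 34) (nat_lit 5) (nat_lit 39) (nat_lit 5) (nat_lit 359) (nat_lit 356) (nat_lit 305)))) (XT.nd (nat_lit 78) (nat_lit 304) (nat_lit 0) (XT.lf (nat_lit 0) (nat_lit 23012180508) (nat_lit 304) (nat_lit 15221956506) (nat_lit 76) (nat_lit 12634640895) (nat_lit 35)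 (nat_lit 5) (nat_lit 39) (nat_lit 5) (nat_lit 36) (nat_lit 5) (nat_lit 360) (nat_lit 356) (nat_lit 304)) (XT.nd (nat_lit 78) (nat_lit 0) (nat_lit 0) (XT.lf (nat_lit 0) (nat_lit 13254350941) (nat_lit 304) (nat_lit 17049386242) (nat_lit 380) (nat_lit 24655366053) (nat_lit 31) (nat_lit 5) (nat_lit 35) (nat_lit 5) (nat_lit 36) (nat_lit 5) (nat_lit 361) (nat_lit 356) (nat_lit 303)) (XT.lf (nat_lit 0) (nat_lit 39820766631) (nat_lit 380) (nat_lit 12177089703) (nat_lit 76) (nat_lit 7495363174) (nat_lit 31) (nat_lit 5) (nat_lit 36) (nat_lit 5) (nat_lit 32) (nat_lit 5) (nat_lit 362) (nat_lit 356) (nat_lit 302))))) (XT.nd (nat_lit 234) (nat_lit 228) (nat_lit 0) (XT.nd (nat_lit 78) (nat_lit 152) (nat_lit 0) (XT.lf (nat_lit 0) (nat_lit 23011629779) (nat_lit 152) (nat_lit 29514403992) (nat_lit 228) (nat_lit 11917319597) (nat_lit 29) (nat_lit 5) (nat_lit 31) (nat_lit 5) (nat_lit 32) (nat_lit 5) (nat_lit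 363) (nat_lit 356) (nat_lit 301)) (XT.nd (nat_lit 78) (nat_lit 152) (nat_lit 0) (XT.lf (nat_lit 0) (nat_lit 64842546068) (nat_lit 152) (nat_lit 2927356167) (nat_lit 228) (nat_lit 2271185679) (nat_lit 29) (nat_lit 5) (nat_lit 31) (nat_lit 5) (nat_lit 32) (nat_lit 5) (nat_lit 364) (nat_lit 356) (nat_lit 300)) (XT.lf (nat_lit 0) (nat_lit 10914328869) (nat_lit 152) (nat_lit 37790494113) (nat_lit 76) (nat_lit 27287190544) (nat_lit 27) (nat_lit 5) (nat_lit 29) (nat_lit 5) (nat_lit 28) (nat_lit 5) (nat_lit 365) (nat_lit 356) (nat_lit 299)))) (XT.nd (nat_lit 78) (nat_lit 76) (nat_lit 0) (XT.lf (nat_lit 0) (nat_lit 6186709110) (nat_lit 152) (nat_lit 20335529831) (nat_lit 228) (nat_lit 56195553617) (nat_lit 25) (nat_lit 5) (nat_lit 27) (nat_lit 5) (nat_lit 28) (nat_lit 5) (nat_lit 366) (nat_lit 356) (nat_lit 298)) (XT.nd (nat_lit 78) (nat_lit 76) (nat_lit 0) (XT.lf (nat_lit 0) (nat_lit 47046689106)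 (nat_lit 228) (nat_lit 29756207398) (nat_lit 76) (nat_lit 13263240216) (nat_lit 25) (nat_lit 5) (nat_lit 28) (nat_lit 5) (nat_lit 26) (nat_lit 4) (nat_lit 367) (nat_lit 356) (nat_lit 297)) (XT.lf (nat_lit 0) (nat_lit 25316213954) (nat_lit 76) (nat_lit 47347638659) (nat_lit 152) (nat_lit 25550774162) (nat_lit 24) (nat_lit 5) (nat_lit 25) (nat_lit 5) (nat_lit 26) (nat_lit 4) (nat_lit 368) (nat_lit 356) (nat_lit 296)))))) (XT.nd (nat_lit 468) (nat_lit 456) (nat_lit 0) (XT.nd (nat_lit 234) (nat_lit 152) (nat_lit 0) (XT.nd (nat_lit 78) (nat_lit 228) (nat_lit 0) (XT.lf (nat_lit 0) (nat_lit 91989727210) (nat_lit 76) (nat_lit 11686873809) (nat_lit 152) (nat_lit 3675838756) (nat_lit 24) (nat_lit 5) (nat_lit 25) (nat_lit 5) (nat_lit 26) (nat_lit 4) (nat_lit 369) (nat_lit 356) (nat_lit 295)) (XT.nd (nat_lit 78) (nat_lit 76) (nat_lit 0) (XT.lf (nat_lit 0) (nat_lit 23198971847) (nat_lit 152) (nat_lit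 63964256309) (nat_lit 76) (nat_lit 30019634623) (nat_lit 22) (nat_lit 5) (nat_lit 24) (nat_lit 5) (nat_lit 23) (nat_lit 4) (nat_lit 370) (nat_lit 356) (nat_lit 294)) (XT.lf (nat_lit 0) (nat_lit 5129398903) (nat_lit 76) (nat_lit 50207348188) (nat_lit 152) (nat_lit 72883634967) (nat_lit 21) (nat_lit 5) (nat_lit 22) (nat_lit 5) (nat_lit 23) (nat_lit 4) (nat_lit 371) (nat_lit 356) (nat_lit 293)))) (XT.nd (nat_lit 78) (nat_lit 152) (nat_lit 0) (XT.lf (nat_lit 0) (nat_lit 91772234397) (nat_lit 76) (nat_lit 3864541968) (nat_lit 152) (nat_lit 44775515268) (nat_lit 21) (nat_lit 5) (nat_lit 22) (nat_lit 5) (nat_lit 23) (nat_lit 4) (nat_lit 372) (nat_lit 356) (nat_lit 292)) (XT.nd (nat_lit 78) (nat_lit 76) (nat_lit 0) (XT.lf (nat_lit 0) (nat_lit 38341872636) (nat_lit 76) (nat_lit 107272575825) (nat_lit 76) (nat_lit 8273643913) (nat_lit 20) (nat_lit 4) (nat_lit 21) (nat_lit 5) (nat_lit 21) (nat_lit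 4) (nat_lit 373) (nat_lit 356) (nat_lit 291)) (XT.lf (nat_lit 0) (nat_lit 33548864250) (nat_lit 152) (nat_lit 26870338355) (nat_lit 76) (nat_lit 108329841114) (nat_lit 19) (nat_lit 5) (nat_lit 21) (nat_lit 5) (nat_lit 20) (nat_lit 4) (nat_lit 374) (nat_lit 356) (nat_lit 290))))) (XT.nd (nat_lit 234) (nat_lit 228) (nat_lit 0) (XT.nd (nat_lit 78) (nat_lit 152) (nat_lit 0) (XT.lf (nat_lit 0) (nat_lit 82011247420) (nat_lit 76) (nat_lit 2180807213) (nat_lit 152) (nat_lit 101078830569) (nat_lit 18) (nat_lit 5) (nat_lit 19) (nat_lit 5) (nat_lit 20) (nat_lit 4) (nat_lit 375) (nat_lit 356) (nat_lit 289)) (XT.nd (nat_lit 78) (nat_lit 76) (nat_lit 0) (XT.lf (nat_lit 0) (nat_lit 3767225518) (nat_lit 76) (nat_lit 142973406558) (nat_lit 76) (nat_lit 56884034839) (nat_lit 17) (nat_lit 4) (nat_lit 18) (nat_lit 5) (nat_lit 18) (nat_lit 4) (nat_lit 376) (nat_lit 356) (nat_lit 288)) (XT.lf (nat_lit 0) (nat_lit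 236530619) (nat_lit 152) (nat_lit 85581668266) (nat_lit 76) (nat_lit 138087400262) (nat_lit 16) (nat_lit 5) (nat_lit 18) (nat_lit 5) (nat_lit 17) (nat_lit 4) (nat_lit 377) (nat_lit 356) (nat_lit 287)))) (XT.nd (nat_lit 156) (nat_lit 152) (nat_lit 0) (XT.nd (nat_lit 78) (nat_lit 0) (nat_lit 0) (XT.lf (nat_lit 0) (nat_lit 47338548473) (nat_lit 76) (nat_lit 14721677445) (nat_lit 152) (nat_lit 184468297943) (nat_lit 15) (nat_lit 5) (nat_lit 16) (nat_lit 5) (nat_lit 17) (nat_lit 4) (nat_lit 378) (nat_lit 356) (nat_lit 286)) (XT.lf (nat_lit 0) (nat_lit 140618762575) (nat_lit 152) (nat_lit 65050404396) (nat_lit 0) (nat_lit 65756527416) (nat_lit 15) (nat_lit 5) (nat_lit 17) (nat_lit 4) (nat_lit 15) (nat_lit 4) (nat_lit 379) (nat_lit 356) (nat_lit 285))) (XT.nd (nat_lit 78) (nat_lit 76) (nat_lit 0) (XT.lf (nat_lit 0) (nat_lit 97156355300) (nat_lit 76) (nat_lit 138527678105) (nat_lit 76) (nat_lit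 63664964172) (nat_lit 14) (nat_lit 4) (nat_lit 15) (nat_lit 5) (nat_lit 15) (nat_lit 4) (nat_lit 380) (nat_lit 356) (nat_lit 284)) (XT.lf (nat_lit 0) (nat_lit 15903309641) (nat_lit 152) (nat_lit 40671014529) (nat_lit 76) (nat_lit 274268145122) (nat_lit 13) (nat_lit 5) (nat_lit 15) (nat_lit 5) (nat_lit 14) (nat_lit 4) (nat_lit 381) (nat_lit 356) (nat_lit 283))))))))
noncomputable def xc74 : XT := (XT.nd (nat_lit 1872) (nat_lit 76) (nat_lit 0) (XT.nd (nat_lit 936) (nat_lit 228) (nat_lit 0) (XT.nd (nat_lit 468) (nat_lit 304) (nat_lit 0) (XT.nd (nat_lit 234) (nat_lit 152) (nat_lit 0) (XT.nd (nat_lit 78) (nat_lit 76) (nat_lit 0) (XT.lf (nat_lit 0) (nat_lit 109356081028) (nat_lit 152) (nat_lit 211721638571) (nat_lit 0) (nat_lit 44257392088) (nat_lit 12) (nat_lit 5) (nat_lit 14) (nat_lit 4) (nat_lit 12) (nat_lit 4) (nat_lit 382) (nat_lit 356) (nat_lit 282)) (XT.nd (nat_lit 78) (nat_lit 76) (nat_lit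 0) (XT.lf (nat_lit 0) (nat_lit 221747049785) (nat_lit 152) (nat_lit 25868471382) (nat_lit 0) (nat_lit 156648087104) (nat_lit 12) (nat_lit 5) (nat_lit 14) (nat_lit 4) (nat_lit 12) (nat_lit 4) (nat_lit 383) (nat_lit 356) (nat_lit 281)) (XT.lf (nat_lit 0) (nat_lit 206220099582) (nat_lit 76) (nat_lit 153314867529) (nat_lit 76) (nat_lit 88215666813) (nat_lit 11) (nat_lit 4) (nat_lit 12) (nat_lit 5) (nat_lit 12) (nat_lit 4) (nat_lit 384) (nat_lit 356) (nat_lit 280)))) (XT.nd (nat_lit 78) (nat_lit 76) (nat_lit 0) (XT.lf (nat_lit 0) (nat_lit 19845090776) (nat_lit 152) (nat_lit 22432462534) (nat_lit 76) (nat_lit 455145138980) (nat_lit 10) (nat_lit 5) (nat_lit 12) (nat_lit 5) (nat_lit 11) (nat_lit 4) (nat_lit 385) (nat_lit 356) (nat_lit 279)) (XT.nd (nat_lit 78) (nat_lit 0) (nat_lit 0) (XT.lf (nat_lit 0) (nat_lit 149549418075) (nat_lit 152) (nat_lit 309255039517) (nat_lit 0) (nat_lit 92941080951)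 (nat_lit 9) (nat_lit 5) (nat_lit 11) (nat_lit 4) (nat_lit 9) (nat_lit 4) (nat_lit 386) (nat_lit 356) (nat_lit 278)) (XT.lf (nat_lit 0) (nat_lit 301950340005) (nat_lit 152) (nat_lit 66438463153) (nat_lit 0) (nat_lit 245341866784) (nat_lit 9) (nat_lit 5) (nat_lit 11) (nat_lit 4) (nat_lit 9) (nat_lit 4) (nat_lit 387) (nat_lit 356) (nat_lit 277))))) (XT.nd (nat_lit 234) (nat_lit 76) (nat_lit 0) (XT.nd (nat_lit 78) (nat_lit 152) (nat_lit 0) (XT.lf (nat_lit 0) (nat_lit 233595595025) (nat_lit 76) (nat_lit 253287878329) (nat_lit 76) (nat_lit 196679286762) (nat_lit 8) (nat_lit 4) (nat_lit 9) (nat_lit 5) (nat_lit 9) (nat_lit 4) (nat_lit 388) (nat_lit 356) (nat_lit 276)) (XT.nd (nat_lit 78) (nat_lit 152) (nat_lit 0) (XT.lf (nat_lit 0) (nat_lit 586100298445) (nat_lit 76) (nat_lit 116928605404) (nat_lit 76) (nat_lit 60319910927) (nat_lit 8) (nat_lit 4) (nat_lit 9) (nat_lit 5) (nat_lit 9) (nat_lit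 4) (nat_lit 389) (nat_lit 356) (nat_lit 275)) (XT.lf (nat_lit 0) (nat_lit 96047967554) (nat_lit 152) (nat_lit 710410768856) (nat_lit 0) (nat_lit 46822938021) (nat_lit 6) (nat_lit 5) (nat_lit 8) (nat_lit 4) (nat_lit 6) (nat_lit 4) (nat_lit 390) (nat_lit 356) (nat_lit 274)))) (XT.nd (nat_lit 78) (nat_lit 76) (nat_lit 0) (XT.lf (nat_lit 0) (nat_lit 284969375517) (nat_lit 152) (nat_lit 433268859064) (nat_lit 0) (nat_lit 235744278320) (nat_lit 6) (nat_lit 5) (nat_lit 8) (nat_lit 4) (nat_lit 6) (nat_lit 4) (nat_lit 391) (nat_lit 356) (nat_lit 273)) (XT.nd (nat_lit 78) (nat_lit 76) (nat_lit 0) (XT.lf (nat_lit 0) (nat_lit 502228527230) (nat_lit 152) (nat_lit 114556648852) (nat_lit 0) (nat_lit 453003371194) (nat_lit 6) (nat_lit 5) (nat_lit 8) (nat_lit 4) (nat_lit 6) (nat_lit 4) (nat_lit 392) (nat_lit 356) (nat_lit 272)) (XT.lf (nat_lit 0) (nat_lit 276585049150) (nat_lit 76) (nat_lit 486943893142)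 (nat_lit 76) (nat_lit 437718685941) (nat_lit 5) (nat_lit 4) (nat_lit 6) (nat_lit 5) (nat_lit 6) (nat_lit 4) (nat_lit 393) (nat_lit 356) (nat_lit 271)))))) (XT.nd (nat_lit 468) (nat_lit 76) (nat_lit 0) (XT.nd (nat_lit 234) (nat_lit 0) (nat_lit 0) (XT.nd (nat_lit 78) (nat_lit 152) (nat_lit 0) (XT.lf (nat_lit 0) (nat_lit 739271788589) (nat_lit 76) (nat_lit 330740432141) (nat_lit 76) (nat_lit 281515180450) (nat_lit 5) (nat_lit 4) (nat_lit 6) (nat_lit 5) (nat_lit 6) (nat_lit 4) (nat_lit 394) (nat_lit 356) (nat_lit 270)) (XT.nd (nat_lit 78) (nat_lit 152) (nat_lit 0) (XT.lf (nat_lit 0) (nat_lit 1271360827239) (nat_lit 76) (nat_lit 151106826871) (nat_lit 76) (nat_lit 101881536492) (nat_lit 5) (nat_lit 4) (nat_lit 6) (nat_lit 5) (nat_lit 6) (nat_lit 4) (nat_lit 395) (nat_lit 356) (nat_lit 269)) (XT.lf (nat_lit 0) (nat_lit 105300001207) (nat_lit 152) (nat_lit 1553160025964) (nat_lit 0) (nat_lit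 62495371625) (nat_lit 3) (nat_lit 5) (nat_lit 5) (nat_lit 4) (nat_lit 3) (nat_lit 4) (nat_lit 396) (nat_lit 356) (nat_lit 268)))) (XT.nd (nat_lit 78) (nat_lit 0) (nat_lit 0) (XT.lf (nat_lit 0) (nat_lit 354177422666) (nat_lit 152) (nat_lit 1277617215377) (nat_lit 0) (nat_lit 311372767646) (nat_lit 3) (nat_lit 5) (nat_lit 5) (nat_lit 4) (nat_lit 3) (nat_lit 4) (nat_lit 397) (nat_lit 356) (nat_lit 267)) (XT.nd (nat_lit 78) (nat_lit 0) (nat_lit 0) (XT.lf (nat_lit 0) (nat_lit 640386191251) (nat_lit 152) (nat_lit 960743548174) (nat_lit 0) (nat_lit 597581514112) (nat_lit 3) (nat_lit 5) (nat_lit 5) (nat_lit 4) (nat_lit 3) (nat_lit 4) (nat_lit 398) (nat_lit 356) (nat_lit 266)) (XT.lf (nat_lit 0) (nat_lit 969526043740) (nat_lit 152) (nat_lit 596339322168) (nat_lit 0) (nat_lit 926721347366) (nat_lit 3) (nat_lit 5) (nat_lit 5) (nat_lit 4) (nat_lit 3) (nat_lit 4) (nat_lit 399) (nat_lit 356) (nat_lit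 265))))) (XT.nd (nat_lit 234) (nat_lit 0) (nat_lit 0) (XT.nd (nat_lit 78) (nat_lit 76) (nat_lit 0) (XT.lf (nat_lit 0) (nat_lit 1348036672899) (nat_lit 152) (nat_lit 177274889460) (nat_lit 0) (nat_lit 1305231959799) (nat_lit 3) (nat_lit 5) (nat_lit 5) (nat_lit 4) (nat_lit 3) (nat_lit 4) (nat_lit 400) (nat_lit 356) (nat_lit 264)) (XT.nd (nat_lit 78) (nat_lit 0) (nat_lit 0) (XT.lf (nat_lit 0) (nat_lit 334421336623) (nat_lit 76) (nat_lit 1462750059242) (nat_lit 76) (nat_lit 1419945331599) (nat_lit 2) (nat_lit 4) (nat_lit 3) (nat_lit 5) (nat_lit 3) (nat_lit 4) (nat_lit 401) (nat_lit 356) (nat_lit 263)) (XT.lf (nat_lit 0) (nat_lit 942794922219) (nat_lit 76) (nat_lit 1380147880186) (nat_lit 76) (nat_lit 1337343139895) (nat_lit 2) (nat_lit 4) (nat_lit 3) (nat_lit 5) (nat_lit 3) (nat_lit 4) (nat_lit 402) (nat_lit 356) (nat_lit 262)))) (XT.nd (nat_lit 78) (nat_lit 0) (nat_lit 0) (XT.lf (nat_lit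 0) (nat_lit 1642424237314) (nat_lit 76) (nat_lit 1285155537549) (nat_lit 76) (nat_lit 1242350786261) (nat_lit 2) (nat_lit 4) (nat_lit 3) (nat_lit 5) (nat_lit 3) (nat_lit 4) (nat_lit 403) (nat_lit 356) (nat_lit 261)) (XT.nd (nat_lit 78) (nat_lit 0) (nat_lit 0) (XT.lf (nat_lit 0) (nat_lit 2446997681550) (nat_lit 76) (nat_lit 1175914485498) (nat_lit 76) (nat_lit 1133109724648) (nat_lit 2) (nat_lit 4) (nat_lit 3) (nat_lit 5) (nat_lit 3) (nat_lit 4) (nat_lit 404) (nat_lit 356) (nat_lit 260)) (XT.lf (nat_lit 0) (nat_lit 3372256909271) (nat_lit 76) (nat_lit 1050287399102) (nat_lit 76) (nat_lit 1007482629935) (nat_lit 2) (nat_lit 4) (nat_lit 3) (nat_lit 5) (nat_lit 3) (nat_lit 4) (nat_lit 405) (nat_lit 356) (nat_lit 259))))))) (XT.nd (nat_lit 936) (nat_lit 0) (nat_lit 0) (XT.nd (nat_lit 468) (nat_lit 0) (nat_lit 0) (XT.nd (nat_lit 234) (nat_lit 76) (nat_lit 0) (XT.nd (nat_lit 78) (nat_lit 0)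 (nat_lit 0) (XT.lf (nat_lit 0) (nat_lit 4436304818412) (nat_lit 76) (nat_lit 905816357104) (nat_lit 76) (nat_lit 863011580707) (nat_lit 2) (nat_lit 4) (nat_lit 3) (nat_lit 5) (nat_lit 3) (nat_lit 4) (nat_lit 406) (nat_lit 356) (nat_lit 258)) (XT.nd (nat_lit 78) (nat_lit 0) (nat_lit 0) (XT.lf (nat_lit 0) (nat_lit 5659959737629) (nat_lit 76) (nat_lit 739674752161) (nat_lit 76) (nat_lit 696869969476) (nat_lit 2) (nat_lit 4) (nat_lit 3) (nat_lit 5) (nat_lit 3) (nat_lit 4) (nat_lit 407) (nat_lit 356) (nat_lit 257)) (XT.lf (nat_lit 0) (nat_lit 7067162741429) (nat_lit 76) (nat_lit 548611987656) (nat_lit 76) (nat_lit 505807199503) (nat_lit 2) (nat_lit 4) (nat_lit 3) (nat_lit 5) (nat_lit 3) (nat_lit 4) (nat_lit 408) (nat_lit 356) (nat_lit 256)))) (XT.nd (nat_lit 78) (nat_lit 76) (nat_lit 0) (XT.lf (nat_lit 0) (nat_lit 8685446062495) (nat_lit 76) (nat_lit 328889879064) (nat_lit 76) (nat_lit 286085086157)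 (nat_lit 2) (nat_lit 4) (nat_lit 3) (nat_lit 5) (nat_lit 3) (nat_lit 4) (nat_lit 409) (nat_lit 356) (nat_lit 255)) (XT.nd (nat_lit 78) (nat_lit 76) (nat_lit 0) (XT.lf (nat_lit 0) (nat_lit 10546471765804) (nat_lit 76) (nat_lit 76209515565) (nat_lit 76) (nat_lit 33404718524) (nat_lit 2) (nat_lit 4) (nat_lit 3) (nat_lit 5) (nat_lit 3) (nat_lit 4) (nat_lit 410) (nat_lit 356) (nat_lit 254)) (XT.lf (nat_lit 0) (nat_lit 265613425113) (nat_lit 76) (nat_lit 11714798337623) (nat_lit 0) (nat_lit 228391859342) (nat_lit 1) (nat_lit 5) (nat_lit 2) (nat_lit 4) (nat_lit 1) (nat_lit 4) (nat_lit 411) (nat_lit 356) (nat_lit 253))))) (XT.nd (nat_lit 234) (nat_lit 0) (nat_lit 0) (XT.nd (nat_lit 78) (nat_lit 0) (nat_lit 0) (XT.lf (nat_lit 0) (nat_lit 615695942608) (nat_lit 76) (nat_lit 12798575216851) (nat_lit 0) (nat_lit 578474374119) (nat_lit 1) (nat_lit 5) (nat_lit 2) (nat_lit 4) (nat_lit 1) (nat_lit 4)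 (nat_lit 412) (nat_lit 356) (nat_lit 252)) (XT.nd (nat_lit 78) (nat_lit 0) (nat_lit 0) (XT.lf (nat_lit 0) (nat_lit 1018290794605) (nat_lit 76) (nat_lit 14044918719914) (nat_lit 0) (nat_lit 981069223752) (nat_lit 1) (nat_lit 5) (nat_lit 2) (nat_lit 4) (nat_lit 1) (nat_lit 4) (nat_lit 413) (nat_lit 356) (nat_lit 251)) (XT.lf (nat_lit 0) (nat_lit 1481274836904) (nat_lit 76) (nat_lit 15478213828394) (nat_lit 0) (nat_lit 1444053263995) (nat_lit 1) (nat_lit 5) (nat_lit 2) (nat_lit 4) (nat_lit 1) (nat_lit 4) (nat_lit 414) (nat_lit 356) (nat_lit 250)))) (XT.nd (nat_lit 78) (nat_lit 0) (nat_lit 0) (XT.lf (nat_lit 0) (nat_lit 2013706452941) (nat_lit 76) (nat_lit 17126503272674) (nat_lit 0) (nat_lit 1976484878245) (nat_lit 1) (nat_lit 5) (nat_lit 2) (nat_lit 4) (nat_lit 1) (nat_lit 4) (nat_lit 415) (nat_lit 356) (nat_lit 249)) (XT.nd (nat_lit 78) (nat_lit 0) (nat_lit 0) (XT.lf (nat_lit 0) (nat_lit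 2626002783031) (nat_lit 76) (nat_lit 19022036194056) (nat_lit 0) (nat_lit 2588781206781) (nat_lit 1) (nat_lit 5) (nat_lit 2) (nat_lit 4) (nat_lit 1) (nat_lit 4) (nat_lit 416) (nat_lit 356) (nat_lit 248)) (XT.lf (nat_lit 0) (nat_lit 3330143537978) (nat_lit 76) (nat_lit 21201899106218) (nat_lit 0) (nat_lit 3292921960377) (nat_lit 1) (nat_lit 5) (nat_lit 2) (nat_lit 4) (nat_lit 1) (nat_lit 4) (nat_lit 417) (nat_lit 356) (nat_lit 247)))))) (XT.nd (nat_lit 468) (nat_lit 0) (nat_lit 0) (XT.nd (nat_lit 234) (nat_lit 0) (nat_lit 0) (XT.nd (nat_lit 78) (nat_lit 0) (nat_lit 0) (XT.lf (nat_lit 0) (nat_lit 4139905384729) (nat_lit 76) (nat_lit 23708741500920) (nat_lit 0) (nat_lit 4102683805952) (nat_lit 1) (nat_lit 5) (nat_lit 2) (nat_lit 4) (nat_lit 1) (nat_lit 4) (nat_lit 418) (nat_lit 356) (nat_lit 246)) (XT.nd (nat_lit 78) (nat_lit 0) (nat_lit 0) (XT.lf (nat_lit 0) (nat_lit 5071131489849) (nat_lit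 76) (nat_lit 26591610294581) (nat_lit 0) (nat_lit 5033909910050) (nat_lit 1) (nat_lit 5) (nat_lit 2) (nat_lit 4) (nat_lit 1) (nat_lit 4) (nat_lit 419) (nat_lit 356) (nat_lit 245)) (XT.lf (nat_lit 0) (nat_lit 6142041494525) (nat_lit 76) (nat_lit 29906909441858) (nat_lit 0) (nat_lit 6104819913838) (nat_lit 1) (nat_lit 5) (nat_lit 2) (nat_lit 4) (nat_lit 1) (nat_lit 4) (nat_lit 420) (nat_lit 356) (nat_lit 244)))) (XT.nd (nat_lit 78) (nat_lit 0) (nat_lit 0) (XT.lf (nat_lit 0) (nat_lit 7373587985807) (nat_lit 76) (nat_lit 33719503491287) (nat_lit 0) (nat_lit 7336366404347) (nat_lit 1) (nat_lit 5) (nat_lit 2) (nat_lit 4) (nat_lit 1) (nat_lit 4) (nat_lit 421) (nat_lit 356) (nat_lit 243)) (XT.nd (nat_lit 78) (nat_lit 0) (nat_lit 0) (XT.lf (nat_lit 0) (nat_lit 8789866438523) (nat_lit 76) (nat_lit 38103986674267) (nat_lit 0) (nat_lit 8752644856391) (nat_lit 1) (nat_lit 5) (nat_lit 2) (nat_lit 4)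 (nat_lit 1) (nat_lit 4) (nat_lit 422) (nat_lit 356) (nat_lit 242)) (XT.lf (nat_lit 0) (nat_lit 10418586648487) (nat_lit 76) (nat_lit 43146142357424) (nat_lit 0) (nat_lit 10381365065770) (nat_lit 1) (nat_lit 5) (nat_lit 2) (nat_lit 4) (nat_lit 1) (nat_lit 4) (nat_lit 423) (nat_lit 356) (nat_lit 241))))) (XT.nd (nat_lit 234) (nat_lit 0) (nat_lit 0) (XT.nd (nat_lit 78) (nat_lit 0) (nat_lit 0) (XT.lf (nat_lit 0) (nat_lit 12291614880677) (nat_lit 76) (nat_lit 48944621412819) (nat_lit 0) (nat_lit 12254393297452) (nat_lit 1) (nat_lit 5) (nat_lit 2) (nat_lit 4) (nat_lit 1) (nat_lit 4) (nat_lit 424) (nat_lit 356) (nat_lit 240)) (XT.nd (nat_lit 78) (nat_lit 0) (nat_lit 0) (XT.lf (nat_lit 0) (nat_lit 14445597339635) (nat_lit 76) (nat_lit 55612872343709) (nat_lit 0) (nat_lit 14408375755969) (nat_lit 1) (nat_lit 5) (nat_lit 2) (nat_lit 4) (nat_lit 1) (nat_lit 4) (nat_lit 425) (nat_lit 356) (nat_lit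 239)) (XT.lf (nat_lit 0) (nat_lit 16922677160429) (nat_lit 76) (nat_lit 63281360929177) (nat_lit 0) (nat_lit 16885455576378) (nat_lit 1) (nat_lit 5) (nat_lit 2) (nat_lit 4) (nat_lit 1) (nat_lit 4) (nat_lit 426) (nat_lit 356) (nat_lit 238)))) (XT.nd (nat_lit 156) (nat_lit 0) (nat_lit 0) (XT.nd (nat_lit 78) (nat_lit 0) (nat_lit 0) (XT.lf (nat_lit 0) (nat_lit 19771318948247) (nat_lit 76) (nat_lit 72100122815460) (nat_lit 0) (nat_lit 19734097363862) (nat_lit 1) (nat_lit 5) (nat_lit 2) (nat_lit 4) (nat_lit 1) (nat_lit 4) (nat_lit 427) (nat_lit 356) (nat_lit 237)) (XT.lf (nat_lit 0) (nat_lit 23047256998939) (nat_lit 76) (nat_lit 82241698995987) (nat_lit 0) (nat_lit 23010035414263) (nat_lit 1) (nat_lit 5) (nat_lit 2) (nat_lit 4) (nat_lit 1) (nat_lit 4) (nat_lit 428) (nat_lit 356) (nat_lit 236))) (XT.nd (nat_lit 78) (nat_lit 0) (nat_lit 0) (XT.lf (nat_lit 0) (nat_lit 26814585752626) (nat_lit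 76) (nat_lit 93904511613419) (nat_lit 0) (nat_lit 26777364167698) (nat_lit 1) (nat_lit 5) (nat_lit 2) (nat_lit 4) (nat_lit 1) (nat_lit 4) (nat_lit 429) (nat_lit 356) (nat_lit 235)) (XT.lf (nat_lit 0) (nat_lit 31147013815359) (nat_lit 76) (nat_lit 107316746132010) (nat_lit 0) (nat_lit 31109792230211) (nat_lit 1) (nat_lit 5) (nat_lit 2) (nat_lit 4) (nat_lit 1) (nat_lit 4) (nat_lit 430) (nat_lit 356) (nat_lit 234))))))))
noncomputable def xc75 : XT := (XT.nd (nat_lit 48984) (nat_lit 0) (nat_lit 76) (XT.nd (nat_lit 48048) (nat_lit 0) (nat_lit 1216) (XT.nd (nat_lit 47580) (nat_lit 0) (nat_lit 2128) (XT.nd (nat_lit 47346) (nat_lit 0) (nat_lit 2432) (XT.nd (nat_lit 78) (nat_lit 0) (nat_lit 0) (XT.lf (nat_lit 0) (nat_lit 36129306084017) (nat_lit 76) (nat_lit 122740815835820) (nat_lit 0) (nat_lit 36092084498678) (nat_lit 1) (nat_lit 5) (nat_lit 2) (nat_lit 4) (nat_lit 1) (nat_lit 4) (nat_lit 431)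 (nat_lit 356) (nat_lit 233)) (XT.nd (nat_lit 78) (nat_lit 0) (nat_lit 0) (XT.lf (nat_lit 0) (nat_lit 41858942189944) (nat_lit 76) (nat_lit 140478496001662) (nat_lit 0) (nat_lit 41821720604439) (nat_lit 1) (nat_lit 5) (nat_lit 2) (nat_lit 4) (nat_lit 1) (nat_lit 4) (nat_lit 432) (nat_lit 356) (nat_lit 232)) (XT.lf (nat_lit 0) (nat_lit 48448023709126) (nat_lit 76) (nat_lit 160876828197999) (nat_lit 0) (nat_lit 48410802123477) (nat_lit 1) (nat_lit 5) (nat_lit 2) (nat_lit 4) (nat_lit 1) (nat_lit 4) (nat_lit 433) (nat_lit 356) (nat_lit 231)))) (XT.nd (nat_lit 78) (nat_lit 0) (nat_lit 0) (XT.lf (nat_lit 0) (nat_lit 6008270201) (nat_lit 380) (nat_lit 7907305223) (nat_lit 380) (nat_lit 7907305223) (nat_lit 33) (nat_lit 3) (nat_lit 38) (nat_lit 3) (nat_lit 38) (nat_lit 5) (nat_lit 357) (nat_lit 357) (nat_lit 306)) (XT.nd (nat_lit 78) (nat_lit 0) (nat_lit 76) (XT.lf (nat_lit 76) (nat_lit 6293446110)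 (nat_lit 0) (nat_lit 6916722850) (nat_lit 380) (nat_lit 33665143683) (nat_lit 34) (nat_lit 5) (nat_lit 33) (nat_lit 3) (nat_lit 38) (nat_lit 5) (nat_lit 358) (nat_lit 357) (nat_lit 305)) (XT.lf (nat_lit 0) (nat_lit 16152682539) (nat_lit 304) (nat_lit 17723664526) (nat_lit 380) (nat_lit 16477477534) (nat_lit 34) (nat_lit 5) (nat_lit 38) (nat_lit 5) (nat_lit 39) (nat_lit 5) (nat_lit 359) (nat_lit 357) (nat_lit 304))))) (XT.nd (nat_lit 234) (nat_lit 152) (nat_lit 0) (XT.nd (nat_lit 78) (nat_lit 228) (nat_lit 0) (XT.lf (nat_lit 76) (nat_lit 9034240415) (nat_lit 0) (nat_lit 11200818814) (nat_lit 380) (nat_lit 34014284698) (nat_lit 35) (nat_lit 5) (nat_lit 34) (nat_lit 5) (nat_lit 39) (nat_lit 5) (nat_lit 360) (nat_lit 357) (nat_lit 303)) (XT.nd (nat_lit 78) (nat_lit 304) (nat_lit 0) (XT.lf (nat_lit 0) (nat_lit 26511910247) (nat_lit 304) (nat_lit 17457069260) (nat_lit 76) (nat_lit 14522897008)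 (nat_lit 35) (nat_lit 5) (nat_lit 39) (nat_lit 5) (nat_lit 36) (nat_lit 5) (nat_lit 361) (nat_lit 357) (nat_lit 302)) (XT.lf (nat_lit 0) (nat_lit 15288494272) (nat_lit 304) (nat_lit 19604362355) (nat_lit 380) (nat_lit 28303549847) (nat_lit 31) (nat_lit 5) (nat_lit 35) (nat_lit 5) (nat_lit 36) (nat_lit 5) (nat_lit 362) (nat_lit 357) (nat_lit 301)))) (XT.nd (nat_lit 78) (nat_lit 152) (nat_lit 0) (XT.lf (nat_lit 0) (nat_lit 45831846463) (nat_lit 380) (nat_lit 13958042514) (nat_lit 76) (nat_lit 8621594021) (nat_lit 31) (nat_lit 5) (nat_lit 36) (nat_lit 5) (nat_lit 32) (nat_lit 5) (nat_lit 363) (nat_lit 357) (nat_lit 300)) (XT.nd (nat_lit 78) (nat_lit 0) (nat_lit 0) (XT.lf (nat_lit 0) (nat_lit 26506911680) (nat_lit 152) (nat_lit 33932842852) (nat_lit 228) (nat_lit 13664858000) (nat_lit 29) (nat_lit 5) (nat_lit 31) (nat_lit 5) (nat_lit 32) (nat_lit 5) (nat_lit 364) (nat_lit 357) (nat_lit 299))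 (XT.lf (nat_lit 0) (nat_lit 74606786616) (nat_lit 152) (nat_lit 3358875472) (nat_lit 228) (nat_lit 2577029152) (nat_lit 29) (nat_lit 5) (nat_lit 31) (nat_lit 5) (nat_lit 32) (nat_lit 5) (nat_lit 365) (nat_lit 357) (nat_lit 298)))))) (XT.nd (nat_lit 468) (nat_lit 380) (nat_lit 0) (XT.nd (nat_lit 234) (nat_lit 228) (nat_lit 0) (XT.nd (nat_lit 78) (nat_lit 152) (nat_lit 0) (XT.lf (nat_lit 0) (nat_lit 12581101811) (nat_lit 152) (nat_lit 43415968446) (nat_lit 76) (nat_lit 31389287627) (nat_lit 27) (nat_lit 5) (nat_lit 29) (nat_lit 5) (nat_lit 28) (nat_lit 5) (nat_lit 366) (nat_lit 357) (nat_lit 297)) (XT.nd (nat_lit 78) (nat_lit 0) (nat_lit 0) (XT.lf (nat_lit 0) (nat_lit 7155856179) (nat_lit 152) (nat_lit 23372181814) (nat_lit 228) (nat_lit 64593291682) (nat_lit 25) (nat_lit 5) (nat_lit 27) (nat_lit 5) (nat_lit 28) (nat_lit 5) (nat_lit 367) (nat_lit 357) (nat_lit 296)) (XT.lf (nat_lit 0) (nat_lit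 54128066008) (nat_lit 228) (nat_lit 34180763627) (nat_lit 76) (nat_lit 15263560880) (nat_lit 25) (nat_lit 5) (nat_lit 28) (nat_lit 5) (nat_lit 26) (nat_lit 4) (nat_lit 368) (nat_lit 357) (nat_lit 295)))) (XT.nd (nat_lit 78) (nat_lit 152) (nat_lit 0) (XT.lf (nat_lit 0) (nat_lit 29150753889) (nat_lit 76) (nat_lit 54435407553) (nat_lit 152) (nat_lit 29357240420) (nat_lit 24) (nat_lit 5) (nat_lit 25) (nat_lit 5) (nat_lit 26) (nat_lit 4) (nat_lit 369) (nat_lit 357) (nat_lit 294)) (XT.nd (nat_lit 78) (nat_lit 152) (nat_lit 0) (XT.lf (nat_lit 0) (nat_lit 105820453980) (nat_lit 76) (nat_lit 13427403223) (nat_lit 152) (nat_lit 4204475555) (nat_lit 24) (nat_lit 5) (nat_lit 25) (nat_lit 5) (nat_lit 26) (nat_lit 4) (nat_lit 370) (nat_lit 357) (nat_lit 293)) (XT.lf (nat_lit 0) (nat_lit 26698739732) (nat_lit 152) (nat_lit 73523797028) (nat_lit 76) (nat_lit 34534761012) (nat_lit 22) (nat_lit 5) (nat_lit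 24) (nat_lit 5) (nat_lit 23) (nat_lit 4) (nat_lit 371) (nat_lit 357) (nat_lit 292))))) (XT.nd (nat_lit 234) (nat_lit 228) (nat_lit 0) (XT.nd (nat_lit 78) (nat_lit 76) (nat_lit 0) (XT.lf (nat_lit 0) (nat_lit 5932311114) (nat_lit 76) (nat_lit 57723658874) (nat_lit 152) (nat_lit 83794657441) (nat_lit 21) (nat_lit 5) (nat_lit 22) (nat_lit 5) (nat_lit 23) (nat_lit 4) (nat_lit 372) (nat_lit 357) (nat_lit 291)) (XT.nd (nat_lit 78) (nat_lit 76) (nat_lit 0) (XT.lf (nat_lit 0) (nat_lit 105567202058) (nat_lit 76) (nat_lit 4431361052) (nat_lit 152) (nat_lit 51473127105) (nat_lit 21) (nat_lit 5) (nat_lit 22) (nat_lit 5) (nat_lit 23) (nat_lit 4) (nat_lit 373) (nat_lit 357) (nat_lit 290)) (XT.lf (nat_lit 0) (nat_lit 44122787458) (nat_lit 76) (nat_lit 123349666555) (nat_lit 76) (nat_lit 9496472457) (nat_lit 20) (nat_lit 4) (nat_lit 21) (nat_lit 5) (nat_lit 21) (nat_lit 4) (nat_lit 374) (nat_lit 357)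 (nat_lit 289)))) (XT.nd (nat_lit 78) (nat_lit 152) (nat_lit 0) (XT.lf (nat_lit 0) (nat_lit 38595625319) (nat_lit 152) (nat_lit 30873707095) (nat_lit 76) (nat_lit 124589900111) (nat_lit 19) (nat_lit 5) (nat_lit 21) (nat_lit 5) (nat_lit 20) (nat_lit 4) (nat_lit 375) (nat_lit 357) (nat_lit 288)) (XT.nd (nat_lit 78) (nat_lit 76) (nat_lit 0) (XT.lf (nat_lit 0) (nat_lit 94338881001) (nat_lit 76) (nat_lit 2495605286) (nat_lit 152) (nat_lit 116224985536) (nat_lit 18) (nat_lit 5) (nat_lit 19) (nat_lit 5) (nat_lit 20) (nat_lit 4) (nat_lit 376) (nat_lit 357) (nat_lit 287)) (XT.lf (nat_lit 0) (nat_lit 4358542505) (nat_lit 76) (nat_lit 164406560840) (nat_lit 76) (nat_lit 65401254842) (nat_lit 17) (nat_lit 4) (nat_lit 18) (nat_lit 5) (nat_lit 18) (nat_lit 4) (nat_lit 377) (nat_lit 357) (nat_lit 286))))))) (XT.nd (nat_lit 936) (nat_lit 456) (nat_lit 0) (XT.nd (nat_lit 468) (nat_lit 304) (nat_lit 0)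 (XT.nd (nat_lit 234) (nat_lit 228) (nat_lit 0) (XT.nd (nat_lit 78) (nat_lit 76) (nat_lit 0) (XT.lf (nat_lit 0) (nat_lit 284197624) (nat_lit 152) (nat_lit 98394914284) (nat_lit 76) (nat_lit 158810497263) (nat_lit 16) (nat_lit 5) (nat_lit 18) (nat_lit 5) (nat_lit 17) (nat_lit 4) (nat_lit 378) (nat_lit 357) (nat_lit 285)) (XT.nd (nat_lit 78) (nat_lit 0) (nat_lit 0) (XT.lf (nat_lit 0) (nat_lit 54462243866) (nat_lit 76) (nat_lit 16918562474) (nat_lit 152) (nat_lit 212125262611) (nat_lit 15) (nat_lit 5) (nat_lit 16) (nat_lit 5) (nat_lit 17) (nat_lit 4) (nat_lit 379) (nat_lit 357) (nat_lit 284)) (XT.lf (nat_lit 0) (nat_lit 161722026700) (nat_lit 152) (nat_lit 74786942494) (nat_lit 0) (nat_lit 75629010577) (nat_lit 15) (nat_lit 5) (nat_lit 17) (nat_lit 4) (nat_lit 15) (nat_lit 4) (nat_lit 380) (nat_lit 357) (nat_lit 283)))) (XT.nd (nat_lit 78) (nat_lit 152) (nat_lit 0) (XT.lf (nat_lit 0) (nat_lit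 111749875586) (nat_lit 76) (nat_lit 159296680492) (nat_lit 76) (nat_lit 73203302346) (nat_lit 14) (nat_lit 4) (nat_lit 15) (nat_lit 5) (nat_lit 15) (nat_lit 4) (nat_lit 381) (nat_lit 357) (nat_lit 282)) (XT.nd (nat_lit 78) (nat_lit 76) (nat_lit 0) (XT.lf (nat_lit 0) (nat_lit 18297841714) (nat_lit 152) (nat_lit 46753333261) (nat_lit 76) (nat_lit 315416308504) (nat_lit 13) (nat_lit 5) (nat_lit 15) (nat_lit 5) (nat_lit 14) (nat_lit 4) (nat_lit 382) (nat_lit 357) (nat_lit 281)) (XT.lf (nat_lit 0) (nat_lit 125768444182) (nat_lit 152) (nat_lit 243461465534) (nat_lit 0) (nat_lit 50904125323) (nat_lit 12) (nat_lit 5) (nat_lit 14) (nat_lit 4) (nat_lit 12) (nat_lit 4) (nat_lit 383) (nat_lit 357) (nat_lit 280))))) (XT.nd (nat_lit 234) (nat_lit 152) (nat_lit 0) (XT.nd (nat_lit 78) (nat_lit 152) (nat_lit 0) (XT.lf (nat_lit 0) (nat_lit 255016890731) (nat_lit 152) (nat_lit 29732725721) (nat_lit 0) (nat_lit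 180152364885) (nat_lit 12) (nat_lit 5) (nat_lit 14) (nat_lit 4) (nat_lit 12) (nat_lit 4) (nat_lit 384) (nat_lit 357) (nat_lit 279)) (XT.nd (nat_lit 78) (nat_lit 76) (nat_lit 0) (XT.lf (nat_lit 0) (nat_lit 237168402871) (nat_lit 76) (nat_lit 176304210608) (nat_lit 76) (nat_lit 101439504772) (nat_lit 11) (nat_lit 4) (nat_lit 12) (nat_lit 5) (nat_lit 12) (nat_lit 4) (nat_lit 385) (nat_lit 357) (nat_lit 278)) (XT.lf (nat_lit 0) (nat_lit 22828597227) (nat_lit 152) (nat_lit 25783378308) (nat_lit 76) (nat_lit 523423108745) (nat_lit 10) (nat_lit 5) (nat_lit 12) (nat_lit 5) (nat_lit 11) (nat_lit 4) (nat_lit 386) (nat_lit 357) (nat_lit 277)))) (XT.nd (nat_lit 78) (nat_lit 76) (nat_lit 0) (XT.lf (nat_lit 0) (nat_lit 171988531547) (nat_lit 152) (nat_lit 355629299391) (nat_lit 0) (nat_lit 106888532899) (nat_lit 9) (nat_lit 5) (nat_lit 11) (nat_lit 4) (nat_lit 9) (nat_lit 4) (nat_lit 387) (nat_lit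 357) (nat_lit 276)) (XT.nd (nat_lit 78) (nat_lit 76) (nat_lit 0) (XT.lf (nat_lit 0) (nat_lit 347248717755) (nat_lit 152) (nat_lit 76392062144) (nat_lit 0) (nat_lit 282148616198) (nat_lit 9) (nat_lit 5) (nat_lit 11) (nat_lit 4) (nat_lit 9) (nat_lit 4) (nat_lit 388) (nat_lit 357) (nat_lit 275)) (XT.lf (nat_lit 0) (nat_lit 268646551557) (nat_lit 76) (nat_lit 291274990585) (nat_lit 76) (nat_lit 226174799542) (nat_lit 8) (nat_lit 4) (nat_lit 9) (nat_lit 5) (nat_lit 9) (nat_lit 4) (nat_lit 389) (nat_lit 357) (nat_lit 274)))))) (XT.nd (nat_lit 468) (nat_lit 228) (nat_lit 0) (XT.nd (nat_lit 234) (nat_lit 76) (nat_lit 0) (XT.nd (nat_lit 78) (nat_lit 152) (nat_lit 0) (XT.lf (nat_lit 0) (nat_lit 674025445193) (nat_lit 76) (nat_lit 134462618394) (nat_lit 76) (nat_lit 69362349536) (nat_lit 8) (nat_lit 4) (nat_lit 9) (nat_lit 5) (nat_lit 9) (nat_lit 4) (nat_lit 390) (nat_lit 357) (nat_lit 273)) (XT.nd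 (nat_lit 78) (nat_lit 0) (nat_lit 0) (XT.lf (nat_lit 0) (nat_lit 110460195875) (nat_lit 152) (nat_lit 816961766962) (nat_lit 0) (nat_lit 53851207594) (nat_lit 6) (nat_lit 5) (nat_lit 8) (nat_lit 4) (nat_lit 6) (nat_lit 4) (nat_lit 391) (nat_lit 357) (nat_lit 272)) (XT.lf (nat_lit 0) (nat_lit 327719158530) (nat_lit 152) (nat_lit 498249955557) (nat_lit 0) (nat_lit 271110119086) (nat_lit 6) (nat_lit 5) (nat_lit 8) (nat_lit 4) (nat_lit 6) (nat_lit 4) (nat_lit 392) (nat_lit 357) (nat_lit 271)))) (XT.nd (nat_lit 78) (nat_lit 76) (nat_lit 0) (XT.lf (nat_lit 0) (nat_lit 577566612128) (nat_lit 152) (nat_lit 131732118035) (nat_lit 0) (nat_lit 520957528193) (nat_lit 6) (nat_lit 5) (nat_lit 8) (nat_lit 4) (nat_lit 6) (nat_lit 4) (nat_lit 393) (nat_lit 357) (nat_lit 270)) (XT.nd (nat_lit 78) (nat_lit 0) (nat_lit 0) (XT.lf (nat_lit 0) (nat_lit 318080469752) (nat_lit 76) (nat_lit 559981440604) (nat_lit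 76) (nat_lit 503372317982) (nat_lit 5) (nat_lit 4) (nat_lit 6) (nat_lit 5) (nat_lit 6) (nat_lit 4) (nat_lit 394) (nat_lit 357) (nat_lit 269)) (XT.lf (nat_lit 0) (nat_lit 850169220555) (nat_lit 76) (nat_lit 380347986954) (nat_lit 76) (nat_lit 323738830691) (nat_lit 5) (nat_lit 4) (nat_lit 6) (nat_lit 5) (nat_lit 6) (nat_lit 4) (nat_lit 395) (nat_lit 357) (nat_lit 268))))) (XT.nd (nat_lit 234) (nat_lit 76) (nat_lit 0) (XT.nd (nat_lit 78) (nat_lit 152) (nat_lit 0) (XT.lf (nat_lit 0) (nat_lit 1462070745828) (nat_lit 76) (nat_lit 173769798721) (nat_lit 76) (nat_lit 117160613204) (nat_lit 5) (nat_lit 4) (nat_lit 6) (nat_lit 5) (nat_lit 6) (nat_lit 4) (nat_lit 396) (nat_lit 357) (nat_lit 267)) (XT.nd (nat_lit 78) (nat_lit 0) (nat_lit 0) (XT.lf (nat_lit 0) (nat_lit 121097866517) (nat_lit 152) (nat_lit 1786127946572) (nat_lit 0) (nat_lit 71872465687) (nat_lit 3) (nat_lit 5) (nat_lit 5) (nat_lit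 4) (nat_lit 3) (nat_lit 4) (nat_lit 397) (nat_lit 357) (nat_lit 266)) (XT.lf (nat_lit 0) (nat_lit 407306527482) (nat_lit 152) (nat_lit 1469254507870) (nat_lit 0) (nat_lit 358081107417) (nat_lit 3) (nat_lit 5) (nat_lit 5) (nat_lit 4) (nat_lit 3) (nat_lit 4) (nat_lit 398) (nat_lit 357) (nat_lit 265)))) (XT.nd (nat_lit 156) (nat_lit 76) (nat_lit 0) (XT.nd (nat_lit 78) (nat_lit 0) (nat_lit 0) (XT.lf (nat_lit 0) (nat_lit 736446286388) (nat_lit 152) (nat_lit 1104850480561) (nat_lit 0) (nat_lit 687220849598) (nat_lit 3) (nat_lit 5) (nat_lit 5) (nat_lit 4) (nat_lit 3) (nat_lit 4) (nat_lit 399) (nat_lit 357) (nat_lit 264)) (XT.lf (nat_lit 0) (nat_lit 1114956834170) (nat_lit 152) (nat_lit 685786220634) (nat_lit 0) (nat_lit 1065731382836) (nat_lit 3) (nat_lit 5) (nat_lit 5) (nat_lit 4) (nat_lit 3) (nat_lit 4) (nat_lit 400) (nat_lit 357) (nat_lit 263))) (XT.nd (nat_lit 78) (nat_lit 76) (nat_lit 0)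 (XT.lf (nat_lit 0) (nat_lit 1550243811980) (nat_lit 152) (nat_lit 203862644741) (nat_lit 0) (nat_lit 1501018347999) (nat_lit 3) (nat_lit 5) (nat_lit 5) (nat_lit 4) (nat_lit 3) (nat_lit 4) (nat_lit 401) (nat_lit 357) (nat_lit 262)) (XT.lf (nat_lit 0) (nat_lit 384587857158) (nat_lit 76) (nat_lit 1682160810038) (nat_lit 76) (nat_lit 1632935335060) (nat_lit 2) (nat_lit 4) (nat_lit 3) (nat_lit 5) (nat_lit 3) (nat_lit 4) (nat_lit 402) (nat_lit 357) (nat_lit 261))))))))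
noncomputable def xc76 : XT := (XT.nd (nat_lit 1872) (nat_lit 0) (nat_lit 0) (XT.nd (nat_lit 936) (nat_lit 0) (nat_lit 0) (XT.nd (nat_lit 468) (nat_lit 76) (nat_lit 0) (XT.nd (nat_lit 234) (nat_lit 0) (nat_lit 0) (XT.nd (nat_lit 78) (nat_lit 0) (nat_lit 0) (XT.lf (nat_lit 0) (nat_lit 1084217047545) (nat_lit 76) (nat_lit 1587168533439) (nat_lit 76) (nat_lit 1537943048898) (nat_lit 2) (nat_lit 4) (nat_lit 3) (nat_lit 5) (nat_lit 3) (nat_lit 4) (nat_lit 403) (nat_lit 357) (nat_lit 260)) (XT.nd (nat_lit 78) (nat_lit 0) (nat_lit 0) (XT.lf (nat_lit 0) (nat_lit 1888790383339) (nat_lit 76) (nat_lit 1477927538813) (nat_lit 76) (nat_lit 1428702045956) (nat_lit 2) (nat_lit 4) (nat_lit 3) (nat_lit 5) (nat_lit 3) (nat_lit 4) (nat_lit 404) (nat_lit 357) (nat_lit 259)) (XT.lf (nat_lit 0) (nat_lit 2814049516763) (nat_lit 76) (nat_lit 1352300502350) (nat_lit 76) (nat_lit 1303075002262) (nat_lit 2) (nat_lit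 4) (nat_lit 3) (nat_lit 5) (nat_lit 3) (nat_lit 4) (nat_lit 405) (nat_lit 357) (nat_lit 258)))) (XT.nd (nat_lit 78) (nat_lit 0) (nat_lit 0) (XT.lf (nat_lit 0) (nat_lit 3878097343907) (nat_lit 76) (nat_lit 1207829503773) (nat_lit 76) (nat_lit 1158603997398) (nat_lit 2) (nat_lit 4) (nat_lit 3) (nat_lit 5) (nat_lit 3) (nat_lit 4) (nat_lit 406) (nat_lit 357) (nat_lit 257)) (XT.nd (nat_lit 78) (nat_lit 0) (nat_lit 0) (XT.lf (nat_lit 0) (nat_lit 5101752191821) (nat_lit 76) (nat_lit 1041687936588) (nat_lit 76) (nat_lit 992462424745) (nat_lit 2) (nat_lit 4) (nat_lit 3) (nat_lit 5) (nat_lit 3) (nat_lit 4) (nat_lit 407) (nat_lit 357) (nat_lit 256)) (XT.lf (nat_lit 0) (nat_lit 6508955133619) (nat_lit 76) (nat_lit 850625204915) (nat_lit 76) (nat_lit 801399688317) (nat_lit 2) (nat_lit 4) (nat_lit 3) (nat_lit 5) (nat_lit 3) (nat_lit 4) (nat_lit 408) (nat_lit 357) (nat_lit 255))))) (XT.nd (nat_lit 234)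 (nat_lit 76) (nat_lit 0) (XT.nd (nat_lit 78) (nat_lit 0) (nat_lit 0) (XT.lf (nat_lit 0) (nat_lit 8127238400770) (nat_lit 76) (nat_lit 630903124873) (nat_lit 76) (nat_lit 581677604141) (nat_lit 2) (nat_lit 4) (nat_lit 3) (nat_lit 5) (nat_lit 3) (nat_lit 4) (nat_lit 409) (nat_lit 357) (nat_lit 254)) (XT.nd (nat_lit 78) (nat_lit 0) (nat_lit 0) (XT.lf (nat_lit 0) (nat_lit 9988264057197) (nat_lit 76) (nat_lit 378222786201) (nat_lit 76) (nat_lit 328997261873) (nat_lit 2) (nat_lit 4) (nat_lit 3) (nat_lit 5) (nat_lit 3) (nat_lit 4) (nat_lit 410) (nat_lit 357) (nat_lit 253)) (XT.lf (nat_lit 0) (nat_lit 12128443474437) (nat_lit 76) (nat_lit 87640443141) (nat_lit 76) (nat_lit 38414915688) (nat_lit 2) (nat_lit 4) (nat_lit 3) (nat_lit 5) (nat_lit 3) (nat_lit 4) (nat_lit 411) (nat_lit 357) (nat_lit 252)))) (XT.nd (nat_lit 78) (nat_lit 0) (nat_lit 0) (XT.lf (nat_lit 0) (nat_lit 305455903196) (nat_lit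 76) (nat_lit 13472017098189) (nat_lit 0) (nat_lit 262651094351) (nat_lit 1) (nat_lit 5) (nat_lit 2) (nat_lit 4) (nat_lit 1) (nat_lit 4) (nat_lit 412) (nat_lit 357) (nat_lit 251)) (XT.nd (nat_lit 78) (nat_lit 0) (nat_lit 0) (XT.lf (nat_lit 0) (nat_lit 708050737752) (nat_lit 76) (nat_lit 14718360638441) (nat_lit 0) (nat_lit 665245926851) (nat_lit 1) (nat_lit 5) (nat_lit 2) (nat_lit 4) (nat_lit 1) (nat_lit 4) (nat_lit 413) (nat_lit 357) (nat_lit 250)) (XT.lf (nat_lit 0) (nat_lit 1171034764885) (nat_lit 76) (nat_lit 16151655779260) (nat_lit 0) (nat_lit 1128229952197) (nat_lit 1) (nat_lit 5) (nat_lit 2) (nat_lit 4) (nat_lit 1) (nat_lit 4) (nat_lit 414) (nat_lit 357) (nat_lit 249)))))) (XT.nd (nat_lit 468) (nat_lit 0) (nat_lit 0) (XT.nd (nat_lit 234) (nat_lit 0) (nat_lit 0) (XT.nd (nat_lit 78) (nat_lit 0) (nat_lit 0) (XT.lf (nat_lit 0) (nat_lit 1703466367735) (nat_lit 76) (nat_lit 17799945251661)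 (nat_lit 0) (nat_lit 1660661553493) (nat_lit 1) (nat_lit 5) (nat_lit 2) (nat_lit 4) (nat_lit 1) (nat_lit 4) (nat_lit 415) (nat_lit 357) (nat_lit 248)) (XT.nd (nat_lit 78) (nat_lit 0) (nat_lit 0) (XT.lf (nat_lit 0) (nat_lit 2315762686357) (nat_lit 76) (nat_lit 19695478197495) (nat_lit 0) (nat_lit 2272957870763) (nat_lit 1) (nat_lit 5) (nat_lit 2) (nat_lit 4) (nat_lit 1) (nat_lit 4) (nat_lit 416) (nat_lit 357) (nat_lit 247)) (XT.lf (nat_lit 0) (nat_lit 3019903431332) (nat_lit 76) (nat_lit 21875341130920) (nat_lit 0) (nat_lit 2977098614564) (nat_lit 1) (nat_lit 5) (nat_lit 2) (nat_lit 4) (nat_lit 1) (nat_lit 4) (nat_lit 417) (nat_lit 357) (nat_lit 246)))) (XT.nd (nat_lit 78) (nat_lit 0) (nat_lit 0) (XT.lf (nat_lit 0) (nat_lit 3829665269412) (nat_lit 76) (nat_lit 24382183544112) (nat_lit 0) (nat_lit 3786860451621) (nat_lit 1) (nat_lit 5) (nat_lit 2) (nat_lit 4) (nat_lit 1) (nat_lit 4) (nat_lit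 418) (nat_lit 357) (nat_lit 245)) (XT.nd (nat_lit 78) (nat_lit 0) (nat_lit 0) (XT.lf (nat_lit 0) (nat_lit 4760891366992) (nat_lit 76) (nat_lit 27265052353851) (nat_lit 0) (nat_lit 4718086548312) (nat_lit 1) (nat_lit 5) (nat_lit 2) (nat_lit 4) (nat_lit 1) (nat_lit 4) (nat_lit 419) (nat_lit 357) (nat_lit 244)) (XT.lf (nat_lit 0) (nat_lit 5831801365112) (nat_lit 76) (nat_lit 30580351515110) (nat_lit 0) (nat_lit 5788996545660) (nat_lit 1) (nat_lit 5) (nat_lit 2) (nat_lit 4) (nat_lit 1) (nat_lit 4) (nat_lit 420) (nat_lit 357) (nat_lit 243))))) (XT.nd (nat_lit 234) (nat_lit 0) (nat_lit 0) (XT.nd (nat_lit 78) (nat_lit 0) (nat_lit 0) (XT.lf (nat_lit 0) (nat_lit 7063347850692) (nat_lit 76) (nat_lit 34392945576695) (nat_lit 0) (nat_lit 7020543030568) (nat_lit 1) (nat_lit 5) (nat_lit 2) (nat_lit 4) (nat_lit 1) (nat_lit 4) (nat_lit 421) (nat_lit 357) (nat_lit 242)) (XT.nd (nat_lit 78) (nat_lit 0)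 (nat_lit 0) (XT.lf (nat_lit 0) (nat_lit 8479626298450) (nat_lit 76) (nat_lit 38777428770248) (nat_lit 0) (nat_lit 8436821477742) (nat_lit 1) (nat_lit 5) (nat_lit 2) (nat_lit 4) (nat_lit 1) (nat_lit 4) (nat_lit 422) (nat_lit 357) (nat_lit 241)) (XT.lf (nat_lit 0) (nat_lit 10108346504103) (nat_lit 76) (nat_lit 43819584462597) (nat_lit 0) (nat_lit 10065541682886) (nat_lit 1) (nat_lit 5) (nat_lit 2) (nat_lit 4) (nat_lit 1) (nat_lit 4) (nat_lit 423) (nat_lit 357) (nat_lit 240)))) (XT.nd (nat_lit 78) (nat_lit 0) (nat_lit 0) (XT.lf (nat_lit 0) (nat_lit 11981374732544) (nat_lit 76) (nat_lit 49618063525985) (nat_lit 0) (nat_lit 11938569910886) (nat_lit 1) (nat_lit 5) (nat_lit 2) (nat_lit 4) (nat_lit 1) (nat_lit 4) (nat_lit 424) (nat_lit 357) (nat_lit 239)) (XT.nd (nat_lit 78) (nat_lit 0) (nat_lit 0) (XT.lf (nat_lit 0) (nat_lit 14135357188243) (nat_lit 76) (nat_lit 56286314463826) (nat_lit 0) (nat_lit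 14092552366200) (nat_lit 1) (nat_lit 5) (nat_lit 2) (nat_lit 4) (nat_lit 1) (nat_lit 4) (nat_lit 425) (nat_lit 357) (nat_lit 238)) (XT.lf (nat_lit 0) (nat_lit 16612437006202) (nat_lit 76) (nat_lit 63954803055339) (nat_lit 0) (nat_lit 16569632183825) (nat_lit 1) (nat_lit 5) (nat_lit 2) (nat_lit 4) (nat_lit 1) (nat_lit 4) (nat_lit 426) (nat_lit 357) (nat_lit 237))))))) (XT.nd (nat_lit 48048) (nat_lit 0) (nat_lit 1520) (XT.nd (nat_lit 468) (nat_lit 0) (nat_lit 0) (XT.nd (nat_lit 234) (nat_lit 0) (nat_lit 0) (XT.nd (nat_lit 78) (nat_lit 0) (nat_lit 0) (XT.lf (nat_lit 0) (nat_lit 19461078791555) (nat_lit 76) (nat_lit 72773564946878) (nat_lit 0) (nat_lit 19418273968888) (nat_lit 1) (nat_lit 5) (nat_lit 2) (nat_lit 4) (nat_lit 1) (nat_lit 4) (nat_lit 427) (nat_lit 357) (nat_lit 236)) (XT.nd (nat_lit 78) (nat_lit 0) (nat_lit 0) (XT.lf (nat_lit 0) (nat_lit 22737016840103) (nat_lit 76) (nat_lit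 82915141131975) (nat_lit 0) (nat_lit 22694212017184) (nat_lit 1) (nat_lit 5) (nat_lit 2) (nat_lit 4) (nat_lit 1) (nat_lit 4) (nat_lit 428) (nat_lit 357) (nat_lit 235)) (XT.lf (nat_lit 0) (nat_lit 26504345591927) (nat_lit 76) (nat_lit 94577953753381) (nat_lit 0) (nat_lit 26461540768787) (nat_lit 1) (nat_lit 5) (nat_lit 2) (nat_lit 4) (nat_lit 1) (nat_lit 4) (nat_lit 429) (nat_lit 357) (nat_lit 234)))) (XT.nd (nat_lit 78) (nat_lit 0) (nat_lit 0) (XT.lf (nat_lit 0) (nat_lit 30836773653039) (nat_lit 76) (nat_lit 107990188275428) (nat_lit 0) (nat_lit 30793968829708) (nat_lit 1) (nat_lit 5) (nat_lit 2) (nat_lit 4) (nat_lit 1) (nat_lit 4) (nat_lit 430) (nat_lit 357) (nat_lit 233)) (XT.nd (nat_lit 78) (nat_lit 0) (nat_lit 0) (XT.lf (nat_lit 0) (nat_lit 35819065920288) (nat_lit 76) (nat_lit 123414257982243) (nat_lit 0) (nat_lit 35776261096791) (nat_lit 1) (nat_lit 5) (nat_lit 2) (nat_lit 4) (nat_lit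 1) (nat_lit 4) (nat_lit 431) (nat_lit 357) (nat_lit 232)) (XT.lf (nat_lit 0) (nat_lit 41548702024990) (nat_lit 76) (nat_lit 141151938150699) (nat_lit 0) (nat_lit 41505897201349) (nat_lit 1) (nat_lit 5) (nat_lit 2) (nat_lit 4) (nat_lit 1) (nat_lit 4) (nat_lit 432) (nat_lit 357) (nat_lit 231))))) (XT.nd (nat_lit 47346) (nat_lit 0) (nat_lit 2432) (XT.nd (nat_lit 78) (nat_lit 0) (nat_lit 0) (XT.lf (nat_lit 0) (nat_lit 48137783543105) (nat_lit 76) (nat_lit 161550270349308) (nat_lit 0) (nat_lit 48094978719338) (nat_lit 1) (nat_lit 5) (nat_lit 2) (nat_lit 4) (nat_lit 1) (nat_lit 4) (nat_lit 433) (nat_lit 357) (nat_lit 230)) (XT.nd (nat_lit 47190) (nat_lit 0) (nat_lit 2432) (XT.lf (nat_lit 0) (nat_lit 55715227286946) (nat_lit 76) (nat_lit 185008352381957) (nat_lit 0) (nat_lit 55672422463070) (nat_lit 1) (nat_lit 5) (nat_lit 2) (nat_lit 4) (nat_lit 1) (nat_lit 4) (nat_lit 434) (nat_lit 357) (nat_lit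 229)) (XT.lf (nat_lit 0) (nat_lit 6939984227) (nat_lit 380) (nat_lit 9075867941) (nat_lit 380) (nat_lit 9075867941) (nat_lit 33) (nat_lit 3) (nat_lit 38) (nat_lit 3) (nat_lit 38) (nat_lit 5) (nat_lit 358) (nat_lit 358) (nat_lit 304)))) (XT.nd (nat_lit 78) (nat_lit 0) (nat_lit 76) (XT.lf (nat_lit 76) (nat_lit 7270935242) (nat_lit 0) (nat_lit 7975142460) (nat_lit 380) (nat_lit 38652336746) (nat_lit 34) (nat_lit 5) (nat_lit 33) (nat_lit 3) (nat_lit 38) (nat_lit 5) (nat_lit 359) (nat_lit 358) (nat_lit 303)) (XT.nd (nat_lit 78) (nat_lit 0) (nat_lit 0) (XT.lf (nat_lit 0) (nat_lit 18622121885) (nat_lit 304) (nat_lit 20345228818) (nat_lit 380) (nat_lit 18932534361) (nat_lit 34) (nat_lit 5) (nat_lit 38) (nat_lit 5) (nat_lit 39) (nat_lit 5) (nat_lit 360) (nat_lit 358) (nat_lit 302)) (XT.lf (nat_lit 76) (nat_lit 10424680710) (nat_lit 0) (nat_lit 12887566202) (nat_lit 380) (nat_lit 39068180865) (nat_lit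 35) (nat_lit 5) (nat_lit 34) (nat_lit 5) (nat_lit 39) (nat_lit 5) (nat_lit 361) (nat_lit 358) (nat_lit 301)))))) (XT.nd (nat_lit 468) (nat_lit 456) (nat_lit 0) (XT.nd (nat_lit 234) (nat_lit 304) (nat_lit 0) (XT.nd (nat_lit 78) (nat_lit 304) (nat_lit 0) (XT.lf (nat_lit 0) (nat_lit 30524918080) (nat_lit 304) (nat_lit 20039198100) (nat_lit 76) (nat_lit 16696083906) (nat_lit 35) (nat_lit 5) (nat_lit 39) (nat_lit 5) (nat_lit 36) (nat_lit 5) (nat_lit 362) (nat_lit 358) (nat_lit 300)) (XT.nd (nat_lit 78) (nat_lit 0) (nat_lit 0) (XT.lf (nat_lit 0) (nat_lit 17616543982) (nat_lit 304) (nat_lit 22543177901) (nat_lit 380) (nat_lit 32511183561) (nat_lit 31) (nat_lit 5) (nat_lit 35) (nat_lit 5) (nat_lit 36) (nat_lit 5) (nat_lit 363) (nat_lit 358) (nat_lit 299)) (XT.lf (nat_lit 0) (nat_lit 52735330304) (nat_lit 380) (nat_lit 16017260691) (nat_lit 76) (nat_lit 9916289736) (nat_lit 31) (nat_lit 5) (nat_lit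 36) (nat_lit 5) (nat_lit 32) (nat_lit 5) (nat_lit 364) (nat_lit 358) (nat_lit 298)))) (XT.nd (nat_lit 78) (nat_lit 152) (nat_lit 0) (XT.lf (nat_lit 0) (nat_lit 30515868987) (nat_lit 152) (nat_lit 39016174392) (nat_lit 228) (nat_lit 15684295935) (nat_lit 29) (nat_lit 5) (nat_lit 31) (nat_lit 5) (nat_lit 32) (nat_lit 5) (nat_lit 365) (nat_lit 358) (nat_lit 297)) (XT.nd (nat_lit 78) (nat_lit 152) (nat_lit 0) (XT.lf (nat_lit 0) (nat_lit 85826431178) (nat_lit 152) (nat_lit 3856972107) (nat_lit 228) (nat_lit 2937243729) (nat_lit 29) (nat_lit 5) (nat_lit 31) (nat_lit 5) (nat_lit 32) (nat_lit 5) (nat_lit 366) (nat_lit 358) (nat_lit 296)) (XT.lf (nat_lit 0) (nat_lit 14490666789) (nat_lit 152) (nat_lit 49895774085) (nat_lit 76) (nat_lit 36104500053) (nat_lit 27) (nat_lit 5) (nat_lit 29) (nat_lit 5) (nat_lit 28) (nat_lit 5) (nat_lit 367) (nat_lit 358) (nat_lit 295))))) (XT.nd (nat_lit 234) (nat_lit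 228) (nat_lit 0) (XT.nd (nat_lit 78) (nat_lit 76) (nat_lit 0) (XT.lf (nat_lit 0) (nat_lit 8260342887) (nat_lit 152) (nat_lit 26867666938) (nat_lit 228) (nat_lit 74258395091) (nat_lit 25) (nat_lit 5) (nat_lit 27) (nat_lit 5) (nat_lit 28) (nat_lit 5) (nat_lit 368) (nat_lit 358) (nat_lit 294)) (XT.nd (nat_lit 78) (nat_lit 76) (nat_lit 0) (XT.lf (nat_lit 0) (nat_lit 62265705805) (nat_lit 228) (nat_lit 39278483175) (nat_lit 76) (nat_lit 17561287550) (nat_lit 25) (nat_lit 5) (nat_lit 28) (nat_lit 5) (nat_lit 26) (nat_lit 4) (nat_lit 369) (nat_lit 358) (nat_lit 293)) (XT.lf (nat_lit 0) (nat_lit 33551425832) (nat_lit 76) (nat_lit 62589847679) (nat_lit 152) (nat_lit 33741053427) (nat_lit 24) (nat_lit 5) (nat_lit 25) (nat_lit 5) (nat_lit 26) (nat_lit 4) (nat_lit 370) (nat_lit 358) (nat_lit 292)))) (XT.nd (nat_lit 156) (nat_lit 76) (nat_lit 0) (XT.nd (nat_lit 78) (nat_lit 152) (nat_lit 0) (XT.lf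 (nat_lit 0) (nat_lit 121717921086) (nat_lit 76) (nat_lit 15432060658) (nat_lit 152) (nat_lit 4817952927) (nat_lit 24) (nat_lit 5) (nat_lit 25) (nat_lit 5) (nat_lit 26) (nat_lit 4) (nat_lit 371) (nat_lit 358) (nat_lit 291)) (XT.lf (nat_lit 0) (nat_lit 30718614667) (nat_lit 152) (nat_lit 84525827658) (nat_lit 76) (nat_lit 39724185897) (nat_lit 22) (nat_lit 5) (nat_lit 24) (nat_lit 5) (nat_lit 23) (nat_lit 4) (nat_lit 372) (nat_lit 358) (nat_lit 290))) (XT.nd (nat_lit 78) (nat_lit 0) (nat_lit 0) (XT.lf (nat_lit 0) (nat_lit 6847490391) (nat_lit 76) (nat_lit 66371023174) (nat_lit 152) (nat_lit 96347581750) (nat_lit 21) (nat_lit 5) (nat_lit 22) (nat_lit 5) (nat_lit 23) (nat_lit 4) (nat_lit 373) (nat_lit 358) (nat_lit 289)) (XT.lf (nat_lit 0) (nat_lit 121424310723) (nat_lit 76) (nat_lit 5086339531) (nat_lit 152) (nat_lit 59179944600) (nat_lit 21) (nat_lit 5) (nat_lit 22) (nat_lit 5) (nat_lit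 23) (nat_lit 4) (nat_lit 374) (nat_lit 358) (nat_lit 288))))))))
noncomputable def xc77 : XT := (XT.nd (nat_lit 1872) (nat_lit 152) (nat_lit 0) (XT.nd (nat_lit 936) (nat_lit 608) (nat_lit 0) (XT.nd (nat_lit 468) (nat_lit 304) (nat_lit 0) (XT.nd (nat_lit 234) (nat_lit 228) (nat_lit 0) (XT.nd (nat_lit 78) (nat_lit 152) (nat_lit 0) (XT.lf (nat_lit 0) (nat_lit 50763613084) (nat_lit 76) (nat_lit 141841685050) (nat_lit 76) (nat_lit 10907167868) (nat_lit 20) (nat_lit 4) (nat_lit 21) (nat_lit 5) (nat_lit 21) (nat_lit 4) (nat_lit 375) (nat_lit 358) (nat_lit 287)) (XT.nd (nat_lit 78) (nat_lit 76) (nat_lit 0) (XT.lf (nat_lit 0) (nat_lit 44395881353) (nat_lit 152) (nat_lit 35484209651) (nat_lit 76) (nat_lit 143286387268) (nat_lit 19) (nat_lit 5) (nat_lit 21) (nat_lit 5) (nat_lit 20) (nat_lit 4) (nat_lit 376) (nat_lit 358) (nat_lit 286)) (XT.lf (nat_lit 0) (nat_lit 108509332409) (nat_lit 76) (nat_lit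 2860628114) (nat_lit 152) (nat_lit 133646884883) (nat_lit 18) (nat_lit 5) (nat_lit 19) (nat_lit 5) (nat_lit 20) (nat_lit 4) (nat_lit 377) (nat_lit 358) (nat_lit 285)))) (XT.nd (nat_lit 78) (nat_lit 152) (nat_lit 0) (XT.lf (nat_lit 0) (nat_lit 5032159919) (nat_lit 76) (nat_lit 189057823453) (nat_lit 76) (nat_lit 75199809630) (nat_lit 17) (nat_lit 4) (nat_lit 18) (nat_lit 5) (nat_lit 18) (nat_lit 4) (nat_lit 378) (nat_lit 358) (nat_lit 284)) (XT.nd (nat_lit 78) (nat_lit 76) (nat_lit 0) (XT.lf (nat_lit 0) (nat_lit 336042702) (nat_lit 152) (nat_lit 113136000786) (nat_lit 76) (nat_lit 182639623431) (nat_lit 16) (nat_lit 5) (nat_lit 18) (nat_lit 5) (nat_lit 17) (nat_lit 4) (nat_lit 379) (nat_lit 358) (nat_lit 283)) (XT.lf (nat_lit 0) (nat_lit 62648906057) (nat_lit 76) (nat_lit 19447752072) (nat_lit 152) (nat_lit 243934010398) (nat_lit 15) (nat_lit 5) (nat_lit 16) (nat_lit 5) (nat_lit 17) (nat_lit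 4) (nat_lit 380) (nat_lit 358) (nat_lit 282))))) (XT.nd (nat_lit 234) (nat_lit 152) (nat_lit 0) (XT.nd (nat_lit 78) (nat_lit 152) (nat_lit 0) (XT.lf (nat_lit 0) (nat_lit 185988232208) (nat_lit 152) (nat_lit 85989087792) (nat_lit 0) (nat_lit 86980170517) (nat_lit 15) (nat_lit 5) (nat_lit 17) (nat_lit 4) (nat_lit 15) (nat_lit 4) (nat_lit 381) (nat_lit 358) (nat_lit 281)) (XT.nd (nat_lit 78) (nat_lit 76) (nat_lit 0) (XT.lf (nat_lit 0) (nat_lit 128527530451) (nat_lit 76) (nat_lit 183183508214) (nat_lit 76) (nat_lit 84175172782) (nat_lit 14) (nat_lit 4) (nat_lit 15) (nat_lit 5) (nat_lit 15) (nat_lit 4) (nat_lit 382) (nat_lit 358) (nat_lit 280)) (XT.lf (nat_lit 0) (nat_lit 21049350202) (nat_lit 152) (nat_lit 53752470531) (nat_lit 76) (nat_lit 362734759780) (nat_lit 13) (nat_lit 5) (nat_lit 15) (nat_lit 5) (nat_lit 14) (nat_lit 4) (nat_lit 383) (nat_lit 358) (nat_lit 279)))) (XT.nd (nat_lit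 78) (nat_lit 76) (nat_lit 0) (XT.lf (nat_lit 0) (nat_lit 144640479052) (nat_lit 152) (nat_lit 279966758087) (nat_lit 0) (nat_lit 58545887352) (nat_lit 12) (nat_lit 5) (nat_lit 14) (nat_lit 4) (nat_lit 12) (nat_lit 4) (nat_lit 384) (nat_lit 358) (nat_lit 278)) (XT.nd (nat_lit 78) (nat_lit 76) (nat_lit 0) (XT.lf (nat_lit 0) (nat_lit 293275309769) (nat_lit 152) (nat_lit 34180523904) (nat_lit 0) (nat_lit 207180561557) (nat_lit 12) (nat_lit 5) (nat_lit 14) (nat_lit 4) (nat_lit 12) (nat_lit 4) (nat_lit 385) (nat_lit 358) (nat_lit 277)) (XT.lf (nat_lit 0) (nat_lit 272755223492) (nat_lit 76) (nat_lit 202743878455) (nat_lit 76) (nat_lit 116648994146) (nat_lit 11) (nat_lit 4) (nat_lit 12) (nat_lit 5) (nat_lit 12) (nat_lit 4) (nat_lit 386) (nat_lit 358) (nat_lit 276)))))) (XT.nd (nat_lit 468) (nat_lit 228) (nat_lit 0) (XT.nd (nat_lit 234) (nat_lit 228) (nat_lit 0) (XT.nd (nat_lit 78) (nat_lit 76)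 (nat_lit 0) (XT.lf (nat_lit 0) (nat_lit 26257985363) (nat_lit 152) (nat_lit 29640334123) (nat_lit 76) (nat_lit 601941262329) (nat_lit 10) (nat_lit 5) (nat_lit 12) (nat_lit 5) (nat_lit 11) (nat_lit 4) (nat_lit 387) (nat_lit 358) (nat_lit 275)) (XT.nd (nat_lit 78) (nat_lit 0) (nat_lit 0) (XT.lf (nat_lit 0) (nat_lit 197791878017) (nat_lit 152) (nat_lit 408963111272) (nat_lit 0) (nat_lit 122926568831) (nat_lit 9) (nat_lit 5) (nat_lit 11) (nat_lit 4) (nat_lit 9) (nat_lit 4) (nat_lit 388) (nat_lit 358) (nat_lit 274)) (XT.lf (nat_lit 0) (nat_lit 399340431277) (nat_lit 152) (nat_lit 87841668833) (nat_lit 0) (nat_lit 324475044277) (nat_lit 9) (nat_lit 5) (nat_lit 11) (nat_lit 4) (nat_lit 9) (nat_lit 4) (nat_lit 389) (nat_lit 358) (nat_lit 273)))) (XT.nd (nat_lit 78) (nat_lit 152) (nat_lit 0) (XT.lf (nat_lit 0) (nat_lit 308952318622) (nat_lit 76) (nat_lit 334961649764) (nat_lit 76) (nat_lit 260096195099)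 (nat_lit 8) (nat_lit 4) (nat_lit 9) (nat_lit 5) (nat_lit 9) (nat_lit 4) (nat_lit 390) (nat_lit 358) (nat_lit 272)) (XT.nd (nat_lit 78) (nat_lit 152) (nat_lit 0) (XT.lf (nat_lit 0) (nat_lit 775136900521) (nat_lit 76) (nat_lit 154628020363) (nat_lit 76) (nat_lit 79762506859) (nat_lit 8) (nat_lit 4) (nat_lit 9) (nat_lit 5) (nat_lit 9) (nat_lit 4) (nat_lit 391) (nat_lit 358) (nat_lit 271)) (XT.lf (nat_lit 0) (nat_lit 127033031069) (nat_lit 152) (nat_lit 939498003862) (nat_lit 0) (nat_lit 61932540054) (nat_lit 6) (nat_lit 5) (nat_lit 8) (nat_lit 4) (nat_lit 6) (nat_lit 4) (nat_lit 392) (nat_lit 358) (nat_lit 270))))) (XT.nd (nat_lit 234) (nat_lit 152) (nat_lit 0) (XT.nd (nat_lit 78) (nat_lit 76) (nat_lit 0) (XT.lf (nat_lit 0) (nat_lit 376880341712) (nat_lit 152) (nat_lit 572980467894) (nat_lit 0) (nat_lit 311779812009) (nat_lit 6) (nat_lit 5) (nat_lit 8) (nat_lit 4) (nat_lit 6) (nat_lit 4)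 (nat_lit 393) (nat_lit 358) (nat_lit 269)) (XT.nd (nat_lit 78) (nat_lit 76) (nat_lit 0) (XT.lf (nat_lit 0) (nat_lit 664204481688) (nat_lit 152) (nat_lit 151485865309) (nat_lit 0) (nat_lit 599103918344) (nat_lit 6) (nat_lit 5) (nat_lit 8) (nat_lit 4) (nat_lit 6) (nat_lit 4) (nat_lit 394) (nat_lit 358) (nat_lit 268)) (XT.lf (nat_lit 0) (nat_lit 365798334717) (nat_lit 76) (nat_lit 643975604514) (nat_lit 76) (nat_lit 578875011917) (nat_lit 5) (nat_lit 4) (nat_lit 6) (nat_lit 5) (nat_lit 6) (nat_lit 4) (nat_lit 395) (nat_lit 358) (nat_lit 267)))) (XT.nd (nat_lit 78) (nat_lit 152) (nat_lit 0) (XT.lf (nat_lit 0) (nat_lit 977699642336) (nat_lit 76) (nat_lit 437397530927) (nat_lit 76) (nat_lit 372296912892) (nat_lit 5) (nat_lit 4) (nat_lit 6) (nat_lit 5) (nat_lit 6) (nat_lit 4) (nat_lit 396) (nat_lit 358) (nat_lit 266)) (XT.nd (nat_lit 78) (nat_lit 152) (nat_lit 0) (XT.lf (nat_lit 0) (nat_lit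 1681385739178) (nat_lit 76) (nat_lit 199832960642) (nat_lit 76) (nat_lit 134732320487) (nat_lit 5) (nat_lit 4) (nat_lit 6) (nat_lit 5) (nat_lit 6) (nat_lit 4) (nat_lit 397) (nat_lit 358) (nat_lit 265)) (XT.lf (nat_lit 0) (nat_lit 139264712944) (nat_lit 152) (nat_lit 2054042538720) (nat_lit 0) (nat_lit 82655443909) (nat_lit 3) (nat_lit 5) (nat_lit 5) (nat_lit 4) (nat_lit 3) (nat_lit 4) (nat_lit 398) (nat_lit 358) (nat_lit 264))))))) (XT.nd (nat_lit 936) (nat_lit 76) (nat_lit 0) (XT.nd (nat_lit 468) (nat_lit 0) (nat_lit 0) (XT.nd (nat_lit 234) (nat_lit 76) (nat_lit 0) (XT.nd (nat_lit 78) (nat_lit 0) (nat_lit 0) (XT.lf (nat_lit 0) (nat_lit 468404390473) (nat_lit 152) (nat_lit 1689638684191) (nat_lit 0) (nat_lit 411795106895) (nat_lit 3) (nat_lit 5) (nat_lit 5) (nat_lit 4) (nat_lit 3) (nat_lit 4) (nat_lit 399) (nat_lit 358) (nat_lit 263)) (XT.nd (nat_lit 78) (nat_lit 0) (nat_lit 0) (XT.lf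 (nat_lit 0) (nat_lit 846914867493) (nat_lit 152) (nat_lit 1270574574507) (nat_lit 0) (nat_lit 790305571267) (nat_lit 3) (nat_lit 5) (nat_lit 5) (nat_lit 4) (nat_lit 3) (nat_lit 4) (nat_lit 400) (nat_lit 358) (nat_lit 262)) (XT.lf (nat_lit 0) (nat_lit 1282201783771) (nat_lit 152) (nat_lit 788651129261) (nat_lit 0) (nat_lit 1225592476548) (nat_lit 3) (nat_lit 5) (nat_lit 5) (nat_lit 4) (nat_lit 3) (nat_lit 4) (nat_lit 401) (nat_lit 358) (nat_lit 261)))) (XT.nd (nat_lit 78) (nat_lit 76) (nat_lit 0) (XT.lf (nat_lit 0) (nat_lit 1782781622452) (nat_lit 152) (nat_lit 234439411480) (nat_lit 0) (nat_lit 1726172305666) (nat_lit 3) (nat_lit 5) (nat_lit 5) (nat_lit 4) (nat_lit 3) (nat_lit 4) (nat_lit 402) (nat_lit 358) (nat_lit 260)) (XT.nd (nat_lit 78) (nat_lit 0) (nat_lit 0) (XT.lf (nat_lit 0) (nat_lit 442278546160) (nat_lit 76) (nat_lit 1934483602175) (nat_lit 76) (nat_lit 1877874277074) (nat_lit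 2) (nat_lit 4) (nat_lit 3) (nat_lit 5) (nat_lit 3) (nat_lit 4) (nat_lit 403) (nat_lit 358) (nat_lit 259)) (XT.lf (nat_lit 0) (nat_lit 1246851787657) (nat_lit 76) (nat_lit 1825242657483) (nat_lit 76) (nat_lit 1768633325151) (nat_lit 2) (nat_lit 4) (nat_lit 3) (nat_lit 5) (nat_lit 3) (nat_lit 4) (nat_lit 404) (nat_lit 358) (nat_lit 258))))) (XT.nd (nat_lit 234) (nat_lit 0) (nat_lit 0) (XT.nd (nat_lit 78) (nat_lit 0) (nat_lit 0) (XT.lf (nat_lit 0) (nat_lit 2172110839084) (nat_lit 76) (nat_lit 1699615664441) (nat_lit 76) (nat_lit 1643006325821) (nat_lit 2) (nat_lit 4) (nat_lit 3) (nat_lit 5) (nat_lit 3) (nat_lit 4) (nat_lit 405) (nat_lit 358) (nat_lit 257)) (XT.nd (nat_lit 78) (nat_lit 0) (nat_lit 0) (XT.lf (nat_lit 0) (nat_lit 3236158594925) (nat_lit 76) (nat_lit 1555144703621) (nat_lit 76) (nat_lit 1498535359534) (nat_lit 2) (nat_lit 4) (nat_lit 3) (nat_lit 5) (nat_lit 3) (nat_lit 4) (nat_lit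 406) (nat_lit 358) (nat_lit 256)) (XT.lf (nat_lit 0) (nat_lit 4459813380838) (nat_lit 76) (nat_lit 1389003169269) (nat_lit 76) (nat_lit 1332393820427) (nat_lit 2) (nat_lit 4) (nat_lit 3) (nat_lit 5) (nat_lit 3) (nat_lit 4) (nat_lit 407) (nat_lit 358) (nat_lit 255)))) (XT.nd (nat_lit 78) (nat_lit 0) (nat_lit 0) (XT.lf (nat_lit 0) (nat_lit 5867016268721) (nat_lit 76) (nat_lit 1197940466145) (nat_lit 76) (nat_lit 1141331113169) (nat_lit 2) (nat_lit 4) (nat_lit 3) (nat_lit 5) (nat_lit 3) (nat_lit 4) (nat_lit 408) (nat_lit 358) (nat_lit 254)) (XT.nd (nat_lit 78) (nat_lit 0) (nat_lit 0) (XT.lf (nat_lit 0) (nat_lit 7485299488990) (nat_lit 76) (nat_lit 978218410929) (nat_lit 76) (nat_lit 921609054358) (nat_lit 2) (nat_lit 4) (nat_lit 3) (nat_lit 5) (nat_lit 3) (nat_lit 4) (nat_lit 409) (nat_lit 358) (nat_lit 253)) (XT.lf (nat_lit 0) (nat_lit 9346325104649) (nat_lit 76) (nat_lit 725538093845)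 (nat_lit 76) (nat_lit 668928734147) (nat_lit 2) (nat_lit 4) (nat_lit 3) (nat_lit 5) (nat_lit 3) (nat_lit 4) (nat_lit 410) (nat_lit 358) (nat_lit 252)))))) (XT.nd (nat_lit 468) (nat_lit 0) (nat_lit 0) (XT.nd (nat_lit 234) (nat_lit 0) (nat_lit 0) (XT.nd (nat_lit 78) (nat_lit 76) (nat_lit 0) (XT.lf (nat_lit 0) (nat_lit 11486504486440) (nat_lit 76) (nat_lit 434955769558) (nat_lit 76) (nat_lit 378346407142) (nat_lit 2) (nat_lit 4) (nat_lit 3) (nat_lit 5) (nat_lit 3) (nat_lit 4) (nat_lit 411) (nat_lit 358) (nat_lit 251)) (XT.nd (nat_lit 78) (nat_lit 76) (nat_lit 0) (XT.lf (nat_lit 0) (nat_lit 13947710709223) (nat_lit 76) (nat_lit 100786131723) (nat_lit 76) (nat_lit 44176766944) (nat_lit 2) (nat_lit 4) (nat_lit 3) (nat_lit 5) (nat_lit 3) (nat_lit 4) (nat_lit 412) (nat_lit 358) (nat_lit 250)) (XT.lf (nat_lit 0) (nat_lit 351274639764) (nat_lit 76) (nat_lit 15492818914276) (nat_lit 0) (nat_lit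 302049103386) (nat_lit 1) (nat_lit 5) (nat_lit 2) (nat_lit 4) (nat_lit 1) (nat_lit 4) (nat_lit 413) (nat_lit 358) (nat_lit 249)))) (XT.nd (nat_lit 78) (nat_lit 0) (nat_lit 0) (XT.lf (nat_lit 0) (nat_lit 814258653710) (nat_lit 76) (nat_lit 16926114083215) (nat_lit 0) (nat_lit 765033115777) (nat_lit 1) (nat_lit 5) (nat_lit 2) (nat_lit 4) (nat_lit 1) (nat_lit 4) (nat_lit 414) (nat_lit 358) (nat_lit 248)) (XT.nd (nat_lit 78) (nat_lit 0) (nat_lit 0) (XT.lf (nat_lit 0) (nat_lit 1346690245092) (nat_lit 76) (nat_lit 18574403580069) (nat_lit 0) (nat_lit 1297464705808) (nat_lit 1) (nat_lit 5) (nat_lit 2) (nat_lit 4) (nat_lit 1) (nat_lit 4) (nat_lit 415) (nat_lit 358) (nat_lit 247)) (XT.lf (nat_lit 0) (nat_lit 1958986553742) (nat_lit 76) (nat_lit 20469936547166) (nat_lit 0) (nat_lit 1909761013283) (nat_lit 1) (nat_lit 5) (nat_lit 2) (nat_lit 4) (nat_lit 1) (nat_lit 4) (nat_lit 416) (nat_lit 358)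 (nat_lit 246))))) (XT.nd (nat_lit 234) (nat_lit 0) (nat_lit 0) (XT.nd (nat_lit 78) (nat_lit 0) (nat_lit 0) (XT.lf (nat_lit 0) (nat_lit 2663127290047) (nat_lit 76) (nat_lit 22649799499081) (nat_lit 0) (nat_lit 2613901748565) (nat_lit 1) (nat_lit 5) (nat_lit 2) (nat_lit 4) (nat_lit 1) (nat_lit 4) (nat_lit 417) (nat_lit 358) (nat_lit 245)) (XT.nd (nat_lit 78) (nat_lit 0) (nat_lit 0) (XT.lf (nat_lit 0) (nat_lit 3472889120586) (nat_lit 76) (nat_lit 25156641928351) (nat_lit 0) (nat_lit 3423663578216) (nat_lit 1) (nat_lit 5) (nat_lit 2) (nat_lit 4) (nat_lit 1) (nat_lit 4) (nat_lit 418) (nat_lit 358) (nat_lit 244)) (XT.lf (nat_lit 0) (nat_lit 4404115211609) (nat_lit 76) (nat_lit 28039510752071) (nat_lit 0) (nat_lit 4354889668466) (nat_lit 1) (nat_lit 5) (nat_lit 2) (nat_lit 4) (nat_lit 1) (nat_lit 4) (nat_lit 419) (nat_lit 358) (nat_lit 243)))) (XT.nd (nat_lit 156) (nat_lit 0) (nat_lit 0) (XT.nd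 (nat_lit 78) (nat_lit 0) (nat_lit 0) (XT.lf (nat_lit 0) (nat_lit 5475025204028) (nat_lit 76) (nat_lit 31354809925487) (nat_lit 0) (nat_lit 5425799660213) (nat_lit 1) (nat_lit 5) (nat_lit 2) (nat_lit 4) (nat_lit 1) (nat_lit 4) (nat_lit 420) (nat_lit 358) (nat_lit 242)) (XT.lf (nat_lit 0) (nat_lit 6706571684650) (nat_lit 76) (nat_lit 35167403997644) (nat_lit 0) (nat_lit 6657346140251) (nat_lit 1) (nat_lit 5) (nat_lit 2) (nat_lit 4) (nat_lit 1) (nat_lit 4) (nat_lit 421) (nat_lit 358) (nat_lit 241))) (XT.nd (nat_lit 78) (nat_lit 0) (nat_lit 0) (XT.lf (nat_lit 0) (nat_lit 8122850128097) (nat_lit 76) (nat_lit 39551887200389) (nat_lit 0) (nat_lit 8073624583190) (nat_lit 1) (nat_lit 5) (nat_lit 2) (nat_lit 4) (nat_lit 1) (nat_lit 4) (nat_lit 422) (nat_lit 358) (nat_lit 240)) (XT.lf (nat_lit 0) (nat_lit 9751570330002) (nat_lit 76) (nat_lit 44594042900732) (nat_lit 0) (nat_lit 9702344784653) (nat_lit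 1) (nat_lit 5) (nat_lit 2) (nat_lit 4) (nat_lit 1) (nat_lit 4) (nat_lit 423) (nat_lit 358) (nat_lit 239))))))))
noncomputable def xc78 : XT := (XT.nd (nat_lit 48984) (nat_lit 0) (nat_lit 380) (XT.nd (nat_lit 48048) (nat_lit 0) (nat_lit 1824) (XT.nd (nat_lit 468) (nat_lit 0) (nat_lit 0) (XT.nd (nat_lit 234) (nat_lit 0) (nat_lit 0) (XT.nd (nat_lit 78) (nat_lit 0) (nat_lit 0) (XT.lf (nat_lit 0) (nat_lit 11624598555183) (nat_lit 76) (nat_lit 50392521971071) (nat_lit 0) (nat_lit 11575373009450) (nat_lit 1) (nat_lit 5) (nat_lit 2) (nat_lit 4) (nat_lit 1) (nat_lit 4) (nat_lit 424) (nat_lit 358) (nat_lit 238)) (XT.nd (nat_lit 78) (nat_lit 0) (nat_lit 0) (XT.lf (nat_lit 0) (nat_lit 13778581008047) (nat_lit 76) (nat_lit 57060772914957) (nat_lit 0) (nat_lit 13729355461980) (nat_lit 1) (nat_lit 5) (nat_lit 2) (nat_lit 4) (nat_lit 1) (nat_lit 4) (nat_lit 425) (nat_lit 358) (nat_lit 237)) (XT.lf (nat_lit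 0) (nat_lit 16255660823541) (nat_lit 76) (nat_lit 64729261511725) (nat_lit 0) (nat_lit 16206435277183) (nat_lit 1) (nat_lit 5) (nat_lit 2) (nat_lit 4) (nat_lit 1) (nat_lit 4) (nat_lit 426) (nat_lit 358) (nat_lit 236)))) (XT.nd (nat_lit 78) (nat_lit 0) (nat_lit 0) (XT.lf (nat_lit 0) (nat_lit 19104302606751) (nat_lit 76) (nat_lit 73548023407835) (nat_lit 0) (nat_lit 19055077060141) (nat_lit 1) (nat_lit 5) (nat_lit 2) (nat_lit 4) (nat_lit 1) (nat_lit 4) (nat_lit 427) (nat_lit 358) (nat_lit 235)) (XT.nd (nat_lit 78) (nat_lit 0) (nat_lit 0) (XT.lf (nat_lit 0) (nat_lit 22380240653435) (nat_lit 76) (nat_lit 83689599596906) (nat_lit 0) (nat_lit 22331015106606) (nat_lit 1) (nat_lit 5) (nat_lit 2) (nat_lit 4) (nat_lit 1) (nat_lit 4) (nat_lit 428) (nat_lit 358) (nat_lit 234)) (XT.lf (nat_lit 0) (nat_lit 26147569403638) (nat_lit 76) (nat_lit 95352412221768) (nat_lit 0) (nat_lit 26098343856617) (nat_lit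 1) (nat_lit 5) (nat_lit 2) (nat_lit 4) (nat_lit 1) (nat_lit 4) (nat_lit 429) (nat_lit 358) (nat_lit 233))))) (XT.nd (nat_lit 234) (nat_lit 0) (nat_lit 0) (XT.nd (nat_lit 78) (nat_lit 0) (nat_lit 0) (XT.lf (nat_lit 0) (nat_lit 30479997463341) (nat_lit 76) (nat_lit 108764646746820) (nat_lit 0) (nat_lit 30430771916154) (nat_lit 1) (nat_lit 5) (nat_lit 2) (nat_lit 4) (nat_lit 1) (nat_lit 4) (nat_lit 430) (nat_lit 358) (nat_lit 232)) (XT.nd (nat_lit 78) (nat_lit 0) (nat_lit 0) (XT.lf (nat_lit 0) (nat_lit 35462289729364) (nat_lit 76) (nat_lit 124188716456248) (nat_lit 0) (nat_lit 35413064182033) (nat_lit 1) (nat_lit 5) (nat_lit 2) (nat_lit 4) (nat_lit 1) (nat_lit 4) (nat_lit 431) (nat_lit 358) (nat_lit 231)) (XT.lf (nat_lit 0) (nat_lit 41191925833001) (nat_lit 76) (nat_lit 141926396626976) (nat_lit 0) (nat_lit 41142700285543) (nat_lit 1) (nat_lit 5) (nat_lit 2) (nat_lit 4) (nat_lit 1) (nat_lit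 4) (nat_lit 432) (nat_lit 358) (nat_lit 230)))) (XT.nd (nat_lit 78) (nat_lit 0) (nat_lit 0) (XT.lf (nat_lit 0) (nat_lit 47781007350189) (nat_lit 76) (nat_lit 162324728827562) (nat_lit 0) (nat_lit 47731781802623) (nat_lit 1) (nat_lit 5) (nat_lit 2) (nat_lit 4) (nat_lit 1) (nat_lit 4) (nat_lit 433) (nat_lit 358) (nat_lit 229)) (XT.nd (nat_lit 78) (nat_lit 0) (nat_lit 0) (XT.lf (nat_lit 0) (nat_lit 55358451093225) (nat_lit 76) (nat_lit 185782810861929) (nat_lit 0) (nat_lit 55309225545563) (nat_lit 1) (nat_lit 5) (nat_lit 2) (nat_lit 4) (nat_lit 1) (nat_lit 4) (nat_lit 434) (nat_lit 358) (nat_lit 228)) (XT.lf (nat_lit 0) (nat_lit 64072511396208) (nat_lit 76) (nat_lit 212759605204663) (nat_lit 0) (nat_lit 64023285848465) (nat_lit 1) (nat_lit 5) (nat_lit 2) (nat_lit 4) (nat_lit 1) (nat_lit 4) (nat_lit 435) (nat_lit 358) (nat_lit 227)))))) (XT.nd (nat_lit 468) (nat_lit 456) (nat_lit 0) (XT.nd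 (nat_lit 234) (nat_lit 152) (nat_lit 0) (XT.nd (nat_lit 78) (nat_lit 0) (nat_lit 0) (XT.lf (nat_lit 0) (nat_lit 8004024202) (nat_lit 380) (nat_lit 10423990616) (nat_lit 380) (nat_lit 10423990616) (nat_lit 33) (nat_lit 3) (nat_lit 38) (nat_lit 3) (nat_lit 38) (nat_lit 5) (nat_lit 359) (nat_lit 359) (nat_lit 302)) (XT.nd (nat_lit 78) (nat_lit 0) (nat_lit 76) (XT.lf (nat_lit 76) (nat_lit 8386885332) (nat_lit 0) (nat_lit 9187225686) (nat_lit 380) (nat_lit 44402868929) (nat_lit 34) (nat_lit 5) (nat_lit 33) (nat_lit 3) (nat_lit 38) (nat_lit 5) (nat_lit 360) (nat_lit 359) (nat_lit 301)) (XT.lf (nat_lit 0) (nat_lit 21450628799) (nat_lit 304) (nat_lit 23369046874) (nat_lit 380) (nat_lit 21759889144) (nat_lit 34) (nat_lit 5) (nat_lit 38) (nat_lit 5) (nat_lit 39) (nat_lit 5) (nat_lit 361) (nat_lit 359) (nat_lit 300)))) (XT.nd (nat_lit 78) (nat_lit 228) (nat_lit 0) (XT.lf (nat_lit 76) (nat_lit 12015077890)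 (nat_lit 0) (nat_lit 14825710256) (nat_lit 380) (nat_lit 44891926682) (nat_lit 35) (nat_lit 5) (nat_lit 34) (nat_lit 5) (nat_lit 39) (nat_lit 5) (nat_lit 362) (nat_lit 359) (nat_lit 299)) (XT.nd (nat_lit 78) (nat_lit 304) (nat_lit 0) (XT.lf (nat_lit 0) (nat_lit 35131044295) (nat_lit 304) (nat_lit 23017530331) (nat_lit 76) (nat_lit 19196528513) (nat_lit 35) (nat_lit 5) (nat_lit 39) (nat_lit 5) (nat_lit 36) (nat_lit 5) (nat_lit 363) (nat_lit 359) (nat_lit 298)) (XT.lf (nat_lit 0) (nat_lit 20285320905) (nat_lit 304) (nat_lit 25923264183) (nat_lit 380) (nat_lit 37359204185) (nat_lit 31) (nat_lit 5) (nat_lit 35) (nat_lit 5) (nat_lit 36) (nat_lit 5) (nat_lit 364) (nat_lit 359) (nat_lit 297))))) (XT.nd (nat_lit 234) (nat_lit 304) (nat_lit 0) (XT.nd (nat_lit 78) (nat_lit 152) (nat_lit 0) (XT.lf (nat_lit 0) (nat_lit 60667336369) (nat_lit 380) (nat_lit 18393771760) (nat_lit 76) (nat_lit 11404834605)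 (nat_lit 31) (nat_lit 5) (nat_lit 36) (nat_lit 5) (nat_lit 32) (nat_lit 5) (nat_lit 365) (nat_lit 359) (nat_lit 296)) (XT.nd (nat_lit 78) (nat_lit 0) (nat_lit 0) (XT.lf (nat_lit 0) (nat_lit 35118142004) (nat_lit 152) (nat_lit 44863613868) (nat_lit 228) (nat_lit 18014036156) (nat_lit 29) (nat_lit 5) (nat_lit 31) (nat_lit 5) (nat_lit 32) (nat_lit 5) (nat_lit 366) (nat_lit 359) (nat_lit 295)) (XT.lf (nat_lit 0) (nat_lit 98722041654) (nat_lit 152) (nat_lit 4431181678) (nat_lit 228) (nat_lit 3357913618) (nat_lit 29) (nat_lit 5) (nat_lit 31) (nat_lit 5) (nat_lit 32) (nat_lit 5) (nat_lit 367) (nat_lit 359) (nat_lit 294)))) (XT.nd (nat_lit 78) (nat_lit 152) (nat_lit 0) (XT.lf (nat_lit 0) (nat_lit 16681204204) (nat_lit 152) (nat_lit 57355497757) (nat_lit 76) (nat_lit 41525331419) (nat_lit 27) (nat_lit 5) (nat_lit 29) (nat_lit 5) (nat_lit 28) (nat_lit 5) (nat_lit 368) (nat_lit 359) (nat_lit 293))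 (XT.nd (nat_lit 78) (nat_lit 0) (nat_lit 0) (XT.lf (nat_lit 0) (nat_lit 9522916650) (nat_lit 152) (nat_lit 30889996829) (nat_lit 228) (nat_lit 85379089823) (nat_lit 25) (nat_lit 5) (nat_lit 27) (nat_lit 5) (nat_lit 28) (nat_lit 5) (nat_lit 369) (nat_lit 359) (nat_lit 292)) (XT.lf (nat_lit 0) (nat_lit 71619497324) (nat_lit 228) (nat_lit 45148028811) (nat_lit 76) (nat_lit 20201675418) (nat_lit 25) (nat_lit 5) (nat_lit 28) (nat_lit 5) (nat_lit 26) (nat_lit 4) (nat_lit 370) (nat_lit 359) (nat_lit 291))))))) (XT.nd (nat_lit 936) (nat_lit 684) (nat_lit 0) (XT.nd (nat_lit 468) (nat_lit 380) (nat_lit 0) (XT.nd (nat_lit 234) (nat_lit 152) (nat_lit 0) (XT.nd (nat_lit 78) (nat_lit 152) (nat_lit 0) (XT.lf (nat_lit 0) (nat_lit 38605356236) (nat_lit 76) (nat_lit 71970104789) (nat_lit 152) (nat_lit 38787260170) (nat_lit 24) (nat_lit 5) (nat_lit 25) (nat_lit 5) (nat_lit 26) (nat_lit 4) (nat_lit 371)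 (nat_lit 359) (nat_lit 290)) (XT.nd (nat_lit 78) (nat_lit 152) (nat_lit 0) (XT.lf (nat_lit 0) (nat_lit 139994058404) (nat_lit 76) (nat_lit 17739721894) (nat_lit 152) (nat_lit 5527644760) (nat_lit 24) (nat_lit 5) (nat_lit 25) (nat_lit 5) (nat_lit 26) (nat_lit 4) (nat_lit 372) (nat_lit 359) (nat_lit 289)) (XT.lf (nat_lit 0) (nat_lit 35337797397) (nat_lit 152) (nat_lit 97184634567) (nat_lit 76) (nat_lit 45689778420) (nat_lit 22) (nat_lit 5) (nat_lit 24) (nat_lit 5) (nat_lit 23) (nat_lit 4) (nat_lit 373) (nat_lit 359) (nat_lit 288)))) (XT.nd (nat_lit 78) (nat_lit 76) (nat_lit 0) (XT.lf (nat_lit 0) (nat_lit 7893769042) (nat_lit 76) (nat_lit 76318219538) (nat_lit 152) (nat_lit 110787413299) (nat_lit 21) (nat_lit 5) (nat_lit 22) (nat_lit 5) (nat_lit 23) (nat_lit 4) (nat_lit 374) (nat_lit 359) (nat_lit 287)) (XT.nd (nat_lit 78) (nat_lit 76) (nat_lit 0) (XT.lf (nat_lit 0) (nat_lit 139654613933)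 (nat_lit 76) (nat_lit 5841936450) (nat_lit 152) (nat_lit 68046235669) (nat_lit 21) (nat_lit 5) (nat_lit 22) (nat_lit 5) (nat_lit 23) (nat_lit 4) (nat_lit 375) (nat_lit 359) (nat_lit 286)) (XT.lf (nat_lit 0) (nat_lit 58395098341) (nat_lit 76) (nat_lit 163110050104) (nat_lit 76) (nat_lit 12532826823) (nat_lit 20) (nat_lit 4) (nat_lit 21) (nat_lit 5) (nat_lit 21) (nat_lit 4) (nat_lit 376) (nat_lit 359) (nat_lit 285))))) (XT.nd (nat_lit 234) (nat_lit 152) (nat_lit 0) (XT.nd (nat_lit 78) (nat_lit 152) (nat_lit 0) (XT.lf (nat_lit 0) (nat_lit 51063514774) (nat_lit 152) (nat_lit 40791299694) (nat_lit 76) (nat_lit 164785396126) (nat_lit 19) (nat_lit 5) (nat_lit 21) (nat_lit 5) (nat_lit 20) (nat_lit 4) (nat_lit 377) (nat_lit 359) (nat_lit 284)) (XT.nd (nat_lit 78) (nat_lit 76) (nat_lit 0) (XT.lf (nat_lit 0) (nat_lit 124800567247) (nat_lit 76) (nat_lit 3282676611) (nat_lit 152) (nat_lit 153684958460)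 (nat_lit 18) (nat_lit 5) (nat_lit 19) (nat_lit 5) (nat_lit 20) (nat_lit 4) (nat_lit 378) (nat_lit 359) (nat_lit 283)) (XT.lf (nat_lit 0) (nat_lit 5801982801) (nat_lit 76) (nat_lit 217409146110) (nat_lit 76) (nat_lit 86470984523) (nat_lit 17) (nat_lit 4) (nat_lit 18) (nat_lit 5) (nat_lit 18) (nat_lit 4) (nat_lit 379) (nat_lit 359) (nat_lit 282)))) (XT.nd (nat_lit 78) (nat_lit 76) (nat_lit 0) (XT.lf (nat_lit 0) (nat_lit 393417300) (nat_lit 152) (nat_lit 130092676412) (nat_lit 76) (nat_lit 210041277023) (nat_lit 16) (nat_lit 5) (nat_lit 18) (nat_lit 5) (nat_lit 17) (nat_lit 4) (nat_lit 380) (nat_lit 359) (nat_lit 281)) (XT.nd (nat_lit 78) (nat_lit 0) (nat_lit 0) (XT.lf (nat_lit 0) (nat_lit 72059342617) (nat_lit 76) (nat_lit 22358415999) (nat_lit 152) (nat_lit 280516519061) (nat_lit 15) (nat_lit 5) (nat_lit 16) (nat_lit 5) (nat_lit 17) (nat_lit 4) (nat_lit 381) (nat_lit 359) (nat_lit 280))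 (XT.lf (nat_lit 0) (nat_lit 213892441712) (nat_lit 152) (nat_lit 98875431244) (nat_lit 0) (nat_lit 100032344189) (nat_lit 15) (nat_lit 5) (nat_lit 17) (nat_lit 4) (nat_lit 15) (nat_lit 4) (nat_lit 382) (nat_lit 359) (nat_lit 279)))))) (XT.nd (nat_lit 468) (nat_lit 304) (nat_lit 0) (XT.nd (nat_lit 234) (nat_lit 152) (nat_lit 0) (XT.nd (nat_lit 78) (nat_lit 152) (nat_lit 0) (XT.lf (nat_lit 0) (nat_lit 147818133385) (nat_lit 76) (nat_lit 210655231534) (nat_lit 76) (nat_lit 96794927024) (nat_lit 14) (nat_lit 4) (nat_lit 15) (nat_lit 5) (nat_lit 15) (nat_lit 4) (nat_lit 383) (nat_lit 359) (nat_lit 278)) (XT.nd (nat_lit 78) (nat_lit 76) (nat_lit 0) (XT.lf (nat_lit 0) (nat_lit 24211918881) (nat_lit 152) (nat_lit 61804858903) (nat_lit 76) (nat_lit 417149514390) (nat_lit 13) (nat_lit 5) (nat_lit 15) (nat_lit 5) (nat_lit 14) (nat_lit 4) (nat_lit 384) (nat_lit 359) (nat_lit 277)) (XT.lf (nat_lit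 0) (nat_lit 166341668673) (nat_lit 152) (nat_lit 321951240778) (nat_lit 0) (nat_lit 67332415620) (nat_lit 12) (nat_lit 5) (nat_lit 14) (nat_lit 4) (nat_lit 12) (nat_lit 4) (nat_lit 385) (nat_lit 359) (nat_lit 276)))) (XT.nd (nat_lit 78) (nat_lit 152) (nat_lit 0) (XT.lf (nat_lit 0) (nat_lit 337271056464) (nat_lit 152) (nat_lit 39298445079) (nat_lit 0) (nat_lit 238261685065) (nat_lit 12) (nat_lit 5) (nat_lit 14) (nat_lit 4) (nat_lit 12) (nat_lit 4) (nat_lit 386) (nat_lit 359) (nat_lit 275)) (XT.nd (nat_lit 78) (nat_lit 76) (nat_lit 0) (XT.lf (nat_lit 0) (nat_lit 313677248180) (nat_lit 76) (nat_lit 233150950776) (nat_lit 76) (nat_lit 134141476468) (nat_lit 11) (nat_lit 4) (nat_lit 12) (nat_lit 5) (nat_lit 12) (nat_lit 4) (nat_lit 387) (nat_lit 359) (nat_lit 274)) (XT.lf (nat_lit 0) (nat_lit 30200538405) (nat_lit 152) (nat_lit 34078406221) (nat_lit 76) (nat_lit 692235995929) (nat_lit 10)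 (nat_lit 5) (nat_lit 12) (nat_lit 5) (nat_lit 11) (nat_lit 4) (nat_lit 388) (nat_lit 359) (nat_lit 273))))) (XT.nd (nat_lit 234) (nat_lit 152) (nat_lit 0) (XT.nd (nat_lit 78) (nat_lit 76) (nat_lit 0) (XT.lf (nat_lit 0) (nat_lit 227464490901) (nat_lit 152) (nat_lit 470299575673) (nat_lit 0) (nat_lit 141369150372) (nat_lit 9) (nat_lit 5) (nat_lit 11) (nat_lit 4) (nat_lit 9) (nat_lit 4) (nat_lit 389) (nat_lit 359) (nat_lit 272)) (XT.nd (nat_lit 78) (nat_lit 76) (nat_lit 0) (XT.lf (nat_lit 0) (nat_lit 459244827431) (nat_lit 152) (nat_lit 101010960645) (nat_lit 0) (nat_lit 373149428063) (nat_lit 9) (nat_lit 5) (nat_lit 11) (nat_lit 4) (nat_lit 9) (nat_lit 4) (nat_lit 390) (nat_lit 359) (nat_lit 271)) (XT.lf (nat_lit 0) (nat_lit 355301808632) (nat_lit 76) (nat_lit 385202426976) (nat_lit 76) (nat_lit 299106976444) (nat_lit 8) (nat_lit 4) (nat_lit 9) (nat_lit 5) (nat_lit 9) (nat_lit 4) (nat_lit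 391) (nat_lit 359) (nat_lit 270)))) (XT.nd (nat_lit 156) (nat_lit 0) (nat_lit 0) (XT.nd (nat_lit 78) (nat_lit 152) (nat_lit 0) (XT.lf (nat_lit 0) (nat_lit 891413211439) (nat_lit 76) (nat_lit 177819205807) (nat_lit 76) (nat_lit 91723710784) (nat_lit 8) (nat_lit 4) (nat_lit 9) (nat_lit 5) (nat_lit 9) (nat_lit 4) (nat_lit 392) (nat_lit 359) (nat_lit 269)) (XT.lf (nat_lit 0) (nat_lit 146090863471) (nat_lit 152) (nat_lit 1080416634010) (nat_lit 0) (nat_lit 71225181984) (nat_lit 6) (nat_lit 5) (nat_lit 8) (nat_lit 4) (nat_lit 6) (nat_lit 4) (nat_lit 393) (nat_lit 359) (nat_lit 268))) (XT.nd (nat_lit 78) (nat_lit 0) (nat_lit 0) (XT.lf (nat_lit 0) (nat_lit 433414895353) (nat_lit 152) (nat_lit 658922259443) (nat_lit 0) (nat_lit 358549184613) (nat_lit 6) (nat_lit 5) (nat_lit 8) (nat_lit 4) (nat_lit 6) (nat_lit 4) (nat_lit 394) (nat_lit 359) (nat_lit 267)) (XT.lf (nat_lit 0) (nat_lit 763837329928)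 (nat_lit 152) (nat_lit 174204154987) (nat_lit 0) (nat_lit 688971593750) (nat_lit 6) (nat_lit 5) (nat_lit 8) (nat_lit 4) (nat_lit 6) (nat_lit 4) (nat_lit 395) (nat_lit 359) (nat_lit 266))))))))
noncomputable def xc79 : XT := (XT.nd (nat_lit 1950) (nat_lit 0) (nat_lit 0) (XT.nd (nat_lit 936) (nat_lit 76) (nat_lit 0) (XT.nd (nat_lit 468) (nat_lit 76) (nat_lit 0) (XT.nd (nat_lit 234) (nat_lit 152) (nat_lit 0) (XT.nd (nat_lit 78) (nat_lit 0) (nat_lit 0) (XT.lf (nat_lit 0) (nat_lit 420672466401) (nat_lit 76) (nat_lit 740569637304) (nat_lit 76) (nat_lit 665703879007) (nat_lit 5) (nat_lit 4) (nat_lit 6) (nat_lit 5) (nat_lit 6) (nat_lit 4) (nat_lit 396) (nat_lit 359) (nat_lit 265)) (XT.nd (nat_lit 78) (nat_lit 0) (nat_lit 0) (XT.lf (nat_lit 0) (nat_lit 1124358398666) (nat_lit 76) (nat_lit 503005153708) (nat_lit 76) (nat_lit 428139376176) (nat_lit 5) (nat_lit 4) (nat_lit 6) (nat_lit 5) (nat_lit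 6) (nat_lit 4) (nat_lit 397) (nat_lit 359) (nat_lit 264)) (XT.lf (nat_lit 0) (nat_lit 1933596913081) (nat_lit 76) (nat_lit 229806159644) (nat_lit 76) (nat_lit 154940365386) (nat_lit 5) (nat_lit 4) (nat_lit 6) (nat_lit 5) (nat_lit 6) (nat_lit 4) (nat_lit 398) (nat_lit 359) (nat_lit 263)))) (XT.nd (nat_lit 78) (nat_lit 0) (nat_lit 0) (XT.lf (nat_lit 0) (nat_lit 160156058032) (nat_lit 152) (nat_lit 2362145441389) (nat_lit 0) (nat_lit 95055354726) (nat_lit 3) (nat_lit 5) (nat_lit 5) (nat_lit 4) (nat_lit 3) (nat_lit 4) (nat_lit 399) (nat_lit 359) (nat_lit 262)) (XT.nd (nat_lit 78) (nat_lit 0) (nat_lit 0) (XT.lf (nat_lit 0) (nat_lit 538666473519) (nat_lit 152) (nat_lit 1943081462352) (nat_lit 0) (nat_lit 473565759216) (nat_lit 3) (nat_lit 5) (nat_lit 5) (nat_lit 4) (nat_lit 3) (nat_lit 4) (nat_lit 400) (nat_lit 359) (nat_lit 261)) (XT.lf (nat_lit 0) (nat_lit 973953336291) (nat_lit 152) (nat_lit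 1461158130711) (nat_lit 0) (nat_lit 908852612425) (nat_lit 3) (nat_lit 5) (nat_lit 5) (nat_lit 4) (nat_lit 3) (nat_lit 4) (nat_lit 401) (nat_lit 359) (nat_lit 260))))) (XT.nd (nat_lit 234) (nat_lit 0) (nat_lit 0) (XT.nd (nat_lit 78) (nat_lit 76) (nat_lit 0) (XT.lf (nat_lit 0) (nat_lit 1474533128444) (nat_lit 152) (nat_lit 906946511717) (nat_lit 0) (nat_lit 1409432396263) (nat_lit 3) (nat_lit 5) (nat_lit 5) (nat_lit 4) (nat_lit 3) (nat_lit 4) (nat_lit 402) (nat_lit 359) (nat_lit 259)) (XT.nd (nat_lit 78) (nat_lit 76) (nat_lit 0) (XT.lf (nat_lit 0) (nat_lit 2050199802435) (nat_lit 152) (nat_lit 269603334565) (nat_lit 0) (nat_lit 1985099063022) (nat_lit 3) (nat_lit 5) (nat_lit 5) (nat_lit 4) (nat_lit 3) (nat_lit 4) (nat_lit 403) (nat_lit 359) (nat_lit 258)) (XT.lf (nat_lit 0) (nat_lit 508622226329) (nat_lit 76) (nat_lit 2224655137308) (nat_lit 76) (nat_lit 2159554391607) (nat_lit 2) (nat_lit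 4) (nat_lit 3) (nat_lit 5) (nat_lit 3) (nat_lit 4) (nat_lit 404) (nat_lit 359) (nat_lit 257)))) (XT.nd (nat_lit 78) (nat_lit 0) (nat_lit 0) (XT.lf (nat_lit 0) (nat_lit 1433881206453) (nat_lit 76) (nat_lit 2099028182024) (nat_lit 76) (nat_lit 2033927430855) (nat_lit 2) (nat_lit 4) (nat_lit 3) (nat_lit 5) (nat_lit 3) (nat_lit 4) (nat_lit 405) (nat_lit 359) (nat_lit 256)) (XT.nd (nat_lit 78) (nat_lit 0) (nat_lit 0) (XT.lf (nat_lit 0) (nat_lit 2497928900292) (nat_lit 76) (nat_lit 1954557254036) (nat_lit 76) (nat_lit 1889456498114) (nat_lit 2) (nat_lit 4) (nat_lit 3) (nat_lit 5) (nat_lit 3) (nat_lit 4) (nat_lit 406) (nat_lit 359) (nat_lit 255)) (XT.lf (nat_lit 0) (nat_lit 3721583632291) (nat_lit 76) (nat_lit 1788415748233) (nat_lit 76) (nat_lit 1723314988177) (nat_lit 2) (nat_lit 4) (nat_lit 3) (nat_lit 5) (nat_lit 3) (nat_lit 4) (nat_lit 407) (nat_lit 359) (nat_lit 254)))))) (XT.nd (nat_lit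 468) (nat_lit 76) (nat_lit 0) (XT.nd (nat_lit 234) (nat_lit 0) (nat_lit 0) (XT.nd (nat_lit 78) (nat_lit 0) (nat_lit 0) (XT.lf (nat_lit 0) (nat_lit 5128786473291) (nat_lit 76) (nat_lit 1597353069936) (nat_lit 76) (nat_lit 1532252306284) (nat_lit 2) (nat_lit 4) (nat_lit 3) (nat_lit 5) (nat_lit 3) (nat_lit 4) (nat_lit 408) (nat_lit 359) (nat_lit 253)) (XT.nd (nat_lit 78) (nat_lit 0) (nat_lit 0) (XT.lf (nat_lit 0) (nat_lit 6747069652793) (nat_lit 76) (nat_lit 1377631036308) (nat_lit 76) (nat_lit 1312530269530) (nat_lit 2) (nat_lit 4) (nat_lit 3) (nat_lit 5) (nat_lit 3) (nat_lit 4) (nat_lit 409) (nat_lit 359) (nat_lit 252)) (XT.lf (nat_lit 0) (nat_lit 8608095233002) (nat_lit 76) (nat_lit 1124950737996) (nat_lit 76) (nat_lit 1059849968499) (nat_lit 2) (nat_lit 4) (nat_lit 3) (nat_lit 5) (nat_lit 3) (nat_lit 4) (nat_lit 410) (nat_lit 359) (nat_lit 251)))) (XT.nd (nat_lit 78) (nat_lit 0) (nat_lit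 0) (XT.lf (nat_lit 0) (nat_lit 10748274583967) (nat_lit 76) (nat_lit 834368430032) (nat_lit 76) (nat_lit 769267658172) (nat_lit 2) (nat_lit 4) (nat_lit 3) (nat_lit 5) (nat_lit 3) (nat_lit 4) (nat_lit 411) (nat_lit 359) (nat_lit 250)) (XT.nd (nat_lit 78) (nat_lit 0) (nat_lit 0) (XT.lf (nat_lit 0) (nat_lit 13209480779945) (nat_lit 76) (nat_lit 500198806392) (nat_lit 76) (nat_lit 435098032476) (nat_lit 2) (nat_lit 4) (nat_lit 3) (nat_lit 5) (nat_lit 3) (nat_lit 4) (nat_lit 412) (nat_lit 359) (nat_lit 249)) (XT.lf (nat_lit 0) (nat_lit 16039867855206) (nat_lit 76) (nat_lit 115903765743) (nat_lit 76) (nat_lit 50802990040) (nat_lit 2) (nat_lit 4) (nat_lit 3) (nat_lit 5) (nat_lit 3) (nat_lit 4) (nat_lit 413) (nat_lit 359) (nat_lit 248))))) (XT.nd (nat_lit 234) (nat_lit 0) (nat_lit 0) (XT.nd (nat_lit 78) (nat_lit 0) (nat_lit 0) (XT.lf (nat_lit 0) (nat_lit 403966101203) (nat_lit 76) (nat_lit 17816741185337)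 (nat_lit 0) (nat_lit 347356729675) (nat_lit 1) (nat_lit 5) (nat_lit 2) (nat_lit 4) (nat_lit 1) (nat_lit 4) (nat_lit 414) (nat_lit 359) (nat_lit 247)) (XT.nd (nat_lit 78) (nat_lit 0) (nat_lit 0) (XT.lf (nat_lit 0) (nat_lit 936397682613) (nat_lit 76) (nat_lit 19465030703454) (nat_lit 0) (nat_lit 879788309910) (nat_lit 1) (nat_lit 5) (nat_lit 2) (nat_lit 4) (nat_lit 1) (nat_lit 4) (nat_lit 415) (nat_lit 359) (nat_lit 246)) (XT.lf (nat_lit 0) (nat_lit 1548693982592) (nat_lit 76) (nat_lit 21360563689041) (nat_lit 0) (nat_lit 1492084608867) (nat_lit 1) (nat_lit 5) (nat_lit 2) (nat_lit 4) (nat_lit 1) (nat_lit 4) (nat_lit 416) (nat_lit 359) (nat_lit 245)))) (XT.nd (nat_lit 156) (nat_lit 0) (nat_lit 0) (XT.nd (nat_lit 78) (nat_lit 0) (nat_lit 0) (XT.lf (nat_lit 0) (nat_lit 2252834711357) (nat_lit 76) (nat_lit 23540426657034) (nat_lit 0) (nat_lit 2196225336743) (nat_lit 1) (nat_lit 5) (nat_lit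 2) (nat_lit 4) (nat_lit 1) (nat_lit 4) (nat_lit 417) (nat_lit 359) (nat_lit 244)) (XT.lf (nat_lit 0) (nat_lit 3062596535339) (nat_lit 76) (nat_lit 26047269100285) (nat_lit 0) (nat_lit 3005987159953) (nat_lit 1) (nat_lit 5) (nat_lit 2) (nat_lit 4) (nat_lit 1) (nat_lit 4) (nat_lit 418) (nat_lit 359) (nat_lit 243))) (XT.nd (nat_lit 78) (nat_lit 0) (nat_lit 0) (XT.lf (nat_lit 0) (nat_lit 3993822620661) (nat_lit 76) (nat_lit 28930137936162) (nat_lit 0) (nat_lit 3937213244603) (nat_lit 1) (nat_lit 5) (nat_lit 2) (nat_lit 4) (nat_lit 1) (nat_lit 4) (nat_lit 419) (nat_lit 359) (nat_lit 242)) (XT.lf (nat_lit 0) (nat_lit 5064732608122) (nat_lit 76) (nat_lit 32245437120150) (nat_lit 0) (nat_lit 5008123231479) (nat_lit 1) (nat_lit 5) (nat_lit 2) (nat_lit 4) (nat_lit 1) (nat_lit 4) (nat_lit 420) (nat_lit 359) (nat_lit 241))))))) (XT.nd (nat_lit 936) (nat_lit 0) (nat_lit 0) (XT.nd (nat_lit 468) (nat_lit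 0) (nat_lit 0) (XT.nd (nat_lit 234) (nat_lit 0) (nat_lit 0) (XT.nd (nat_lit 78) (nat_lit 0) (nat_lit 0) (XT.lf (nat_lit 0) (nat_lit 6296279084434) (nat_lit 76) (nat_lit 36058031201500) (nat_lit 0) (nat_lit 6239669707283) (nat_lit 1) (nat_lit 5) (nat_lit 2) (nat_lit 4) (nat_lit 1) (nat_lit 4) (nat_lit 421) (nat_lit 359) (nat_lit 240)) (XT.nd (nat_lit 78) (nat_lit 0) (nat_lit 0) (XT.lf (nat_lit 0) (nat_lit 7712557524132) (nat_lit 76) (nat_lit 40442514412238) (nat_lit 0) (nat_lit 7655948146539) (nat_lit 1) (nat_lit 5) (nat_lit 2) (nat_lit 4) (nat_lit 1) (nat_lit 4) (nat_lit 422) (nat_lit 359) (nat_lit 239)) (XT.lf (nat_lit 0) (nat_lit 9341277722776) (nat_lit 76) (nat_lit 45484670119532) (nat_lit 0) (nat_lit 9284668344799) (nat_lit 1) (nat_lit 5) (nat_lit 2) (nat_lit 4) (nat_lit 1) (nat_lit 4) (nat_lit 423) (nat_lit 359) (nat_lit 238)))) (XT.nd (nat_lit 78) (nat_lit 0) (nat_lit 0) (XT.lf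 (nat_lit 0) (nat_lit 11214305945123) (nat_lit 76) (nat_lit 51283149195916) (nat_lit 0) (nat_lit 11157696566812) (nat_lit 1) (nat_lit 5) (nat_lit 2) (nat_lit 4) (nat_lit 1) (nat_lit 4) (nat_lit 424) (nat_lit 359) (nat_lit 237)) (XT.nd (nat_lit 78) (nat_lit 0) (nat_lit 0) (XT.lf (nat_lit 0) (nat_lit 13368288395522) (nat_lit 76) (nat_lit 57951400145057) (nat_lit 0) (nat_lit 13311679016920) (nat_lit 1) (nat_lit 5) (nat_lit 2) (nat_lit 4) (nat_lit 1) (nat_lit 4) (nat_lit 425) (nat_lit 359) (nat_lit 236)) (XT.lf (nat_lit 0) (nat_lit 15845368208873) (nat_lit 76) (nat_lit 65619888746396) (nat_lit 0) (nat_lit 15788758830019) (nat_lit 1) (nat_lit 5) (nat_lit 2) (nat_lit 4) (nat_lit 1) (nat_lit 4) (nat_lit 426) (nat_lit 359) (nat_lit 235))))) (XT.nd (nat_lit 234) (nat_lit 0) (nat_lit 0) (XT.nd (nat_lit 78) (nat_lit 0) (nat_lit 0) (XT.lf (nat_lit 0) (nat_lit 18694009990219) (nat_lit 76) (nat_lit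 74438650646480) (nat_lit 0) (nat_lit 18637400611145) (nat_lit 1) (nat_lit 5) (nat_lit 2) (nat_lit 4) (nat_lit 1) (nat_lit 4) (nat_lit 427) (nat_lit 359) (nat_lit 234)) (XT.nd (nat_lit 78) (nat_lit 0) (nat_lit 0) (XT.lf (nat_lit 0) (nat_lit 21969948035283) (nat_lit 76) (nat_lit 84580226839007) (nat_lit 0) (nat_lit 21913338656018) (nat_lit 1) (nat_lit 5) (nat_lit 2) (nat_lit 4) (nat_lit 1) (nat_lit 4) (nat_lit 428) (nat_lit 359) (nat_lit 233)) (XT.lf (nat_lit 0) (nat_lit 25737276784076) (nat_lit 76) (nat_lit 96243039466874) (nat_lit 0) (nat_lit 25680667404645) (nat_lit 1) (nat_lit 5) (nat_lit 2) (nat_lit 4) (nat_lit 1) (nat_lit 4) (nat_lit 429) (nat_lit 359) (nat_lit 232)))) (XT.nd (nat_lit 78) (nat_lit 0) (nat_lit 0) (XT.lf (nat_lit 0) (nat_lit 30069704842553) (nat_lit 76) (nat_lit 109655273994539) (nat_lit 0) (nat_lit 30013095462978) (nat_lit 1) (nat_lit 5) (nat_lit 2) (nat_lit 4) (nat_lit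 1) (nat_lit 4) (nat_lit 430) (nat_lit 359) (nat_lit 231)) (XT.nd (nat_lit 78) (nat_lit 0) (nat_lit 0) (XT.lf (nat_lit 0) (nat_lit 35051997107511) (nat_lit 76) (nat_lit 125079343706240) (nat_lit 0) (nat_lit 34995387727810) (nat_lit 1) (nat_lit 5) (nat_lit 2) (nat_lit 4) (nat_lit 1) (nat_lit 4) (nat_lit 431) (nat_lit 359) (nat_lit 230)) (XT.lf (nat_lit 0) (nat_lit 40781633210221) (nat_lit 76) (nat_lit 142817023878943) (nat_lit 0) (nat_lit 40725023830411) (nat_lit 1) (nat_lit 5) (nat_lit 2) (nat_lit 4) (nat_lit 1) (nat_lit 4) (nat_lit 432) (nat_lit 359) (nat_lit 229)))))) (XT.nd (nat_lit 47658) (nat_lit 0) (nat_lit 1976) (XT.nd (nat_lit 47424) (nat_lit 0) (nat_lit 2432) (XT.nd (nat_lit 78) (nat_lit 0) (nat_lit 0) (XT.lf (nat_lit 0) (nat_lit 47370714726604) (nat_lit 76) (nat_lit 163215356081247) (nat_lit 0) (nat_lit 47314105346699) (nat_lit 1) (nat_lit 5) (nat_lit 2) (nat_lit 4) (nat_lit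 1) (nat_lit 4) (nat_lit 433) (nat_lit 359) (nat_lit 228)) (XT.nd (nat_lit 78) (nat_lit 0) (nat_lit 0) (XT.lf (nat_lit 0) (nat_lit 54948158468938) (nat_lit 76) (nat_lit 186673438117108) (nat_lit 0) (nat_lit 54891549088951) (nat_lit 1) (nat_lit 5) (nat_lit 2) (nat_lit 4) (nat_lit 1) (nat_lit 4) (nat_lit 434) (nat_lit 359) (nat_lit 227)) (XT.lf (nat_lit 0) (nat_lit 63662218771313) (nat_lit 76) (nat_lit 213650232461142) (nat_lit 0) (nat_lit 63605609391254) (nat_lit 1) (nat_lit 5) (nat_lit 2) (nat_lit 4) (nat_lit 1) (nat_lit 4) (nat_lit 435) (nat_lit 359) (nat_lit 226)))) (XT.nd (nat_lit 78) (nat_lit 0) (nat_lit 0) (XT.lf (nat_lit 0) (nat_lit 9222051153) (nat_lit 380) (nat_lit 11977564621) (nat_lit 380) (nat_lit 11977564621) (nat_lit 33) (nat_lit 3) (nat_lit 38) (nat_lit 3) (nat_lit 38) (nat_lit 5) (nat_lit 360) (nat_lit 360) (nat_lit 300)) (XT.nd (nat_lit 78) (nat_lit 0) (nat_lit 76) (XT.lf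 (nat_lit 76) (nat_lit 9664055980) (nat_lit 0) (nat_lit 10577265575) (nat_lit 380) (nat_lit 51027519814) (nat_lit 34) (nat_lit 5) (nat_lit 33) (nat_lit 3) (nat_lit 38) (nat_lit 5) (nat_lit 361) (nat_lit 360) (nat_lit 299)) (XT.lf (nat_lit 0) (nat_lit 24694830779) (nat_lit 304) (nat_lit 26853257390) (nat_lit 380) (nat_lit 25014401536) (nat_lit 34) (nat_lit 5) (nat_lit 38) (nat_lit 5) (nat_lit 39) (nat_lit 5) (nat_lit 362) (nat_lit 360) (nat_lit 298))))) (XT.nd (nat_lit 234) (nat_lit 304) (nat_lit 0) (XT.nd (nat_lit 78) (nat_lit 228) (nat_lit 0) (XT.lf (nat_lit 76) (nat_lit 13837524883) (nat_lit 0) (nat_lit 17053354411) (nat_lit 380) (nat_lit 51598130570) (nat_lit 35) (nat_lit 5) (nat_lit 34) (nat_lit 5) (nat_lit 39) (nat_lit 5) (nat_lit 363) (nat_lit 360) (nat_lit 297)) (XT.nd (nat_lit 78) (nat_lit 304) (nat_lit 0) (XT.lf (nat_lit 0) (nat_lit 40421410583) (nat_lit 304) (nat_lit 26449330024)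 (nat_lit 76) (nat_lit 22073007427) (nat_lit 35) (nat_lit 5) (nat_lit 39) (nat_lit 5) (nat_lit 36) (nat_lit 5) (nat_lit 364) (nat_lit 360) (nat_lit 296)) (XT.lf (nat_lit 0) (nat_lit 23348002085) (nat_lit 304) (nat_lit 29810702466) (nat_lit 380) (nat_lit 42941416072) (nat_lit 31) (nat_lit 5) (nat_lit 35) (nat_lit 5) (nat_lit 36) (nat_lit 5) (nat_lit 365) (nat_lit 360) (nat_lit 295)))) (XT.nd (nat_lit 156) (nat_lit 152) (nat_lit 0) (XT.nd (nat_lit 78) (nat_lit 152) (nat_lit 0) (XT.lf (nat_lit 0) (nat_lit 69783850071) (nat_lit 380) (nat_lit 21133118784) (nat_lit 76) (nat_lit 13116392619) (nat_lit 31) (nat_lit 5) (nat_lit 36) (nat_lit 5) (nat_lit 32) (nat_lit 5) (nat_lit 366) (nat_lit 360) (nat_lit 294)) (XT.lf (nat_lit 0) (nat_lit 40404685738) (nat_lit 152) (nat_lit 51589385299) (nat_lit 228) (nat_lit 20698822736) (nat_lit 29) (nat_lit 5) (nat_lit 31) (nat_lit 5) (nat_lit 32) (nat_lit 5)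 (nat_lit 367) (nat_lit 360) (nat_lit 293))) (XT.nd (nat_lit 78) (nat_lit 152) (nat_lit 0) (XT.lf (nat_lit 0) (nat_lit 113546715236) (nat_lit 152) (nat_lit 5092580104) (nat_lit 228) (nat_lit 3846540798) (nat_lit 29) (nat_lit 5) (nat_lit 31) (nat_lit 5) (nat_lit 32) (nat_lit 5) (nat_lit 368) (nat_lit 360) (nat_lit 292)) (XT.lf (nat_lit 0) (nat_lit 19196191939) (nat_lit 152) (nat_lit 65940189195) (nat_lit 76) (nat_lit 47758030078) (nat_lit 27) (nat_lit 5) (nat_lit 29) (nat_lit 5) (nat_lit 28) (nat_lit 5) (nat_lit 369) (nat_lit 360) (nat_lit 291))))))))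
noncomputable def xc80 : XT := (XT.nd (nat_lit 1872) (nat_lit 532) (nat_lit 0) (XT.nd (nat_lit 936) (nat_lit 608) (nat_lit 0) (XT.nd (nat_lit 468) (nat_lit 380) (nat_lit 0) (XT.nd (nat_lit 234) (nat_lit 228) (nat_lit 0) (XT.nd (nat_lit 78) (nat_lit 76) (nat_lit 0) (XT.lf (nat_lit 0) (nat_lit 10969140408) (nat_lit 152) (nat_lit 35517583197) (nat_lit 228) (nat_lit 98172293915) (nat_lit 25) (nat_lit 5) (nat_lit 27) (nat_lit 5) (nat_lit 28) (nat_lit 5) (nat_lit 370) (nat_lit 360) (nat_lit 290)) (XT.nd (nat_lit 78) (nat_lit 76) (nat_lit 0) (XT.lf (nat_lit 0) (nat_lit 82372959275) (nat_lit 228) (nat_lit 51903426449) (nat_lit 76) (nat_lit 23236610841) (nat_lit 25) (nat_lit 5) (nat_lit 28) (nat_lit 5) (nat_lit 26) (nat_lit 4) (nat_lit 371) (nat_lit 360) (nat_lit 289)) (XT.lf (nat_lit 0) (nat_lit 44412202415) (nat_lit 76) (nat_lit 82759404974) (nat_lit 152) (nat_lit 44594043887) (nat_lit 24) (nat_lit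 5) (nat_lit 25) (nat_lit 5) (nat_lit 26) (nat_lit 4) (nat_lit 372) (nat_lit 360) (nat_lit 288)))) (XT.nd (nat_lit 78) (nat_lit 228) (nat_lit 0) (XT.lf (nat_lit 0) (nat_lit 161007117377) (nat_lit 76) (nat_lit 20395275366) (nat_lit 152) (nat_lit 6346960771) (nat_lit 24) (nat_lit 5) (nat_lit 25) (nat_lit 5) (nat_lit 26) (nat_lit 4) (nat_lit 373) (nat_lit 360) (nat_lit 287)) (XT.nd (nat_lit 78) (nat_lit 76) (nat_lit 0) (XT.lf (nat_lit 0) (nat_lit 40647079884) (nat_lit 152) (nat_lit 111747156036) (nat_lit 76) (nat_lit 52548511450) (nat_lit 22) (nat_lit 5) (nat_lit 24) (nat_lit 5) (nat_lit 23) (nat_lit 4) (nat_lit 374) (nat_lit 360) (nat_lit 286)) (XT.lf (nat_lit 0) (nat_lit 9092318401) (nat_lit 76) (nat_lit 87759557677) (nat_lit 152) (nat_lit 127396220406) (nat_lit 21) (nat_lit 5) (nat_lit 22) (nat_lit 5) (nat_lit 23) (nat_lit 4) (nat_lit 375) (nat_lit 360) (nat_lit 285))))) (XT.nd (nat_lit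 234) (nat_lit 228) (nat_lit 0) (XT.nd (nat_lit 78) (nat_lit 152) (nat_lit 0) (XT.lf (nat_lit 0) (nat_lit 160615400808) (nat_lit 76) (nat_lit 6712666229) (nat_lit 152) (nat_lit 78245079813) (nat_lit 21) (nat_lit 5) (nat_lit 22) (nat_lit 5) (nat_lit 23) (nat_lit 4) (nat_lit 376) (nat_lit 360) (nat_lit 284)) (XT.nd (nat_lit 78) (nat_lit 76) (nat_lit 0) (XT.lf (nat_lit 0) (nat_lit 67167174656) (nat_lit 76) (nat_lit 187570593382) (nat_lit 76) (nat_lit 14404874684) (nat_lit 20) (nat_lit 4) (nat_lit 21) (nat_lit 5) (nat_lit 21) (nat_lit 4) (nat_lit 377) (nat_lit 360) (nat_lit 283)) (XT.lf (nat_lit 0) (nat_lit 58729281096) (nat_lit 152) (nat_lit 46898243114) (nat_lit 76) (nat_lit 189507780794) (nat_lit 19) (nat_lit 5) (nat_lit 21) (nat_lit 5) (nat_lit 20) (nat_lit 4) (nat_lit 378) (nat_lit 360) (nat_lit 282)))) (XT.nd (nat_lit 78) (nat_lit 152) (nat_lit 0) (XT.lf (nat_lit 0) (nat_lit 143531869708)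 (nat_lit 76) (nat_lit 3769750526) (nat_lit 152) (nat_lit 176730927821) (nat_lit 18) (nat_lit 5) (nat_lit 19) (nat_lit 5) (nat_lit 20) (nat_lit 4) (nat_lit 379) (nat_lit 360) (nat_lit 281)) (XT.nd (nat_lit 78) (nat_lit 76) (nat_lit 0) (XT.lf (nat_lit 0) (nat_lit 6683621540) (nat_lit 76) (nat_lit 250014959719) (nat_lit 76) (nat_lit 99434980745) (nat_lit 17) (nat_lit 4) (nat_lit 18) (nat_lit 5) (nat_lit 18) (nat_lit 4) (nat_lit 380) (nat_lit 360) (nat_lit 280)) (XT.lf (nat_lit 0) (nat_lit 457698850) (nat_lit 152) (nat_lit 149596200186) (nat_lit 76) (nat_lit 241551786216) (nat_lit 16) (nat_lit 5) (nat_lit 18) (nat_lit 5) (nat_lit 17) (nat_lit 4) (nat_lit 381) (nat_lit 360) (nat_lit 279)))))) (XT.nd (nat_lit 468) (nat_lit 304) (nat_lit 0) (XT.nd (nat_lit 234) (nat_lit 152) (nat_lit 0) (XT.nd (nat_lit 78) (nat_lit 76) (nat_lit 0) (XT.lf (nat_lit 0) (nat_lit 82878149985) (nat_lit 76) (nat_lit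 25707264310) (nat_lit 152) (nat_lit 322588255600) (nat_lit 15) (nat_lit 5) (nat_lit 16) (nat_lit 5) (nat_lit 17) (nat_lit 4) (nat_lit 382) (nat_lit 360) (nat_lit 278)) (XT.nd (nat_lit 78) (nat_lit 76) (nat_lit 0) (XT.lf (nat_lit 0) (nat_lit 245980825679) (nat_lit 152) (nat_lit 113697657297) (nat_lit 0) (nat_lit 115041088516) (nat_lit 15) (nat_lit 5) (nat_lit 17) (nat_lit 4) (nat_lit 15) (nat_lit 4) (nat_lit 383) (nat_lit 360) (nat_lit 277)) (XT.lf (nat_lit 0) (nat_lit 169999528906) (nat_lit 76) (nat_lit 242249128430) (nat_lit 76) (nat_lit 111309234754) (nat_lit 14) (nat_lit 4) (nat_lit 15) (nat_lit 5) (nat_lit 15) (nat_lit 4) (nat_lit 384) (nat_lit 360) (nat_lit 276)))) (XT.nd (nat_lit 78) (nat_lit 76) (nat_lit 0) (XT.lf (nat_lit 0) (nat_lit 27847613064) (nat_lit 152) (nat_lit 71067661683) (nat_lit 76) (nat_lit 479725374928) (nat_lit 13) (nat_lit 5) (nat_lit 15) (nat_lit 5) (nat_lit 14)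 (nat_lit 4) (nat_lit 385) (nat_lit 360) (nat_lit 275)) (XT.nd (nat_lit 78) (nat_lit 0) (nat_lit 0) (XT.lf (nat_lit 0) (nat_lit 191296788739) (nat_lit 152) (nat_lit 370235963929) (nat_lit 0) (nat_lit 77435790375) (nat_lit 12) (nat_lit 5) (nat_lit 14) (nat_lit 4) (nat_lit 12) (nat_lit 4) (nat_lit 386) (nat_lit 360) (nat_lit 274)) (XT.lf (nat_lit 0) (nat_lit 387865079946) (nat_lit 152) (nat_lit 45186287523) (nat_lit 0) (nat_lit 274003992096) (nat_lit 12) (nat_lit 5) (nat_lit 14) (nat_lit 4) (nat_lit 12) (nat_lit 4) (nat_lit 387) (nat_lit 360) (nat_lit 273))))) (XT.nd (nat_lit 234) (nat_lit 76) (nat_lit 0) (XT.nd (nat_lit 78) (nat_lit 152) (nat_lit 0) (XT.lf (nat_lit 0) (nat_lit 360735444983) (nat_lit 76) (nat_lit 268120183603) (nat_lit 76) (nat_lit 154259017939) (nat_lit 11) (nat_lit 4) (nat_lit 12) (nat_lit 5) (nat_lit 12) (nat_lit 4) (nat_lit 388) (nat_lit 360) (nat_lit 272)) (XT.nd (nat_lit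 78) (nat_lit 76) (nat_lit 0) (XT.lf (nat_lit 0) (nat_lit 34733534280) (nat_lit 152) (nat_lit 39184134625) (nat_lit 76) (nat_lit 796074075281) (nat_lit 10) (nat_lit 5) (nat_lit 12) (nat_lit 5) (nat_lit 11) (nat_lit 4) (nat_lit 389) (nat_lit 360) (nat_lit 271)) (XT.lf (nat_lit 0) (nat_lit 261587061461) (nat_lit 152) (nat_lit 540838461144) (nat_lit 0) (nat_lit 162577242184) (nat_lit 9) (nat_lit 5) (nat_lit 11) (nat_lit 4) (nat_lit 9) (nat_lit 4) (nat_lit 390) (nat_lit 360) (nat_lit 270)))) (XT.nd (nat_lit 78) (nat_lit 76) (nat_lit 0) (XT.lf (nat_lit 0) (nat_lit 528134070611) (nat_lit 152) (nat_lit 116157343107) (nat_lit 0) (nat_lit 429124206844) (nat_lit 9) (nat_lit 5) (nat_lit 11) (nat_lit 4) (nat_lit 9) (nat_lit 4) (nat_lit 391) (nat_lit 360) (nat_lit 269)) (XT.nd (nat_lit 78) (nat_lit 0) (nat_lit 0) (XT.lf (nat_lit 0) (nat_lit 408602102396) (nat_lit 76) (nat_lit 442980167014) (nat_lit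 76) (nat_lit 343970264559) (nat_lit 8) (nat_lit 4) (nat_lit 9) (nat_lit 5) (nat_lit 9) (nat_lit 4) (nat_lit 392) (nat_lit 360) (nat_lit 268)) (XT.lf (nat_lit 0) (nat_lit 1025129560520) (nat_lit 76) (nat_lit 204489804930) (nat_lit 76) (nat_lit 105479868835) (nat_lit 8) (nat_lit 4) (nat_lit 9) (nat_lit 5) (nat_lit 9) (nat_lit 4) (nat_lit 393) (nat_lit 360) (nat_lit 267))))))) (XT.nd (nat_lit 936) (nat_lit 76) (nat_lit 0) (XT.nd (nat_lit 468) (nat_lit 228) (nat_lit 0) (XT.nd (nat_lit 234) (nat_lit 76) (nat_lit 0) (XT.nd (nat_lit 78) (nat_lit 0) (nat_lit 0) (XT.lf (nat_lit 0) (nat_lit 168006668978) (nat_lit 152) (nat_lit 1242474538993) (nat_lit 0) (nat_lit 81911046936) (nat_lit 6) (nat_lit 5) (nat_lit 8) (nat_lit 4) (nat_lit 6) (nat_lit 4) (nat_lit 394) (nat_lit 360) (nat_lit 266)) (XT.nd (nat_lit 78) (nat_lit 0) (nat_lit 0) (XT.lf (nat_lit 0) (nat_lit 498429021818) (nat_lit 152) (nat_lit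 757756606952) (nat_lit 0) (nat_lit 412333377656) (nat_lit 6) (nat_lit 5) (nat_lit 8) (nat_lit 4) (nat_lit 6) (nat_lit 4) (nat_lit 395) (nat_lit 360) (nat_lit 265)) (XT.lf (nat_lit 0) (nat_lit 878414574775) (nat_lit 152) (nat_lit 200331307446) (nat_lit 0) (nat_lit 792318911379) (nat_lit 6) (nat_lit 5) (nat_lit 8) (nat_lit 4) (nat_lit 6) (nat_lit 4) (nat_lit 396) (nat_lit 360) (nat_lit 264)))) (XT.nd (nat_lit 78) (nat_lit 0) (nat_lit 0) (XT.lf (nat_lit 0) (nat_lit 483776649387) (nat_lit 76) (nat_lit 851653337806) (nat_lit 76) (nat_lit 765557657684) (nat_lit 5) (nat_lit 4) (nat_lit 6) (nat_lit 5) (nat_lit 6) (nat_lit 4) (nat_lit 397) (nat_lit 360) (nat_lit 263)) (XT.nd (nat_lit 78) (nat_lit 0) (nat_lit 0) (XT.lf (nat_lit 0) (nat_lit 1293015039358) (nat_lit 76) (nat_lit 578454409291) (nat_lit 76) (nat_lit 492358714625) (nat_lit 5) (nat_lit 4) (nat_lit 6) (nat_lit 5) (nat_lit 6) (nat_lit 4)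 (nat_lit 398) (nat_lit 360) (nat_lit 262)) (XT.lf (nat_lit 0) (nat_lit 2223638955166) (nat_lit 76) (nat_lit 264275764049) (nat_lit 76) (nat_lit 178180056736) (nat_lit 5) (nat_lit 4) (nat_lit 6) (nat_lit 5) (nat_lit 6) (nat_lit 4) (nat_lit 399) (nat_lit 360) (nat_lit 261))))) (XT.nd (nat_lit 234) (nat_lit 76) (nat_lit 0) (XT.nd (nat_lit 78) (nat_lit 0) (nat_lit 0) (XT.lf (nat_lit 0) (nat_lit 184180705411) (nat_lit 152) (nat_lit 2716464627625) (nat_lit 0) (nat_lit 109314863402) (nat_lit 3) (nat_lit 5) (nat_lit 5) (nat_lit 4) (nat_lit 3) (nat_lit 4) (nat_lit 400) (nat_lit 360) (nat_lit 260)) (XT.nd (nat_lit 78) (nat_lit 0) (nat_lit 0) (XT.lf (nat_lit 0) (nat_lit 619467521655) (nat_lit 152) (nat_lit 2234541394772) (nat_lit 0) (nat_lit 544601671331) (nat_lit 3) (nat_lit 5) (nat_lit 5) (nat_lit 4) (nat_lit 3) (nat_lit 4) (nat_lit 401) (nat_lit 360) (nat_lit 259)) (XT.lf (nat_lit 0) (nat_lit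 1120047273350) (nat_lit 152) (nat_lit 1680329861681) (nat_lit 0) (nat_lit 1045181415795) (nat_lit 3) (nat_lit 5) (nat_lit 5) (nat_lit 4) (nat_lit 3) (nat_lit 4) (nat_lit 402) (nat_lit 360) (nat_lit 258)))) (XT.nd (nat_lit 78) (nat_lit 76) (nat_lit 0) (XT.lf (nat_lit 0) (nat_lit 1695713912159) (nat_lit 152) (nat_lit 1042986759225) (nat_lit 0) (nat_lit 1620848048316) (nat_lit 3) (nat_lit 5) (nat_lit 5) (nat_lit 4) (nat_lit 3) (nat_lit 4) (nat_lit 403) (nat_lit 360) (nat_lit 257)) (XT.nd (nat_lit 78) (nat_lit 76) (nat_lit 0) (XT.lf (nat_lit 0) (nat_lit 2357730481016) (nat_lit 152) (nat_lit 310042331054) (nat_lit 0) (nat_lit 2282864611705) (nat_lit 3) (nat_lit 5) (nat_lit 5) (nat_lit 4) (nat_lit 3) (nat_lit 4) (nat_lit 404) (nat_lit 360) (nat_lit 256)) (XT.lf (nat_lit 0) (nat_lit 584916995624) (nat_lit 76) (nat_lit 2558352647833) (nat_lit 76) (nat_lit 2483486773768) (nat_lit 2) (nat_lit 4)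 (nat_lit 3) (nat_lit 5) (nat_lit 3) (nat_lit 4) (nat_lit 405) (nat_lit 360) (nat_lit 255)))))) (XT.nd (nat_lit 468) (nat_lit 76) (nat_lit 0) (XT.nd (nat_lit 234) (nat_lit 0) (nat_lit 0) (XT.nd (nat_lit 78) (nat_lit 0) (nat_lit 0) (XT.lf (nat_lit 0) (nat_lit 1648964635548) (nat_lit 76) (nat_lit 2413881748396) (nat_lit 76) (nat_lit 2339015870196) (nat_lit 2) (nat_lit 4) (nat_lit 3) (nat_lit 5) (nat_lit 3) (nat_lit 4) (nat_lit 406) (nat_lit 360) (nat_lit 254)) (XT.nd (nat_lit 78) (nat_lit 0) (nat_lit 0) (XT.lf (nat_lit 0) (nat_lit 2872619320664) (nat_lit 76) (nat_lit 2247740267419) (nat_lit 76) (nat_lit 2172874385624) (nat_lit 2) (nat_lit 4) (nat_lit 3) (nat_lit 5) (nat_lit 3) (nat_lit 4) (nat_lit 407) (nat_lit 360) (nat_lit 253)) (XT.lf (nat_lit 0) (nat_lit 4279822120897) (nat_lit 76) (nat_lit 2056677610710) (nat_lit 76) (nat_lit 1981811725789) (nat_lit 2) (nat_lit 4) (nat_lit 3) (nat_lit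 5) (nat_lit 3) (nat_lit 4) (nat_lit 408) (nat_lit 360) (nat_lit 252)))) (XT.nd (nat_lit 78) (nat_lit 0) (nat_lit 0) (XT.lf (nat_lit 0) (nat_lit 5898105264949) (nat_lit 76) (nat_lit 1836955595854) (nat_lit 76) (nat_lit 1762089708214) (nat_lit 2) (nat_lit 4) (nat_lit 3) (nat_lit 5) (nat_lit 3) (nat_lit 4) (nat_lit 409) (nat_lit 360) (nat_lit 251)) (XT.nd (nat_lit 78) (nat_lit 0) (nat_lit 0) (XT.lf (nat_lit 0) (nat_lit 7759130814332) (nat_lit 76) (nat_lit 1584275313865) (nat_lit 76) (nat_lit 1509409423862) (nat_lit 2) (nat_lit 4) (nat_lit 3) (nat_lit 5) (nat_lit 3) (nat_lit 4) (nat_lit 410) (nat_lit 360) (nat_lit 250)) (XT.lf (nat_lit 0) (nat_lit 9899310138492) (nat_lit 76) (nat_lit 1293693020096) (nat_lit 76) (nat_lit 1218827128037) (nat_lit 2) (nat_lit 4) (nat_lit 3) (nat_lit 5) (nat_lit 3) (nat_lit 4) (nat_lit 411) (nat_lit 360) (nat_lit 249))))) (XT.nd (nat_lit 234) (nat_lit 76) (nat_lit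 0) (XT.nd (nat_lit 78) (nat_lit 0) (nat_lit 0) (XT.lf (nat_lit 0) (nat_lit 12360516311161) (nat_lit 76) (nat_lit 959523408798) (nat_lit 76) (nat_lit 884657514952) (nat_lit 2) (nat_lit 4) (nat_lit 3) (nat_lit 5) (nat_lit 3) (nat_lit 4) (nat_lit 412) (nat_lit 360) (nat_lit 248)) (XT.nd (nat_lit 78) (nat_lit 0) (nat_lit 0) (XT.lf (nat_lit 0) (nat_lit 15190903366154) (nat_lit 76) (nat_lit 575228378882) (nat_lit 76) (nat_lit 500362483482) (nat_lit 2) (nat_lit 4) (nat_lit 3) (nat_lit 5) (nat_lit 3) (nat_lit 4) (nat_lit 413) (nat_lit 360) (nat_lit 247)) (XT.lf (nat_lit 0) (nat_lit 18445848441502) (nat_lit 76) (nat_lit 133289114545) (nat_lit 76) (nat_lit 58423217793) (nat_lit 2) (nat_lit 4) (nat_lit 3) (nat_lit 5) (nat_lit 3) (nat_lit 4) (nat_lit 414) (nat_lit 360) (nat_lit 246)))) (XT.nd (nat_lit 156) (nat_lit 0) (nat_lit 0) (XT.nd (nat_lit 78) (nat_lit 0) (nat_lit 0) (XT.lf (nat_lit 0) (nat_lit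 464561217120) (nat_lit 76) (nat_lit 20489251935100) (nat_lit 0) (nat_lit 399460436314) (nat_lit 1) (nat_lit 5) (nat_lit 2) (nat_lit 4) (nat_lit 1) (nat_lit 4) (nat_lit 415) (nat_lit 360) (nat_lit 245)) (XT.lf (nat_lit 0) (nat_lit 1076857509559) (nat_lit 76) (nat_lit 22384784936765) (nat_lit 0) (nat_lit 1011756727864) (nat_lit 1) (nat_lit 5) (nat_lit 2) (nat_lit 4) (nat_lit 1) (nat_lit 4) (nat_lit 416) (nat_lit 360) (nat_lit 244))) (XT.nd (nat_lit 78) (nat_lit 0) (nat_lit 0) (XT.lf (nat_lit 0) (nat_lit 1780998231767) (nat_lit 76) (nat_lit 24564647918739) (nat_lit 0) (nat_lit 1715897449299) (nat_lit 1) (nat_lit 5) (nat_lit 2) (nat_lit 4) (nat_lit 1) (nat_lit 4) (nat_lit 417) (nat_lit 360) (nat_lit 243)) (XT.lf (nat_lit 0) (nat_lit 2590760050048) (nat_lit 76) (nat_lit 27071490374148) (nat_lit 0) (nat_lit 2525659266908) (nat_lit 1) (nat_lit 5) (nat_lit 2) (nat_lit 4) (nat_lit 1) (nat_lit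 4) (nat_lit 418) (nat_lit 360) (nat_lit 242))))))))
noncomputable def xc81 : XT := (XT.nd (nat_lit 49062) (nat_lit 0) (nat_lit 608) (XT.nd (nat_lit 936) (nat_lit 0) (nat_lit 0) (XT.nd (nat_lit 468) (nat_lit 0) (nat_lit 0) (XT.nd (nat_lit 234) (nat_lit 0) (nat_lit 0) (XT.nd (nat_lit 78) (nat_lit 0) (nat_lit 0) (XT.lf (nat_lit 0) (nat_lit 3521986130412) (nat_lit 76) (nat_lit 29954359220596) (nat_lit 0) (nat_lit 3456885346688) (nat_lit 1) (nat_lit 5) (nat_lit 2) (nat_lit 4) (nat_lit 1) (nat_lit 4) (nat_lit 419) (nat_lit 360) (nat_lit 241)) (XT.nd (nat_lit 78) (nat_lit 0) (nat_lit 0) (XT.lf (nat_lit 0) (nat_lit 4592896113562) (nat_lit 76) (nat_lit 33269658413776) (nat_lit 0) (nat_lit 4527795329330) (nat_lit 1) (nat_lit 5) (nat_lit 2) (nat_lit 4) (nat_lit 1) (nat_lit 4) (nat_lit 420) (nat_lit 360) (nat_lit 240)) (XT.lf (nat_lit 0) (nat_lit 5824442586125) (nat_lit 76) (nat_lit 37082252503120)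 (nat_lit 0) (nat_lit 5759341801451) (nat_lit 1) (nat_lit 5) (nat_lit 2) (nat_lit 4) (nat_lit 1) (nat_lit 4) (nat_lit 421) (nat_lit 360) (nat_lit 239)))) (XT.nd (nat_lit 78) (nat_lit 0) (nat_lit 0) (XT.lf (nat_lit 0) (nat_lit 7240721022563) (nat_lit 76) (nat_lit 41466735720809) (nat_lit 0) (nat_lit 7175620237505) (nat_lit 1) (nat_lit 5) (nat_lit 2) (nat_lit 4) (nat_lit 1) (nat_lit 4) (nat_lit 422) (nat_lit 360) (nat_lit 238)) (XT.nd (nat_lit 78) (nat_lit 0) (nat_lit 0) (XT.lf (nat_lit 0) (nat_lit 8869441218373) (nat_lit 76) (nat_lit 46508891434148) (nat_lit 0) (nat_lit 8804340432981) (nat_lit 1) (nat_lit 5) (nat_lit 2) (nat_lit 4) (nat_lit 1) (nat_lit 4) (nat_lit 423) (nat_lit 360) (nat_lit 237)) (XT.lf (nat_lit 0) (nat_lit 10742469438255) (nat_lit 76) (nat_lit 52307370515787) (nat_lit 0) (nat_lit 10677368652572) (nat_lit 1) (nat_lit 5) (nat_lit 2) (nat_lit 4) (nat_lit 1) (nat_lit 4) (nat_lit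 424) (nat_lit 360) (nat_lit 236))))) (XT.nd (nat_lit 234) (nat_lit 0) (nat_lit 0) (XT.nd (nat_lit 78) (nat_lit 0) (nat_lit 0) (XT.lf (nat_lit 0) (nat_lit 12896451886510) (nat_lit 76) (nat_lit 58975621469499) (nat_lit 0) (nat_lit 12831351100575) (nat_lit 1) (nat_lit 5) (nat_lit 2) (nat_lit 4) (nat_lit 1) (nat_lit 4) (nat_lit 425) (nat_lit 360) (nat_lit 235)) (XT.nd (nat_lit 78) (nat_lit 0) (nat_lit 0) (XT.lf (nat_lit 0) (nat_lit 15373531697997) (nat_lit 76) (nat_lit 66644110074812) (nat_lit 0) (nat_lit 15308430911843) (nat_lit 1) (nat_lit 5) (nat_lit 2) (nat_lit 4) (nat_lit 1) (nat_lit 4) (nat_lit 426) (nat_lit 360) (nat_lit 234)) (XT.lf (nat_lit 0) (nat_lit 18222173477723) (nat_lit 76) (nat_lit 75462871978352) (nat_lit 0) (nat_lit 18157072691377) (nat_lit 1) (nat_lit 5) (nat_lit 2) (nat_lit 4) (nat_lit 1) (nat_lit 4) (nat_lit 427) (nat_lit 360) (nat_lit 233)))) (XT.nd (nat_lit 78) (nat_lit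 0) (nat_lit 0) (XT.lf (nat_lit 0) (nat_lit 21498111521377) (nat_lit 76) (nat_lit 85604448173884) (nat_lit 0) (nat_lit 21433010734866) (nat_lit 1) (nat_lit 5) (nat_lit 2) (nat_lit 4) (nat_lit 1) (nat_lit 4) (nat_lit 428) (nat_lit 360) (nat_lit 232)) (XT.nd (nat_lit 78) (nat_lit 0) (nat_lit 0) (XT.lf (nat_lit 0) (nat_lit 25265440268945) (nat_lit 76) (nat_lit 97267260804364) (nat_lit 0) (nat_lit 25200339482289) (nat_lit 1) (nat_lit 5) (nat_lit 2) (nat_lit 4) (nat_lit 1) (nat_lit 4) (nat_lit 429) (nat_lit 360) (nat_lit 231)) (XT.lf (nat_lit 0) (nat_lit 29597868326357) (nat_lit 76) (nat_lit 110679495334302) (nat_lit 0) (nat_lit 29532767539575) (nat_lit 1) (nat_lit 5) (nat_lit 2) (nat_lit 4) (nat_lit 1) (nat_lit 4) (nat_lit 430) (nat_lit 360) (nat_lit 230)))))) (XT.nd (nat_lit 47658) (nat_lit 0) (nat_lit 2280) (XT.nd (nat_lit 234) (nat_lit 0) (nat_lit 0) (XT.nd (nat_lit 78) (nat_lit 0) (nat_lit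 0) (XT.lf (nat_lit 0) (nat_lit 34580160590388) (nat_lit 76) (nat_lit 126103565047978) (nat_lit 0) (nat_lit 34515059803497) (nat_lit 1) (nat_lit 5) (nat_lit 2) (nat_lit 4) (nat_lit 1) (nat_lit 4) (nat_lit 431) (nat_lit 360) (nat_lit 229)) (XT.nd (nat_lit 78) (nat_lit 0) (nat_lit 0) (XT.lf (nat_lit 0) (nat_lit 40309796692292) (nat_lit 76) (nat_lit 143841245222400) (nat_lit 0) (nat_lit 40244695905306) (nat_lit 1) (nat_lit 5) (nat_lit 2) (nat_lit 4) (nat_lit 1) (nat_lit 4) (nat_lit 432) (nat_lit 360) (nat_lit 228)) (XT.lf (nat_lit 0) (nat_lit 46898878207975) (nat_lit 76) (nat_lit 164239577426198) (nat_lit 0) (nat_lit 46833777420906) (nat_lit 1) (nat_lit 5) (nat_lit 2) (nat_lit 4) (nat_lit 1) (nat_lit 4) (nat_lit 433) (nat_lit 360) (nat_lit 227)))) (XT.nd (nat_lit 78) (nat_lit 0) (nat_lit 0) (XT.lf (nat_lit 0) (nat_lit 54476321949700) (nat_lit 76) (nat_lit 187697659463358) (nat_lit 0) (nat_lit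 54411221162559) (nat_lit 1) (nat_lit 5) (nat_lit 2) (nat_lit 4) (nat_lit 1) (nat_lit 4) (nat_lit 434) (nat_lit 360) (nat_lit 226)) (XT.nd (nat_lit 78) (nat_lit 0) (nat_lit 0) (XT.lf (nat_lit 0) (nat_lit 63190382251544) (nat_lit 76) (nat_lit 214674453808521) (nat_lit 0) (nat_lit 63125281464342) (nat_lit 1) (nat_lit 5) (nat_lit 2) (nat_lit 4) (nat_lit 1) (nat_lit 4) (nat_lit 435) (nat_lit 360) (nat_lit 225)) (XT.lf (nat_lit 0) (nat_lit 73211551597675) (nat_lit 76) (nat_lit 245697767307571) (nat_lit 0) (nat_lit 73146450810419) (nat_lit 1) (nat_lit 5) (nat_lit 2) (nat_lit 4) (nat_lit 1) (nat_lit 4) (nat_lit 436) (nat_lit 360) (nat_lit 224))))) (XT.nd (nat_lit 234) (nat_lit 152) (nat_lit 0) (XT.nd (nat_lit 78) (nat_lit 0) (nat_lit 0) (XT.lf (nat_lit 0) (nat_lit 10618533359) (nat_lit 380) (nat_lit 13766619287) (nat_lit 380) (nat_lit 13766619287) (nat_lit 33) (nat_lit 3) (nat_lit 38) (nat_lit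 3) (nat_lit 38) (nat_lit 5) (nat_lit 361) (nat_lit 361) (nat_lit 298)) (XT.nd (nat_lit 78) (nat_lit 0) (nat_lit 76) (XT.lf (nat_lit 76) (nat_lit 11128135339) (nat_lit 0) (nat_lit 12172895893) (nat_lit 380) (nat_lit 58654593378) (nat_lit 34) (nat_lit 5) (nat_lit 33) (nat_lit 3) (nat_lit 38) (nat_lit 5) (nat_lit 362) (nat_lit 361) (nat_lit 297)) (XT.lf (nat_lit 0) (nat_lit 28419174610) (nat_lit 304) (nat_lit 30865256195) (nat_lit 380) (nat_lit 28759400345) (nat_lit 34) (nat_lit 5) (nat_lit 38) (nat_lit 5) (nat_lit 39) (nat_lit 5) (nat_lit 363) (nat_lit 361) (nat_lit 296)))) (XT.nd (nat_lit 78) (nat_lit 228) (nat_lit 0) (XT.lf (nat_lit 76) (nat_lit 15928416610) (nat_lit 0) (nat_lit 19614221555) (nat_lit 380) (nat_lit 59316991846) (nat_lit 35) (nat_lit 5) (nat_lit 34) (nat_lit 5) (nat_lit 39) (nat_lit 5) (nat_lit 364) (nat_lit 361) (nat_lit 295)) (XT.nd (nat_lit 78) (nat_lit 304) (nat_lit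 0) (XT.lf (nat_lit 0) (nat_lit 46500281636) (nat_lit 304) (nat_lit 30400979165) (nat_lit 76) (nat_lit 25381689836) (nat_lit 35) (nat_lit 5) (nat_lit 39) (nat_lit 5) (nat_lit 36) (nat_lit 5) (nat_lit 365) (nat_lit 361) (nat_lit 294)) (XT.lf (nat_lit 0) (nat_lit 26865236836) (nat_lit 304) (nat_lit 34281512869) (nat_lit 380) (nat_lit 49366243802) (nat_lit 31) (nat_lit 5) (nat_lit 35) (nat_lit 5) (nat_lit 36) (nat_lit 5) (nat_lit 366) (nat_lit 361) (nat_lit 293))))))) (XT.nd (nat_lit 936) (nat_lit 836) (nat_lit 0) (XT.nd (nat_lit 468) (nat_lit 380) (nat_lit 0) (XT.nd (nat_lit 234) (nat_lit 304) (nat_lit 0) (XT.nd (nat_lit 78) (nat_lit 152) (nat_lit 0) (XT.lf (nat_lit 0) (nat_lit 80263838354) (nat_lit 380) (nat_lit 24288176401) (nat_lit 76) (nat_lit 15084481246) (nat_lit 31) (nat_lit 5) (nat_lit 36) (nat_lit 5) (nat_lit 32) (nat_lit 5) (nat_lit 367) (nat_lit 361) (nat_lit 292)) (XT.nd (nat_lit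 78) (nat_lit 0) (nat_lit 0) (XT.lf (nat_lit 0) (nat_lit 46479621063) (nat_lit 152) (nat_lit 59324941942) (nat_lit 228) (nat_lit 23790550613) (nat_lit 29) (nat_lit 5) (nat_lit 31) (nat_lit 5) (nat_lit 32) (nat_lit 5) (nat_lit 368) (nat_lit 361) (nat_lit 291)) (XT.lf (nat_lit 0) (nat_lit 130591098578) (nat_lit 152) (nat_lit 5853987857) (nat_lit 228) (nat_lit 4412134497) (nat_lit 29) (nat_lit 5) (nat_lit 31) (nat_lit 5) (nat_lit 32) (nat_lit 5) (nat_lit 369) (nat_lit 361) (nat_lit 290)))) (XT.nd (nat_lit 78) (nat_lit 152) (nat_lit 0) (XT.lf (nat_lit 0) (nat_lit 22085304741) (nat_lit 152) (nat_lit 75817128179) (nat_lit 76) (nat_lit 54924682754) (nat_lit 27) (nat_lit 5) (nat_lit 29) (nat_lit 5) (nat_lit 28) (nat_lit 5) (nat_lit 370) (nat_lit 361) (nat_lit 289)) (XT.nd (nat_lit 78) (nat_lit 0) (nat_lit 0) (XT.lf (nat_lit 0) (nat_lit 12627960438) (nat_lit 152) (nat_lit 40840749480) (nat_lit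 228) (nat_lit 112887809548) (nat_lit 25) (nat_lit 5) (nat_lit 27) (nat_lit 5) (nat_lit 28) (nat_lit 5) (nat_lit 371) (nat_lit 361) (nat_lit 288)) (XT.lf (nat_lit 0) (nat_lit 94736870919) (nat_lit 228) (nat_lit 59676232149) (nat_lit 76) (nat_lit 26725644328) (nat_lit 25) (nat_lit 5) (nat_lit 28) (nat_lit 5) (nat_lit 26) (nat_lit 4) (nat_lit 372) (nat_lit 361) (nat_lit 287))))) (XT.nd (nat_lit 234) (nat_lit 152) (nat_lit 0) (XT.nd (nat_lit 78) (nat_lit 152) (nat_lit 0) (XT.lf (nat_lit 0) (nat_lit 51086163397) (nat_lit 76) (nat_lit 95168615884) (nat_lit 152) (nat_lit 51274602032) (nat_lit 24) (nat_lit 5) (nat_lit 25) (nat_lit 5) (nat_lit 26) (nat_lit 4) (nat_lit 373) (nat_lit 361) (nat_lit 286)) (XT.nd (nat_lit 78) (nat_lit 152) (nat_lit 0) (XT.lf (nat_lit 0) (nat_lit 185168733348) (nat_lit 76) (nat_lit 23450479857) (nat_lit 152) (nat_lit 7291571463) (nat_lit 24) (nat_lit 5) (nat_lit 25)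 (nat_lit 5) (nat_lit 26) (nat_lit 4) (nat_lit 374) (nat_lit 361) (nat_lit 285)) (XT.lf (nat_lit 0) (nat_lit 46750654439) (nat_lit 152) (nat_lit 128497755932) (nat_lit 76) (nat_lit 60434770222) (nat_lit 22) (nat_lit 5) (nat_lit 24) (nat_lit 5) (nat_lit 23) (nat_lit 4) (nat_lit 375) (nat_lit 361) (nat_lit 284)))) (XT.nd (nat_lit 78) (nat_lit 76) (nat_lit 0) (XT.lf (nat_lit 0) (nat_lit 10467118147) (nat_lit 76) (nat_lit 100918655947) (nat_lit 152) (nat_lit 146498617635) (nat_lit 21) (nat_lit 5) (nat_lit 22) (nat_lit 5) (nat_lit 23) (nat_lit 4) (nat_lit 376) (nat_lit 361) (nat_lit 283)) (XT.nd (nat_lit 78) (nat_lit 76) (nat_lit 0) (XT.lf (nat_lit 0) (nat_lit 184717234395) (nat_lit 76) (nat_lit 7715361484) (nat_lit 152) (nat_lit 89975723670) (nat_lit 21) (nat_lit 5) (nat_lit 22) (nat_lit 5) (nat_lit 23) (nat_lit 4) (nat_lit 377) (nat_lit 361) (nat_lit 282)) (XT.lf (nat_lit 0) (nat_lit 77251938238)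 (nat_lit 76) (nat_lit 215701672569) (nat_lit 76) (nat_lit 16559650376) (nat_lit 20) (nat_lit 4) (nat_lit 21) (nat_lit 5) (nat_lit 21) (nat_lit 4) (nat_lit 378) (nat_lit 361) (nat_lit 281)))))) (XT.nd (nat_lit 468) (nat_lit 456) (nat_lit 0) (XT.nd (nat_lit 234) (nat_lit 152) (nat_lit 0) (XT.nd (nat_lit 78) (nat_lit 152) (nat_lit 0) (XT.lf (nat_lit 0) (nat_lit 67543390921) (nat_lit 152) (nat_lit 53924093732) (nat_lit 76) (nat_lit 217937407459) (nat_lit 19) (nat_lit 5) (nat_lit 21) (nat_lit 5) (nat_lit 20) (nat_lit 4) (nat_lit 379) (nat_lit 361) (nat_lit 280)) (XT.nd (nat_lit 78) (nat_lit 76) (nat_lit 0) (XT.lf (nat_lit 0) (nat_lit 165070132111) (nat_lit 76) (nat_lit 4331184692) (nat_lit 152) (nat_lit 203235444568) (nat_lit 18) (nat_lit 5) (nat_lit 19) (nat_lit 5) (nat_lit 20) (nat_lit 4) (nat_lit 380) (nat_lit 361) (nat_lit 279)) (XT.lf (nat_lit 0) (nat_lit 7694740438) (nat_lit 76) (nat_lit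 287513000798) (nat_lit 76) (nat_lit 114345198400) (nat_lit 17) (nat_lit 4) (nat_lit 18) (nat_lit 5) (nat_lit 18) (nat_lit 4) (nat_lit 381) (nat_lit 361) (nat_lit 278)))) (XT.nd (nat_lit 78) (nat_lit 76) (nat_lit 0) (XT.lf (nat_lit 0) (nat_lit 530337764) (nat_lit 152) (nat_lit 172027783191) (nat_lit 76) (nat_lit 277787818904) (nat_lit 16) (nat_lit 5) (nat_lit 18) (nat_lit 5) (nat_lit 17) (nat_lit 4) (nat_lit 382) (nat_lit 361) (nat_lit 277)) (XT.nd (nat_lit 78) (nat_lit 0) (nat_lit 0) (XT.lf (nat_lit 0) (nat_lit 95317362822) (nat_lit 76) (nat_lit 29559638199) (nat_lit 152) (nat_lit 370972152677) (nat_lit 15) (nat_lit 5) (nat_lit 16) (nat_lit 5) (nat_lit 17) (nat_lit 4) (nat_lit 383) (nat_lit 361) (nat_lit 276)) (XT.lf (nat_lit 0) (nat_lit 282881365569) (nat_lit 152) (nat_lit 130745433579) (nat_lit 0) (nat_lit 132300195233) (nat_lit 15) (nat_lit 5) (nat_lit 17) (nat_lit 4) (nat_lit 15)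 (nat_lit 4) (nat_lit 384) (nat_lit 361) (nat_lit 275))))) (XT.nd (nat_lit 234) (nat_lit 228) (nat_lit 0) (XT.nd (nat_lit 78) (nat_lit 152) (nat_lit 0) (XT.lf (nat_lit 0) (nat_lit 195506018177) (nat_lit 76) (nat_lit 278583179860) (nat_lit 76) (nat_lit 128001891179) (nat_lit 14) (nat_lit 4) (nat_lit 15) (nat_lit 5) (nat_lit 15) (nat_lit 4) (nat_lit 385) (nat_lit 361) (nat_lit 274)) (XT.nd (nat_lit 78) (nat_lit 76) (nat_lit 0) (XT.lf (nat_lit 0) (nat_lit 32027708786) (nat_lit 152) (nat_lit 81721817699) (nat_lit 76) (nat_lit 551686777294) (nat_lit 13) (nat_lit 5) (nat_lit 15) (nat_lit 5) (nat_lit 14) (nat_lit 4) (nat_lit 386) (nat_lit 361) (nat_lit 273)) (XT.lf (nat_lit 0) (nat_lit 219994233147) (nat_lit 152) (nat_lit 425765337373) (nat_lit 0) (nat_lit 89053814819) (nat_lit 12) (nat_lit 5) (nat_lit 14) (nat_lit 4) (nat_lit 12) (nat_lit 4) (nat_lit 387) (nat_lit 361) (nat_lit 272)))) (XT.nd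 (nat_lit 156) (nat_lit 152) (nat_lit 0) (XT.nd (nat_lit 78) (nat_lit 76) (nat_lit 0) (XT.lf (nat_lit 0) (nat_lit 446047386371) (nat_lit 152) (nat_lit 51958994872) (nat_lit 0) (nat_lit 315106900378) (nat_lit 12) (nat_lit 5) (nat_lit 14) (nat_lit 4) (nat_lit 12) (nat_lit 4) (nat_lit 388) (nat_lit 361) (nat_lit 271)) (XT.lf (nat_lit 0) (nat_lit 414850759520) (nat_lit 76) (nat_lit 308335632853) (nat_lit 76) (nat_lit 177395088021) (nat_lit 11) (nat_lit 4) (nat_lit 12) (nat_lit 5) (nat_lit 12) (nat_lit 4) (nat_lit 389) (nat_lit 361) (nat_lit 270))) (XT.nd (nat_lit 78) (nat_lit 76) (nat_lit 0) (XT.lf (nat_lit 0) (nat_lit 39945768667) (nat_lit 152) (nat_lit 45057193360) (nat_lit 76) (nat_lit 915487213011) (nat_lit 10) (nat_lit 5) (nat_lit 12) (nat_lit 5) (nat_lit 11) (nat_lit 4) (nat_lit 390) (nat_lit 361) (nat_lit 269)) (XT.lf (nat_lit 0) (nat_lit 300827311170) (nat_lit 152) (nat_lit 621959654981)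 (nat_lit 0) (nat_lit 186965884661) (nat_lit 9) (nat_lit 5) (nat_lit 11) (nat_lit 4) (nat_lit 9) (nat_lit 4) (nat_lit 391) (nat_lit 361) (nat_lit 268))))))))
noncomputable def xc82 : XT := (XT.nd (nat_lit 1872) (nat_lit 76) (nat_lit 0) (XT.nd (nat_lit 936) (nat_lit 76) (nat_lit 0) (XT.nd (nat_lit 468) (nat_lit 228) (nat_lit 0) (XT.nd (nat_lit 234) (nat_lit 152) (nat_lit 0) (XT.nd (nat_lit 78) (nat_lit 76) (nat_lit 0) (XT.lf (nat_lit 0) (nat_lit 607356085977) (nat_lit 152) (nat_lit 133576966021) (nat_lit 0) (nat_lit 493494625826) (nat_lit 9) (nat_lit 5) (nat_lit 11) (nat_lit 4) (nat_lit 9) (nat_lit 4) (nat_lit 392) (nat_lit 361) (nat_lit 267)) (XT.nd (nat_lit 78) (nat_lit 0) (nat_lit 0) (XT.lf (nat_lit 0) (nat_lit 469896215465) (nat_lit 76) (nat_lit 509425207938) (nat_lit 76) (nat_lit 395563718533) (nat_lit 8) (nat_lit 4) (nat_lit 9) (nat_lit 5) (nat_lit 9) (nat_lit 4) (nat_lit 393) (nat_lit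 361) (nat_lit 266)) (XT.lf (nat_lit 0) (nat_lit 1178902296954) (nat_lit 76) (nat_lit 235161550341) (nat_lit 76) (nat_lit 121300035499) (nat_lit 8) (nat_lit 4) (nat_lit 9) (nat_lit 5) (nat_lit 9) (nat_lit 4) (nat_lit 394) (nat_lit 361) (nat_lit 265)))) (XT.nd (nat_lit 78) (nat_lit 0) (nat_lit 0) (XT.lf (nat_lit 0) (nat_lit 193209314683) (nat_lit 152) (nat_lit 1428842249054) (nat_lit 0) (nat_lit 94199282542) (nat_lit 6) (nat_lit 5) (nat_lit 8) (nat_lit 4) (nat_lit 6) (nat_lit 4) (nat_lit 395) (nat_lit 361) (nat_lit 264)) (XT.nd (nat_lit 78) (nat_lit 0) (nat_lit 0) (XT.lf (nat_lit 0) (nat_lit 573194805837) (nat_lit 152) (nat_lit 871417079918) (nat_lit 0) (nat_lit 474184756971) (nat_lit 6) (nat_lit 5) (nat_lit 8) (nat_lit 4) (nat_lit 6) (nat_lit 4) (nat_lit 396) (nat_lit 361) (nat_lit 263)) (XT.lf (nat_lit 0) (nat_lit 1010178005118) (nat_lit 152) (nat_lit 230378379149) (nat_lit 0) (nat_lit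 911167941708) (nat_lit 6) (nat_lit 5) (nat_lit 8) (nat_lit 4) (nat_lit 6) (nat_lit 4) (nat_lit 397) (nat_lit 361) (nat_lit 262))))) (XT.nd (nat_lit 234) (nat_lit 152) (nat_lit 0) (XT.nd (nat_lit 78) (nat_lit 0) (nat_lit 0) (XT.lf (nat_lit 0) (nat_lit 556345651919) (nat_lit 76) (nat_lit 979400018935) (nat_lit 76) (nat_lit 880389942878) (nat_lit 5) (nat_lit 4) (nat_lit 6) (nat_lit 5) (nat_lit 6) (nat_lit 4) (nat_lit 398) (nat_lit 361) (nat_lit 261)) (XT.nd (nat_lit 78) (nat_lit 0) (nat_lit 0) (XT.lf (nat_lit 0) (nat_lit 1486969473629) (nat_lit 76) (nat_lit 665221423258) (nat_lit 76) (nat_lit 566211336203) (nat_lit 5) (nat_lit 4) (nat_lit 6) (nat_lit 5) (nat_lit 6) (nat_lit 4) (nat_lit 399) (nat_lit 361) (nat_lit 260)) (XT.lf (nat_lit 0) (nat_lit 2557186692674) (nat_lit 76) (nat_lit 303916130893) (nat_lit 76) (nat_lit 204906034276) (nat_lit 5) (nat_lit 4) (nat_lit 6) (nat_lit 5) (nat_lit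 6) (nat_lit 4) (nat_lit 400) (nat_lit 361) (nat_lit 259)))) (XT.nd (nat_lit 78) (nat_lit 0) (nat_lit 0) (XT.lf (nat_lit 0) (nat_lit 211808747838) (nat_lit 152) (nat_lit 3123932333132) (nat_lit 0) (nat_lit 125713004418) (nat_lit 3) (nat_lit 5) (nat_lit 5) (nat_lit 4) (nat_lit 3) (nat_lit 4) (nat_lit 401) (nat_lit 361) (nat_lit 258)) (XT.nd (nat_lit 78) (nat_lit 0) (nat_lit 0) (XT.lf (nat_lit 0) (nat_lit 712388464352) (nat_lit 152) (nat_lit 2569720874738) (nat_lit 0) (nat_lit 626292714644) (nat_lit 3) (nat_lit 5) (nat_lit 5) (nat_lit 4) (nat_lit 3) (nat_lit 4) (nat_lit 402) (nat_lit 361) (nat_lit 257)) (XT.lf (nat_lit 0) (nat_lit 1288055072569) (nat_lit 152) (nat_lit 1932377837237) (nat_lit 0) (nat_lit 1201959317393) (nat_lit 3) (nat_lit 5) (nat_lit 5) (nat_lit 4) (nat_lit 3) (nat_lit 4) (nat_lit 403) (nat_lit 361) (nat_lit 256)))))) (XT.nd (nat_lit 468) (nat_lit 0) (nat_lit 0) (XT.nd (nat_lit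 234) (nat_lit 0) (nat_lit 0) (XT.nd (nat_lit 78) (nat_lit 76) (nat_lit 0) (XT.lf (nat_lit 0) (nat_lit 1950071614823) (nat_lit 152) (nat_lit 1199433465548) (nat_lit 0) (nat_lit 1863975854894) (nat_lit 3) (nat_lit 5) (nat_lit 5) (nat_lit 4) (nat_lit 3) (nat_lit 4) (nat_lit 404) (nat_lit 361) (nat_lit 255)) (XT.nd (nat_lit 78) (nat_lit 76) (nat_lit 0) (XT.lf (nat_lit 0) (nat_lit 2711390588682) (nat_lit 152) (nat_lit 356547543702) (nat_lit 0) (nat_lit 2625294824618) (nat_lit 3) (nat_lit 5) (nat_lit 5) (nat_lit 4) (nat_lit 3) (nat_lit 4) (nat_lit 405) (nat_lit 361) (nat_lit 254)) (XT.lf (nat_lit 0) (nat_lit 672655630295) (nat_lit 76) (nat_lit 2942104970285) (nat_lit 76) (nat_lit 2856009202626) (nat_lit 2) (nat_lit 4) (nat_lit 3) (nat_lit 5) (nat_lit 3) (nat_lit 4) (nat_lit 406) (nat_lit 361) (nat_lit 253)))) (XT.nd (nat_lit 78) (nat_lit 0) (nat_lit 0) (XT.lf (nat_lit 0) (nat_lit 1896310274643)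 (nat_lit 76) (nat_lit 2775963510896) (nat_lit 76) (nat_lit 2689867740111) (nat_lit 2) (nat_lit 4) (nat_lit 3) (nat_lit 5) (nat_lit 3) (nat_lit 4) (nat_lit 407) (nat_lit 361) (nat_lit 252)) (XT.nd (nat_lit 78) (nat_lit 0) (nat_lit 0) (XT.lf (nat_lit 0) (nat_lit 3303513039427) (nat_lit 76) (nat_lit 2584900872959) (nat_lit 76) (nat_lit 2498805099455) (nat_lit 2) (nat_lit 4) (nat_lit 3) (nat_lit 5) (nat_lit 3) (nat_lit 4) (nat_lit 408) (nat_lit 361) (nat_lit 251)) (XT.lf (nat_lit 0) (nat_lit 4921796152652) (nat_lit 76) (nat_lit 2365178874427) (nat_lit 76) (nat_lit 2279083098559) (nat_lit 2) (nat_lit 4) (nat_lit 3) (nat_lit 5) (nat_lit 3) (nat_lit 4) (nat_lit 409) (nat_lit 361) (nat_lit 250))))) (XT.nd (nat_lit 234) (nat_lit 0) (nat_lit 0) (XT.nd (nat_lit 78) (nat_lit 0) (nat_lit 0) (XT.lf (nat_lit 0) (nat_lit 6782821675230) (nat_lit 76) (nat_lit 2112498606632) (nat_lit 76) (nat_lit 2026402828709)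 (nat_lit 2) (nat_lit 4) (nat_lit 3) (nat_lit 5) (nat_lit 3) (nat_lit 4) (nat_lit 410) (nat_lit 361) (nat_lit 249)) (XT.nd (nat_lit 78) (nat_lit 0) (nat_lit 0) (XT.lf (nat_lit 0) (nat_lit 8923000976081) (nat_lit 76) (nat_lit 1821916325206) (nat_lit 76) (nat_lit 1735820545495) (nat_lit 2) (nat_lit 4) (nat_lit 3) (nat_lit 5) (nat_lit 3) (nat_lit 4) (nat_lit 411) (nat_lit 361) (nat_lit 248)) (XT.lf (nat_lit 0) (nat_lit 11384207128482) (nat_lit 76) (nat_lit 1487746724641) (nat_lit 76) (nat_lit 1401650943377) (nat_lit 2) (nat_lit 4) (nat_lit 3) (nat_lit 5) (nat_lit 3) (nat_lit 4) (nat_lit 412) (nat_lit 361) (nat_lit 247)))) (XT.nd (nat_lit 78) (nat_lit 0) (nat_lit 0) (XT.lf (nat_lit 0) (nat_lit 14214594165850) (nat_lit 76) (nat_lit 1103451704058) (nat_lit 76) (nat_lit 1017355921442) (nat_lit 2) (nat_lit 4) (nat_lit 3) (nat_lit 5) (nat_lit 3) (nat_lit 4) (nat_lit 413) (nat_lit 361) (nat_lit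 246)) (XT.nd (nat_lit 78) (nat_lit 0) (nat_lit 0) (XT.lf (nat_lit 0) (nat_lit 17469539225873) (nat_lit 76) (nat_lit 661512447837) (nat_lit 76) (nat_lit 575416664045) (nat_lit 2) (nat_lit 4) (nat_lit 3) (nat_lit 5) (nat_lit 3) (nat_lit 4) (nat_lit 414) (nat_lit 361) (nat_lit 245)) (XT.lf (nat_lit 0) (nat_lit 21212726016245) (nat_lit 76) (nat_lit 153282318355) (nat_lit 76) (nat_lit 67186533541) (nat_lit 2) (nat_lit 4) (nat_lit 3) (nat_lit 5) (nat_lit 3) (nat_lit 4) (nat_lit 415) (nat_lit 361) (nat_lit 244))))))) (XT.nd (nat_lit 936) (nat_lit 0) (nat_lit 0) (XT.nd (nat_lit 468) (nat_lit 0) (nat_lit 0) (XT.nd (nat_lit 234) (nat_lit 0) (nat_lit 0) (XT.nd (nat_lit 78) (nat_lit 0) (nat_lit 0) (XT.lf (nat_lit 0) (nat_lit 534245551474) (nat_lit 76) (nat_lit 23562639401707) (nat_lit 0) (nat_lit 459379650863) (nat_lit 1) (nat_lit 5) (nat_lit 2) (nat_lit 4) (nat_lit 1) (nat_lit 4) (nat_lit 416) (nat_lit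 361) (nat_lit 243)) (XT.nd (nat_lit 78) (nat_lit 0) (nat_lit 0) (XT.lf (nat_lit 0) (nat_lit 1238386267980) (nat_lit 76) (nat_lit 25742502395838) (nat_lit 0) (nat_lit 1163520366698) (nat_lit 1) (nat_lit 5) (nat_lit 2) (nat_lit 4) (nat_lit 1) (nat_lit 4) (nat_lit 417) (nat_lit 361) (nat_lit 242)) (XT.lf (nat_lit 0) (nat_lit 2048148081304) (nat_lit 76) (nat_lit 28249344861818) (nat_lit 0) (nat_lit 1973282179437) (nat_lit 1) (nat_lit 5) (nat_lit 2) (nat_lit 4) (nat_lit 1) (nat_lit 4) (nat_lit 418) (nat_lit 361) (nat_lit 241)))) (XT.nd (nat_lit 78) (nat_lit 0) (nat_lit 0) (XT.lf (nat_lit 0) (nat_lit 2979374157357) (nat_lit 76) (nat_lit 31132213717459) (nat_lit 0) (nat_lit 2904508254982) (nat_lit 1) (nat_lit 5) (nat_lit 2) (nat_lit 4) (nat_lit 1) (nat_lit 4) (nat_lit 419) (nat_lit 361) (nat_lit 240)) (XT.nd (nat_lit 78) (nat_lit 0) (nat_lit 0) (XT.lf (nat_lit 0) (nat_lit 4050284136758) (nat_lit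 76) (nat_lit 34447512918633) (nat_lit 0) (nat_lit 3975418233941) (nat_lit 1) (nat_lit 5) (nat_lit 2) (nat_lit 4) (nat_lit 1) (nat_lit 4) (nat_lit 420) (nat_lit 361) (nat_lit 239)) (XT.lf (nat_lit 0) (nat_lit 5281830606061) (nat_lit 76) (nat_lit 38260107014928) (nat_lit 0) (nat_lit 5206964702860) (nat_lit 1) (nat_lit 5) (nat_lit 2) (nat_lit 4) (nat_lit 1) (nat_lit 4) (nat_lit 421) (nat_lit 361) (nat_lit 238))))) (XT.nd (nat_lit 234) (nat_lit 0) (nat_lit 0) (XT.nd (nat_lit 78) (nat_lit 0) (nat_lit 0) (XT.lf (nat_lit 0) (nat_lit 6698109039665) (nat_lit 76) (nat_lit 42644590238661) (nat_lit 0) (nat_lit 6623243136130) (nat_lit 1) (nat_lit 5) (nat_lit 2) (nat_lit 4) (nat_lit 1) (nat_lit 4) (nat_lit 422) (nat_lit 361) (nat_lit 237)) (XT.nd (nat_lit 78) (nat_lit 0) (nat_lit 0) (XT.lf (nat_lit 0) (nat_lit 8326829233009) (nat_lit 76) (nat_lit 47686745957256) (nat_lit 0) (nat_lit 8251963329184)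 (nat_lit 1) (nat_lit 5) (nat_lit 2) (nat_lit 4) (nat_lit 1) (nat_lit 4) (nat_lit 423) (nat_lit 361) (nat_lit 236)) (XT.lf (nat_lit 0) (nat_lit 10199857450748) (nat_lit 76) (nat_lit 53485225043466) (nat_lit 0) (nat_lit 10124991546670) (nat_lit 1) (nat_lit 5) (nat_lit 2) (nat_lit 4) (nat_lit 1) (nat_lit 4) (nat_lit 424) (nat_lit 361) (nat_lit 235)))) (XT.nd (nat_lit 78) (nat_lit 0) (nat_lit 0) (XT.lf (nat_lit 0) (nat_lit 12353839897140) (nat_lit 76) (nat_lit 60153476001151) (nat_lit 0) (nat_lit 12278973992842) (nat_lit 1) (nat_lit 5) (nat_lit 2) (nat_lit 4) (nat_lit 1) (nat_lit 4) (nat_lit 425) (nat_lit 361) (nat_lit 234)) (XT.nd (nat_lit 78) (nat_lit 0) (nat_lit 0) (XT.lf (nat_lit 0) (nat_lit 14830919707006) (nat_lit 76) (nat_lit 67821964609920) (nat_lit 0) (nat_lit 14756053802518) (nat_lit 1) (nat_lit 5) (nat_lit 2) (nat_lit 4) (nat_lit 1) (nat_lit 4) (nat_lit 426) (nat_lit 361) (nat_lit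 233)) (XT.lf (nat_lit 0) (nat_lit 17679561485322) (nat_lit 76) (nat_lit 76640726516466) (nat_lit 0) (nat_lit 17604695580668) (nat_lit 1) (nat_lit 5) (nat_lit 2) (nat_lit 4) (nat_lit 1) (nat_lit 4) (nat_lit 427) (nat_lit 361) (nat_lit 232)))))) (XT.nd (nat_lit 468) (nat_lit 0) (nat_lit 0) (XT.nd (nat_lit 234) (nat_lit 0) (nat_lit 0) (XT.nd (nat_lit 78) (nat_lit 0) (nat_lit 0) (XT.lf (nat_lit 0) (nat_lit 20955499527751) (nat_lit 76) (nat_lit 86782302714611) (nat_lit 0) (nat_lit 20880633622952) (nat_lit 1) (nat_lit 5) (nat_lit 2) (nat_lit 4) (nat_lit 1) (nat_lit 4) (nat_lit 428) (nat_lit 361) (nat_lit 231)) (XT.nd (nat_lit 78) (nat_lit 0) (nat_lit 0) (XT.lf (nat_lit 0) (nat_lit 24722828274253) (nat_lit 76) (nat_lit 98445115347363) (nat_lit 0) (nat_lit 24647962369329) (nat_lit 1) (nat_lit 5) (nat_lit 2) (nat_lit 4) (nat_lit 1) (nat_lit 4) (nat_lit 429) (nat_lit 361) (nat_lit 230)) (XT.lf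 (nat_lit 0) (nat_lit 29055256330739) (nat_lit 76) (nat_lit 111857349879277) (nat_lit 0) (nat_lit 28980390425705) (nat_lit 1) (nat_lit 5) (nat_lit 2) (nat_lit 4) (nat_lit 1) (nat_lit 4) (nat_lit 430) (nat_lit 361) (nat_lit 229)))) (XT.nd (nat_lit 78) (nat_lit 0) (nat_lit 0) (XT.lf (nat_lit 0) (nat_lit 34037548593964) (nat_lit 76) (nat_lit 127281419594671) (nat_lit 0) (nat_lit 33962682688835) (nat_lit 1) (nat_lit 5) (nat_lit 2) (nat_lit 4) (nat_lit 1) (nat_lit 4) (nat_lit 431) (nat_lit 361) (nat_lit 228)) (XT.nd (nat_lit 78) (nat_lit 0) (nat_lit 0) (XT.lf (nat_lit 0) (nat_lit 39767184695167) (nat_lit 76) (nat_lit 145019099770587) (nat_lit 0) (nat_lit 39692318789956) (nat_lit 1) (nat_lit 5) (nat_lit 2) (nat_lit 4) (nat_lit 1) (nat_lit 4) (nat_lit 432) (nat_lit 361) (nat_lit 227)) (XT.lf (nat_lit 0) (nat_lit 46356266210240) (nat_lit 76) (nat_lit 165417431975684) (nat_lit 0) (nat_lit 46281400304957)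 (nat_lit 1) (nat_lit 5) (nat_lit 2) (nat_lit 4) (nat_lit 1) (nat_lit 4) (nat_lit 433) (nat_lit 361) (nat_lit 226))))) (XT.nd (nat_lit 47502) (nat_lit 0) (nat_lit 2432) (XT.nd (nat_lit 78) (nat_lit 0) (nat_lit 0) (XT.lf (nat_lit 0) (nat_lit 53933709951436) (nat_lit 76) (nat_lit 188875514013974) (nat_lit 0) (nat_lit 53858844046090) (nat_lit 1) (nat_lit 5) (nat_lit 2) (nat_lit 4) (nat_lit 1) (nat_lit 4) (nat_lit 434) (nat_lit 361) (nat_lit 225)) (XT.nd (nat_lit 78) (nat_lit 0) (nat_lit 0) (XT.lf (nat_lit 0) (nat_lit 62647770252820) (nat_lit 76) (nat_lit 215852308360120) (nat_lit 0) (nat_lit 62572904347420) (nat_lit 1) (nat_lit 5) (nat_lit 2) (nat_lit 4) (nat_lit 1) (nat_lit 4) (nat_lit 435) (nat_lit 361) (nat_lit 224)) (XT.lf (nat_lit 0) (nat_lit 72668939598550) (nat_lit 76) (nat_lit 246875621860024) (nat_lit 0) (nat_lit 72594073693103) (nat_lit 1) (nat_lit 5) (nat_lit 2) (nat_lit 4) (nat_lit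 1) (nat_lit 4) (nat_lit 436) (nat_lit 361) (nat_lit 223)))) (XT.nd (nat_lit 156) (nat_lit 0) (nat_lit 76) (XT.nd (nat_lit 78) (nat_lit 0) (nat_lit 0) (XT.lf (nat_lit 0) (nat_lit 12221275203) (nat_lit 380) (nat_lit 15825880590) (nat_lit 380) (nat_lit 15825880590) (nat_lit 33) (nat_lit 3) (nat_lit 38) (nat_lit 3) (nat_lit 38) (nat_lit 5) (nat_lit 362) (nat_lit 362) (nat_lit 296)) (XT.lf (nat_lit 76) (nat_lit 12808297767) (nat_lit 0) (nat_lit 14005666179) (nat_lit 380) (nat_lit 67432325366) (nat_lit 34) (nat_lit 5) (nat_lit 33) (nat_lit 3) (nat_lit 38) (nat_lit 5) (nat_lit 363) (nat_lit 362) (nat_lit 295))) (XT.nd (nat_lit 78) (nat_lit 0) (nat_lit 0) (XT.lf (nat_lit 0) (nat_lit 32697263818) (nat_lit 304) (nat_lit 35482954035) (nat_lit 380) (nat_lit 33067895333) (nat_lit 34) (nat_lit 5) (nat_lit 38) (nat_lit 5) (nat_lit 39) (nat_lit 5) (nat_lit 364) (nat_lit 362) (nat_lit 294)) (XT.lf (nat_lit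 76) (nat_lit 18329220118) (nat_lit 0) (nat_lit 22558520371) (nat_lit 380) (nat_lit 68198768744) (nat_lit 35) (nat_lit 5) (nat_lit 34) (nat_lit 5) (nat_lit 39) (nat_lit 5) (nat_lit 365) (nat_lit 362) (nat_lit 293))))))))
noncomputable def xc83 : XT := (XT.nd (nat_lit 1872) (nat_lit 760) (nat_lit 0) (XT.nd (nat_lit 936) (nat_lit 684) (nat_lit 0) (XT.nd (nat_lit 468) (nat_lit 456) (nat_lit 0) (XT.nd (nat_lit 234) (nat_lit 304) (nat_lit 0) (XT.nd (nat_lit 78) (nat_lit 304) (nat_lit 0) (XT.lf (nat_lit 0) (nat_lit 53487164687) (nat_lit 304) (nat_lit 34949216501) (nat_lit 76) (nat_lit 29187227844) (nat_lit 35) (nat_lit 5) (nat_lit 39) (nat_lit 5) (nat_lit 36) (nat_lit 5) (nat_lit 366) (nat_lit 362) (nat_lit 292)) (XT.nd (nat_lit 78) (nat_lit 0) (nat_lit 0) (XT.lf (nat_lit 0) (nat_lit 30906390557) (nat_lit 304) (nat_lit 39423138689) (nat_lit 380) (nat_lit 56758791199) (nat_lit 31) (nat_lit 5)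 (nat_lit 35) (nat_lit 5) (nat_lit 36) (nat_lit 5) (nat_lit 367) (nat_lit 362) (nat_lit 291)) (XT.lf (nat_lit 0) (nat_lit 92312798435) (nat_lit 380) (nat_lit 27920128608) (nat_lit 76) (nat_lit 17347629603) (nat_lit 31) (nat_lit 5) (nat_lit 36) (nat_lit 5) (nat_lit 32) (nat_lit 5) (nat_lit 368) (nat_lit 362) (nat_lit 290)))) (XT.nd (nat_lit 78) (nat_lit 152) (nat_lit 0) (XT.lf (nat_lit 0) (nat_lit 53462326011) (nat_lit 152) (nat_lit 68221527353) (nat_lit 228) (nat_lit 27349231100) (nat_lit 29) (nat_lit 5) (nat_lit 31) (nat_lit 5) (nat_lit 32) (nat_lit 5) (nat_lit 369) (nat_lit 362) (nat_lit 289)) (XT.nd (nat_lit 78) (nat_lit 152) (nat_lit 0) (XT.lf (nat_lit 0) (nat_lit 150189121441) (nat_lit 152) (nat_lit 6730211357) (nat_lit 228) (nat_lit 5065344146) (nat_lit 29) (nat_lit 5) (nat_lit 31) (nat_lit 5) (nat_lit 32) (nat_lit 5) (nat_lit 370) (nat_lit 362) (nat_lit 288)) (XT.lf (nat_lit 0)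 (nat_lit 25405422956) (nat_lit 152) (nat_lit 87179043799) (nat_lit 76) (nat_lit 63165614403) (nat_lit 27) (nat_lit 5) (nat_lit 29) (nat_lit 5) (nat_lit 28) (nat_lit 5) (nat_lit 371) (nat_lit 362) (nat_lit 287))))) (XT.nd (nat_lit 234) (nat_lit 228) (nat_lit 0) (XT.nd (nat_lit 78) (nat_lit 76) (nat_lit 0) (XT.lf (nat_lit 0) (nat_lit 14532323856) (nat_lit 152) (nat_lit 46963481036) (nat_lit 228) (nat_lit 129813171185) (nat_lit 25) (nat_lit 5) (nat_lit 27) (nat_lit 5) (nat_lit 28) (nat_lit 5) (nat_lit 372) (nat_lit 362) (nat_lit 286)) (XT.nd (nat_lit 78) (nat_lit 76) (nat_lit 0) (XT.lf (nat_lit 0) (nat_lit 108953426322) (nat_lit 228) (nat_lit 68618057695) (nat_lit 76) (nat_lit 30737169133) (nat_lit 25) (nat_lit 5) (nat_lit 28) (nat_lit 5) (nat_lit 26) (nat_lit 4) (nat_lit 373) (nat_lit 362) (nat_lit 285)) (XT.lf (nat_lit 0) (nat_lit 58758260397) (nat_lit 76) (nat_lit 109440354516) (nat_lit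 152) (nat_lit 58959328490) (nat_lit 24) (nat_lit 5) (nat_lit 25) (nat_lit 5) (nat_lit 26) (nat_lit 4) (nat_lit 374) (nat_lit 362) (nat_lit 284)))) (XT.nd (nat_lit 78) (nat_lit 228) (nat_lit 0) (XT.lf (nat_lit 0) (nat_lit 212952019430) (nat_lit 76) (nat_lit 26964961618) (nat_lit 152) (nat_lit 8379686446) (nat_lit 24) (nat_lit 5) (nat_lit 25) (nat_lit 5) (nat_lit 26) (nat_lit 4) (nat_lit 375) (nat_lit 362) (nat_lit 283)) (XT.nd (nat_lit 78) (nat_lit 76) (nat_lit 0) (XT.lf (nat_lit 0) (nat_lit 53768177045) (nat_lit 152) (nat_lit 147763743701) (nat_lit 76) (nat_lit 69502996760) (nat_lit 22) (nat_lit 5) (nat_lit 24) (nat_lit 5) (nat_lit 23) (nat_lit 4) (nat_lit 376) (nat_lit 362) (nat_lit 282)) (XT.lf (nat_lit 0) (nat_lit 12045467144) (nat_lit 76) (nat_lit 116052798096) (nat_lit 152) (nat_lit 168468090181) (nat_lit 21) (nat_lit 5) (nat_lit 22) (nat_lit 5) (nat_lit 23) (nat_lit 4) (nat_lit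 377) (nat_lit 362) (nat_lit 281)))))) (XT.nd (nat_lit 468) (nat_lit 304) (nat_lit 0) (XT.nd (nat_lit 234) (nat_lit 228) (nat_lit 0) (XT.nd (nat_lit 78) (nat_lit 152) (nat_lit 0) (XT.lf (nat_lit 0) (nat_lit 212432020663) (nat_lit 76) (nat_lit 8869486365) (nat_lit 152) (nat_lit 103467456047) (nat_lit 21) (nat_lit 5) (nat_lit 22) (nat_lit 5) (nat_lit 23) (nat_lit 4) (nat_lit 378) (nat_lit 362) (nat_lit 280)) (XT.nd (nat_lit 78) (nat_lit 76) (nat_lit 0) (XT.lf (nat_lit 0) (nat_lit 88847054028) (nat_lit 76) (nat_lit 248053513382) (nat_lit 76) (nat_lit 19039094711) (nat_lit 20) (nat_lit 4) (nat_lit 21) (nat_lit 5) (nat_lit 21) (nat_lit 4) (nat_lit 379) (nat_lit 362) (nat_lit 279)) (XT.lf (nat_lit 0) (nat_lit 77678466789) (nat_lit 152) (nat_lit 62005988814) (nat_lit 76) (nat_lit 250630634492) (nat_lit 19) (nat_lit 5) (nat_lit 21) (nat_lit 5) (nat_lit 20) (nat_lit 4) (nat_lit 380) (nat_lit 362)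 (nat_lit 278)))) (XT.nd (nat_lit 78) (nat_lit 152) (nat_lit 0) (XT.lf (nat_lit 0) (nat_lit 189837065498) (nat_lit 76) (nat_lit 4977816337) (nat_lit 152) (nat_lit 233716887963) (nat_lit 18) (nat_lit 5) (nat_lit 19) (nat_lit 5) (nat_lit 20) (nat_lit 4) (nat_lit 381) (nat_lit 362) (nat_lit 277)) (XT.nd (nat_lit 78) (nat_lit 76) (nat_lit 0) (XT.lf (nat_lit 0) (nat_lit 8855435939) (nat_lit 76) (nat_lit 330636772938) (nat_lit 76) (nat_lit 131493175169) (nat_lit 17) (nat_lit 4) (nat_lit 18) (nat_lit 5) (nat_lit 18) (nat_lit 4) (nat_lit 382) (nat_lit 362) (nat_lit 276)) (XT.lf (nat_lit 0) (nat_lit 612900971) (nat_lit 152) (nat_lit 197826017193) (nat_lit 76) (nat_lit 319458460364) (nat_lit 16) (nat_lit 5) (nat_lit 18) (nat_lit 5) (nat_lit 17) (nat_lit 4) (nat_lit 383) (nat_lit 362) (nat_lit 275))))) (XT.nd (nat_lit 234) (nat_lit 152) (nat_lit 0) (XT.nd (nat_lit 78) (nat_lit 76) (nat_lit 0) (XT.lf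 (nat_lit 0) (nat_lit 109620631019) (nat_lit 76) (nat_lit 33990774282) (nat_lit 152) (nat_lit 426614692959) (nat_lit 15) (nat_lit 5) (nat_lit 16) (nat_lit 5) (nat_lit 17) (nat_lit 4) (nat_lit 384) (nat_lit 362) (nat_lit 274)) (XT.nd (nat_lit 78) (nat_lit 76) (nat_lit 0) (XT.lf (nat_lit 0) (nat_lit 325316153420) (nat_lit 152) (nat_lit 150352052161) (nat_lit 0) (nat_lit 152147450181) (nat_lit 15) (nat_lit 5) (nat_lit 17) (nat_lit 4) (nat_lit 15) (nat_lit 4) (nat_lit 385) (nat_lit 362) (nat_lit 273)) (XT.lf (nat_lit 0) (nat_lit 224836881157) (nat_lit 76) (nat_lit 320368148080) (nat_lit 76) (nat_lit 147199355355) (nat_lit 14) (nat_lit 4) (nat_lit 15) (nat_lit 5) (nat_lit 15) (nat_lit 4) (nat_lit 386) (nat_lit 362) (nat_lit 272)))) (XT.nd (nat_lit 78) (nat_lit 76) (nat_lit 0) (XT.lf (nat_lit 0) (nat_lit 36834098573) (nat_lit 152) (nat_lit 93975558607) (nat_lit 76) (nat_lit 634441756934) (nat_lit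 13) (nat_lit 5) (nat_lit 15) (nat_lit 5) (nat_lit 14) (nat_lit 4) (nat_lit 387) (nat_lit 362) (nat_lit 271)) (XT.nd (nat_lit 78) (nat_lit 0) (nat_lit 0) (XT.lf (nat_lit 0) (nat_lit 252995580670) (nat_lit 152) (nat_lit 489625585127) (nat_lit 0) (nat_lit 102413895275) (nat_lit 12) (nat_lit 5) (nat_lit 14) (nat_lit 4) (nat_lit 12) (nat_lit 4) (nat_lit 388) (nat_lit 362) (nat_lit 270)) (XT.lf (nat_lit 0) (nat_lit 512956418284) (nat_lit 152) (nat_lit 59748885102) (nat_lit 0) (nat_lit 362374681725) (nat_lit 12) (nat_lit 5) (nat_lit 14) (nat_lit 4) (nat_lit 12) (nat_lit 4) (nat_lit 389) (nat_lit 362) (nat_lit 269))))))) (XT.nd (nat_lit 936) (nat_lit 228) (nat_lit 0) (XT.nd (nat_lit 468) (nat_lit 228) (nat_lit 0) (XT.nd (nat_lit 234) (nat_lit 76) (nat_lit 0) (XT.nd (nat_lit 78) (nat_lit 152) (nat_lit 0) (XT.lf (nat_lit 0) (nat_lit 477082152495) (nat_lit 76) (nat_lit 354584028222) (nat_lit 76)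 (nat_lit 204002247173) (nat_lit 11) (nat_lit 4) (nat_lit 12) (nat_lit 5) (nat_lit 12) (nat_lit 4) (nat_lit 390) (nat_lit 362) (nat_lit 268)) (XT.nd (nat_lit 78) (nat_lit 76) (nat_lit 0) (XT.lf (nat_lit 0) (nat_lit 45939300693) (nat_lit 152) (nat_lit 51812323246) (nat_lit 76) (nat_lit 1052811827240) (nat_lit 10) (nat_lit 5) (nat_lit 12) (nat_lit 5) (nat_lit 11) (nat_lit 4) (nat_lit 391) (nat_lit 362) (nat_lit 267)) (XT.lf (nat_lit 0) (nat_lit 345953064172) (nat_lit 152) (nat_lit 715250143618) (nat_lit 0) (nat_lit 215012322104) (nat_lit 9) (nat_lit 5) (nat_lit 11) (nat_lit 4) (nat_lit 9) (nat_lit 4) (nat_lit 392) (nat_lit 362) (nat_lit 266)))) (XT.nd (nat_lit 78) (nat_lit 76) (nat_lit 0) (XT.lf (nat_lit 0) (nat_lit 698460939156) (nat_lit 152) (nat_lit 153610502568) (nat_lit 0) (nat_lit 567520171651) (nat_lit 9) (nat_lit 5) (nat_lit 11) (nat_lit 4) (nat_lit 9) (nat_lit 4) (nat_lit 393) (nat_lit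 362) (nat_lit 265)) (XT.nd (nat_lit 78) (nat_lit 0) (nat_lit 0) (XT.lf (nat_lit 0) (nat_lit 540383519398) (nat_lit 76) (nat_lit 585837488842) (nat_lit 76) (nat_lit 454896699217) (nat_lit 8) (nat_lit 4) (nat_lit 9) (nat_lit 5) (nat_lit 9) (nat_lit 4) (nat_lit 394) (nat_lit 362) (nat_lit 264)) (XT.lf (nat_lit 0) (nat_lit 1355740138552) (nat_lit 76) (nat_lit 270434478296) (nat_lit 76) (nat_lit 139493669436) (nat_lit 8) (nat_lit 4) (nat_lit 9) (nat_lit 5) (nat_lit 9) (nat_lit 4) (nat_lit 395) (nat_lit 362) (nat_lit 263))))) (XT.nd (nat_lit 234) (nat_lit 76) (nat_lit 0) (XT.nd (nat_lit 78) (nat_lit 0) (nat_lit 0) (XT.lf (nat_lit 0) (nat_lit 222191956012) (nat_lit 152) (nat_lit 1643165961997) (nat_lit 0) (nat_lit 108330368547) (nat_lit 6) (nat_lit 5) (nat_lit 8) (nat_lit 4) (nat_lit 6) (nat_lit 4) (nat_lit 396) (nat_lit 362) (nat_lit 262)) (XT.nd (nat_lit 78) (nat_lit 0) (nat_lit 0) (XT.lf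 (nat_lit 0) (nat_lit 659175108562) (nat_lit 152) (nat_lit 1002127359806) (nat_lit 0) (nat_lit 545313508449) (nat_lit 6) (nat_lit 5) (nat_lit 8) (nat_lit 4) (nat_lit 6) (nat_lit 4) (nat_lit 397) (nat_lit 362) (nat_lit 261)) (XT.lf (nat_lit 0) (nat_lit 1161705646625) (nat_lit 152) (nat_lit 264933151586) (nat_lit 0) (nat_lit 1047844035515) (nat_lit 6) (nat_lit 5) (nat_lit 8) (nat_lit 4) (nat_lit 6) (nat_lit 4) (nat_lit 398) (nat_lit 362) (nat_lit 260)))) (XT.nd (nat_lit 78) (nat_lit 0) (nat_lit 0) (XT.lf (nat_lit 0) (nat_lit 639799393940) (nat_lit 76) (nat_lit 1126309024012) (nat_lit 76) (nat_lit 1012447403340) (nat_lit 5) (nat_lit 4) (nat_lit 6) (nat_lit 5) (nat_lit 6) (nat_lit 4) (nat_lit 399) (nat_lit 362) (nat_lit 259)) (XT.nd (nat_lit 78) (nat_lit 0) (nat_lit 0) (XT.lf (nat_lit 0) (nat_lit 1710016541833) (nat_lit 76) (nat_lit 765003769126) (nat_lit 76) (nat_lit 651142140138) (nat_lit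 5) (nat_lit 4) (nat_lit 6) (nat_lit 5) (nat_lit 6) (nat_lit 4) (nat_lit 400) (nat_lit 362) (nat_lit 258)) (XT.lf (nat_lit 0) (nat_lit 2940766128888) (nat_lit 76) (nat_lit 349502796075) (nat_lit 76) (nat_lit 235641159855) (nat_lit 5) (nat_lit 4) (nat_lit 6) (nat_lit 5) (nat_lit 6) (nat_lit 4) (nat_lit 401) (nat_lit 362) (nat_lit 257)))))) (XT.nd (nat_lit 468) (nat_lit 0) (nat_lit 0) (XT.nd (nat_lit 234) (nat_lit 76) (nat_lit 0) (XT.nd (nat_lit 78) (nat_lit 0) (nat_lit 0) (XT.lf (nat_lit 0) (nat_lit 243580768230) (nat_lit 152) (nat_lit 3592520679407) (nat_lit 0) (nat_lit 144570644311) (nat_lit 3) (nat_lit 5) (nat_lit 5) (nat_lit 4) (nat_lit 3) (nat_lit 4) (nat_lit 402) (nat_lit 362) (nat_lit 256)) (XT.nd (nat_lit 78) (nat_lit 0) (nat_lit 0) (XT.lf (nat_lit 0) (nat_lit 819247349845) (nat_lit 152) (nat_lit 2955177698388) (nat_lit 0) (nat_lit 720237221171) (nat_lit 3) (nat_lit 5) (nat_lit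 5) (nat_lit 4) (nat_lit 3) (nat_lit 4) (nat_lit 403) (nat_lit 362) (nat_lit 255)) (XT.lf (nat_lit 0) (nat_lit 1481263868967) (nat_lit 152) (nat_lit 2222233375813) (nat_lit 0) (nat_lit 1382253736159) (nat_lit 3) (nat_lit 5) (nat_lit 5) (nat_lit 4) (nat_lit 3) (nat_lit 4) (nat_lit 404) (nat_lit 362) (nat_lit 254)))) (XT.nd (nat_lit 78) (nat_lit 76) (nat_lit 0) (XT.lf (nat_lit 0) (nat_lit 2242582822711) (nat_lit 152) (nat_lit 1379347496676) (nat_lit 0) (nat_lit 2143572686307) (nat_lit 3) (nat_lit 5) (nat_lit 5) (nat_lit 4) (nat_lit 3) (nat_lit 4) (nat_lit 405) (nat_lit 362) (nat_lit 253)) (XT.nd (nat_lit 78) (nat_lit 76) (nat_lit 0) (XT.lf (nat_lit 0) (nat_lit 3118099581909) (nat_lit 152) (nat_lit 410028815515) (nat_lit 0) (nat_lit 3019089442380) (nat_lit 3) (nat_lit 5) (nat_lit 5) (nat_lit 4) (nat_lit 3) (nat_lit 4) (nat_lit 406) (nat_lit 362) (nat_lit 252)) (XT.lf (nat_lit 0) (nat_lit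 773554795502) (nat_lit 76) (nat_lit 3383420281255) (nat_lit 76) (nat_lit 3284410139008) (nat_lit 2) (nat_lit 4) (nat_lit 3) (nat_lit 5) (nat_lit 3) (nat_lit 4) (nat_lit 407) (nat_lit 362) (nat_lit 251))))) (XT.nd (nat_lit 234) (nat_lit 0) (nat_lit 0) (XT.nd (nat_lit 78) (nat_lit 0) (nat_lit 0) (XT.lf (nat_lit 0) (nat_lit 2180757529460) (nat_lit 76) (nat_lit 3192357659641) (nat_lit 76) (nat_lit 3093347515030) (nat_lit 2) (nat_lit 4) (nat_lit 3) (nat_lit 5) (nat_lit 3) (nat_lit 4) (nat_lit 408) (nat_lit 362) (nat_lit 250)) (XT.nd (nat_lit 78) (nat_lit 0) (nat_lit 0) (XT.lf (nat_lit 0) (nat_lit 3799040615880) (nat_lit 76) (nat_lit 2972635675303) (nat_lit 76) (nat_lit 2873625528636) (nat_lit 2) (nat_lit 4) (nat_lit 3) (nat_lit 5) (nat_lit 3) (nat_lit 4) (nat_lit 409) (nat_lit 362) (nat_lit 249)) (XT.lf (nat_lit 0) (nat_lit 5660066115150) (nat_lit 76) (nat_lit 2719955419852) (nat_lit 76) (nat_lit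 2620945271397) (nat_lit 2) (nat_lit 4) (nat_lit 3) (nat_lit 5) (nat_lit 3) (nat_lit 4) (nat_lit 410) (nat_lit 362) (nat_lit 248)))) (XT.nd (nat_lit 156) (nat_lit 0) (nat_lit 0) (XT.nd (nat_lit 78) (nat_lit 0) (nat_lit 0) (XT.lf (nat_lit 0) (nat_lit 7800245395732) (nat_lit 76) (nat_lit 2429373149158) (nat_lit 76) (nat_lit 2330362999150) (nat_lit 2) (nat_lit 4) (nat_lit 3) (nat_lit 5) (nat_lit 3) (nat_lit 4) (nat_lit 411) (nat_lit 362) (nat_lit 247)) (XT.lf (nat_lit 0) (nat_lit 10261451530508) (nat_lit 76) (nat_lit 2095203557927) (nat_lit 76) (nat_lit 1996193406567) (nat_lit 2) (nat_lit 4) (nat_lit 3) (nat_lit 5) (nat_lit 3) (nat_lit 4) (nat_lit 412) (nat_lit 362) (nat_lit 246))) (XT.nd (nat_lit 78) (nat_lit 0) (nat_lit 0) (XT.lf (nat_lit 0) (nat_lit 13091838552550) (nat_lit 76) (nat_lit 1710908545460) (nat_lit 76) (nat_lit 1611898392925) (nat_lit 2) (nat_lit 4) (nat_lit 3) (nat_lit 5)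 (nat_lit 3) (nat_lit 4) (nat_lit 413) (nat_lit 362) (nat_lit 245)) (XT.lf (nat_lit 0) (nat_lit 16346783599246) (nat_lit 76) (nat_lit 1268969296295) (nat_lit 76) (nat_lit 1169959142738) (nat_lit 2) (nat_lit 4) (nat_lit 3) (nat_lit 5) (nat_lit 3) (nat_lit 4) (nat_lit 414) (nat_lit 362) (nat_lit 244))))))))
noncomputable def xc84 : XT := (XT.nd (nat_lit 1872) (nat_lit 0) (nat_lit 0) (XT.nd (nat_lit 936) (nat_lit 0) (nat_lit 0) (XT.nd (nat_lit 468) (nat_lit 0) (nat_lit 0) (XT.nd (nat_lit 234) (nat_lit 0) (nat_lit 0) (XT.nd (nat_lit 78) (nat_lit 76) (nat_lit 0) (XT.lf (nat_lit 0) (nat_lit 20089970378030) (nat_lit 76) (nat_lit 760739172950) (nat_lit 76) (nat_lit 661729018504) (nat_lit 2) (nat_lit 4) (nat_lit 3) (nat_lit 5) (nat_lit 3) (nat_lit 4) (nat_lit 415) (nat_lit 362) (nat_lit 243)) (XT.nd (nat_lit 78) (nat_lit 76) (nat_lit 0) (XT.lf (nat_lit 0) (nat_lit 24394635151966) (nat_lit 76) (nat_lit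 176274542575) (nat_lit 76) (nat_lit 77264387356) (nat_lit 2) (nat_lit 4) (nat_lit 3) (nat_lit 5) (nat_lit 3) (nat_lit 4) (nat_lit 416) (nat_lit 362) (nat_lit 242)) (XT.lf (nat_lit 0) (nat_lit 614382498967) (nat_lit 76) (nat_lit 27097035067231) (nat_lit 0) (nat_lit 528286711236) (nat_lit 1) (nat_lit 5) (nat_lit 2) (nat_lit 4) (nat_lit 1) (nat_lit 4) (nat_lit 417) (nat_lit 362) (nat_lit 241)))) (XT.nd (nat_lit 78) (nat_lit 0) (nat_lit 0) (XT.lf (nat_lit 0) (nat_lit 1424144307979) (nat_lit 76) (nat_lit 29603877542403) (nat_lit 0) (nat_lit 1338048519740) (nat_lit 1) (nat_lit 5) (nat_lit 2) (nat_lit 4) (nat_lit 1) (nat_lit 4) (nat_lit 418) (nat_lit 362) (nat_lit 240)) (XT.nd (nat_lit 78) (nat_lit 0) (nat_lit 0) (XT.lf (nat_lit 0) (nat_lit 2355370380283) (nat_lit 76) (nat_lit 32486746406038) (nat_lit 0) (nat_lit 2269274591602) (nat_lit 1) (nat_lit 5) (nat_lit 2) (nat_lit 4) (nat_lit 1) (nat_lit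 4) (nat_lit 419) (nat_lit 362) (nat_lit 239)) (XT.lf (nat_lit 0) (nat_lit 3426280356425) (nat_lit 76) (nat_lit 35802045614163) (nat_lit 0) (nat_lit 3340184567360) (nat_lit 1) (nat_lit 5) (nat_lit 2) (nat_lit 4) (nat_lit 1) (nat_lit 4) (nat_lit 420) (nat_lit 362) (nat_lit 238))))) (XT.nd (nat_lit 234) (nat_lit 0) (nat_lit 0) (XT.nd (nat_lit 78) (nat_lit 0) (nat_lit 0) (XT.lf (nat_lit 0) (nat_lit 4657826822893) (nat_lit 76) (nat_lit 39614639716502) (nat_lit 0) (nat_lit 4571731033494) (nat_lit 1) (nat_lit 5) (nat_lit 2) (nat_lit 4) (nat_lit 1) (nat_lit 4) (nat_lit 421) (nat_lit 362) (nat_lit 237)) (XT.nd (nat_lit 78) (nat_lit 0) (nat_lit 0) (XT.lf (nat_lit 0) (nat_lit 6074105254032) (nat_lit 76) (nat_lit 43999122945492) (nat_lit 0) (nat_lit 5988009464342) (nat_lit 1) (nat_lit 5) (nat_lit 2) (nat_lit 4) (nat_lit 1) (nat_lit 4) (nat_lit 422) (nat_lit 362) (nat_lit 236)) (XT.lf (nat_lit 0)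 (nat_lit 7702825445233) (nat_lit 76) (nat_lit 49041278668656) (nat_lit 0) (nat_lit 7616729655291) (nat_lit 1) (nat_lit 5) (nat_lit 2) (nat_lit 4) (nat_lit 1) (nat_lit 4) (nat_lit 423) (nat_lit 362) (nat_lit 235)))) (XT.nd (nat_lit 78) (nat_lit 0) (nat_lit 0) (XT.lf (nat_lit 0) (nat_lit 9575853661108) (nat_lit 76) (nat_lit 54839757758840) (nat_lit 0) (nat_lit 9489757870946) (nat_lit 1) (nat_lit 5) (nat_lit 2) (nat_lit 4) (nat_lit 1) (nat_lit 4) (nat_lit 424) (nat_lit 362) (nat_lit 234)) (XT.nd (nat_lit 78) (nat_lit 0) (nat_lit 0) (XT.lf (nat_lit 0) (nat_lit 11729836105879) (nat_lit 76) (nat_lit 61508008719982) (nat_lit 0) (nat_lit 11643740315526) (nat_lit 1) (nat_lit 5) (nat_lit 2) (nat_lit 4) (nat_lit 1) (nat_lit 4) (nat_lit 425) (nat_lit 362) (nat_lit 233)) (XT.lf (nat_lit 0) (nat_lit 14206915914336) (nat_lit 76) (nat_lit 69176497331756) (nat_lit 0) (nat_lit 14120820123817) (nat_lit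 1) (nat_lit 5) (nat_lit 2) (nat_lit 4) (nat_lit 1) (nat_lit 4) (nat_lit 426) (nat_lit 362) (nat_lit 232)))))) (XT.nd (nat_lit 468) (nat_lit 0) (nat_lit 0) (XT.nd (nat_lit 234) (nat_lit 0) (nat_lit 0) (XT.nd (nat_lit 78) (nat_lit 0) (nat_lit 0) (XT.lf (nat_lit 0) (nat_lit 17055557691427) (nat_lit 76) (nat_lit 77995259240914) (nat_lit 0) (nat_lit 16969461900764) (nat_lit 1) (nat_lit 5) (nat_lit 2) (nat_lit 4) (nat_lit 1) (nat_lit 4) (nat_lit 427) (nat_lit 362) (nat_lit 231)) (XT.nd (nat_lit 78) (nat_lit 0) (nat_lit 0) (XT.lf (nat_lit 0) (nat_lit 20331495732790) (nat_lit 76) (nat_lit 88136835441332) (nat_lit 0) (nat_lit 20245399942001) (nat_lit 1) (nat_lit 5) (nat_lit 2) (nat_lit 4) (nat_lit 1) (nat_lit 4) (nat_lit 428) (nat_lit 362) (nat_lit 230)) (XT.lf (nat_lit 0) (nat_lit 24098824478366) (nat_lit 76) (nat_lit 99799648076060) (nat_lit 0) (nat_lit 24012728687468) (nat_lit 1) (nat_lit 5)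 (nat_lit 2) (nat_lit 4) (nat_lit 1) (nat_lit 4) (nat_lit 429) (nat_lit 362) (nat_lit 229)))) (XT.nd (nat_lit 78) (nat_lit 0) (nat_lit 0) (XT.lf (nat_lit 0) (nat_lit 28431252534045) (nat_lit 76) (nat_lit 113211882609692) (nat_lit 0) (nat_lit 28345156743052) (nat_lit 1) (nat_lit 5) (nat_lit 2) (nat_lit 4) (nat_lit 1) (nat_lit 4) (nat_lit 430) (nat_lit 362) (nat_lit 228)) (XT.nd (nat_lit 78) (nat_lit 0) (nat_lit 0) (XT.lf (nat_lit 0) (nat_lit 33413544796570) (nat_lit 76) (nat_lit 128635952326580) (nat_lit 0) (nat_lit 33327449005494) (nat_lit 1) (nat_lit 5) (nat_lit 2) (nat_lit 4) (nat_lit 1) (nat_lit 4) (nat_lit 431) (nat_lit 362) (nat_lit 227)) (XT.lf (nat_lit 0) (nat_lit 39143180897164) (nat_lit 76) (nat_lit 146373632503796) (nat_lit 0) (nat_lit 39057085106016) (nat_lit 1) (nat_lit 5) (nat_lit 2) (nat_lit 4) (nat_lit 1) (nat_lit 4) (nat_lit 432) (nat_lit 362) (nat_lit 226))))) (XT.nd (nat_lit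 234) (nat_lit 0) (nat_lit 0) (XT.nd (nat_lit 78) (nat_lit 0) (nat_lit 0) (XT.lf (nat_lit 0) (nat_lit 45732262411707) (nat_lit 76) (nat_lit 166771964710022) (nat_lit 0) (nat_lit 45646166620497) (nat_lit 1) (nat_lit 5) (nat_lit 2) (nat_lit 4) (nat_lit 1) (nat_lit 4) (nat_lit 433) (nat_lit 362) (nat_lit 225)) (XT.nd (nat_lit 78) (nat_lit 0) (nat_lit 0) (XT.lf (nat_lit 0) (nat_lit 53309706152442) (nat_lit 76) (nat_lit 190230046749294) (nat_lit 0) (nat_lit 53223610361177) (nat_lit 1) (nat_lit 5) (nat_lit 2) (nat_lit 4) (nat_lit 1) (nat_lit 4) (nat_lit 434) (nat_lit 362) (nat_lit 224)) (XT.lf (nat_lit 0) (nat_lit 62023766453425) (nat_lit 76) (nat_lit 217206841096294) (nat_lit 0) (nat_lit 61937670662114) (nat_lit 1) (nat_lit 5) (nat_lit 2) (nat_lit 4) (nat_lit 1) (nat_lit 4) (nat_lit 435) (nat_lit 362) (nat_lit 223)))) (XT.nd (nat_lit 78) (nat_lit 0) (nat_lit 0) (XT.lf (nat_lit 0) (nat_lit 72044935798808)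 (nat_lit 76) (nat_lit 248230154596942) (nat_lit 0) (nat_lit 71958840007455) (nat_lit 1) (nat_lit 5) (nat_lit 2) (nat_lit 4) (nat_lit 1) (nat_lit 4) (nat_lit 436) (nat_lit 362) (nat_lit 222)) (XT.nd (nat_lit 78) (nat_lit 0) (nat_lit 0) (XT.lf (nat_lit 0) (nat_lit 83569280545346) (nat_lit 76) (nat_lit 283906965124074) (nat_lit 0) (nat_lit 83483184753957) (nat_lit 1) (nat_lit 5) (nat_lit 2) (nat_lit 4) (nat_lit 1) (nat_lit 4) (nat_lit 437) (nat_lit 362) (nat_lit 221)) (XT.lf (nat_lit 0) (nat_lit 96822277003298) (nat_lit 76) (nat_lit 324935297231485) (nat_lit 0) (nat_lit 96736181211879) (nat_lit 1) (nat_lit 5) (nat_lit 2) (nat_lit 4) (nat_lit 1) (nat_lit 4) (nat_lit 438) (nat_lit 362) (nat_lit 220))))))) (XT.nd (nat_lit 47892) (nat_lit 0) (nat_lit 1140) (XT.nd (nat_lit 47424) (nat_lit 0) (nat_lit 2128) (XT.nd (nat_lit 47190) (nat_lit 0) (nat_lit 2432) (XT.nd (nat_lit 78) (nat_lit 0) (nat_lit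 0) (XT.lf (nat_lit 0) (nat_lit 112063222929450) (nat_lit 76) (nat_lit 372117879156056) (nat_lit 0) (nat_lit 111977127138005) (nat_lit 1) (nat_lit 5) (nat_lit 2) (nat_lit 4) (nat_lit 1) (nat_lit 4) (nat_lit 439) (nat_lit 362) (nat_lit 219)) (XT.nd (nat_lit 78) (nat_lit 0) (nat_lit 0) (XT.lf (nat_lit 0) (nat_lit 129590310744099) (nat_lit 76) (nat_lit 426377848370227) (nat_lit 0) (nat_lit 129504214952630) (nat_lit 1) (nat_lit 5) (nat_lit 2) (nat_lit 4) (nat_lit 1) (nat_lit 4) (nat_lit 440) (nat_lit 362) (nat_lit 218)) (XT.lf (nat_lit 0) (nat_lit 149746461730571) (nat_lit 76) (nat_lit 488776812967317) (nat_lit 0) (nat_lit 149660365939082) (nat_lit 1) (nat_lit 5) (nat_lit 2) (nat_lit 4) (nat_lit 1) (nat_lit 4) (nat_lit 441) (nat_lit 362) (nat_lit 217)))) (XT.nd (nat_lit 78) (nat_lit 0) (nat_lit 0) (XT.lf (nat_lit 0) (nat_lit 14061999065) (nat_lit 380) (nat_lit 18195428773) (nat_lit 380) (nat_lit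 18195428773) (nat_lit 33) (nat_lit 3) (nat_lit 38) (nat_lit 3) (nat_lit 38) (nat_lit 5) (nat_lit 363) (nat_lit 363) (nat_lit 294)) (XT.nd (nat_lit 78) (nat_lit 0) (nat_lit 76) (XT.lf (nat_lit 76) (nat_lit 14737816252) (nat_lit 0) (nat_lit 16111685030) (nat_lit 380) (nat_lit 77531705725) (nat_lit 34) (nat_lit 5) (nat_lit 33) (nat_lit 3) (nat_lit 38) (nat_lit 5) (nat_lit 364) (nat_lit 363) (nat_lit 293)) (XT.lf (nat_lit 0) (nat_lit 37613356617) (nat_lit 304) (nat_lit 40796254918) (nat_lit 380) (nat_lit 38023985067) (nat_lit 34) (nat_lit 5) (nat_lit 38) (nat_lit 5) (nat_lit 39) (nat_lit 5) (nat_lit 365) (nat_lit 363) (nat_lit 292))))) (XT.nd (nat_lit 234) (nat_lit 152) (nat_lit 0) (XT.nd (nat_lit 78) (nat_lit 228) (nat_lit 0) (XT.lf (nat_lit 76) (nat_lit 21087329803) (nat_lit 0) (nat_lit 25943935918) (nat_lit 380) (nat_lit 78416658250) (nat_lit 35) (nat_lit 5) (nat_lit 34) (nat_lit 5) (nat_lit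 39) (nat_lit 5) (nat_lit 366) (nat_lit 363) (nat_lit 291)) (XT.nd (nat_lit 78) (nat_lit 304) (nat_lit 0) (XT.lf (nat_lit 0) (nat_lit 61519192741) (nat_lit 304) (nat_lit 40182593655) (nat_lit 76) (nat_lit 33564014881) (nat_lit 35) (nat_lit 5) (nat_lit 39) (nat_lit 5) (nat_lit 36) (nat_lit 5) (nat_lit 367) (nat_lit 363) (nat_lit 290)) (XT.lf (nat_lit 0) (nat_lit 35550945129) (nat_lit 304) (nat_lit 45336154968) (nat_lit 380) (nat_lit 65263241884) (nat_lit 31) (nat_lit 5) (nat_lit 35) (nat_lit 5) (nat_lit 36) (nat_lit 5) (nat_lit 368) (nat_lit 363) (nat_lit 289)))) (XT.nd (nat_lit 78) (nat_lit 152) (nat_lit 0) (XT.lf (nat_lit 0) (nat_lit 106166814100) (nat_lit 380) (nat_lit 32099622943) (nat_lit 76) (nat_lit 19950134095) (nat_lit 31) (nat_lit 5) (nat_lit 36) (nat_lit 5) (nat_lit 32) (nat_lit 5) (nat_lit 369) (nat_lit 363) (nat_lit 288)) (XT.nd (nat_lit 78) (nat_lit 0) (nat_lit 0) (XT.lf (nat_lit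 0) (nat_lit 61489812370) (nat_lit 152) (nat_lit 78453126301) (nat_lit 228) (nat_lit 31444128351) (nat_lit 29) (nat_lit 5) (nat_lit 31) (nat_lit 5) (nat_lit 32) (nat_lit 5) (nat_lit 370) (nat_lit 363) (nat_lit 287)) (XT.lf (nat_lit 0) (nat_lit 172724565707) (nat_lit 152) (nat_lit 7738325535) (nat_lit 228) (nat_lit 5818634973) (nat_lit 29) (nat_lit 5) (nat_lit 31) (nat_lit 5) (nat_lit 32) (nat_lit 5) (nat_lit 371) (nat_lit 363) (nat_lit 286)))))) (XT.nd (nat_lit 468) (nat_lit 456) (nat_lit 0) (XT.nd (nat_lit 234) (nat_lit 228) (nat_lit 0) (XT.nd (nat_lit 78) (nat_lit 152) (nat_lit 0) (XT.lf (nat_lit 0) (nat_lit 29221773264) (nat_lit 152) (nat_lit 100247844711) (nat_lit 76) (nat_lit 72642142186) (nat_lit 27) (nat_lit 5) (nat_lit 29) (nat_lit 5) (nat_lit 28) (nat_lit 5) (nat_lit 372) (nat_lit 363) (nat_lit 285)) (XT.nd (nat_lit 78) (nat_lit 0) (nat_lit 0) (XT.lf (nat_lit 0) (nat_lit 16719861926)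 (nat_lit 152) (nat_lit 54005446770) (nat_lit 228) (nat_lit 149279241535) (nat_lit 25) (nat_lit 5) (nat_lit 27) (nat_lit 5) (nat_lit 28) (nat_lit 5) (nat_lit 373) (nat_lit 363) (nat_lit 284)) (XT.lf (nat_lit 0) (nat_lit 125300995858) (nat_lit 228) (nat_lit 78903500356) (nat_lit 76) (nat_lit 35349769573) (nat_lit 25) (nat_lit 5) (nat_lit 28) (nat_lit 5) (nat_lit 26) (nat_lit 4) (nat_lit 374) (nat_lit 363) (nat_lit 283)))) (XT.nd (nat_lit 78) (nat_lit 152) (nat_lit 0) (XT.lf (nat_lit 0) (nat_lit 67578935178) (nat_lit 76) (nat_lit 125853720547) (nat_lit 152) (nat_lit 67798340167) (nat_lit 24) (nat_lit 5) (nat_lit 25) (nat_lit 5) (nat_lit 26) (nat_lit 4) (nat_lit 375) (nat_lit 363) (nat_lit 282)) (XT.nd (nat_lit 78) (nat_lit 152) (nat_lit 0) (XT.lf (nat_lit 0) (nat_lit 244900853406) (nat_lit 76) (nat_lit 31007369211) (nat_lit 152) (nat_lit 9632389329) (nat_lit 24) (nat_lit 5) (nat_lit 25)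 (nat_lit 5) (nat_lit 26) (nat_lit 4) (nat_lit 376) (nat_lit 363) (nat_lit 281)) (XT.lf (nat_lit 0) (nat_lit 61837127187) (nat_lit 152) (nat_lit 169921745240) (nat_lit 76) (nat_lit 79930723027) (nat_lit 22) (nat_lit 5) (nat_lit 24) (nat_lit 5) (nat_lit 23) (nat_lit 4) (nat_lit 377) (nat_lit 363) (nat_lit 280))))) (XT.nd (nat_lit 234) (nat_lit 304) (nat_lit 0) (XT.nd (nat_lit 78) (nat_lit 76) (nat_lit 0) (XT.lf (nat_lit 0) (nat_lit 13858549049) (nat_lit 76) (nat_lit 133457953166) (nat_lit 152) (nat_lit 193734280949) (nat_lit 21) (nat_lit 5) (nat_lit 22) (nat_lit 5) (nat_lit 23) (nat_lit 4) (nat_lit 378) (nat_lit 363) (nat_lit 279)) (XT.nd (nat_lit 78) (nat_lit 76) (nat_lit 0) (XT.lf (nat_lit 0) (nat_lit 244302268836) (nat_lit 76) (nat_lit 10197505281) (nat_lit 152) (nat_lit 118984076402) (nat_lit 21) (nat_lit 5) (nat_lit 22) (nat_lit 5) (nat_lit 23) (nat_lit 4) (nat_lit 379) (nat_lit 363)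 (nat_lit 278)) (XT.lf (nat_lit 0) (nat_lit 102179650925) (nat_lit 76) (nat_lit 285258961885) (nat_lit 76) (nat_lit 21891553835) (nat_lit 20) (nat_lit 4) (nat_lit 21) (nat_lit 5) (nat_lit 21) (nat_lit 4) (nat_lit 380) (nat_lit 363) (nat_lit 277)))) (XT.nd (nat_lit 156) (nat_lit 152) (nat_lit 0) (XT.nd (nat_lit 78) (nat_lit 76) (nat_lit 0) (XT.lf (nat_lit 0) (nat_lit 89332934145) (nat_lit 152) (nat_lit 71301806624) (nat_lit 76) (nat_lit 288227207672) (nat_lit 19) (nat_lit 5) (nat_lit 21) (nat_lit 5) (nat_lit 20) (nat_lit 4) (nat_lit 381) (nat_lit 363) (nat_lit 276)) (XT.lf (nat_lit 0) (nat_lit 218317474903) (nat_lit 76) (nat_lit 5722185529) (nat_lit 152) (nat_lit 268771492394) (nat_lit 18) (nat_lit 5) (nat_lit 19) (nat_lit 5) (nat_lit 20) (nat_lit 4) (nat_lit 382) (nat_lit 363) (nat_lit 275))) (XT.nd (nat_lit 78) (nat_lit 76) (nat_lit 0) (XT.lf (nat_lit 0) (nat_lit 10188654496) (nat_lit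 76) (nat_lit 380229885869) (nat_lit 76) (nat_lit 151214275836) (nat_lit 17) (nat_lit 4) (nat_lit 18) (nat_lit 5) (nat_lit 18) (nat_lit 4) (nat_lit 383) (nat_lit 363) (nat_lit 274)) (XT.lf (nat_lit 0) (nat_lit 707114031) (nat_lit 152) (nat_lit 227495433212) (nat_lit 76) (nat_lit 367379096053) (nat_lit 16) (nat_lit 5) (nat_lit 18) (nat_lit 5) (nat_lit 17) (nat_lit 4) (nat_lit 384) (nat_lit 363) (nat_lit 273))))))))
noncomputable def xc85 : XT := (XT.nd (nat_lit 1872) (nat_lit 76) (nat_lit 0) (XT.nd (nat_lit 936) (nat_lit 456) (nat_lit 0) (XT.nd (nat_lit 468) (nat_lit 304) (nat_lit 0) (XT.nd (nat_lit 234) (nat_lit 152) (nat_lit 0) (XT.nd (nat_lit 78) (nat_lit 76) (nat_lit 0) (XT.lf (nat_lit 0) (nat_lit 126068008298) (nat_lit 76) (nat_lit 39087265928) (nat_lit 152) (nat_lit 490604414772) (nat_lit 15) (nat_lit 5) (nat_lit 16) (nat_lit 5) (nat_lit 17) (nat_lit 4) (nat_lit 385) (nat_lit 363)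 (nat_lit 272)) (XT.nd (nat_lit 78) (nat_lit 76) (nat_lit 0) (XT.lf (nat_lit 0) (nat_lit 374115529564) (nat_lit 152) (nat_lit 172900930718) (nat_lit 0) (nat_lit 174971250629) (nat_lit 15) (nat_lit 5) (nat_lit 17) (nat_lit 4) (nat_lit 15) (nat_lit 4) (nat_lit 386) (nat_lit 363) (nat_lit 271)) (XT.lf (nat_lit 0) (nat_lit 258566163994) (nat_lit 76) (nat_lit 368421473310) (nat_lit 76) (nat_lit 169277126711) (nat_lit 14) (nat_lit 4) (nat_lit 15) (nat_lit 5) (nat_lit 15) (nat_lit 4) (nat_lit 387) (nat_lit 363) (nat_lit 270)))) (XT.nd (nat_lit 78) (nat_lit 76) (nat_lit 0) (XT.lf (nat_lit 0) (nat_lit 42360902182) (nat_lit 152) (nat_lit 108068465745) (nat_lit 76) (nat_lit 729609504818) (nat_lit 13) (nat_lit 5) (nat_lit 15) (nat_lit 5) (nat_lit 14) (nat_lit 4) (nat_lit 388) (nat_lit 363) (nat_lit 269)) (XT.nd (nat_lit 78) (nat_lit 0) (nat_lit 0) (XT.lf (nat_lit 0) (nat_lit 290946590776) (nat_lit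 152) (nat_lit 563065980287) (nat_lit 0) (nat_lit 117777498079) (nat_lit 12) (nat_lit 5) (nat_lit 14) (nat_lit 4) (nat_lit 12) (nat_lit 4) (nat_lit 389) (nat_lit 363) (nat_lit 268)) (XT.lf (nat_lit 0) (nat_lit 589901335814) (nat_lit 152) (nat_lit 68708224294) (nat_lit 0) (nat_lit 416732204429) (nat_lit 12) (nat_lit 5) (nat_lit 14) (nat_lit 4) (nat_lit 12) (nat_lit 4) (nat_lit 390) (nat_lit 363) (nat_lit 267))))) (XT.nd (nat_lit 234) (nat_lit 76) (nat_lit 0) (XT.nd (nat_lit 78) (nat_lit 152) (nat_lit 0) (XT.lf (nat_lit 0) (nat_lit 548647332871) (nat_lit 76) (nat_lit 407770158309) (nat_lit 76) (nat_lit 234600993283) (nat_lit 11) (nat_lit 4) (nat_lit 12) (nat_lit 5) (nat_lit 12) (nat_lit 4) (nat_lit 391) (nat_lit 363) (nat_lit 266)) (XT.nd (nat_lit 78) (nat_lit 76) (nat_lit 0) (XT.lf (nat_lit 0) (nat_lit 52831456081) (nat_lit 152) (nat_lit 59581563705) (nat_lit 76) (nat_lit 1210734759948)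 (nat_lit 10) (nat_lit 5) (nat_lit 12) (nat_lit 5) (nat_lit 11) (nat_lit 4) (nat_lit 392) (nat_lit 363) (nat_lit 265)) (XT.lf (nat_lit 0) (nat_lit 397847276218) (nat_lit 152) (nat_lit 822535049198) (nat_lit 0) (nat_lit 247265346029) (nat_lit 9) (nat_lit 5) (nat_lit 11) (nat_lit 4) (nat_lit 9) (nat_lit 4) (nat_lit 393) (nat_lit 363) (nat_lit 264)))) (XT.nd (nat_lit 78) (nat_lit 76) (nat_lit 0) (XT.lf (nat_lit 0) (nat_lit 803231169091) (nat_lit 152) (nat_lit 176649803203) (nat_lit 0) (nat_lit 652649219668) (nat_lit 9) (nat_lit 5) (nat_lit 11) (nat_lit 4) (nat_lit 9) (nat_lit 4) (nat_lit 394) (nat_lit 363) (nat_lit 263)) (XT.nd (nat_lit 78) (nat_lit 0) (nat_lit 0) (XT.lf (nat_lit 0) (nat_lit 621443218660) (nat_lit 76) (nat_lit 673711977737) (nat_lit 76) (nat_lit 523130011588) (nat_lit 8) (nat_lit 4) (nat_lit 9) (nat_lit 5) (nat_lit 9) (nat_lit 4) (nat_lit 395) (nat_lit 363) (nat_lit 262))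 (XT.lf (nat_lit 0) (nat_lit 1559103047467) (nat_lit 76) (nat_lit 310998663578) (nat_lit 76) (nat_lit 160416682885) (nat_lit 8) (nat_lit 4) (nat_lit 9) (nat_lit 5) (nat_lit 9) (nat_lit 4) (nat_lit 396) (nat_lit 363) (nat_lit 261)))))) (XT.nd (nat_lit 468) (nat_lit 228) (nat_lit 0) (XT.nd (nat_lit 234) (nat_lit 76) (nat_lit 0) (XT.nd (nat_lit 78) (nat_lit 0) (nat_lit 0) (XT.lf (nat_lit 0) (nat_lit 255521690153) (nat_lit 152) (nat_lit 1889638871862) (nat_lit 0) (nat_lit 124580826379) (nat_lit 6) (nat_lit 5) (nat_lit 8) (nat_lit 4) (nat_lit 6) (nat_lit 4) (nat_lit 397) (nat_lit 363) (nat_lit 260)) (XT.nd (nat_lit 78) (nat_lit 0) (nat_lit 0) (XT.lf (nat_lit 0) (nat_lit 758052192880) (nat_lit 152) (nat_lit 1152444738182) (nat_lit 0) (nat_lit 627111319543) (nat_lit 6) (nat_lit 5) (nat_lit 8) (nat_lit 4) (nat_lit 6) (nat_lit 4) (nat_lit 398) (nat_lit 363) (nat_lit 259)) (XT.lf (nat_lit 0) (nat_lit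 1335962204953) (nat_lit 152) (nat_lit 304671623806) (nat_lit 0) (nat_lit 1205021323300) (nat_lit 6) (nat_lit 5) (nat_lit 8) (nat_lit 4) (nat_lit 6) (nat_lit 4) (nat_lit 399) (nat_lit 363) (nat_lit 258)))) (XT.nd (nat_lit 78) (nat_lit 0) (nat_lit 0) (XT.lf (nat_lit 0) (nat_lit 735770735343) (nat_lit 76) (nat_lit 1295254623162) (nat_lit 76) (nat_lit 1164313734279) (nat_lit 5) (nat_lit 4) (nat_lit 6) (nat_lit 5) (nat_lit 6) (nat_lit 4) (nat_lit 400) (nat_lit 363) (nat_lit 257)) (XT.nd (nat_lit 78) (nat_lit 0) (nat_lit 0) (XT.lf (nat_lit 0) (nat_lit 1966520268597) (nat_lit 76) (nat_lit 879753678449) (nat_lit 76) (nat_lit 748812783278) (nat_lit 5) (nat_lit 4) (nat_lit 6) (nat_lit 5) (nat_lit 6) (nat_lit 4) (nat_lit 401) (nat_lit 363) (nat_lit 256)) (XT.lf (nat_lit 0) (nat_lit 3381882131255) (nat_lit 76) (nat_lit 401927645012) (nat_lit 76) (nat_lit 270986744373) (nat_lit 5) (nat_lit 4) (nat_lit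 6) (nat_lit 5) (nat_lit 6) (nat_lit 4) (nat_lit 402) (nat_lit 363) (nat_lit 255))))) (XT.nd (nat_lit 234) (nat_lit 76) (nat_lit 0) (XT.nd (nat_lit 78) (nat_lit 0) (nat_lit 0) (XT.lf (nat_lit 0) (nat_lit 280118418978) (nat_lit 152) (nat_lit 4131397644308) (nat_lit 0) (nat_lit 166256762114) (nat_lit 3) (nat_lit 5) (nat_lit 5) (nat_lit 4) (nat_lit 3) (nat_lit 4) (nat_lit 403) (nat_lit 363) (nat_lit 254)) (XT.nd (nat_lit 78) (nat_lit 0) (nat_lit 0) (XT.lf (nat_lit 0) (nat_lit 942134917985) (nat_lit 152) (nat_lit 3398453364442) (nat_lit 0) (nat_lit 828273257526) (nat_lit 3) (nat_lit 5) (nat_lit 5) (nat_lit 4) (nat_lit 3) (nat_lit 4) (nat_lit 404) (nat_lit 363) (nat_lit 253)) (XT.lf (nat_lit 0) (nat_lit 1703453854237) (nat_lit 152) (nat_lit 2555567522443) (nat_lit 0) (nat_lit 1589592190652) (nat_lit 3) (nat_lit 5) (nat_lit 5) (nat_lit 4) (nat_lit 3) (nat_lit 4) (nat_lit 405) (nat_lit 363) (nat_lit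 252)))) (XT.nd (nat_lit 78) (nat_lit 76) (nat_lit 0) (XT.lf (nat_lit 0) (nat_lit 2578970598226) (nat_lit 152) (nat_lit 1586248873576) (nat_lit 0) (nat_lit 2465108931923) (nat_lit 3) (nat_lit 5) (nat_lit 5) (nat_lit 4) (nat_lit 3) (nat_lit 4) (nat_lit 406) (nat_lit 363) (nat_lit 251)) (XT.nd (nat_lit 78) (nat_lit 76) (nat_lit 0) (XT.lf (nat_lit 0) (nat_lit 3585814825377) (nat_lit 152) (nat_lit 471532487754) (nat_lit 0) (nat_lit 3471953156710) (nat_lit 3) (nat_lit 5) (nat_lit 5) (nat_lit 4) (nat_lit 3) (nat_lit 4) (nat_lit 407) (nat_lit 363) (nat_lit 250)) (XT.lf (nat_lit 0) (nat_lit 889588635367) (nat_lit 76) (nat_lit 3890932994844) (nat_lit 76) (nat_lit 3777071324122) (nat_lit 2) (nat_lit 4) (nat_lit 3) (nat_lit 5) (nat_lit 3) (nat_lit 4) (nat_lit 408) (nat_lit 363) (nat_lit 249))))))) (XT.nd (nat_lit 936) (nat_lit 0) (nat_lit 0) (XT.nd (nat_lit 468) (nat_lit 76) (nat_lit 0) (XT.nd (nat_lit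 234) (nat_lit 0) (nat_lit 0) (XT.nd (nat_lit 78) (nat_lit 0) (nat_lit 0) (XT.lf (nat_lit 0) (nat_lit 2507871698479) (nat_lit 76) (nat_lit 3671211022849) (nat_lit 76) (nat_lit 3557349350339) (nat_lit 2) (nat_lit 4) (nat_lit 3) (nat_lit 5) (nat_lit 3) (nat_lit 4) (nat_lit 409) (nat_lit 363) (nat_lit 248)) (XT.nd (nat_lit 78) (nat_lit 0) (nat_lit 0) (XT.lf (nat_lit 0) (nat_lit 4368897177480) (nat_lit 76) (nat_lit 3418530778130) (nat_lit 76) (nat_lit 3304669104066) (nat_lit 2) (nat_lit 4) (nat_lit 3) (nat_lit 5) (nat_lit 3) (nat_lit 4) (nat_lit 410) (nat_lit 363) (nat_lit 247)) (XT.lf (nat_lit 0) (nat_lit 6509076440437) (nat_lit 76) (nat_lit 3127948516770) (nat_lit 76) (nat_lit 3014086841354) (nat_lit 2) (nat_lit 4) (nat_lit 3) (nat_lit 5) (nat_lit 3) (nat_lit 4) (nat_lit 411) (nat_lit 363) (nat_lit 246)))) (XT.nd (nat_lit 78) (nat_lit 0) (nat_lit 0) (XT.lf (nat_lit 0) (nat_lit 8970282559887)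 (nat_lit 76) (nat_lit 2793778933654) (nat_lit 76) (nat_lit 2679917257064) (nat_lit 2) (nat_lit 4) (nat_lit 3) (nat_lit 5) (nat_lit 3) (nat_lit 4) (nat_lit 412) (nat_lit 363) (nat_lit 245)) (XT.nd (nat_lit 78) (nat_lit 0) (nat_lit 0) (XT.lf (nat_lit 0) (nat_lit 11800669568602) (nat_lit 76) (nat_lit 2409483928244) (nat_lit 76) (nat_lit 2295622250631) (nat_lit 2) (nat_lit 4) (nat_lit 3) (nat_lit 5) (nat_lit 3) (nat_lit 4) (nat_lit 413) (nat_lit 363) (nat_lit 244)) (XT.lf (nat_lit 0) (nat_lit 15055614603709) (nat_lit 76) (nat_lit 1967544685216) (nat_lit 76) (nat_lit 1853683006715) (nat_lit 2) (nat_lit 4) (nat_lit 3) (nat_lit 5) (nat_lit 3) (nat_lit 4) (nat_lit 414) (nat_lit 363) (nat_lit 243))))) (XT.nd (nat_lit 234) (nat_lit 76) (nat_lit 0) (XT.nd (nat_lit 78) (nat_lit 0) (nat_lit 0) (XT.lf (nat_lit 0) (nat_lit 18798801372416) (nat_lit 76) (nat_lit 1459314567207) (nat_lit 76) (nat_lit 1345452887933)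 (nat_lit 2) (nat_lit 4) (nat_lit 3) (nat_lit 5) (nat_lit 3) (nat_lit 4) (nat_lit 415) (nat_lit 363) (nat_lit 242)) (XT.nd (nat_lit 78) (nat_lit 0) (nat_lit 0) (XT.lf (nat_lit 0) (nat_lit 23103466137590) (nat_lit 76) (nat_lit 874849941472) (nat_lit 76) (nat_lit 760988261526) (nat_lit 2) (nat_lit 4) (nat_lit 3) (nat_lit 5) (nat_lit 3) (nat_lit 4) (nat_lit 416) (nat_lit 363) (nat_lit 241)) (XT.lf (nat_lit 0) (nat_lit 28053830601157) (nat_lit 76) (nat_lit 202715630553) (nat_lit 76) (nat_lit 88853950022) (nat_lit 2) (nat_lit 4) (nat_lit 3) (nat_lit 5) (nat_lit 3) (nat_lit 4) (nat_lit 417) (nat_lit 363) (nat_lit 240)))) (XT.nd (nat_lit 78) (nat_lit 0) (nat_lit 0) (XT.lf (nat_lit 0) (nat_lit 706539960596) (nat_lit 76) (nat_lit 31161590142263) (nat_lit 0) (nat_lit 607529803171) (nat_lit 1) (nat_lit 5) (nat_lit 2) (nat_lit 4) (nat_lit 1) (nat_lit 4) (nat_lit 418) (nat_lit 363) (nat_lit 239)) (XT.nd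 (nat_lit 78) (nat_lit 0) (nat_lit 0) (XT.lf (nat_lit 0) (nat_lit 1637766029640) (nat_lit 76) (nat_lit 34044459012848) (nat_lit 0) (nat_lit 1538755871831) (nat_lit 1) (nat_lit 5) (nat_lit 2) (nat_lit 4) (nat_lit 1) (nat_lit 4) (nat_lit 419) (nat_lit 363) (nat_lit 238)) (XT.lf (nat_lit 0) (nat_lit 2708676002947) (nat_lit 76) (nat_lit 37359758227018) (nat_lit 0) (nat_lit 2609665844804) (nat_lit 1) (nat_lit 5) (nat_lit 2) (nat_lit 4) (nat_lit 1) (nat_lit 4) (nat_lit 420) (nat_lit 363) (nat_lit 237)))))) (XT.nd (nat_lit 468) (nat_lit 0) (nat_lit 0) (XT.nd (nat_lit 234) (nat_lit 0) (nat_lit 0) (XT.nd (nat_lit 78) (nat_lit 0) (nat_lit 0) (XT.lf (nat_lit 0) (nat_lit 3940222466950) (nat_lit 76) (nat_lit 41172352334612) (nat_lit 0) (nat_lit 3841212308517) (nat_lit 1) (nat_lit 5) (nat_lit 2) (nat_lit 4) (nat_lit 1) (nat_lit 4) (nat_lit 421) (nat_lit 363) (nat_lit 236)) (XT.nd (nat_lit 78) (nat_lit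 0) (nat_lit 0) (XT.lf (nat_lit 0) (nat_lit 5356500895946) (nat_lit 76) (nat_lit 45556835568173) (nat_lit 0) (nat_lit 5257490737260) (nat_lit 1) (nat_lit 5) (nat_lit 2) (nat_lit 4) (nat_lit 1) (nat_lit 4) (nat_lit 422) (nat_lit 363) (nat_lit 235)) (XT.lf (nat_lit 0) (nat_lit 6985221085283) (nat_lit 76) (nat_lit 50598991295311) (nat_lit 0) (nat_lit 6886210926378) (nat_lit 1) (nat_lit 5) (nat_lit 2) (nat_lit 4) (nat_lit 1) (nat_lit 4) (nat_lit 423) (nat_lit 363) (nat_lit 234)))) (XT.nd (nat_lit 78) (nat_lit 0) (nat_lit 0) (XT.lf (nat_lit 0) (nat_lit 8858249299537) (nat_lit 76) (nat_lit 56397470388951) (nat_lit 0) (nat_lit 8759239140441) (nat_lit 1) (nat_lit 5) (nat_lit 2) (nat_lit 4) (nat_lit 1) (nat_lit 4) (nat_lit 424) (nat_lit 363) (nat_lit 233)) (XT.nd (nat_lit 78) (nat_lit 0) (nat_lit 0) (XT.lf (nat_lit 0) (nat_lit 11012231742899) (nat_lit 76) (nat_lit 63065721353098) (nat_lit 0) (nat_lit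 10913221583636) (nat_lit 1) (nat_lit 5) (nat_lit 2) (nat_lit 4) (nat_lit 1) (nat_lit 4) (nat_lit 425) (nat_lit 363) (nat_lit 232)) (XT.lf (nat_lit 0) (nat_lit 13489311550131) (nat_lit 76) (nat_lit 70734209967485) (nat_lit 0) (nat_lit 13390301390724) (nat_lit 1) (nat_lit 5) (nat_lit 2) (nat_lit 4) (nat_lit 1) (nat_lit 4) (nat_lit 426) (nat_lit 363) (nat_lit 231))))) (XT.nd (nat_lit 234) (nat_lit 0) (nat_lit 0) (XT.nd (nat_lit 78) (nat_lit 0) (nat_lit 0) (XT.lf (nat_lit 0) (nat_lit 16337953326156) (nat_lit 76) (nat_lit 79552971878916) (nat_lit 0) (nat_lit 16238943166623) (nat_lit 1) (nat_lit 5) (nat_lit 2) (nat_lit 4) (nat_lit 1) (nat_lit 4) (nat_lit 427) (nat_lit 363) (nat_lit 230)) (XT.nd (nat_lit 78) (nat_lit 0) (nat_lit 0) (XT.lf (nat_lit 0) (nat_lit 19613891366593) (nat_lit 76) (nat_lit 89694548081309) (nat_lit 0) (nat_lit 19514881206951) (nat_lit 1) (nat_lit 5) (nat_lit 2) (nat_lit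 4) (nat_lit 1) (nat_lit 4) (nat_lit 428) (nat_lit 363) (nat_lit 229)) (XT.lf (nat_lit 0) (nat_lit 23381220111362) (nat_lit 76) (nat_lit 101357360717756) (nat_lit 0) (nat_lit 23282209951625) (nat_lit 1) (nat_lit 5) (nat_lit 2) (nat_lit 4) (nat_lit 1) (nat_lit 4) (nat_lit 429) (nat_lit 363) (nat_lit 228)))) (XT.nd (nat_lit 156) (nat_lit 0) (nat_lit 0) (XT.nd (nat_lit 78) (nat_lit 0) (nat_lit 0) (XT.lf (nat_lit 0) (nat_lit 27713648166341) (nat_lit 76) (nat_lit 114769595252882) (nat_lit 0) (nat_lit 27614638006521) (nat_lit 1) (nat_lit 5) (nat_lit 2) (nat_lit 4) (nat_lit 1) (nat_lit 4) (nat_lit 430) (nat_lit 363) (nat_lit 227)) (XT.lf (nat_lit 0) (nat_lit 32695940428257) (nat_lit 76) (nat_lit 130193664971069) (nat_lit 0) (nat_lit 32596930268365) (nat_lit 1) (nat_lit 5) (nat_lit 2) (nat_lit 4) (nat_lit 1) (nat_lit 4) (nat_lit 431) (nat_lit 363) (nat_lit 226))) (XT.nd (nat_lit 78) (nat_lit 0)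 (nat_lit 0) (XT.lf (nat_lit 0) (nat_lit 38425576528321) (nat_lit 76) (nat_lit 147931345149414) (nat_lit 0) (nat_lit 38326566368367) (nat_lit 1) (nat_lit 5) (nat_lit 2) (nat_lit 4) (nat_lit 1) (nat_lit 4) (nat_lit 432) (nat_lit 363) (nat_lit 225)) (XT.lf (nat_lit 0) (nat_lit 45014658042403) (nat_lit 76) (nat_lit 168329677356623) (nat_lit 0) (nat_lit 44915647882395) (nat_lit 1) (nat_lit 5) (nat_lit 2) (nat_lit 4) (nat_lit 1) (nat_lit 4) (nat_lit 433) (nat_lit 363) (nat_lit 224))))))))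
noncomputable def xc86 : XT := (XT.nd (nat_lit 48906) (nat_lit 0) (nat_lit 152) (XT.nd (nat_lit 47970) (nat_lit 0) (nat_lit 1520) (XT.nd (nat_lit 468) (nat_lit 0) (nat_lit 0) (XT.nd (nat_lit 234) (nat_lit 0) (nat_lit 0) (XT.nd (nat_lit 78) (nat_lit 0) (nat_lit 0) (XT.lf (nat_lit 0) (nat_lit 52592101782738) (nat_lit 76) (nat_lit 191787759396750) (nat_lit 0) (nat_lit 52493091622682) (nat_lit 1) (nat_lit 5) (nat_lit 2) (nat_lit 4) (nat_lit 1) (nat_lit 4) (nat_lit 434) (nat_lit 363) (nat_lit 223)) (XT.nd (nat_lit 78) (nat_lit 0) (nat_lit 0) (XT.lf (nat_lit 0) (nat_lit 61306162083373) (nat_lit 76) (nat_lit 218764553744493) (nat_lit 0) (nat_lit 61207151923276) (nat_lit 1) (nat_lit 5) (nat_lit 2) (nat_lit 4) (nat_lit 1) (nat_lit 4) (nat_lit 435) (nat_lit 363) (nat_lit 222)) (XT.lf (nat_lit 0) (nat_lit 71327331428452) (nat_lit 76) (nat_lit 249787867245786) (nat_lit 0) (nat_lit 71228321268320)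 (nat_lit 1) (nat_lit 5) (nat_lit 2) (nat_lit 4) (nat_lit 1) (nat_lit 4) (nat_lit 436) (nat_lit 363) (nat_lit 221)))) (XT.nd (nat_lit 78) (nat_lit 0) (nat_lit 0) (XT.lf (nat_lit 0) (nat_lit 82851676174726) (nat_lit 76) (nat_lit 285464677773480) (nat_lit 0) (nat_lit 82752666014564) (nat_lit 1) (nat_lit 5) (nat_lit 2) (nat_lit 4) (nat_lit 1) (nat_lit 4) (nat_lit 437) (nat_lit 363) (nat_lit 220)) (XT.nd (nat_lit 78) (nat_lit 0) (nat_lit 0) (XT.lf (nat_lit 0) (nat_lit 96104672632450) (nat_lit 76) (nat_lit 326493009881378) (nat_lit 0) (nat_lit 96005662472260) (nat_lit 1) (nat_lit 5) (nat_lit 2) (nat_lit 4) (nat_lit 1) (nat_lit 4) (nat_lit 438) (nat_lit 363) (nat_lit 219)) (XT.lf (nat_lit 0) (nat_lit 111345618558403) (nat_lit 76) (nat_lit 373675591806375) (nat_lit 0) (nat_lit 111246608398190) (nat_lit 1) (nat_lit 5) (nat_lit 2) (nat_lit 4) (nat_lit 1) (nat_lit 4) (nat_lit 439) (nat_lit 363)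 (nat_lit 218))))) (XT.nd (nat_lit 47268) (nat_lit 0) (nat_lit 2432) (XT.nd (nat_lit 78) (nat_lit 0) (nat_lit 0) (XT.lf (nat_lit 0) (nat_lit 128872706372879) (nat_lit 76) (nat_lit 427935561020915) (nat_lit 0) (nat_lit 128773696212644) (nat_lit 1) (nat_lit 5) (nat_lit 2) (nat_lit 4) (nat_lit 1) (nat_lit 4) (nat_lit 440) (nat_lit 363) (nat_lit 217)) (XT.nd (nat_lit 47112) (nat_lit 0) (nat_lit 2432) (XT.lf (nat_lit 0) (nat_lit 149028857359200) (nat_lit 76) (nat_lit 490334525618327) (nat_lit 0) (nat_lit 148929847198949) (nat_lit 1) (nat_lit 5) (nat_lit 2) (nat_lit 4) (nat_lit 1) (nat_lit 4) (nat_lit 441) (nat_lit 363) (nat_lit 216)) (XT.lf (nat_lit 0) (nat_lit 16176994639) (nat_lit 380) (nat_lit 20921466033) (nat_lit 380) (nat_lit 20921466033) (nat_lit 33) (nat_lit 3) (nat_lit 38) (nat_lit 3) (nat_lit 38) (nat_lit 5) (nat_lit 364) (nat_lit 364) (nat_lit 292)))) (XT.nd (nat_lit 78) (nat_lit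 0) (nat_lit 76) (XT.lf (nat_lit 76) (nat_lit 16954744886) (nat_lit 0) (nat_lit 18532346234) (nat_lit 380) (nat_lit 89149765217) (nat_lit 34) (nat_lit 5) (nat_lit 33) (nat_lit 3) (nat_lit 38) (nat_lit 5) (nat_lit 365) (nat_lit 364) (nat_lit 291)) (XT.nd (nat_lit 78) (nat_lit 0) (nat_lit 0) (XT.lf (nat_lit 0) (nat_lit 43264058201) (nat_lit 304) (nat_lit 46908780323) (nat_lit 380) (nat_lit 43724486747) (nat_lit 34) (nat_lit 5) (nat_lit 38) (nat_lit 5) (nat_lit 39) (nat_lit 5) (nat_lit 366) (nat_lit 364) (nat_lit 290)) (XT.lf (nat_lit 76) (nat_lit 24257027887) (nat_lit 0) (nat_lit 29836764484) (nat_lit 380) (nat_lit 90170139365) (nat_lit 35) (nat_lit 5) (nat_lit 34) (nat_lit 5) (nat_lit 39) (nat_lit 5) (nat_lit 367) (nat_lit 364) (nat_lit 289)))))) (XT.nd (nat_lit 468) (nat_lit 456) (nat_lit 0) (XT.nd (nat_lit 234) (nat_lit 304) (nat_lit 0) (XT.nd (nat_lit 78) (nat_lit 304) (nat_lit 0) (XT.lf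 (nat_lit 0) (nat_lit 70753841671) (nat_lit 304) (nat_lit 46203173387) (nat_lit 76) (nat_lit 38597636290) (nat_lit 35) (nat_lit 5) (nat_lit 39) (nat_lit 5) (nat_lit 36) (nat_lit 5) (nat_lit 368) (nat_lit 364) (nat_lit 288)) (XT.nd (nat_lit 78) (nat_lit 0) (nat_lit 0) (XT.lf (nat_lit 0) (nat_lit 40890086701) (nat_lit 304) (nat_lit 52136234526) (nat_lit 380) (nat_lit 75045644617) (nat_lit 31) (nat_lit 5) (nat_lit 35) (nat_lit 5) (nat_lit 36) (nat_lit 5) (nat_lit 369) (nat_lit 364) (nat_lit 287)) (XT.lf (nat_lit 0) (nat_lit 122097201734) (nat_lit 380) (nat_lit 36908120294) (nat_lit 76) (nat_lit 22942926461) (nat_lit 31) (nat_lit 5) (nat_lit 36) (nat_lit 5) (nat_lit 32) (nat_lit 5) (nat_lit 370) (nat_lit 364) (nat_lit 286)))) (XT.nd (nat_lit 78) (nat_lit 152) (nat_lit 0) (XT.lf (nat_lit 0) (nat_lit 70719437313) (nat_lit 152) (nat_lit 90219862614) (nat_lit 228) (nat_lit 36155086043) (nat_lit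 29) (nat_lit 5) (nat_lit 31) (nat_lit 5) (nat_lit 32) (nat_lit 5) (nat_lit 371) (nat_lit 364) (nat_lit 285)) (XT.nd (nat_lit 78) (nat_lit 152) (nat_lit 0) (XT.lf (nat_lit 0) (nat_lit 198638601074) (nat_lit 152) (nat_lit 8898002511) (nat_lit 228) (nat_lit 6686507123) (nat_lit 29) (nat_lit 5) (nat_lit 31) (nat_lit 5) (nat_lit 32) (nat_lit 5) (nat_lit 372) (nat_lit 364) (nat_lit 284)) (XT.lf (nat_lit 0) (nat_lit 33609225919) (nat_lit 152) (nat_lit 115278930183) (nat_lit 76) (nat_lit 83539738087) (nat_lit 27) (nat_lit 5) (nat_lit 29) (nat_lit 5) (nat_lit 28) (nat_lit 5) (nat_lit 373) (nat_lit 364) (nat_lit 283))))) (XT.nd (nat_lit 234) (nat_lit 228) (nat_lit 0) (XT.nd (nat_lit 78) (nat_lit 76) (nat_lit 0) (XT.lf (nat_lit 0) (nat_lit 19233655575) (nat_lit 152) (nat_lit 62104330764) (nat_lit 228) (nat_lit 171666662490) (nat_lit 25) (nat_lit 5) (nat_lit 27) (nat_lit 5) (nat_lit 28) (nat_lit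 5) (nat_lit 374) (nat_lit 364) (nat_lit 282)) (XT.nd (nat_lit 78) (nat_lit 76) (nat_lit 0) (XT.lf (nat_lit 0) (nat_lit 144099589916) (nat_lit 228) (nat_lit 90733531274) (nat_lit 76) (nat_lit 40653766253) (nat_lit 25) (nat_lit 5) (nat_lit 28) (nat_lit 5) (nat_lit 26) (nat_lit 4) (nat_lit 375) (nat_lit 364) (nat_lit 281)) (XT.lf (nat_lit 0) (nat_lit 77721019856) (nat_lit 76) (nat_lit 144729746760) (nat_lit 152) (nat_lit 77964395466) (nat_lit 24) (nat_lit 5) (nat_lit 25) (nat_lit 5) (nat_lit 26) (nat_lit 4) (nat_lit 376) (nat_lit 364) (nat_lit 280)))) (XT.nd (nat_lit 78) (nat_lit 228) (nat_lit 0) (XT.lf (nat_lit 0) (nat_lit 281640541766) (nat_lit 76) (nat_lit 35656707751) (nat_lit 152) (nat_lit 11074034054) (nat_lit 24) (nat_lit 5) (nat_lit 25) (nat_lit 5) (nat_lit 26) (nat_lit 4) (nat_lit 377) (nat_lit 364) (nat_lit 279)) (XT.nd (nat_lit 78) (nat_lit 76) (nat_lit 0) (XT.lf (nat_lit 0) (nat_lit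 71115511830) (nat_lit 152) (nat_lit 195405046711) (nat_lit 76) (nat_lit 91922053033) (nat_lit 22) (nat_lit 5) (nat_lit 24) (nat_lit 5) (nat_lit 23) (nat_lit 4) (nat_lit 378) (nat_lit 364) (nat_lit 278)) (XT.lf (nat_lit 0) (nat_lit 15942066253) (nat_lit 76) (nat_lit 153474555672) (nat_lit 152) (nat_lit 222791381307) (nat_lit 21) (nat_lit 5) (nat_lit 22) (nat_lit 5) (nat_lit 23) (nat_lit 4) (nat_lit 379) (nat_lit 364) (nat_lit 277))))))) (XT.nd (nat_lit 936) (nat_lit 684) (nat_lit 0) (XT.nd (nat_lit 468) (nat_lit 304) (nat_lit 0) (XT.nd (nat_lit 234) (nat_lit 228) (nat_lit 0) (XT.nd (nat_lit 78) (nat_lit 152) (nat_lit 0) (XT.lf (nat_lit 0) (nat_lit 280951726418) (nat_lit 76) (nat_lit 11725313274) (nat_lit 152) (nat_lit 136829042832) (nat_lit 21) (nat_lit 5) (nat_lit 22) (nat_lit 5) (nat_lit 23) (nat_lit 4) (nat_lit 380) (nat_lit 364) (nat_lit 276)) (XT.nd (nat_lit 78) (nat_lit 76) (nat_lit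 0) (XT.lf (nat_lit 0) (nat_lit 117510786687) (nat_lit 76) (nat_lit 328045856448) (nat_lit 76) (nat_lit 25172712179) (nat_lit 20) (nat_lit 4) (nat_lit 21) (nat_lit 5) (nat_lit 21) (nat_lit 4) (nat_lit 381) (nat_lit 364) (nat_lit 275)) (XT.lf (nat_lit 0) (nat_lit 102734913842) (nat_lit 152) (nat_lit 81993236020) (nat_lit 76) (nat_lit 331462784480) (nat_lit 19) (nat_lit 5) (nat_lit 21) (nat_lit 5) (nat_lit 20) (nat_lit 4) (nat_lit 382) (nat_lit 364) (nat_lit 274)))) (XT.nd (nat_lit 78) (nat_lit 152) (nat_lit 0) (XT.lf (nat_lit 0) (nat_lit 251068763118) (nat_lit 76) (nat_lit 6578771764) (nat_lit 152) (nat_lit 309085001686) (nat_lit 18) (nat_lit 5) (nat_lit 19) (nat_lit 5) (nat_lit 20) (nat_lit 4) (nat_lit 383) (nat_lit 364) (nat_lit 273)) (XT.nd (nat_lit 78) (nat_lit 76) (nat_lit 0) (XT.lf (nat_lit 0) (nat_lit 11720660167) (nat_lit 76) (nat_lit 437262551729) (nat_lit 76) (nat_lit 173894242838)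 (nat_lit 17) (nat_lit 4) (nat_lit 18) (nat_lit 5) (nat_lit 18) (nat_lit 4) (nat_lit 384) (nat_lit 364) (nat_lit 272)) (XT.lf (nat_lit 0) (nat_lit 814903566) (nat_lit 152) (nat_lit 261616355709) (nat_lit 76) (nat_lit 422487371905) (nat_lit 16) (nat_lit 5) (nat_lit 18) (nat_lit 5) (nat_lit 17) (nat_lit 4) (nat_lit 385) (nat_lit 364) (nat_lit 271))))) (XT.nd (nat_lit 234) (nat_lit 152) (nat_lit 0) (XT.nd (nat_lit 78) (nat_lit 76) (nat_lit 0) (XT.lf (nat_lit 0) (nat_lit 144981447824) (nat_lit 76) (nat_lit 44948749392) (nat_lit 152) (nat_lit 564193200140) (nat_lit 15) (nat_lit 5) (nat_lit 16) (nat_lit 5) (nat_lit 17) (nat_lit 4) (nat_lit 386) (nat_lit 364) (nat_lit 270)) (XT.nd (nat_lit 78) (nat_lit 76) (nat_lit 0) (XT.lf (nat_lit 0) (nat_lit 430234335846) (nat_lit 152) (nat_lit 198833099235) (nat_lit 0) (nat_lit 201218210754) (nat_lit 15) (nat_lit 5) (nat_lit 17) (nat_lit 4) (nat_lit 15)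 (nat_lit 4) (nat_lit 387) (nat_lit 364) (nat_lit 269)) (XT.lf (nat_lit 0) (nat_lit 297353924634) (nat_lit 76) (nat_lit 423683259916) (nat_lit 76) (nat_lit 194667083659) (nat_lit 14) (nat_lit 4) (nat_lit 15) (nat_lit 5) (nat_lit 15) (nat_lit 4) (nat_lit 388) (nat_lit 364) (nat_lit 268)))) (XT.nd (nat_lit 78) (nat_lit 76) (nat_lit 0) (XT.lf (nat_lit 0) (nat_lit 48716314502) (nat_lit 152) (nat_lit 124276144566) (nat_lit 76) (nat_lit 839052052919) (nat_lit 13) (nat_lit 5) (nat_lit 15) (nat_lit 5) (nat_lit 14) (nat_lit 4) (nat_lit 389) (nat_lit 364) (nat_lit 267)) (XT.nd (nat_lit 78) (nat_lit 0) (nat_lit 0) (XT.lf (nat_lit 0) (nat_lit 334589844426) (nat_lit 152) (nat_lit 647523274222) (nat_lit 0) (nat_lit 135445271005) (nat_lit 12) (nat_lit 5) (nat_lit 14) (nat_lit 4) (nat_lit 12) (nat_lit 4) (nat_lit 390) (nat_lit 364) (nat_lit 266)) (XT.lf (nat_lit 0) (nat_lit 678387636215) (nat_lit 152)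 (nat_lit 79012194366) (nat_lit 0) (nat_lit 479243033540) (nat_lit 12) (nat_lit 5) (nat_lit 14) (nat_lit 4) (nat_lit 12) (nat_lit 4) (nat_lit 391) (nat_lit 364) (nat_lit 265)))))) (XT.nd (nat_lit 468) (nat_lit 380) (nat_lit 0) (XT.nd (nat_lit 234) (nat_lit 76) (nat_lit 0) (XT.nd (nat_lit 78) (nat_lit 152) (nat_lit 0) (XT.lf (nat_lit 0) (nat_lit 630946593484) (nat_lit 76) (nat_lit 468934567390) (nat_lit 76) (nat_lit 269789939277) (nat_lit 11) (nat_lit 4) (nat_lit 12) (nat_lit 5) (nat_lit 12) (nat_lit 4) (nat_lit 392) (nat_lit 364) (nat_lit 264)) (XT.nd (nat_lit 78) (nat_lit 76) (nat_lit 0) (XT.lf (nat_lit 0) (nat_lit 60757127449) (nat_lit 152) (nat_lit 68516826216) (nat_lit 76) (nat_lit 1392345850025) (nat_lit 10) (nat_lit 5) (nat_lit 12) (nat_lit 5) (nat_lit 11) (nat_lit 4) (nat_lit 393) (nat_lit 364) (nat_lit 263)) (XT.lf (nat_lit 0) (nat_lit 457525314660) (nat_lit 152) (nat_lit 945913328534)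 (nat_lit 0) (nat_lit 284356036863) (nat_lit 9) (nat_lit 5) (nat_lit 11) (nat_lit 4) (nat_lit 9) (nat_lit 4) (nat_lit 394) (nat_lit 364) (nat_lit 262)))) (XT.nd (nat_lit 78) (nat_lit 76) (nat_lit 0) (XT.lf (nat_lit 0) (nat_lit 923716667941) (nat_lit 152) (nat_lit 203145553646) (nat_lit 0) (nat_lit 750547375600) (nat_lit 9) (nat_lit 5) (nat_lit 11) (nat_lit 4) (nat_lit 9) (nat_lit 4) (nat_lit 395) (nat_lit 364) (nat_lit 261)) (XT.nd (nat_lit 78) (nat_lit 0) (nat_lit 0) (XT.lf (nat_lit 0) (nat_lit 714661343313) (nat_lit 76) (nat_lit 774767916604) (nat_lit 76) (nat_lit 601598611617) (nat_lit 8) (nat_lit 4) (nat_lit 9) (nat_lit 5) (nat_lit 9) (nat_lit 4) (nat_lit 396) (nat_lit 364) (nat_lit 260)) (XT.lf (nat_lit 0) (nat_lit 1792969932287) (nat_lit 76) (nat_lit 357647717208) (nat_lit 76) (nat_lit 184478401222) (nat_lit 8) (nat_lit 4) (nat_lit 9) (nat_lit 5) (nat_lit 9) (nat_lit 4) (nat_lit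 397) (nat_lit 364) (nat_lit 259))))) (XT.nd (nat_lit 234) (nat_lit 228) (nat_lit 0) (XT.nd (nat_lit 78) (nat_lit 0) (nat_lit 0) (XT.lf (nat_lit 0) (nat_lit 293850655009) (nat_lit 152) (nat_lit 2173083202124) (nat_lit 0) (nat_lit 143268632794) (nat_lit 6) (nat_lit 5) (nat_lit 8) (nat_lit 4) (nat_lit 6) (nat_lit 4) (nat_lit 398) (nat_lit 364) (nat_lit 258)) (XT.nd (nat_lit 78) (nat_lit 0) (nat_lit 0) (XT.lf (nat_lit 0) (nat_lit 871760640363) (nat_lit 152) (nat_lit 1325310144111) (nat_lit 0) (nat_lit 721178610916) (nat_lit 6) (nat_lit 5) (nat_lit 8) (nat_lit 4) (nat_lit 6) (nat_lit 4) (nat_lit 399) (nat_lit 364) (nat_lit 257)) (XT.lf (nat_lit 0) (nat_lit 1536357073566) (nat_lit 152) (nat_lit 350371232770) (nat_lit 0) (nat_lit 1385775037831) (nat_lit 6) (nat_lit 5) (nat_lit 8) (nat_lit 4) (nat_lit 6) (nat_lit 4) (nat_lit 400) (nat_lit 364) (nat_lit 256)))) (XT.nd (nat_lit 156) (nat_lit 152)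 (nat_lit 0) (XT.nd (nat_lit 78) (nat_lit 0) (nat_lit 0) (XT.lf (nat_lit 0) (nat_lit 846137428678) (nat_lit 76) (nat_lit 1489542246162) (nat_lit 76) (nat_lit 1338960204960) (nat_lit 5) (nat_lit 4) (nat_lit 6) (nat_lit 5) (nat_lit 6) (nat_lit 4) (nat_lit 401) (nat_lit 364) (nat_lit 255)) (XT.lf (nat_lit 0) (nat_lit 2261499250655) (nat_lit 76) (nat_lit 1011716234152) (nat_lit 76) (nat_lit 861134188196) (nat_lit 5) (nat_lit 4) (nat_lit 6) (nat_lit 5) (nat_lit 6) (nat_lit 4) (nat_lit 402) (nat_lit 364) (nat_lit 254))) (XT.nd (nat_lit 78) (nat_lit 152) (nat_lit 0) (XT.lf (nat_lit 0) (nat_lit 3889165269873) (nat_lit 76) (nat_lit 462216360403) (nat_lit 76) (nat_lit 311634310312) (nat_lit 5) (nat_lit 4) (nat_lit 6) (nat_lit 5) (nat_lit 6) (nat_lit 4) (nat_lit 403) (nat_lit 364) (nat_lit 253)) (XT.lf (nat_lit 0) (nat_lit 322136586749) (nat_lit 152) (nat_lit 4751106431212) (nat_lit 0) (nat_lit 191195670501)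 (nat_lit 3) (nat_lit 5) (nat_lit 5) (nat_lit 4) (nat_lit 3) (nat_lit 4) (nat_lit 404) (nat_lit 364) (nat_lit 252))))))))
noncomputable def xc87 : XT := (XT.nd (nat_lit 1872) (nat_lit 0) (nat_lit 0) (XT.nd (nat_lit 936) (nat_lit 76) (nat_lit 0) (XT.nd (nat_lit 468) (nat_lit 0) (nat_lit 0) (XT.nd (nat_lit 234) (nat_lit 76) (nat_lit 0) (XT.nd (nat_lit 78) (nat_lit 0) (nat_lit 0) (XT.lf (nat_lit 0) (nat_lit 1083455507792) (nat_lit 152) (nat_lit 3908220621506) (nat_lit 0) (nat_lit 952514588824) (nat_lit 3) (nat_lit 5) (nat_lit 5) (nat_lit 4) (nat_lit 3) (nat_lit 4) (nat_lit 405) (nat_lit 364) (nat_lit 251)) (XT.nd (nat_lit 78) (nat_lit 0) (nat_lit 0) (XT.lf (nat_lit 0) (nat_lit 1958972238554) (nat_lit 152) (nat_lit 2938902000720) (nat_lit 0) (nat_lit 1828031317223) (nat_lit 3) (nat_lit 5) (nat_lit 5) (nat_lit 4) (nat_lit 3) (nat_lit 4) (nat_lit 406) (nat_lit 364) (nat_lit 250)) (XT.lf (nat_lit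 0) (nat_lit 2965816454204) (nat_lit 152) (nat_lit 1824185639317) (nat_lit 0) (nat_lit 2834875530818) (nat_lit 3) (nat_lit 5) (nat_lit 5) (nat_lit 4) (nat_lit 3) (nat_lit 4) (nat_lit 407) (nat_lit 364) (nat_lit 249)))) (XT.nd (nat_lit 78) (nat_lit 76) (nat_lit 0) (XT.lf (nat_lit 0) (nat_lit 4123687280700) (nat_lit 152) (nat_lit 542261869356) (nat_lit 0) (nat_lit 3992746355527) (nat_lit 3) (nat_lit 5) (nat_lit 5) (nat_lit 4) (nat_lit 3) (nat_lit 4) (nat_lit 408) (nat_lit 364) (nat_lit 248)) (XT.nd (nat_lit 78) (nat_lit 0) (nat_lit 0) (XT.lf (nat_lit 0) (nat_lit 1023027399889) (nat_lit 76) (nat_lit 4474572695602) (nat_lit 76) (nat_lit 4343631768874) (nat_lit 2) (nat_lit 4) (nat_lit 3) (nat_lit 5) (nat_lit 3) (nat_lit 4) (nat_lit 409) (nat_lit 364) (nat_lit 247)) (XT.lf (nat_lit 0) (nat_lit 2884052861265) (nat_lit 76) (nat_lit 4221892460217) (nat_lit 76) (nat_lit 4090951532137) (nat_lit 2)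 (nat_lit 4) (nat_lit 3) (nat_lit 5) (nat_lit 3) (nat_lit 4) (nat_lit 410) (nat_lit 364) (nat_lit 246))))) (XT.nd (nat_lit 234) (nat_lit 0) (nat_lit 0) (XT.nd (nat_lit 78) (nat_lit 0) (nat_lit 0) (XT.lf (nat_lit 0) (nat_lit 5024232108897) (nat_lit 76) (nat_lit 3931310206972) (nat_lit 76) (nat_lit 3800369277717) (nat_lit 2) (nat_lit 4) (nat_lit 3) (nat_lit 5) (nat_lit 3) (nat_lit 4) (nat_lit 411) (nat_lit 364) (nat_lit 245)) (XT.nd (nat_lit 78) (nat_lit 0) (nat_lit 0) (XT.lf (nat_lit 0) (nat_lit 7485438215020) (nat_lit 76) (nat_lit 3597140630914) (nat_lit 76) (nat_lit 3466199700637) (nat_lit 2) (nat_lit 4) (nat_lit 3) (nat_lit 5) (nat_lit 3) (nat_lit 4) (nat_lit 412) (nat_lit 364) (nat_lit 244)) (XT.lf (nat_lit 0) (nat_lit 10315825212147) (nat_lit 76) (nat_lit 3212845631640) (nat_lit 76) (nat_lit 3081904700475) (nat_lit 2) (nat_lit 4) (nat_lit 3) (nat_lit 5) (nat_lit 3) (nat_lit 4) (nat_lit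 413) (nat_lit 364) (nat_lit 243)))) (XT.nd (nat_lit 78) (nat_lit 0) (nat_lit 0) (XT.lf (nat_lit 0) (nat_lit 13570770237177) (nat_lit 76) (nat_lit 2770906393948) (nat_lit 76) (nat_lit 2639965462010) (nat_lit 2) (nat_lit 4) (nat_lit 3) (nat_lit 5) (nat_lit 3) (nat_lit 4) (nat_lit 414) (nat_lit 364) (nat_lit 242)) (XT.nd (nat_lit 78) (nat_lit 0) (nat_lit 0) (XT.lf (nat_lit 0) (nat_lit 17313956997121) (nat_lit 76) (nat_lit 2262676280579) (nat_lit 76) (nat_lit 2131735347969) (nat_lit 2) (nat_lit 4) (nat_lit 3) (nat_lit 5) (nat_lit 3) (nat_lit 4) (nat_lit 415) (nat_lit 364) (nat_lit 241)) (XT.lf (nat_lit 0) (nat_lit 21618621754675) (nat_lit 76) (nat_lit 1678211658879) (nat_lit 76) (nat_lit 1547270725685) (nat_lit 2) (nat_lit 4) (nat_lit 3) (nat_lit 5) (nat_lit 3) (nat_lit 4) (nat_lit 416) (nat_lit 364) (nat_lit 240)))))) (XT.nd (nat_lit 468) (nat_lit 0) (nat_lit 0) (XT.nd (nat_lit 234) (nat_lit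 0) (nat_lit 0) (XT.nd (nat_lit 78) (nat_lit 76) (nat_lit 0) (XT.lf (nat_lit 0) (nat_lit 26568986211616) (nat_lit 76) (nat_lit 1006077351468) (nat_lit 76) (nat_lit 875136417766) (nat_lit 2) (nat_lit 4) (nat_lit 3) (nat_lit 5) (nat_lit 3) (nat_lit 4) (nat_lit 417) (nat_lit 364) (nat_lit 239)) (XT.nd (nat_lit 78) (nat_lit 76) (nat_lit 0) (XT.lf (nat_lit 0) (nat_lit 32261905324712) (nat_lit 76) (nat_lit 233122904506) (nat_lit 76) (nat_lit 102181970361) (nat_lit 2) (nat_lit 4) (nat_lit 3) (nat_lit 5) (nat_lit 3) (nat_lit 4) (nat_lit 418) (nat_lit 364) (nat_lit 238)) (XT.lf (nat_lit 0) (nat_lit 812521020306) (nat_lit 76) (nat_lit 35835828523676) (nat_lit 0) (nat_lit 698659338108) (nat_lit 1) (nat_lit 5) (nat_lit 2) (nat_lit 4) (nat_lit 1) (nat_lit 4) (nat_lit 419) (nat_lit 364) (nat_lit 237)))) (XT.nd (nat_lit 78) (nat_lit 0) (nat_lit 0) (XT.lf (nat_lit 0) (nat_lit 1883430991148) (nat_lit 76)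 (nat_lit 39151127743101) (nat_lit 0) (nat_lit 1769569308659) (nat_lit 1) (nat_lit 5) (nat_lit 2) (nat_lit 4) (nat_lit 1) (nat_lit 4) (nat_lit 420) (nat_lit 364) (nat_lit 236)) (XT.nd (nat_lit 78) (nat_lit 0) (nat_lit 0) (XT.lf (nat_lit 0) (nat_lit 3114977453008) (nat_lit 76) (nat_lit 42963721855266) (nat_lit 0) (nat_lit 3001115770266) (nat_lit 1) (nat_lit 5) (nat_lit 2) (nat_lit 4) (nat_lit 1) (nat_lit 4) (nat_lit 421) (nat_lit 364) (nat_lit 235)) (XT.lf (nat_lit 0) (nat_lit 4531255880140) (nat_lit 76) (nat_lit 47348205092800) (nat_lit 0) (nat_lit 4417394197178) (nat_lit 1) (nat_lit 5) (nat_lit 2) (nat_lit 4) (nat_lit 1) (nat_lit 4) (nat_lit 422) (nat_lit 364) (nat_lit 234))))) (XT.nd (nat_lit 234) (nat_lit 0) (nat_lit 0) (XT.nd (nat_lit 78) (nat_lit 0) (nat_lit 0) (XT.lf (nat_lit 0) (nat_lit 6159976067857) (nat_lit 76) (nat_lit 52390360823395) (nat_lit 0) (nat_lit 6046114384704) (nat_lit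 1) (nat_lit 5) (nat_lit 2) (nat_lit 4) (nat_lit 1) (nat_lit 4) (nat_lit 423) (nat_lit 364) (nat_lit 233)) (XT.nd (nat_lit 78) (nat_lit 0) (nat_lit 0) (XT.lf (nat_lit 0) (nat_lit 8033004280701) (nat_lit 76) (nat_lit 58188839920040) (nat_lit 0) (nat_lit 7919142597383) (nat_lit 1) (nat_lit 5) (nat_lit 2) (nat_lit 4) (nat_lit 1) (nat_lit 4) (nat_lit 424) (nat_lit 364) (nat_lit 232)) (XT.lf (nat_lit 0) (nat_lit 10186986722838) (nat_lit 76) (nat_lit 64857090886800) (nat_lit 0) (nat_lit 10073125039375) (nat_lit 1) (nat_lit 5) (nat_lit 2) (nat_lit 4) (nat_lit 1) (nat_lit 4) (nat_lit 425) (nat_lit 364) (nat_lit 231)))) (XT.nd (nat_lit 78) (nat_lit 0) (nat_lit 0) (XT.lf (nat_lit 0) (nat_lit 12664066529004) (nat_lit 76) (nat_lit 72525579503460) (nat_lit 0) (nat_lit 12550204845415) (nat_lit 1) (nat_lit 5) (nat_lit 2) (nat_lit 4) (nat_lit 1) (nat_lit 4) (nat_lit 426) (nat_lit 364) (nat_lit 230)) (XT.nd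 (nat_lit 78) (nat_lit 0) (nat_lit 0) (XT.lf (nat_lit 0) (nat_lit 15512708304102) (nat_lit 76) (nat_lit 81344341416866) (nat_lit 0) (nat_lit 15398846620405) (nat_lit 1) (nat_lit 5) (nat_lit 2) (nat_lit 4) (nat_lit 1) (nat_lit 4) (nat_lit 427) (nat_lit 364) (nat_lit 229)) (XT.lf (nat_lit 0) (nat_lit 18788646343733) (nat_lit 76) (nat_lit 91485917620978) (nat_lit 0) (nat_lit 18674784659940) (nat_lit 1) (nat_lit 5) (nat_lit 2) (nat_lit 4) (nat_lit 1) (nat_lit 4) (nat_lit 428) (nat_lit 364) (nat_lit 228))))))) (XT.nd (nat_lit 936) (nat_lit 0) (nat_lit 0) (XT.nd (nat_lit 468) (nat_lit 0) (nat_lit 0) (XT.nd (nat_lit 234) (nat_lit 0) (nat_lit 0) (XT.nd (nat_lit 78) (nat_lit 0) (nat_lit 0) (XT.lf (nat_lit 0) (nat_lit 22555975087802) (nat_lit 76) (nat_lit 103148730258918) (nat_lit 0) (nat_lit 22442113403927) (nat_lit 1) (nat_lit 5) (nat_lit 2) (nat_lit 4) (nat_lit 1) (nat_lit 4) (nat_lit 429) (nat_lit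 364) (nat_lit 227)) (XT.nd (nat_lit 78) (nat_lit 0) (nat_lit 0) (XT.lf (nat_lit 0) (nat_lit 26888403142172) (nat_lit 76) (nat_lit 116560964795343) (nat_lit 0) (nat_lit 26774541458225) (nat_lit 1) (nat_lit 5) (nat_lit 2) (nat_lit 4) (nat_lit 1) (nat_lit 4) (nat_lit 430) (nat_lit 364) (nat_lit 226)) (XT.lf (nat_lit 0) (nat_lit 31870695403557) (nat_lit 76) (nat_lit 131985034514661) (nat_lit 0) (nat_lit 31756833719548) (nat_lit 1) (nat_lit 5) (nat_lit 2) (nat_lit 4) (nat_lit 1) (nat_lit 4) (nat_lit 431) (nat_lit 364) (nat_lit 225)))) (XT.nd (nat_lit 78) (nat_lit 0) (nat_lit 0) (XT.lf (nat_lit 0) (nat_lit 37600331503160) (nat_lit 76) (nat_lit 149722714693988) (nat_lit 0) (nat_lit 37486469819097) (nat_lit 1) (nat_lit 5) (nat_lit 2) (nat_lit 4) (nat_lit 1) (nat_lit 4) (nat_lit 432) (nat_lit 364) (nat_lit 224)) (XT.nd (nat_lit 78) (nat_lit 0) (nat_lit 0) (XT.lf (nat_lit 0) (nat_lit 44189413016843)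 (nat_lit 76) (nat_lit 170121046902051) (nat_lit 0) (nat_lit 44075551332732) (nat_lit 1) (nat_lit 5) (nat_lit 2) (nat_lit 4) (nat_lit 1) (nat_lit 4) (nat_lit 433) (nat_lit 364) (nat_lit 223)) (XT.lf (nat_lit 0) (nat_lit 51766856756829) (nat_lit 76) (nat_lit 193579128942921) (nat_lit 0) (nat_lit 51652995072676) (nat_lit 1) (nat_lit 5) (nat_lit 2) (nat_lit 4) (nat_lit 1) (nat_lit 4) (nat_lit 434) (nat_lit 364) (nat_lit 222))))) (XT.nd (nat_lit 234) (nat_lit 0) (nat_lit 0) (XT.nd (nat_lit 78) (nat_lit 0) (nat_lit 0) (XT.lf (nat_lit 0) (nat_lit 60480917057161) (nat_lit 76) (nat_lit 220555923291309) (nat_lit 0) (nat_lit 60367055372973) (nat_lit 1) (nat_lit 5) (nat_lit 2) (nat_lit 4) (nat_lit 1) (nat_lit 4) (nat_lit 435) (nat_lit 364) (nat_lit 221)) (XT.nd (nat_lit 78) (nat_lit 0) (nat_lit 0) (XT.lf (nat_lit 0) (nat_lit 70502086401977) (nat_lit 76) (nat_lit 251579236793164) (nat_lit 0) (nat_lit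 70388224717758) (nat_lit 1) (nat_lit 5) (nat_lit 2) (nat_lit 4) (nat_lit 1) (nat_lit 4) (nat_lit 436) (nat_lit 364) (nat_lit 220)) (XT.lf (nat_lit 0) (nat_lit 82026431148022) (nat_lit 76) (nat_lit 287256047321346) (nat_lit 0) (nat_lit 81912569463777) (nat_lit 1) (nat_lit 5) (nat_lit 2) (nat_lit 4) (nat_lit 1) (nat_lit 4) (nat_lit 437) (nat_lit 364) (nat_lit 219)))) (XT.nd (nat_lit 78) (nat_lit 0) (nat_lit 0) (XT.lf (nat_lit 0) (nat_lit 95279427605546) (nat_lit 76) (nat_lit 328284379429670) (nat_lit 0) (nat_lit 95165565921277) (nat_lit 1) (nat_lit 5) (nat_lit 2) (nat_lit 4) (nat_lit 1) (nat_lit 4) (nat_lit 438) (nat_lit 364) (nat_lit 218)) (XT.nd (nat_lit 78) (nat_lit 0) (nat_lit 0) (XT.lf (nat_lit 0) (nat_lit 110520373531327) (nat_lit 76) (nat_lit 375466961355036) (nat_lit 0) (nat_lit 110406511847037) (nat_lit 1) (nat_lit 5) (nat_lit 2) (nat_lit 4) (nat_lit 1) (nat_lit 4) (nat_lit 439)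 (nat_lit 364) (nat_lit 217)) (XT.lf (nat_lit 0) (nat_lit 128047461345651) (nat_lit 76) (nat_lit 429726930569897) (nat_lit 0) (nat_lit 127933599661344) (nat_lit 1) (nat_lit 5) (nat_lit 2) (nat_lit 4) (nat_lit 1) (nat_lit 4) (nat_lit 440) (nat_lit 364) (nat_lit 216)))))) (XT.nd (nat_lit 47580) (nat_lit 0) (nat_lit 1824) (XT.nd (nat_lit 47346) (nat_lit 0) (nat_lit 2508) (XT.nd (nat_lit 47190) (nat_lit 0) (nat_lit 2432) (XT.lf (nat_lit 0) (nat_lit 148203612331843) (nat_lit 76) (nat_lit 492125895167588) (nat_lit 0) (nat_lit 148089750647518) (nat_lit 1) (nat_lit 5) (nat_lit 2) (nat_lit 4) (nat_lit 1) (nat_lit 4) (nat_lit 441) (nat_lit 364) (nat_lit 215)) (XT.nd (nat_lit 78) (nat_lit 0) (nat_lit 0) (XT.lf (nat_lit 0) (nat_lit 18607850614) (nat_lit 380) (nat_lit 24057208014) (nat_lit 380) (nat_lit 24057208014) (nat_lit 33) (nat_lit 3) (nat_lit 38) (nat_lit 3) (nat_lit 38) (nat_lit 5) (nat_lit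 365) (nat_lit 365) (nat_lit 290)) (XT.lf (nat_lit 76) (nat_lit 19502687202) (nat_lit 0) (nat_lit 21315153519) (nat_lit 380) (nat_lit 102513385865) (nat_lit 34) (nat_lit 5) (nat_lit 33) (nat_lit 3) (nat_lit 38) (nat_lit 5) (nat_lit 366) (nat_lit 365) (nat_lit 289)))) (XT.nd (nat_lit 78) (nat_lit 0) (nat_lit 0) (XT.lf (nat_lit 0) (nat_lit 49760243939) (nat_lit 304) (nat_lit 53939870276) (nat_lit 380) (nat_lit 50280818678) (nat_lit 34) (nat_lit 5) (nat_lit 38) (nat_lit 5) (nat_lit 39) (nat_lit 5) (nat_lit 367) (nat_lit 365) (nat_lit 288)) (XT.nd (nat_lit 78) (nat_lit 0) (nat_lit 76) (XT.lf (nat_lit 76) (nat_lit 27900571570) (nat_lit 0) (nat_lit 34313215398) (nat_lit 380) (nat_lit 103688841651) (nat_lit 35) (nat_lit 5) (nat_lit 34) (nat_lit 5) (nat_lit 39) (nat_lit 5) (nat_lit 368) (nat_lit 365) (nat_lit 287)) (XT.lf (nat_lit 0) (nat_lit 81372037029) (nat_lit 304) (nat_lit 53128500573) (nat_lit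 76) (nat_lit 44386540089) (nat_lit 35) (nat_lit 5) (nat_lit 39) (nat_lit 5) (nat_lit 36) (nat_lit 5) (nat_lit 369) (nat_lit 365) (nat_lit 286))))) (XT.nd (nat_lit 234) (nat_lit 304) (nat_lit 0) (XT.nd (nat_lit 78) (nat_lit 152) (nat_lit 0) (XT.lf (nat_lit 0) (nat_lit 47028514491) (nat_lit 304) (nat_lit 59956409829) (nat_lit 380) (nat_lit 86297135128) (nat_lit 31) (nat_lit 5) (nat_lit 35) (nat_lit 5) (nat_lit 36) (nat_lit 5) (nat_lit 370) (nat_lit 365) (nat_lit 285)) (XT.nd (nat_lit 78) (nat_lit 152) (nat_lit 0) (XT.lf (nat_lit 0) (nat_lit 140415839098) (nat_lit 380) (nat_lit 42439464167) (nat_lit 76) (nat_lit 26384571291) (nat_lit 31) (nat_lit 5) (nat_lit 36) (nat_lit 5) (nat_lit 32) (nat_lit 5) (nat_lit 371) (nat_lit 365) (nat_lit 284)) (XT.lf (nat_lit 0) (nat_lit 81332005527) (nat_lit 152) (nat_lit 103751909960) (nat_lit 228) (nat_lit 41574067997) (nat_lit 29) (nat_lit 5) (nat_lit 31)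 (nat_lit 5) (nat_lit 32) (nat_lit 5) (nat_lit 372) (nat_lit 365) (nat_lit 283)))) (XT.nd (nat_lit 156) (nat_lit 152) (nat_lit 0) (XT.nd (nat_lit 78) (nat_lit 152) (nat_lit 0) (XT.lf (nat_lit 0) (nat_lit 228438436990) (nat_lit 152) (nat_lit 10231892413) (nat_lit 228) (nat_lit 7685760623) (nat_lit 29) (nat_lit 5) (nat_lit 31) (nat_lit 5) (nat_lit 32) (nat_lit 5) (nat_lit 373) (nat_lit 365) (nat_lit 282)) (XT.lf (nat_lit 0) (nat_lit 38653775528) (nat_lit 152) (nat_lit 132566163862) (nat_lit 76) (nat_lit 96071662560) (nat_lit 27) (nat_lit 5) (nat_lit 29) (nat_lit 5) (nat_lit 28) (nat_lit 5) (nat_lit 374) (nat_lit 365) (nat_lit 281))) (XT.nd (nat_lit 78) (nat_lit 0) (nat_lit 0) (XT.lf (nat_lit 0) (nat_lit 22123100403) (nat_lit 152) (nat_lit 71418518737) (nat_lit 228) (nat_lit 197413285473) (nat_lit 25) (nat_lit 5) (nat_lit 27) (nat_lit 5) (nat_lit 28) (nat_lit 5) (nat_lit 375) (nat_lit 365)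 (nat_lit 280)) (XT.lf (nat_lit 0) (nat_lit 165717133076) (nat_lit 228) (nat_lit 104339406610) (nat_lit 76) (nat_lit 46752989031) (nat_lit 25) (nat_lit 5) (nat_lit 28) (nat_lit 5) (nat_lit 26) (nat_lit 4) (nat_lit 376) (nat_lit 365) (nat_lit 279))))))))
noncomputable def xc88 : XT := (XT.nd (nat_lit 1872) (nat_lit 380) (nat_lit 0) (XT.nd (nat_lit 936) (nat_lit 684) (nat_lit 0) (XT.nd (nat_lit 468) (nat_lit 380) (nat_lit 0) (XT.nd (nat_lit 234) (nat_lit 152) (nat_lit 0) (XT.nd (nat_lit 78) (nat_lit 152) (nat_lit 0) (XT.lf (nat_lit 0) (nat_lit 89383138356) (nat_lit 76) (nat_lit 166437672390) (nat_lit 152) (nat_lit 89656260287) (nat_lit 24) (nat_lit 5) (nat_lit 25) (nat_lit 5) (nat_lit 26) (nat_lit 4) (nat_lit 377) (nat_lit 365) (nat_lit 278)) (XT.nd (nat_lit 78) (nat_lit 152) (nat_lit 0) (XT.lf (nat_lit 0) (nat_lit 323890071310) (nat_lit 76) (nat_lit 41003877927) (nat_lit 152) (nat_lit 12732709162)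 (nat_lit 24) (nat_lit 5) (nat_lit 25) (nat_lit 5) (nat_lit 26) (nat_lit 4) (nat_lit 378) (nat_lit 365) (nat_lit 277)) (XT.lf (nat_lit 0) (nat_lit 81784967576) (nat_lit 152) (nat_lit 224712053007) (nat_lit 76) (nat_lit 105711662728) (nat_lit 22) (nat_lit 5) (nat_lit 24) (nat_lit 5) (nat_lit 23) (nat_lit 4) (nat_lit 379) (nat_lit 365) (nat_lit 276)))) (XT.nd (nat_lit 78) (nat_lit 76) (nat_lit 0) (XT.lf (nat_lit 0) (nat_lit 18336956415) (nat_lit 76) (nat_lit 176494158328) (nat_lit 152) (nat_lit 256207788477) (nat_lit 21) (nat_lit 5) (nat_lit 22) (nat_lit 5) (nat_lit 23) (nat_lit 4) (nat_lit 380) (nat_lit 365) (nat_lit 275)) (XT.nd (nat_lit 78) (nat_lit 76) (nat_lit 0) (XT.lf (nat_lit 0) (nat_lit 323097598619) (nat_lit 76) (nat_lit 13482735748) (nat_lit 152) (nat_lit 157351399235) (nat_lit 21) (nat_lit 5) (nat_lit 22) (nat_lit 5) (nat_lit 23) (nat_lit 4) (nat_lit 381) (nat_lit 365) (nat_lit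 274)) (XT.lf (nat_lit 0) (nat_lit 135140571513) (nat_lit 76) (nat_lit 377251260648) (nat_lit 76) (nat_lit 28946672139) (nat_lit 20) (nat_lit 4) (nat_lit 21) (nat_lit 5) (nat_lit 21) (nat_lit 4) (nat_lit 382) (nat_lit 365) (nat_lit 273))))) (XT.nd (nat_lit 234) (nat_lit 152) (nat_lit 0) (XT.nd (nat_lit 78) (nat_lit 152) (nat_lit 0) (XT.lf (nat_lit 0) (nat_lit 118146693130) (nat_lit 152) (nat_lit 94289316623) (nat_lit 76) (nat_lit 381183333084) (nat_lit 19) (nat_lit 5) (nat_lit 21) (nat_lit 5) (nat_lit 20) (nat_lit 4) (nat_lit 383) (nat_lit 365) (nat_lit 272)) (XT.nd (nat_lit 78) (nat_lit 76) (nat_lit 0) (XT.lf (nat_lit 0) (nat_lit 288731850349) (nat_lit 76) (nat_lit 7564270633) (nat_lit 152) (nat_lit 355446077409) (nat_lit 18) (nat_lit 5) (nat_lit 19) (nat_lit 5) (nat_lit 20) (nat_lit 4) (nat_lit 384) (nat_lit 365) (nat_lit 271)) (XT.lf (nat_lit 0) (nat_lit 13481562593) (nat_lit 76) (nat_lit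 502850560560) (nat_lit 76) (nat_lit 199976735126) (nat_lit 17) (nat_lit 4) (nat_lit 18) (nat_lit 5) (nat_lit 18) (nat_lit 4) (nat_lit 385) (nat_lit 365) (nat_lit 270)))) (XT.nd (nat_lit 78) (nat_lit 76) (nat_lit 0) (XT.lf (nat_lit 0) (nat_lit 938441506) (nat_lit 152) (nat_lit 300856243860) (nat_lit 76) (nat_lit 485861544946) (nat_lit 16) (nat_lit 5) (nat_lit 18) (nat_lit 5) (nat_lit 17) (nat_lit 4) (nat_lit 386) (nat_lit 365) (nat_lit 269)) (XT.nd (nat_lit 78) (nat_lit 0) (nat_lit 0) (XT.lf (nat_lit 0) (nat_lit 166731113603) (nat_lit 76) (nat_lit 51689847113) (nat_lit 152) (nat_lit 648820760995) (nat_lit 15) (nat_lit 5) (nat_lit 16) (nat_lit 5) (nat_lit 17) (nat_lit 4) (nat_lit 387) (nat_lit 365) (nat_lit 268)) (XT.lf (nat_lit 0) (nat_lit 494770602932) (nat_lit 152) (nat_lit 228655817549) (nat_lit 0) (nat_lit 231401904582) (nat_lit 15) (nat_lit 5) (nat_lit 17) (nat_lit 4) (nat_lit 15)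 (nat_lit 4) (nat_lit 388) (nat_lit 365) (nat_lit 267)))))) (XT.nd (nat_lit 468) (nat_lit 304) (nat_lit 0) (XT.nd (nat_lit 234) (nat_lit 152) (nat_lit 0) (XT.nd (nat_lit 78) (nat_lit 152) (nat_lit 0) (XT.lf (nat_lit 0) (nat_lit 341959157783) (nat_lit 76) (nat_lit 487234664298) (nat_lit 76) (nat_lit 223865927261) (nat_lit 14) (nat_lit 4) (nat_lit 15) (nat_lit 5) (nat_lit 15) (nat_lit 4) (nat_lit 389) (nat_lit 365) (nat_lit 266)) (XT.nd (nat_lit 78) (nat_lit 76) (nat_lit 0) (XT.lf (nat_lit 0) (nat_lit 56024727268) (nat_lit 152) (nat_lit 142915607051) (nat_lit 76) (nat_lit 964910709535) (nat_lit 13) (nat_lit 5) (nat_lit 15) (nat_lit 5) (nat_lit 14) (nat_lit 4) (nat_lit 390) (nat_lit 365) (nat_lit 265)) (XT.lf (nat_lit 0) (nat_lit 384779277636) (nat_lit 152) (nat_lit 744649797032) (nat_lit 0) (nat_lit 155762929870) (nat_lit 12) (nat_lit 5) (nat_lit 14) (nat_lit 4) (nat_lit 12) (nat_lit 4)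 (nat_lit 391) (nat_lit 365) (nat_lit 264)))) (XT.nd (nat_lit 78) (nat_lit 152) (nat_lit 0) (XT.lf (nat_lit 0) (nat_lit 780146613427) (nat_lit 152) (nat_lit 90862311935) (nat_lit 0) (nat_lit 551130243540) (nat_lit 12) (nat_lit 5) (nat_lit 14) (nat_lit 4) (nat_lit 12) (nat_lit 4) (nat_lit 392) (nat_lit 365) (nat_lit 263)) (XT.nd (nat_lit 78) (nat_lit 76) (nat_lit 0) (XT.lf (nat_lit 0) (nat_lit 725590216293) (nat_lit 76) (nat_lit 539273909650) (nat_lit 76) (nat_lit 310257520530) (nat_lit 11) (nat_lit 4) (nat_lit 12) (nat_lit 5) (nat_lit 12) (nat_lit 4) (nat_lit 393) (nat_lit 365) (nat_lit 262)) (XT.lf (nat_lit 0) (nat_lit 69871417137) (nat_lit 152) (nat_lit 78792858999) (nat_lit 76) (nat_lit 1601198389974) (nat_lit 10) (nat_lit 5) (nat_lit 12) (nat_lit 5) (nat_lit 11) (nat_lit 4) (nat_lit 394) (nat_lit 365) (nat_lit 261))))) (XT.nd (nat_lit 234) (nat_lit 152) (nat_lit 0) (XT.nd (nat_lit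 78) (nat_lit 76) (nat_lit 0) (XT.lf (nat_lit 0) (nat_lit 526154827934) (nat_lit 152) (nat_lit 1087798832129) (nat_lit 0) (nat_lit 327010114551) (nat_lit 9) (nat_lit 5) (nat_lit 11) (nat_lit 4) (nat_lit 9) (nat_lit 4) (nat_lit 395) (nat_lit 365) (nat_lit 260)) (XT.nd (nat_lit 78) (nat_lit 76) (nat_lit 0) (XT.lf (nat_lit 0) (nat_lit 1062274790807) (nat_lit 152) (nat_lit 233616086097) (nat_lit 0) (nat_lit 863130066426) (nat_lit 9) (nat_lit 5) (nat_lit 11) (nat_lit 4) (nat_lit 9) (nat_lit 4) (nat_lit 396) (nat_lit 365) (nat_lit 259)) (XT.lf (nat_lit 0) (nat_lit 821861786288) (nat_lit 76) (nat_lit 890982455480) (nat_lit 76) (nat_lit 691837721537) (nat_lit 8) (nat_lit 4) (nat_lit 9) (nat_lit 5) (nat_lit 9) (nat_lit 4) (nat_lit 397) (nat_lit 365) (nat_lit 258)))) (XT.nd (nat_lit 78) (nat_lit 152) (nat_lit 0) (XT.lf (nat_lit 0) (nat_lit 2061916501676) (nat_lit 76) (nat_lit 411294310776) (nat_lit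 76) (nat_lit 212149568517) (nat_lit 8) (nat_lit 4) (nat_lit 9) (nat_lit 5) (nat_lit 9) (nat_lit 4) (nat_lit 398) (nat_lit 365) (nat_lit 257)) (XT.nd (nat_lit 78) (nat_lit 0) (nat_lit 0) (XT.lf (nat_lit 0) (nat_lit 337928791131) (nat_lit 152) (nat_lit 2499044547835) (nat_lit 0) (nat_lit 164759443749) (nat_lit 6) (nat_lit 5) (nat_lit 8) (nat_lit 4) (nat_lit 6) (nat_lit 4) (nat_lit 399) (nat_lit 365) (nat_lit 256)) (XT.lf (nat_lit 0) (nat_lit 1002525204131) (nat_lit 152) (nat_lit 1524105679113) (nat_lit 0) (nat_lit 829355851281) (nat_lit 6) (nat_lit 5) (nat_lit 8) (nat_lit 4) (nat_lit 6) (nat_lit 4) (nat_lit 400) (nat_lit 365) (nat_lit 255))))))) (XT.nd (nat_lit 936) (nat_lit 76) (nat_lit 0) (XT.nd (nat_lit 468) (nat_lit 76) (nat_lit 0) (XT.nd (nat_lit 234) (nat_lit 152) (nat_lit 0) (XT.nd (nat_lit 78) (nat_lit 76) (nat_lit 0) (XT.lf (nat_lit 0) (nat_lit 1766811041308) (nat_lit 152) (nat_lit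 402926059760) (nat_lit 0) (nat_lit 1593641683704) (nat_lit 6) (nat_lit 5) (nat_lit 8) (nat_lit 4) (nat_lit 6) (nat_lit 4) (nat_lit 401) (nat_lit 365) (nat_lit 254)) (XT.nd (nat_lit 78) (nat_lit 0) (nat_lit 0) (XT.lf (nat_lit 0) (nat_lit 973058861910) (nat_lit 76) (nat_lit 1712973151726) (nat_lit 76) (nat_lit 1539803789987) (nat_lit 5) (nat_lit 4) (nat_lit 6) (nat_lit 5) (nat_lit 6) (nat_lit 4) (nat_lit 402) (nat_lit 365) (nat_lit 253)) (XT.lf (nat_lit 0) (nat_lit 2600724850366) (nat_lit 76) (nat_lit 1163473294179) (nat_lit 76) (nat_lit 990303928845) (nat_lit 5) (nat_lit 4) (nat_lit 6) (nat_lit 5) (nat_lit 6) (nat_lit 4) (nat_lit 403) (nat_lit 365) (nat_lit 252)))) (XT.nd (nat_lit 78) (nat_lit 152) (nat_lit 0) (XT.lf (nat_lit 0) (nat_lit 4472540679582) (nat_lit 76) (nat_lit 531548488293) (nat_lit 76) (nat_lit 358379119833) (nat_lit 5) (nat_lit 4) (nat_lit 6) (nat_lit 5) (nat_lit 6) (nat_lit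 4) (nat_lit 404) (nat_lit 365) (nat_lit 251)) (XT.nd (nat_lit 78) (nat_lit 0) (nat_lit 0) (XT.lf (nat_lit 0) (nat_lit 370457380943) (nat_lit 152) (nat_lit 5463771745804) (nat_lit 0) (nat_lit 219875319049) (nat_lit 3) (nat_lit 5) (nat_lit 5) (nat_lit 4) (nat_lit 3) (nat_lit 4) (nat_lit 405) (nat_lit 365) (nat_lit 250)) (XT.lf (nat_lit 0) (nat_lit 1245974100205) (nat_lit 152) (nat_lit 4494453149437) (nat_lit 0) (nat_lit 1095392036255) (nat_lit 3) (nat_lit 5) (nat_lit 5) (nat_lit 4) (nat_lit 3) (nat_lit 4) (nat_lit 406) (nat_lit 365) (nat_lit 249))))) (XT.nd (nat_lit 234) (nat_lit 76) (nat_lit 0) (XT.nd (nat_lit 78) (nat_lit 0) (nat_lit 0) (XT.lf (nat_lit 0) (nat_lit 2252818305854) (nat_lit 152) (nat_lit 3379736809268) (nat_lit 0) (nat_lit 2102236240117) (nat_lit 3) (nat_lit 5) (nat_lit 5) (nat_lit 4) (nat_lit 3) (nat_lit 4) (nat_lit 407) (nat_lit 365) (nat_lit 248)) (XT.nd (nat_lit 78)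 (nat_lit 0) (nat_lit 0) (XT.lf (nat_lit 0) (nat_lit 3410689123654) (nat_lit 152) (nat_lit 2097813057771) (nat_lit 0) (nat_lit 3260107056363) (nat_lit 3) (nat_lit 5) (nat_lit 5) (nat_lit 4) (nat_lit 3) (nat_lit 4) (nat_lit 408) (nat_lit 365) (nat_lit 247)) (XT.lf (nat_lit 0) (nat_lit 4742240547866) (nat_lit 152) (nat_lit 623600778069) (nat_lit 0) (nat_lit 4591658479223) (nat_lit 3) (nat_lit 5) (nat_lit 5) (nat_lit 4) (nat_lit 3) (nat_lit 4) (nat_lit 409) (nat_lit 365) (nat_lit 246)))) (XT.nd (nat_lit 78) (nat_lit 0) (nat_lit 0) (XT.lf (nat_lit 0) (nat_lit 1176481864668) (nat_lit 76) (nat_lit 5145758412065) (nat_lit 76) (nat_lit 4995176342247) (nat_lit 2) (nat_lit 4) (nat_lit 3) (nat_lit 5) (nat_lit 3) (nat_lit 4) (nat_lit 410) (nat_lit 365) (nat_lit 245)) (XT.nd (nat_lit 78) (nat_lit 0) (nat_lit 0) (XT.lf (nat_lit 0) (nat_lit 3316661098973) (nat_lit 76) (nat_lit 4855176165877) (nat_lit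 76) (nat_lit 4704594095037) (nat_lit 2) (nat_lit 4) (nat_lit 3) (nat_lit 5) (nat_lit 3) (nat_lit 4) (nat_lit 411) (nat_lit 365) (nat_lit 244)) (XT.lf (nat_lit 0) (nat_lit 5777867193508) (nat_lit 76) (nat_lit 4521006595955) (nat_lit 76) (nat_lit 4370424524227) (nat_lit 2) (nat_lit 4) (nat_lit 3) (nat_lit 5) (nat_lit 3) (nat_lit 4) (nat_lit 412) (nat_lit 365) (nat_lit 243)))))) (XT.nd (nat_lit 468) (nat_lit 76) (nat_lit 0) (XT.nd (nat_lit 234) (nat_lit 0) (nat_lit 0) (XT.nd (nat_lit 78) (nat_lit 0) (nat_lit 0) (XT.lf (nat_lit 0) (nat_lit 8608254180557) (nat_lit 76) (nat_lit 4136711602018) (nat_lit 76) (nat_lit 3986129529516) (nat_lit 2) (nat_lit 4) (nat_lit 3) (nat_lit 5) (nat_lit 3) (nat_lit 4) (nat_lit 413) (nat_lit 365) (nat_lit 242)) (XT.nd (nat_lit 78) (nat_lit 0) (nat_lit 0) (XT.lf (nat_lit 0) (nat_lit 11863199196824) (nat_lit 76) (nat_lit 3694772368966) (nat_lit 76) (nat_lit 3544190295793)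 (nat_lit 2) (nat_lit 4) (nat_lit 3) (nat_lit 5) (nat_lit 3) (nat_lit 4) (nat_lit 414) (nat_lit 365) (nat_lit 241)) (XT.lf (nat_lit 0) (nat_lit 15606385949149) (nat_lit 76) (nat_lit 3186542259632) (nat_lit 76) (nat_lit 3035960185874) (nat_lit 2) (nat_lit 4) (nat_lit 3) (nat_lit 5) (nat_lit 3) (nat_lit 4) (nat_lit 415) (nat_lit 365) (nat_lit 240)))) (XT.nd (nat_lit 78) (nat_lit 0) (nat_lit 0) (XT.lf (nat_lit 0) (nat_lit 19911050700077) (nat_lit 76) (nat_lit 2602077641441) (nat_lit 76) (nat_lit 2451495567175) (nat_lit 2) (nat_lit 4) (nat_lit 3) (nat_lit 5) (nat_lit 3) (nat_lit 4) (nat_lit 416) (nat_lit 365) (nat_lit 239)) (XT.nd (nat_lit 78) (nat_lit 0) (nat_lit 0) (XT.lf (nat_lit 0) (nat_lit 24861415151257) (nat_lit 76) (nat_lit 1929943337081) (nat_lit 76) (nat_lit 1779361262374) (nat_lit 2) (nat_lit 4) (nat_lit 3) (nat_lit 5) (nat_lit 3) (nat_lit 4) (nat_lit 417) (nat_lit 365) (nat_lit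 238)) (XT.lf (nat_lit 0) (nat_lit 30554334259342) (nat_lit 76) (nat_lit 1156988892771) (nat_lit 76) (nat_lit 1006406817679) (nat_lit 2) (nat_lit 4) (nat_lit 3) (nat_lit 5) (nat_lit 3) (nat_lit 4) (nat_lit 418) (nat_lit 365) (nat_lit 237))))) (XT.nd (nat_lit 234) (nat_lit 0) (nat_lit 0) (XT.nd (nat_lit 78) (nat_lit 76) (nat_lit 0) (XT.lf (nat_lit 0) (nat_lit 37101191224273) (nat_lit 76) (nat_lit 268091286775) (nat_lit 76) (nat_lit 117509211349) (nat_lit 2) (nat_lit 4) (nat_lit 3) (nat_lit 5) (nat_lit 3) (nat_lit 4) (nat_lit 419) (nat_lit 365) (nat_lit 236)) (XT.nd (nat_lit 78) (nat_lit 0) (nat_lit 0) (XT.lf (nat_lit 0) (nat_lit 934399222971) (nat_lit 76) (nat_lit 41211202696423) (nat_lit 0) (nat_lit 803458287565) (nat_lit 1) (nat_lit 5) (nat_lit 2) (nat_lit 4) (nat_lit 1) (nat_lit 4) (nat_lit 420) (nat_lit 365) (nat_lit 235)) (XT.lf (nat_lit 0) (nat_lit 2165945682967) (nat_lit 76) (nat_lit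 45023796812562) (nat_lit 0) (nat_lit 2035004747342) (nat_lit 1) (nat_lit 5) (nat_lit 2) (nat_lit 4) (nat_lit 1) (nat_lit 4) (nat_lit 421) (nat_lit 365) (nat_lit 234)))) (XT.nd (nat_lit 156) (nat_lit 0) (nat_lit 0) (XT.nd (nat_lit 78) (nat_lit 0) (nat_lit 0) (XT.lf (nat_lit 0) (nat_lit 3582224108478) (nat_lit 76) (nat_lit 49408280053552) (nat_lit 0) (nat_lit 3451283172662) (nat_lit 1) (nat_lit 5) (nat_lit 2) (nat_lit 4) (nat_lit 1) (nat_lit 4) (nat_lit 422) (nat_lit 365) (nat_lit 233)) (XT.lf (nat_lit 0) (nat_lit 5210944294786) (nat_lit 76) (nat_lit 54450435787152) (nat_lit 0) (nat_lit 5080003358804) (nat_lit 1) (nat_lit 5) (nat_lit 2) (nat_lit 4) (nat_lit 1) (nat_lit 4) (nat_lit 423) (nat_lit 365) (nat_lit 232))) (XT.nd (nat_lit 78) (nat_lit 0) (nat_lit 0) (XT.lf (nat_lit 0) (nat_lit 7083972506405) (nat_lit 76) (nat_lit 60248914886410) (nat_lit 0) (nat_lit 6953031570278) (nat_lit 1) (nat_lit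 5) (nat_lit 2) (nat_lit 4) (nat_lit 1) (nat_lit 4) (nat_lit 424) (nat_lit 365) (nat_lit 231)) (XT.lf (nat_lit 0) (nat_lit 9237954947476) (nat_lit 76) (nat_lit 66917165855443) (nat_lit 0) (nat_lit 9107014011224) (nat_lit 1) (nat_lit 5) (nat_lit 2) (nat_lit 4) (nat_lit 1) (nat_lit 4) (nat_lit 425) (nat_lit 365) (nat_lit 230))))))))
noncomputable def xc89 : XT := (XT.nd (nat_lit 49140) (nat_lit 0) (nat_lit 532) (XT.nd (nat_lit 936) (nat_lit 0) (nat_lit 0) (XT.nd (nat_lit 468) (nat_lit 0) (nat_lit 0) (XT.nd (nat_lit 234) (nat_lit 0) (nat_lit 0) (XT.nd (nat_lit 78) (nat_lit 0) (nat_lit 0) (XT.lf (nat_lit 0) (nat_lit 11715034752715) (nat_lit 76) (nat_lit 74585654474078) (nat_lit 0) (nat_lit 11584093816354) (nat_lit 1) (nat_lit 5) (nat_lit 2) (nat_lit 4) (nat_lit 1) (nat_lit 4) (nat_lit 426) (nat_lit 365) (nat_lit 229)) (XT.nd (nat_lit 78) (nat_lit 0) (nat_lit 0) (XT.lf (nat_lit 0) (nat_lit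 14563676527008) (nat_lit 76) (nat_lit 83404416389203) (nat_lit 0) (nat_lit 14432735590552) (nat_lit 1) (nat_lit 5) (nat_lit 2) (nat_lit 4) (nat_lit 1) (nat_lit 4) (nat_lit 427) (nat_lit 365) (nat_lit 228)) (XT.lf (nat_lit 0) (nat_lit 17839614565938) (nat_lit 76) (nat_lit 93545992594808) (nat_lit 0) (nat_lit 17708673629399) (nat_lit 1) (nat_lit 5) (nat_lit 2) (nat_lit 4) (nat_lit 1) (nat_lit 4) (nat_lit 428) (nat_lit 365) (nat_lit 227)))) (XT.nd (nat_lit 78) (nat_lit 0) (nat_lit 0) (XT.lf (nat_lit 0) (nat_lit 21606943309398) (nat_lit 76) (nat_lit 105208805234048) (nat_lit 0) (nat_lit 21476002372787) (nat_lit 1) (nat_lit 5) (nat_lit 2) (nat_lit 4) (nat_lit 1) (nat_lit 4) (nat_lit 429) (nat_lit 365) (nat_lit 226)) (XT.nd (nat_lit 78) (nat_lit 0) (nat_lit 0) (XT.lf (nat_lit 0) (nat_lit 25939371363238) (nat_lit 76) (nat_lit 118621039771603) (nat_lit 0) (nat_lit 25808430426564) (nat_lit 1)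 (nat_lit 5) (nat_lit 2) (nat_lit 4) (nat_lit 1) (nat_lit 4) (nat_lit 430) (nat_lit 365) (nat_lit 225)) (XT.lf (nat_lit 0) (nat_lit 30921663624163) (nat_lit 76) (nat_lit 134045109491903) (nat_lit 0) (nat_lit 30790722687435) (nat_lit 1) (nat_lit 5) (nat_lit 2) (nat_lit 4) (nat_lit 1) (nat_lit 4) (nat_lit 431) (nat_lit 365) (nat_lit 224))))) (XT.nd (nat_lit 234) (nat_lit 0) (nat_lit 0) (XT.nd (nat_lit 78) (nat_lit 0) (nat_lit 0) (XT.lf (nat_lit 0) (nat_lit 36651299723365) (nat_lit 76) (nat_lit 151782789672084) (nat_lit 0) (nat_lit 36520358786590) (nat_lit 1) (nat_lit 5) (nat_lit 2) (nat_lit 4) (nat_lit 1) (nat_lit 4) (nat_lit 432) (nat_lit 365) (nat_lit 223)) (XT.nd (nat_lit 78) (nat_lit 0) (nat_lit 0) (XT.lf (nat_lit 0) (nat_lit 43240381236699) (nat_lit 76) (nat_lit 172181121880890) (nat_lit 0) (nat_lit 43109440299883) (nat_lit 1) (nat_lit 5) (nat_lit 2) (nat_lit 4) (nat_lit 1) (nat_lit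 4) (nat_lit 433) (nat_lit 365) (nat_lit 222)) (XT.lf (nat_lit 0) (nat_lit 50817824976382) (nat_lit 76) (nat_lit 195639203922405) (nat_lit 0) (nat_lit 50686884039531) (nat_lit 1) (nat_lit 5) (nat_lit 2) (nat_lit 4) (nat_lit 1) (nat_lit 4) (nat_lit 434) (nat_lit 365) (nat_lit 221)))) (XT.nd (nat_lit 78) (nat_lit 0) (nat_lit 0) (XT.lf (nat_lit 0) (nat_lit 59531885276451) (nat_lit 76) (nat_lit 222615998271356) (nat_lit 0) (nat_lit 59400944339568) (nat_lit 1) (nat_lit 5) (nat_lit 2) (nat_lit 4) (nat_lit 1) (nat_lit 4) (nat_lit 435) (nat_lit 365) (nat_lit 220)) (XT.nd (nat_lit 78) (nat_lit 0) (nat_lit 0) (XT.lf (nat_lit 0) (nat_lit 69553054621037) (nat_lit 76) (nat_lit 253639311773699) (nat_lit 0) (nat_lit 69422113684128) (nat_lit 1) (nat_lit 5) (nat_lit 2) (nat_lit 4) (nat_lit 1) (nat_lit 4) (nat_lit 436) (nat_lit 365) (nat_lit 219)) (XT.lf (nat_lit 0) (nat_lit 81077399366884) (nat_lit 76)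 (nat_lit 289316122302306) (nat_lit 0) (nat_lit 80946458429951) (nat_lit 1) (nat_lit 5) (nat_lit 2) (nat_lit 4) (nat_lit 1) (nat_lit 4) (nat_lit 437) (nat_lit 365) (nat_lit 218)))))) (XT.nd (nat_lit 47736) (nat_lit 0) (nat_lit 2128) (XT.nd (nat_lit 47502) (nat_lit 0) (nat_lit 2432) (XT.nd (nat_lit 78) (nat_lit 0) (nat_lit 0) (XT.lf (nat_lit 0) (nat_lit 94330395824235) (nat_lit 76) (nat_lit 330344454410999) (nat_lit 0) (nat_lit 94199454887282) (nat_lit 1) (nat_lit 5) (nat_lit 2) (nat_lit 4) (nat_lit 1) (nat_lit 4) (nat_lit 438) (nat_lit 365) (nat_lit 217)) (XT.nd (nat_lit 78) (nat_lit 0) (nat_lit 0) (XT.lf (nat_lit 0) (nat_lit 109571341749865) (nat_lit 76) (nat_lit 377527036336686) (nat_lit 0) (nat_lit 109440400812894) (nat_lit 1) (nat_lit 5) (nat_lit 2) (nat_lit 4) (nat_lit 1) (nat_lit 4) (nat_lit 439) (nat_lit 365) (nat_lit 216)) (XT.lf (nat_lit 0) (nat_lit 127098429564058) (nat_lit 76)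 (nat_lit 431787005551826) (nat_lit 0) (nat_lit 126967488627072) (nat_lit 1) (nat_lit 5) (nat_lit 2) (nat_lit 4) (nat_lit 1) (nat_lit 4) (nat_lit 440) (nat_lit 365) (nat_lit 215)))) (XT.nd (nat_lit 78) (nat_lit 0) (nat_lit 0) (XT.lf (nat_lit 0) (nat_lit 21402284749) (nat_lit 380) (nat_lit 27663915549) (nat_lit 380) (nat_lit 27663915549) (nat_lit 33) (nat_lit 3) (nat_lit 38) (nat_lit 3) (nat_lit 38) (nat_lit 5) (nat_lit 366) (nat_lit 366) (nat_lit 288)) (XT.nd (nat_lit 78) (nat_lit 0) (nat_lit 76) (XT.lf (nat_lit 76) (nat_lit 22431667283) (nat_lit 0) (nat_lit 24514661215) (nat_lit 380) (nat_lit 117883706309) (nat_lit 34) (nat_lit 5) (nat_lit 33) (nat_lit 3) (nat_lit 38) (nat_lit 5) (nat_lit 367) (nat_lit 366) (nat_lit 287)) (XT.lf (nat_lit 0) (nat_lit 57229253691) (nat_lit 304) (nat_lit 62026898383) (nat_lit 380) (nat_lit 57821171286) (nat_lit 34) (nat_lit 5) (nat_lit 38) (nat_lit 5) (nat_lit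 39) (nat_lit 5) (nat_lit 368) (nat_lit 366) (nat_lit 286))))) (XT.nd (nat_lit 234) (nat_lit 152) (nat_lit 0) (XT.nd (nat_lit 78) (nat_lit 228) (nat_lit 0) (XT.lf (nat_lit 76) (nat_lit 32089430084) (nat_lit 0) (nat_lit 39460905640) (nat_lit 380) (nat_lit 119237012044) (nat_lit 35) (nat_lit 5) (nat_lit 34) (nat_lit 5) (nat_lit 39) (nat_lit 5) (nat_lit 369) (nat_lit 366) (nat_lit 285)) (XT.nd (nat_lit 78) (nat_lit 304) (nat_lit 0) (XT.lf (nat_lit 0) (nat_lit 93581713364) (nat_lit 304) (nat_lit 61093882410) (nat_lit 76) (nat_lit 51043960314) (nat_lit 35) (nat_lit 5) (nat_lit 39) (nat_lit 5) (nat_lit 36) (nat_lit 5) (nat_lit 370) (nat_lit 366) (nat_lit 284)) (XT.lf (nat_lit 0) (nat_lit 54086507948) (nat_lit 304) (nat_lit 68949674800) (nat_lit 380) (nat_lit 99237655355) (nat_lit 31) (nat_lit 5) (nat_lit 35) (nat_lit 5) (nat_lit 36) (nat_lit 5) (nat_lit 371) (nat_lit 366) (nat_lit 283)))) (XT.nd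 (nat_lit 78) (nat_lit 152) (nat_lit 0) (XT.lf (nat_lit 0) (nat_lit 161481282716) (nat_lit 380) (nat_lit 48801698218) (nat_lit 76) (nat_lit 30342412646) (nat_lit 31) (nat_lit 5) (nat_lit 36) (nat_lit 5) (nat_lit 32) (nat_lit 5) (nat_lit 372) (nat_lit 366) (nat_lit 282)) (XT.nd (nat_lit 78) (nat_lit 0) (nat_lit 0) (XT.lf (nat_lit 0) (nat_lit 93535324404) (nat_lit 152) (nat_lit 119313991692) (nat_lit 228) (nat_lit 47806941180) (nat_lit 29) (nat_lit 5) (nat_lit 31) (nat_lit 5) (nat_lit 32) (nat_lit 5) (nat_lit 373) (nat_lit 366) (nat_lit 281)) (XT.lf (nat_lit 0) (nat_lit 262707261710) (nat_lit 152) (nat_lit 11766063439) (nat_lit 228) (nat_lit 8835809920) (nat_lit 29) (nat_lit 5) (nat_lit 31) (nat_lit 5) (nat_lit 32) (nat_lit 5) (nat_lit 374) (nat_lit 366) (nat_lit 280))))))) (XT.nd (nat_lit 936) (nat_lit 684) (nat_lit 0) (XT.nd (nat_lit 468) (nat_lit 380) (nat_lit 0) (XT.nd (nat_lit 234)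 (nat_lit 228) (nat_lit 0) (XT.nd (nat_lit 78) (nat_lit 152) (nat_lit 0) (XT.lf (nat_lit 0) (nat_lit 44454235596) (nat_lit 152) (nat_lit 152447605759) (nat_lit 76) (nat_lit 110483140685) (nat_lit 27) (nat_lit 5) (nat_lit 29) (nat_lit 5) (nat_lit 28) (nat_lit 5) (nat_lit 375) (nat_lit 366) (nat_lit 279)) (XT.nd (nat_lit 78) (nat_lit 0) (nat_lit 0) (XT.lf (nat_lit 0) (nat_lit 25444889843) (nat_lit 152) (nat_lit 82130191337) (nat_lit 228) (nat_lit 227022725258) (nat_lit 25) (nat_lit 5) (nat_lit 27) (nat_lit 5) (nat_lit 28) (nat_lit 5) (nat_lit 376) (nat_lit 366) (nat_lit 278)) (XT.lf (nat_lit 0) (nat_lit 190576672544) (nat_lit 228) (nat_lit 119987176312) (nat_lit 76) (nat_lit 53766812879) (nat_lit 25) (nat_lit 5) (nat_lit 28) (nat_lit 5) (nat_lit 26) (nat_lit 4) (nat_lit 377) (nat_lit 366) (nat_lit 277)))) (XT.nd (nat_lit 78) (nat_lit 152) (nat_lit 0) (XT.lf (nat_lit 0) (nat_lit 102793607612)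 (nat_lit 76) (nat_lit 191402161521) (nat_lit 152) (nat_lit 103102586287) (nat_lit 24) (nat_lit 5) (nat_lit 25) (nat_lit 5) (nat_lit 26) (nat_lit 4) (nat_lit 378) (nat_lit 366) (nat_lit 276)) (XT.nd (nat_lit 78) (nat_lit 152) (nat_lit 0) (XT.lf (nat_lit 0) (nat_lit 372476189401) (nat_lit 76) (nat_lit 47153449418) (nat_lit 152) (nat_lit 14640778108) (nat_lit 24) (nat_lit 5) (nat_lit 25) (nat_lit 5) (nat_lit 26) (nat_lit 4) (nat_lit 379) (nat_lit 366) (nat_lit 275)) (XT.lf (nat_lit 0) (nat_lit 94054322520) (nat_lit 152) (nat_lit 258416024882) (nat_lit 76) (nat_lit 121569396440) (nat_lit 22) (nat_lit 5) (nat_lit 24) (nat_lit 5) (nat_lit 23) (nat_lit 4) (nat_lit 380) (nat_lit 366) (nat_lit 274))))) (XT.nd (nat_lit 234) (nat_lit 228) (nat_lit 0) (XT.nd (nat_lit 78) (nat_lit 76) (nat_lit 0) (XT.lf (nat_lit 0) (nat_lit 21090207040) (nat_lit 76) (nat_lit 202967086845) (nat_lit 152) (nat_lit 294637217598)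 (nat_lit 21) (nat_lit 5) (nat_lit 22) (nat_lit 5) (nat_lit 23) (nat_lit 4) (nat_lit 381) (nat_lit 366) (nat_lit 273)) (XT.nd (nat_lit 78) (nat_lit 76) (nat_lit 0) (XT.lf (nat_lit 0) (nat_lit 371564592467) (nat_lit 76) (nat_lit 15504106778) (nat_lit 152) (nat_lit 180952596816) (nat_lit 21) (nat_lit 5) (nat_lit 22) (nat_lit 5) (nat_lit 23) (nat_lit 4) (nat_lit 382) (nat_lit 366) (nat_lit 272)) (XT.lf (nat_lit 0) (nat_lit 155414051813) (nat_lit 76) (nat_lit 433837834986) (nat_lit 76) (nat_lit 33287200849) (nat_lit 20) (nat_lit 4) (nat_lit 21) (nat_lit 5) (nat_lit 21) (nat_lit 4) (nat_lit 383) (nat_lit 366) (nat_lit 271)))) (XT.nd (nat_lit 78) (nat_lit 152) (nat_lit 0) (XT.lf (nat_lit 0) (nat_lit 135869863233) (nat_lit 152) (nat_lit 108430517671) (nat_lit 76) (nat_lit 438361688194) (nat_lit 19) (nat_lit 5) (nat_lit 21) (nat_lit 5) (nat_lit 20) (nat_lit 4) (nat_lit 384) (nat_lit 366) (nat_lit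 270)) (XT.nd (nat_lit 78) (nat_lit 76) (nat_lit 0) (XT.lf (nat_lit 0) (nat_lit 332043724509) (nat_lit 76) (nat_lit 8697915466) (nat_lit 152) (nat_lit 408761722835) (nat_lit 18) (nat_lit 5) (nat_lit 19) (nat_lit 5) (nat_lit 20) (nat_lit 4) (nat_lit 385) (nat_lit 366) (nat_lit 269)) (XT.lf (nat_lit 0) (nat_lit 15505916756) (nat_lit 76) (nat_lit 578277105757) (nat_lit 76) (nat_lit 229972002190) (nat_lit 17) (nat_lit 4) (nat_lit 18) (nat_lit 5) (nat_lit 18) (nat_lit 4) (nat_lit 386) (nat_lit 366) (nat_lit 268)))))) (XT.nd (nat_lit 468) (nat_lit 304) (nat_lit 0) (XT.nd (nat_lit 234) (nat_lit 228) (nat_lit 0) (XT.nd (nat_lit 78) (nat_lit 76) (nat_lit 0) (XT.lf (nat_lit 0) (nat_lit 1080192537) (nat_lit 152) (nat_lit 345982740775) (nat_lit 76) (nat_lit 558741583685) (nat_lit 16) (nat_lit 5) (nat_lit 18) (nat_lit 5) (nat_lit 17) (nat_lit 4) (nat_lit 387) (nat_lit 366) (nat_lit 267)) (XT.nd (nat_lit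 78) (nat_lit 0) (nat_lit 0) (XT.lf (nat_lit 0) (nat_lit 191742632140) (nat_lit 76) (nat_lit 59442405702) (nat_lit 152) (nat_lit 746142802050) (nat_lit 15) (nat_lit 5) (nat_lit 16) (nat_lit 5) (nat_lit 17) (nat_lit 4) (nat_lit 388) (nat_lit 366) (nat_lit 266)) (XT.lf (nat_lit 0) (nat_lit 568987037764) (nat_lit 152) (nat_lit 262952491451) (nat_lit 0) (nat_lit 266112917843) (nat_lit 15) (nat_lit 5) (nat_lit 17) (nat_lit 4) (nat_lit 15) (nat_lit 4) (nat_lit 389) (nat_lit 366) (nat_lit 265)))) (XT.nd (nat_lit 78) (nat_lit 152) (nat_lit 0) (XT.lf (nat_lit 0) (nat_lit 393254652966) (nat_lit 76) (nat_lit 560319043825) (nat_lit 76) (nat_lit 257444894650) (nat_lit 14) (nat_lit 4) (nat_lit 15) (nat_lit 5) (nat_lit 15) (nat_lit 4) (nat_lit 390) (nat_lit 366) (nat_lit 264)) (XT.nd (nat_lit 78) (nat_lit 76) (nat_lit 0) (XT.lf (nat_lit 0) (nat_lit 64429166483) (nat_lit 152) (nat_lit 164351466673) (nat_lit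 76) (nat_lit 1109647957689) (nat_lit 13) (nat_lit 5) (nat_lit 15) (nat_lit 5) (nat_lit 14) (nat_lit 4) (nat_lit 391) (nat_lit 366) (nat_lit 263)) (XT.lf (nat_lit 0) (nat_lit 442496892569) (nat_lit 152) (nat_lit 856345778252) (nat_lit 0) (nat_lit 179128025845) (nat_lit 12) (nat_lit 5) (nat_lit 14) (nat_lit 4) (nat_lit 12) (nat_lit 4) (nat_lit 392) (nat_lit 366) (nat_lit 262))))) (XT.nd (nat_lit 234) (nat_lit 152) (nat_lit 0) (XT.nd (nat_lit 78) (nat_lit 152) (nat_lit 0) (XT.lf (nat_lit 0) (nat_lit 897169234386) (nat_lit 152) (nat_lit 104490364521) (nat_lit 0) (nat_lit 633800350937) (nat_lit 12) (nat_lit 5) (nat_lit 14) (nat_lit 4) (nat_lit 12) (nat_lit 4) (nat_lit 393) (nat_lit 366) (nat_lit 261)) (XT.nd (nat_lit 78) (nat_lit 76) (nat_lit 0) (XT.lf (nat_lit 0) (nat_lit 834429984114) (nat_lit 76) (nat_lit 620164358784) (nat_lit 76) (nat_lit 356795460791) (nat_lit 11) (nat_lit 4) (nat_lit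 12) (nat_lit 5) (nat_lit 12) (nat_lit 4) (nat_lit 394) (nat_lit 366) (nat_lit 260)) (XT.lf (nat_lit 0) (nat_lit 80352674564) (nat_lit 152) (nat_lit 90610660326) (nat_lit 76) (nat_lit 1841378649375) (nat_lit 10) (nat_lit 5) (nat_lit 12) (nat_lit 5) (nat_lit 11) (nat_lit 4) (nat_lit 395) (nat_lit 366) (nat_lit 259)))) (XT.nd (nat_lit 156) (nat_lit 76) (nat_lit 0) (XT.nd (nat_lit 78) (nat_lit 0) (nat_lit 0) (XT.lf (nat_lit 0) (nat_lit 605078593580) (nat_lit 152) (nat_lit 1250967525996) (nat_lit 0) (nat_lit 376062139983) (nat_lit 9) (nat_lit 5) (nat_lit 11) (nat_lit 4) (nat_lit 9) (nat_lit 4) (nat_lit 396) (nat_lit 366) (nat_lit 258)) (XT.lf (nat_lit 0) (nat_lit 1221616480259) (nat_lit 152) (nat_lit 268657515574) (nat_lit 0) (nat_lit 992600018345) (nat_lit 9) (nat_lit 5) (nat_lit 11) (nat_lit 4) (nat_lit 9) (nat_lit 4) (nat_lit 397) (nat_lit 366) (nat_lit 257))) (XT.nd (nat_lit 78) (nat_lit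 0) (nat_lit 0) (XT.lf (nat_lit 0) (nat_lit 945141992967) (nat_lit 76) (nat_lit 1024629333356) (nat_lit 76) (nat_lit 795612864212) (nat_lit 8) (nat_lit 4) (nat_lit 9) (nat_lit 5) (nat_lit 9) (nat_lit 4) (nat_lit 398) (nat_lit 366) (nat_lit 256)) (XT.lf (nat_lit 0) (nat_lit 2371204793219) (nat_lit 76) (nat_lit 472988030917) (nat_lit 76) (nat_lit 243971555485) (nat_lit 8) (nat_lit 4) (nat_lit 9) (nat_lit 5) (nat_lit 9) (nat_lit 4) (nat_lit 399) (nat_lit 366) (nat_lit 255))))))))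
noncomputable def xc90 : XT := (XT.nd (nat_lit 1872) (nat_lit 0) (nat_lit 0) (XT.nd (nat_lit 936) (nat_lit 76) (nat_lit 0) (XT.nd (nat_lit 468) (nat_lit 228) (nat_lit 0) (XT.nd (nat_lit 234) (nat_lit 76) (nat_lit 0) (XT.nd (nat_lit 78) (nat_lit 0) (nat_lit 0) (XT.lf (nat_lit 0) (nat_lit 388618516508) (nat_lit 152) (nat_lit 2873900372085) (nat_lit 0) (nat_lit 189473750509) (nat_lit 6) (nat_lit 5) (nat_lit 8) (nat_lit 4) (nat_lit 6) (nat_lit 4) (nat_lit 400) (nat_lit 366) (nat_lit 254)) (XT.nd (nat_lit 78) (nat_lit 0) (nat_lit 0) (XT.lf (nat_lit 0) (nat_lit 1152904338409) (nat_lit 152) (nat_lit 1752720784958) (nat_lit 0) (nat_lit 953759568275) (nat_lit 6) (nat_lit 5) (nat_lit 8) (nat_lit 4) (nat_lit 6) (nat_lit 4) (nat_lit 401) (nat_lit 366) (nat_lit 253)) (XT.lf (nat_lit 0) (nat_lit 2031833005034) (nat_lit 152) (nat_lit 463364320009) (nat_lit 0) (nat_lit 1832688231305) (nat_lit 6) (nat_lit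 5) (nat_lit 8) (nat_lit 4) (nat_lit 6) (nat_lit 4) (nat_lit 402) (nat_lit 366) (nat_lit 252)))) (XT.nd (nat_lit 78) (nat_lit 0) (nat_lit 0) (XT.lf (nat_lit 0) (nat_lit 1119018310424) (nat_lit 76) (nat_lit 1969918798314) (nat_lit 76) (nat_lit 1770774021459) (nat_lit 5) (nat_lit 4) (nat_lit 6) (nat_lit 5) (nat_lit 6) (nat_lit 4) (nat_lit 403) (nat_lit 366) (nat_lit 251)) (XT.nd (nat_lit 78) (nat_lit 0) (nat_lit 0) (XT.lf (nat_lit 0) (nat_lit 2990834116380) (nat_lit 76) (nat_lit 1337994004679) (nat_lit 76) (nat_lit 1138849225106) (nat_lit 5) (nat_lit 4) (nat_lit 6) (nat_lit 5) (nat_lit 6) (nat_lit 4) (nat_lit 404) (nat_lit 366) (nat_lit 250)) (XT.lf (nat_lit 0) (nat_lit 5143422249745) (nat_lit 76) (nat_lit 611280514905) (nat_lit 76) (nat_lit 412135732968) (nat_lit 5) (nat_lit 4) (nat_lit 6) (nat_lit 5) (nat_lit 6) (nat_lit 4) (nat_lit 405) (nat_lit 366) (nat_lit 249))))) (XT.nd (nat_lit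 234) (nat_lit 76) (nat_lit 0) (XT.nd (nat_lit 78) (nat_lit 0) (nat_lit 0) (XT.lf (nat_lit 0) (nat_lit 426026219602) (nat_lit 152) (nat_lit 6283337016114) (nat_lit 0) (nat_lit 252856842217) (nat_lit 3) (nat_lit 5) (nat_lit 5) (nat_lit 4) (nat_lit 3) (nat_lit 4) (nat_lit 406) (nat_lit 366) (nat_lit 248)) (XT.nd (nat_lit 78) (nat_lit 0) (nat_lit 0) (XT.lf (nat_lit 0) (nat_lit 1432870416555) (nat_lit 152) (nat_lit 5168620694409) (nat_lit 0) (nat_lit 1259701037616) (nat_lit 3) (nat_lit 5) (nat_lit 5) (nat_lit 4) (nat_lit 3) (nat_lit 4) (nat_lit 407) (nat_lit 366) (nat_lit 247)) (XT.lf (nat_lit 0) (nat_lit 2590741226793) (nat_lit 152) (nat_lit 3886696958968) (nat_lit 0) (nat_lit 2417571846502) (nat_lit 3) (nat_lit 5) (nat_lit 5) (nat_lit 4) (nat_lit 3) (nat_lit 4) (nat_lit 408) (nat_lit 366) (nat_lit 246)))) (XT.nd (nat_lit 78) (nat_lit 76) (nat_lit 0) (XT.lf (nat_lit 0) (nat_lit 3922292644429)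 (nat_lit 152) (nat_lit 2412484693228) (nat_lit 0) (nat_lit 3749123262963) (nat_lit 3) (nat_lit 5) (nat_lit 5) (nat_lit 4) (nat_lit 3) (nat_lit 4) (nat_lit 409) (nat_lit 366) (nat_lit 245)) (XT.nd (nat_lit 78) (nat_lit 76) (nat_lit 0) (XT.lf (nat_lit 0) (nat_lit 5453576762416) (nat_lit 152) (nat_lit 717140613728) (nat_lit 0) (nat_lit 5280407379928) (nat_lit 3) (nat_lit 5) (nat_lit 5) (nat_lit 4) (nat_lit 3) (nat_lit 4) (nat_lit 410) (nat_lit 366) (nat_lit 244)) (XT.lf (nat_lit 0) (nat_lit 1352954412645) (nat_lit 76) (nat_lit 5917622031812) (nat_lit 76) (nat_lit 5744452648435) (nat_lit 2) (nat_lit 4) (nat_lit 3) (nat_lit 5) (nat_lit 3) (nat_lit 4) (nat_lit 411) (nat_lit 366) (nat_lit 243)))))) (XT.nd (nat_lit 468) (nat_lit 76) (nat_lit 0) (XT.nd (nat_lit 234) (nat_lit 0) (nat_lit 0) (XT.nd (nat_lit 78) (nat_lit 0) (nat_lit 0) (XT.lf (nat_lit 0) (nat_lit 3814160497103) (nat_lit 76) (nat_lit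 5583452467226) (nat_lit 76) (nat_lit 5410283083077) (nat_lit 2) (nat_lit 4) (nat_lit 3) (nat_lit 5) (nat_lit 3) (nat_lit 4) (nat_lit 412) (nat_lit 366) (nat_lit 242)) (XT.nd (nat_lit 78) (nat_lit 0) (nat_lit 0) (XT.lf (nat_lit 0) (nat_lit 6644547475390) (nat_lit 76) (nat_lit 5199157477929) (nat_lit 76) (nat_lit 5025988093108) (nat_lit 2) (nat_lit 4) (nat_lit 3) (nat_lit 5) (nat_lit 3) (nat_lit 4) (nat_lit 413) (nat_lit 366) (nat_lit 241)) (XT.lf (nat_lit 0) (nat_lit 9899492484037) (nat_lit 76) (nat_lit 4757218248912) (nat_lit 76) (nat_lit 4584048863507) (nat_lit 2) (nat_lit 4) (nat_lit 3) (nat_lit 5) (nat_lit 3) (nat_lit 4) (nat_lit 414) (nat_lit 366) (nat_lit 240)))) (XT.nd (nat_lit 78) (nat_lit 0) (nat_lit 0) (XT.lf (nat_lit 0) (nat_lit 13642679229736) (nat_lit 76) (nat_lit 4248988143087) (nat_lit 76) (nat_lit 4075818757173) (nat_lit 2) (nat_lit 4) (nat_lit 3) (nat_lit 5) (nat_lit 3)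 (nat_lit 4) (nat_lit 415) (nat_lit 366) (nat_lit 239)) (XT.nd (nat_lit 78) (nat_lit 0) (nat_lit 0) (XT.lf (nat_lit 0) (nat_lit 17947343974902) (nat_lit 76) (nat_lit 3664523527947) (nat_lit 76) (nat_lit 3491354141591) (nat_lit 2) (nat_lit 4) (nat_lit 3) (nat_lit 5) (nat_lit 3) (nat_lit 4) (nat_lit 416) (nat_lit 366) (nat_lit 238)) (XT.lf (nat_lit 0) (nat_lit 22897708421072) (nat_lit 76) (nat_lit 2992389226240) (nat_lit 76) (nat_lit 2819219839500) (nat_lit 2) (nat_lit 4) (nat_lit 3) (nat_lit 5) (nat_lit 3) (nat_lit 4) (nat_lit 417) (nat_lit 366) (nat_lit 237))))) (XT.nd (nat_lit 234) (nat_lit 76) (nat_lit 0) (XT.nd (nat_lit 78) (nat_lit 0) (nat_lit 0) (XT.lf (nat_lit 0) (nat_lit 28590627524801) (nat_lit 76) (nat_lit 2219434784237) (nat_lit 76) (nat_lit 2046265397163) (nat_lit 2) (nat_lit 4) (nat_lit 3) (nat_lit 5) (nat_lit 3) (nat_lit 4) (nat_lit 418) (nat_lit 366) (nat_lit 236)) (XT.nd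 (nat_lit 78) (nat_lit 0) (nat_lit 0) (XT.lf (nat_lit 0) (nat_lit 35137484485944) (nat_lit 76) (nat_lit 1330537180246) (nat_lit 76) (nat_lit 1157367792882) (nat_lit 2) (nat_lit 4) (nat_lit 3) (nat_lit 5) (nat_lit 3) (nat_lit 4) (nat_lit 419) (nat_lit 366) (nat_lit 235)) (XT.lf (nat_lit 0) (nat_lit 42666369984175) (nat_lit 76) (nat_lit 308304939408) (nat_lit 76) (nat_lit 135135551791) (nat_lit 2) (nat_lit 4) (nat_lit 3) (nat_lit 5) (nat_lit 3) (nat_lit 4) (nat_lit 420) (nat_lit 366) (nat_lit 234)))) (XT.nd (nat_lit 78) (nat_lit 0) (nat_lit 0) (XT.lf (nat_lit 0) (nat_lit 1074559143936) (nat_lit 76) (nat_lit 47392883020883) (nat_lit 0) (nat_lit 923977067556) (nat_lit 1) (nat_lit 5) (nat_lit 2) (nat_lit 4) (nat_lit 1) (nat_lit 4) (nat_lit 421) (nat_lit 366) (nat_lit 233)) (XT.nd (nat_lit 78) (nat_lit 0) (nat_lit 0) (XT.lf (nat_lit 0) (nat_lit 2490837568038) (nat_lit 76) (nat_lit 51777366264878)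 (nat_lit 0) (nat_lit 2340255491492) (nat_lit 1) (nat_lit 5) (nat_lit 2) (nat_lit 4) (nat_lit 1) (nat_lit 4) (nat_lit 422) (nat_lit 366) (nat_lit 232)) (XT.lf (nat_lit 0) (nat_lit 4119557753120) (nat_lit 76) (nat_lit 56819522001091) (nat_lit 0) (nat_lit 3968975676430) (nat_lit 1) (nat_lit 5) (nat_lit 2) (nat_lit 4) (nat_lit 1) (nat_lit 4) (nat_lit 423) (nat_lit 366) (nat_lit 231))))))) (XT.nd (nat_lit 936) (nat_lit 0) (nat_lit 0) (XT.nd (nat_lit 468) (nat_lit 0) (nat_lit 0) (XT.nd (nat_lit 234) (nat_lit 0) (nat_lit 0) (XT.nd (nat_lit 78) (nat_lit 0) (nat_lit 0) (XT.lf (nat_lit 0) (nat_lit 5992585963673) (nat_lit 76) (nat_lit 62618001102622) (nat_lit 0) (nat_lit 5842003886858) (nat_lit 1) (nat_lit 5) (nat_lit 2) (nat_lit 4) (nat_lit 1) (nat_lit 4) (nat_lit 424) (nat_lit 366) (nat_lit 230)) (XT.nd (nat_lit 78) (nat_lit 0) (nat_lit 0) (XT.lf (nat_lit 0) (nat_lit 8146568403818) (nat_lit 76)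 (nat_lit 69286252073630) (nat_lit 0) (nat_lit 7995986326893) (nat_lit 1) (nat_lit 5) (nat_lit 2) (nat_lit 4) (nat_lit 1) (nat_lit 4) (nat_lit 425) (nat_lit 366) (nat_lit 229)) (XT.lf (nat_lit 0) (nat_lit 10623648208251) (nat_lit 76) (nat_lit 76954740693984) (nat_lit 0) (nat_lit 10473066131231) (nat_lit 1) (nat_lit 5) (nat_lit 2) (nat_lit 4) (nat_lit 1) (nat_lit 4) (nat_lit 426) (nat_lit 366) (nat_lit 228)))) (XT.nd (nat_lit 78) (nat_lit 0) (nat_lit 0) (XT.lf (nat_lit 0) (nat_lit 13472289981843) (nat_lit 76) (nat_lit 85773502610602) (nat_lit 0) (nat_lit 13321707904741) (nat_lit 1) (nat_lit 5) (nat_lit 2) (nat_lit 4) (nat_lit 1) (nat_lit 4) (nat_lit 427) (nat_lit 366) (nat_lit 227)) (XT.nd (nat_lit 78) (nat_lit 0) (nat_lit 0) (XT.lf (nat_lit 0) (nat_lit 16748228020164) (nat_lit 76) (nat_lit 95915078817507) (nat_lit 0) (nat_lit 16597645942990) (nat_lit 1) (nat_lit 5) (nat_lit 2) (nat_lit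 4) (nat_lit 1) (nat_lit 4) (nat_lit 428) (nat_lit 366) (nat_lit 226)) (XT.lf (nat_lit 0) (nat_lit 20515556763094) (nat_lit 76) (nat_lit 107577891457876) (nat_lit 0) (nat_lit 20364974685857) (nat_lit 1) (nat_lit 5) (nat_lit 2) (nat_lit 4) (nat_lit 1) (nat_lit 4) (nat_lit 429) (nat_lit 366) (nat_lit 225))))) (XT.nd (nat_lit 234) (nat_lit 0) (nat_lit 0) (XT.nd (nat_lit 78) (nat_lit 0) (nat_lit 0) (XT.lf (nat_lit 0) (nat_lit 24847984816473) (nat_lit 76) (nat_lit 120990125996414) (nat_lit 0) (nat_lit 24697402739182) (nat_lit 1) (nat_lit 5) (nat_lit 2) (nat_lit 4) (nat_lit 1) (nat_lit 4) (nat_lit 430) (nat_lit 366) (nat_lit 224)) (XT.nd (nat_lit 78) (nat_lit 0) (nat_lit 0) (XT.lf (nat_lit 0) (nat_lit 29830277076997) (nat_lit 76) (nat_lit 136414195717568) (nat_lit 0) (nat_lit 29679694999659) (nat_lit 1) (nat_lit 5) (nat_lit 2) (nat_lit 4) (nat_lit 1) (nat_lit 4) (nat_lit 431) (nat_lit 366) (nat_lit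 223)) (XT.lf (nat_lit 0) (nat_lit 35559913175852) (nat_lit 76) (nat_lit 154151875898492) (nat_lit 0) (nat_lit 35409331098472) (nat_lit 1) (nat_lit 5) (nat_lit 2) (nat_lit 4) (nat_lit 1) (nat_lit 4) (nat_lit 432) (nat_lit 366) (nat_lit 222)))) (XT.nd (nat_lit 78) (nat_lit 0) (nat_lit 0) (XT.lf (nat_lit 0) (nat_lit 42148994688883) (nat_lit 76) (nat_lit 174550208107944) (nat_lit 0) (nat_lit 41998412611468) (nat_lit 1) (nat_lit 5) (nat_lit 2) (nat_lit 4) (nat_lit 1) (nat_lit 4) (nat_lit 433) (nat_lit 366) (nat_lit 221)) (XT.nd (nat_lit 78) (nat_lit 0) (nat_lit 0) (XT.lf (nat_lit 0) (nat_lit 49726438428302) (nat_lit 76) (nat_lit 198008290150021) (nat_lit 0) (nat_lit 49575856350856) (nat_lit 1) (nat_lit 5) (nat_lit 2) (nat_lit 4) (nat_lit 1) (nat_lit 4) (nat_lit 434) (nat_lit 366) (nat_lit 220)) (XT.lf (nat_lit 0) (nat_lit 58440498728141) (nat_lit 76) (nat_lit 224985084499460) (nat_lit 0) (nat_lit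 58289916650669) (nat_lit 1) (nat_lit 5) (nat_lit 2) (nat_lit 4) (nat_lit 1) (nat_lit 4) (nat_lit 435) (nat_lit 366) (nat_lit 219)))))) (XT.nd (nat_lit 47892) (nat_lit 0) (nat_lit 2128) (XT.nd (nat_lit 234) (nat_lit 0) (nat_lit 0) (XT.nd (nat_lit 78) (nat_lit 0) (nat_lit 0) (XT.lf (nat_lit 0) (nat_lit 68461668072529) (nat_lit 76) (nat_lit 256008398002228) (nat_lit 0) (nat_lit 68311085995033) (nat_lit 1) (nat_lit 5) (nat_lit 2) (nat_lit 4) (nat_lit 1) (nat_lit 4) (nat_lit 436) (nat_lit 366) (nat_lit 218)) (XT.nd (nat_lit 78) (nat_lit 0) (nat_lit 0) (XT.lf (nat_lit 0) (nat_lit 79986012818203) (nat_lit 76) (nat_lit 291685208531204) (nat_lit 0) (nat_lit 79835430740686) (nat_lit 1) (nat_lit 5) (nat_lit 2) (nat_lit 4) (nat_lit 1) (nat_lit 4) (nat_lit 437) (nat_lit 366) (nat_lit 217)) (XT.lf (nat_lit 0) (nat_lit 93239009275403) (nat_lit 76) (nat_lit 332713540640218) (nat_lit 0) (nat_lit 93088427197869)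 (nat_lit 1) (nat_lit 5) (nat_lit 2) (nat_lit 4) (nat_lit 1) (nat_lit 4) (nat_lit 438) (nat_lit 366) (nat_lit 216)))) (XT.nd (nat_lit 47502) (nat_lit 0) (nat_lit 2432) (XT.lf (nat_lit 0) (nat_lit 108479955200902) (nat_lit 76) (nat_lit 379896122566184) (nat_lit 0) (nat_lit 108329373123352) (nat_lit 1) (nat_lit 5) (nat_lit 2) (nat_lit 4) (nat_lit 1) (nat_lit 4) (nat_lit 439) (nat_lit 366) (nat_lit 215)) (XT.nd (nat_lit 78) (nat_lit 0) (nat_lit 0) (XT.lf (nat_lit 0) (nat_lit 24615089876) (nat_lit 380) (nat_lit 31812086120) (nat_lit 380) (nat_lit 31812086120) (nat_lit 33) (nat_lit 3) (nat_lit 38) (nat_lit 3) (nat_lit 38) (nat_lit 5) (nat_lit 367) (nat_lit 367) (nat_lit 286)) (XT.lf (nat_lit 76) (nat_lit 25799122102) (nat_lit 0) (nat_lit 28193550128) (nat_lit 380) (nat_lit 135561205593) (nat_lit 34) (nat_lit 5) (nat_lit 33) (nat_lit 3) (nat_lit 38) (nat_lit 5) (nat_lit 368) (nat_lit 367) (nat_lit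 285))))) (XT.nd (nat_lit 234) (nat_lit 380) (nat_lit 0) (XT.nd (nat_lit 78) (nat_lit 0) (nat_lit 0) (XT.lf (nat_lit 0) (nat_lit 65817402170) (nat_lit 304) (nat_lit 71327944532) (nat_lit 380) (nat_lit 66493008458) (nat_lit 34) (nat_lit 5) (nat_lit 38) (nat_lit 5) (nat_lit 39) (nat_lit 5) (nat_lit 369) (nat_lit 367) (nat_lit 284)) (XT.nd (nat_lit 78) (nat_lit 0) (nat_lit 76) (XT.lf (nat_lit 76) (nat_lit 36905697360) (nat_lit 0) (nat_lit 45380576785) (nat_lit 380) (nat_lit 137118665283) (nat_lit 35) (nat_lit 5) (nat_lit 34) (nat_lit 5) (nat_lit 39) (nat_lit 5) (nat_lit 370) (nat_lit 367) (nat_lit 283)) (XT.lf (nat_lit 0) (nat_lit 107621897235) (nat_lit 304) (nat_lit 70255020916) (nat_lit 76) (nat_lit 58700130324) (nat_lit 35) (nat_lit 5) (nat_lit 39) (nat_lit 5) (nat_lit 36) (nat_lit 5) (nat_lit 371) (nat_lit 367) (nat_lit 282)))) (XT.nd (nat_lit 156) (nat_lit 152) (nat_lit 0) (XT.nd (nat_lit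 78) (nat_lit 0) (nat_lit 0) (XT.lf (nat_lit 0) (nat_lit 62202294184) (nat_lit 304) (nat_lit 79291977435) (nat_lit 380) (nat_lit 114120241244) (nat_lit 31) (nat_lit 5) (nat_lit 35) (nat_lit 5) (nat_lit 36) (nat_lit 5) (nat_lit 372) (nat_lit 367) (nat_lit 281)) (XT.lf (nat_lit 0) (nat_lit 185705794785) (nat_lit 380) (nat_lit 56119166128) (nat_lit 76) (nat_lit 34893892244) (nat_lit 31) (nat_lit 5) (nat_lit 36) (nat_lit 5) (nat_lit 32) (nat_lit 5) (nat_lit 373) (nat_lit 367) (nat_lit 280))) (XT.nd (nat_lit 78) (nat_lit 0) (nat_lit 0) (XT.lf (nat_lit 0) (nat_lit 107568283214) (nat_lit 152) (nat_lit 137210557546) (nat_lit 228) (nat_lit 54975534709) (nat_lit 29) (nat_lit 5) (nat_lit 31) (nat_lit 5) (nat_lit 32) (nat_lit 5) (nat_lit 374) (nat_lit 367) (nat_lit 279)) (XT.lf (nat_lit 0) (nat_lit 302115664140) (nat_lit 152) (nat_lit 13530509563) (nat_lit 228) (nat_lit 10159053018) (nat_lit 29) (nat_lit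 5) (nat_lit 31) (nat_lit 5) (nat_lit 32) (nat_lit 5) (nat_lit 375) (nat_lit 367) (nat_lit 278))))))))
noncomputable def xc91 : XT := (XT.nd (nat_lit 1872) (nat_lit 532) (nat_lit 0) (XT.nd (nat_lit 936) (nat_lit 684) (nat_lit 0) (XT.nd (nat_lit 468) (nat_lit 380) (nat_lit 0) (XT.nd (nat_lit 234) (nat_lit 228) (nat_lit 0) (XT.nd (nat_lit 78) (nat_lit 152) (nat_lit 0) (XT.lf (nat_lit 0) (nat_lit 51124180947) (nat_lit 152) (nat_lit 175312113214) (nat_lit 76) (nat_lit 127056162820) (nat_lit 27) (nat_lit 5) (nat_lit 29) (nat_lit 5) (nat_lit 28) (nat_lit 5) (nat_lit 376) (nat_lit 367) (nat_lit 277)) (XT.nd (nat_lit 78) (nat_lit 0) (nat_lit 0) (XT.lf (nat_lit 0) (nat_lit 29264137028) (nat_lit 152) (nat_lit 94448884339) (nat_lit 228) (nat_lit 261074203585) (nat_lit 25) (nat_lit 5) (nat_lit 27) (nat_lit 5) (nat_lit 28) (nat_lit 5) (nat_lit 377) (nat_lit 367) (nat_lit 276)) (XT.lf (nat_lit 0) (nat_lit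 219164662656) (nat_lit 228) (nat_lit 137982877493) (nat_lit 76) (nat_lit 61832496810) (nat_lit 25) (nat_lit 5) (nat_lit 28) (nat_lit 5) (nat_lit 26) (nat_lit 4) (nat_lit 378) (nat_lit 367) (nat_lit 275)))) (XT.nd (nat_lit 78) (nat_lit 152) (nat_lit 0) (XT.lf (nat_lit 0) (nat_lit 118214916054) (nat_lit 76) (nat_lit 220111607316) (nat_lit 152) (nat_lit 118566376466) (nat_lit 24) (nat_lit 5) (nat_lit 25) (nat_lit 5) (nat_lit 26) (nat_lit 4) (nat_lit 379) (nat_lit 367) (nat_lit 274)) (XT.nd (nat_lit 78) (nat_lit 152) (nat_lit 0) (XT.lf (nat_lit 0) (nat_lit 428349589376) (nat_lit 76) (nat_lit 54225702976) (nat_lit 152) (nat_lit 16835505464) (nat_lit 24) (nat_lit 5) (nat_lit 25) (nat_lit 5) (nat_lit 26) (nat_lit 4) (nat_lit 380) (nat_lit 367) (nat_lit 273)) (XT.lf (nat_lit 0) (nat_lit 108163688145) (nat_lit 152) (nat_lit 297176284134) (nat_lit 76) (nat_lit 139805550181) (nat_lit 22) (nat_lit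 5) (nat_lit 24) (nat_lit 5) (nat_lit 23) (nat_lit 4) (nat_lit 381) (nat_lit 367) (nat_lit 272))))) (XT.nd (nat_lit 234) (nat_lit 228) (nat_lit 0) (XT.nd (nat_lit 78) (nat_lit 76) (nat_lit 0) (XT.lf (nat_lit 0) (nat_lit 24255785101) (nat_lit 76) (nat_lit 233411246104) (nat_lit 152) (nat_lit 338831485191) (nat_lit 21) (nat_lit 5) (nat_lit 22) (nat_lit 5) (nat_lit 23) (nat_lit 4) (nat_lit 382) (nat_lit 367) (nat_lit 271)) (XT.nd (nat_lit 78) (nat_lit 76) (nat_lit 0) (XT.lf (nat_lit 0) (nat_lit 427301061341) (nat_lit 76) (nat_lit 17828936910) (nat_lit 152) (nat_lit 208094342819) (nat_lit 21) (nat_lit 5) (nat_lit 22) (nat_lit 5) (nat_lit 23) (nat_lit 4) (nat_lit 383) (nat_lit 367) (nat_lit 270)) (XT.lf (nat_lit 0) (nat_lit 178727970226) (nat_lit 76) (nat_lit 498912667316) (nat_lit 76) (nat_lit 38279167849) (nat_lit 20) (nat_lit 4) (nat_lit 21) (nat_lit 5) (nat_lit 21) (nat_lit 4) (nat_lit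 384) (nat_lit 367) (nat_lit 269)))) (XT.nd (nat_lit 78) (nat_lit 152) (nat_lit 0) (XT.lf (nat_lit 0) (nat_lit 156251224483) (nat_lit 152) (nat_lit 124693434493) (nat_lit 76) (nat_lit 504116588037) (nat_lit 19) (nat_lit 5) (nat_lit 21) (nat_lit 5) (nat_lit 20) (nat_lit 4) (nat_lit 385) (nat_lit 367) (nat_lit 268)) (XT.nd (nat_lit 78) (nat_lit 76) (nat_lit 0) (XT.lf (nat_lit 0) (nat_lit 381851868521) (nat_lit 76) (nat_lit 10001849846) (nat_lit 152) (nat_lit 470075023843) (nat_lit 18) (nat_lit 5) (nat_lit 19) (nat_lit 5) (nat_lit 20) (nat_lit 4) (nat_lit 386) (nat_lit 367) (nat_lit 267)) (XT.lf (nat_lit 0) (nat_lit 17833407122) (nat_lit 76) (nat_lit 665017886073) (nat_lit 76) (nat_lit 264466862477) (nat_lit 17) (nat_lit 4) (nat_lit 18) (nat_lit 5) (nat_lit 18) (nat_lit 4) (nat_lit 387) (nat_lit 367) (nat_lit 266)))))) (XT.nd (nat_lit 468) (nat_lit 304) (nat_lit 0) (XT.nd (nat_lit 234) (nat_lit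 228) (nat_lit 0) (XT.nd (nat_lit 78) (nat_lit 76) (nat_lit 0) (XT.lf (nat_lit 0) (nat_lit 1242966072) (nat_lit 152) (nat_lit 397878685226) (nat_lit 76) (nat_lit 642553431444) (nat_lit 16) (nat_lit 5) (nat_lit 18) (nat_lit 5) (nat_lit 17) (nat_lit 4) (nat_lit 388) (nat_lit 367) (nat_lit 265)) (XT.nd (nat_lit 78) (nat_lit 0) (nat_lit 0) (XT.lf (nat_lit 0) (nat_lit 220505426960) (nat_lit 76) (nat_lit 68358072055) (nat_lit 152) (nat_lit 858063410945) (nat_lit 15) (nat_lit 5) (nat_lit 16) (nat_lit 5) (nat_lit 17) (nat_lit 4) (nat_lit 389) (nat_lit 367) (nat_lit 264)) (XT.lf (nat_lit 0) (nat_lit 654335731911) (nat_lit 152) (nat_lit 302394080685) (nat_lit 0) (nat_lit 306030405669) (nat_lit 15) (nat_lit 5) (nat_lit 17) (nat_lit 4) (nat_lit 15) (nat_lit 4) (nat_lit 390) (nat_lit 367) (nat_lit 263)))) (XT.nd (nat_lit 78) (nat_lit 152) (nat_lit 0) (XT.lf (nat_lit 0) (nat_lit 452244077010) (nat_lit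 76) (nat_lit 644366280271) (nat_lit 76) (nat_lit 296060931910) (nat_lit 14) (nat_lit 4) (nat_lit 15) (nat_lit 5) (nat_lit 15) (nat_lit 4) (nat_lit 391) (nat_lit 367) (nat_lit 262)) (XT.nd (nat_lit 78) (nat_lit 76) (nat_lit 0) (XT.lf (nat_lit 0) (nat_lit 74094093535) (nat_lit 152) (nat_lit 189003066495) (nat_lit 76) (nat_lit 1276095636577) (nat_lit 13) (nat_lit 5) (nat_lit 15) (nat_lit 5) (nat_lit 14) (nat_lit 4) (nat_lit 392) (nat_lit 367) (nat_lit 261)) (XT.lf (nat_lit 0) (nat_lit 508871973363) (nat_lit 152) (nat_lit 984796519595) (nat_lit 0) (nat_lit 205997726127) (nat_lit 12) (nat_lit 5) (nat_lit 14) (nat_lit 4) (nat_lit 12) (nat_lit 4) (nat_lit 393) (nat_lit 367) (nat_lit 260))))) (XT.nd (nat_lit 234) (nat_lit 152) (nat_lit 0) (XT.nd (nat_lit 78) (nat_lit 152) (nat_lit 0) (XT.lf (nat_lit 0) (nat_lit 1031745095116) (nat_lit 152) (nat_lit 120162940595) (nat_lit 0) (nat_lit 728870835233)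 (nat_lit 12) (nat_lit 5) (nat_lit 14) (nat_lit 4) (nat_lit 12) (nat_lit 4) (nat_lit 394) (nat_lit 367) (nat_lit 259)) (XT.nd (nat_lit 78) (nat_lit 76) (nat_lit 0) (XT.lf (nat_lit 0) (nat_lit 959595415854) (nat_lit 76) (nat_lit 713188530700) (nat_lit 76) (nat_lit 410314259820) (nat_lit 11) (nat_lit 4) (nat_lit 12) (nat_lit 5) (nat_lit 12) (nat_lit 4) (nat_lit 395) (nat_lit 367) (nat_lit 258)) (XT.lf (nat_lit 0) (nat_lit 92405987737) (nat_lit 152) (nat_lit 104201406806) (nat_lit 76) (nat_lit 2117585825537) (nat_lit 10) (nat_lit 5) (nat_lit 12) (nat_lit 5) (nat_lit 11) (nat_lit 4) (nat_lit 396) (nat_lit 367) (nat_lit 257)))) (XT.nd (nat_lit 78) (nat_lit 76) (nat_lit 0) (XT.lf (nat_lit 0) (nat_lit 695840792036) (nat_lit 152) (nat_lit 1438611799733) (nat_lit 0) (nat_lit 432471845289) (nat_lit 9) (nat_lit 5) (nat_lit 11) (nat_lit 4) (nat_lit 9) (nat_lit 4) (nat_lit 397) (nat_lit 367) (nat_lit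 256)) (XT.nd (nat_lit 78) (nat_lit 76) (nat_lit 0) (XT.lf (nat_lit 0) (nat_lit 1404859308314) (nat_lit 152) (nat_lit 308955399291) (nat_lit 0) (nat_lit 1141490355279) (nat_lit 9) (nat_lit 5) (nat_lit 11) (nat_lit 4) (nat_lit 9) (nat_lit 4) (nat_lit 398) (nat_lit 367) (nat_lit 255)) (XT.lf (nat_lit 0) (nat_lit 1086914001731) (nat_lit 76) (nat_lit 1178323362512) (nat_lit 76) (nat_lit 914954404010) (nat_lit 8) (nat_lit 4) (nat_lit 9) (nat_lit 5) (nat_lit 9) (nat_lit 4) (nat_lit 399) (nat_lit 367) (nat_lit 254))))))) (XT.nd (nat_lit 936) (nat_lit 152) (nat_lit 0) (XT.nd (nat_lit 468) (nat_lit 152) (nat_lit 0) (XT.nd (nat_lit 234) (nat_lit 76) (nat_lit 0) (XT.nd (nat_lit 78) (nat_lit 152) (nat_lit 0) (XT.lf (nat_lit 0) (nat_lit 2726886129436) (nat_lit 76) (nat_lit 543935913079) (nat_lit 76) (nat_lit 280566949822) (nat_lit 8) (nat_lit 4) (nat_lit 9) (nat_lit 5) (nat_lit 9) (nat_lit 4) (nat_lit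 400) (nat_lit 367) (nat_lit 253)) (XT.nd (nat_lit 78) (nat_lit 0) (nat_lit 0) (XT.lf (nat_lit 0) (nat_lit 446911601514) (nat_lit 152) (nat_lit 3304984779183) (nat_lit 0) (nat_lit 217895108131) (nat_lit 6) (nat_lit 5) (nat_lit 8) (nat_lit 4) (nat_lit 6) (nat_lit 4) (nat_lit 401) (nat_lit 367) (nat_lit 252)) (XT.lf (nat_lit 0) (nat_lit 1325840256587) (nat_lit 152) (nat_lit 2015628338601) (nat_lit 0) (nat_lit 1096823760078) (nat_lit 6) (nat_lit 5) (nat_lit 8) (nat_lit 4) (nat_lit 6) (nat_lit 4) (nat_lit 402) (nat_lit 367) (nat_lit 251)))) (XT.nd (nat_lit 78) (nat_lit 76) (nat_lit 0) (XT.lf (nat_lit 0) (nat_lit 2336608188325) (nat_lit 152) (nat_lit 532868477489) (nat_lit 0) (nat_lit 2107591689097) (nat_lit 6) (nat_lit 5) (nat_lit 8) (nat_lit 4) (nat_lit 6) (nat_lit 4) (nat_lit 403) (nat_lit 367) (nat_lit 250)) (XT.nd (nat_lit 78) (nat_lit 0) (nat_lit 0) (XT.lf (nat_lit 0) (nat_lit 1286871525213)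 (nat_lit 76) (nat_lit 2265406371429) (nat_lit 76) (nat_lit 2036389869838) (nat_lit 5) (nat_lit 4) (nat_lit 6) (nat_lit 5) (nat_lit 6) (nat_lit 4) (nat_lit 404) (nat_lit 367) (nat_lit 249)) (XT.lf (nat_lit 0) (nat_lit 3439459640990) (nat_lit 76) (nat_lit 1538692890919) (nat_lit 76) (nat_lit 1309676387272) (nat_lit 5) (nat_lit 4) (nat_lit 6) (nat_lit 5) (nat_lit 6) (nat_lit 4) (nat_lit 405) (nat_lit 367) (nat_lit 248))))) (XT.nd (nat_lit 234) (nat_lit 0) (nat_lit 0) (XT.nd (nat_lit 78) (nat_lit 152) (nat_lit 0) (XT.lf (nat_lit 0) (nat_lit 5914935941252) (nat_lit 76) (nat_lit 702972405652) (nat_lit 76) (nat_lit 473955900217) (nat_lit 5) (nat_lit 4) (nat_lit 6) (nat_lit 5) (nat_lit 6) (nat_lit 4) (nat_lit 406) (nat_lit 367) (nat_lit 247)) (XT.nd (nat_lit 78) (nat_lit 0) (nat_lit 0) (XT.lf (nat_lit 0) (nat_lit 489930327602) (nat_lit 152) (nat_lit 7225837196841) (nat_lit 0) (nat_lit 290785538916)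 (nat_lit 3) (nat_lit 5) (nat_lit 5) (nat_lit 4) (nat_lit 3) (nat_lit 4) (nat_lit 407) (nat_lit 367) (nat_lit 246)) (XT.lf (nat_lit 0) (nat_lit 1647801131265) (nat_lit 152) (nat_lit 5943913475361) (nat_lit 0) (nat_lit 1448656341403) (nat_lit 3) (nat_lit 5) (nat_lit 5) (nat_lit 4) (nat_lit 3) (nat_lit 4) (nat_lit 408) (nat_lit 367) (nat_lit 245)))) (XT.nd (nat_lit 78) (nat_lit 0) (nat_lit 0) (XT.lf (nat_lit 0) (nat_lit 2979352543182) (nat_lit 152) (nat_lit 4469701221762) (nat_lit 0) (nat_lit 2780207752299) (nat_lit 3) (nat_lit 5) (nat_lit 5) (nat_lit 4) (nat_lit 3) (nat_lit 4) (nat_lit 409) (nat_lit 367) (nat_lit 244)) (XT.nd (nat_lit 78) (nat_lit 0) (nat_lit 0) (XT.lf (nat_lit 0) (nat_lit 4510636656198) (nat_lit 152) (nat_lit 2774357152819) (nat_lit 0) (nat_lit 4311491864426) (nat_lit 3) (nat_lit 5) (nat_lit 5) (nat_lit 4) (nat_lit 3) (nat_lit 4) (nat_lit 410) (nat_lit 367) (nat_lit 243))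 (XT.lf (nat_lit 0) (nat_lit 6271613376870) (nat_lit 152) (nat_lit 824711493272) (nat_lit 0) (nat_lit 6072468584326) (nat_lit 3) (nat_lit 5) (nat_lit 5) (nat_lit 4) (nat_lit 3) (nat_lit 4) (nat_lit 411) (nat_lit 367) (nat_lit 242)))))) (XT.nd (nat_lit 468) (nat_lit 76) (nat_lit 0) (XT.nd (nat_lit 234) (nat_lit 0) (nat_lit 0) (XT.nd (nat_lit 78) (nat_lit 0) (nat_lit 0) (XT.lf (nat_lit 0) (nat_lit 1555897777397) (nat_lit 76) (nat_lit 6805265229164) (nat_lit 76) (nat_lit 6606120435947) (nat_lit 2) (nat_lit 4) (nat_lit 3) (nat_lit 5) (nat_lit 3) (nat_lit 4) (nat_lit 412) (nat_lit 367) (nat_lit 241)) (XT.nd (nat_lit 78) (nat_lit 0) (nat_lit 0) (XT.lf (nat_lit 0) (nat_lit 4386284748064) (nat_lit 76) (nat_lit 6420970243902) (nat_lit 76) (nat_lit 6221825450101) (nat_lit 2) (nat_lit 4) (nat_lit 3) (nat_lit 5) (nat_lit 3) (nat_lit 4) (nat_lit 413) (nat_lit 367) (nat_lit 240)) (XT.lf (nat_lit 0)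 (nat_lit 7641229750086) (nat_lit 76) (nat_lit 5979031018394) (nat_lit 76) (nat_lit 5779886224085) (nat_lit 2) (nat_lit 4) (nat_lit 3) (nat_lit 5) (nat_lit 3) (nat_lit 4) (nat_lit 414) (nat_lit 367) (nat_lit 239)))) (XT.nd (nat_lit 78) (nat_lit 0) (nat_lit 0) (XT.lf (nat_lit 0) (nat_lit 11384416490023) (nat_lit 76) (nat_lit 5470800915619) (nat_lit 76) (nat_lit 5271656120868) (nat_lit 2) (nat_lit 4) (nat_lit 3) (nat_lit 5) (nat_lit 3) (nat_lit 4) (nat_lit 415) (nat_lit 367) (nat_lit 238)) (XT.nd (nat_lit 78) (nat_lit 0) (nat_lit 0) (XT.lf (nat_lit 0) (nat_lit 15689081230180) (nat_lit 76) (nat_lit 4886336303132) (nat_lit 76) (nat_lit 4687191507997) (nat_lit 2) (nat_lit 4) (nat_lit 3) (nat_lit 5) (nat_lit 3) (nat_lit 4) (nat_lit 416) (nat_lit 367) (nat_lit 237)) (XT.lf (nat_lit 0) (nat_lit 20639445671993) (nat_lit 76) (nat_lit 4214202003732) (nat_lit 76) (nat_lit 4015057208263) (nat_lit 2)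 (nat_lit 4) (nat_lit 3) (nat_lit 5) (nat_lit 3) (nat_lit 4) (nat_lit 417) (nat_lit 367) (nat_lit 236))))) (XT.nd (nat_lit 234) (nat_lit 76) (nat_lit 0) (XT.nd (nat_lit 78) (nat_lit 0) (nat_lit 0) (XT.lf (nat_lit 0) (nat_lit 26332364771933) (nat_lit 76) (nat_lit 3441247563735) (nat_lit 76) (nat_lit 3242102767976) (nat_lit 2) (nat_lit 4) (nat_lit 3) (nat_lit 5) (nat_lit 3) (nat_lit 4) (nat_lit 418) (nat_lit 367) (nat_lit 235)) (XT.nd (nat_lit 78) (nat_lit 0) (nat_lit 0) (XT.lf (nat_lit 0) (nat_lit 32879221729782) (nat_lit 76) (nat_lit 2552349961489) (nat_lit 76) (nat_lit 2353205165477) (nat_lit 2) (nat_lit 4) (nat_lit 3) (nat_lit 5) (nat_lit 3) (nat_lit 4) (nat_lit 419) (nat_lit 367) (nat_lit 234)) (XT.lf (nat_lit 0) (nat_lit 40408107225149) (nat_lit 76) (nat_lit 1530117722168) (nat_lit 76) (nat_lit 1330972925936) (nat_lit 2) (nat_lit 4) (nat_lit 3) (nat_lit 5) (nat_lit 3) (nat_lit 4) (nat_lit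 420) (nat_lit 367) (nat_lit 233)))) (XT.nd (nat_lit 156) (nat_lit 0) (nat_lit 0) (XT.nd (nat_lit 78) (nat_lit 76) (nat_lit 0) (XT.lf (nat_lit 0) (nat_lit 49066325539466) (nat_lit 76) (nat_lit 354550649784) (nat_lit 76) (nat_lit 155405853361) (nat_lit 2) (nat_lit 4) (nat_lit 3) (nat_lit 5) (nat_lit 3) (nat_lit 4) (nat_lit 421) (nat_lit 367) (nat_lit 232)) (XT.lf (nat_lit 0) (nat_lit 1235743043896) (nat_lit 76) (nat_lit 54501815413521) (nat_lit 0) (nat_lit 1062573655558) (nat_lit 1) (nat_lit 5) (nat_lit 2) (nat_lit 4) (nat_lit 1) (nat_lit 4) (nat_lit 422) (nat_lit 367) (nat_lit 231))) (XT.nd (nat_lit 78) (nat_lit 0) (nat_lit 0) (XT.lf (nat_lit 0) (nat_lit 2864463227913) (nat_lit 76) (nat_lit 59543971152007) (nat_lit 0) (nat_lit 2691293839449) (nat_lit 1) (nat_lit 5) (nat_lit 2) (nat_lit 4) (nat_lit 1) (nat_lit 4) (nat_lit 423) (nat_lit 367) (nat_lit 230)) (XT.lf (nat_lit 0) (nat_lit 4737491437540)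 (nat_lit 76) (nat_lit 65342450255513) (nat_lit 0) (nat_lit 4564322048967) (nat_lit 1) (nat_lit 5) (nat_lit 2) (nat_lit 4) (nat_lit 1) (nat_lit 4) (nat_lit 424) (nat_lit 367) (nat_lit 229))))))))
noncomputable def xc92 : XT := (XT.nd (nat_lit 49530) (nat_lit 0) (nat_lit 380) (XT.nd (nat_lit 1014) (nat_lit 0) (nat_lit 0) (XT.nd (nat_lit 468) (nat_lit 0) (nat_lit 0) (XT.nd (nat_lit 234) (nat_lit 0) (nat_lit 0) (XT.nd (nat_lit 78) (nat_lit 0) (nat_lit 0) (XT.lf (nat_lit 0) (nat_lit 6891473876878) (nat_lit 76) (nat_lit 72010701228239) (nat_lit 0) (nat_lit 6718304488210) (nat_lit 1) (nat_lit 5) (nat_lit 2) (nat_lit 4) (nat_lit 1) (nat_lit 4) (nat_lit 425) (nat_lit 367) (nat_lit 228)) (XT.nd (nat_lit 78) (nat_lit 0) (nat_lit 0) (XT.lf (nat_lit 0) (nat_lit 9368553680611) (nat_lit 76) (nat_lit 79679189850087) (nat_lit 0) (nat_lit 9195384291860) (nat_lit 1) (nat_lit 5) (nat_lit 2) (nat_lit 4) (nat_lit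 1) (nat_lit 4) (nat_lit 426) (nat_lit 367) (nat_lit 227)) (XT.lf (nat_lit 0) (nat_lit 12217195453594) (nat_lit 76) (nat_lit 88497951768005) (nat_lit 0) (nat_lit 12044026064771) (nat_lit 1) (nat_lit 5) (nat_lit 2) (nat_lit 4) (nat_lit 1) (nat_lit 4) (nat_lit 427) (nat_lit 367) (nat_lit 226)))) (XT.nd (nat_lit 78) (nat_lit 0) (nat_lit 0) (XT.lf (nat_lit 0) (nat_lit 15493133491385) (nat_lit 76) (nat_lit 98639527976039) (nat_lit 0) (nat_lit 15319964102500) (nat_lit 1) (nat_lit 5) (nat_lit 2) (nat_lit 4) (nat_lit 1) (nat_lit 4) (nat_lit 428) (nat_lit 367) (nat_lit 225)) (XT.nd (nat_lit 78) (nat_lit 0) (nat_lit 0) (XT.lf (nat_lit 0) (nat_lit 19260462233854) (nat_lit 76) (nat_lit 110302340617391) (nat_lit 0) (nat_lit 19087292844915) (nat_lit 1) (nat_lit 5) (nat_lit 2) (nat_lit 4) (nat_lit 1) (nat_lit 4) (nat_lit 429) (nat_lit 367) (nat_lit 224)) (XT.lf (nat_lit 0) (nat_lit 23592890286832) (nat_lit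 76) (nat_lit 123714575156783) (nat_lit 0) (nat_lit 23419720897846) (nat_lit 1) (nat_lit 5) (nat_lit 2) (nat_lit 4) (nat_lit 1) (nat_lit 4) (nat_lit 430) (nat_lit 367) (nat_lit 223))))) (XT.nd (nat_lit 234) (nat_lit 0) (nat_lit 0) (XT.nd (nat_lit 78) (nat_lit 0) (nat_lit 0) (XT.lf (nat_lit 0) (nat_lit 28575182547009) (nat_lit 76) (nat_lit 139138644878679) (nat_lit 0) (nat_lit 28402013157981) (nat_lit 1) (nat_lit 5) (nat_lit 2) (nat_lit 4) (nat_lit 1) (nat_lit 4) (nat_lit 431) (nat_lit 367) (nat_lit 222)) (XT.nd (nat_lit 78) (nat_lit 0) (nat_lit 0) (XT.lf (nat_lit 0) (nat_lit 34304818645560) (nat_lit 76) (nat_lit 156876325060250) (nat_lit 0) (nat_lit 34131649256497) (nat_lit 1) (nat_lit 5) (nat_lit 2) (nat_lit 4) (nat_lit 1) (nat_lit 4) (nat_lit 432) (nat_lit 367) (nat_lit 221)) (XT.lf (nat_lit 0) (nat_lit 40893900158327) (nat_lit 76) (nat_lit 177274657270263) (nat_lit 0) (nat_lit 40720730769233)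 (nat_lit 1) (nat_lit 5) (nat_lit 2) (nat_lit 4) (nat_lit 1) (nat_lit 4) (nat_lit 433) (nat_lit 367) (nat_lit 220)))) (XT.nd (nat_lit 156) (nat_lit 0) (nat_lit 0) (XT.lf (nat_lit 0) (nat_lit 48471343897518) (nat_lit 76) (nat_lit 200732739312829) (nat_lit 0) (nat_lit 48298174508397) (nat_lit 1) (nat_lit 5) (nat_lit 2) (nat_lit 4) (nat_lit 1) (nat_lit 4) (nat_lit 434) (nat_lit 367) (nat_lit 219)) (XT.nd (nat_lit 78) (nat_lit 0) (nat_lit 0) (XT.lf (nat_lit 0) (nat_lit 67206573541373) (nat_lit 76) (nat_lit 258732847165830) (nat_lit 0) (nat_lit 67033404152208) (nat_lit 1) (nat_lit 5) (nat_lit 2) (nat_lit 4) (nat_lit 1) (nat_lit 4) (nat_lit 436) (nat_lit 367) (nat_lit 217)) (XT.lf (nat_lit 0) (nat_lit 78730918286896) (nat_lit 76) (nat_lit 294409657695127) (nat_lit 0) (nat_lit 78557748897713) (nat_lit 1) (nat_lit 5) (nat_lit 2) (nat_lit 4) (nat_lit 1) (nat_lit 4) (nat_lit 437) (nat_lit 367) (nat_lit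 216)))))) (XT.nd (nat_lit 48048) (nat_lit 0) (nat_lit 1824) (XT.nd (nat_lit 47814) (nat_lit 0) (nat_lit 2508) (XT.nd (nat_lit 47658) (nat_lit 0) (nat_lit 2432) (XT.lf (nat_lit 0) (nat_lit 91983914743965) (nat_lit 76) (nat_lit 335437989804421) (nat_lit 0) (nat_lit 91810745354767) (nat_lit 1) (nat_lit 5) (nat_lit 2) (nat_lit 4) (nat_lit 1) (nat_lit 4) (nat_lit 438) (nat_lit 367) (nat_lit 215)) (XT.nd (nat_lit 78) (nat_lit 0) (nat_lit 0) (XT.lf (nat_lit 0) (nat_lit 28309215296) (nat_lit 380) (nat_lit 36582827763) (nat_lit 380) (nat_lit 36582827763) (nat_lit 33) (nat_lit 3) (nat_lit 38) (nat_lit 3) (nat_lit 38) (nat_lit 5) (nat_lit 368) (nat_lit 368) (nat_lit 284)) (XT.lf (nat_lit 76) (nat_lit 29671035579) (nat_lit 0) (nat_lit 32423860326) (nat_lit 380) (nat_lit 155891562869) (nat_lit 34) (nat_lit 5) (nat_lit 33) (nat_lit 3) (nat_lit 38) (nat_lit 5) (nat_lit 369) (nat_lit 368) (nat_lit 283))))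 (XT.nd (nat_lit 78) (nat_lit 0) (nat_lit 0) (XT.lf (nat_lit 0) (nat_lit 75692855917) (nat_lit 304) (nat_lit 82024876394) (nat_lit 380) (nat_lit 76465947613) (nat_lit 34) (nat_lit 5) (nat_lit 38) (nat_lit 5) (nat_lit 39) (nat_lit 5) (nat_lit 370) (nat_lit 368) (nat_lit 282)) (XT.nd (nat_lit 78) (nat_lit 0) (nat_lit 76) (XT.lf (nat_lit 76) (nat_lit 42443709062) (nat_lit 0) (nat_lit 52188068066) (nat_lit 380) (nat_lit 157683517199) (nat_lit 35) (nat_lit 5) (nat_lit 34) (nat_lit 5) (nat_lit 39) (nat_lit 5) (nat_lit 371) (nat_lit 368) (nat_lit 281)) (XT.lf (nat_lit 0) (nat_lit 123767394951) (nat_lit 304) (nat_lit 80791048075) (nat_lit 76) (nat_lit 67504829239) (nat_lit 35) (nat_lit 5) (nat_lit 39) (nat_lit 5) (nat_lit 36) (nat_lit 5) (nat_lit 372) (nat_lit 368) (nat_lit 280))))) (XT.nd (nat_lit 234) (nat_lit 304) (nat_lit 0) (XT.nd (nat_lit 78) (nat_lit 152) (nat_lit 0) (XT.lf (nat_lit 0)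 (nat_lit 71534763109) (nat_lit 304) (nat_lit 91185661698) (nat_lit 380) (nat_lit 131235961806) (nat_lit 31) (nat_lit 5) (nat_lit 35) (nat_lit 5) (nat_lit 36) (nat_lit 5) (nat_lit 373) (nat_lit 368) (nat_lit 279)) (XT.nd (nat_lit 78) (nat_lit 152) (nat_lit 0) (XT.lf (nat_lit 0) (nat_lit 213563418001) (nat_lit 380) (nat_lit 64534933809) (nat_lit 76) (nat_lit 40128065081) (nat_lit 31) (nat_lit 5) (nat_lit 36) (nat_lit 5) (nat_lit 32) (nat_lit 5) (nat_lit 374) (nat_lit 368) (nat_lit 278)) (XT.lf (nat_lit 0) (nat_lit 123705537151) (nat_lit 152) (nat_lit 157791738228) (nat_lit 228) (nat_lit 63220014141) (nat_lit 29) (nat_lit 5) (nat_lit 31) (nat_lit 5) (nat_lit 32) (nat_lit 5) (nat_lit 375) (nat_lit 368) (nat_lit 277)))) (XT.nd (nat_lit 78) (nat_lit 304) (nat_lit 0) (XT.lf (nat_lit 0) (nat_lit 347434762852) (nat_lit 152) (nat_lit 15559735606) (nat_lit 228) (nat_lit 11681301602) (nat_lit 29)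 (nat_lit 5) (nat_lit 31) (nat_lit 5) (nat_lit 32) (nat_lit 5) (nat_lit 376) (nat_lit 368) (nat_lit 276)) (XT.nd (nat_lit 78) (nat_lit 152) (nat_lit 0) (XT.lf (nat_lit 0) (nat_lit 58794176717) (nat_lit 152) (nat_lit 201606938960) (nat_lit 76) (nat_lit 146115003904) (nat_lit 27) (nat_lit 5) (nat_lit 29) (nat_lit 5) (nat_lit 28) (nat_lit 5) (nat_lit 377) (nat_lit 368) (nat_lit 275)) (XT.lf (nat_lit 0) (nat_lit 33655658307) (nat_lit 152) (nat_lit 108615585081) (nat_lit 228) (nat_lit 300233874417) (nat_lit 25) (nat_lit 5) (nat_lit 27) (nat_lit 5) (nat_lit 28) (nat_lit 5) (nat_lit 378) (nat_lit 368) (nat_lit 274))))))) (XT.nd (nat_lit 936) (nat_lit 684) (nat_lit 0) (XT.nd (nat_lit 468) (nat_lit 456) (nat_lit 0) (XT.nd (nat_lit 234) (nat_lit 228) (nat_lit 0) (XT.nd (nat_lit 78) (nat_lit 76) (nat_lit 0) (XT.lf (nat_lit 0) (nat_lit 252040488126) (nat_lit 228) (nat_lit 158678513075) (nat_lit 76)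 (nat_lit 71107871898) (nat_lit 25) (nat_lit 5) (nat_lit 28) (nat_lit 5) (nat_lit 26) (nat_lit 4) (nat_lit 379) (nat_lit 368) (nat_lit 273)) (XT.nd (nat_lit 78) (nat_lit 0) (nat_lit 0) (XT.lf (nat_lit 0) (nat_lit 135948867866) (nat_lit 76) (nat_lit 253127684192) (nat_lit 152) (nat_lit 136350124797) (nat_lit 24) (nat_lit 5) (nat_lit 25) (nat_lit 5) (nat_lit 26) (nat_lit 4) (nat_lit 380) (nat_lit 368) (nat_lit 272)) (XT.lf (nat_lit 0) (nat_lit 492603518568) (nat_lit 76) (nat_lit 62358980838) (nat_lit 152) (nat_lit 19359780728) (nat_lit 24) (nat_lit 5) (nat_lit 25) (nat_lit 5) (nat_lit 26) (nat_lit 4) (nat_lit 381) (nat_lit 368) (nat_lit 271)))) (XT.nd (nat_lit 78) (nat_lit 76) (nat_lit 0) (XT.lf (nat_lit 0) (nat_lit 124389161780) (nat_lit 152) (nat_lit 341751105218) (nat_lit 76) (nat_lit 160776945487) (nat_lit 22) (nat_lit 5) (nat_lit 24) (nat_lit 5) (nat_lit 23) (nat_lit 4) (nat_lit 382)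 (nat_lit 368) (nat_lit 270)) (XT.nd (nat_lit 78) (nat_lit 0) (nat_lit 0) (XT.lf (nat_lit 0) (nat_lit 27895700696) (nat_lit 76) (nat_lit 268422249642) (nat_lit 152) (nat_lit 389655213605) (nat_lit 21) (nat_lit 5) (nat_lit 22) (nat_lit 5) (nat_lit 23) (nat_lit 4) (nat_lit 383) (nat_lit 368) (nat_lit 269)) (XT.lf (nat_lit 0) (nat_lit 491397566482) (nat_lit 76) (nat_lit 20502683205) (nat_lit 152) (nat_lit 239307629577) (nat_lit 21) (nat_lit 5) (nat_lit 22) (nat_lit 5) (nat_lit 23) (nat_lit 4) (nat_lit 384) (nat_lit 368) (nat_lit 268))))) (XT.nd (nat_lit 234) (nat_lit 228) (nat_lit 0) (XT.nd (nat_lit 78) (nat_lit 152) (nat_lit 0) (XT.lf (nat_lit 0) (nat_lit 205538534865) (nat_lit 76) (nat_lit 573748930047) (nat_lit 76) (nat_lit 44020201342) (nat_lit 20) (nat_lit 4) (nat_lit 21) (nat_lit 5) (nat_lit 21) (nat_lit 4) (nat_lit 385) (nat_lit 368) (nat_lit 267)) (XT.nd (nat_lit 78) (nat_lit 76)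 (nat_lit 0) (XT.lf (nat_lit 0) (nat_lit 179689574896) (nat_lit 152) (nat_lit 143396193842) (nat_lit 76) (nat_lit 579734565176) (nat_lit 19) (nat_lit 5) (nat_lit 21) (nat_lit 5) (nat_lit 20) (nat_lit 4) (nat_lit 386) (nat_lit 368) (nat_lit 266)) (XT.lf (nat_lit 0) (nat_lit 439130847542) (nat_lit 76) (nat_lit 11501557993) (nat_lit 152) (nat_lit 540585553474) (nat_lit 18) (nat_lit 5) (nat_lit 19) (nat_lit 5) (nat_lit 20) (nat_lit 4) (nat_lit 387) (nat_lit 368) (nat_lit 265)))) (XT.nd (nat_lit 78) (nat_lit 152) (nat_lit 0) (XT.lf (nat_lit 0) (nat_lit 20509630178) (nat_lit 76) (nat_lit 764769974997) (nat_lit 76) (nat_lit 304136181042) (nat_lit 17) (nat_lit 4) (nat_lit 18) (nat_lit 5) (nat_lit 18) (nat_lit 4) (nat_lit 388) (nat_lit 368) (nat_lit 264)) (XT.nd (nat_lit 78) (nat_lit 76) (nat_lit 0) (XT.lf (nat_lit 0) (nat_lit 1429974049) (nat_lit 152) (nat_lit 457559379001) (nat_lit 76) (nat_lit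 738936907564) (nat_lit 16) (nat_lit 5) (nat_lit 18) (nat_lit 5) (nat_lit 17) (nat_lit 4) (nat_lit 389) (nat_lit 368) (nat_lit 263)) (XT.lf (nat_lit 0) (nat_lit 253582299603) (nat_lit 76) (nat_lit 78611257721) (nat_lit 152) (nat_lit 986772309041) (nat_lit 15) (nat_lit 5) (nat_lit 16) (nat_lit 5) (nat_lit 17) (nat_lit 4) (nat_lit 390) (nat_lit 368) (nat_lit 262)))))) (XT.nd (nat_lit 468) (nat_lit 380) (nat_lit 0) (XT.nd (nat_lit 234) (nat_lit 152) (nat_lit 0) (XT.nd (nat_lit 78) (nat_lit 152) (nat_lit 0) (XT.lf (nat_lit 0) (nat_lit 752486574482) (nat_lit 152) (nat_lit 347752221533) (nat_lit 0) (nat_lit 351935382512) (nat_lit 15) (nat_lit 5) (nat_lit 17) (nat_lit 4) (nat_lit 15) (nat_lit 4) (nat_lit 391) (nat_lit 368) (nat_lit 261)) (XT.nd (nat_lit 78) (nat_lit 76) (nat_lit 0) (XT.lf (nat_lit 0) (nat_lit 520081615669) (nat_lit 76) (nat_lit 741020753407) (nat_lit 76) (nat_lit 340469544712)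 (nat_lit 14) (nat_lit 4) (nat_lit 15) (nat_lit 5) (nat_lit 15) (nat_lit 4) (nat_lit 392) (nat_lit 368) (nat_lit 260)) (XT.lf (nat_lit 0) (nat_lit 85208625016) (nat_lit 152) (nat_lit 217352679453) (nat_lit 76) (nat_lit 1467510348971) (nat_lit 13) (nat_lit 5) (nat_lit 15) (nat_lit 5) (nat_lit 14) (nat_lit 4) (nat_lit 393) (nat_lit 368) (nat_lit 259)))) (XT.nd (nat_lit 78) (nat_lit 76) (nat_lit 0) (XT.lf (nat_lit 0) (nat_lit 585203182909) (nat_lit 152) (nat_lit 1132515146574) (nat_lit 0) (nat_lit 236897760399) (nat_lit 12) (nat_lit 5) (nat_lit 14) (nat_lit 4) (nat_lit 12) (nat_lit 4) (nat_lit 394) (nat_lit 368) (nat_lit 258)) (XT.nd (nat_lit 78) (nat_lit 76) (nat_lit 0) (XT.lf (nat_lit 0) (nat_lit 1186507218985) (nat_lit 152) (nat_lit 138186641719) (nat_lit 0) (nat_lit 838201786913) (nat_lit 12) (nat_lit 5) (nat_lit 14) (nat_lit 4) (nat_lit 12) (nat_lit 4) (nat_lit 395) (nat_lit 368) (nat_lit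 257)) (XT.lf (nat_lit 0) (nat_lit 1103535434563) (nat_lit 76) (nat_lit 820166445919) (nat_lit 76) (nat_lit 471861005531) (nat_lit 11) (nat_lit 4) (nat_lit 12) (nat_lit 5) (nat_lit 12) (nat_lit 4) (nat_lit 396) (nat_lit 368) (nat_lit 256))))) (XT.nd (nat_lit 234) (nat_lit 228) (nat_lit 0) (XT.nd (nat_lit 78) (nat_lit 76) (nat_lit 0) (XT.lf (nat_lit 0) (nat_lit 106267197421) (nat_lit 152) (nat_lit 119830973162) (nat_lit 76) (nat_lit 2435223985761) (nat_lit 10) (nat_lit 5) (nat_lit 12) (nat_lit 5) (nat_lit 11) (nat_lit 4) (nat_lit 397) (nat_lit 368) (nat_lit 255)) (XT.nd (nat_lit 78) (nat_lit 0) (nat_lit 0) (XT.lf (nat_lit 0) (nat_lit 800217220420) (nat_lit 152) (nat_lit 1654402923067) (nat_lit 0) (nat_lit 497342912675) (nat_lit 9) (nat_lit 5) (nat_lit 11) (nat_lit 4) (nat_lit 9) (nat_lit 4) (nat_lit 398) (nat_lit 368) (nat_lit 254)) (XT.lf (nat_lit 0) (nat_lit 1615588473760) (nat_lit 152)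 (nat_lit 355298146901) (nat_lit 0) (nat_lit 1312714161260) (nat_lit 9) (nat_lit 5) (nat_lit 11) (nat_lit 4) (nat_lit 9) (nat_lit 4) (nat_lit 399) (nat_lit 368) (nat_lit 253)))) (XT.nd (nat_lit 156) (nat_lit 152) (nat_lit 0) (XT.nd (nat_lit 78) (nat_lit 0) (nat_lit 0) (XT.lf (nat_lit 0) (nat_lit 1249951638716) (nat_lit 76) (nat_lit 1355071586475) (nat_lit 76) (nat_lit 1052197269841) (nat_lit 8) (nat_lit 4) (nat_lit 9) (nat_lit 5) (nat_lit 9) (nat_lit 4) (nat_lit 400) (nat_lit 368) (nat_lit 252)) (XT.lf (nat_lit 0) (nat_lit 3135919515568) (nat_lit 76) (nat_lit 625526056202) (nat_lit 76) (nat_lit 322651735973) (nat_lit 8) (nat_lit 4) (nat_lit 9) (nat_lit 5) (nat_lit 9) (nat_lit 4) (nat_lit 401) (nat_lit 368) (nat_lit 251))) (XT.nd (nat_lit 78) (nat_lit 0) (nat_lit 0) (XT.lf (nat_lit 0) (nat_lit 513948574277) (nat_lit 152) (nat_lit 3800732005538) (nat_lit 0) (nat_lit 250579597447) (nat_lit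 6) (nat_lit 5) (nat_lit 8) (nat_lit 4) (nat_lit 6) (nat_lit 4) (nat_lit 402) (nat_lit 368) (nat_lit 250)) (XT.lf (nat_lit 0) (nat_lit 1524716497281) (nat_lit 152) (nat_lit 2317972162851) (nat_lit 0) (nat_lit 1261347518086) (nat_lit 6) (nat_lit 5) (nat_lit 8) (nat_lit 4) (nat_lit 6) (nat_lit 4) (nat_lit 403) (nat_lit 368) (nat_lit 249))))))))
noncomputable def xc93 : XT := (XT.nd (nat_lit 1872) (nat_lit 0) (nat_lit 0) (XT.nd (nat_lit 936) (nat_lit 76) (nat_lit 0) (XT.nd (nat_lit 468) (nat_lit 76) (nat_lit 0) (XT.nd (nat_lit 234) (nat_lit 152) (nat_lit 0) (XT.nd (nat_lit 78) (nat_lit 76) (nat_lit 0) (XT.lf (nat_lit 0) (nat_lit 2687099592405) (nat_lit 152) (nat_lit 612798378207) (nat_lit 0) (nat_lit 2423730611155) (nat_lit 6) (nat_lit 5) (nat_lit 8) (nat_lit 4) (nat_lit 6) (nat_lit 4) (nat_lit 404) (nat_lit 368) (nat_lit 248)) (XT.nd (nat_lit 78) (nat_lit 0) (nat_lit 0) (XT.lf (nat_lit 0)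 (nat_lit 1479902608041) (nat_lit 76) (nat_lit 2605217140655) (nat_lit 76) (nat_lit 2341848157618) (nat_lit 5) (nat_lit 4) (nat_lit 6) (nat_lit 5) (nat_lit 6) (nat_lit 4) (nat_lit 405) (nat_lit 368) (nat_lit 247)) (XT.lf (nat_lit 0) (nat_lit 3955378895005) (nat_lit 76) (nat_lit 1769496662393) (nat_lit 76) (nat_lit 1506127677801) (nat_lit 5) (nat_lit 4) (nat_lit 6) (nat_lit 5) (nat_lit 6) (nat_lit 4) (nat_lit 406) (nat_lit 368) (nat_lit 246)))) (XT.nd (nat_lit 78) (nat_lit 152) (nat_lit 0) (XT.lf (nat_lit 0) (nat_lit 6802176600150) (nat_lit 76) (nat_lit 808418125487) (nat_lit 76) (nat_lit 545049139544) (nat_lit 5) (nat_lit 4) (nat_lit 6) (nat_lit 5) (nat_lit 6) (nat_lit 4) (nat_lit 407) (nat_lit 368) (nat_lit 245)) (XT.nd (nat_lit 78) (nat_lit 0) (nat_lit 0) (XT.lf (nat_lit 0) (nat_lit 563420009113) (nat_lit 152) (nat_lit 8309712495316) (nat_lit 0) (nat_lit 334403498576) (nat_lit 3) (nat_lit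 5) (nat_lit 5) (nat_lit 4) (nat_lit 3) (nat_lit 4) (nat_lit 408) (nat_lit 368) (nat_lit 244)) (XT.lf (nat_lit 0) (nat_lit 1894971416059) (nat_lit 152) (nat_lit 6835500252273) (nat_lit 0) (nat_lit 1665954904633) (nat_lit 3) (nat_lit 5) (nat_lit 5) (nat_lit 4) (nat_lit 3) (nat_lit 4) (nat_lit 409) (nat_lit 368) (nat_lit 243))))) (XT.nd (nat_lit 234) (nat_lit 76) (nat_lit 0) (XT.nd (nat_lit 78) (nat_lit 0) (nat_lit 0) (XT.lf (nat_lit 0) (nat_lit 3426255524751) (nat_lit 152) (nat_lit 5140156192511) (nat_lit 0) (nat_lit 3197239012552) (nat_lit 3) (nat_lit 5) (nat_lit 5) (nat_lit 4) (nat_lit 3) (nat_lit 4) (nat_lit 410) (nat_lit 368) (nat_lit 242)) (XT.nd (nat_lit 78) (nat_lit 0) (nat_lit 0) (XT.lf (nat_lit 0) (nat_lit 5187232241664) (nat_lit 152) (nat_lit 3190510540946) (nat_lit 0) (nat_lit 4958215728793) (nat_lit 3) (nat_lit 5) (nat_lit 5) (nat_lit 4) (nat_lit 3) (nat_lit 4) (nat_lit 411)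 (nat_lit 368) (nat_lit 241)) (XT.lf (nat_lit 0) (nat_lit 7212355459084) (nat_lit 152) (nat_lit 948418056571) (nat_lit 0) (nat_lit 6983338945629) (nat_lit 3) (nat_lit 5) (nat_lit 5) (nat_lit 4) (nat_lit 3) (nat_lit 4) (nat_lit 412) (nat_lit 368) (nat_lit 240)))) (XT.nd (nat_lit 78) (nat_lit 0) (nat_lit 0) (XT.lf (nat_lit 0) (nat_lit 1789282597395) (nat_lit 76) (nat_lit 7826054932314) (nat_lit 76) (nat_lit 7597038418350) (nat_lit 2) (nat_lit 4) (nat_lit 3) (nat_lit 5) (nat_lit 3) (nat_lit 4) (nat_lit 413) (nat_lit 368) (nat_lit 239)) (XT.nd (nat_lit 78) (nat_lit 0) (nat_lit 0) (XT.lf (nat_lit 0) (nat_lit 5044227593655) (nat_lit 76) (nat_lit 7384115709857) (nat_lit 76) (nat_lit 7155099195452) (nat_lit 2) (nat_lit 4) (nat_lit 3) (nat_lit 5) (nat_lit 3) (nat_lit 4) (nat_lit 414) (nat_lit 368) (nat_lit 238)) (XT.lf (nat_lit 0) (nat_lit 8787414328582) (nat_lit 76) (nat_lit 6875885609735) (nat_lit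 76) (nat_lit 6646869094946) (nat_lit 2) (nat_lit 4) (nat_lit 3) (nat_lit 5) (nat_lit 3) (nat_lit 4) (nat_lit 415) (nat_lit 368) (nat_lit 237)))))) (XT.nd (nat_lit 468) (nat_lit 76) (nat_lit 0) (XT.nd (nat_lit 234) (nat_lit 0) (nat_lit 0) (XT.nd (nat_lit 78) (nat_lit 0) (nat_lit 0) (XT.lf (nat_lit 0) (nat_lit 13092079064382) (nat_lit 76) (nat_lit 6291420999555) (nat_lit 76) (nat_lit 6062404484432) (nat_lit 2) (nat_lit 4) (nat_lit 3) (nat_lit 5) (nat_lit 3) (nat_lit 4) (nat_lit 416) (nat_lit 368) (nat_lit 236)) (XT.nd (nat_lit 78) (nat_lit 0) (nat_lit 0) (XT.lf (nat_lit 0) (nat_lit 18042443502407) (nat_lit 76) (nat_lit 5619286702161) (nat_lit 76) (nat_lit 5390270186747) (nat_lit 2) (nat_lit 4) (nat_lit 3) (nat_lit 5) (nat_lit 3) (nat_lit 4) (nat_lit 417) (nat_lit 368) (nat_lit 235)) (XT.lf (nat_lit 0) (nat_lit 23735362599053) (nat_lit 76) (nat_lit 4846332263909) (nat_lit 76) (nat_lit 4617315748242)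 (nat_lit 2) (nat_lit 4) (nat_lit 3) (nat_lit 5) (nat_lit 3) (nat_lit 4) (nat_lit 418) (nat_lit 368) (nat_lit 234)))) (XT.nd (nat_lit 78) (nat_lit 0) (nat_lit 0) (XT.lf (nat_lit 0) (nat_lit 30282219554037) (nat_lit 76) (nat_lit 3957434663180) (nat_lit 76) (nat_lit 3728418147294) (nat_lit 2) (nat_lit 4) (nat_lit 3) (nat_lit 5) (nat_lit 3) (nat_lit 4) (nat_lit 419) (nat_lit 368) (nat_lit 233)) (XT.nd (nat_lit 78) (nat_lit 0) (nat_lit 0) (XT.lf (nat_lit 0) (nat_lit 37811105046913) (nat_lit 76) (nat_lit 2935202425177) (nat_lit 76) (nat_lit 2706185909100) (nat_lit 2) (nat_lit 4) (nat_lit 3) (nat_lit 5) (nat_lit 3) (nat_lit 4) (nat_lit 420) (nat_lit 368) (nat_lit 232)) (XT.lf (nat_lit 0) (nat_lit 46469323359064) (nat_lit 76) (nat_lit 1759635353940) (nat_lit 76) (nat_lit 1530618837697) (nat_lit 2) (nat_lit 4) (nat_lit 3) (nat_lit 5) (nat_lit 3) (nat_lit 4) (nat_lit 421) (nat_lit 368) (nat_lit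 231))))) (XT.nd (nat_lit 234) (nat_lit 0) (nat_lit 0) (XT.nd (nat_lit 78) (nat_lit 76) (nat_lit 0) (XT.lf (nat_lit 0) (nat_lit 56426274413988) (nat_lit 76) (nat_lit 407733224162) (nat_lit 76) (nat_lit 178716707775) (nat_lit 2) (nat_lit 4) (nat_lit 3) (nat_lit 5) (nat_lit 3) (nat_lit 4) (nat_lit 422) (nat_lit 368) (nat_lit 230)) (XT.nd (nat_lit 78) (nat_lit 0) (nat_lit 0) (XT.lf (nat_lit 0) (nat_lit 1421104521932) (nat_lit 76) (nat_lit 62677087679807) (nat_lit 0) (nat_lit 1221959724964) (nat_lit 1) (nat_lit 5) (nat_lit 2) (nat_lit 4) (nat_lit 1) (nat_lit 4) (nat_lit 423) (nat_lit 368) (nat_lit 229)) (XT.lf (nat_lit 0) (nat_lit 3294132730753) (nat_lit 76) (nat_lit 68475566785032) (nat_lit 0) (nat_lit 3094987933690) (nat_lit 1) (nat_lit 5) (nat_lit 2) (nat_lit 4) (nat_lit 1) (nat_lit 4) (nat_lit 424) (nat_lit 368) (nat_lit 228)))) (XT.nd (nat_lit 78) (nat_lit 0) (nat_lit 0) (XT.lf (nat_lit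 0) (nat_lit 5448115169391) (nat_lit 76) (nat_lit 75143817759252) (nat_lit 0) (nat_lit 5248970372245) (nat_lit 1) (nat_lit 5) (nat_lit 2) (nat_lit 4) (nat_lit 1) (nat_lit 4) (nat_lit 425) (nat_lit 368) (nat_lit 227)) (XT.nd (nat_lit 78) (nat_lit 0) (nat_lit 0) (XT.lf (nat_lit 0) (nat_lit 7925194972515) (nat_lit 76) (nat_lit 82812306382399) (nat_lit 0) (nat_lit 7726050175297) (nat_lit 1) (nat_lit 5) (nat_lit 2) (nat_lit 4) (nat_lit 1) (nat_lit 4) (nat_lit 426) (nat_lit 368) (nat_lit 226)) (XT.lf (nat_lit 0) (nat_lit 10773836744968) (nat_lit 76) (nat_lit 91631068301447) (nat_lit 0) (nat_lit 10574691947688) (nat_lit 1) (nat_lit 5) (nat_lit 2) (nat_lit 4) (nat_lit 1) (nat_lit 4) (nat_lit 427) (nat_lit 368) (nat_lit 225))))))) (XT.nd (nat_lit 48828) (nat_lit 0) (nat_lit 1520) (XT.nd (nat_lit 624) (nat_lit 0) (nat_lit 0) (XT.nd (nat_lit 234) (nat_lit 0) (nat_lit 0) (XT.nd (nat_lit 78) (nat_lit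 0) (nat_lit 0) (XT.lf (nat_lit 0) (nat_lit 14049774782298) (nat_lit 76) (nat_lit 101772644510464) (nat_lit 0) (nat_lit 13850629984964) (nat_lit 1) (nat_lit 5) (nat_lit 2) (nat_lit 4) (nat_lit 1) (nat_lit 4) (nat_lit 428) (nat_lit 368) (nat_lit 224)) (XT.nd (nat_lit 78) (nat_lit 0) (nat_lit 0) (XT.lf (nat_lit 0) (nat_lit 17817103524367) (nat_lit 76) (nat_lit 113435457152670) (nat_lit 0) (nat_lit 17617958726985) (nat_lit 1) (nat_lit 5) (nat_lit 2) (nat_lit 4) (nat_lit 1) (nat_lit 4) (nat_lit 429) (nat_lit 368) (nat_lit 223)) (XT.lf (nat_lit 0) (nat_lit 22149531576997) (nat_lit 76) (nat_lit 126847691692804) (nat_lit 0) (nat_lit 21950386779574) (nat_lit 1) (nat_lit 5) (nat_lit 2) (nat_lit 4) (nat_lit 1) (nat_lit 4) (nat_lit 430) (nat_lit 368) (nat_lit 222)))) (XT.nd (nat_lit 78) (nat_lit 0) (nat_lit 0) (XT.lf (nat_lit 0) (nat_lit 27131823836870) (nat_lit 76) (nat_lit 142271761415347) (nat_lit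 0) (nat_lit 26932679039412) (nat_lit 1) (nat_lit 5) (nat_lit 2) (nat_lit 4) (nat_lit 1) (nat_lit 4) (nat_lit 431) (nat_lit 368) (nat_lit 221)) (XT.nd (nat_lit 78) (nat_lit 0) (nat_lit 0) (XT.lf (nat_lit 0) (nat_lit 32861459935158) (nat_lit 76) (nat_lit 160009441597479) (nat_lit 0) (nat_lit 32662315137669) (nat_lit 1) (nat_lit 5) (nat_lit 2) (nat_lit 4) (nat_lit 1) (nat_lit 4) (nat_lit 432) (nat_lit 368) (nat_lit 220)) (XT.lf (nat_lit 0) (nat_lit 39450541447696) (nat_lit 76) (nat_lit 180407773807981) (nat_lit 0) (nat_lit 39251396650180) (nat_lit 1) (nat_lit 5) (nat_lit 2) (nat_lit 4) (nat_lit 1) (nat_lit 4) (nat_lit 433) (nat_lit 368) (nat_lit 219))))) (XT.nd (nat_lit 47970) (nat_lit 0) (nat_lit 2432) (XT.nd (nat_lit 78) (nat_lit 0) (nat_lit 0) (XT.lf (nat_lit 0) (nat_lit 65763214830218) (nat_lit 76) (nat_lit 261865963704662) (nat_lit 0) (nat_lit 65564070032641) (nat_lit 1) (nat_lit 5)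 (nat_lit 2) (nat_lit 4) (nat_lit 1) (nat_lit 4) (nat_lit 436) (nat_lit 368) (nat_lit 216)) (XT.nd (nat_lit 47814) (nat_lit 0) (nat_lit 2432) (XT.lf (nat_lit 0) (nat_lit 77287559575610) (nat_lit 76) (nat_lit 297542774234239) (nat_lit 0) (nat_lit 77088414778018) (nat_lit 1) (nat_lit 5) (nat_lit 2) (nat_lit 4) (nat_lit 1) (nat_lit 4) (nat_lit 437) (nat_lit 368) (nat_lit 215)) (XT.lf (nat_lit 0) (nat_lit 32557005484) (nat_lit 380) (nat_lit 42069441890) (nat_lit 380) (nat_lit 42069441890) (nat_lit 33) (nat_lit 3) (nat_lit 38) (nat_lit 3) (nat_lit 38) (nat_lit 5) (nat_lit 369) (nat_lit 369) (nat_lit 282)))) (XT.nd (nat_lit 78) (nat_lit 0) (nat_lit 76) (XT.lf (nat_lit 76) (nat_lit 34123237353) (nat_lit 0) (nat_lit 37288405484) (nat_lit 380) (nat_lit 179272406137) (nat_lit 34) (nat_lit 5) (nat_lit 33) (nat_lit 3) (nat_lit 38) (nat_lit 5) (nat_lit 370) (nat_lit 369) (nat_lit 281)) (XT.nd (nat_lit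 78) (nat_lit 0) (nat_lit 0) (XT.lf (nat_lit 0) (nat_lit 87048934340) (nat_lit 304) (nat_lit 94326899107) (nat_lit 380) (nat_lit 87935074451) (nat_lit 34) (nat_lit 5) (nat_lit 38) (nat_lit 5) (nat_lit 39) (nat_lit 5) (nat_lit 371) (nat_lit 369) (nat_lit 280)) (XT.lf (nat_lit 76) (nat_lit 48811896498) (nat_lit 0) (nat_lit 60016584335) (nat_lit 380) (nat_lit 181333815760) (nat_lit 35) (nat_lit 5) (nat_lit 34) (nat_lit 5) (nat_lit 39) (nat_lit 5) (nat_lit 372) (nat_lit 369) (nat_lit 279)))))) (XT.nd (nat_lit 468) (nat_lit 456) (nat_lit 0) (XT.nd (nat_lit 234) (nat_lit 304) (nat_lit 0) (XT.nd (nat_lit 78) (nat_lit 304) (nat_lit 0) (XT.lf (nat_lit 0) (nat_lit 142334177639) (nat_lit 304) (nat_lit 92908022128) (nat_lit 76) (nat_lit 77630311180) (nat_lit 35) (nat_lit 5) (nat_lit 39) (nat_lit 5) (nat_lit 36) (nat_lit 5) (nat_lit 373) (nat_lit 369) (nat_lit 278)) (XT.nd (nat_lit 78) (nat_lit 0)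 (nat_lit 0) (XT.lf (nat_lit 0) (nat_lit 82266584227) (nat_lit 304) (nat_lit 104863425999) (nat_lit 380) (nat_lit 150919605132) (nat_lit 31) (nat_lit 5) (nat_lit 35) (nat_lit 5) (nat_lit 36) (nat_lit 5) (nat_lit 374) (nat_lit 369) (nat_lit 277)) (XT.lf (nat_lit 0) (nat_lit 245599256976) (nat_lit 380) (nat_lit 74213580505) (nat_lit 76) (nat_lit 46147342139) (nat_lit 31) (nat_lit 5) (nat_lit 36) (nat_lit 5) (nat_lit 32) (nat_lit 5) (nat_lit 375) (nat_lit 369) (nat_lit 276)))) (XT.nd (nat_lit 78) (nat_lit 152) (nat_lit 0) (XT.lf (nat_lit 0) (nat_lit 142262888673) (nat_lit 152) (nat_lit 181460194275) (nat_lit 228) (nat_lit 72701616811) (nat_lit 29) (nat_lit 5) (nat_lit 31) (nat_lit 5) (nat_lit 32) (nat_lit 5) (nat_lit 376) (nat_lit 369) (nat_lit 275)) (XT.nd (nat_lit 78) (nat_lit 152) (nat_lit 0) (XT.lf (nat_lit 0) (nat_lit 399551299844) (nat_lit 152) (nat_lit 17893431002) (nat_lit 228) (nat_lit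 13432279929) (nat_lit 29) (nat_lit 5) (nat_lit 31) (nat_lit 5) (nat_lit 32) (nat_lit 5) (nat_lit 377) (nat_lit 369) (nat_lit 274)) (XT.lf (nat_lit 0) (nat_lit 67614338104) (nat_lit 152) (nat_lit 231846474144) (nat_lit 76) (nat_lit 168032569544) (nat_lit 27) (nat_lit 5) (nat_lit 29) (nat_lit 5) (nat_lit 28) (nat_lit 5) (nat_lit 378) (nat_lit 369) (nat_lit 273))))) (XT.nd (nat_lit 234) (nat_lit 228) (nat_lit 0) (XT.nd (nat_lit 78) (nat_lit 76) (nat_lit 0) (XT.lf (nat_lit 0) (nat_lit 38705444274) (nat_lit 152) (nat_lit 124907445030) (nat_lit 228) (nat_lit 345267851831) (nat_lit 25) (nat_lit 5) (nat_lit 27) (nat_lit 5) (nat_lit 28) (nat_lit 5) (nat_lit 379) (nat_lit 369) (nat_lit 272)) (XT.nd (nat_lit 78) (nat_lit 76) (nat_lit 0) (XT.lf (nat_lit 0) (nat_lit 289847412817) (nat_lit 228) (nat_lit 182478931970) (nat_lit 76) (nat_lit 81774431183) (nat_lit 25) (nat_lit 5) (nat_lit 28) (nat_lit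 5) (nat_lit 26) (nat_lit 4) (nat_lit 380) (nat_lit 369) (nat_lit 271)) (XT.lf (nat_lit 0) (nat_lit 156342494382) (nat_lit 76) (nat_lit 291096334574) (nat_lit 152) (nat_lit 156801729990) (nat_lit 24) (nat_lit 5) (nat_lit 25) (nat_lit 5) (nat_lit 26) (nat_lit 4) (nat_lit 381) (nat_lit 369) (nat_lit 270)))) (XT.nd (nat_lit 156) (nat_lit 76) (nat_lit 0) (XT.nd (nat_lit 78) (nat_lit 152) (nat_lit 0) (XT.lf (nat_lit 0) (nat_lit 566495173602) (nat_lit 76) (nat_lit 71712391228) (nat_lit 152) (nat_lit 22262953466) (nat_lit 24) (nat_lit 5) (nat_lit 25) (nat_lit 5) (nat_lit 26) (nat_lit 4) (nat_lit 382) (nat_lit 369) (nat_lit 269)) (XT.lf (nat_lit 0) (nat_lit 143048232011) (nat_lit 152) (nat_lit 393012544887) (nat_lit 76) (nat_lit 184893912851) (nat_lit 22) (nat_lit 5) (nat_lit 24) (nat_lit 5) (nat_lit 23) (nat_lit 4) (nat_lit 383) (nat_lit 369) (nat_lit 268))) (XT.nd (nat_lit 78) (nat_lit 0) (nat_lit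 0) (XT.lf (nat_lit 0) (nat_lit 32081226182) (nat_lit 76) (nat_lit 308685070357) (nat_lit 152) (nat_lit 448102743763) (nat_lit 21) (nat_lit 5) (nat_lit 22) (nat_lit 5) (nat_lit 23) (nat_lit 4) (nat_lit 384) (nat_lit 369) (nat_lit 267)) (XT.lf (nat_lit 0) (nat_lit 565108219177) (nat_lit 76) (nat_lit 23577636354) (nat_lit 152) (nat_lit 275203120202) (nat_lit 21) (nat_lit 5) (nat_lit 22) (nat_lit 5) (nat_lit 23) (nat_lit 4) (nat_lit 385) (nat_lit 369) (nat_lit 266))))))))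
noncomputable def xc94 : XT := (XT.nd (nat_lit 1872) (nat_lit 152) (nat_lit 0) (XT.nd (nat_lit 936) (nat_lit 608) (nat_lit 0) (XT.nd (nat_lit 468) (nat_lit 304) (nat_lit 0) (XT.nd (nat_lit 234) (nat_lit 228) (nat_lit 0) (XT.nd (nat_lit 78) (nat_lit 152) (nat_lit 0) (XT.lf (nat_lit 0) (nat_lit 236370350334) (nat_lit 76) (nat_lit 659810787613) (nat_lit 76) (nat_lit 50622595109) (nat_lit 20) (nat_lit 4) (nat_lit 21) (nat_lit 5) (nat_lit 21) (nat_lit 4) (nat_lit 386) (nat_lit 369) (nat_lit 265)) (XT.nd (nat_lit 78) (nat_lit 76) (nat_lit 0) (XT.lf (nat_lit 0) (nat_lit 206643515282) (nat_lit 152) (nat_lit 164904673334) (nat_lit 76) (nat_lit 666695119656) (nat_lit 19) (nat_lit 5) (nat_lit 21) (nat_lit 5) (nat_lit 20) (nat_lit 4) (nat_lit 387) (nat_lit 369) (nat_lit 264)) (XT.lf (nat_lit 0) (nat_lit 505001381094) (nat_lit 76) (nat_lit 13226361197) (nat_lit 152) (nat_lit 621672839088) (nat_lit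 18) (nat_lit 5) (nat_lit 19) (nat_lit 5) (nat_lit 20) (nat_lit 4) (nat_lit 388) (nat_lit 369) (nat_lit 263)))) (XT.nd (nat_lit 78) (nat_lit 152) (nat_lit 0) (XT.lf (nat_lit 0) (nat_lit 23586991142) (nat_lit 76) (nat_lit 879485022107) (nat_lit 76) (nat_lit 349756070727) (nat_lit 17) (nat_lit 4) (nat_lit 18) (nat_lit 5) (nat_lit 18) (nat_lit 4) (nat_lit 389) (nat_lit 369) (nat_lit 262)) (XT.nd (nat_lit 78) (nat_lit 76) (nat_lit 0) (XT.lf (nat_lit 0) (nat_lit 1644895915) (nat_lit 152) (nat_lit 526192447281) (nat_lit 76) (nat_lit 849777792586) (nat_lit 16) (nat_lit 5) (nat_lit 18) (nat_lit 5) (nat_lit 17) (nat_lit 4) (nat_lit 390) (nat_lit 369) (nat_lit 261)) (XT.lf (nat_lit 0) (nat_lit 291620444998) (nat_lit 76) (nat_lit 90402549295) (nat_lit 152) (nat_lit 1134787691470) (nat_lit 15) (nat_lit 5) (nat_lit 16) (nat_lit 5) (nat_lit 17) (nat_lit 4) (nat_lit 391) (nat_lit 369) (nat_lit 260)))))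 (XT.nd (nat_lit 234) (nat_lit 152) (nat_lit 0) (XT.nd (nat_lit 78) (nat_lit 152) (nat_lit 0) (XT.lf (nat_lit 0) (nat_lit 865359925708) (nat_lit 152) (nat_lit 399914320355) (nat_lit 0) (nat_lit 404726004439) (nat_lit 15) (nat_lit 5) (nat_lit 17) (nat_lit 4) (nat_lit 15) (nat_lit 4) (nat_lit 392) (nat_lit 369) (nat_lit 259)) (XT.nd (nat_lit 78) (nat_lit 76) (nat_lit 0) (XT.lf (nat_lit 0) (nat_lit 598094559045) (nat_lit 76) (nat_lit 852173511859) (nat_lit 76) (nat_lit 391539577943) (nat_lit 14) (nat_lit 4) (nat_lit 15) (nat_lit 5) (nat_lit 15) (nat_lit 4) (nat_lit 393) (nat_lit 369) (nat_lit 258)) (XT.lf (nat_lit 0) (nat_lit 97990234422) (nat_lit 152) (nat_lit 249954940905) (nat_lit 76) (nat_lit 1687637178751) (nat_lit 13) (nat_lit 5) (nat_lit 15) (nat_lit 5) (nat_lit 14) (nat_lit 4) (nat_lit 394) (nat_lit 369) (nat_lit 257)))) (XT.nd (nat_lit 78) (nat_lit 76) (nat_lit 0) (XT.lf (nat_lit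 0) (nat_lit 672983973042) (nat_lit 152) (nat_lit 1302391775111) (nat_lit 0) (nat_lit 272432708280) (nat_lit 12) (nat_lit 5) (nat_lit 14) (nat_lit 4) (nat_lit 12) (nat_lit 4) (nat_lit 395) (nat_lit 369) (nat_lit 256)) (XT.nd (nat_lit 78) (nat_lit 76) (nat_lit 0) (XT.lf (nat_lit 0) (nat_lit 1364483573743) (nat_lit 152) (nat_lit 158914078456) (nat_lit 0) (nat_lit 963932301750) (nat_lit 12) (nat_lit 5) (nat_lit 14) (nat_lit 4) (nat_lit 12) (nat_lit 4) (nat_lit 396) (nat_lit 369) (nat_lit 255)) (XT.lf (nat_lit 0) (nat_lit 1269066283835) (nat_lit 76) (nat_lit 943191137278) (nat_lit 76) (nat_lit 542639858998) (nat_lit 11) (nat_lit 4) (nat_lit 12) (nat_lit 5) (nat_lit 12) (nat_lit 4) (nat_lit 397) (nat_lit 369) (nat_lit 254)))))) (XT.nd (nat_lit 468) (nat_lit 228) (nat_lit 0) (XT.nd (nat_lit 234) (nat_lit 228) (nat_lit 0) (XT.nd (nat_lit 78) (nat_lit 76) (nat_lit 0) (XT.lf (nat_lit 0) (nat_lit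 122207512590) (nat_lit 152) (nat_lit 137805131678) (nat_lit 76) (nat_lit 2800507800180) (nat_lit 10) (nat_lit 5) (nat_lit 12) (nat_lit 5) (nat_lit 11) (nat_lit 4) (nat_lit 398) (nat_lit 369) (nat_lit 253)) (XT.nd (nat_lit 78) (nat_lit 0) (nat_lit 0) (XT.lf (nat_lit 0) (nat_lit 920250037570) (nat_lit 152) (nat_lit 1902562872585) (nat_lit 0) (nat_lit 571944569306) (nat_lit 9) (nat_lit 5) (nat_lit 11) (nat_lit 4) (nat_lit 9) (nat_lit 4) (nat_lit 399) (nat_lit 369) (nat_lit 252)) (XT.lf (nat_lit 0) (nat_lit 1857926948377) (nat_lit 152) (nat_lit 408592443769) (nat_lit 0) (nat_lit 1509621476519) (nat_lit 9) (nat_lit 5) (nat_lit 11) (nat_lit 4) (nat_lit 9) (nat_lit 4) (nat_lit 400) (nat_lit 369) (nat_lit 251)))) (XT.nd (nat_lit 78) (nat_lit 152) (nat_lit 0) (XT.lf (nat_lit 0) (nat_lit 1437444790365) (nat_lit 76) (nat_lit 1558332112412) (nat_lit 76) (nat_lit 1210026637428) (nat_lit 8) (nat_lit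 4) (nat_lit 9) (nat_lit 5) (nat_lit 9) (nat_lit 4) (nat_lit 401) (nat_lit 369) (nat_lit 250)) (XT.nd (nat_lit 78) (nat_lit 152) (nat_lit 0) (XT.lf (nat_lit 0) (nat_lit 3606307795809) (nat_lit 76) (nat_lit 719354780256) (nat_lit 76) (nat_lit 371049302553) (nat_lit 8) (nat_lit 4) (nat_lit 9) (nat_lit 5) (nat_lit 9) (nat_lit 4) (nat_lit 402) (nat_lit 369) (nat_lit 249)) (XT.lf (nat_lit 0) (nat_lit 591041036250) (nat_lit 152) (nat_lit 4370841435464) (nat_lit 0) (nat_lit 288166705757) (nat_lit 6) (nat_lit 5) (nat_lit 8) (nat_lit 4) (nat_lit 6) (nat_lit 4) (nat_lit 403) (nat_lit 369) (nat_lit 248))))) (XT.nd (nat_lit 234) (nat_lit 152) (nat_lit 0) (XT.nd (nat_lit 78) (nat_lit 76) (nat_lit 0) (XT.lf (nat_lit 0) (nat_lit 1753424124769) (nat_lit 152) (nat_lit 2665667664752) (nat_lit 0) (nat_lit 1450549792489) (nat_lit 6) (nat_lit 5) (nat_lit 8) (nat_lit 4) (nat_lit 6) (nat_lit 4) (nat_lit 404)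 (nat_lit 369) (nat_lit 247)) (XT.nd (nat_lit 78) (nat_lit 76) (nat_lit 0) (XT.lf (nat_lit 0) (nat_lit 3090164664219) (nat_lit 152) (nat_lit 704717854481) (nat_lit 0) (nat_lit 2787290330384) (nat_lit 6) (nat_lit 5) (nat_lit 8) (nat_lit 4) (nat_lit 6) (nat_lit 4) (nat_lit 405) (nat_lit 369) (nat_lit 246)) (XT.lf (nat_lit 0) (nat_lit 1701888266957) (nat_lit 76) (nat_lit 2995999570741) (nat_lit 76) (nat_lit 2693125235555) (nat_lit 5) (nat_lit 4) (nat_lit 6) (nat_lit 5) (nat_lit 6) (nat_lit 4) (nat_lit 406) (nat_lit 369) (nat_lit 245)))) (XT.nd (nat_lit 78) (nat_lit 152) (nat_lit 0) (XT.lf (nat_lit 0) (nat_lit 4548685962046) (nat_lit 76) (nat_lit 2034921039132) (nat_lit 76) (nat_lit 1732046702771) (nat_lit 5) (nat_lit 4) (nat_lit 6) (nat_lit 5) (nat_lit 6) (nat_lit 4) (nat_lit 407) (nat_lit 369) (nat_lit 244)) (XT.nd (nat_lit 78) (nat_lit 152) (nat_lit 0) (XT.lf (nat_lit 0) (nat_lit 7822503292599)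 (nat_lit 76) (nat_lit 929680737684) (nat_lit 76) (nat_lit 626806400301) (nat_lit 5) (nat_lit 4) (nat_lit 6) (nat_lit 5) (nat_lit 6) (nat_lit 4) (nat_lit 408) (nat_lit 369) (nat_lit 243)) (XT.lf (nat_lit 0) (nat_lit 647933110572) (nat_lit 152) (nat_lit 9556169157098) (nat_lit 0) (nat_lit 384564120770) (nat_lit 3) (nat_lit 5) (nat_lit 5) (nat_lit 4) (nat_lit 3) (nat_lit 4) (nat_lit 409) (nat_lit 369) (nat_lit 242))))))) (XT.nd (nat_lit 936) (nat_lit 76) (nat_lit 0) (XT.nd (nat_lit 468) (nat_lit 0) (nat_lit 0) (XT.nd (nat_lit 234) (nat_lit 76) (nat_lit 0) (XT.nd (nat_lit 78) (nat_lit 0) (nat_lit 0) (XT.lf (nat_lit 0) (nat_lit 2179217215504) (nat_lit 152) (nat_lit 7860825105318) (nat_lit 0) (nat_lit 1915848225030) (nat_lit 3) (nat_lit 5) (nat_lit 5) (nat_lit 4) (nat_lit 3) (nat_lit 4) (nat_lit 410) (nat_lit 369) (nat_lit 241)) (XT.nd (nat_lit 78) (nat_lit 0) (nat_lit 0) (XT.lf (nat_lit 0)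 (nat_lit 3940193929147) (nat_lit 152) (nat_lit 5911179460695) (nat_lit 0) (nat_lit 3676824938089) (nat_lit 3) (nat_lit 5) (nat_lit 5) (nat_lit 4) (nat_lit 3) (nat_lit 4) (nat_lit 411) (nat_lit 369) (nat_lit 240)) (XT.lf (nat_lit 0) (nat_lit 5965317143725) (nat_lit 152) (nat_lit 3669086982356) (nat_lit 0) (nat_lit 5701948152159) (nat_lit 3) (nat_lit 5) (nat_lit 5) (nat_lit 4) (nat_lit 3) (nat_lit 4) (nat_lit 412) (nat_lit 369) (nat_lit 239)))) (XT.nd (nat_lit 78) (nat_lit 76) (nat_lit 0) (XT.lf (nat_lit 0) (nat_lit 8294208835174) (nat_lit 152) (nat_lit 1090680643551) (nat_lit 0) (nat_lit 8030839843167) (nat_lit 3) (nat_lit 5) (nat_lit 5) (nat_lit 4) (nat_lit 3) (nat_lit 4) (nat_lit 413) (nat_lit 369) (nat_lit 238)) (XT.nd (nat_lit 78) (nat_lit 0) (nat_lit 0) (XT.lf (nat_lit 0) (nat_lit 2057675102988) (nat_lit 76) (nat_lit 8999963110743) (nat_lit 76) (nat_lit 8736594118351) (nat_lit 2)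 (nat_lit 4) (nat_lit 3) (nat_lit 5) (nat_lit 3) (nat_lit 4) (nat_lit 414) (nat_lit 369) (nat_lit 237)) (XT.lf (nat_lit 0) (nat_lit 5800861833558) (nat_lit 76) (nat_lit 8491733012929) (nat_lit 76) (nat_lit 8228364020203) (nat_lit 2) (nat_lit 4) (nat_lit 3) (nat_lit 5) (nat_lit 3) (nat_lit 4) (nat_lit 415) (nat_lit 369) (nat_lit 236))))) (XT.nd (nat_lit 234) (nat_lit 0) (nat_lit 0) (XT.nd (nat_lit 78) (nat_lit 0) (nat_lit 0) (XT.lf (nat_lit 0) (nat_lit 10105526565570) (nat_lit 76) (nat_lit 7907268404755) (nat_lit 76) (nat_lit 7643899411738) (nat_lit 2) (nat_lit 4) (nat_lit 3) (nat_lit 5) (nat_lit 3) (nat_lit 4) (nat_lit 416) (nat_lit 369) (nat_lit 235)) (XT.nd (nat_lit 78) (nat_lit 0) (nat_lit 0) (XT.lf (nat_lit 0) (nat_lit 15055891000300) (nat_lit 76) (nat_lit 7235134109105) (nat_lit 76) (nat_lit 6971765115836) (nat_lit 2) (nat_lit 4) (nat_lit 3) (nat_lit 5) (nat_lit 3) (nat_lit 4) (nat_lit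 417) (nat_lit 369) (nat_lit 234)) (XT.lf (nat_lit 0) (nat_lit 20748810094082) (nat_lit 76) (nat_lit 6462179672370) (nat_lit 76) (nat_lit 6198810678881) (nat_lit 2) (nat_lit 4) (nat_lit 3) (nat_lit 5) (nat_lit 3) (nat_lit 4) (nat_lit 418) (nat_lit 369) (nat_lit 233)))) (XT.nd (nat_lit 78) (nat_lit 0) (nat_lit 0) (XT.lf (nat_lit 0) (nat_lit 27295667046575) (nat_lit 76) (nat_lit 5573282072960) (nat_lit 76) (nat_lit 5309913079280) (nat_lit 2) (nat_lit 4) (nat_lit 3) (nat_lit 5) (nat_lit 3) (nat_lit 4) (nat_lit 419) (nat_lit 369) (nat_lit 232)) (XT.nd (nat_lit 78) (nat_lit 0) (nat_lit 0) (XT.lf (nat_lit 0) (nat_lit 34824552537285) (nat_lit 76) (nat_lit 4551049836104) (nat_lit 76) (nat_lit 4287680842258) (nat_lit 2) (nat_lit 4) (nat_lit 3) (nat_lit 5) (nat_lit 3) (nat_lit 4) (nat_lit 420) (nat_lit 369) (nat_lit 231)) (XT.lf (nat_lit 0) (nat_lit 43482770847553) (nat_lit 76) (nat_lit 3375482765865)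 (nat_lit 76) (nat_lit 3112113771874) (nat_lit 2) (nat_lit 4) (nat_lit 3) (nat_lit 5) (nat_lit 3) (nat_lit 4) (nat_lit 421) (nat_lit 369) (nat_lit 230)))))) (XT.nd (nat_lit 468) (nat_lit 0) (nat_lit 0) (XT.nd (nat_lit 234) (nat_lit 0) (nat_lit 0) (XT.nd (nat_lit 78) (nat_lit 76) (nat_lit 0) (XT.lf (nat_lit 0) (nat_lit 53439721900839) (nat_lit 76) (nat_lit 2023580636954) (nat_lit 76) (nat_lit 1760211642838) (nat_lit 2) (nat_lit 4) (nat_lit 3) (nat_lit 5) (nat_lit 3) (nat_lit 4) (nat_lit 422) (nat_lit 369) (nat_lit 229)) (XT.nd (nat_lit 78) (nat_lit 76) (nat_lit 0) (XT.lf (nat_lit 0) (nat_lit 64890215609056) (nat_lit 76) (nat_lit 468893190328) (nat_lit 76) (nat_lit 205524196103) (nat_lit 2) (nat_lit 4) (nat_lit 3) (nat_lit 5) (nat_lit 3) (nat_lit 4) (nat_lit 423) (nat_lit 369) (nat_lit 228)) (XT.lf (nat_lit 0) (nat_lit 1634270216443) (nat_lit 76) (nat_lit 72078650797191) (nat_lit 0) (nat_lit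 1405253699643) (nat_lit 1) (nat_lit 5) (nat_lit 2) (nat_lit 4) (nat_lit 1) (nat_lit 4) (nat_lit 424) (nat_lit 369) (nat_lit 227)))) (XT.nd (nat_lit 78) (nat_lit 0) (nat_lit 0) (XT.lf (nat_lit 0) (nat_lit 3788252654471) (nat_lit 76) (nat_lit 78746901772710) (nat_lit 0) (nat_lit 3559236137599) (nat_lit 1) (nat_lit 5) (nat_lit 2) (nat_lit 4) (nat_lit 1) (nat_lit 4) (nat_lit 425) (nat_lit 369) (nat_lit 226)) (XT.nd (nat_lit 78) (nat_lit 0) (nat_lit 0) (XT.lf (nat_lit 0) (nat_lit 6265332457065) (nat_lit 76) (nat_lit 86415390396987) (nat_lit 0) (nat_lit 6036315940131) (nat_lit 1) (nat_lit 5) (nat_lit 2) (nat_lit 4) (nat_lit 1) (nat_lit 4) (nat_lit 426) (nat_lit 369) (nat_lit 225)) (XT.lf (nat_lit 0) (nat_lit 9113974229057) (nat_lit 76) (nat_lit 95234152317017) (nat_lit 0) (nat_lit 8884957712069) (nat_lit 1) (nat_lit 5) (nat_lit 2) (nat_lit 4) (nat_lit 1) (nat_lit 4) (nat_lit 427) (nat_lit 369)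 (nat_lit 224))))) (XT.nd (nat_lit 234) (nat_lit 0) (nat_lit 0) (XT.nd (nat_lit 78) (nat_lit 0) (nat_lit 0) (XT.lf (nat_lit 0) (nat_lit 12389912265987) (nat_lit 76) (nat_lit 105375728526888) (nat_lit 0) (nat_lit 12160895748951) (nat_lit 1) (nat_lit 5) (nat_lit 2) (nat_lit 4) (nat_lit 1) (nat_lit 4) (nat_lit 428) (nat_lit 369) (nat_lit 223)) (XT.nd (nat_lit 78) (nat_lit 0) (nat_lit 0) (XT.lf (nat_lit 0) (nat_lit 16157241007707) (nat_lit 76) (nat_lit 117038541169837) (nat_lit 0) (nat_lit 15928224490630) (nat_lit 1) (nat_lit 5) (nat_lit 2) (nat_lit 4) (nat_lit 1) (nat_lit 4) (nat_lit 429) (nat_lit 369) (nat_lit 222)) (XT.lf (nat_lit 0) (nat_lit 20489669060034) (nat_lit 76) (nat_lit 130450775710617) (nat_lit 0) (nat_lit 20260652542922) (nat_lit 1) (nat_lit 5) (nat_lit 2) (nat_lit 4) (nat_lit 1) (nat_lit 4) (nat_lit 430) (nat_lit 369) (nat_lit 221)))) (XT.nd (nat_lit 48360) (nat_lit 0) (nat_lit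 2432) (XT.nd (nat_lit 78) (nat_lit 0) (nat_lit 0) (XT.lf (nat_lit 0) (nat_lit 25471961319644) (nat_lit 76) (nat_lit 145874845433722) (nat_lit 0) (nat_lit 25242944802501) (nat_lit 1) (nat_lit 5) (nat_lit 2) (nat_lit 4) (nat_lit 1) (nat_lit 4) (nat_lit 431) (nat_lit 369) (nat_lit 220)) (XT.lf (nat_lit 0) (nat_lit 31201597417703) (nat_lit 76) (nat_lit 163612525616342) (nat_lit 0) (nat_lit 30972580900532) (nat_lit 1) (nat_lit 5) (nat_lit 2) (nat_lit 4) (nat_lit 1) (nat_lit 4) (nat_lit 432) (nat_lit 369) (nat_lit 219))) (XT.nd (nat_lit 78) (nat_lit 0) (nat_lit 0) (XT.lf (nat_lit 0) (nat_lit 37441620876) (nat_lit 380) (nat_lit 48379245668) (nat_lit 380) (nat_lit 48379245668) (nat_lit 33) (nat_lit 3) (nat_lit 38) (nat_lit 3) (nat_lit 38) (nat_lit 5) (nat_lit 370) (nat_lit 370) (nat_lit 280)) (XT.lf (nat_lit 76) (nat_lit 39242892283) (nat_lit 0) (nat_lit 42882396824) (nat_lit 380) (nat_lit 206161080922)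 (nat_lit 34) (nat_lit 5) (nat_lit 33) (nat_lit 3) (nat_lit 38) (nat_lit 5) (nat_lit 371) (nat_lit 370) (nat_lit 279))))))))
noncomputable def xc95 : XT := (XT.nd (nat_lit 1950) (nat_lit 760) (nat_lit 0) (XT.nd (nat_lit 936) (nat_lit 912) (nat_lit 0) (XT.nd (nat_lit 468) (nat_lit 380) (nat_lit 0) (XT.nd (nat_lit 234) (nat_lit 380) (nat_lit 0) (XT.nd (nat_lit 78) (nat_lit 0) (nat_lit 0) (XT.lf (nat_lit 0) (nat_lit 100107900227) (nat_lit 304) (nat_lit 108474641915) (nat_lit 380) (nat_lit 101124756939) (nat_lit 34) (nat_lit 5) (nat_lit 38) (nat_lit 5) (nat_lit 39) (nat_lit 5) (nat_lit 372) (nat_lit 370) (nat_lit 278)) (XT.nd (nat_lit 78) (nat_lit 0) (nat_lit 76) (XT.lf (nat_lit 76) (nat_lit 56134914301) (nat_lit 0) (nat_lit 69019303409) (nat_lit 380) (nat_lit 208532202666) (nat_lit 35) (nat_lit 5) (nat_lit 34) (nat_lit 5) (nat_lit 39) (nat_lit 5) (nat_lit 373) (nat_lit 370) (nat_lit 277))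 (XT.lf (nat_lit 0) (nat_lit 163685569650) (nat_lit 304) (nat_lit 106842952737) (nat_lit 76) (nat_lit 89274674534) (nat_lit 35) (nat_lit 5) (nat_lit 39) (nat_lit 5) (nat_lit 36) (nat_lit 5) (nat_lit 374) (nat_lit 370) (nat_lit 276)))) (XT.nd (nat_lit 78) (nat_lit 152) (nat_lit 0) (XT.lf (nat_lit 0) (nat_lit 94607786721) (nat_lit 304) (nat_lit 120592875662) (nat_lit 380) (nat_lit 173556221935) (nat_lit 31) (nat_lit 5) (nat_lit 35) (nat_lit 5) (nat_lit 36) (nat_lit 5) (nat_lit 375) (nat_lit 370) (nat_lit 275)) (XT.nd (nat_lit 78) (nat_lit 152) (nat_lit 0) (XT.lf (nat_lit 0) (nat_lit 282440148376) (nat_lit 380) (nat_lit 85344412760) (nat_lit 76) (nat_lit 53069494346) (nat_lit 31) (nat_lit 5) (nat_lit 36) (nat_lit 5) (nat_lit 32) (nat_lit 5) (nat_lit 376) (nat_lit 370) (nat_lit 274)) (XT.lf (nat_lit 0) (nat_lit 163603472030) (nat_lit 152) (nat_lit 208678993028) (nat_lit 228) (nat_lit 83605801147)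 (nat_lit 29) (nat_lit 5) (nat_lit 31) (nat_lit 5) (nat_lit 32) (nat_lit 5) (nat_lit 377) (nat_lit 370) (nat_lit 273))))) (XT.nd (nat_lit 234) (nat_lit 76) (nat_lit 0) (XT.nd (nat_lit 78) (nat_lit 304) (nat_lit 0) (XT.lf (nat_lit 0) (nat_lit 459484994870) (nat_lit 152) (nat_lit 20577245315) (nat_lit 228) (nat_lit 15446201756) (nat_lit 29) (nat_lit 5) (nat_lit 31) (nat_lit 5) (nat_lit 32) (nat_lit 5) (nat_lit 378) (nat_lit 370) (nat_lit 272)) (XT.nd (nat_lit 78) (nat_lit 152) (nat_lit 0) (XT.lf (nat_lit 0) (nat_lit 77757271338) (nat_lit 152) (nat_lit 266622306771) (nat_lit 76) (nat_lit 193237693202) (nat_lit 27) (nat_lit 5) (nat_lit 29) (nat_lit 5) (nat_lit 28) (nat_lit 5) (nat_lit 379) (nat_lit 370) (nat_lit 271)) (XT.lf (nat_lit 0) (nat_lit 44512347661) (nat_lit 152) (nat_lit 143643200489) (nat_lit 228) (nat_lit 397057195014) (nat_lit 25) (nat_lit 5) (nat_lit 27) (nat_lit 5) (nat_lit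 28) (nat_lit 5) (nat_lit 380) (nat_lit 370) (nat_lit 270)))) (XT.nd (nat_lit 78) (nat_lit 76) (nat_lit 0) (XT.lf (nat_lit 0) (nat_lit 333325168575) (nat_lit 228) (nat_lit 209849744873) (nat_lit 76) (nat_lit 94040882061) (nat_lit 25) (nat_lit 5) (nat_lit 28) (nat_lit 5) (nat_lit 26) (nat_lit 4) (nat_lit 381) (nat_lit 370) (nat_lit 269)) (XT.nd (nat_lit 78) (nat_lit 0) (nat_lit 0) (XT.lf (nat_lit 0) (nat_lit 179794848756) (nat_lit 76) (nat_lit 334760404989) (nat_lit 152) (nat_lit 180321298731) (nat_lit 24) (nat_lit 5) (nat_lit 25) (nat_lit 5) (nat_lit 26) (nat_lit 4) (nat_lit 382) (nat_lit 370) (nat_lit 268)) (XT.lf (nat_lit 0) (nat_lit 651470302004) (nat_lit 76) (nat_lit 82468919676) (nat_lit 152) (nat_lit 25601795827) (nat_lit 24) (nat_lit 5) (nat_lit 25) (nat_lit 5) (nat_lit 26) (nat_lit 4) (nat_lit 383) (nat_lit 370) (nat_lit 267)))))) (XT.nd (nat_lit 468) (nat_lit 456) (nat_lit 0)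 (XT.nd (nat_lit 234) (nat_lit 228) (nat_lit 0) (XT.nd (nat_lit 78) (nat_lit 76) (nat_lit 0) (XT.lf (nat_lit 0) (nat_lit 164505993062) (nat_lit 152) (nat_lit 451963499502) (nat_lit 76) (nat_lit 212628321549) (nat_lit 22) (nat_lit 5) (nat_lit 24) (nat_lit 5) (nat_lit 23) (nat_lit 4) (nat_lit 384) (nat_lit 370) (nat_lit 266)) (XT.nd (nat_lit 78) (nat_lit 0) (nat_lit 0) (XT.lf (nat_lit 0) (nat_lit 36894295086) (nat_lit 76) (nat_lit 354987440187) (nat_lit 152) (nat_lit 515317586796) (nat_lit 21) (nat_lit 5) (nat_lit 22) (nat_lit 5) (nat_lit 23) (nat_lit 4) (nat_lit 385) (nat_lit 370) (nat_lit 265)) (XT.lf (nat_lit 0) (nat_lit 649875221598) (nat_lit 76) (nat_lit 27113942048) (nat_lit 152) (nat_lit 316483093858) (nat_lit 21) (nat_lit 5) (nat_lit 22) (nat_lit 5) (nat_lit 23) (nat_lit 4) (nat_lit 386) (nat_lit 370) (nat_lit 264)))) (XT.nd (nat_lit 78) (nat_lit 152) (nat_lit 0) (XT.lf (nat_lit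 0) (nat_lit 271826685675) (nat_lit 76) (nat_lit 758782041339) (nat_lit 76) (nat_lit 58215503139) (nat_lit 20) (nat_lit 4) (nat_lit 21) (nat_lit 5) (nat_lit 21) (nat_lit 4) (nat_lit 387) (nat_lit 370) (nat_lit 263)) (XT.nd (nat_lit 78) (nat_lit 76) (nat_lit 0) (XT.lf (nat_lit 0) (nat_lit 237640423786) (nat_lit 152) (nat_lit 189639656312) (nat_lit 76) (nat_lit 766699667153) (nat_lit 19) (nat_lit 5) (nat_lit 21) (nat_lit 5) (nat_lit 20) (nat_lit 4) (nat_lit 388) (nat_lit 370) (nat_lit 262)) (XT.lf (nat_lit 0) (nat_lit 580752273643) (nat_lit 76) (nat_lit 15209989860) (nat_lit 152) (nat_lit 714923351033) (nat_lit 18) (nat_lit 5) (nat_lit 19) (nat_lit 5) (nat_lit 20) (nat_lit 4) (nat_lit 389) (nat_lit 370) (nat_lit 261))))) (XT.nd (nat_lit 234) (nat_lit 228) (nat_lit 0) (XT.nd (nat_lit 78) (nat_lit 152) (nat_lit 0) (XT.lf (nat_lit 0) (nat_lit 27125732771) (nat_lit 76) (nat_lit 1011407435809)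 (nat_lit 76) (nat_lit 402219074930) (nat_lit 17) (nat_lit 4) (nat_lit 18) (nat_lit 5) (nat_lit 18) (nat_lit 4) (nat_lit 390) (nat_lit 370) (nat_lit 260)) (XT.nd (nat_lit 78) (nat_lit 76) (nat_lit 0) (XT.lf (nat_lit 0) (nat_lit 1891952237) (nat_lit 152) (nat_lit 605120680294) (nat_lit 76) (nat_lit 977244725283) (nat_lit 16) (nat_lit 5) (nat_lit 18) (nat_lit 5) (nat_lit 17) (nat_lit 4) (nat_lit 391) (nat_lit 370) (nat_lit 259)) (XT.lf (nat_lit 0) (nat_lit 335364117005) (nat_lit 76) (nat_lit 103962631437) (nat_lit 152) (nat_lit 1305005494394) (nat_lit 15) (nat_lit 5) (nat_lit 16) (nat_lit 5) (nat_lit 17) (nat_lit 4) (nat_lit 392) (nat_lit 370) (nat_lit 258)))) (XT.nd (nat_lit 156) (nat_lit 152) (nat_lit 0) (XT.nd (nat_lit 78) (nat_lit 76) (nat_lit 0) (XT.lf (nat_lit 0) (nat_lit 995164190598) (nat_lit 152) (nat_lit 459900913090) (nat_lit 0) (nat_lit 465435142950) (nat_lit 15) (nat_lit 5)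 (nat_lit 17) (nat_lit 4) (nat_lit 15) (nat_lit 4) (nat_lit 393) (nat_lit 370) (nat_lit 257)) (XT.lf (nat_lit 0) (nat_lit 687809272978) (nat_lit 76) (nat_lit 979999270540) (nat_lit 76) (nat_lit 450270213329) (nat_lit 14) (nat_lit 4) (nat_lit 15) (nat_lit 5) (nat_lit 15) (nat_lit 4) (nat_lit 394) (nat_lit 370) (nat_lit 256))) (XT.nd (nat_lit 78) (nat_lit 76) (nat_lit 0) (XT.lf (nat_lit 0) (nat_lit 112689008264) (nat_lit 152) (nat_lit 287447697757) (nat_lit 76) (nat_lit 1940782965344) (nat_lit 13) (nat_lit 5) (nat_lit 15) (nat_lit 5) (nat_lit 14) (nat_lit 4) (nat_lit 395) (nat_lit 370) (nat_lit 255)) (XT.lf (nat_lit 0) (nat_lit 773931805442) (nat_lit 152) (nat_lit 1497750054839) (nat_lit 0) (nat_lit 313297829131) (nat_lit 12) (nat_lit 5) (nat_lit 14) (nat_lit 4) (nat_lit 12) (nat_lit 4) (nat_lit 396) (nat_lit 370) (nat_lit 254))))))) (XT.nd (nat_lit 936) (nat_lit 228) (nat_lit 0) (XT.nd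 (nat_lit 468) (nat_lit 228) (nat_lit 0) (XT.nd (nat_lit 234) (nat_lit 152) (nat_lit 0) (XT.nd (nat_lit 78) (nat_lit 152) (nat_lit 0) (XT.lf (nat_lit 0) (nat_lit 1569156315408) (nat_lit 152) (nat_lit 182750767147) (nat_lit 0) (nat_lit 1108522333630) (nat_lit 12) (nat_lit 5) (nat_lit 14) (nat_lit 4) (nat_lit 12) (nat_lit 4) (nat_lit 397) (nat_lit 370) (nat_lit 253)) (XT.nd (nat_lit 78) (nat_lit 76) (nat_lit 0) (XT.lf (nat_lit 0) (nat_lit 1459426630257) (nat_lit 76) (nat_lit 1084669599531) (nat_lit 76) (nat_lit 624035612998) (nat_lit 11) (nat_lit 4) (nat_lit 12) (nat_lit 5) (nat_lit 12) (nat_lit 4) (nat_lit 398) (nat_lit 370) (nat_lit 252)) (XT.lf (nat_lit 0) (nat_lit 140538817593) (nat_lit 152) (nat_lit 158475532840) (nat_lit 76) (nat_lit 3220584133954) (nat_lit 10) (nat_lit 5) (nat_lit 12) (nat_lit 5) (nat_lit 11) (nat_lit 4) (nat_lit 399) (nat_lit 370) (nat_lit 251)))) (XT.nd (nat_lit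 78) (nat_lit 76) (nat_lit 0) (XT.lf (nat_lit 0) (nat_lit 1058287720208) (nat_lit 152) (nat_lit 2187946933762) (nat_lit 0) (nat_lit 657736420850) (nat_lit 9) (nat_lit 5) (nat_lit 11) (nat_lit 4) (nat_lit 9) (nat_lit 4) (nat_lit 400) (nat_lit 370) (nat_lit 250)) (XT.nd (nat_lit 78) (nat_lit 76) (nat_lit 0) (XT.lf (nat_lit 0) (nat_lit 2136616144549) (nat_lit 152) (nat_lit 469880988847) (nat_lit 0) (nat_lit 1736064842473) (nat_lit 9) (nat_lit 5) (nat_lit 11) (nat_lit 4) (nat_lit 9) (nat_lit 4) (nat_lit 401) (nat_lit 370) (nat_lit 249)) (XT.lf (nat_lit 0) (nat_lit 1653061815794) (nat_lit 76) (nat_lit 1792081768947) (nat_lit 76) (nat_lit 1391530464506) (nat_lit 8) (nat_lit 4) (nat_lit 9) (nat_lit 5) (nat_lit 9) (nat_lit 4) (nat_lit 402) (nat_lit 370) (nat_lit 248))))) (XT.nd (nat_lit 234) (nat_lit 76) (nat_lit 0) (XT.nd (nat_lit 78) (nat_lit 152) (nat_lit 0) (XT.lf (nat_lit 0) (nat_lit 4147254232028)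 (nat_lit 76) (nat_lit 827257857879) (nat_lit 76) (nat_lit 426706551383) (nat_lit 8) (nat_lit 4) (nat_lit 9) (nat_lit 5) (nat_lit 9) (nat_lit 4) (nat_lit 403) (nat_lit 370) (nat_lit 247)) (XT.nd (nat_lit 78) (nat_lit 0) (nat_lit 0) (XT.lf (nat_lit 0) (nat_lit 679697324641) (nat_lit 152) (nat_lit 5026467370326) (nat_lit 0) (nat_lit 331391839177) (nat_lit 6) (nat_lit 5) (nat_lit 8) (nat_lit 4) (nat_lit 6) (nat_lit 4) (nat_lit 404) (nat_lit 370) (nat_lit 246)) (XT.lf (nat_lit 0) (nat_lit 2016437859096) (nat_lit 152) (nat_lit 3065517570589) (nat_lit 0) (nat_lit 1668132372281) (nat_lit 6) (nat_lit 5) (nat_lit 8) (nat_lit 4) (nat_lit 6) (nat_lit 4) (nat_lit 405) (nat_lit 370) (nat_lit 245)))) (XT.nd (nat_lit 78) (nat_lit 76) (nat_lit 0) (XT.lf (nat_lit 0) (nat_lit 3553689464384) (nat_lit 152) (nat_lit 810425320587) (nat_lit 0) (nat_lit 3205383976393) (nat_lit 6) (nat_lit 5) (nat_lit 8) (nat_lit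 4) (nat_lit 6) (nat_lit 4) (nat_lit 406) (nat_lit 370) (nat_lit 244)) (XT.nd (nat_lit 78) (nat_lit 0) (nat_lit 0) (XT.lf (nat_lit 0) (nat_lit 1957171709427) (nat_lit 76) (nat_lit 3445399399726) (nat_lit 76) (nat_lit 3097093910713) (nat_lit 5) (nat_lit 4) (nat_lit 6) (nat_lit 5) (nat_lit 6) (nat_lit 4) (nat_lit 407) (nat_lit 370) (nat_lit 243)) (XT.lf (nat_lit 0) (nat_lit 5230989032377) (nat_lit 76) (nat_lit 2340159102284) (nat_lit 76) (nat_lit 1991853612382) (nat_lit 5) (nat_lit 4) (nat_lit 6) (nat_lit 5) (nat_lit 6) (nat_lit 4) (nat_lit 408) (nat_lit 370) (nat_lit 242)))))) (XT.nd (nat_lit 468) (nat_lit 76) (nat_lit 0) (XT.nd (nat_lit 234) (nat_lit 0) (nat_lit 0) (XT.nd (nat_lit 78) (nat_lit 152) (nat_lit 0) (XT.lf (nat_lit 0) (nat_lit 8995878939553) (nat_lit 76) (nat_lit 1069132767713) (nat_lit 76) (nat_lit 720827277039) (nat_lit 5) (nat_lit 4) (nat_lit 6) (nat_lit 5) (nat_lit 6) (nat_lit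 4) (nat_lit 409) (nat_lit 370) (nat_lit 241)) (XT.nd (nat_lit 78) (nat_lit 0) (nat_lit 0) (XT.lf (nat_lit 0) (nat_lit 745123152841) (nat_lit 152) (nat_lit 10989594369971) (nat_lit 0) (nat_lit 442248812540) (nat_lit 3) (nat_lit 5) (nat_lit 5) (nat_lit 4) (nat_lit 3) (nat_lit 4) (nat_lit 410) (nat_lit 370) (nat_lit 240)) (XT.lf (nat_lit 0) (nat_lit 2506099863641) (nat_lit 152) (nat_lit 9039948731384) (nat_lit 0) (nat_lit 2203225522832) (nat_lit 3) (nat_lit 5) (nat_lit 5) (nat_lit 4) (nat_lit 3) (nat_lit 4) (nat_lit 411) (nat_lit 370) (nat_lit 239)))) (XT.nd (nat_lit 78) (nat_lit 0) (nat_lit 0) (XT.lf (nat_lit 0) (nat_lit 4531223075747) (nat_lit 152) (nat_lit 6797856258293) (nat_lit 0) (nat_lit 4228348734496) (nat_lit 3) (nat_lit 5) (nat_lit 5) (nat_lit 4) (nat_lit 3) (nat_lit 4) (nat_lit 412) (nat_lit 370) (nat_lit 238)) (XT.nd (nat_lit 78) (nat_lit 0) (nat_lit 0) (XT.lf (nat_lit 0) (nat_lit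 6860114765047) (nat_lit 152) (nat_lit 4219449924052) (nat_lit 0) (nat_lit 6557240423412) (nat_lit 3) (nat_lit 5) (nat_lit 5) (nat_lit 4) (nat_lit 3) (nat_lit 4) (nat_lit 413) (nat_lit 370) (nat_lit 237)) (XT.lf (nat_lit 0) (nat_lit 9538340203723) (nat_lit 152) (nat_lit 1254282648207) (nat_lit 0) (nat_lit 9235465861754) (nat_lit 3) (nat_lit 5) (nat_lit 5) (nat_lit 4) (nat_lit 3) (nat_lit 4) (nat_lit 414) (nat_lit 370) (nat_lit 236))))) (XT.nd (nat_lit 234) (nat_lit 0) (nat_lit 0) (XT.nd (nat_lit 78) (nat_lit 0) (nat_lit 0) (XT.lf (nat_lit 0) (nat_lit 2366326456136) (nat_lit 76) (nat_lit 10349957530914) (nat_lit 76) (nat_lit 10047083188655) (nat_lit 2) (nat_lit 4) (nat_lit 3) (nat_lit 5) (nat_lit 3) (nat_lit 4) (nat_lit 415) (nat_lit 370) (nat_lit 235)) (XT.nd (nat_lit 78) (nat_lit 0) (nat_lit 0) (XT.lf (nat_lit 0) (nat_lit 6670991184853) (nat_lit 76) (nat_lit 9765492924485) (nat_lit 76)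 (nat_lit 9462618581973) (nat_lit 2) (nat_lit 4) (nat_lit 3) (nat_lit 5) (nat_lit 3) (nat_lit 4) (nat_lit 416) (nat_lit 370) (nat_lit 234)) (XT.lf (nat_lit 0) (nat_lit 11621355616719) (nat_lit 76) (nat_lit 9093358630352) (nat_lit 76) (nat_lit 8790484287621) (nat_lit 2) (nat_lit 4) (nat_lit 3) (nat_lit 5) (nat_lit 3) (nat_lit 4) (nat_lit 417) (nat_lit 370) (nat_lit 233)))) (XT.nd (nat_lit 156) (nat_lit 0) (nat_lit 0) (XT.nd (nat_lit 78) (nat_lit 0) (nat_lit 0) (XT.lf (nat_lit 0) (nat_lit 17314274708010) (nat_lit 76) (nat_lit 8320404194936) (nat_lit 76) (nat_lit 8017529852013) (nat_lit 2) (nat_lit 4) (nat_lit 3) (nat_lit 5) (nat_lit 3) (nat_lit 4) (nat_lit 418) (nat_lit 370) (nat_lit 232)) (XT.lf (nat_lit 0) (nat_lit 23861131658337) (nat_lit 76) (nat_lit 7431506596673) (nat_lit 76) (nat_lit 7128632253584) (nat_lit 2) (nat_lit 4) (nat_lit 3) (nat_lit 5) (nat_lit 3) (nat_lit 4) (nat_lit 419)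 (nat_lit 370) (nat_lit 231))) (XT.nd (nat_lit 78) (nat_lit 0) (nat_lit 0) (XT.lf (nat_lit 0) (nat_lit 31390017147164) (nat_lit 76) (nat_lit 6409274360815) (nat_lit 76) (nat_lit 6106400017581) (nat_lit 2) (nat_lit 4) (nat_lit 3) (nat_lit 5) (nat_lit 3) (nat_lit 4) (nat_lit 420) (nat_lit 370) (nat_lit 230)) (XT.lf (nat_lit 0) (nat_lit 40048235455793) (nat_lit 76) (nat_lit 5233707291442) (nat_lit 76) (nat_lit 4930832948084) (nat_lit 2) (nat_lit 4) (nat_lit 3) (nat_lit 5) (nat_lit 3) (nat_lit 4) (nat_lit 421) (nat_lit 370) (nat_lit 229))))))))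
noncomputable def xc96 : XT := (XT.nd (nat_lit 50310) (nat_lit 0) (nat_lit 304) (XT.nd (nat_lit 49374) (nat_lit 0) (nat_lit 1596) (XT.nd (nat_lit 546) (nat_lit 0) (nat_lit 0) (XT.nd (nat_lit 312) (nat_lit 76) (nat_lit 0) (XT.nd (nat_lit 78) (nat_lit 0) (nat_lit 0) (XT.lf (nat_lit 0) (nat_lit 50005186507656) (nat_lit 76) (nat_lit 3881805163286) (nat_lit 76) (nat_lit 3578930819818) (nat_lit 2) (nat_lit 4) (nat_lit 3) (nat_lit 5) (nat_lit 3) (nat_lit 4) (nat_lit 422) (nat_lit 370) (nat_lit 228)) (XT.nd (nat_lit 78) (nat_lit 0) (nat_lit 0) (XT.lf (nat_lit 0) (nat_lit 61455680214634) (nat_lit 76) (nat_lit 2327117717316) (nat_lit 76) (nat_lit 2024243373753) (nat_lit 2) (nat_lit 4) (nat_lit 3) (nat_lit 5) (nat_lit 3) (nat_lit 4) (nat_lit 423) (nat_lit 370) (nat_lit 227)) (XT.lf (nat_lit 0) (nat_lit 74623747975345) (nat_lit 76) (nat_lit 539227155676) (nat_lit 76) (nat_lit 236352812030) (nat_lit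 2) (nat_lit 4) (nat_lit 3) (nat_lit 5) (nat_lit 3) (nat_lit 4) (nat_lit 424) (nat_lit 370) (nat_lit 226)))) (XT.nd (nat_lit 78) (nat_lit 0) (nat_lit 0) (XT.lf (nat_lit 0) (nat_lit 4356490563307) (nat_lit 76) (nat_lit 90558937015875) (nat_lit 0) (nat_lit 4093121568716) (nat_lit 1) (nat_lit 5) (nat_lit 2) (nat_lit 4) (nat_lit 1) (nat_lit 4) (nat_lit 426) (nat_lit 370) (nat_lit 224)) (XT.nd (nat_lit 78) (nat_lit 0) (nat_lit 0) (XT.lf (nat_lit 0) (nat_lit 7205132334899) (nat_lit 76) (nat_lit 99377698936759) (nat_lit 0) (nat_lit 6941763340261) (nat_lit 1) (nat_lit 5) (nat_lit 2) (nat_lit 4) (nat_lit 1) (nat_lit 4) (nat_lit 427) (nat_lit 370) (nat_lit 223)) (XT.lf (nat_lit 0) (nat_lit 10481070371480) (nat_lit 76) (nat_lit 109519275147373) (nat_lit 0) (nat_lit 10217701376801) (nat_lit 1) (nat_lit 5) (nat_lit 2) (nat_lit 4) (nat_lit 1) (nat_lit 4) (nat_lit 428) (nat_lit 370) (nat_lit 222)))))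 (XT.nd (nat_lit 48594) (nat_lit 0) (nat_lit 2432) (XT.nd (nat_lit 78) (nat_lit 0) (nat_lit 0) (XT.lf (nat_lit 0) (nat_lit 14248399112898) (nat_lit 76) (nat_lit 121182087790968) (nat_lit 0) (nat_lit 13985030118183) (nat_lit 1) (nat_lit 5) (nat_lit 2) (nat_lit 4) (nat_lit 1) (nat_lit 4) (nat_lit 429) (nat_lit 370) (nat_lit 221)) (XT.nd (nat_lit 78) (nat_lit 0) (nat_lit 0) (XT.lf (nat_lit 0) (nat_lit 18580827164961) (nat_lit 76) (nat_lit 134594322332310) (nat_lit 0) (nat_lit 18317458170215) (nat_lit 1) (nat_lit 5) (nat_lit 2) (nat_lit 4) (nat_lit 1) (nat_lit 4) (nat_lit 430) (nat_lit 370) (nat_lit 220)) (XT.lf (nat_lit 0) (nat_lit 23563119424342) (nat_lit 76) (nat_lit 150018392055903) (nat_lit 0) (nat_lit 23299750429569) (nat_lit 1) (nat_lit 5) (nat_lit 2) (nat_lit 4) (nat_lit 1) (nat_lit 4) (nat_lit 431) (nat_lit 370) (nat_lit 219)))) (XT.nd (nat_lit 78) (nat_lit 0) (nat_lit 0) (XT.lf (nat_lit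 0) (nat_lit 43058668976) (nat_lit 380) (nat_lit 55635669377) (nat_lit 380) (nat_lit 55635669377) (nat_lit 33) (nat_lit 3) (nat_lit 38) (nat_lit 3) (nat_lit 38) (nat_lit 5) (nat_lit 371) (nat_lit 371) (nat_lit 278)) (XT.nd (nat_lit 78) (nat_lit 0) (nat_lit 76) (XT.lf (nat_lit 76) (nat_lit 45130210306) (nat_lit 0) (nat_lit 49315308724) (nat_lit 380) (nat_lit 237083590029) (nat_lit 34) (nat_lit 5) (nat_lit 33) (nat_lit 3) (nat_lit 38) (nat_lit 5) (nat_lit 372) (nat_lit 371) (nat_lit 277)) (XT.lf (nat_lit 0) (nat_lit 115125314551) (nat_lit 304) (nat_lit 124744861220) (nat_lit 380) (nat_lit 116293032915) (nat_lit 34) (nat_lit 5) (nat_lit 38) (nat_lit 5) (nat_lit 39) (nat_lit 5) (nat_lit 373) (nat_lit 371) (nat_lit 276)))))) (XT.nd (nat_lit 468) (nat_lit 532) (nat_lit 0) (XT.nd (nat_lit 234) (nat_lit 152) (nat_lit 0) (XT.nd (nat_lit 78) (nat_lit 228) (nat_lit 0) (XT.lf (nat_lit 76) (nat_lit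 64556084019) (nat_lit 0) (nat_lit 79372373911) (nat_lit 380) (nat_lit 239810758618) (nat_lit 35) (nat_lit 5) (nat_lit 34) (nat_lit 5) (nat_lit 39) (nat_lit 5) (nat_lit 374) (nat_lit 371) (nat_lit 275)) (XT.nd (nat_lit 78) (nat_lit 304) (nat_lit 0) (XT.lf (nat_lit 0) (nat_lit 188239361895) (nat_lit 304) (nat_lit 122868433296) (nat_lit 76) (nat_lit 102665737096) (nat_lit 35) (nat_lit 5) (nat_lit 39) (nat_lit 5) (nat_lit 36) (nat_lit 5) (nat_lit 375) (nat_lit 371) (nat_lit 274)) (XT.lf (nat_lit 0) (nat_lit 108799873338) (nat_lit 304) (nat_lit 138681758438) (nat_lit 380) (nat_lit 199588654117) (nat_lit 31) (nat_lit 5) (nat_lit 35) (nat_lit 5) (nat_lit 36) (nat_lit 5) (nat_lit 376) (nat_lit 371) (nat_lit 273)))) (XT.nd (nat_lit 78) (nat_lit 152) (nat_lit 0) (XT.lf (nat_lit 0) (nat_lit 324806928934) (nat_lit 380) (nat_lit 98145163657) (nat_lit 76) (nat_lit 61029956975) (nat_lit 31) (nat_lit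 5) (nat_lit 36) (nat_lit 5) (nat_lit 32) (nat_lit 5) (nat_lit 377) (nat_lit 371) (nat_lit 272)) (XT.nd (nat_lit 78) (nat_lit 0) (nat_lit 0) (XT.lf (nat_lit 0) (nat_lit 188144862442) (nat_lit 152) (nat_lit 239980667776) (nat_lit 228) (nat_lit 96145871178) (nat_lit 29) (nat_lit 5) (nat_lit 31) (nat_lit 5) (nat_lit 32) (nat_lit 5) (nat_lit 378) (nat_lit 371) (nat_lit 271)) (XT.lf (nat_lit 0) (nat_lit 528408500281) (nat_lit 152) (nat_lit 23663680629) (nat_lit 228) (nat_lit 17762436245) (nat_lit 29) (nat_lit 5) (nat_lit 31) (nat_lit 5) (nat_lit 32) (nat_lit 5) (nat_lit 379) (nat_lit 371) (nat_lit 270))))) (XT.nd (nat_lit 234) (nat_lit 228) (nat_lit 0) (XT.nd (nat_lit 78) (nat_lit 152) (nat_lit 0) (XT.lf (nat_lit 0) (nat_lit 89421453734) (nat_lit 152) (nat_lit 306614791921) (nat_lit 76) (nat_lit 222223527317) (nat_lit 27) (nat_lit 5) (nat_lit 29) (nat_lit 5) (nat_lit 28) (nat_lit 5) (nat_lit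 380) (nat_lit 371) (nat_lit 269)) (XT.nd (nat_lit 78) (nat_lit 0) (nat_lit 0) (XT.lf (nat_lit 0) (nat_lit 51190021546) (nat_lit 152) (nat_lit 165189407372) (nat_lit 228) (nat_lit 456615143195) (nat_lit 25) (nat_lit 5) (nat_lit 27) (nat_lit 5) (nat_lit 28) (nat_lit 5) (nat_lit 381) (nat_lit 371) (nat_lit 268)) (XT.lf (nat_lit 0) (nat_lit 383324430693) (nat_lit 228) (nat_lit 241326430125) (nat_lit 76) (nat_lit 108147230779) (nat_lit 25) (nat_lit 5) (nat_lit 28) (nat_lit 5) (nat_lit 26) (nat_lit 4) (nat_lit 382) (nat_lit 371) (nat_lit 267)))) (XT.nd (nat_lit 78) (nat_lit 152) (nat_lit 0) (XT.lf (nat_lit 0) (nat_lit 206764817253) (nat_lit 76) (nat_lit 384974178576) (nat_lit 152) (nat_lit 207368971229) (nat_lit 24) (nat_lit 5) (nat_lit 25) (nat_lit 5) (nat_lit 26) (nat_lit 4) (nat_lit 383) (nat_lit 371) (nat_lit 266)) (XT.nd (nat_lit 78) (nat_lit 152) (nat_lit 0) (XT.lf (nat_lit 0) (nat_lit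 749191491813) (nat_lit 76) (nat_lit 94839007922) (nat_lit 152) (nat_lit 29441611017) (nat_lit 24) (nat_lit 5) (nat_lit 25) (nat_lit 5) (nat_lit 26) (nat_lit 4) (nat_lit 384) (nat_lit 371) (nat_lit 265)) (XT.lf (nat_lit 0) (nat_lit 189182289942) (nat_lit 152) (nat_lit 519757323393) (nat_lit 76) (nat_lit 244522813086) (nat_lit 22) (nat_lit 5) (nat_lit 24) (nat_lit 5) (nat_lit 23) (nat_lit 4) (nat_lit 385) (nat_lit 371) (nat_lit 264))))))) (XT.nd (nat_lit 936) (nat_lit 532) (nat_lit 0) (XT.nd (nat_lit 468) (nat_lit 380) (nat_lit 0) (XT.nd (nat_lit 234) (nat_lit 228) (nat_lit 0) (XT.nd (nat_lit 78) (nat_lit 76) (nat_lit 0) (XT.lf (nat_lit 0) (nat_lit 42429108518) (nat_lit 76) (nat_lit 408235260772) (nat_lit 152) (nat_lit 592614794925) (nat_lit 21) (nat_lit 5) (nat_lit 22) (nat_lit 5) (nat_lit 23) (nat_lit 4) (nat_lit 386) (nat_lit 371) (nat_lit 263)) (XT.nd (nat_lit 78) (nat_lit 76) (nat_lit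 0) (XT.lf (nat_lit 0) (nat_lit 747357086725) (nat_lit 76) (nat_lit 31180776448) (nat_lit 152) (nat_lit 363955184118) (nat_lit 21) (nat_lit 5) (nat_lit 22) (nat_lit 5) (nat_lit 23) (nat_lit 4) (nat_lit 387) (nat_lit 371) (nat_lit 262)) (XT.lf (nat_lit 0) (nat_lit 312601280428) (nat_lit 76) (nat_lit 872599071989) (nat_lit 76) (nat_lit 66947464727) (nat_lit 20) (nat_lit 4) (nat_lit 21) (nat_lit 5) (nat_lit 21) (nat_lit 4) (nat_lit 388) (nat_lit 371) (nat_lit 261)))) (XT.nd (nat_lit 78) (nat_lit 152) (nat_lit 0) (XT.lf (nat_lit 0) (nat_lit 273286775604) (nat_lit 152) (nat_lit 218085061831) (nat_lit 76) (nat_lit 881704828605) (nat_lit 19) (nat_lit 5) (nat_lit 21) (nat_lit 5) (nat_lit 20) (nat_lit 4) (nat_lit 389) (nat_lit 371) (nat_lit 260)) (XT.nd (nat_lit 78) (nat_lit 76) (nat_lit 0) (XT.lf (nat_lit 0) (nat_lit 667865632939) (nat_lit 76) (nat_lit 17491242202) (nat_lit 152) (nat_lit 822161540706)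 (nat_lit 18) (nat_lit 5) (nat_lit 19) (nat_lit 5) (nat_lit 20) (nat_lit 4) (nat_lit 390) (nat_lit 371) (nat_lit 259)) (XT.lf (nat_lit 0) (nat_lit 31195116662) (nat_lit 76) (nat_lit 1163118294383) (nat_lit 76) (nat_lit 462551628869) (nat_lit 17) (nat_lit 4) (nat_lit 18) (nat_lit 5) (nat_lit 18) (nat_lit 4) (nat_lit 391) (nat_lit 371) (nat_lit 258))))) (XT.nd (nat_lit 234) (nat_lit 228) (nat_lit 0) (XT.nd (nat_lit 78) (nat_lit 76) (nat_lit 0) (XT.lf (nat_lit 0) (nat_lit 2175988501) (nat_lit 152) (nat_lit 695888302882) (nat_lit 76) (nat_lit 1123831633553) (nat_lit 16) (nat_lit 5) (nat_lit 18) (nat_lit 5) (nat_lit 17) (nat_lit 4) (nat_lit 392) (nat_lit 371) (nat_lit 257)) (XT.nd (nat_lit 78) (nat_lit 0) (nat_lit 0) (XT.lf (nat_lit 0) (nat_lit 385669192218) (nat_lit 76) (nat_lit 119556799119) (nat_lit 152) (nat_lit 1500756053301) (nat_lit 15) (nat_lit 5) (nat_lit 16) (nat_lit 5) (nat_lit 17)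 (nat_lit 4) (nat_lit 393) (nat_lit 371) (nat_lit 256)) (XT.lf (nat_lit 0) (nat_lit 1144439027909) (nat_lit 152) (nat_lit 528885630154) (nat_lit 0) (nat_lit 535250594238) (nat_lit 15) (nat_lit 5) (nat_lit 17) (nat_lit 4) (nat_lit 15) (nat_lit 4) (nat_lit 394) (nat_lit 371) (nat_lit 255)))) (XT.nd (nat_lit 78) (nat_lit 152) (nat_lit 0) (XT.lf (nat_lit 0) (nat_lit 790981064738) (nat_lit 76) (nat_lit 1126998958400) (nat_lit 76) (nat_lit 517810517499) (nat_lit 14) (nat_lit 4) (nat_lit 15) (nat_lit 5) (nat_lit 15) (nat_lit 4) (nat_lit 395) (nat_lit 371) (nat_lit 254)) (XT.nd (nat_lit 78) (nat_lit 76) (nat_lit 0) (XT.lf (nat_lit 0) (nat_lit 129592539979) (nat_lit 152) (nat_lit 330564486232) (nat_lit 76) (nat_lit 2231900568770) (nat_lit 13) (nat_lit 5) (nat_lit 15) (nat_lit 5) (nat_lit 14) (nat_lit 4) (nat_lit 396) (nat_lit 371) (nat_lit 253)) (XT.lf (nat_lit 0) (nat_lit 890021755043) (nat_lit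 152) (nat_lit 1722412195171) (nat_lit 0) (nat_lit 360292665776) (nat_lit 12) (nat_lit 5) (nat_lit 14) (nat_lit 4) (nat_lit 12) (nat_lit 4) (nat_lit 397) (nat_lit 371) (nat_lit 252)))))) (XT.nd (nat_lit 468) (nat_lit 228) (nat_lit 0) (XT.nd (nat_lit 234) (nat_lit 152) (nat_lit 0) (XT.nd (nat_lit 78) (nat_lit 152) (nat_lit 0) (XT.lf (nat_lit 0) (nat_lit 1804529918185) (nat_lit 152) (nat_lit 210163062311) (nat_lit 0) (nat_lit 1274800824783) (nat_lit 12) (nat_lit 5) (nat_lit 14) (nat_lit 4) (nat_lit 12) (nat_lit 4) (nat_lit 398) (nat_lit 371) (nat_lit 251)) (XT.nd (nat_lit 78) (nat_lit 76) (nat_lit 0) (XT.lf (nat_lit 0) (nat_lit 1678340930162) (nat_lit 76) (nat_lit 1247369881927) (nat_lit 76) (nat_lit 717640784930) (nat_lit 11) (nat_lit 4) (nat_lit 12) (nat_lit 5) (nat_lit 12) (nat_lit 4) (nat_lit 399) (nat_lit 371) (nat_lit 250)) (XT.lf (nat_lit 0) (nat_lit 161619774912) (nat_lit 152) (nat_lit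 182246584060) (nat_lit 76) (nat_lit 3703671877863) (nat_lit 10) (nat_lit 5) (nat_lit 12) (nat_lit 5) (nat_lit 11) (nat_lit 4) (nat_lit 400) (nat_lit 371) (nat_lit 249)))) (XT.nd (nat_lit 78) (nat_lit 76) (nat_lit 0) (XT.lf (nat_lit 0) (nat_lit 1217031012079) (nat_lit 152) (nat_lit 2516138694272) (nat_lit 0) (nat_lit 756397009609) (nat_lit 9) (nat_lit 5) (nat_lit 11) (nat_lit 4) (nat_lit 9) (nat_lit 4) (nat_lit 401) (nat_lit 371) (nat_lit 248)) (XT.nd (nat_lit 78) (nat_lit 76) (nat_lit 0) (XT.lf (nat_lit 0) (nat_lit 2457108682614) (nat_lit 152) (nat_lit 540362894084) (nat_lit 0) (nat_lit 1996474678088) (nat_lit 9) (nat_lit 5) (nat_lit 11) (nat_lit 4) (nat_lit 9) (nat_lit 4) (nat_lit 402) (nat_lit 371) (nat_lit 247)) (XT.lf (nat_lit 0) (nat_lit 1901021320204) (nat_lit 76) (nat_lit 2060893913058) (nat_lit 76) (nat_lit 1600259906745) (nat_lit 8) (nat_lit 4) (nat_lit 9) (nat_lit 5) (nat_lit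 9) (nat_lit 4) (nat_lit 403) (nat_lit 371) (nat_lit 246))))) (XT.nd (nat_lit 234) (nat_lit 76) (nat_lit 0) (XT.nd (nat_lit 78) (nat_lit 152) (nat_lit 0) (XT.lf (nat_lit 0) (nat_lit 4769342568607) (nat_lit 76) (nat_lit 951346431143) (nat_lit 76) (nat_lit 490712423275) (nat_lit 8) (nat_lit 4) (nat_lit 9) (nat_lit 5) (nat_lit 9) (nat_lit 4) (nat_lit 404) (nat_lit 371) (nat_lit 245)) (XT.nd (nat_lit 78) (nat_lit 0) (nat_lit 0) (XT.lf (nat_lit 0) (nat_lit 781652023869) (nat_lit 152) (nat_lit 5780437263809) (nat_lit 0) (nat_lit 381100711504) (nat_lit 6) (nat_lit 5) (nat_lit 8) (nat_lit 4) (nat_lit 6) (nat_lit 4) (nat_lit 405) (nat_lit 371) (nat_lit 244)) (XT.lf (nat_lit 0) (nat_lit 2318903625380) (nat_lit 152) (nat_lit 3525345021772) (nat_lit 0) (nat_lit 1918352311993) (nat_lit 6) (nat_lit 5) (nat_lit 8) (nat_lit 4) (nat_lit 6) (nat_lit 4) (nat_lit 406) (nat_lit 371) (nat_lit 243)))) (XT.nd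 (nat_lit 156) (nat_lit 0) (nat_lit 0) (XT.nd (nat_lit 78) (nat_lit 76) (nat_lit 0) (XT.lf (nat_lit 0) (nat_lit 4086742960058) (nat_lit 152) (nat_lit 931988958322) (nat_lit 0) (nat_lit 3686191645783) (nat_lit 6) (nat_lit 5) (nat_lit 8) (nat_lit 4) (nat_lit 6) (nat_lit 4) (nat_lit 407) (nat_lit 371) (nat_lit 242)) (XT.lf (nat_lit 0) (nat_lit 2250747618905) (nat_lit 76) (nat_lit 3962209229061) (nat_lit 76) (nat_lit 3561657914013) (nat_lit 5) (nat_lit 4) (nat_lit 6) (nat_lit 5) (nat_lit 6) (nat_lit 4) (nat_lit 408) (nat_lit 371) (nat_lit 241))) (XT.nd (nat_lit 78) (nat_lit 0) (nat_lit 0) (XT.lf (nat_lit 0) (nat_lit 6015637520332) (nat_lit 76) (nat_lit 2691182897518) (nat_lit 76) (nat_lit 2290631581798) (nat_lit 5) (nat_lit 4) (nat_lit 6) (nat_lit 5) (nat_lit 6) (nat_lit 4) (nat_lit 409) (nat_lit 371) (nat_lit 240)) (XT.lf (nat_lit 0) (nat_lit 10345260896224) (nat_lit 76) (nat_lit 1229502621906)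 (nat_lit 76) (nat_lit 828951305602) (nat_lit 5) (nat_lit 4) (nat_lit 6) (nat_lit 5) (nat_lit 6) (nat_lit 4) (nat_lit 410) (nat_lit 371) (nat_lit 239))))))))
noncomputable def xc97 : XT := (XT.nd (nat_lit 50700) (nat_lit 0) (nat_lit 532) (XT.nd (nat_lit 936) (nat_lit 76) (nat_lit 0) (XT.nd (nat_lit 468) (nat_lit 0) (nat_lit 0) (XT.nd (nat_lit 234) (nat_lit 76) (nat_lit 0) (XT.nd (nat_lit 78) (nat_lit 0) (nat_lit 0) (XT.lf (nat_lit 0) (nat_lit 856891682994) (nat_lit 152) (nat_lit 12638033403960) (nat_lit 0) (nat_lit 508586190114) (nat_lit 3) (nat_lit 5) (nat_lit 5) (nat_lit 4) (nat_lit 3) (nat_lit 4) (nat_lit 411) (nat_lit 371) (nat_lit 238)) (XT.nd (nat_lit 78) (nat_lit 0) (nat_lit 0) (XT.lf (nat_lit 0) (nat_lit 2882014892950) (nat_lit 152) (nat_lit 10395940935434) (nat_lit 0) (nat_lit 2533709399686) (nat_lit 3) (nat_lit 5) (nat_lit 5) (nat_lit 4) (nat_lit 3) (nat_lit 4) (nat_lit 412)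 (nat_lit 371) (nat_lit 237)) (XT.lf (nat_lit 0) (nat_lit 5210906580381) (nat_lit 152) (nat_lit 7817534605161) (nat_lit 0) (nat_lit 4862601086783) (nat_lit 3) (nat_lit 5) (nat_lit 5) (nat_lit 4) (nat_lit 3) (nat_lit 4) (nat_lit 413) (nat_lit 371) (nat_lit 236)))) (XT.nd (nat_lit 78) (nat_lit 76) (nat_lit 0) (XT.lf (nat_lit 0) (nat_lit 7889132017432) (nat_lit 152) (nat_lit 4852367332768) (nat_lit 0) (nat_lit 7540826523543) (nat_lit 3) (nat_lit 5) (nat_lit 5) (nat_lit 4) (nat_lit 3) (nat_lit 4) (nat_lit 414) (nat_lit 371) (nat_lit 235)) (XT.nd (nat_lit 78) (nat_lit 76) (nat_lit 0) (XT.lf (nat_lit 0) (nat_lit 10969091267001) (nat_lit 152) (nat_lit 1442424975967) (nat_lit 0) (nat_lit 10620785772860) (nat_lit 3) (nat_lit 5) (nat_lit 5) (nat_lit 4) (nat_lit 3) (nat_lit 4) (nat_lit 415) (nat_lit 371) (nat_lit 234)) (XT.lf (nat_lit 0) (nat_lit 2721275490870) (nat_lit 76) (nat_lit 11902451125436)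 (nat_lit 76) (nat_lit 11554145631075) (nat_lit 2) (nat_lit 4) (nat_lit 3) (nat_lit 5) (nat_lit 3) (nat_lit 4) (nat_lit 416) (nat_lit 371) (nat_lit 233))))) (XT.nd (nat_lit 234) (nat_lit 0) (nat_lit 0) (XT.nd (nat_lit 78) (nat_lit 0) (nat_lit 0) (XT.lf (nat_lit 0) (nat_lit 7671639920245) (nat_lit 76) (nat_lit 11230316832622) (nat_lit 76) (nat_lit 10882011338070) (nat_lit 2) (nat_lit 4) (nat_lit 3) (nat_lit 5) (nat_lit 3) (nat_lit 4) (nat_lit 417) (nat_lit 371) (nat_lit 232)) (XT.nd (nat_lit 78) (nat_lit 0) (nat_lit 0) (XT.lf (nat_lit 0) (nat_lit 13364559009370) (nat_lit 76) (nat_lit 10457362398353) (nat_lit 76) (nat_lit 10109056903634) (nat_lit 2) (nat_lit 4) (nat_lit 3) (nat_lit 5) (nat_lit 3) (nat_lit 4) (nat_lit 418) (nat_lit 371) (nat_lit 231)) (XT.lf (nat_lit 0) (nat_lit 19911415957814) (nat_lit 76) (nat_lit 9568464801087) (nat_lit 76) (nat_lit 9220159306224) (nat_lit 2) (nat_lit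 4) (nat_lit 3) (nat_lit 5) (nat_lit 3) (nat_lit 4) (nat_lit 419) (nat_lit 371) (nat_lit 230)))) (XT.nd (nat_lit 78) (nat_lit 0) (nat_lit 0) (XT.lf (nat_lit 0) (nat_lit 27440301445003) (nat_lit 76) (nat_lit 8546232566096) (nat_lit 76) (nat_lit 8197927071108) (nat_lit 2) (nat_lit 4) (nat_lit 3) (nat_lit 5) (nat_lit 3) (nat_lit 4) (nat_lit 420) (nat_lit 371) (nat_lit 229)) (XT.nd (nat_lit 78) (nat_lit 0) (nat_lit 0) (XT.lf (nat_lit 0) (nat_lit 36098519752208) (nat_lit 76) (nat_lit 7370665497478) (nat_lit 76) (nat_lit 7022360002381) (nat_lit 2) (nat_lit 4) (nat_lit 3) (nat_lit 5) (nat_lit 3) (nat_lit 4) (nat_lit 421) (nat_lit 371) (nat_lit 228)) (XT.lf (nat_lit 0) (nat_lit 46055470802832) (nat_lit 76) (nat_lit 6018763369977) (nat_lit 76) (nat_lit 5670457874785) (nat_lit 2) (nat_lit 4) (nat_lit 3) (nat_lit 5) (nat_lit 3) (nat_lit 4) (nat_lit 422) (nat_lit 371) (nat_lit 227)))))) (XT.nd (nat_lit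 49296) (nat_lit 0) (nat_lit 2128) (XT.nd (nat_lit 468) (nat_lit 0) (nat_lit 0) (XT.nd (nat_lit 78) (nat_lit 76) (nat_lit 0) (XT.lf (nat_lit 0) (nat_lit 57505964508734) (nat_lit 76) (nat_lit 4464075924578) (nat_lit 76) (nat_lit 4115770429302) (nat_lit 2) (nat_lit 4) (nat_lit 3) (nat_lit 5) (nat_lit 3) (nat_lit 4) (nat_lit 423) (nat_lit 371) (nat_lit 226)) (XT.nd (nat_lit 312) (nat_lit 76) (nat_lit 0) (XT.lf (nat_lit 0) (nat_lit 70674032268508) (nat_lit 76) (nat_lit 2676185363434) (nat_lit 76) (nat_lit 2327879868087) (nat_lit 2) (nat_lit 4) (nat_lit 3) (nat_lit 5) (nat_lit 3) (nat_lit 4) (nat_lit 424) (nat_lit 371) (nat_lit 225)) (XT.lf (nat_lit 0) (nat_lit 8285902192146) (nat_lit 76) (nat_lit 114284353762320) (nat_lit 0) (nat_lit 7983027848188) (nat_lit 1) (nat_lit 5) (nat_lit 2) (nat_lit 4) (nat_lit 1) (nat_lit 4) (nat_lit 428) (nat_lit 371) (nat_lit 221)))) (XT.nd (nat_lit 48672) (nat_lit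 0) (nat_lit 2432) (XT.lf (nat_lit 0) (nat_lit 12053230933300) (nat_lit 76) (nat_lit 125947166406477) (nat_lit 0) (nat_lit 11750356589311) (nat_lit 1) (nat_lit 5) (nat_lit 2) (nat_lit 4) (nat_lit 1) (nat_lit 4) (nat_lit 429) (nat_lit 371) (nat_lit 220)) (XT.nd (nat_lit 78) (nat_lit 0) (nat_lit 0) (XT.lf (nat_lit 0) (nat_lit 49518077993) (nat_lit 380) (nat_lit 63980669581) (nat_lit 380) (nat_lit 63980669581) (nat_lit 33) (nat_lit 3) (nat_lit 38) (nat_lit 3) (nat_lit 38) (nat_lit 5) (nat_lit 372) (nat_lit 372) (nat_lit 276)) (XT.lf (nat_lit 76) (nat_lit 51900410419) (nat_lit 0) (nat_lit 56713022708) (nat_lit 380) (nat_lit 272644878604) (nat_lit 34) (nat_lit 5) (nat_lit 33) (nat_lit 3) (nat_lit 38) (nat_lit 5) (nat_lit 373) (nat_lit 372) (nat_lit 275))))) (XT.nd (nat_lit 234) (nat_lit 380) (nat_lit 0) (XT.nd (nat_lit 78) (nat_lit 0) (nat_lit 0) (XT.lf (nat_lit 0) (nat_lit 132395041253) (nat_lit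 304) (nat_lit 143455851665) (nat_lit 380) (nat_lit 133736656991) (nat_lit 34) (nat_lit 5) (nat_lit 38) (nat_lit 5) (nat_lit 39) (nat_lit 5) (nat_lit 374) (nat_lit 372) (nat_lit 274)) (XT.nd (nat_lit 78) (nat_lit 0) (nat_lit 76) (XT.lf (nat_lit 76) (nat_lit 74240201782) (nat_lit 0) (nat_lit 91278362316) (nat_lit 380) (nat_lit 275781408744) (nat_lit 35) (nat_lit 5) (nat_lit 34) (nat_lit 5) (nat_lit 39) (nat_lit 5) (nat_lit 375) (nat_lit 372) (nat_lit 273)) (XT.lf (nat_lit 0) (nat_lit 216475989656) (nat_lit 304) (nat_lit 141297970615) (nat_lit 76) (nat_lit 118065492845) (nat_lit 35) (nat_lit 5) (nat_lit 39) (nat_lit 5) (nat_lit 36) (nat_lit 5) (nat_lit 376) (nat_lit 372) (nat_lit 272)))) (XT.nd (nat_lit 78) (nat_lit 152) (nat_lit 0) (XT.lf (nat_lit 0) (nat_lit 125120548938) (nat_lit 304) (nat_lit 159483985476) (nat_lit 380) (nat_lit 229526195253) (nat_lit 31) (nat_lit 5) (nat_lit 35) (nat_lit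 5) (nat_lit 36) (nat_lit 5) (nat_lit 377) (nat_lit 372) (nat_lit 271)) (XT.nd (nat_lit 78) (nat_lit 152) (nat_lit 0) (XT.lf (nat_lit 0) (nat_lit 373528541660) (nat_lit 380) (nat_lit 112866249345) (nat_lit 76) (nat_lit 70184479615) (nat_lit 31) (nat_lit 5) (nat_lit 36) (nat_lit 5) (nat_lit 32) (nat_lit 5) (nat_lit 378) (nat_lit 372) (nat_lit 270)) (XT.lf (nat_lit 0) (nat_lit 216367249357) (nat_lit 152) (nat_lit 275977636218) (nat_lit 228) (nat_lit 110567146833) (nat_lit 29) (nat_lit 5) (nat_lit 31) (nat_lit 5) (nat_lit 32) (nat_lit 5) (nat_lit 379) (nat_lit 372) (nat_lit 269))))))) (XT.nd (nat_lit 936) (nat_lit 760) (nat_lit 0) (XT.nd (nat_lit 468) (nat_lit 456) (nat_lit 0) (XT.nd (nat_lit 234) (nat_lit 76) (nat_lit 0) (XT.nd (nat_lit 78) (nat_lit 304) (nat_lit 0) (XT.lf (nat_lit 0) (nat_lit 607670347104) (nat_lit 152) (nat_lit 27213118180) (nat_lit 228) (nat_lit 20426275576) (nat_lit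 29) (nat_lit 5) (nat_lit 31) (nat_lit 5) (nat_lit 32) (nat_lit 5) (nat_lit 380) (nat_lit 372) (nat_lit 268)) (XT.nd (nat_lit 78) (nat_lit 152) (nat_lit 0) (XT.lf (nat_lit 0) (nat_lit 102835119201) (nat_lit 152) (nat_lit 352606359770) (nat_lit 76) (nat_lit 255557192621) (nat_lit 27) (nat_lit 5) (nat_lit 29) (nat_lit 5) (nat_lit 28) (nat_lit 5) (nat_lit 381) (nat_lit 372) (nat_lit 267)) (XT.lf (nat_lit 0) (nat_lit 58869146128) (nat_lit 152) (nat_lit 189967611906) (nat_lit 228) (nat_lit 525106937493) (nat_lit 25) (nat_lit 5) (nat_lit 27) (nat_lit 5) (nat_lit 28) (nat_lit 5) (nat_lit 382) (nat_lit 372) (nat_lit 266)))) (XT.nd (nat_lit 78) (nat_lit 76) (nat_lit 0) (XT.lf (nat_lit 0) (nat_lit 440823463412) (nat_lit 228) (nat_lit 277524807514) (nat_lit 76) (nat_lit 124369479032) (nat_lit 25) (nat_lit 5) (nat_lit 28) (nat_lit 5) (nat_lit 26) (nat_lit 4) (nat_lit 383) (nat_lit 372) (nat_lit 265))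 (XT.nd (nat_lit 78) (nat_lit 0) (nat_lit 0) (XT.lf (nat_lit 0) (nat_lit 237780100283) (nat_lit 76) (nat_lit 442720088227) (nat_lit 152) (nat_lit 238473921970) (nat_lit 24) (nat_lit 5) (nat_lit 25) (nat_lit 5) (nat_lit 26) (nat_lit 4) (nat_lit 384) (nat_lit 372) (nat_lit 264)) (XT.lf (nat_lit 0) (nat_lit 861570702926) (nat_lit 76) (nat_lit 109064670298) (nat_lit 152) (nat_lit 33857509241) (nat_lit 24) (nat_lit 5) (nat_lit 25) (nat_lit 5) (nat_lit 26) (nat_lit 4) (nat_lit 385) (nat_lit 372) (nat_lit 263))))) (XT.nd (nat_lit 234) (nat_lit 228) (nat_lit 0) (XT.nd (nat_lit 78) (nat_lit 76) (nat_lit 0) (XT.lf (nat_lit 0) (nat_lit 217559934318) (nat_lit 152) (nat_lit 597720391819) (nat_lit 76) (nat_lit 281201419022) (nat_lit 22) (nat_lit 5) (nat_lit 24) (nat_lit 5) (nat_lit 23) (nat_lit 4) (nat_lit 386) (nat_lit 372) (nat_lit 262)) (XT.nd (nat_lit 78) (nat_lit 0) (nat_lit 0) (XT.lf (nat_lit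 0) (nat_lit 48793980784) (nat_lit 76) (nat_lit 469470326490) (nat_lit 152) (nat_lit 681506689104) (nat_lit 21) (nat_lit 5) (nat_lit 22) (nat_lit 5) (nat_lit 23) (nat_lit 4) (nat_lit 387) (nat_lit 372) (nat_lit 261)) (XT.lf (nat_lit 0) (nat_lit 859461089723) (nat_lit 76) (nat_lit 35857698656) (nat_lit 152) (nat_lit 418548179075) (nat_lit 21) (nat_lit 5) (nat_lit 22) (nat_lit 5) (nat_lit 23) (nat_lit 4) (nat_lit 388) (nat_lit 372) (nat_lit 260)))) (XT.nd (nat_lit 78) (nat_lit 152) (nat_lit 0) (XT.lf (nat_lit 0) (nat_lit 359491920055) (nat_lit 76) (nat_lit 1003488724431) (nat_lit 76) (nat_lit 76989309288) (nat_lit 20) (nat_lit 4) (nat_lit 21) (nat_lit 5) (nat_lit 21) (nat_lit 4) (nat_lit 389) (nat_lit 372) (nat_lit 259)) (XT.nd (nat_lit 78) (nat_lit 76) (nat_lit 0) (XT.lf (nat_lit 0) (nat_lit 314280009903) (nat_lit 152) (nat_lit 250797410575) (nat_lit 76) (nat_lit 1013960712729) (nat_lit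 19) (nat_lit 5) (nat_lit 21) (nat_lit 5) (nat_lit 20) (nat_lit 4) (nat_lit 390) (nat_lit 372) (nat_lit 258)) (XT.lf (nat_lit 0) (nat_lit 768045869751) (nat_lit 76) (nat_lit 20114742417) (nat_lit 152) (nat_lit 945485535153) (nat_lit 18) (nat_lit 5) (nat_lit 19) (nat_lit 5) (nat_lit 20) (nat_lit 4) (nat_lit 391) (nat_lit 372) (nat_lit 257)))))) (XT.nd (nat_lit 468) (nat_lit 380) (nat_lit 0) (XT.nd (nat_lit 234) (nat_lit 152) (nat_lit 0) (XT.nd (nat_lit 78) (nat_lit 152) (nat_lit 0) (XT.lf (nat_lit 0) (nat_lit 35874780362) (nat_lit 76) (nat_lit 1337585844365) (nat_lit 76) (nat_lit 531934140835) (nat_lit 17) (nat_lit 4) (nat_lit 18) (nat_lit 5) (nat_lit 18) (nat_lit 4) (nat_lit 392) (nat_lit 372) (nat_lit 256)) (XT.nd (nat_lit 78) (nat_lit 76) (nat_lit 0) (XT.lf (nat_lit 0) (nat_lit 2502570843) (nat_lit 152) (nat_lit 800271185778) (nat_lit 76) (nat_lit 1292406529420) (nat_lit 16) (nat_lit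 5) (nat_lit 18) (nat_lit 5) (nat_lit 17) (nat_lit 4) (nat_lit 393) (nat_lit 372) (nat_lit 255)) (XT.lf (nat_lit 0) (nat_lit 443519917109) (nat_lit 76) (nat_lit 137490147317) (nat_lit 152) (nat_lit 1725869260727) (nat_lit 15) (nat_lit 5) (nat_lit 16) (nat_lit 5) (nat_lit 17) (nat_lit 4) (nat_lit 394) (nat_lit 372) (nat_lit 254)))) (XT.nd (nat_lit 78) (nat_lit 152) (nat_lit 0) (XT.lf (nat_lit 0) (nat_lit 1316105039918) (nat_lit 152) (nat_lit 608218157172) (nat_lit 0) (nat_lit 615538319362) (nat_lit 15) (nat_lit 5) (nat_lit 17) (nat_lit 4) (nat_lit 15) (nat_lit 4) (nat_lit 395) (nat_lit 372) (nat_lit 253)) (XT.nd (nat_lit 78) (nat_lit 76) (nat_lit 0) (XT.lf (nat_lit 0) (nat_lit 909628527522) (nat_lit 76) (nat_lit 1296048648875) (nat_lit 76) (nat_lit 595481922851) (nat_lit 14) (nat_lit 4) (nat_lit 15) (nat_lit 5) (nat_lit 15) (nat_lit 4) (nat_lit 396) (nat_lit 372) (nat_lit 252)) (XT.lf (nat_lit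 0) (nat_lit 149031557442) (nat_lit 152) (nat_lit 380148882276) (nat_lit 76) (nat_lit 2566685774028) (nat_lit 13) (nat_lit 5) (nat_lit 15) (nat_lit 5) (nat_lit 14) (nat_lit 4) (nat_lit 397) (nat_lit 372) (nat_lit 251))))) (XT.nd (nat_lit 234) (nat_lit 228) (nat_lit 0) (XT.nd (nat_lit 78) (nat_lit 76) (nat_lit 0) (XT.lf (nat_lit 0) (nat_lit 1023525153487) (nat_lit 152) (nat_lit 1980773746266) (nat_lit 0) (nat_lit 414336688346) (nat_lit 12) (nat_lit 5) (nat_lit 14) (nat_lit 4) (nat_lit 12) (nat_lit 4) (nat_lit 398) (nat_lit 372) (nat_lit 250)) (XT.nd (nat_lit 78) (nat_lit 76) (nat_lit 0) (XT.lf (nat_lit 0) (nat_lit 2075209523467) (nat_lit 152) (nat_lit 241687279762) (nat_lit 0) (nat_lit 1466021055200) (nat_lit 12) (nat_lit 5) (nat_lit 14) (nat_lit 4) (nat_lit 12) (nat_lit 4) (nat_lit 399) (nat_lit 372) (nat_lit 249)) (XT.lf (nat_lit 0) (nat_lit 1930092300588) (nat_lit 76) (nat_lit 1434475245097)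 (nat_lit 76) (nat_lit 825286774111) (nat_lit 11) (nat_lit 4) (nat_lit 12) (nat_lit 5) (nat_lit 12) (nat_lit 4) (nat_lit 400) (nat_lit 372) (nat_lit 248)))) (XT.nd (nat_lit 156) (nat_lit 76) (nat_lit 0) (XT.nd (nat_lit 78) (nat_lit 76) (nat_lit 0) (XT.lf (nat_lit 0) (nat_lit 185862842987) (nat_lit 152) (nat_lit 209583360927) (nat_lit 76) (nat_lit 4259222753165) (nat_lit 10) (nat_lit 5) (nat_lit 12) (nat_lit 5) (nat_lit 11) (nat_lit 4) (nat_lit 401) (nat_lit 372) (nat_lit 247)) (XT.lf (nat_lit 0) (nat_lit 1399585765093) (nat_lit 152) (nat_lit 2893559287030) (nat_lit 0) (nat_lit 869856656045) (nat_lit 9) (nat_lit 5) (nat_lit 11) (nat_lit 4) (nat_lit 9) (nat_lit 4) (nat_lit 402) (nat_lit 372) (nat_lit 246))) (XT.nd (nat_lit 78) (nat_lit 76) (nat_lit 0) (XT.lf (nat_lit 0) (nat_lit 2825675073008) (nat_lit 152) (nat_lit 621417144385) (nat_lit 0) (nat_lit 2295945962406) (nat_lit 9) (nat_lit 5)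 (nat_lit 11) (nat_lit 4) (nat_lit 9) (nat_lit 4) (nat_lit 403) (nat_lit 372) (nat_lit 245)) (XT.lf (nat_lit 0) (nat_lit 2186174693691) (nat_lit 76) (nat_lit 2370027908349) (nat_lit 76) (nat_lit 1840298796395) (nat_lit 8) (nat_lit 4) (nat_lit 9) (nat_lit 5) (nat_lit 9) (nat_lit 4) (nat_lit 404) (nat_lit 372) (nat_lit 244))))))))
noncomputable def xc98 : XT := (XT.nd (nat_lit 51012) (nat_lit 0) (nat_lit 608) (XT.nd (nat_lit 936) (nat_lit 76) (nat_lit 0) (XT.nd (nat_lit 468) (nat_lit 152) (nat_lit 0) (XT.nd (nat_lit 234) (nat_lit 76) (nat_lit 0) (XT.nd (nat_lit 78) (nat_lit 152) (nat_lit 0) (XT.lf (nat_lit 0) (nat_lit 5484744106469) (nat_lit 76) (nat_lit 1094048316103) (nat_lit 76) (nat_lit 564319202974) (nat_lit 8) (nat_lit 4) (nat_lit 9) (nat_lit 5) (nat_lit 9) (nat_lit 4) (nat_lit 405) (nat_lit 372) (nat_lit 243)) (XT.nd (nat_lit 78) (nat_lit 0) (nat_lit 0) (XT.lf (nat_lit 0) (nat_lit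 898899903466) (nat_lit 152) (nat_lit 6647502693028) (nat_lit 0) (nat_lit 438265891161) (nat_lit 6) (nat_lit 5) (nat_lit 8) (nat_lit 4) (nat_lit 6) (nat_lit 4) (nat_lit 406) (nat_lit 372) (nat_lit 242)) (XT.lf (nat_lit 0) (nat_lit 2666739235288) (nat_lit 152) (nat_lit 4054146635601) (nat_lit 0) (nat_lit 2206105222211) (nat_lit 6) (nat_lit 5) (nat_lit 8) (nat_lit 4) (nat_lit 6) (nat_lit 4) (nat_lit 407) (nat_lit 372) (nat_lit 241)))) (XT.nd (nat_lit 78) (nat_lit 76) (nat_lit 0) (XT.lf (nat_lit 0) (nat_lit 4699754461546) (nat_lit 152) (nat_lit 1071787180821) (nat_lit 0) (nat_lit 4239120447796) (nat_lit 6) (nat_lit 5) (nat_lit 8) (nat_lit 4) (nat_lit 6) (nat_lit 4) (nat_lit 408) (nat_lit 372) (nat_lit 240)) (XT.nd (nat_lit 78) (nat_lit 0) (nat_lit 0) (XT.lf (nat_lit 0) (nat_lit 2588359877479) (nat_lit 76) (nat_lit 4556540552456) (nat_lit 76) (nat_lit 4095906538122) (nat_lit 5) (nat_lit 4)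 (nat_lit 6) (nat_lit 5) (nat_lit 6) (nat_lit 4) (nat_lit 409) (nat_lit 372) (nat_lit 239)) (XT.lf (nat_lit 0) (nat_lit 6917983249024) (nat_lit 76) (nat_lit 3094860279134) (nat_lit 76) (nat_lit 2634226264292) (nat_lit 5) (nat_lit 4) (nat_lit 6) (nat_lit 5) (nat_lit 6) (nat_lit 4) (nat_lit 410) (nat_lit 372) (nat_lit 238))))) (XT.nd (nat_lit 234) (nat_lit 0) (nat_lit 0) (XT.nd (nat_lit 78) (nat_lit 152) (nat_lit 0) (XT.lf (nat_lit 0) (nat_lit 11897050118172) (nat_lit 76) (nat_lit 1413927969095) (nat_lit 76) (nat_lit 953293953811) (nat_lit 5) (nat_lit 4) (nat_lit 6) (nat_lit 5) (nat_lit 6) (nat_lit 4) (nat_lit 411) (nat_lit 372) (nat_lit 237)) (XT.nd (nat_lit 78) (nat_lit 0) (nat_lit 0) (XT.lf (nat_lit 0) (nat_lit 985425478716) (nat_lit 152) (nat_lit 14533738322678) (nat_lit 0) (nat_lit 584874160744) (nat_lit 3) (nat_lit 5) (nat_lit 5) (nat_lit 4) (nat_lit 3) (nat_lit 4) (nat_lit 412) (nat_lit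 372) (nat_lit 236)) (XT.lf (nat_lit 0) (nat_lit 3314317164521) (nat_lit 152) (nat_lit 11955331995857) (nat_lit 0) (nat_lit 2913765846258) (nat_lit 3) (nat_lit 5) (nat_lit 5) (nat_lit 4) (nat_lit 3) (nat_lit 4) (nat_lit 413) (nat_lit 372) (nat_lit 235)))) (XT.nd (nat_lit 78) (nat_lit 0) (nat_lit 0) (XT.lf (nat_lit 0) (nat_lit 5992542600158) (nat_lit 152) (nat_lit 8990164726464) (nat_lit 0) (nat_lit 5591991281643) (nat_lit 3) (nat_lit 5) (nat_lit 5) (nat_lit 4) (nat_lit 3) (nat_lit 4) (nat_lit 414) (nat_lit 372) (nat_lit 234)) (XT.nd (nat_lit 78) (nat_lit 0) (nat_lit 0) (XT.lf (nat_lit 0) (nat_lit 9072501848499) (nat_lit 152) (nat_lit 5580222372273) (nat_lit 0) (nat_lit 8671950529764) (nat_lit 3) (nat_lit 5) (nat_lit 5) (nat_lit 4) (nat_lit 3) (nat_lit 4) (nat_lit 415) (nat_lit 372) (nat_lit 233)) (XT.lf (nat_lit 0) (nat_lit 12614454981792) (nat_lit 152) (nat_lit 1658788669831) (nat_lit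 0) (nat_lit 12213903662866) (nat_lit 3) (nat_lit 5) (nat_lit 5) (nat_lit 4) (nat_lit 3) (nat_lit 4) (nat_lit 416) (nat_lit 372) (nat_lit 232)))))) (XT.nd (nat_lit 468) (nat_lit 0) (nat_lit 0) (XT.nd (nat_lit 234) (nat_lit 0) (nat_lit 0) (XT.nd (nat_lit 78) (nat_lit 0) (nat_lit 0) (XT.lf (nat_lit 0) (nat_lit 3129466864643) (nat_lit 76) (nat_lit 13687818767699) (nat_lit 76) (nat_lit 13287267448607) (nat_lit 2) (nat_lit 4) (nat_lit 3) (nat_lit 5) (nat_lit 3) (nat_lit 4) (nat_lit 417) (nat_lit 372) (nat_lit 231)) (XT.nd (nat_lit 78) (nat_lit 0) (nat_lit 0) (XT.lf (nat_lit 0) (nat_lit 8822385951884) (nat_lit 76) (nat_lit 12914864334427) (nat_lit 76) (nat_lit 12514313015190) (nat_lit 2) (nat_lit 4) (nat_lit 3) (nat_lit 5) (nat_lit 3) (nat_lit 4) (nat_lit 418) (nat_lit 372) (nat_lit 230)) (XT.lf (nat_lit 0) (nat_lit 15369242898690) (nat_lit 76) (nat_lit 12025966738028) (nat_lit 76) (nat_lit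 11625415418666) (nat_lit 2) (nat_lit 4) (nat_lit 3) (nat_lit 5) (nat_lit 3) (nat_lit 4) (nat_lit 419) (nat_lit 372) (nat_lit 229)))) (XT.nd (nat_lit 78) (nat_lit 0) (nat_lit 0) (XT.lf (nat_lit 0) (nat_lit 22898128384455) (nat_lit 76) (nat_lit 11003734503791) (nat_lit 76) (nat_lit 10603183184320) (nat_lit 2) (nat_lit 4) (nat_lit 3) (nat_lit 5) (nat_lit 3) (nat_lit 4) (nat_lit 420) (nat_lit 372) (nat_lit 228)) (XT.nd (nat_lit 78) (nat_lit 0) (nat_lit 0) (XT.lf (nat_lit 0) (nat_lit 31556346690422) (nat_lit 76) (nat_lit 9828167435829) (nat_lit 76) (nat_lit 9427616116263) (nat_lit 2) (nat_lit 4) (nat_lit 3) (nat_lit 5) (nat_lit 3) (nat_lit 4) (nat_lit 421) (nat_lit 372) (nat_lit 227)) (XT.lf (nat_lit 0) (nat_lit 41513297739969) (nat_lit 76) (nat_lit 8476265308899) (nat_lit 76) (nat_lit 8075713989250) (nat_lit 2) (nat_lit 4) (nat_lit 3) (nat_lit 5) (nat_lit 3) (nat_lit 4) (nat_lit 422) (nat_lit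 372) (nat_lit 226))))) (XT.nd (nat_lit 49374) (nat_lit 0) (nat_lit 2432) (XT.nd (nat_lit 49218) (nat_lit 0) (nat_lit 2356) (XT.lf (nat_lit 0) (nat_lit 52963791444935) (nat_lit 76) (nat_lit 6921577863995) (nat_lit 76) (nat_lit 6521026544274) (nat_lit 2) (nat_lit 4) (nat_lit 3) (nat_lit 5) (nat_lit 3) (nat_lit 4) (nat_lit 423) (nat_lit 372) (nat_lit 225)) (XT.nd (nat_lit 78) (nat_lit 0) (nat_lit 0) (XT.lf (nat_lit 0) (nat_lit 56946249935) (nat_lit 380) (nat_lit 73577505216) (nat_lit 380) (nat_lit 73577505216) (nat_lit 33) (nat_lit 3) (nat_lit 38) (nat_lit 3) (nat_lit 38) (nat_lit 5) (nat_lit 373) (nat_lit 373) (nat_lit 274)) (XT.lf (nat_lit 76) (nat_lit 59685977514) (nat_lit 0) (nat_lit 65220291937) (nat_lit 380) (nat_lit 313540665268) (nat_lit 34) (nat_lit 5) (nat_lit 33) (nat_lit 3) (nat_lit 38) (nat_lit 5) (nat_lit 374) (nat_lit 373) (nat_lit 273)))) (XT.nd (nat_lit 78) (nat_lit 0) (nat_lit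 0) (XT.lf (nat_lit 0) (nat_lit 152255000291) (nat_lit 304) (nat_lit 164973670823) (nat_lit 380) (nat_lit 153796905360) (nat_lit 34) (nat_lit 5) (nat_lit 38) (nat_lit 5) (nat_lit 39) (nat_lit 5) (nat_lit 375) (nat_lit 373) (nat_lit 272)) (XT.nd (nat_lit 78) (nat_lit 0) (nat_lit 76) (XT.lf (nat_lit 76) (nat_lit 85376765251) (nat_lit 0) (nat_lit 104970216714) (nat_lit 380) (nat_lit 317147891386) (nat_lit 35) (nat_lit 5) (nat_lit 34) (nat_lit 5) (nat_lit 39) (nat_lit 5) (nat_lit 376) (nat_lit 373) (nat_lit 271)) (XT.lf (nat_lit 0) (nat_lit 248947935157) (nat_lit 304) (nat_lit 162492115979) (nat_lit 76) (nat_lit 135775237516) (nat_lit 35) (nat_lit 5) (nat_lit 39) (nat_lit 5) (nat_lit 36) (nat_lit 5) (nat_lit 377) (nat_lit 373) (nat_lit 270))))))) (XT.nd (nat_lit 936) (nat_lit 836) (nat_lit 0) (XT.nd (nat_lit 468) (nat_lit 304) (nat_lit 0) (XT.nd (nat_lit 234) (nat_lit 304) (nat_lit 0) (XT.nd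 (nat_lit 78) (nat_lit 152) (nat_lit 0) (XT.lf (nat_lit 0) (nat_lit 143889156496) (nat_lit 304) (nat_lit 183406555526) (nat_lit 380) (nat_lit 263954552154) (nat_lit 31) (nat_lit 5) (nat_lit 35) (nat_lit 5) (nat_lit 36) (nat_lit 5) (nat_lit 378) (nat_lit 373) (nat_lit 269)) (XT.nd (nat_lit 78) (nat_lit 152) (nat_lit 0) (XT.lf (nat_lit 0) (nat_lit 429558256470) (nat_lit 380) (nat_lit 129795665870) (nat_lit 76) (nat_lit 80712173557) (nat_lit 31) (nat_lit 5) (nat_lit 36) (nat_lit 5) (nat_lit 32) (nat_lit 5) (nat_lit 379) (nat_lit 373) (nat_lit 268)) (XT.lf (nat_lit 0) (nat_lit 248822833961) (nat_lit 152) (nat_lit 317374182048) (nat_lit 228) (nat_lit 127151761375) (nat_lit 29) (nat_lit 5) (nat_lit 31) (nat_lit 5) (nat_lit 32) (nat_lit 5) (nat_lit 380) (nat_lit 373) (nat_lit 267)))) (XT.nd (nat_lit 78) (nat_lit 304) (nat_lit 0) (XT.lf (nat_lit 0) (nat_lit 698821331518) (nat_lit 152) (nat_lit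 31294999295) (nat_lit 228) (nat_lit 23489819101) (nat_lit 29) (nat_lit 5) (nat_lit 31) (nat_lit 5) (nat_lit 32) (nat_lit 5) (nat_lit 381) (nat_lit 373) (nat_lit 266)) (XT.nd (nat_lit 78) (nat_lit 152) (nat_lit 0) (XT.lf (nat_lit 0) (nat_lit 118260725386) (nat_lit 152) (nat_lit 405496821533) (nat_lit 76) (nat_lit 293890874506) (nat_lit 27) (nat_lit 5) (nat_lit 29) (nat_lit 5) (nat_lit 28) (nat_lit 5) (nat_lit 382) (nat_lit 373) (nat_lit 265)) (XT.lf (nat_lit 0) (nat_lit 67699987878) (nat_lit 152) (nat_lit 218462597493) (nat_lit 228) (nat_lit 603872617300) (nat_lit 25) (nat_lit 5) (nat_lit 27) (nat_lit 5) (nat_lit 28) (nat_lit 5) (nat_lit 383) (nat_lit 373) (nat_lit 264))))) (XT.nd (nat_lit 234) (nat_lit 228) (nat_lit 0) (XT.nd (nat_lit 78) (nat_lit 76) (nat_lit 0) (XT.lf (nat_lit 0) (nat_lit 506947261272) (nat_lit 228) (nat_lit 319153084687) (nat_lit 76) (nat_lit 143025024619) (nat_lit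 25) (nat_lit 5) (nat_lit 28) (nat_lit 5) (nat_lit 26) (nat_lit 4) (nat_lit 384) (nat_lit 373) (nat_lit 263)) (XT.nd (nat_lit 78) (nat_lit 0) (nat_lit 0) (XT.lf (nat_lit 0) (nat_lit 273447539100) (nat_lit 76) (nat_lit 509127937276) (nat_lit 152) (nat_lit 274244711632) (nat_lit 24) (nat_lit 5) (nat_lit 25) (nat_lit 5) (nat_lit 26) (nat_lit 4) (nat_lit 385) (nat_lit 373) (nat_lit 262)) (XT.lf (nat_lit 0) (nat_lit 990806676864) (nat_lit 76) (nat_lit 125424228073) (nat_lit 152) (nat_lit 38935875946) (nat_lit 24) (nat_lit 5) (nat_lit 25) (nat_lit 5) (nat_lit 26) (nat_lit 4) (nat_lit 386) (nat_lit 373) (nat_lit 261)))) (XT.nd (nat_lit 78) (nat_lit 76) (nat_lit 0) (XT.lf (nat_lit 0) (nat_lit 250194151977) (nat_lit 152) (nat_lit 687378049773) (nat_lit 76) (nat_lit 323381770986) (nat_lit 22) (nat_lit 5) (nat_lit 24) (nat_lit 5) (nat_lit 23) (nat_lit 4) (nat_lit 387) (nat_lit 373) (nat_lit 260))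 (XT.nd (nat_lit 78) (nat_lit 0) (nat_lit 0) (XT.lf (nat_lit 0) (nat_lit 56113460501) (nat_lit 76) (nat_lit 539890706543) (nat_lit 152) (nat_lit 783732446678) (nat_lit 21) (nat_lit 5) (nat_lit 22) (nat_lit 5) (nat_lit 23) (nat_lit 4) (nat_lit 388) (nat_lit 373) (nat_lit 259)) (XT.lf (nat_lit 0) (nat_lit 988380585877) (nat_lit 76) (nat_lit 41236206567) (nat_lit 152) (nat_lit 481330192205) (nat_lit 21) (nat_lit 5) (nat_lit 22) (nat_lit 5) (nat_lit 23) (nat_lit 4) (nat_lit 389) (nat_lit 373) (nat_lit 258)))))) (XT.nd (nat_lit 468) (nat_lit 380) (nat_lit 0) (XT.nd (nat_lit 234) (nat_lit 228) (nat_lit 0) (XT.nd (nat_lit 78) (nat_lit 152) (nat_lit 0) (XT.lf (nat_lit 0) (nat_lit 413416046485) (nat_lit 76) (nat_lit 1154011875548) (nat_lit 76) (nat_lit 88537497630) (nat_lit 20) (nat_lit 4) (nat_lit 21) (nat_lit 5) (nat_lit 21) (nat_lit 4) (nat_lit 390) (nat_lit 373) (nat_lit 257)) (XT.nd (nat_lit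 78) (nat_lit 76) (nat_lit 0) (XT.lf (nat_lit 0) (nat_lit 361422176197) (nat_lit 152) (nat_lit 288416711740) (nat_lit 76) (nat_lit 1166054940495) (nat_lit 19) (nat_lit 5) (nat_lit 21) (nat_lit 5) (nat_lit 20) (nat_lit 4) (nat_lit 391) (nat_lit 373) (nat_lit 256)) (XT.lf (nat_lit 0) (nat_lit 883253046524) (nat_lit 76) (nat_lit 23131813050) (nat_lit 152) (nat_lit 1087308186478) (nat_lit 18) (nat_lit 5) (nat_lit 19) (nat_lit 5) (nat_lit 20) (nat_lit 4) (nat_lit 392) (nat_lit 373) (nat_lit 255)))) (XT.nd (nat_lit 78) (nat_lit 152) (nat_lit 0) (XT.lf (nat_lit 0) (nat_lit 41256297001) (nat_lit 76) (nat_lit 1538223574195) (nat_lit 76) (nat_lit 611724086260) (nat_lit 17) (nat_lit 4) (nat_lit 18) (nat_lit 5) (nat_lit 18) (nat_lit 4) (nat_lit 393) (nat_lit 373) (nat_lit 254)) (XT.nd (nat_lit 78) (nat_lit 76) (nat_lit 0) (XT.lf (nat_lit 0) (nat_lit 2878095651) (nat_lit 152) (nat_lit 920311589514)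 (nat_lit 76) (nat_lit 1486267622885) (nat_lit 16) (nat_lit 5) (nat_lit 18) (nat_lit 5) (nat_lit 17) (nat_lit 4) (nat_lit 394) (nat_lit 373) (nat_lit 253)) (XT.lf (nat_lit 0) (nat_lit 510048166345) (nat_lit 76) (nat_lit 158113539607) (nat_lit 152) (nat_lit 1984749498177) (nat_lit 15) (nat_lit 5) (nat_lit 16) (nat_lit 5) (nat_lit 17) (nat_lit 4) (nat_lit 395) (nat_lit 373) (nat_lit 252))))) (XT.nd (nat_lit 234) (nat_lit 228) (nat_lit 0) (XT.nd (nat_lit 78) (nat_lit 152) (nat_lit 0) (XT.lf (nat_lit 0) (nat_lit 1513520915242) (nat_lit 152) (nat_lit 699450640668) (nat_lit 0) (nat_lit 707869170093) (nat_lit 15) (nat_lit 5) (nat_lit 17) (nat_lit 4) (nat_lit 15) (nat_lit 4) (nat_lit 396) (nat_lit 373) (nat_lit 251)) (XT.nd (nat_lit 78) (nat_lit 76) (nat_lit 0) (XT.lf (nat_lit 0) (nat_lit 1046073035817) (nat_lit 76) (nat_lit 1490455830300) (nat_lit 76) (nat_lit 684804081016) (nat_lit 14) (nat_lit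 4) (nat_lit 15) (nat_lit 5) (nat_lit 15) (nat_lit 4) (nat_lit 397) (nat_lit 373) (nat_lit 250)) (XT.lf (nat_lit 0) (nat_lit 171386394246) (nat_lit 152) (nat_lit 437171005248) (nat_lit 76) (nat_lit 2951688730826) (nat_lit 13) (nat_lit 5) (nat_lit 15) (nat_lit 5) (nat_lit 14) (nat_lit 4) (nat_lit 398) (nat_lit 373) (nat_lit 249)))) (XT.nd (nat_lit 156) (nat_lit 152) (nat_lit 0) (XT.nd (nat_lit 78) (nat_lit 0) (nat_lit 0) (XT.lf (nat_lit 0) (nat_lit 1177054028732) (nat_lit 152) (nat_lit 2277889597862) (nat_lit 0) (nat_lit 476487284380) (nat_lit 12) (nat_lit 5) (nat_lit 14) (nat_lit 4) (nat_lit 12) (nat_lit 4) (nat_lit 399) (nat_lit 373) (nat_lit 248)) (XT.lf (nat_lit 0) (nat_lit 2386491040875) (nat_lit 152) (nat_lit 277940188818) (nat_lit 0) (nat_lit 1685924294159) (nat_lit 12) (nat_lit 5) (nat_lit 14) (nat_lit 4) (nat_lit 12) (nat_lit 4) (nat_lit 400) (nat_lit 373) (nat_lit 247))) (XT.nd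 (nat_lit 78) (nat_lit 76) (nat_lit 0) (XT.lf (nat_lit 0) (nat_lit 2219606320270) (nat_lit 76) (nat_lit 1649646441791) (nat_lit 76) (nat_lit 949079693020) (nat_lit 11) (nat_lit 4) (nat_lit 12) (nat_lit 5) (nat_lit 12) (nat_lit 4) (nat_lit 401) (nat_lit 373) (nat_lit 246)) (XT.lf (nat_lit 0) (nat_lit 213742346438) (nat_lit 152) (nat_lit 241020705714) (nat_lit 76) (nat_lit 4898106236932) (nat_lit 10) (nat_lit 5) (nat_lit 12) (nat_lit 5) (nat_lit 11) (nat_lit 4) (nat_lit 402) (nat_lit 373) (nat_lit 245))))))))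
noncomputable def xc99 : XT := (XT.nd (nat_lit 51090) (nat_lit 0) (nat_lit 760) (XT.nd (nat_lit 936) (nat_lit 76) (nat_lit 0) (XT.nd (nat_lit 468) (nat_lit 228) (nat_lit 0) (XT.nd (nat_lit 234) (nat_lit 152) (nat_lit 0) (XT.nd (nat_lit 78) (nat_lit 76) (nat_lit 0) (XT.lf (nat_lit 0) (nat_lit 1609523706380) (nat_lit 152) (nat_lit 3327593020249) (nat_lit 0) (nat_lit 1000335226282) (nat_lit 9) (nat_lit 5) (nat_lit 11) (nat_lit 4) (nat_lit 9) (nat_lit 4) (nat_lit 403) (nat_lit 373) (nat_lit 244)) (XT.nd (nat_lit 78) (nat_lit 76) (nat_lit 0) (XT.lf (nat_lit 0) (nat_lit 3249526400501) (nat_lit 152) (nat_lit 714629577055) (nat_lit 0) (nat_lit 2640337919228) (nat_lit 9) (nat_lit 5) (nat_lit 11) (nat_lit 4) (nat_lit 9) (nat_lit 4) (nat_lit 404) (nat_lit 373) (nat_lit 243)) (XT.lf (nat_lit 0) (nat_lit 2514101030415) (nat_lit 76) (nat_lit 2725532025287) (nat_lit 76) (nat_lit 2116343542992) (nat_lit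 8) (nat_lit 4) (nat_lit 9) (nat_lit 5) (nat_lit 9) (nat_lit 4) (nat_lit 405) (nat_lit 373) (nat_lit 242)))) (XT.nd (nat_lit 78) (nat_lit 152) (nat_lit 0) (XT.lf (nat_lit 0) (nat_lit 6307455837805) (nat_lit 76) (nat_lit 1258155503245) (nat_lit 76) (nat_lit 648967020061) (nat_lit 8) (nat_lit 4) (nat_lit 9) (nat_lit 5) (nat_lit 9) (nat_lit 4) (nat_lit 406) (nat_lit 373) (nat_lit 241)) (XT.nd (nat_lit 78) (nat_lit 0) (nat_lit 0) (XT.lf (nat_lit 0) (nat_lit 1033734946465) (nat_lit 152) (nat_lit 7644627975732) (nat_lit 0) (nat_lit 504005829981) (nat_lit 6) (nat_lit 5) (nat_lit 8) (nat_lit 4) (nat_lit 6) (nat_lit 4) (nat_lit 407) (nat_lit 373) (nat_lit 240)) (XT.lf (nat_lit 0) (nat_lit 3066750170564) (nat_lit 152) (nat_lit 4662268525507) (nat_lit 0) (nat_lit 2537021053495) (nat_lit 6) (nat_lit 5) (nat_lit 8) (nat_lit 4) (nat_lit 6) (nat_lit 4) (nat_lit 408) (nat_lit 373) (nat_lit 239))))) (XT.nd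 (nat_lit 234) (nat_lit 152) (nat_lit 0) (XT.nd (nat_lit 78) (nat_lit 76) (nat_lit 0) (XT.lf (nat_lit 0) (nat_lit 5404717674241) (nat_lit 152) (nat_lit 1232555166262) (nat_lit 0) (nat_lit 4874988556664) (nat_lit 6) (nat_lit 5) (nat_lit 8) (nat_lit 4) (nat_lit 6) (nat_lit 4) (nat_lit 409) (nat_lit 373) (nat_lit 238)) (XT.nd (nat_lit 78) (nat_lit 0) (nat_lit 0) (XT.lf (nat_lit 0) (nat_lit 2976613946616) (nat_lit 76) (nat_lit 5240021589227) (nat_lit 76) (nat_lit 4710292471209) (nat_lit 5) (nat_lit 4) (nat_lit 6) (nat_lit 5) (nat_lit 6) (nat_lit 4) (nat_lit 410) (nat_lit 373) (nat_lit 237)) (XT.lf (nat_lit 0) (nat_lit 7955680812477) (nat_lit 76) (nat_lit 3559089280920) (nat_lit 76) (nat_lit 3029360162517) (nat_lit 5) (nat_lit 4) (nat_lit 6) (nat_lit 5) (nat_lit 6) (nat_lit 4) (nat_lit 411) (nat_lit 373) (nat_lit 236)))) (XT.nd (nat_lit 78) (nat_lit 152) (nat_lit 0) (XT.lf (nat_lit 0) (nat_lit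 13681607702072) (nat_lit 76) (nat_lit 1626017129603) (nat_lit 76) (nat_lit 1096288010867) (nat_lit 5) (nat_lit 4) (nat_lit 6) (nat_lit 5) (nat_lit 6) (nat_lit 4) (nat_lit 412) (nat_lit 373) (nat_lit 235)) (XT.nd (nat_lit 78) (nat_lit 0) (nat_lit 0) (XT.lf (nat_lit 0) (nat_lit 1133239333243) (nat_lit 152) (nat_lit 16713799001609) (nat_lit 0) (nat_lit 672605316698) (nat_lit 3) (nat_lit 5) (nat_lit 5) (nat_lit 4) (nat_lit 3) (nat_lit 4) (nat_lit 413) (nat_lit 373) (nat_lit 234)) (XT.lf (nat_lit 0) (nat_lit 3811464767652) (nat_lit 152) (nat_lit 13748631734825) (nat_lit 0) (nat_lit 3350830750887) (nat_lit 3) (nat_lit 5) (nat_lit 5) (nat_lit 4) (nat_lit 3) (nat_lit 4) (nat_lit 414) (nat_lit 373) (nat_lit 233)))))) (XT.nd (nat_lit 468) (nat_lit 0) (nat_lit 0) (XT.nd (nat_lit 234) (nat_lit 76) (nat_lit 0) (XT.nd (nat_lit 78) (nat_lit 0) (nat_lit 0) (XT.lf (nat_lit 0) (nat_lit 6891424014923) (nat_lit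 152) (nat_lit 10338689382903) (nat_lit 0) (nat_lit 6430789997967) (nat_lit 3) (nat_lit 5) (nat_lit 5) (nat_lit 4) (nat_lit 3) (nat_lit 4) (nat_lit 415) (nat_lit 373) (nat_lit 232)) (XT.nd (nat_lit 78) (nat_lit 0) (nat_lit 0) (XT.lf (nat_lit 0) (nat_lit 10433377147288) (nat_lit 152) (nat_lit 6417255682435) (nat_lit 0) (nat_lit 9972743130166) (nat_lit 3) (nat_lit 5) (nat_lit 5) (nat_lit 4) (nat_lit 3) (nat_lit 4) (nat_lit 416) (nat_lit 373) (nat_lit 231)) (XT.lf (nat_lit 0) (nat_lit 14506623247769) (nat_lit 152) (nat_lit 1907606930585) (nat_lit 0) (nat_lit 14045989230503) (nat_lit 3) (nat_lit 5) (nat_lit 5) (nat_lit 4) (nat_lit 3) (nat_lit 4) (nat_lit 417) (nat_lit 373) (nat_lit 230)))) (XT.nd (nat_lit 78) (nat_lit 0) (nat_lit 0) (XT.lf (nat_lit 0) (nat_lit 3598886932255) (nat_lit 76) (nat_lit 15740991562776) (nat_lit 76) (nat_lit 15280357545384) (nat_lit 2) (nat_lit 4) (nat_lit 3) (nat_lit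 5) (nat_lit 3) (nat_lit 4) (nat_lit 418) (nat_lit 373) (nat_lit 229)) (XT.nd (nat_lit 78) (nat_lit 0) (nat_lit 0) (XT.lf (nat_lit 0) (nat_lit 10145743877637) (nat_lit 76) (nat_lit 14852093967132) (nat_lit 76) (nat_lit 14391459949631) (nat_lit 2) (nat_lit 4) (nat_lit 3) (nat_lit 5) (nat_lit 3) (nat_lit 4) (nat_lit 419) (nat_lit 373) (nat_lit 228)) (XT.lf (nat_lit 0) (nat_lit 17674629362163) (nat_lit 76) (nat_lit 13829861733551) (nat_lit 76) (nat_lit 13369227715955) (nat_lit 2) (nat_lit 4) (nat_lit 3) (nat_lit 5) (nat_lit 3) (nat_lit 4) (nat_lit 420) (nat_lit 373) (nat_lit 227))))) (XT.nd (nat_lit 49452) (nat_lit 0) (nat_lit 2356) (XT.nd (nat_lit 78) (nat_lit 0) (nat_lit 0) (XT.lf (nat_lit 0) (nat_lit 26332847667053) (nat_lit 76) (nat_lit 12654294666159) (nat_lit 76) (nat_lit 12193660648480) (nat_lit 2) (nat_lit 4) (nat_lit 3) (nat_lit 5) (nat_lit 3) (nat_lit 4) (nat_lit 421) (nat_lit 373)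 (nat_lit 226)) (XT.nd (nat_lit 78) (nat_lit 0) (nat_lit 0) (XT.lf (nat_lit 0) (nat_lit 36289798715664) (nat_lit 76) (nat_lit 11302392539724) (nat_lit 76) (nat_lit 10841758521974) (nat_lit 2) (nat_lit 4) (nat_lit 3) (nat_lit 5) (nat_lit 3) (nat_lit 4) (nat_lit 422) (nat_lit 373) (nat_lit 225)) (XT.lf (nat_lit 0) (nat_lit 47740292419815) (nat_lit 76) (nat_lit 9747705095251) (nat_lit 76) (nat_lit 9287071077439) (nat_lit 2) (nat_lit 4) (nat_lit 3) (nat_lit 5) (nat_lit 3) (nat_lit 4) (nat_lit 423) (nat_lit 373) (nat_lit 224)))) (XT.nd (nat_lit 78) (nat_lit 0) (nat_lit 0) (XT.lf (nat_lit 0) (nat_lit 65488535435) (nat_lit 380) (nat_lit 84613930769) (nat_lit 380) (nat_lit 84613930769) (nat_lit 33) (nat_lit 3) (nat_lit 38) (nat_lit 3) (nat_lit 38) (nat_lit 5) (nat_lit 374) (nat_lit 374) (nat_lit 272)) (XT.nd (nat_lit 78) (nat_lit 0) (nat_lit 76) (XT.lf (nat_lit 76) (nat_lit 68639256397) (nat_lit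 0) (nat_lit 75003574535) (nat_lit 380) (nat_lit 360571050407) (nat_lit 34) (nat_lit 5) (nat_lit 33) (nat_lit 3) (nat_lit 38) (nat_lit 5) (nat_lit 375) (nat_lit 374) (nat_lit 271)) (XT.lf (nat_lit 0) (nat_lit 175093781791) (nat_lit 304) (nat_lit 189719299070) (nat_lit 380) (nat_lit 176866251993) (nat_lit 34) (nat_lit 5) (nat_lit 38) (nat_lit 5) (nat_lit 39) (nat_lit 5) (nat_lit 376) (nat_lit 374) (nat_lit 270))))))) (XT.nd (nat_lit 936) (nat_lit 760) (nat_lit 0) (XT.nd (nat_lit 468) (nat_lit 532) (nat_lit 0) (XT.nd (nat_lit 234) (nat_lit 152) (nat_lit 0) (XT.nd (nat_lit 78) (nat_lit 228) (nat_lit 0) (XT.lf (nat_lit 76) (nat_lit 98183683215) (nat_lit 0) (nat_lit 120715824874) (nat_lit 380) (nat_lit 364719524114) (nat_lit 35) (nat_lit 5) (nat_lit 34) (nat_lit 5) (nat_lit 39) (nat_lit 5) (nat_lit 377) (nat_lit 374) (nat_lit 269)) (XT.nd (nat_lit 78) (nat_lit 304) (nat_lit 0) (XT.lf (nat_lit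 0) (nat_lit 286290539081) (nat_lit 304) (nat_lit 186865517325) (nat_lit 76) (nat_lit 156141463215) (nat_lit 35) (nat_lit 5) (nat_lit 39) (nat_lit 5) (nat_lit 36) (nat_lit 5) (nat_lit 378) (nat_lit 374) (nat_lit 268)) (XT.lf (nat_lit 0) (nat_lit 165472927111) (nat_lit 304) (nat_lit 210917517856) (nat_lit 380) (nat_lit 303547302170) (nat_lit 31) (nat_lit 5) (nat_lit 35) (nat_lit 5) (nat_lit 36) (nat_lit 5) (nat_lit 379) (nat_lit 374) (nat_lit 267)))) (XT.nd (nat_lit 78) (nat_lit 152) (nat_lit 0) (XT.lf (nat_lit 0) (nat_lit 493992322775) (nat_lit 380) (nat_lit 149264621893) (nat_lit 76) (nat_lit 92819016225) (nat_lit 31) (nat_lit 5) (nat_lit 36) (nat_lit 5) (nat_lit 32) (nat_lit 5) (nat_lit 380) (nat_lit 374) (nat_lit 266)) (XT.nd (nat_lit 78) (nat_lit 0) (nat_lit 0) (XT.lf (nat_lit 0) (nat_lit 286146635011) (nat_lit 152) (nat_lit 364980234041) (nat_lit 228) (nat_lit 146224179659) (nat_lit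 29) (nat_lit 5) (nat_lit 31) (nat_lit 5) (nat_lit 32) (nat_lit 5) (nat_lit 381) (nat_lit 374) (nat_lit 265)) (XT.lf (nat_lit 0) (nat_lit 803644858164) (nat_lit 152) (nat_lit 35989183699) (nat_lit 228) (nat_lit 27012991164) (nat_lit 29) (nat_lit 5) (nat_lit 31) (nat_lit 5) (nat_lit 32) (nat_lit 5) (nat_lit 382) (nat_lit 374) (nat_lit 264))))) (XT.nd (nat_lit 234) (nat_lit 228) (nat_lit 0) (XT.nd (nat_lit 78) (nat_lit 152) (nat_lit 0) (XT.lf (nat_lit 0) (nat_lit 136000090000) (nat_lit 152) (nat_lit 466320972587) (nat_lit 76) (nat_lit 337974583559) (nat_lit 27) (nat_lit 5) (nat_lit 29) (nat_lit 5) (nat_lit 28) (nat_lit 5) (nat_lit 383) (nat_lit 374) (nat_lit 263)) (XT.nd (nat_lit 78) (nat_lit 0) (nat_lit 0) (XT.lf (nat_lit 0) (nat_lit 77855341318) (nat_lit 152) (nat_lit 251231869009) (nat_lit 228) (nat_lit 694453237066) (nat_lit 25) (nat_lit 5) (nat_lit 27) (nat_lit 5) (nat_lit 28) (nat_lit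 5) (nat_lit 384) (nat_lit 374) (nat_lit 262)) (XT.lf (nat_lit 0) (nat_lit 582989560933) (nat_lit 228) (nat_lit 367025711697) (nat_lit 76) (nat_lit 164478871872) (nat_lit 25) (nat_lit 5) (nat_lit 28) (nat_lit 5) (nat_lit 26) (nat_lit 4) (nat_lit 385) (nat_lit 374) (nat_lit 261)))) (XT.nd (nat_lit 78) (nat_lit 152) (nat_lit 0) (XT.lf (nat_lit 0) (nat_lit 314464990399) (nat_lit 76) (nat_lit 585497003720) (nat_lit 152) (nat_lit 315381192567) (nat_lit 24) (nat_lit 5) (nat_lit 25) (nat_lit 5) (nat_lit 26) (nat_lit 4) (nat_lit 386) (nat_lit 374) (nat_lit 260)) (XT.nd (nat_lit 78) (nat_lit 152) (nat_lit 0) (XT.lf (nat_lit 0) (nat_lit 1139427957033) (nat_lit 76) (nat_lit 144237754329) (nat_lit 152) (nat_lit 44776060981) (nat_lit 24) (nat_lit 5) (nat_lit 25) (nat_lit 5) (nat_lit 26) (nat_lit 4) (nat_lit 387) (nat_lit 374) (nat_lit 259)) (XT.lf (nat_lit 0) (nat_lit 287723446806) (nat_lit 152) (nat_lit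 790484454163) (nat_lit 76) (nat_lit 371889141821) (nat_lit 22) (nat_lit 5) (nat_lit 24) (nat_lit 5) (nat_lit 23) (nat_lit 4) (nat_lit 388) (nat_lit 374) (nat_lit 258)))))) (XT.nd (nat_lit 468) (nat_lit 380) (nat_lit 0) (XT.nd (nat_lit 234) (nat_lit 228) (nat_lit 0) (XT.nd (nat_lit 78) (nat_lit 76) (nat_lit 0) (XT.lf (nat_lit 0) (nat_lit 64530768877) (nat_lit 76) (nat_lit 620874184796) (nat_lit 152) (nat_lit 901292127825) (nat_lit 21) (nat_lit 5) (nat_lit 22) (nat_lit 5) (nat_lit 23) (nat_lit 4) (nat_lit 389) (nat_lit 374) (nat_lit 257)) (XT.nd (nat_lit 78) (nat_lit 76) (nat_lit 0) (XT.lf (nat_lit 0) (nat_lit 1136637925324) (nat_lit 76) (nat_lit 47421526485) (nat_lit 152) (nat_lit 553529559423) (nat_lit 21) (nat_lit 5) (nat_lit 22) (nat_lit 5) (nat_lit 23) (nat_lit 4) (nat_lit 390) (nat_lit 374) (nat_lit 256)) (XT.lf (nat_lit 0) (nat_lit 475428709354) (nat_lit 76) (nat_lit 1327113537752)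 (nat_lit 76) (nat_lit 101817964958) (nat_lit 20) (nat_lit 4) (nat_lit 21) (nat_lit 5) (nat_lit 21) (nat_lit 4) (nat_lit 391) (nat_lit 374) (nat_lit 255)))) (XT.nd (nat_lit 78) (nat_lit 152) (nat_lit 0) (XT.lf (nat_lit 0) (nat_lit 415635627245) (nat_lit 152) (nat_lit 331678983779) (nat_lit 76) (nat_lit 1340963272955) (nat_lit 19) (nat_lit 5) (nat_lit 21) (nat_lit 5) (nat_lit 20) (nat_lit 4) (nat_lit 392) (nat_lit 374) (nat_lit 254)) (XT.nd (nat_lit 78) (nat_lit 76) (nat_lit 0) (XT.lf (nat_lit 0) (nat_lit 1015741227557) (nat_lit 76) (nat_lit 26601478596) (nat_lit 152) (nat_lit 1250404279139) (nat_lit 18) (nat_lit 5) (nat_lit 19) (nat_lit 5) (nat_lit 20) (nat_lit 4) (nat_lit 393) (nat_lit 374) (nat_lit 253)) (XT.lf (nat_lit 0) (nat_lit 47444968081) (nat_lit 76) (nat_lit 1768956999304) (nat_lit 76) (nat_lit 703482566344) (nat_lit 17) (nat_lit 4) (nat_lit 18) (nat_lit 5) (nat_lit 18) (nat_lit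 4) (nat_lit 394) (nat_lit 374) (nat_lit 252))))) (XT.nd (nat_lit 234) (nat_lit 228) (nat_lit 0) (XT.nd (nat_lit 78) (nat_lit 76) (nat_lit 0) (XT.lf (nat_lit 0) (nat_lit 3309915240) (nat_lit 152) (nat_lit 1058358120660) (nat_lit 76) (nat_lit 1709207852557) (nat_lit 16) (nat_lit 5) (nat_lit 18) (nat_lit 5) (nat_lit 17) (nat_lit 4) (nat_lit 395) (nat_lit 374) (nat_lit 251)) (XT.nd (nat_lit 78) (nat_lit 0) (nat_lit 0) (XT.lf (nat_lit 0) (nat_lit 586555589156) (nat_lit 76) (nat_lit 181830472396) (nat_lit 152) (nat_lit 2282461808228) (nat_lit 15) (nat_lit 5) (nat_lit 16) (nat_lit 5) (nat_lit 17) (nat_lit 4) (nat_lit 396) (nat_lit 374) (nat_lit 250)) (XT.lf (nat_lit 0) (nat_lit 1740549142765) (nat_lit 152) (nat_lit 804368055234) (nat_lit 0) (nat_lit 814049623359) (nat_lit 15) (nat_lit 5) (nat_lit 17) (nat_lit 4) (nat_lit 15) (nat_lit 4) (nat_lit 397) (nat_lit 374) (nat_lit 249)))) (XT.nd (nat_lit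 156) (nat_lit 76) (nat_lit 0) (XT.nd (nat_lit 78) (nat_lit 76) (nat_lit 0) (XT.lf (nat_lit 0) (nat_lit 1202984164473) (nat_lit 76) (nat_lit 1714024117203) (nat_lit 76) (nat_lit 787524594672) (nat_lit 14) (nat_lit 4) (nat_lit 15) (nat_lit 5) (nat_lit 15) (nat_lit 4) (nat_lit 398) (nat_lit 374) (nat_lit 248)) (XT.lf (nat_lit 0) (nat_lit 197094431407) (nat_lit 152) (nat_lit 502746497722) (nat_lit 76) (nat_lit 3394442109028) (nat_lit 13) (nat_lit 5) (nat_lit 15) (nat_lit 5) (nat_lit 14) (nat_lit 4) (nat_lit 399) (nat_lit 374) (nat_lit 247))) (XT.nd (nat_lit 78) (nat_lit 0) (nat_lit 0) (XT.lf (nat_lit 0) (nat_lit 1353612210336) (nat_lit 152) (nat_lit 2619572878490) (nat_lit 0) (nat_lit 547960447193) (nat_lit 12) (nat_lit 5) (nat_lit 14) (nat_lit 4) (nat_lit 12) (nat_lit 4) (nat_lit 400) (nat_lit 374) (nat_lit 246)) (XT.lf (nat_lit 0) (nat_lit 2744464764218) (nat_lit 152) (nat_lit 319631078836)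 (nat_lit 0) (nat_lit 1938812999289) (nat_lit 12) (nat_lit 5) (nat_lit 14) (nat_lit 4) (nat_lit 12) (nat_lit 4) (nat_lit 401) (nat_lit 374) (nat_lit 245))))))))
noncomputable def xc100 : XT := (XT.nd (nat_lit 51168) (nat_lit 0) (nat_lit 760) (XT.nd (nat_lit 936) (nat_lit 228) (nat_lit 0) (XT.nd (nat_lit 468) (nat_lit 228) (nat_lit 0) (XT.nd (nat_lit 234) (nat_lit 76) (nat_lit 0) (XT.nd (nat_lit 78) (nat_lit 152) (nat_lit 0) (XT.lf (nat_lit 0) (nat_lit 2552547400329) (nat_lit 76) (nat_lit 1897093339953) (nat_lit 76) (nat_lit 1091441573469) (nat_lit 11) (nat_lit 4) (nat_lit 12) (nat_lit 5) (nat_lit 12) (nat_lit 4) (nat_lit 402) (nat_lit 374) (nat_lit 244)) (XT.nd (nat_lit 78) (nat_lit 76) (nat_lit 0) (XT.lf (nat_lit 0) (nat_lit 245803756630) (nat_lit 152) (nat_lit 277173691079) (nat_lit 76) (nat_lit 5632822226000) (nat_lit 10) (nat_lit 5) (nat_lit 12) (nat_lit 5) (nat_lit 11) (nat_lit 4)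 (nat_lit 403) (nat_lit 374) (nat_lit 243)) (XT.lf (nat_lit 0) (nat_lit 1850952320200) (nat_lit 152) (nat_lit 3826731852427) (nat_lit 0) (nat_lit 1150385564538) (nat_lit 9) (nat_lit 5) (nat_lit 11) (nat_lit 4) (nat_lit 9) (nat_lit 4) (nat_lit 404) (nat_lit 374) (nat_lit 242)))) (XT.nd (nat_lit 78) (nat_lit 76) (nat_lit 0) (XT.lf (nat_lit 0) (nat_lit 3736955410892) (nat_lit 152) (nat_lit 821823908518) (nat_lit 0) (nat_lit 3036388654342) (nat_lit 9) (nat_lit 5) (nat_lit 11) (nat_lit 4) (nat_lit 9) (nat_lit 4) (nat_lit 405) (nat_lit 374) (nat_lit 241)) (XT.nd (nat_lit 78) (nat_lit 0) (nat_lit 0) (XT.lf (nat_lit 0) (nat_lit 2891216285295) (nat_lit 76) (nat_lit 3134361776669) (nat_lit 76) (nat_lit 2433795019346) (nat_lit 8) (nat_lit 4) (nat_lit 9) (nat_lit 5) (nat_lit 9) (nat_lit 4) (nat_lit 406) (nat_lit 374) (nat_lit 240)) (XT.lf (nat_lit 0) (nat_lit 7253574300708) (nat_lit 76) (nat_lit 1446878783157)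 (nat_lit 76) (nat_lit 746312025162) (nat_lit 8) (nat_lit 4) (nat_lit 9) (nat_lit 5) (nat_lit 9) (nat_lit 4) (nat_lit 407) (nat_lit 374) (nat_lit 239))))) (XT.nd (nat_lit 234) (nat_lit 76) (nat_lit 0) (XT.nd (nat_lit 78) (nat_lit 0) (nat_lit 0) (XT.lf (nat_lit 0) (nat_lit 1188795231898) (nat_lit 152) (nat_lit 8791322080410) (nat_lit 0) (nat_lit 579606746177) (nat_lit 6) (nat_lit 5) (nat_lit 8) (nat_lit 4) (nat_lit 6) (nat_lit 4) (nat_lit 408) (nat_lit 374) (nat_lit 238)) (XT.nd (nat_lit 78) (nat_lit 0) (nat_lit 0) (XT.lf (nat_lit 0) (nat_lit 3526762733942) (nat_lit 152) (nat_lit 5361608724609) (nat_lit 0) (nat_lit 2917574247779) (nat_lit 6) (nat_lit 5) (nat_lit 8) (nat_lit 4) (nat_lit 6) (nat_lit 4) (nat_lit 409) (nat_lit 374) (nat_lit 237)) (XT.lf (nat_lit 0) (nat_lit 6215425358241) (nat_lit 152) (nat_lit 1417438371877) (nat_lit 0) (nat_lit 5606236871694) (nat_lit 6) (nat_lit 5) (nat_lit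 8) (nat_lit 4) (nat_lit 6) (nat_lit 4) (nat_lit 410) (nat_lit 374) (nat_lit 236)))) (XT.nd (nat_lit 78) (nat_lit 0) (nat_lit 0) (XT.lf (nat_lit 0) (nat_lit 3423106104782) (nat_lit 76) (nat_lit 6026024792755) (nat_lit 76) (nat_lit 5416836305874) (nat_lit 5) (nat_lit 4) (nat_lit 6) (nat_lit 5) (nat_lit 6) (nat_lit 4) (nat_lit 411) (nat_lit 374) (nat_lit 235)) (XT.nd (nat_lit 78) (nat_lit 0) (nat_lit 0) (XT.lf (nat_lit 0) (nat_lit 9149032991891) (nat_lit 76) (nat_lit 4092952642748) (nat_lit 76) (nat_lit 3483764155577) (nat_lit 5) (nat_lit 4) (nat_lit 6) (nat_lit 5) (nat_lit 6) (nat_lit 4) (nat_lit 412) (nat_lit 374) (nat_lit 234)) (XT.lf (nat_lit 0) (nat_lit 15733848907419) (nat_lit 76) (nat_lit 1869919672687) (nat_lit 76) (nat_lit 1260731185263) (nat_lit 5) (nat_lit 4) (nat_lit 6) (nat_lit 5) (nat_lit 6) (nat_lit 4) (nat_lit 413) (nat_lit 374) (nat_lit 233)))))) (XT.nd (nat_lit 468) (nat_lit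 0) (nat_lit 0) (XT.nd (nat_lit 234) (nat_lit 76) (nat_lit 0) (XT.nd (nat_lit 78) (nat_lit 0) (nat_lit 0) (XT.lf (nat_lit 0) (nat_lit 1303225257971) (nat_lit 152) (nat_lit 19220868799320) (nat_lit 0) (nat_lit 773496138281) (nat_lit 3) (nat_lit 5) (nat_lit 5) (nat_lit 4) (nat_lit 3) (nat_lit 4) (nat_lit 414) (nat_lit 374) (nat_lit 232)) (XT.nd (nat_lit 78) (nat_lit 0) (nat_lit 0) (XT.lf (nat_lit 0) (nat_lit 4383184504313) (nat_lit 152) (nat_lit 15810926449370) (nat_lit 0) (nat_lit 3853455384457) (nat_lit 3) (nat_lit 5) (nat_lit 5) (nat_lit 4) (nat_lit 3) (nat_lit 4) (nat_lit 415) (nat_lit 374) (nat_lit 231)) (XT.lf (nat_lit 0) (nat_lit 7925137635869) (nat_lit 152) (nat_lit 11889492750618) (nat_lit 0) (nat_lit 7395408515869) (nat_lit 3) (nat_lit 5) (nat_lit 5) (nat_lit 4) (nat_lit 3) (nat_lit 4) (nat_lit 416) (nat_lit 374) (nat_lit 230)))) (XT.nd (nat_lit 78) (nat_lit 76) (nat_lit 0) (XT.lf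 (nat_lit 0) (nat_lit 11998383735648) (nat_lit 152) (nat_lit 7379844000261) (nat_lit 0) (nat_lit 11468654615522) (nat_lit 3) (nat_lit 5) (nat_lit 5) (nat_lit 4) (nat_lit 3) (nat_lit 4) (nat_lit 417) (nat_lit 374) (nat_lit 229)) (XT.nd (nat_lit 78) (nat_lit 76) (nat_lit 0) (XT.lf (nat_lit 0) (nat_lit 16682616749080) (nat_lit 152) (nat_lit 2193747940139) (nat_lit 0) (nat_lit 16152887628845) (nat_lit 3) (nat_lit 5) (nat_lit 5) (nat_lit 4) (nat_lit 3) (nat_lit 4) (nat_lit 418) (nat_lit 374) (nat_lit 228)) (XT.lf (nat_lit 0) (nat_lit 4138720000763) (nat_lit 76) (nat_lit 18102140282011) (nat_lit 76) (nat_lit 17572411161681) (nat_lit 2) (nat_lit 4) (nat_lit 3) (nat_lit 5) (nat_lit 3) (nat_lit 4) (nat_lit 419) (nat_lit 374) (nat_lit 227))))) (XT.nd (nat_lit 234) (nat_lit 0) (nat_lit 0) (XT.nd (nat_lit 78) (nat_lit 0) (nat_lit 0) (XT.lf (nat_lit 0) (nat_lit 11667605484212) (nat_lit 76) (nat_lit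 17079908049000) (nat_lit 76) (nat_lit 16550178928587) (nat_lit 2) (nat_lit 4) (nat_lit 3) (nat_lit 5) (nat_lit 3) (nat_lit 4) (nat_lit 420) (nat_lit 374) (nat_lit 226)) (XT.nd (nat_lit 78) (nat_lit 0) (nat_lit 0) (XT.lf (nat_lit 0) (nat_lit 20325823788166) (nat_lit 76) (nat_lit 15904340982104) (nat_lit 76) (nat_lit 15374611861619) (nat_lit 2) (nat_lit 4) (nat_lit 3) (nat_lit 5) (nat_lit 3) (nat_lit 4) (nat_lit 421) (nat_lit 374) (nat_lit 225)) (XT.lf (nat_lit 0) (nat_lit 30282774835962) (nat_lit 76) (nat_lit 14552438856101) (nat_lit 76) (nat_lit 14022709735553) (nat_lit 2) (nat_lit 4) (nat_lit 3) (nat_lit 5) (nat_lit 3) (nat_lit 4) (nat_lit 422) (nat_lit 374) (nat_lit 224)))) (XT.nd (nat_lit 49374) (nat_lit 0) (nat_lit 2356) (XT.lf (nat_lit 0) (nat_lit 41733268539405) (nat_lit 76) (nat_lit 12997751412003) (nat_lit 76) (nat_lit 12468022291401) (nat_lit 2) (nat_lit 4) (nat_lit 3) (nat_lit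 5) (nat_lit 3) (nat_lit 4) (nat_lit 423) (nat_lit 374) (nat_lit 223)) (XT.nd (nat_lit 78) (nat_lit 0) (nat_lit 0) (XT.lf (nat_lit 0) (nat_lit 75312078896) (nat_lit 380) (nat_lit 97305868983) (nat_lit 380) (nat_lit 97305868983) (nat_lit 33) (nat_lit 3) (nat_lit 38) (nat_lit 3) (nat_lit 38) (nat_lit 5) (nat_lit 375) (nat_lit 375) (nat_lit 270)) (XT.lf (nat_lit 76) (nat_lit 78935433896) (nat_lit 0) (nat_lit 86254291288) (nat_lit 380) (nat_lit 414656167589) (nat_lit 34) (nat_lit 5) (nat_lit 33) (nat_lit 3) (nat_lit 38) (nat_lit 5) (nat_lit 376) (nat_lit 375) (nat_lit 269))))))) (XT.nd (nat_lit 936) (nat_lit 912) (nat_lit 0) (XT.nd (nat_lit 468) (nat_lit 380) (nat_lit 0) (XT.nd (nat_lit 234) (nat_lit 380) (nat_lit 0) (XT.nd (nat_lit 78) (nat_lit 0) (nat_lit 0) (XT.lf (nat_lit 0) (nat_lit 201358250916) (nat_lit 304) (nat_lit 218176874554) (nat_lit 380) (nat_lit 203396046751) (nat_lit 34) (nat_lit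 5) (nat_lit 38) (nat_lit 5) (nat_lit 39) (nat_lit 5) (nat_lit 377) (nat_lit 375) (nat_lit 268)) (XT.nd (nat_lit 78) (nat_lit 0) (nat_lit 76) (XT.lf (nat_lit 76) (nat_lit 112911540558) (nat_lit 0) (nat_lit 138823255810) (nat_lit 380) (nat_lit 419427036112) (nat_lit 35) (nat_lit 5) (nat_lit 34) (nat_lit 5) (nat_lit 39) (nat_lit 5) (nat_lit 378) (nat_lit 375) (nat_lit 267)) (XT.lf (nat_lit 0) (nat_lit 329234432722) (nat_lit 304) (nat_lit 214895030329) (nat_lit 76) (nat_lit 179562637383) (nat_lit 35) (nat_lit 5) (nat_lit 39) (nat_lit 5) (nat_lit 36) (nat_lit 5) (nat_lit 379) (nat_lit 375) (nat_lit 266)))) (XT.nd (nat_lit 78) (nat_lit 152) (nat_lit 0) (XT.lf (nat_lit 0) (nat_lit 190294166472) (nat_lit 304) (nat_lit 242555129656) (nat_lit 380) (nat_lit 349079070231) (nat_lit 31) (nat_lit 5) (nat_lit 35) (nat_lit 5) (nat_lit 36) (nat_lit 5) (nat_lit 380) (nat_lit 375) (nat_lit 265)) (XT.nd (nat_lit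 78) (nat_lit 152) (nat_lit 0) (XT.lf (nat_lit 0) (nat_lit 568091419082) (nat_lit 380) (nat_lit 171654017364) (nat_lit 76) (nat_lit 106741881237) (nat_lit 31) (nat_lit 5) (nat_lit 36) (nat_lit 5) (nat_lit 32) (nat_lit 5) (nat_lit 381) (nat_lit 375) (nat_lit 264)) (XT.lf (nat_lit 0) (nat_lit 329068914539) (nat_lit 152) (nat_lit 419727212199) (nat_lit 228) (nat_lit 168157545040) (nat_lit 29) (nat_lit 5) (nat_lit 31) (nat_lit 5) (nat_lit 32) (nat_lit 5) (nat_lit 382) (nat_lit 375) (nat_lit 263))))) (XT.nd (nat_lit 234) (nat_lit 76) (nat_lit 0) (XT.nd (nat_lit 78) (nat_lit 304) (nat_lit 0) (XT.lf (nat_lit 0) (nat_lit 924191834085) (nat_lit 152) (nat_lit 41387511734) (nat_lit 228) (nat_lit 31064712389) (nat_lit 29) (nat_lit 5) (nat_lit 31) (nat_lit 5) (nat_lit 32) (nat_lit 5) (nat_lit 383) (nat_lit 375) (nat_lit 262)) (XT.nd (nat_lit 78) (nat_lit 152) (nat_lit 0) (XT.lf (nat_lit 0) (nat_lit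 156400296927) (nat_lit 152) (nat_lit 536268837057) (nat_lit 76) (nat_lit 388670829979) (nat_lit 27) (nat_lit 5) (nat_lit 29) (nat_lit 5) (nat_lit 28) (nat_lit 5) (nat_lit 384) (nat_lit 375) (nat_lit 261)) (XT.lf (nat_lit 0) (nat_lit 89533911143) (nat_lit 152) (nat_lit 288916560054) (nat_lit 228) (nat_lit 798621016327) (nat_lit 25) (nat_lit 5) (nat_lit 27) (nat_lit 5) (nat_lit 28) (nat_lit 5) (nat_lit 385) (nat_lit 375) (nat_lit 260)))) (XT.nd (nat_lit 78) (nat_lit 76) (nat_lit 0) (XT.lf (nat_lit 0) (nat_lit 670438154220) (nat_lit 228) (nat_lit 422079314620) (nat_lit 76) (nat_lit 189150773397) (nat_lit 25) (nat_lit 5) (nat_lit 28) (nat_lit 5) (nat_lit 26) (nat_lit 4) (nat_lit 386) (nat_lit 375) (nat_lit 259)) (XT.nd (nat_lit 78) (nat_lit 0) (nat_lit 0) (XT.lf (nat_lit 0) (nat_lit 361634981254) (nat_lit 76) (nat_lit 673321460404) (nat_lit 152) (nat_lit 362688200708) (nat_lit 24) (nat_lit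 5) (nat_lit 25) (nat_lit 5) (nat_lit 26) (nat_lit 4) (nat_lit 387) (nat_lit 375) (nat_lit 258)) (XT.lf (nat_lit 0) (nat_lit 1310342361278) (nat_lit 76) (nat_lit 165873335849) (nat_lit 152) (nat_lit 51492321655) (nat_lit 24) (nat_lit 5) (nat_lit 25) (nat_lit 5) (nat_lit 26) (nat_lit 4) (nat_lit 388) (nat_lit 375) (nat_lit 257)))))) (XT.nd (nat_lit 468) (nat_lit 456) (nat_lit 0) (XT.nd (nat_lit 234) (nat_lit 228) (nat_lit 0) (XT.nd (nat_lit 78) (nat_lit 76) (nat_lit 0) (XT.lf (nat_lit 0) (nat_lit 330882093908) (nat_lit 152) (nat_lit 909056893118) (nat_lit 76) (nat_lit 427672592631) (nat_lit 22) (nat_lit 5) (nat_lit 24) (nat_lit 5) (nat_lit 23) (nat_lit 4) (nat_lit 389) (nat_lit 375) (nat_lit 256)) (XT.nd (nat_lit 78) (nat_lit 0) (nat_lit 0) (XT.lf (nat_lit 0) (nat_lit 74210602961) (nat_lit 76) (nat_lit 714005215935) (nat_lit 152) (nat_lit 1036485806467) (nat_lit 21) (nat_lit 5) (nat_lit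 22) (nat_lit 5) (nat_lit 23) (nat_lit 4) (nat_lit 390) (nat_lit 375) (nat_lit 255)) (XT.lf (nat_lit 0) (nat_lit 1307133804343) (nat_lit 76) (nat_lit 54534671474) (nat_lit 152) (nat_lit 636558871135) (nat_lit 21) (nat_lit 5) (nat_lit 22) (nat_lit 5) (nat_lit 23) (nat_lit 4) (nat_lit 391) (nat_lit 375) (nat_lit 254)))) (XT.nd (nat_lit 78) (nat_lit 152) (nat_lit 0) (XT.lf (nat_lit 0) (nat_lit 546743209251) (nat_lit 76) (nat_lit 1526180478336) (nat_lit 76) (nat_lit 117090540747) (nat_lit 20) (nat_lit 4) (nat_lit 21) (nat_lit 5) (nat_lit 21) (nat_lit 4) (nat_lit 392) (nat_lit 375) (nat_lit 253)) (XT.nd (nat_lit 78) (nat_lit 76) (nat_lit 0) (XT.lf (nat_lit 0) (nat_lit 477981065561) (nat_lit 152) (nat_lit 381430653861) (nat_lit 76) (nat_lit 1542107832998) (nat_lit 19) (nat_lit 5) (nat_lit 21) (nat_lit 5) (nat_lit 20) (nat_lit 4) (nat_lit 393) (nat_lit 375) (nat_lit 252)) (XT.lf (nat_lit 0) (nat_lit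 1168102581107) (nat_lit 76) (nat_lit 30591619922) (nat_lit 152) (nat_lit 1437964818695) (nat_lit 18) (nat_lit 5) (nat_lit 19) (nat_lit 5) (nat_lit 20) (nat_lit 4) (nat_lit 394) (nat_lit 375) (nat_lit 251))))) (XT.nd (nat_lit 234) (nat_lit 228) (nat_lit 0) (XT.nd (nat_lit 78) (nat_lit 152) (nat_lit 0) (XT.lf (nat_lit 0) (nat_lit 54561884581) (nat_lit 76) (nat_lit 2034300465252) (nat_lit 76) (nat_lit 809004850839) (nat_lit 17) (nat_lit 4) (nat_lit 18) (nat_lit 5) (nat_lit 18) (nat_lit 4) (nat_lit 395) (nat_lit 375) (nat_lit 250)) (XT.nd (nat_lit 78) (nat_lit 76) (nat_lit 0) (XT.lf (nat_lit 0) (nat_lit 3806482103) (nat_lit 152) (nat_lit 1217111682024) (nat_lit 76) (nat_lit 1965589095651) (nat_lit 16) (nat_lit 5) (nat_lit 18) (nat_lit 5) (nat_lit 17) (nat_lit 4) (nat_lit 396) (nat_lit 375) (nat_lit 249)) (XT.lf (nat_lit 0) (nat_lit 674539077140) (nat_lit 76) (nat_lit 209104969037) (nat_lit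 152) (nat_lit 2624830992751) (nat_lit 15) (nat_lit 5) (nat_lit 16) (nat_lit 5) (nat_lit 17) (nat_lit 4) (nat_lit 397) (nat_lit 375) (nat_lit 248)))) (XT.nd (nat_lit 156) (nat_lit 152) (nat_lit 0) (XT.nd (nat_lit 78) (nat_lit 76) (nat_lit 0) (XT.lf (nat_lit 0) (nat_lit 2001631582411) (nat_lit 152) (nat_lit 925023126253) (nat_lit 0) (nat_lit 936157125655) (nat_lit 15) (nat_lit 5) (nat_lit 17) (nat_lit 4) (nat_lit 15) (nat_lit 4) (nat_lit 398) (nat_lit 375) (nat_lit 247)) (XT.lf (nat_lit 0) (nat_lit 1383431920170) (nat_lit 76) (nat_lit 1971127668514) (nat_lit 76) (nat_lit 905653209394) (nat_lit 14) (nat_lit 4) (nat_lit 15) (nat_lit 5) (nat_lit 15) (nat_lit 4) (nat_lit 399) (nat_lit 375) (nat_lit 246))) (XT.nd (nat_lit 78) (nat_lit 76) (nat_lit 0) (XT.lf (nat_lit 0) (nat_lit 226658655117) (nat_lit 152) (nat_lit 578158352673) (nat_lit 76) (nat_lit 3903608477236) (nat_lit 13) (nat_lit 5) (nat_lit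 15) (nat_lit 5) (nat_lit 14) (nat_lit 4) (nat_lit 400) (nat_lit 375) (nat_lit 245)) (XT.lf (nat_lit 0) (nat_lit 1556654100331) (nat_lit 152) (nat_lit 3012508689999) (nat_lit 0) (nat_lit 630154567320) (nat_lit 12) (nat_lit 5) (nat_lit 14) (nat_lit 4) (nat_lit 12) (nat_lit 4) (nat_lit 401) (nat_lit 375) (nat_lit 244))))))))
noncomputable def xc101 : XT := (XT.nd (nat_lit 3744) (nat_lit 0) (nat_lit 0) (XT.nd (nat_lit 936) (nat_lit 304) (nat_lit 0) (XT.nd (nat_lit 468) (nat_lit 228) (nat_lit 0) (XT.nd (nat_lit 234) (nat_lit 152) (nat_lit 0) (XT.nd (nat_lit 78) (nat_lit 152) (nat_lit 0) (XT.lf (nat_lit 0) (nat_lit 3156134529673) (nat_lit 152) (nat_lit 367575636083) (nat_lit 0) (nat_lit 2229634995311) (nat_lit 12) (nat_lit 5) (nat_lit 14) (nat_lit 4) (nat_lit 12) (nat_lit 4) (nat_lit 402) (nat_lit 375) (nat_lit 243)) (XT.nd (nat_lit 78) (nat_lit 76) (nat_lit 0) (XT.lf (nat_lit 0) (nat_lit 2935429610203)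 (nat_lit 76) (nat_lit 2181657289448) (nat_lit 76) (nat_lit 1255157753911) (nat_lit 11) (nat_lit 4) (nat_lit 12) (nat_lit 5) (nat_lit 12) (nat_lit 4) (nat_lit 403) (nat_lit 375) (nat_lit 242)) (XT.lf (nat_lit 0) (nat_lit 282674364152) (nat_lit 152) (nat_lit 318749653632) (nat_lit 76) (nat_lit 6477745600376) (nat_lit 10) (nat_lit 5) (nat_lit 12) (nat_lit 5) (nat_lit 11) (nat_lit 4) (nat_lit 404) (nat_lit 375) (nat_lit 241)))) (XT.nd (nat_lit 78) (nat_lit 76) (nat_lit 0) (XT.lf (nat_lit 0) (nat_lit 2128595211982) (nat_lit 152) (nat_lit 4400741538905) (nat_lit 0) (nat_lit 1322943440288) (nat_lit 9) (nat_lit 5) (nat_lit 11) (nat_lit 4) (nat_lit 9) (nat_lit 4) (nat_lit 405) (nat_lit 375) (nat_lit 240)) (XT.nd (nat_lit 78) (nat_lit 76) (nat_lit 0) (XT.lf (nat_lit 0) (nat_lit 4297498760571) (nat_lit 152) (nat_lit 945097415330) (nat_lit 0) (nat_lit 3491846988205) (nat_lit 9) (nat_lit 5) (nat_lit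 11) (nat_lit 4) (nat_lit 9) (nat_lit 4) (nat_lit 406) (nat_lit 375) (nat_lit 239)) (XT.lf (nat_lit 0) (nat_lit 3324898803944) (nat_lit 76) (nat_lit 3604516003539) (nat_lit 76) (nat_lit 2798864230589) (nat_lit 8) (nat_lit 4) (nat_lit 9) (nat_lit 5) (nat_lit 9) (nat_lit 4) (nat_lit 407) (nat_lit 375) (nat_lit 238))))) (XT.nd (nat_lit 234) (nat_lit 76) (nat_lit 0) (XT.nd (nat_lit 78) (nat_lit 152) (nat_lit 0) (XT.lf (nat_lit 0) (nat_lit 8341610511775) (nat_lit 76) (nat_lit 1663910566169) (nat_lit 76) (nat_lit 858258792711) (nat_lit 8) (nat_lit 4) (nat_lit 9) (nat_lit 5) (nat_lit 9) (nat_lit 4) (nat_lit 408) (nat_lit 375) (nat_lit 237)) (XT.nd (nat_lit 78) (nat_lit 0) (nat_lit 0) (XT.lf (nat_lit 0) (nat_lit 1367114549546) (nat_lit 152) (nat_lit 10110020323147) (nat_lit 0) (nat_lit 666547789633) (nat_lit 6) (nat_lit 5) (nat_lit 8) (nat_lit 4) (nat_lit 6) (nat_lit 4) (nat_lit 409) (nat_lit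 375) (nat_lit 236)) (XT.lf (nat_lit 0) (nat_lit 4055777172611) (nat_lit 152) (nat_lit 6165849973019) (nat_lit 0) (nat_lit 3355210412364) (nat_lit 6) (nat_lit 5) (nat_lit 8) (nat_lit 4) (nat_lit 6) (nat_lit 4) (nat_lit 410) (nat_lit 375) (nat_lit 235)))) (XT.nd (nat_lit 78) (nat_lit 76) (nat_lit 0) (XT.lf (nat_lit 0) (nat_lit 7147739186827) (nat_lit 152) (nat_lit 1630054075239) (nat_lit 0) (nat_lit 6447172426289) (nat_lit 6) (nat_lit 5) (nat_lit 8) (nat_lit 4) (nat_lit 6) (nat_lit 4) (nat_lit 411) (nat_lit 375) (nat_lit 234)) (XT.nd (nat_lit 78) (nat_lit 0) (nat_lit 0) (XT.lf (nat_lit 0) (nat_lit 3936572070536) (nat_lit 76) (nat_lit 6929928485313) (nat_lit 76) (nat_lit 6229361724522) (nat_lit 5) (nat_lit 4) (nat_lit 6) (nat_lit 5) (nat_lit 6) (nat_lit 4) (nat_lit 412) (nat_lit 375) (nat_lit 233)) (XT.lf (nat_lit 0) (nat_lit 10521387984185) (nat_lit 76) (nat_lit 4706895516242) (nat_lit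 76) (nat_lit 4006328755232) (nat_lit 5) (nat_lit 4) (nat_lit 6) (nat_lit 5) (nat_lit 6) (nat_lit 4) (nat_lit 413) (nat_lit 375) (nat_lit 232)))))) (XT.nd (nat_lit 468) (nat_lit 152) (nat_lit 0) (XT.nd (nat_lit 234) (nat_lit 0) (nat_lit 0) (XT.nd (nat_lit 78) (nat_lit 152) (nat_lit 0) (XT.lf (nat_lit 0) (nat_lit 18093926281367) (nat_lit 76) (nat_lit 2150407603662) (nat_lit 76) (nat_lit 1449840842461) (nat_lit 5) (nat_lit 4) (nat_lit 6) (nat_lit 5) (nat_lit 6) (nat_lit 4) (nat_lit 414) (nat_lit 375) (nat_lit 231)) (XT.nd (nat_lit 78) (nat_lit 0) (nat_lit 0) (XT.lf (nat_lit 0) (nat_lit 1498709065374) (nat_lit 152) (nat_lit 22103999079497) (nat_lit 0) (nat_lit 889520577229) (nat_lit 3) (nat_lit 5) (nat_lit 5) (nat_lit 4) (nat_lit 3) (nat_lit 4) (nat_lit 415) (nat_lit 375) (nat_lit 230)) (XT.lf (nat_lit 0) (nat_lit 5040662196228) (nat_lit 152) (nat_lit 18182565382236) (nat_lit 0) (nat_lit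 4431473707957) (nat_lit 3) (nat_lit 5) (nat_lit 5) (nat_lit 4) (nat_lit 3) (nat_lit 4) (nat_lit 416) (nat_lit 375) (nat_lit 229)))) (XT.nd (nat_lit 78) (nat_lit 0) (nat_lit 0) (XT.lf (nat_lit 0) (nat_lit 9113908295396) (nat_lit 152) (nat_lit 13672916633176) (nat_lit 0) (nat_lit 8504719807016) (nat_lit 3) (nat_lit 5) (nat_lit 5) (nat_lit 4) (nat_lit 3) (nat_lit 4) (nat_lit 417) (nat_lit 375) (nat_lit 228)) (XT.nd (nat_lit 78) (nat_lit 0) (nat_lit 0) (XT.lf (nat_lit 0) (nat_lit 13798141308296) (nat_lit 152) (nat_lit 8486820574183) (nat_lit 0) (nat_lit 13188952819821) (nat_lit 3) (nat_lit 5) (nat_lit 5) (nat_lit 4) (nat_lit 3) (nat_lit 4) (nat_lit 418) (nat_lit 375) (nat_lit 227)) (XT.lf (nat_lit 0) (nat_lit 19185009272139) (nat_lit 152) (nat_lit 2522810108449) (nat_lit 0) (nat_lit 18575820783581) (nat_lit 3) (nat_lit 5) (nat_lit 5) (nat_lit 4) (nat_lit 3) (nat_lit 4) (nat_lit 419) (nat_lit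 375) (nat_lit 226))))) (XT.nd (nat_lit 234) (nat_lit 76) (nat_lit 0) (XT.nd (nat_lit 78) (nat_lit 0) (nat_lit 0) (XT.lf (nat_lit 0) (nat_lit 4759528022555) (nat_lit 76) (nat_lit 20817461312833) (nat_lit 76) (nat_lit 20208272824204) (nat_lit 2) (nat_lit 4) (nat_lit 3) (nat_lit 5) (nat_lit 3) (nat_lit 4) (nat_lit 420) (nat_lit 375) (nat_lit 225)) (XT.nd (nat_lit 78) (nat_lit 0) (nat_lit 0) (XT.lf (nat_lit 0) (nat_lit 13417746325695) (nat_lit 76) (nat_lit 19641894246368) (nat_lit 76) (nat_lit 19032705757677) (nat_lit 2) (nat_lit 4) (nat_lit 3) (nat_lit 5) (nat_lit 3) (nat_lit 4) (nat_lit 421) (nat_lit 375) (nat_lit 224)) (XT.lf (nat_lit 0) (nat_lit 23374697372783) (nat_lit 76) (nat_lit 18289992120740) (nat_lit 76) (nat_lit 17680803631994) (nat_lit 2) (nat_lit 4) (nat_lit 3) (nat_lit 5) (nat_lit 3) (nat_lit 4) (nat_lit 422) (nat_lit 375) (nat_lit 223)))) (XT.nd (nat_lit 78) (nat_lit 76) (nat_lit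 0) (XT.lf (nat_lit 0) (nat_lit 34825191075610) (nat_lit 76) (nat_lit 16735304676968) (nat_lit 76) (nat_lit 16126116188175) (nat_lit 2) (nat_lit 4) (nat_lit 3) (nat_lit 5) (nat_lit 3) (nat_lit 4) (nat_lit 423) (nat_lit 375) (nat_lit 222)) (XT.nd (nat_lit 1950) (nat_lit 76) (nat_lit 0) (XT.lf (nat_lit 0) (nat_lit 47993258832711) (nat_lit 76) (nat_lit 14947414117240) (nat_lit 76) (nat_lit 14338225628406) (nat_lit 2) (nat_lit 4) (nat_lit 3) (nat_lit 5) (nat_lit 3) (nat_lit 4) (nat_lit 424) (nat_lit 375) (nat_lit 221)) (XT.lf (nat_lit 0) (nat_lit 443277189254733) (nat_lit 76) (nat_lit 1527307422233893) (nat_lit 0) (nat_lit 442747460133777) (nat_lit 1) (nat_lit 5) (nat_lit 2) (nat_lit 4) (nat_lit 1) (nat_lit 4) (nat_lit 449) (nat_lit 375) (nat_lit 196))))))) (XT.nd (nat_lit 48048) (nat_lit 0) (nat_lit 1140) (XT.nd (nat_lit 47580) (nat_lit 0) (nat_lit 2128) (XT.nd (nat_lit 47346) (nat_lit 0)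 (nat_lit 2432) (XT.nd (nat_lit 78) (nat_lit 0) (nat_lit 0) (XT.lf (nat_lit 0) (nat_lit 514184034942393) (nat_lit 76) (nat_lit 1746819260438890) (nat_lit 0) (nat_lit 513654305821441) (nat_lit 1) (nat_lit 5) (nat_lit 2) (nat_lit 4) (nat_lit 1) (nat_lit 4) (nat_lit 450) (nat_lit 375) (nat_lit 195)) (XT.nd (nat_lit 78) (nat_lit 0) (nat_lit 0) (XT.lf (nat_lit 0) (nat_lit 595726907483191) (nat_lit 76) (nat_lit 1999257874374679) (nat_lit 0) (nat_lit 595197178362230) (nat_lit 1) (nat_lit 5) (nat_lit 2) (nat_lit 4) (nat_lit 1) (nat_lit 4) (nat_lit 451) (nat_lit 375) (nat_lit 194)) (XT.lf (nat_lit 0) (nat_lit 689501210905094) (nat_lit 76) (nat_lit 2289562280400857) (nat_lit 0) (nat_lit 688971481784134) (nat_lit 1) (nat_lit 5) (nat_lit 2) (nat_lit 4) (nat_lit 1) (nat_lit 4) (nat_lit 452) (nat_lit 375) (nat_lit 193)))) (XT.nd (nat_lit 78) (nat_lit 0) (nat_lit 0) (XT.lf (nat_lit 0) (nat_lit 86609089706)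 (nat_lit 380) (nat_lit 111901634849) (nat_lit 380) (nat_lit 111901634849) (nat_lit 33) (nat_lit 3) (nat_lit 38) (nat_lit 3) (nat_lit 38) (nat_lit 5) (nat_lit 376) (nat_lit 376) (nat_lit 268)) (XT.nd (nat_lit 78) (nat_lit 0) (nat_lit 76) (XT.lf (nat_lit 76) (nat_lit 90775967537) (nat_lit 0) (nat_lit 99192571520) (nat_lit 380) (nat_lit 476854184124) (nat_lit 34) (nat_lit 5) (nat_lit 33) (nat_lit 3) (nat_lit 38) (nat_lit 5) (nat_lit 377) (nat_lit 376) (nat_lit 267)) (XT.lf (nat_lit 0) (nat_lit 231562292416) (nat_lit 304) (nat_lit 250903164242) (nat_lit 380) (nat_lit 233905345605) (nat_lit 34) (nat_lit 5) (nat_lit 38) (nat_lit 5) (nat_lit 39) (nat_lit 5) (nat_lit 378) (nat_lit 376) (nat_lit 266))))) (XT.nd (nat_lit 234) (nat_lit 152) (nat_lit 0) (XT.nd (nat_lit 78) (nat_lit 228) (nat_lit 0) (XT.lf (nat_lit 76) (nat_lit 129848502159) (nat_lit 0) (nat_lit 159646787437) (nat_lit 380) (nat_lit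 482340776505) (nat_lit 35) (nat_lit 5) (nat_lit 34) (nat_lit 5) (nat_lit 39) (nat_lit 5) (nat_lit 379) (nat_lit 376) (nat_lit 265)) (XT.nd (nat_lit 78) (nat_lit 304) (nat_lit 0) (XT.lf (nat_lit 0) (nat_lit 378619834136) (nat_lit 304) (nat_lit 247129047000) (nat_lit 76) (nat_lit 206496998726) (nat_lit 35) (nat_lit 5) (nat_lit 39) (nat_lit 5) (nat_lit 36) (nat_lit 5) (nat_lit 380) (nat_lit 376) (nat_lit 264)) (XT.lf (nat_lit 0) (nat_lit 218838518509) (nat_lit 304) (nat_lit 278938387098) (nat_lit 380) (nat_lit 401440683307) (nat_lit 31) (nat_lit 5) (nat_lit 35) (nat_lit 5) (nat_lit 36) (nat_lit 5) (nat_lit 381) (nat_lit 376) (nat_lit 263)))) (XT.nd (nat_lit 78) (nat_lit 152) (nat_lit 0) (XT.lf (nat_lit 0) (nat_lit 653305319385) (nat_lit 380) (nat_lit 197401894779) (nat_lit 76) (nat_lit 122753172933) (nat_lit 31) (nat_lit 5) (nat_lit 36) (nat_lit 5) (nat_lit 32) (nat_lit 5) (nat_lit 382)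 (nat_lit 376) (nat_lit 262)) (XT.nd (nat_lit 78) (nat_lit 0) (nat_lit 0) (XT.lf (nat_lit 0) (nat_lit 378429466673) (nat_lit 152) (nat_lit 482686250968) (nat_lit 228) (nat_lit 193380979014) (nat_lit 29) (nat_lit 5) (nat_lit 31) (nat_lit 5) (nat_lit 32) (nat_lit 5) (nat_lit 383) (nat_lit 376) (nat_lit 261)) (XT.lf (nat_lit 0) (nat_lit 1062820796114) (nat_lit 152) (nat_lit 47595601049) (nat_lit 228) (nat_lit 35724247262) (nat_lit 29) (nat_lit 5) (nat_lit 31) (nat_lit 5) (nat_lit 32) (nat_lit 5) (nat_lit 384) (nat_lit 376) (nat_lit 260)))))) (XT.nd (nat_lit 468) (nat_lit 456) (nat_lit 0) (XT.nd (nat_lit 234) (nat_lit 228) (nat_lit 0) (XT.nd (nat_lit 78) (nat_lit 152) (nat_lit 0) (XT.lf (nat_lit 0) (nat_lit 179860487724) (nat_lit 152) (nat_lit 616708949822) (nat_lit 76) (nat_lit 446971499002) (nat_lit 27) (nat_lit 5) (nat_lit 29) (nat_lit 5) (nat_lit 28) (nat_lit 5) (nat_lit 385) (nat_lit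 376) (nat_lit 259)) (XT.nd (nat_lit 78) (nat_lit 0) (nat_lit 0) (XT.lf (nat_lit 0) (nat_lit 102964200935) (nat_lit 152) (nat_lit 332253976534) (nat_lit 228) (nat_lit 918414012785) (nat_lit 25) (nat_lit 5) (nat_lit 27) (nat_lit 5) (nat_lit 28) (nat_lit 5) (nat_lit 386) (nat_lit 376) (nat_lit 258)) (XT.lf (nat_lit 0) (nat_lit 771003997690) (nat_lit 228) (nat_lit 485391019879) (nat_lit 76) (nat_lit 217523442900) (nat_lit 25) (nat_lit 5) (nat_lit 28) (nat_lit 5) (nat_lit 26) (nat_lit 4) (nat_lit 387) (nat_lit 376) (nat_lit 257)))) (XT.nd (nat_lit 78) (nat_lit 152) (nat_lit 0) (XT.lf (nat_lit 0) (nat_lit 415880411651) (nat_lit 76) (nat_lit 774319608483) (nat_lit 152) (nat_lit 417091301706) (nat_lit 24) (nat_lit 5) (nat_lit 25) (nat_lit 5) (nat_lit 26) (nat_lit 4) (nat_lit 388) (nat_lit 376) (nat_lit 256)) (XT.nd (nat_lit 78) (nat_lit 152) (nat_lit 0) (XT.lf (nat_lit 0) (nat_lit 1506893874783)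 (nat_lit 76) (nat_lit 190754274503) (nat_lit 152) (nat_lit 59216057636) (nat_lit 24) (nat_lit 5) (nat_lit 25) (nat_lit 5) (nat_lit 26) (nat_lit 4) (nat_lit 389) (nat_lit 376) (nat_lit 255)) (XT.lf (nat_lit 0) (nat_lit 380514506353) (nat_lit 152) (nat_lit 1045415253800) (nat_lit 76) (nat_lit 491823541667) (nat_lit 22) (nat_lit 5) (nat_lit 24) (nat_lit 5) (nat_lit 23) (nat_lit 4) (nat_lit 390) (nat_lit 376) (nat_lit 254))))) (XT.nd (nat_lit 234) (nat_lit 304) (nat_lit 0) (XT.nd (nat_lit 78) (nat_lit 76) (nat_lit 0) (XT.lf (nat_lit 0) (nat_lit 85342358814) (nat_lit 76) (nat_lit 821105925296) (nat_lit 152) (nat_lit 1191958571175) (nat_lit 21) (nat_lit 5) (nat_lit 22) (nat_lit 5) (nat_lit 23) (nat_lit 4) (nat_lit 391) (nat_lit 376) (nat_lit 253)) (XT.nd (nat_lit 78) (nat_lit 76) (nat_lit 0) (XT.lf (nat_lit 0) (nat_lit 1503204018828) (nat_lit 76) (nat_lit 62714808692) (nat_lit 152) (nat_lit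 732042609403) (nat_lit 21) (nat_lit 5) (nat_lit 22) (nat_lit 5) (nat_lit 23) (nat_lit 4) (nat_lit 392) (nat_lit 376) (nat_lit 252)) (XT.lf (nat_lit 0) (nat_lit 628754836947) (nat_lit 76) (nat_lit 1755107481975) (nat_lit 76) (nat_lit 134654031913) (nat_lit 20) (nat_lit 4) (nat_lit 21) (nat_lit 5) (nat_lit 21) (nat_lit 4) (nat_lit 393) (nat_lit 376) (nat_lit 251)))) (XT.nd (nat_lit 156) (nat_lit 152) (nat_lit 0) (XT.nd (nat_lit 78) (nat_lit 76) (nat_lit 0) (XT.lf (nat_lit 0) (nat_lit 549678296647) (nat_lit 152) (nat_lit 438645117737) (nat_lit 76) (nat_lit 1773424060198) (nat_lit 19) (nat_lit 5) (nat_lit 21) (nat_lit 5) (nat_lit 20) (nat_lit 4) (nat_lit 394) (nat_lit 376) (nat_lit 250)) (XT.lf (nat_lit 0) (nat_lit 1343318096376) (nat_lit 76) (nat_lit 35180302070) (nat_lit 152) (nat_lit 1653659464135) (nat_lit 18) (nat_lit 5) (nat_lit 19) (nat_lit 5) (nat_lit 20) (nat_lit 4) (nat_lit 395)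 (nat_lit 376) (nat_lit 249))) (XT.nd (nat_lit 78) (nat_lit 76) (nat_lit 0) (XT.lf (nat_lit 0) (nat_lit 62746296788) (nat_lit 76) (nat_lit 2339445471564) (nat_lit 76) (nat_lit 930355502505) (nat_lit 17) (nat_lit 4) (nat_lit 18) (nat_lit 5) (nat_lit 18) (nat_lit 4) (nat_lit 396) (nat_lit 376) (nat_lit 248)) (XT.lf (nat_lit 0) (nat_lit 4377514591) (nat_lit 152) (nat_lit 1399678315814) (nat_lit 76) (nat_lit 2260427509306) (nat_lit 16) (nat_lit 5) (nat_lit 18) (nat_lit 5) (nat_lit 17) (nat_lit 4) (nat_lit 397) (nat_lit 376) (nat_lit 247))))))))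
noncomputable def xc102 : XT := (XT.nd (nat_lit 1872) (nat_lit 76) (nat_lit 0) (XT.nd (nat_lit 936) (nat_lit 456) (nat_lit 0) (XT.nd (nat_lit 468) (nat_lit 304) (nat_lit 0) (XT.nd (nat_lit 234) (nat_lit 152) (nat_lit 0) (XT.nd (nat_lit 78) (nat_lit 76) (nat_lit 0) (XT.lf (nat_lit 0) (nat_lit 775720051838) (nat_lit 76) (nat_lit 240470658274) (nat_lit 152) (nat_lit 3018555576097) (nat_lit 15) (nat_lit 5) (nat_lit 16) (nat_lit 5) (nat_lit 17) (nat_lit 4) (nat_lit 398) (nat_lit 376) (nat_lit 246)) (XT.nd (nat_lit 78) (nat_lit 76) (nat_lit 0) (XT.lf (nat_lit 0) (nat_lit 2301876371365) (nat_lit 152) (nat_lit 1063776491399) (nat_lit 0) (nat_lit 1076580738958) (nat_lit 15) (nat_lit 5) (nat_lit 17) (nat_lit 4) (nat_lit 15) (nat_lit 4) (nat_lit 399) (nat_lit 376) (nat_lit 245)) (XT.lf (nat_lit 0) (nat_lit 1590946807271) (nat_lit 76) (nat_lit 2266796768682) (nat_lit 76) (nat_lit 1041501134488) (nat_lit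 14) (nat_lit 4) (nat_lit 15) (nat_lit 5) (nat_lit 15) (nat_lit 4) (nat_lit 400) (nat_lit 376) (nat_lit 244)))) (XT.nd (nat_lit 78) (nat_lit 76) (nat_lit 0) (XT.lf (nat_lit 0) (nat_lit 260657497995) (nat_lit 152) (nat_lit 664882015058) (nat_lit 76) (nat_lit 4489149788031) (nat_lit 13) (nat_lit 5) (nat_lit 15) (nat_lit 5) (nat_lit 14) (nat_lit 4) (nat_lit 401) (nat_lit 376) (nat_lit 243)) (XT.nd (nat_lit 78) (nat_lit 0) (nat_lit 0) (XT.lf (nat_lit 0) (nat_lit 1790152259574) (nat_lit 152) (nat_lit 3464384902561) (nat_lit 0) (nat_lit 724677792531) (nat_lit 12) (nat_lit 5) (nat_lit 14) (nat_lit 4) (nat_lit 12) (nat_lit 4) (nat_lit 402) (nat_lit 376) (nat_lit 242)) (XT.lf (nat_lit 0) (nat_lit 3629554747553) (nat_lit 152) (nat_lit 422711902420) (nat_lit 0) (nat_lit 2564080279488) (nat_lit 12) (nat_lit 5) (nat_lit 14) (nat_lit 4) (nat_lit 12) (nat_lit 4) (nat_lit 403) (nat_lit 376) (nat_lit 241)))))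 (XT.nd (nat_lit 234) (nat_lit 76) (nat_lit 0) (XT.nd (nat_lit 78) (nat_lit 152) (nat_lit 0) (XT.lf (nat_lit 0) (nat_lit 3375744127215) (nat_lit 76) (nat_lit 2508905843925) (nat_lit 76) (nat_lit 1443431374971) (nat_lit 11) (nat_lit 4) (nat_lit 12) (nat_lit 5) (nat_lit 12) (nat_lit 4) (nat_lit 404) (nat_lit 376) (nat_lit 240)) (XT.nd (nat_lit 78) (nat_lit 76) (nat_lit 0) (XT.lf (nat_lit 0) (nat_lit 325075552066) (nat_lit 152) (nat_lit 366562032784) (nat_lit 76) (nat_lit 7449407471038) (nat_lit 10) (nat_lit 5) (nat_lit 12) (nat_lit 5) (nat_lit 11) (nat_lit 4) (nat_lit 405) (nat_lit 376) (nat_lit 239)) (XT.lf (nat_lit 0) (nat_lit 2447884526863) (nat_lit 152) (nat_lit 5060852700639) (nat_lit 0) (nat_lit 1521384987386) (nat_lit 9) (nat_lit 5) (nat_lit 11) (nat_lit 4) (nat_lit 9) (nat_lit 4) (nat_lit 406) (nat_lit 376) (nat_lit 238)))) (XT.nd (nat_lit 78) (nat_lit 76) (nat_lit 0) (XT.lf (nat_lit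 0) (nat_lit 4942123603425) (nat_lit 152) (nat_lit 1086861967541) (nat_lit 0) (nat_lit 4015624063440) (nat_lit 9) (nat_lit 5) (nat_lit 11) (nat_lit 4) (nat_lit 9) (nat_lit 4) (nat_lit 407) (nat_lit 376) (nat_lit 237)) (XT.nd (nat_lit 78) (nat_lit 0) (nat_lit 0) (XT.lf (nat_lit 0) (nat_lit 3823633681893) (nat_lit 76) (nat_lit 4145193374103) (nat_lit 76) (nat_lit 3218693833676) (nat_lit 8) (nat_lit 4) (nat_lit 9) (nat_lit 5) (nat_lit 9) (nat_lit 4) (nat_lit 408) (nat_lit 376) (nat_lit 236)) (XT.lf (nat_lit 0) (nat_lit 9592852138417) (nat_lit 76) (nat_lit 1913497125037) (nat_lit 76) (nat_lit 986997584226) (nat_lit 8) (nat_lit 4) (nat_lit 9) (nat_lit 5) (nat_lit 9) (nat_lit 4) (nat_lit 409) (nat_lit 376) (nat_lit 235)))))) (XT.nd (nat_lit 468) (nat_lit 228) (nat_lit 0) (XT.nd (nat_lit 234) (nat_lit 76) (nat_lit 0) (XT.nd (nat_lit 78) (nat_lit 0) (nat_lit 0) (XT.lf (nat_lit 0) (nat_lit 1572181756828)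 (nat_lit 152) (nat_lit 11626523319200) (nat_lit 0) (nat_lit 766529981919) (nat_lit 6) (nat_lit 5) (nat_lit 8) (nat_lit 4) (nat_lit 6) (nat_lit 4) (nat_lit 410) (nat_lit 376) (nat_lit 234)) (XT.nd (nat_lit 78) (nat_lit 0) (nat_lit 0) (XT.lf (nat_lit 0) (nat_lit 4664143770111) (nat_lit 152) (nat_lit 7090727423389) (nat_lit 0) (nat_lit 3858491994950) (nat_lit 6) (nat_lit 5) (nat_lit 8) (nat_lit 4) (nat_lit 6) (nat_lit 4) (nat_lit 411) (nat_lit 376) (nat_lit 233)) (XT.lf (nat_lit 0) (nat_lit 8219900083641) (nat_lit 152) (nat_lit 1874562146888) (nat_lit 0) (nat_lit 7414248308260) (nat_lit 6) (nat_lit 5) (nat_lit 8) (nat_lit 4) (nat_lit 6) (nat_lit 4) (nat_lit 412) (nat_lit 376) (nat_lit 232)))) (XT.nd (nat_lit 78) (nat_lit 0) (nat_lit 0) (XT.lf (nat_lit 0) (nat_lit 4527057918952) (nat_lit 76) (nat_lit 7969417738180) (nat_lit 76) (nat_lit 7163765962608) (nat_lit 5) (nat_lit 4) (nat_lit 6) (nat_lit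 5) (nat_lit 6) (nat_lit 4) (nat_lit 413) (nat_lit 376) (nat_lit 231)) (XT.nd (nat_lit 78) (nat_lit 0) (nat_lit 0) (XT.lf (nat_lit 0) (nat_lit 12099596214713) (nat_lit 76) (nat_lit 5412929826349) (nat_lit 76) (nat_lit 4607278050610) (nat_lit 5) (nat_lit 4) (nat_lit 6) (nat_lit 5) (nat_lit 6) (nat_lit 4) (nat_lit 414) (nat_lit 376) (nat_lit 230)) (XT.lf (nat_lit 0) (nat_lit 20808015252181) (nat_lit 76) (nat_lit 2472968729142) (nat_lit 76) (nat_lit 1667316953259) (nat_lit 5) (nat_lit 4) (nat_lit 6) (nat_lit 5) (nat_lit 6) (nat_lit 4) (nat_lit 415) (nat_lit 376) (nat_lit 229))))) (XT.nd (nat_lit 234) (nat_lit 76) (nat_lit 0) (XT.nd (nat_lit 78) (nat_lit 0) (nat_lit 0) (XT.lf (nat_lit 0) (nat_lit 1723515439326) (nat_lit 152) (nat_lit 25419598911387) (nat_lit 0) (nat_lit 1022948677580) (nat_lit 3) (nat_lit 5) (nat_lit 5) (nat_lit 4) (nat_lit 3) (nat_lit 4) (nat_lit 416) (nat_lit 376) (nat_lit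 228)) (XT.nd (nat_lit 78) (nat_lit 0) (nat_lit 0) (XT.lf (nat_lit 0) (nat_lit 5796761537963) (nat_lit 152) (nat_lit 20909950163455) (nat_lit 0) (nat_lit 5096194776122) (nat_lit 3) (nat_lit 5) (nat_lit 5) (nat_lit 4) (nat_lit 3) (nat_lit 4) (nat_lit 417) (nat_lit 376) (nat_lit 227)) (XT.lf (nat_lit 0) (nat_lit 10480994550401) (nat_lit 152) (nat_lit 15723854105442) (nat_lit 0) (nat_lit 9780427788478) (nat_lit 3) (nat_lit 5) (nat_lit 5) (nat_lit 4) (nat_lit 3) (nat_lit 4) (nat_lit 418) (nat_lit 376) (nat_lit 226)))) (XT.nd (nat_lit 78) (nat_lit 76) (nat_lit 0) (XT.lf (nat_lit 0) (nat_lit 15867862513842) (nat_lit 152) (nat_lit 9759843640562) (nat_lit 0) (nat_lit 15167295751846) (nat_lit 3) (nat_lit 5) (nat_lit 5) (nat_lit 4) (nat_lit 3) (nat_lit 4) (nat_lit 419) (nat_lit 376) (nat_lit 225)) (XT.nd (nat_lit 78) (nat_lit 76) (nat_lit 0) (XT.lf (nat_lit 0) (nat_lit 22062760671047) (nat_lit 152)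 (nat_lit 2901231607544) (nat_lit 0) (nat_lit 21362193908989) (nat_lit 3) (nat_lit 5) (nat_lit 5) (nat_lit 4) (nat_lit 3) (nat_lit 4) (nat_lit 420) (nat_lit 376) (nat_lit 224)) (XT.lf (nat_lit 0) (nat_lit 5473457242330) (nat_lit 76) (nat_lit 23940080501078) (nat_lit 76) (nat_lit 23239513738966) (nat_lit 2) (nat_lit 4) (nat_lit 3) (nat_lit 5) (nat_lit 3) (nat_lit 4) (nat_lit 421) (nat_lit 376) (nat_lit 223))))))) (XT.nd (nat_lit 49920) (nat_lit 0) (nat_lit 1520) (XT.nd (nat_lit 2262) (nat_lit 0) (nat_lit 0) (XT.nd (nat_lit 2028) (nat_lit 76) (nat_lit 0) (XT.nd (nat_lit 78) (nat_lit 0) (nat_lit 0) (XT.lf (nat_lit 0) (nat_lit 15430408288803) (nat_lit 76) (nat_lit 22588178375776) (nat_lit 76) (nat_lit 21887611613616) (nat_lit 2) (nat_lit 4) (nat_lit 3) (nat_lit 5) (nat_lit 3) (nat_lit 4) (nat_lit 422) (nat_lit 376) (nat_lit 222)) (XT.nd (nat_lit 78) (nat_lit 0) (nat_lit 0) (XT.lf (nat_lit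 0) (nat_lit 26880901991095) (nat_lit 76) (nat_lit 21033490932288) (nat_lit 76) (nat_lit 20332924170087) (nat_lit 2) (nat_lit 4) (nat_lit 3) (nat_lit 5) (nat_lit 3) (nat_lit 4) (nat_lit 423) (nat_lit 376) (nat_lit 221)) (XT.lf (nat_lit 0) (nat_lit 40048969747730) (nat_lit 76) (nat_lit 19245600372806) (nat_lit 76) (nat_lit 18545033610570) (nat_lit 2) (nat_lit 4) (nat_lit 3) (nat_lit 5) (nat_lit 3) (nat_lit 4) (nat_lit 424) (nat_lit 376) (nat_lit 220)))) (XT.nd (nat_lit 78) (nat_lit 0) (nat_lit 0) (XT.lf (nat_lit 0) (nat_lit 377203795270520) (nat_lit 76) (nat_lit 1346011838054933) (nat_lit 0) (nat_lit 376594606781420) (nat_lit 1) (nat_lit 5) (nat_lit 2) (nat_lit 4) (nat_lit 1) (nat_lit 4) (nat_lit 448) (nat_lit 376) (nat_lit 196)) (XT.nd (nat_lit 78) (nat_lit 0) (nat_lit 0) (XT.lf (nat_lit 0) (nat_lit 438861921955450) (nat_lit 76) (nat_lit 1536891697363617) (nat_lit 0) (nat_lit 438252733466347)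 (nat_lit 1) (nat_lit 5) (nat_lit 2) (nat_lit 4) (nat_lit 1) (nat_lit 4) (nat_lit 449) (nat_lit 376) (nat_lit 195)) (XT.lf (nat_lit 0) (nat_lit 509768767643102) (nat_lit 76) (nat_lit 1756403535568631) (nat_lit 0) (nat_lit 509159579154003) (nat_lit 1) (nat_lit 5) (nat_lit 2) (nat_lit 4) (nat_lit 1) (nat_lit 4) (nat_lit 450) (nat_lit 376) (nat_lit 194))))) (XT.nd (nat_lit 47424) (nat_lit 0) (nat_lit 2432) (XT.nd (nat_lit 78) (nat_lit 0) (nat_lit 0) (XT.lf (nat_lit 0) (nat_lit 591311640183892) (nat_lit 76) (nat_lit 2008842149504431) (nat_lit 0) (nat_lit 590702451694791) (nat_lit 1) (nat_lit 5) (nat_lit 2) (nat_lit 4) (nat_lit 1) (nat_lit 4) (nat_lit 451) (nat_lit 376) (nat_lit 193)) (XT.nd (nat_lit 47268) (nat_lit 0) (nat_lit 2432) (XT.lf (nat_lit 0) (nat_lit 685085943605792) (nat_lit 76) (nat_lit 2299146555530623) (nat_lit 0) (nat_lit 684476755116685) (nat_lit 1) (nat_lit 5) (nat_lit 2)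 (nat_lit 4) (nat_lit 1) (nat_lit 4) (nat_lit 452) (nat_lit 376) (nat_lit 192)) (XT.lf (nat_lit 0) (nat_lit 99600603616) (nat_lit 380) (nat_lit 128686793512) (nat_lit 380) (nat_lit 128686793512) (nat_lit 33) (nat_lit 3) (nat_lit 38) (nat_lit 3) (nat_lit 38) (nat_lit 5) (nat_lit 377) (nat_lit 377) (nat_lit 266)))) (XT.nd (nat_lit 78) (nat_lit 0) (nat_lit 76) (XT.lf (nat_lit 76) (nat_lit 104392527927) (nat_lit 0) (nat_lit 114071560492) (nat_lit 380) (nat_lit 548382002779) (nat_lit 34) (nat_lit 5) (nat_lit 33) (nat_lit 3) (nat_lit 38) (nat_lit 5) (nat_lit 378) (nat_lit 377) (nat_lit 265)) (XT.nd (nat_lit 78) (nat_lit 0) (nat_lit 0) (XT.lf (nat_lit 0) (nat_lit 266296866041) (nat_lit 304) (nat_lit 288538456274) (nat_lit 380) (nat_lit 268991065661) (nat_lit 34) (nat_lit 5) (nat_lit 38) (nat_lit 5) (nat_lit 39) (nat_lit 5) (nat_lit 379) (nat_lit 377) (nat_lit 264)) (XT.lf (nat_lit 76) (nat_lit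 149325951788) (nat_lit 0) (nat_lit 183593838259) (nat_lit 380) (nat_lit 554691654777) (nat_lit 35) (nat_lit 5) (nat_lit 34) (nat_lit 5) (nat_lit 39) (nat_lit 5) (nat_lit 380) (nat_lit 377) (nat_lit 263)))))) (XT.nd (nat_lit 468) (nat_lit 456) (nat_lit 0) (XT.nd (nat_lit 234) (nat_lit 304) (nat_lit 0) (XT.nd (nat_lit 78) (nat_lit 304) (nat_lit 0) (XT.lf (nat_lit 0) (nat_lit 435412988089) (nat_lit 304) (nat_lit 284198224180) (nat_lit 76) (nat_lit 237471522627) (nat_lit 35) (nat_lit 5) (nat_lit 39) (nat_lit 5) (nat_lit 36) (nat_lit 5) (nat_lit 381) (nat_lit 377) (nat_lit 262)) (XT.nd (nat_lit 78) (nat_lit 0) (nat_lit 0) (XT.lf (nat_lit 0) (nat_lit 251664467980) (nat_lit 304) (nat_lit 320779136084) (nat_lit 380) (nat_lit 461656598689) (nat_lit 31) (nat_lit 5) (nat_lit 35) (nat_lit 5) (nat_lit 36) (nat_lit 5) (nat_lit 382) (nat_lit 377) (nat_lit 261)) (XT.lf (nat_lit 0) (nat_lit 751301259024)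 (nat_lit 380) (nat_lit 227012008720) (nat_lit 76) (nat_lit 141166156065) (nat_lit 31) (nat_lit 5) (nat_lit 36) (nat_lit 5) (nat_lit 32) (nat_lit 5) (nat_lit 383) (nat_lit 377) (nat_lit 260)))) (XT.nd (nat_lit 78) (nat_lit 152) (nat_lit 0) (XT.lf (nat_lit 0) (nat_lit 435194049210) (nat_lit 152) (nat_lit 555089156053) (nat_lit 228) (nat_lit 222387976314) (nat_lit 29) (nat_lit 5) (nat_lit 31) (nat_lit 5) (nat_lit 32) (nat_lit 5) (nat_lit 384) (nat_lit 377) (nat_lit 259)) (XT.nd (nat_lit 78) (nat_lit 152) (nat_lit 0) (XT.lf (nat_lit 0) (nat_lit 1222244056867) (nat_lit 152) (nat_lit 54734912894) (nat_lit 228) (nat_lit 41082754307) (nat_lit 29) (nat_lit 5) (nat_lit 31) (nat_lit 5) (nat_lit 32) (nat_lit 5) (nat_lit 385) (nat_lit 377) (nat_lit 258)) (XT.lf (nat_lit 0) (nat_lit 206839671475) (nat_lit 152) (nat_lit 709215131394) (nat_lit 76) (nat_lit 514017257521) (nat_lit 27) (nat_lit 5) (nat_lit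 29) (nat_lit 5) (nat_lit 28) (nat_lit 5) (nat_lit 386) (nat_lit 377) (nat_lit 257))))) (XT.nd (nat_lit 234) (nat_lit 228) (nat_lit 0) (XT.nd (nat_lit 78) (nat_lit 76) (nat_lit 0) (XT.lf (nat_lit 0) (nat_lit 118408984664) (nat_lit 152) (nat_lit 382092021952) (nat_lit 228) (nat_lit 1056175996751) (nat_lit 25) (nat_lit 5) (nat_lit 27) (nat_lit 5) (nat_lit 28) (nat_lit 5) (nat_lit 387) (nat_lit 377) (nat_lit 256)) (XT.nd (nat_lit 78) (nat_lit 76) (nat_lit 0) (XT.lf (nat_lit 0) (nat_lit 886654688336) (nat_lit 228) (nat_lit 558199527731) (nat_lit 76) (nat_lit 250151999783) (nat_lit 25) (nat_lit 5) (nat_lit 28) (nat_lit 5) (nat_lit 26) (nat_lit 4) (nat_lit 388) (nat_lit 377) (nat_lit 255)) (XT.lf (nat_lit 0) (nat_lit 478262611932) (nat_lit 76) (nat_lit 890467496083) (nat_lit 152) (nat_lit 479654899338) (nat_lit 24) (nat_lit 5) (nat_lit 25) (nat_lit 5) (nat_lit 26) (nat_lit 4) (nat_lit 389) (nat_lit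 377) (nat_lit 254)))) (XT.nd (nat_lit 156) (nat_lit 76) (nat_lit 0) (XT.nd (nat_lit 78) (nat_lit 152) (nat_lit 0) (XT.lf (nat_lit 0) (nat_lit 1732928076464) (nat_lit 76) (nat_lit 219367369007) (nat_lit 152) (nat_lit 68098381391) (nat_lit 24) (nat_lit 5) (nat_lit 25) (nat_lit 5) (nat_lit 26) (nat_lit 4) (nat_lit 390) (nat_lit 377) (nat_lit 253)) (XT.lf (nat_lit 0) (nat_lit 437591756681) (nat_lit 152) (nat_lit 1202227410842) (nat_lit 76) (nat_lit 565597118393) (nat_lit 22) (nat_lit 5) (nat_lit 24) (nat_lit 5) (nat_lit 23) (nat_lit 4) (nat_lit 391) (nat_lit 377) (nat_lit 252))) (XT.nd (nat_lit 78) (nat_lit 0) (nat_lit 0) (XT.lf (nat_lit 0) (nat_lit 98143837709) (nat_lit 76) (nat_lit 944271758870) (nat_lit 152) (nat_lit 1370752276501) (nat_lit 21) (nat_lit 5) (nat_lit 22) (nat_lit 5) (nat_lit 23) (nat_lit 4) (nat_lit 392) (nat_lit 377) (nat_lit 251)) (XT.lf (nat_lit 0) (nat_lit 1728684730410)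 (nat_lit 76) (nat_lit 72121981978) (nat_lit 152) (nat_lit 841848930944) (nat_lit 21) (nat_lit 5) (nat_lit 22) (nat_lit 5) (nat_lit 23) (nat_lit 4) (nat_lit 393) (nat_lit 377) (nat_lit 250))))))))
noncomputable def xc103 : XT := (XT.nd (nat_lit 1872) (nat_lit 152) (nat_lit 0) (XT.nd (nat_lit 936) (nat_lit 608) (nat_lit 0) (XT.nd (nat_lit 468) (nat_lit 304) (nat_lit 0) (XT.nd (nat_lit 234) (nat_lit 228) (nat_lit 0) (XT.nd (nat_lit 78) (nat_lit 152) (nat_lit 0) (XT.lf (nat_lit 0) (nat_lit 723068173120) (nat_lit 76) (nat_lit 2018373552769) (nat_lit 76) (nat_lit 154852068687) (nat_lit 20) (nat_lit 4) (nat_lit 21) (nat_lit 5) (nat_lit 21) (nat_lit 4) (nat_lit 394) (nat_lit 377) (nat_lit 249)) (XT.nd (nat_lit 78) (nat_lit 76) (nat_lit 0) (XT.lf (nat_lit 0) (nat_lit 632130095020) (nat_lit 152) (nat_lit 504441783921) (nat_lit 76) (nat_lit 2039437708736) (nat_lit 19) (nat_lit 5) (nat_lit 21) (nat_lit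 5) (nat_lit 20) (nat_lit 4) (nat_lit 395) (nat_lit 377) (nat_lit 248)) (XT.lf (nat_lit 0) (nat_lit 1544815907697) (nat_lit 76) (nat_lit 40457301375) (nat_lit 152) (nat_lit 1901708325257) (nat_lit 18) (nat_lit 5) (nat_lit 19) (nat_lit 5) (nat_lit 20) (nat_lit 4) (nat_lit 396) (nat_lit 377) (nat_lit 247)))) (XT.nd (nat_lit 78) (nat_lit 152) (nat_lit 0) (XT.lf (nat_lit 0) (nat_lit 72158339240) (nat_lit 76) (nat_lit 2690362244302) (nat_lit 76) (nat_lit 1069908770444) (nat_lit 17) (nat_lit 4) (nat_lit 18) (nat_lit 5) (nat_lit 18) (nat_lit 4) (nat_lit 397) (nat_lit 377) (nat_lit 246)) (XT.nd (nat_lit 78) (nat_lit 76) (nat_lit 0) (XT.lf (nat_lit 0) (nat_lit 5034187278) (nat_lit 152) (nat_lit 1609629973572) (nat_lit 76) (nat_lit 2599491672986) (nat_lit 16) (nat_lit 5) (nat_lit 18) (nat_lit 5) (nat_lit 17) (nat_lit 4) (nat_lit 398) (nat_lit 377) (nat_lit 245)) (XT.lf (nat_lit 0) (nat_lit 892078145154)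 (nat_lit 76) (nat_lit 276541214580) (nat_lit 152) (nat_lit 3471338862934) (nat_lit 15) (nat_lit 5) (nat_lit 16) (nat_lit 5) (nat_lit 17) (nat_lit 4) (nat_lit 399) (nat_lit 377) (nat_lit 244))))) (XT.nd (nat_lit 234) (nat_lit 152) (nat_lit 0) (XT.nd (nat_lit 78) (nat_lit 152) (nat_lit 0) (XT.lf (nat_lit 0) (nat_lit 2647157866081) (nat_lit 152) (nat_lit 1223342886626) (nat_lit 0) (nat_lit 1238067883416) (nat_lit 15) (nat_lit 5) (nat_lit 17) (nat_lit 4) (nat_lit 15) (nat_lit 4) (nat_lit 400) (nat_lit 377) (nat_lit 243)) (XT.nd (nat_lit 78) (nat_lit 76) (nat_lit 0) (XT.lf (nat_lit 0) (nat_lit 1829588903277) (nat_lit 76) (nat_lit 2606816246094) (nat_lit 76) (nat_lit 1197726262078) (nat_lit 14) (nat_lit 4) (nat_lit 15) (nat_lit 5) (nat_lit 15) (nat_lit 4) (nat_lit 401) (nat_lit 377) (nat_lit 242)) (XT.lf (nat_lit 0) (nat_lit 299756156426) (nat_lit 152) (nat_lit 764614248873) (nat_lit 76) (nat_lit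 5162522285884) (nat_lit 13) (nat_lit 5) (nat_lit 15) (nat_lit 5) (nat_lit 14) (nat_lit 4) (nat_lit 402) (nat_lit 377) (nat_lit 241)))) (XT.nd (nat_lit 78) (nat_lit 76) (nat_lit 0) (XT.lf (nat_lit 0) (nat_lit 2058675131926) (nat_lit 152) (nat_lit 3984042569183) (nat_lit 0) (nat_lit 833379491741) (nat_lit 12) (nat_lit 5) (nat_lit 14) (nat_lit 4) (nat_lit 12) (nat_lit 4) (nat_lit 403) (nat_lit 377) (nat_lit 240)) (XT.nd (nat_lit 78) (nat_lit 76) (nat_lit 0) (XT.lf (nat_lit 0) (nat_lit 4173987988744) (nat_lit 152) (nat_lit 486118627990) (nat_lit 0) (nat_lit 2948692347785) (nat_lit 12) (nat_lit 5) (nat_lit 14) (nat_lit 4) (nat_lit 12) (nat_lit 4) (nat_lit 404) (nat_lit 377) (nat_lit 239)) (XT.lf (nat_lit 0) (nat_lit 3882105803373) (nat_lit 76) (nat_lit 2885241691070) (nat_lit 76) (nat_lit 1659946049440) (nat_lit 11) (nat_lit 4) (nat_lit 12) (nat_lit 5) (nat_lit 12) (nat_lit 4) (nat_lit 405)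 (nat_lit 377) (nat_lit 238)))))) (XT.nd (nat_lit 468) (nat_lit 228) (nat_lit 0) (XT.nd (nat_lit 234) (nat_lit 228) (nat_lit 0) (XT.nd (nat_lit 78) (nat_lit 76) (nat_lit 0) (XT.lf (nat_lit 0) (nat_lit 373836910048) (nat_lit 152) (nat_lit 421546285610) (nat_lit 76) (nat_lit 8566818614836) (nat_lit 10) (nat_lit 5) (nat_lit 12) (nat_lit 5) (nat_lit 11) (nat_lit 4) (nat_lit 406) (nat_lit 377) (nat_lit 237)) (XT.nd (nat_lit 78) (nat_lit 0) (nat_lit 0) (XT.lf (nat_lit 0) (nat_lit 2815067230908) (nat_lit 152) (nat_lit 5819980553484) (nat_lit 0) (nat_lit 1749592758975) (nat_lit 9) (nat_lit 5) (nat_lit 11) (nat_lit 4) (nat_lit 9) (nat_lit 4) (nat_lit 407) (nat_lit 377) (nat_lit 236)) (XT.lf (nat_lit 0) (nat_lit 5683442165691) (nat_lit 152) (nat_lit 1249891217237) (nat_lit 0) (nat_lit 4617967693374) (nat_lit 9) (nat_lit 5) (nat_lit 11) (nat_lit 4) (nat_lit 9) (nat_lit 4) (nat_lit 408) (nat_lit 377)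 (nat_lit 235)))) (XT.nd (nat_lit 78) (nat_lit 152) (nat_lit 0) (XT.lf (nat_lit 0) (nat_lit 4397178777547) (nat_lit 76) (nat_lit 4766972357560) (nat_lit 76) (nat_lit 3701497884909) (nat_lit 8) (nat_lit 4) (nat_lit 9) (nat_lit 5) (nat_lit 9) (nat_lit 4) (nat_lit 409) (nat_lit 377) (nat_lit 234)) (XT.nd (nat_lit 78) (nat_lit 152) (nat_lit 0) (XT.lf (nat_lit 0) (nat_lit 11031779996893) (nat_lit 76) (nat_lit 2200521674089) (nat_lit 76) (nat_lit 1135047201147) (nat_lit 8) (nat_lit 4) (nat_lit 9) (nat_lit 5) (nat_lit 9) (nat_lit 4) (nat_lit 410) (nat_lit 377) (nat_lit 233)) (XT.lf (nat_lit 0) (nat_lit 1808009039143) (nat_lit 152) (nat_lit 13370501777443) (nat_lit 0) (nat_lit 881509497235) (nat_lit 6) (nat_lit 5) (nat_lit 8) (nat_lit 4) (nat_lit 6) (nat_lit 4) (nat_lit 411) (nat_lit 377) (nat_lit 232))))) (XT.nd (nat_lit 234) (nat_lit 152) (nat_lit 0) (XT.nd (nat_lit 78) (nat_lit 76) (nat_lit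 0) (XT.lf (nat_lit 0) (nat_lit 5363765351967) (nat_lit 152) (nat_lit 8154336502431) (nat_lit 0) (nat_lit 4437265809868) (nat_lit 6) (nat_lit 5) (nat_lit 8) (nat_lit 4) (nat_lit 6) (nat_lit 4) (nat_lit 412) (nat_lit 377) (nat_lit 231)) (XT.nd (nat_lit 78) (nat_lit 76) (nat_lit 0) (XT.lf (nat_lit 0) (nat_lit 9452885110396) (nat_lit 152) (nat_lit 2155746438951) (nat_lit 0) (nat_lit 8526385568130) (nat_lit 6) (nat_lit 5) (nat_lit 8) (nat_lit 4) (nat_lit 6) (nat_lit 4) (nat_lit 413) (nat_lit 377) (nat_lit 230)) (XT.lf (nat_lit 0) (nat_lit 5206116635403) (nat_lit 76) (nat_lit 9164830383838) (nat_lit 76) (nat_lit 8238330841429) (nat_lit 5) (nat_lit 4) (nat_lit 6) (nat_lit 5) (nat_lit 6) (nat_lit 4) (nat_lit 414) (nat_lit 377) (nat_lit 229)))) (XT.nd (nat_lit 78) (nat_lit 152) (nat_lit 0) (XT.lf (nat_lit 0) (nat_lit 13914535671797) (nat_lit 76) (nat_lit 6224869287197) (nat_lit 76) (nat_lit 5298369744662)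 (nat_lit 5) (nat_lit 4) (nat_lit 6) (nat_lit 5) (nat_lit 6) (nat_lit 4) (nat_lit 415) (nat_lit 377) (nat_lit 228)) (XT.nd (nat_lit 78) (nat_lit 152) (nat_lit 0) (XT.lf (nat_lit 0) (nat_lit 23929217561641) (nat_lit 76) (nat_lit 2843914027118) (nat_lit 76) (nat_lit 1917414484474) (nat_lit 5) (nat_lit 4) (nat_lit 6) (nat_lit 5) (nat_lit 6) (nat_lit 4) (nat_lit 416) (nat_lit 377) (nat_lit 227)) (XT.lf (nat_lit 0) (nat_lit 1982042765922) (nat_lit 152) (nat_lit 29232538725385) (nat_lit 0) (nat_lit 1176390989627) (nat_lit 3) (nat_lit 5) (nat_lit 5) (nat_lit 4) (nat_lit 3) (nat_lit 4) (nat_lit 417) (nat_lit 377) (nat_lit 226))))))) (XT.nd (nat_lit 49998) (nat_lit 0) (nat_lit 1748) (XT.nd (nat_lit 468) (nat_lit 76) (nat_lit 0) (XT.nd (nat_lit 234) (nat_lit 76) (nat_lit 0) (XT.nd (nat_lit 78) (nat_lit 0) (nat_lit 0) (XT.lf (nat_lit 0) (nat_lit 6666275777958) (nat_lit 152) (nat_lit 24046442668225)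 (nat_lit 0) (nat_lit 5860624001592) (nat_lit 3) (nat_lit 5) (nat_lit 5) (nat_lit 4) (nat_lit 3) (nat_lit 4) (nat_lit 418) (nat_lit 377) (nat_lit 225)) (XT.nd (nat_lit 78) (nat_lit 0) (nat_lit 0) (XT.lf (nat_lit 0) (nat_lit 12053143741050) (nat_lit 152) (nat_lit 18082432204087) (nat_lit 0) (nat_lit 11247491964620) (nat_lit 3) (nat_lit 5) (nat_lit 5) (nat_lit 4) (nat_lit 3) (nat_lit 4) (nat_lit 419) (nat_lit 377) (nat_lit 224)) (XT.lf (nat_lit 0) (nat_lit 18248041897951) (nat_lit 152) (nat_lit 11223820171714) (nat_lit 0) (nat_lit 17442390121468) (nat_lit 3) (nat_lit 5) (nat_lit 5) (nat_lit 4) (nat_lit 3) (nat_lit 4) (nat_lit 420) (nat_lit 377) (nat_lit 223)))) (XT.nd (nat_lit 78) (nat_lit 76) (nat_lit 0) (XT.lf (nat_lit 0) (nat_lit 25372174777820) (nat_lit 152) (nat_lit 3336416335691) (nat_lit 0) (nat_lit 24566523001289) (nat_lit 3) (nat_lit 5) (nat_lit 5) (nat_lit 4) (nat_lit 3) (nat_lit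 4) (nat_lit 421) (nat_lit 377) (nat_lit 222)) (XT.nd (nat_lit 78) (nat_lit 0) (nat_lit 0) (XT.lf (nat_lit 0) (nat_lit 6294475841075) (nat_lit 76) (nat_lit 27531092569677) (nat_lit 76) (nat_lit 26725440793105) (nat_lit 2) (nat_lit 4) (nat_lit 3) (nat_lit 5) (nat_lit 3) (nat_lit 4) (nat_lit 422) (nat_lit 377) (nat_lit 221)) (XT.lf (nat_lit 0) (nat_lit 17744969542901) (nat_lit 76) (nat_lit 25976405126435) (nat_lit 76) (nat_lit 25170753349828) (nat_lit 2) (nat_lit 4) (nat_lit 3) (nat_lit 5) (nat_lit 3) (nat_lit 4) (nat_lit 423) (nat_lit 377) (nat_lit 220))))) (XT.nd (nat_lit 1950) (nat_lit 0) (nat_lit 0) (XT.nd (nat_lit 78) (nat_lit 76) (nat_lit 0) (XT.lf (nat_lit 0) (nat_lit 30913037299131) (nat_lit 76) (nat_lit 24188514567168) (nat_lit 76) (nat_lit 23382862790529) (nat_lit 2) (nat_lit 4) (nat_lit 3) (nat_lit 5) (nat_lit 3) (nat_lit 4) (nat_lit 424) (nat_lit 377) (nat_lit 219)) (XT.nd (nat_lit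 1794) (nat_lit 76) (nat_lit 0) (XT.lf (nat_lit 0) (nat_lit 46056315218039) (nat_lit 76) (nat_lit 22132440424412) (nat_lit 76) (nat_lit 21326788647746) (nat_lit 2) (nat_lit 4) (nat_lit 3) (nat_lit 5) (nat_lit 3) (nat_lit 4) (nat_lit 425) (nat_lit 377) (nat_lit 218)) (XT.lf (nat_lit 0) (nat_lit 372126237876337) (nat_lit 76) (nat_lit 1357033754454131) (nat_lit 0) (nat_lit 371425671113868) (nat_lit 1) (nat_lit 5) (nat_lit 2) (nat_lit 4) (nat_lit 1) (nat_lit 4) (nat_lit 448) (nat_lit 377) (nat_lit 195)))) (XT.nd (nat_lit 78) (nat_lit 0) (nat_lit 0) (XT.lf (nat_lit 0) (nat_lit 433784364561261) (nat_lit 76) (nat_lit 1547913613762829) (nat_lit 0) (nat_lit 433083797798790) (nat_lit 1) (nat_lit 5) (nat_lit 2) (nat_lit 4) (nat_lit 1) (nat_lit 4) (nat_lit 449) (nat_lit 377) (nat_lit 194)) (XT.nd (nat_lit 78) (nat_lit 0) (nat_lit 0) (XT.lf (nat_lit 0) (nat_lit 504691210248906) (nat_lit 76) (nat_lit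 1767425451967857) (nat_lit 0) (nat_lit 503990643486439) (nat_lit 1) (nat_lit 5) (nat_lit 2) (nat_lit 4) (nat_lit 1) (nat_lit 4) (nat_lit 450) (nat_lit 377) (nat_lit 193)) (XT.lf (nat_lit 0) (nat_lit 586234082789691) (nat_lit 76) (nat_lit 2019864065903666) (nat_lit 0) (nat_lit 585533516027223) (nat_lit 1) (nat_lit 5) (nat_lit 2) (nat_lit 4) (nat_lit 1) (nat_lit 4) (nat_lit 451) (nat_lit 377) (nat_lit 192)))))) (XT.nd (nat_lit 468) (nat_lit 532) (nat_lit 0) (XT.nd (nat_lit 234) (nat_lit 152) (nat_lit 0) (XT.nd (nat_lit 78) (nat_lit 0) (nat_lit 0) (XT.lf (nat_lit 0) (nat_lit 114540807924) (nat_lit 380) (nat_lit 147989747083) (nat_lit 380) (nat_lit 147989747083) (nat_lit 33) (nat_lit 3) (nat_lit 38) (nat_lit 3) (nat_lit 38) (nat_lit 5) (nat_lit 378) (nat_lit 378) (nat_lit 264)) (XT.nd (nat_lit 78) (nat_lit 0) (nat_lit 76) (XT.lf (nat_lit 76) (nat_lit 120051532076) (nat_lit 0) (nat_lit 131182372632)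 (nat_lit 380) (nat_lit 630639069575) (nat_lit 34) (nat_lit 5) (nat_lit 33) (nat_lit 3) (nat_lit 38) (nat_lit 5) (nat_lit 379) (nat_lit 378) (nat_lit 263)) (XT.lf (nat_lit 0) (nat_lit 306241569681) (nat_lit 304) (nat_lit 331819086639) (nat_lit 380) (nat_lit 309339663670) (nat_lit 34) (nat_lit 5) (nat_lit 38) (nat_lit 5) (nat_lit 39) (nat_lit 5) (nat_lit 380) (nat_lit 378) (nat_lit 262)))) (XT.nd (nat_lit 78) (nat_lit 228) (nat_lit 0) (XT.lf (nat_lit 76) (nat_lit 171724976355) (nat_lit 0) (nat_lit 211132938729) (nat_lit 380) (nat_lit 637895222877) (nat_lit 35) (nat_lit 5) (nat_lit 34) (nat_lit 5) (nat_lit 39) (nat_lit 5) (nat_lit 381) (nat_lit 378) (nat_lit 261)) (XT.nd (nat_lit 78) (nat_lit 304) (nat_lit 0) (XT.lf (nat_lit 0) (nat_lit 500725071525) (nat_lit 304) (nat_lit 326827821799) (nat_lit 76) (nat_lit 273092231430) (nat_lit 35) (nat_lit 5) (nat_lit 39) (nat_lit 5) (nat_lit 36) (nat_lit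 5) (nat_lit 382) (nat_lit 378) (nat_lit 260)) (XT.lf (nat_lit 0) (nat_lit 289414268003) (nat_lit 304) (nat_lit 368895999632) (nat_lit 380) (nat_lit 530904947007) (nat_lit 31) (nat_lit 5) (nat_lit 35) (nat_lit 5) (nat_lit 36) (nat_lit 5) (nat_lit 383) (nat_lit 378) (nat_lit 259))))) (XT.nd (nat_lit 234) (nat_lit 380) (nat_lit 0) (XT.nd (nat_lit 78) (nat_lit 152) (nat_lit 0) (XT.lf (nat_lit 0) (nat_lit 863996555048) (nat_lit 380) (nat_lit 261063681275) (nat_lit 76) (nat_lit 162341084913) (nat_lit 31) (nat_lit 5) (nat_lit 36) (nat_lit 5) (nat_lit 32) (nat_lit 5) (nat_lit 384) (nat_lit 378) (nat_lit 258)) (XT.nd (nat_lit 78) (nat_lit 0) (nat_lit 0) (XT.lf (nat_lit 0) (nat_lit 500473279493) (nat_lit 152) (nat_lit 638352504840) (nat_lit 228) (nat_lit 255746059678) (nat_lit 29) (nat_lit 5) (nat_lit 31) (nat_lit 5) (nat_lit 32) (nat_lit 5) (nat_lit 385) (nat_lit 378) (nat_lit 257)) (XT.lf (nat_lit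 0) (nat_lit 1405580772267) (nat_lit 152) (nat_lit 62945128419) (nat_lit 228) (nat_lit 47245069120) (nat_lit 29) (nat_lit 5) (nat_lit 31) (nat_lit 5) (nat_lit 32) (nat_lit 5) (nat_lit 386) (nat_lit 378) (nat_lit 256)))) (XT.nd (nat_lit 156) (nat_lit 76) (nat_lit 0) (XT.nd (nat_lit 78) (nat_lit 152) (nat_lit 0) (XT.lf (nat_lit 0) (nat_lit 237865705819) (nat_lit 152) (nat_lit 815597279438) (nat_lit 76) (nat_lit 591119871607) (nat_lit 27) (nat_lit 5) (nat_lit 29) (nat_lit 5) (nat_lit 28) (nat_lit 5) (nat_lit 387) (nat_lit 378) (nat_lit 255)) (XT.lf (nat_lit 0) (nat_lit 136170448498) (nat_lit 152) (nat_lit 439405786636) (nat_lit 228) (nat_lit 1214602307075) (nat_lit 25) (nat_lit 5) (nat_lit 27) (nat_lit 5) (nat_lit 28) (nat_lit 5) (nat_lit 388) (nat_lit 378) (nat_lit 254))) (XT.nd (nat_lit 78) (nat_lit 76) (nat_lit 0) (XT.lf (nat_lit 0) (nat_lit 1019652960390) (nat_lit 228) (nat_lit 641929347153)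 (nat_lit 76) (nat_lit 287674830335) (nat_lit 25) (nat_lit 5) (nat_lit 28) (nat_lit 5) (nat_lit 26) (nat_lit 4) (nat_lit 389) (nat_lit 378) (nat_lit 253)) (XT.lf (nat_lit 0) (nat_lit 550002108472) (nat_lit 76) (nat_lit 1024037579912) (nat_lit 152) (nat_lit 551603060422) (nat_lit 24) (nat_lit 5) (nat_lit 25) (nat_lit 5) (nat_lit 26) (nat_lit 4) (nat_lit 390) (nat_lit 378) (nat_lit 252))))))))
noncomputable def xc104 : XT := (XT.nd (nat_lit 1872) (nat_lit 380) (nat_lit 0) (XT.nd (nat_lit 936) (nat_lit 608) (nat_lit 0) (XT.nd (nat_lit 468) (nat_lit 380) (nat_lit 0) (XT.nd (nat_lit 234) (nat_lit 152) (nat_lit 0) (XT.nd (nat_lit 78) (nat_lit 228) (nat_lit 0) (XT.lf (nat_lit 0) (nat_lit 1992867379021) (nat_lit 76) (nat_lit 252272439068) (nat_lit 152) (nat_lit 78313074411) (nat_lit 24) (nat_lit 5) (nat_lit 25) (nat_lit 5) (nat_lit 26) (nat_lit 4) (nat_lit 391) (nat_lit 378) (nat_lit 251)) (XT.nd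 (nat_lit 78) (nat_lit 76) (nat_lit 0) (XT.lf (nat_lit 0) (nat_lit 503230576420) (nat_lit 152) (nat_lit 1382561423392) (nat_lit 76) (nat_lit 650436720538) (nat_lit 22) (nat_lit 5) (nat_lit 24) (nat_lit 5) (nat_lit 23) (nat_lit 4) (nat_lit 392) (nat_lit 378) (nat_lit 250)) (XT.lf (nat_lit 0) (nat_lit 112865507938) (nat_lit 76) (nat_lit 1085912480946) (nat_lit 152) (nat_lit 1576365057221) (nat_lit 21) (nat_lit 5) (nat_lit 22) (nat_lit 5) (nat_lit 23) (nat_lit 4) (nat_lit 393) (nat_lit 378) (nat_lit 249)))) (XT.nd (nat_lit 78) (nat_lit 152) (nat_lit 0) (XT.lf (nat_lit 0) (nat_lit 1987987522209) (nat_lit 76) (nat_lit 82940242966) (nat_lit 152) (nat_lit 968126217755) (nat_lit 21) (nat_lit 5) (nat_lit 22) (nat_lit 5) (nat_lit 23) (nat_lit 4) (nat_lit 394) (nat_lit 378) (nat_lit 248)) (XT.nd (nat_lit 78) (nat_lit 76) (nat_lit 0) (XT.lf (nat_lit 0) (nat_lit 831528482741) (nat_lit 76) (nat_lit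 2321129546741) (nat_lit 76) (nat_lit 178079827563) (nat_lit 20) (nat_lit 4) (nat_lit 21) (nat_lit 5) (nat_lit 21) (nat_lit 4) (nat_lit 395) (nat_lit 378) (nat_lit 247)) (XT.lf (nat_lit 0) (nat_lit 726949650011) (nat_lit 152) (nat_lit 580107974778) (nat_lit 76) (nat_lit 2345353394920) (nat_lit 19) (nat_lit 5) (nat_lit 21) (nat_lit 5) (nat_lit 20) (nat_lit 4) (nat_lit 396) (nat_lit 378) (nat_lit 246))))) (XT.nd (nat_lit 234) (nat_lit 152) (nat_lit 0) (XT.nd (nat_lit 78) (nat_lit 152) (nat_lit 0) (XT.lf (nat_lit 0) (nat_lit 1776538367095) (nat_lit 76) (nat_lit 46525861795) (nat_lit 152) (nat_lit 2186964529813) (nat_lit 18) (nat_lit 5) (nat_lit 19) (nat_lit 5) (nat_lit 20) (nat_lit 4) (nat_lit 397) (nat_lit 378) (nat_lit 245)) (XT.nd (nat_lit 78) (nat_lit 76) (nat_lit 0) (XT.lf (nat_lit 0) (nat_lit 82982164179) (nat_lit 76) (nat_lit 3093916544654) (nat_lit 76) (nat_lit 1230395042580) (nat_lit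 17) (nat_lit 4) (nat_lit 18) (nat_lit 5) (nat_lit 18) (nat_lit 4) (nat_lit 398) (nat_lit 378) (nat_lit 244)) (XT.lf (nat_lit 0) (nat_lit 5789349773) (nat_lit 152) (nat_lit 1851074401848) (nat_lit 76) (nat_lit 2989415452126) (nat_lit 16) (nat_lit 5) (nat_lit 18) (nat_lit 5) (nat_lit 17) (nat_lit 4) (nat_lit 399) (nat_lit 378) (nat_lit 243)))) (XT.nd (nat_lit 78) (nat_lit 76) (nat_lit 0) (XT.lf (nat_lit 0) (nat_lit 1025889931608) (nat_lit 76) (nat_lit 318022364681) (nat_lit 152) (nat_lit 3992039654886) (nat_lit 15) (nat_lit 5) (nat_lit 16) (nat_lit 5) (nat_lit 17) (nat_lit 4) (nat_lit 400) (nat_lit 378) (nat_lit 242)) (XT.nd (nat_lit 78) (nat_lit 76) (nat_lit 0) (XT.lf (nat_lit 0) (nat_lit 3044231575492) (nat_lit 152) (nat_lit 1406844260276) (nat_lit 0) (nat_lit 1423778091346) (nat_lit 15) (nat_lit 5) (nat_lit 17) (nat_lit 4) (nat_lit 15) (nat_lit 4) (nat_lit 401) (nat_lit 378) (nat_lit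 241)) (XT.lf (nat_lit 0) (nat_lit 2104027295415) (nat_lit 76) (nat_lit 2997838654358) (nat_lit 76) (nat_lit 1377385169190) (nat_lit 14) (nat_lit 4) (nat_lit 15) (nat_lit 5) (nat_lit 15) (nat_lit 4) (nat_lit 402) (nat_lit 378) (nat_lit 240)))))) (XT.nd (nat_lit 468) (nat_lit 228) (nat_lit 0) (XT.nd (nat_lit 234) (nat_lit 228) (nat_lit 0) (XT.nd (nat_lit 78) (nat_lit 76) (nat_lit 0) (XT.lf (nat_lit 0) (nat_lit 344719605397) (nat_lit 152) (nat_lit 879306334451) (nat_lit 76) (nat_lit 5936900651185) (nat_lit 13) (nat_lit 5) (nat_lit 15) (nat_lit 5) (nat_lit 14) (nat_lit 4) (nat_lit 403) (nat_lit 378) (nat_lit 239)) (XT.nd (nat_lit 78) (nat_lit 0) (nat_lit 0) (XT.lf (nat_lit 0) (nat_lit 2367476426983) (nat_lit 152) (nat_lit 4581648902567) (nat_lit 0) (nat_lit 958386438436) (nat_lit 12) (nat_lit 5) (nat_lit 14) (nat_lit 4) (nat_lit 12) (nat_lit 4) (nat_lit 404) (nat_lit 378) (nat_lit 238)) (XT.lf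 (nat_lit 0) (nat_lit 4800086209027) (nat_lit 152) (nat_lit 559036376976) (nat_lit 0) (nat_lit 3390996219896) (nat_lit 12) (nat_lit 5) (nat_lit 14) (nat_lit 4) (nat_lit 12) (nat_lit 4) (nat_lit 405) (nat_lit 378) (nat_lit 237)))) (XT.nd (nat_lit 78) (nat_lit 152) (nat_lit 0) (XT.lf (nat_lit 0) (nat_lit 4464421717036) (nat_lit 76) (nat_lit 3318027922466) (nat_lit 76) (nat_lit 1908937932827) (nat_lit 11) (nat_lit 4) (nat_lit 12) (nat_lit 5) (nat_lit 12) (nat_lit 4) (nat_lit 406) (nat_lit 378) (nat_lit 236)) (XT.nd (nat_lit 78) (nat_lit 76) (nat_lit 0) (XT.lf (nat_lit 0) (nat_lit 429912465589) (nat_lit 152) (nat_lit 484778189062) (nat_lit 76) (nat_lit 9851841424560) (nat_lit 10) (nat_lit 5) (nat_lit 12) (nat_lit 5) (nat_lit 11) (nat_lit 4) (nat_lit 407) (nat_lit 378) (nat_lit 235)) (XT.lf (nat_lit 0) (nat_lit 3237327334460) (nat_lit 152) (nat_lit 6692977596998) (nat_lit 0) (nat_lit 2012031690577)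 (nat_lit 9) (nat_lit 5) (nat_lit 11) (nat_lit 4) (nat_lit 9) (nat_lit 4) (nat_lit 408) (nat_lit 378) (nat_lit 234))))) (XT.nd (nat_lit 234) (nat_lit 152) (nat_lit 0) (XT.nd (nat_lit 78) (nat_lit 76) (nat_lit 0) (XT.lf (nat_lit 0) (nat_lit 6535958506993) (nat_lit 152) (nat_lit 1437374865466) (nat_lit 0) (nat_lit 5310662862820) (nat_lit 9) (nat_lit 5) (nat_lit 11) (nat_lit 4) (nat_lit 9) (nat_lit 4) (nat_lit 409) (nat_lit 378) (nat_lit 233)) (XT.nd (nat_lit 78) (nat_lit 0) (nat_lit 0) (XT.lf (nat_lit 0) (nat_lit 5056755626973) (nat_lit 76) (nat_lit 5482018194061) (nat_lit 76) (nat_lit 4256722549635) (nat_lit 8) (nat_lit 4) (nat_lit 9) (nat_lit 5) (nat_lit 9) (nat_lit 4) (nat_lit 410) (nat_lit 378) (nat_lit 232)) (XT.lf (nat_lit 0) (nat_lit 12686547024943) (nat_lit 76) (nat_lit 2530599910304) (nat_lit 76) (nat_lit 1305304265658) (nat_lit 8) (nat_lit 4) (nat_lit 9) (nat_lit 5) (nat_lit 9)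 (nat_lit 4) (nat_lit 411) (nat_lit 378) (nat_lit 231)))) (XT.nd (nat_lit 78) (nat_lit 0) (nat_lit 0) (XT.lf (nat_lit 0) (nat_lit 2079210409222) (nat_lit 152) (nat_lit 15376077014089) (nat_lit 0) (nat_lit 1013735935451) (nat_lit 6) (nat_lit 5) (nat_lit 8) (nat_lit 4) (nat_lit 6) (nat_lit 4) (nat_lit 412) (nat_lit 378) (nat_lit 230)) (XT.nd (nat_lit 78) (nat_lit 0) (nat_lit 0) (XT.lf (nat_lit 0) (nat_lit 6168330167117) (nat_lit 152) (nat_lit 9377486951734) (nat_lit 0) (nat_lit 5102855693202) (nat_lit 6) (nat_lit 5) (nat_lit 8) (nat_lit 4) (nat_lit 6) (nat_lit 4) (nat_lit 413) (nat_lit 378) (nat_lit 229)) (XT.lf (nat_lit 0) (nat_lit 10870817887698) (nat_lit 152) (nat_lit 2479108382131) (nat_lit 0) (nat_lit 9805343413657) (nat_lit 6) (nat_lit 5) (nat_lit 8) (nat_lit 4) (nat_lit 6) (nat_lit 4) (nat_lit 414) (nat_lit 378) (nat_lit 228))))))) (XT.nd (nat_lit 2574) (nat_lit 76) (nat_lit 0) (XT.nd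 (nat_lit 468) (nat_lit 76) (nat_lit 0) (XT.nd (nat_lit 234) (nat_lit 152) (nat_lit 0) (XT.nd (nat_lit 78) (nat_lit 0) (nat_lit 0) (XT.lf (nat_lit 0) (nat_lit 5987034152346) (nat_lit 76) (nat_lit 10539554930020) (nat_lit 76) (nat_lit 9474080455869) (nat_lit 5) (nat_lit 4) (nat_lit 6) (nat_lit 5) (nat_lit 6) (nat_lit 4) (nat_lit 415) (nat_lit 378) (nat_lit 227)) (XT.nd (nat_lit 78) (nat_lit 0) (nat_lit 0) (XT.lf (nat_lit 0) (nat_lit 16001716041377) (nat_lit 76) (nat_lit 7158599670369) (nat_lit 76) (nat_lit 6093125196123) (nat_lit 5) (nat_lit 4) (nat_lit 6) (nat_lit 5) (nat_lit 6) (nat_lit 4) (nat_lit 416) (nat_lit 378) (nat_lit 226)) (XT.lf (nat_lit 0) (nat_lit 27518600212244) (nat_lit 76) (nat_lit 3270501122570) (nat_lit 76) (nat_lit 2205026648243) (nat_lit 5) (nat_lit 4) (nat_lit 6) (nat_lit 5) (nat_lit 6) (nat_lit 4) (nat_lit 417) (nat_lit 378) (nat_lit 225)))) (XT.nd (nat_lit 78) (nat_lit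 0) (nat_lit 0) (XT.lf (nat_lit 0) (nat_lit 2279349188898) (nat_lit 152) (nat_lit 33617419517020) (nat_lit 0) (nat_lit 1352849645942) (nat_lit 3) (nat_lit 5) (nat_lit 5) (nat_lit 4) (nat_lit 3) (nat_lit 4) (nat_lit 418) (nat_lit 378) (nat_lit 224)) (XT.nd (nat_lit 78) (nat_lit 0) (nat_lit 0) (XT.lf (nat_lit 0) (nat_lit 7666217151685) (nat_lit 152) (nat_lit 27653409053527) (nat_lit 0) (nat_lit 6739717608675) (nat_lit 3) (nat_lit 5) (nat_lit 5) (nat_lit 4) (nat_lit 3) (nat_lit 4) (nat_lit 419) (nat_lit 378) (nat_lit 223)) (XT.lf (nat_lit 0) (nat_lit 13861115308323) (nat_lit 152) (nat_lit 20794797021715) (nat_lit 0) (nat_lit 12934615765265) (nat_lit 3) (nat_lit 5) (nat_lit 5) (nat_lit 4) (nat_lit 3) (nat_lit 4) (nat_lit 420) (nat_lit 378) (nat_lit 222))))) (XT.nd (nat_lit 234) (nat_lit 0) (nat_lit 0) (XT.nd (nat_lit 78) (nat_lit 76) (nat_lit 0) (XT.lf (nat_lit 0) (nat_lit 20985248187962)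 (nat_lit 152) (nat_lit 12907393186180) (nat_lit 0) (nat_lit 20058748644863) (nat_lit 3) (nat_lit 5) (nat_lit 5) (nat_lit 4) (nat_lit 3) (nat_lit 4) (nat_lit 421) (nat_lit 378) (nat_lit 221)) (XT.nd (nat_lit 78) (nat_lit 76) (nat_lit 0) (XT.lf (nat_lit 0) (nat_lit 29178000999117) (nat_lit 152) (nat_lit 3836878776227) (nat_lit 0) (nat_lit 28251501455983) (nat_lit 3) (nat_lit 5) (nat_lit 5) (nat_lit 4) (nat_lit 3) (nat_lit 4) (nat_lit 422) (nat_lit 378) (nat_lit 220)) (XT.lf (nat_lit 0) (nat_lit 7238647226608) (nat_lit 76) (nat_lit 31660756450166) (nat_lit 76) (nat_lit 30734256907000) (nat_lit 2) (nat_lit 4) (nat_lit 3) (nat_lit 5) (nat_lit 3) (nat_lit 4) (nat_lit 423) (nat_lit 378) (nat_lit 219)))) (XT.nd (nat_lit 78) (nat_lit 0) (nat_lit 0) (XT.lf (nat_lit 0) (nat_lit 20406714982486) (nat_lit 76) (nat_lit 29872865891085) (nat_lit 76) (nat_lit 28946366347893) (nat_lit 2) (nat_lit 4) (nat_lit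 3) (nat_lit 5) (nat_lit 3) (nat_lit 4) (nat_lit 424) (nat_lit 378) (nat_lit 218)) (XT.nd (nat_lit 78) (nat_lit 0) (nat_lit 0) (XT.lf (nat_lit 0) (nat_lit 35549992901087) (nat_lit 76) (nat_lit 27816791748491) (nat_lit 76) (nat_lit 26890292205275) (nat_lit 2) (nat_lit 4) (nat_lit 3) (nat_lit 5) (nat_lit 3) (nat_lit 4) (nat_lit 425) (nat_lit 378) (nat_lit 217)) (XT.lf (nat_lit 0) (nat_lit 52964762506907) (nat_lit 76) (nat_lit 25452306484810) (nat_lit 76) (nat_lit 24525806941574) (nat_lit 2) (nat_lit 4) (nat_lit 3) (nat_lit 5) (nat_lit 3) (nat_lit 4) (nat_lit 426) (nat_lit 378) (nat_lit 216)))))) (XT.nd (nat_lit 47970) (nat_lit 0) (nat_lit 1976) (XT.nd (nat_lit 47736) (nat_lit 0) (nat_lit 2432) (XT.nd (nat_lit 78) (nat_lit 0) (nat_lit 0) (XT.lf (nat_lit 0) (nat_lit 366287046873012) (nat_lit 76) (nat_lit 1369708958313241) (nat_lit 0) (nat_lit 365481395096171) (nat_lit 1) (nat_lit 5) (nat_lit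 2) (nat_lit 4) (nat_lit 1) (nat_lit 4) (nat_lit 448) (nat_lit 378) (nat_lit 194)) (XT.nd (nat_lit 78) (nat_lit 0) (nat_lit 0) (XT.lf (nat_lit 0) (nat_lit 427945173557927) (nat_lit 76) (nat_lit 1560588817621954) (nat_lit 0) (nat_lit 427139521781086) (nat_lit 1) (nat_lit 5) (nat_lit 2) (nat_lit 4) (nat_lit 1) (nat_lit 4) (nat_lit 449) (nat_lit 378) (nat_lit 193)) (XT.lf (nat_lit 0) (nat_lit 498852019245570) (nat_lit 76) (nat_lit 1780100655826993) (nat_lit 0) (nat_lit 498046367468729) (nat_lit 1) (nat_lit 5) (nat_lit 2) (nat_lit 4) (nat_lit 1) (nat_lit 4) (nat_lit 450) (nat_lit 378) (nat_lit 192)))) (XT.nd (nat_lit 78) (nat_lit 0) (nat_lit 0) (XT.lf (nat_lit 0) (nat_lit 131722015135) (nat_lit 380) (nat_lit 170188159653) (nat_lit 380) (nat_lit 170188159653) (nat_lit 33) (nat_lit 3) (nat_lit 38) (nat_lit 3) (nat_lit 38) (nat_lit 5) (nat_lit 379) (nat_lit 379) (nat_lit 262)) (XT.nd (nat_lit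 78) (nat_lit 0) (nat_lit 76) (XT.lf (nat_lit 76) (nat_lit 138059356375) (nat_lit 0) (nat_lit 150859787556) (nat_lit 380) (nat_lit 725234753360) (nat_lit 34) (nat_lit 5) (nat_lit 33) (nat_lit 3) (nat_lit 38) (nat_lit 5) (nat_lit 380) (nat_lit 379) (nat_lit 261)) (XT.lf (nat_lit 0) (nat_lit 352177936501) (nat_lit 304) (nat_lit 381591845231) (nat_lit 380) (nat_lit 355740566460) (nat_lit 34) (nat_lit 5) (nat_lit 38) (nat_lit 5) (nat_lit 39) (nat_lit 5) (nat_lit 381) (nat_lit 379) (nat_lit 260))))) (XT.nd (nat_lit 234) (nat_lit 304) (nat_lit 0) (XT.nd (nat_lit 78) (nat_lit 228) (nat_lit 0) (XT.lf (nat_lit 76) (nat_lit 197483822468) (nat_lit 0) (nat_lit 242802898239) (nat_lit 380) (nat_lit 733579370116) (nat_lit 35) (nat_lit 5) (nat_lit 34) (nat_lit 5) (nat_lit 39) (nat_lit 5) (nat_lit 382) (nat_lit 379) (nat_lit 259)) (XT.nd (nat_lit 78) (nat_lit 304) (nat_lit 0) (XT.lf (nat_lit 0) (nat_lit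 575833934502) (nat_lit 304) (nat_lit 375851892227) (nat_lit 76) (nat_lit 314056051331) (nat_lit 35) (nat_lit 5) (nat_lit 39) (nat_lit 5) (nat_lit 36) (nat_lit 5) (nat_lit 383) (nat_lit 379) (nat_lit 258)) (XT.lf (nat_lit 0) (nat_lit 332826506370) (nat_lit 304) (nat_lit 424230394386) (nat_lit 380) (nat_lit 610540582075) (nat_lit 31) (nat_lit 5) (nat_lit 35) (nat_lit 5) (nat_lit 36) (nat_lit 5) (nat_lit 384) (nat_lit 379) (nat_lit 257)))) (XT.nd (nat_lit 156) (nat_lit 152) (nat_lit 0) (XT.nd (nat_lit 78) (nat_lit 152) (nat_lit 0) (XT.lf (nat_lit 0) (nat_lit 993596119341) (nat_lit 380) (nat_lit 300223136111) (nat_lit 76) (nat_lit 186692251762) (nat_lit 31) (nat_lit 5) (nat_lit 36) (nat_lit 5) (nat_lit 32) (nat_lit 5) (nat_lit 385) (nat_lit 379) (nat_lit 256)) (XT.lf (nat_lit 0) (nat_lit 575544364347) (nat_lit 152) (nat_lit 734105361950) (nat_lit 228) (nat_lit 294107883123) (nat_lit 29) (nat_lit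 5) (nat_lit 31) (nat_lit 5) (nat_lit 32) (nat_lit 5) (nat_lit 386) (nat_lit 379) (nat_lit 255))) (XT.nd (nat_lit 78) (nat_lit 152) (nat_lit 0) (XT.lf (nat_lit 0) (nat_lit 1616417968916) (nat_lit 152) (nat_lit 72386881493) (nat_lit 228) (nat_lit 54331755134) (nat_lit 29) (nat_lit 5) (nat_lit 31) (nat_lit 5) (nat_lit 32) (nat_lit 5) (nat_lit 387) (nat_lit 379) (nat_lit 254)) (XT.lf (nat_lit 0) (nat_lit 273545624924) (nat_lit 152) (nat_lit 937936779357) (nat_lit 76) (nat_lit 679787871598) (nat_lit 27) (nat_lit 5) (nat_lit 29) (nat_lit 5) (nat_lit 28) (nat_lit 5) (nat_lit 388) (nat_lit 379) (nat_lit 253))))))))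
noncomputable def xc105 : XT := (XT.nd (nat_lit 1872) (nat_lit 532) (nat_lit 0) (XT.nd (nat_lit 936) (nat_lit 608) (nat_lit 0) (XT.nd (nat_lit 468) (nat_lit 380) (nat_lit 0) (XT.nd (nat_lit 234) (nat_lit 228) (nat_lit 0) (XT.nd (nat_lit 78) (nat_lit 76) (nat_lit 0) (XT.lf (nat_lit 0) (nat_lit 156596103588) (nat_lit 152) (nat_lit 505316625436) (nat_lit 228) (nat_lit 1396792585697) (nat_lit 25) (nat_lit 5) (nat_lit 27) (nat_lit 5) (nat_lit 28) (nat_lit 5) (nat_lit 389) (nat_lit 379) (nat_lit 252)) (XT.nd (nat_lit 78) (nat_lit 76) (nat_lit 0) (XT.lf (nat_lit 0) (nat_lit 1172600956474) (nat_lit 228) (nat_lit 738218666247) (nat_lit 76) (nat_lit 330826078012) (nat_lit 25) (nat_lit 5) (nat_lit 28) (nat_lit 5) (nat_lit 26) (nat_lit 4) (nat_lit 390) (nat_lit 379) (nat_lit 251)) (XT.lf (nat_lit 0) (nat_lit 632502503950) (nat_lit 76) (nat_lit 1177643186211) (nat_lit 152) (nat_lit 634343463668) (nat_lit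 24) (nat_lit 5) (nat_lit 25) (nat_lit 5) (nat_lit 26) (nat_lit 4) (nat_lit 391) (nat_lit 379) (nat_lit 250)))) (XT.nd (nat_lit 78) (nat_lit 228) (nat_lit 0) (XT.lf (nat_lit 0) (nat_lit 2291797554749) (nat_lit 76) (nat_lit 290113278243) (nat_lit 152) (nat_lit 90059987036) (nat_lit 24) (nat_lit 5) (nat_lit 25) (nat_lit 5) (nat_lit 26) (nat_lit 4) (nat_lit 392) (nat_lit 379) (nat_lit 249)) (XT.nd (nat_lit 78) (nat_lit 76) (nat_lit 0) (XT.lf (nat_lit 0) (nat_lit 578715205407) (nat_lit 152) (nat_lit 1589945561985) (nat_lit 76) (nat_lit 748002254619) (nat_lit 22) (nat_lit 5) (nat_lit 24) (nat_lit 5) (nat_lit 23) (nat_lit 4) (nat_lit 393) (nat_lit 379) (nat_lit 248)) (XT.lf (nat_lit 0) (nat_lit 129795405639) (nat_lit 76) (nat_lit 1248799321516) (nat_lit 152) (nat_lit 1812819769863) (nat_lit 21) (nat_lit 5) (nat_lit 22) (nat_lit 5) (nat_lit 23) (nat_lit 4) (nat_lit 394) (nat_lit 379) (nat_lit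 247))))) (XT.nd (nat_lit 234) (nat_lit 228) (nat_lit 0) (XT.nd (nat_lit 78) (nat_lit 152) (nat_lit 0) (XT.lf (nat_lit 0) (nat_lit 2286185712724) (nat_lit 76) (nat_lit 95381251957) (nat_lit 152) (nat_lit 1113345110470) (nat_lit 21) (nat_lit 5) (nat_lit 22) (nat_lit 5) (nat_lit 23) (nat_lit 4) (nat_lit 395) (nat_lit 379) (nat_lit 246)) (XT.nd (nat_lit 78) (nat_lit 76) (nat_lit 0) (XT.lf (nat_lit 0) (nat_lit 956257818406) (nat_lit 76) (nat_lit 2669298949305) (nat_lit 76) (nat_lit 204791762812) (nat_lit 20) (nat_lit 4) (nat_lit 21) (nat_lit 5) (nat_lit 21) (nat_lit 4) (nat_lit 396) (nat_lit 379) (nat_lit 245)) (XT.lf (nat_lit 0) (nat_lit 835992128317) (nat_lit 152) (nat_lit 667124112975) (nat_lit 76) (nat_lit 2697156426748) (nat_lit 19) (nat_lit 5) (nat_lit 21) (nat_lit 5) (nat_lit 20) (nat_lit 4) (nat_lit 397) (nat_lit 379) (nat_lit 244)))) (XT.nd (nat_lit 78) (nat_lit 152) (nat_lit 0) (XT.lf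 (nat_lit 0) (nat_lit 2043019177542) (nat_lit 76) (nat_lit 53504714761) (nat_lit 152) (nat_lit 2515009175838) (nat_lit 18) (nat_lit 5) (nat_lit 19) (nat_lit 5) (nat_lit 20) (nat_lit 4) (nat_lit 398) (nat_lit 379) (nat_lit 243)) (XT.nd (nat_lit 78) (nat_lit 76) (nat_lit 0) (XT.lf (nat_lit 0) (nat_lit 95429544801) (nat_lit 76) (nat_lit 3558003998910) (nat_lit 76) (nat_lit 1414954266127) (nat_lit 17) (nat_lit 4) (nat_lit 18) (nat_lit 5) (nat_lit 18) (nat_lit 4) (nat_lit 399) (nat_lit 379) (nat_lit 242)) (XT.lf (nat_lit 0) (nat_lit 6657778253) (nat_lit 152) (nat_lit 2128735510888) (nat_lit 76) (nat_lit 3437827791262) (nat_lit 16) (nat_lit 5) (nat_lit 18) (nat_lit 5) (nat_lit 17) (nat_lit 4) (nat_lit 400) (nat_lit 379) (nat_lit 241)))))) (XT.nd (nat_lit 468) (nat_lit 304) (nat_lit 0) (XT.nd (nat_lit 234) (nat_lit 152) (nat_lit 0) (XT.nd (nat_lit 78) (nat_lit 76) (nat_lit 0) (XT.lf (nat_lit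 0) (nat_lit 1179773470258) (nat_lit 76) (nat_lit 365725695122) (nat_lit 152) (nat_lit 4590845574773) (nat_lit 15) (nat_lit 5) (nat_lit 16) (nat_lit 5) (nat_lit 17) (nat_lit 4) (nat_lit 401) (nat_lit 379) (nat_lit 240)) (XT.nd (nat_lit 78) (nat_lit 76) (nat_lit 0) (XT.lf (nat_lit 0) (nat_lit 3500866334121) (nat_lit 152) (nat_lit 1617870854445) (nat_lit 0) (nat_lit 1637344824267) (nat_lit 15) (nat_lit 5) (nat_lit 17) (nat_lit 4) (nat_lit 15) (nat_lit 4) (nat_lit 402) (nat_lit 379) (nat_lit 239)) (XT.lf (nat_lit 0) (nat_lit 2419631432560) (nat_lit 76) (nat_lit 3447514430848) (nat_lit 76) (nat_lit 1583992920222) (nat_lit 14) (nat_lit 4) (nat_lit 15) (nat_lit 5) (nat_lit 15) (nat_lit 4) (nat_lit 403) (nat_lit 379) (nat_lit 238)))) (XT.nd (nat_lit 78) (nat_lit 76) (nat_lit 0) (XT.lf (nat_lit 0) (nat_lit 396427565493) (nat_lit 152) (nat_lit 1011202245487) (nat_lit 76) (nat_lit 6827435765814)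 (nat_lit 13) (nat_lit 5) (nat_lit 15) (nat_lit 5) (nat_lit 14) (nat_lit 4) (nat_lit 404) (nat_lit 379) (nat_lit 237)) (XT.nd (nat_lit 78) (nat_lit 0) (nat_lit 0) (XT.lf (nat_lit 0) (nat_lit 2722597910136) (nat_lit 152) (nat_lit 5268896198637) (nat_lit 0) (nat_lit 1102144421543) (nat_lit 12) (nat_lit 5) (nat_lit 14) (nat_lit 4) (nat_lit 12) (nat_lit 4) (nat_lit 405) (nat_lit 379) (nat_lit 236)) (XT.lf (nat_lit 0) (nat_lit 5520099156995) (nat_lit 152) (nat_lit 642891799336) (nat_lit 0) (nat_lit 3899645667960) (nat_lit 12) (nat_lit 5) (nat_lit 14) (nat_lit 4) (nat_lit 12) (nat_lit 4) (nat_lit 406) (nat_lit 379) (nat_lit 235))))) (XT.nd (nat_lit 234) (nat_lit 76) (nat_lit 0) (XT.nd (nat_lit 78) (nat_lit 152) (nat_lit 0) (XT.lf (nat_lit 0) (nat_lit 5134085007224) (nat_lit 76) (nat_lit 3815732094002) (nat_lit 76) (nat_lit 2195278604582) (nat_lit 11) (nat_lit 4) (nat_lit 12) (nat_lit 5) (nat_lit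 12) (nat_lit 4) (nat_lit 407) (nat_lit 379) (nat_lit 234)) (XT.nd (nat_lit 78) (nat_lit 76) (nat_lit 0) (XT.lf (nat_lit 0) (nat_lit 494399349821) (nat_lit 152) (nat_lit 557494887638) (nat_lit 76) (nat_lit 11329617651476) (nat_lit 10) (nat_lit 5) (nat_lit 12) (nat_lit 5) (nat_lit 11) (nat_lit 4) (nat_lit 408) (nat_lit 379) (nat_lit 233)) (XT.lf (nat_lit 0) (nat_lit 3722926448931) (nat_lit 152) (nat_lit 7696924206673) (nat_lit 0) (nat_lit 2313836457589) (nat_lit 9) (nat_lit 5) (nat_lit 11) (nat_lit 4) (nat_lit 9) (nat_lit 4) (nat_lit 409) (nat_lit 379) (nat_lit 232)))) (XT.nd (nat_lit 78) (nat_lit 76) (nat_lit 0) (XT.lf (nat_lit 0) (nat_lit 7516352295480) (nat_lit 152) (nat_lit 1652981069309) (nat_lit 0) (nat_lit 6107262303918) (nat_lit 9) (nat_lit 5) (nat_lit 11) (nat_lit 4) (nat_lit 9) (nat_lit 4) (nat_lit 410) (nat_lit 379) (nat_lit 231)) (XT.nd (nat_lit 78) (nat_lit 0) (nat_lit 0) (XT.lf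 (nat_lit 0) (nat_lit 5815268995816) (nat_lit 76) (nat_lit 6304320910215) (nat_lit 76) (nat_lit 4895230918461) (nat_lit 8) (nat_lit 4) (nat_lit 9) (nat_lit 5) (nat_lit 9) (nat_lit 4) (nat_lit 411) (nat_lit 379) (nat_lit 230)) (XT.lf (nat_lit 0) (nat_lit 14589529100248) (nat_lit 76) (nat_lit 2910189885584) (nat_lit 76) (nat_lit 1501099893665) (nat_lit 8) (nat_lit 4) (nat_lit 9) (nat_lit 5) (nat_lit 9) (nat_lit 4) (nat_lit 412) (nat_lit 379) (nat_lit 229))))))) (XT.nd (nat_lit 936) (nat_lit 76) (nat_lit 0) (XT.nd (nat_lit 468) (nat_lit 228) (nat_lit 0) (XT.nd (nat_lit 234) (nat_lit 76) (nat_lit 0) (XT.nd (nat_lit 78) (nat_lit 0) (nat_lit 0) (XT.lf (nat_lit 0) (nat_lit 2391091981349) (nat_lit 152) (nat_lit 17682488543540) (nat_lit 0) (nat_lit 1165796336076) (nat_lit 6) (nat_lit 5) (nat_lit 8) (nat_lit 4) (nat_lit 6) (nat_lit 4) (nat_lit 413) (nat_lit 379) (nat_lit 228)) (XT.nd (nat_lit 78)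 (nat_lit 0) (nat_lit 0) (XT.lf (nat_lit 0) (nat_lit 7093579701527) (nat_lit 152) (nat_lit 10784109974788) (nat_lit 0) (nat_lit 5868284056145) (nat_lit 6) (nat_lit 5) (nat_lit 8) (nat_lit 4) (nat_lit 6) (nat_lit 4) (nat_lit 414) (nat_lit 379) (nat_lit 227)) (XT.lf (nat_lit 0) (nat_lit 12501440578976) (nat_lit 152) (nat_lit 2850974622315) (nat_lit 0) (nat_lit 11276144933500) (nat_lit 6) (nat_lit 5) (nat_lit 8) (nat_lit 4) (nat_lit 6) (nat_lit 4) (nat_lit 415) (nat_lit 379) (nat_lit 226)))) (XT.nd (nat_lit 78) (nat_lit 0) (nat_lit 0) (XT.lf (nat_lit 0) (nat_lit 6885089291555) (nat_lit 76) (nat_lit 12120488160907) (nat_lit 76) (nat_lit 10895192515347) (nat_lit 5) (nat_lit 4) (nat_lit 6) (nat_lit 5) (nat_lit 6) (nat_lit 4) (nat_lit 416) (nat_lit 379) (nat_lit 225)) (XT.nd (nat_lit 78) (nat_lit 0) (nat_lit 0) (XT.lf (nat_lit 0) (nat_lit 18401973461808) (nat_lit 76) (nat_lit 8232389613432) (nat_lit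 76) (nat_lit 7007093967801) (nat_lit 5) (nat_lit 4) (nat_lit 6) (nat_lit 5) (nat_lit 6) (nat_lit 4) (nat_lit 417) (nat_lit 379) (nat_lit 224)) (XT.lf (nat_lit 0) (nat_lit 31646390256449) (nat_lit 76) (nat_lit 3761076284441) (nat_lit 76) (nat_lit 2535780638747) (nat_lit 5) (nat_lit 4) (nat_lit 6) (nat_lit 5) (nat_lit 6) (nat_lit 4) (nat_lit 418) (nat_lit 379) (nat_lit 223))))) (XT.nd (nat_lit 234) (nat_lit 76) (nat_lit 0) (XT.nd (nat_lit 78) (nat_lit 0) (nat_lit 0) (XT.lf (nat_lit 0) (nat_lit 2621251573348) (nat_lit 152) (nat_lit 38660032431588) (nat_lit 0) (nat_lit 1555777098785) (nat_lit 3) (nat_lit 5) (nat_lit 5) (nat_lit 4) (nat_lit 3) (nat_lit 4) (nat_lit 419) (nat_lit 379) (nat_lit 222)) (XT.nd (nat_lit 78) (nat_lit 0) (nat_lit 0) (XT.lf (nat_lit 0) (nat_lit 8816149729756) (nat_lit 152) (nat_lit 31801420400265) (nat_lit 0) (nat_lit 7750675255151) (nat_lit 3) (nat_lit 5) (nat_lit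 5) (nat_lit 4) (nat_lit 3) (nat_lit 4) (nat_lit 420) (nat_lit 379) (nat_lit 221)) (XT.lf (nat_lit 0) (nat_lit 15940282609195) (nat_lit 152) (nat_lit 23914016565154) (nat_lit 0) (nat_lit 14874808134555) (nat_lit 3) (nat_lit 5) (nat_lit 5) (nat_lit 4) (nat_lit 3) (nat_lit 4) (nat_lit 421) (nat_lit 379) (nat_lit 220)))) (XT.nd (nat_lit 78) (nat_lit 76) (nat_lit 0) (XT.lf (nat_lit 0) (nat_lit 24133035420177) (nat_lit 152) (nat_lit 14843502155569) (nat_lit 0) (nat_lit 23067560945506) (nat_lit 3) (nat_lit 5) (nat_lit 5) (nat_lit 4) (nat_lit 3) (nat_lit 4) (nat_lit 422) (nat_lit 379) (nat_lit 219)) (XT.nd (nat_lit 78) (nat_lit 76) (nat_lit 0) (XT.lf (nat_lit 0) (nat_lit 33554701152482) (nat_lit 152) (nat_lit 4412410585237) (nat_lit 0) (nat_lit 32489226677783) (nat_lit 3) (nat_lit 5) (nat_lit 5) (nat_lit 4) (nat_lit 3) (nat_lit 4) (nat_lit 423) (nat_lit 379) (nat_lit 218)) (XT.lf (nat_lit 0)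 (nat_lit 8324444317686) (nat_lit 76) (nat_lit 36409869913938) (nat_lit 76) (nat_lit 35344395439216) (nat_lit 2) (nat_lit 4) (nat_lit 3) (nat_lit 5) (nat_lit 3) (nat_lit 4) (nat_lit 424) (nat_lit 379) (nat_lit 217)))))) (XT.nd (nat_lit 49764) (nat_lit 0) (nat_lit 2128) (XT.nd (nat_lit 1872) (nat_lit 76) (nat_lit 0) (XT.nd (nat_lit 78) (nat_lit 0) (nat_lit 0) (XT.lf (nat_lit 0) (nat_lit 23467722236021) (nat_lit 76) (nat_lit 34353795771485) (nat_lit 76) (nat_lit 33288321296742) (nat_lit 2) (nat_lit 4) (nat_lit 3) (nat_lit 5) (nat_lit 3) (nat_lit 4) (nat_lit 425) (nat_lit 379) (nat_lit 216)) (XT.nd (nat_lit 78) (nat_lit 0) (nat_lit 0) (XT.lf (nat_lit 0) (nat_lit 40882491841609) (nat_lit 76) (nat_lit 31989310507927) (nat_lit 76) (nat_lit 30923836033167) (nat_lit 2) (nat_lit 4) (nat_lit 3) (nat_lit 5) (nat_lit 3) (nat_lit 4) (nat_lit 426) (nat_lit 379) (nat_lit 215)) (XT.lf (nat_lit 0) (nat_lit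 60909476887603) (nat_lit 76) (nat_lit 29270152455064) (nat_lit 76) (nat_lit 28204677980289) (nat_lit 2) (nat_lit 4) (nat_lit 3) (nat_lit 5) (nat_lit 3) (nat_lit 4) (nat_lit 427) (nat_lit 379) (nat_lit 214)))) (XT.nd (nat_lit 47736) (nat_lit 0) (nat_lit 2432) (XT.lf (nat_lit 0) (nat_lit 421230103904086) (nat_lit 76) (nat_lit 1575165302059968) (nat_lit 0) (nat_lit 420303604360716) (nat_lit 1) (nat_lit 5) (nat_lit 2) (nat_lit 4) (nat_lit 1) (nat_lit 4) (nat_lit 449) (nat_lit 379) (nat_lit 192)) (XT.nd (nat_lit 78) (nat_lit 0) (nat_lit 0) (XT.lf (nat_lit 0) (nat_lit 151480382451) (nat_lit 380) (nat_lit 195716346176) (nat_lit 380) (nat_lit 195716346176) (nat_lit 33) (nat_lit 3) (nat_lit 38) (nat_lit 3) (nat_lit 38) (nat_lit 5) (nat_lit 380) (nat_lit 380) (nat_lit 260)) (XT.lf (nat_lit 76) (nat_lit 158768331277) (nat_lit 0) (nat_lit 173488800325) (nat_lit 380) (nat_lit 834019832791) (nat_lit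 34) (nat_lit 5) (nat_lit 33) (nat_lit 3) (nat_lit 38) (nat_lit 5) (nat_lit 381) (nat_lit 380) (nat_lit 259))))) (XT.nd (nat_lit 234) (nat_lit 380) (nat_lit 0) (XT.nd (nat_lit 78) (nat_lit 0) (nat_lit 0) (XT.lf (nat_lit 0) (nat_lit 405004726309) (nat_lit 304) (nat_lit 438830543070) (nat_lit 380) (nat_lit 409101616072) (nat_lit 34) (nat_lit 5) (nat_lit 38) (nat_lit 5) (nat_lit 39) (nat_lit 5) (nat_lit 382) (nat_lit 380) (nat_lit 258)) (XT.nd (nat_lit 78) (nat_lit 0) (nat_lit 76) (XT.lf (nat_lit 76) (nat_lit 227106471195) (nat_lit 0) (nat_lit 279223347115) (nat_lit 380) (nat_lit 843616172651) (nat_lit 35) (nat_lit 5) (nat_lit 34) (nat_lit 5) (nat_lit 39) (nat_lit 5) (nat_lit 383) (nat_lit 380) (nat_lit 257)) (XT.lf (nat_lit 0) (nat_lit 662209101992) (nat_lit 304) (nat_lit 432229598299) (nat_lit 76) (nat_lit 361164447830) (nat_lit 35) (nat_lit 5) (nat_lit 39) (nat_lit 5) (nat_lit 36) (nat_lit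 5) (nat_lit 384) (nat_lit 380) (nat_lit 256)))) (XT.nd (nat_lit 156) (nat_lit 152) (nat_lit 0) (XT.nd (nat_lit 78) (nat_lit 0) (nat_lit 0) (XT.lf (nat_lit 0) (nat_lit 382750556554) (nat_lit 304) (nat_lit 487864949619) (nat_lit 380) (nat_lit 702121588492) (nat_lit 31) (nat_lit 5) (nat_lit 35) (nat_lit 5) (nat_lit 36) (nat_lit 5) (nat_lit 385) (nat_lit 380) (nat_lit 255)) (XT.lf (nat_lit 0) (nat_lit 1142635598517) (nat_lit 380) (nat_lit 345256532912) (nat_lit 76) (nat_lit 214696092635) (nat_lit 31) (nat_lit 5) (nat_lit 36) (nat_lit 5) (nat_lit 32) (nat_lit 5) (nat_lit 386) (nat_lit 380) (nat_lit 254))) (XT.nd (nat_lit 78) (nat_lit 0) (nat_lit 0) (XT.lf (nat_lit 0) (nat_lit 661876089268) (nat_lit 152) (nat_lit 844221152166) (nat_lit 228) (nat_lit 338224000936) (nat_lit 29) (nat_lit 5) (nat_lit 31) (nat_lit 5) (nat_lit 32) (nat_lit 5) (nat_lit 387) (nat_lit 380) (nat_lit 253)) (XT.lf (nat_lit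 0) (nat_lit 1858880725357) (nat_lit 152) (nat_lit 83244901477) (nat_lit 228) (nat_lit 62481462182) (nat_lit 29) (nat_lit 5) (nat_lit 31) (nat_lit 5) (nat_lit 32) (nat_lit 5) (nat_lit 388) (nat_lit 380) (nat_lit 252))))))))
noncomputable def xc106 : XT := (XT.nd (nat_lit 1872) (nat_lit 456) (nat_lit 0) (XT.nd (nat_lit 936) (nat_lit 684) (nat_lit 0) (XT.nd (nat_lit 468) (nat_lit 380) (nat_lit 0) (XT.nd (nat_lit 234) (nat_lit 228) (nat_lit 0) (XT.nd (nat_lit 78) (nat_lit 152) (nat_lit 0) (XT.lf (nat_lit 0) (nat_lit 314577516474) (nat_lit 152) (nat_lit 1078627226698) (nat_lit 76) (nat_lit 781756066894) (nat_lit 27) (nat_lit 5) (nat_lit 29) (nat_lit 5) (nat_lit 28) (nat_lit 5) (nat_lit 389) (nat_lit 380) (nat_lit 251)) (XT.nd (nat_lit 78) (nat_lit 0) (nat_lit 0) (XT.lf (nat_lit 0) (nat_lit 180085585527) (nat_lit 152) (nat_lit 581114097177) (nat_lit 228) (nat_lit 1606311422558) (nat_lit 25)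 (nat_lit 5) (nat_lit 27) (nat_lit 5) (nat_lit 28) (nat_lit 5) (nat_lit 390) (nat_lit 380) (nat_lit 250)) (XT.lf (nat_lit 0) (nat_lit 1348491139283) (nat_lit 228) (nat_lit 848951403441) (nat_lit 76) (nat_lit 380450007201) (nat_lit 25) (nat_lit 5) (nat_lit 28) (nat_lit 5) (nat_lit 26) (nat_lit 4) (nat_lit 391) (nat_lit 380) (nat_lit 249)))) (XT.nd (nat_lit 78) (nat_lit 152) (nat_lit 0) (XT.lf (nat_lit 0) (nat_lit 727377939434) (nat_lit 76) (nat_lit 1354289640939) (nat_lit 152) (nat_lit 729494941013) (nat_lit 24) (nat_lit 5) (nat_lit 25) (nat_lit 5) (nat_lit 26) (nat_lit 4) (nat_lit 392) (nat_lit 380) (nat_lit 248)) (XT.nd (nat_lit 78) (nat_lit 152) (nat_lit 0) (XT.lf (nat_lit 0) (nat_lit 2635567240041) (nat_lit 76) (nat_lit 333630249802) (nat_lit 152) (nat_lit 103568948391) (nat_lit 24) (nat_lit 5) (nat_lit 25) (nat_lit 5) (nat_lit 26) (nat_lit 4) (nat_lit 393) (nat_lit 380) (nat_lit 247))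 (XT.lf (nat_lit 0) (nat_lit 665522518372) (nat_lit 152) (nat_lit 1828437339636) (nat_lit 76) (nat_lit 860202612472) (nat_lit 22) (nat_lit 5) (nat_lit 24) (nat_lit 5) (nat_lit 23) (nat_lit 4) (nat_lit 394) (nat_lit 380) (nat_lit 246))))) (XT.nd (nat_lit 234) (nat_lit 228) (nat_lit 0) (XT.nd (nat_lit 78) (nat_lit 76) (nat_lit 0) (XT.lf (nat_lit 0) (nat_lit 149264770557) (nat_lit 76) (nat_lit 1436119195870) (nat_lit 152) (nat_lit 2084742700606) (nat_lit 21) (nat_lit 5) (nat_lit 22) (nat_lit 5) (nat_lit 23) (nat_lit 4) (nat_lit 395) (nat_lit 380) (nat_lit 245)) (XT.nd (nat_lit 78) (nat_lit 76) (nat_lit 0) (XT.lf (nat_lit 0) (nat_lit 2629113616652) (nat_lit 76) (nat_lit 109688418991) (nat_lit 152) (nat_lit 1280346846834) (nat_lit 21) (nat_lit 5) (nat_lit 22) (nat_lit 5) (nat_lit 23) (nat_lit 4) (nat_lit 396) (nat_lit 380) (nat_lit 244)) (XT.lf (nat_lit 0) (nat_lit 1099696538995) (nat_lit 76)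 (nat_lit 3069693769435) (nat_lit 76) (nat_lit 235510497830) (nat_lit 20) (nat_lit 4) (nat_lit 21) (nat_lit 5) (nat_lit 21) (nat_lit 4) (nat_lit 397) (nat_lit 380) (nat_lit 243)))) (XT.nd (nat_lit 78) (nat_lit 152) (nat_lit 0) (XT.lf (nat_lit 0) (nat_lit 961390970856) (nat_lit 152) (nat_lit 767192686050) (nat_lit 76) (nat_lit 3101729907840) (nat_lit 19) (nat_lit 5) (nat_lit 21) (nat_lit 5) (nat_lit 20) (nat_lit 4) (nat_lit 398) (nat_lit 380) (nat_lit 242)) (XT.nd (nat_lit 78) (nat_lit 76) (nat_lit 0) (XT.lf (nat_lit 0) (nat_lit 2349472096051) (nat_lit 76) (nat_lit 61530402087) (nat_lit 152) (nat_lit 2892260526923) (nat_lit 18) (nat_lit 5) (nat_lit 19) (nat_lit 5) (nat_lit 20) (nat_lit 4) (nat_lit 399) (nat_lit 380) (nat_lit 241)) (XT.lf (nat_lit 0) (nat_lit 109744018861) (nat_lit 76) (nat_lit 4091704577996) (nat_lit 76) (nat_lit 1627197381215) (nat_lit 17) (nat_lit 4) (nat_lit 18) (nat_lit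 5) (nat_lit 18) (nat_lit 4) (nat_lit 400) (nat_lit 380) (nat_lit 240)))))) (XT.nd (nat_lit 468) (nat_lit 304) (nat_lit 0) (XT.nd (nat_lit 234) (nat_lit 228) (nat_lit 0) (XT.nd (nat_lit 78) (nat_lit 76) (nat_lit 0) (XT.lf (nat_lit 0) (nat_lit 7656464662) (nat_lit 152) (nat_lit 2448045798779) (nat_lit 76) (nat_lit 3953501976070) (nat_lit 16) (nat_lit 5) (nat_lit 18) (nat_lit 5) (nat_lit 17) (nat_lit 4) (nat_lit 401) (nat_lit 380) (nat_lit 239)) (XT.nd (nat_lit 78) (nat_lit 0) (nat_lit 0) (XT.lf (nat_lit 0) (nat_lit 1356739527778) (nat_lit 76) (nat_lit 420584531044) (nat_lit 152) (nat_lit 5279472389556) (nat_lit 15) (nat_lit 5) (nat_lit 16) (nat_lit 5) (nat_lit 17) (nat_lit 4) (nat_lit 402) (nat_lit 380) (nat_lit 238)) (XT.lf (nat_lit 0) (nat_lit 4025996301104) (nat_lit 152) (nat_lit 1860551448682) (nat_lit 0) (nat_lit 1882946562440) (nat_lit 15) (nat_lit 5) (nat_lit 17) (nat_lit 4) (nat_lit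 15) (nat_lit 4) (nat_lit 403) (nat_lit 380) (nat_lit 237)))) (XT.nd (nat_lit 78) (nat_lit 152) (nat_lit 0) (XT.lf (nat_lit 0) (nat_lit 2782576179832) (nat_lit 76) (nat_lit 3964641579095) (nat_lit 76) (nat_lit 1821591839846) (nat_lit 14) (nat_lit 4) (nat_lit 15) (nat_lit 5) (nat_lit 15) (nat_lit 4) (nat_lit 404) (nat_lit 380) (nat_lit 236)) (XT.nd (nat_lit 78) (nat_lit 76) (nat_lit 0) (XT.lf (nat_lit 0) (nat_lit 455891714900) (nat_lit 152) (nat_lit 1162882552720) (nat_lit 76) (nat_lit 7851551143504) (nat_lit 13) (nat_lit 5) (nat_lit 15) (nat_lit 5) (nat_lit 14) (nat_lit 4) (nat_lit 405) (nat_lit 380) (nat_lit 235)) (XT.lf (nat_lit 0) (nat_lit 3130987611104) (nat_lit 152) (nat_lit 6059230598705) (nat_lit 0) (nat_lit 1267466097887) (nat_lit 12) (nat_lit 5) (nat_lit 14) (nat_lit 4) (nat_lit 12) (nat_lit 4) (nat_lit 406) (nat_lit 380) (nat_lit 234))))) (XT.nd (nat_lit 234) (nat_lit 152) (nat_lit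 0) (XT.nd (nat_lit 78) (nat_lit 152) (nat_lit 0) (XT.lf (nat_lit 0) (nat_lit 6348114043106) (nat_lit 152) (nat_lit 739325543386) (nat_lit 0) (nat_lit 4484592529556) (nat_lit 12) (nat_lit 5) (nat_lit 14) (nat_lit 4) (nat_lit 12) (nat_lit 4) (nat_lit 407) (nat_lit 380) (nat_lit 233)) (XT.nd (nat_lit 78) (nat_lit 76) (nat_lit 0) (XT.lf (nat_lit 0) (nat_lit 5904197782983) (nat_lit 76) (nat_lit 4388091895372) (nat_lit 76) (nat_lit 2524570381531) (nat_lit 11) (nat_lit 4) (nat_lit 12) (nat_lit 5) (nat_lit 12) (nat_lit 4) (nat_lit 408) (nat_lit 380) (nat_lit 232)) (XT.lf (nat_lit 0) (nat_lit 568559263176) (nat_lit 152) (nat_lit 641119098263) (nat_lit 76) (nat_lit 13029060309202) (nat_lit 10) (nat_lit 5) (nat_lit 12) (nat_lit 5) (nat_lit 11) (nat_lit 4) (nat_lit 409) (nat_lit 380) (nat_lit 231)))) (XT.nd (nat_lit 78) (nat_lit 76) (nat_lit 0) (XT.lf (nat_lit 0) (nat_lit 4281365427086) (nat_lit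 152) (nat_lit 8851462815084) (nat_lit 0) (nat_lit 2660911936379) (nat_lit 9) (nat_lit 5) (nat_lit 11) (nat_lit 4) (nat_lit 9) (nat_lit 4) (nat_lit 410) (nat_lit 380) (nat_lit 230)) (XT.nd (nat_lit 78) (nat_lit 76) (nat_lit 0) (XT.lf (nat_lit 0) (nat_lit 8643805149206) (nat_lit 152) (nat_lit 1900928210062) (nat_lit 0) (nat_lit 7023351658333) (nat_lit 9) (nat_lit 5) (nat_lit 11) (nat_lit 4) (nat_lit 9) (nat_lit 4) (nat_lit 411) (nat_lit 380) (nat_lit 229)) (XT.lf (nat_lit 0) (nat_lit 6687559363939) (nat_lit 76) (nat_lit 7249969036951) (nat_lit 76) (nat_lit 5629515545933) (nat_lit 8) (nat_lit 4) (nat_lit 9) (nat_lit 5) (nat_lit 9) (nat_lit 4) (nat_lit 412) (nat_lit 380) (nat_lit 228))))))) (XT.nd (nat_lit 936) (nat_lit 76) (nat_lit 0) (XT.nd (nat_lit 468) (nat_lit 152) (nat_lit 0) (XT.nd (nat_lit 234) (nat_lit 76) (nat_lit 0) (XT.nd (nat_lit 78) (nat_lit 152) (nat_lit 0) (XT.lf (nat_lit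 0) (nat_lit 16777958481590) (nat_lit 76) (nat_lit 3346718359903) (nat_lit 76) (nat_lit 1726264868760) (nat_lit 8) (nat_lit 4) (nat_lit 9) (nat_lit 5) (nat_lit 9) (nat_lit 4) (nat_lit 413) (nat_lit 380) (nat_lit 227)) (XT.nd (nat_lit 78) (nat_lit 0) (nat_lit 0) (XT.lf (nat_lit 0) (nat_lit 2749755786675) (nat_lit 152) (nat_lit 20334861807935) (nat_lit 0) (nat_lit 1340665794281) (nat_lit 6) (nat_lit 5) (nat_lit 8) (nat_lit 4) (nat_lit 6) (nat_lit 4) (nat_lit 414) (nat_lit 380) (nat_lit 226)) (XT.lf (nat_lit 0) (nat_lit 8157616663820) (nat_lit 152) (nat_lit 12401726456105) (nat_lit 0) (nat_lit 6748526671344) (nat_lit 6) (nat_lit 5) (nat_lit 8) (nat_lit 4) (nat_lit 6) (nat_lit 4) (nat_lit 415) (nat_lit 380) (nat_lit 225)))) (XT.nd (nat_lit 78) (nat_lit 76) (nat_lit 0) (XT.lf (nat_lit 0) (nat_lit 14376656671966) (nat_lit 152) (nat_lit 3278620802704) (nat_lit 0) (nat_lit 12967566679418) (nat_lit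 6) (nat_lit 5) (nat_lit 8) (nat_lit 4) (nat_lit 6) (nat_lit 4) (nat_lit 416) (nat_lit 380) (nat_lit 224)) (XT.nd (nat_lit 78) (nat_lit 0) (nat_lit 0) (XT.lf (nat_lit 0) (nat_lit 7917852697657) (nat_lit 76) (nat_lit 13938561378528) (nat_lit 76) (nat_lit 12529471385918) (nat_lit 5) (nat_lit 4) (nat_lit 6) (nat_lit 5) (nat_lit 6) (nat_lit 4) (nat_lit 417) (nat_lit 380) (nat_lit 223)) (XT.lf (nat_lit 0) (nat_lit 21162269491834) (nat_lit 76) (nat_lit 9467248049782) (nat_lit 76) (nat_lit 8058158057117) (nat_lit 5) (nat_lit 4) (nat_lit 6) (nat_lit 5) (nat_lit 6) (nat_lit 4) (nat_lit 418) (nat_lit 380) (nat_lit 222))))) (XT.nd (nat_lit 234) (nat_lit 0) (nat_lit 0) (XT.nd (nat_lit 78) (nat_lit 152) (nat_lit 0) (XT.lf (nat_lit 0) (nat_lit 36393348804269) (nat_lit 76) (nat_lit 4325237722181) (nat_lit 76) (nat_lit 2916147729469) (nat_lit 5) (nat_lit 4) (nat_lit 6) (nat_lit 5) (nat_lit 6) (nat_lit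 4) (nat_lit 419) (nat_lit 380) (nat_lit 221)) (XT.nd (nat_lit 78) (nat_lit 0) (nat_lit 0) (XT.lf (nat_lit 0) (nat_lit 3014439313975) (nat_lit 152) (nat_lit 44459037286509) (nat_lit 0) (nat_lit 1789143668103) (nat_lit 3) (nat_lit 5) (nat_lit 5) (nat_lit 4) (nat_lit 3) (nat_lit 4) (nat_lit 420) (nat_lit 380) (nat_lit 220)) (XT.lf (nat_lit 0) (nat_lit 10138572193241) (nat_lit 152) (nat_lit 36571633451767) (nat_lit 0) (nat_lit 8913276547338) (nat_lit 3) (nat_lit 5) (nat_lit 5) (nat_lit 4) (nat_lit 3) (nat_lit 4) (nat_lit 421) (nat_lit 380) (nat_lit 219)))) (XT.nd (nat_lit 78) (nat_lit 0) (nat_lit 0) (XT.lf (nat_lit 0) (nat_lit 18331325004071) (nat_lit 152) (nat_lit 27501119042503) (nat_lit 0) (nat_lit 17106029358141) (nat_lit 3) (nat_lit 5) (nat_lit 5) (nat_lit 4) (nat_lit 3) (nat_lit 4) (nat_lit 422) (nat_lit 380) (nat_lit 218)) (XT.nd (nat_lit 78) (nat_lit 0) (nat_lit 0) (XT.lf (nat_lit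 0) (nat_lit 27752990736244) (nat_lit 152) (nat_lit 17070027472449) (nat_lit 0) (nat_lit 26527695090291) (nat_lit 3) (nat_lit 5) (nat_lit 5) (nat_lit 4) (nat_lit 3) (nat_lit 4) (nat_lit 423) (nat_lit 380) (nat_lit 217)) (XT.lf (nat_lit 0) (nat_lit 38587906327998) (nat_lit 152) (nat_lit 5074272167409) (nat_lit 0) (nat_lit 37362610682024) (nat_lit 3) (nat_lit 5) (nat_lit 5) (nat_lit 4) (nat_lit 3) (nat_lit 4) (nat_lit 424) (nat_lit 380) (nat_lit 216)))))) (XT.nd (nat_lit 49920) (nat_lit 0) (nat_lit 1900) (XT.nd (nat_lit 49686) (nat_lit 0) (nat_lit 2356) (XT.nd (nat_lit 78) (nat_lit 0) (nat_lit 0) (XT.lf (nat_lit 0) (nat_lit 9573110970697) (nat_lit 76) (nat_lit 41871350398191) (nat_lit 76) (nat_lit 40646054752200) (nat_lit 2) (nat_lit 4) (nat_lit 3) (nat_lit 5) (nat_lit 3) (nat_lit 4) (nat_lit 425) (nat_lit 380) (nat_lit 215)) (XT.nd (nat_lit 78) (nat_lit 0) (nat_lit 0) (XT.lf (nat_lit 0)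 (nat_lit 26987880576084) (nat_lit 76) (nat_lit 39506865134740) (nat_lit 76) (nat_lit 38281569488733) (nat_lit 2) (nat_lit 4) (nat_lit 3) (nat_lit 5) (nat_lit 3) (nat_lit 4) (nat_lit 426) (nat_lit 380) (nat_lit 214)) (XT.lf (nat_lit 0) (nat_lit 47014865621902) (nat_lit 76) (nat_lit 36787707081970) (nat_lit 76) (nat_lit 35562411435950) (nat_lit 2) (nat_lit 4) (nat_lit 3) (nat_lit 5) (nat_lit 3) (nat_lit 4) (nat_lit 427) (nat_lit 380) (nat_lit 213)))) (XT.nd (nat_lit 78) (nat_lit 0) (nat_lit 0) (XT.lf (nat_lit 0) (nat_lit 174202489002) (nat_lit 380) (nat_lit 225073769805) (nat_lit 380) (nat_lit 225073769805) (nat_lit 33) (nat_lit 3) (nat_lit 38) (nat_lit 3) (nat_lit 38) (nat_lit 5) (nat_lit 381) (nat_lit 381) (nat_lit 258)) (XT.nd (nat_lit 78) (nat_lit 0) (nat_lit 76) (XT.lf (nat_lit 76) (nat_lit 182583634993) (nat_lit 0) (nat_lit 199512154124) (nat_lit 380) (nat_lit 959122706709) (nat_lit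 34) (nat_lit 5) (nat_lit 33) (nat_lit 3) (nat_lit 38) (nat_lit 5) (nat_lit 382) (nat_lit 381) (nat_lit 257)) (XT.lf (nat_lit 0) (nat_lit 465755510366) (nat_lit 304) (nat_lit 504655064837) (nat_lit 380) (nat_lit 470466831748) (nat_lit 34) (nat_lit 5) (nat_lit 38) (nat_lit 5) (nat_lit 39) (nat_lit 5) (nat_lit 383) (nat_lit 381) (nat_lit 256))))) (XT.nd (nat_lit 234) (nat_lit 304) (nat_lit 0) (XT.nd (nat_lit 78) (nat_lit 228) (nat_lit 0) (XT.lf (nat_lit 76) (nat_lit 261172498855) (nat_lit 0) (nat_lit 321106859874) (nat_lit 380) (nat_lit 970158520680) (nat_lit 35) (nat_lit 5) (nat_lit 34) (nat_lit 5) (nat_lit 39) (nat_lit 5) (nat_lit 384) (nat_lit 381) (nat_lit 255)) (XT.nd (nat_lit 78) (nat_lit 304) (nat_lit 0) (XT.lf (nat_lit 0) (nat_lit 761540525751) (nat_lit 304) (nat_lit 497063979244) (nat_lit 76) (nat_lit 415339106534) (nat_lit 35) (nat_lit 5) (nat_lit 39) (nat_lit 5) (nat_lit 36) (nat_lit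 5) (nat_lit 385) (nat_lit 381) (nat_lit 254)) (XT.lf (nat_lit 0) (nat_lit 440163196164) (nat_lit 304) (nat_lit 561044689094) (nat_lit 380) (nat_lit 807439765598) (nat_lit 31) (nat_lit 5) (nat_lit 35) (nat_lit 5) (nat_lit 36) (nat_lit 5) (nat_lit 386) (nat_lit 381) (nat_lit 253)))) (XT.nd (nat_lit 156) (nat_lit 152) (nat_lit 0) (XT.nd (nat_lit 78) (nat_lit 152) (nat_lit 0) (XT.lf (nat_lit 0) (nat_lit 1314030984627) (nat_lit 380) (nat_lit 397044957186) (nat_lit 76) (nat_lit 246900508881) (nat_lit 31) (nat_lit 5) (nat_lit 36) (nat_lit 5) (nat_lit 32) (nat_lit 5) (nat_lit 387) (nat_lit 381) (nat_lit 252)) (XT.lf (nat_lit 0) (nat_lit 761157555791) (nat_lit 152) (nat_lit 970854314346) (nat_lit 228) (nat_lit 388957552188) (nat_lit 29) (nat_lit 5) (nat_lit 31) (nat_lit 5) (nat_lit 32) (nat_lit 5) (nat_lit 388) (nat_lit 381) (nat_lit 251))) (XT.nd (nat_lit 78) (nat_lit 152) (nat_lit 0) (XT.lf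 (nat_lit 0) (nat_lit 2137712880364) (nat_lit 152) (nat_lit 95731627443) (nat_lit 228) (nat_lit 71853638997) (nat_lit 29) (nat_lit 5) (nat_lit 31) (nat_lit 5) (nat_lit 32) (nat_lit 5) (nat_lit 389) (nat_lit 381) (nat_lit 250)) (XT.lf (nat_lit 0) (nat_lit 361764180098) (nat_lit 152) (nat_lit 1240421258104) (nat_lit 76) (nat_lit 899019487934) (nat_lit 27) (nat_lit 5) (nat_lit 29) (nat_lit 5) (nat_lit 28) (nat_lit 5) (nat_lit 390) (nat_lit 381) (nat_lit 249))))))))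
noncomputable def xc107 : XT := (XT.nd (nat_lit 1872) (nat_lit 456) (nat_lit 0) (XT.nd (nat_lit 936) (nat_lit 608) (nat_lit 0) (XT.nd (nat_lit 468) (nat_lit 380) (nat_lit 0) (XT.nd (nat_lit 234) (nat_lit 228) (nat_lit 0) (XT.nd (nat_lit 78) (nat_lit 76) (nat_lit 0) (XT.lf (nat_lit 0) (nat_lit 207098473564) (nat_lit 152) (nat_lit 668281195061) (nat_lit 228) (nat_lit 1847258097384) (nat_lit 25) (nat_lit 5) (nat_lit 27) (nat_lit 5) (nat_lit 28) (nat_lit 5) (nat_lit 391) (nat_lit 381) (nat_lit 248)) (XT.nd (nat_lit 78) (nat_lit 76) (nat_lit 0) (XT.lf (nat_lit 0) (nat_lit 1550764839921) (nat_lit 228) (nat_lit 976294066514) (nat_lit 76) (nat_lit 437517521504) (nat_lit 25) (nat_lit 5) (nat_lit 28) (nat_lit 5) (nat_lit 26) (nat_lit 4) (nat_lit 392) (nat_lit 381) (nat_lit 247)) (XT.lf (nat_lit 0) (nat_lit 836484675635) (nat_lit 76) (nat_lit 1557433069534) (nat_lit 152) (nat_lit 838919150252) (nat_lit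 24) (nat_lit 5) (nat_lit 25) (nat_lit 5) (nat_lit 26) (nat_lit 4) (nat_lit 393) (nat_lit 381) (nat_lit 246)))) (XT.nd (nat_lit 78) (nat_lit 228) (nat_lit 0) (XT.lf (nat_lit 0) (nat_lit 3030902365427) (nat_lit 76) (nat_lit 383674772016) (nat_lit 152) (nat_lit 119104262899) (nat_lit 24) (nat_lit 5) (nat_lit 25) (nat_lit 5) (nat_lit 26) (nat_lit 4) (nat_lit 394) (nat_lit 381) (nat_lit 245)) (XT.nd (nat_lit 78) (nat_lit 76) (nat_lit 0) (XT.lf (nat_lit 0) (nat_lit 765350920441) (nat_lit 152) (nat_lit 2102702897748) (nat_lit 76) (nat_lit 989233019209) (nat_lit 22) (nat_lit 5) (nat_lit 24) (nat_lit 5) (nat_lit 23) (nat_lit 4) (nat_lit 395) (nat_lit 381) (nat_lit 244)) (XT.lf (nat_lit 0) (nat_lit 171654527027) (nat_lit 76) (nat_lit 1651537057199) (nat_lit 152) (nat_lit 2397454079430) (nat_lit 21) (nat_lit 5) (nat_lit 22) (nat_lit 5) (nat_lit 23) (nat_lit 4) (nat_lit 396) (nat_lit 381) (nat_lit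 243))))) (XT.nd (nat_lit 234) (nat_lit 228) (nat_lit 0) (XT.nd (nat_lit 78) (nat_lit 152) (nat_lit 0) (XT.lf (nat_lit 0) (nat_lit 3023480694703) (nat_lit 76) (nat_lit 126141666142) (nat_lit 152) (nat_lit 1472398851019) (nat_lit 21) (nat_lit 5) (nat_lit 22) (nat_lit 5) (nat_lit 23) (nat_lit 4) (nat_lit 397) (nat_lit 381) (nat_lit 242)) (XT.nd (nat_lit 78) (nat_lit 76) (nat_lit 0) (XT.lf (nat_lit 0) (nat_lit 1264651056010) (nat_lit 76) (nat_lit 3530147818014) (nat_lit 76) (nat_lit 270837050271) (nat_lit 20) (nat_lit 4) (nat_lit 21) (nat_lit 5) (nat_lit 21) (nat_lit 4) (nat_lit 398) (nat_lit 381) (nat_lit 241)) (XT.lf (nat_lit 0) (nat_lit 1105599634097) (nat_lit 152) (nat_lit 882271555784) (nat_lit 76) (nat_lit 3566989406932) (nat_lit 19) (nat_lit 5) (nat_lit 21) (nat_lit 5) (nat_lit 20) (nat_lit 4) (nat_lit 399) (nat_lit 381) (nat_lit 240)))) (XT.nd (nat_lit 78) (nat_lit 152) (nat_lit 0)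 (XT.lf (nat_lit 0) (nat_lit 2701892942124) (nat_lit 76) (nat_lit 70759947361) (nat_lit 152) (nat_lit 3326099586839) (nat_lit 18) (nat_lit 5) (nat_lit 19) (nat_lit 5) (nat_lit 20) (nat_lit 4) (nat_lit 400) (nat_lit 381) (nat_lit 239)) (XT.nd (nat_lit 78) (nat_lit 76) (nat_lit 0) (XT.lf (nat_lit 0) (nat_lit 126205653705) (nat_lit 76) (nat_lit 4705460249005) (nat_lit 76) (nat_lit 1871276969621) (nat_lit 17) (nat_lit 4) (nat_lit 18) (nat_lit 5) (nat_lit 18) (nat_lit 4) (nat_lit 401) (nat_lit 381) (nat_lit 238)) (XT.lf (nat_lit 0) (nat_lit 8804949235) (nat_lit 152) (nat_lit 2815252639301) (nat_lit 76) (nat_lit 4546527284669) (nat_lit 16) (nat_lit 5) (nat_lit 18) (nat_lit 5) (nat_lit 17) (nat_lit 4) (nat_lit 402) (nat_lit 381) (nat_lit 237)))))) (XT.nd (nat_lit 468) (nat_lit 304) (nat_lit 0) (XT.nd (nat_lit 234) (nat_lit 152) (nat_lit 0) (XT.nd (nat_lit 78) (nat_lit 76) (nat_lit 0) (XT.lf (nat_lit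 0) (nat_lit 1560250484908) (nat_lit 76) (nat_lit 483672196829) (nat_lit 152) (nat_lit 6071393231782) (nat_lit 15) (nat_lit 5) (nat_lit 16) (nat_lit 5) (nat_lit 17) (nat_lit 4) (nat_lit 403) (nat_lit 381) (nat_lit 236)) (XT.nd (nat_lit 78) (nat_lit 76) (nat_lit 0) (XT.lf (nat_lit 0) (nat_lit 4629895759023) (nat_lit 152) (nat_lit 2139634140328) (nat_lit 0) (nat_lit 2165388557794) (nat_lit 15) (nat_lit 5) (nat_lit 17) (nat_lit 4) (nat_lit 15) (nat_lit 4) (nat_lit 404) (nat_lit 381) (nat_lit 235)) (XT.lf (nat_lit 0) (nat_lit 3199962631297) (nat_lit 76) (nat_lit 4559337803573) (nat_lit 76) (nat_lit 2094830601902) (nat_lit 14) (nat_lit 4) (nat_lit 15) (nat_lit 5) (nat_lit 15) (nat_lit 4) (nat_lit 405) (nat_lit 381) (nat_lit 234)))) (XT.nd (nat_lit 78) (nat_lit 76) (nat_lit 0) (XT.lf (nat_lit 0) (nat_lit 524275483163) (nat_lit 152) (nat_lit 1337314913254) (nat_lit 76) (nat_lit 9029283824722)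 (nat_lit 13) (nat_lit 5) (nat_lit 15) (nat_lit 5) (nat_lit 14) (nat_lit 4) (nat_lit 406) (nat_lit 381) (nat_lit 233)) (XT.nd (nat_lit 78) (nat_lit 0) (nat_lit 0) (XT.lf (nat_lit 0) (nat_lit 3600635763693) (nat_lit 152) (nat_lit 6968115166033) (nat_lit 0) (nat_lit 1457586022486) (nat_lit 12) (nat_lit 5) (nat_lit 14) (nat_lit 4) (nat_lit 12) (nat_lit 4) (nat_lit 407) (nat_lit 381) (nat_lit 232)) (XT.lf (nat_lit 0) (nat_lit 7300331159071) (nat_lit 152) (nat_lit 850224355348) (nat_lit 0) (nat_lit 5157281417611) (nat_lit 12) (nat_lit 5) (nat_lit 14) (nat_lit 4) (nat_lit 12) (nat_lit 4) (nat_lit 408) (nat_lit 381) (nat_lit 231))))) (XT.nd (nat_lit 234) (nat_lit 76) (nat_lit 0) (XT.nd (nat_lit 78) (nat_lit 152) (nat_lit 0) (XT.lf (nat_lit 0) (nat_lit 6789827469089) (nat_lit 76) (nat_lit 5046305670053) (nat_lit 76) (nat_lit 2903255928373) (nat_lit 11) (nat_lit 4) (nat_lit 12) (nat_lit 5) (nat_lit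 12) (nat_lit 4) (nat_lit 409) (nat_lit 381) (nat_lit 230)) (XT.nd (nat_lit 78) (nat_lit 76) (nat_lit 0) (XT.lf (nat_lit 0) (nat_lit 653843160882) (nat_lit 152) (nat_lit 737286945973) (nat_lit 76) (nat_lit 14983419363148) (nat_lit 10) (nat_lit 5) (nat_lit 12) (nat_lit 5) (nat_lit 11) (nat_lit 4) (nat_lit 410) (nat_lit 381) (nat_lit 229)) (XT.lf (nat_lit 0) (nat_lit 4923570249327) (nat_lit 152) (nat_lit 10179182220266) (nat_lit 0) (nat_lit 3060048734512) (nat_lit 9) (nat_lit 5) (nat_lit 11) (nat_lit 4) (nat_lit 9) (nat_lit 4) (nat_lit 411) (nat_lit 381) (nat_lit 228)))) (XT.nd (nat_lit 78) (nat_lit 76) (nat_lit 0) (XT.lf (nat_lit 0) (nat_lit 9940375928698) (nat_lit 152) (nat_lit 2186067426719) (nat_lit 0) (nat_lit 8076854413758) (nat_lit 9) (nat_lit 5) (nat_lit 11) (nat_lit 4) (nat_lit 9) (nat_lit 4) (nat_lit 412) (nat_lit 381) (nat_lit 227)) (XT.nd (nat_lit 78) (nat_lit 0) (nat_lit 0)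 (XT.lf (nat_lit 0) (nat_lit 7690693282708) (nat_lit 76) (nat_lit 8337464385086) (nat_lit 76) (nat_lit 6473942870037) (nat_lit 8) (nat_lit 4) (nat_lit 9) (nat_lit 5) (nat_lit 9) (nat_lit 4) (nat_lit 413) (nat_lit 381) (nat_lit 226)) (XT.lf (nat_lit 0) (nat_lit 19294652266156) (nat_lit 76) (nat_lit 3848726107448) (nat_lit 76) (nat_lit 1985204592304) (nat_lit 8) (nat_lit 4) (nat_lit 9) (nat_lit 5) (nat_lit 9) (nat_lit 4) (nat_lit 414) (nat_lit 381) (nat_lit 225))))))) (XT.nd (nat_lit 936) (nat_lit 0) (nat_lit 0) (XT.nd (nat_lit 468) (nat_lit 228) (nat_lit 0) (XT.nd (nat_lit 234) (nat_lit 76) (nat_lit 0) (XT.nd (nat_lit 78) (nat_lit 0) (nat_lit 0) (XT.lf (nat_lit 0) (nat_lit 3162219160819) (nat_lit 152) (nat_lit 23385091066167) (nat_lit 0) (nat_lit 1541765669317) (nat_lit 6) (nat_lit 5) (nat_lit 8) (nat_lit 4) (nat_lit 6) (nat_lit 4) (nat_lit 415) (nat_lit 381) (nat_lit 224)) (XT.nd (nat_lit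 78) (nat_lit 0) (nat_lit 0) (XT.lf (nat_lit 0) (nat_lit 9381259168734) (nat_lit 152) (nat_lit 14261985413254) (nat_lit 0) (nat_lit 7760805677170) (nat_lit 6) (nat_lit 5) (nat_lit 8) (nat_lit 4) (nat_lit 6) (nat_lit 4) (nat_lit 416) (nat_lit 381) (nat_lit 223)) (XT.lf (nat_lit 0) (nat_lit 16533155177405) (nat_lit 152) (nat_lit 3770413913313) (nat_lit 0) (nat_lit 14912701685787) (nat_lit 6) (nat_lit 5) (nat_lit 8) (nat_lit 4) (nat_lit 6) (nat_lit 4) (nat_lit 417) (nat_lit 381) (nat_lit 222)))) (XT.nd (nat_lit 78) (nat_lit 0) (nat_lit 0) (XT.lf (nat_lit 0) (nat_lit 9105530611658) (nat_lit 76) (nat_lit 16029345580381) (nat_lit 76) (nat_lit 14408892088715) (nat_lit 5) (nat_lit 4) (nat_lit 6) (nat_lit 5) (nat_lit 6) (nat_lit 4) (nat_lit 418) (nat_lit 381) (nat_lit 221)) (XT.nd (nat_lit 78) (nat_lit 0) (nat_lit 0) (XT.lf (nat_lit 0) (nat_lit 24336609923742) (nat_lit 76) (nat_lit 10887335252965)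 (nat_lit 76) (nat_lit 9266881761259) (nat_lit 5) (nat_lit 4) (nat_lit 6) (nat_lit 5) (nat_lit 6) (nat_lit 4) (nat_lit 419) (nat_lit 381) (nat_lit 220)) (XT.lf (nat_lit 0) (nat_lit 41852351131981) (nat_lit 76) (nat_lit 4974023376784) (nat_lit 76) (nat_lit 3353569885041) (nat_lit 5) (nat_lit 4) (nat_lit 6) (nat_lit 5) (nat_lit 6) (nat_lit 4) (nat_lit 420) (nat_lit 381) (nat_lit 219))))) (XT.nd (nat_lit 234) (nat_lit 76) (nat_lit 0) (XT.nd (nat_lit 78) (nat_lit 0) (nat_lit 0) (XT.lf (nat_lit 0) (nat_lit 3466605214568) (nat_lit 152) (nat_lit 51127892872061) (nat_lit 0) (nat_lit 2057515221721) (nat_lit 3) (nat_lit 5) (nat_lit 5) (nat_lit 4) (nat_lit 3) (nat_lit 4) (nat_lit 421) (nat_lit 381) (nat_lit 218)) (XT.nd (nat_lit 78) (nat_lit 0) (nat_lit 0) (XT.lf (nat_lit 0) (nat_lit 11659358025267) (nat_lit 152) (nat_lit 42057378463076) (nat_lit 0) (nat_lit 10250268032397) (nat_lit 3) (nat_lit 5)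 (nat_lit 5) (nat_lit 4) (nat_lit 3) (nat_lit 4) (nat_lit 422) (nat_lit 381) (nat_lit 217)) (XT.lf (nat_lit 0) (nat_lit 21081023757326) (nat_lit 152) (nat_lit 31626286893265) (nat_lit 0) (nat_lit 19671933764436) (nat_lit 3) (nat_lit 5) (nat_lit 5) (nat_lit 4) (nat_lit 3) (nat_lit 4) (nat_lit 423) (nat_lit 381) (nat_lit 216)))) (XT.nd (nat_lit 78) (nat_lit 76) (nat_lit 0) (XT.lf (nat_lit 0) (nat_lit 31915939348980) (nat_lit 152) (nat_lit 19630531588435) (nat_lit 0) (nat_lit 30506849356072) (nat_lit 3) (nat_lit 5) (nat_lit 5) (nat_lit 4) (nat_lit 3) (nat_lit 4) (nat_lit 424) (nat_lit 381) (nat_lit 215)) (XT.nd (nat_lit 78) (nat_lit 76) (nat_lit 0) (XT.lf (nat_lit 0) (nat_lit 44376092279197) (nat_lit 152) (nat_lit 5835412988276) (nat_lit 0) (nat_lit 42967002286273) (nat_lit 3) (nat_lit 5) (nat_lit 5) (nat_lit 4) (nat_lit 3) (nat_lit 4) (nat_lit 425) (nat_lit 381) (nat_lit 214)) (XT.lf (nat_lit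 0) (nat_lit 11009077620354) (nat_lit 76) (nat_lit 48152052955774) (nat_lit 76) (nat_lit 46742962962837) (nat_lit 2) (nat_lit 4) (nat_lit 3) (nat_lit 5) (nat_lit 3) (nat_lit 4) (nat_lit 426) (nat_lit 381) (nat_lit 213)))))) (XT.nd (nat_lit 49920) (nat_lit 0) (nat_lit 1748) (XT.nd (nat_lit 49686) (nat_lit 0) (nat_lit 2356) (XT.nd (nat_lit 78) (nat_lit 0) (nat_lit 0) (XT.lf (nat_lit 0) (nat_lit 31036062666020) (nat_lit 76) (nat_lit 45432894903085) (nat_lit 76) (nat_lit 44023804910137) (nat_lit 2) (nat_lit 4) (nat_lit 3) (nat_lit 5) (nat_lit 3) (nat_lit 4) (nat_lit 427) (nat_lit 381) (nat_lit 212)) (XT.nd (nat_lit 49530) (nat_lit 0) (nat_lit 2356) (XT.lf (nat_lit 0) (nat_lit 54067095468251) (nat_lit 76) (nat_lit 42305863142644) (nat_lit 76) (nat_lit 40896773149685) (nat_lit 2) (nat_lit 4) (nat_lit 3) (nat_lit 5) (nat_lit 3) (nat_lit 4) (nat_lit 428) (nat_lit 381) (nat_lit 211)) (XT.lf (nat_lit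 0) (nat_lit 200332899543) (nat_lit 380) (nat_lit 258834813878) (nat_lit 380) (nat_lit 258834813878) (nat_lit 33) (nat_lit 3) (nat_lit 38) (nat_lit 3) (nat_lit 38) (nat_lit 5) (nat_lit 382) (nat_lit 382) (nat_lit 256)))) (XT.nd (nat_lit 78) (nat_lit 0) (nat_lit 76) (XT.lf (nat_lit 76) (nat_lit 209971221091) (nat_lit 0) (nat_lit 229439002762) (nat_lit 380) (nat_lit 1102991036344) (nat_lit 34) (nat_lit 5) (nat_lit 33) (nat_lit 3) (nat_lit 38) (nat_lit 5) (nat_lit 383) (nat_lit 382) (nat_lit 255)) (XT.nd (nat_lit 78) (nat_lit 0) (nat_lit 0) (XT.lf (nat_lit 0) (nat_lit 535618893714) (nat_lit 304) (nat_lit 580353279425) (nat_lit 380) (nat_lit 541036836294) (nat_lit 34) (nat_lit 5) (nat_lit 38) (nat_lit 5) (nat_lit 39) (nat_lit 5) (nat_lit 384) (nat_lit 382) (nat_lit 254)) (XT.lf (nat_lit 76) (nat_lit 300348416769) (nat_lit 0) (nat_lit 369272896940) (nat_lit 380) (nat_lit 1115682239901) (nat_lit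 35) (nat_lit 5) (nat_lit 34) (nat_lit 5) (nat_lit 39) (nat_lit 5) (nat_lit 385) (nat_lit 382) (nat_lit 253))))) (XT.nd (nat_lit 234) (nat_lit 456) (nat_lit 0) (XT.nd (nat_lit 78) (nat_lit 304) (nat_lit 0) (XT.lf (nat_lit 0) (nat_lit 875771648818) (nat_lit 304) (nat_lit 571623531669) (nat_lit 76) (nat_lit 477639966110) (nat_lit 35) (nat_lit 5) (nat_lit 39) (nat_lit 5) (nat_lit 36) (nat_lit 5) (nat_lit 386) (nat_lit 382) (nat_lit 252)) (XT.nd (nat_lit 78) (nat_lit 0) (nat_lit 0) (XT.lf (nat_lit 0) (nat_lit 506187718029) (nat_lit 304) (nat_lit 645201390214) (nat_lit 380) (nat_lit 928555684186) (nat_lit 31) (nat_lit 5) (nat_lit 35) (nat_lit 5) (nat_lit 36) (nat_lit 5) (nat_lit 387) (nat_lit 382) (nat_lit 251)) (XT.lf (nat_lit 0) (nat_lit 1511135667355) (nat_lit 380) (nat_lit 456601658674) (nat_lit 76) (nat_lit 283935586991) (nat_lit 31) (nat_lit 5) (nat_lit 36) (nat_lit 5) (nat_lit 32) (nat_lit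 5) (nat_lit 388) (nat_lit 382) (nat_lit 250)))) (XT.nd (nat_lit 156) (nat_lit 304) (nat_lit 0) (XT.nd (nat_lit 78) (nat_lit 0) (nat_lit 0) (XT.lf (nat_lit 0) (nat_lit 875331229336) (nat_lit 152) (nat_lit 1116482453450) (nat_lit 228) (nat_lit 447301148049) (nat_lit 29) (nat_lit 5) (nat_lit 31) (nat_lit 5) (nat_lit 32) (nat_lit 5) (nat_lit 389) (nat_lit 382) (nat_lit 249)) (XT.lf (nat_lit 0) (nat_lit 2458369847354) (nat_lit 152) (nat_lit 110091364561) (nat_lit 228) (nat_lit 82631652702) (nat_lit 29) (nat_lit 5) (nat_lit 31) (nat_lit 5) (nat_lit 32) (nat_lit 5) (nat_lit 390) (nat_lit 382) (nat_lit 248))) (XT.nd (nat_lit 78) (nat_lit 152) (nat_lit 0) (XT.lf (nat_lit 0) (nat_lit 416028834450) (nat_lit 152) (nat_lit 1426484407047) (nat_lit 76) (nat_lit 1033872419446) (nat_lit 27) (nat_lit 5) (nat_lit 29) (nat_lit 5) (nat_lit 28) (nat_lit 5) (nat_lit 391) (nat_lit 382) (nat_lit 247)) (XT.lf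 (nat_lit 0) (nat_lit 238163282563) (nat_lit 152) (nat_lit 768523361699) (nat_lit 228) (nat_lit 2124346782835) (nat_lit 25) (nat_lit 5) (nat_lit 27) (nat_lit 5) (nat_lit 28) (nat_lit 5) (nat_lit 392) (nat_lit 382) (nat_lit 246))))))))
noncomputable def xc108 : XT := (XT.nd (nat_lit 1872) (nat_lit 304) (nat_lit 0) (XT.nd (nat_lit 936) (nat_lit 684) (nat_lit 0) (XT.nd (nat_lit 468) (nat_lit 456) (nat_lit 0) (XT.nd (nat_lit 234) (nat_lit 228) (nat_lit 0) (XT.nd (nat_lit 78) (nat_lit 76) (nat_lit 0) (XT.lf (nat_lit 0) (nat_lit 1783379588402) (nat_lit 228) (nat_lit 1122738140618) (nat_lit 76) (nat_lit 503145159727) (nat_lit 25) (nat_lit 5) (nat_lit 28) (nat_lit 5) (nat_lit 26) (nat_lit 4) (nat_lit 393) (nat_lit 382) (nat_lit 245)) (XT.nd (nat_lit 78) (nat_lit 0) (nat_lit 0) (XT.lf (nat_lit 0) (nat_lit 961957411224) (nat_lit 76) (nat_lit 1791048016697) (nat_lit 152) (nat_lit 964756998658) (nat_lit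 24) (nat_lit 5) (nat_lit 25) (nat_lit 5) (nat_lit 26) (nat_lit 4) (nat_lit 394) (nat_lit 382) (nat_lit 244)) (XT.lf (nat_lit 0) (nat_lit 3485537750017) (nat_lit 76) (nat_lit 441225976282) (nat_lit 152) (nat_lit 136969881351) (nat_lit 24) (nat_lit 5) (nat_lit 25) (nat_lit 5) (nat_lit 26) (nat_lit 4) (nat_lit 395) (nat_lit 382) (nat_lit 243)))) (XT.nd (nat_lit 78) (nat_lit 76) (nat_lit 0) (XT.lf (nat_lit 0) (nat_lit 880153576892) (nat_lit 152) (nat_lit 2418108300022) (nat_lit 76) (nat_lit 1137617983332) (nat_lit 22) (nat_lit 5) (nat_lit 24) (nat_lit 5) (nat_lit 23) (nat_lit 4) (nat_lit 396) (nat_lit 382) (nat_lit 242)) (XT.nd (nat_lit 78) (nat_lit 0) (nat_lit 0) (XT.lf (nat_lit 0) (nat_lit 197402736998) (nat_lit 76) (nat_lit 1899267602129) (nat_lit 152) (nat_lit 2757072171483) (nat_lit 21) (nat_lit 5) (nat_lit 22) (nat_lit 5) (nat_lit 23) (nat_lit 4) (nat_lit 397) (nat_lit 382) (nat_lit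 241)) (XT.lf (nat_lit 0) (nat_lit 3477002825792) (nat_lit 76) (nat_lit 145062904195) (nat_lit 152) (nat_lit 1693258661401) (nat_lit 21) (nat_lit 5) (nat_lit 22) (nat_lit 5) (nat_lit 23) (nat_lit 4) (nat_lit 398) (nat_lit 382) (nat_lit 240))))) (XT.nd (nat_lit 234) (nat_lit 228) (nat_lit 0) (XT.nd (nat_lit 78) (nat_lit 152) (nat_lit 0) (XT.lf (nat_lit 0) (nat_lit 1454348741758) (nat_lit 76) (nat_lit 4059669977986) (nat_lit 76) (nat_lit 311462591000) (nat_lit 20) (nat_lit 4) (nat_lit 21) (nat_lit 5) (nat_lit 21) (nat_lit 4) (nat_lit 399) (nat_lit 382) (nat_lit 239)) (XT.nd (nat_lit 78) (nat_lit 76) (nat_lit 0) (XT.lf (nat_lit 0) (nat_lit 1271439592529) (nat_lit 152) (nat_lit 1014612264068) (nat_lit 76) (nat_lit 4102037827737) (nat_lit 19) (nat_lit 5) (nat_lit 21) (nat_lit 5) (nat_lit 20) (nat_lit 4) (nat_lit 400) (nat_lit 382) (nat_lit 238)) (XT.lf (nat_lit 0) (nat_lit 3107176907386) (nat_lit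 76) (nat_lit 81373928093) (nat_lit 152) (nat_lit 3825014510404) (nat_lit 18) (nat_lit 5) (nat_lit 19) (nat_lit 5) (nat_lit 20) (nat_lit 4) (nat_lit 401) (nat_lit 382) (nat_lit 237)))) (XT.nd (nat_lit 78) (nat_lit 152) (nat_lit 0) (XT.lf (nat_lit 0) (nat_lit 145136525969) (nat_lit 76) (nat_lit 5411279274491) (nat_lit 76) (nat_lit 2151968500866) (nat_lit 17) (nat_lit 4) (nat_lit 18) (nat_lit 5) (nat_lit 18) (nat_lit 4) (nat_lit 402) (nat_lit 382) (nat_lit 236)) (XT.nd (nat_lit 78) (nat_lit 76) (nat_lit 0) (XT.lf (nat_lit 0) (nat_lit 10125702866) (nat_lit 152) (nat_lit 3237540513045) (nat_lit 76) (nat_lit 5228506386585) (nat_lit 16) (nat_lit 5) (nat_lit 18) (nat_lit 5) (nat_lit 17) (nat_lit 4) (nat_lit 403) (nat_lit 382) (nat_lit 235)) (XT.lf (nat_lit 0) (nat_lit 1794288078788) (nat_lit 76) (nat_lit 556223015865) (nat_lit 152) (nat_lit 6982102204295) (nat_lit 15) (nat_lit 5) (nat_lit 16)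 (nat_lit 5) (nat_lit 17) (nat_lit 4) (nat_lit 404) (nat_lit 382) (nat_lit 234)))))) (XT.nd (nat_lit 468) (nat_lit 380) (nat_lit 0) (XT.nd (nat_lit 234) (nat_lit 152) (nat_lit 0) (XT.nd (nat_lit 78) (nat_lit 152) (nat_lit 0) (XT.lf (nat_lit 0) (nat_lit 5324380132520) (nat_lit 152) (nat_lit 2460579241978) (nat_lit 0) (nat_lit 2490196849773) (nat_lit 15) (nat_lit 5) (nat_lit 17) (nat_lit 4) (nat_lit 15) (nat_lit 4) (nat_lit 405) (nat_lit 382) (nat_lit 233)) (XT.nd (nat_lit 78) (nat_lit 76) (nat_lit 0) (XT.lf (nat_lit 0) (nat_lit 3679957044509) (nat_lit 76) (nat_lit 5243238464743) (nat_lit 76) (nat_lit 2409055181662) (nat_lit 14) (nat_lit 4) (nat_lit 15) (nat_lit 5) (nat_lit 15) (nat_lit 4) (nat_lit 406) (nat_lit 382) (nat_lit 232)) (XT.lf (nat_lit 0) (nat_lit 602916813975) (nat_lit 152) (nat_lit 1537912133324) (nat_lit 76) (nat_lit 10383676405759) (nat_lit 13) (nat_lit 5) (nat_lit 15) (nat_lit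 5) (nat_lit 14) (nat_lit 4) (nat_lit 407) (nat_lit 382) (nat_lit 231)))) (XT.nd (nat_lit 78) (nat_lit 76) (nat_lit 0) (XT.lf (nat_lit 0) (nat_lit 4140731136507) (nat_lit 152) (nat_lit 8013332423941) (nat_lit 0) (nat_lit 1676223933356) (nat_lit 12) (nat_lit 5) (nat_lit 14) (nat_lit 4) (nat_lit 12) (nat_lit 4) (nat_lit 408) (nat_lit 382) (nat_lit 230)) (XT.nd (nat_lit 78) (nat_lit 76) (nat_lit 0) (XT.lf (nat_lit 0) (nat_lit 8395380840115) (nat_lit 152) (nat_lit 977757993870) (nat_lit 0) (nat_lit 5930873636772) (nat_lit 12) (nat_lit 5) (nat_lit 14) (nat_lit 4) (nat_lit 12) (nat_lit 4) (nat_lit 409) (nat_lit 382) (nat_lit 229)) (XT.lf (nat_lit 0) (nat_lit 7808301603560) (nat_lit 76) (nat_lit 5803251513283) (nat_lit 76) (nat_lit 3338744309774) (nat_lit 11) (nat_lit 4) (nat_lit 12) (nat_lit 5) (nat_lit 12) (nat_lit 4) (nat_lit 410) (nat_lit 382) (nat_lit 228))))) (XT.nd (nat_lit 234) (nat_lit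 228) (nat_lit 0) (XT.nd (nat_lit 78) (nat_lit 76) (nat_lit 0) (XT.lf (nat_lit 0) (nat_lit 751919641237) (nat_lit 152) (nat_lit 847879974993) (nat_lit 76) (nat_lit 17230932273340) (nat_lit 10) (nat_lit 5) (nat_lit 12) (nat_lit 5) (nat_lit 11) (nat_lit 4) (nat_lit 411) (nat_lit 382) (nat_lit 227)) (XT.nd (nat_lit 78) (nat_lit 0) (nat_lit 0) (XT.lf (nat_lit 0) (nat_lit 5662105792909) (nat_lit 152) (nat_lit 11706059540391) (nat_lit 0) (nat_lit 3519056050493) (nat_lit 9) (nat_lit 5) (nat_lit 11) (nat_lit 4) (nat_lit 9) (nat_lit 4) (nat_lit 412) (nat_lit 382) (nat_lit 226)) (XT.lf (nat_lit 0) (nat_lit 11431432323380) (nat_lit 152) (nat_lit 2513977529495) (nat_lit 0) (nat_lit 9288382580868) (nat_lit 9) (nat_lit 5) (nat_lit 11) (nat_lit 4) (nat_lit 9) (nat_lit 4) (nat_lit 413) (nat_lit 382) (nat_lit 225)))) (XT.nd (nat_lit 78) (nat_lit 152) (nat_lit 0) (XT.lf (nat_lit 0) (nat_lit 8844297285834)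 (nat_lit 76) (nat_lit 9588084037248) (nat_lit 76) (nat_lit 7445034294655) (nat_lit 8) (nat_lit 4) (nat_lit 9) (nat_lit 5) (nat_lit 9) (nat_lit 4) (nat_lit 414) (nat_lit 382) (nat_lit 224)) (XT.nd (nat_lit 78) (nat_lit 152) (nat_lit 0) (XT.lf (nat_lit 0) (nat_lit 22188850115402) (nat_lit 76) (nat_lit 4426035018695) (nat_lit 76) (nat_lit 2282985276029) (nat_lit 8) (nat_lit 4) (nat_lit 9) (nat_lit 5) (nat_lit 9) (nat_lit 4) (nat_lit 415) (nat_lit 382) (nat_lit 223)) (XT.lf (nat_lit 0) (nat_lit 3636552039586) (nat_lit 152) (nat_lit 26892854716295) (nat_lit 0) (nat_lit 1773030524171) (nat_lit 6) (nat_lit 5) (nat_lit 8) (nat_lit 4) (nat_lit 6) (nat_lit 4) (nat_lit 416) (nat_lit 382) (nat_lit 222))))))) (XT.nd (nat_lit 50466) (nat_lit 0) (nat_lit 1672) (XT.nd (nat_lit 468) (nat_lit 76) (nat_lit 0) (XT.nd (nat_lit 234) (nat_lit 152) (nat_lit 0) (XT.nd (nat_lit 78) (nat_lit 76) (nat_lit 0) (XT.lf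 (nat_lit 0) (nat_lit 10788448048083) (nat_lit 152) (nat_lit 16401283216722) (nat_lit 0) (nat_lit 8924926532620) (nat_lit 6) (nat_lit 5) (nat_lit 8) (nat_lit 4) (nat_lit 6) (nat_lit 4) (nat_lit 417) (nat_lit 382) (nat_lit 221)) (XT.nd (nat_lit 78) (nat_lit 76) (nat_lit 0) (XT.lf (nat_lit 0) (nat_lit 19013128457528) (nat_lit 152) (nat_lit 4335975992901) (nat_lit 0) (nat_lit 17149606942024) (nat_lit 6) (nat_lit 5) (nat_lit 8) (nat_lit 4) (nat_lit 6) (nat_lit 4) (nat_lit 418) (nat_lit 382) (nat_lit 220)) (XT.lf (nat_lit 0) (nat_lit 10471360210479) (nat_lit 76) (nat_lit 18433747413713) (nat_lit 76) (nat_lit 16570225898174) (nat_lit 5) (nat_lit 4) (nat_lit 6) (nat_lit 5) (nat_lit 6) (nat_lit 4) (nat_lit 419) (nat_lit 382) (nat_lit 219)))) (XT.nd (nat_lit 78) (nat_lit 152) (nat_lit 0) (XT.lf (nat_lit 0) (nat_lit 27987101418452) (nat_lit 76) (nat_lit 12520435537671) (nat_lit 76) (nat_lit 10656914022101)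 (nat_lit 5) (nat_lit 4) (nat_lit 6) (nat_lit 5) (nat_lit 6) (nat_lit 4) (nat_lit 420) (nat_lit 382) (nat_lit 218)) (XT.nd (nat_lit 78) (nat_lit 152) (nat_lit 0) (XT.lf (nat_lit 0) (nat_lit 48130203807125) (nat_lit 76) (nat_lit 5720126880485) (nat_lit 76) (nat_lit 3856605364887) (nat_lit 5) (nat_lit 4) (nat_lit 6) (nat_lit 5) (nat_lit 6) (nat_lit 4) (nat_lit 421) (nat_lit 382) (nat_lit 217)) (XT.lf (nat_lit 0) (nat_lit 3986595999397) (nat_lit 152) (nat_lit 58797076797256) (nat_lit 0) (nat_lit 2366142507553) (nat_lit 3) (nat_lit 5) (nat_lit 5) (nat_lit 4) (nat_lit 3) (nat_lit 4) (nat_lit 422) (nat_lit 382) (nat_lit 216))))) (XT.nd (nat_lit 234) (nat_lit 76) (nat_lit 0) (XT.nd (nat_lit 78) (nat_lit 0) (nat_lit 0) (XT.lf (nat_lit 0) (nat_lit 13408261731356) (nat_lit 152) (nat_lit 48365985227656) (nat_lit 0) (nat_lit 11787808239494) (nat_lit 3) (nat_lit 5) (nat_lit 5) (nat_lit 4) (nat_lit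 3) (nat_lit 4) (nat_lit 423) (nat_lit 382) (nat_lit 215)) (XT.nd (nat_lit 78) (nat_lit 0) (nat_lit 0) (XT.lf (nat_lit 0) (nat_lit 24243177322924) (nat_lit 152) (nat_lit 36370229923010) (nat_lit 0) (nat_lit 22622723831047) (nat_lit 3) (nat_lit 5) (nat_lit 5) (nat_lit 4) (nat_lit 3) (nat_lit 4) (nat_lit 424) (nat_lit 382) (nat_lit 214)) (XT.lf (nat_lit 0) (nat_lit 36703330253066) (nat_lit 152) (nat_lit 22575111323010) (nat_lit 0) (nat_lit 35082876761175) (nat_lit 3) (nat_lit 5) (nat_lit 5) (nat_lit 4) (nat_lit 3) (nat_lit 4) (nat_lit 425) (nat_lit 382) (nat_lit 213)))) (XT.nd (nat_lit 78) (nat_lit 76) (nat_lit 0) (XT.lf (nat_lit 0) (nat_lit 51032506122588) (nat_lit 152) (nat_lit 6710724933307) (nat_lit 0) (nat_lit 49412052630686) (nat_lit 3) (nat_lit 5) (nat_lit 5) (nat_lit 4) (nat_lit 3) (nat_lit 4) (nat_lit 426) (nat_lit 382) (nat_lit 212)) (XT.nd (nat_lit 78) (nat_lit 0) (nat_lit 0)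 (XT.lf (nat_lit 0) (nat_lit 12660439266470) (nat_lit 76) (nat_lit 55374860897518) (nat_lit 76) (nat_lit 53754407405605) (nat_lit 2) (nat_lit 4) (nat_lit 3) (nat_lit 5) (nat_lit 3) (nat_lit 4) (nat_lit 427) (nat_lit 382) (nat_lit 211)) (XT.lf (nat_lit 0) (nat_lit 35691472068587) (nat_lit 76) (nat_lit 52247829137137) (nat_lit 76) (nat_lit 50627375645216) (nat_lit 2) (nat_lit 4) (nat_lit 3) (nat_lit 5) (nat_lit 3) (nat_lit 4) (nat_lit 428) (nat_lit 382) (nat_lit 210)))))) (XT.nd (nat_lit 468) (nat_lit 532) (nat_lit 0) (XT.nd (nat_lit 234) (nat_lit 152) (nat_lit 0) (XT.nd (nat_lit 78) (nat_lit 0) (nat_lit 0) (XT.lf (nat_lit 0) (nat_lit 230382862595) (nat_lit 380) (nat_lit 297660019780) (nat_lit 380) (nat_lit 297660019780) (nat_lit 33) (nat_lit 3) (nat_lit 38) (nat_lit 3) (nat_lit 38) (nat_lit 5) (nat_lit 383) (nat_lit 383) (nat_lit 254)) (XT.nd (nat_lit 78) (nat_lit 0) (nat_lit 76) (XT.lf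 (nat_lit 76) (nat_lit 241466935143) (nat_lit 0) (nat_lit 263854872474) (nat_lit 380) (nat_lit 1268439634049) (nat_lit 34) (nat_lit 5) (nat_lit 33) (nat_lit 3) (nat_lit 38) (nat_lit 5) (nat_lit 384) (nat_lit 383) (nat_lit 253)) (XT.lf (nat_lit 0) (nat_lit 615961770716) (nat_lit 304) (nat_lit 667406237209) (nat_lit 380) (nat_lit 622192346452) (nat_lit 34) (nat_lit 5) (nat_lit 38) (nat_lit 5) (nat_lit 39) (nat_lit 5) (nat_lit 385) (nat_lit 383) (nat_lit 252)))) (XT.nd (nat_lit 78) (nat_lit 228) (nat_lit 0) (XT.lf (nat_lit 76) (nat_lit 345400711863) (nat_lit 0) (nat_lit 424663837594) (nat_lit 380) (nat_lit 1283034531365) (nat_lit 35) (nat_lit 5) (nat_lit 34) (nat_lit 5) (nat_lit 39) (nat_lit 5) (nat_lit 386) (nat_lit 383) (nat_lit 251)) (XT.nd (nat_lit 78) (nat_lit 304) (nat_lit 0) (XT.lf (nat_lit 0) (nat_lit 1007137429566) (nat_lit 304) (nat_lit 657367027800) (nat_lit 76) (nat_lit 549285956185)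 (nat_lit 35) (nat_lit 5) (nat_lit 39) (nat_lit 5) (nat_lit 36) (nat_lit 5) (nat_lit 387) (nat_lit 383) (nat_lit 250)) (XT.lf (nat_lit 0) (nat_lit 582115907824) (nat_lit 304) (nat_lit 741981597049) (nat_lit 380) (nat_lit 1067839001841) (nat_lit 31) (nat_lit 5) (nat_lit 35) (nat_lit 5) (nat_lit 36) (nat_lit 5) (nat_lit 388) (nat_lit 383) (nat_lit 249))))) (XT.nd (nat_lit 234) (nat_lit 380) (nat_lit 0) (XT.nd (nat_lit 78) (nat_lit 152) (nat_lit 0) (XT.lf (nat_lit 0) (nat_lit 1737806043949) (nat_lit 380) (nat_lit 525091875650) (nat_lit 76) (nat_lit 326525926384) (nat_lit 31) (nat_lit 5) (nat_lit 36) (nat_lit 5) (nat_lit 32) (nat_lit 5) (nat_lit 389) (nat_lit 383) (nat_lit 248)) (XT.nd (nat_lit 78) (nat_lit 0) (nat_lit 0) (XT.lf (nat_lit 0) (nat_lit 1006630944116) (nat_lit 152) (nat_lit 1283954815382) (nat_lit 228) (nat_lit 514396292304) (nat_lit 29) (nat_lit 5) (nat_lit 31) (nat_lit 5) (nat_lit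 32) (nat_lit 5) (nat_lit 390) (nat_lit 383) (nat_lit 247)) (XT.lf (nat_lit 0) (nat_lit 2827125350874) (nat_lit 152) (nat_lit 126605063953) (nat_lit 228) (nat_lit 95026376301) (nat_lit 29) (nat_lit 5) (nat_lit 31) (nat_lit 5) (nat_lit 32) (nat_lit 5) (nat_lit 391) (nat_lit 383) (nat_lit 246)))) (XT.nd (nat_lit 156) (nat_lit 76) (nat_lit 0) (XT.nd (nat_lit 78) (nat_lit 152) (nat_lit 0) (XT.lf (nat_lit 0) (nat_lit 478433180288) (nat_lit 152) (nat_lit 1640457038031) (nat_lit 76) (nat_lit 1188953288656) (nat_lit 27) (nat_lit 5) (nat_lit 29) (nat_lit 5) (nat_lit 28) (nat_lit 5) (nat_lit 392) (nat_lit 383) (nat_lit 245)) (XT.lf (nat_lit 0) (nat_lit 273887803654) (nat_lit 152) (nat_lit 883801856410) (nat_lit 228) (nat_lit 2442998778215) (nat_lit 25) (nat_lit 5) (nat_lit 27) (nat_lit 5) (nat_lit 28) (nat_lit 5) (nat_lit 393) (nat_lit 383) (nat_lit 244))) (XT.nd (nat_lit 78) (nat_lit 76) (nat_lit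 0) (XT.lf (nat_lit 0) (nat_lit 2050886543669) (nat_lit 228) (nat_lit 1291148834585) (nat_lit 76) (nat_lit 578616941247) (nat_lit 25) (nat_lit 5) (nat_lit 28) (nat_lit 5) (nat_lit 26) (nat_lit 4) (nat_lit 394) (nat_lit 383) (nat_lit 243)) (XT.lf (nat_lit 0) (nat_lit 1106251048800) (nat_lit 76) (nat_lit 2059705209170) (nat_lit 152) (nat_lit 1109470530211) (nat_lit 24) (nat_lit 5) (nat_lit 25) (nat_lit 5) (nat_lit 26) (nat_lit 4) (nat_lit 395) (nat_lit 383) (nat_lit 242))))))))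
noncomputable def xc109 : XT := (XT.nd (nat_lit 1872) (nat_lit 304) (nat_lit 0) (XT.nd (nat_lit 936) (nat_lit 608) (nat_lit 0) (XT.nd (nat_lit 468) (nat_lit 380) (nat_lit 0) (XT.nd (nat_lit 234) (nat_lit 152) (nat_lit 0) (XT.nd (nat_lit 78) (nat_lit 228) (nat_lit 0) (XT.lf (nat_lit 0) (nat_lit 4008368435036) (nat_lit 76) (nat_lit 507409864001) (nat_lit 152) (nat_lit 157515347687) (nat_lit 24) (nat_lit 5) (nat_lit 25) (nat_lit 5) (nat_lit 26) (nat_lit 4) (nat_lit 396) (nat_lit 383) (nat_lit 241)) (XT.nd (nat_lit 78) (nat_lit 76) (nat_lit 0) (XT.lf (nat_lit 0) (nat_lit 1012176627326) (nat_lit 152) (nat_lit 2780824520535) (nat_lit 76) (nat_lit 1308260689331) (nat_lit 22) (nat_lit 5) (nat_lit 24) (nat_lit 5) (nat_lit 23) (nat_lit 4) (nat_lit 397) (nat_lit 383) (nat_lit 240)) (XT.lf (nat_lit 0) (nat_lit 227013170924) (nat_lit 76) (nat_lit 2184157732128) (nat_lit 152) (nat_lit 3170632982188)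 (nat_lit 21) (nat_lit 5) (nat_lit 22) (nat_lit 5) (nat_lit 23) (nat_lit 4) (nat_lit 398) (nat_lit 383) (nat_lit 239)))) (XT.nd (nat_lit 78) (nat_lit 152) (nat_lit 0) (XT.lf (nat_lit 0) (nat_lit 3998553269989) (nat_lit 76) (nat_lit 166822330849) (nat_lit 152) (nat_lit 1947247447553) (nat_lit 21) (nat_lit 5) (nat_lit 22) (nat_lit 5) (nat_lit 23) (nat_lit 4) (nat_lit 399) (nat_lit 383) (nat_lit 238)) (XT.nd (nat_lit 78) (nat_lit 76) (nat_lit 0) (XT.lf (nat_lit 0) (nat_lit 1672501073699) (nat_lit 76) (nat_lit 4668620465057) (nat_lit 76) (nat_lit 358181966938) (nat_lit 20) (nat_lit 4) (nat_lit 21) (nat_lit 5) (nat_lit 21) (nat_lit 4) (nat_lit 400) (nat_lit 383) (nat_lit 237)) (XT.lf (nat_lit 0) (nat_lit 1462155541478) (nat_lit 152) (nat_lit 1166804084712) (nat_lit 76) (nat_lit 4717343509282) (nat_lit 19) (nat_lit 5) (nat_lit 21) (nat_lit 5) (nat_lit 20) (nat_lit 4) (nat_lit 401) (nat_lit 383)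 (nat_lit 236))))) (XT.nd (nat_lit 234) (nat_lit 152) (nat_lit 0) (XT.nd (nat_lit 78) (nat_lit 152) (nat_lit 0) (XT.lf (nat_lit 0) (nat_lit 3573253461599) (nat_lit 76) (nat_lit 93580008708) (nat_lit 152) (nat_lit 4398766676031) (nat_lit 18) (nat_lit 5) (nat_lit 19) (nat_lit 5) (nat_lit 20) (nat_lit 4) (nat_lit 402) (nat_lit 383) (nat_lit 235)) (XT.nd (nat_lit 78) (nat_lit 76) (nat_lit 0) (XT.lf (nat_lit 0) (nat_lit 166907023169) (nat_lit 76) (nat_lit 6222971156694) (nat_lit 76) (nat_lit 2474763765261) (nat_lit 17) (nat_lit 4) (nat_lit 18) (nat_lit 5) (nat_lit 18) (nat_lit 4) (nat_lit 403) (nat_lit 383) (nat_lit 234)) (XT.lf (nat_lit 0) (nat_lit 11644566800) (nat_lit 152) (nat_lit 3723171573252) (nat_lit 76) (nat_lit 6012782351541) (nat_lit 16) (nat_lit 5) (nat_lit 18) (nat_lit 5) (nat_lit 17) (nat_lit 4) (nat_lit 404) (nat_lit 383) (nat_lit 233)))) (XT.nd (nat_lit 78) (nat_lit 76) (nat_lit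 0) (XT.lf (nat_lit 0) (nat_lit 2063431306595) (nat_lit 76) (nat_lit 639656460313) (nat_lit 152) (nat_lit 8029417525673) (nat_lit 15) (nat_lit 5) (nat_lit 16) (nat_lit 5) (nat_lit 17) (nat_lit 4) (nat_lit 405) (nat_lit 383) (nat_lit 232)) (XT.nd (nat_lit 78) (nat_lit 76) (nat_lit 0) (XT.lf (nat_lit 0) (nat_lit 6123037159689) (nat_lit 152) (nat_lit 2829666113606) (nat_lit 0) (nat_lit 2863726383521) (nat_lit 15) (nat_lit 5) (nat_lit 17) (nat_lit 4) (nat_lit 15) (nat_lit 4) (nat_lit 406) (nat_lit 383) (nat_lit 231)) (XT.lf (nat_lit 0) (nat_lit 4231950615187) (nat_lit 76) (nat_lit 6029724227372) (nat_lit 76) (nat_lit 2770413450952) (nat_lit 14) (nat_lit 4) (nat_lit 15) (nat_lit 5) (nat_lit 15) (nat_lit 4) (nat_lit 407) (nat_lit 383) (nat_lit 230)))))) (XT.nd (nat_lit 468) (nat_lit 228) (nat_lit 0) (XT.nd (nat_lit 234) (nat_lit 228) (nat_lit 0) (XT.nd (nat_lit 78) (nat_lit 76) (nat_lit 0) (XT.lf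 (nat_lit 0) (nat_lit 693354342376) (nat_lit 152) (nat_lit 1768598940530) (nat_lit 76) (nat_lit 11941227872164) (nat_lit 13) (nat_lit 5) (nat_lit 15) (nat_lit 5) (nat_lit 14) (nat_lit 4) (nat_lit 408) (nat_lit 383) (nat_lit 229)) (XT.nd (nat_lit 78) (nat_lit 0) (nat_lit 0) (XT.lf (nat_lit 0) (nat_lit 4761840813229) (nat_lit 152) (nat_lit 9215332274680) (nat_lit 0) (nat_lit 1927657529028) (nat_lit 12) (nat_lit 5) (nat_lit 14) (nat_lit 4) (nat_lit 12) (nat_lit 4) (nat_lit 409) (nat_lit 383) (nat_lit 228)) (XT.lf (nat_lit 0) (nat_lit 9654687971563) (nat_lit 152) (nat_lit 1124421681775) (nat_lit 0) (nat_lit 6820504687218) (nat_lit 12) (nat_lit 5) (nat_lit 14) (nat_lit 4) (nat_lit 12) (nat_lit 4) (nat_lit 410) (nat_lit 383) (nat_lit 227)))) (XT.nd (nat_lit 78) (nat_lit 152) (nat_lit 0) (XT.lf (nat_lit 0) (nat_lit 8979546854762) (nat_lit 76) (nat_lit 6673739234772) (nat_lit 76) (nat_lit 3839555950301)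 (nat_lit 11) (nat_lit 4) (nat_lit 12) (nat_lit 5) (nat_lit 12) (nat_lit 4) (nat_lit 411) (nat_lit 383) (nat_lit 226)) (XT.nd (nat_lit 78) (nat_lit 76) (nat_lit 0) (XT.lf (nat_lit 0) (nat_lit 864707592127) (nat_lit 152) (nat_lit 975061961505) (nat_lit 76) (nat_lit 19815572118667) (nat_lit 10) (nat_lit 5) (nat_lit 12) (nat_lit 5) (nat_lit 11) (nat_lit 4) (nat_lit 412) (nat_lit 383) (nat_lit 225)) (XT.lf (nat_lit 0) (nat_lit 6511421666521) (nat_lit 152) (nat_lit 13461968461684) (nat_lit 0) (nat_lit 4046914462456) (nat_lit 9) (nat_lit 5) (nat_lit 11) (nat_lit 4) (nat_lit 9) (nat_lit 4) (nat_lit 413) (nat_lit 383) (nat_lit 224))))) (XT.nd (nat_lit 234) (nat_lit 152) (nat_lit 0) (XT.nd (nat_lit 78) (nat_lit 76) (nat_lit 0) (XT.lf (nat_lit 0) (nat_lit 13146147175952) (nat_lit 152) (nat_lit 2891074150428) (nat_lit 0) (nat_lit 10681639971815) (nat_lit 9) (nat_lit 5) (nat_lit 11) (nat_lit 4) (nat_lit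 9) (nat_lit 4) (nat_lit 414) (nat_lit 383) (nat_lit 223)) (XT.nd (nat_lit 78) (nat_lit 0) (nat_lit 0) (XT.lf (nat_lit 0) (nat_lit 10170941886816) (nat_lit 76) (nat_lit 11026296638601) (nat_lit 76) (nat_lit 8561789434401) (nat_lit 8) (nat_lit 4) (nat_lit 9) (nat_lit 5) (nat_lit 9) (nat_lit 4) (nat_lit 415) (nat_lit 383) (nat_lit 222)) (XT.lf (nat_lit 0) (nat_lit 25517177639761) (nat_lit 76) (nat_lit 5089940267816) (nat_lit 76) (nat_lit 2625433063563) (nat_lit 8) (nat_lit 4) (nat_lit 9) (nat_lit 5) (nat_lit 9) (nat_lit 4) (nat_lit 416) (nat_lit 383) (nat_lit 221)))) (XT.nd (nat_lit 78) (nat_lit 0) (nat_lit 0) (XT.lf (nat_lit 0) (nat_lit 4182034849036) (nat_lit 152) (nat_lit 30926782916331) (nat_lit 0) (nat_lit 2038985106166) (nat_lit 6) (nat_lit 5) (nat_lit 8) (nat_lit 4) (nat_lit 6) (nat_lit 4) (nat_lit 417) (nat_lit 383) (nat_lit 220)) (XT.nd (nat_lit 78) (nat_lit 0) (nat_lit 0) (XT.lf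 (nat_lit 0) (nat_lit 12406715258349) (nat_lit 152) (nat_lit 18861475692788) (nat_lit 0) (nat_lit 10263665515443) (nat_lit 6) (nat_lit 5) (nat_lit 8) (nat_lit 4) (nat_lit 6) (nat_lit 4) (nat_lit 418) (nat_lit 383) (nat_lit 219)) (XT.lf (nat_lit 0) (nat_lit 21865097728813) (nat_lit 152) (nat_lit 4986372386235) (nat_lit 0) (nat_lit 19722047985876) (nat_lit 6) (nat_lit 5) (nat_lit 8) (nat_lit 4) (nat_lit 6) (nat_lit 4) (nat_lit 419) (nat_lit 383) (nat_lit 218))))))) (XT.nd (nat_lit 50544) (nat_lit 0) (nat_lit 1444) (XT.nd (nat_lit 468) (nat_lit 76) (nat_lit 0) (XT.nd (nat_lit 234) (nat_lit 152) (nat_lit 0) (XT.nd (nat_lit 78) (nat_lit 0) (nat_lit 0) (XT.lf (nat_lit 0) (nat_lit 12042064247397) (nat_lit 76) (nat_lit 21198809522954) (nat_lit 76) (nat_lit 19055759779989) (nat_lit 5) (nat_lit 4) (nat_lit 6) (nat_lit 5) (nat_lit 6) (nat_lit 4) (nat_lit 420) (nat_lit 383) (nat_lit 217)) (XT.nd (nat_lit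 78) (nat_lit 0) (nat_lit 0) (XT.lf (nat_lit 0) (nat_lit 32185166635870) (nat_lit 76) (nat_lit 14398500865873) (nat_lit 76) (nat_lit 12255451122885) (nat_lit 5) (nat_lit 4) (nat_lit 6) (nat_lit 5) (nat_lit 6) (nat_lit 4) (nat_lit 421) (nat_lit 383) (nat_lit 216)) (XT.lf (nat_lit 0) (nat_lit 55349734382237) (nat_lit 76) (nat_lit 6578145910427) (nat_lit 76) (nat_lit 4435096167419) (nat_lit 5) (nat_lit 4) (nat_lit 6) (nat_lit 5) (nat_lit 6) (nat_lit 4) (nat_lit 422) (nat_lit 383) (nat_lit 215)))) (XT.nd (nat_lit 78) (nat_lit 0) (nat_lit 0) (XT.lf (nat_lit 0) (nat_lit 4584585401306) (nat_lit 152) (nat_lit 67616638312600) (nat_lit 0) (nat_lit 2721063885631) (nat_lit 3) (nat_lit 5) (nat_lit 5) (nat_lit 4) (nat_lit 3) (nat_lit 4) (nat_lit 423) (nat_lit 383) (nat_lit 214)) (XT.nd (nat_lit 78) (nat_lit 0) (nat_lit 0) (XT.lf (nat_lit 0) (nat_lit 15419500992798) (nat_lit 152) (nat_lit 55620883008113)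 (nat_lit 0) (nat_lit 13555979477110) (nat_lit 3) (nat_lit 5) (nat_lit 5) (nat_lit 4) (nat_lit 3) (nat_lit 4) (nat_lit 424) (nat_lit 383) (nat_lit 213)) (XT.lf (nat_lit 0) (nat_lit 27879653922875) (nat_lit 152) (nat_lit 41825764408252) (nat_lit 0) (nat_lit 26016132407175) (nat_lit 3) (nat_lit 5) (nat_lit 5) (nat_lit 4) (nat_lit 3) (nat_lit 4) (nat_lit 425) (nat_lit 383) (nat_lit 212))))) (XT.nd (nat_lit 49842) (nat_lit 0) (nat_lit 2356) (XT.nd (nat_lit 78) (nat_lit 76) (nat_lit 0) (XT.lf (nat_lit 0) (nat_lit 42208829792340) (nat_lit 152) (nat_lit 25961378018670) (nat_lit 0) (nat_lit 40345308276630) (nat_lit 3) (nat_lit 5) (nat_lit 5) (nat_lit 4) (nat_lit 3) (nat_lit 4) (nat_lit 426) (nat_lit 383) (nat_lit 211)) (XT.nd (nat_lit 78) (nat_lit 76) (nat_lit 0) (XT.lf (nat_lit 0) (nat_lit 58687382042120) (nat_lit 152) (nat_lit 7717333670877) (nat_lit 0) (nat_lit 56823860526401) (nat_lit 3) (nat_lit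 5) (nat_lit 5) (nat_lit 4) (nat_lit 3) (nat_lit 4) (nat_lit 427) (nat_lit 383) (nat_lit 210)) (XT.lf (nat_lit 0) (nat_lit 14559505158758) (nat_lit 76) (nat_lit 63681090030919) (nat_lit 76) (nat_lit 61817568515193) (nat_lit 2) (nat_lit 4) (nat_lit 3) (nat_lit 5) (nat_lit 3) (nat_lit 4) (nat_lit 428) (nat_lit 383) (nat_lit 209)))) (XT.nd (nat_lit 78) (nat_lit 0) (nat_lit 0) (XT.lf (nat_lit 0) (nat_lit 264940313248) (nat_lit 380) (nat_lit 342309010513) (nat_lit 380) (nat_lit 342309010513) (nat_lit 33) (nat_lit 3) (nat_lit 38) (nat_lit 3) (nat_lit 38) (nat_lit 5) (nat_lit 384) (nat_lit 384) (nat_lit 252)) (XT.nd (nat_lit 78) (nat_lit 0) (nat_lit 76) (XT.lf (nat_lit 76) (nat_lit 277686998771) (nat_lit 0) (nat_lit 303433117936) (nat_lit 380) (nat_lit 1458705535491) (nat_lit 34) (nat_lit 5) (nat_lit 33) (nat_lit 3) (nat_lit 38) (nat_lit 5) (nat_lit 385) (nat_lit 384) (nat_lit 251)) (XT.lf (nat_lit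 0) (nat_lit 708356068795) (nat_lit 304) (nat_lit 767517146983) (nat_lit 380) (nat_lit 715521186862) (nat_lit 34) (nat_lit 5) (nat_lit 38) (nat_lit 5) (nat_lit 39) (nat_lit 5) (nat_lit 386) (nat_lit 384) (nat_lit 250)))))) (XT.nd (nat_lit 468) (nat_lit 608) (nat_lit 0) (XT.nd (nat_lit 234) (nat_lit 152) (nat_lit 0) (XT.nd (nat_lit 78) (nat_lit 228) (nat_lit 0) (XT.lf (nat_lit 76) (nat_lit 397210843276) (nat_lit 0) (nat_lit 488363417856) (nat_lit 380) (nat_lit 1475489677404) (nat_lit 35) (nat_lit 5) (nat_lit 34) (nat_lit 5) (nat_lit 39) (nat_lit 5) (nat_lit 387) (nat_lit 384) (nat_lit 249)) (XT.nd (nat_lit 78) (nat_lit 304) (nat_lit 0) (XT.lf (nat_lit 0) (nat_lit 1158208069275) (nat_lit 304) (nat_lit 755972056550) (nat_lit 76) (nat_lit 631678845951) (nat_lit 35) (nat_lit 5) (nat_lit 39) (nat_lit 5) (nat_lit 36) (nat_lit 5) (nat_lit 388) (nat_lit 384) (nat_lit 248)) (XT.lf (nat_lit 0) (nat_lit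 669433318263) (nat_lit 304) (nat_lit 853278835324) (nat_lit 380) (nat_lit 1228014825672) (nat_lit 31) (nat_lit 5) (nat_lit 35) (nat_lit 5) (nat_lit 36) (nat_lit 5) (nat_lit 389) (nat_lit 384) (nat_lit 247)))) (XT.nd (nat_lit 78) (nat_lit 152) (nat_lit 0) (XT.lf (nat_lit 0) (nat_lit 1998476970572) (nat_lit 380) (nat_lit 603855632933) (nat_lit 76) (nat_lit 375504816358) (nat_lit 31) (nat_lit 5) (nat_lit 36) (nat_lit 5) (nat_lit 32) (nat_lit 5) (nat_lit 390) (nat_lit 384) (nat_lit 246)) (XT.nd (nat_lit 78) (nat_lit 0) (nat_lit 0) (XT.lf (nat_lit 0) (nat_lit 1157625608704) (nat_lit 152) (nat_lit 1476548033088) (nat_lit 228) (nat_lit 591555715014) (nat_lit 29) (nat_lit 5) (nat_lit 31) (nat_lit 5) (nat_lit 32) (nat_lit 5) (nat_lit 391) (nat_lit 384) (nat_lit 245)) (XT.lf (nat_lit 0) (nat_lit 3251194173480) (nat_lit 152) (nat_lit 145595819544) (nat_lit 228) (nat_lit 109280314367) (nat_lit 29)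 (nat_lit 5) (nat_lit 31) (nat_lit 5) (nat_lit 32) (nat_lit 5) (nat_lit 392) (nat_lit 384) (nat_lit 244))))) (XT.nd (nat_lit 234) (nat_lit 304) (nat_lit 0) (XT.nd (nat_lit 78) (nat_lit 152) (nat_lit 0) (XT.lf (nat_lit 0) (nat_lit 550198172961) (nat_lit 152) (nat_lit 1886525570995) (nat_lit 76) (nat_lit 1367296286713) (nat_lit 27) (nat_lit 5) (nat_lit 29) (nat_lit 5) (nat_lit 28) (nat_lit 5) (nat_lit 393) (nat_lit 384) (nat_lit 243)) (XT.nd (nat_lit 78) (nat_lit 0) (nat_lit 0) (XT.lf (nat_lit 0) (nat_lit 314970995909) (nat_lit 152) (nat_lit 1016372127655) (nat_lit 228) (nat_lit 2809448578277) (nat_lit 25) (nat_lit 5) (nat_lit 27) (nat_lit 5) (nat_lit 28) (nat_lit 5) (nat_lit 394) (nat_lit 384) (nat_lit 242)) (XT.lf (nat_lit 0) (nat_lit 2358519538079) (nat_lit 228) (nat_lit 1484821139261) (nat_lit 76) (nat_lit 665409488150) (nat_lit 25) (nat_lit 5) (nat_lit 28) (nat_lit 5) (nat_lit 26) (nat_lit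 4) (nat_lit 395) (nat_lit 384) (nat_lit 241)))) (XT.nd (nat_lit 156) (nat_lit 228) (nat_lit 0) (XT.nd (nat_lit 78) (nat_lit 0) (nat_lit 0) (XT.lf (nat_lit 0) (nat_lit 1272188725699) (nat_lit 76) (nat_lit 2368660982960) (nat_lit 152) (nat_lit 1275891095945) (nat_lit 24) (nat_lit 5) (nat_lit 25) (nat_lit 5) (nat_lit 26) (nat_lit 4) (nat_lit 396) (nat_lit 384) (nat_lit 240)) (XT.lf (nat_lit 0) (nat_lit 4609623717316) (nat_lit 76) (nat_lit 583521337005) (nat_lit 152) (nat_lit 181142637842) (nat_lit 24) (nat_lit 5) (nat_lit 25) (nat_lit 5) (nat_lit 26) (nat_lit 4) (nat_lit 397) (nat_lit 384) (nat_lit 239))) (XT.nd (nat_lit 78) (nat_lit 76) (nat_lit 0) (XT.lf (nat_lit 0) (nat_lit 1164003131937) (nat_lit 152) (nat_lit 3197948180097) (nat_lit 76) (nat_lit 1504499799158) (nat_lit 22) (nat_lit 5) (nat_lit 24) (nat_lit 5) (nat_lit 23) (nat_lit 4) (nat_lit 398) (nat_lit 384) (nat_lit 238)) (XT.lf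 (nat_lit 0) (nat_lit 261065164239) (nat_lit 76) (nat_lit 2511781384143) (nat_lit 152) (nat_lit 3646227918161) (nat_lit 21) (nat_lit 5) (nat_lit 22) (nat_lit 5) (nat_lit 23) (nat_lit 4) (nat_lit 399) (nat_lit 384) (nat_lit 237))))))))
noncomputable def xc110 : XT := (XT.nd (nat_lit 1872) (nat_lit 152) (nat_lit 0) (XT.nd (nat_lit 936) (nat_lit 532) (nat_lit 0) (XT.nd (nat_lit 468) (nat_lit 304) (nat_lit 0) (XT.nd (nat_lit 234) (nat_lit 228) (nat_lit 0) (XT.nd (nat_lit 78) (nat_lit 152) (nat_lit 0) (XT.lf (nat_lit 0) (nat_lit 4598336275858) (nat_lit 76) (nat_lit 191845673690) (nat_lit 152) (nat_lit 2239334554811) (nat_lit 21) (nat_lit 5) (nat_lit 22) (nat_lit 5) (nat_lit 23) (nat_lit 4) (nat_lit 400) (nat_lit 384) (nat_lit 236)) (XT.nd (nat_lit 78) (nat_lit 76) (nat_lit 0) (XT.lf (nat_lit 0) (nat_lit 1923376250389) (nat_lit 76) (nat_lit 5368913527537) (nat_lit 76) (nat_lit 411909252367)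 (nat_lit 20) (nat_lit 4) (nat_lit 21) (nat_lit 5) (nat_lit 21) (nat_lit 4) (nat_lit 401) (nat_lit 384) (nat_lit 235)) (XT.lf (nat_lit 0) (nat_lit 1681478880314) (nat_lit 152) (nat_lit 1341824683077) (nat_lit 76) (nat_lit 5424945041259) (nat_lit 19) (nat_lit 5) (nat_lit 21) (nat_lit 5) (nat_lit 20) (nat_lit 4) (nat_lit 402) (nat_lit 384) (nat_lit 234)))) (XT.nd (nat_lit 78) (nat_lit 152) (nat_lit 0) (XT.lf (nat_lit 0) (nat_lit 4109241494528) (nat_lit 76) (nat_lit 107617003513) (nat_lit 152) (nat_lit 5058581669169) (nat_lit 18) (nat_lit 5) (nat_lit 19) (nat_lit 5) (nat_lit 20) (nat_lit 4) (nat_lit 403) (nat_lit 384) (nat_lit 233)) (XT.nd (nat_lit 78) (nat_lit 76) (nat_lit 0) (XT.lf (nat_lit 0) (nat_lit 191943090486) (nat_lit 76) (nat_lit 7156416823415) (nat_lit 76) (nat_lit 2845978321933) (nat_lit 17) (nat_lit 4) (nat_lit 18) (nat_lit 5) (nat_lit 18) (nat_lit 4) (nat_lit 404) (nat_lit 384)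 (nat_lit 232)) (XT.lf (nat_lit 0) (nat_lit 13391258251) (nat_lit 152) (nat_lit 4281647296575) (nat_lit 76) (nat_lit 6914699709542) (nat_lit 16) (nat_lit 5) (nat_lit 18) (nat_lit 5) (nat_lit 17) (nat_lit 4) (nat_lit 405) (nat_lit 384) (nat_lit 231))))) (XT.nd (nat_lit 234) (nat_lit 152) (nat_lit 0) (XT.nd (nat_lit 78) (nat_lit 76) (nat_lit 0) (XT.lf (nat_lit 0) (nat_lit 2372946014673) (nat_lit 76) (nat_lit 735604923363) (nat_lit 152) (nat_lit 9233830147517) (nat_lit 15) (nat_lit 5) (nat_lit 16) (nat_lit 5) (nat_lit 17) (nat_lit 4) (nat_lit 406) (nat_lit 384) (nat_lit 230)) (XT.nd (nat_lit 78) (nat_lit 76) (nat_lit 0) (XT.lf (nat_lit 0) (nat_lit 7041492739156) (nat_lit 152) (nat_lit 3254116019555) (nat_lit 0) (nat_lit 3293285345800) (nat_lit 15) (nat_lit 5) (nat_lit 17) (nat_lit 4) (nat_lit 15) (nat_lit 4) (nat_lit 407) (nat_lit 384) (nat_lit 229)) (XT.lf (nat_lit 0) (nat_lit 4866743218053)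 (nat_lit 76) (nat_lit 6934182856123) (nat_lit 76) (nat_lit 3185975462576) (nat_lit 14) (nat_lit 4) (nat_lit 15) (nat_lit 5) (nat_lit 15) (nat_lit 4) (nat_lit 408) (nat_lit 384) (nat_lit 228)))) (XT.nd (nat_lit 78) (nat_lit 76) (nat_lit 0) (XT.lf (nat_lit 0) (nat_lit 797357498500) (nat_lit 152) (nat_lit 2033888771936) (nat_lit 76) (nat_lit 13732412057179) (nat_lit 13) (nat_lit 5) (nat_lit 15) (nat_lit 5) (nat_lit 14) (nat_lit 4) (nat_lit 409) (nat_lit 384) (nat_lit 227)) (XT.nd (nat_lit 78) (nat_lit 0) (nat_lit 0) (XT.lf (nat_lit 0) (nat_lit 5476116939936) (nat_lit 152) (nat_lit 10597632106164) (nat_lit 0) (nat_lit 2216806162669) (nat_lit 12) (nat_lit 5) (nat_lit 14) (nat_lit 4) (nat_lit 12) (nat_lit 4) (nat_lit 410) (nat_lit 384) (nat_lit 226)) (XT.lf (nat_lit 0) (nat_lit 11102891171404) (nat_lit 152) (nat_lit 1293084925591) (nat_lit 0) (nat_lit 7843580394028) (nat_lit 12) (nat_lit 5)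 (nat_lit 14) (nat_lit 4) (nat_lit 12) (nat_lit 4) (nat_lit 411) (nat_lit 384) (nat_lit 225)))))) (XT.nd (nat_lit 468) (nat_lit 228) (nat_lit 0) (XT.nd (nat_lit 234) (nat_lit 76) (nat_lit 0) (XT.nd (nat_lit 78) (nat_lit 152) (nat_lit 0) (XT.lf (nat_lit 0) (nat_lit 10326478891043) (nat_lit 76) (nat_lit 7674800115826) (nat_lit 76) (nat_lit 4415489338355) (nat_lit 11) (nat_lit 4) (nat_lit 12) (nat_lit 5) (nat_lit 12) (nat_lit 4) (nat_lit 412) (nat_lit 384) (nat_lit 224)) (XT.nd (nat_lit 78) (nat_lit 76) (nat_lit 0) (XT.lf (nat_lit 0) (nat_lit 994413734504) (nat_lit 152) (nat_lit 1121321248369) (nat_lit 76) (nat_lit 22787907939737) (nat_lit 10) (nat_lit 5) (nat_lit 12) (nat_lit 5) (nat_lit 11) (nat_lit 4) (nat_lit 413) (nat_lit 384) (nat_lit 223)) (XT.lf (nat_lit 0) (nat_lit 7488134920035) (nat_lit 152) (nat_lit 15481263723552) (nat_lit 0) (nat_lit 4653951635143) (nat_lit 9) (nat_lit 5) (nat_lit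 11) (nat_lit 4) (nat_lit 9) (nat_lit 4) (nat_lit 414) (nat_lit 384) (nat_lit 222)))) (XT.nd (nat_lit 78) (nat_lit 76) (nat_lit 0) (XT.lf (nat_lit 0) (nat_lit 15118069255420) (nat_lit 152) (nat_lit 3324735266571) (nat_lit 0) (nat_lit 12283885970473) (nat_lit 9) (nat_lit 5) (nat_lit 11) (nat_lit 4) (nat_lit 9) (nat_lit 4) (nat_lit 415) (nat_lit 384) (nat_lit 221)) (XT.nd (nat_lit 78) (nat_lit 0) (nat_lit 0) (XT.lf (nat_lit 0) (nat_lit 11696583175967) (nat_lit 76) (nat_lit 12680241131188) (nat_lit 76) (nat_lit 9846057846195) (nat_lit 8) (nat_lit 4) (nat_lit 9) (nat_lit 5) (nat_lit 9) (nat_lit 4) (nat_lit 416) (nat_lit 384) (nat_lit 220)) (XT.lf (nat_lit 0) (nat_lit 29344754291056) (nat_lit 76) (nat_lit 5853431305204) (nat_lit 76) (nat_lit 3019248020170) (nat_lit 8) (nat_lit 4) (nat_lit 9) (nat_lit 5) (nat_lit 9) (nat_lit 4) (nat_lit 417) (nat_lit 384) (nat_lit 219))))) (XT.nd (nat_lit 234)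 (nat_lit 76) (nat_lit 0) (XT.nd (nat_lit 78) (nat_lit 0) (nat_lit 0) (XT.lf (nat_lit 0) (nat_lit 4809340079047) (nat_lit 152) (nat_lit 35565800348179) (nat_lit 0) (nat_lit 2344832874638) (nat_lit 6) (nat_lit 5) (nat_lit 8) (nat_lit 4) (nat_lit 6) (nat_lit 4) (nat_lit 418) (nat_lit 384) (nat_lit 218)) (XT.nd (nat_lit 78) (nat_lit 0) (nat_lit 0) (XT.lf (nat_lit 0) (nat_lit 14267722549411) (nat_lit 152) (nat_lit 21690697041836) (nat_lit 0) (nat_lit 11803215344975) (nat_lit 6) (nat_lit 5) (nat_lit 8) (nat_lit 4) (nat_lit 6) (nat_lit 4) (nat_lit 419) (nat_lit 384) (nat_lit 217)) (XT.lf (nat_lit 0) (nat_lit 25144862390143) (nat_lit 152) (nat_lit 5734328239934) (nat_lit 0) (nat_lit 22680355185683) (nat_lit 6) (nat_lit 5) (nat_lit 8) (nat_lit 4) (nat_lit 6) (nat_lit 4) (nat_lit 420) (nat_lit 384) (nat_lit 216)))) (XT.nd (nat_lit 78) (nat_lit 0) (nat_lit 0) (XT.lf (nat_lit 0) (nat_lit 13848373888551)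 (nat_lit 76) (nat_lit 24378630949267) (nat_lit 76) (nat_lit 21914123744787) (nat_lit 5) (nat_lit 4) (nat_lit 6) (nat_lit 5) (nat_lit 6) (nat_lit 4) (nat_lit 421) (nat_lit 384) (nat_lit 215)) (XT.nd (nat_lit 78) (nat_lit 0) (nat_lit 0) (XT.lf (nat_lit 0) (nat_lit 37012941634766) (nat_lit 76) (nat_lit 16558275993902) (nat_lit 76) (nat_lit 14093768789404) (nat_lit 5) (nat_lit 4) (nat_lit 6) (nat_lit 5) (nat_lit 6) (nat_lit 4) (nat_lit 422) (nat_lit 384) (nat_lit 214)) (XT.lf (nat_lit 0) (nat_lit 63652194542630) (nat_lit 76) (nat_lit 7564867795381) (nat_lit 76) (nat_lit 5100360590868) (nat_lit 5) (nat_lit 4) (nat_lit 6) (nat_lit 5) (nat_lit 6) (nat_lit 4) (nat_lit 423) (nat_lit 384) (nat_lit 213))))))) (XT.nd (nat_lit 50622) (nat_lit 0) (nat_lit 1140) (XT.nd (nat_lit 50154) (nat_lit 0) (nat_lit 2128) (XT.nd (nat_lit 234) (nat_lit 0) (nat_lit 0) (XT.nd (nat_lit 78) (nat_lit 0) (nat_lit 0)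 (XT.lf (nat_lit 0) (nat_lit 5272273213013) (nat_lit 152) (nat_lit 77759134056281) (nat_lit 0) (nat_lit 3129223469947) (nat_lit 3) (nat_lit 5) (nat_lit 5) (nat_lit 4) (nat_lit 3) (nat_lit 4) (nat_lit 424) (nat_lit 384) (nat_lit 212)) (XT.nd (nat_lit 78) (nat_lit 0) (nat_lit 0) (XT.lf (nat_lit 0) (nat_lit 17732426143033) (nat_lit 152) (nat_lit 63964015456540) (nat_lit 0) (nat_lit 15589376399956) (nat_lit 3) (nat_lit 5) (nat_lit 5) (nat_lit 4) (nat_lit 3) (nat_lit 4) (nat_lit 425) (nat_lit 384) (nat_lit 211)) (XT.lf (nat_lit 0) (nat_lit 32061602012449) (nat_lit 152) (nat_lit 48099629067063) (nat_lit 0) (nat_lit 29918552269364) (nat_lit 3) (nat_lit 5) (nat_lit 5) (nat_lit 4) (nat_lit 3) (nat_lit 4) (nat_lit 426) (nat_lit 384) (nat_lit 210)))) (XT.nd (nat_lit 78) (nat_lit 0) (nat_lit 0) (XT.lf (nat_lit 0) (nat_lit 48540154262185) (nat_lit 152) (nat_lit 29855584719360) (nat_lit 0) (nat_lit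 46397104519092) (nat_lit 3) (nat_lit 5) (nat_lit 5) (nat_lit 4) (nat_lit 3) (nat_lit 4) (nat_lit 427) (nat_lit 384) (nat_lit 209)) (XT.nd (nat_lit 49764) (nat_lit 0) (nat_lit 2280) (XT.lf (nat_lit 0) (nat_lit 67490489349302) (nat_lit 152) (nat_lit 8874933719673) (nat_lit 0) (nat_lit 65347439606202) (nat_lit 3) (nat_lit 5) (nat_lit 5) (nat_lit 4) (nat_lit 3) (nat_lit 4) (nat_lit 428) (nat_lit 384) (nat_lit 208)) (XT.lf (nat_lit 0) (nat_lit 304681376314) (nat_lit 380) (nat_lit 393655352840) (nat_lit 380) (nat_lit 393655352840) (nat_lit 33) (nat_lit 3) (nat_lit 38) (nat_lit 3) (nat_lit 38) (nat_lit 5) (nat_lit 385) (nat_lit 385) (nat_lit 250))))) (XT.nd (nat_lit 234) (nat_lit 152) (nat_lit 0) (XT.nd (nat_lit 78) (nat_lit 0) (nat_lit 76) (XT.lf (nat_lit 76) (nat_lit 319340066247) (nat_lit 0) (nat_lit 348948096659) (nat_lit 380) (nat_lit 1677511332797) (nat_lit 34) (nat_lit 5) (nat_lit 33)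 (nat_lit 3) (nat_lit 38) (nat_lit 5) (nat_lit 386) (nat_lit 385) (nat_lit 249)) (XT.nd (nat_lit 78) (nat_lit 0) (nat_lit 0) (XT.lf (nat_lit 0) (nat_lit 814609503668) (nat_lit 304) (nat_lit 882644699517) (nat_lit 380) (nat_lit 822849356151) (nat_lit 34) (nat_lit 5) (nat_lit 38) (nat_lit 5) (nat_lit 39) (nat_lit 5) (nat_lit 387) (nat_lit 385) (nat_lit 248)) (XT.lf (nat_lit 76) (nat_lit 456792488395) (nat_lit 0) (nat_lit 561617934030) (nat_lit 380) (nat_lit 1696813103559) (nat_lit 35) (nat_lit 5) (nat_lit 34) (nat_lit 5) (nat_lit 39) (nat_lit 5) (nat_lit 388) (nat_lit 385) (nat_lit 247)))) (XT.nd (nat_lit 78) (nat_lit 304) (nat_lit 0) (XT.lf (nat_lit 0) (nat_lit 1331939298777) (nat_lit 304) (nat_lit 869367845810) (nat_lit 76) (nat_lit 726430670075) (nat_lit 35) (nat_lit 5) (nat_lit 39) (nat_lit 5) (nat_lit 36) (nat_lit 5) (nat_lit 389) (nat_lit 385) (nat_lit 246)) (XT.nd (nat_lit 78) (nat_lit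 0) (nat_lit 0) (XT.lf (nat_lit 0) (nat_lit 769848334351) (nat_lit 304) (nat_lit 981270659652) (nat_lit 380) (nat_lit 1412217029527) (nat_lit 31) (nat_lit 5) (nat_lit 35) (nat_lit 5) (nat_lit 36) (nat_lit 5) (nat_lit 390) (nat_lit 385) (nat_lit 245)) (XT.lf (nat_lit 0) (nat_lit 2298248531304) (nat_lit 380) (nat_lit 694433959676) (nat_lit 76) (nat_lit 431830539581) (nat_lit 31) (nat_lit 5) (nat_lit 36) (nat_lit 5) (nat_lit 32) (nat_lit 5) (nat_lit 391) (nat_lit 385) (nat_lit 244)))))) (XT.nd (nat_lit 468) (nat_lit 456) (nat_lit 0) (XT.nd (nat_lit 234) (nat_lit 228) (nat_lit 0) (XT.nd (nat_lit 78) (nat_lit 152) (nat_lit 0) (XT.lf (nat_lit 0) (nat_lit 1331269467380) (nat_lit 152) (nat_lit 1698030234571) (nat_lit 228) (nat_lit 680289056284) (nat_lit 29) (nat_lit 5) (nat_lit 31) (nat_lit 5) (nat_lit 32) (nat_lit 5) (nat_lit 392) (nat_lit 385) (nat_lit 243)) (XT.nd (nat_lit 78) (nat_lit 152)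 (nat_lit 0) (XT.lf (nat_lit 0) (nat_lit 3738873314606) (nat_lit 152) (nat_lit 167435189450) (nat_lit 228) (nat_lit 125672347625) (nat_lit 29) (nat_lit 5) (nat_lit 31) (nat_lit 5) (nat_lit 32) (nat_lit 5) (nat_lit 393) (nat_lit 385) (nat_lit 242)) (XT.lf (nat_lit 0) (nat_lit 632727910724) (nat_lit 152) (nat_lit 2169504389450) (nat_lit 76) (nat_lit 1572390733318) (nat_lit 27) (nat_lit 5) (nat_lit 29) (nat_lit 5) (nat_lit 28) (nat_lit 5) (nat_lit 394) (nat_lit 385) (nat_lit 241)))) (XT.nd (nat_lit 78) (nat_lit 76) (nat_lit 0) (XT.lf (nat_lit 0) (nat_lit 362216661709) (nat_lit 152) (nat_lit 1168827941347) (nat_lit 228) (nat_lit 3230865852414) (nat_lit 25) (nat_lit 5) (nat_lit 27) (nat_lit 5) (nat_lit 28) (nat_lit 5) (nat_lit 395) (nat_lit 385) (nat_lit 240)) (XT.nd (nat_lit 78) (nat_lit 76) (nat_lit 0) (XT.lf (nat_lit 0) (nat_lit 2712297478515) (nat_lit 228) (nat_lit 1707544294641) (nat_lit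 76) (nat_lit 765220915695) (nat_lit 25) (nat_lit 5) (nat_lit 28) (nat_lit 5) (nat_lit 26) (nat_lit 4) (nat_lit 396) (nat_lit 385) (nat_lit 239)) (XT.lf (nat_lit 0) (nat_lit 1463017049358) (nat_lit 76) (nat_lit 2723960124669) (nat_lit 152) (nat_lit 1467274749905) (nat_lit 24) (nat_lit 5) (nat_lit 25) (nat_lit 5) (nat_lit 26) (nat_lit 4) (nat_lit 397) (nat_lit 385) (nat_lit 238))))) (XT.nd (nat_lit 234) (nat_lit 228) (nat_lit 0) (XT.nd (nat_lit 78) (nat_lit 228) (nat_lit 0) (XT.lf (nat_lit 0) (nat_lit 5301067287787) (nat_lit 76) (nat_lit 671049532568) (nat_lit 152) (nat_lit 208314024447) (nat_lit 24) (nat_lit 5) (nat_lit 25) (nat_lit 5) (nat_lit 26) (nat_lit 4) (nat_lit 398) (nat_lit 385) (nat_lit 237)) (XT.nd (nat_lit 78) (nat_lit 76) (nat_lit 0) (XT.lf (nat_lit 0) (nat_lit 1338603609675) (nat_lit 152) (nat_lit 3677640393109) (nat_lit 76) (nat_lit 1730174773891) (nat_lit 22) (nat_lit 5)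 (nat_lit 24) (nat_lit 5) (nat_lit 23) (nat_lit 4) (nat_lit 399) (nat_lit 385) (nat_lit 236)) (XT.lf (nat_lit 0) (nat_lit 300224952241) (nat_lit 76) (nat_lit 2888548585863) (nat_lit 152) (nat_lit 4193162097298) (nat_lit 21) (nat_lit 5) (nat_lit 22) (nat_lit 5) (nat_lit 23) (nat_lit 4) (nat_lit 400) (nat_lit 385) (nat_lit 235)))) (XT.nd (nat_lit 156) (nat_lit 152) (nat_lit 0) (XT.nd (nat_lit 78) (nat_lit 76) (nat_lit 0) (XT.lf (nat_lit 0) (nat_lit 5288086728860) (nat_lit 76) (nat_lit 220622519612) (nat_lit 152) (nat_lit 2575234730566) (nat_lit 21) (nat_lit 5) (nat_lit 22) (nat_lit 5) (nat_lit 23) (nat_lit 4) (nat_lit 401) (nat_lit 385) (nat_lit 234)) (XT.lf (nat_lit 0) (nat_lit 2211882699770) (nat_lit 76) (nat_lit 6174250551164) (nat_lit 76) (nat_lit 473695632954) (nat_lit 20) (nat_lit 4) (nat_lit 21) (nat_lit 5) (nat_lit 21) (nat_lit 4) (nat_lit 402) (nat_lit 385) (nat_lit 233))) (XT.nd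 (nat_lit 78) (nat_lit 76) (nat_lit 0) (XT.lf (nat_lit 0) (nat_lit 1933700718119) (nat_lit 152) (nat_lit 1543098374694) (nat_lit 76) (nat_lit 6238686801669) (nat_lit 19) (nat_lit 5) (nat_lit 21) (nat_lit 5) (nat_lit 20) (nat_lit 4) (nat_lit 403) (nat_lit 385) (nat_lit 232)) (XT.lf (nat_lit 0) (nat_lit 4725627729059) (nat_lit 76) (nat_lit 123759549124) (nat_lit 152) (nat_lit 5817368913293) (nat_lit 18) (nat_lit 5) (nat_lit 19) (nat_lit 5) (nat_lit 20) (nat_lit 4) (nat_lit 404) (nat_lit 385) (nat_lit 231))))))))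
noncomputable def xc111 : XT := (XT.nd (nat_lit 51714) (nat_lit 0) (nat_lit 760) (XT.nd (nat_lit 936) (nat_lit 456) (nat_lit 0) (XT.nd (nat_lit 468) (nat_lit 304) (nat_lit 0) (XT.nd (nat_lit 234) (nat_lit 152) (nat_lit 0) (XT.nd (nat_lit 78) (nat_lit 152) (nat_lit 0) (XT.lf (nat_lit 0) (nat_lit 220734564525) (nat_lit 76) (nat_lit 8229879341798) (nat_lit 76) (nat_lit 3272875064085) (nat_lit 17) (nat_lit 4) (nat_lit 18) (nat_lit 5) (nat_lit 18) (nat_lit 4) (nat_lit 405) (nat_lit 385) (nat_lit 230)) (XT.nd (nat_lit 78) (nat_lit 76) (nat_lit 0) (XT.lf (nat_lit 0) (nat_lit 15399951851) (nat_lit 152) (nat_lit 4923894381485) (nat_lit 76) (nat_lit 7951904669958) (nat_lit 16) (nat_lit 5) (nat_lit 18) (nat_lit 5) (nat_lit 17) (nat_lit 4) (nat_lit 406) (nat_lit 385) (nat_lit 229)) (XT.lf (nat_lit 0) (nat_lit 2728887926015) (nat_lit 76) (nat_lit 845945657333) (nat_lit 152) (nat_lit 10618904664346)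 (nat_lit 15) (nat_lit 5) (nat_lit 16) (nat_lit 5) (nat_lit 17) (nat_lit 4) (nat_lit 407) (nat_lit 385) (nat_lit 228)))) (XT.nd (nat_lit 78) (nat_lit 152) (nat_lit 0) (XT.lf (nat_lit 0) (nat_lit 8097716654199) (nat_lit 152) (nat_lit 3742233414101) (nat_lit 0) (nat_lit 3787278151263) (nat_lit 15) (nat_lit 5) (nat_lit 17) (nat_lit 4) (nat_lit 15) (nat_lit 4) (nat_lit 408) (nat_lit 385) (nat_lit 227)) (XT.nd (nat_lit 78) (nat_lit 76) (nat_lit 0) (XT.lf (nat_lit 0) (nat_lit 5596754708767) (nat_lit 76) (nat_lit 7974310280493) (nat_lit 76) (nat_lit 3663871777412) (nat_lit 14) (nat_lit 4) (nat_lit 15) (nat_lit 5) (nat_lit 15) (nat_lit 4) (nat_lit 409) (nat_lit 385) (nat_lit 226)) (XT.lf (nat_lit 0) (nat_lit 916961126880) (nat_lit 152) (nat_lit 2338972080413) (nat_lit 76) (nat_lit 15792273868924) (nat_lit 13) (nat_lit 5) (nat_lit 15) (nat_lit 5) (nat_lit 14) (nat_lit 4) (nat_lit 410) (nat_lit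 385) (nat_lit 225))))) (XT.nd (nat_lit 234) (nat_lit 152) (nat_lit 0) (XT.nd (nat_lit 78) (nat_lit 76) (nat_lit 0) (XT.lf (nat_lit 0) (nat_lit 6297534484498) (nat_lit 152) (nat_lit 12187276914740) (nat_lit 0) (nat_lit 2549327090310) (nat_lit 12) (nat_lit 5) (nat_lit 14) (nat_lit 4) (nat_lit 12) (nat_lit 4) (nat_lit 411) (nat_lit 385) (nat_lit 224)) (XT.nd (nat_lit 78) (nat_lit 76) (nat_lit 0) (XT.lf (nat_lit 0) (nat_lit 12768324850220) (nat_lit 152) (nat_lit 1487047658040) (nat_lit 0) (nat_lit 9020117455951) (nat_lit 12) (nat_lit 5) (nat_lit 14) (nat_lit 4) (nat_lit 12) (nat_lit 4) (nat_lit 412) (nat_lit 385) (nat_lit 223)) (XT.lf (nat_lit 0) (nat_lit 11875450730799) (nat_lit 76) (nat_lit 8826020130054) (nat_lit 76) (nat_lit 5077812735712) (nat_lit 11) (nat_lit 4) (nat_lit 12) (nat_lit 5) (nat_lit 12) (nat_lit 4) (nat_lit 413) (nat_lit 385) (nat_lit 222)))) (XT.nd (nat_lit 78) (nat_lit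 76) (nat_lit 0) (XT.lf (nat_lit 0) (nat_lit 1143575797370) (nat_lit 152) (nat_lit 1289519430058) (nat_lit 76) (nat_lit 26206094133171) (nat_lit 10) (nat_lit 5) (nat_lit 12) (nat_lit 5) (nat_lit 11) (nat_lit 4) (nat_lit 414) (nat_lit 385) (nat_lit 221)) (XT.nd (nat_lit 78) (nat_lit 0) (nat_lit 0) (XT.lf (nat_lit 0) (nat_lit 8611355160714) (nat_lit 152) (nat_lit 17803453276501) (nat_lit 0) (nat_lit 5352044382924) (nat_lit 9) (nat_lit 5) (nat_lit 11) (nat_lit 4) (nat_lit 9) (nat_lit 4) (nat_lit 415) (nat_lit 385) (nat_lit 220)) (XT.lf (nat_lit 0) (nat_lit 17385779646057) (nat_lit 152) (nat_lit 3823445551701) (nat_lit 0) (nat_lit 14126468868226) (nat_lit 9) (nat_lit 5) (nat_lit 11) (nat_lit 4) (nat_lit 9) (nat_lit 4) (nat_lit 416) (nat_lit 385) (nat_lit 219)))))) (XT.nd (nat_lit 468) (nat_lit 152) (nat_lit 0) (XT.nd (nat_lit 234) (nat_lit 76) (nat_lit 0) (XT.nd (nat_lit 78) (nat_lit 152)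 (nat_lit 0) (XT.lf (nat_lit 0) (nat_lit 13451070656997) (nat_lit 76) (nat_lit 14582277298445) (nat_lit 76) (nat_lit 11322966520579) (nat_lit 8) (nat_lit 4) (nat_lit 9) (nat_lit 5) (nat_lit 9) (nat_lit 4) (nat_lit 417) (nat_lit 385) (nat_lit 218)) (XT.nd (nat_lit 78) (nat_lit 152) (nat_lit 0) (XT.lf (nat_lit 0) (nat_lit 33746467438744) (nat_lit 76) (nat_lit 6731445998879) (nat_lit 76) (nat_lit 3472135220982) (nat_lit 8) (nat_lit 4) (nat_lit 9) (nat_lit 5) (nat_lit 9) (nat_lit 4) (nat_lit 418) (nat_lit 385) (nat_lit 217)) (XT.lf (nat_lit 0) (nat_lit 5530741092913) (nat_lit 152) (nat_lit 40900670396170) (nat_lit 0) (nat_lit 2696557807761) (nat_lit 6) (nat_lit 5) (nat_lit 8) (nat_lit 4) (nat_lit 6) (nat_lit 4) (nat_lit 419) (nat_lit 385) (nat_lit 216)))) (XT.nd (nat_lit 78) (nat_lit 76) (nat_lit 0) (XT.lf (nat_lit 0) (nat_lit 16407880933569) (nat_lit 152) (nat_lit 24944301594428) (nat_lit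 0) (nat_lit 13573697648397) (nat_lit 6) (nat_lit 5) (nat_lit 8) (nat_lit 4) (nat_lit 6) (nat_lit 4) (nat_lit 420) (nat_lit 385) (nat_lit 215)) (XT.nd (nat_lit 78) (nat_lit 76) (nat_lit 0) (XT.lf (nat_lit 0) (nat_lit 28916591750183) (nat_lit 152) (nat_lit 6594477472722) (nat_lit 0) (nat_lit 26082408464993) (nat_lit 6) (nat_lit 5) (nat_lit 8) (nat_lit 4) (nat_lit 6) (nat_lit 4) (nat_lit 421) (nat_lit 385) (nat_lit 214)) (XT.lf (nat_lit 0) (nat_lit 15925629974890) (nat_lit 76) (nat_lit 28035425590047) (nat_lit 76) (nat_lit 25201242304841) (nat_lit 5) (nat_lit 4) (nat_lit 6) (nat_lit 5) (nat_lit 6) (nat_lit 4) (nat_lit 422) (nat_lit 385) (nat_lit 213))))) (XT.nd (nat_lit 234) (nat_lit 0) (nat_lit 0) (XT.nd (nat_lit 78) (nat_lit 152) (nat_lit 0) (XT.lf (nat_lit 0) (nat_lit 42564882882639) (nat_lit 76) (nat_lit 19042017391587) (nat_lit 76) (nat_lit 16207834106368) (nat_lit 5) (nat_lit 4) (nat_lit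 6) (nat_lit 5) (nat_lit 6) (nat_lit 4) (nat_lit 423) (nat_lit 385) (nat_lit 212)) (XT.nd (nat_lit 78) (nat_lit 152) (nat_lit 0) (XT.lf (nat_lit 0) (nat_lit 73200023726336) (nat_lit 76) (nat_lit 8699597963471) (nat_lit 76) (nat_lit 5865414678241) (nat_lit 5) (nat_lit 4) (nat_lit 6) (nat_lit 5) (nat_lit 6) (nat_lit 4) (nat_lit 424) (nat_lit 385) (nat_lit 211)) (XT.lf (nat_lit 0) (nat_lit 6063114196108) (nat_lit 152) (nat_lit 89423004162296) (nat_lit 0) (nat_lit 3598606991551) (nat_lit 3) (nat_lit 5) (nat_lit 5) (nat_lit 4) (nat_lit 3) (nat_lit 4) (nat_lit 425) (nat_lit 385) (nat_lit 210)))) (XT.nd (nat_lit 156) (nat_lit 0) (nat_lit 0) (XT.nd (nat_lit 78) (nat_lit 0) (nat_lit 0) (XT.lf (nat_lit 0) (nat_lit 20392290065482) (nat_lit 152) (nat_lit 73558617772910) (nat_lit 0) (nat_lit 17927782860917) (nat_lit 3) (nat_lit 5) (nat_lit 5) (nat_lit 4) (nat_lit 3) (nat_lit 4) (nat_lit 426) (nat_lit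 385) (nat_lit 209)) (XT.lf (nat_lit 0) (nat_lit 36870842315181) (nat_lit 152) (nat_lit 55314573425287) (nat_lit 0) (nat_lit 34406335110610) (nat_lit 3) (nat_lit 5) (nat_lit 5) (nat_lit 4) (nat_lit 3) (nat_lit 4) (nat_lit 427) (nat_lit 385) (nat_lit 208))) (XT.nd (nat_lit 49842) (nat_lit 0) (nat_lit 2280) (XT.lf (nat_lit 0) (nat_lit 55821177402265) (nat_lit 152) (nat_lit 34333922425669) (nat_lit 0) (nat_lit 53356670197688) (nat_lit 3) (nat_lit 5) (nat_lit 5) (nat_lit 4) (nat_lit 3) (nat_lit 4) (nat_lit 428) (nat_lit 385) (nat_lit 207)) (XT.lf (nat_lit 0) (nat_lit 350383594918) (nat_lit 380) (nat_lit 452703648771) (nat_lit 380) (nat_lit 452703648771) (nat_lit 33) (nat_lit 3) (nat_lit 38) (nat_lit 3) (nat_lit 38) (nat_lit 5) (nat_lit 386) (nat_lit 386) (nat_lit 248))))))) (XT.nd (nat_lit 936) (nat_lit 836) (nat_lit 0) (XT.nd (nat_lit 468) (nat_lit 532) (nat_lit 0) (XT.nd (nat_lit 234) (nat_lit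 152) (nat_lit 0) (XT.nd (nat_lit 78) (nat_lit 0) (nat_lit 76) (XT.lf (nat_lit 76) (nat_lit 367241089538) (nat_lit 0) (nat_lit 401290319501) (nat_lit 380) (nat_lit 1929138007751) (nat_lit 34) (nat_lit 5) (nat_lit 33) (nat_lit 3) (nat_lit 38) (nat_lit 5) (nat_lit 387) (nat_lit 386) (nat_lit 247)) (XT.nd (nat_lit 78) (nat_lit 0) (nat_lit 0) (XT.lf (nat_lit 0) (nat_lit 936800947785) (nat_lit 304) (nat_lit 1015041389689) (nat_lit 380) (nat_lit 946276752965) (nat_lit 34) (nat_lit 5) (nat_lit 38) (nat_lit 5) (nat_lit 39) (nat_lit 5) (nat_lit 388) (nat_lit 386) (nat_lit 246)) (XT.lf (nat_lit 76) (nat_lit 525311375739) (nat_lit 0) (nat_lit 645860626777) (nat_lit 380) (nat_lit 1951335049845) (nat_lit 35) (nat_lit 5) (nat_lit 34) (nat_lit 5) (nat_lit 39) (nat_lit 5) (nat_lit 389) (nat_lit 386) (nat_lit 245)))) (XT.nd (nat_lit 78) (nat_lit 304) (nat_lit 0) (XT.lf (nat_lit 0) (nat_lit 1531730208045)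 (nat_lit 304) (nat_lit 999773008147) (nat_lit 76) (nat_lit 835395268492) (nat_lit 35) (nat_lit 5) (nat_lit 39) (nat_lit 5) (nat_lit 36) (nat_lit 5) (nat_lit 390) (nat_lit 386) (nat_lit 244)) (XT.nd (nat_lit 78) (nat_lit 0) (nat_lit 0) (XT.lf (nat_lit 0) (nat_lit 885325598378) (nat_lit 304) (nat_lit 1128461257866) (nat_lit 380) (nat_lit 1624049568837) (nat_lit 31) (nat_lit 5) (nat_lit 35) (nat_lit 5) (nat_lit 36) (nat_lit 5) (nat_lit 391) (nat_lit 386) (nat_lit 243)) (XT.lf (nat_lit 0) (nat_lit 2642985822453) (nat_lit 380) (nat_lit 798599039869) (nat_lit 76) (nat_lit 496605121099) (nat_lit 31) (nat_lit 5) (nat_lit 36) (nat_lit 5) (nat_lit 32) (nat_lit 5) (nat_lit 392) (nat_lit 386) (nat_lit 242))))) (XT.nd (nat_lit 234) (nat_lit 228) (nat_lit 0) (XT.nd (nat_lit 78) (nat_lit 152) (nat_lit 0) (XT.lf (nat_lit 0) (nat_lit 1530959900620) (nat_lit 152) (nat_lit 1952734767126) (nat_lit 228) (nat_lit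 782332402642) (nat_lit 29) (nat_lit 5) (nat_lit 31) (nat_lit 5) (nat_lit 32) (nat_lit 5) (nat_lit 393) (nat_lit 386) (nat_lit 241)) (XT.nd (nat_lit 78) (nat_lit 152) (nat_lit 0) (XT.lf (nat_lit 0) (nat_lit 4299704323217) (nat_lit 152) (nat_lit 192550465580) (nat_lit 228) (nat_lit 144523189260) (nat_lit 29) (nat_lit 5) (nat_lit 31) (nat_lit 5) (nat_lit 32) (nat_lit 5) (nat_lit 394) (nat_lit 386) (nat_lit 240)) (XT.lf (nat_lit 0) (nat_lit 727637106269) (nat_lit 152) (nat_lit 2494930034866) (nat_lit 76) (nat_lit 1808249346036) (nat_lit 27) (nat_lit 5) (nat_lit 29) (nat_lit 5) (nat_lit 28) (nat_lit 5) (nat_lit 395) (nat_lit 386) (nat_lit 239)))) (XT.nd (nat_lit 78) (nat_lit 76) (nat_lit 0) (XT.lf (nat_lit 0) (nat_lit 416549173376) (nat_lit 152) (nat_lit 1344152128423) (nat_lit 228) (nat_lit 3715495720745) (nat_lit 25) (nat_lit 5) (nat_lit 27) (nat_lit 5) (nat_lit 28) (nat_lit 5) (nat_lit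 396) (nat_lit 386) (nat_lit 238)) (XT.nd (nat_lit 78) (nat_lit 76) (nat_lit 0) (XT.lf (nat_lit 0) (nat_lit 3119142107645) (nat_lit 228) (nat_lit 1963675927110) (nat_lit 76) (nat_lit 880004056318) (nat_lit 25) (nat_lit 5) (nat_lit 28) (nat_lit 5) (nat_lit 26) (nat_lit 4) (nat_lit 397) (nat_lit 386) (nat_lit 237)) (XT.lf (nat_lit 0) (nat_lit 1682469617956) (nat_lit 76) (nat_lit 3132554139032) (nat_lit 152) (nat_lit 1687365954502) (nat_lit 24) (nat_lit 5) (nat_lit 25) (nat_lit 5) (nat_lit 26) (nat_lit 4) (nat_lit 398) (nat_lit 386) (nat_lit 236)))))) (XT.nd (nat_lit 468) (nat_lit 456) (nat_lit 0) (XT.nd (nat_lit 234) (nat_lit 152) (nat_lit 0) (XT.nd (nat_lit 78) (nat_lit 228) (nat_lit 0) (XT.lf (nat_lit 0) (nat_lit 6096227390689) (nat_lit 76) (nat_lit 771706958682) (nat_lit 152) (nat_lit 239561121254) (nat_lit 24) (nat_lit 5) (nat_lit 25) (nat_lit 5) (nat_lit 26) (nat_lit 4) (nat_lit 399)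 (nat_lit 386) (nat_lit 235)) (XT.nd (nat_lit 78) (nat_lit 76) (nat_lit 0) (XT.lf (nat_lit 0) (nat_lit 1539394157136) (nat_lit 152) (nat_lit 4229286441488) (nat_lit 76) (nat_lit 1989700993650) (nat_lit 22) (nat_lit 5) (nat_lit 24) (nat_lit 5) (nat_lit 23) (nat_lit 4) (nat_lit 400) (nat_lit 386) (nat_lit 234)) (XT.lf (nat_lit 0) (nat_lit 345258705184) (nat_lit 76) (nat_lit 3321830869281) (nat_lit 152) (nat_lit 4822136405400) (nat_lit 21) (nat_lit 5) (nat_lit 22) (nat_lit 5) (nat_lit 23) (nat_lit 4) (nat_lit 401) (nat_lit 386) (nat_lit 233)))) (XT.nd (nat_lit 78) (nat_lit 152) (nat_lit 0) (XT.lf (nat_lit 0) (nat_lit 6081299746977) (nat_lit 76) (nat_lit 253715893674) (nat_lit 152) (nat_lit 2961519934505) (nat_lit 21) (nat_lit 5) (nat_lit 22) (nat_lit 5) (nat_lit 23) (nat_lit 4) (nat_lit 402) (nat_lit 386) (nat_lit 232)) (XT.nd (nat_lit 78) (nat_lit 76) (nat_lit 0) (XT.lf (nat_lit 0) (nat_lit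 2543665113675) (nat_lit 76) (nat_lit 7100388129677) (nat_lit 76) (nat_lit 544749972402) (nat_lit 20) (nat_lit 4) (nat_lit 21) (nat_lit 5) (nat_lit 21) (nat_lit 4) (nat_lit 403) (nat_lit 386) (nat_lit 231)) (XT.lf (nat_lit 0) (nat_lit 2223755830190) (nat_lit 152) (nat_lit 1774563122699) (nat_lit 76) (nat_lit 7174489825112) (nat_lit 19) (nat_lit 5) (nat_lit 21) (nat_lit 5) (nat_lit 20) (nat_lit 4) (nat_lit 404) (nat_lit 386) (nat_lit 230))))) (XT.nd (nat_lit 234) (nat_lit 228) (nat_lit 0) (XT.nd (nat_lit 78) (nat_lit 152) (nat_lit 0) (XT.lf (nat_lit 0) (nat_lit 5434471896245) (nat_lit 76) (nat_lit 142323477775) (nat_lit 152) (nat_lit 6689974245560) (nat_lit 18) (nat_lit 5) (nat_lit 19) (nat_lit 5) (nat_lit 20) (nat_lit 4) (nat_lit 405) (nat_lit 386) (nat_lit 229)) (XT.nd (nat_lit 78) (nat_lit 76) (nat_lit 0) (XT.lf (nat_lit 0) (nat_lit 253844757117) (nat_lit 76) (nat_lit 9464361239189)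 (nat_lit 76) (nat_lit 3763806319057) (nat_lit 17) (nat_lit 4) (nat_lit 18) (nat_lit 5) (nat_lit 18) (nat_lit 4) (nat_lit 406) (nat_lit 386) (nat_lit 228)) (XT.lf (nat_lit 0) (nat_lit 17709948305) (nat_lit 152) (nat_lit 5662478531467) (nat_lit 76) (nat_lit 9144690373464) (nat_lit 16) (nat_lit 5) (nat_lit 18) (nat_lit 5) (nat_lit 17) (nat_lit 4) (nat_lit 407) (nat_lit 386) (nat_lit 227)))) (XT.nd (nat_lit 156) (nat_lit 152) (nat_lit 0) (XT.nd (nat_lit 78) (nat_lit 0) (nat_lit 0) (XT.lf (nat_lit 0) (nat_lit 3138221121830) (nat_lit 76) (nat_lit 972837502504) (nat_lit 152) (nat_lit 12211740359992) (nat_lit 15) (nat_lit 5) (nat_lit 16) (nat_lit 5) (nat_lit 17) (nat_lit 4) (nat_lit 408) (nat_lit 386) (nat_lit 226)) (XT.lf (nat_lit 0) (nat_lit 9312374155481) (nat_lit 152) (nat_lit 4303568419875) (nat_lit 0) (nat_lit 4355369876668) (nat_lit 15) (nat_lit 5) (nat_lit 17) (nat_lit 4) (nat_lit 15)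 (nat_lit 4) (nat_lit 409) (nat_lit 386) (nat_lit 225))) (XT.nd (nat_lit 78) (nat_lit 76) (nat_lit 0) (XT.lf (nat_lit 0) (nat_lit 6436267921136) (nat_lit 76) (nat_lit 9170456819505) (nat_lit 76) (nat_lit 4213452540583) (nat_lit 14) (nat_lit 4) (nat_lit 15) (nat_lit 5) (nat_lit 15) (nat_lit 4) (nat_lit 410) (nat_lit 386) (nat_lit 224)) (XT.lf (nat_lit 0) (nat_lit 1054505298638) (nat_lit 152) (nat_lit 2689817886944) (nat_lit 76) (nat_lit 18161114951658) (nat_lit 13) (nat_lit 5) (nat_lit 15) (nat_lit 5) (nat_lit 14) (nat_lit 4) (nat_lit 411) (nat_lit 386) (nat_lit 223))))))))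
noncomputable def xc112 : XT := (XT.nd (nat_lit 51714) (nat_lit 0) (nat_lit 456) (XT.nd (nat_lit 936) (nat_lit 152) (nat_lit 0) (XT.nd (nat_lit 468) (nat_lit 304) (nat_lit 0) (XT.nd (nat_lit 234) (nat_lit 152) (nat_lit 0) (XT.nd (nat_lit 78) (nat_lit 76) (nat_lit 0) (XT.lf (nat_lit 0) (nat_lit 7242164659873) (nat_lit 152) (nat_lit 14015368446395) (nat_lit 0) (nat_lit 2931726156308) (nat_lit 12) (nat_lit 5) (nat_lit 14) (nat_lit 4) (nat_lit 12) (nat_lit 4) (nat_lit 412) (nat_lit 386) (nat_lit 222)) (XT.nd (nat_lit 78) (nat_lit 76) (nat_lit 0) (XT.lf (nat_lit 0) (nat_lit 14683573580102) (nat_lit 152) (nat_lit 1710104801914) (nat_lit 0) (nat_lit 10373135076475) (nat_lit 12) (nat_lit 5) (nat_lit 14) (nat_lit 4) (nat_lit 12) (nat_lit 4) (nat_lit 413) (nat_lit 386) (nat_lit 221)) (XT.lf (nat_lit 0) (nat_lit 13656768345031) (nat_lit 76) (nat_lit 10149923147183) (nat_lit 76) (nat_lit 5839484643502)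 (nat_lit 11) (nat_lit 4) (nat_lit 12) (nat_lit 5) (nat_lit 12) (nat_lit 4) (nat_lit 414) (nat_lit 386) (nat_lit 220)))) (XT.nd (nat_lit 78) (nat_lit 76) (nat_lit 0) (XT.lf (nat_lit 0) (nat_lit 1315112169009) (nat_lit 152) (nat_lit 1482947340357) (nat_lit 76) (nat_lit 30137008255017) (nat_lit 10) (nat_lit 5) (nat_lit 12) (nat_lit 5) (nat_lit 11) (nat_lit 4) (nat_lit 415) (nat_lit 386) (nat_lit 219)) (XT.nd (nat_lit 78) (nat_lit 0) (nat_lit 0) (XT.lf (nat_lit 0) (nat_lit 9903058436842) (nat_lit 152) (nat_lit 20473971263754) (nat_lit 0) (nat_lit 6154851042260) (nat_lit 9) (nat_lit 5) (nat_lit 11) (nat_lit 4) (nat_lit 9) (nat_lit 4) (nat_lit 416) (nat_lit 386) (nat_lit 218)) (XT.lf (nat_lit 0) (nat_lit 19993646594723) (nat_lit 152) (nat_lit 4396962380785) (nat_lit 0) (nat_lit 16245439200110) (nat_lit 9) (nat_lit 5) (nat_lit 11) (nat_lit 4) (nat_lit 9) (nat_lit 4) (nat_lit 417) (nat_lit 386)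 (nat_lit 217))))) (XT.nd (nat_lit 234) (nat_lit 76) (nat_lit 0) (XT.nd (nat_lit 78) (nat_lit 152) (nat_lit 0) (XT.lf (nat_lit 0) (nat_lit 15468731259051) (nat_lit 76) (nat_lit 16769618891381) (nat_lit 76) (nat_lit 13021411496741) (nat_lit 8) (nat_lit 4) (nat_lit 9) (nat_lit 5) (nat_lit 9) (nat_lit 4) (nat_lit 418) (nat_lit 386) (nat_lit 216)) (XT.nd (nat_lit 78) (nat_lit 152) (nat_lit 0) (XT.lf (nat_lit 0) (nat_lit 38808437557603) (nat_lit 76) (nat_lit 7741162897119) (nat_lit 76) (nat_lit 3992955502456) (nat_lit 8) (nat_lit 4) (nat_lit 9) (nat_lit 5) (nat_lit 9) (nat_lit 4) (nat_lit 419) (nat_lit 386) (nat_lit 215)) (XT.lf (nat_lit 0) (nat_lit 6360352258368) (nat_lit 152) (nat_lit 47035770952393) (nat_lit 0) (nat_lit 3101041480382) (nat_lit 6) (nat_lit 5) (nat_lit 8) (nat_lit 4) (nat_lit 6) (nat_lit 4) (nat_lit 420) (nat_lit 386) (nat_lit 214)))) (XT.nd (nat_lit 78) (nat_lit 76) (nat_lit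 0) (XT.lf (nat_lit 0) (nat_lit 18869063074925) (nat_lit 152) (nat_lit 28685946830807) (nat_lit 0) (nat_lit 15609752296923) (nat_lit 6) (nat_lit 5) (nat_lit 8) (nat_lit 4) (nat_lit 6) (nat_lit 4) (nat_lit 421) (nat_lit 386) (nat_lit 213)) (XT.nd (nat_lit 78) (nat_lit 76) (nat_lit 0) (XT.lf (nat_lit 0) (nat_lit 33254080513858) (nat_lit 152) (nat_lit 7583649091208) (nat_lit 0) (nat_lit 29994769735843) (nat_lit 6) (nat_lit 5) (nat_lit 8) (nat_lit 4) (nat_lit 6) (nat_lit 4) (nat_lit 422) (nat_lit 386) (nat_lit 212)) (XT.lf (nat_lit 0) (nat_lit 18314474473436) (nat_lit 76) (nat_lit 32240739427336) (nat_lit 76) (nat_lit 28981428649310) (nat_lit 5) (nat_lit 4) (nat_lit 6) (nat_lit 5) (nat_lit 6) (nat_lit 4) (nat_lit 423) (nat_lit 386) (nat_lit 211)))))) (XT.nd (nat_lit 50310) (nat_lit 0) (nat_lit 2128) (XT.nd (nat_lit 234) (nat_lit 0) (nat_lit 0) (XT.nd (nat_lit 78) (nat_lit 152) (nat_lit 0)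 (XT.lf (nat_lit 0) (nat_lit 48949615317046) (nat_lit 76) (nat_lit 21898319999266) (nat_lit 76) (nat_lit 18639009221229) (nat_lit 5) (nat_lit 4) (nat_lit 6) (nat_lit 5) (nat_lit 6) (nat_lit 4) (nat_lit 424) (nat_lit 386) (nat_lit 210)) (XT.nd (nat_lit 78) (nat_lit 152) (nat_lit 0) (XT.lf (nat_lit 0) (nat_lit 84180027287035) (nat_lit 76) (nat_lit 10004537657071) (nat_lit 76) (nat_lit 6745226879025) (nat_lit 5) (nat_lit 4) (nat_lit 6) (nat_lit 5) (nat_lit 6) (nat_lit 4) (nat_lit 425) (nat_lit 386) (nat_lit 209)) (XT.lf (nat_lit 0) (nat_lit 6972581326389) (nat_lit 152) (nat_lit 102836454784805) (nat_lit 0) (nat_lit 4138398041126) (nat_lit 3) (nat_lit 5) (nat_lit 5) (nat_lit 4) (nat_lit 3) (nat_lit 4) (nat_lit 426) (nat_lit 386) (nat_lit 208)))) (XT.nd (nat_lit 78) (nat_lit 0) (nat_lit 0) (XT.lf (nat_lit 0) (nat_lit 23451133576056) (nat_lit 152) (nat_lit 84592410437251) (nat_lit 0) (nat_lit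 20616950290786) (nat_lit 3) (nat_lit 5) (nat_lit 5) (nat_lit 4) (nat_lit 3) (nat_lit 4) (nat_lit 427) (nat_lit 386) (nat_lit 207)) (XT.nd (nat_lit 49920) (nat_lit 0) (nat_lit 2280) (XT.lf (nat_lit 0) (nat_lit 42401468663111) (nat_lit 152) (nat_lit 63611759437693) (nat_lit 0) (nat_lit 39567285377837) (nat_lit 3) (nat_lit 5) (nat_lit 5) (nat_lit 4) (nat_lit 3) (nat_lit 4) (nat_lit 428) (nat_lit 386) (nat_lit 206)) (XT.lf (nat_lit 0) (nat_lit 402941143349) (nat_lit 380) (nat_lit 520609190797) (nat_lit 380) (nat_lit 520609190797) (nat_lit 33) (nat_lit 3) (nat_lit 38) (nat_lit 3) (nat_lit 38) (nat_lit 5) (nat_lit 387) (nat_lit 387) (nat_lit 246))))) (XT.nd (nat_lit 234) (nat_lit 152) (nat_lit 0) (XT.nd (nat_lit 78) (nat_lit 0) (nat_lit 76) (XT.lf (nat_lit 76) (nat_lit 422327263066) (nat_lit 0) (nat_lit 461483873734) (nat_lit 380) (nat_lit 2218508690036) (nat_lit 34) (nat_lit 5) (nat_lit 33)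 (nat_lit 3) (nat_lit 38) (nat_lit 5) (nat_lit 388) (nat_lit 387) (nat_lit 245)) (XT.nd (nat_lit 78) (nat_lit 0) (nat_lit 0) (XT.lf (nat_lit 0) (nat_lit 1077321103991) (nat_lit 304) (nat_lit 1167297586985) (nat_lit 380) (nat_lit 1088218260913) (nat_lit 34) (nat_lit 5) (nat_lit 38) (nat_lit 5) (nat_lit 39) (nat_lit 5) (nat_lit 389) (nat_lit 387) (nat_lit 244)) (XT.lf (nat_lit 76) (nat_lit 604108092750) (nat_lit 0) (nat_lit 742739722792) (nat_lit 380) (nat_lit 2244035292768) (nat_lit 35) (nat_lit 5) (nat_lit 34) (nat_lit 5) (nat_lit 39) (nat_lit 5) (nat_lit 390) (nat_lit 387) (nat_lit 243)))) (XT.nd (nat_lit 78) (nat_lit 304) (nat_lit 0) (XT.lf (nat_lit 0) (nat_lit 1761489750178) (nat_lit 304) (nat_lit 1149738948379) (nat_lit 76) (nat_lit 960704557183) (nat_lit 35) (nat_lit 5) (nat_lit 39) (nat_lit 5) (nat_lit 36) (nat_lit 5) (nat_lit 391) (nat_lit 387) (nat_lit 242)) (XT.nd (nat_lit 78)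 (nat_lit 0) (nat_lit 0) (XT.lf (nat_lit 0) (nat_lit 1018124448625) (nat_lit 304) (nat_lit 1297730445992) (nat_lit 380) (nat_lit 1867656992729) (nat_lit 31) (nat_lit 5) (nat_lit 35) (nat_lit 5) (nat_lit 36) (nat_lit 5) (nat_lit 392) (nat_lit 387) (nat_lit 241)) (XT.lf (nat_lit 0) (nat_lit 3039433704481) (nat_lit 380) (nat_lit 918388885445) (nat_lit 76) (nat_lit 571095889703) (nat_lit 31) (nat_lit 5) (nat_lit 36) (nat_lit 5) (nat_lit 32) (nat_lit 5) (nat_lit 393) (nat_lit 387) (nat_lit 240))))))) (XT.nd (nat_lit 936) (nat_lit 760) (nat_lit 0) (XT.nd (nat_lit 468) (nat_lit 380) (nat_lit 0) (XT.nd (nat_lit 234) (nat_lit 228) (nat_lit 0) (XT.nd (nat_lit 78) (nat_lit 152) (nat_lit 0) (XT.lf (nat_lit 0) (nat_lit 1760603895644) (nat_lit 152) (nat_lit 2245644980205) (nat_lit 228) (nat_lit 899682253901) (nat_lit 29) (nat_lit 5) (nat_lit 31) (nat_lit 5) (nat_lit 32) (nat_lit 5) (nat_lit 394) (nat_lit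 387) (nat_lit 239)) (XT.nd (nat_lit 78) (nat_lit 152) (nat_lit 0) (XT.lf (nat_lit 0) (nat_lit 4944659980336) (nat_lit 152) (nat_lit 221433033687) (nat_lit 228) (nat_lit 166201659703) (nat_lit 29) (nat_lit 5) (nat_lit 31) (nat_lit 5) (nat_lit 32) (nat_lit 5) (nat_lit 395) (nat_lit 387) (nat_lit 238)) (XT.lf (nat_lit 0) (nat_lit 836782678967) (nat_lit 152) (nat_lit 2869169530265) (nat_lit 76) (nat_lit 2079486749999) (nat_lit 27) (nat_lit 5) (nat_lit 29) (nat_lit 5) (nat_lit 28) (nat_lit 5) (nat_lit 396) (nat_lit 387) (nat_lit 237)))) (XT.nd (nat_lit 78) (nat_lit 76) (nat_lit 0) (XT.lf (nat_lit 0) (nat_lit 479031558767) (nat_lit 152) (nat_lit 1545774944566) (nat_lit 228) (nat_lit 4272820071649) (nat_lit 25) (nat_lit 5) (nat_lit 27) (nat_lit 5) (nat_lit 28) (nat_lit 5) (nat_lit 397) (nat_lit 387) (nat_lit 236)) (XT.nd (nat_lit 78) (nat_lit 76) (nat_lit 0) (XT.lf (nat_lit 0) (nat_lit 3587013429352)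 (nat_lit 228) (nat_lit 2258227307310) (nat_lit 76) (nat_lit 1012004667237) (nat_lit 25) (nat_lit 5) (nat_lit 28) (nat_lit 5) (nat_lit 26) (nat_lit 4) (nat_lit 398) (nat_lit 387) (nat_lit 235)) (XT.lf (nat_lit 0) (nat_lit 1934840069114) (nat_lit 76) (nat_lit 3602437256608) (nat_lit 152) (nat_lit 1940470841712) (nat_lit 24) (nat_lit 5) (nat_lit 25) (nat_lit 5) (nat_lit 26) (nat_lit 4) (nat_lit 399) (nat_lit 387) (nat_lit 234))))) (XT.nd (nat_lit 234) (nat_lit 152) (nat_lit 0) (XT.nd (nat_lit 78) (nat_lit 228) (nat_lit 0) (XT.lf (nat_lit 0) (nat_lit 7010661506652) (nat_lit 76) (nat_lit 887462999633) (nat_lit 152) (nat_lit 275495284256) (nat_lit 24) (nat_lit 5) (nat_lit 25) (nat_lit 5) (nat_lit 26) (nat_lit 4) (nat_lit 400) (nat_lit 387) (nat_lit 233)) (XT.nd (nat_lit 78) (nat_lit 76) (nat_lit 0) (XT.lf (nat_lit 0) (nat_lit 1770303285251) (nat_lit 152) (nat_lit 4863679399705) (nat_lit 76)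 (nat_lit 2288156145476) (nat_lit 22) (nat_lit 5) (nat_lit 24) (nat_lit 5) (nat_lit 23) (nat_lit 4) (nat_lit 401) (nat_lit 387) (nat_lit 232)) (XT.lf (nat_lit 0) (nat_lit 397047518604) (nat_lit 76) (nat_lit 3820105496299) (nat_lit 152) (nat_lit 5545456861301) (nat_lit 21) (nat_lit 5) (nat_lit 22) (nat_lit 5) (nat_lit 23) (nat_lit 4) (nat_lit 402) (nat_lit 387) (nat_lit 231)))) (XT.nd (nat_lit 78) (nat_lit 152) (nat_lit 0) (XT.lf (nat_lit 0) (nat_lit 6993494715669) (nat_lit 76) (nat_lit 291773274792) (nat_lit 152) (nat_lit 3405747920412) (nat_lit 21) (nat_lit 5) (nat_lit 22) (nat_lit 5) (nat_lit 23) (nat_lit 4) (nat_lit 403) (nat_lit 387) (nat_lit 230)) (XT.nd (nat_lit 78) (nat_lit 76) (nat_lit 0) (XT.lf (nat_lit 0) (nat_lit 2925214887486) (nat_lit 76) (nat_lit 8165446345982) (nat_lit 76) (nat_lit 626462464106) (nat_lit 20) (nat_lit 4) (nat_lit 21) (nat_lit 5) (nat_lit 21) (nat_lit 4) (nat_lit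 404) (nat_lit 387) (nat_lit 229)) (XT.lf (nat_lit 0) (nat_lit 2557319208011) (nat_lit 152) (nat_lit 2040747584903) (nat_lit 76) (nat_lit 8250663301293) (nat_lit 19) (nat_lit 5) (nat_lit 21) (nat_lit 5) (nat_lit 20) (nat_lit 4) (nat_lit 405) (nat_lit 387) (nat_lit 228)))))) (XT.nd (nat_lit 468) (nat_lit 380) (nat_lit 0) (XT.nd (nat_lit 234) (nat_lit 152) (nat_lit 0) (XT.nd (nat_lit 78) (nat_lit 152) (nat_lit 0) (XT.lf (nat_lit 0) (nat_lit 6249642686601) (nat_lit 76) (nat_lit 163671996630) (nat_lit 152) (nat_lit 7693470378819) (nat_lit 18) (nat_lit 5) (nat_lit 19) (nat_lit 5) (nat_lit 20) (nat_lit 4) (nat_lit 406) (nat_lit 387) (nat_lit 227)) (XT.nd (nat_lit 78) (nat_lit 76) (nat_lit 0) (XT.lf (nat_lit 0) (nat_lit 291921476668) (nat_lit 76) (nat_lit 10884015422135) (nat_lit 76) (nat_lit 4328377263406) (nat_lit 17) (nat_lit 4) (nat_lit 18) (nat_lit 5) (nat_lit 18) (nat_lit 4) (nat_lit 407)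 (nat_lit 387) (nat_lit 226)) (XT.lf (nat_lit 0) (nat_lit 20366443331) (nat_lit 152) (nat_lit 6511850305711) (nat_lit 76) (nat_lit 10516393931762) (nat_lit 16) (nat_lit 5) (nat_lit 18) (nat_lit 5) (nat_lit 17) (nat_lit 4) (nat_lit 408) (nat_lit 387) (nat_lit 225)))) (XT.nd (nat_lit 78) (nat_lit 76) (nat_lit 0) (XT.lf (nat_lit 0) (nat_lit 3608954295331) (nat_lit 76) (nat_lit 1118763125287) (nat_lit 152) (nat_lit 14043501410962) (nat_lit 15) (nat_lit 5) (nat_lit 16) (nat_lit 5) (nat_lit 17) (nat_lit 4) (nat_lit 409) (nat_lit 387) (nat_lit 224)) (XT.nd (nat_lit 78) (nat_lit 76) (nat_lit 0) (XT.lf (nat_lit 0) (nat_lit 10709230281186) (nat_lit 152) (nat_lit 4949103678060) (nat_lit 0) (nat_lit 5008675360223) (nat_lit 15) (nat_lit 5) (nat_lit 17) (nat_lit 4) (nat_lit 15) (nat_lit 4) (nat_lit 410) (nat_lit 387) (nat_lit 223)) (XT.lf (nat_lit 0) (nat_lit 7401708113883) (nat_lit 76) (nat_lit 10546025340116)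 (nat_lit 76) (nat_lit 4845470419069) (nat_lit 14) (nat_lit 4) (nat_lit 15) (nat_lit 5) (nat_lit 15) (nat_lit 4) (nat_lit 411) (nat_lit 387) (nat_lit 222))))) (XT.nd (nat_lit 234) (nat_lit 228) (nat_lit 0) (XT.nd (nat_lit 78) (nat_lit 76) (nat_lit 0) (XT.lf (nat_lit 0) (nat_lit 1212681095494) (nat_lit 152) (nat_lit 3093290565804) (nat_lit 76) (nat_lit 20885282196219) (nat_lit 13) (nat_lit 5) (nat_lit 15) (nat_lit 5) (nat_lit 14) (nat_lit 4) (nat_lit 412) (nat_lit 387) (nat_lit 221)) (XT.nd (nat_lit 78) (nat_lit 0) (nat_lit 0) (XT.lf (nat_lit 0) (nat_lit 8328489360895) (nat_lit 152) (nat_lit 16117673709153) (nat_lit 0) (nat_lit 3371485081608) (nat_lit 12) (nat_lit 5) (nat_lit 14) (nat_lit 4) (nat_lit 12) (nat_lit 4) (nat_lit 413) (nat_lit 387) (nat_lit 220)) (XT.lf (nat_lit 0) (nat_lit 16886109618892) (nat_lit 152) (nat_lit 1966620518548) (nat_lit 0) (nat_lit 11929105339557) (nat_lit 12)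 (nat_lit 5) (nat_lit 14) (nat_lit 4) (nat_lit 12) (nat_lit 4) (nat_lit 414) (nat_lit 387) (nat_lit 219)))) (XT.nd (nat_lit 156) (nat_lit 76) (nat_lit 0) (XT.nd (nat_lit 78) (nat_lit 76) (nat_lit 0) (XT.lf (nat_lit 0) (nat_lit 15705283600273) (nat_lit 76) (nat_lit 11672411617461) (nat_lit 76) (nat_lit 6715407338085) (nat_lit 11) (nat_lit 4) (nat_lit 12) (nat_lit 5) (nat_lit 12) (nat_lit 4) (nat_lit 415) (nat_lit 387) (nat_lit 218)) (XT.lf (nat_lit 0) (nat_lit 1512378995899) (nat_lit 152) (nat_lit 1705389438227) (nat_lit 76) (nat_lit 34657559494684) (nat_lit 10) (nat_lit 5) (nat_lit 12) (nat_lit 5) (nat_lit 11) (nat_lit 4) (nat_lit 416) (nat_lit 387) (nat_lit 217))) (XT.nd (nat_lit 78) (nat_lit 0) (nat_lit 0) (XT.lf (nat_lit 0) (nat_lit 11388517203897) (nat_lit 152) (nat_lit 23545066950124) (nat_lit 0) (nat_lit 7078078700034) (nat_lit 9) (nat_lit 5) (nat_lit 11) (nat_lit 4) (nat_lit 9)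 (nat_lit 4) (nat_lit 417) (nat_lit 387) (nat_lit 216)) (XT.lf (nat_lit 0) (nat_lit 22992693585261) (nat_lit 152) (nat_lit 5056506735126) (nat_lit 0) (nat_lit 18682255081375) (nat_lit 9) (nat_lit 5) (nat_lit 11) (nat_lit 4) (nat_lit 9) (nat_lit 4) (nat_lit 418) (nat_lit 387) (nat_lit 215))))))))
noncomputable def xc113 : XT := (XT.nd (nat_lit 51636) (nat_lit 0) (nat_lit 228) (XT.nd (nat_lit 50700) (nat_lit 0) (nat_lit 1672) (XT.nd (nat_lit 468) (nat_lit 152) (nat_lit 0) (XT.nd (nat_lit 234) (nat_lit 76) (nat_lit 0) (XT.nd (nat_lit 78) (nat_lit 152) (nat_lit 0) (XT.lf (nat_lit 0) (nat_lit 17789040950559) (nat_lit 76) (nat_lit 19285061723704) (nat_lit 76) (nat_lit 14974623219797) (nat_lit 8) (nat_lit 4) (nat_lit 9) (nat_lit 5) (nat_lit 9) (nat_lit 4) (nat_lit 419) (nat_lit 387) (nat_lit 214)) (XT.nd (nat_lit 78) (nat_lit 152) (nat_lit 0) (XT.lf (nat_lit 0) (nat_lit 44629703193548) (nat_lit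 76) (nat_lit 8902337330484) (nat_lit 76) (nat_lit 4591898826559) (nat_lit 8) (nat_lit 4) (nat_lit 9) (nat_lit 5) (nat_lit 9) (nat_lit 4) (nat_lit 420) (nat_lit 387) (nat_lit 213)) (XT.lf (nat_lit 0) (nat_lit 7314405098271) (nat_lit 152) (nat_lit 54091136592830) (nat_lit 0) (nat_lit 3566197703541) (nat_lit 6) (nat_lit 5) (nat_lit 8) (nat_lit 4) (nat_lit 6) (nat_lit 4) (nat_lit 421) (nat_lit 387) (nat_lit 212)))) (XT.nd (nat_lit 78) (nat_lit 76) (nat_lit 0) (XT.lf (nat_lit 0) (nat_lit 21699422537162) (nat_lit 152) (nat_lit 32988838853322) (nat_lit 0) (nat_lit 17951215142419) (nat_lit 6) (nat_lit 5) (nat_lit 8) (nat_lit 4) (nat_lit 6) (nat_lit 4) (nat_lit 422) (nat_lit 387) (nat_lit 211)) (XT.nd (nat_lit 78) (nat_lit 76) (nat_lit 0) (XT.lf (nat_lit 0) (nat_lit 38242192591805) (nat_lit 152) (nat_lit 8721196453058) (nat_lit 0) (nat_lit 34493985197053) (nat_lit 6) (nat_lit 5) (nat_lit 8) (nat_lit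 4) (nat_lit 6) (nat_lit 4) (nat_lit 423) (nat_lit 387) (nat_lit 210)) (XT.lf (nat_lit 0) (nat_lit 21061645646199) (nat_lit 76) (nat_lit 37076850340516) (nat_lit 76) (nat_lit 33328642945755) (nat_lit 5) (nat_lit 4) (nat_lit 6) (nat_lit 5) (nat_lit 6) (nat_lit 4) (nat_lit 424) (nat_lit 387) (nat_lit 209))))) (XT.nd (nat_lit 234) (nat_lit 0) (nat_lit 0) (XT.nd (nat_lit 78) (nat_lit 152) (nat_lit 0) (XT.lf (nat_lit 0) (nat_lit 56292057616122) (nat_lit 76) (nat_lit 25183067998356) (nat_lit 76) (nat_lit 21434860603587) (nat_lit 5) (nat_lit 4) (nat_lit 6) (nat_lit 5) (nat_lit 6) (nat_lit 4) (nat_lit 425) (nat_lit 387) (nat_lit 208)) (XT.nd (nat_lit 78) (nat_lit 152) (nat_lit 0) (XT.lf (nat_lit 0) (nat_lit 96807031381412) (nat_lit 76) (nat_lit 11505218304935) (nat_lit 76) (nat_lit 7757010910160) (nat_lit 5) (nat_lit 4) (nat_lit 6) (nat_lit 5) (nat_lit 6) (nat_lit 4) (nat_lit 426) (nat_lit 387)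 (nat_lit 207)) (XT.lf (nat_lit 0) (nat_lit 8018468526001) (nat_lit 152) (nat_lit 118261923001138) (nat_lit 0) (nat_lit 4759157747930) (nat_lit 3) (nat_lit 5) (nat_lit 5) (nat_lit 4) (nat_lit 3) (nat_lit 4) (nat_lit 427) (nat_lit 387) (nat_lit 206)))) (XT.nd (nat_lit 78) (nat_lit 0) (nat_lit 0) (XT.lf (nat_lit 0) (nat_lit 26968803613032) (nat_lit 152) (nat_lit 97281272001632) (nat_lit 0) (nat_lit 23709492834957) (nat_lit 3) (nat_lit 5) (nat_lit 5) (nat_lit 4) (nat_lit 3) (nat_lit 4) (nat_lit 428) (nat_lit 387) (nat_lit 205)) (XT.nd (nat_lit 78) (nat_lit 0) (nat_lit 0) (XT.lf (nat_lit 0) (nat_lit 48761688963073) (nat_lit 152) (nat_lit 73153523352297) (nat_lit 0) (nat_lit 45502378184993) (nat_lit 3) (nat_lit 5) (nat_lit 5) (nat_lit 4) (nat_lit 3) (nat_lit 4) (nat_lit 429) (nat_lit 387) (nat_lit 204)) (XT.lf (nat_lit 0) (nat_lit 73823507115579) (nat_lit 152) (nat_lit 45406612405647) (nat_lit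 0) (nat_lit 70564196337496) (nat_lit 3) (nat_lit 5) (nat_lit 5) (nat_lit 4) (nat_lit 3) (nat_lit 4) (nat_lit 430) (nat_lit 387) (nat_lit 203)))))) (XT.nd (nat_lit 468) (nat_lit 456) (nat_lit 0) (XT.nd (nat_lit 234) (nat_lit 152) (nat_lit 0) (XT.nd (nat_lit 78) (nat_lit 0) (nat_lit 0) (XT.lf (nat_lit 0) (nat_lit 463382321803) (nat_lit 380) (nat_lit 598700565418) (nat_lit 380) (nat_lit 598700565418) (nat_lit 33) (nat_lit 3) (nat_lit 38) (nat_lit 3) (nat_lit 38) (nat_lit 5) (nat_lit 388) (nat_lit 388) (nat_lit 244)) (XT.nd (nat_lit 78) (nat_lit 0) (nat_lit 76) (XT.lf (nat_lit 76) (nat_lit 485676360161) (nat_lit 0) (nat_lit 530706459565) (nat_lit 380) (nat_lit 2551284979267) (nat_lit 34) (nat_lit 5) (nat_lit 33) (nat_lit 3) (nat_lit 38) (nat_lit 5) (nat_lit 389) (nat_lit 388) (nat_lit 243)) (XT.lf (nat_lit 0) (nat_lit 1238919280205) (nat_lit 304) (nat_lit 1342392216597) (nat_lit 380) (nat_lit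 1251450996272) (nat_lit 34) (nat_lit 5) (nat_lit 38) (nat_lit 5) (nat_lit 39) (nat_lit 5) (nat_lit 390) (nat_lit 388) (nat_lit 242)))) (XT.nd (nat_lit 78) (nat_lit 228) (nat_lit 0) (XT.lf (nat_lit 76) (nat_lit 694724314715) (nat_lit 0) (nat_lit 854150682722) (nat_lit 380) (nat_lit 2580640575678) (nat_lit 35) (nat_lit 5) (nat_lit 34) (nat_lit 5) (nat_lit 39) (nat_lit 5) (nat_lit 391) (nat_lit 388) (nat_lit 241)) (XT.nd (nat_lit 78) (nat_lit 304) (nat_lit 0) (XT.lf (nat_lit 0) (nat_lit 2025713220967) (nat_lit 304) (nat_lit 1322199782326) (nat_lit 76) (nat_lit 1104810239564) (nat_lit 35) (nat_lit 5) (nat_lit 39) (nat_lit 5) (nat_lit 36) (nat_lit 5) (nat_lit 392) (nat_lit 388) (nat_lit 240)) (XT.lf (nat_lit 0) (nat_lit 1170843123851) (nat_lit 304) (nat_lit 1492390012471) (nat_lit 380) (nat_lit 2147805532994) (nat_lit 31) (nat_lit 5) (nat_lit 35) (nat_lit 5) (nat_lit 36) (nat_lit 5) (nat_lit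 393) (nat_lit 388) (nat_lit 239))))) (XT.nd (nat_lit 234) (nat_lit 304) (nat_lit 0) (XT.nd (nat_lit 78) (nat_lit 152) (nat_lit 0) (XT.lf (nat_lit 0) (nat_lit 3495348766701) (nat_lit 380) (nat_lit 1056147210395) (nat_lit 76) (nat_lit 656760273491) (nat_lit 31) (nat_lit 5) (nat_lit 36) (nat_lit 5) (nat_lit 32) (nat_lit 5) (nat_lit 394) (nat_lit 388) (nat_lit 238)) (XT.nd (nat_lit 78) (nat_lit 0) (nat_lit 0) (XT.lf (nat_lit 0) (nat_lit 2024694487500) (nat_lit 152) (nat_lit 2582491725732) (nat_lit 228) (nat_lit 1034634585077) (nat_lit 29) (nat_lit 5) (nat_lit 31) (nat_lit 5) (nat_lit 32) (nat_lit 5) (nat_lit 395) (nat_lit 388) (nat_lit 237)) (XT.lf (nat_lit 0) (nat_lit 5686358983916) (nat_lit 152) (nat_lit 254647987432) (nat_lit 228) (nat_lit 191131902651) (nat_lit 29) (nat_lit 5) (nat_lit 31) (nat_lit 5) (nat_lit 32) (nat_lit 5) (nat_lit 396) (nat_lit 388) (nat_lit 236)))) (XT.nd (nat_lit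 78) (nat_lit 152) (nat_lit 0) (XT.lf (nat_lit 0) (nat_lit 962300085921) (nat_lit 152) (nat_lit 3299544952371) (nat_lit 76) (nat_lit 2391409764054) (nat_lit 27) (nat_lit 5) (nat_lit 29) (nat_lit 5) (nat_lit 28) (nat_lit 5) (nat_lit 397) (nat_lit 388) (nat_lit 235)) (XT.nd (nat_lit 78) (nat_lit 0) (nat_lit 0) (XT.lf (nat_lit 0) (nat_lit 550886299678) (nat_lit 152) (nat_lit 1777641183892) (nat_lit 228) (nat_lit 4913743076948) (nat_lit 25) (nat_lit 5) (nat_lit 27) (nat_lit 5) (nat_lit 28) (nat_lit 5) (nat_lit 398) (nat_lit 388) (nat_lit 234)) (XT.lf (nat_lit 0) (nat_lit 4125065447958) (nat_lit 228) (nat_lit 2596961396701) (nat_lit 76) (nat_lit 1163805369192) (nat_lit 25) (nat_lit 5) (nat_lit 28) (nat_lit 5) (nat_lit 26) (nat_lit 4) (nat_lit 399) (nat_lit 388) (nat_lit 233))))))) (XT.nd (nat_lit 936) (nat_lit 684) (nat_lit 0) (XT.nd (nat_lit 468) (nat_lit 380) (nat_lit 0) (XT.nd (nat_lit 234)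 (nat_lit 152) (nat_lit 0) (XT.nd (nat_lit 78) (nat_lit 152) (nat_lit 0) (XT.lf (nat_lit 0) (nat_lit 2225066085882) (nat_lit 76) (nat_lit 4142802842619) (nat_lit 152) (nat_lit 2231541463459) (nat_lit 24) (nat_lit 5) (nat_lit 25) (nat_lit 5) (nat_lit 26) (nat_lit 4) (nat_lit 400) (nat_lit 388) (nat_lit 232)) (XT.nd (nat_lit 78) (nat_lit 152) (nat_lit 0) (XT.lf (nat_lit 0) (nat_lit 8062260738216) (nat_lit 76) (nat_lit 1020582447421) (nat_lit 152) (nat_lit 316819572972) (nat_lit 24) (nat_lit 5) (nat_lit 25) (nat_lit 5) (nat_lit 26) (nat_lit 4) (nat_lit 401) (nat_lit 388) (nat_lit 231)) (XT.lf (nat_lit 0) (nat_lit 2035848781475) (nat_lit 152) (nat_lit 5593231303608) (nat_lit 76) (nat_lit 2631379569398) (nat_lit 22) (nat_lit 5) (nat_lit 24) (nat_lit 5) (nat_lit 23) (nat_lit 4) (nat_lit 402) (nat_lit 388) (nat_lit 230)))) (XT.nd (nat_lit 78) (nat_lit 76) (nat_lit 0) (XT.lf (nat_lit 0) (nat_lit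 456604652173) (nat_lit 76) (nat_lit 4393121318193) (nat_lit 152) (nat_lit 6377275386784) (nat_lit 21) (nat_lit 5) (nat_lit 22) (nat_lit 5) (nat_lit 23) (nat_lit 4) (nat_lit 403) (nat_lit 388) (nat_lit 229)) (XT.nd (nat_lit 78) (nat_lit 76) (nat_lit 0) (XT.lf (nat_lit 0) (nat_lit 8042518928044) (nat_lit 76) (nat_lit 335539263792) (nat_lit 152) (nat_lit 3916610105246) (nat_lit 21) (nat_lit 5) (nat_lit 22) (nat_lit 5) (nat_lit 23) (nat_lit 4) (nat_lit 404) (nat_lit 388) (nat_lit 228)) (XT.lf (nat_lit 0) (nat_lit 3363997125721) (nat_lit 76) (nat_lit 9390263295500) (nat_lit 76) (nat_lit 720431830580) (nat_lit 20) (nat_lit 4) (nat_lit 21) (nat_lit 5) (nat_lit 21) (nat_lit 4) (nat_lit 405) (nat_lit 388) (nat_lit 227))))) (XT.nd (nat_lit 234) (nat_lit 152) (nat_lit 0) (XT.nd (nat_lit 78) (nat_lit 152) (nat_lit 0) (XT.lf (nat_lit 0) (nat_lit 2940917091702) (nat_lit 152) (nat_lit 2346859717950)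 (nat_lit 76) (nat_lit 9488262798313) (nat_lit 19) (nat_lit 5) (nat_lit 21) (nat_lit 5) (nat_lit 20) (nat_lit 4) (nat_lit 406) (nat_lit 388) (nat_lit 226)) (XT.nd (nat_lit 78) (nat_lit 76) (nat_lit 0) (XT.lf (nat_lit 0) (nat_lit 7187089094066) (nat_lit 76) (nat_lit 188222794000) (nat_lit 152) (nat_lit 8847490932940) (nat_lit 18) (nat_lit 5) (nat_lit 19) (nat_lit 5) (nat_lit 20) (nat_lit 4) (nat_lit 407) (nat_lit 388) (nat_lit 225)) (XT.lf (nat_lit 0) (nat_lit 335709702693) (nat_lit 76) (nat_lit 12516617733238) (nat_lit 76) (nat_lit 4977633850263) (nat_lit 17) (nat_lit 4) (nat_lit 18) (nat_lit 5) (nat_lit 18) (nat_lit 4) (nat_lit 408) (nat_lit 388) (nat_lit 224)))) (XT.nd (nat_lit 78) (nat_lit 76) (nat_lit 0) (XT.lf (nat_lit 0) (nat_lit 23421411932) (nat_lit 152) (nat_lit 7488627847428) (nat_lit 76) (nat_lit 12093853023249) (nat_lit 16) (nat_lit 5) (nat_lit 18) (nat_lit 5) (nat_lit 17)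 (nat_lit 4) (nat_lit 409) (nat_lit 388) (nat_lit 223)) (XT.nd (nat_lit 78) (nat_lit 0) (nat_lit 0) (XT.lf (nat_lit 0) (nat_lit 4150297443583) (nat_lit 76) (nat_lit 1286577592120) (nat_lit 152) (nat_lit 16150026620316) (nat_lit 15) (nat_lit 5) (nat_lit 16) (nat_lit 5) (nat_lit 17) (nat_lit 4) (nat_lit 410) (nat_lit 388) (nat_lit 222)) (XT.lf (nat_lit 0) (nat_lit 12315614825167) (nat_lit 152) (nat_lit 5691469226144) (nat_lit 0) (nat_lit 5759976665809) (nat_lit 15) (nat_lit 5) (nat_lit 17) (nat_lit 4) (nat_lit 15) (nat_lit 4) (nat_lit 411) (nat_lit 388) (nat_lit 221)))))) (XT.nd (nat_lit 468) (nat_lit 304) (nat_lit 0) (XT.nd (nat_lit 234) (nat_lit 152) (nat_lit 0) (XT.nd (nat_lit 78) (nat_lit 152) (nat_lit 0) (XT.lf (nat_lit 0) (nat_lit 8511964334427) (nat_lit 76) (nat_lit 12127929139383) (nat_lit 76) (nat_lit 5572290979962) (nat_lit 14) (nat_lit 4) (nat_lit 15) (nat_lit 5) (nat_lit 15)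 (nat_lit 4) (nat_lit 412) (nat_lit 388) (nat_lit 220)) (XT.nd (nat_lit 78) (nat_lit 76) (nat_lit 0) (XT.lf (nat_lit 0) (nat_lit 1394583261377) (nat_lit 152) (nat_lit 3557284147512) (nat_lit 76) (nat_lit 24018074527021) (nat_lit 13) (nat_lit 5) (nat_lit 15) (nat_lit 5) (nat_lit 14) (nat_lit 4) (nat_lit 413) (nat_lit 388) (nat_lit 219)) (XT.lf (nat_lit 0) (nat_lit 9577762766573) (nat_lit 152) (nat_lit 18535324762349) (nat_lit 0) (nat_lit 3877207845250) (nat_lit 12) (nat_lit 5) (nat_lit 14) (nat_lit 4) (nat_lit 12) (nat_lit 4) (nat_lit 414) (nat_lit 388) (nat_lit 218)))) (XT.nd (nat_lit 78) (nat_lit 152) (nat_lit 0) (XT.lf (nat_lit 0) (nat_lit 19419026063069) (nat_lit 152) (nat_lit 2261613593568) (nat_lit 0) (nat_lit 13718471141710) (nat_lit 12) (nat_lit 5) (nat_lit 14) (nat_lit 4) (nat_lit 12) (nat_lit 4) (nat_lit 415) (nat_lit 388) (nat_lit 217)) (XT.nd (nat_lit 78) (nat_lit 76) (nat_lit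 0) (XT.lf (nat_lit 0) (nat_lit 18061076142951) (nat_lit 76) (nat_lit 13423273358720) (nat_lit 76) (nat_lit 7722718437330) (nat_lit 11) (nat_lit 4) (nat_lit 12) (nat_lit 5) (nat_lit 12) (nat_lit 4) (nat_lit 416) (nat_lit 388) (nat_lit 216)) (XT.lf (nat_lit 0) (nat_lit 1739235846447) (nat_lit 152) (nat_lit 1961197851555) (nat_lit 76) (nat_lit 39856193419955) (nat_lit 10) (nat_lit 5) (nat_lit 12) (nat_lit 5) (nat_lit 11) (nat_lit 4) (nat_lit 417) (nat_lit 388) (nat_lit 215))))) (XT.nd (nat_lit 234) (nat_lit 152) (nat_lit 0) (XT.nd (nat_lit 78) (nat_lit 76) (nat_lit 0) (XT.lf (nat_lit 0) (nat_lit 13096794785637) (nat_lit 152) (nat_lit 27076826990229) (nat_lit 0) (nat_lit 8139790506124) (nat_lit 9) (nat_lit 5) (nat_lit 11) (nat_lit 4) (nat_lit 9) (nat_lit 4) (nat_lit 418) (nat_lit 388) (nat_lit 214)) (XT.nd (nat_lit 78) (nat_lit 76) (nat_lit 0) (XT.lf (nat_lit 0) (nat_lit 26441597624055) (nat_lit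 152) (nat_lit 5814982743296) (nat_lit 0) (nat_lit 21484593344524) (nat_lit 9) (nat_lit 5) (nat_lit 11) (nat_lit 4) (nat_lit 9) (nat_lit 4) (nat_lit 419) (nat_lit 388) (nat_lit 213)) (XT.lf (nat_lit 0) (nat_lit 20457397095147) (nat_lit 76) (nat_lit 22177820981213) (nat_lit 76) (nat_lit 17220816701666) (nat_lit 8) (nat_lit 4) (nat_lit 9) (nat_lit 5) (nat_lit 9) (nat_lit 4) (nat_lit 420) (nat_lit 388) (nat_lit 212)))) (XT.nd (nat_lit 156) (nat_lit 0) (nat_lit 0) (XT.nd (nat_lit 78) (nat_lit 152) (nat_lit 0) (XT.lf (nat_lit 0) (nat_lit 51324158674323) (nat_lit 76) (nat_lit 10237687929146) (nat_lit 76) (nat_lit 5280683649586) (nat_lit 8) (nat_lit 4) (nat_lit 9) (nat_lit 5) (nat_lit 9) (nat_lit 4) (nat_lit 421) (nat_lit 388) (nat_lit 211)) (XT.lf (nat_lit 0) (nat_lit 8411565863880) (nat_lit 152) (nat_lit 62204807079923) (nat_lit 0) (nat_lit 4101127359905) (nat_lit 6) (nat_lit 5) (nat_lit 8)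 (nat_lit 4) (nat_lit 6) (nat_lit 4) (nat_lit 422) (nat_lit 388) (nat_lit 210))) (XT.nd (nat_lit 78) (nat_lit 0) (nat_lit 0) (XT.lf (nat_lit 0) (nat_lit 24954335918491) (nat_lit 152) (nat_lit 37937164679728) (nat_lit 0) (nat_lit 20643897414506) (nat_lit 6) (nat_lit 5) (nat_lit 8) (nat_lit 4) (nat_lit 6) (nat_lit 4) (nat_lit 423) (nat_lit 388) (nat_lit 209)) (XT.lf (nat_lit 0) (nat_lit 43978521481232) (nat_lit 152) (nat_lit 10029375919632) (nat_lit 0) (nat_lit 39668082977240) (nat_lit 6) (nat_lit 5) (nat_lit 8) (nat_lit 4) (nat_lit 6) (nat_lit 4) (nat_lit 424) (nat_lit 388) (nat_lit 208))))))))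
noncomputable def xc114 : XT := (XT.nd (nat_lit 51792) (nat_lit 0) (nat_lit 0) (XT.nd (nat_lit 50856) (nat_lit 0) (nat_lit 1216) (XT.nd (nat_lit 50388) (nat_lit 0) (nat_lit 2128) (XT.nd (nat_lit 234) (nat_lit 152) (nat_lit 0) (XT.nd (nat_lit 78) (nat_lit 0) (nat_lit 0) (XT.lf (nat_lit 0) (nat_lit 24220892494450) (nat_lit 76) (nat_lit 42638377890897) (nat_lit 76) (nat_lit 38327939386899) (nat_lit 5) (nat_lit 4) (nat_lit 6) (nat_lit 5) (nat_lit 6) (nat_lit 4) (nat_lit 425) (nat_lit 388) (nat_lit 207)) (XT.nd (nat_lit 78) (nat_lit 0) (nat_lit 0) (XT.lf (nat_lit 0) (nat_lit 64735866259690) (nat_lit 76) (nat_lit 28960528197504) (nat_lit 76) (nat_lit 24650089693499) (nat_lit 5) (nat_lit 4) (nat_lit 6) (nat_lit 5) (nat_lit 6) (nat_lit 4) (nat_lit 426) (nat_lit 388) (nat_lit 206)) (XT.lf (nat_lit 0) (nat_lit 111328086089623) (nat_lit 76) (nat_lit 13231001050149) (nat_lit 76) (nat_lit 8920562546140)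 (nat_lit 5) (nat_lit 4) (nat_lit 6) (nat_lit 5) (nat_lit 6) (nat_lit 4) (nat_lit 427) (nat_lit 388) (nat_lit 205)))) (XT.nd (nat_lit 78) (nat_lit 0) (nat_lit 0) (XT.lf (nat_lit 0) (nat_lit 9221238805395) (nat_lit 152) (nat_lit 136001211450260) (nat_lit 0) (nat_lit 5473031410601) (nat_lit 3) (nat_lit 5) (nat_lit 5) (nat_lit 4) (nat_lit 3) (nat_lit 4) (nat_lit 428) (nat_lit 388) (nat_lit 204)) (XT.nd (nat_lit 49998) (nat_lit 0) (nat_lit 2280) (XT.lf (nat_lit 0) (nat_lit 31014124155417) (nat_lit 152) (nat_lit 111873462800965) (nat_lit 0) (nat_lit 27265916760619) (nat_lit 3) (nat_lit 5) (nat_lit 5) (nat_lit 4) (nat_lit 3) (nat_lit 4) (nat_lit 429) (nat_lit 388) (nat_lit 203)) (XT.lf (nat_lit 0) (nat_lit 532889675329) (nat_lit 380) (nat_lit 688505647206) (nat_lit 380) (nat_lit 688505647206) (nat_lit 33) (nat_lit 3) (nat_lit 38) (nat_lit 3) (nat_lit 38) (nat_lit 5) (nat_lit 389) (nat_lit 389)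 (nat_lit 242))))) (XT.nd (nat_lit 234) (nat_lit 152) (nat_lit 0) (XT.nd (nat_lit 78) (nat_lit 0) (nat_lit 76) (XT.lf (nat_lit 76) (nat_lit 558527819958) (nat_lit 0) (nat_lit 610312432106) (nat_lit 380) (nat_lit 2933977715363) (nat_lit 34) (nat_lit 5) (nat_lit 33) (nat_lit 3) (nat_lit 38) (nat_lit 5) (nat_lit 390) (nat_lit 389) (nat_lit 241)) (XT.nd (nat_lit 78) (nat_lit 0) (nat_lit 0) (XT.lf (nat_lit 0) (nat_lit 1424757180263) (nat_lit 304) (nat_lit 1543751042707) (nat_lit 380) (nat_lit 1439168642856) (nat_lit 34) (nat_lit 5) (nat_lit 38) (nat_lit 5) (nat_lit 39) (nat_lit 5) (nat_lit 391) (nat_lit 389) (nat_lit 240)) (XT.lf (nat_lit 76) (nat_lit 798932968012) (nat_lit 0) (nat_lit 982273286273) (nat_lit 380) (nat_lit 2967736653708) (nat_lit 35) (nat_lit 5) (nat_lit 34) (nat_lit 5) (nat_lit 39) (nat_lit 5) (nat_lit 392) (nat_lit 389) (nat_lit 239)))) (XT.nd (nat_lit 78) (nat_lit 304) (nat_lit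 0) (XT.lf (nat_lit 0) (nat_lit 2329570210360) (nat_lit 304) (nat_lit 1520529743392) (nat_lit 76) (nat_lit 1270531774593) (nat_lit 35) (nat_lit 5) (nat_lit 39) (nat_lit 5) (nat_lit 36) (nat_lit 5) (nat_lit 393) (nat_lit 389) (nat_lit 238)) (XT.nd (nat_lit 78) (nat_lit 0) (nat_lit 0) (XT.lf (nat_lit 0) (nat_lit 1346469598427) (nat_lit 304) (nat_lit 1716248514025) (nat_lit 380) (nat_lit 2469976356407) (nat_lit 31) (nat_lit 5) (nat_lit 35) (nat_lit 5) (nat_lit 36) (nat_lit 5) (nat_lit 394) (nat_lit 389) (nat_lit 237)) (XT.lf (nat_lit 0) (nat_lit 4019651086657) (nat_lit 380) (nat_lit 1214569286006) (nat_lit 76) (nat_lit 755274314766) (nat_lit 31) (nat_lit 5) (nat_lit 36) (nat_lit 5) (nat_lit 32) (nat_lit 5) (nat_lit 395) (nat_lit 389) (nat_lit 236)))))) (XT.nd (nat_lit 468) (nat_lit 380) (nat_lit 0) (XT.nd (nat_lit 234) (nat_lit 228) (nat_lit 0) (XT.nd (nat_lit 78) (nat_lit 152) (nat_lit 0)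 (XT.lf (nat_lit 0) (nat_lit 2328398666304) (nat_lit 152) (nat_lit 2969865483454) (nat_lit 228) (nat_lit 1189829767614) (nat_lit 29) (nat_lit 5) (nat_lit 31) (nat_lit 5) (nat_lit 32) (nat_lit 5) (nat_lit 396) (nat_lit 389) (nat_lit 235)) (XT.nd (nat_lit 78) (nat_lit 152) (nat_lit 0) (XT.lf (nat_lit 0) (nat_lit 6539312836441) (nat_lit 152) (nat_lit 292845184558) (nat_lit 228) (nat_lit 219801683506) (nat_lit 29) (nat_lit 5) (nat_lit 31) (nat_lit 5) (nat_lit 32) (nat_lit 5) (nat_lit 397) (nat_lit 389) (nat_lit 234)) (XT.lf (nat_lit 0) (nat_lit 1106645102673) (nat_lit 152) (nat_lit 3794476689605) (nat_lit 76) (nat_lit 2750121229839) (nat_lit 27) (nat_lit 5) (nat_lit 29) (nat_lit 5) (nat_lit 28) (nat_lit 5) (nat_lit 398) (nat_lit 389) (nat_lit 233)))) (XT.nd (nat_lit 78) (nat_lit 76) (nat_lit 0) (XT.lf (nat_lit 0) (nat_lit 633519249995) (nat_lit 152) (nat_lit 2044287359693) (nat_lit 228) (nat_lit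 5650804534369) (nat_lit 25) (nat_lit 5) (nat_lit 27) (nat_lit 5) (nat_lit 28) (nat_lit 5) (nat_lit 399) (nat_lit 389) (nat_lit 232)) (XT.nd (nat_lit 78) (nat_lit 76) (nat_lit 0) (XT.lf (nat_lit 0) (nat_lit 4743825268331) (nat_lit 228) (nat_lit 2986505601136) (nat_lit 76) (nat_lit 1338376175983) (nat_lit 25) (nat_lit 5) (nat_lit 28) (nat_lit 5) (nat_lit 26) (nat_lit 4) (nat_lit 400) (nat_lit 389) (nat_lit 231)) (XT.lf (nat_lit 0) (nat_lit 2558826003604) (nat_lit 76) (nat_lit 4764223267137) (nat_lit 152) (nat_lit 2566272679568) (nat_lit 24) (nat_lit 5) (nat_lit 25) (nat_lit 5) (nat_lit 26) (nat_lit 4) (nat_lit 401) (nat_lit 389) (nat_lit 230))))) (XT.nd (nat_lit 234) (nat_lit 152) (nat_lit 0) (XT.nd (nat_lit 78) (nat_lit 228) (nat_lit 0) (XT.lf (nat_lit 0) (nat_lit 9271599853157) (nat_lit 76) (nat_lit 1173669812904) (nat_lit 152) (nat_lit 364342505953) (nat_lit 24) (nat_lit 5) (nat_lit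 25) (nat_lit 5) (nat_lit 26) (nat_lit 4) (nat_lit 402) (nat_lit 389) (nat_lit 229)) (XT.nd (nat_lit 78) (nat_lit 76) (nat_lit 0) (XT.lf (nat_lit 0) (nat_lit 2341226101294) (nat_lit 152) (nat_lit 6432215994572) (nat_lit 76) (nat_lit 3026086506396) (nat_lit 22) (nat_lit 5) (nat_lit 24) (nat_lit 5) (nat_lit 23) (nat_lit 4) (nat_lit 403) (nat_lit 389) (nat_lit 228)) (XT.lf (nat_lit 0) (nat_lit 525095354368) (nat_lit 76) (nat_lit 5052089513993) (nat_lit 152) (nat_lit 7333866691995) (nat_lit 21) (nat_lit 5) (nat_lit 22) (nat_lit 5) (nat_lit 23) (nat_lit 4) (nat_lit 404) (nat_lit 389) (nat_lit 227)))) (XT.nd (nat_lit 78) (nat_lit 152) (nat_lit 0) (XT.lf (nat_lit 0) (nat_lit 9248896771050) (nat_lit 76) (nat_lit 385870151683) (nat_lit 152) (nat_lit 4504101618592) (nat_lit 21) (nat_lit 5) (nat_lit 22) (nat_lit 5) (nat_lit 23) (nat_lit 4) (nat_lit 405) (nat_lit 389) (nat_lit 226)) (XT.nd (nat_lit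 78) (nat_lit 76) (nat_lit 0) (XT.lf (nat_lit 0) (nat_lit 3868596698443) (nat_lit 76) (nat_lit 10798802788025) (nat_lit 76) (nat_lit 828496602791) (nat_lit 20) (nat_lit 4) (nat_lit 21) (nat_lit 5) (nat_lit 21) (nat_lit 4) (nat_lit 406) (nat_lit 389) (nat_lit 225)) (XT.lf (nat_lit 0) (nat_lit 3382054657339) (nat_lit 152) (nat_lit 2698888672098) (nat_lit 76) (nat_lit 10911502219440) (nat_lit 19) (nat_lit 5) (nat_lit 21) (nat_lit 5) (nat_lit 20) (nat_lit 4) (nat_lit 407) (nat_lit 389) (nat_lit 224))))))) (XT.nd (nat_lit 936) (nat_lit 456) (nat_lit 0) (XT.nd (nat_lit 468) (nat_lit 380) (nat_lit 0) (XT.nd (nat_lit 234) (nat_lit 152) (nat_lit 0) (XT.nd (nat_lit 78) (nat_lit 152) (nat_lit 0) (XT.lf (nat_lit 0) (nat_lit 8265152461560) (nat_lit 76) (nat_lit 216456211492) (nat_lit 152) (nat_lit 10174614570837) (nat_lit 18) (nat_lit 5) (nat_lit 19) (nat_lit 5) (nat_lit 20) (nat_lit 4) (nat_lit 408)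 (nat_lit 389) (nat_lit 223)) (XT.nd (nat_lit 78) (nat_lit 76) (nat_lit 0) (XT.lf (nat_lit 0) (nat_lit 386066161519) (nat_lit 76) (nat_lit 14394110391547) (nat_lit 76) (nat_lit 5724278925796) (nat_lit 17) (nat_lit 4) (nat_lit 18) (nat_lit 5) (nat_lit 18) (nat_lit 4) (nat_lit 409) (nat_lit 389) (nat_lit 222)) (XT.lf (nat_lit 0) (nat_lit 26934625312) (nat_lit 152) (nat_lit 8611922021412) (nat_lit 76) (nat_lit 13907930978039) (nat_lit 16) (nat_lit 5) (nat_lit 18) (nat_lit 5) (nat_lit 17) (nat_lit 4) (nat_lit 410) (nat_lit 389) (nat_lit 221)))) (XT.nd (nat_lit 78) (nat_lit 76) (nat_lit 0) (XT.lf (nat_lit 0) (nat_lit 4772842063108) (nat_lit 76) (nat_lit 1479564229455) (nat_lit 152) (nat_lit 18572530611631) (nat_lit 15) (nat_lit 5) (nat_lit 16) (nat_lit 5) (nat_lit 17) (nat_lit 4) (nat_lit 411) (nat_lit 389) (nat_lit 220)) (XT.nd (nat_lit 78) (nat_lit 76) (nat_lit 0) (XT.lf (nat_lit 0) (nat_lit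 14162957050305) (nat_lit 152) (nat_lit 6545189607324) (nat_lit 0) (nat_lit 6623973166855) (nat_lit 15) (nat_lit 5) (nat_lit 17) (nat_lit 4) (nat_lit 15) (nat_lit 4) (nat_lit 412) (nat_lit 389) (nat_lit 219)) (XT.lf (nat_lit 0) (nat_lit 9788758987209) (nat_lit 76) (nat_lit 13947118508966) (nat_lit 76) (nat_lit 6408134625469) (nat_lit 14) (nat_lit 4) (nat_lit 15) (nat_lit 5) (nat_lit 15) (nat_lit 4) (nat_lit 413) (nat_lit 389) (nat_lit 218))))) (XT.nd (nat_lit 234) (nat_lit 228) (nat_lit 0) (XT.nd (nat_lit 78) (nat_lit 76) (nat_lit 0) (XT.lf (nat_lit 0) (nat_lit 1603770751762) (nat_lit 152) (nat_lit 4090876767248) (nat_lit 76) (nat_lit 27620785707110) (nat_lit 13) (nat_lit 5) (nat_lit 15) (nat_lit 5) (nat_lit 14) (nat_lit 4) (nat_lit 414) (nat_lit 389) (nat_lit 217)) (XT.nd (nat_lit 78) (nat_lit 0) (nat_lit 0) (XT.lf (nat_lit 0) (nat_lit 11014427182727) (nat_lit 152) (nat_lit 21315623474300)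 (nat_lit 0) (nat_lit 4458789023097) (nat_lit 12) (nat_lit 5) (nat_lit 14) (nat_lit 4) (nat_lit 12) (nat_lit 4) (nat_lit 415) (nat_lit 389) (nat_lit 216)) (XT.lf (nat_lit 0) (nat_lit 22331879973544) (nat_lit 152) (nat_lit 2600855630514) (nat_lit 0) (nat_lit 15776241813888) (nat_lit 12) (nat_lit 5) (nat_lit 14) (nat_lit 4) (nat_lit 12) (nat_lit 4) (nat_lit 416) (nat_lit 389) (nat_lit 215)))) (XT.nd (nat_lit 78) (nat_lit 152) (nat_lit 0) (XT.lf (nat_lit 0) (nat_lit 20770237566387) (nat_lit 76) (nat_lit 15436764361500) (nat_lit 76) (nat_lit 8881126201819) (nat_lit 11) (nat_lit 4) (nat_lit 12) (nat_lit 5) (nat_lit 12) (nat_lit 4) (nat_lit 417) (nat_lit 389) (nat_lit 214)) (XT.nd (nat_lit 78) (nat_lit 76) (nat_lit 0) (XT.lf (nat_lit 0) (nat_lit 2000121224293) (nat_lit 152) (nat_lit 2255377527469) (nat_lit 76) (nat_lit 45834622433757) (nat_lit 10) (nat_lit 5) (nat_lit 12) (nat_lit 5) (nat_lit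 11) (nat_lit 4) (nat_lit 418) (nat_lit 389) (nat_lit 213)) (XT.lf (nat_lit 0) (nat_lit 15061314004357) (nat_lit 152) (nat_lit 31138351036938) (nat_lit 0) (nat_lit 9360759082863) (nat_lit 9) (nat_lit 5) (nat_lit 11) (nat_lit 4) (nat_lit 9) (nat_lit 4) (nat_lit 419) (nat_lit 389) (nat_lit 212)))))) (XT.nd (nat_lit 468) (nat_lit 228) (nat_lit 0) (XT.nd (nat_lit 234) (nat_lit 152) (nat_lit 0) (XT.nd (nat_lit 78) (nat_lit 76) (nat_lit 0) (XT.lf (nat_lit 0) (nat_lit 30407837268424) (nat_lit 152) (nat_lit 6687230153203) (nat_lit 0) (nat_lit 24707282346916) (nat_lit 9) (nat_lit 5) (nat_lit 11) (nat_lit 4) (nat_lit 9) (nat_lit 4) (nat_lit 420) (nat_lit 389) (nat_lit 211)) (XT.nd (nat_lit 78) (nat_lit 0) (nat_lit 0) (XT.lf (nat_lit 0) (nat_lit 23526006660934) (nat_lit 76) (nat_lit 25504494127603) (nat_lit 76) (nat_lit 19803939206084) (nat_lit 8) (nat_lit 4) (nat_lit 9) (nat_lit 5) (nat_lit 9) (nat_lit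 4) (nat_lit 421) (nat_lit 389) (nat_lit 210)) (XT.lf (nat_lit 0) (nat_lit 59022782476789) (nat_lit 76) (nat_lit 11773341117829) (nat_lit 76) (nat_lit 6072786196300) (nat_lit 8) (nat_lit 4) (nat_lit 9) (nat_lit 5) (nat_lit 9) (nat_lit 4) (nat_lit 422) (nat_lit 389) (nat_lit 209)))) (XT.nd (nat_lit 78) (nat_lit 0) (nat_lit 0) (XT.lf (nat_lit 0) (nat_lit 9673300744119) (nat_lit 152) (nat_lit 71535528140527) (nat_lit 0) (nat_lit 4716296464520) (nat_lit 6) (nat_lit 5) (nat_lit 8) (nat_lit 4) (nat_lit 6) (nat_lit 4) (nat_lit 423) (nat_lit 389) (nat_lit 208)) (XT.nd (nat_lit 78) (nat_lit 0) (nat_lit 0) (XT.lf (nat_lit 0) (nat_lit 28697486306835) (nat_lit 152) (nat_lit 43627739380483) (nat_lit 0) (nat_lit 23740482027230) (nat_lit 6) (nat_lit 5) (nat_lit 8) (nat_lit 4) (nat_lit 6) (nat_lit 4) (nat_lit 424) (nat_lit 389) (nat_lit 207)) (XT.lf (nat_lit 0) (nat_lit 50575299703913) (nat_lit 152) (nat_lit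 11533782306531) (nat_lit 0) (nat_lit 45618295424302) (nat_lit 6) (nat_lit 5) (nat_lit 8) (nat_lit 4) (nat_lit 6) (nat_lit 4) (nat_lit 425) (nat_lit 389) (nat_lit 206))))) (XT.nd (nat_lit 234) (nat_lit 152) (nat_lit 0) (XT.nd (nat_lit 78) (nat_lit 0) (nat_lit 0) (XT.lf (nat_lit 0) (nat_lit 27854026369618) (nat_lit 76) (nat_lit 49034134574006) (nat_lit 76) (nat_lit 44077130294390) (nat_lit 5) (nat_lit 4) (nat_lit 6) (nat_lit 5) (nat_lit 6) (nat_lit 4) (nat_lit 426) (nat_lit 389) (nat_lit 205)) (XT.nd (nat_lit 78) (nat_lit 0) (nat_lit 0) (XT.lf (nat_lit 0) (nat_lit 74446246199513) (nat_lit 76) (nat_lit 33304607426671) (nat_lit 76) (nat_lit 28347603147051) (nat_lit 5) (nat_lit 4) (nat_lit 6) (nat_lit 5) (nat_lit 6) (nat_lit 4) (nat_lit 427) (nat_lit 389) (nat_lit 204)) (XT.lf (nat_lit 0) (nat_lit 128027299003822) (nat_lit 76) (nat_lit 15215651207274) (nat_lit 76) (nat_lit 10258646927650)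 (nat_lit 5) (nat_lit 4) (nat_lit 6) (nat_lit 5) (nat_lit 6) (nat_lit 4) (nat_lit 428) (nat_lit 389) (nat_lit 203)))) (XT.nd (nat_lit 50154) (nat_lit 0) (nat_lit 2280) (XT.nd (nat_lit 50076) (nat_lit 0) (nat_lit 2280) (XT.lf (nat_lit 0) (nat_lit 10604424626579) (nat_lit 152) (nat_lit 156401393167006) (nat_lit 0) (nat_lit 6293986122555) (nat_lit 3) (nat_lit 5) (nat_lit 5) (nat_lit 4) (nat_lit 3) (nat_lit 4) (nat_lit 429) (nat_lit 389) (nat_lit 202)) (XT.lf (nat_lit 0) (nat_lit 612823130603) (nat_lit 380) (nat_lit 791781492001) (nat_lit 380) (nat_lit 791781492001) (nat_lit 33) (nat_lit 3) (nat_lit 38) (nat_lit 3) (nat_lit 38) (nat_lit 5) (nat_lit 390) (nat_lit 390) (nat_lit 240))) (XT.nd (nat_lit 78) (nat_lit 0) (nat_lit 76) (XT.lf (nat_lit 76) (nat_lit 642306997318) (nat_lit 0) (nat_lit 701859299649) (nat_lit 380) (nat_lit 3374074364507) (nat_lit 34) (nat_lit 5) (nat_lit 33) (nat_lit 3)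 (nat_lit 38) (nat_lit 5) (nat_lit 391) (nat_lit 390) (nat_lit 239)) (XT.lf (nat_lit 0) (nat_lit 1638470763371) (nat_lit 304) (nat_lit 1775313694290) (nat_lit 380) (nat_lit 1655043937124) (nat_lit 34) (nat_lit 5) (nat_lit 38) (nat_lit 5) (nat_lit 39) (nat_lit 5) (nat_lit 392) (nat_lit 390) (nat_lit 238))))))))
noncomputable def xc115 : XT := (XT.nd (nat_lit 1872) (nat_lit 532) (nat_lit 0) (XT.nd (nat_lit 936) (nat_lit 760) (nat_lit 0) (XT.nd (nat_lit 468) (nat_lit 532) (nat_lit 0) (XT.nd (nat_lit 234) (nat_lit 152) (nat_lit 0) (XT.nd (nat_lit 78) (nat_lit 228) (nat_lit 0) (XT.lf (nat_lit 76) (nat_lit 918772917818) (nat_lit 0) (nat_lit 1129614280078) (nat_lit 380) (nat_lit 3412897145473) (nat_lit 35) (nat_lit 5) (nat_lit 34) (nat_lit 5) (nat_lit 39) (nat_lit 5) (nat_lit 393) (nat_lit 390) (nat_lit 237)) (XT.nd (nat_lit 78) (nat_lit 304) (nat_lit 0) (XT.lf (nat_lit 0) (nat_lit 2679005746638)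 (nat_lit 304) (nat_lit 1748609200149) (nat_lit 76) (nat_lit 1461111540098) (nat_lit 35) (nat_lit 5) (nat_lit 39) (nat_lit 5) (nat_lit 36) (nat_lit 5) (nat_lit 394) (nat_lit 390) (nat_lit 236)) (XT.lf (nat_lit 0) (nat_lit 1548440042726) (nat_lit 304) (nat_lit 1973685790889) (nat_lit 380) (nat_lit 2840472804925) (nat_lit 31) (nat_lit 5) (nat_lit 35) (nat_lit 5) (nat_lit 36) (nat_lit 5) (nat_lit 395) (nat_lit 390) (nat_lit 235)))) (XT.nd (nat_lit 78) (nat_lit 152) (nat_lit 0) (XT.lf (nat_lit 0) (nat_lit 4622598753400) (nat_lit 380) (nat_lit 1396754674409) (nat_lit 76) (nat_lit 868565462171) (nat_lit 31) (nat_lit 5) (nat_lit 36) (nat_lit 5) (nat_lit 32) (nat_lit 5) (nat_lit 396) (nat_lit 390) (nat_lit 234)) (XT.nd (nat_lit 78) (nat_lit 0) (nat_lit 0) (XT.lf (nat_lit 0) (nat_lit 2677658470543) (nat_lit 152) (nat_lit 3415345305112) (nat_lit 228) (nat_lit 1368304228805) (nat_lit 29) (nat_lit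 5) (nat_lit 31) (nat_lit 5) (nat_lit 32) (nat_lit 5) (nat_lit 397) (nat_lit 390) (nat_lit 233)) (XT.lf (nat_lit 0) (nat_lit 7520209765640) (nat_lit 152) (nat_lit 336771961494) (nat_lit 228) (nat_lit 252771932596) (nat_lit 29) (nat_lit 5) (nat_lit 31) (nat_lit 5) (nat_lit 32) (nat_lit 5) (nat_lit 398) (nat_lit 390) (nat_lit 232))))) (XT.nd (nat_lit 234) (nat_lit 228) (nat_lit 0) (XT.nd (nat_lit 78) (nat_lit 152) (nat_lit 0) (XT.lf (nat_lit 0) (nat_lit 1272641870995) (nat_lit 152) (nat_lit 4363648188796) (nat_lit 76) (nat_lit 3162639415204) (nat_lit 27) (nat_lit 5) (nat_lit 29) (nat_lit 5) (nat_lit 28) (nat_lit 5) (nat_lit 399) (nat_lit 390) (nat_lit 231)) (XT.nd (nat_lit 78) (nat_lit 0) (nat_lit 0) (XT.lf (nat_lit 0) (nat_lit 728547141551) (nat_lit 152) (nat_lit 2350930462298) (nat_lit 228) (nat_lit 6498425211409) (nat_lit 25) (nat_lit 5) (nat_lit 27) (nat_lit 5) (nat_lit 28) (nat_lit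 5) (nat_lit 400) (nat_lit 390) (nat_lit 230)) (XT.lf (nat_lit 0) (nat_lit 5455399060984) (nat_lit 228) (nat_lit 3434481437473) (nat_lit 76) (nat_lit 1539132603450) (nat_lit 25) (nat_lit 5) (nat_lit 28) (nat_lit 5) (nat_lit 26) (nat_lit 4) (nat_lit 401) (nat_lit 390) (nat_lit 229)))) (XT.nd (nat_lit 78) (nat_lit 152) (nat_lit 0) (XT.lf (nat_lit 0) (nat_lit 2942649907804) (nat_lit 76) (nat_lit 5478856755790) (nat_lit 152) (nat_lit 2951213578924) (nat_lit 24) (nat_lit 5) (nat_lit 25) (nat_lit 5) (nat_lit 26) (nat_lit 4) (nat_lit 402) (nat_lit 390) (nat_lit 228)) (XT.nd (nat_lit 78) (nat_lit 152) (nat_lit 0) (XT.lf (nat_lit 0) (nat_lit 10662339834312) (nat_lit 76) (nat_lit 1349720283607) (nat_lit 152) (nat_lit 418993879603) (nat_lit 24) (nat_lit 5) (nat_lit 25) (nat_lit 5) (nat_lit 26) (nat_lit 4) (nat_lit 403) (nat_lit 390) (nat_lit 227)) (XT.lf (nat_lit 0) (nat_lit 2692410018453) (nat_lit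 152) (nat_lit 7397048390296) (nat_lit 76) (nat_lit 3479999483557) (nat_lit 22) (nat_lit 5) (nat_lit 24) (nat_lit 5) (nat_lit 23) (nat_lit 4) (nat_lit 404) (nat_lit 390) (nat_lit 226)))))) (XT.nd (nat_lit 468) (nat_lit 380) (nat_lit 0) (XT.nd (nat_lit 234) (nat_lit 228) (nat_lit 0) (XT.nd (nat_lit 78) (nat_lit 76) (nat_lit 0) (XT.lf (nat_lit 0) (nat_lit 603859660827) (nat_lit 76) (nat_lit 5809902939633) (nat_lit 152) (nat_lit 8433946693672) (nat_lit 21) (nat_lit 5) (nat_lit 22) (nat_lit 5) (nat_lit 23) (nat_lit 4) (nat_lit 405) (nat_lit 390) (nat_lit 225)) (XT.nd (nat_lit 78) (nat_lit 76) (nat_lit 0) (XT.lf (nat_lit 0) (nat_lit 10636231289580) (nat_lit 76) (nat_lit 443750673168) (nat_lit 152) (nat_lit 5179716859535) (nat_lit 21) (nat_lit 5) (nat_lit 22) (nat_lit 5) (nat_lit 23) (nat_lit 4) (nat_lit 406) (nat_lit 390) (nat_lit 224)) (XT.lf (nat_lit 0) (nat_lit 4448886206132) (nat_lit 76)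 (nat_lit 12418623204869) (nat_lit 76) (nat_lit 952771091413) (nat_lit 20) (nat_lit 4) (nat_lit 21) (nat_lit 5) (nat_lit 21) (nat_lit 4) (nat_lit 407) (nat_lit 390) (nat_lit 223)))) (XT.nd (nat_lit 78) (nat_lit 152) (nat_lit 0) (XT.lf (nat_lit 0) (nat_lit 3889362857363) (nat_lit 152) (nat_lit 3103721970232) (nat_lit 76) (nat_lit 12548227553400) (nat_lit 19) (nat_lit 5) (nat_lit 21) (nat_lit 5) (nat_lit 20) (nat_lit 4) (nat_lit 408) (nat_lit 390) (nat_lit 222)) (XT.nd (nat_lit 78) (nat_lit 76) (nat_lit 0) (XT.lf (nat_lit 0) (nat_lit 9504925333353) (nat_lit 76) (nat_lit 248924642001) (nat_lit 152) (nat_lit 11700806754917) (nat_lit 18) (nat_lit 5) (nat_lit 19) (nat_lit 5) (nat_lit 20) (nat_lit 4) (nat_lit 409) (nat_lit 390) (nat_lit 221)) (XT.lf (nat_lit 0) (nat_lit 443976088334) (nat_lit 76) (nat_lit 16553226949011) (nat_lit 76) (nat_lit 6582920763148) (nat_lit 17) (nat_lit 4) (nat_lit 18)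 (nat_lit 5) (nat_lit 18) (nat_lit 4) (nat_lit 410) (nat_lit 390) (nat_lit 220))))) (XT.nd (nat_lit 234) (nat_lit 228) (nat_lit 0) (XT.nd (nat_lit 78) (nat_lit 76) (nat_lit 0) (XT.lf (nat_lit 0) (nat_lit 30974820310) (nat_lit 152) (nat_lit 9903710322256) (nat_lit 76) (nat_lit 15994120625729) (nat_lit 16) (nat_lit 5) (nat_lit 18) (nat_lit 5) (nat_lit 17) (nat_lit 4) (nat_lit 411) (nat_lit 390) (nat_lit 219)) (XT.nd (nat_lit 78) (nat_lit 0) (nat_lit 0) (XT.lf (nat_lit 0) (nat_lit 5488768374834) (nat_lit 76) (nat_lit 1701498862753) (nat_lit 152) (nat_lit 21358410202066) (nat_lit 15) (nat_lit 5) (nat_lit 16) (nat_lit 5) (nat_lit 17) (nat_lit 4) (nat_lit 412) (nat_lit 390) (nat_lit 218)) (XT.lf (nat_lit 0) (nat_lit 16287400608881) (nat_lit 152) (nat_lit 7526968046349) (nat_lit 0) (nat_lit 7617569142771) (nat_lit 15) (nat_lit 5) (nat_lit 17) (nat_lit 4) (nat_lit 15) (nat_lit 4) (nat_lit 413)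 (nat_lit 390) (nat_lit 217)))) (XT.nd (nat_lit 78) (nat_lit 152) (nat_lit 0) (XT.lf (nat_lit 0) (nat_lit 11257072837269) (nat_lit 76) (nat_lit 16039186284311) (nat_lit 76) (nat_lit 7369354818165) (nat_lit 14) (nat_lit 4) (nat_lit 15) (nat_lit 5) (nat_lit 15) (nat_lit 4) (nat_lit 414) (nat_lit 390) (nat_lit 216)) (XT.nd (nat_lit 78) (nat_lit 76) (nat_lit 0) (XT.lf (nat_lit 0) (nat_lit 1844336365418) (nat_lit 152) (nat_lit 4704508280527) (nat_lit 76) (nat_lit 31763903563960) (nat_lit 13) (nat_lit 5) (nat_lit 15) (nat_lit 5) (nat_lit 14) (nat_lit 4) (nat_lit 415) (nat_lit 390) (nat_lit 215)) (XT.lf (nat_lit 0) (nat_lit 12666591261019) (nat_lit 152) (nat_lit 24512966993628) (nat_lit 0) (nat_lit 5127607377363) (nat_lit 12) (nat_lit 5) (nat_lit 14) (nat_lit 4) (nat_lit 12) (nat_lit 4) (nat_lit 416) (nat_lit 390) (nat_lit 214))))))) (XT.nd (nat_lit 51090) (nat_lit 0) (nat_lit 1444) (XT.nd (nat_lit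 468) (nat_lit 228) (nat_lit 0) (XT.nd (nat_lit 234) (nat_lit 152) (nat_lit 0) (XT.nd (nat_lit 78) (nat_lit 152) (nat_lit 0) (XT.lf (nat_lit 0) (nat_lit 25681661970343) (nat_lit 152) (nat_lit 2990983973512) (nat_lit 0) (nat_lit 18142678086667) (nat_lit 12) (nat_lit 5) (nat_lit 14) (nat_lit 4) (nat_lit 12) (nat_lit 4) (nat_lit 417) (nat_lit 390) (nat_lit 213)) (XT.nd (nat_lit 78) (nat_lit 76) (nat_lit 0) (XT.lf (nat_lit 0) (nat_lit 23885773202853) (nat_lit 76) (nat_lit 17752279014947) (nat_lit 76) (nat_lit 10213295131253) (nat_lit 11) (nat_lit 4) (nat_lit 12) (nat_lit 5) (nat_lit 12) (nat_lit 4) (nat_lit 418) (nat_lit 390) (nat_lit 212)) (XT.lf (nat_lit 0) (nat_lit 2300139408602) (nat_lit 152) (nat_lit 2593684155213) (nat_lit 76) (nat_lit 52709815799432) (nat_lit 10) (nat_lit 5) (nat_lit 12) (nat_lit 5) (nat_lit 11) (nat_lit 4) (nat_lit 419) (nat_lit 390) (nat_lit 211)))) (XT.nd (nat_lit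 78) (nat_lit 76) (nat_lit 0) (XT.lf (nat_lit 0) (nat_lit 17320511105671) (nat_lit 152) (nat_lit 35809103691099) (nat_lit 0) (nat_lit 10764872945912) (nat_lit 9) (nat_lit 5) (nat_lit 11) (nat_lit 4) (nat_lit 9) (nat_lit 4) (nat_lit 420) (nat_lit 390) (nat_lit 210)) (XT.nd (nat_lit 78) (nat_lit 76) (nat_lit 0) (XT.lf (nat_lit 0) (nat_lit 34969012859262) (nat_lit 152) (nat_lit 7690314674984) (nat_lit 0) (nat_lit 28413374699493) (nat_lit 9) (nat_lit 5) (nat_lit 11) (nat_lit 4) (nat_lit 9) (nat_lit 4) (nat_lit 421) (nat_lit 390) (nat_lit 209)) (XT.lf (nat_lit 0) (nat_lit 27054907661220) (nat_lit 76) (nat_lit 29330168246145) (nat_lit 76) (nat_lit 22774530086367) (nat_lit 8) (nat_lit 4) (nat_lit 9) (nat_lit 5) (nat_lit 9) (nat_lit 4) (nat_lit 422) (nat_lit 390) (nat_lit 208))))) (XT.nd (nat_lit 234) (nat_lit 76) (nat_lit 0) (XT.nd (nat_lit 78) (nat_lit 152) (nat_lit 0) (XT.lf (nat_lit 0) (nat_lit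 67876199849303) (nat_lit 76) (nat_lit 13539342284983) (nat_lit 76) (nat_lit 6983704125198) (nat_lit 8) (nat_lit 4) (nat_lit 9) (nat_lit 5) (nat_lit 9) (nat_lit 4) (nat_lit 423) (nat_lit 390) (nat_lit 207)) (XT.nd (nat_lit 78) (nat_lit 0) (nat_lit 0) (XT.lf (nat_lit 0) (nat_lit 11124295856233) (nat_lit 152) (nat_lit 82265857360559) (nat_lit 0) (nat_lit 5423740934674) (nat_lit 6) (nat_lit 5) (nat_lit 8) (nat_lit 4) (nat_lit 6) (nat_lit 4) (nat_lit 424) (nat_lit 390) (nat_lit 206)) (XT.lf (nat_lit 0) (nat_lit 33002109253292) (nat_lit 152) (nat_lit 50171900286646) (nat_lit 0) (nat_lit 27301554331729) (nat_lit 6) (nat_lit 5) (nat_lit 8) (nat_lit 4) (nat_lit 6) (nat_lit 4) (nat_lit 425) (nat_lit 390) (nat_lit 205)))) (XT.nd (nat_lit 78) (nat_lit 76) (nat_lit 0) (XT.lf (nat_lit 0) (nat_lit 58161594659876) (nat_lit 152) (nat_lit 13263849651718) (nat_lit 0) (nat_lit 52461039738308) (nat_lit 6)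 (nat_lit 5) (nat_lit 8) (nat_lit 4) (nat_lit 6) (nat_lit 4) (nat_lit 426) (nat_lit 390) (nat_lit 204)) (XT.nd (nat_lit 78) (nat_lit 0) (nat_lit 0) (XT.lf (nat_lit 0) (nat_lit 32032130325816) (nat_lit 76) (nat_lit 56389254759708) (nat_lit 76) (nat_lit 50688699838137) (nat_lit 5) (nat_lit 4) (nat_lit 6) (nat_lit 5) (nat_lit 6) (nat_lit 4) (nat_lit 427) (nat_lit 390) (nat_lit 203)) (XT.lf (nat_lit 0) (nat_lit 85613183130097) (nat_lit 76) (nat_lit 38300298540326) (nat_lit 76) (nat_lit 32599743618751) (nat_lit 5) (nat_lit 4) (nat_lit 6) (nat_lit 5) (nat_lit 6) (nat_lit 4) (nat_lit 428) (nat_lit 390) (nat_lit 202)))))) (XT.nd (nat_lit 468) (nat_lit 532) (nat_lit 0) (XT.nd (nat_lit 234) (nat_lit 152) (nat_lit 0) (XT.nd (nat_lit 78) (nat_lit 0) (nat_lit 0) (XT.lf (nat_lit 0) (nat_lit 704746603198) (nat_lit 380) (nat_lit 910548714072) (nat_lit 380) (nat_lit 910548714072) (nat_lit 33) (nat_lit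 3) (nat_lit 38) (nat_lit 3) (nat_lit 38) (nat_lit 5) (nat_lit 391) (nat_lit 391) (nat_lit 238)) (XT.nd (nat_lit 78) (nat_lit 0) (nat_lit 76) (XT.lf (nat_lit 76) (nat_lit 738653050216) (nat_lit 0) (nat_lit 807138196659) (nat_lit 380) (nat_lit 3880185513012) (nat_lit 34) (nat_lit 5) (nat_lit 33) (nat_lit 3) (nat_lit 38) (nat_lit 5) (nat_lit 392) (nat_lit 391) (nat_lit 237)) (XT.lf (nat_lit 0) (nat_lit 1884241382466) (nat_lit 304) (nat_lit 2041610744786) (nat_lit 380) (nat_lit 1903300526059) (nat_lit 34) (nat_lit 5) (nat_lit 38) (nat_lit 5) (nat_lit 39) (nat_lit 5) (nat_lit 393) (nat_lit 391) (nat_lit 236)))) (XT.nd (nat_lit 78) (nat_lit 228) (nat_lit 0) (XT.lf (nat_lit 76) (nat_lit 1056588858973) (nat_lit 0) (nat_lit 1299056422743) (nat_lit 380) (nat_lit 3924831712536) (nat_lit 35) (nat_lit 5) (nat_lit 34) (nat_lit 5) (nat_lit 39) (nat_lit 5) (nat_lit 394) (nat_lit 391) (nat_lit 235)) (XT.nd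 (nat_lit 78) (nat_lit 304) (nat_lit 0) (XT.lf (nat_lit 0) (nat_lit 3080856612205) (nat_lit 304) (nat_lit 2010900576579) (nat_lit 76) (nat_lit 1680278270595) (nat_lit 35) (nat_lit 5) (nat_lit 39) (nat_lit 5) (nat_lit 36) (nat_lit 5) (nat_lit 395) (nat_lit 391) (nat_lit 234)) (XT.lf (nat_lit 0) (nat_lit 1780706052565) (nat_lit 304) (nat_lit 2269738659341) (nat_lit 380) (nat_lit 3266543721927) (nat_lit 31) (nat_lit 5) (nat_lit 35) (nat_lit 5) (nat_lit 36) (nat_lit 5) (nat_lit 396) (nat_lit 391) (nat_lit 233))))) (XT.nd (nat_lit 234) (nat_lit 380) (nat_lit 0) (XT.nd (nat_lit 78) (nat_lit 152) (nat_lit 0) (XT.lf (nat_lit 0) (nat_lit 5315988569241) (nat_lit 380) (nat_lit 1606267872169) (nat_lit 76) (nat_lit 998850281641) (nat_lit 31) (nat_lit 5) (nat_lit 36) (nat_lit 5) (nat_lit 32) (nat_lit 5) (nat_lit 397) (nat_lit 391) (nat_lit 232)) (XT.nd (nat_lit 78) (nat_lit 0) (nat_lit 0) (XT.lf (nat_lit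 0) (nat_lit 3079307244371) (nat_lit 152) (nat_lit 3927647100229) (nat_lit 228) (nat_lit 1573549860139) (nat_lit 29) (nat_lit 5) (nat_lit 31) (nat_lit 5) (nat_lit 32) (nat_lit 5) (nat_lit 398) (nat_lit 391) (nat_lit 231)) (XT.lf (nat_lit 0) (nat_lit 8648241233309) (nat_lit 152) (nat_lit 387287755152) (nat_lit 228) (nat_lit 290687719888) (nat_lit 29) (nat_lit 5) (nat_lit 31) (nat_lit 5) (nat_lit 32) (nat_lit 5) (nat_lit 399) (nat_lit 391) (nat_lit 230)))) (XT.nd (nat_lit 156) (nat_lit 76) (nat_lit 0) (XT.nd (nat_lit 78) (nat_lit 152) (nat_lit 0) (XT.lf (nat_lit 0) (nat_lit 1463538153853) (nat_lit 152) (nat_lit 5018195413902) (nat_lit 76) (nat_lit 3637035328157) (nat_lit 27) (nat_lit 5) (nat_lit 29) (nat_lit 5) (nat_lit 28) (nat_lit 5) (nat_lit 400) (nat_lit 391) (nat_lit 229)) (XT.lf (nat_lit 0) (nat_lit 837829215852) (nat_lit 152) (nat_lit 2703570030623) (nat_lit 228) (nat_lit 7473188990764)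 (nat_lit 25) (nat_lit 5) (nat_lit 27) (nat_lit 5) (nat_lit 28) (nat_lit 5) (nat_lit 401) (nat_lit 391) (nat_lit 228))) (XT.nd (nat_lit 78) (nat_lit 76) (nat_lit 0) (XT.lf (nat_lit 0) (nat_lit 6273708921949) (nat_lit 228) (nat_lit 3949653650196) (nat_lit 76) (nat_lit 1770002494775) (nat_lit 25) (nat_lit 5) (nat_lit 28) (nat_lit 5) (nat_lit 26) (nat_lit 4) (nat_lit 402) (nat_lit 391) (nat_lit 227)) (XT.lf (nat_lit 0) (nat_lit 3384047396741) (nat_lit 76) (nat_lit 6300685268087) (nat_lit 152) (nat_lit 3393895613813) (nat_lit 24) (nat_lit 5) (nat_lit 25) (nat_lit 5) (nat_lit 26) (nat_lit 4) (nat_lit 403) (nat_lit 391) (nat_lit 226))))))))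
noncomputable def xc116 : XT := (XT.nd (nat_lit 1872) (nat_lit 76) (nat_lit 0) (XT.nd (nat_lit 936) (nat_lit 608) (nat_lit 0) (XT.nd (nat_lit 468) (nat_lit 380) (nat_lit 0) (XT.nd (nat_lit 234) (nat_lit 152) (nat_lit 0) (XT.nd (nat_lit 78) (nat_lit 228) (nat_lit 0) (XT.lf (nat_lit 0) (nat_lit 12261690811865) (nat_lit 76) (nat_lit 1552178325216) (nat_lit 152) (nat_lit 481842959848) (nat_lit 24) (nat_lit 5) (nat_lit 25) (nat_lit 5) (nat_lit 26) (nat_lit 4) (nat_lit 404) (nat_lit 391) (nat_lit 225)) (XT.nd (nat_lit 78) (nat_lit 76) (nat_lit 0) (XT.lf (nat_lit 0) (nat_lit 3096271522707) (nat_lit 152) (nat_lit 8506605646223) (nat_lit 76) (nat_lit 4001999406999) (nat_lit 22) (nat_lit 5) (nat_lit 24) (nat_lit 5) (nat_lit 23) (nat_lit 4) (nat_lit 405) (nat_lit 391) (nat_lit 224)) (XT.lf (nat_lit 0) (nat_lit 694438612449) (nat_lit 76) (nat_lit 6681388379475) (nat_lit 152) (nat_lit 9699038696118)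 (nat_lit 21) (nat_lit 5) (nat_lit 22) (nat_lit 5) (nat_lit 23) (nat_lit 4) (nat_lit 406) (nat_lit 391) (nat_lit 223)))) (XT.nd (nat_lit 78) (nat_lit 152) (nat_lit 0) (XT.lf (nat_lit 0) (nat_lit 12231665985190) (nat_lit 76) (nat_lit 510313273184) (nat_lit 152) (nat_lit 5956674387070) (nat_lit 21) (nat_lit 5) (nat_lit 22) (nat_lit 5) (nat_lit 23) (nat_lit 4) (nat_lit 407) (nat_lit 391) (nat_lit 222)) (XT.nd (nat_lit 78) (nat_lit 76) (nat_lit 0) (XT.lf (nat_lit 0) (nat_lit 5116219139262) (nat_lit 76) (nat_lit 14281416684571) (nat_lit 76) (nat_lit 1095686753767) (nat_lit 20) (nat_lit 4) (nat_lit 21) (nat_lit 5) (nat_lit 21) (nat_lit 4) (nat_lit 408) (nat_lit 391) (nat_lit 221)) (XT.lf (nat_lit 0) (nat_lit 4472767287044) (nat_lit 152) (nat_lit 3569280263740) (nat_lit 76) (nat_lit 14430461687199) (nat_lit 19) (nat_lit 5) (nat_lit 21) (nat_lit 5) (nat_lit 20) (nat_lit 4) (nat_lit 409) (nat_lit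 391) (nat_lit 220))))) (XT.nd (nat_lit 234) (nat_lit 152) (nat_lit 0) (XT.nd (nat_lit 78) (nat_lit 152) (nat_lit 0) (XT.lf (nat_lit 0) (nat_lit 10930664135290) (nat_lit 76) (nat_lit 286263337383) (nat_lit 152) (nat_lit 13455927766987) (nat_lit 18) (nat_lit 5) (nat_lit 19) (nat_lit 5) (nat_lit 20) (nat_lit 4) (nat_lit 410) (nat_lit 391) (nat_lit 219)) (XT.nd (nat_lit 78) (nat_lit 76) (nat_lit 0) (XT.lf (nat_lit 0) (nat_lit 510572503540) (nat_lit 76) (nat_lit 19036210990404) (nat_lit 76) (nat_lit 7570358876474) (nat_lit 17) (nat_lit 4) (nat_lit 18) (nat_lit 5) (nat_lit 18) (nat_lit 4) (nat_lit 411) (nat_lit 391) (nat_lit 218)) (XT.lf (nat_lit 0) (nat_lit 35621044266) (nat_lit 152) (nat_lit 11389266868805) (nat_lit 76) (nat_lit 18393238720333) (nat_lit 16) (nat_lit 5) (nat_lit 18) (nat_lit 5) (nat_lit 17) (nat_lit 4) (nat_lit 412) (nat_lit 391) (nat_lit 217)))) (XT.nd (nat_lit 78) (nat_lit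 76) (nat_lit 0) (XT.lf (nat_lit 0) (nat_lit 6312083632768) (nat_lit 76) (nat_lit 1956723691318) (nat_lit 152) (nat_lit 24562171731386) (nat_lit 15) (nat_lit 5) (nat_lit 16) (nat_lit 5) (nat_lit 17) (nat_lit 4) (nat_lit 413) (nat_lit 391) (nat_lit 216)) (XT.nd (nat_lit 78) (nat_lit 76) (nat_lit 0) (XT.lf (nat_lit 0) (nat_lit 18730510700992) (nat_lit 152) (nat_lit 8656013251734) (nat_lit 0) (nat_lit 8760204514858) (nat_lit 15) (nat_lit 5) (nat_lit 17) (nat_lit 4) (nat_lit 15) (nat_lit 4) (nat_lit 414) (nat_lit 391) (nat_lit 215)) (XT.lf (nat_lit 0) (nat_lit 12945633764356) (nat_lit 76) (nat_lit 18445064226200) (nat_lit 76) (nat_lit 8474758040039) (nat_lit 14) (nat_lit 4) (nat_lit 15) (nat_lit 5) (nat_lit 15) (nat_lit 4) (nat_lit 415) (nat_lit 391) (nat_lit 214)))))) (XT.nd (nat_lit 468) (nat_lit 228) (nat_lit 0) (XT.nd (nat_lit 234) (nat_lit 228) (nat_lit 0) (XT.nd (nat_lit 78) (nat_lit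 76) (nat_lit 0) (XT.lf (nat_lit 0) (nat_lit 2120986820904) (nat_lit 152) (nat_lit 5410184521240) (nat_lit 76) (nat_lit 36528489099146) (nat_lit 13) (nat_lit 5) (nat_lit 15) (nat_lit 5) (nat_lit 14) (nat_lit 4) (nat_lit 416) (nat_lit 391) (nat_lit 213)) (XT.nd (nat_lit 78) (nat_lit 0) (nat_lit 0) (XT.lf (nat_lit 0) (nat_lit 14566579950839) (nat_lit 152) (nat_lit 28189912041299) (nat_lit 0) (nat_lit 5896748484573) (nat_lit 12) (nat_lit 5) (nat_lit 14) (nat_lit 4) (nat_lit 12) (nat_lit 4) (nat_lit 417) (nat_lit 391) (nat_lit 212)) (XT.lf (nat_lit 0) (nat_lit 29533911266476) (nat_lit 152) (nat_lit 3439631568344) (nat_lit 0) (nat_lit 20864079800194) (nat_lit 12) (nat_lit 5) (nat_lit 14) (nat_lit 4) (nat_lit 12) (nat_lit 4) (nat_lit 418) (nat_lit 391) (nat_lit 211)))) (XT.nd (nat_lit 78) (nat_lit 152) (nat_lit 0) (XT.lf (nat_lit 0) (nat_lit 27468639184421) (nat_lit 76) (nat_lit 20415120866601)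 (nat_lit 76) (nat_lit 11745289400306) (nat_lit 11) (nat_lit 4) (nat_lit 12) (nat_lit 5) (nat_lit 12) (nat_lit 4) (nat_lit 419) (nat_lit 391) (nat_lit 210)) (XT.nd (nat_lit 78) (nat_lit 76) (nat_lit 0) (XT.lf (nat_lit 0) (nat_lit 2645160320395) (nat_lit 152) (nat_lit 2982736777454) (nat_lit 76) (nat_lit 60616288169809) (nat_lit 10) (nat_lit 5) (nat_lit 12) (nat_lit 5) (nat_lit 11) (nat_lit 4) (nat_lit 420) (nat_lit 391) (nat_lit 209)) (XT.lf (nat_lit 0) (nat_lit 19918587772022) (nat_lit 152) (nat_lit 41180469243720) (nat_lit 0) (nat_lit 12379603888268) (nat_lit 9) (nat_lit 5) (nat_lit 11) (nat_lit 4) (nat_lit 9) (nat_lit 4) (nat_lit 421) (nat_lit 391) (nat_lit 208))))) (XT.nd (nat_lit 234) (nat_lit 152) (nat_lit 0) (XT.nd (nat_lit 78) (nat_lit 76) (nat_lit 0) (XT.lf (nat_lit 0) (nat_lit 40214364788586) (nat_lit 152) (nat_lit 8843861875323) (nat_lit 0) (nat_lit 32675380904825) (nat_lit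 9) (nat_lit 5) (nat_lit 11) (nat_lit 4) (nat_lit 9) (nat_lit 4) (nat_lit 422) (nat_lit 391) (nat_lit 207)) (XT.nd (nat_lit 78) (nat_lit 0) (nat_lit 0) (XT.lf (nat_lit 0) (nat_lit 31113143811269) (nat_lit 76) (nat_lit 33729693482615) (nat_lit 76) (nat_lit 26190709598847) (nat_lit 8) (nat_lit 4) (nat_lit 9) (nat_lit 5) (nat_lit 9) (nat_lit 4) (nat_lit 423) (nat_lit 391) (nat_lit 206)) (XT.lf (nat_lit 0) (nat_lit 78057629827453) (nat_lit 76) (nat_lit 15570243627337) (nat_lit 76) (nat_lit 8031259743564) (nat_lit 8) (nat_lit 4) (nat_lit 9) (nat_lit 5) (nat_lit 9) (nat_lit 4) (nat_lit 424) (nat_lit 391) (nat_lit 205)))) (XT.nd (nat_lit 78) (nat_lit 0) (nat_lit 0) (XT.lf (nat_lit 0) (nat_lit 12792940235043) (nat_lit 152) (nat_lit 94605735963852) (nat_lit 0) (nat_lit 6237302075236) (nat_lit 6) (nat_lit 5) (nat_lit 8) (nat_lit 4) (nat_lit 6) (nat_lit 4) (nat_lit 425) (nat_lit 391) (nat_lit 204))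 (XT.nd (nat_lit 78) (nat_lit 0) (nat_lit 0) (XT.lf (nat_lit 0) (nat_lit 37952425641613) (nat_lit 152) (nat_lit 57697685328954) (nat_lit 0) (nat_lit 31396787481801) (nat_lit 6) (nat_lit 5) (nat_lit 8) (nat_lit 4) (nat_lit 6) (nat_lit 4) (nat_lit 426) (nat_lit 391) (nat_lit 203)) (XT.lf (nat_lit 0) (nat_lit 66885833859142) (nat_lit 152) (nat_lit 15253427098877) (nat_lit 0) (nat_lit 60330195699327) (nat_lit 6) (nat_lit 5) (nat_lit 8) (nat_lit 4) (nat_lit 6) (nat_lit 4) (nat_lit 427) (nat_lit 391) (nat_lit 202))))))) (XT.nd (nat_lit 51012) (nat_lit 0) (nat_lit 836) (XT.nd (nat_lit 50544) (nat_lit 0) (nat_lit 1824) (XT.nd (nat_lit 50310) (nat_lit 0) (nat_lit 2128) (XT.nd (nat_lit 78) (nat_lit 0) (nat_lit 0) (XT.lf (nat_lit 0) (nat_lit 36836949875260) (nat_lit 76) (nat_lit 64847642973364) (nat_lit 76) (nat_lit 58292004813546) (nat_lit 5) (nat_lit 4) (nat_lit 6) (nat_lit 5) (nat_lit 6) (nat_lit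 4) (nat_lit 428) (nat_lit 391) (nat_lit 201)) (XT.nd (nat_lit 78) (nat_lit 0) (nat_lit 0) (XT.lf (nat_lit 0) (nat_lit 98455160600109) (nat_lit 76) (nat_lit 44045343321113) (nat_lit 76) (nat_lit 37489705161293) (nat_lit 5) (nat_lit 4) (nat_lit 6) (nat_lit 5) (nat_lit 6) (nat_lit 4) (nat_lit 429) (nat_lit 391) (nat_lit 200)) (XT.lf (nat_lit 0) (nat_lit 169316102933645) (nat_lit 76) (nat_lit 20122698721046) (nat_lit 76) (nat_lit 13567060561224) (nat_lit 5) (nat_lit 4) (nat_lit 6) (nat_lit 5) (nat_lit 6) (nat_lit 4) (nat_lit 430) (nat_lit 391) (nat_lit 199)))) (XT.nd (nat_lit 78) (nat_lit 0) (nat_lit 0) (XT.lf (nat_lit 0) (nat_lit 810458595950) (nat_lit 380) (nat_lit 1047131019876) (nat_lit 380) (nat_lit 1047131019876) (nat_lit 33) (nat_lit 3) (nat_lit 38) (nat_lit 3) (nat_lit 38) (nat_lit 5) (nat_lit 392) (nat_lit 392) (nat_lit 236)) (XT.nd (nat_lit 78) (nat_lit 0) (nat_lit 76) (XT.lf (nat_lit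 76) (nat_lit 849451010244) (nat_lit 0) (nat_lit 928208927717) (nat_lit 380) (nat_lit 4462213335297) (nat_lit 34) (nat_lit 5) (nat_lit 33) (nat_lit 3) (nat_lit 38) (nat_lit 5) (nat_lit 393) (nat_lit 392) (nat_lit 235)) (XT.lf (nat_lit 0) (nat_lit 2166877593306) (nat_lit 304) (nat_lit 2347852353746) (nat_lit 380) (nat_lit 2188795603732) (nat_lit 34) (nat_lit 5) (nat_lit 38) (nat_lit 5) (nat_lit 39) (nat_lit 5) (nat_lit 394) (nat_lit 392) (nat_lit 234))))) (XT.nd (nat_lit 234) (nat_lit 152) (nat_lit 0) (XT.nd (nat_lit 78) (nat_lit 228) (nat_lit 0) (XT.lf (nat_lit 76) (nat_lit 1215077190451) (nat_lit 0) (nat_lit 1493914886648) (nat_lit 380) (nat_lit 4513556465819) (nat_lit 35) (nat_lit 5) (nat_lit 34) (nat_lit 5) (nat_lit 39) (nat_lit 5) (nat_lit 395) (nat_lit 392) (nat_lit 233)) (XT.nd (nat_lit 78) (nat_lit 304) (nat_lit 0) (XT.lf (nat_lit 0) (nat_lit 3542985106737) (nat_lit 304) (nat_lit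 2312535660349) (nat_lit 76) (nat_lit 1932320010793) (nat_lit 35) (nat_lit 5) (nat_lit 39) (nat_lit 5) (nat_lit 36) (nat_lit 5) (nat_lit 396) (nat_lit 392) (nat_lit 232)) (XT.lf (nat_lit 0) (nat_lit 2047811963043) (nat_lit 304) (nat_lit 2610199458105) (nat_lit 380) (nat_lit 3756525277390) (nat_lit 31) (nat_lit 5) (nat_lit 35) (nat_lit 5) (nat_lit 36) (nat_lit 5) (nat_lit 397) (nat_lit 392) (nat_lit 231)))) (XT.nd (nat_lit 78) (nat_lit 152) (nat_lit 0) (XT.lf (nat_lit 0) (nat_lit 6113386856768) (nat_lit 380) (nat_lit 1847208050423) (nat_lit 76) (nat_lit 1148677823995) (nat_lit 31) (nat_lit 5) (nat_lit 36) (nat_lit 5) (nat_lit 32) (nat_lit 5) (nat_lit 398) (nat_lit 392) (nat_lit 230)) (XT.nd (nat_lit 78) (nat_lit 0) (nat_lit 0) (XT.lf (nat_lit 0) (nat_lit 3541203333481) (nat_lit 152) (nat_lit 4516794164772) (nat_lit 228) (nat_lit 1809582336901) (nat_lit 29) (nat_lit 5) (nat_lit 31) (nat_lit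 5) (nat_lit 32) (nat_lit 5) (nat_lit 399) (nat_lit 392) (nat_lit 229)) (XT.lf (nat_lit 0) (nat_lit 9945477420440) (nat_lit 152) (nat_lit 445380917998) (nat_lit 228) (nat_lit 334290875908) (nat_lit 29) (nat_lit 5) (nat_lit 31) (nat_lit 5) (nat_lit 32) (nat_lit 5) (nat_lit 400) (nat_lit 392) (nat_lit 228)))))) (XT.nd (nat_lit 468) (nat_lit 456) (nat_lit 0) (XT.nd (nat_lit 234) (nat_lit 228) (nat_lit 0) (XT.nd (nat_lit 78) (nat_lit 152) (nat_lit 0) (XT.lf (nat_lit 0) (nat_lit 1683068878602) (nat_lit 152) (nat_lit 5770924723557) (nat_lit 76) (nat_lit 4182590627889) (nat_lit 27) (nat_lit 5) (nat_lit 29) (nat_lit 5) (nat_lit 28) (nat_lit 5) (nat_lit 401) (nat_lit 392) (nat_lit 227)) (XT.nd (nat_lit 78) (nat_lit 0) (nat_lit 0) (XT.lf (nat_lit 0) (nat_lit 963503600549) (nat_lit 152) (nat_lit 3109105534445) (nat_lit 228) (nat_lit 8594167337598) (nat_lit 25) (nat_lit 5) (nat_lit 27) (nat_lit 5)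 (nat_lit 28) (nat_lit 5) (nat_lit 402) (nat_lit 392) (nat_lit 226)) (XT.lf (nat_lit 0) (nat_lit 7214765261616) (nat_lit 228) (nat_lit 4542101695533) (nat_lit 76) (nat_lit 2035502869602) (nat_lit 25) (nat_lit 5) (nat_lit 28) (nat_lit 5) (nat_lit 26) (nat_lit 4) (nat_lit 403) (nat_lit 392) (nat_lit 225)))) (XT.nd (nat_lit 78) (nat_lit 152) (nat_lit 0) (XT.lf (nat_lit 0) (nat_lit 3891654508345) (nat_lit 76) (nat_lit 7245788057489) (nat_lit 152) (nat_lit 3902979954410) (nat_lit 24) (nat_lit 5) (nat_lit 25) (nat_lit 5) (nat_lit 26) (nat_lit 4) (nat_lit 404) (nat_lit 392) (nat_lit 224)) (XT.nd (nat_lit 78) (nat_lit 152) (nat_lit 0) (XT.lf (nat_lit 0) (nat_lit 14100944435465) (nat_lit 76) (nat_lit 1785005073293) (nat_lit 152) (nat_lit 554119402543) (nat_lit 24) (nat_lit 5) (nat_lit 25) (nat_lit 5) (nat_lit 26) (nat_lit 4) (nat_lit 405) (nat_lit 392) (nat_lit 223)) (XT.lf (nat_lit 0) (nat_lit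 3560712252236) (nat_lit 152) (nat_lit 9782596491178) (nat_lit 76) (nat_lit 4602299318736) (nat_lit 22) (nat_lit 5) (nat_lit 24) (nat_lit 5) (nat_lit 23) (nat_lit 4) (nat_lit 406) (nat_lit 392) (nat_lit 222))))) (XT.nd (nat_lit 234) (nat_lit 304) (nat_lit 0) (XT.nd (nat_lit 78) (nat_lit 76) (nat_lit 0) (XT.lf (nat_lit 0) (nat_lit 798604406206) (nat_lit 76) (nat_lit 7683596635562) (nat_lit 152) (nat_lit 11153894499322) (nat_lit 21) (nat_lit 5) (nat_lit 22) (nat_lit 5) (nat_lit 23) (nat_lit 4) (nat_lit 407) (nat_lit 392) (nat_lit 221)) (XT.nd (nat_lit 78) (nat_lit 76) (nat_lit 0) (XT.lf (nat_lit 0) (nat_lit 14066415884611) (nat_lit 76) (nat_lit 586860263436) (nat_lit 152) (nat_lit 6850175544076) (nat_lit 21) (nat_lit 5) (nat_lit 22) (nat_lit 5) (nat_lit 23) (nat_lit 4) (nat_lit 408) (nat_lit 392) (nat_lit 220)) (XT.lf (nat_lit 0) (nat_lit 5883652011822) (nat_lit 76) (nat_lit 16423629186478)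 (nat_lit 76) (nat_lit 1260039765805) (nat_lit 20) (nat_lit 4) (nat_lit 21) (nat_lit 5) (nat_lit 21) (nat_lit 4) (nat_lit 409) (nat_lit 392) (nat_lit 219)))) (XT.nd (nat_lit 156) (nat_lit 152) (nat_lit 0) (XT.nd (nat_lit 78) (nat_lit 76) (nat_lit 0) (XT.lf (nat_lit 0) (nat_lit 5143682380914) (nat_lit 152) (nat_lit 4104672301769) (nat_lit 76) (nat_lit 16595030940875) (nat_lit 19) (nat_lit 5) (nat_lit 21) (nat_lit 5) (nat_lit 20) (nat_lit 4) (nat_lit 410) (nat_lit 392) (nat_lit 218)) (XT.lf (nat_lit 0) (nat_lit 12570263757047) (nat_lit 76) (nat_lit 329202837295) (nat_lit 152) (nat_lit 15474316931151) (nat_lit 18) (nat_lit 5) (nat_lit 19) (nat_lit 5) (nat_lit 20) (nat_lit 4) (nat_lit 411) (nat_lit 392) (nat_lit 217))) (XT.nd (nat_lit 78) (nat_lit 76) (nat_lit 0) (XT.lf (nat_lit 0) (nat_lit 587158380550) (nat_lit 76) (nat_lit 21891642638240) (nat_lit 76) (nat_lit 8705912707077) (nat_lit 17)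 (nat_lit 4) (nat_lit 18) (nat_lit 5) (nat_lit 18) (nat_lit 4) (nat_lit 412) (nat_lit 392) (nat_lit 216)) (XT.lf (nat_lit 0) (nat_lit 40964201593) (nat_lit 152) (nat_lit 13097656897772) (nat_lit 76) (nat_lit 21152224528947) (nat_lit 16) (nat_lit 5) (nat_lit 18) (nat_lit 5) (nat_lit 17) (nat_lit 4) (nat_lit 413) (nat_lit 392) (nat_lit 215))))))))
noncomputable def xc117 : XT := (XT.nd (nat_lit 51948) (nat_lit 0) (nat_lit 304) (XT.nd (nat_lit 936) (nat_lit 228) (nat_lit 0) (XT.nd (nat_lit 468) (nat_lit 304) (nat_lit 0) (XT.nd (nat_lit 234) (nat_lit 152) (nat_lit 0) (XT.nd (nat_lit 78) (nat_lit 76) (nat_lit 0) (XT.lf (nat_lit 0) (nat_lit 7258896178975) (nat_lit 76) (nat_lit 2250232244375) (nat_lit 152) (nat_lit 28246497490345) (nat_lit 15) (nat_lit 5) (nat_lit 16) (nat_lit 5) (nat_lit 17) (nat_lit 4) (nat_lit 414) (nat_lit 392) (nat_lit 214)) (XT.nd (nat_lit 78) (nat_lit 76) (nat_lit 0) (XT.lf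 (nat_lit 0) (nat_lit 21540087306731) (nat_lit 152) (nat_lit 9954415238309) (nat_lit 0) (nat_lit 10074235192594) (nat_lit 15) (nat_lit 5) (nat_lit 17) (nat_lit 4) (nat_lit 15) (nat_lit 4) (nat_lit 415) (nat_lit 392) (nat_lit 213)) (XT.lf (nat_lit 0) (nat_lit 14887478830140) (nat_lit 76) (nat_lit 21211823859558) (nat_lit 76) (nat_lit 9745971745402) (nat_lit 14) (nat_lit 4) (nat_lit 15) (nat_lit 5) (nat_lit 15) (nat_lit 4) (nat_lit 416) (nat_lit 392) (nat_lit 212)))) (XT.nd (nat_lit 78) (nat_lit 76) (nat_lit 0) (XT.lf (nat_lit 0) (nat_lit 2439134844549) (nat_lit 152) (nat_lit 6221712198392) (nat_lit 76) (nat_lit 42007762464466) (nat_lit 13) (nat_lit 5) (nat_lit 15) (nat_lit 5) (nat_lit 14) (nat_lit 4) (nat_lit 417) (nat_lit 392) (nat_lit 211)) (XT.nd (nat_lit 78) (nat_lit 0) (nat_lit 0) (XT.lf (nat_lit 0) (nat_lit 16751566943970) (nat_lit 152) (nat_lit 32418398846455) (nat_lit 0) (nat_lit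 6781260757718) (nat_lit 12) (nat_lit 5) (nat_lit 14) (nat_lit 4) (nat_lit 12) (nat_lit 4) (nat_lit 418) (nat_lit 392) (nat_lit 210)) (XT.lf (nat_lit 0) (nat_lit 33963997956886) (nat_lit 152) (nat_lit 3955576302693) (nat_lit 0) (nat_lit 23993691770622) (nat_lit 12) (nat_lit 5) (nat_lit 14) (nat_lit 4) (nat_lit 12) (nat_lit 4) (nat_lit 419) (nat_lit 392) (nat_lit 209))))) (XT.nd (nat_lit 234) (nat_lit 76) (nat_lit 0) (XT.nd (nat_lit 78) (nat_lit 152) (nat_lit 0) (XT.lf (nat_lit 0) (nat_lit 31588935062946) (nat_lit 76) (nat_lit 23477388996146) (nat_lit 76) (nat_lit 13507082809872) (nat_lit 11) (nat_lit 4) (nat_lit 12) (nat_lit 5) (nat_lit 12) (nat_lit 4) (nat_lit 420) (nat_lit 392) (nat_lit 208)) (XT.nd (nat_lit 78) (nat_lit 76) (nat_lit 0) (XT.lf (nat_lit 0) (nat_lit 3041934368835) (nat_lit 152) (nat_lit 3430147293286) (nat_lit 76) (nat_lit 69708731395630) (nat_lit 10) (nat_lit 5) (nat_lit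 12) (nat_lit 5) (nat_lit 11) (nat_lit 4) (nat_lit 421) (nat_lit 392) (nat_lit 207)) (XT.lf (nat_lit 0) (nat_lit 22906375938203) (nat_lit 152) (nat_lit 47357539629489) (nat_lit 0) (nat_lit 14236544471863) (nat_lit 9) (nat_lit 5) (nat_lit 11) (nat_lit 4) (nat_lit 9) (nat_lit 4) (nat_lit 422) (nat_lit 392) (nat_lit 206)))) (XT.nd (nat_lit 78) (nat_lit 76) (nat_lit 0) (XT.lf (nat_lit 0) (nat_lit 46246519507202) (nat_lit 152) (nat_lit 10170441155936) (nat_lit 0) (nat_lit 37576688040857) (nat_lit 9) (nat_lit 5) (nat_lit 11) (nat_lit 4) (nat_lit 9) (nat_lit 4) (nat_lit 423) (nat_lit 392) (nat_lit 205)) (XT.nd (nat_lit 78) (nat_lit 0) (nat_lit 0) (XT.lf (nat_lit 0) (nat_lit 35780115383615) (nat_lit 76) (nat_lit 38789147504664) (nat_lit 76) (nat_lit 30119316038314) (nat_lit 8) (nat_lit 4) (nat_lit 9) (nat_lit 5) (nat_lit 9) (nat_lit 4) (nat_lit 424) (nat_lit 392) (nat_lit 204)) (XT.lf (nat_lit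 0) (nat_lit 89766274302139) (nat_lit 76) (nat_lit 17905780171141) (nat_lit 76) (nat_lit 9235948704786) (nat_lit 8) (nat_lit 4) (nat_lit 9) (nat_lit 5) (nat_lit 9) (nat_lit 4) (nat_lit 425) (nat_lit 392) (nat_lit 203)))))) (XT.nd (nat_lit 50544) (nat_lit 0) (nat_lit 1976) (XT.nd (nat_lit 234) (nat_lit 76) (nat_lit 0) (XT.nd (nat_lit 78) (nat_lit 0) (nat_lit 0) (XT.lf (nat_lit 0) (nat_lit 14711881270583) (nat_lit 152) (nat_lit 108796596357831) (nat_lit 0) (nat_lit 7172897386793) (nat_lit 6) (nat_lit 5) (nat_lit 8) (nat_lit 4) (nat_lit 6) (nat_lit 4) (nat_lit 426) (nat_lit 392) (nat_lit 202)) (XT.nd (nat_lit 78) (nat_lit 0) (nat_lit 0) (XT.lf (nat_lit 0) (nat_lit 43645289488101) (nat_lit 152) (nat_lit 66352338127776) (nat_lit 0) (nat_lit 36106305604309) (nat_lit 6) (nat_lit 5) (nat_lit 8) (nat_lit 4) (nat_lit 6) (nat_lit 4) (nat_lit 427) (nat_lit 392) (nat_lit 201)) (XT.lf (nat_lit 0) (nat_lit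 76918708938227) (nat_lit 152) (nat_lit 17541441163257) (nat_lit 0) (nat_lit 69379725054431) (nat_lit 6) (nat_lit 5) (nat_lit 8) (nat_lit 4) (nat_lit 6) (nat_lit 4) (nat_lit 428) (nat_lit 392) (nat_lit 200)))) (XT.nd (nat_lit 78) (nat_lit 0) (nat_lit 0) (XT.lf (nat_lit 0) (nat_lit 42362492356981) (nat_lit 76) (nat_lit 74574789419141) (nat_lit 76) (nat_lit 67035805535343) (nat_lit 5) (nat_lit 4) (nat_lit 6) (nat_lit 5) (nat_lit 6) (nat_lit 4) (nat_lit 429) (nat_lit 392) (nat_lit 199)) (XT.nd (nat_lit 78) (nat_lit 0) (nat_lit 0) (XT.lf (nat_lit 0) (nat_lit 113223434690501) (nat_lit 76) (nat_lit 50652144819082) (nat_lit 76) (nat_lit 43113160935283) (nat_lit 5) (nat_lit 4) (nat_lit 6) (nat_lit 5) (nat_lit 6) (nat_lit 4) (nat_lit 430) (nat_lit 392) (nat_lit 198)) (XT.lf (nat_lit 0) (nat_lit 194713518374017) (nat_lit 76) (nat_lit 23141103529031) (nat_lit 76) (nat_lit 15602119645230) (nat_lit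 5) (nat_lit 4) (nat_lit 6) (nat_lit 5) (nat_lit 6) (nat_lit 4) (nat_lit 431) (nat_lit 392) (nat_lit 197))))) (XT.nd (nat_lit 234) (nat_lit 152) (nat_lit 0) (XT.nd (nat_lit 78) (nat_lit 0) (nat_lit 0) (XT.lf (nat_lit 0) (nat_lit 932027387061) (nat_lit 380) (nat_lit 1204200671868) (nat_lit 380) (nat_lit 1204200671868) (nat_lit 33) (nat_lit 3) (nat_lit 38) (nat_lit 3) (nat_lit 38) (nat_lit 5) (nat_lit 393) (nat_lit 393) (nat_lit 234)) (XT.nd (nat_lit 78) (nat_lit 0) (nat_lit 76) (XT.lf (nat_lit 76) (nat_lit 976868663668) (nat_lit 0) (nat_lit 1067440268054) (nat_lit 380) (nat_lit 5131545332063) (nat_lit 34) (nat_lit 5) (nat_lit 33) (nat_lit 3) (nat_lit 38) (nat_lit 5) (nat_lit 394) (nat_lit 393) (nat_lit 233)) (XT.lf (nat_lit 0) (nat_lit 2491909234926) (nat_lit 304) (nat_lit 2700030204723) (nat_lit 380) (nat_lit 2517114943358) (nat_lit 34) (nat_lit 5) (nat_lit 38) (nat_lit 5) (nat_lit 39)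 (nat_lit 5) (nat_lit 395) (nat_lit 393) (nat_lit 232)))) (XT.nd (nat_lit 78) (nat_lit 228) (nat_lit 0) (XT.lf (nat_lit 76) (nat_lit 1397338771009) (nat_lit 0) (nat_lit 1718002120019) (nat_lit 380) (nat_lit 5190589932971) (nat_lit 35) (nat_lit 5) (nat_lit 34) (nat_lit 5) (nat_lit 39) (nat_lit 5) (nat_lit 396) (nat_lit 393) (nat_lit 231)) (XT.nd (nat_lit 78) (nat_lit 304) (nat_lit 0) (XT.lf (nat_lit 0) (nat_lit 4074432874790) (nat_lit 304) (nat_lit 2659416007348) (nat_lit 76) (nat_lit 2222168012117) (nat_lit 35) (nat_lit 5) (nat_lit 39) (nat_lit 5) (nat_lit 36) (nat_lit 5) (nat_lit 397) (nat_lit 393) (nat_lit 230)) (XT.lf (nat_lit 0) (nat_lit 2354983759460) (nat_lit 304) (nat_lit 3001729376717) (nat_lit 380) (nat_lit 4320004066861) (nat_lit 31) (nat_lit 5) (nat_lit 35) (nat_lit 5) (nat_lit 36) (nat_lit 5) (nat_lit 398) (nat_lit 393) (nat_lit 229))))))) (XT.nd (nat_lit 936) (nat_lit 836)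 (nat_lit 0) (XT.nd (nat_lit 468) (nat_lit 380) (nat_lit 0) (XT.nd (nat_lit 234) (nat_lit 304) (nat_lit 0) (XT.nd (nat_lit 78) (nat_lit 152) (nat_lit 0) (XT.lf (nat_lit 0) (nat_lit 7030394886902) (nat_lit 380) (nat_lit 2124289256042) (nat_lit 76) (nat_lit 1320979497677) (nat_lit 31) (nat_lit 5) (nat_lit 36) (nat_lit 5) (nat_lit 32) (nat_lit 5) (nat_lit 399) (nat_lit 393) (nat_lit 228)) (XT.nd (nat_lit 78) (nat_lit 0) (nat_lit 0) (XT.lf (nat_lit 0) (nat_lit 4072383835359) (nat_lit 152) (nat_lit 5194313289116) (nat_lit 228) (nat_lit 2081019685729) (nat_lit 29) (nat_lit 5) (nat_lit 31) (nat_lit 5) (nat_lit 32) (nat_lit 5) (nat_lit 400) (nat_lit 393) (nat_lit 227)) (XT.lf (nat_lit 0) (nat_lit 11437299035121) (nat_lit 152) (nat_lit 512188055374) (nat_lit 228) (nat_lit 384434505809) (nat_lit 29) (nat_lit 5) (nat_lit 31) (nat_lit 5) (nat_lit 32) (nat_lit 5) (nat_lit 401) (nat_lit 393) (nat_lit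 226)))) (XT.nd (nat_lit 78) (nat_lit 152) (nat_lit 0) (XT.lf (nat_lit 0) (nat_lit 1935529211655) (nat_lit 152) (nat_lit 6636563430253) (nat_lit 76) (nat_lit 4809979222458) (nat_lit 27) (nat_lit 5) (nat_lit 29) (nat_lit 5) (nat_lit 28) (nat_lit 5) (nat_lit 402) (nat_lit 393) (nat_lit 225)) (XT.nd (nat_lit 78) (nat_lit 0) (nat_lit 0) (XT.lf (nat_lit 0) (nat_lit 1108029142385) (nat_lit 152) (nat_lit 3575471364029) (nat_lit 228) (nat_lit 9883292436890) (nat_lit 25) (nat_lit 5) (nat_lit 27) (nat_lit 5) (nat_lit 28) (nat_lit 5) (nat_lit 403) (nat_lit 393) (nat_lit 224)) (XT.lf (nat_lit 0) (nat_lit 8296980051898) (nat_lit 228) (nat_lit 5223416948206) (nat_lit 76) (nat_lit 2340828300504) (nat_lit 25) (nat_lit 5) (nat_lit 28) (nat_lit 5) (nat_lit 26) (nat_lit 4) (nat_lit 404) (nat_lit 393) (nat_lit 223))))) (XT.nd (nat_lit 234) (nat_lit 152) (nat_lit 0) (XT.nd (nat_lit 78) (nat_lit 152) (nat_lit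 0) (XT.lf (nat_lit 0) (nat_lit 4475402686179) (nat_lit 76) (nat_lit 8332656265500) (nat_lit 152) (nat_lit 4488426946457) (nat_lit 24) (nat_lit 5) (nat_lit 25) (nat_lit 5) (nat_lit 26) (nat_lit 4) (nat_lit 405) (nat_lit 393) (nat_lit 222)) (XT.nd (nat_lit 78) (nat_lit 152) (nat_lit 0) (XT.lf (nat_lit 0) (nat_lit 16216086102160) (nat_lit 76) (nat_lit 2052755833754) (nat_lit 152) (nat_lit 637237311955) (nat_lit 24) (nat_lit 5) (nat_lit 25) (nat_lit 5) (nat_lit 26) (nat_lit 4) (nat_lit 406) (nat_lit 393) (nat_lit 221)) (XT.lf (nat_lit 0) (nat_lit 4094819090921) (nat_lit 152) (nat_lit 11249985963359) (nat_lit 76) (nat_lit 5292644217066) (nat_lit 22) (nat_lit 5) (nat_lit 24) (nat_lit 5) (nat_lit 23) (nat_lit 4) (nat_lit 407) (nat_lit 393) (nat_lit 220)))) (XT.nd (nat_lit 78) (nat_lit 76) (nat_lit 0) (XT.lf (nat_lit 0) (nat_lit 918395068565) (nat_lit 76) (nat_lit 8836136130266) (nat_lit 152)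 (nat_lit 12826978673303) (nat_lit 21) (nat_lit 5) (nat_lit 22) (nat_lit 5) (nat_lit 23) (nat_lit 4) (nat_lit 408) (nat_lit 393) (nat_lit 219)) (XT.nd (nat_lit 78) (nat_lit 76) (nat_lit 0) (XT.lf (nat_lit 0) (nat_lit 16176378268545) (nat_lit 76) (nat_lit 674889302403) (nat_lit 152) (nat_lit 7877701874889) (nat_lit 21) (nat_lit 5) (nat_lit 22) (nat_lit 5) (nat_lit 23) (nat_lit 4) (nat_lit 409) (nat_lit 393) (nat_lit 218)) (XT.lf (nat_lit 0) (nat_lit 6766199814859) (nat_lit 76) (nat_lit 18887173563862) (nat_lit 76) (nat_lit 1449045729899) (nat_lit 20) (nat_lit 4) (nat_lit 21) (nat_lit 5) (nat_lit 21) (nat_lit 4) (nat_lit 410) (nat_lit 393) (nat_lit 217)))))) (XT.nd (nat_lit 468) (nat_lit 456) (nat_lit 0) (XT.nd (nat_lit 234) (nat_lit 152) (nat_lit 0) (XT.nd (nat_lit 78) (nat_lit 152) (nat_lit 0) (XT.lf (nat_lit 0) (nat_lit 5915234738667) (nat_lit 152) (nat_lit 4720373145875) (nat_lit 76)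 (nat_lit 19084285582458) (nat_lit 19) (nat_lit 5) (nat_lit 21) (nat_lit 5) (nat_lit 20) (nat_lit 4) (nat_lit 411) (nat_lit 393) (nat_lit 216)) (XT.nd (nat_lit 78) (nat_lit 76) (nat_lit 0) (XT.lf (nat_lit 0) (nat_lit 14455803321710) (nat_lit 76) (nat_lit 378583262364) (nat_lit 152) (nat_lit 17795464470156) (nat_lit 18) (nat_lit 5) (nat_lit 19) (nat_lit 5) (nat_lit 20) (nat_lit 4) (nat_lit 412) (nat_lit 393) (nat_lit 215)) (XT.lf (nat_lit 0) (nat_lit 675232138751) (nat_lit 76) (nat_lit 25175389033428) (nat_lit 76) (nat_lit 10011799612483) (nat_lit 17) (nat_lit 4) (nat_lit 18) (nat_lit 5) (nat_lit 18) (nat_lit 4) (nat_lit 413) (nat_lit 393) (nat_lit 214)))) (XT.nd (nat_lit 78) (nat_lit 76) (nat_lit 0) (XT.lf (nat_lit 0) (nat_lit 47108832352) (nat_lit 152) (nat_lit 15062305431415) (nat_lit 76) (nat_lit 24325058208715) (nat_lit 16) (nat_lit 5) (nat_lit 18) (nat_lit 5) (nat_lit 17) (nat_lit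 4) (nat_lit 414) (nat_lit 393) (nat_lit 213)) (XT.nd (nat_lit 78) (nat_lit 0) (nat_lit 0) (XT.lf (nat_lit 0) (nat_lit 8347730606799) (nat_lit 76) (nat_lit 2587767080547) (nat_lit 152) (nat_lit 32483472113331) (nat_lit 15) (nat_lit 5) (nat_lit 16) (nat_lit 5) (nat_lit 17) (nat_lit 4) (nat_lit 415) (nat_lit 393) (nat_lit 212)) (XT.lf (nat_lit 0) (nat_lit 24771100403186) (nat_lit 152) (nat_lit 11447577523159) (nat_lit 0) (nat_lit 11585370471868) (nat_lit 15) (nat_lit 5) (nat_lit 17) (nat_lit 4) (nat_lit 15) (nat_lit 4) (nat_lit 416) (nat_lit 393) (nat_lit 211))))) (XT.nd (nat_lit 234) (nat_lit 228) (nat_lit 0) (XT.nd (nat_lit 78) (nat_lit 152) (nat_lit 0) (XT.lf (nat_lit 0) (nat_lit 17120600655517) (nat_lit 76) (nat_lit 24393597438059) (nat_lit 76) (nat_lit 11207867506726) (nat_lit 14) (nat_lit 4) (nat_lit 15) (nat_lit 5) (nat_lit 15) (nat_lit 4) (nat_lit 417) (nat_lit 393) (nat_lit 210))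 (XT.nd (nat_lit 78) (nat_lit 76) (nat_lit 0) (XT.lf (nat_lit 0) (nat_lit 2805005071617) (nat_lit 152) (nat_lit 7154969027369) (nat_lit 76) (nat_lit 48308926834475) (nat_lit 13) (nat_lit 5) (nat_lit 15) (nat_lit 5) (nat_lit 14) (nat_lit 4) (nat_lit 418) (nat_lit 393) (nat_lit 209)) (XT.lf (nat_lit 0) (nat_lit 19264301985947) (nat_lit 152) (nat_lit 37281158672638) (nat_lit 0) (nat_lit 7798449871722) (nat_lit 12) (nat_lit 5) (nat_lit 14) (nat_lit 4) (nat_lit 12) (nat_lit 4) (nat_lit 419) (nat_lit 393) (nat_lit 208)))) (XT.nd (nat_lit 156) (nat_lit 152) (nat_lit 0) (XT.nd (nat_lit 78) (nat_lit 76) (nat_lit 0) (XT.lf (nat_lit 0) (nat_lit 39058597650750) (nat_lit 152) (nat_lit 4548912747414) (nat_lit 0) (nat_lit 27592745536517) (nat_lit 12) (nat_lit 5) (nat_lit 14) (nat_lit 4) (nat_lit 12) (nat_lit 4) (nat_lit 420) (nat_lit 393) (nat_lit 207)) (XT.lf (nat_lit 0) (nat_lit 36327275323040) (nat_lit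 76) (nat_lit 26998997345232) (nat_lit 76) (nat_lit 15533145230990) (nat_lit 11) (nat_lit 4) (nat_lit 12) (nat_lit 5) (nat_lit 12) (nat_lit 4) (nat_lit 421) (nat_lit 393) (nat_lit 206))) (XT.nd (nat_lit 78) (nat_lit 76) (nat_lit 0) (XT.lf (nat_lit 0) (nat_lit 3498224524448) (nat_lit 152) (nat_lit 3944669386684) (nat_lit 76) (nat_lit 80165041105239) (nat_lit 10) (nat_lit 5) (nat_lit 12) (nat_lit 5) (nat_lit 11) (nat_lit 4) (nat_lit 422) (nat_lit 393) (nat_lit 205)) (XT.lf (nat_lit 0) (nat_lit 26342332329219) (nat_lit 152) (nat_lit 54461170573316) (nat_lit 0) (nat_lit 16372026142911) (nat_lit 9) (nat_lit 5) (nat_lit 11) (nat_lit 4) (nat_lit 9) (nat_lit 4) (nat_lit 423) (nat_lit 393) (nat_lit 204))))))))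
noncomputable def xc118 : XT := (XT.nd (nat_lit 51948) (nat_lit 0) (nat_lit 0) (XT.nd (nat_lit 51012) (nat_lit 0) (nat_lit 1292) (XT.nd (nat_lit 468) (nat_lit 76) (nat_lit 0) (XT.nd (nat_lit 234) (nat_lit 152) (nat_lit 0) (XT.nd (nat_lit 78) (nat_lit 76) (nat_lit 0) (XT.lf (nat_lit 0) (nat_lit 53183497433531) (nat_lit 152) (nat_lit 11696007328808) (nat_lit 0) (nat_lit 43213191247219) (nat_lit 9) (nat_lit 5) (nat_lit 11) (nat_lit 4) (nat_lit 9) (nat_lit 4) (nat_lit 424) (nat_lit 393) (nat_lit 203)) (XT.nd (nat_lit 78) (nat_lit 0) (nat_lit 0) (XT.lf (nat_lit 0) (nat_lit 41147132691652) (nat_lit 76) (nat_lit 44607519630106) (nat_lit 76) (nat_lit 34637213443789) (nat_lit 8) (nat_lit 4) (nat_lit 9) (nat_lit 5) (nat_lit 9) (nat_lit 4) (nat_lit 425) (nat_lit 393) (nat_lit 202)) (XT.lf (nat_lit 0) (nat_lit 103231215447892) (nat_lit 76) (nat_lit 20591647196587) (nat_lit 76) (nat_lit 10621341010267)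 (nat_lit 8) (nat_lit 4) (nat_lit 9) (nat_lit 5) (nat_lit 9) (nat_lit 4) (nat_lit 426) (nat_lit 393) (nat_lit 201)))) (XT.nd (nat_lit 78) (nat_lit 0) (nat_lit 0) (XT.lf (nat_lit 0) (nat_lit 16918663461386) (nat_lit 152) (nat_lit 125116085811053) (nat_lit 0) (nat_lit 8248831995018) (nat_lit 6) (nat_lit 5) (nat_lit 8) (nat_lit 4) (nat_lit 6) (nat_lit 4) (nat_lit 427) (nat_lit 393) (nat_lit 200)) (XT.nd (nat_lit 78) (nat_lit 0) (nat_lit 0) (XT.lf (nat_lit 0) (nat_lit 50192082911503) (nat_lit 152) (nat_lit 76305188846550) (nat_lit 0) (nat_lit 41522251445134) (nat_lit 6) (nat_lit 5) (nat_lit 8) (nat_lit 4) (nat_lit 6) (nat_lit 4) (nat_lit 428) (nat_lit 393) (nat_lit 199)) (XT.lf (nat_lit 0) (nat_lit 88456515279124) (nat_lit 152) (nat_lit 20172657337403) (nat_lit 0) (nat_lit 79786683812752) (nat_lit 6) (nat_lit 5) (nat_lit 8) (nat_lit 4) (nat_lit 6) (nat_lit 4) (nat_lit 429) (nat_lit 393) (nat_lit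 198))))) (XT.nd (nat_lit 50310) (nat_lit 0) (nat_lit 2128) (XT.nd (nat_lit 78) (nat_lit 0) (nat_lit 0) (XT.lf (nat_lit 0) (nat_lit 48716866210856) (nat_lit 76) (nat_lit 85761007831840) (nat_lit 76) (nat_lit 77091176365467) (nat_lit 5) (nat_lit 4) (nat_lit 6) (nat_lit 5) (nat_lit 6) (nat_lit 4) (nat_lit 430) (nat_lit 393) (nat_lit 197)) (XT.nd (nat_lit 78) (nat_lit 0) (nat_lit 0) (XT.lf (nat_lit 0) (nat_lit 130206949894360) (nat_lit 76) (nat_lit 58249966541795) (nat_lit 76) (nat_lit 49580135075421) (nat_lit 5) (nat_lit 4) (nat_lit 6) (nat_lit 5) (nat_lit 6) (nat_lit 4) (nat_lit 431) (nat_lit 393) (nat_lit 196)) (XT.lf (nat_lit 0) (nat_lit 223920546130368) (nat_lit 76) (nat_lit 26612269058256) (nat_lit 76) (nat_lit 17942437591880) (nat_lit 5) (nat_lit 4) (nat_lit 6) (nat_lit 5) (nat_lit 6) (nat_lit 4) (nat_lit 432) (nat_lit 393) (nat_lit 195)))) (XT.nd (nat_lit 78) (nat_lit 0) (nat_lit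 0) (XT.lf (nat_lit 0) (nat_lit 1071831496420) (nat_lit 380) (nat_lit 1384830771901) (nat_lit 380) (nat_lit 1384830771901) (nat_lit 33) (nat_lit 3) (nat_lit 38) (nat_lit 3) (nat_lit 38) (nat_lit 5) (nat_lit 394) (nat_lit 394) (nat_lit 232)) (XT.nd (nat_lit 78) (nat_lit 0) (nat_lit 76) (XT.lf (nat_lit 76) (nat_lit 1123398964646) (nat_lit 0) (nat_lit 1227556309153) (nat_lit 380) (nat_lit 5901277129205) (nat_lit 34) (nat_lit 5) (nat_lit 33) (nat_lit 3) (nat_lit 38) (nat_lit 5) (nat_lit 395) (nat_lit 394) (nat_lit 231)) (XT.lf (nat_lit 0) (nat_lit 2865695622149) (nat_lit 304) (nat_lit 3105034733854) (nat_lit 380) (nat_lit 2894682184156) (nat_lit 34) (nat_lit 5) (nat_lit 38) (nat_lit 5) (nat_lit 39) (nat_lit 5) (nat_lit 396) (nat_lit 394) (nat_lit 230)))))) (XT.nd (nat_lit 468) (nat_lit 532) (nat_lit 0) (XT.nd (nat_lit 234) (nat_lit 152) (nat_lit 0) (XT.nd (nat_lit 78) (nat_lit 228) (nat_lit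 0) (XT.lf (nat_lit 76) (nat_lit 1606939588166) (nat_lit 0) (nat_lit 1975702438304) (nat_lit 380) (nat_lit 5969178420860) (nat_lit 35) (nat_lit 5) (nat_lit 34) (nat_lit 5) (nat_lit 39) (nat_lit 5) (nat_lit 397) (nat_lit 394) (nat_lit 229)) (XT.nd (nat_lit 78) (nat_lit 304) (nat_lit 0) (XT.lf (nat_lit 0) (nat_lit 4685597807553) (nat_lit 304) (nat_lit 3058328406897) (nat_lit 76) (nat_lit 2555493213710) (nat_lit 35) (nat_lit 5) (nat_lit 39) (nat_lit 5) (nat_lit 36) (nat_lit 5) (nat_lit 398) (nat_lit 394) (nat_lit 228)) (XT.lf (nat_lit 0) (nat_lit 2708231324862) (nat_lit 304) (nat_lit 3451988783146) (nat_lit 380) (nat_lit 4968004675275) (nat_lit 31) (nat_lit 5) (nat_lit 35) (nat_lit 5) (nat_lit 36) (nat_lit 5) (nat_lit 399) (nat_lit 394) (nat_lit 227)))) (XT.nd (nat_lit 78) (nat_lit 152) (nat_lit 0) (XT.lf (nat_lit 0) (nat_lit 8084954121161) (nat_lit 380) (nat_lit 2442932642978) (nat_lit 76)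 (nat_lit 1519126422390) (nat_lit 31) (nat_lit 5) (nat_lit 36) (nat_lit 5) (nat_lit 32) (nat_lit 5) (nat_lit 400) (nat_lit 394) (nat_lit 226)) (XT.nd (nat_lit 78) (nat_lit 0) (nat_lit 0) (XT.lf (nat_lit 0) (nat_lit 4683241412067) (nat_lit 152) (nat_lit 5973460282202) (nat_lit 228) (nat_lit 2393172637297) (nat_lit 29) (nat_lit 5) (nat_lit 31) (nat_lit 5) (nat_lit 32) (nat_lit 5) (nat_lit 401) (nat_lit 394) (nat_lit 225)) (XT.lf (nat_lit 0) (nat_lit 13152893891609) (nat_lit 152) (nat_lit 589016263436) (nat_lit 228) (nat_lit 442099680557) (nat_lit 29) (nat_lit 5) (nat_lit 31) (nat_lit 5) (nat_lit 32) (nat_lit 5) (nat_lit 402) (nat_lit 394) (nat_lit 224))))) (XT.nd (nat_lit 234) (nat_lit 228) (nat_lit 0) (XT.nd (nat_lit 78) (nat_lit 152) (nat_lit 0) (XT.lf (nat_lit 0) (nat_lit 2225858594358) (nat_lit 152) (nat_lit 7632047943401) (nat_lit 76) (nat_lit 5531476106117) (nat_lit 27) (nat_lit 5)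 (nat_lit 29) (nat_lit 5) (nat_lit 28) (nat_lit 5) (nat_lit 403) (nat_lit 394) (nat_lit 223)) (XT.nd (nat_lit 78) (nat_lit 0) (nat_lit 0) (XT.lf (nat_lit 0) (nat_lit 1274233515070) (nat_lit 152) (nat_lit 4111792068192) (nat_lit 228) (nat_lit 11365786301405) (nat_lit 25) (nat_lit 5) (nat_lit 27) (nat_lit 5) (nat_lit 28) (nat_lit 5) (nat_lit 404) (nat_lit 394) (nat_lit 222)) (XT.lf (nat_lit 0) (nat_lit 9541527060468) (nat_lit 228) (nat_lit 6006929489183) (nat_lit 76) (nat_lit 2691952545930) (nat_lit 25) (nat_lit 5) (nat_lit 28) (nat_lit 5) (nat_lit 26) (nat_lit 4) (nat_lit 405) (nat_lit 394) (nat_lit 221)))) (XT.nd (nat_lit 78) (nat_lit 152) (nat_lit 0) (XT.lf (nat_lit 0) (nat_lit 5146713090302) (nat_lit 76) (nat_lit 9582554704861) (nat_lit 152) (nat_lit 5161690987583) (nat_lit 24) (nat_lit 5) (nat_lit 25) (nat_lit 5) (nat_lit 26) (nat_lit 4) (nat_lit 406) (nat_lit 394) (nat_lit 220)) (XT.nd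 (nat_lit 78) (nat_lit 152) (nat_lit 0) (XT.lf (nat_lit 0) (nat_lit 18648499018524) (nat_lit 76) (nat_lit 2360669208415) (nat_lit 152) (nat_lit 732822908016) (nat_lit 24) (nat_lit 5) (nat_lit 25) (nat_lit 5) (nat_lit 26) (nat_lit 4) (nat_lit 407) (nat_lit 394) (nat_lit 219)) (XT.lf (nat_lit 0) (nat_lit 4709041955202) (nat_lit 152) (nat_lit 12937483856731) (nat_lit 76) (nat_lit 6086540850019) (nat_lit 22) (nat_lit 5) (nat_lit 24) (nat_lit 5) (nat_lit 23) (nat_lit 4) (nat_lit 408) (nat_lit 394) (nat_lit 218))))))) (XT.nd (nat_lit 936) (nat_lit 532) (nat_lit 0) (XT.nd (nat_lit 468) (nat_lit 380) (nat_lit 0) (XT.nd (nat_lit 234) (nat_lit 228) (nat_lit 0) (XT.nd (nat_lit 78) (nat_lit 76) (nat_lit 0) (XT.lf (nat_lit 0) (nat_lit 1056154329930) (nat_lit 76) (nat_lit 10161556549329) (nat_lit 152) (nat_lit 14751025473605) (nat_lit 21) (nat_lit 5) (nat_lit 22) (nat_lit 5) (nat_lit 23) (nat_lit 4)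 (nat_lit 409) (nat_lit 394) (nat_lit 217)) (XT.nd (nat_lit 78) (nat_lit 76) (nat_lit 0) (XT.lf (nat_lit 0) (nat_lit 18602835009766) (nat_lit 76) (nat_lit 776122697349) (nat_lit 152) (nat_lit 9059357155519) (nat_lit 21) (nat_lit 5) (nat_lit 22) (nat_lit 5) (nat_lit 23) (nat_lit 4) (nat_lit 410) (nat_lit 394) (nat_lit 216)) (XT.lf (nat_lit 0) (nat_lit 7781129788043) (nat_lit 76) (nat_lit 21720249597997) (nat_lit 76) (nat_lit 1666402588797) (nat_lit 20) (nat_lit 4) (nat_lit 21) (nat_lit 5) (nat_lit 21) (nat_lit 4) (nat_lit 411) (nat_lit 394) (nat_lit 215)))) (XT.nd (nat_lit 78) (nat_lit 152) (nat_lit 0) (XT.lf (nat_lit 0) (nat_lit 6802519949932) (nat_lit 152) (nat_lit 5428429116880) (nat_lit 76) (nat_lit 21946928420168) (nat_lit 19) (nat_lit 5) (nat_lit 21) (nat_lit 5) (nat_lit 20) (nat_lit 4) (nat_lit 412) (nat_lit 394) (nat_lit 214)) (XT.nd (nat_lit 78) (nat_lit 76) (nat_lit 0) (XT.lf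 (nat_lit 0) (nat_lit 16624173820803) (nat_lit 76) (nat_lit 435370751322) (nat_lit 152) (nat_lit 20464784140174) (nat_lit 18) (nat_lit 5) (nat_lit 19) (nat_lit 5) (nat_lit 20) (nat_lit 4) (nat_lit 413) (nat_lit 394) (nat_lit 213)) (XT.lf (nat_lit 0) (nat_lit 776516960409) (nat_lit 76) (nat_lit 28951697388028) (nat_lit 76) (nat_lit 11513569553859) (nat_lit 17) (nat_lit 4) (nat_lit 18) (nat_lit 5) (nat_lit 18) (nat_lit 4) (nat_lit 414) (nat_lit 394) (nat_lit 212))))) (XT.nd (nat_lit 234) (nat_lit 228) (nat_lit 0) (XT.nd (nat_lit 78) (nat_lit 76) (nat_lit 0) (XT.lf (nat_lit 0) (nat_lit 54175157597) (nat_lit 152) (nat_lit 17321651245353) (nat_lit 76) (nat_lit 27973816940344) (nat_lit 16) (nat_lit 5) (nat_lit 18) (nat_lit 5) (nat_lit 17) (nat_lit 4) (nat_lit 415) (nat_lit 394) (nat_lit 211)) (XT.nd (nat_lit 78) (nat_lit 0) (nat_lit 0) (XT.lf (nat_lit 0) (nat_lit 9599890198557) (nat_lit 76)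 (nat_lit 2975932142262) (nat_lit 152) (nat_lit 37355992929903) (nat_lit 15) (nat_lit 5) (nat_lit 16) (nat_lit 5) (nat_lit 17) (nat_lit 4) (nat_lit 416) (nat_lit 394) (nat_lit 210)) (XT.lf (nat_lit 0) (nat_lit 28486765464001) (nat_lit 152) (nat_lit 13164714150955) (nat_lit 0) (nat_lit 13323176042938) (nat_lit 15) (nat_lit 5) (nat_lit 17) (nat_lit 4) (nat_lit 15) (nat_lit 4) (nat_lit 417) (nat_lit 394) (nat_lit 209)))) (XT.nd (nat_lit 78) (nat_lit 152) (nat_lit 0) (XT.lf (nat_lit 0) (nat_lit 19688690754492) (nat_lit 76) (nat_lit 28052637053441) (nat_lit 76) (nat_lit 12889047632367) (nat_lit 14) (nat_lit 4) (nat_lit 15) (nat_lit 5) (nat_lit 15) (nat_lit 4) (nat_lit 418) (nat_lit 394) (nat_lit 208)) (XT.nd (nat_lit 78) (nat_lit 76) (nat_lit 0) (XT.lf (nat_lit 0) (nat_lit 3225755832651) (nat_lit 152) (nat_lit 8228214380883) (nat_lit 76) (nat_lit 55555265859902) (nat_lit 13) (nat_lit 5) (nat_lit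 15) (nat_lit 5) (nat_lit 14) (nat_lit 4) (nat_lit 419) (nat_lit 394) (nat_lit 207)) (XT.lf (nat_lit 0) (nat_lit 22153947284127) (nat_lit 152) (nat_lit 42873332472941) (nat_lit 0) (nat_lit 8968217352742) (nat_lit 12) (nat_lit 5) (nat_lit 14) (nat_lit 4) (nat_lit 12) (nat_lit 4) (nat_lit 420) (nat_lit 394) (nat_lit 206)))))) (XT.nd (nat_lit 468) (nat_lit 228) (nat_lit 0) (XT.nd (nat_lit 234) (nat_lit 152) (nat_lit 0) (XT.nd (nat_lit 78) (nat_lit 152) (nat_lit 0) (XT.lf (nat_lit 0) (nat_lit 44917387298614) (nat_lit 152) (nat_lit 5231249659010) (nat_lit 0) (nat_lit 31731657367222) (nat_lit 12) (nat_lit 5) (nat_lit 14) (nat_lit 4) (nat_lit 12) (nat_lit 4) (nat_lit 421) (nat_lit 394) (nat_lit 205)) (XT.nd (nat_lit 78) (nat_lit 76) (nat_lit 0) (XT.lf (nat_lit 0) (nat_lit 41776366621990) (nat_lit 76) (nat_lit 31048846946762) (nat_lit 76) (nat_lit 17863117015364) (nat_lit 11) (nat_lit 4) (nat_lit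 12) (nat_lit 5) (nat_lit 12) (nat_lit 4) (nat_lit 422) (nat_lit 394) (nat_lit 204)) (XT.lf (nat_lit 0) (nat_lit 4022958203332) (nat_lit 152) (nat_lit 4536369794237) (nat_lit 76) (nat_lit 92189797271225) (nat_lit 10) (nat_lit 5) (nat_lit 12) (nat_lit 5) (nat_lit 11) (nat_lit 4) (nat_lit 423) (nat_lit 394) (nat_lit 203)))) (XT.nd (nat_lit 78) (nat_lit 76) (nat_lit 0) (XT.lf (nat_lit 0) (nat_lit 30293682178818) (nat_lit 152) (nat_lit 62630346158862) (nat_lit 0) (nat_lit 18827830064550) (nat_lit 9) (nat_lit 5) (nat_lit 11) (nat_lit 4) (nat_lit 9) (nat_lit 4) (nat_lit 424) (nat_lit 394) (nat_lit 202)) (XT.nd (nat_lit 78) (nat_lit 76) (nat_lit 0) (XT.lf (nat_lit 0) (nat_lit 61161022048749) (nat_lit 152) (nat_lit 13450408427737) (nat_lit 0) (nat_lit 49695169934478) (nat_lit 9) (nat_lit 5) (nat_lit 11) (nat_lit 4) (nat_lit 9) (nat_lit 4) (nat_lit 425) (nat_lit 394) (nat_lit 201)) (XT.lf (nat_lit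 0) (nat_lit 47319202595775) (nat_lit 76) (nat_lit 51298647574426) (nat_lit 76) (nat_lit 39832795460152) (nat_lit 8) (nat_lit 4) (nat_lit 9) (nat_lit 5) (nat_lit 9) (nat_lit 4) (nat_lit 426) (nat_lit 394) (nat_lit 200))))) (XT.nd (nat_lit 234) (nat_lit 76) (nat_lit 0) (XT.nd (nat_lit 78) (nat_lit 152) (nat_lit 0) (XT.lf (nat_lit 0) (nat_lit 118715897765401) (nat_lit 76) (nat_lit 23680394275904) (nat_lit 76) (nat_lit 12214542161628) (nat_lit 8) (nat_lit 4) (nat_lit 9) (nat_lit 5) (nat_lit 9) (nat_lit 4) (nat_lit 427) (nat_lit 394) (nat_lit 199)) (XT.nd (nat_lit 78) (nat_lit 0) (nat_lit 0) (XT.lf (nat_lit 0) (nat_lit 19456462980756) (nat_lit 152) (nat_lit 143883498682369) (nat_lit 0) (nat_lit 9486156794427) (nat_lit 6) (nat_lit 5) (nat_lit 8) (nat_lit 4) (nat_lit 6) (nat_lit 4) (nat_lit 428) (nat_lit 394) (nat_lit 198)) (XT.lf (nat_lit 0) (nat_lit 57720895348370) (nat_lit 152) (nat_lit 87750967173234)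 (nat_lit 0) (nat_lit 47750589162040) (nat_lit 6) (nat_lit 5) (nat_lit 8) (nat_lit 4) (nat_lit 6) (nat_lit 4) (nat_lit 429) (nat_lit 394) (nat_lit 197)))) (XT.nd (nat_lit 156) (nat_lit 0) (nat_lit 0) (XT.nd (nat_lit 78) (nat_lit 76) (nat_lit 0) (XT.lf (nat_lit 0) (nat_lit 101724992571115) (nat_lit 152) (nat_lit 23198555937754) (nat_lit 0) (nat_lit 91754686384783) (nat_lit 6) (nat_lit 5) (nat_lit 8) (nat_lit 4) (nat_lit 6) (nat_lit 4) (nat_lit 430) (nat_lit 394) (nat_lit 196)) (XT.lf (nat_lit 0) (nat_lit 56024396142731) (nat_lit 76) (nat_lit 98625159006486) (nat_lit 76) (nat_lit 88654852820153) (nat_lit 5) (nat_lit 4) (nat_lit 6) (nat_lit 5) (nat_lit 6) (nat_lit 4) (nat_lit 431) (nat_lit 394) (nat_lit 195))) (XT.nd (nat_lit 50232) (nat_lit 0) (nat_lit 2128) (XT.lf (nat_lit 0) (nat_lit 149737992378729) (nat_lit 76) (nat_lit 66987461522951) (nat_lit 76) (nat_lit 57017155336617) (nat_lit 5)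 (nat_lit 4) (nat_lit 6) (nat_lit 5) (nat_lit 6) (nat_lit 4) (nat_lit 432) (nat_lit 394) (nat_lit 194)) (XT.lf (nat_lit 0) (nat_lit 1232606221865) (nat_lit 380) (nat_lit 1592555387121) (nat_lit 380) (nat_lit 1592555387121) (nat_lit 33) (nat_lit 3) (nat_lit 38) (nat_lit 3) (nat_lit 38) (nat_lit 5) (nat_lit 395) (nat_lit 395) (nat_lit 230))))))))
noncomputable def xc119 : XT := (XT.nd (nat_lit 1872) (nat_lit 684) (nat_lit 0) (XT.nd (nat_lit 936) (nat_lit 760) (nat_lit 0) (XT.nd (nat_lit 468) (nat_lit 532) (nat_lit 0) (XT.nd (nat_lit 234) (nat_lit 152) (nat_lit 0) (XT.nd (nat_lit 78) (nat_lit 0) (nat_lit 76) (XT.lf (nat_lit 76) (nat_lit 1291908810422) (nat_lit 0) (nat_lit 1411689756201) (nat_lit 380) (nat_lit 6786468696568) (nat_lit 34) (nat_lit 5) (nat_lit 33) (nat_lit 3) (nat_lit 38) (nat_lit 5) (nat_lit 396) (nat_lit 395) (nat_lit 229)) (XT.nd (nat_lit 78) (nat_lit 0) (nat_lit 0) (XT.lf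 (nat_lit 0) (nat_lit 3295549966972) (nat_lit 304) (nat_lit 3570789942740) (nat_lit 380) (nat_lit 3328884511245) (nat_lit 34) (nat_lit 5) (nat_lit 38) (nat_lit 5) (nat_lit 39) (nat_lit 5) (nat_lit 397) (nat_lit 395) (nat_lit 228)) (XT.lf (nat_lit 76) (nat_lit 1847980527529) (nat_lit 0) (nat_lit 2272057804264) (nat_lit 380) (nat_lit 6864555182434) (nat_lit 35) (nat_lit 5) (nat_lit 34) (nat_lit 5) (nat_lit 39) (nat_lit 5) (nat_lit 398) (nat_lit 395) (nat_lit 227)))) (XT.nd (nat_lit 78) (nat_lit 304) (nat_lit 0) (XT.lf (nat_lit 0) (nat_lit 5388437479854) (nat_lit 304) (nat_lit 3517077666757) (nat_lit 76) (nat_lit 2938817195598) (nat_lit 35) (nat_lit 5) (nat_lit 39) (nat_lit 5) (nat_lit 36) (nat_lit 5) (nat_lit 399) (nat_lit 395) (nat_lit 226)) (XT.nd (nat_lit 78) (nat_lit 0) (nat_lit 0) (XT.lf (nat_lit 0) (nat_lit 3114466024712) (nat_lit 304) (nat_lit 3969787100559) (nat_lit 380) (nat_lit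 5713205375344) (nat_lit 31) (nat_lit 5) (nat_lit 35) (nat_lit 5) (nat_lit 36) (nat_lit 5) (nat_lit 400) (nat_lit 395) (nat_lit 225)) (XT.lf (nat_lit 0) (nat_lit 9297697240260) (nat_lit 380) (nat_lit 2809372538313) (nat_lit 76) (nat_lit 1746995385796) (nat_lit 31) (nat_lit 5) (nat_lit 36) (nat_lit 5) (nat_lit 32) (nat_lit 5) (nat_lit 401) (nat_lit 395) (nat_lit 224))))) (XT.nd (nat_lit 234) (nat_lit 228) (nat_lit 0) (XT.nd (nat_lit 78) (nat_lit 152) (nat_lit 0) (XT.lf (nat_lit 0) (nat_lit 5385727624938) (nat_lit 152) (nat_lit 6869479324320) (nat_lit 228) (nat_lit 2752148531915) (nat_lit 29) (nat_lit 5) (nat_lit 31) (nat_lit 5) (nat_lit 32) (nat_lit 5) (nat_lit 402) (nat_lit 395) (nat_lit 223)) (XT.nd (nat_lit 78) (nat_lit 152) (nat_lit 0) (XT.lf (nat_lit 0) (nat_lit 15125827976274) (nat_lit 152) (nat_lit 677368702767) (nat_lit 228) (nat_lit 508414631792) (nat_lit 29) (nat_lit 5) (nat_lit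 31) (nat_lit 5) (nat_lit 32) (nat_lit 5) (nat_lit 403) (nat_lit 395) (nat_lit 222)) (XT.lf (nat_lit 0) (nat_lit 2559737384234) (nat_lit 152) (nat_lit 8776855133861) (nat_lit 76) (nat_lit 6361197522254) (nat_lit 27) (nat_lit 5) (nat_lit 29) (nat_lit 5) (nat_lit 28) (nat_lit 5) (nat_lit 404) (nat_lit 395) (nat_lit 221)))) (XT.nd (nat_lit 78) (nat_lit 76) (nat_lit 0) (XT.lf (nat_lit 0) (nat_lit 1465368543333) (nat_lit 152) (nat_lit 4728560878087) (nat_lit 228) (nat_lit 13070654245846) (nat_lit 25) (nat_lit 5) (nat_lit 27) (nat_lit 5) (nat_lit 28) (nat_lit 5) (nat_lit 405) (nat_lit 395) (nat_lit 220)) (XT.nd (nat_lit 78) (nat_lit 76) (nat_lit 0) (XT.lf (nat_lit 0) (nat_lit 10972756120133) (nat_lit 228) (nat_lit 6907968911613) (nat_lit 76) (nat_lit 3095745428083) (nat_lit 25) (nat_lit 5) (nat_lit 28) (nat_lit 5) (nat_lit 26) (nat_lit 4) (nat_lit 406) (nat_lit 395) (nat_lit 219)) (XT.lf (nat_lit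 0) (nat_lit 5918720054752) (nat_lit 76) (nat_lit 11019937910240) (nat_lit 152) (nat_lit 5935944635083) (nat_lit 24) (nat_lit 5) (nat_lit 25) (nat_lit 5) (nat_lit 26) (nat_lit 4) (nat_lit 407) (nat_lit 395) (nat_lit 218)))))) (XT.nd (nat_lit 468) (nat_lit 380) (nat_lit 0) (XT.nd (nat_lit 234) (nat_lit 152) (nat_lit 0) (XT.nd (nat_lit 78) (nat_lit 228) (nat_lit 0) (XT.lf (nat_lit 0) (nat_lit 21445773872090) (nat_lit 76) (nat_lit 2714769589372) (nat_lit 152) (nat_lit 842746343664) (nat_lit 24) (nat_lit 5) (nat_lit 25) (nat_lit 5) (nat_lit 26) (nat_lit 4) (nat_lit 408) (nat_lit 395) (nat_lit 217)) (XT.nd (nat_lit 78) (nat_lit 76) (nat_lit 0) (XT.lf (nat_lit 0) (nat_lit 5415398248968) (nat_lit 152) (nat_lit 14878106434385) (nat_lit 76) (nat_lit 6999521977818) (nat_lit 22) (nat_lit 5) (nat_lit 24) (nat_lit 5) (nat_lit 23) (nat_lit 4) (nat_lit 409) (nat_lit 395) (nat_lit 216)) (XT.lf (nat_lit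 0) (nat_lit 1214577480236) (nat_lit 76) (nat_lit 11685790031368) (nat_lit 152) (nat_lit 16963679294121) (nat_lit 21) (nat_lit 5) (nat_lit 22) (nat_lit 5) (nat_lit 23) (nat_lit 4) (nat_lit 410) (nat_lit 395) (nat_lit 215)))) (XT.nd (nat_lit 78) (nat_lit 152) (nat_lit 0) (XT.lf (nat_lit 0) (nat_lit 21393260261941) (nat_lit 76) (nat_lit 892541101638) (nat_lit 152) (nat_lit 10418260728391) (nat_lit 21) (nat_lit 5) (nat_lit 22) (nat_lit 5) (nat_lit 23) (nat_lit 4) (nat_lit 411) (nat_lit 395) (nat_lit 214)) (XT.nd (nat_lit 78) (nat_lit 76) (nat_lit 0) (XT.lf (nat_lit 0) (nat_lit 8948299256972) (nat_lit 76) (nat_lit 24978287037360) (nat_lit 76) (nat_lit 1916362976672) (nat_lit 20) (nat_lit 4) (nat_lit 21) (nat_lit 5) (nat_lit 21) (nat_lit 4) (nat_lit 412) (nat_lit 395) (nat_lit 213)) (XT.lf (nat_lit 0) (nat_lit 7822897942774) (nat_lit 152) (nat_lit 6242693483750) (nat_lit 76) (nat_lit 25238967683451)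 (nat_lit 19) (nat_lit 5) (nat_lit 21) (nat_lit 5) (nat_lit 20) (nat_lit 4) (nat_lit 413) (nat_lit 395) (nat_lit 212))))) (XT.nd (nat_lit 234) (nat_lit 152) (nat_lit 0) (XT.nd (nat_lit 78) (nat_lit 152) (nat_lit 0) (XT.lf (nat_lit 0) (nat_lit 19117799894556) (nat_lit 76) (nat_lit 500676363720) (nat_lit 152) (nat_lit 23534501760818) (nat_lit 18) (nat_lit 5) (nat_lit 19) (nat_lit 5) (nat_lit 20) (nat_lit 4) (nat_lit 414) (nat_lit 395) (nat_lit 211)) (XT.nd (nat_lit 78) (nat_lit 76) (nat_lit 0) (XT.lf (nat_lit 0) (nat_lit 892994505111) (nat_lit 76) (nat_lit 33294451995919) (nat_lit 76) (nat_lit 13240604986563) (nat_lit 17) (nat_lit 4) (nat_lit 18) (nat_lit 5) (nat_lit 18) (nat_lit 4) (nat_lit 415) (nat_lit 395) (nat_lit 210)) (XT.lf (nat_lit 0) (nat_lit 62301431534) (nat_lit 152) (nat_lit 19919898931571) (nat_lit 76) (nat_lit 32169889481639) (nat_lit 16) (nat_lit 5) (nat_lit 18) (nat_lit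 5) (nat_lit 17) (nat_lit 4) (nat_lit 416) (nat_lit 395) (nat_lit 209)))) (XT.nd (nat_lit 78) (nat_lit 76) (nat_lit 0) (XT.lf (nat_lit 0) (nat_lit 11039873728899) (nat_lit 76) (nat_lit 3422321963325) (nat_lit 152) (nat_lit 42959391869064) (nat_lit 15) (nat_lit 5) (nat_lit 16) (nat_lit 5) (nat_lit 17) (nat_lit 4) (nat_lit 417) (nat_lit 395) (nat_lit 208)) (XT.nd (nat_lit 78) (nat_lit 76) (nat_lit 0) (XT.lf (nat_lit 0) (nat_lit 32759780283856) (nat_lit 152) (nat_lit 15139421273086) (nat_lit 0) (nat_lit 15321652449598) (nat_lit 15) (nat_lit 5) (nat_lit 17) (nat_lit 4) (nat_lit 15) (nat_lit 4) (nat_lit 418) (nat_lit 395) (nat_lit 207)) (XT.lf (nat_lit 0) (nat_lit 22641994368155) (nat_lit 76) (nat_lit 32260532611210) (nat_lit 76) (nat_lit 14822404776944) (nat_lit 14) (nat_lit 4) (nat_lit 15) (nat_lit 5) (nat_lit 15) (nat_lit 4) (nat_lit 419) (nat_lit 395) (nat_lit 206))))))) (XT.nd (nat_lit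 51246) (nat_lit 0) (nat_lit 1444) (XT.nd (nat_lit 624) (nat_lit 228) (nat_lit 0) (XT.nd (nat_lit 390) (nat_lit 152) (nat_lit 0) (XT.nd (nat_lit 78) (nat_lit 228) (nat_lit 0) (XT.lf (nat_lit 0) (nat_lit 3709619207769) (nat_lit 152) (nat_lit 9462446537569) (nat_lit 76) (nat_lit 63888555739081) (nat_lit 13) (nat_lit 5) (nat_lit 15) (nat_lit 5) (nat_lit 14) (nat_lit 4) (nat_lit 420) (nat_lit 395) (nat_lit 205)) (XT.nd (nat_lit 234) (nat_lit 152) (nat_lit 0) (XT.lf (nat_lit 0) (nat_lit 25477039376965) (nat_lit 152) (nat_lit 49304332343433) (nat_lit 0) (nat_lit 10313449955851) (nat_lit 12) (nat_lit 5) (nat_lit 14) (nat_lit 4) (nat_lit 12) (nat_lit 4) (nat_lit 421) (nat_lit 395) (nat_lit 204)) (XT.lf (nat_lit 0) (nat_lit 4626401933997) (nat_lit 152) (nat_lit 5216825263032) (nat_lit 76) (nat_lit 106018266862060) (nat_lit 10) (nat_lit 5) (nat_lit 12) (nat_lit 5) (nat_lit 11) (nat_lit 4) (nat_lit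 424) (nat_lit 395) (nat_lit 201)))) (XT.nd (nat_lit 78) (nat_lit 76) (nat_lit 0) (XT.lf (nat_lit 0) (nat_lit 34837734505804) (nat_lit 152) (nat_lit 72024898082350) (nat_lit 0) (nat_lit 21652004574386) (nat_lit 9) (nat_lit 5) (nat_lit 11) (nat_lit 4) (nat_lit 9) (nat_lit 4) (nat_lit 425) (nat_lit 395) (nat_lit 200)) (XT.nd (nat_lit 78) (nat_lit 76) (nat_lit 0) (XT.lf (nat_lit 0) (nat_lit 70335175356203) (nat_lit 152) (nat_lit 15467969691601) (nat_lit 0) (nat_lit 57149445424783) (nat_lit 9) (nat_lit 5) (nat_lit 11) (nat_lit 4) (nat_lit 9) (nat_lit 4) (nat_lit 426) (nat_lit 395) (nat_lit 199)) (XT.lf (nat_lit 0) (nat_lit 54417082985425) (nat_lit 76) (nat_lit 58993444710441) (nat_lit 76) (nat_lit 45807714779019) (nat_lit 8) (nat_lit 4) (nat_lit 9) (nat_lit 5) (nat_lit 9) (nat_lit 4) (nat_lit 427) (nat_lit 395) (nat_lit 198))))) (XT.nd (nat_lit 234) (nat_lit 76) (nat_lit 0) (XT.nd (nat_lit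 78) (nat_lit 152) (nat_lit 0) (XT.lf (nat_lit 0) (nat_lit 136523282430457) (nat_lit 76) (nat_lit 27232453417162) (nat_lit 76) (nat_lit 14046723485738) (nat_lit 8) (nat_lit 4) (nat_lit 9) (nat_lit 5) (nat_lit 9) (nat_lit 4) (nat_lit 428) (nat_lit 395) (nat_lit 197)) (XT.nd (nat_lit 78) (nat_lit 0) (nat_lit 0) (XT.lf (nat_lit 0) (nat_lit 22374932427992) (nat_lit 152) (nat_lit 165466023484465) (nat_lit 0) (nat_lit 10909080313709) (nat_lit 6) (nat_lit 5) (nat_lit 8) (nat_lit 4) (nat_lit 6) (nat_lit 4) (nat_lit 429) (nat_lit 395) (nat_lit 196)) (XT.lf (nat_lit 0) (nat_lit 66379029650732) (nat_lit 152) (nat_lit 100913612248994) (nat_lit 0) (nat_lit 54913177536448) (nat_lit 6) (nat_lit 5) (nat_lit 8) (nat_lit 4) (nat_lit 6) (nat_lit 4) (nat_lit 430) (nat_lit 395) (nat_lit 195)))) (XT.nd (nat_lit 78) (nat_lit 76) (nat_lit 0) (XT.lf (nat_lit 0) (nat_lit 116983741456875) (nat_lit 152) (nat_lit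 26678339328222) (nat_lit 0) (nat_lit 105517889342590) (nat_lit 6) (nat_lit 5) (nat_lit 8) (nat_lit 4) (nat_lit 6) (nat_lit 4) (nat_lit 431) (nat_lit 395) (nat_lit 194)) (XT.nd (nat_lit 78) (nat_lit 0) (nat_lit 0) (XT.lf (nat_lit 0) (nat_lit 64428055564328) (nat_lit 76) (nat_lit 113418932857360) (nat_lit 76) (nat_lit 101953080743074) (nat_lit 5) (nat_lit 4) (nat_lit 6) (nat_lit 5) (nat_lit 6) (nat_lit 4) (nat_lit 432) (nat_lit 395) (nat_lit 193)) (XT.lf (nat_lit 0) (nat_lit 172198691235702) (nat_lit 76) (nat_lit 77035580751308) (nat_lit 76) (nat_lit 65569728637021) (nat_lit 5) (nat_lit 4) (nat_lit 6) (nat_lit 5) (nat_lit 6) (nat_lit 4) (nat_lit 433) (nat_lit 395) (nat_lit 192)))))) (XT.nd (nat_lit 468) (nat_lit 532) (nat_lit 0) (XT.nd (nat_lit 234) (nat_lit 152) (nat_lit 0) (XT.nd (nat_lit 78) (nat_lit 0) (nat_lit 0) (XT.lf (nat_lit 0) (nat_lit 1417497155888) (nat_lit 380) (nat_lit 1831438694762)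 (nat_lit 380) (nat_lit 1831438694762) (nat_lit 33) (nat_lit 3) (nat_lit 38) (nat_lit 3) (nat_lit 38) (nat_lit 5) (nat_lit 396) (nat_lit 396) (nat_lit 228)) (XT.nd (nat_lit 78) (nat_lit 0) (nat_lit 76) (XT.lf (nat_lit 76) (nat_lit 1485695132801) (nat_lit 0) (nat_lit 1623443220140) (nat_lit 380) (nat_lit 7804438999528) (nat_lit 34) (nat_lit 5) (nat_lit 33) (nat_lit 3) (nat_lit 38) (nat_lit 5) (nat_lit 397) (nat_lit 396) (nat_lit 227)) (XT.lf (nat_lit 0) (nat_lit 3789882463152) (nat_lit 304) (nat_lit 4106408433250) (nat_lit 380) (nat_lit 3828217187529) (nat_lit 34) (nat_lit 5) (nat_lit 38) (nat_lit 5) (nat_lit 39) (nat_lit 5) (nat_lit 398) (nat_lit 396) (nat_lit 226)))) (XT.nd (nat_lit 78) (nat_lit 228) (nat_lit 0) (XT.lf (nat_lit 76) (nat_lit 2125177607519) (nat_lit 0) (nat_lit 2612866475065) (nat_lit 380) (nat_lit 7894238458623) (nat_lit 35) (nat_lit 5) (nat_lit 34) (nat_lit 5) (nat_lit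 39) (nat_lit 5) (nat_lit 399) (nat_lit 396) (nat_lit 225)) (XT.nd (nat_lit 78) (nat_lit 304) (nat_lit 0) (XT.lf (nat_lit 0) (nat_lit 6196703102715) (nat_lit 304) (nat_lit 4044639315882) (nat_lit 76) (nat_lit 3379639774810) (nat_lit 35) (nat_lit 5) (nat_lit 39) (nat_lit 5) (nat_lit 36) (nat_lit 5) (nat_lit 400) (nat_lit 396) (nat_lit 224)) (XT.lf (nat_lit 0) (nat_lit 3581635929267) (nat_lit 304) (nat_lit 4565255165598) (nat_lit 380) (nat_lit 6570186180722) (nat_lit 31) (nat_lit 5) (nat_lit 35) (nat_lit 5) (nat_lit 36) (nat_lit 5) (nat_lit 401) (nat_lit 396) (nat_lit 223))))) (XT.nd (nat_lit 234) (nat_lit 380) (nat_lit 0) (XT.nd (nat_lit 78) (nat_lit 152) (nat_lit 0) (XT.lf (nat_lit 0) (nat_lit 10692351826999) (nat_lit 380) (nat_lit 3230778418219) (nat_lit 76) (nat_lit 2009044693701) (nat_lit 31) (nat_lit 5) (nat_lit 36) (nat_lit 5) (nat_lit 32) (nat_lit 5) (nat_lit 402) (nat_lit 396) (nat_lit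 222)) (XT.nd (nat_lit 78) (nat_lit 0) (nat_lit 0) (XT.lf (nat_lit 0) (nat_lit 6193586769481) (nat_lit 152) (nat_lit 7899901222807) (nat_lit 228) (nat_lit 3164970810964) (nat_lit 29) (nat_lit 5) (nat_lit 31) (nat_lit 5) (nat_lit 32) (nat_lit 5) (nat_lit 403) (nat_lit 396) (nat_lit 221)) (XT.lf (nat_lit 0) (nat_lit 17394702173412) (nat_lit 152) (nat_lit 778974008042) (nat_lit 228) (nat_lit 584676825918) (nat_lit 29) (nat_lit 5) (nat_lit 31) (nat_lit 5) (nat_lit 32) (nat_lit 5) (nat_lit 404) (nat_lit 396) (nat_lit 220)))) (XT.nd (nat_lit 156) (nat_lit 76) (nat_lit 0) (XT.nd (nat_lit 78) (nat_lit 152) (nat_lit 0) (XT.lf (nat_lit 0) (nat_lit 2943697992415) (nat_lit 152) (nat_lit 10093383403146) (nat_lit 76) (nat_lit 7315377150759) (nat_lit 27) (nat_lit 5) (nat_lit 29) (nat_lit 5) (nat_lit 28) (nat_lit 5) (nat_lit 405) (nat_lit 396) (nat_lit 219)) (XT.lf (nat_lit 0) (nat_lit 1685173825591)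 (nat_lit 152) (nat_lit 5437845009549) (nat_lit 228) (nat_lit 15031252382141) (nat_lit 25) (nat_lit 5) (nat_lit 27) (nat_lit 5) (nat_lit 28) (nat_lit 5) (nat_lit 406) (nat_lit 396) (nat_lit 218))) (XT.nd (nat_lit 78) (nat_lit 76) (nat_lit 0) (XT.lf (nat_lit 0) (nat_lit 12618669538602) (nat_lit 228) (nat_lit 7944164247639) (nat_lit 76) (nat_lit 3560107242495) (nat_lit 25) (nat_lit 5) (nat_lit 28) (nat_lit 5) (nat_lit 26) (nat_lit 4) (nat_lit 407) (nat_lit 396) (nat_lit 217)) (XT.lf (nat_lit 0) (nat_lit 6806528063649) (nat_lit 76) (nat_lit 12672928596511) (nat_lit 152) (nat_lit 6826336329863) (nat_lit 24) (nat_lit 5) (nat_lit 25) (nat_lit 5) (nat_lit 26) (nat_lit 4) (nat_lit 408) (nat_lit 396) (nat_lit 216))))))))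
noncomputable def xc120 : XT := (XT.nd (nat_lit 52572) (nat_lit 0) (nat_lit 76) (XT.nd (nat_lit 1404) (nat_lit 304) (nat_lit 0) (XT.nd (nat_lit 468) (nat_lit 760) (nat_lit 0) (XT.nd (nat_lit 234) (nat_lit 152) (nat_lit 0) (XT.nd (nat_lit 78) (nat_lit 228) (nat_lit 0) (XT.lf (nat_lit 0) (nat_lit 24662639953498) (nat_lit 76) (nat_lit 3121985027548) (nat_lit 152) (nat_lit 969158294794) (nat_lit 24) (nat_lit 5) (nat_lit 25) (nat_lit 5) (nat_lit 26) (nat_lit 4) (nat_lit 409) (nat_lit 396) (nat_lit 215)) (XT.nd (nat_lit 78) (nat_lit 76) (nat_lit 0) (XT.lf (nat_lit 0) (nat_lit 6227707986680) (nat_lit 152) (nat_lit 17109822398896) (nat_lit 76) (nat_lit 8049450274716) (nat_lit 22) (nat_lit 5) (nat_lit 24) (nat_lit 5) (nat_lit 23) (nat_lit 4) (nat_lit 410) (nat_lit 396) (nat_lit 214)) (XT.lf (nat_lit 0) (nat_lit 1396764102889) (nat_lit 76) (nat_lit 13438658535801) (nat_lit 152) (nat_lit 19508231187842)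 (nat_lit 21) (nat_lit 5) (nat_lit 22) (nat_lit 5) (nat_lit 23) (nat_lit 4) (nat_lit 411) (nat_lit 396) (nat_lit 213)))) (XT.nd (nat_lit 78) (nat_lit 152) (nat_lit 0) (XT.lf (nat_lit 0) (nat_lit 24602249301769) (nat_lit 76) (nat_lit 1026422266647) (nat_lit 152) (nat_lit 11980999837305) (nat_lit 21) (nat_lit 5) (nat_lit 22) (nat_lit 5) (nat_lit 23) (nat_lit 4) (nat_lit 412) (nat_lit 396) (nat_lit 212)) (XT.nd (nat_lit 78) (nat_lit 76) (nat_lit 0) (XT.lf (nat_lit 0) (nat_lit 10290544146065) (nat_lit 76) (nat_lit 28725030092710) (nat_lit 76) (nat_lit 2203817422837) (nat_lit 20) (nat_lit 4) (nat_lit 21) (nat_lit 5) (nat_lit 21) (nat_lit 4) (nat_lit 413) (nat_lit 396) (nat_lit 211)) (XT.lf (nat_lit 0) (nat_lit 8996332634456) (nat_lit 152) (nat_lit 7179097505811) (nat_lit 76) (nat_lit 29024812836164) (nat_lit 19) (nat_lit 5) (nat_lit 21) (nat_lit 5) (nat_lit 20) (nat_lit 4) (nat_lit 414) (nat_lit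 396) (nat_lit 210))))) (XT.nd (nat_lit 234) (nat_lit 532) (nat_lit 0) (XT.nd (nat_lit 78) (nat_lit 152) (nat_lit 0) (XT.lf (nat_lit 0) (nat_lit 21985469879218) (nat_lit 76) (nat_lit 575777818050) (nat_lit 152) (nat_lit 27064677024652) (nat_lit 18) (nat_lit 5) (nat_lit 19) (nat_lit 5) (nat_lit 20) (nat_lit 4) (nat_lit 415) (nat_lit 396) (nat_lit 209)) (XT.nd (nat_lit 78) (nat_lit 76) (nat_lit 0) (XT.lf (nat_lit 0) (nat_lit 1026943681361) (nat_lit 76) (nat_lit 38288619795070) (nat_lit 76) (nat_lit 15226695734264) (nat_lit 17) (nat_lit 4) (nat_lit 18) (nat_lit 5) (nat_lit 18) (nat_lit 4) (nat_lit 416) (nat_lit 396) (nat_lit 208)) (XT.lf (nat_lit 0) (nat_lit 71646646489) (nat_lit 152) (nat_lit 22907883770864) (nat_lit 76) (nat_lit 36995372904069) (nat_lit 16) (nat_lit 5) (nat_lit 18) (nat_lit 5) (nat_lit 17) (nat_lit 4) (nat_lit 417) (nat_lit 396) (nat_lit 207)))) (XT.nd (nat_lit 546) (nat_lit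 456) (nat_lit 0) (XT.lf (nat_lit 0) (nat_lit 12695854788657) (nat_lit 76) (nat_lit 3935670257614) (nat_lit 152) (nat_lit 49403300649179) (nat_lit 15) (nat_lit 5) (nat_lit 16) (nat_lit 5) (nat_lit 17) (nat_lit 4) (nat_lit 418) (nat_lit 396) (nat_lit 206)) (XT.nd (nat_lit 78) (nat_lit 76) (nat_lit 0) (XT.lf (nat_lit 0) (nat_lit 5320362224220) (nat_lit 152) (nat_lit 5999349052230) (nat_lit 76) (nat_lit 121921006891482) (nat_lit 10) (nat_lit 5) (nat_lit 12) (nat_lit 5) (nat_lit 11) (nat_lit 4) (nat_lit 425) (nat_lit 396) (nat_lit 199)) (XT.lf (nat_lit 0) (nat_lit 40063394681798) (nat_lit 152) (nat_lit 82828632794445) (nat_lit 0) (nat_lit 24899805260660) (nat_lit 9) (nat_lit 5) (nat_lit 11) (nat_lit 4) (nat_lit 9) (nat_lit 4) (nat_lit 426) (nat_lit 396) (nat_lit 198)))))) (XT.nd (nat_lit 468) (nat_lit 76) (nat_lit 0) (XT.nd (nat_lit 234) (nat_lit 152) (nat_lit 0) (XT.nd (nat_lit 78) (nat_lit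 76) (nat_lit 0) (XT.lf (nat_lit 0) (nat_lit 80885451659741) (nat_lit 152) (nat_lit 17788165145117) (nat_lit 0) (nat_lit 65721862238602) (nat_lit 9) (nat_lit 5) (nat_lit 11) (nat_lit 4) (nat_lit 9) (nat_lit 4) (nat_lit 427) (nat_lit 396) (nat_lit 197)) (XT.nd (nat_lit 78) (nat_lit 0) (nat_lit 0) (XT.lf (nat_lit 0) (nat_lit 62579645433451) (nat_lit 76) (nat_lit 67842461416896) (nat_lit 76) (nat_lit 52678871995755) (nat_lit 8) (nat_lit 4) (nat_lit 9) (nat_lit 5) (nat_lit 9) (nat_lit 4) (nat_lit 428) (nat_lit 396) (nat_lit 196)) (XT.lf (nat_lit 0) (nat_lit 157001774795212) (nat_lit 76) (nat_lit 31317321429639) (nat_lit 76) (nat_lit 16153732008496) (nat_lit 8) (nat_lit 4) (nat_lit 9) (nat_lit 5) (nat_lit 9) (nat_lit 4) (nat_lit 429) (nat_lit 396) (nat_lit 195)))) (XT.nd (nat_lit 78) (nat_lit 0) (nat_lit 0) (XT.lf (nat_lit 0) (nat_lit 25731172292284) (nat_lit 152) (nat_lit 190285927006939)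 (nat_lit 0) (nat_lit 12545442360855) (nat_lit 6) (nat_lit 5) (nat_lit 8) (nat_lit 4) (nat_lit 6) (nat_lit 4) (nat_lit 430) (nat_lit 396) (nat_lit 194)) (XT.nd (nat_lit 78) (nat_lit 0) (nat_lit 0) (XT.lf (nat_lit 0) (nat_lit 76335884098422) (nat_lit 152) (nat_lit 116050654086174) (nat_lit 0) (nat_lit 63150154166992) (nat_lit 6) (nat_lit 5) (nat_lit 8) (nat_lit 4) (nat_lit 6) (nat_lit 4) (nat_lit 431) (nat_lit 396) (nat_lit 193)) (XT.lf (nat_lit 0) (nat_lit 134531302675476) (nat_lit 152) (nat_lit 30680090227307) (nat_lit 0) (nat_lit 121345572744045) (nat_lit 6) (nat_lit 5) (nat_lit 8) (nat_lit 4) (nat_lit 6) (nat_lit 4) (nat_lit 432) (nat_lit 396) (nat_lit 192))))) (XT.nd (nat_lit 50466) (nat_lit 0) (nat_lit 2204) (XT.nd (nat_lit 50310) (nat_lit 0) (nat_lit 2128) (XT.lf (nat_lit 0) (nat_lit 74092263899118) (nat_lit 76) (nat_lit 130431772785890) (nat_lit 76) (nat_lit 117246042854458) (nat_lit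 5) (nat_lit 4) (nat_lit 6) (nat_lit 5) (nat_lit 6) (nat_lit 4) (nat_lit 433) (nat_lit 396) (nat_lit 191)) (XT.nd (nat_lit 78) (nat_lit 0) (nat_lit 0) (XT.lf (nat_lit 0) (nat_lit 1630121729833) (nat_lit 380) (nat_lit 2106154498653) (nat_lit 380) (nat_lit 2106154498653) (nat_lit 33) (nat_lit 3) (nat_lit 38) (nat_lit 3) (nat_lit 38) (nat_lit 5) (nat_lit 397) (nat_lit 397) (nat_lit 226)) (XT.lf (nat_lit 76) (nat_lit 1708549403338) (nat_lit 0) (nat_lit 1866959703547) (nat_lit 380) (nat_lit 8975104848304) (nat_lit 34) (nat_lit 5) (nat_lit 33) (nat_lit 3) (nat_lit 38) (nat_lit 5) (nat_lit 398) (nat_lit 397) (nat_lit 225)))) (XT.nd (nat_lit 78) (nat_lit 0) (nat_lit 0) (XT.lf (nat_lit 0) (nat_lit 4358364833483) (nat_lit 304) (nat_lit 4722369697555) (nat_lit 380) (nat_lit 4402449765353) (nat_lit 34) (nat_lit 5) (nat_lit 38) (nat_lit 5) (nat_lit 39) (nat_lit 5) (nat_lit 399) (nat_lit 397) (nat_lit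 224)) (XT.nd (nat_lit 78) (nat_lit 0) (nat_lit 76) (XT.lf (nat_lit 76) (nat_lit 2443954249298) (nat_lit 0) (nat_lit 3004796446447) (nat_lit 380) (nat_lit 9078374226527) (nat_lit 35) (nat_lit 5) (nat_lit 34) (nat_lit 5) (nat_lit 39) (nat_lit 5) (nat_lit 400) (nat_lit 397) (nat_lit 223)) (XT.lf (nat_lit 0) (nat_lit 7126208568790) (nat_lit 304) (nat_lit 4651335212593) (nat_lit 76) (nat_lit 3886585740934) (nat_lit 35) (nat_lit 5) (nat_lit 39) (nat_lit 5) (nat_lit 36) (nat_lit 5) (nat_lit 401) (nat_lit 397) (nat_lit 222))))))) (XT.nd (nat_lit 936) (nat_lit 1140) (nat_lit 0) (XT.nd (nat_lit 468) (nat_lit 304) (nat_lit 0) (XT.nd (nat_lit 234) (nat_lit 304) (nat_lit 0) (XT.nd (nat_lit 78) (nat_lit 152) (nat_lit 0) (XT.lf (nat_lit 0) (nat_lit 4118881319298) (nat_lit 304) (nat_lit 5250043440404) (nat_lit 380) (nat_lit 7555714107132) (nat_lit 31) (nat_lit 5) (nat_lit 35) (nat_lit 5) (nat_lit 36)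 (nat_lit 5) (nat_lit 402) (nat_lit 397) (nat_lit 221)) (XT.nd (nat_lit 78) (nat_lit 152) (nat_lit 0) (XT.lf (nat_lit 0) (nat_lit 12296204601578) (nat_lit 380) (nat_lit 3715395180317) (nat_lit 76) (nat_lit 2310401397783) (nat_lit 31) (nat_lit 5) (nat_lit 36) (nat_lit 5) (nat_lit 32) (nat_lit 5) (nat_lit 403) (nat_lit 397) (nat_lit 220)) (XT.lf (nat_lit 0) (nat_lit 7122624785511) (nat_lit 152) (nat_lit 9084886406107) (nat_lit 228) (nat_lit 3639716432050) (nat_lit 29) (nat_lit 5) (nat_lit 31) (nat_lit 5) (nat_lit 32) (nat_lit 5) (nat_lit 404) (nat_lit 397) (nat_lit 219)))) (XT.nd (nat_lit 78) (nat_lit 304) (nat_lit 0) (XT.lf (nat_lit 0) (nat_lit 20003907499952) (nat_lit 152) (nat_lit 895820109142) (nat_lit 228) (nat_lit 672378349321) (nat_lit 29) (nat_lit 5) (nat_lit 31) (nat_lit 5) (nat_lit 32) (nat_lit 5) (nat_lit 405) (nat_lit 397) (nat_lit 218)) (XT.nd (nat_lit 78) (nat_lit 152) (nat_lit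 0) (XT.lf (nat_lit 0) (nat_lit 3385252691691) (nat_lit 152) (nat_lit 11607390913017) (nat_lit 76) (nat_lit 8412683723498) (nat_lit 27) (nat_lit 5) (nat_lit 29) (nat_lit 5) (nat_lit 28) (nat_lit 5) (nat_lit 406) (nat_lit 397) (nat_lit 217)) (XT.lf (nat_lit 0) (nat_lit 1937949900004) (nat_lit 152) (nat_lit 6253521760790) (nat_lit 228) (nat_lit 17285940239022) (nat_lit 25) (nat_lit 5) (nat_lit 27) (nat_lit 5) (nat_lit 28) (nat_lit 5) (nat_lit 407) (nat_lit 397) (nat_lit 216))))) (XT.nd (nat_lit 234) (nat_lit 228) (nat_lit 0) (XT.nd (nat_lit 78) (nat_lit 76) (nat_lit 0) (XT.lf (nat_lit 0) (nat_lit 14511469969732) (nat_lit 228) (nat_lit 9135788884243) (nat_lit 76) (nat_lit 4094123329021) (nat_lit 25) (nat_lit 5) (nat_lit 28) (nat_lit 5) (nat_lit 26) (nat_lit 4) (nat_lit 408) (nat_lit 397) (nat_lit 215)) (XT.nd (nat_lit 78) (nat_lit 0) (nat_lit 0) (XT.lf (nat_lit 0) (nat_lit 7827507273713)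 (nat_lit 76) (nat_lit 14573867885788) (nat_lit 152) (nat_lit 7850286778978) (nat_lit 24) (nat_lit 5) (nat_lit 25) (nat_lit 5) (nat_lit 26) (nat_lit 4) (nat_lit 409) (nat_lit 397) (nat_lit 214)) (XT.lf (nat_lit 0) (nat_lit 28362035946972) (nat_lit 76) (nat_lit 3590282781506) (nat_lit 152) (nat_lit 1114532038697) (nat_lit 24) (nat_lit 5) (nat_lit 25) (nat_lit 5) (nat_lit 26) (nat_lit 4) (nat_lit 410) (nat_lit 397) (nat_lit 213)))) (XT.nd (nat_lit 78) (nat_lit 76) (nat_lit 0) (XT.lf (nat_lit 0) (nat_lit 7161864184960) (nat_lit 152) (nat_lit 19676295758242) (nat_lit 76) (nat_lit 9256867816093) (nat_lit 22) (nat_lit 5) (nat_lit 24) (nat_lit 5) (nat_lit 23) (nat_lit 4) (nat_lit 411) (nat_lit 397) (nat_lit 212)) (XT.nd (nat_lit 78) (nat_lit 0) (nat_lit 0) (XT.lf (nat_lit 0) (nat_lit 1606278718789) (nat_lit 76) (nat_lit 15454457315965) (nat_lit 152) (nat_lit 22434465865719) (nat_lit 21) (nat_lit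 5) (nat_lit 22) (nat_lit 5) (nat_lit 23) (nat_lit 4) (nat_lit 412) (nat_lit 397) (nat_lit 211)) (XT.lf (nat_lit 0) (nat_lit 28292586697441) (nat_lit 76) (nat_lit 1180385606464) (nat_lit 152) (nat_lit 13778149812640) (nat_lit 21) (nat_lit 5) (nat_lit 22) (nat_lit 5) (nat_lit 23) (nat_lit 4) (nat_lit 413) (nat_lit 397) (nat_lit 210)))))) (XT.nd (nat_lit 1014) (nat_lit 304) (nat_lit 0) (XT.nd (nat_lit 234) (nat_lit 608) (nat_lit 0) (XT.nd (nat_lit 78) (nat_lit 152) (nat_lit 0) (XT.lf (nat_lit 0) (nat_lit 11834125768387) (nat_lit 76) (nat_lit 33033784606424) (nat_lit 76) (nat_lit 2534390036009) (nat_lit 20) (nat_lit 4) (nat_lit 21) (nat_lit 5) (nat_lit 21) (nat_lit 4) (nat_lit 414) (nat_lit 397) (nat_lit 209)) (XT.nd (nat_lit 78) (nat_lit 76) (nat_lit 0) (XT.lf (nat_lit 0) (nat_lit 10345782529825) (nat_lit 152) (nat_lit 8255962131304) (nat_lit 76) (nat_lit 33378534761736) (nat_lit 19) (nat_lit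 5) (nat_lit 21) (nat_lit 5) (nat_lit 20) (nat_lit 4) (nat_lit 415) (nat_lit 397) (nat_lit 208)) (XT.lf (nat_lit 0) (nat_lit 25283290361462) (nat_lit 76) (nat_lit 662144490586) (nat_lit 152) (nat_lit 31124378578132) (nat_lit 18) (nat_lit 5) (nat_lit 19) (nat_lit 5) (nat_lit 20) (nat_lit 4) (nat_lit 416) (nat_lit 397) (nat_lit 207)))) (XT.nd (nat_lit 624) (nat_lit 532) (nat_lit 0) (XT.lf (nat_lit 0) (nat_lit 1180985233930) (nat_lit 76) (nat_lit 44031912764151) (nat_lit 76) (nat_lit 17510700094190) (nat_lit 17) (nat_lit 4) (nat_lit 18) (nat_lit 5) (nat_lit 18) (nat_lit 4) (nat_lit 417) (nat_lit 397) (nat_lit 206)) (XT.nd (nat_lit 78) (nat_lit 76) (nat_lit 0) (XT.lf (nat_lit 0) (nat_lit 63536631587248) (nat_lit 76) (nat_lit 47221415099626) (nat_lit 76) (nat_lit 27167568090169) (nat_lit 11) (nat_lit 4) (nat_lit 12) (nat_lit 5) (nat_lit 12) (nat_lit 4) (nat_lit 425) (nat_lit 397) (nat_lit 198))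 (XT.lf (nat_lit 0) (nat_lit 6118416557948) (nat_lit 152) (nat_lit 6899251409870) (nat_lit 76) (nat_lit 140209157925292) (nat_lit 10) (nat_lit 5) (nat_lit 12) (nat_lit 5) (nat_lit 11) (nat_lit 4) (nat_lit 426) (nat_lit 397) (nat_lit 197))))) (XT.nd (nat_lit 234) (nat_lit 152) (nat_lit 0) (XT.nd (nat_lit 78) (nat_lit 76) (nat_lit 0) (XT.lf (nat_lit 0) (nat_lit 46072903884161) (nat_lit 152) (nat_lit 95252927713416) (nat_lit 0) (nat_lit 28634776049847) (nat_lit 9) (nat_lit 5) (nat_lit 11) (nat_lit 4) (nat_lit 9) (nat_lit 4) (nat_lit 427) (nat_lit 397) (nat_lit 196)) (XT.nd (nat_lit 78) (nat_lit 76) (nat_lit 0) (XT.lf (nat_lit 0) (nat_lit 93018269408783) (nat_lit 152) (nat_lit 20456389916715) (nat_lit 0) (nat_lit 75580141574468) (nat_lit 9) (nat_lit 5) (nat_lit 11) (nat_lit 4) (nat_lit 9) (nat_lit 4) (nat_lit 428) (nat_lit 397) (nat_lit 195)) (XT.lf (nat_lit 0) (nat_lit 71966592248632) (nat_lit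 76) (nat_lit 78018830629346) (nat_lit 76) (nat_lit 60580702795029) (nat_lit 8) (nat_lit 4) (nat_lit 9) (nat_lit 5) (nat_lit 9) (nat_lit 4) (nat_lit 429) (nat_lit 397) (nat_lit 194)))) (XT.nd (nat_lit 156) (nat_lit 0) (nat_lit 0) (XT.nd (nat_lit 78) (nat_lit 152) (nat_lit 0) (XT.lf (nat_lit 0) (nat_lit 180552041014636) (nat_lit 76) (nat_lit 36014919644010) (nat_lit 76) (nat_lit 18576791809693) (nat_lit 8) (nat_lit 4) (nat_lit 9) (nat_lit 5) (nat_lit 9) (nat_lit 4) (nat_lit 430) (nat_lit 397) (nat_lit 193)) (XT.lf (nat_lit 0) (nat_lit 29590848136196) (nat_lit 152) (nat_lit 218828816057833) (nat_lit 0) (nat_lit 14427258715050) (nat_lit 6) (nat_lit 5) (nat_lit 8) (nat_lit 4) (nat_lit 6) (nat_lit 4) (nat_lit 431) (nat_lit 397) (nat_lit 192))) (XT.nd (nat_lit 78) (nat_lit 0) (nat_lit 0) (XT.lf (nat_lit 0) (nat_lit 87786266713247) (nat_lit 152) (nat_lit 133458252198971) (nat_lit 0) (nat_lit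 72622677292100) (nat_lit 6) (nat_lit 5) (nat_lit 8) (nat_lit 4) (nat_lit 6) (nat_lit 4) (nat_lit 432) (nat_lit 397) (nat_lit 191)) (XT.lf (nat_lit 0) (nat_lit 154710998076851) (nat_lit 152) (nat_lit 35282103761291) (nat_lit 0) (nat_lit 139547408655703) (nat_lit 6) (nat_lit 5) (nat_lit 8) (nat_lit 4) (nat_lit 6) (nat_lit 4) (nat_lit 433) (nat_lit 397) (nat_lit 190))))))))
noncomputable def xc121 : XT := (XT.nd (nat_lit 2574) (nat_lit 152) (nat_lit 0) (XT.nd (nat_lit 936) (nat_lit 1292) (nat_lit 0) (XT.nd (nat_lit 468) (nat_lit 456) (nat_lit 0) (XT.nd (nat_lit 234) (nat_lit 152) (nat_lit 0) (XT.nd (nat_lit 78) (nat_lit 0) (nat_lit 0) (XT.lf (nat_lit 0) (nat_lit 1874639989732) (nat_lit 380) (nat_lit 2422077673207) (nat_lit 380) (nat_lit 2422077673207) (nat_lit 33) (nat_lit 3) (nat_lit 38) (nat_lit 3) (nat_lit 38) (nat_lit 5) (nat_lit 398) (nat_lit 398) (nat_lit 224)) (XT.nd (nat_lit 78)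 (nat_lit 0) (nat_lit 76) (XT.lf (nat_lit 76) (nat_lit 1964831814306) (nat_lit 0) (nat_lit 2147003659371) (nat_lit 380) (nat_lit 10321370574678) (nat_lit 34) (nat_lit 5) (nat_lit 33) (nat_lit 3) (nat_lit 38) (nat_lit 5) (nat_lit 399) (nat_lit 398) (nat_lit 223)) (XT.lf (nat_lit 0) (nat_lit 5012119559154) (nat_lit 304) (nat_lit 5430725151673) (nat_lit 380) (nat_lit 5062817229925) (nat_lit 34) (nat_lit 5) (nat_lit 38) (nat_lit 5) (nat_lit 39) (nat_lit 5) (nat_lit 400) (nat_lit 398) (nat_lit 222)))) (XT.nd (nat_lit 78) (nat_lit 228) (nat_lit 0) (XT.lf (nat_lit 76) (nat_lit 2810547387185) (nat_lit 0) (nat_lit 3455515913506) (nat_lit 380) (nat_lit 10440130359834) (nat_lit 35) (nat_lit 5) (nat_lit 34) (nat_lit 5) (nat_lit 39) (nat_lit 5) (nat_lit 401) (nat_lit 398) (nat_lit 221)) (XT.nd (nat_lit 78) (nat_lit 304) (nat_lit 0) (XT.lf (nat_lit 0) (nat_lit 8195139854613) (nat_lit 304) (nat_lit 5349035493975)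 (nat_lit 76) (nat_lit 4469573602002) (nat_lit 35) (nat_lit 5) (nat_lit 39) (nat_lit 5) (nat_lit 36) (nat_lit 5) (nat_lit 402) (nat_lit 398) (nat_lit 220)) (XT.lf (nat_lit 0) (nat_lit 4736713517677) (nat_lit 304) (nat_lit 6037549956439) (nat_lit 380) (nat_lit 8689071222674) (nat_lit 31) (nat_lit 5) (nat_lit 35) (nat_lit 5) (nat_lit 36) (nat_lit 5) (nat_lit 403) (nat_lit 398) (nat_lit 219))))) (XT.nd (nat_lit 234) (nat_lit 304) (nat_lit 0) (XT.nd (nat_lit 78) (nat_lit 152) (nat_lit 0) (XT.lf (nat_lit 0) (nat_lit 14140635292215) (nat_lit 380) (nat_lit 4272704456884) (nat_lit 76) (nat_lit 2656961607471) (nat_lit 31) (nat_lit 5) (nat_lit 36) (nat_lit 5) (nat_lit 32) (nat_lit 5) (nat_lit 404) (nat_lit 398) (nat_lit 218)) (XT.nd (nat_lit 78) (nat_lit 0) (nat_lit 0) (XT.lf (nat_lit 0) (nat_lit 8191018503796) (nat_lit 152) (nat_lit 10447619366931) (nat_lit 228) (nat_lit 4185673896436) (nat_lit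 29) (nat_lit 5) (nat_lit 31) (nat_lit 5) (nat_lit 32) (nat_lit 5) (nat_lit 405) (nat_lit 398) (nat_lit 217)) (XT.lf (nat_lit 0) (nat_lit 23004493625344) (nat_lit 152) (nat_lit 1030193125434) (nat_lit 228) (nat_lit 773235101352) (nat_lit 29) (nat_lit 5) (nat_lit 31) (nat_lit 5) (nat_lit 32) (nat_lit 5) (nat_lit 406) (nat_lit 398) (nat_lit 216)))) (XT.nd (nat_lit 78) (nat_lit 152) (nat_lit 0) (XT.lf (nat_lit 0) (nat_lit 3893040595757) (nat_lit 152) (nat_lit 13348499549516) (nat_lit 76) (nat_lit 9674586282118) (nat_lit 27) (nat_lit 5) (nat_lit 29) (nat_lit 5) (nat_lit 28) (nat_lit 5) (nat_lit 407) (nat_lit 398) (nat_lit 215)) (XT.nd (nat_lit 78) (nat_lit 0) (nat_lit 0) (XT.lf (nat_lit 0) (nat_lit 2228642385438) (nat_lit 152) (nat_lit 7191550024765) (nat_lit 228) (nat_lit 19878831274542) (nat_lit 25) (nat_lit 5) (nat_lit 27) (nat_lit 5) (nat_lit 28) (nat_lit 5) (nat_lit 408) (nat_lit 398)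 (nat_lit 214)) (XT.lf (nat_lit 0) (nat_lit 16688190465449) (nat_lit 228) (nat_lit 10506157216470) (nat_lit 76) (nat_lit 4708241828488) (nat_lit 25) (nat_lit 5) (nat_lit 28) (nat_lit 5) (nat_lit 26) (nat_lit 4) (nat_lit 409) (nat_lit 398) (nat_lit 213)))))) (XT.nd (nat_lit 468) (nat_lit 912) (nat_lit 0) (XT.nd (nat_lit 234) (nat_lit 152) (nat_lit 0) (XT.nd (nat_lit 78) (nat_lit 152) (nat_lit 0) (XT.lf (nat_lit 0) (nat_lit 9001633365162) (nat_lit 76) (nat_lit 16759948068504) (nat_lit 152) (nat_lit 9027829795550) (nat_lit 24) (nat_lit 5) (nat_lit 25) (nat_lit 5) (nat_lit 26) (nat_lit 4) (nat_lit 410) (nat_lit 398) (nat_lit 212)) (XT.nd (nat_lit 78) (nat_lit 152) (nat_lit 0) (XT.lf (nat_lit 0) (nat_lit 32616341339358) (nat_lit 76) (nat_lit 4128825198600) (nat_lit 152) (nat_lit 1281711844262) (nat_lit 24) (nat_lit 5) (nat_lit 25) (nat_lit 5) (nat_lit 26) (nat_lit 4) (nat_lit 411) (nat_lit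 398) (nat_lit 211)) (XT.lf (nat_lit 0) (nat_lit 8236143812914) (nat_lit 152) (nat_lit 22627740121608) (nat_lit 76) (nat_lit 10645397988635) (nat_lit 22) (nat_lit 5) (nat_lit 24) (nat_lit 5) (nat_lit 23) (nat_lit 4) (nat_lit 412) (nat_lit 398) (nat_lit 210)))) (XT.nd (nat_lit 78) (nat_lit 76) (nat_lit 0) (XT.lf (nat_lit 0) (nat_lit 1847220526961) (nat_lit 76) (nat_lit 17772625913203) (nat_lit 152) (nat_lit 25799635745349) (nat_lit 21) (nat_lit 5) (nat_lit 22) (nat_lit 5) (nat_lit 23) (nat_lit 4) (nat_lit 413) (nat_lit 398) (nat_lit 209)) (XT.nd (nat_lit 78) (nat_lit 76) (nat_lit 0) (XT.lf (nat_lit 0) (nat_lit 32536474702364) (nat_lit 76) (nat_lit 1357443447299) (nat_lit 152) (nat_lit 15844872284339) (nat_lit 21) (nat_lit 5) (nat_lit 22) (nat_lit 5) (nat_lit 23) (nat_lit 4) (nat_lit 414) (nat_lit 398) (nat_lit 208)) (XT.lf (nat_lit 0) (nat_lit 13609244633958) (nat_lit 76) (nat_lit 37988852297242)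 (nat_lit 76) (nat_lit 2914548541218) (nat_lit 20) (nat_lit 4) (nat_lit 21) (nat_lit 5) (nat_lit 21) (nat_lit 4) (nat_lit 415) (nat_lit 398) (nat_lit 207))))) (XT.nd (nat_lit 936) (nat_lit 152) (nat_lit 0) (XT.nd (nat_lit 780) (nat_lit 684) (nat_lit 0) (XT.lf (nat_lit 0) (nat_lit 11897649909451) (nat_lit 152) (nat_lit 9494356450713) (nat_lit 76) (nat_lit 38385314976108) (nat_lit 19) (nat_lit 5) (nat_lit 21) (nat_lit 5) (nat_lit 20) (nat_lit 4) (nat_lit 416) (nat_lit 398) (nat_lit 206)) (XT.nd (nat_lit 78) (nat_lit 76) (nat_lit 0) (XT.lf (nat_lit 0) (nat_lit 73067126325497) (nat_lit 76) (nat_lit 54304627364487) (nat_lit 76) (nat_lit 31242703303605) (nat_lit 11) (nat_lit 4) (nat_lit 12) (nat_lit 5) (nat_lit 12) (nat_lit 4) (nat_lit 426) (nat_lit 398) (nat_lit 196)) (XT.lf (nat_lit 0) (nat_lit 7036179041711) (nat_lit 152) (nat_lit 7934139121203) (nat_lit 76) (nat_lit 161240531614151) (nat_lit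 10) (nat_lit 5) (nat_lit 12) (nat_lit 5) (nat_lit 11) (nat_lit 4) (nat_lit 427) (nat_lit 398) (nat_lit 195)))) (XT.nd (nat_lit 78) (nat_lit 76) (nat_lit 0) (XT.lf (nat_lit 0) (nat_lit 52983839466856) (nat_lit 152) (nat_lit 109540866870282) (nat_lit 0) (nat_lit 32929992457390) (nat_lit 9) (nat_lit 5) (nat_lit 11) (nat_lit 4) (nat_lit 9) (nat_lit 4) (nat_lit 428) (nat_lit 398) (nat_lit 194)) (XT.nd (nat_lit 78) (nat_lit 76) (nat_lit 0) (XT.lf (nat_lit 0) (nat_lit 106971009820163) (nat_lit 152) (nat_lit 23524848404093) (nat_lit 0) (nat_lit 86917162810696) (nat_lit 9) (nat_lit 5) (nat_lit 11) (nat_lit 4) (nat_lit 9) (nat_lit 4) (nat_lit 429) (nat_lit 398) (nat_lit 193)) (XT.lf (nat_lit 0) (nat_lit 82761581086050) (nat_lit 76) (nat_lit 89721655223683) (nat_lit 76) (nat_lit 69667808214216) (nat_lit 8) (nat_lit 4) (nat_lit 9) (nat_lit 5) (nat_lit 9) (nat_lit 4) (nat_lit 430) (nat_lit 398) (nat_lit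 192))))))) (XT.nd (nat_lit 51402) (nat_lit 0) (nat_lit 152) (XT.nd (nat_lit 50934) (nat_lit 0) (nat_lit 1596) (XT.nd (nat_lit 50700) (nat_lit 0) (nat_lit 2052) (XT.nd (nat_lit 78) (nat_lit 152) (nat_lit 0) (XT.lf (nat_lit 0) (nat_lit 207634847166937) (nat_lit 76) (nat_lit 41417157590557) (nat_lit 76) (nat_lit 21363310581089) (nat_lit 8) (nat_lit 4) (nat_lit 9) (nat_lit 5) (nat_lit 9) (nat_lit 4) (nat_lit 431) (nat_lit 398) (nat_lit 191)) (XT.nd (nat_lit 50544) (nat_lit 0) (nat_lit 2052) (XT.lf (nat_lit 0) (nat_lit 34029475356679) (nat_lit 152) (nat_lit 251653138466395) (nat_lit 0) (nat_lit 16591347522358) (nat_lit 6) (nat_lit 5) (nat_lit 8) (nat_lit 4) (nat_lit 6) (nat_lit 4) (nat_lit 432) (nat_lit 398) (nat_lit 190)) (XT.lf (nat_lit 0) (nat_lit 2155835988514) (nat_lit 380) (nat_lit 2785389324003) (nat_lit 380) (nat_lit 2785389324003) (nat_lit 33) (nat_lit 3) (nat_lit 38) (nat_lit 3)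 (nat_lit 38) (nat_lit 5) (nat_lit 399) (nat_lit 399) (nat_lit 222)))) (XT.nd (nat_lit 78) (nat_lit 0) (nat_lit 76) (XT.lf (nat_lit 76) (nat_lit 2259556586804) (nat_lit 0) (nat_lit 2469054208497) (nat_lit 380) (nat_lit 11869576160220) (nat_lit 34) (nat_lit 5) (nat_lit 33) (nat_lit 3) (nat_lit 38) (nat_lit 5) (nat_lit 400) (nat_lit 399) (nat_lit 221)) (XT.nd (nat_lit 78) (nat_lit 0) (nat_lit 0) (XT.lf (nat_lit 0) (nat_lit 5763937493518) (nat_lit 304) (nat_lit 6245333924035) (nat_lit 380) (nat_lit 5822239814239) (nat_lit 34) (nat_lit 5) (nat_lit 38) (nat_lit 5) (nat_lit 39) (nat_lit 5) (nat_lit 401) (nat_lit 399) (nat_lit 220)) (XT.lf (nat_lit 76) (nat_lit 3232129495635) (nat_lit 0) (nat_lit 3973843300602) (nat_lit 380) (nat_lit 12006149913300) (nat_lit 35) (nat_lit 5) (nat_lit 34) (nat_lit 5) (nat_lit 39) (nat_lit 5) (nat_lit 402) (nat_lit 399) (nat_lit 219))))) (XT.nd (nat_lit 234) (nat_lit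 304) (nat_lit 0) (XT.nd (nat_lit 78) (nat_lit 304) (nat_lit 0) (XT.lf (nat_lit 0) (nat_lit 9424410833187) (nat_lit 304) (nat_lit 6151390817687) (nat_lit 76) (nat_lit 5140009642247) (nat_lit 35) (nat_lit 5) (nat_lit 39) (nat_lit 5) (nat_lit 36) (nat_lit 5) (nat_lit 403) (nat_lit 399) (nat_lit 218)) (XT.nd (nat_lit 78) (nat_lit 0) (nat_lit 0) (XT.lf (nat_lit 0) (nat_lit 5447220545695) (nat_lit 304) (nat_lit 6943182449886) (nat_lit 380) (nat_lit 9992431905675) (nat_lit 31) (nat_lit 5) (nat_lit 35) (nat_lit 5) (nat_lit 36) (nat_lit 5) (nat_lit 404) (nat_lit 399) (nat_lit 217)) (XT.lf (nat_lit 0) (nat_lit 16261730586350) (nat_lit 380) (nat_lit 4913610125053) (nat_lit 76) (nat_lit 3055505848607) (nat_lit 31) (nat_lit 5) (nat_lit 36) (nat_lit 5) (nat_lit 32) (nat_lit 5) (nat_lit 405) (nat_lit 399) (nat_lit 216)))) (XT.nd (nat_lit 78) (nat_lit 152) (nat_lit 0) (XT.lf (nat_lit 0) (nat_lit 9419671279712)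 (nat_lit 152) (nat_lit 12014762271901) (nat_lit 228) (nat_lit 4813524980582) (nat_lit 29) (nat_lit 5) (nat_lit 31) (nat_lit 5) (nat_lit 32) (nat_lit 5) (nat_lit 406) (nat_lit 399) (nat_lit 215)) (XT.nd (nat_lit 78) (nat_lit 152) (nat_lit 0) (XT.lf (nat_lit 0) (nat_lit 26455167669447) (nat_lit 152) (nat_lit 1184722094189) (nat_lit 228) (nat_lit 889220366277) (nat_lit 29) (nat_lit 5) (nat_lit 31) (nat_lit 5) (nat_lit 32) (nat_lit 5) (nat_lit 407) (nat_lit 399) (nat_lit 214)) (XT.lf (nat_lit 0) (nat_lit 4476996685356) (nat_lit 152) (nat_lit 15350774481600) (nat_lit 76) (nat_lit 11125774224508) (nat_lit 27) (nat_lit 5) (nat_lit 29) (nat_lit 5) (nat_lit 28) (nat_lit 5) (nat_lit 408) (nat_lit 399) (nat_lit 213)))))) (XT.nd (nat_lit 468) (nat_lit 988) (nat_lit 0) (XT.nd (nat_lit 234) (nat_lit 228) (nat_lit 0) (XT.nd (nat_lit 78) (nat_lit 76) (nat_lit 0) (XT.lf (nat_lit 0) (nat_lit 2562938743581)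 (nat_lit 152) (nat_lit 8270282528370) (nat_lit 228) (nat_lit 22860655965472) (nat_lit 25) (nat_lit 5) (nat_lit 27) (nat_lit 5) (nat_lit 28) (nat_lit 5) (nat_lit 409) (nat_lit 399) (nat_lit 212)) (XT.nd (nat_lit 78) (nat_lit 76) (nat_lit 0) (XT.lf (nat_lit 0) (nat_lit 19191419035460) (nat_lit 228) (nat_lit 12082080798631) (nat_lit 76) (nat_lit 5414478102848) (nat_lit 25) (nat_lit 5) (nat_lit 28) (nat_lit 5) (nat_lit 26) (nat_lit 4) (nat_lit 410) (nat_lit 399) (nat_lit 211)) (XT.lf (nat_lit 0) (nat_lit 10351878370231) (nat_lit 76) (nat_lit 19273940278666) (nat_lit 152) (nat_lit 10382004264674) (nat_lit 24) (nat_lit 5) (nat_lit 25) (nat_lit 5) (nat_lit 26) (nat_lit 4) (nat_lit 411) (nat_lit 399) (nat_lit 210)))) (XT.nd (nat_lit 78) (nat_lit 228) (nat_lit 0) (XT.lf (nat_lit 0) (nat_lit 37508792540519) (nat_lit 76) (nat_lit 4748148978290) (nat_lit 152) (nat_lit 1473968620720) (nat_lit 24)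 (nat_lit 5) (nat_lit 25) (nat_lit 5) (nat_lit 26) (nat_lit 4) (nat_lit 412) (nat_lit 399) (nat_lit 209)) (XT.nd (nat_lit 78) (nat_lit 76) (nat_lit 0) (XT.lf (nat_lit 0) (nat_lit 9471565385010) (nat_lit 152) (nat_lit 26021901139569) (nat_lit 76) (nat_lit 12242207687028) (nat_lit 22) (nat_lit 5) (nat_lit 24) (nat_lit 5) (nat_lit 23) (nat_lit 4) (nat_lit 413) (nat_lit 399) (nat_lit 208)) (XT.lf (nat_lit 0) (nat_lit 2124303606272) (nat_lit 76) (nat_lit 20438519800066) (nat_lit 152) (nat_lit 29669581106981) (nat_lit 21) (nat_lit 5) (nat_lit 22) (nat_lit 5) (nat_lit 23) (nat_lit 4) (nat_lit 414) (nat_lit 399) (nat_lit 207))))) (XT.nd (nat_lit 1014) (nat_lit 228) (nat_lit 0) (XT.nd (nat_lit 78) (nat_lit 760) (nat_lit 0) (XT.lf (nat_lit 0) (nat_lit 37416945907950) (nat_lit 76) (nat_lit 1561059964291) (nat_lit 152) (nat_lit 18221603126840) (nat_lit 21) (nat_lit 5) (nat_lit 22) (nat_lit 5) (nat_lit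 23) (nat_lit 4) (nat_lit 415) (nat_lit 399) (nat_lit 206)) (XT.nd (nat_lit 858) (nat_lit 684) (nat_lit 0) (XT.lf (nat_lit 0) (nat_lit 15650631329288) (nat_lit 76) (nat_lit 43687180141719) (nat_lit 76) (nat_lit 3351730822256) (nat_lit 20) (nat_lit 4) (nat_lit 21) (nat_lit 5) (nat_lit 21) (nat_lit 4) (nat_lit 416) (nat_lit 399) (nat_lit 205)) (XT.lf (nat_lit 0) (nat_lit 84027195274443) (nat_lit 76) (nat_lit 62450321469097) (nat_lit 76) (nat_lit 35929108799078) (nat_lit 11) (nat_lit 4) (nat_lit 12) (nat_lit 5) (nat_lit 12) (nat_lit 4) (nat_lit 427) (nat_lit 399) (nat_lit 194)))) (XT.nd (nat_lit 156) (nat_lit 76) (nat_lit 0) (XT.nd (nat_lit 78) (nat_lit 76) (nat_lit 0) (XT.lf (nat_lit 0) (nat_lit 8091605898021) (nat_lit 152) (nat_lit 9124259989274) (nat_lit 76) (nat_lit 185426611356322) (nat_lit 10) (nat_lit 5) (nat_lit 12) (nat_lit 5) (nat_lit 11) (nat_lit 4) (nat_lit 428) (nat_lit 399)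 (nat_lit 193)) (XT.lf (nat_lit 0) (nat_lit 60931415386938) (nat_lit 152) (nat_lit 125971996900712) (nat_lit 0) (nat_lit 37869491326049) (nat_lit 9) (nat_lit 5) (nat_lit 11) (nat_lit 4) (nat_lit 9) (nat_lit 4) (nat_lit 429) (nat_lit 399) (nat_lit 192))) (XT.nd (nat_lit 78) (nat_lit 76) (nat_lit 0) (XT.lf (nat_lit 0) (nat_lit 123016661293233) (nat_lit 152) (nat_lit 27053575664610) (nat_lit 0) (nat_lit 99954737232345) (nat_lit 9) (nat_lit 5) (nat_lit 11) (nat_lit 4) (nat_lit 9) (nat_lit 4) (nat_lit 430) (nat_lit 399) (nat_lit 191)) (XT.lf (nat_lit 0) (nat_lit 95175818249048) (nat_lit 76) (nat_lit 103179903507188) (nat_lit 76) (nat_lit 80117979446299) (nat_lit 8) (nat_lit 4) (nat_lit 9) (nat_lit 5) (nat_lit 9) (nat_lit 4) (nat_lit 431) (nat_lit 399) (nat_lit 190))))))))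
noncomputable def xc122 : XT := (XT.nd (nat_lit 52884) (nat_lit 0) (nat_lit 0) (XT.nd (nat_lit 51090) (nat_lit 0) (nat_lit 608) (XT.nd (nat_lit 50622) (nat_lit 0) (nat_lit 2128) (XT.nd (nat_lit 468) (nat_lit 152) (nat_lit 0) (XT.nd (nat_lit 312) (nat_lit 228) (nat_lit 0) (XT.lf (nat_lit 0) (nat_lit 238780074242058) (nat_lit 76) (nat_lit 47629731229099) (nat_lit 76) (nat_lit 24567807168208) (nat_lit 8) (nat_lit 4) (nat_lit 9) (nat_lit 5) (nat_lit 9) (nat_lit 4) (nat_lit 432) (nat_lit 399) (nat_lit 189)) (XT.nd (nat_lit 78) (nat_lit 0) (nat_lit 0) (XT.lf (nat_lit 0) (nat_lit 112685071857867) (nat_lit 76) (nat_lit 198370422435585) (nat_lit 76) (nat_lit 178316575426113) (nat_lit 5) (nat_lit 4) (nat_lit 6) (nat_lit 5) (nat_lit 6) (nat_lit 4) (nat_lit 436) (nat_lit 399) (nat_lit 185)) (XT.lf (nat_lit 0) (nat_lit 301176587213504) (nat_lit 76) (nat_lit 134735712206185) (nat_lit 76) (nat_lit 114681865196713)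 (nat_lit 5) (nat_lit 4) (nat_lit 6) (nat_lit 5) (nat_lit 6) (nat_lit 4) (nat_lit 437) (nat_lit 399) (nat_lit 184)))) (XT.nd (nat_lit 78) (nat_lit 152) (nat_lit 0) (XT.lf (nat_lit 0) (nat_lit 517941829872486) (nat_lit 76) (nat_lit 61555795442377) (nat_lit 76) (nat_lit 41501948432905) (nat_lit 5) (nat_lit 4) (nat_lit 6) (nat_lit 5) (nat_lit 6) (nat_lit 4) (nat_lit 438) (nat_lit 399) (nat_lit 183)) (XT.nd (nat_lit 78) (nat_lit 0) (nat_lit 0) (XT.lf (nat_lit 0) (nat_lit 42900812083647) (nat_lit 152) (nat_lit 632730865996208) (nat_lit 0) (nat_lit 25462684249322) (nat_lit 3) (nat_lit 5) (nat_lit 5) (nat_lit 4) (nat_lit 3) (nat_lit 4) (nat_lit 439) (nat_lit 399) (nat_lit 182)) (XT.lf (nat_lit 0) (nat_lit 144289844380928) (nat_lit 152) (nat_lit 520479135775038) (nat_lit 0) (nat_lit 126851716546604) (nat_lit 3) (nat_lit 5) (nat_lit 5) (nat_lit 4) (nat_lit 3) (nat_lit 4) (nat_lit 440) (nat_lit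 399) (nat_lit 181))))) (XT.nd (nat_lit 234) (nat_lit 152) (nat_lit 0) (XT.nd (nat_lit 78) (nat_lit 0) (nat_lit 0) (XT.lf (nat_lit 0) (nat_lit 2479211387034) (nat_lit 380) (nat_lit 3203197722464) (nat_lit 380) (nat_lit 3203197722464) (nat_lit 33) (nat_lit 3) (nat_lit 38) (nat_lit 3) (nat_lit 38) (nat_lit 5) (nat_lit 400) (nat_lit 400) (nat_lit 220)) (XT.nd (nat_lit 78) (nat_lit 0) (nat_lit 76) (XT.lf (nat_lit 76) (nat_lit 2598490075092) (nat_lit 0) (nat_lit 2839412339938) (nat_lit 380) (nat_lit 13650012583755) (nat_lit 34) (nat_lit 5) (nat_lit 33) (nat_lit 3) (nat_lit 38) (nat_lit 5) (nat_lit 401) (nat_lit 400) (nat_lit 219)) (XT.lf (nat_lit 0) (nat_lit 6628528117917) (nat_lit 304) (nat_lit 7182134012345) (nat_lit 380) (nat_lit 6695575786243) (nat_lit 34) (nat_lit 5) (nat_lit 38) (nat_lit 5) (nat_lit 39) (nat_lit 5) (nat_lit 402) (nat_lit 400) (nat_lit 218)))) (XT.nd (nat_lit 78) (nat_lit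 228) (nat_lit 0) (XT.lf (nat_lit 76) (nat_lit 3716948920261) (nat_lit 0) (nat_lit 4569919795745) (nat_lit 380) (nat_lit 13807072399911) (nat_lit 35) (nat_lit 5) (nat_lit 34) (nat_lit 5) (nat_lit 39) (nat_lit 5) (nat_lit 403) (nat_lit 400) (nat_lit 217)) (XT.nd (nat_lit 78) (nat_lit 304) (nat_lit 0) (XT.lf (nat_lit 0) (nat_lit 10838072458453) (nat_lit 304) (nat_lit 7074099440050) (nat_lit 76) (nat_lit 5911011088542) (nat_lit 35) (nat_lit 5) (nat_lit 39) (nat_lit 5) (nat_lit 36) (nat_lit 5) (nat_lit 404) (nat_lit 400) (nat_lit 216)) (XT.lf (nat_lit 0) (nat_lit 6264303627827) (nat_lit 304) (nat_lit 7984659817354) (nat_lit 380) (nat_lit 11491296691225) (nat_lit 31) (nat_lit 5) (nat_lit 35) (nat_lit 5) (nat_lit 36) (nat_lit 5) (nat_lit 405) (nat_lit 400) (nat_lit 215)))))) (XT.nd (nat_lit 468) (nat_lit 1064) (nat_lit 0) (XT.nd (nat_lit 234) (nat_lit 304) (nat_lit 0) (XT.nd (nat_lit 78) (nat_lit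 152) (nat_lit 0) (XT.lf (nat_lit 0) (nat_lit 18700990174532) (nat_lit 380) (nat_lit 5650651643536) (nat_lit 76) (nat_lit 3513831725910) (nat_lit 31) (nat_lit 5) (nat_lit 36) (nat_lit 5) (nat_lit 32) (nat_lit 5) (nat_lit 406) (nat_lit 400) (nat_lit 214)) (XT.nd (nat_lit 78) (nat_lit 0) (nat_lit 0) (XT.lf (nat_lit 0) (nat_lit 10832621971932) (nat_lit 152) (nat_lit 13816976612634) (nat_lit 228) (nat_lit 5535553727428) (nat_lit 29) (nat_lit 5) (nat_lit 31) (nat_lit 5) (nat_lit 32) (nat_lit 5) (nat_lit 407) (nat_lit 400) (nat_lit 213)) (XT.lf (nat_lit 0) (nat_lit 30423442820093) (nat_lit 152) (nat_lit 1362430408271) (nat_lit 228) (nat_lit 1022603421009) (nat_lit 29) (nat_lit 5) (nat_lit 31) (nat_lit 5) (nat_lit 32) (nat_lit 5) (nat_lit 408) (nat_lit 400) (nat_lit 212)))) (XT.nd (nat_lit 78) (nat_lit 152) (nat_lit 0) (XT.lf (nat_lit 0) (nat_lit 5148546188338) (nat_lit 152) (nat_lit 17653390653580)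 (nat_lit 76) (nat_lit 12794640358239) (nat_lit 27) (nat_lit 5) (nat_lit 29) (nat_lit 5) (nat_lit 28) (nat_lit 5) (nat_lit 409) (nat_lit 400) (nat_lit 211)) (XT.nd (nat_lit 78) (nat_lit 0) (nat_lit 0) (XT.lf (nat_lit 0) (nat_lit 2947379555367) (nat_lit 152) (nat_lit 9510824907543) (nat_lit 228) (nat_lit 26289754360102) (nat_lit 25) (nat_lit 5) (nat_lit 27) (nat_lit 5) (nat_lit 28) (nat_lit 5) (nat_lit 410) (nat_lit 400) (nat_lit 210)) (XT.lf (nat_lit 0) (nat_lit 22070131890926) (nat_lit 228) (nat_lit 13894392918191) (nat_lit 76) (nat_lit 6226649818340) (nat_lit 25) (nat_lit 5) (nat_lit 28) (nat_lit 5) (nat_lit 26) (nat_lit 4) (nat_lit 411) (nat_lit 400) (nat_lit 209))))) (XT.nd (nat_lit 234) (nat_lit 836) (nat_lit 0) (XT.nd (nat_lit 78) (nat_lit 152) (nat_lit 0) (XT.lf (nat_lit 0) (nat_lit 11904660125990) (nat_lit 76) (nat_lit 22165031320379) (nat_lit 152) (nat_lit 11939304904217) (nat_lit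 24) (nat_lit 5) (nat_lit 25) (nat_lit 5) (nat_lit 26) (nat_lit 4) (nat_lit 412) (nat_lit 400) (nat_lit 208)) (XT.nd (nat_lit 78) (nat_lit 152) (nat_lit 0) (XT.lf (nat_lit 0) (nat_lit 43135111421792) (nat_lit 76) (nat_lit 5460371324958) (nat_lit 152) (nat_lit 1695063913691) (nat_lit 24) (nat_lit 5) (nat_lit 25) (nat_lit 5) (nat_lit 26) (nat_lit 4) (nat_lit 413) (nat_lit 400) (nat_lit 207)) (XT.lf (nat_lit 0) (nat_lit 10892300192881) (nat_lit 152) (nat_lit 29925186310293) (nat_lit 76) (nat_lit 14078538840155) (nat_lit 22) (nat_lit 5) (nat_lit 24) (nat_lit 5) (nat_lit 23) (nat_lit 4) (nat_lit 414) (nat_lit 400) (nat_lit 206)))) (XT.nd (nat_lit 78) (nat_lit 760) (nat_lit 0) (XT.lf (nat_lit 0) (nat_lit 2442949147415) (nat_lit 76) (nat_lit 23504297769987) (nat_lit 152) (nat_lit 34120018272898) (nat_lit 21) (nat_lit 5) (nat_lit 22) (nat_lit 5) (nat_lit 23) (nat_lit 4) (nat_lit 415) (nat_lit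 400) (nat_lit 205)) (XT.nd (nat_lit 936) (nat_lit 760) (nat_lit 0) (XT.lf (nat_lit 0) (nat_lit 43029487794319) (nat_lit 76) (nat_lit 1795218958857) (nat_lit 152) (nat_lit 20954843595753) (nat_lit 21) (nat_lit 5) (nat_lit 22) (nat_lit 5) (nat_lit 23) (nat_lit 4) (nat_lit 416) (nat_lit 400) (nat_lit 204)) (XT.lf (nat_lit 0) (nat_lit 96631274565702) (nat_lit 76) (nat_lit 71817869689414) (nat_lit 76) (nat_lit 41318475118888) (nat_lit 11) (nat_lit 4) (nat_lit 12) (nat_lit 5) (nat_lit 12) (nat_lit 4) (nat_lit 428) (nat_lit 400) (nat_lit 192))))))) (XT.nd (nat_lit 51168) (nat_lit 0) (nat_lit 1368) (XT.nd (nat_lit 780) (nat_lit 152) (nat_lit 0) (XT.nd (nat_lit 546) (nat_lit 304) (nat_lit 0) (XT.nd (nat_lit 78) (nat_lit 76) (nat_lit 0) (XT.lf (nat_lit 0) (nat_lit 9305346782766) (nat_lit 152) (nat_lit 10492898987579) (nat_lit 76) (nat_lit 213240603059809) (nat_lit 10) (nat_lit 5) (nat_lit 12) (nat_lit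 5) (nat_lit 11) (nat_lit 4) (nat_lit 429) (nat_lit 400) (nat_lit 191)) (XT.nd (nat_lit 78) (nat_lit 0) (nat_lit 0) (XT.lf (nat_lit 0) (nat_lit 70071127695020) (nat_lit 152) (nat_lit 144867796435733) (nat_lit 0) (nat_lit 43549915024996) (nat_lit 9) (nat_lit 5) (nat_lit 11) (nat_lit 4) (nat_lit 9) (nat_lit 4) (nat_lit 430) (nat_lit 400) (nat_lit 190)) (XT.lf (nat_lit 0) (nat_lit 141469160487254) (nat_lit 152) (nat_lit 31111612014229) (nat_lit 0) (nat_lit 114947947817229) (nat_lit 9) (nat_lit 5) (nat_lit 11) (nat_lit 4) (nat_lit 9) (nat_lit 4) (nat_lit 431) (nat_lit 400) (nat_lit 189)))) (XT.nd (nat_lit 78) (nat_lit 76) (nat_lit 0) (XT.lf (nat_lit 0) (nat_lit 235296089200242) (nat_lit 152) (nat_lit 53659669557719) (nat_lit 0) (nat_lit 212234165139350) (nat_lit 6) (nat_lit 5) (nat_lit 8) (nat_lit 4) (nat_lit 6) (nat_lit 4) (nat_lit 436) (nat_lit 400) (nat_lit 184)) (XT.nd (nat_lit 78) (nat_lit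 0) (nat_lit 0) (XT.lf (nat_lit 0) (nat_lit 129587832636593) (nat_lit 76) (nat_lit 228125985800898) (nat_lit 76) (nat_lit 205064061740005) (nat_lit 5) (nat_lit 4) (nat_lit 6) (nat_lit 5) (nat_lit 6) (nat_lit 4) (nat_lit 437) (nat_lit 400) (nat_lit 183)) (XT.lf (nat_lit 0) (nat_lit 346353075295573) (nat_lit 76) (nat_lit 154946069037091) (nat_lit 76) (nat_lit 131884144976197) (nat_lit 5) (nat_lit 4) (nat_lit 6) (nat_lit 5) (nat_lit 6) (nat_lit 4) (nat_lit 438) (nat_lit 400) (nat_lit 182))))) (XT.nd (nat_lit 50154) (nat_lit 0) (nat_lit 2280) (XT.nd (nat_lit 78) (nat_lit 152) (nat_lit 0) (XT.lf (nat_lit 0) (nat_lit 595633104353393) (nat_lit 76) (nat_lit 70789164758715) (nat_lit 76) (nat_lit 47727240697822) (nat_lit 5) (nat_lit 4) (nat_lit 6) (nat_lit 5) (nat_lit 6) (nat_lit 4) (nat_lit 439) (nat_lit 400) (nat_lit 181)) (XT.nd (nat_lit 78) (nat_lit 0) (nat_lit 0) (XT.lf (nat_lit 0) (nat_lit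 49335933896212) (nat_lit 152) (nat_lit 727640495895600) (nat_lit 0) (nat_lit 29282086886739) (nat_lit 3) (nat_lit 5) (nat_lit 5) (nat_lit 4) (nat_lit 3) (nat_lit 4) (nat_lit 440) (nat_lit 400) (nat_lit 180)) (XT.lf (nat_lit 0) (nat_lit 165933321038083) (nat_lit 152) (nat_lit 598551006141260) (nat_lit 0) (nat_lit 145879474028610) (nat_lit 3) (nat_lit 5) (nat_lit 5) (nat_lit 4) (nat_lit 3) (nat_lit 4) (nat_lit 441) (nat_lit 400) (nat_lit 179)))) (XT.nd (nat_lit 78) (nat_lit 0) (nat_lit 0) (XT.lf (nat_lit 0) (nat_lit 2851093095272) (nat_lit 380) (nat_lit 3683677380728) (nat_lit 380) (nat_lit 3683677380728) (nat_lit 33) (nat_lit 3) (nat_lit 38) (nat_lit 3) (nat_lit 38) (nat_lit 5) (nat_lit 401) (nat_lit 401) (nat_lit 218)) (XT.nd (nat_lit 78) (nat_lit 0) (nat_lit 76) (XT.lf (nat_lit 76) (nat_lit 2988263586558) (nat_lit 0) (nat_lit 3265324191055) (nat_lit 380) (nat_lit 15697514470941) (nat_lit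 34) (nat_lit 5) (nat_lit 33) (nat_lit 3) (nat_lit 38) (nat_lit 5) (nat_lit 402) (nat_lit 401) (nat_lit 217)) (XT.lf (nat_lit 0) (nat_lit 7622807335885) (nat_lit 304) (nat_lit 8259454113974) (nat_lit 380) (nat_lit 7699912154079) (nat_lit 34) (nat_lit 5) (nat_lit 38) (nat_lit 5) (nat_lit 39) (nat_lit 5) (nat_lit 403) (nat_lit 401) (nat_lit 216)))))) (XT.nd (nat_lit 468) (nat_lit 608) (nat_lit 0) (XT.nd (nat_lit 234) (nat_lit 152) (nat_lit 0) (XT.nd (nat_lit 78) (nat_lit 228) (nat_lit 0) (XT.lf (nat_lit 76) (nat_lit 4274491258513) (nat_lit 0) (nat_lit 5255407765147) (nat_lit 380) (nat_lit 15878133259607) (nat_lit 35) (nat_lit 5) (nat_lit 34) (nat_lit 5) (nat_lit 39) (nat_lit 5) (nat_lit 404) (nat_lit 401) (nat_lit 215)) (XT.nd (nat_lit 78) (nat_lit 304) (nat_lit 0) (XT.lf (nat_lit 0) (nat_lit 12463783327440) (nat_lit 304) (nat_lit 8135214355838) (nat_lit 76) (nat_lit 6797662751792) (nat_lit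 35) (nat_lit 5) (nat_lit 39) (nat_lit 5) (nat_lit 36) (nat_lit 5) (nat_lit 405) (nat_lit 401) (nat_lit 214)) (XT.lf (nat_lit 0) (nat_lit 7203949172210) (nat_lit 304) (nat_lit 9182358789946) (nat_lit 380) (nat_lit 13214991194680) (nat_lit 31) (nat_lit 5) (nat_lit 35) (nat_lit 5) (nat_lit 36) (nat_lit 5) (nat_lit 406) (nat_lit 401) (nat_lit 213)))) (XT.nd (nat_lit 78) (nat_lit 152) (nat_lit 0) (XT.lf (nat_lit 0) (nat_lit 21506138700884) (nat_lit 380) (nat_lit 6498249389859) (nat_lit 76) (nat_lit 4040906484805) (nat_lit 31) (nat_lit 5) (nat_lit 36) (nat_lit 5) (nat_lit 32) (nat_lit 5) (nat_lit 407) (nat_lit 401) (nat_lit 212)) (XT.nd (nat_lit 78) (nat_lit 0) (nat_lit 0) (XT.lf (nat_lit 0) (nat_lit 12457515267920) (nat_lit 152) (nat_lit 15889523104489) (nat_lit 228) (nat_lit 6365886786359) (nat_lit 29) (nat_lit 5) (nat_lit 31) (nat_lit 5) (nat_lit 32) (nat_lit 5) (nat_lit 408) (nat_lit 401)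 (nat_lit 211)) (XT.lf (nat_lit 0) (nat_lit 34986959243279) (nat_lit 152) (nat_lit 1566794969478) (nat_lit 228) (nat_lit 1175993934001) (nat_lit 29) (nat_lit 5) (nat_lit 31) (nat_lit 5) (nat_lit 32) (nat_lit 5) (nat_lit 409) (nat_lit 401) (nat_lit 210))))) (XT.nd (nat_lit 234) (nat_lit 304) (nat_lit 0) (XT.nd (nat_lit 78) (nat_lit 152) (nat_lit 0) (XT.lf (nat_lit 0) (nat_lit 5920828116724) (nat_lit 152) (nat_lit 20301399251421) (nat_lit 76) (nat_lit 14713836412016) (nat_lit 27) (nat_lit 5) (nat_lit 29) (nat_lit 5) (nat_lit 28) (nat_lit 5) (nat_lit 410) (nat_lit 401) (nat_lit 209)) (XT.nd (nat_lit 78) (nat_lit 0) (nat_lit 0) (XT.lf (nat_lit 0) (nat_lit 3389486488859) (nat_lit 152) (nat_lit 10937448643613) (nat_lit 228) (nat_lit 30233217513974) (nat_lit 25) (nat_lit 5) (nat_lit 27) (nat_lit 5) (nat_lit 28) (nat_lit 5) (nat_lit 411) (nat_lit 401) (nat_lit 208)) (XT.lf (nat_lit 0) (nat_lit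 25380651674676) (nat_lit 228) (nat_lit 15978551855743) (nat_lit 76) (nat_lit 7160647291141) (nat_lit 25) (nat_lit 5) (nat_lit 28) (nat_lit 5) (nat_lit 26) (nat_lit 4) (nat_lit 412) (nat_lit 401) (nat_lit 207)))) (XT.nd (nat_lit 156) (nat_lit 228) (nat_lit 0) (XT.nd (nat_lit 78) (nat_lit 0) (nat_lit 0) (XT.lf (nat_lit 0) (nat_lit 13690359145058) (nat_lit 76) (nat_lit 25489786018370) (nat_lit 152) (nat_lit 13730200639731) (nat_lit 24) (nat_lit 5) (nat_lit 25) (nat_lit 5) (nat_lit 26) (nat_lit 4) (nat_lit 413) (nat_lit 401) (nat_lit 206)) (XT.lf (nat_lit 0) (nat_lit 49605378135207) (nat_lit 76) (nat_lit 6279427023645) (nat_lit 152) (nat_lit 1949323500641) (nat_lit 24) (nat_lit 5) (nat_lit 25) (nat_lit 5) (nat_lit 26) (nat_lit 4) (nat_lit 414) (nat_lit 401) (nat_lit 205))) (XT.nd (nat_lit 78) (nat_lit 76) (nat_lit 0) (XT.lf (nat_lit 0) (nat_lit 12526145221904) (nat_lit 152) (nat_lit 34413964256678)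 (nat_lit 76) (nat_lit 16190319666234) (nat_lit 22) (nat_lit 5) (nat_lit 24) (nat_lit 5) (nat_lit 23) (nat_lit 4) (nat_lit 415) (nat_lit 401) (nat_lit 204)) (XT.lf (nat_lit 0) (nat_lit 2809391519680) (nat_lit 76) (nat_lit 27029942435418) (nat_lit 152) (nat_lit 39238021013735) (nat_lit 21) (nat_lit 5) (nat_lit 22) (nat_lit 5) (nat_lit 23) (nat_lit 4) (nat_lit 416) (nat_lit 401) (nat_lit 203))))))))
noncomputable def xc123 : XT := (XT.nd (nat_lit 54756) (nat_lit 0) (nat_lit 0) (XT.nd (nat_lit 52416) (nat_lit 0) (nat_lit 76) (XT.nd (nat_lit 51948) (nat_lit 0) (nat_lit 1976) (XT.nd (nat_lit 1638) (nat_lit 76) (nat_lit 0) (XT.nd (nat_lit 1482) (nat_lit 1140) (nat_lit 0) (XT.lf (nat_lit 0) (nat_lit 49483910963599) (nat_lit 76) (nat_lit 2064501802627) (nat_lit 152) (nat_lit 24098070135031) (nat_lit 21) (nat_lit 5) (nat_lit 22) (nat_lit 5) (nat_lit 23) (nat_lit 4) (nat_lit 417) (nat_lit 401) (nat_lit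 202)) (XT.nd (nat_lit 78) (nat_lit 0) (nat_lit 0) (XT.lf (nat_lit 0) (nat_lit 153538729145804) (nat_lit 152) (nat_lit 233419317209725) (nat_lit 0) (nat_lit 127017516475777) (nat_lit 6) (nat_lit 5) (nat_lit 8) (nat_lit 4) (nat_lit 6) (nat_lit 4) (nat_lit 436) (nat_lit 401) (nat_lit 183)) (XT.lf (nat_lit 0) (nat_lit 270590502580295) (nat_lit 152) (nat_lit 61708619991342) (nat_lit 0) (nat_lit 244069289910268) (nat_lit 6) (nat_lit 5) (nat_lit 8) (nat_lit 4) (nat_lit 6) (nat_lit 4) (nat_lit 437) (nat_lit 401) (nat_lit 182)))) (XT.nd (nat_lit 78) (nat_lit 0) (nat_lit 0) (XT.lf (nat_lit 0) (nat_lit 149026007532117) (nat_lit 76) (nat_lit 262344883671015) (nat_lit 76) (nat_lit 235823671000988) (nat_lit 5) (nat_lit 4) (nat_lit 6) (nat_lit 5) (nat_lit 6) (nat_lit 4) (nat_lit 438) (nat_lit 401) (nat_lit 181)) (XT.nd (nat_lit 78) (nat_lit 0) (nat_lit 0) (XT.lf (nat_lit 0) (nat_lit 398306036589936)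 (nat_lit 76) (nat_lit 178187979392640) (nat_lit 76) (nat_lit 151666766722612) (nat_lit 5) (nat_lit 4) (nat_lit 6) (nat_lit 5) (nat_lit 6) (nat_lit 4) (nat_lit 439) (nat_lit 401) (nat_lit 180)) (XT.lf (nat_lit 0) (nat_lit 684978070006428) (nat_lit 76) (nat_lit 81407539472509) (nat_lit 76) (nat_lit 54886326802481) (nat_lit 5) (nat_lit 4) (nat_lit 6) (nat_lit 5) (nat_lit 6) (nat_lit 4) (nat_lit 440) (nat_lit 401) (nat_lit 179))))) (XT.nd (nat_lit 234) (nat_lit 152) (nat_lit 0) (XT.nd (nat_lit 78) (nat_lit 0) (nat_lit 0) (XT.lf (nat_lit 0) (nat_lit 3278757059702) (nat_lit 380) (nat_lit 4236228987758) (nat_lit 380) (nat_lit 4236228987758) (nat_lit 33) (nat_lit 3) (nat_lit 38) (nat_lit 3) (nat_lit 38) (nat_lit 5) (nat_lit 402) (nat_lit 402) (nat_lit 216)) (XT.nd (nat_lit 78) (nat_lit 0) (nat_lit 76) (XT.lf (nat_lit 76) (nat_lit 3436503124694) (nat_lit 0) (nat_lit 3755122819808) (nat_lit 380)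 (nat_lit 18052141641297) (nat_lit 34) (nat_lit 5) (nat_lit 33) (nat_lit 3) (nat_lit 38) (nat_lit 5) (nat_lit 403) (nat_lit 402) (nat_lit 215)) (XT.lf (nat_lit 0) (nat_lit 8766228436479) (nat_lit 304) (nat_lit 9498372230902) (nat_lit 380) (nat_lit 8854898977116) (nat_lit 34) (nat_lit 5) (nat_lit 38) (nat_lit 5) (nat_lit 39) (nat_lit 5) (nat_lit 404) (nat_lit 402) (nat_lit 214)))) (XT.nd (nat_lit 78) (nat_lit 228) (nat_lit 0) (XT.lf (nat_lit 76) (nat_lit 4915664947451) (nat_lit 0) (nat_lit 6043718929949) (nat_lit 380) (nat_lit 18259853248328) (nat_lit 35) (nat_lit 5) (nat_lit 34) (nat_lit 5) (nat_lit 39) (nat_lit 5) (nat_lit 405) (nat_lit 402) (nat_lit 213)) (XT.nd (nat_lit 78) (nat_lit 304) (nat_lit 0) (XT.lf (nat_lit 0) (nat_lit 14333350826721) (nat_lit 304) (nat_lit 9355496509048) (nat_lit 76) (nat_lit 7817312164536) (nat_lit 35) (nat_lit 5) (nat_lit 39) (nat_lit 5) (nat_lit 36) (nat_lit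 5) (nat_lit 406) (nat_lit 402) (nat_lit 212)) (XT.lf (nat_lit 0) (nat_lit 8284541548200) (nat_lit 304) (nat_lit 10559712608430) (nat_lit 380) (nat_lit 15197239873710) (nat_lit 31) (nat_lit 5) (nat_lit 35) (nat_lit 5) (nat_lit 36) (nat_lit 5) (nat_lit 407) (nat_lit 402) (nat_lit 211)))))) (XT.nd (nat_lit 468) (nat_lit 1444) (nat_lit 0) (XT.nd (nat_lit 234) (nat_lit 304) (nat_lit 0) (XT.nd (nat_lit 78) (nat_lit 152) (nat_lit 0) (XT.lf (nat_lit 0) (nat_lit 24732059506148) (nat_lit 380) (nat_lit 7472986798180) (nat_lit 76) (nat_lit 4647042457533) (nat_lit 31) (nat_lit 5) (nat_lit 36) (nat_lit 5) (nat_lit 32) (nat_lit 5) (nat_lit 408) (nat_lit 402) (nat_lit 210)) (XT.nd (nat_lit 78) (nat_lit 0) (nat_lit 0) (XT.lf (nat_lit 0) (nat_lit 14326142558258) (nat_lit 152) (nat_lit 18272951570133) (nat_lit 228) (nat_lit 7320769804176) (nat_lit 29) (nat_lit 5) (nat_lit 31) (nat_lit 5) (nat_lit 32) (nat_lit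 5) (nat_lit 409) (nat_lit 402) (nat_lit 209)) (XT.lf (nat_lit 0) (nat_lit 40235003129901) (nat_lit 152) (nat_lit 1801814214873) (nat_lit 228) (nat_lit 1352393023982) (nat_lit 29) (nat_lit 5) (nat_lit 31) (nat_lit 5) (nat_lit 32) (nat_lit 5) (nat_lit 410) (nat_lit 402) (nat_lit 208)))) (XT.nd (nat_lit 78) (nat_lit 152) (nat_lit 0) (XT.lf (nat_lit 0) (nat_lit 6808952334335) (nat_lit 152) (nat_lit 23346609138986) (nat_lit 76) (nat_lit 16920911873849) (nat_lit 27) (nat_lit 5) (nat_lit 29) (nat_lit 5) (nat_lit 28) (nat_lit 5) (nat_lit 411) (nat_lit 402) (nat_lit 207)) (XT.nd (nat_lit 78) (nat_lit 0) (nat_lit 0) (XT.lf (nat_lit 0) (nat_lit 3897909462329) (nat_lit 152) (nat_lit 12578065940108) (nat_lit 228) (nat_lit 34768200140961) (nat_lit 25) (nat_lit 5) (nat_lit 27) (nat_lit 5) (nat_lit 28) (nat_lit 5) (nat_lit 412) (nat_lit 402) (nat_lit 206)) (XT.lf (nat_lit 0) (nat_lit 29187749425962)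 (nat_lit 228) (nat_lit 18375334633970) (nat_lit 76) (nat_lit 8234744384849) (nat_lit 25) (nat_lit 5) (nat_lit 28) (nat_lit 5) (nat_lit 26) (nat_lit 4) (nat_lit 413) (nat_lit 402) (nat_lit 205))))) (XT.nd (nat_lit 234) (nat_lit 1216) (nat_lit 0) (XT.nd (nat_lit 78) (nat_lit 152) (nat_lit 0) (XT.lf (nat_lit 0) (nat_lit 15743913016944) (nat_lit 76) (nat_lit 29313253921077) (nat_lit 152) (nat_lit 15789730735601) (nat_lit 24) (nat_lit 5) (nat_lit 25) (nat_lit 5) (nat_lit 26) (nat_lit 4) (nat_lit 414) (nat_lit 402) (nat_lit 204)) (XT.nd (nat_lit 78) (nat_lit 152) (nat_lit 0) (XT.lf (nat_lit 0) (nat_lit 57046184855600) (nat_lit 76) (nat_lit 7221341077149) (nat_lit 152) (nat_lit 2241722025659) (nat_lit 24) (nat_lit 5) (nat_lit 25) (nat_lit 5) (nat_lit 26) (nat_lit 4) (nat_lit 415) (nat_lit 402) (nat_lit 203)) (XT.lf (nat_lit 0) (nat_lit 14405067005258) (nat_lit 152) (nat_lit 39576058895058) (nat_lit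 76) (nat_lit 18618867616211) (nat_lit 22) (nat_lit 5) (nat_lit 24) (nat_lit 5) (nat_lit 23) (nat_lit 4) (nat_lit 416) (nat_lit 402) (nat_lit 202)))) (XT.nd (nat_lit 1482) (nat_lit 1140) (nat_lit 0) (XT.lf (nat_lit 0) (nat_lit 3230800247747) (nat_lit 76) (nat_lit 31084433800680) (nat_lit 152) (nat_lit 45123724165721) (nat_lit 21) (nat_lit 5) (nat_lit 22) (nat_lit 5) (nat_lit 23) (nat_lit 4) (nat_lit 417) (nat_lit 402) (nat_lit 201)) (XT.nd (nat_lit 78) (nat_lit 0) (nat_lit 0) (XT.lf (nat_lit 0) (nat_lit 59517765083198) (nat_lit 152) (nat_lit 440142912009535) (nat_lit 0) (nat_lit 29018370512666) (nat_lit 6) (nat_lit 5) (nat_lit 8) (nat_lit 4) (nat_lit 6) (nat_lit 4) (nat_lit 436) (nat_lit 402) (nat_lit 182)) (XT.lf (nat_lit 0) (nat_lit 176569538517688) (nat_lit 152) (nat_lit 268432214791154) (nat_lit 0) (nat_lit 146070143947156) (nat_lit 6) (nat_lit 5) (nat_lit 8) (nat_lit 4) (nat_lit 6)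 (nat_lit 4) (nat_lit 437) (nat_lit 402) (nat_lit 181))))))) (XT.nd (nat_lit 51168) (nat_lit 0) (nat_lit 76) (XT.nd (nat_lit 50700) (nat_lit 0) (nat_lit 1672) (XT.nd (nat_lit 50466) (nat_lit 0) (nat_lit 2128) (XT.nd (nat_lit 78) (nat_lit 76) (nat_lit 0) (XT.lf (nat_lit 0) (nat_lit 311179077967353) (nat_lit 152) (nat_lit 70964912990016) (nat_lit 0) (nat_lit 280679683396820) (nat_lit 6) (nat_lit 5) (nat_lit 8) (nat_lit 4) (nat_lit 6) (nat_lit 4) (nat_lit 438) (nat_lit 402) (nat_lit 180)) (XT.nd (nat_lit 50310) (nat_lit 0) (nat_lit 2128) (XT.lf (nat_lit 0) (nat_lit 171379908661958) (nat_lit 76) (nat_lit 301696616221655) (nat_lit 76) (nat_lit 271197221651123) (nat_lit 5) (nat_lit 4) (nat_lit 6) (nat_lit 5) (nat_lit 6) (nat_lit 4) (nat_lit 439) (nat_lit 402) (nat_lit 179)) (XT.lf (nat_lit 0) (nat_lit 3770570618762) (nat_lit 380) (nat_lit 4871663335861) (nat_lit 380) (nat_lit 4871663335861)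 (nat_lit 33) (nat_lit 3) (nat_lit 38) (nat_lit 3) (nat_lit 38) (nat_lit 5) (nat_lit 403) (nat_lit 403) (nat_lit 214)))) (XT.nd (nat_lit 78) (nat_lit 0) (nat_lit 76) (XT.lf (nat_lit 76) (nat_lit 3951978593513) (nat_lit 0) (nat_lit 4318391242851) (nat_lit 380) (nat_lit 20759962887276) (nat_lit 34) (nat_lit 5) (nat_lit 33) (nat_lit 3) (nat_lit 38) (nat_lit 5) (nat_lit 404) (nat_lit 403) (nat_lit 213)) (XT.nd (nat_lit 78) (nat_lit 0) (nat_lit 0) (XT.lf (nat_lit 0) (nat_lit 10081162702112) (nat_lit 304) (nat_lit 10923128065410) (nat_lit 380) (nat_lit 10183133823627) (nat_lit 34) (nat_lit 5) (nat_lit 38) (nat_lit 5) (nat_lit 39) (nat_lit 5) (nat_lit 405) (nat_lit 403) (nat_lit 212)) (XT.lf (nat_lit 76) (nat_lit 5653014689690) (nat_lit 0) (nat_lit 6950276769464) (nat_lit 380) (nat_lit 20998831235411) (nat_lit 35) (nat_lit 5) (nat_lit 34) (nat_lit 5) (nat_lit 39) (nat_lit 5) (nat_lit 406) (nat_lit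 403) (nat_lit 211))))) (XT.nd (nat_lit 234) (nat_lit 304) (nat_lit 0) (XT.nd (nat_lit 78) (nat_lit 304) (nat_lit 0) (XT.lf (nat_lit 0) (nat_lit 16483353450854) (nat_lit 304) (nat_lit 10758820985279) (nat_lit 76) (nat_lit 8989908989199) (nat_lit 35) (nat_lit 5) (nat_lit 39) (nat_lit 5) (nat_lit 36) (nat_lit 5) (nat_lit 407) (nat_lit 403) (nat_lit 210)) (XT.nd (nat_lit 78) (nat_lit 0) (nat_lit 0) (XT.lf (nat_lit 0) (nat_lit 9527222780550) (nat_lit 304) (nat_lit 12143669499688) (nat_lit 380) (nat_lit 17476825854636) (nat_lit 31) (nat_lit 5) (nat_lit 35) (nat_lit 5) (nat_lit 36) (nat_lit 5) (nat_lit 408) (nat_lit 403) (nat_lit 209)) (XT.lf (nat_lit 0) (nat_lit 28441868432169) (nat_lit 380) (nat_lit 8593934817789) (nat_lit 76) (nat_lit 5344098826168) (nat_lit 31) (nat_lit 5) (nat_lit 36) (nat_lit 5) (nat_lit 32) (nat_lit 5) (nat_lit 409) (nat_lit 403) (nat_lit 208)))) (XT.nd (nat_lit 78) (nat_lit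 152) (nat_lit 0) (XT.lf (nat_lit 0) (nat_lit 16475063942110) (nat_lit 152) (nat_lit 21013894305630) (nat_lit 228) (nat_lit 8418885274697) (nat_lit 29) (nat_lit 5) (nat_lit 31) (nat_lit 5) (nat_lit 32) (nat_lit 5) (nat_lit 410) (nat_lit 403) (nat_lit 207)) (XT.nd (nat_lit 78) (nat_lit 152) (nat_lit 0) (XT.lf (nat_lit 0) (nat_lit 46270253599485) (nat_lit 152) (nat_lit 2072086347085) (nat_lit 228) (nat_lit 1555251977488) (nat_lit 29) (nat_lit 5) (nat_lit 31) (nat_lit 5) (nat_lit 32) (nat_lit 5) (nat_lit 411) (nat_lit 403) (nat_lit 206)) (XT.lf (nat_lit 0) (nat_lit 7830295184562) (nat_lit 152) (nat_lit 26848600509721) (nat_lit 76) (nat_lit 19459048654950) (nat_lit 27) (nat_lit 5) (nat_lit 29) (nat_lit 5) (nat_lit 28) (nat_lit 5) (nat_lit 412) (nat_lit 403) (nat_lit 205)))))) (XT.nd (nat_lit 1794) (nat_lit 1140) (nat_lit 0) (XT.nd (nat_lit 234) (nat_lit 228) (nat_lit 0) (XT.nd (nat_lit 78)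 (nat_lit 76) (nat_lit 0) (XT.lf (nat_lit 0) (nat_lit 4482595881787) (nat_lit 152) (nat_lit 14464775831088) (nat_lit 228) (nat_lit 39983430162023) (nat_lit 25) (nat_lit 5) (nat_lit 27) (nat_lit 5) (nat_lit 28) (nat_lit 5) (nat_lit 413) (nat_lit 403) (nat_lit 204)) (XT.nd (nat_lit 78) (nat_lit 76) (nat_lit 0) (XT.lf (nat_lit 0) (nat_lit 33565911839920) (nat_lit 228) (nat_lit 21131634828965) (nat_lit 76) (nat_lit 9469956042605) (nat_lit 25) (nat_lit 5) (nat_lit 28) (nat_lit 5) (nat_lit 26) (nat_lit 4) (nat_lit 414) (nat_lit 403) (nat_lit 203)) (XT.lf (nat_lit 0) (nat_lit 18105499969583) (nat_lit 76) (nat_lit 33710242009200) (nat_lit 152) (nat_lit 18158190345872) (nat_lit 24) (nat_lit 5) (nat_lit 25) (nat_lit 5) (nat_lit 26) (nat_lit 4) (nat_lit 415) (nat_lit 403) (nat_lit 202)))) (XT.nd (nat_lit 78) (nat_lit 228) (nat_lit 0) (XT.lf (nat_lit 0) (nat_lit 65603112584024) (nat_lit 76) (nat_lit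 8304542238689) (nat_lit 152) (nat_lit 2577980329448) (nat_lit 24) (nat_lit 5) (nat_lit 25) (nat_lit 5) (nat_lit 26) (nat_lit 4) (nat_lit 416) (nat_lit 403) (nat_lit 201)) (XT.nd (nat_lit 78) (nat_lit 76) (nat_lit 0) (XT.lf (nat_lit 0) (nat_lit 16565827056099) (nat_lit 152) (nat_lit 45512467729226) (nat_lit 76) (nat_lit 21411697758675) (nat_lit 22) (nat_lit 5) (nat_lit 24) (nat_lit 5) (nat_lit 23) (nat_lit 4) (nat_lit 417) (nat_lit 403) (nat_lit 200)) (XT.lf (nat_lit 0) (nat_lit 3715420284997) (nat_lit 76) (nat_lit 35747098870743) (nat_lit 152) (nat_lit 51892282790523) (nat_lit 21) (nat_lit 5) (nat_lit 22) (nat_lit 5) (nat_lit 23) (nat_lit 4) (nat_lit 418) (nat_lit 403) (nat_lit 199))))) (XT.nd (nat_lit 50622) (nat_lit 0) (nat_lit 2052) (XT.nd (nat_lit 78) (nat_lit 152) (nat_lit 0) (XT.lf (nat_lit 0) (nat_lit 417627842225046) (nat_lit 76) (nat_lit 83304697605398) (nat_lit 76) (nat_lit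 42969248285869) (nat_lit 8) (nat_lit 4) (nat_lit 9) (nat_lit 5) (nat_lit 9) (nat_lit 4) (nat_lit 436) (nat_lit 403) (nat_lit 181)) (XT.nd (nat_lit 78) (nat_lit 0) (nat_lit 0) (XT.lf (nat_lit 0) (nat_lit 68445429845691) (nat_lit 152) (nat_lit 506164348810937) (nat_lit 0) (nat_lit 33371126089578) (nat_lit 6) (nat_lit 5) (nat_lit 8) (nat_lit 4) (nat_lit 6) (nat_lit 4) (nat_lit 437) (nat_lit 403) (nat_lit 180)) (XT.lf (nat_lit 0) (nat_lit 203054969295354) (nat_lit 152) (nat_lit 308697047009800) (nat_lit 0) (nat_lit 167980665539242) (nat_lit 6) (nat_lit 5) (nat_lit 8) (nat_lit 4) (nat_lit 6) (nat_lit 4) (nat_lit 438) (nat_lit 403) (nat_lit 179)))) (XT.nd (nat_lit 156) (nat_lit 0) (nat_lit 76) (XT.nd (nat_lit 78) (nat_lit 0) (nat_lit 0) (XT.lf (nat_lit 0) (nat_lit 4336156211656) (nat_lit 380) (nat_lit 5602412836195) (nat_lit 380) (nat_lit 5602412836195) (nat_lit 33) (nat_lit 3) (nat_lit 38)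 (nat_lit 3) (nat_lit 38) (nat_lit 5) (nat_lit 404) (nat_lit 404) (nat_lit 212)) (XT.lf (nat_lit 76) (nat_lit 4544775382627) (nat_lit 0) (nat_lit 4966149929334) (nat_lit 380) (nat_lit 23873957320204) (nat_lit 34) (nat_lit 5) (nat_lit 33) (nat_lit 3) (nat_lit 38) (nat_lit 5) (nat_lit 405) (nat_lit 404) (nat_lit 211))) (XT.nd (nat_lit 78) (nat_lit 0) (nat_lit 0) (XT.lf (nat_lit 0) (nat_lit 11593337107550) (nat_lit 304) (nat_lit 12561597275125) (nat_lit 380) (nat_lit 11710603897127) (nat_lit 34) (nat_lit 5) (nat_lit 38) (nat_lit 5) (nat_lit 39) (nat_lit 5) (nat_lit 406) (nat_lit 404) (nat_lit 210)) (XT.lf (nat_lit 76) (nat_lit 6500966893236) (nat_lit 0) (nat_lit 7992818284901) (nat_lit 380) (nat_lit 24148655920597) (nat_lit 35) (nat_lit 5) (nat_lit 34) (nat_lit 5) (nat_lit 39) (nat_lit 5) (nat_lit 407) (nat_lit 404) (nat_lit 209))))))))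
noncomputable def xc124 : XT := (XT.nd (nat_lit 53742) (nat_lit 0) (nat_lit 1216) (XT.nd (nat_lit 2262) (nat_lit 0) (nat_lit 0) (XT.nd (nat_lit 468) (nat_lit 1444) (nat_lit 0) (XT.nd (nat_lit 234) (nat_lit 304) (nat_lit 0) (XT.nd (nat_lit 78) (nat_lit 304) (nat_lit 0) (XT.lf (nat_lit 0) (nat_lit 18955856468576) (nat_lit 304) (nat_lit 12372644132976) (nat_lit 76) (nat_lit 10338395337565) (nat_lit 35) (nat_lit 5) (nat_lit 39) (nat_lit 5) (nat_lit 36) (nat_lit 5) (nat_lit 408) (nat_lit 404) (nat_lit 208)) (XT.nd (nat_lit 78) (nat_lit 0) (nat_lit 0) (XT.lf (nat_lit 0) (nat_lit 10956306197723) (nat_lit 304) (nat_lit 13965219924636) (nat_lit 380) (nat_lit 20098349732732) (nat_lit 31) (nat_lit 5) (nat_lit 35) (nat_lit 5) (nat_lit 36) (nat_lit 5) (nat_lit 409) (nat_lit 404) (nat_lit 207)) (XT.lf (nat_lit 0) (nat_lit 32708148697069) (nat_lit 380) (nat_lit 9883025040367) (nat_lit 76) (nat_lit 6145713650097)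 (nat_lit 31) (nat_lit 5) (nat_lit 36) (nat_lit 5) (nat_lit 32) (nat_lit 5) (nat_lit 410) (nat_lit 404) (nat_lit 206)))) (XT.nd (nat_lit 78) (nat_lit 152) (nat_lit 0) (XT.lf (nat_lit 0) (nat_lit 18946323533512) (nat_lit 152) (nat_lit 24165978451457) (nat_lit 228) (nat_lit 9681718065823) (nat_lit 29) (nat_lit 5) (nat_lit 31) (nat_lit 5) (nat_lit 32) (nat_lit 5) (nat_lit 411) (nat_lit 404) (nat_lit 205)) (XT.nd (nat_lit 78) (nat_lit 152) (nat_lit 0) (XT.lf (nat_lit 0) (nat_lit 53210791639483) (nat_lit 152) (nat_lit 2382899299132) (nat_lit 228) (nat_lit 1788539774043) (nat_lit 29) (nat_lit 5) (nat_lit 31) (nat_lit 5) (nat_lit 32) (nat_lit 5) (nat_lit 412) (nat_lit 404) (nat_lit 204)) (XT.lf (nat_lit 0) (nat_lit 9004839462305) (nat_lit 152) (nat_lit 30875890586094) (nat_lit 76) (nat_lit 22377905953210) (nat_lit 27) (nat_lit 5) (nat_lit 29) (nat_lit 5) (nat_lit 28) (nat_lit 5) (nat_lit 413)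 (nat_lit 404) (nat_lit 203))))) (XT.nd (nat_lit 234) (nat_lit 1216) (nat_lit 0) (XT.nd (nat_lit 78) (nat_lit 76) (nat_lit 0) (XT.lf (nat_lit 0) (nat_lit 5154985264135) (nat_lit 152) (nat_lit 16634492205725) (nat_lit 228) (nat_lit 45980944686264) (nat_lit 25) (nat_lit 5) (nat_lit 27) (nat_lit 5) (nat_lit 28) (nat_lit 5) (nat_lit 414) (nat_lit 404) (nat_lit 202)) (XT.nd (nat_lit 78) (nat_lit 76) (nat_lit 0) (XT.lf (nat_lit 0) (nat_lit 38600798615956) (nat_lit 228) (nat_lit 24301380053233) (nat_lit 76) (nat_lit 10890449449017) (nat_lit 25) (nat_lit 5) (nat_lit 28) (nat_lit 5) (nat_lit 26) (nat_lit 4) (nat_lit 415) (nat_lit 404) (nat_lit 201)) (XT.lf (nat_lit 0) (nat_lit 20821324965093) (nat_lit 76) (nat_lit 38766778310552) (nat_lit 152) (nat_lit 20881918897702) (nat_lit 24) (nat_lit 5) (nat_lit 25) (nat_lit 5) (nat_lit 26) (nat_lit 4) (nat_lit 416) (nat_lit 404) (nat_lit 200)))) (XT.nd (nat_lit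 78) (nat_lit 1216) (nat_lit 0) (XT.lf (nat_lit 0) (nat_lit 75443579471691) (nat_lit 76) (nat_lit 9550223574468) (nat_lit 152) (nat_lit 2964677378821) (nat_lit 24) (nat_lit 5) (nat_lit 25) (nat_lit 5) (nat_lit 26) (nat_lit 4) (nat_lit 417) (nat_lit 404) (nat_lit 199)) (XT.nd (nat_lit 1404) (nat_lit 1064) (nat_lit 0) (XT.lf (nat_lit 0) (nat_lit 19050701114553) (nat_lit 152) (nat_lit 52339337888541) (nat_lit 76) (nat_lit 24623452422500) (nat_lit 22) (nat_lit 5) (nat_lit 24) (nat_lit 5) (nat_lit 23) (nat_lit 4) (nat_lit 418) (nat_lit 404) (nat_lit 198)) (XT.lf (nat_lit 0) (nat_lit 191432566111734) (nat_lit 76) (nat_lit 207531640524575) (nat_lit 76) (nat_lit 161145873807117) (nat_lit 8) (nat_lit 4) (nat_lit 9) (nat_lit 5) (nat_lit 9) (nat_lit 4) (nat_lit 436) (nat_lit 404) (nat_lit 180)))))) (XT.nd (nat_lit 51012) (nat_lit 0) (nat_lit 1292) (XT.nd (nat_lit 50778) (nat_lit 0) (nat_lit 1976)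 (XT.nd (nat_lit 50622) (nat_lit 0) (nat_lit 1900) (XT.lf (nat_lit 0) (nat_lit 480272018558819) (nat_lit 76) (nat_lit 95800402246200) (nat_lit 76) (nat_lit 49414635528740) (nat_lit 8) (nat_lit 4) (nat_lit 9) (nat_lit 5) (nat_lit 9) (nat_lit 4) (nat_lit 437) (nat_lit 404) (nat_lit 179)) (XT.nd (nat_lit 78) (nat_lit 0) (nat_lit 0) (XT.lf (nat_lit 0) (nat_lit 4986579643465) (nat_lit 380) (nat_lit 6442774761590) (nat_lit 380) (nat_lit 6442774761590) (nat_lit 33) (nat_lit 3) (nat_lit 38) (nat_lit 3) (nat_lit 38) (nat_lit 5) (nat_lit 405) (nat_lit 405) (nat_lit 210)) (XT.lf (nat_lit 76) (nat_lit 5226491690087) (nat_lit 0) (nat_lit 5711072418775) (nat_lit 380) (nat_lit 27455050918112) (nat_lit 34) (nat_lit 5) (nat_lit 33) (nat_lit 3) (nat_lit 38) (nat_lit 5) (nat_lit 406) (nat_lit 405) (nat_lit 209)))) (XT.nd (nat_lit 78) (nat_lit 0) (nat_lit 0) (XT.lf (nat_lit 0) (nat_lit 13332337673774) (nat_lit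 304) (nat_lit 14445836866321) (nat_lit 380) (nat_lit 13467194481664) (nat_lit 34) (nat_lit 5) (nat_lit 38) (nat_lit 5) (nat_lit 39) (nat_lit 5) (nat_lit 407) (nat_lit 405) (nat_lit 208)) (XT.nd (nat_lit 78) (nat_lit 0) (nat_lit 76) (XT.lf (nat_lit 76) (nat_lit 7476111927291) (nat_lit 0) (nat_lit 9191741027650) (nat_lit 380) (nat_lit 27770954308592) (nat_lit 35) (nat_lit 5) (nat_lit 34) (nat_lit 5) (nat_lit 39) (nat_lit 5) (nat_lit 408) (nat_lit 405) (nat_lit 207)) (XT.lf (nat_lit 0) (nat_lit 21799234938934) (nat_lit 304) (nat_lit 14228540752851) (nat_lit 76) (nat_lit 11889154638190) (nat_lit 35) (nat_lit 5) (nat_lit 39) (nat_lit 5) (nat_lit 36) (nat_lit 5) (nat_lit 409) (nat_lit 405) (nat_lit 206))))) (XT.nd (nat_lit 234) (nat_lit 304) (nat_lit 0) (XT.nd (nat_lit 78) (nat_lit 152) (nat_lit 0) (XT.lf (nat_lit 0) (nat_lit 12599752127451) (nat_lit 304) (nat_lit 16060002913328) (nat_lit 380)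 (nat_lit 23113102192568) (nat_lit 31) (nat_lit 5) (nat_lit 35) (nat_lit 5) (nat_lit 36) (nat_lit 5) (nat_lit 410) (nat_lit 405) (nat_lit 205)) (XT.nd (nat_lit 78) (nat_lit 152) (nat_lit 0) (XT.lf (nat_lit 0) (nat_lit 37614371001686) (nat_lit 380) (nat_lit 11365478796355) (nat_lit 76) (nat_lit 7067570697614) (nat_lit 31) (nat_lit 5) (nat_lit 36) (nat_lit 5) (nat_lit 32) (nat_lit 5) (nat_lit 411) (nat_lit 405) (nat_lit 204)) (XT.lf (nat_lit 0) (nat_lit 21788272063604) (nat_lit 152) (nat_lit 27790875219163) (nat_lit 228) (nat_lit 11133975775637) (nat_lit 29) (nat_lit 5) (nat_lit 31) (nat_lit 5) (nat_lit 32) (nat_lit 5) (nat_lit 412) (nat_lit 405) (nat_lit 203)))) (XT.nd (nat_lit 78) (nat_lit 304) (nat_lit 0) (XT.lf (nat_lit 0) (nat_lit 61192410385461) (nat_lit 152) (nat_lit 2740334193991) (nat_lit 228) (nat_lit 2056820740098) (nat_lit 29) (nat_lit 5) (nat_lit 31) (nat_lit 5) (nat_lit 32)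 (nat_lit 5) (nat_lit 413) (nat_lit 405) (nat_lit 202)) (XT.nd (nat_lit 78) (nat_lit 152) (nat_lit 0) (XT.lf (nat_lit 0) (nat_lit 10355565381695) (nat_lit 152) (nat_lit 35507274173945) (nat_lit 76) (nat_lit 25734591846205) (nat_lit 27) (nat_lit 5) (nat_lit 29) (nat_lit 5) (nat_lit 28) (nat_lit 5) (nat_lit 414) (nat_lit 405) (nat_lit 201)) (XT.lf (nat_lit 0) (nat_lit 5928233053817) (nat_lit 152) (nat_lit 19129666036563) (nat_lit 228) (nat_lit 52878086389157) (nat_lit 25) (nat_lit 5) (nat_lit 27) (nat_lit 5) (nat_lit 28) (nat_lit 5) (nat_lit 415) (nat_lit 405) (nat_lit 200))))))) (XT.nd (nat_lit 53040) (nat_lit 0) (nat_lit 0) (XT.nd (nat_lit 52572) (nat_lit 0) (nat_lit 380) (XT.nd (nat_lit 52338) (nat_lit 0) (nat_lit 684) (XT.nd (nat_lit 78) (nat_lit 76) (nat_lit 0) (XT.lf (nat_lit 0) (nat_lit 44390918408386) (nat_lit 228) (nat_lit 27946587061160) (nat_lit 76) (nat_lit 12524016866386) (nat_lit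 25) (nat_lit 5) (nat_lit 28) (nat_lit 5) (nat_lit 26) (nat_lit 4) (nat_lit 416) (nat_lit 405) (nat_lit 199)) (XT.nd (nat_lit 78) (nat_lit 0) (nat_lit 0) (XT.lf (nat_lit 0) (nat_lit 23944523709912) (nat_lit 76) (nat_lit 44581795057114) (nat_lit 152) (nat_lit 24014206732318) (nat_lit 24) (nat_lit 5) (nat_lit 25) (nat_lit 5) (nat_lit 26) (nat_lit 4) (nat_lit 417) (nat_lit 405) (nat_lit 198)) (XT.lf (nat_lit 0) (nat_lit 86760116392492) (nat_lit 76) (nat_lit 10982757110620) (nat_lit 152) (nat_lit 3409378985610) (nat_lit 24) (nat_lit 5) (nat_lit 25) (nat_lit 5) (nat_lit 26) (nat_lit 4) (nat_lit 418) (nat_lit 405) (nat_lit 197)))) (XT.nd (nat_lit 78) (nat_lit 0) (nat_lit 0) (XT.lf (nat_lit 0) (nat_lit 5734566590030) (nat_lit 380) (nat_lit 7409190975802) (nat_lit 380) (nat_lit 7409190975802) (nat_lit 33) (nat_lit 3) (nat_lit 38) (nat_lit 3) (nat_lit 38) (nat_lit 5) (nat_lit 406) (nat_lit 406)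 (nat_lit 208)) (XT.nd (nat_lit 78) (nat_lit 0) (nat_lit 76) (XT.lf (nat_lit 76) (nat_lit 6010465443651) (nat_lit 0) (nat_lit 6567733281623) (nat_lit 380) (nat_lit 31573308555735) (nat_lit 34) (nat_lit 5) (nat_lit 33) (nat_lit 3) (nat_lit 38) (nat_lit 5) (nat_lit 407) (nat_lit 406) (nat_lit 207)) (XT.lf (nat_lit 0) (nat_lit 15332188324909) (nat_lit 304) (nat_lit 16612712396214) (nat_lit 380) (nat_lit 15487273653889) (nat_lit 34) (nat_lit 5) (nat_lit 38) (nat_lit 5) (nat_lit 39) (nat_lit 5) (nat_lit 408) (nat_lit 406) (nat_lit 206))))) (XT.nd (nat_lit 234) (nat_lit 152) (nat_lit 0) (XT.nd (nat_lit 78) (nat_lit 228) (nat_lit 0) (XT.lf (nat_lit 76) (nat_lit 8597528716437) (nat_lit 0) (nat_lit 10570502181807) (nat_lit 380) (nat_lit 31936597454809) (nat_lit 35) (nat_lit 5) (nat_lit 34) (nat_lit 5) (nat_lit 39) (nat_lit 5) (nat_lit 409) (nat_lit 406) (nat_lit 205)) (XT.nd (nat_lit 78) (nat_lit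 304) (nat_lit 0) (XT.lf (nat_lit 0) (nat_lit 25069120179828) (nat_lit 304) (nat_lit 16362821865724) (nat_lit 76) (nat_lit 13672527833911) (nat_lit 35) (nat_lit 5) (nat_lit 39) (nat_lit 5) (nat_lit 36) (nat_lit 5) (nat_lit 410) (nat_lit 406) (nat_lit 204)) (XT.lf (nat_lit 0) (nat_lit 14489714946620) (nat_lit 304) (nat_lit 18469003350325) (nat_lit 380) (nat_lit 26580067521396) (nat_lit 31) (nat_lit 5) (nat_lit 35) (nat_lit 5) (nat_lit 36) (nat_lit 5) (nat_lit 411) (nat_lit 406) (nat_lit 203)))) (XT.nd (nat_lit 78) (nat_lit 152) (nat_lit 0) (XT.lf (nat_lit 0) (nat_lit 43256526651982) (nat_lit 380) (nat_lit 13070300615756) (nat_lit 76) (nat_lit 8127706302259) (nat_lit 31) (nat_lit 5) (nat_lit 36) (nat_lit 5) (nat_lit 32) (nat_lit 5) (nat_lit 412) (nat_lit 406) (nat_lit 202)) (XT.nd (nat_lit 78) (nat_lit 0) (nat_lit 0) (XT.lf (nat_lit 0) (nat_lit 25056512873194) (nat_lit 152) (nat_lit 31959506502027)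 (nat_lit 228) (nat_lit 12804072141938) (nat_lit 29) (nat_lit 5) (nat_lit 31) (nat_lit 5) (nat_lit 32) (nat_lit 5) (nat_lit 413) (nat_lit 406) (nat_lit 201)) (XT.lf (nat_lit 0) (nat_lit 70371271943323) (nat_lit 152) (nat_lit 3151384323081) (nat_lit 228) (nat_lit 2365343851073) (nat_lit 29) (nat_lit 5) (nat_lit 31) (nat_lit 5) (nat_lit 32) (nat_lit 5) (nat_lit 414) (nat_lit 406) (nat_lit 200)))))) (XT.nd (nat_lit 52572) (nat_lit 0) (nat_lit 380) (XT.nd (nat_lit 234) (nat_lit 76) (nat_lit 0) (XT.nd (nat_lit 78) (nat_lit 152) (nat_lit 0) (XT.lf (nat_lit 0) (nat_lit 11908900188982) (nat_lit 152) (nat_lit 40833365299987) (nat_lit 76) (nat_lit 29594780623146) (nat_lit 27) (nat_lit 5) (nat_lit 29) (nat_lit 5) (nat_lit 28) (nat_lit 5) (nat_lit 415) (nat_lit 406) (nat_lit 199)) (XT.nd (nat_lit 78) (nat_lit 0) (nat_lit 0) (XT.lf (nat_lit 0) (nat_lit 6817468011936) (nat_lit 152) (nat_lit 21999115942032)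 (nat_lit 228) (nat_lit 60809799347495) (nat_lit 25) (nat_lit 5) (nat_lit 27) (nat_lit 5) (nat_lit 28) (nat_lit 5) (nat_lit 416) (nat_lit 406) (nat_lit 198)) (XT.lf (nat_lit 0) (nat_lit 51049556169671) (nat_lit 228) (nat_lit 32138575120290) (nat_lit 76) (nat_lit 14402619396356) (nat_lit 25) (nat_lit 5) (nat_lit 28) (nat_lit 5) (nat_lit 26) (nat_lit 4) (nat_lit 417) (nat_lit 406) (nat_lit 197)))) (XT.nd (nat_lit 78) (nat_lit 0) (nat_lit 0) (XT.lf (nat_lit 0) (nat_lit 27536202266441) (nat_lit 76) (nat_lit 51269064315664) (nat_lit 152) (nat_lit 27616337742137) (nat_lit 24) (nat_lit 5) (nat_lit 25) (nat_lit 5) (nat_lit 26) (nat_lit 4) (nat_lit 418) (nat_lit 406) (nat_lit 196)) (XT.nd (nat_lit 52182) (nat_lit 0) (nat_lit 684) (XT.lf (nat_lit 0) (nat_lit 99774133851404) (nat_lit 76) (nat_lit 12630170677198) (nat_lit 152) (nat_lit 3920785833426) (nat_lit 24) (nat_lit 5) (nat_lit 25) (nat_lit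 5) (nat_lit 26) (nat_lit 4) (nat_lit 419) (nat_lit 406) (nat_lit 195)) (XT.lf (nat_lit 0) (nat_lit 6594751578569) (nat_lit 380) (nat_lit 8520569622153) (nat_lit 380) (nat_lit 8520569622153) (nat_lit 33) (nat_lit 3) (nat_lit 38) (nat_lit 3) (nat_lit 38) (nat_lit 5) (nat_lit 407) (nat_lit 407) (nat_lit 206))))) (XT.nd (nat_lit 234) (nat_lit 304) (nat_lit 0) (XT.nd (nat_lit 78) (nat_lit 0) (nat_lit 76) (XT.lf (nat_lit 76) (nat_lit 6912035260236) (nat_lit 0) (nat_lit 7552893273889) (nat_lit 380) (nat_lit 36309304839025) (nat_lit 34) (nat_lit 5) (nat_lit 33) (nat_lit 3) (nat_lit 38) (nat_lit 5) (nat_lit 408) (nat_lit 407) (nat_lit 205)) (XT.nd (nat_lit 78) (nat_lit 0) (nat_lit 0) (XT.lf (nat_lit 0) (nat_lit 17632016573698) (nat_lit 304) (nat_lit 19104619255605) (nat_lit 380) (nat_lit 17810364701953) (nat_lit 34) (nat_lit 5) (nat_lit 38) (nat_lit 5) (nat_lit 39) (nat_lit 5) (nat_lit 409) (nat_lit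 407) (nat_lit 204)) (XT.lf (nat_lit 76) (nat_lit 9887158023943) (nat_lit 0) (nat_lit 12156077509086) (nat_lit 380) (nat_lit 36727087072976) (nat_lit 35) (nat_lit 5) (nat_lit 34) (nat_lit 5) (nat_lit 39) (nat_lit 5) (nat_lit 410) (nat_lit 407) (nat_lit 203)))) (XT.nd (nat_lit 156) (nat_lit 152) (nat_lit 0) (XT.nd (nat_lit 78) (nat_lit 304) (nat_lit 0) (XT.lf (nat_lit 0) (nat_lit 28829488206843) (nat_lit 304) (nat_lit 18817245145543) (nat_lit 76) (nat_lit 15723407008991) (nat_lit 35) (nat_lit 5) (nat_lit 39) (nat_lit 5) (nat_lit 36) (nat_lit 5) (nat_lit 411) (nat_lit 407) (nat_lit 202)) (XT.lf (nat_lit 0) (nat_lit 16663172188652) (nat_lit 304) (nat_lit 21239353852871) (nat_lit 380) (nat_lit 30567077649563) (nat_lit 31) (nat_lit 5) (nat_lit 35) (nat_lit 5) (nat_lit 36) (nat_lit 5) (nat_lit 412) (nat_lit 407) (nat_lit 201))) (XT.nd (nat_lit 78) (nat_lit 152) (nat_lit 0) (XT.lf (nat_lit 0)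 (nat_lit 49745005649812) (nat_lit 380) (nat_lit 15030845708081) (nat_lit 76) (nat_lit 9346862247599) (nat_lit 31) (nat_lit 5) (nat_lit 36) (nat_lit 5) (nat_lit 32) (nat_lit 5) (nat_lit 413) (nat_lit 407) (nat_lit 200)) (XT.lf (nat_lit 0) (nat_lit 28814989804210) (nat_lit 152) (nat_lit 36753432477324) (nat_lit 228) (nat_lit 14724682963194) (nat_lit 29) (nat_lit 5) (nat_lit 31) (nat_lit 5) (nat_lit 32) (nat_lit 5) (nat_lit 414) (nat_lit 407) (nat_lit 199))))))))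
noncomputable def xc125 : XT := (XT.nd (nat_lit 106392) (nat_lit 0) (nat_lit 228) (XT.nd (nat_lit 53118) (nat_lit 0) (nat_lit 76) (XT.nd (nat_lit 52650) (nat_lit 0) (nat_lit 532) (XT.nd (nat_lit 234) (nat_lit 76) (nat_lit 0) (XT.nd (nat_lit 78) (nat_lit 304) (nat_lit 0) (XT.lf (nat_lit 0) (nat_lit 80926962734854) (nat_lit 152) (nat_lit 3624091971537) (nat_lit 228) (nat_lit 2720145428704) (nat_lit 29) (nat_lit 5) (nat_lit 31) (nat_lit 5) (nat_lit 32) (nat_lit 5) (nat_lit 415) (nat_lit 407) (nat_lit 198)) (XT.nd (nat_lit 78) (nat_lit 152) (nat_lit 0) (XT.lf (nat_lit 0) (nat_lit 13695235217355) (nat_lit 152) (nat_lit 46958370094949) (nat_lit 76) (nat_lit 34033997716626) (nat_lit 27) (nat_lit 5) (nat_lit 29) (nat_lit 5) (nat_lit 28) (nat_lit 5) (nat_lit 416) (nat_lit 407) (nat_lit 197)) (XT.lf (nat_lit 0) (nat_lit 7840088213761) (nat_lit 152) (nat_lit 25298983333326) (nat_lit 228) (nat_lit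 69931269249592) (nat_lit 25) (nat_lit 5) (nat_lit 27) (nat_lit 5) (nat_lit 28) (nat_lit 5) (nat_lit 417) (nat_lit 407) (nat_lit 196)))) (XT.nd (nat_lit 78) (nat_lit 76) (nat_lit 0) (XT.lf (nat_lit 0) (nat_lit 58706989595142) (nat_lit 228) (nat_lit 36959361388301) (nat_lit 76) (nat_lit 16563012305819) (nat_lit 25) (nat_lit 5) (nat_lit 28) (nat_lit 5) (nat_lit 26) (nat_lit 4) (nat_lit 418) (nat_lit 407) (nat_lit 195)) (XT.nd (nat_lit 52260) (nat_lit 0) (nat_lit 684) (XT.lf (nat_lit 0) (nat_lit 31666632606439) (nat_lit 76) (nat_lit 58959423963002) (nat_lit 152) (nat_lit 31758788403435) (nat_lit 24) (nat_lit 5) (nat_lit 25) (nat_lit 5) (nat_lit 26) (nat_lit 4) (nat_lit 419) (nat_lit 407) (nat_lit 194)) (XT.lf (nat_lit 0) (nat_lit 7583964315380) (nat_lit 380) (nat_lit 9798655065461) (nat_lit 380) (nat_lit 9798655065461) (nat_lit 33) (nat_lit 3) (nat_lit 38) (nat_lit 3) (nat_lit 38) (nat_lit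 5) (nat_lit 408) (nat_lit 408) (nat_lit 204))))) (XT.nd (nat_lit 234) (nat_lit 152) (nat_lit 0) (XT.nd (nat_lit 78) (nat_lit 0) (nat_lit 76) (XT.lf (nat_lit 76) (nat_lit 7948840549299) (nat_lit 0) (nat_lit 8685827264991) (nat_lit 380) (nat_lit 41755700564826) (nat_lit 34) (nat_lit 5) (nat_lit 33) (nat_lit 3) (nat_lit 38) (nat_lit 5) (nat_lit 409) (nat_lit 408) (nat_lit 203)) (XT.nd (nat_lit 78) (nat_lit 0) (nat_lit 0) (XT.lf (nat_lit 0) (nat_lit 20276819059793) (nat_lit 304) (nat_lit 21970312143914) (nat_lit 380) (nat_lit 20481919407232) (nat_lit 34) (nat_lit 5) (nat_lit 38) (nat_lit 5) (nat_lit 39) (nat_lit 5) (nat_lit 410) (nat_lit 408) (nat_lit 202)) (XT.lf (nat_lit 76) (nat_lit 11370231727564) (nat_lit 0) (nat_lit 13979489135455) (nat_lit 380) (nat_lit 42236150133881) (nat_lit 35) (nat_lit 5) (nat_lit 34) (nat_lit 5) (nat_lit 39) (nat_lit 5) (nat_lit 411) (nat_lit 408) (nat_lit 201))))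 (XT.nd (nat_lit 78) (nat_lit 304) (nat_lit 0) (XT.lf (nat_lit 0) (nat_lit 33153911437901) (nat_lit 304) (nat_lit 21639831917343) (nat_lit 76) (nat_lit 18081918060335) (nat_lit 35) (nat_lit 5) (nat_lit 39) (nat_lit 5) (nat_lit 36) (nat_lit 5) (nat_lit 412) (nat_lit 408) (nat_lit 200)) (XT.nd (nat_lit 78) (nat_lit 0) (nat_lit 0) (XT.lf (nat_lit 0) (nat_lit 19162648016980) (nat_lit 304) (nat_lit 24425256930801) (nat_lit 380) (nat_lit 35152139296965) (nat_lit 31) (nat_lit 5) (nat_lit 35) (nat_lit 5) (nat_lit 36) (nat_lit 5) (nat_lit 413) (nat_lit 408) (nat_lit 199)) (XT.lf (nat_lit 0) (nat_lit 57206756497308) (nat_lit 380) (nat_lit 17285472564265) (nat_lit 76) (nat_lit 10748891584740) (nat_lit 31) (nat_lit 5) (nat_lit 36) (nat_lit 5) (nat_lit 32) (nat_lit 5) (nat_lit 414) (nat_lit 408) (nat_lit 198)))))) (XT.nd (nat_lit 52806) (nat_lit 0) (nat_lit 304) (XT.nd (nat_lit 234) (nat_lit 152) (nat_lit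 0) (XT.nd (nat_lit 78) (nat_lit 152) (nat_lit 0) (XT.lf (nat_lit 0) (nat_lit 33137238274870) (nat_lit 152) (nat_lit 42266447348918) (nat_lit 228) (nat_lit 16933385407648) (nat_lit 29) (nat_lit 5) (nat_lit 31) (nat_lit 5) (nat_lit 32) (nat_lit 5) (nat_lit 415) (nat_lit 408) (nat_lit 197)) (XT.nd (nat_lit 78) (nat_lit 152) (nat_lit 0) (XT.lf (nat_lit 0) (nat_lit 93066007145107) (nat_lit 152) (nat_lit 4167705767263) (nat_lit 228) (nat_lit 3128167242988) (nat_lit 29) (nat_lit 5) (nat_lit 31) (nat_lit 5) (nat_lit 32) (nat_lit 5) (nat_lit 416) (nat_lit 408) (nat_lit 196)) (XT.lf (nat_lit 0) (nat_lit 15749520499977) (nat_lit 152) (nat_lit 54002125609164) (nat_lit 76) (nat_lit 39139097374125) (nat_lit 27) (nat_lit 5) (nat_lit 29) (nat_lit 5) (nat_lit 28) (nat_lit 5) (nat_lit 417) (nat_lit 408) (nat_lit 195)))) (XT.nd (nat_lit 52416) (nat_lit 0) (nat_lit 608) (XT.lf (nat_lit 0) (nat_lit 9016101445852)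 (nat_lit 152) (nat_lit 29093830833316) (nat_lit 228) (nat_lit 80420959637011) (nat_lit 25) (nat_lit 5) (nat_lit 27) (nat_lit 5) (nat_lit 28) (nat_lit 5) (nat_lit 418) (nat_lit 408) (nat_lit 194)) (XT.nd (nat_lit 78) (nat_lit 0) (nat_lit 0) (XT.lf (nat_lit 0) (nat_lit 8721558962707) (nat_lit 380) (nat_lit 11268453325269) (nat_lit 380) (nat_lit 11268453325269) (nat_lit 33) (nat_lit 3) (nat_lit 38) (nat_lit 3) (nat_lit 38) (nat_lit 5) (nat_lit 409) (nat_lit 409) (nat_lit 202)) (XT.lf (nat_lit 76) (nat_lit 9141166631716) (nat_lit 0) (nat_lit 9988701354753) (nat_lit 380) (nat_lit 48019055649510) (nat_lit 34) (nat_lit 5) (nat_lit 33) (nat_lit 3) (nat_lit 38) (nat_lit 5) (nat_lit 410) (nat_lit 409) (nat_lit 201))))) (XT.nd (nat_lit 234) (nat_lit 380) (nat_lit 0) (XT.nd (nat_lit 78) (nat_lit 0) (nat_lit 0) (XT.lf (nat_lit 0) (nat_lit 23318341918792) (nat_lit 304) (nat_lit 25265858965477) (nat_lit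 380) (nat_lit 23554207318307) (nat_lit 34) (nat_lit 5) (nat_lit 38) (nat_lit 5) (nat_lit 39) (nat_lit 5) (nat_lit 411) (nat_lit 409) (nat_lit 200)) (XT.nd (nat_lit 78) (nat_lit 0) (nat_lit 76) (XT.lf (nat_lit 76) (nat_lit 13075766486722) (nat_lit 0) (nat_lit 16076412505777) (nat_lit 380) (nat_lit 48571572653933) (nat_lit 35) (nat_lit 5) (nat_lit 34) (nat_lit 5) (nat_lit 39) (nat_lit 5) (nat_lit 412) (nat_lit 409) (nat_lit 199)) (XT.lf (nat_lit 0) (nat_lit 38126998153609) (nat_lit 304) (nat_lit 24885806704921) (nat_lit 76) (nat_lit 20794205769383) (nat_lit 35) (nat_lit 5) (nat_lit 39) (nat_lit 5) (nat_lit 36) (nat_lit 5) (nat_lit 413) (nat_lit 409) (nat_lit 198)))) (XT.nd (nat_lit 78) (nat_lit 152) (nat_lit 0) (XT.lf (nat_lit 0) (nat_lit 22037045219549) (nat_lit 304) (nat_lit 28089045470419) (nat_lit 380) (nat_lit 40424960191486) (nat_lit 31) (nat_lit 5) (nat_lit 35) (nat_lit 5) (nat_lit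 36) (nat_lit 5) (nat_lit 414) (nat_lit 409) (nat_lit 197)) (XT.nd (nat_lit 78) (nat_lit 152) (nat_lit 0) (XT.lf (nat_lit 0) (nat_lit 65787769971923) (nat_lit 380) (nat_lit 19878293448881) (nat_lit 76) (nat_lit 12361225322452) (nat_lit 31) (nat_lit 5) (nat_lit 36) (nat_lit 5) (nat_lit 32) (nat_lit 5) (nat_lit 415) (nat_lit 409) (nat_lit 196)) (XT.lf (nat_lit 0) (nat_lit 38107824016122) (nat_lit 152) (nat_lit 48606414451250) (nat_lit 228) (nat_lit 19473393218775) (nat_lit 29) (nat_lit 5) (nat_lit 31) (nat_lit 5) (nat_lit 32) (nat_lit 5) (nat_lit 416) (nat_lit 409) (nat_lit 195))))))) (XT.nd (nat_lit 105846) (nat_lit 0) (nat_lit 152) (XT.nd (nat_lit 52884) (nat_lit 0) (nat_lit 152) (XT.nd (nat_lit 52650) (nat_lit 0) (nat_lit 456) (XT.nd (nat_lit 78) (nat_lit 152) (nat_lit 0) (XT.lf (nat_lit 0) (nat_lit 107025908216891) (nat_lit 152) (nat_lit 4792861632348) (nat_lit 228) (nat_lit 3597392329419)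 (nat_lit 29) (nat_lit 5) (nat_lit 31) (nat_lit 5) (nat_lit 32) (nat_lit 5) (nat_lit 417) (nat_lit 409) (nat_lit 194)) (XT.nd (nat_lit 52494) (nat_lit 0) (nat_lit 456) (XT.lf (nat_lit 0) (nat_lit 18111948574988) (nat_lit 152) (nat_lit 62102444450517) (nat_lit 76) (nat_lit 45009961980249) (nat_lit 27) (nat_lit 5) (nat_lit 29) (nat_lit 5) (nat_lit 28) (nat_lit 5) (nat_lit 418) (nat_lit 409) (nat_lit 193)) (XT.lf (nat_lit 0) (nat_lit 10029792807128) (nat_lit 380) (nat_lit 12958721324050) (nat_lit 380) (nat_lit 12958721324050) (nat_lit 33) (nat_lit 3) (nat_lit 38) (nat_lit 3) (nat_lit 38) (nat_lit 5) (nat_lit 410) (nat_lit 410) (nat_lit 200)))) (XT.nd (nat_lit 78) (nat_lit 0) (nat_lit 76) (XT.lf (nat_lit 76) (nat_lit 10512341626490) (nat_lit 0) (nat_lit 11487006557977) (nat_lit 380) (nat_lit 55221913996905) (nat_lit 34) (nat_lit 5) (nat_lit 33) (nat_lit 3) (nat_lit 38) (nat_lit 5) (nat_lit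 411) (nat_lit 410) (nat_lit 199)) (XT.nd (nat_lit 78) (nat_lit 0) (nat_lit 0) (XT.lf (nat_lit 0) (nat_lit 26816093206633) (nat_lit 304) (nat_lit 29055737810281) (nat_lit 380) (nat_lit 27087338416045) (nat_lit 34) (nat_lit 5) (nat_lit 38) (nat_lit 5) (nat_lit 39) (nat_lit 5) (nat_lit 412) (nat_lit 410) (nat_lit 198)) (XT.lf (nat_lit 76) (nat_lit 15037131459747) (nat_lit 0) (nat_lit 18487874381647) (nat_lit 380) (nat_lit 55857308551999) (nat_lit 35) (nat_lit 5) (nat_lit 34) (nat_lit 5) (nat_lit 39) (nat_lit 5) (nat_lit 413) (nat_lit 410) (nat_lit 197))))) (XT.nd (nat_lit 234) (nat_lit 152) (nat_lit 0) (XT.nd (nat_lit 78) (nat_lit 304) (nat_lit 0) (XT.lf (nat_lit 0) (nat_lit 43846047876668) (nat_lit 304) (nat_lit 28618677710642) (nat_lit 76) (nat_lit 23913336634787) (nat_lit 35) (nat_lit 5) (nat_lit 39) (nat_lit 5) (nat_lit 36) (nat_lit 5) (nat_lit 414) (nat_lit 410) (nat_lit 196)) (XT.nd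 (nat_lit 78) (nat_lit 0) (nat_lit 0) (XT.lf (nat_lit 0) (nat_lit 25342602002499) (nat_lit 304) (nat_lit 32302402290982) (nat_lit 380) (nat_lit 46488704220190) (nat_lit 31) (nat_lit 5) (nat_lit 35) (nat_lit 5) (nat_lit 36) (nat_lit 5) (nat_lit 415) (nat_lit 410) (nat_lit 195)) (XT.lf (nat_lit 0) (nat_lit 75655935467725) (nat_lit 380) (nat_lit 22860037466197) (nat_lit 76) (nat_lit 14215409120821) (nat_lit 31) (nat_lit 5) (nat_lit 36) (nat_lit 5) (nat_lit 32) (nat_lit 5) (nat_lit 416) (nat_lit 410) (nat_lit 194)))) (XT.nd (nat_lit 78) (nat_lit 0) (nat_lit 0) (XT.lf (nat_lit 0) (nat_lit 43823997618556) (nat_lit 152) (nat_lit 55897376618936) (nat_lit 228) (nat_lit 22394402201577) (nat_lit 29) (nat_lit 5) (nat_lit 31) (nat_lit 5) (nat_lit 32) (nat_lit 5) (nat_lit 417) (nat_lit 410) (nat_lit 193)) (XT.nd (nat_lit 52572) (nat_lit 0) (nat_lit 304) (XT.lf (nat_lit 0) (nat_lit 123079794449439) (nat_lit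 152) (nat_lit 5511790877198) (nat_lit 228) (nat_lit 4137001178819) (nat_lit 29) (nat_lit 5) (nat_lit 31) (nat_lit 5) (nat_lit 32) (nat_lit 5) (nat_lit 418) (nat_lit 410) (nat_lit 192)) (XT.lf (nat_lit 0) (nat_lit 11534261728208) (nat_lit 380) (nat_lit 14902529522652) (nat_lit 380) (nat_lit 14902529522652) (nat_lit 33) (nat_lit 3) (nat_lit 38) (nat_lit 3) (nat_lit 38) (nat_lit 5) (nat_lit 411) (nat_lit 411) (nat_lit 198)))))) (XT.nd (nat_lit 468) (nat_lit 152) (nat_lit 0) (XT.nd (nat_lit 234) (nat_lit 152) (nat_lit 0) (XT.nd (nat_lit 78) (nat_lit 0) (nat_lit 76) (XT.lf (nat_lit 76) (nat_lit 12089192870476) (nat_lit 0) (nat_lit 13210057541680) (nat_lit 380) (nat_lit 63505201096418) (nat_lit 34) (nat_lit 5) (nat_lit 33) (nat_lit 3) (nat_lit 38) (nat_lit 5) (nat_lit 412) (nat_lit 411) (nat_lit 197)) (XT.nd (nat_lit 78) (nat_lit 0) (nat_lit 0) (XT.lf (nat_lit 0) (nat_lit 30838507187645) (nat_lit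 304) (nat_lit 33414098481809) (nat_lit 380) (nat_lit 31150439178446) (nat_lit 34) (nat_lit 5) (nat_lit 38) (nat_lit 5) (nat_lit 39) (nat_lit 5) (nat_lit 413) (nat_lit 411) (nat_lit 196)) (XT.lf (nat_lit 76) (nat_lit 17292701178722) (nat_lit 0) (nat_lit 21261055538896) (nat_lit 380) (nat_lit 64235904834781) (nat_lit 35) (nat_lit 5) (nat_lit 34) (nat_lit 5) (nat_lit 39) (nat_lit 5) (nat_lit 414) (nat_lit 411) (nat_lit 195)))) (XT.nd (nat_lit 78) (nat_lit 304) (nat_lit 0) (XT.lf (nat_lit 0) (nat_lit 50422955058182) (nat_lit 304) (nat_lit 32911479367224) (nat_lit 76) (nat_lit 27500337130004) (nat_lit 35) (nat_lit 5) (nat_lit 39) (nat_lit 5) (nat_lit 36) (nat_lit 5) (nat_lit 415) (nat_lit 411) (nat_lit 194)) (XT.nd (nat_lit 78) (nat_lit 0) (nat_lit 0) (XT.lf (nat_lit 0) (nat_lit 29143992302887) (nat_lit 304) (nat_lit 37147762634628) (nat_lit 380) (nat_lit 53462009853205) (nat_lit 31) (nat_lit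 5) (nat_lit 35) (nat_lit 5) (nat_lit 36) (nat_lit 5) (nat_lit 416) (nat_lit 411) (nat_lit 193)) (XT.lf (nat_lit 0) (nat_lit 87004325787895) (nat_lit 380) (nat_lit 26289043086114) (nat_lit 76) (nat_lit 16347720488945) (nat_lit 31) (nat_lit 5) (nat_lit 36) (nat_lit 5) (nat_lit 32) (nat_lit 5) (nat_lit 417) (nat_lit 411) (nat_lit 192))))) (XT.nd (nat_lit 52728) (nat_lit 0) (nat_lit 304) (XT.nd (nat_lit 78) (nat_lit 0) (nat_lit 0) (XT.lf (nat_lit 0) (nat_lit 50397597261352) (nat_lit 152) (nat_lit 64281983111773) (nat_lit 228) (nat_lit 25753562531803) (nat_lit 29) (nat_lit 5) (nat_lit 31) (nat_lit 5) (nat_lit 32) (nat_lit 5) (nat_lit 418) (nat_lit 411) (nat_lit 191)) (XT.nd (nat_lit 52572) (nat_lit 0) (nat_lit 304) (XT.lf (nat_lit 0) (nat_lit 141541763616866) (nat_lit 152) (nat_lit 6338559508775) (nat_lit 228) (nat_lit 4757551355632) (nat_lit 29) (nat_lit 5) (nat_lit 31) (nat_lit 5) (nat_lit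 32) (nat_lit 5) (nat_lit 419) (nat_lit 411) (nat_lit 190)) (XT.lf (nat_lit 0) (nat_lit 13264400987448) (nat_lit 380) (nat_lit 17137908951045) (nat_lit 380) (nat_lit 17137908951045) (nat_lit 33) (nat_lit 3) (nat_lit 38) (nat_lit 3) (nat_lit 38) (nat_lit 5) (nat_lit 412) (nat_lit 412) (nat_lit 196)))) (XT.nd (nat_lit 156) (nat_lit 0) (nat_lit 76) (XT.nd (nat_lit 78) (nat_lit 0) (nat_lit 76) (XT.lf (nat_lit 76) (nat_lit 13902571801057) (nat_lit 0) (nat_lit 15191566172938) (nat_lit 380) (nat_lit 73030981260864) (nat_lit 34) (nat_lit 5) (nat_lit 33) (nat_lit 3) (nat_lit 38) (nat_lit 5) (nat_lit 413) (nat_lit 412) (nat_lit 195)) (XT.lf (nat_lit 0) (nat_lit 35464283265805) (nat_lit 304) (nat_lit 38426213254071) (nat_lit 380) (nat_lit 35823005055208) (nat_lit 34) (nat_lit 5) (nat_lit 38) (nat_lit 5) (nat_lit 39) (nat_lit 5) (nat_lit 414) (nat_lit 412) (nat_lit 194))) (XT.nd (nat_lit 78) (nat_lit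 0) (nat_lit 76) (XT.lf (nat_lit 76) (nat_lit 19886606355540) (nat_lit 0) (nat_lit 24450213869733) (nat_lit 380) (nat_lit 73871290559985) (nat_lit 35) (nat_lit 5) (nat_lit 34) (nat_lit 5) (nat_lit 39) (nat_lit 5) (nat_lit 415) (nat_lit 412) (nat_lit 193)) (XT.lf (nat_lit 0) (nat_lit 57986398316920) (nat_lit 304) (nat_lit 37848201272297) (nat_lit 76) (nat_lit 31625387699503) (nat_lit 35) (nat_lit 5) (nat_lit 39) (nat_lit 5) (nat_lit 36) (nat_lit 5) (nat_lit 416) (nat_lit 412) (nat_lit 192))))))))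
noncomputable def xc126 : XT := (XT.nd (nat_lit 159198) (nat_lit 0) (nat_lit 1824) (XT.nd (nat_lit 53430) (nat_lit 1824) (nat_lit 0) (XT.nd (nat_lit 52962) (nat_lit 0) (nat_lit 0) (XT.nd (nat_lit 234) (nat_lit 0) (nat_lit 0) (XT.nd (nat_lit 78) (nat_lit 152) (nat_lit 0) (XT.lf (nat_lit 0) (nat_lit 33515591148329) (nat_lit 304) (nat_lit 42719927029822) (nat_lit 380) (nat_lit 61481311331175) (nat_lit 31) (nat_lit 5) (nat_lit 35) (nat_lit 5) (nat_lit 36) (nat_lit 5) (nat_lit 417) (nat_lit 412) (nat_lit 191)) (XT.nd (nat_lit 78) (nat_lit 152) (nat_lit 0) (XT.lf (nat_lit 0) (nat_lit 100054974656087) (nat_lit 380) (nat_lit 30232399549021) (nat_lit 76) (nat_lit 18799878562287) (nat_lit 31) (nat_lit 5) (nat_lit 36) (nat_lit 5) (nat_lit 32) (nat_lit 5) (nat_lit 418) (nat_lit 412) (nat_lit 190)) (XT.lf (nat_lit 0) (nat_lit 57957236850564) (nat_lit 152) (nat_lit 73924280578537) (nat_lit 228) (nat_lit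 29616596911565) (nat_lit 29) (nat_lit 5) (nat_lit 31) (nat_lit 5) (nat_lit 32) (nat_lit 5) (nat_lit 419) (nat_lit 412) (nat_lit 189)))) (XT.nd (nat_lit 52572) (nat_lit 0) (nat_lit 304) (XT.lf (nat_lit 0) (nat_lit 162773028159403) (nat_lit 152) (nat_lit 7289343435090) (nat_lit 228) (nat_lit 5471184058970) (nat_lit 29) (nat_lit 5) (nat_lit 31) (nat_lit 5) (nat_lit 32) (nat_lit 5) (nat_lit 420) (nat_lit 412) (nat_lit 188)) (XT.nd (nat_lit 78) (nat_lit 0) (nat_lit 0) (XT.lf (nat_lit 0) (nat_lit 15254061135572) (nat_lit 380) (nat_lit 19708595293698) (nat_lit 380) (nat_lit 19708595293698) (nat_lit 33) (nat_lit 3) (nat_lit 38) (nat_lit 3) (nat_lit 38) (nat_lit 5) (nat_lit 413) (nat_lit 413) (nat_lit 194)) (XT.lf (nat_lit 76) (nat_lit 15987957571222) (nat_lit 0) (nat_lit 17470301098884) (nat_lit 380) (nat_lit 83985628449980) (nat_lit 34) (nat_lit 5) (nat_lit 33) (nat_lit 3) (nat_lit 38) (nat_lit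 5) (nat_lit 414) (nat_lit 413) (nat_lit 193))))) (XT.nd (nat_lit 234) (nat_lit 380) (nat_lit 0) (XT.nd (nat_lit 78) (nat_lit 0) (nat_lit 0) (XT.lf (nat_lit 0) (nat_lit 40783925755686) (nat_lit 304) (nat_lit 44190145242174) (nat_lit 380) (nat_lit 41196455813485) (nat_lit 34) (nat_lit 5) (nat_lit 38) (nat_lit 5) (nat_lit 39) (nat_lit 5) (nat_lit 415) (nat_lit 413) (nat_lit 192)) (XT.nd (nat_lit 78) (nat_lit 0) (nat_lit 76) (XT.lf (nat_lit 76) (nat_lit 22869597308879) (nat_lit 0) (nat_lit 28117745950194) (nat_lit 380) (nat_lit 84951984143973) (nat_lit 35) (nat_lit 5) (nat_lit 34) (nat_lit 5) (nat_lit 39) (nat_lit 5) (nat_lit 416) (nat_lit 413) (nat_lit 191)) (XT.lf (nat_lit 0) (nat_lit 66684358064465) (nat_lit 304) (nat_lit 43525431463135) (nat_lit 76) (nat_lit 36369195854427) (nat_lit 35) (nat_lit 5) (nat_lit 39) (nat_lit 5) (nat_lit 36) (nat_lit 5) (nat_lit 417) (nat_lit 413) (nat_lit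 190)))) (XT.nd (nat_lit 78) (nat_lit 152) (nat_lit 0) (XT.lf (nat_lit 0) (nat_lit 38542929820586) (nat_lit 304) (nat_lit 49127916084295) (nat_lit 380) (nat_lit 70703508030844) (nat_lit 31) (nat_lit 5) (nat_lit 35) (nat_lit 5) (nat_lit 36) (nat_lit 5) (nat_lit 418) (nat_lit 413) (nat_lit 189)) (XT.nd (nat_lit 78) (nat_lit 152) (nat_lit 0) (XT.lf (nat_lit 0) (nat_lit 115063220854506) (nat_lit 380) (nat_lit 34767259481367) (nat_lit 76) (nat_lit 21619860346630) (nat_lit 31) (nat_lit 5) (nat_lit 36) (nat_lit 5) (nat_lit 32) (nat_lit 5) (nat_lit 419) (nat_lit 413) (nat_lit 188)) (XT.lf (nat_lit 0) (nat_lit 66650822378155) (nat_lit 152) (nat_lit 85012922665317) (nat_lit 228) (nat_lit 34059086448293) (nat_lit 29) (nat_lit 5) (nat_lit 31) (nat_lit 5) (nat_lit 32) (nat_lit 5) (nat_lit 420) (nat_lit 413) (nat_lit 187)))))) (XT.nd (nat_lit 52806) (nat_lit 0) (nat_lit 1824) (XT.nd (nat_lit 52572)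 (nat_lit 0) (nat_lit 2128) (XT.nd (nat_lit 2184) (nat_lit 1824) (nat_lit 0) (XT.lf (nat_lit 0) (nat_lit 187188982383320) (nat_lit 152) (nat_lit 8382744950353) (nat_lit 228) (nat_lit 6291861667810) (nat_lit 29) (nat_lit 5) (nat_lit 31) (nat_lit 5) (nat_lit 32) (nat_lit 5) (nat_lit 421) (nat_lit 413) (nat_lit 186)) (XT.nd (nat_lit 78) (nat_lit 76) (nat_lit 0) (XT.lf (nat_lit 0) (nat_lit 1447726864970586) (nat_lit 152) (nat_lit 330156550616945) (nat_lit 0) (nat_lit 1305831744085475) (nat_lit 6) (nat_lit 5) (nat_lit 8) (nat_lit 4) (nat_lit 6) (nat_lit 4) (nat_lit 449) (nat_lit 413) (nat_lit 158)) (XT.lf (nat_lit 0) (nat_lit 797326412517376) (nat_lit 76) (nat_lit 1403610741531157) (nat_lit 76) (nat_lit 1261715620646044) (nat_lit 5) (nat_lit 4) (nat_lit 6) (nat_lit 5) (nat_lit 6) (nat_lit 4) (nat_lit 450) (nat_lit 413) (nat_lit 157)))) (XT.nd (nat_lit 78) (nat_lit 0) (nat_lit 0) (XT.lf (nat_lit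 0) (nat_lit 17542170305912) (nat_lit 380) (nat_lit 22664884587750) (nat_lit 380) (nat_lit 22664884587750) (nat_lit 33) (nat_lit 3) (nat_lit 38) (nat_lit 3) (nat_lit 38) (nat_lit 5) (nat_lit 414) (nat_lit 414) (nat_lit 192)) (XT.nd (nat_lit 78) (nat_lit 0) (nat_lit 76) (XT.lf (nat_lit 76) (nat_lit 18386151206912) (nat_lit 0) (nat_lit 20090846263719) (nat_lit 380) (nat_lit 96583472717467) (nat_lit 34) (nat_lit 5) (nat_lit 33) (nat_lit 3) (nat_lit 38) (nat_lit 5) (nat_lit 415) (nat_lit 414) (nat_lit 191)) (XT.lf (nat_lit 0) (nat_lit 46901514619046) (nat_lit 304) (nat_lit 50818667028493) (nat_lit 380) (nat_lit 47375924185506) (nat_lit 34) (nat_lit 5) (nat_lit 38) (nat_lit 5) (nat_lit 39) (nat_lit 5) (nat_lit 416) (nat_lit 414) (nat_lit 190))))) (XT.nd (nat_lit 234) (nat_lit 152) (nat_lit 0) (XT.nd (nat_lit 78) (nat_lit 228) (nat_lit 0) (XT.lf (nat_lit 76) (nat_lit 26300036905216) (nat_lit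 0) (nat_lit 32335407842724) (nat_lit 380) (nat_lit 97694781765561) (nat_lit 35) (nat_lit 5) (nat_lit 34) (nat_lit 5) (nat_lit 39) (nat_lit 5) (nat_lit 417) (nat_lit 414) (nat_lit 189)) (XT.nd (nat_lit 78) (nat_lit 304) (nat_lit 0) (XT.lf (nat_lit 0) (nat_lit 76687011774141) (nat_lit 304) (nat_lit 50054246182599) (nat_lit 76) (nat_lit 41824575232591) (nat_lit 35) (nat_lit 5) (nat_lit 39) (nat_lit 5) (nat_lit 36) (nat_lit 5) (nat_lit 418) (nat_lit 414) (nat_lit 188)) (XT.lf (nat_lit 0) (nat_lit 44324369293680) (nat_lit 304) (nat_lit 56497103496938) (nat_lit 380) (nat_lit 81309034235464) (nat_lit 31) (nat_lit 5) (nat_lit 35) (nat_lit 5) (nat_lit 36) (nat_lit 5) (nat_lit 419) (nat_lit 414) (nat_lit 187)))) (XT.nd (nat_lit 78) (nat_lit 152) (nat_lit 0) (XT.lf (nat_lit 0) (nat_lit 132322703982687) (nat_lit 380) (nat_lit 39982348403567) (nat_lit 76) (nat_lit 24862839398625) (nat_lit 31) (nat_lit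 5) (nat_lit 36) (nat_lit 5) (nat_lit 32) (nat_lit 5) (nat_lit 420) (nat_lit 414) (nat_lit 186)) (XT.nd (nat_lit 78) (nat_lit 0) (nat_lit 0) (XT.lf (nat_lit 0) (nat_lit 76648445734885) (nat_lit 152) (nat_lit 97764861065112) (nat_lit 228) (nat_lit 39167949415532) (nat_lit 29) (nat_lit 5) (nat_lit 31) (nat_lit 5) (nat_lit 32) (nat_lit 5) (nat_lit 421) (nat_lit 414) (nat_lit 185)) (XT.lf (nat_lit 0) (nat_lit 215267329740824) (nat_lit 152) (nat_lit 9640156692904) (nat_lit 228) (nat_lit 7235640917977) (nat_lit 29) (nat_lit 5) (nat_lit 31) (nat_lit 5) (nat_lit 32) (nat_lit 5) (nat_lit 422) (nat_lit 414) (nat_lit 184))))))) (XT.nd (nat_lit 53430) (nat_lit 0) (nat_lit 0) (XT.nd (nat_lit 468) (nat_lit 152) (nat_lit 0) (XT.nd (nat_lit 234) (nat_lit 152) (nat_lit 0) (XT.nd (nat_lit 78) (nat_lit 0) (nat_lit 0) (XT.lf (nat_lit 0) (nat_lit 20173495851803) (nat_lit 380) (nat_lit 26064617275910) (nat_lit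 380) (nat_lit 26064617275910) (nat_lit 33) (nat_lit 3) (nat_lit 38) (nat_lit 3) (nat_lit 38) (nat_lit 5) (nat_lit 415) (nat_lit 415) (nat_lit 190)) (XT.nd (nat_lit 78) (nat_lit 0) (nat_lit 76) (XT.lf (nat_lit 76) (nat_lit 21144073887952) (nat_lit 0) (nat_lit 23104473203280) (nat_lit 380) (nat_lit 111070993625080) (nat_lit 34) (nat_lit 5) (nat_lit 33) (nat_lit 3) (nat_lit 38) (nat_lit 5) (nat_lit 416) (nat_lit 415) (nat_lit 189)) (XT.lf (nat_lit 0) (nat_lit 53936741811908) (nat_lit 304) (nat_lit 58441467082764) (nat_lit 380) (nat_lit 54482312813330) (nat_lit 34) (nat_lit 5) (nat_lit 38) (nat_lit 5) (nat_lit 39) (nat_lit 5) (nat_lit 417) (nat_lit 415) (nat_lit 188)))) (XT.nd (nat_lit 78) (nat_lit 228) (nat_lit 0) (XT.lf (nat_lit 76) (nat_lit 30245042441003) (nat_lit 0) (nat_lit 37185719019134) (nat_lit 380) (nat_lit 112348999030390) (nat_lit 35) (nat_lit 5) (nat_lit 34) (nat_lit 5) (nat_lit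 39) (nat_lit 5) (nat_lit 418) (nat_lit 415) (nat_lit 187)) (XT.nd (nat_lit 78) (nat_lit 304) (nat_lit 0) (XT.lf (nat_lit 0) (nat_lit 88190063540267) (nat_lit 304) (nat_lit 57562383109984) (nat_lit 76) (nat_lit 48098261517479) (nat_lit 35) (nat_lit 5) (nat_lit 39) (nat_lit 5) (nat_lit 36) (nat_lit 5) (nat_lit 419) (nat_lit 415) (nat_lit 186)) (XT.lf (nat_lit 0) (nat_lit 50973024687735) (nat_lit 304) (nat_lit 64971669021480) (nat_lit 380) (nat_lit 93505389370779) (nat_lit 31) (nat_lit 5) (nat_lit 35) (nat_lit 5) (nat_lit 36) (nat_lit 5) (nat_lit 420) (nat_lit 415) (nat_lit 185))))) (XT.nd (nat_lit 52728) (nat_lit 0) (nat_lit 304) (XT.nd (nat_lit 78) (nat_lit 152) (nat_lit 0) (XT.lf (nat_lit 0) (nat_lit 152171109580093) (nat_lit 380) (nat_lit 45979700664098) (nat_lit 76) (nat_lit 28592265308419) (nat_lit 31) (nat_lit 5) (nat_lit 36) (nat_lit 5) (nat_lit 32) (nat_lit 5) (nat_lit 421) (nat_lit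 415) (nat_lit 184)) (XT.nd (nat_lit 78) (nat_lit 0) (nat_lit 0) (XT.lf (nat_lit 0) (nat_lit 88145712595122) (nat_lit 152) (nat_lit 112429590224879) (nat_lit 228) (nat_lit 45043141827859) (nat_lit 29) (nat_lit 5) (nat_lit 31) (nat_lit 5) (nat_lit 32) (nat_lit 5) (nat_lit 422) (nat_lit 415) (nat_lit 183)) (XT.lf (nat_lit 0) (nat_lit 247557429201949) (nat_lit 152) (nat_lit 11086180196840) (nat_lit 228) (nat_lit 8320987055671) (nat_lit 29) (nat_lit 5) (nat_lit 31) (nat_lit 5) (nat_lit 32) (nat_lit 5) (nat_lit 423) (nat_lit 415) (nat_lit 182)))) (XT.nd (nat_lit 78) (nat_lit 0) (nat_lit 0) (XT.lf (nat_lit 0) (nat_lit 23199520229576) (nat_lit 380) (nat_lit 29974309867295) (nat_lit 380) (nat_lit 29974309867295) (nat_lit 33) (nat_lit 3) (nat_lit 38) (nat_lit 3) (nat_lit 38) (nat_lit 5) (nat_lit 416) (nat_lit 416) (nat_lit 188)) (XT.nd (nat_lit 78) (nat_lit 0) (nat_lit 76) (XT.lf (nat_lit 76) (nat_lit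 24315684971147) (nat_lit 0) (nat_lit 26570144183775) (nat_lit 380) (nat_lit 127731642668837) (nat_lit 34) (nat_lit 5) (nat_lit 33) (nat_lit 3) (nat_lit 38) (nat_lit 5) (nat_lit 417) (nat_lit 416) (nat_lit 187)) (XT.lf (nat_lit 0) (nat_lit 62027253083699) (nat_lit 304) (nat_lit 67207687145175) (nat_lit 380) (nat_lit 62654659735328) (nat_lit 34) (nat_lit 5) (nat_lit 38) (nat_lit 5) (nat_lit 39) (nat_lit 5) (nat_lit 418) (nat_lit 416) (nat_lit 186)))))) (XT.nd (nat_lit 52962) (nat_lit 0) (nat_lit 152) (XT.nd (nat_lit 234) (nat_lit 152) (nat_lit 0) (XT.nd (nat_lit 78) (nat_lit 228) (nat_lit 0) (XT.lf (nat_lit 76) (nat_lit 34781798807157) (nat_lit 0) (nat_lit 42763576872004) (nat_lit 380) (nat_lit 129201348884944) (nat_lit 35) (nat_lit 5) (nat_lit 34) (nat_lit 5) (nat_lit 39) (nat_lit 5) (nat_lit 419) (nat_lit 416) (nat_lit 185)) (XT.nd (nat_lit 78) (nat_lit 304) (nat_lit 0) (XT.lf (nat_lit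 0) (nat_lit 101418573071310) (nat_lit 304) (nat_lit 66196740576480) (nat_lit 76) (nat_lit 55313000745100) (nat_lit 35) (nat_lit 5) (nat_lit 39) (nat_lit 5) (nat_lit 36) (nat_lit 5) (nat_lit 420) (nat_lit 416) (nat_lit 184)) (XT.lf (nat_lit 0) (nat_lit 58618978390899) (nat_lit 304) (nat_lit 74717419374702) (nat_lit 380) (nat_lit 107531197776393) (nat_lit 31) (nat_lit 5) (nat_lit 35) (nat_lit 5) (nat_lit 36) (nat_lit 5) (nat_lit 421) (nat_lit 416) (nat_lit 183)))) (XT.nd (nat_lit 78) (nat_lit 152) (nat_lit 0) (XT.lf (nat_lit 0) (nat_lit 174996776017110) (nat_lit 380) (nat_lit 52876655763709) (nat_lit 76) (nat_lit 32881105104682) (nat_lit 31) (nat_lit 5) (nat_lit 36) (nat_lit 5) (nat_lit 32) (nat_lit 5) (nat_lit 422) (nat_lit 416) (nat_lit 182)) (XT.nd (nat_lit 78) (nat_lit 0) (nat_lit 0) (XT.lf (nat_lit 0) (nat_lit 101367569484391) (nat_lit 152) (nat_lit 129294028758611) (nat_lit 228) (nat_lit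 51799613102035) (nat_lit 29) (nat_lit 5) (nat_lit 31) (nat_lit 5) (nat_lit 32) (nat_lit 5) (nat_lit 423) (nat_lit 416) (nat_lit 181)) (XT.lf (nat_lit 0) (nat_lit 284691043582244) (nat_lit 152) (nat_lit 12749107226366) (nat_lit 228) (nat_lit 9569135114019) (nat_lit 29) (nat_lit 5) (nat_lit 31) (nat_lit 5) (nat_lit 32) (nat_lit 5) (nat_lit 424) (nat_lit 416) (nat_lit 180))))) (XT.nd (nat_lit 234) (nat_lit 152) (nat_lit 0) (XT.nd (nat_lit 78) (nat_lit 0) (nat_lit 0) (XT.lf (nat_lit 0) (nat_lit 26679448264015) (nat_lit 380) (nat_lit 34470456347388) (nat_lit 380) (nat_lit 34470456347388) (nat_lit 33) (nat_lit 3) (nat_lit 38) (nat_lit 3) (nat_lit 38) (nat_lit 5) (nat_lit 417) (nat_lit 417) (nat_lit 186)) (XT.nd (nat_lit 78) (nat_lit 0) (nat_lit 76) (XT.lf (nat_lit 76) (nat_lit 27963037716823) (nat_lit 0) (nat_lit 30555665811341) (nat_lit 380) (nat_lit 146891389069158) (nat_lit 34) (nat_lit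 5) (nat_lit 33) (nat_lit 3) (nat_lit 38) (nat_lit 5) (nat_lit 418) (nat_lit 417) (nat_lit 185)) (XT.lf (nat_lit 0) (nat_lit 71331341046257) (nat_lit 304) (nat_lit 77288840216947) (nat_lit 380) (nat_lit 72052858695627) (nat_lit 34) (nat_lit 5) (nat_lit 38) (nat_lit 5) (nat_lit 39) (nat_lit 5) (nat_lit 419) (nat_lit 417) (nat_lit 184)))) (XT.nd (nat_lit 156) (nat_lit 228) (nat_lit 0) (XT.nd (nat_lit 78) (nat_lit 0) (nat_lit 76) (XT.lf (nat_lit 76) (nat_lit 39999068628233) (nat_lit 0) (nat_lit 49178113402806) (nat_lit 380) (nat_lit 148581551217682) (nat_lit 35) (nat_lit 5) (nat_lit 34) (nat_lit 5) (nat_lit 39) (nat_lit 5) (nat_lit 420) (nat_lit 417) (nat_lit 183)) (XT.lf (nat_lit 0) (nat_lit 116631359032009) (nat_lit 304) (nat_lit 76126251662948) (nat_lit 76) (nat_lit 63609950856866) (nat_lit 35) (nat_lit 5) (nat_lit 39) (nat_lit 5) (nat_lit 36) (nat_lit 5) (nat_lit 421) (nat_lit 417) (nat_lit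 182))) (XT.nd (nat_lit 78) (nat_lit 0) (nat_lit 0) (XT.lf (nat_lit 0) (nat_lit 67411825149538) (nat_lit 304) (nat_lit 85925032280905) (nat_lit 380) (nat_lit 123660877442849) (nat_lit 31) (nat_lit 5) (nat_lit 35) (nat_lit 5) (nat_lit 36) (nat_lit 5) (nat_lit 422) (nat_lit 417) (nat_lit 181)) (XT.lf (nat_lit 0) (nat_lit 201246292419678) (nat_lit 380) (nat_lit 60808154128263) (nat_lit 76) (nat_lit 37813270870385) (nat_lit 31) (nat_lit 5) (nat_lit 36) (nat_lit 5) (nat_lit 32) (nat_lit 5) (nat_lit 423) (nat_lit 417) (nat_lit 180))))))))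
noncomputable def xc127 : XT := (XT.nd (nat_lit 212472) (nat_lit 0) (nat_lit 152) (XT.nd (nat_lit 106080) (nat_lit 0) (nat_lit 152) (XT.nd (nat_lit 53040) (nat_lit 0) (nat_lit 0) (XT.nd (nat_lit 52806) (nat_lit 0) (nat_lit 380) (XT.nd (nat_lit 52650) (nat_lit 0) (nat_lit 304) (XT.lf (nat_lit 0) (nat_lit 116572704907054) (nat_lit 152) (nat_lit 148688133072401) (nat_lit 228) (nat_lit 59569555067338) (nat_lit 29) (nat_lit 5) (nat_lit 31) (nat_lit 5) (nat_lit 32) (nat_lit 5) (nat_lit 424) (nat_lit 417) (nat_lit 179)) (XT.nd (nat_lit 78) (nat_lit 0) (nat_lit 0) (XT.lf (nat_lit 0) (nat_lit 30681365503619) (nat_lit 380) (nat_lit 39641024799495) (nat_lit 380) (nat_lit 39641024799495) (nat_lit 33) (nat_lit 3) (nat_lit 38) (nat_lit 3) (nat_lit 38) (nat_lit 5) (nat_lit 418) (nat_lit 418) (nat_lit 184)) (XT.lf (nat_lit 76) (nat_lit 32157493374348) (nat_lit 0) (nat_lit 35139015683044) (nat_lit 380)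 (nat_lit 168925097429528) (nat_lit 34) (nat_lit 5) (nat_lit 33) (nat_lit 3) (nat_lit 38) (nat_lit 5) (nat_lit 419) (nat_lit 418) (nat_lit 183)))) (XT.nd (nat_lit 78) (nat_lit 0) (nat_lit 0) (XT.lf (nat_lit 0) (nat_lit 82031042203198) (nat_lit 304) (nat_lit 88882166249489) (nat_lit 380) (nat_lit 82860787499969) (nat_lit 34) (nat_lit 5) (nat_lit 38) (nat_lit 5) (nat_lit 39) (nat_lit 5) (nat_lit 420) (nat_lit 418) (nat_lit 182)) (XT.nd (nat_lit 78) (nat_lit 0) (nat_lit 76) (XT.lf (nat_lit 76) (nat_lit 45998928922470) (nat_lit 0) (nat_lit 56554830413227) (nat_lit 380) (nat_lit 170868783900332) (nat_lit 35) (nat_lit 5) (nat_lit 34) (nat_lit 5) (nat_lit 39) (nat_lit 5) (nat_lit 421) (nat_lit 418) (nat_lit 181)) (XT.lf (nat_lit 0) (nat_lit 134126062886812) (nat_lit 304) (nat_lit 87545189412389) (nat_lit 76) (nat_lit 73151443485395) (nat_lit 35) (nat_lit 5) (nat_lit 39) (nat_lit 5) (nat_lit 36)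 (nat_lit 5) (nat_lit 422) (nat_lit 418) (nat_lit 180))))) (XT.nd (nat_lit 52806) (nat_lit 0) (nat_lit 304) (XT.nd (nat_lit 78) (nat_lit 152) (nat_lit 0) (XT.lf (nat_lit 0) (nat_lit 77523598921968) (nat_lit 304) (nat_lit 98813787123043) (nat_lit 380) (nat_lit 142210009059275) (nat_lit 31) (nat_lit 5) (nat_lit 35) (nat_lit 5) (nat_lit 36) (nat_lit 5) (nat_lit 423) (nat_lit 418) (nat_lit 179)) (XT.nd (nat_lit 78) (nat_lit 152) (nat_lit 0) (XT.lf (nat_lit 0) (nat_lit 231433236282632) (nat_lit 380) (nat_lit 69929377247501) (nat_lit 76) (nat_lit 43485261500943) (nat_lit 31) (nat_lit 5) (nat_lit 36) (nat_lit 5) (nat_lit 32) (nat_lit 5) (nat_lit 424) (nat_lit 418) (nat_lit 178)) (XT.lf (nat_lit 0) (nat_lit 134058610643111) (nat_lit 152) (nat_lit 170991353033263) (nat_lit 228) (nat_lit 68504988327438) (nat_lit 29) (nat_lit 5) (nat_lit 31) (nat_lit 5) (nat_lit 32) (nat_lit 5) (nat_lit 425) (nat_lit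 418) (nat_lit 177)))) (XT.nd (nat_lit 78) (nat_lit 0) (nat_lit 0) (XT.lf (nat_lit 0) (nat_lit 35283570329163) (nat_lit 380) (nat_lit 45587178519419) (nat_lit 380) (nat_lit 45587178519419) (nat_lit 33) (nat_lit 3) (nat_lit 38) (nat_lit 3) (nat_lit 38) (nat_lit 5) (nat_lit 419) (nat_lit 419) (nat_lit 182)) (XT.nd (nat_lit 78) (nat_lit 0) (nat_lit 76) (XT.lf (nat_lit 76) (nat_lit 36981117380500) (nat_lit 0) (nat_lit 40409868035503) (nat_lit 380) (nat_lit 194263862043955) (nat_lit 34) (nat_lit 5) (nat_lit 33) (nat_lit 3) (nat_lit 38) (nat_lit 5) (nat_lit 420) (nat_lit 419) (nat_lit 181)) (XT.lf (nat_lit 0) (nat_lit 94335698533680) (nat_lit 304) (nat_lit 102214491186911) (nat_lit 380) (nat_lit 95289905624963) (nat_lit 34) (nat_lit 5) (nat_lit 38) (nat_lit 5) (nat_lit 39) (nat_lit 5) (nat_lit 421) (nat_lit 419) (nat_lit 180)))))) (XT.nd (nat_lit 53118) (nat_lit 0) (nat_lit 0) (XT.nd (nat_lit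 234) (nat_lit 0) (nat_lit 0) (XT.nd (nat_lit 78) (nat_lit 228) (nat_lit 0) (XT.lf (nat_lit 76) (nat_lit 52898768260842) (nat_lit 0) (nat_lit 65038054975211) (nat_lit 380) (nat_lit 196499101485380) (nat_lit 35) (nat_lit 5) (nat_lit 34) (nat_lit 5) (nat_lit 39) (nat_lit 5) (nat_lit 422) (nat_lit 419) (nat_lit 179)) (XT.nd (nat_lit 78) (nat_lit 304) (nat_lit 0) (XT.lf (nat_lit 0) (nat_lit 154244972319836) (nat_lit 304) (nat_lit 100676967824247) (nat_lit 76) (nat_lit 84124160008202) (nat_lit 35) (nat_lit 5) (nat_lit 39) (nat_lit 5) (nat_lit 36) (nat_lit 5) (nat_lit 423) (nat_lit 419) (nat_lit 178)) (XT.lf (nat_lit 0) (nat_lit 89152138760265) (nat_lit 304) (nat_lit 113635855191500) (nat_lit 380) (nat_lit 163541510418165) (nat_lit 31) (nat_lit 5) (nat_lit 35) (nat_lit 5) (nat_lit 36) (nat_lit 5) (nat_lit 424) (nat_lit 419) (nat_lit 177)))) (XT.nd (nat_lit 52728) (nat_lit 0) (nat_lit 152) (XT.lf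 (nat_lit 0) (nat_lit 266148221725027) (nat_lit 380) (nat_lit 80418783834628) (nat_lit 76) (nat_lit 50008050726082) (nat_lit 31) (nat_lit 5) (nat_lit 36) (nat_lit 5) (nat_lit 32) (nat_lit 5) (nat_lit 425) (nat_lit 419) (nat_lit 176)) (XT.nd (nat_lit 78) (nat_lit 0) (nat_lit 0) (XT.lf (nat_lit 0) (nat_lit 40576105878538) (nat_lit 380) (nat_lit 52425255297331) (nat_lit 380) (nat_lit 52425255297331) (nat_lit 33) (nat_lit 3) (nat_lit 38) (nat_lit 3) (nat_lit 38) (nat_lit 5) (nat_lit 420) (nat_lit 420) (nat_lit 180)) (XT.lf (nat_lit 76) (nat_lit 42528284987578) (nat_lit 0) (nat_lit 46471348240827) (nat_lit 380) (nat_lit 223403441350546) (nat_lit 34) (nat_lit 5) (nat_lit 33) (nat_lit 3) (nat_lit 38) (nat_lit 5) (nat_lit 421) (nat_lit 420) (nat_lit 179))))) (XT.nd (nat_lit 234) (nat_lit 228) (nat_lit 0) (XT.nd (nat_lit 78) (nat_lit 0) (nat_lit 0) (XT.lf (nat_lit 0) (nat_lit 108486053313734) (nat_lit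 304) (nat_lit 117546664864944) (nat_lit 380) (nat_lit 109583391468710) (nat_lit 34) (nat_lit 5) (nat_lit 38) (nat_lit 5) (nat_lit 39) (nat_lit 5) (nat_lit 422) (nat_lit 420) (nat_lit 178)) (XT.nd (nat_lit 78) (nat_lit 0) (nat_lit 76) (XT.lf (nat_lit 76) (nat_lit 60833583499969) (nat_lit 0) (nat_lit 74793763221493) (nat_lit 380) (nat_lit 225973966708185) (nat_lit 35) (nat_lit 5) (nat_lit 34) (nat_lit 5) (nat_lit 39) (nat_lit 5) (nat_lit 423) (nat_lit 420) (nat_lit 177)) (XT.lf (nat_lit 0) (nat_lit 177381718167812) (nat_lit 304) (nat_lit 115778512997881) (nat_lit 76) (nat_lit 96742784009435) (nat_lit 35) (nat_lit 5) (nat_lit 39) (nat_lit 5) (nat_lit 36) (nat_lit 5) (nat_lit 424) (nat_lit 420) (nat_lit 176)))) (XT.nd (nat_lit 52884) (nat_lit 0) (nat_lit 152) (XT.nd (nat_lit 52806) (nat_lit 0) (nat_lit 152) (XT.lf (nat_lit 0) (nat_lit 102524959574305) (nat_lit 304) (nat_lit 130681233470225)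 (nat_lit 380) (nat_lit 188072736980888) (nat_lit 31) (nat_lit 5) (nat_lit 35) (nat_lit 5) (nat_lit 36) (nat_lit 5) (nat_lit 425) (nat_lit 420) (nat_lit 175)) (XT.lf (nat_lit 0) (nat_lit 46662521760320) (nat_lit 380) (nat_lit 60289043591931) (nat_lit 380) (nat_lit 60289043591931) (nat_lit 33) (nat_lit 3) (nat_lit 38) (nat_lit 3) (nat_lit 38) (nat_lit 5) (nat_lit 421) (nat_lit 421) (nat_lit 178))) (XT.nd (nat_lit 78) (nat_lit 0) (nat_lit 76) (XT.lf (nat_lit 76) (nat_lit 48907527735716) (nat_lit 0) (nat_lit 53442050476952) (nat_lit 380) (nat_lit 256913957553127) (nat_lit 34) (nat_lit 5) (nat_lit 33) (nat_lit 3) (nat_lit 38) (nat_lit 5) (nat_lit 422) (nat_lit 421) (nat_lit 177)) (XT.lf (nat_lit 0) (nat_lit 124758961310794) (nat_lit 304) (nat_lit 135178664594687) (nat_lit 380) (nat_lit 126020900189014) (nat_lit 34) (nat_lit 5) (nat_lit 38) (nat_lit 5) (nat_lit 39) (nat_lit 5) (nat_lit 423)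 (nat_lit 421) (nat_lit 176))))))) (XT.nd (nat_lit 212550) (nat_lit 0) (nat_lit 152) (XT.nd (nat_lit 159354) (nat_lit 152) (nat_lit 0) (XT.nd (nat_lit 53118) (nat_lit 0) (nat_lit 0) (XT.nd (nat_lit 52962) (nat_lit 76) (nat_lit 0) (XT.lf (nat_lit 76) (nat_lit 69958621024966) (nat_lit 0) (nat_lit 86012827704717) (nat_lit 380) (nat_lit 259870061714412) (nat_lit 35) (nat_lit 5) (nat_lit 34) (nat_lit 5) (nat_lit 39) (nat_lit 5) (nat_lit 424) (nat_lit 421) (nat_lit 175)) (XT.nd (nat_lit 78) (nat_lit 0) (nat_lit 0) (XT.lf (nat_lit 0) (nat_lit 53661900024368) (nat_lit 380) (nat_lit 69332400130720) (nat_lit 380) (nat_lit 69332400130720) (nat_lit 33) (nat_lit 3) (nat_lit 38) (nat_lit 3) (nat_lit 38) (nat_lit 5) (nat_lit 422) (nat_lit 422) (nat_lit 176)) (XT.lf (nat_lit 76) (nat_lit 56243656896072) (nat_lit 0) (nat_lit 61458358048498) (nat_lit 380) (nat_lit 295451051186095) (nat_lit 34) (nat_lit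 5) (nat_lit 33) (nat_lit 3) (nat_lit 38) (nat_lit 5) (nat_lit 423) (nat_lit 422) (nat_lit 175)))) (XT.nd (nat_lit 53040) (nat_lit 76) (nat_lit 0) (XT.lf (nat_lit 0) (nat_lit 143472805507415) (nat_lit 304) (nat_lit 155455464283890) (nat_lit 380) (nat_lit 144924035217365) (nat_lit 34) (nat_lit 5) (nat_lit 38) (nat_lit 5) (nat_lit 39) (nat_lit 5) (nat_lit 424) (nat_lit 422) (nat_lit 174)) (XT.nd (nat_lit 78) (nat_lit 0) (nat_lit 0) (XT.lf (nat_lit 0) (nat_lit 61711185028024) (nat_lit 380) (nat_lit 79732260150328) (nat_lit 380) (nat_lit 79732260150328) (nat_lit 33) (nat_lit 3) (nat_lit 38) (nat_lit 3) (nat_lit 38) (nat_lit 5) (nat_lit 423) (nat_lit 423) (nat_lit 174)) (XT.lf (nat_lit 76) (nat_lit 64680205430486) (nat_lit 0) (nat_lit 70677111755770) (nat_lit 380) (nat_lit 339768708864008) (nat_lit 34) (nat_lit 5) (nat_lit 33) (nat_lit 3) (nat_lit 38) (nat_lit 5) (nat_lit 424) (nat_lit 423)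 (nat_lit 173))))) (XT.nd (nat_lit 234) (nat_lit 152) (nat_lit 0) (XT.nd (nat_lit 78) (nat_lit 0) (nat_lit 0) (XT.lf (nat_lit 0) (nat_lit 70967862782228) (nat_lit 380) (nat_lit 91692099172877) (nat_lit 380) (nat_lit 91692099172877) (nat_lit 33) (nat_lit 3) (nat_lit 38) (nat_lit 3) (nat_lit 38) (nat_lit 5) (nat_lit 424) (nat_lit 424) (nat_lit 172)) (XT.nd (nat_lit 78) (nat_lit 0) (nat_lit 76) (XT.lf (nat_lit 76) (nat_lit 74382236245055) (nat_lit 0) (nat_lit 81278678519139) (nat_lit 380) (nat_lit 390734015193609) (nat_lit 34) (nat_lit 5) (nat_lit 33) (nat_lit 3) (nat_lit 38) (nat_lit 5) (nat_lit 425) (nat_lit 424) (nat_lit 171)) (XT.lf (nat_lit 0) (nat_lit 189742785283557) (nat_lit 304) (nat_lit 205589851515444) (nat_lit 380) (nat_lit 191662036574965) (nat_lit 34) (nat_lit 5) (nat_lit 38) (nat_lit 5) (nat_lit 39) (nat_lit 5) (nat_lit 426) (nat_lit 424) (nat_lit 170)))) (XT.nd (nat_lit 78)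 (nat_lit 228) (nat_lit 0) (XT.lf (nat_lit 76) (nat_lit 106398317751347) (nat_lit 0) (nat_lit 130814759335412) (nat_lit 380) (nat_lit 395229880109904) (nat_lit 35) (nat_lit 5) (nat_lit 34) (nat_lit 5) (nat_lit 39) (nat_lit 5) (nat_lit 427) (nat_lit 424) (nat_lit 169)) (XT.nd (nat_lit 78) (nat_lit 304) (nat_lit 0) (XT.lf (nat_lit 0) (nat_lit 310241733711245) (nat_lit 304) (nat_lit 202497342849002) (nat_lit 76) (nat_lit 169203733874898) (nat_lit 35) (nat_lit 5) (nat_lit 39) (nat_lit 5) (nat_lit 36) (nat_lit 5) (nat_lit 428) (nat_lit 424) (nat_lit 168)) (XT.lf (nat_lit 0) (nat_lit 179316795076462) (nat_lit 304) (nat_lit 228562294097131) (nat_lit 380) (nat_lit 328940392434177) (nat_lit 31) (nat_lit 5) (nat_lit 35) (nat_lit 5) (nat_lit 36) (nat_lit 5) (nat_lit 429) (nat_lit 424) (nat_lit 167)))))) (XT.nd (nat_lit 53274) (nat_lit 0) (nat_lit 0) (XT.nd (nat_lit 234) (nat_lit 0) (nat_lit 0) (XT.nd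 (nat_lit 78) (nat_lit 0) (nat_lit 0) (XT.lf (nat_lit 0) (nat_lit 81613042199562) (nat_lit 380) (nat_lit 105445914048809) (nat_lit 380) (nat_lit 105445914048809) (nat_lit 33) (nat_lit 3) (nat_lit 38) (nat_lit 3) (nat_lit 38) (nat_lit 5) (nat_lit 425) (nat_lit 425) (nat_lit 170)) (XT.nd (nat_lit 78) (nat_lit 0) (nat_lit 76) (XT.lf (nat_lit 76) (nat_lit 85539571681818) (nat_lit 0) (nat_lit 93470480297006) (nat_lit 380) (nat_lit 449344117472649) (nat_lit 34) (nat_lit 5) (nat_lit 33) (nat_lit 3) (nat_lit 38) (nat_lit 5) (nat_lit 426) (nat_lit 425) (nat_lit 169)) (XT.lf (nat_lit 0) (nat_lit 218204203076091) (nat_lit 304) (nat_lit 236428329242756) (nat_lit 380) (nat_lit 220411342061214) (nat_lit 34) (nat_lit 5) (nat_lit 38) (nat_lit 5) (nat_lit 39) (nat_lit 5) (nat_lit 427) (nat_lit 425) (nat_lit 168)))) (XT.nd (nat_lit 78) (nat_lit 76) (nat_lit 0) (XT.lf (nat_lit 76) (nat_lit 122358065414049)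 (nat_lit 0) (nat_lit 150436973235724) (nat_lit 380) (nat_lit 454514362126389) (nat_lit 35) (nat_lit 5) (nat_lit 34) (nat_lit 5) (nat_lit 39) (nat_lit 5) (nat_lit 428) (nat_lit 425) (nat_lit 167)) (XT.nd (nat_lit 52884) (nat_lit 152) (nat_lit 0) (XT.lf (nat_lit 0) (nat_lit 356777993767932) (nat_lit 304) (nat_lit 232871944276347) (nat_lit 76) (nat_lit 194584293956137) (nat_lit 35) (nat_lit 5) (nat_lit 39) (nat_lit 5) (nat_lit 36) (nat_lit 5) (nat_lit 429) (nat_lit 425) (nat_lit 166)) (XT.lf (nat_lit 0) (nat_lit 93854998529497) (nat_lit 380) (nat_lit 121262801156130) (nat_lit 380) (nat_lit 121262801156130) (nat_lit 33) (nat_lit 3) (nat_lit 38) (nat_lit 3) (nat_lit 38) (nat_lit 5) (nat_lit 426) (nat_lit 426) (nat_lit 168))))) (XT.nd (nat_lit 531960) (nat_lit 0) (nat_lit 0) (XT.nd (nat_lit 78) (nat_lit 0) (nat_lit 0) (XT.lf (nat_lit 76) (nat_lit 98370507434091) (nat_lit 0) (nat_lit 107491052341557)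 (nat_lit 380) (nat_lit 516745735093547) (nat_lit 34) (nat_lit 5) (nat_lit 33) (nat_lit 3) (nat_lit 38) (nat_lit 5) (nat_lit 427) (nat_lit 426) (nat_lit 167)) (XT.nd (nat_lit 53040) (nat_lit 76) (nat_lit 0) (XT.lf (nat_lit 0) (nat_lit 250934833537505) (nat_lit 304) (nat_lit 271892578629175) (nat_lit 380) (nat_lit 253473043370391) (nat_lit 34) (nat_lit 5) (nat_lit 38) (nat_lit 5) (nat_lit 39) (nat_lit 5) (nat_lit 428) (nat_lit 426) (nat_lit 166)) (XT.lf (nat_lit 0) (nat_lit 107933248308922) (nat_lit 380) (nat_lit 139452221329550) (nat_lit 380) (nat_lit 139452221329550) (nat_lit 33) (nat_lit 3) (nat_lit 38) (nat_lit 3) (nat_lit 38) (nat_lit 5) (nat_lit 427) (nat_lit 427) (nat_lit 166)))) (XT.nd (nat_lit 53118) (nat_lit 0) (nat_lit 0) (XT.nd (nat_lit 78) (nat_lit 0) (nat_lit 76) (XT.lf (nat_lit 76) (nat_lit 397963567315483) (nat_lit 0) (nat_lit 434861258319790) (nat_lit 380) (nat_lit 2090524706001769)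 (nat_lit 34) (nat_lit 5) (nat_lit 33) (nat_lit 3) (nat_lit 38) (nat_lit 5) (nat_lit 437) (nat_lit 436) (nat_lit 147)) (XT.lf (nat_lit 0) (nat_lit 1015171356976234) (nat_lit 304) (nat_lit 1099957124754826) (nat_lit 380) (nat_lit 1025439831400514) (nat_lit 34) (nat_lit 5) (nat_lit 38) (nat_lit 5) (nat_lit 39) (nat_lit 5) (nat_lit 438) (nat_lit 436) (nat_lit 146))) (XT.nd (nat_lit 78) (nat_lit 0) (nat_lit 0) (XT.lf (nat_lit 0) (nat_lit 436650187636244) (nat_lit 380) (nat_lit 564162012761411) (nat_lit 380) (nat_lit 564162012761411) (nat_lit 33) (nat_lit 3) (nat_lit 38) (nat_lit 3) (nat_lit 38) (nat_lit 5) (nat_lit 437) (nat_lit 437) (nat_lit 146)) (XT.lf (nat_lit 76) (nat_lit 457658102412831) (nat_lit 0) (nat_lit 500090447067737) (nat_lit 380) (nat_lit 2404103411902030) (nat_lit 34) (nat_lit 5) (nat_lit 33) (nat_lit 3) (nat_lit 38) (nat_lit 5) (nat_lit 438) (nat_lit 437) (nat_lit 145))))))))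

set_option maxRecDepth 10000000 in
noncomputable def Tp : PT := (PT.nd (nat_lit 9149946) (PT.nd (nat_lit 8830926) pc0 pc1) (PT.nd (nat_lit 264108) pc2 pc3))

set_option maxRecDepth 10000000 in
noncomputable def Tx : XT := (XT.nd (nat_lit 14855958) (nat_lit 0) (nat_lit 76) XT.nil (XT.nd (nat_lit 8390850) (nat_lit 0) (nat_lit 0) (XT.nd (nat_lit 3763188) (nat_lit 0) (nat_lit 0) (XT.nd (nat_lit 2760030) (nat_lit 0) (nat_lit 0) (XT.nd (nat_lit 2224404) (nat_lit 0) (nat_lit 0) (XT.nd (nat_lit 1747980) (nat_lit 0) (nat_lit 0) (XT.nd (nat_lit 1377324) (nat_lit 0) (nat_lit 0) (XT.nd (nat_lit 1165242) (nat_lit 0) (nat_lit 0) (XT.nd (nat_lit 953706) (nat_lit 0) (nat_lit 0) xc0 xc1) (XT.nd (nat_lit 106236) (nat_lit 0) (nat_lit 0) xc2 xc3)) (XT.nd (nat_lit 160524) (nat_lit 0) (nat_lit 0) (XT.nd (nat_lit 105690) (nat_lit 0) (nat_lit 0) xc4 xc5) (XT.nd (nat_lit 105378) (nat_lit 0) (nat_lit 0) xc6 xc7)))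 (XT.nd (nat_lit 264732) (nat_lit 0) (nat_lit 0) (XT.nd (nat_lit 107952) (nat_lit 0) (nat_lit 0) (XT.nd (nat_lit 54054) (nat_lit 0) (nat_lit 0) xc8 xc9) (XT.nd (nat_lit 53742) (nat_lit 0) (nat_lit 0) xc10 xc11)) (XT.nd (nat_lit 106314) (nat_lit 0) (nat_lit 0) (XT.nd (nat_lit 53274) (nat_lit 0) (nat_lit 0) xc12 xc13) (XT.nd (nat_lit 52806) (nat_lit 0) (nat_lit 0) xc14 xc15)))) (XT.nd (nat_lit 270426) (nat_lit 0) (nat_lit 0) (XT.nd (nat_lit 159978) (nat_lit 0) (nat_lit 0) (XT.nd (nat_lit 56082) (nat_lit 0) (nat_lit 0) (XT.nd (nat_lit 3822) (nat_lit 0) (nat_lit 0) xc16 xc17) (XT.nd (nat_lit 52026) (nat_lit 0) (nat_lit 0) xc18 xc19)) (XT.nd (nat_lit 55458) (nat_lit 0) (nat_lit 0) (XT.nd (nat_lit 3822) (nat_lit 0) (nat_lit 0) xc20 xc21) (XT.nd (nat_lit 51168) (nat_lit 0) (nat_lit 0) xc22 xc23))) (XT.nd (nat_lit 156312) (nat_lit 0) (nat_lit 0) (XT.nd (nat_lit 101790) (nat_lit 0) (nat_lit 0)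 (XT.nd (nat_lit 50934) (nat_lit 0) (nat_lit 0) xc24 xc25) (XT.nd (nat_lit 3822) (nat_lit 0) (nat_lit 0) xc26 xc27)) (XT.nd (nat_lit 54444) (nat_lit 0) (nat_lit 0) (XT.nd (nat_lit 50622) (nat_lit 0) (nat_lit 0) xc28 xc29) (XT.nd (nat_lit 50544) (nat_lit 0) (nat_lit 0) xc30 xc31))))) (XT.nd (nat_lit 479154) (nat_lit 0) (nat_lit 0) (XT.nd (nat_lit 263172) (nat_lit 0) (nat_lit 0) (XT.nd (nat_lit 155142) (nat_lit 0) (nat_lit 0) (XT.nd (nat_lit 100932) (nat_lit 0) (nat_lit 0) (XT.nd (nat_lit 50466) (nat_lit 0) (nat_lit 0) xc32 xc33) (XT.nd (nat_lit 3822) (nat_lit 0) (nat_lit 0) xc34 xc35)) (XT.nd (nat_lit 54054) (nat_lit 0) (nat_lit 0) (XT.nd (nat_lit 3822) (nat_lit 0) (nat_lit 0) xc36 xc37) (XT.nd (nat_lit 50154) (nat_lit 0) (nat_lit 0) xc38 xc39))) (XT.nd (nat_lit 107718) (nat_lit 0) (nat_lit 0) (XT.nd (nat_lit 53898) (nat_lit 0) (nat_lit 0) (XT.nd (nat_lit 50076) (nat_lit 0) (nat_lit 0)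 xc40 xc41) (XT.nd (nat_lit 49998) (nat_lit 0) (nat_lit 0) xc42 xc43)) (XT.nd (nat_lit 53430) (nat_lit 0) (nat_lit 0) (XT.nd (nat_lit 49608) (nat_lit 0) (nat_lit 0) xc44 xc45) (XT.nd (nat_lit 49452) (nat_lit 0) (nat_lit 0) xc46 xc47)))) (XT.nd (nat_lit 259974) (nat_lit 0) (nat_lit 0) (XT.nd (nat_lit 151866) (nat_lit 0) (nat_lit 0) (XT.nd (nat_lit 98046) (nat_lit 0) (nat_lit 0) (XT.nd (nat_lit 48204) (nat_lit 0) (nat_lit 0) xc48 xc49) (XT.nd (nat_lit 3822) (nat_lit 76) (nat_lit 0) xc50 xc51)) (XT.nd (nat_lit 53976) (nat_lit 0) (nat_lit 0) (XT.nd (nat_lit 3822) (nat_lit 0) (nat_lit 0) xc52 xc53) (XT.nd (nat_lit 3822) (nat_lit 0) (nat_lit 0) xc54 xc55))) (XT.nd (nat_lit 108498) (nat_lit 0) (nat_lit 0) (XT.nd (nat_lit 54210) (nat_lit 0) (nat_lit 0) (XT.nd (nat_lit 3822) (nat_lit 0) (nat_lit 0) xc56 xc57) (XT.nd (nat_lit 50466) (nat_lit 0) (nat_lit 0) xc58 xc59)) (XT.nd (nat_lit 54288) (nat_lit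 0) (nat_lit 0) (XT.nd (nat_lit 50466) (nat_lit 0) (nat_lit 0) xc60 xc61) (XT.nd (nat_lit 50544) (nat_lit 0) (nat_lit 0) xc62 xc63)))))) (XT.nd (nat_lit 1067430) (nat_lit 0) (nat_lit 0) (XT.nd (nat_lit 532194) (nat_lit 0) (nat_lit 0) (XT.nd (nat_lit 265902) (nat_lit 0) (nat_lit 0) (XT.nd (nat_lit 109122) (nat_lit 0) (nat_lit 0) (XT.nd (nat_lit 54522) (nat_lit 0) (nat_lit 0) (XT.nd (nat_lit 3822) (nat_lit 0) (nat_lit 0) xc64 xc65) (XT.nd (nat_lit 3822) (nat_lit 0) (nat_lit 0) xc66 xc67)) (XT.nd (nat_lit 54756) (nat_lit 0) (nat_lit 0) (XT.nd (nat_lit 50934) (nat_lit 0) (nat_lit 0) xc68 xc69) (XT.nd (nat_lit 51012) (nat_lit 0) (nat_lit 0) xc70 xc71))) (XT.nd (nat_lit 109512) (nat_lit 0) (nat_lit 0) (XT.nd (nat_lit 54756) (nat_lit 0) (nat_lit 0) (XT.nd (nat_lit 3822) (nat_lit 76) (nat_lit 0) xc72 xc73) (XT.nd (nat_lit 3822) (nat_lit 0) (nat_lit 0) xc74 xc75)) (XT.nd (nat_lit 54756) (nat_lit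 0) (nat_lit 0) (XT.nd (nat_lit 50934) (nat_lit 0) (nat_lit 0) xc76 xc77) (XT.nd (nat_lit 50934) (nat_lit 0) (nat_lit 0) xc78 xc79)))) (XT.nd (nat_lit 266136) (nat_lit 0) (nat_lit 0) (XT.nd (nat_lit 109746) (nat_lit 0) (nat_lit 0) (XT.nd (nat_lit 54834) (nat_lit 0) (nat_lit 0) (XT.nd (nat_lit 3822) (nat_lit 0) (nat_lit 0) xc80 xc81) (XT.nd (nat_lit 51090) (nat_lit 0) (nat_lit 76) xc82 xc83)) (XT.nd (nat_lit 54600) (nat_lit 0) (nat_lit 0) (XT.nd (nat_lit 50778) (nat_lit 0) (nat_lit 0) xc84 xc85) (XT.nd (nat_lit 50856) (nat_lit 0) (nat_lit 0) xc86 xc87))) (XT.nd (nat_lit 109980) (nat_lit 0) (nat_lit 0) (XT.nd (nat_lit 54912) (nat_lit 0) (nat_lit 0) (XT.nd (nat_lit 3822) (nat_lit 0) (nat_lit 0) xc88 xc89) (XT.nd (nat_lit 51246) (nat_lit 0) (nat_lit 0) xc90 xc91)) (XT.nd (nat_lit 103194) (nat_lit 0) (nat_lit 0) (XT.nd (nat_lit 51480) (nat_lit 0) (nat_lit 0) xc92 xc93) (XT.nd (nat_lit 52026)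 (nat_lit 0) (nat_lit 76) xc94 xc95))))) (XT.nd (nat_lit 849108) (nat_lit 0) (nat_lit 152) (XT.nd (nat_lit 422526) (nat_lit 0) (nat_lit 0) (XT.nd (nat_lit 210912) (nat_lit 0) (nat_lit 0) (XT.nd (nat_lit 104910) (nat_lit 0) (nat_lit 76) (XT.nd (nat_lit 52260) (nat_lit 0) (nat_lit 0) xc96 xc97) (XT.nd (nat_lit 52962) (nat_lit 0) (nat_lit 0) xc98 xc99)) (XT.nd (nat_lit 105924) (nat_lit 0) (nat_lit 0) (XT.nd (nat_lit 53118) (nat_lit 76) (nat_lit 0) xc100 xc101) (XT.nd (nat_lit 52806) (nat_lit 0) (nat_lit 0) xc102 xc103))) (XT.nd (nat_lit 212628) (nat_lit 0) (nat_lit 76) (XT.nd (nat_lit 106080) (nat_lit 0) (nat_lit 76) (XT.nd (nat_lit 52962) (nat_lit 0) (nat_lit 0) xc104 xc105) (XT.nd (nat_lit 53274) (nat_lit 0) (nat_lit 0) xc106 xc107)) (XT.nd (nat_lit 106782) (nat_lit 0) (nat_lit 76) (XT.nd (nat_lit 53352) (nat_lit 0) (nat_lit 0) xc108 xc109) (XT.nd (nat_lit 53508) (nat_lit 0) (nat_lit 0)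 xc110 xc111)))) (XT.nd (nat_lit 530946) (nat_lit 0) (nat_lit 0) (XT.nd (nat_lit 264966) (nat_lit 0) (nat_lit 152) (XT.nd (nat_lit 107250) (nat_lit 0) (nat_lit 0) (XT.nd (nat_lit 53664) (nat_lit 0) (nat_lit 0) xc112 xc113) (XT.nd (nat_lit 103740) (nat_lit 0) (nat_lit 152) xc114 xc115)) (XT.nd (nat_lit 107796) (nat_lit 0) (nat_lit 0) (XT.nd (nat_lit 53898) (nat_lit 0) (nat_lit 0) xc116 xc117) (XT.nd (nat_lit 104052) (nat_lit 0) (nat_lit 0) xc118 xc119))) (XT.nd (nat_lit 424866) (nat_lit 0) (nat_lit 152) (XT.nd (nat_lit 161148) (nat_lit 152) (nat_lit 0) (XT.nd (nat_lit 105378) (nat_lit 0) (nat_lit 76) xc120 xc121) (XT.nd (nat_lit 105066) (nat_lit 0) (nat_lit 152) xc122 xc123)) (XT.nd (nat_lit 425646) (nat_lit 228) (nat_lit 0) (XT.nd (nat_lit 159900) (nat_lit 0) (nat_lit 1216) xc124 xc125) (XT.nd (nat_lit 266136) (nat_lit 0) (nat_lit 1824) xc126 xc127))))))) XT.nil))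

set_option maxRecDepth 10000000 in
noncomputable def Te : XT := XT.nil

set_option maxRecDepth 10000000 in
noncomputable def Tz : ZL := (ZL.cons (nat_lit 76) (nat_lit 6) (nat_lit 425507923030182178428) (ZL.cons (nat_lit 152) (nat_lit 3) (nat_lit 198033812626064514837) (ZL.cons (nat_lit 228) (nat_lit 6) (nat_lit 370514510360164928164) (ZL.cons (nat_lit 304) (nat_lit 6) (nat_lit 348348626106403619742) (ZL.cons (nat_lit 380) (nat_lit 3) (nat_lit 172495197269016366077) (ZL.cons (nat_lit 456) (nat_lit 6) (nat_lit 322857859214578115058) (ZL.cons (nat_lit 532) (nat_lit 6) (nat_lit 303683876524776964796) (ZL.cons (nat_lit 608) (nat_lit 3) (nat_lit 150381837580488096491) (ZL.cons (nat_lit 684) (nat_lit 6) (nat_lit 281633796431505641996) (ZL.cons (nat_lit 760) (nat_lit 6) (nat_lit 265093942790155081756) (ZL.cons (nat_lit 836) (nat_lit 3) (nat_lit 131277318628207640089) (ZL.cons (nat_lit 912) (nat_lit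 6) (nat_lit 246073111102601937482) (ZL.cons (nat_lit 988) (nat_lit 6) (nat_lit 231866753327925787634) (ZL.cons (nat_lit 1064) (nat_lit 3) (nat_lit 114829330779728197479) (ZL.cons (nat_lit 1140) (nat_lit 6) (nat_lit 215529441887048215310) (ZL.cons (nat_lit 1216) (nat_lit 6) (nat_lit 203409010830917238504) (ZL.cons (nat_lit 1292) (nat_lit 3) (nat_lit 100744465516124100696) (ZL.cons (nat_lit 1368) (nat_lit 6) (nat_lit 189470515116366615174) (ZL.cons (nat_lit 1444) (nat_lit 6) (nat_lit 179239051219310121276) (ZL.cons (nat_lit 1520) (nat_lit 3) (nat_lit 88784708305885914068) (ZL.cons (nat_lit 1596) (nat_lit 6) (nat_lit 167472867737695153290) (ZL.cons (nat_lit 1672) (nat_lit 6) (nat_lit 158983327320513351348) (ZL.cons (nat_lit 1748) (nat_lit 3) (nat_lit 78765735570022635179) (ZL.cons (nat_lit 1824) (nat_lit 6) (nat_lit 149220355840754279116) (ZL.cons (nat_lit 1900) (nat_lit 6) (nat_lit 142376913062227355818)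 (ZL.cons (nat_lit 1976) (nat_lit 3) (nat_lit 70557214713518860088) (ZL.cons (nat_lit 2052) (nat_lit 6) (nat_lit 136867249358797669366) (ZL.cons (nat_lit 2128) (nat_lit 6) (nat_lit 134506953866921394030) (ZL.cons (nat_lit 2204) (nat_lit 6) (nat_lit 129268652464663894298) (ZL.cons (nat_lit 2280) (nat_lit 3) (nat_lit 64085420303988627302) (ZL.cons (nat_lit 2356) (nat_lit 6) (nat_lit 125297036714568878594) (ZL.cons (nat_lit 2432) (nat_lit 6) (nat_lit 123244605852067769606) (ZL.cons (nat_lit 2508) (nat_lit 3) (nat_lit 60160248104228468906) (ZL.cons (nat_lit 2584) (nat_lit 6) (nat_lit 120866302723336155254) (ZL.cons (nat_lit 2660) (nat_lit 6) (nat_lit 122514401091091009652) (ZL.cons (nat_lit 2736) (nat_lit 6) (nat_lit 119631866745272970840) (ZL.cons (nat_lit 2812) (nat_lit 3) (nat_lit 59338623869729250773) (ZL.cons (nat_lit 2888) (nat_lit 6) (nat_lit 116088455254600033884) (ZL.cons (nat_lit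 2964) (nat_lit 6) (nat_lit 117261939261590351380) (ZL.cons (nat_lit 3040) (nat_lit 6) (nat_lit 115477216772458952262) (ZL.cons (nat_lit 3116) (nat_lit 3) (nat_lit 56477113078714884825) (ZL.cons (nat_lit 3192) (nat_lit 6) (nat_lit 113581903649540869704) (ZL.cons (nat_lit 3268) (nat_lit 3) (nat_lit 56375900083111969940) (ZL.cons (nat_lit 3344) (nat_lit 6) (nat_lit 111402293558185074764) (ZL.cons (nat_lit 3420) (nat_lit 1) (nat_lit 18446744073709551617) ZL.nil)))))))))))))))))))))))))))))))))))))))))))))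

noncomputable def vl : XL := ⟨(nat_lit 0), (nat_lit 76), (nat_lit 57214000), (nat_lit 152), (nat_lit 177121831), (nat_lit 76), (nat_lit 57214000), (nat_lit 1), (nat_lit 5), (nat_lit 2), (nat_lit 4), (nat_lit 1), (nat_lit 4), (nat_lit 0), (nat_lit 0), (nat_lit 0)⟩

noncomputable def cp0 : Nat := (nat_lit 277952938186241597475770778068823655907337779884607991631413510144)

noncomputable def cp1 : Nat := (nat_lit 1991539301172516710179607763107601434269123243435433210555373179530935238006662758205703289069971979490897039560560260218173392630211356636842005215365798128845459307586019700813995516928592871183643410331428079822924997847448541183410011453718692334290129668106732438929596548274015407290094695071837573738267459035628532913186492927985970903316771656641558098963251769651253841338980950638437636931507084480562029216207202946448320559734015065304489327235898374671102498390411256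0789771919279795323906489427941081392405234524269567503830567967541637488588783023057398247372074614930610136910456111287618763368917751241514217805362357546102675005668943027642132895351668348013566935217952191753194019333156696805384015713498951466215328977005694002286150490316639387349092767968392945081770372661821494524731289973293152962018567595416742285564777133769993486002160007936187998071285650783508148968069374841755759686000948984867997759504198884921028628926900226480883820692705267167558006869849371727820797909375956433126046676337942891511033102336)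

noncomputable def rc0 : Nat := (nat_lit 18786041327906588684991111246718534201089061672422436468788697523973609093254567305966928597115183818411303156144675150574621231172922586739071353335902817500225663126641883261789049851894081263389566471373393007895552248510819696603901048428832075567079842199163377016694522742179073875931073287878851488042845351735130662694908362144480602246987735429910075819248290193876972392815542373760509016609698561367122945766463437933528953678081058237574949600957339388404620148556146369765748976635424786959635141630566124507465336071004701451192541407451390065291611603305200940294417584432048631179236586433877896847904550216878054742205209437174516273344237604278742711802161144250829383628362832563907528019200042362922633259096595322682743530698474035998534969602328586322034830072787776208984657673061934011287987090591093869272761933415519811347580089968562067207079689789547577037956844795081580854100309658991890173110818282224355207927967230977641548587331822994554305712853149609597445773339660788282707351400039761776883728687513074529206272)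

noncomputable def rc1 : Nat := (nat_lit 19915393011725167101796077631076014342691232434354332105553731795309352380066627582057032890699719794908970395605602602181733926302113566368420052153657981288454593075860197008139955169285928711836434103314280798229249978474485411834100114537186923342901296681067324389295965482740154072900946950718375737382674590356285329131864929279859709033167716566415580989632517696512538413389809506384376369315070844805620292162072029464483205597340150653044893272358983746711024983904112560789771919279795323906489427941081392405234524269567503830567967541637488588783023057398247372074614930610136910456111287618763368917751241514217805362357546102675005668943027642132895351668348013566935217952191753194019333156696805384015713498951466215328977005694002286150490316639387349092767968392945081770372661821494524731289973293152962018567595416742285564777133769993486002160007936187998071285650783508148968069374841755759686000948984867997759504198884921028628926900226480883820692705267167558006869849371727820797909375956433126046676337942891511033102336)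

end Vale.Agent.Lib.P154.PChain.BD.S0
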