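import Vale.Agent.Lib.P154.PChain.BD.R0_0

set_option linter.all false

namespace Vale.Agent.Lib.P154.PChain.BD.S1

open Vale.Agent.Lib.P154.Chain

noncomputable def pc0 : PT := (PT.nd (nat_lit 8300292) (PT.nd (nat_lit 8034780) (PT.nd (nat_lit 7875582) (PT.nd (nat_lit 7822464) (PT.nd (nat_lit 7716384) (PT.nd (nat_lit 7716306) PT.nil (PT.lf (nat_lit 76) (nat_lit 6) (nat_lit 1) (nat_lit 3) (nat_lit 182) (nat_lit 145) (nat_lit 183))) (PT.nd (nat_lit 53040) (PT.lf (nat_lit 76) (nat_lit 6) (nat_lit 1) (nat_lit 1) (nat_lit 183) (nat_lit 145) (nat_lit 182)) (PT.lf (nat_lit 152) (nat_lit 3) (nat_lit 2) (nat_lit 1) (nat_lit 182) (nat_lit 146) (nat_lit 182)))) (PT.nd (nat_lit 78) (PT.lf (nat_lit 228) (nat_lit 6) (nat_lit 3) (nat_lit 3) (nat_lit 181) (nat_lit 147) (nat_lit 182)) (PT.nd (nat_lit 52962) (PT.lf (nat_lit 228) (nat_lit 6) (nat_lit 3) (nat_lit 1) (nat_lit 182) (nat_lit 147) (nat_lit 181))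 (PT.lf (nat_lit 304) (nat_lit 6) (nat_lit 4) (nat_lit 3) (nat_lit 180) (nat_lit 148) (nat_lit 182))))) (PT.nd (nat_lit 53118) (PT.nd (nat_lit 78) (PT.lf (nat_lit 380) (nat_lit 3) (nat_lit 5) (nat_lit 1) (nat_lit 181) (nat_lit 148) (nat_lit 181)) (PT.nd (nat_lit 52962) (PT.lf (nat_lit 304) (nat_lit 6) (nat_lit 4) (nat_lit 1) (nat_lit 182) (nat_lit 148) (nat_lit 180)) (PT.lf (nat_lit 456) (nat_lit 6) (nat_lit 6) (nat_lit 3) (nat_lit 180) (nat_lit 149) (nat_lit 181)))) (PT.nd (nat_lit 53040) (PT.nd (nat_lit 52962) (PT.lf (nat_lit 456) (nat_lit 6) (nat_lit 6) (nat_lit 1) (nat_lit 181) (nat_lit 149) (nat_lit 180)) (PT.lf (nat_lit 532) (nat_lit 6) (nat_lit 7) (nat_lit 3) (nat_lit 179) (nat_lit 150) (nat_lit 181))) (PT.nd (nat_lit 78) (PT.lf (nat_lit 608) (nat_lit 3) (nat_lit 8) (nat_lit 1) (nat_lit 180) (nat_lit 150) (nat_lit 180)) (PT.lf (nat_lit 532) (nat_lit 6) (nat_lit 7) (nat_lit 1) (nat_lit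 181) (nat_lit 150) (nat_lit 179)))))) (PT.nd (nat_lit 159198) (PT.nd (nat_lit 53118) (PT.nd (nat_lit 78) (PT.lf (nat_lit 684) (nat_lit 6) (nat_lit 9) (nat_lit 3) (nat_lit 179) (nat_lit 151) (nat_lit 180)) (PT.nd (nat_lit 52962) (PT.lf (nat_lit 684) (nat_lit 6) (nat_lit 9) (nat_lit 1) (nat_lit 180) (nat_lit 151) (nat_lit 179)) (PT.lf (nat_lit 760) (nat_lit 6) (nat_lit 10) (nat_lit 3) (nat_lit 178) (nat_lit 152) (nat_lit 180)))) (PT.nd (nat_lit 53040) (PT.nd (nat_lit 78) (PT.lf (nat_lit 836) (nat_lit 3) (nat_lit 11) (nat_lit 1) (nat_lit 179) (nat_lit 152) (nat_lit 179)) (PT.lf (nat_lit 760) (nat_lit 6) (nat_lit 10) (nat_lit 1) (nat_lit 180) (nat_lit 152) (nat_lit 178))) (PT.nd (nat_lit 78) (PT.lf (nat_lit 912) (nat_lit 6) (nat_lit 12) (nat_lit 3) (nat_lit 178) (nat_lit 153) (nat_lit 179)) (PT.lf (nat_lit 912) (nat_lit 6) (nat_lit 12) (nat_lit 1) (nat_lit 179) (nat_lit 153) (nat_lit 178)))))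 (PT.nd (nat_lit 53118) (PT.nd (nat_lit 78) (PT.lf (nat_lit 988) (nat_lit 6) (nat_lit 13) (nat_lit 3) (nat_lit 177) (nat_lit 154) (nat_lit 179)) (PT.nd (nat_lit 78) (PT.lf (nat_lit 1064) (nat_lit 3) (nat_lit 14) (nat_lit 1) (nat_lit 178) (nat_lit 154) (nat_lit 178)) (PT.lf (nat_lit 988) (nat_lit 6) (nat_lit 13) (nat_lit 1) (nat_lit 179) (nat_lit 154) (nat_lit 177)))) (PT.nd (nat_lit 53040) (PT.nd (nat_lit 78) (PT.lf (nat_lit 1140) (nat_lit 6) (nat_lit 15) (nat_lit 3) (nat_lit 177) (nat_lit 155) (nat_lit 178)) (PT.lf (nat_lit 1140) (nat_lit 6) (nat_lit 15) (nat_lit 1) (nat_lit 178) (nat_lit 155) (nat_lit 177))) (PT.nd (nat_lit 78) (PT.lf (nat_lit 1216) (nat_lit 6) (nat_lit 16) (nat_lit 3) (nat_lit 176) (nat_lit 156) (nat_lit 178)) (PT.lf (nat_lit 1292) (nat_lit 3) (nat_lit 17) (nat_lit 1) (nat_lit 177) (nat_lit 156) (nat_lit 177))))))) (PT.nd (nat_lit 318396) (PT.nd (nat_lit 159198) (PT.nd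 (nat_lit 106002) (PT.nd (nat_lit 52962) (PT.lf (nat_lit 1216) (nat_lit 6) (nat_lit 16) (nat_lit 1) (nat_lit 178) (nat_lit 156) (nat_lit 176)) (PT.nd (nat_lit 78) (PT.lf (nat_lit 1368) (nat_lit 6) (nat_lit 18) (nat_lit 3) (nat_lit 176) (nat_lit 157) (nat_lit 177)) (PT.lf (nat_lit 1368) (nat_lit 6) (nat_lit 18) (nat_lit 1) (nat_lit 177) (nat_lit 157) (nat_lit 176)))) (PT.nd (nat_lit 156) (PT.nd (nat_lit 78) (PT.lf (nat_lit 1444) (nat_lit 6) (nat_lit 19) (nat_lit 3) (nat_lit 175) (nat_lit 158) (nat_lit 177)) (PT.lf (nat_lit 1520) (nat_lit 3) (nat_lit 20) (nat_lit 1) (nat_lit 176) (nat_lit 158) (nat_lit 176))) (PT.nd (nat_lit 52962) (PT.lf (nat_lit 1444) (nat_lit 6) (nat_lit 19) (nat_lit 1) (nat_lit 177) (nat_lit 158) (nat_lit 175)) (PT.lf (nat_lit 1596) (nat_lit 6) (nat_lit 21) (nat_lit 3) (nat_lit 175) (nat_lit 159) (nat_lit 176))))) (PT.nd (nat_lit 53118) (PT.nd (nat_lit 52962) (PT.lf (nat_lit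 1596) (nat_lit 6) (nat_lit 21) (nat_lit 1) (nat_lit 176) (nat_lit 159) (nat_lit 175)) (PT.nd (nat_lit 78) (PT.lf (nat_lit 1672) (nat_lit 6) (nat_lit 22) (nat_lit 3) (nat_lit 174) (nat_lit 160) (nat_lit 176)) (PT.lf (nat_lit 1748) (nat_lit 3) (nat_lit 23) (nat_lit 1) (nat_lit 175) (nat_lit 160) (nat_lit 175)))) (PT.nd (nat_lit 53040) (PT.nd (nat_lit 52962) (PT.lf (nat_lit 1672) (nat_lit 6) (nat_lit 22) (nat_lit 1) (nat_lit 176) (nat_lit 160) (nat_lit 174)) (PT.lf (nat_lit 1824) (nat_lit 6) (nat_lit 24) (nat_lit 3) (nat_lit 174) (nat_lit 161) (nat_lit 175))) (PT.nd (nat_lit 52962) (PT.lf (nat_lit 1824) (nat_lit 6) (nat_lit 24) (nat_lit 1) (nat_lit 175) (nat_lit 161) (nat_lit 174)) (PT.lf (nat_lit 1900) (nat_lit 6) (nat_lit 25) (nat_lit 3) (nat_lit 173) (nat_lit 162) (nat_lit 175)))))) (PT.nd (nat_lit 106158) (PT.nd (nat_lit 53040) (PT.nd (nat_lit 78) (PT.lf (nat_lit 1976) (nat_lit 3) (nat_lit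 26) (nat_lit 1) (nat_lit 174) (nat_lit 162) (nat_lit 174)) (PT.nd (nat_lit 52884) (PT.lf (nat_lit 1900) (nat_lit 6) (nat_lit 25) (nat_lit 1) (nat_lit 175) (nat_lit 162) (nat_lit 173)) (PT.lf (nat_lit 2052) (nat_lit 6) (nat_lit 27) (nat_lit 3) (nat_lit 172) (nat_lit 163) (nat_lit 175)))) (PT.nd (nat_lit 156) (PT.nd (nat_lit 78) (PT.lf (nat_lit 2128) (nat_lit 6) (nat_lit 28) (nat_lit 3) (nat_lit 173) (nat_lit 163) (nat_lit 174)) (PT.lf (nat_lit 2128) (nat_lit 6) (nat_lit 28) (nat_lit 1) (nat_lit 174) (nat_lit 163) (nat_lit 173))) (PT.nd (nat_lit 52884) (PT.lf (nat_lit 2052) (nat_lit 6) (nat_lit 27) (nat_lit 1) (nat_lit 175) (nat_lit 163) (nat_lit 172)) (PT.lf (nat_lit 2204) (nat_lit 6) (nat_lit 29) (nat_lit 3) (nat_lit 172) (nat_lit 164) (nat_lit 174))))) (PT.nd (nat_lit 53040) (PT.nd (nat_lit 78) (PT.lf (nat_lit 2280) (nat_lit 3) (nat_lit 30) (nat_lit 1) (nat_lit 173) (nat_lit 164) (nat_lit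 173)) (PT.nd (nat_lit 52884) (PT.lf (nat_lit 2204) (nat_lit 6) (nat_lit 29) (nat_lit 1) (nat_lit 174) (nat_lit 164) (nat_lit 172)) (PT.lf (nat_lit 2356) (nat_lit 6) (nat_lit 31) (nat_lit 3) (nat_lit 171) (nat_lit 165) (nat_lit 174)))) (PT.nd (nat_lit 156) (PT.nd (nat_lit 78) (PT.lf (nat_lit 2432) (nat_lit 6) (nat_lit 32) (nat_lit 3) (nat_lit 172) (nat_lit 165) (nat_lit 173)) (PT.lf (nat_lit 2432) (nat_lit 6) (nat_lit 32) (nat_lit 1) (nat_lit 173) (nat_lit 165) (nat_lit 172))) (PT.nd (nat_lit 52806) (PT.lf (nat_lit 2356) (nat_lit 6) (nat_lit 31) (nat_lit 1) (nat_lit 174) (nat_lit 165) (nat_lit 171)) (PT.lf (nat_lit 2660) (nat_lit 6) (nat_lit 35) (nat_lit 3) (nat_lit 170) (nat_lit 166) (nat_lit 174))))))))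
noncomputable def pc1 : PT := (PT.nd (nat_lit 212316) (PT.nd (nat_lit 106314) (PT.nd (nat_lit 53196) (PT.nd (nat_lit 234) (PT.nd (nat_lit 78) (PT.lf (nat_lit 2736) (nat_lit 6) (nat_lit 36) (nat_lit 3) (nat_lit 171) (nat_lit 166) (nat_lit 173)) (PT.nd (nat_lit 78) (PT.lf (nat_lit 2812) (nat_lit 3) (nat_lit 37) (nat_lit 1) (nat_lit 172) (nat_lit 166) (nat_lit 172)) (PT.lf (nat_lit 2736) (nat_lit 6) (nat_lit 36) (nat_lit 1) (nat_lit 173) (nat_lit 166) (nat_lit 171)))) (PT.nd (nat_lit 52806) (PT.nd (nat_lit 52728) (PT.lf (nat_lit 2660) (nat_lit 6) (nat_lit 35) (nat_lit 1) (nat_lit 174) (nat_lit 166) (nat_lit 170)) (PT.lf (nat_lit 2584) (nat_lit 6) (nat_lit 34) (nat_lit 3) (nat_lit 169) (nat_lit 167) (nat_lit 174))) (PT.nd (nat_lit 78) (PT.lf (nat_lit 2964) (nat_lit 6) (nat_lit 39) (nat_lit 3) (nat_lit 170) (nat_lit 167) (nat_lit 173)) (PT.lf (nat_lit 3040) (nat_lit 6) (nat_lit 40) (nat_lit 3)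 (nat_lit 171) (nat_lit 167) (nat_lit 172))))) (PT.nd (nat_lit 52806) (PT.nd (nat_lit 78) (PT.lf (nat_lit 3040) (nat_lit 6) (nat_lit 40) (nat_lit 1) (nat_lit 172) (nat_lit 167) (nat_lit 171)) (PT.nd (nat_lit 78) (PT.lf (nat_lit 2964) (nat_lit 6) (nat_lit 39) (nat_lit 1) (nat_lit 173) (nat_lit 167) (nat_lit 170)) (PT.lf (nat_lit 2584) (nat_lit 6) (nat_lit 34) (nat_lit 1) (nat_lit 174) (nat_lit 167) (nat_lit 169)))) (PT.nd (nat_lit 156) (PT.nd (nat_lit 78) (PT.lf (nat_lit 2508) (nat_lit 3) (nat_lit 33) (nat_lit 3) (nat_lit 168) (nat_lit 168) (nat_lit 174)) (PT.lf (nat_lit 2888) (nat_lit 6) (nat_lit 38) (nat_lit 3) (nat_lit 169) (nat_lit 168) (nat_lit 173))) (PT.nd (nat_lit 78) (PT.lf (nat_lit 3192) (nat_lit 6) (nat_lit 42) (nat_lit 3) (nat_lit 170) (nat_lit 168) (nat_lit 172)) (PT.lf (nat_lit 3268) (nat_lit 3) (nat_lit 43) (nat_lit 1) (nat_lit 171) (nat_lit 168) (nat_lit 171)))))) (PT.nd (nat_lit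 53040) (PT.nd (nat_lit 52728) (PT.nd (nat_lit 78) (PT.lf (nat_lit 3192) (nat_lit 6) (nat_lit 42) (nat_lit 1) (nat_lit 172) (nat_lit 168) (nat_lit 170)) (PT.nd (nat_lit 78) (PT.lf (nat_lit 2888) (nat_lit 6) (nat_lit 38) (nat_lit 1) (nat_lit 173) (nat_lit 168) (nat_lit 169)) (PT.lf (nat_lit 2508) (nat_lit 3) (nat_lit 33) (nat_lit 0) (nat_lit 174) (nat_lit 168) (nat_lit 168)))) (PT.nd (nat_lit 156) (PT.nd (nat_lit 78) (PT.lf (nat_lit 2584) (nat_lit 6) (nat_lit 34) (nat_lit 5) (nat_lit 167) (nat_lit 169) (nat_lit 174)) (PT.lf (nat_lit 2888) (nat_lit 6) (nat_lit 38) (nat_lit 5) (nat_lit 168) (nat_lit 169) (nat_lit 173))) (PT.nd (nat_lit 78) (PT.lf (nat_lit 3116) (nat_lit 3) (nat_lit 41) (nat_lit 3) (nat_lit 169) (nat_lit 169) (nat_lit 172)) (PT.lf (nat_lit 3344) (nat_lit 6) (nat_lit 44) (nat_lit 3) (nat_lit 170) (nat_lit 169) (nat_lit 171))))) (PT.nd (nat_lit 234) (PT.nd (nat_lit 78) (PT.lf (nat_lit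 3344) (nat_lit 6) (nat_lit 44) (nat_lit 1) (nat_lit 171) (nat_lit 169) (nat_lit 170)) (PT.nd (nat_lit 78) (PT.lf (nat_lit 3116) (nat_lit 3) (nat_lit 41) (nat_lit 0) (nat_lit 172) (nat_lit 169) (nat_lit 169)) (PT.lf (nat_lit 2888) (nat_lit 6) (nat_lit 38) (nat_lit 0) (nat_lit 173) (nat_lit 169) (nat_lit 168)))) (PT.nd (nat_lit 52572) (PT.nd (nat_lit 52494) (PT.lf (nat_lit 2584) (nat_lit 6) (nat_lit 34) (nat_lit 0) (nat_lit 174) (nat_lit 169) (nat_lit 167)) (PT.lf (nat_lit 2660) (nat_lit 6) (nat_lit 35) (nat_lit 5) (nat_lit 166) (nat_lit 170) (nat_lit 174))) (PT.nd (nat_lit 78) (PT.lf (nat_lit 2964) (nat_lit 6) (nat_lit 39) (nat_lit 5) (nat_lit 167) (nat_lit 170) (nat_lit 173)) (PT.lf (nat_lit 3192) (nat_lit 6) (nat_lit 42) (nat_lit 5) (nat_lit 168) (nat_lit 170) (nat_lit 172))))))) (PT.nd (nat_lit 53430) (PT.nd (nat_lit 52884) (PT.nd (nat_lit 234) (PT.nd (nat_lit 78) (PT.lf (nat_lit 3344)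 (nat_lit 6) (nat_lit 44) (nat_lit 5) (nat_lit 169) (nat_lit 170) (nat_lit 171)) (PT.nd (nat_lit 78) (PT.lf (nat_lit 3420) (nat_lit 1) (nat_lit 45) (nat_lit 0) (nat_lit 170) (nat_lit 170) (nat_lit 170)) (PT.lf (nat_lit 3344) (nat_lit 6) (nat_lit 44) (nat_lit 0) (nat_lit 171) (nat_lit 170) (nat_lit 169)))) (PT.nd (nat_lit 156) (PT.nd (nat_lit 78) (PT.lf (nat_lit 3192) (nat_lit 6) (nat_lit 42) (nat_lit 0) (nat_lit 172) (nat_lit 170) (nat_lit 168)) (PT.lf (nat_lit 2964) (nat_lit 6) (nat_lit 39) (nat_lit 0) (nat_lit 173) (nat_lit 170) (nat_lit 167))) (PT.nd (nat_lit 52416) (PT.lf (nat_lit 2660) (nat_lit 6) (nat_lit 35) (nat_lit 0) (nat_lit 174) (nat_lit 170) (nat_lit 166)) (PT.lf (nat_lit 2356) (nat_lit 6) (nat_lit 31) (nat_lit 5) (nat_lit 165) (nat_lit 171) (nat_lit 174))))) (PT.nd (nat_lit 234) (PT.nd (nat_lit 78) (PT.lf (nat_lit 2736) (nat_lit 6) (nat_lit 36) (nat_lit 5) (nat_lit 166) (nat_lit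 171) (nat_lit 173)) (PT.nd (nat_lit 78) (PT.lf (nat_lit 3040) (nat_lit 6) (nat_lit 40) (nat_lit 5) (nat_lit 167) (nat_lit 171) (nat_lit 172)) (PT.lf (nat_lit 3268) (nat_lit 3) (nat_lit 43) (nat_lit 4) (nat_lit 168) (nat_lit 171) (nat_lit 171)))) (PT.nd (nat_lit 156) (PT.nd (nat_lit 78) (PT.lf (nat_lit 3344) (nat_lit 6) (nat_lit 44) (nat_lit 4) (nat_lit 169) (nat_lit 171) (nat_lit 170)) (PT.lf (nat_lit 3344) (nat_lit 6) (nat_lit 44) (nat_lit 2) (nat_lit 170) (nat_lit 171) (nat_lit 169))) (PT.nd (nat_lit 78) (PT.lf (nat_lit 3268) (nat_lit 3) (nat_lit 43) (nat_lit 0) (nat_lit 171) (nat_lit 171) (nat_lit 168)) (PT.lf (nat_lit 3040) (nat_lit 6) (nat_lit 40) (nat_lit 0) (nat_lit 172) (nat_lit 171) (nat_lit 167)))))) (PT.nd (nat_lit 52728) (PT.nd (nat_lit 52416) (PT.nd (nat_lit 78) (PT.lf (nat_lit 2736) (nat_lit 6) (nat_lit 36) (nat_lit 0) (nat_lit 173) (nat_lit 171) (nat_lit 166)) (PT.nd (nat_lit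 52260) (PT.lf (nat_lit 2356) (nat_lit 6) (nat_lit 31) (nat_lit 0) (nat_lit 174) (nat_lit 171) (nat_lit 165)) (PT.lf (nat_lit 2052) (nat_lit 6) (nat_lit 27) (nat_lit 5) (nat_lit 163) (nat_lit 172) (nat_lit 175)))) (PT.nd (nat_lit 156) (PT.nd (nat_lit 78) (PT.lf (nat_lit 2204) (nat_lit 6) (nat_lit 29) (nat_lit 5) (nat_lit 164) (nat_lit 172) (nat_lit 174)) (PT.lf (nat_lit 2432) (nat_lit 6) (nat_lit 32) (nat_lit 5) (nat_lit 165) (nat_lit 172) (nat_lit 173))) (PT.nd (nat_lit 78) (PT.lf (nat_lit 2812) (nat_lit 3) (nat_lit 37) (nat_lit 4) (nat_lit 166) (nat_lit 172) (nat_lit 172)) (PT.lf (nat_lit 3040) (nat_lit 6) (nat_lit 40) (nat_lit 4) (nat_lit 167) (nat_lit 172) (nat_lit 171))))) (PT.nd (nat_lit 234) (PT.nd (nat_lit 78) (PT.lf (nat_lit 3192) (nat_lit 6) (nat_lit 42) (nat_lit 4) (nat_lit 168) (nat_lit 172) (nat_lit 170)) (PT.nd (nat_lit 78) (PT.lf (nat_lit 3116) (nat_lit 3) (nat_lit 41) (nat_lit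 2) (nat_lit 169) (nat_lit 172) (nat_lit 169)) (PT.lf (nat_lit 3192) (nat_lit 6) (nat_lit 42) (nat_lit 2) (nat_lit 170) (nat_lit 172) (nat_lit 168)))) (PT.nd (nat_lit 156) (PT.nd (nat_lit 78) (PT.lf (nat_lit 3040) (nat_lit 6) (nat_lit 40) (nat_lit 2) (nat_lit 171) (nat_lit 172) (nat_lit 167)) (PT.lf (nat_lit 2812) (nat_lit 3) (nat_lit 37) (nat_lit 0) (nat_lit 172) (nat_lit 172) (nat_lit 166))) (PT.nd (nat_lit 78) (PT.lf (nat_lit 2432) (nat_lit 6) (nat_lit 32) (nat_lit 0) (nat_lit 173) (nat_lit 172) (nat_lit 165)) (PT.lf (nat_lit 2204) (nat_lit 6) (nat_lit 29) (nat_lit 0) (nat_lit 174) (nat_lit 172) (nat_lit 164))))))))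
noncomputable def pc2 : PT := (PT.nd (nat_lit 106080) (PT.nd (nat_lit 53118) (PT.nd (nat_lit 52572) (PT.nd (nat_lit 52260) (PT.nd (nat_lit 52104) (PT.lf (nat_lit 2052) (nat_lit 6) (nat_lit 27) (nat_lit 0) (nat_lit 175) (nat_lit 172) (nat_lit 163)) (PT.nd (nat_lit 78) (PT.lf (nat_lit 1900) (nat_lit 6) (nat_lit 25) (nat_lit 5) (nat_lit 162) (nat_lit 173) (nat_lit 175)) (PT.lf (nat_lit 2128) (nat_lit 6) (nat_lit 28) (nat_lit 5) (nat_lit 163) (nat_lit 173) (nat_lit 174)))) (PT.nd (nat_lit 156) (PT.nd (nat_lit 78) (PT.lf (nat_lit 2280) (nat_lit 3) (nat_lit 30) (nat_lit 4) (nat_lit 164) (nat_lit 173) (nat_lit 173)) (PT.lf (nat_lit 2432) (nat_lit 6) (nat_lit 32) (nat_lit 4) (nat_lit 165) (nat_lit 173) (nat_lit 172))) (PT.nd (nat_lit 78) (PT.lf (nat_lit 2736) (nat_lit 6) (nat_lit 36) (nat_lit 4) (nat_lit 166) (nat_lit 173) (nat_lit 171)) (PT.lf (nat_lit 2964) (nat_lit 6) (nat_lit 39) (nat_lit 4)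 (nat_lit 167) (nat_lit 173) (nat_lit 170))))) (PT.nd (nat_lit 234) (PT.nd (nat_lit 78) (PT.lf (nat_lit 2888) (nat_lit 6) (nat_lit 38) (nat_lit 4) (nat_lit 168) (nat_lit 173) (nat_lit 169)) (PT.nd (nat_lit 78) (PT.lf (nat_lit 2888) (nat_lit 6) (nat_lit 38) (nat_lit 2) (nat_lit 169) (nat_lit 173) (nat_lit 168)) (PT.lf (nat_lit 2964) (nat_lit 6) (nat_lit 39) (nat_lit 2) (nat_lit 170) (nat_lit 173) (nat_lit 167)))) (PT.nd (nat_lit 156) (PT.nd (nat_lit 78) (PT.lf (nat_lit 2736) (nat_lit 6) (nat_lit 36) (nat_lit 2) (nat_lit 171) (nat_lit 173) (nat_lit 166)) (PT.lf (nat_lit 2432) (nat_lit 6) (nat_lit 32) (nat_lit 2) (nat_lit 172) (nat_lit 173) (nat_lit 165))) (PT.nd (nat_lit 78) (PT.lf (nat_lit 2280) (nat_lit 3) (nat_lit 30) (nat_lit 0) (nat_lit 173) (nat_lit 173) (nat_lit 164)) (PT.lf (nat_lit 2128) (nat_lit 6) (nat_lit 28) (nat_lit 0) (nat_lit 174) (nat_lit 173) (nat_lit 163)))))) (PT.nd (nat_lit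 52416) (PT.nd (nat_lit 52104) (PT.nd (nat_lit 51948) (PT.lf (nat_lit 1900) (nat_lit 6) (nat_lit 25) (nat_lit 0) (nat_lit 175) (nat_lit 173) (nat_lit 162)) (PT.nd (nat_lit 78) (PT.lf (nat_lit 1672) (nat_lit 6) (nat_lit 22) (nat_lit 5) (nat_lit 160) (nat_lit 174) (nat_lit 176)) (PT.lf (nat_lit 1824) (nat_lit 6) (nat_lit 24) (nat_lit 5) (nat_lit 161) (nat_lit 174) (nat_lit 175)))) (PT.nd (nat_lit 156) (PT.nd (nat_lit 78) (PT.lf (nat_lit 1976) (nat_lit 3) (nat_lit 26) (nat_lit 4) (nat_lit 162) (nat_lit 174) (nat_lit 174)) (PT.lf (nat_lit 2128) (nat_lit 6) (nat_lit 28) (nat_lit 4) (nat_lit 163) (nat_lit 174) (nat_lit 173))) (PT.nd (nat_lit 78) (PT.lf (nat_lit 2204) (nat_lit 6) (nat_lit 29) (nat_lit 4) (nat_lit 164) (nat_lit 174) (nat_lit 172)) (PT.lf (nat_lit 2356) (nat_lit 6) (nat_lit 31) (nat_lit 4) (nat_lit 165) (nat_lit 174) (nat_lit 171))))) (PT.nd (nat_lit 234) (PT.nd (nat_lit 78) (PT.lf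 (nat_lit 2660) (nat_lit 6) (nat_lit 35) (nat_lit 4) (nat_lit 166) (nat_lit 174) (nat_lit 170)) (PT.nd (nat_lit 78) (PT.lf (nat_lit 2584) (nat_lit 6) (nat_lit 34) (nat_lit 4) (nat_lit 167) (nat_lit 174) (nat_lit 169)) (PT.lf (nat_lit 2508) (nat_lit 3) (nat_lit 33) (nat_lit 2) (nat_lit 168) (nat_lit 174) (nat_lit 168)))) (PT.nd (nat_lit 156) (PT.nd (nat_lit 78) (PT.lf (nat_lit 2584) (nat_lit 6) (nat_lit 34) (nat_lit 2) (nat_lit 169) (nat_lit 174) (nat_lit 167)) (PT.lf (nat_lit 2660) (nat_lit 6) (nat_lit 35) (nat_lit 2) (nat_lit 170) (nat_lit 174) (nat_lit 166))) (PT.nd (nat_lit 78) (PT.lf (nat_lit 2356) (nat_lit 6) (nat_lit 31) (nat_lit 2) (nat_lit 171) (nat_lit 174) (nat_lit 165)) (PT.lf (nat_lit 2204) (nat_lit 6) (nat_lit 29) (nat_lit 2) (nat_lit 172) (nat_lit 174) (nat_lit 164))))))) (PT.nd (nat_lit 53352) (PT.nd (nat_lit 52182) (PT.nd (nat_lit 234) (PT.nd (nat_lit 78) (PT.lf (nat_lit 2128)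 (nat_lit 6) (nat_lit 28) (nat_lit 2) (nat_lit 173) (nat_lit 174) (nat_lit 163)) (PT.nd (nat_lit 78) (PT.lf (nat_lit 1976) (nat_lit 3) (nat_lit 26) (nat_lit 0) (nat_lit 174) (nat_lit 174) (nat_lit 162)) (PT.lf (nat_lit 1824) (nat_lit 6) (nat_lit 24) (nat_lit 0) (nat_lit 175) (nat_lit 174) (nat_lit 161)))) (PT.nd (nat_lit 51792) (PT.nd (nat_lit 51714) (PT.lf (nat_lit 1672) (nat_lit 6) (nat_lit 22) (nat_lit 0) (nat_lit 176) (nat_lit 174) (nat_lit 160)) (PT.lf (nat_lit 1444) (nat_lit 6) (nat_lit 19) (nat_lit 5) (nat_lit 158) (nat_lit 175) (nat_lit 177))) (PT.nd (nat_lit 78) (PT.lf (nat_lit 1596) (nat_lit 6) (nat_lit 21) (nat_lit 5) (nat_lit 159) (nat_lit 175) (nat_lit 176)) (PT.lf (nat_lit 1748) (nat_lit 3) (nat_lit 23) (nat_lit 4) (nat_lit 160) (nat_lit 175) (nat_lit 175))))) (PT.nd (nat_lit 858) (PT.nd (nat_lit 78) (PT.lf (nat_lit 1824) (nat_lit 6) (nat_lit 24) (nat_lit 4) (nat_lit 161) (nat_lit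 175) (nat_lit 174)) (PT.nd (nat_lit 78) (PT.lf (nat_lit 1900) (nat_lit 6) (nat_lit 25) (nat_lit 4) (nat_lit 162) (nat_lit 175) (nat_lit 173)) (PT.lf (nat_lit 2052) (nat_lit 6) (nat_lit 27) (nat_lit 4) (nat_lit 163) (nat_lit 175) (nat_lit 172)))) (PT.nd (nat_lit 156) (PT.nd (nat_lit 78) (PT.lf (nat_lit 2052) (nat_lit 6) (nat_lit 27) (nat_lit 2) (nat_lit 172) (nat_lit 175) (nat_lit 163)) (PT.lf (nat_lit 1900) (nat_lit 6) (nat_lit 25) (nat_lit 2) (nat_lit 173) (nat_lit 175) (nat_lit 162))) (PT.nd (nat_lit 78) (PT.lf (nat_lit 1824) (nat_lit 6) (nat_lit 24) (nat_lit 2) (nat_lit 174) (nat_lit 175) (nat_lit 161)) (PT.lf (nat_lit 1748) (nat_lit 3) (nat_lit 23) (nat_lit 0) (nat_lit 175) (nat_lit 175) (nat_lit 160)))))) (PT.nd (nat_lit 52962) (PT.nd (nat_lit 51636) (PT.nd (nat_lit 78) (PT.lf (nat_lit 1596) (nat_lit 6) (nat_lit 21) (nat_lit 0) (nat_lit 176) (nat_lit 175) (nat_lit 159)) (PT.nd (nat_lit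 51480) (PT.lf (nat_lit 1444) (nat_lit 6) (nat_lit 19) (nat_lit 0) (nat_lit 177) (nat_lit 175) (nat_lit 158)) (PT.lf (nat_lit 1216) (nat_lit 6) (nat_lit 16) (nat_lit 5) (nat_lit 156) (nat_lit 176) (nat_lit 178)))) (PT.nd (nat_lit 156) (PT.nd (nat_lit 78) (PT.lf (nat_lit 1368) (nat_lit 6) (nat_lit 18) (nat_lit 5) (nat_lit 157) (nat_lit 176) (nat_lit 177)) (PT.lf (nat_lit 1520) (nat_lit 3) (nat_lit 20) (nat_lit 4) (nat_lit 158) (nat_lit 176) (nat_lit 176))) (PT.nd (nat_lit 78) (PT.lf (nat_lit 1596) (nat_lit 6) (nat_lit 21) (nat_lit 4) (nat_lit 159) (nat_lit 176) (nat_lit 175)) (PT.lf (nat_lit 1672) (nat_lit 6) (nat_lit 22) (nat_lit 4) (nat_lit 160) (nat_lit 176) (nat_lit 174))))) (PT.nd (nat_lit 234) (PT.nd (nat_lit 78) (PT.lf (nat_lit 1672) (nat_lit 6) (nat_lit 22) (nat_lit 2) (nat_lit 174) (nat_lit 176) (nat_lit 160)) (PT.nd (nat_lit 78) (PT.lf (nat_lit 1596) (nat_lit 6) (nat_lit 21) (nat_lit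 2) (nat_lit 175) (nat_lit 176) (nat_lit 159)) (PT.lf (nat_lit 1520) (nat_lit 3) (nat_lit 20) (nat_lit 0) (nat_lit 176) (nat_lit 176) (nat_lit 158)))) (PT.nd (nat_lit 51324) (PT.nd (nat_lit 78) (PT.lf (nat_lit 1368) (nat_lit 6) (nat_lit 18) (nat_lit 0) (nat_lit 177) (nat_lit 176) (nat_lit 157)) (PT.lf (nat_lit 1216) (nat_lit 6) (nat_lit 16) (nat_lit 0) (nat_lit 178) (nat_lit 176) (nat_lit 156))) (PT.nd (nat_lit 78) (PT.lf (nat_lit 988) (nat_lit 6) (nat_lit 13) (nat_lit 5) (nat_lit 154) (nat_lit 177) (nat_lit 179)) (PT.lf (nat_lit 1140) (nat_lit 6) (nat_lit 15) (nat_lit 5) (nat_lit 155) (nat_lit 177) (nat_lit 178))))))))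
noncomputable def pc3 : PT := (PT.nd (nat_lit 158730) (PT.nd (nat_lit 54756) (PT.nd (nat_lit 1794) (PT.nd (nat_lit 1482) (PT.nd (nat_lit 78) (PT.lf (nat_lit 1292) (nat_lit 3) (nat_lit 17) (nat_lit 4) (nat_lit 156) (nat_lit 177) (nat_lit 177)) (PT.nd (nat_lit 78) (PT.lf (nat_lit 1368) (nat_lit 6) (nat_lit 18) (nat_lit 4) (nat_lit 157) (nat_lit 177) (nat_lit 176)) (PT.lf (nat_lit 1444) (nat_lit 6) (nat_lit 19) (nat_lit 4) (nat_lit 158) (nat_lit 177) (nat_lit 175)))) (PT.nd (nat_lit 156) (PT.nd (nat_lit 78) (PT.lf (nat_lit 1444) (nat_lit 6) (nat_lit 19) (nat_lit 2) (nat_lit 175) (nat_lit 177) (nat_lit 158)) (PT.lf (nat_lit 1368) (nat_lit 6) (nat_lit 18) (nat_lit 2) (nat_lit 176) (nat_lit 177) (nat_lit 157))) (PT.nd (nat_lit 78) (PT.lf (nat_lit 1292) (nat_lit 3) (nat_lit 17) (nat_lit 0) (nat_lit 177) (nat_lit 177) (nat_lit 156)) (PT.lf (nat_lit 1140) (nat_lit 6) (nat_lit 15) (nat_lit 0) (nat_lit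 178) (nat_lit 177) (nat_lit 155))))) (PT.nd (nat_lit 51168) (PT.nd (nat_lit 51012) (PT.lf (nat_lit 988) (nat_lit 6) (nat_lit 13) (nat_lit 0) (nat_lit 179) (nat_lit 177) (nat_lit 154)) (PT.nd (nat_lit 78) (PT.lf (nat_lit 760) (nat_lit 6) (nat_lit 10) (nat_lit 5) (nat_lit 152) (nat_lit 178) (nat_lit 180)) (PT.lf (nat_lit 912) (nat_lit 6) (nat_lit 12) (nat_lit 5) (nat_lit 153) (nat_lit 178) (nat_lit 179)))) (PT.nd (nat_lit 156) (PT.nd (nat_lit 78) (PT.lf (nat_lit 1064) (nat_lit 3) (nat_lit 14) (nat_lit 4) (nat_lit 154) (nat_lit 178) (nat_lit 178)) (PT.lf (nat_lit 1140) (nat_lit 6) (nat_lit 15) (nat_lit 4) (nat_lit 155) (nat_lit 178) (nat_lit 177))) (PT.nd (nat_lit 1560) (PT.lf (nat_lit 1216) (nat_lit 6) (nat_lit 16) (nat_lit 4) (nat_lit 156) (nat_lit 178) (nat_lit 176)) (PT.lf (nat_lit 1216) (nat_lit 6) (nat_lit 16) (nat_lit 2) (nat_lit 176) (nat_lit 178) (nat_lit 156)))))) (PT.nd (nat_lit 51246)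 (PT.nd (nat_lit 234) (PT.nd (nat_lit 78) (PT.lf (nat_lit 1140) (nat_lit 6) (nat_lit 15) (nat_lit 2) (nat_lit 177) (nat_lit 178) (nat_lit 155)) (PT.nd (nat_lit 78) (PT.lf (nat_lit 1064) (nat_lit 3) (nat_lit 14) (nat_lit 0) (nat_lit 178) (nat_lit 178) (nat_lit 154)) (PT.lf (nat_lit 912) (nat_lit 6) (nat_lit 12) (nat_lit 0) (nat_lit 179) (nat_lit 178) (nat_lit 153)))) (PT.nd (nat_lit 50856) (PT.nd (nat_lit 50778) (PT.lf (nat_lit 760) (nat_lit 6) (nat_lit 10) (nat_lit 0) (nat_lit 180) (nat_lit 178) (nat_lit 152)) (PT.lf (nat_lit 532) (nat_lit 6) (nat_lit 7) (nat_lit 5) (nat_lit 150) (nat_lit 179) (nat_lit 181))) (PT.nd (nat_lit 78) (PT.lf (nat_lit 684) (nat_lit 6) (nat_lit 9) (nat_lit 5) (nat_lit 151) (nat_lit 179) (nat_lit 180)) (PT.lf (nat_lit 836) (nat_lit 3) (nat_lit 11) (nat_lit 4) (nat_lit 152) (nat_lit 179) (nat_lit 179))))) (PT.nd (nat_lit 1950) (PT.nd (nat_lit 78) (PT.lf (nat_lit 912)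 (nat_lit 6) (nat_lit 12) (nat_lit 4) (nat_lit 153) (nat_lit 179) (nat_lit 178)) (PT.nd (nat_lit 1794) (PT.lf (nat_lit 988) (nat_lit 6) (nat_lit 13) (nat_lit 4) (nat_lit 154) (nat_lit 179) (nat_lit 177)) (PT.lf (nat_lit 988) (nat_lit 6) (nat_lit 13) (nat_lit 2) (nat_lit 177) (nat_lit 179) (nat_lit 154)))) (PT.nd (nat_lit 156) (PT.nd (nat_lit 78) (PT.lf (nat_lit 912) (nat_lit 6) (nat_lit 12) (nat_lit 2) (nat_lit 178) (nat_lit 179) (nat_lit 153)) (PT.lf (nat_lit 836) (nat_lit 3) (nat_lit 11) (nat_lit 0) (nat_lit 179) (nat_lit 179) (nat_lit 152))) (PT.nd (nat_lit 78) (PT.lf (nat_lit 684) (nat_lit 6) (nat_lit 9) (nat_lit 0) (nat_lit 180) (nat_lit 179) (nat_lit 151)) (PT.lf (nat_lit 532) (nat_lit 6) (nat_lit 7) (nat_lit 0) (nat_lit 181) (nat_lit 179) (nat_lit 150))))))) (PT.nd (nat_lit 55536) (PT.nd (nat_lit 2496) (PT.nd (nat_lit 234) (PT.nd (nat_lit 78) (PT.lf (nat_lit 304) (nat_lit 6) (nat_lit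 4) (nat_lit 5) (nat_lit 148) (nat_lit 180) (nat_lit 182)) (PT.nd (nat_lit 78) (PT.lf (nat_lit 456) (nat_lit 6) (nat_lit 6) (nat_lit 5) (nat_lit 149) (nat_lit 180) (nat_lit 181)) (PT.lf (nat_lit 608) (nat_lit 3) (nat_lit 8) (nat_lit 4) (nat_lit 150) (nat_lit 180) (nat_lit 180)))) (PT.nd (nat_lit 2106) (PT.nd (nat_lit 78) (PT.lf (nat_lit 684) (nat_lit 6) (nat_lit 9) (nat_lit 4) (nat_lit 151) (nat_lit 180) (nat_lit 179)) (PT.lf (nat_lit 760) (nat_lit 6) (nat_lit 10) (nat_lit 4) (nat_lit 152) (nat_lit 180) (nat_lit 178))) (PT.nd (nat_lit 78) (PT.lf (nat_lit 760) (nat_lit 6) (nat_lit 10) (nat_lit 2) (nat_lit 178) (nat_lit 180) (nat_lit 152)) (PT.lf (nat_lit 684) (nat_lit 6) (nat_lit 9) (nat_lit 2) (nat_lit 179) (nat_lit 180) (nat_lit 151))))) (PT.nd (nat_lit 50544) (PT.nd (nat_lit 78) (PT.lf (nat_lit 608) (nat_lit 3) (nat_lit 8) (nat_lit 0) (nat_lit 180) (nat_lit 180) (nat_lit 150)) (PT.nd (nat_lit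 78) (PT.lf (nat_lit 456) (nat_lit 6) (nat_lit 6) (nat_lit 0) (nat_lit 181) (nat_lit 180) (nat_lit 149)) (PT.lf (nat_lit 304) (nat_lit 6) (nat_lit 4) (nat_lit 0) (nat_lit 182) (nat_lit 180) (nat_lit 148)))) (PT.nd (nat_lit 156) (PT.nd (nat_lit 78) (PT.lf (nat_lit 228) (nat_lit 6) (nat_lit 3) (nat_lit 5) (nat_lit 147) (nat_lit 181) (nat_lit 182)) (PT.lf (nat_lit 380) (nat_lit 3) (nat_lit 5) (nat_lit 4) (nat_lit 148) (nat_lit 181) (nat_lit 181))) (PT.nd (nat_lit 78) (PT.lf (nat_lit 456) (nat_lit 6) (nat_lit 6) (nat_lit 4) (nat_lit 149) (nat_lit 181) (nat_lit 180)) (PT.lf (nat_lit 532) (nat_lit 6) (nat_lit 7) (nat_lit 4) (nat_lit 150) (nat_lit 181) (nat_lit 179)))))) (PT.nd (nat_lit 50700) (PT.nd (nat_lit 234) (PT.nd (nat_lit 78) (PT.lf (nat_lit 532) (nat_lit 6) (nat_lit 7) (nat_lit 2) (nat_lit 179) (nat_lit 181) (nat_lit 150)) (PT.nd (nat_lit 78) (PT.lf (nat_lit 456) (nat_lit 6) (nat_lit 6)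 (nat_lit 2) (nat_lit 180) (nat_lit 181) (nat_lit 149)) (PT.lf (nat_lit 380) (nat_lit 3) (nat_lit 5) (nat_lit 0) (nat_lit 181) (nat_lit 181) (nat_lit 148)))) (PT.nd (nat_lit 50310) (PT.nd (nat_lit 50232) (PT.lf (nat_lit 228) (nat_lit 6) (nat_lit 3) (nat_lit 0) (nat_lit 182) (nat_lit 181) (nat_lit 147)) (PT.lf (nat_lit 76) (nat_lit 6) (nat_lit 1) (nat_lit 5) (nat_lit 145) (nat_lit 182) (nat_lit 183))) (PT.nd (nat_lit 78) (PT.lf (nat_lit 152) (nat_lit 3) (nat_lit 2) (nat_lit 4) (nat_lit 146) (nat_lit 182) (nat_lit 182)) (PT.lf (nat_lit 228) (nat_lit 6) (nat_lit 3) (nat_lit 4) (nat_lit 147) (nat_lit 182) (nat_lit 181))))) (PT.nd (nat_lit 2652) (PT.nd (nat_lit 2496) (PT.lf (nat_lit 304) (nat_lit 6) (nat_lit 4) (nat_lit 4) (nat_lit 148) (nat_lit 182) (nat_lit 180)) (PT.nd (nat_lit 78) (PT.lf (nat_lit 304) (nat_lit 6) (nat_lit 4) (nat_lit 2) (nat_lit 180) (nat_lit 182) (nat_lit 148)) (PT.lf (nat_lit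 228) (nat_lit 6) (nat_lit 3) (nat_lit 2) (nat_lit 181) (nat_lit 182) (nat_lit 147)))) (PT.nd (nat_lit 50232) (PT.nd (nat_lit 78) (PT.lf (nat_lit 152) (nat_lit 3) (nat_lit 2) (nat_lit 0) (nat_lit 182) (nat_lit 182) (nat_lit 146)) (PT.lf (nat_lit 76) (nat_lit 6) (nat_lit 1) (nat_lit 0) (nat_lit 183) (nat_lit 182) (nat_lit 145))) (PT.nd (nat_lit 2886) (PT.lf (nat_lit 76) (nat_lit 6) (nat_lit 1) (nat_lit 4) (nat_lit 145) (nat_lit 183) (nat_lit 182)) (PT.lf (nat_lit 76) (nat_lit 6) (nat_lit 1) (nat_lit 2) (nat_lit 182) (nat_lit 183) (nat_lit 145))))))))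
noncomputable def xc0 : XT := (XT.nd (nat_lit 159276) (nat_lit 0) (nat_lit 0) (XT.nd (nat_lit 106080) (nat_lit 0) (nat_lit 0) (XT.nd (nat_lit 53118) (nat_lit 0) (nat_lit 0) (XT.nd (nat_lit 52962) (nat_lit 0) (nat_lit 0) (XT.nd (nat_lit 78) (nat_lit 0) (nat_lit 0) (XT.lf (nat_lit 0) (nat_lit 2316500202357) (nat_lit 152) (nat_lit 11206576651121) (nat_lit 0) (nat_lit 2316500202357) (nat_lit 1) (nat_lit 5) (nat_lit 3) (nat_lit 4) (nat_lit 1) (nat_lit 4) (nat_lit 418) (nat_lit 301) (nat_lit 301)) (XT.lf (nat_lit 0) (nat_lit 5328718954022) (nat_lit 152) (nat_lit 25773531566755) (nat_lit 0) (nat_lit 5328714843852) (nat_lit 1) (nat_lit 5) (nat_lit 3) (nat_lit 4) (nat_lit 1) (nat_lit 4) (nat_lit 419) (nat_lit 301) (nat_lit 300))) (XT.nd (nat_lit 78) (nat_lit 0) (nat_lit 0) (XT.lf (nat_lit 0) (nat_lit 1750905656490) (nat_lit 152) (nat_lit 8475241177042) (nat_lit 0) (nat_lit 1750905656490) (nat_lit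 1) (nat_lit 5) (nat_lit 3) (nat_lit 4) (nat_lit 1) (nat_lit 4) (nat_lit 416) (nat_lit 302) (nat_lit 302)) (XT.lf (nat_lit 0) (nat_lit 4027966771818) (nat_lit 152) (nat_lit 19491220766750) (nat_lit 0) (nat_lit 4027962045122) (nat_lit 1) (nat_lit 5) (nat_lit 3) (nat_lit 4) (nat_lit 1) (nat_lit 4) (nat_lit 417) (nat_lit 302) (nat_lit 301)))) (XT.nd (nat_lit 52806) (nat_lit 0) (nat_lit 0) (XT.nd (nat_lit 78) (nat_lit 0) (nat_lit 0) (XT.lf (nat_lit 0) (nat_lit 4632969985260) (nat_lit 152) (nat_lit 22413225790008) (nat_lit 0) (nat_lit 4632961148394) (nat_lit 1) (nat_lit 5) (nat_lit 3) (nat_lit 4) (nat_lit 1) (nat_lit 4) (nat_lit 418) (nat_lit 302) (nat_lit 300)) (XT.lf (nat_lit 0) (nat_lit 5328657972699) (nat_lit 152) (nat_lit 25773667087358) (nat_lit 0) (nat_lit 5328645561771) (nat_lit 1) (nat_lit 5) (nat_lit 3) (nat_lit 4) (nat_lit 1) (nat_lit 4) (nat_lit 419) (nat_lit 302) (nat_lit 299))) (XT.nd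 (nat_lit 78) (nat_lit 0) (nat_lit 0) (XT.lf (nat_lit 0) (nat_lit 1323129727103) (nat_lit 152) (nat_lit 6410178036588) (nat_lit 0) (nat_lit 1323129727103) (nat_lit 1) (nat_lit 5) (nat_lit 3) (nat_lit 4) (nat_lit 1) (nat_lit 4) (nat_lit 414) (nat_lit 303) (nat_lit 303)) (XT.lf (nat_lit 0) (nat_lit 3044214698512) (nat_lit 152) (nat_lit 14741300452637) (nat_lit 0) (nat_lit 3044209262812) (nat_lit 1) (nat_lit 5) (nat_lit 3) (nat_lit 4) (nat_lit 1) (nat_lit 4) (nat_lit 415) (nat_lit 303) (nat_lit 302))))) (XT.nd (nat_lit 52806) (nat_lit 0) (nat_lit 0) (XT.nd (nat_lit 156) (nat_lit 0) (nat_lit 0) (XT.nd (nat_lit 78) (nat_lit 0) (nat_lit 0) (XT.lf (nat_lit 0) (nat_lit 3501776330608) (nat_lit 152) (nat_lit 16950565715015) (nat_lit 0) (nat_lit 3501766168212) (nat_lit 1) (nat_lit 5) (nat_lit 3) (nat_lit 4) (nat_lit 1) (nat_lit 4) (nat_lit 416) (nat_lit 303) (nat_lit 301)) (XT.lf (nat_lit 0) (nat_lit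 4027896643296) (nat_lit 152) (nat_lit 19491376615444) (nat_lit 0) (nat_lit 4027882370730) (nat_lit 1) (nat_lit 5) (nat_lit 3) (nat_lit 4) (nat_lit 1) (nat_lit 4) (nat_lit 417) (nat_lit 303) (nat_lit 300))) (XT.nd (nat_lit 78) (nat_lit 0) (nat_lit 0) (XT.lf (nat_lit 0) (nat_lit 4632869294869) (nat_lit 152) (nat_lit 22413444671541) (nat_lit 0) (nat_lit 4632851448241) (nat_lit 1) (nat_lit 5) (nat_lit 3) (nat_lit 4) (nat_lit 1) (nat_lit 4) (nat_lit 418) (nat_lit 303) (nat_lit 299)) (XT.lf (nat_lit 0) (nat_lit 5328530706769) (nat_lit 152) (nat_lit 25773940780056) (nat_lit 0) (nat_lit 5328509752262) (nat_lit 1) (nat_lit 5) (nat_lit 3) (nat_lit 4) (nat_lit 1) (nat_lit 4) (nat_lit 419) (nat_lit 303) (nat_lit 298)))) (XT.nd (nat_lit 156) (nat_lit 0) (nat_lit 0) (XT.nd (nat_lit 78) (nat_lit 0) (nat_lit 0) (XT.lf (nat_lit 0) (nat_lit 999548692512) (nat_lit 152) (nat_lit 4848945334128) (nat_lit 0) (nat_lit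 999548692512) (nat_lit 1) (nat_lit 5) (nat_lit 3) (nat_lit 4) (nat_lit 1) (nat_lit 4) (nat_lit 412) (nat_lit 304) (nat_lit 304)) (XT.lf (nat_lit 0) (nat_lit 2300130767879) (nat_lit 152) (nat_lit 11150148882252) (nat_lit 0) (nat_lit 2300124516824) (nat_lit 1) (nat_lit 5) (nat_lit 3) (nat_lit 4) (nat_lit 1) (nat_lit 4) (nat_lit 413) (nat_lit 304) (nat_lit 303))) (XT.nd (nat_lit 78) (nat_lit 0) (nat_lit 0) (XT.lf (nat_lit 0) (nat_lit 2646219224478) (nat_lit 152) (nat_lit 12820451938245) (nat_lit 0) (nat_lit 2646207537723) (nat_lit 1) (nat_lit 5) (nat_lit 3) (nat_lit 4) (nat_lit 1) (nat_lit 4) (nat_lit 414) (nat_lit 304) (nat_lit 302)) (XT.nd (nat_lit 78) (nat_lit 0) (nat_lit 0) (XT.lf (nat_lit 0) (nat_lit 3044134050712) (nat_lit 152) (nat_lit 14741479678635) (nat_lit 0) (nat_lit 3044117637260) (nat_lit 1) (nat_lit 5) (nat_lit 3) (nat_lit 4) (nat_lit 1) (nat_lit 4) (nat_lit 415) (nat_lit 304)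 (nat_lit 301)) (XT.lf (nat_lit 0) (nat_lit 3501660536658) (nat_lit 152) (nat_lit 16950817428778) (nat_lit 0) (nat_lit 3501640013036) (nat_lit 1) (nat_lit 5) (nat_lit 3) (nat_lit 4) (nat_lit 1) (nat_lit 4) (nat_lit 416) (nat_lit 304) (nat_lit 300))))))) (XT.nd (nat_lit 52962) (nat_lit 0) (nat_lit 0) (XT.nd (nat_lit 52650) (nat_lit 0) (nat_lit 0) (XT.nd (nat_lit 156) (nat_lit 0) (nat_lit 0) (XT.nd (nat_lit 78) (nat_lit 0) (nat_lit 0) (XT.lf (nat_lit 0) (nat_lit 4027750287477) (nat_lit 152) (nat_lit 19491691362046) (nat_lit 0) (nat_lit 4027726189794) (nat_lit 1) (nat_lit 5) (nat_lit 3) (nat_lit 4) (nat_lit 1) (nat_lit 4) (nat_lit 417) (nat_lit 304) (nat_lit 299)) (XT.lf (nat_lit 0) (nat_lit 4632696363510) (nat_lit 152) (nat_lit 22413814229307) (nat_lit 0) (nat_lit 4632669157949) (nat_lit 1) (nat_lit 5) (nat_lit 3) (nat_lit 4) (nat_lit 1) (nat_lit 4) (nat_lit 418) (nat_lit 304) (nat_lit 298)))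 (XT.nd (nat_lit 52416) (nat_lit 0) (nat_lit 0) (XT.lf (nat_lit 0) (nat_lit 5328334666246) (nat_lit 152) (nat_lit 25774357999704) (nat_lit 0) (nat_lit 5328304758181) (nat_lit 1) (nat_lit 5) (nat_lit 3) (nat_lit 4) (nat_lit 1) (nat_lit 4) (nat_lit 419) (nat_lit 304) (nat_lit 297)) (XT.lf (nat_lit 0) (nat_lit 754735821602) (nat_lit 152) (nat_lit 3668718583814) (nat_lit 0) (nat_lit 754735821602) (nat_lit 1) (nat_lit 5) (nat_lit 3) (nat_lit 4) (nat_lit 1) (nat_lit 4) (nat_lit 410) (nat_lit 305) (nat_lit 305)))) (XT.nd (nat_lit 156) (nat_lit 0) (nat_lit 0) (XT.nd (nat_lit 78) (nat_lit 0) (nat_lit 0) (XT.lf (nat_lit 0) (nat_lit 1737236481050) (nat_lit 152) (nat_lit 8435263548594) (nat_lit 0) (nat_lit 1737229292337) (nat_lit 1) (nat_lit 5) (nat_lit 3) (nat_lit 4) (nat_lit 1) (nat_lit 4) (nat_lit 411) (nat_lit 305) (nat_lit 304)) (XT.lf (nat_lit 0) (nat_lit 1999051120838) (nat_lit 152) (nat_lit 9698000913086)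 (nat_lit 0) (nat_lit 1999037681069) (nat_lit 1) (nat_lit 5) (nat_lit 3) (nat_lit 4) (nat_lit 1) (nat_lit 4) (nat_lit 412) (nat_lit 305) (nat_lit 303))) (XT.nd (nat_lit 78) (nat_lit 0) (nat_lit 0) (XT.lf (nat_lit 0) (nat_lit 2300038022909) (nat_lit 152) (nat_lit 11150354992150) (nat_lit 0) (nat_lit 2300019147440) (nat_lit 1) (nat_lit 5) (nat_lit 3) (nat_lit 4) (nat_lit 1) (nat_lit 4) (nat_lit 413) (nat_lit 305) (nat_lit 302)) (XT.lf (nat_lit 0) (nat_lit 2646086061436) (nat_lit 152) (nat_lit 12820741409073) (nat_lit 0) (nat_lit 2646062459271) (nat_lit 1) (nat_lit 5) (nat_lit 3) (nat_lit 4) (nat_lit 1) (nat_lit 4) (nat_lit 414) (nat_lit 305) (nat_lit 301))))) (XT.nd (nat_lit 312) (nat_lit 0) (nat_lit 0) (XT.nd (nat_lit 156) (nat_lit 0) (nat_lit 0) (XT.nd (nat_lit 78) (nat_lit 0) (nat_lit 0) (XT.lf (nat_lit 0) (nat_lit 3043965741519) (nat_lit 152) (nat_lit 14741841637228) (nat_lit 0) (nat_lit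 3043938029184) (nat_lit 1) (nat_lit 5) (nat_lit 3) (nat_lit 4) (nat_lit 1) (nat_lit 4) (nat_lit 415) (nat_lit 305) (nat_lit 300)) (XT.lf (nat_lit 0) (nat_lit 3501461665596) (nat_lit 152) (nat_lit 16951242420209) (nat_lit 0) (nat_lit 3501430379200) (nat_lit 1) (nat_lit 5) (nat_lit 3) (nat_lit 4) (nat_lit 1) (nat_lit 4) (nat_lit 416) (nat_lit 305) (nat_lit 299))) (XT.nd (nat_lit 78) (nat_lit 0) (nat_lit 0) (XT.lf (nat_lit 0) (nat_lit 4027524840876) (nat_lit 152) (nat_lit 19492171164641) (nat_lit 0) (nat_lit 4027490446601) (nat_lit 1) (nat_lit 5) (nat_lit 3) (nat_lit 4) (nat_lit 1) (nat_lit 4) (nat_lit 417) (nat_lit 305) (nat_lit 298)) (XT.lf (nat_lit 0) (nat_lit 4632447807746) (nat_lit 152) (nat_lit 22414341693785) (nat_lit 0) (nat_lit 4632410710967) (nat_lit 1) (nat_lit 5) (nat_lit 3) (nat_lit 4) (nat_lit 1) (nat_lit 4) (nat_lit 418) (nat_lit 305) (nat_lit 297)))) (XT.nd (nat_lit 52338) (nat_lit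 0) (nat_lit 0) (XT.nd (nat_lit 52260) (nat_lit 0) (nat_lit 0) (XT.lf (nat_lit 0) (nat_lit 5328066015557) (nat_lit 152) (nat_lit 25774926909297) (nat_lit 0) (nat_lit 5328026568774) (nat_lit 1) (nat_lit 5) (nat_lit 3) (nat_lit 4) (nat_lit 1) (nat_lit 4) (nat_lit 419) (nat_lit 305) (nat_lit 296)) (XT.lf (nat_lit 0) (nat_lit 569462130730) (nat_lit 152) (nat_lit 2776630492042) (nat_lit 0) (nat_lit 569462130730) (nat_lit 1) (nat_lit 5) (nat_lit 3) (nat_lit 4) (nat_lit 1) (nat_lit 4) (nat_lit 408) (nat_lit 306) (nat_lit 306))) (XT.nd (nat_lit 78) (nat_lit 0) (nat_lit 0) (XT.lf (nat_lit 0) (nat_lit 1311308605752) (nat_lit 152) (nat_lit 6383042558391) (nat_lit 0) (nat_lit 1311300338731) (nat_lit 1) (nat_lit 5) (nat_lit 3) (nat_lit 4) (nat_lit 1) (nat_lit 4) (nat_lit 409) (nat_lit 306) (nat_lit 305)) (XT.nd (nat_lit 78) (nat_lit 0) (nat_lit 0) (XT.lf (nat_lit 0) (nat_lit 1509418439388) (nat_lit 152)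 (nat_lit 7337563949183) (nat_lit 0) (nat_lit 1509402983654) (nat_lit 1) (nat_lit 5) (nat_lit 3) (nat_lit 4) (nat_lit 1) (nat_lit 4) (nat_lit 410) (nat_lit 306) (nat_lit 304)) (XT.lf (nat_lit 0) (nat_lit 1737129824334) (nat_lit 152) (nat_lit 8435500574977) (nat_lit 0) (nat_lit 1737108117545) (nat_lit 1) (nat_lit 5) (nat_lit 3) (nat_lit 4) (nat_lit 1) (nat_lit 4) (nat_lit 411) (nat_lit 306) (nat_lit 303))))))))
noncomputable def xc1 : XT := (XT.nd (nat_lit 53352) (nat_lit 0) (nat_lit 0) (XT.nd (nat_lit 52650) (nat_lit 0) (nat_lit 0) (XT.nd (nat_lit 312) (nat_lit 0) (nat_lit 0) (XT.nd (nat_lit 156) (nat_lit 0) (nat_lit 0) (XT.nd (nat_lit 78) (nat_lit 0) (nat_lit 0) (XT.lf (nat_lit 0) (nat_lit 1998897983339) (nat_lit 152) (nat_lit 9698333804538) (nat_lit 0) (nat_lit 1998870840849) (nat_lit 1) (nat_lit 5) (nat_lit 3) (nat_lit 4) (nat_lit 1) (nat_lit 4) (nat_lit 412) (nat_lit 306) (nat_lit 302))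 (XT.lf (nat_lit 0) (nat_lit 2299844467338) (nat_lit 152) (nat_lit 11150771244532) (nat_lit 0) (nat_lit 2299812598152) (nat_lit 1) (nat_lit 5) (nat_lit 3) (nat_lit 4) (nat_lit 1) (nat_lit 4) (nat_lit 413) (nat_lit 306) (nat_lit 301))) (XT.nd (nat_lit 78) (nat_lit 0) (nat_lit 0) (XT.lf (nat_lit 0) (nat_lit 2645857359715) (nat_lit 152) (nat_lit 12821230149219) (nat_lit 0) (nat_lit 2645821380359) (nat_lit 1) (nat_lit 5) (nat_lit 3) (nat_lit 4) (nat_lit 1) (nat_lit 4) (nat_lit 414) (nat_lit 306) (nat_lit 300)) (XT.lf (nat_lit 0) (nat_lit 3043706477929) (nat_lit 152) (nat_lit 14742393410213) (nat_lit 0) (nat_lit 3043666924512) (nat_lit 1) (nat_lit 5) (nat_lit 3) (nat_lit 4) (nat_lit 1) (nat_lit 4) (nat_lit 415) (nat_lit 306) (nat_lit 299)))) (XT.nd (nat_lit 156) (nat_lit 0) (nat_lit 0) (XT.nd (nat_lit 78) (nat_lit 0) (nat_lit 0) (XT.lf (nat_lit 0) (nat_lit 3501175826467) (nat_lit 152) (nat_lit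 16951849004359) (nat_lit 0) (nat_lit 3501133165171) (nat_lit 1) (nat_lit 5) (nat_lit 3) (nat_lit 4) (nat_lit 1) (nat_lit 4) (nat_lit 416) (nat_lit 306) (nat_lit 298)) (XT.lf (nat_lit 0) (nat_lit 4027215892583) (nat_lit 152) (nat_lit 19492825410673) (nat_lit 0) (nat_lit 4027170528783) (nat_lit 1) (nat_lit 5) (nat_lit 3) (nat_lit 4) (nat_lit 1) (nat_lit 4) (nat_lit 417) (nat_lit 306) (nat_lit 297))) (XT.nd (nat_lit 78) (nat_lit 0) (nat_lit 0) (XT.lf (nat_lit 0) (nat_lit 4632118764527) (nat_lit 152) (nat_lit 22415037384931) (nat_lit 0) (nat_lit 4632071050724) (nat_lit 1) (nat_lit 5) (nat_lit 3) (nat_lit 4) (nat_lit 1) (nat_lit 4) (nat_lit 418) (nat_lit 306) (nat_lit 296)) (XT.lf (nat_lit 0) (nat_lit 5327719498490) (nat_lit 152) (nat_lit 25775658639673) (nat_lit 0) (nat_lit 5327669741206) (nat_lit 1) (nat_lit 5) (nat_lit 3) (nat_lit 4) (nat_lit 1) (nat_lit 4) (nat_lit 419) (nat_lit 306) (nat_lit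 295))))) (XT.nd (nat_lit 312) (nat_lit 0) (nat_lit 0) (XT.nd (nat_lit 156) (nat_lit 0) (nat_lit 0) (XT.nd (nat_lit 78) (nat_lit 0) (nat_lit 0) (XT.lf (nat_lit 0) (nat_lit 429184615473) (nat_lit 152) (nat_lit 2102466555947) (nat_lit 0) (nat_lit 429184615473) (nat_lit 1) (nat_lit 5) (nat_lit 3) (nat_lit 4) (nat_lit 1) (nat_lit 4) (nat_lit 406) (nat_lit 307) (nat_lit 307)) (XT.lf (nat_lit 0) (nat_lit 988902176421) (nat_lit 152) (nat_lit 4831984369376) (nat_lit 0) (nat_lit 988892669347) (nat_lit 1) (nat_lit 5) (nat_lit 3) (nat_lit 4) (nat_lit 1) (nat_lit 4) (nat_lit 407) (nat_lit 307) (nat_lit 306))) (XT.nd (nat_lit 78) (nat_lit 0) (nat_lit 0) (XT.lf (nat_lit 0) (nat_lit 1138863077074) (nat_lit 152) (nat_lit 5553406782871) (nat_lit 0) (nat_lit 1138845302980) (nat_lit 1) (nat_lit 5) (nat_lit 3) (nat_lit 4) (nat_lit 1) (nat_lit 4) (nat_lit 408) (nat_lit 307) (nat_lit 305)) (XT.lf (nat_lit 0) (nat_lit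 1311185950528) (nat_lit 152) (nat_lit 6383315138731) (nat_lit 0) (nat_lit 1311160987721) (nat_lit 1) (nat_lit 5) (nat_lit 3) (nat_lit 4) (nat_lit 1) (nat_lit 4) (nat_lit 409) (nat_lit 307) (nat_lit 304)))) (XT.nd (nat_lit 156) (nat_lit 0) (nat_lit 0) (XT.nd (nat_lit 78) (nat_lit 0) (nat_lit 0) (XT.lf (nat_lit 0) (nat_lit 1509242331265) (nat_lit 152) (nat_lit 7337946774352) (nat_lit 0) (nat_lit 1509211117402) (nat_lit 1) (nat_lit 5) (nat_lit 3) (nat_lit 4) (nat_lit 1) (nat_lit 4) (nat_lit 410) (nat_lit 307) (nat_lit 303)) (XT.lf (nat_lit 0) (nat_lit 1736907235427) (nat_lit 152) (nat_lit 8435979265215) (nat_lit 0) (nat_lit 1736870585864) (nat_lit 1) (nat_lit 5) (nat_lit 3) (nat_lit 4) (nat_lit 1) (nat_lit 4) (nat_lit 411) (nat_lit 307) (nat_lit 302))) (XT.nd (nat_lit 78) (nat_lit 0) (nat_lit 0) (XT.lf (nat_lit 0) (nat_lit 1998634976359) (nat_lit 152) (nat_lit 9698895855706) (nat_lit 0) (nat_lit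 1998593600100) (nat_lit 1) (nat_lit 5) (nat_lit 3) (nat_lit 4) (nat_lit 1) (nat_lit 4) (nat_lit 412) (nat_lit 307) (nat_lit 301)) (XT.nd (nat_lit 78) (nat_lit 0) (nat_lit 0) (XT.lf (nat_lit 0) (nat_lit 2299546314208) (nat_lit 152) (nat_lit 11151405783464) (nat_lit 0) (nat_lit 2299500827779) (nat_lit 1) (nat_lit 5) (nat_lit 3) (nat_lit 4) (nat_lit 1) (nat_lit 4) (nat_lit 413) (nat_lit 307) (nat_lit 300)) (XT.lf (nat_lit 0) (nat_lit 2645528644716) (nat_lit 152) (nat_lit 12821927720990) (nat_lit 0) (nat_lit 2645479584225) (nat_lit 1) (nat_lit 5) (nat_lit 3) (nat_lit 4) (nat_lit 1) (nat_lit 4) (nat_lit 414) (nat_lit 307) (nat_lit 299))))))) (XT.nd (nat_lit 52494) (nat_lit 0) (nat_lit 0) (XT.nd (nat_lit 312) (nat_lit 0) (nat_lit 0) (XT.nd (nat_lit 156) (nat_lit 0) (nat_lit 0) (XT.nd (nat_lit 78) (nat_lit 0) (nat_lit 0) (XT.lf (nat_lit 0) (nat_lit 3043351187391) (nat_lit 152) (nat_lit 14743145793148)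 (nat_lit 0) (nat_lit 3043299019022) (nat_lit 1) (nat_lit 5) (nat_lit 3) (nat_lit 4) (nat_lit 1) (nat_lit 4) (nat_lit 415) (nat_lit 307) (nat_lit 298)) (XT.lf (nat_lit 0) (nat_lit 3500797426765) (nat_lit 152) (nat_lit 16952649049176) (nat_lit 0) (nat_lit 3500742555892) (nat_lit 1) (nat_lit 5) (nat_lit 3) (nat_lit 4) (nat_lit 1) (nat_lit 4) (nat_lit 416) (nat_lit 307) (nat_lit 297))) (XT.nd (nat_lit 78) (nat_lit 0) (nat_lit 0) (XT.lf (nat_lit 0) (nat_lit 4026817397956) (nat_lit 152) (nat_lit 19493666900605) (nat_lit 0) (nat_lit 4026760177080) (nat_lit 1) (nat_lit 5) (nat_lit 3) (nat_lit 4) (nat_lit 1) (nat_lit 4) (nat_lit 417) (nat_lit 307) (nat_lit 296)) (XT.lf (nat_lit 0) (nat_lit 4631702796053) (nat_lit 152) (nat_lit 22415914914094) (nat_lit 0) (nat_lit 4631643531695) (nat_lit 1) (nat_lit 5) (nat_lit 3) (nat_lit 4) (nat_lit 1) (nat_lit 4) (nat_lit 418) (nat_lit 307) (nat_lit 295)))) (XT.nd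 (nat_lit 52026) (nat_lit 0) (nat_lit 0) (XT.nd (nat_lit 51948) (nat_lit 0) (nat_lit 0) (XT.lf (nat_lit 0) (nat_lit 5327288335365) (nat_lit 152) (nat_lit 25776567507297) (nat_lit 0) (nat_lit 5327227294067) (nat_lit 1) (nat_lit 5) (nat_lit 3) (nat_lit 4) (nat_lit 1) (nat_lit 4) (nat_lit 419) (nat_lit 307) (nat_lit 294)) (XT.lf (nat_lit 0) (nat_lit 322903075381) (nat_lit 152) (nat_lit 1593142013894) (nat_lit 0) (nat_lit 322903075381) (nat_lit 1) (nat_lit 5) (nat_lit 3) (nat_lit 4) (nat_lit 1) (nat_lit 4) (nat_lit 404) (nat_lit 308) (nat_lit 308))) (XT.nd (nat_lit 78) (nat_lit 0) (nat_lit 0) (XT.lf (nat_lit 0) (nat_lit 744721268333) (nat_lit 152) (nat_lit 3659984616259) (nat_lit 0) (nat_lit 744710335198) (nat_lit 1) (nat_lit 5) (nat_lit 3) (nat_lit 4) (nat_lit 1) (nat_lit 4) (nat_lit 405) (nat_lit 308) (nat_lit 307)) (XT.lf (nat_lit 0) (nat_lit 858298868901) (nat_lit 152) (nat_lit 4205100780499)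 (nat_lit 0) (nat_lit 858278428693) (nat_lit 1) (nat_lit 5) (nat_lit 3) (nat_lit 4) (nat_lit 1) (nat_lit 4) (nat_lit 406) (nat_lit 308) (nat_lit 306))))) (XT.nd (nat_lit 312) (nat_lit 0) (nat_lit 0) (XT.nd (nat_lit 156) (nat_lit 0) (nat_lit 0) (XT.nd (nat_lit 78) (nat_lit 0) (nat_lit 0) (XT.lf (nat_lit 0) (nat_lit 988761122914) (nat_lit 152) (nat_lit 4832297836768) (nat_lit 0) (nat_lit 988732415685) (nat_lit 1) (nat_lit 5) (nat_lit 3) (nat_lit 4) (nat_lit 1) (nat_lit 4) (nat_lit 407) (nat_lit 308) (nat_lit 305)) (XT.lf (nat_lit 0) (nat_lit 1138660552731) (nat_lit 152) (nat_lit 5553847031816) (nat_lit 0) (nat_lit 1138624656789) (nat_lit 1) (nat_lit 5) (nat_lit 3) (nat_lit 4) (nat_lit 1) (nat_lit 4) (nat_lit 408) (nat_lit 308) (nat_lit 304))) (XT.nd (nat_lit 78) (nat_lit 0) (nat_lit 0) (XT.lf (nat_lit 0) (nat_lit 1310929973285) (nat_lit 152) (nat_lit 6383865632505) (nat_lit 0) (nat_lit 1310887826288)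 (nat_lit 1) (nat_lit 5) (nat_lit 3) (nat_lit 4) (nat_lit 1) (nat_lit 4) (nat_lit 409) (nat_lit 308) (nat_lit 303)) (XT.lf (nat_lit 0) (nat_lit 1508939873238) (nat_lit 152) (nat_lit 7338593133196) (nat_lit 0) (nat_lit 1508892290540) (nat_lit 1) (nat_lit 5) (nat_lit 3) (nat_lit 4) (nat_lit 1) (nat_lit 4) (nat_lit 410) (nat_lit 308) (nat_lit 302)))) (XT.nd (nat_lit 156) (nat_lit 0) (nat_lit 0) (XT.nd (nat_lit 78) (nat_lit 0) (nat_lit 0) (XT.lf (nat_lit 0) (nat_lit 1736564359329) (nat_lit 152) (nat_lit 8436708984988) (nat_lit 0) (nat_lit 1736512049935) (nat_lit 1) (nat_lit 5) (nat_lit 3) (nat_lit 4) (nat_lit 1) (nat_lit 4) (nat_lit 411) (nat_lit 308) (nat_lit 301)) (XT.lf (nat_lit 0) (nat_lit 1998256954111) (nat_lit 152) (nat_lit 9699698063243) (nat_lit 0) (nat_lit 1998200534547) (nat_lit 1) (nat_lit 5) (nat_lit 3) (nat_lit 4) (nat_lit 1) (nat_lit 4) (nat_lit 412) (nat_lit 308) (nat_lit 300)))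 (XT.nd (nat_lit 78) (nat_lit 0) (nat_lit 0) (XT.lf (nat_lit 0) (nat_lit 2299137730091) (nat_lit 152) (nat_lit 11152271023841) (nat_lit 0) (nat_lit 2299077736465) (nat_lit 1) (nat_lit 5) (nat_lit 3) (nat_lit 4) (nat_lit 1) (nat_lit 4) (nat_lit 413) (nat_lit 308) (nat_lit 299)) (XT.nd (nat_lit 78) (nat_lit 0) (nat_lit 0) (XT.lf (nat_lit 0) (nat_lit 2645093485059) (nat_lit 152) (nat_lit 12822847772531) (nat_lit 0) (nat_lit 2645030383555) (nat_lit 1) (nat_lit 5) (nat_lit 3) (nat_lit 4) (nat_lit 1) (nat_lit 4) (nat_lit 414) (nat_lit 308) (nat_lit 298)) (XT.lf (nat_lit 0) (nat_lit 3042892918571) (nat_lit 152) (nat_lit 14744113506571) (nat_lit 0) (nat_lit 3042827114563) (nat_lit 1) (nat_lit 5) (nat_lit 3) (nat_lit 4) (nat_lit 1) (nat_lit 4) (nat_lit 415) (nat_lit 308) (nat_lit 297))))))))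
noncomputable def xc2 : XT := (XT.nd (nat_lit 53040) (nat_lit 0) (nat_lit 0) (XT.nd (nat_lit 52338) (nat_lit 0) (nat_lit 0) (XT.nd (nat_lit 52026) (nat_lit 0) (nat_lit 0) (XT.nd (nat_lit 156) (nat_lit 0) (nat_lit 0) (XT.nd (nat_lit 78) (nat_lit 0) (nat_lit 0) (XT.lf (nat_lit 0) (nat_lit 3500319063020) (nat_lit 152) (nat_lit 16953658207714) (nat_lit 0) (nat_lit 3500250909008) (nat_lit 1) (nat_lit 5) (nat_lit 3) (nat_lit 4) (nat_lit 1) (nat_lit 4) (nat_lit 416) (nat_lit 308) (nat_lit 296)) (XT.lf (nat_lit 0) (nat_lit 4026321560363) (nat_lit 152) (nat_lit 19494712098373) (nat_lit 0) (nat_lit 4026251362870) (nat_lit 1) (nat_lit 5) (nat_lit 3) (nat_lit 4) (nat_lit 1) (nat_lit 4) (nat_lit 417) (nat_lit 308) (nat_lit 295))) (XT.nd (nat_lit 78) (nat_lit 0) (nat_lit 0) (XT.lf (nat_lit 0) (nat_lit 4631191763808) (nat_lit 152) (nat_lit 22416991450322) (nat_lit 0) (nat_lit 4631119789376) (nat_lit 1)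 (nat_lit 5) (nat_lit 3) (nat_lit 4) (nat_lit 1) (nat_lit 4) (nat_lit 418) (nat_lit 308) (nat_lit 294)) (XT.lf (nat_lit 0) (nat_lit 5326764090381) (nat_lit 152) (nat_lit 25777671294361) (nat_lit 0) (nat_lit 5326690570783) (nat_lit 1) (nat_lit 5) (nat_lit 3) (nat_lit 4) (nat_lit 1) (nat_lit 4) (nat_lit 419) (nat_lit 308) (nat_lit 293)))) (XT.nd (nat_lit 156) (nat_lit 0) (nat_lit 0) (XT.nd (nat_lit 78) (nat_lit 0) (nat_lit 0) (XT.lf (nat_lit 0) (nat_lit 242295638833) (nat_lit 152) (nat_lit 1208525773108) (nat_lit 0) (nat_lit 242295638833) (nat_lit 1) (nat_lit 5) (nat_lit 3) (nat_lit 4) (nat_lit 1) (nat_lit 4) (nat_lit 402) (nat_lit 309) (nat_lit 309)) (XT.lf (nat_lit 0) (nat_lit 559630793516) (nat_lit 152) (nat_lit 2774730960097) (nat_lit 0) (nat_lit 559618220411) (nat_lit 1) (nat_lit 5) (nat_lit 3) (nat_lit 4) (nat_lit 1) (nat_lit 4) (nat_lit 403) (nat_lit 309) (nat_lit 308))) (XT.nd (nat_lit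 78) (nat_lit 0) (nat_lit 0) (XT.lf (nat_lit 0) (nat_lit 645725234410) (nat_lit 152) (nat_lit 3186476846684) (nat_lit 0) (nat_lit 645701728170) (nat_lit 1) (nat_lit 5) (nat_lit 3) (nat_lit 4) (nat_lit 1) (nat_lit 4) (nat_lit 404) (nat_lit 309) (nat_lit 307)) (XT.lf (nat_lit 0) (nat_lit 744559056800) (nat_lit 152) (nat_lit 3660345103759) (nat_lit 0) (nat_lit 744526043487) (nat_lit 1) (nat_lit 5) (nat_lit 3) (nat_lit 4) (nat_lit 1) (nat_lit 4) (nat_lit 405) (nat_lit 309) (nat_lit 306))))) (XT.nd (nat_lit 312) (nat_lit 0) (nat_lit 0) (XT.nd (nat_lit 156) (nat_lit 0) (nat_lit 0) (XT.nd (nat_lit 78) (nat_lit 0) (nat_lit 0) (XT.lf (nat_lit 0) (nat_lit 858065965907) (nat_lit 152) (nat_lit 4205607066786) (nat_lit 0) (nat_lit 858024685574) (nat_lit 1) (nat_lit 5) (nat_lit 3) (nat_lit 4) (nat_lit 1) (nat_lit 4) (nat_lit 406) (nat_lit 309) (nat_lit 305)) (XT.lf (nat_lit 0) (nat_lit 988466749084) (nat_lit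 152) (nat_lit 4832930904608) (nat_lit 0) (nat_lit 988418280037) (nat_lit 1) (nat_lit 5) (nat_lit 3) (nat_lit 4) (nat_lit 1) (nat_lit 4) (nat_lit 407) (nat_lit 309) (nat_lit 304))) (XT.nd (nat_lit 78) (nat_lit 0) (nat_lit 0) (XT.lf (nat_lit 0) (nat_lit 1138312726001) (nat_lit 152) (nat_lit 5554590344486) (nat_lit 0) (nat_lit 1138258005899) (nat_lit 1) (nat_lit 5) (nat_lit 3) (nat_lit 4) (nat_lit 1) (nat_lit 4) (nat_lit 408) (nat_lit 309) (nat_lit 303)) (XT.lf (nat_lit 0) (nat_lit 1310535665772) (nat_lit 152) (nat_lit 6384704810244) (nat_lit 0) (nat_lit 1310475509969) (nat_lit 1) (nat_lit 5) (nat_lit 3) (nat_lit 4) (nat_lit 1) (nat_lit 4) (nat_lit 409) (nat_lit 309) (nat_lit 302)))) (XT.nd (nat_lit 156) (nat_lit 0) (nat_lit 0) (XT.nd (nat_lit 78) (nat_lit 0) (nat_lit 0) (XT.lf (nat_lit 0) (nat_lit 1508505147653) (nat_lit 152) (nat_lit 7339515671864) (nat_lit 0) (nat_lit 1508440265154) (nat_lit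 1) (nat_lit 5) (nat_lit 3) (nat_lit 4) (nat_lit 1) (nat_lit 4) (nat_lit 410) (nat_lit 309) (nat_lit 301)) (XT.lf (nat_lit 0) (nat_lit 1736094487593) (nat_lit 152) (nat_lit 8437704011421) (nat_lit 0) (nat_lit 1736025494924) (nat_lit 1) (nat_lit 5) (nat_lit 3) (nat_lit 4) (nat_lit 1) (nat_lit 4) (nat_lit 411) (nat_lit 309) (nat_lit 300))) (XT.nd (nat_lit 78) (nat_lit 0) (nat_lit 0) (XT.lf (nat_lit 0) (nat_lit 1997756520506) (nat_lit 152) (nat_lit 9700756122515) (nat_lit 0) (nat_lit 1997683953776) (nat_lit 1) (nat_lit 5) (nat_lit 3) (nat_lit 4) (nat_lit 1) (nat_lit 4) (nat_lit 412) (nat_lit 309) (nat_lit 299)) (XT.nd (nat_lit 78) (nat_lit 0) (nat_lit 0) (XT.lf (nat_lit 0) (nat_lit 2298610720947) (nat_lit 152) (nat_lit 11153383894277) (nat_lit 0) (nat_lit 2298535046338) (nat_lit 1) (nat_lit 5) (nat_lit 3) (nat_lit 4) (nat_lit 1) (nat_lit 4) (nat_lit 413) (nat_lit 309) (nat_lit 298)) (XT.lf (nat_lit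 0) (nat_lit 2644543366752) (nat_lit 152) (nat_lit 12824008304849) (nat_lit 0) (nat_lit 2644464989639) (nat_lit 1) (nat_lit 5) (nat_lit 3) (nat_lit 4) (nat_lit 1) (nat_lit 4) (nat_lit 414) (nat_lit 309) (nat_lit 297))))))) (XT.nd (nat_lit 52182) (nat_lit 0) (nat_lit 0) (XT.nd (nat_lit 312) (nat_lit 0) (nat_lit 0) (XT.nd (nat_lit 156) (nat_lit 0) (nat_lit 0) (XT.nd (nat_lit 78) (nat_lit 0) (nat_lit 0) (XT.lf (nat_lit 0) (nat_lit 3042322705338) (nat_lit 152) (nat_lit 14745315484004) (nat_lit 0) (nat_lit 3042241978222) (nat_lit 1) (nat_lit 5) (nat_lit 3) (nat_lit 4) (nat_lit 1) (nat_lit 4) (nat_lit 415) (nat_lit 309) (nat_lit 296)) (XT.lf (nat_lit 0) (nat_lit 3499731375939) (nat_lit 152) (nat_lit 16954896224377) (nat_lit 0) (nat_lit 3499648605341) (nat_lit 1) (nat_lit 5) (nat_lit 3) (nat_lit 4) (nat_lit 1) (nat_lit 4) (nat_lit 416) (nat_lit 309) (nat_lit 295))) (XT.nd (nat_lit 78) (nat_lit 0)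 (nat_lit 0) (XT.lf (nat_lit 0) (nat_lit 4025718678631) (nat_lit 152) (nat_lit 19495981453497) (nat_lit 0) (nat_lit 4025634131094) (nat_lit 1) (nat_lit 5) (nat_lit 3) (nat_lit 4) (nat_lit 1) (nat_lit 4) (nat_lit 417) (nat_lit 309) (nat_lit 294)) (XT.lf (nat_lit 0) (nat_lit 4630575669337) (nat_lit 152) (nat_lit 22418288056282) (nat_lit 0) (nat_lit 4630489576635) (nat_lit 1) (nat_lit 5) (nat_lit 3) (nat_lit 4) (nat_lit 1) (nat_lit 4) (nat_lit 418) (nat_lit 309) (nat_lit 293)))) (XT.nd (nat_lit 51714) (nat_lit 0) (nat_lit 0) (XT.nd (nat_lit 51636) (nat_lit 0) (nat_lit 0) (XT.lf (nat_lit 0) (nat_lit 5326136506571) (nat_lit 152) (nat_lit 25778991596700) (nat_lit 0) (nat_lit 5326049070247) (nat_lit 1) (nat_lit 5) (nat_lit 3) (nat_lit 4) (nat_lit 1) (nat_lit 4) (nat_lit 419) (nat_lit 309) (nat_lit 292)) (XT.lf (nat_lit 0) (nat_lit 181065014635) (nat_lit 152) (nat_lit 918282867529) (nat_lit 0) (nat_lit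 181065014635) (nat_lit 1) (nat_lit 5) (nat_lit 3) (nat_lit 4) (nat_lit 1) (nat_lit 4) (nat_lit 400) (nat_lit 310) (nat_lit 310))) (XT.nd (nat_lit 78) (nat_lit 0) (nat_lit 0) (XT.lf (nat_lit 0) (nat_lit 419152981490) (nat_lit 152) (nat_lit 2106440529556) (nat_lit 0) (nat_lit 419138522420) (nat_lit 1) (nat_lit 5) (nat_lit 3) (nat_lit 4) (nat_lit 1) (nat_lit 4) (nat_lit 401) (nat_lit 310) (nat_lit 309)) (XT.lf (nat_lit 0) (nat_lit 484498223861) (nat_lit 152) (nat_lit 2417273287947) (nat_lit 0) (nat_lit 484471191685) (nat_lit 1) (nat_lit 5) (nat_lit 3) (nat_lit 4) (nat_lit 1) (nat_lit 4) (nat_lit 402) (nat_lit 310) (nat_lit 308))))) (XT.nd (nat_lit 312) (nat_lit 0) (nat_lit 0) (XT.nd (nat_lit 156) (nat_lit 0) (nat_lit 0) (XT.nd (nat_lit 78) (nat_lit 0) (nat_lit 0) (XT.lf (nat_lit 0) (nat_lit 559444250253) (nat_lit 152) (nat_lit 2775145520722) (nat_lit 0) (nat_lit 559406284943) (nat_lit 1) (nat_lit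 5) (nat_lit 3) (nat_lit 4) (nat_lit 1) (nat_lit 4) (nat_lit 403) (nat_lit 310) (nat_lit 307)) (XT.lf (nat_lit 0) (nat_lit 645457395967) (nat_lit 152) (nat_lit 3187059075914) (nat_lit 0) (nat_lit 645409923583) (nat_lit 1) (nat_lit 5) (nat_lit 3) (nat_lit 4) (nat_lit 1) (nat_lit 4) (nat_lit 404) (nat_lit 310) (nat_lit 306))) (XT.nd (nat_lit 78) (nat_lit 0) (nat_lit 0) (XT.lf (nat_lit 0) (nat_lit 744220526896) (nat_lit 152) (nat_lit 3661073131775) (nat_lit 0) (nat_lit 744164787491) (nat_lit 1) (nat_lit 5) (nat_lit 3) (nat_lit 4) (nat_lit 1) (nat_lit 4) (nat_lit 405) (nat_lit 310) (nat_lit 305)) (XT.lf (nat_lit 0) (nat_lit 857665965168) (nat_lit 152) (nat_lit 4206461876356) (nat_lit 0) (nat_lit 857603037050) (nat_lit 1) (nat_lit 5) (nat_lit 3) (nat_lit 4) (nat_lit 1) (nat_lit 4) (nat_lit 406) (nat_lit 310) (nat_lit 304)))) (XT.nd (nat_lit 156) (nat_lit 0) (nat_lit 0) (XT.nd (nat_lit 78) (nat_lit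 0) (nat_lit 0) (XT.lf (nat_lit 0) (nat_lit 988013295444) (nat_lit 152) (nat_lit 4833895959007) (nat_lit 0) (nat_lit 987944116271) (nat_lit 1) (nat_lit 5) (nat_lit 3) (nat_lit 4) (nat_lit 1) (nat_lit 4) (nat_lit 407) (nat_lit 310) (nat_lit 303)) (XT.lf (nat_lit 0) (nat_lit 1137812791578) (nat_lit 152) (nat_lit 5555651263954) (nat_lit 0) (nat_lit 1137738176704) (nat_lit 1) (nat_lit 5) (nat_lit 3) (nat_lit 4) (nat_lit 1) (nat_lit 4) (nat_lit 408) (nat_lit 310) (nat_lit 302))) (XT.nd (nat_lit 78) (nat_lit 0) (nat_lit 0) (XT.lf (nat_lit 0) (nat_lit 1309995313276) (nat_lit 152) (nat_lit 6385849090641) (nat_lit 0) (nat_lit 1309915971707) (nat_lit 1) (nat_lit 5) (nat_lit 3) (nat_lit 4) (nat_lit 1) (nat_lit 4) (nat_lit 409) (nat_lit 310) (nat_lit 301)) (XT.nd (nat_lit 78) (nat_lit 0) (nat_lit 0) (XT.lf (nat_lit 0) (nat_lit 1507929649007) (nat_lit 152) (nat_lit 7340732440026) (nat_lit 0) (nat_lit 1507846197267)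 (nat_lit 1) (nat_lit 5) (nat_lit 3) (nat_lit 4) (nat_lit 1) (nat_lit 4) (nat_lit 410) (nat_lit 310) (nat_lit 300)) (XT.lf (nat_lit 0) (nat_lit 1735488427078) (nat_lit 152) (nat_lit 8438983812422) (nat_lit 0) (nat_lit 1735401401277) (nat_lit 1) (nat_lit 5) (nat_lit 3) (nat_lit 4) (nat_lit 1) (nat_lit 4) (nat_lit 411) (nat_lit 310) (nat_lit 299))))))))
noncomputable def xc3 : XT := (XT.nd (nat_lit 52728) (nat_lit 0) (nat_lit 0) (XT.nd (nat_lit 52026) (nat_lit 0) (nat_lit 0) (XT.nd (nat_lit 312) (nat_lit 0) (nat_lit 0) (XT.nd (nat_lit 156) (nat_lit 0) (nat_lit 0) (XT.nd (nat_lit 78) (nat_lit 0) (nat_lit 0) (XT.lf (nat_lit 0) (nat_lit 1997123884452) (nat_lit 152) (nat_lit 9702090734681) (nat_lit 0) (nat_lit 1997033750772) (nat_lit 1) (nat_lit 5) (nat_lit 3) (nat_lit 4) (nat_lit 1) (nat_lit 4) (nat_lit 412) (nat_lit 310) (nat_lit 298)) (XT.lf (nat_lit 0) (nat_lit 2297954975729) (nat_lit 152) (nat_lit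 11154766168324) (nat_lit 0) (nat_lit 2297862139545) (nat_lit 1) (nat_lit 5) (nat_lit 3) (nat_lit 4) (nat_lit 1) (nat_lit 4) (nat_lit 413) (nat_lit 310) (nat_lit 297))) (XT.nd (nat_lit 78) (nat_lit 0) (nat_lit 0) (XT.lf (nat_lit 0) (nat_lit 2643867526608) (nat_lit 152) (nat_lit 12825432024011) (nat_lit 0) (nat_lit 2643772340422) (nat_lit 1) (nat_lit 5) (nat_lit 3) (nat_lit 4) (nat_lit 1) (nat_lit 4) (nat_lit 414) (nat_lit 310) (nat_lit 296)) (XT.lf (nat_lit 0) (nat_lit 3041629391347) (nat_lit 152) (nat_lit 14746775242396) (nat_lit 0) (nat_lit 3041532161679) (nat_lit 1) (nat_lit 5) (nat_lit 3) (nat_lit 4) (nat_lit 1) (nat_lit 4) (nat_lit 415) (nat_lit 310) (nat_lit 295)))) (XT.nd (nat_lit 156) (nat_lit 0) (nat_lit 0) (XT.nd (nat_lit 78) (nat_lit 0) (nat_lit 0) (XT.lf (nat_lit 0) (nat_lit 3499022867297) (nat_lit 152) (nat_lit 16956387321230) (nat_lit 0) (nat_lit 3498923860689) (nat_lit 1) (nat_lit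 5) (nat_lit 3) (nat_lit 4) (nat_lit 1) (nat_lit 4) (nat_lit 416) (nat_lit 310) (nat_lit 294)) (XT.lf (nat_lit 0) (nat_lit 4024996957250) (nat_lit 152) (nat_lit 19497499801186) (nat_lit 0) (nat_lit 4024896405477) (nat_lit 1) (nat_lit 5) (nat_lit 3) (nat_lit 4) (nat_lit 1) (nat_lit 4) (nat_lit 417) (nat_lit 310) (nat_lit 293))) (XT.nd (nat_lit 78) (nat_lit 0) (nat_lit 0) (XT.lf (nat_lit 0) (nat_lit 4629842458617) (nat_lit 152) (nat_lit 22419830100351) (nat_lit 0) (nat_lit 4629740563222) (nat_lit 1) (nat_lit 5) (nat_lit 3) (nat_lit 4) (nat_lit 1) (nat_lit 4) (nat_lit 418) (nat_lit 310) (nat_lit 292)) (XT.lf (nat_lit 0) (nat_lit 5325393305122) (nat_lit 152) (nat_lit 25780554246315) (nat_lit 0) (nat_lit 5325290241360) (nat_lit 1) (nat_lit 5) (nat_lit 3) (nat_lit 4) (nat_lit 1) (nat_lit 4) (nat_lit 419) (nat_lit 310) (nat_lit 291))))) (XT.nd (nat_lit 312) (nat_lit 0) (nat_lit 0) (XT.nd (nat_lit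 156) (nat_lit 0) (nat_lit 0) (XT.nd (nat_lit 78) (nat_lit 0) (nat_lit 0) (XT.lf (nat_lit 0) (nat_lit 134444071161) (nat_lit 152) (nat_lit 699487096111) (nat_lit 0) (nat_lit 134444071161) (nat_lit 1) (nat_lit 5) (nat_lit 3) (nat_lit 4) (nat_lit 1) (nat_lit 4) (nat_lit 398) (nat_lit 311) (nat_lit 311)) (XT.lf (nat_lit 0) (nat_lit 312330328674) (nat_lit 152) (nat_lit 1602368745431) (nat_lit 0) (nat_lit 312313700743) (nat_lit 1) (nat_lit 5) (nat_lit 3) (nat_lit 4) (nat_lit 1) (nat_lit 4) (nat_lit 399) (nat_lit 311) (nat_lit 310))) (XT.nd (nat_lit 78) (nat_lit 0) (nat_lit 0) (XT.lf (nat_lit 0) (nat_lit 362023017394) (nat_lit 152) (nat_lit 1836820738047) (nat_lit 0) (nat_lit 361991930392) (nat_lit 1) (nat_lit 5) (nat_lit 3) (nat_lit 4) (nat_lit 1) (nat_lit 4) (nat_lit 400) (nat_lit 311) (nat_lit 309)) (XT.lf (nat_lit 0) (nat_lit 418938456738) (nat_lit 152) (nat_lit 2106917274274) (nat_lit 0) (nat_lit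 418894796632) (nat_lit 1) (nat_lit 5) (nat_lit 3) (nat_lit 4) (nat_lit 1) (nat_lit 4) (nat_lit 401) (nat_lit 311) (nat_lit 308)))) (XT.nd (nat_lit 156) (nat_lit 0) (nat_lit 0) (XT.nd (nat_lit 78) (nat_lit 0) (nat_lit 0) (XT.lf (nat_lit 0) (nat_lit 484190209651) (nat_lit 152) (nat_lit 2417942851561) (nat_lit 0) (nat_lit 484135616410) (nat_lit 1) (nat_lit 5) (nat_lit 3) (nat_lit 4) (nat_lit 1) (nat_lit 4) (nat_lit 402) (nat_lit 311) (nat_lit 307)) (XT.lf (nat_lit 0) (nat_lit 559054940863) (nat_lit 152) (nat_lit 2775982752941) (nat_lit 0) (nat_lit 558990840548) (nat_lit 1) (nat_lit 5) (nat_lit 3) (nat_lit 4) (nat_lit 1) (nat_lit 4) (nat_lit 403) (nat_lit 311) (nat_lit 306))) (XT.nd (nat_lit 78) (nat_lit 0) (nat_lit 0) (XT.lf (nat_lit 0) (nat_lit 644997395116) (nat_lit 152) (nat_lit 3188042106919) (nat_lit 0) (nat_lit 644925027780) (nat_lit 1) (nat_lit 5) (nat_lit 3) (nat_lit 4) (nat_lit 1) (nat_lit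 4) (nat_lit 404) (nat_lit 311) (nat_lit 305)) (XT.nd (nat_lit 78) (nat_lit 0) (nat_lit 0) (XT.lf (nat_lit 0) (nat_lit 743699055209) (nat_lit 152) (nat_lit 3662182944334) (nat_lit 0) (nat_lit 743619499160) (nat_lit 1) (nat_lit 5) (nat_lit 3) (nat_lit 4) (nat_lit 1) (nat_lit 4) (nat_lit 405) (nat_lit 311) (nat_lit 304)) (XT.lf (nat_lit 0) (nat_lit 857091040581) (nat_lit 152) (nat_lit 4207681933745) (nat_lit 0) (nat_lit 857005233476) (nat_lit 1) (nat_lit 5) (nat_lit 3) (nat_lit 4) (nat_lit 1) (nat_lit 4) (nat_lit 406) (nat_lit 311) (nat_lit 303))))))) (XT.nd (nat_lit 702) (nat_lit 0) (nat_lit 0) (XT.nd (nat_lit 312) (nat_lit 0) (nat_lit 0) (XT.nd (nat_lit 156) (nat_lit 0) (nat_lit 0) (XT.nd (nat_lit 78) (nat_lit 0) (nat_lit 0) (XT.lf (nat_lit 0) (nat_lit 987391890074) (nat_lit 152) (nat_lit 4835211881464) (nat_lit 0) (nat_lit 987300647269) (nat_lit 1) (nat_lit 5) (nat_lit 3) (nat_lit 4) (nat_lit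 1) (nat_lit 4) (nat_lit 407) (nat_lit 311) (nat_lit 302)) (XT.lf (nat_lit 0) (nat_lit 1137150968135) (nat_lit 152) (nat_lit 5557050547341) (nat_lit 0) (nat_lit 1137054998634) (nat_lit 1) (nat_lit 5) (nat_lit 3) (nat_lit 4) (nat_lit 1) (nat_lit 4) (nat_lit 408) (nat_lit 311) (nat_lit 301))) (XT.nd (nat_lit 78) (nat_lit 0) (nat_lit 0) (XT.lf (nat_lit 0) (nat_lit 1309298343683) (nat_lit 152) (nat_lit 6387320861793) (nat_lit 0) (nat_lit 1309198264013) (nat_lit 1) (nat_lit 5) (nat_lit 3) (nat_lit 4) (nat_lit 1) (nat_lit 4) (nat_lit 409) (nat_lit 311) (nat_lit 300)) (XT.lf (nat_lit 0) (nat_lit 1507202117545) (nat_lit 152) (nat_lit 7342267244016) (nat_lit 0) (nat_lit 1507098463813) (nat_lit 1) (nat_lit 5) (nat_lit 3) (nat_lit 4) (nat_lit 1) (nat_lit 4) (nat_lit 410) (nat_lit 311) (nat_lit 299)))) (XT.nd (nat_lit 156) (nat_lit 0) (nat_lit 0) (XT.nd (nat_lit 78) (nat_lit 0) (nat_lit 0) (XT.lf (nat_lit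 0) (nat_lit 1734734320077) (nat_lit 152) (nat_lit 8440573427577) (nat_lit 0) (nat_lit 1734627558466) (nat_lit 1) (nat_lit 5) (nat_lit 3) (nat_lit 4) (nat_lit 1) (nat_lit 4) (nat_lit 411) (nat_lit 311) (nat_lit 298)) (XT.lf (nat_lit 0) (nat_lit 1996346668287) (nat_lit 152) (nat_lit 9703728011717) (nat_lit 0) (nat_lit 1996237204172) (nat_lit 1) (nat_lit 5) (nat_lit 3) (nat_lit 4) (nat_lit 1) (nat_lit 4) (nat_lit 412) (nat_lit 311) (nat_lit 297))) (XT.nd (nat_lit 78) (nat_lit 0) (nat_lit 0) (XT.lf (nat_lit 0) (nat_lit 2297157664639) (nat_lit 152) (nat_lit 11156444890476) (nat_lit 0) (nat_lit 2297045850521) (nat_lit 1) (nat_lit 5) (nat_lit 3) (nat_lit 4) (nat_lit 1) (nat_lit 4) (nat_lit 413) (nat_lit 311) (nat_lit 296)) (XT.nd (nat_lit 78) (nat_lit 0) (nat_lit 0) (XT.lf (nat_lit 0) (nat_lit 2643052741671) (nat_lit 152) (nat_lit 12827146785393) (nat_lit 0) (nat_lit 2642938884071) (nat_lit 1) (nat_lit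 5) (nat_lit 3) (nat_lit 4) (nat_lit 1) (nat_lit 4) (nat_lit 414) (nat_lit 311) (nat_lit 295)) (XT.lf (nat_lit 0) (nat_lit 3040799411758) (nat_lit 152) (nat_lit 14748521342239) (nat_lit 0) (nat_lit 3040683777219) (nat_lit 1) (nat_lit 5) (nat_lit 3) (nat_lit 4) (nat_lit 1) (nat_lit 4) (nat_lit 415) (nat_lit 311) (nat_lit 294)))))) (XT.nd (nat_lit 51558) (nat_lit 0) (nat_lit 0) (XT.nd (nat_lit 156) (nat_lit 0) (nat_lit 0) (XT.nd (nat_lit 78) (nat_lit 0) (nat_lit 0) (XT.lf (nat_lit 0) (nat_lit 3498179674969) (nat_lit 152) (nat_lit 16958160671909) (nat_lit 0) (nat_lit 3498062495265) (nat_lit 1) (nat_lit 5) (nat_lit 3) (nat_lit 4) (nat_lit 1) (nat_lit 4) (nat_lit 416) (nat_lit 311) (nat_lit 293)) (XT.lf (nat_lit 0) (nat_lit 4024142275583) (nat_lit 152) (nat_lit 19499296848244) (nat_lit 0) (nat_lit 4024023752257) (nat_lit 1) (nat_lit 5) (nat_lit 3) (nat_lit 4) (nat_lit 1) (nat_lit 4) (nat_lit 417)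 (nat_lit 311) (nat_lit 292))) (XT.nd (nat_lit 78) (nat_lit 0) (nat_lit 0) (XT.lf (nat_lit 0) (nat_lit 4628977786221) (nat_lit 152) (nat_lit 22421647752955) (nat_lit 0) (nat_lit 4628858094528) (nat_lit 1) (nat_lit 5) (nat_lit 3) (nat_lit 4) (nat_lit 1) (nat_lit 4) (nat_lit 418) (nat_lit 311) (nat_lit 291)) (XT.lf (nat_lit 0) (nat_lit 5324519945135) (nat_lit 152) (nat_lit 25782389816786) (nat_lit 0) (nat_lit 5324399237471) (nat_lit 1) (nat_lit 5) (nat_lit 3) (nat_lit 4) (nat_lit 1) (nat_lit 4) (nat_lit 419) (nat_lit 311) (nat_lit 290)))) (XT.nd (nat_lit 156) (nat_lit 0) (nat_lit 0) (XT.nd (nat_lit 78) (nat_lit 0) (nat_lit 0) (XT.lf (nat_lit 0) (nat_lit 98821876036) (nat_lit 152) (nat_lit 534816057278) (nat_lit 0) (nat_lit 98821876036) (nat_lit 1) (nat_lit 5) (nat_lit 3) (nat_lit 4) (nat_lit 1) (nat_lit 4) (nat_lit 396) (nat_lit 312) (nat_lit 312)) (XT.lf (nat_lit 0) (nat_lit 230865624637) (nat_lit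 152) (nat_lit 1222657619772) (nat_lit 0) (nat_lit 230846502517) (nat_lit 1) (nat_lit 5) (nat_lit 3) (nat_lit 4) (nat_lit 1) (nat_lit 4) (nat_lit 397) (nat_lit 312) (nat_lit 311))) (XT.nd (nat_lit 78) (nat_lit 0) (nat_lit 0) (XT.lf (nat_lit 0) (nat_lit 268765078664) (nat_lit 152) (nat_lit 1399267445660) (nat_lit 0) (nat_lit 268729328612) (nat_lit 1) (nat_lit 5) (nat_lit 3) (nat_lit 4) (nat_lit 1) (nat_lit 4) (nat_lit 398) (nat_lit 312) (nat_lit 310)) (XT.nd (nat_lit 78) (nat_lit 0) (nat_lit 0) (XT.lf (nat_lit 0) (nat_lit 312083625210) (nat_lit 152) (nat_lit 1602917001857) (nat_lit 0) (nat_lit 312033416087) (nat_lit 1) (nat_lit 5) (nat_lit 3) (nat_lit 4) (nat_lit 1) (nat_lit 4) (nat_lit 399) (nat_lit 312) (nat_lit 309)) (XT.lf (nat_lit 0) (nat_lit 361668801053) (nat_lit 152) (nat_lit 1837590736203) (nat_lit 0) (nat_lit 361606018826) (nat_lit 1) (nat_lit 5) (nat_lit 3) (nat_lit 4) (nat_lit 1)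 (nat_lit 4) (nat_lit 400) (nat_lit 312) (nat_lit 308))))))))
noncomputable def xc4 : XT := (XT.nd (nat_lit 1326) (nat_lit 0) (nat_lit 0) (XT.nd (nat_lit 624) (nat_lit 0) (nat_lit 0) (XT.nd (nat_lit 312) (nat_lit 0) (nat_lit 0) (XT.nd (nat_lit 156) (nat_lit 0) (nat_lit 0) (XT.nd (nat_lit 78) (nat_lit 0) (nat_lit 0) (XT.lf (nat_lit 0) (nat_lit 418490750940) (nat_lit 152) (nat_lit 2107880091326) (nat_lit 0) (nat_lit 418417035578) (nat_lit 1) (nat_lit 5) (nat_lit 3) (nat_lit 4) (nat_lit 1) (nat_lit 4) (nat_lit 401) (nat_lit 312) (nat_lit 307)) (XT.lf (nat_lit 0) (nat_lit 483661208673) (nat_lit 152) (nat_lit 2419073337218) (nat_lit 0) (nat_lit 483577986237) (nat_lit 1) (nat_lit 5) (nat_lit 3) (nat_lit 4) (nat_lit 1) (nat_lit 4) (nat_lit 402) (nat_lit 312) (nat_lit 306))) (XT.nd (nat_lit 78) (nat_lit 0) (nat_lit 0) (XT.lf (nat_lit 0) (nat_lit 558455248424) (nat_lit 152) (nat_lit 2777259037384)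 (nat_lit 0) (nat_lit 558363758967) (nat_lit 1) (nat_lit 5) (nat_lit 3) (nat_lit 4) (nat_lit 1) (nat_lit 4) (nat_lit 403) (nat_lit 312) (nat_lit 305)) (XT.lf (nat_lit 0) (nat_lit 644336231841) (nat_lit 152) (nat_lit 3189445172916) (nat_lit 0) (nat_lit 644237553671) (nat_lit 1) (nat_lit 5) (nat_lit 3) (nat_lit 4) (nat_lit 1) (nat_lit 4) (nat_lit 404) (nat_lit 312) (nat_lit 304)))) (XT.nd (nat_lit 156) (nat_lit 0) (nat_lit 0) (XT.nd (nat_lit 78) (nat_lit 0) (nat_lit 0) (XT.lf (nat_lit 0) (nat_lit 742984439034) (nat_lit 152) (nat_lit 3663696255160) (nat_lit 0) (nat_lit 742879509808) (nat_lit 1) (nat_lit 5) (nat_lit 3) (nat_lit 4) (nat_lit 1) (nat_lit 4) (nat_lit 405) (nat_lit 312) (nat_lit 303)) (XT.lf (nat_lit 0) (nat_lit 856329943622) (nat_lit 152) (nat_lit 4209291109639) (nat_lit 0) (nat_lit 856219578696) (nat_lit 1) (nat_lit 5) (nat_lit 3) (nat_lit 4) (nat_lit 1) (nat_lit 4) (nat_lit 406)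 (nat_lit 312) (nat_lit 302))) (XT.nd (nat_lit 78) (nat_lit 0) (nat_lit 0) (XT.lf (nat_lit 0) (nat_lit 986590375042) (nat_lit 152) (nat_lit 4836904418289) (nat_lit 0) (nat_lit 986475283421) (nat_lit 1) (nat_lit 5) (nat_lit 3) (nat_lit 4) (nat_lit 1) (nat_lit 4) (nat_lit 407) (nat_lit 312) (nat_lit 301)) (XT.lf (nat_lit 0) (nat_lit 1136314306954) (nat_lit 152) (nat_lit 5558815571930) (nat_lit 0) (nat_lit 1136195105162) (nat_lit 1) (nat_lit 5) (nat_lit 3) (nat_lit 4) (nat_lit 1) (nat_lit 4) (nat_lit 408) (nat_lit 312) (nat_lit 300))))) (XT.nd (nat_lit 312) (nat_lit 0) (nat_lit 0) (XT.nd (nat_lit 156) (nat_lit 0) (nat_lit 0) (XT.nd (nat_lit 78) (nat_lit 0) (nat_lit 0) (XT.lf (nat_lit 0) (nat_lit 1308431120633) (nat_lit 152) (nat_lit 6389148919221) (nat_lit 0) (nat_lit 1308308344780) (nat_lit 1) (nat_lit 5) (nat_lit 3) (nat_lit 4) (nat_lit 1) (nat_lit 4) (nat_lit 409) (nat_lit 312) (nat_lit 299))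 (XT.lf (nat_lit 0) (nat_lit 1506308318956) (nat_lit 152) (nat_lit 7344150112609) (nat_lit 0) (nat_lit 1506182435223) (nat_lit 1) (nat_lit 5) (nat_lit 3) (nat_lit 4) (nat_lit 1) (nat_lit 4) (nat_lit 410) (nat_lit 312) (nat_lit 298))) (XT.nd (nat_lit 78) (nat_lit 0) (nat_lit 0) (XT.lf (nat_lit 0) (nat_lit 1733817412324) (nat_lit 152) (nat_lit 8442503958051) (nat_lit 0) (nat_lit 1733688826088) (nat_lit 1) (nat_lit 5) (nat_lit 3) (nat_lit 4) (nat_lit 1) (nat_lit 4) (nat_lit 411) (nat_lit 312) (nat_lit 297)) (XT.lf (nat_lit 0) (nat_lit 1995409665609) (nat_lit 152) (nat_lit 9705699987306) (nat_lit 0) (nat_lit 1995278729370) (nat_lit 1) (nat_lit 5) (nat_lit 3) (nat_lit 4) (nat_lit 1) (nat_lit 4) (nat_lit 412) (nat_lit 312) (nat_lit 296)))) (XT.nd (nat_lit 156) (nat_lit 0) (nat_lit 0) (XT.nd (nat_lit 78) (nat_lit 0) (nat_lit 0) (XT.lf (nat_lit 0) (nat_lit 2296203188112) (nat_lit 152) (nat_lit 11158452905295)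 (nat_lit 0) (nat_lit 2296070208392) (nat_lit 1) (nat_lit 5) (nat_lit 3) (nat_lit 4) (nat_lit 1) (nat_lit 4) (nat_lit 413) (nat_lit 312) (nat_lit 295)) (XT.lf (nat_lit 0) (nat_lit 2642083070493) (nat_lit 152) (nat_lit 12829186138673) (nat_lit 0) (nat_lit 2641948313833) (nat_lit 1) (nat_lit 5) (nat_lit 3) (nat_lit 4) (nat_lit 1) (nat_lit 4) (nat_lit 414) (nat_lit 312) (nat_lit 294))) (XT.nd (nat_lit 78) (nat_lit 0) (nat_lit 0) (XT.lf (nat_lit 0) (nat_lit 3039816527842) (nat_lit 152) (nat_lit 14750587946355) (nat_lit 0) (nat_lit 3039680226016) (nat_lit 1) (nat_lit 5) (nat_lit 3) (nat_lit 4) (nat_lit 1) (nat_lit 4) (nat_lit 415) (nat_lit 312) (nat_lit 293)) (XT.nd (nat_lit 78) (nat_lit 0) (nat_lit 0) (XT.lf (nat_lit 0) (nat_lit 3497185301714) (nat_lit 152) (nat_lit 16960250972404) (nat_lit 0) (nat_lit 3497047656266) (nat_lit 1) (nat_lit 5) (nat_lit 3) (nat_lit 4) (nat_lit 1) (nat_lit 4) (nat_lit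 416) (nat_lit 312) (nat_lit 292)) (XT.lf (nat_lit 0) (nat_lit 4023137911598) (nat_lit 152) (nat_lit 19501407754286) (nat_lit 0) (nat_lit 4022999097784) (nat_lit 1) (nat_lit 5) (nat_lit 3) (nat_lit 4) (nat_lit 1) (nat_lit 4) (nat_lit 417) (nat_lit 312) (nat_lit 291))))))) (XT.nd (nat_lit 51714) (nat_lit 0) (nat_lit 0) (XT.nd (nat_lit 51402) (nat_lit 0) (nat_lit 0) (XT.nd (nat_lit 51246) (nat_lit 0) (nat_lit 0) (XT.nd (nat_lit 78) (nat_lit 0) (nat_lit 0) (XT.lf (nat_lit 0) (nat_lit 4627964734646) (nat_lit 152) (nat_lit 22423776576863) (nat_lit 0) (nat_lit 4627824904860) (nat_lit 1) (nat_lit 5) (nat_lit 3) (nat_lit 4) (nat_lit 1) (nat_lit 4) (nat_lit 418) (nat_lit 312) (nat_lit 290)) (XT.lf (nat_lit 0) (nat_lit 5323499339133) (nat_lit 152) (nat_lit 25784534221448) (nat_lit 0) (nat_lit 5323358625894) (nat_lit 1) (nat_lit 5) (nat_lit 3) (nat_lit 4) (nat_lit 1) (nat_lit 4) (nat_lit 419) (nat_lit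 312) (nat_lit 289))) (XT.nd (nat_lit 78) (nat_lit 0) (nat_lit 0) (XT.lf (nat_lit 0) (nat_lit 71460805230) (nat_lit 152) (nat_lit 411186591958) (nat_lit 0) (nat_lit 71460805230) (nat_lit 1) (nat_lit 5) (nat_lit 3) (nat_lit 4) (nat_lit 1) (nat_lit 4) (nat_lit 394) (nat_lit 313) (nat_lit 313)) (XT.lf (nat_lit 0) (nat_lit 168471458248) (nat_lit 152) (nat_lit 937196952739) (nat_lit 0) (nat_lit 168449467809) (nat_lit 1) (nat_lit 5) (nat_lit 3) (nat_lit 4) (nat_lit 1) (nat_lit 4) (nat_lit 395) (nat_lit 313) (nat_lit 312)))) (XT.nd (nat_lit 156) (nat_lit 0) (nat_lit 0) (XT.nd (nat_lit 78) (nat_lit 0) (nat_lit 0) (XT.lf (nat_lit 0) (nat_lit 197502228866) (nat_lit 152) (nat_lit 1069969356010) (nat_lit 0) (nat_lit 197461116306) (nat_lit 1) (nat_lit 5) (nat_lit 3) (nat_lit 4) (nat_lit 1) (nat_lit 4) (nat_lit 396) (nat_lit 313) (nat_lit 311)) (XT.lf (nat_lit 0) (nat_lit 230581915653) (nat_lit 152) (nat_lit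 1223288114662) (nat_lit 0) (nat_lit 230524175162) (nat_lit 1) (nat_lit 5) (nat_lit 3) (nat_lit 4) (nat_lit 1) (nat_lit 4) (nat_lit 397) (nat_lit 313) (nat_lit 310))) (XT.nd (nat_lit 78) (nat_lit 0) (nat_lit 0) (XT.lf (nat_lit 0) (nat_lit 268357729873) (nat_lit 152) (nat_lit 1400152943539) (nat_lit 0) (nat_lit 268285530311) (nat_lit 1) (nat_lit 5) (nat_lit 3) (nat_lit 4) (nat_lit 1) (nat_lit 4) (nat_lit 398) (nat_lit 313) (nat_lit 309)) (XT.lf (nat_lit 0) (nat_lit 311568763542) (nat_lit 152) (nat_lit 1604024241467) (nat_lit 0) (nat_lit 311483990875) (nat_lit 1) (nat_lit 5) (nat_lit 3) (nat_lit 4) (nat_lit 1) (nat_lit 4) (nat_lit 399) (nat_lit 313) (nat_lit 308))))) (XT.nd (nat_lit 312) (nat_lit 0) (nat_lit 0) (XT.nd (nat_lit 156) (nat_lit 0) (nat_lit 0) (XT.nd (nat_lit 78) (nat_lit 0) (nat_lit 0) (XT.lf (nat_lit 0) (nat_lit 361060449928) (nat_lit 152) (nat_lit 1838890794708) (nat_lit 0) (nat_lit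 360964744127) (nat_lit 1) (nat_lit 5) (nat_lit 3) (nat_lit 4) (nat_lit 1) (nat_lit 4) (nat_lit 400) (nat_lit 313) (nat_lit 307)) (XT.lf (nat_lit 0) (nat_lit 417801104635) (nat_lit 152) (nat_lit 2109347818436) (nat_lit 0) (nat_lit 417695891760) (nat_lit 1) (nat_lit 5) (nat_lit 3) (nat_lit 4) (nat_lit 1) (nat_lit 4) (nat_lit 401) (nat_lit 313) (nat_lit 306))) (XT.nd (nat_lit 78) (nat_lit 0) (nat_lit 0) (XT.lf (nat_lit 0) (nat_lit 482900870906) (nat_lit 152) (nat_lit 2420686863114) (nat_lit 0) (nat_lit 482787391011) (nat_lit 1) (nat_lit 5) (nat_lit 3) (nat_lit 4) (nat_lit 1) (nat_lit 4) (nat_lit 402) (nat_lit 313) (nat_lit 305)) (XT.lf (nat_lit 0) (nat_lit 557633439822) (nat_lit 152) (nat_lit 2778999344834) (nat_lit 0) (nat_lit 557512771212) (nat_lit 1) (nat_lit 5) (nat_lit 3) (nat_lit 4) (nat_lit 1) (nat_lit 4) (nat_lit 403) (nat_lit 313) (nat_lit 304)))) (XT.nd (nat_lit 156) (nat_lit 0) (nat_lit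 0) (XT.nd (nat_lit 78) (nat_lit 0) (nat_lit 0) (XT.lf (nat_lit 0) (nat_lit 643460970338) (nat_lit 152) (nat_lit 3191295725195) (nat_lit 0) (nat_lit 643334050673) (nat_lit 1) (nat_lit 5) (nat_lit 3) (nat_lit 4) (nat_lit 1) (nat_lit 4) (nat_lit 404) (nat_lit 313) (nat_lit 303)) (XT.lf (nat_lit 0) (nat_lit 742062696747) (nat_lit 152) (nat_lit 3665642672508) (nat_lit 0) (nat_lit 741930341383) (nat_lit 1) (nat_lit 5) (nat_lit 3) (nat_lit 4) (nat_lit 1) (nat_lit 4) (nat_lit 405) (nat_lit 313) (nat_lit 302))) (XT.nd (nat_lit 78) (nat_lit 0) (nat_lit 0) (XT.lf (nat_lit 0) (nat_lit 855367783263) (nat_lit 152) (nat_lit 4211320887917) (nat_lit 0) (nat_lit 855230701203) (nat_lit 1) (nat_lit 5) (nat_lit 3) (nat_lit 4) (nat_lit 1) (nat_lit 4) (nat_lit 406) (nat_lit 313) (nat_lit 301)) (XT.nd (nat_lit 78) (nat_lit 0) (nat_lit 0) (XT.lf (nat_lit 0) (nat_lit 985593068534) (nat_lit 152) (nat_lit 4839006684331)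 (nat_lit 0) (nat_lit 985451876303) (nat_lit 1) (nat_lit 5) (nat_lit 3) (nat_lit 4) (nat_lit 1) (nat_lit 4) (nat_lit 407) (nat_lit 313) (nat_lit 300)) (XT.lf (nat_lit 0) (nat_lit 1135286438576) (nat_lit 152) (nat_lit 5560980870811) (nat_lit 0) (nat_lit 1135141672284) (nat_lit 1) (nat_lit 5) (nat_lit 3) (nat_lit 4) (nat_lit 1) (nat_lit 4) (nat_lit 408) (nat_lit 313) (nat_lit 299))))))))
noncomputable def xc5 : XT := (XT.nd (nat_lit 52260) (nat_lit 0) (nat_lit 0) (XT.nd (nat_lit 624) (nat_lit 0) (nat_lit 0) (XT.nd (nat_lit 312) (nat_lit 0) (nat_lit 0) (XT.nd (nat_lit 156) (nat_lit 0) (nat_lit 0) (XT.nd (nat_lit 78) (nat_lit 0) (nat_lit 0) (XT.lf (nat_lit 0) (nat_lit 1307376676716) (nat_lit 152) (nat_lit 6391369029266) (nat_lit 0) (nat_lit 1307228802545) (nat_lit 1) (nat_lit 5) (nat_lit 3) (nat_lit 4) (nat_lit 1) (nat_lit 4) (nat_lit 409) (nat_lit 313) (nat_lit 298)) (XT.lf (nat_lit 0) (nat_lit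 1505230765875) (nat_lit 152) (nat_lit 7346417884536) (nat_lit 0) (nat_lit 1505080189200) (nat_lit 1) (nat_lit 5) (nat_lit 3) (nat_lit 4) (nat_lit 1) (nat_lit 4) (nat_lit 410) (nat_lit 313) (nat_lit 297))) (XT.nd (nat_lit 78) (nat_lit 0) (nat_lit 0) (XT.lf (nat_lit 0) (nat_lit 1732719764318) (nat_lit 152) (nat_lit 8444813175093) (nat_lit 0) (nat_lit 1732566837640) (nat_lit 1) (nat_lit 5) (nat_lit 3) (nat_lit 4) (nat_lit 1) (nat_lit 4) (nat_lit 411) (nat_lit 313) (nat_lit 296)) (XT.lf (nat_lit 0) (nat_lit 1994294543755) (nat_lit 152) (nat_lit 9708045243579) (nat_lit 0) (nat_lit 1994139573596) (nat_lit 1) (nat_lit 5) (nat_lit 3) (nat_lit 4) (nat_lit 1) (nat_lit 4) (nat_lit 412) (nat_lit 313) (nat_lit 295)))) (XT.nd (nat_lit 156) (nat_lit 0) (nat_lit 0) (XT.nd (nat_lit 78) (nat_lit 0) (nat_lit 0) (XT.lf (nat_lit 0) (nat_lit 2295072871608) (nat_lit 152) (nat_lit 11160829500028) (nat_lit 0) (nat_lit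 2294916124509) (nat_lit 1) (nat_lit 5) (nat_lit 3) (nat_lit 4) (nat_lit 1) (nat_lit 4) (nat_lit 413) (nat_lit 313) (nat_lit 294)) (XT.lf (nat_lit 0) (nat_lit 2640939541250) (nat_lit 152) (nat_lit 12831589984242) (nat_lit 0) (nat_lit 2640781248985) (nat_lit 1) (nat_lit 5) (nat_lit 3) (nat_lit 4) (nat_lit 1) (nat_lit 4) (nat_lit 414) (nat_lit 313) (nat_lit 293))) (XT.nd (nat_lit 78) (nat_lit 0) (nat_lit 0) (XT.lf (nat_lit 0) (nat_lit 3038661509259) (nat_lit 152) (nat_lit 14753015488303) (nat_lit 0) (nat_lit 3038501873373) (nat_lit 1) (nat_lit 5) (nat_lit 3) (nat_lit 4) (nat_lit 1) (nat_lit 4) (nat_lit 415) (nat_lit 313) (nat_lit 292)) (XT.lf (nat_lit 0) (nat_lit 3496020292402) (nat_lit 152) (nat_lit 16962699119899) (nat_lit 0) (nat_lit 3495859488149) (nat_lit 1) (nat_lit 5) (nat_lit 3) (nat_lit 4) (nat_lit 1) (nat_lit 4) (nat_lit 416) (nat_lit 313) (nat_lit 291))))) (XT.nd (nat_lit 51246) (nat_lit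 0) (nat_lit 0) (XT.nd (nat_lit 156) (nat_lit 0) (nat_lit 0) (XT.nd (nat_lit 78) (nat_lit 0) (nat_lit 0) (XT.lf (nat_lit 0) (nat_lit 4021964214696) (nat_lit 152) (nat_lit 19503873819647) (nat_lit 0) (nat_lit 4021802394471) (nat_lit 1) (nat_lit 5) (nat_lit 3) (nat_lit 4) (nat_lit 1) (nat_lit 4) (nat_lit 417) (nat_lit 313) (nat_lit 290)) (XT.lf (nat_lit 0) (nat_lit 4626783483317) (nat_lit 152) (nat_lit 22426258222979) (nat_lit 0) (nat_lit 4626620779639) (nat_lit 1) (nat_lit 5) (nat_lit 3) (nat_lit 4) (nat_lit 1) (nat_lit 4) (nat_lit 418) (nat_lit 313) (nat_lit 289))) (XT.nd (nat_lit 51012) (nat_lit 0) (nat_lit 0) (XT.lf (nat_lit 0) (nat_lit 5322311518737) (nat_lit 152) (nat_lit 25787029416045) (nat_lit 0) (nat_lit 5322148046839) (nat_lit 1) (nat_lit 5) (nat_lit 3) (nat_lit 4) (nat_lit 1) (nat_lit 4) (nat_lit 419) (nat_lit 313) (nat_lit 288)) (XT.lf (nat_lit 0) (nat_lit 50282495231) (nat_lit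 152) (nat_lit 318723277226) (nat_lit 0) (nat_lit 50282495231) (nat_lit 1) (nat_lit 5) (nat_lit 3) (nat_lit 4) (nat_lit 1) (nat_lit 4) (nat_lit 392) (nat_lit 314) (nat_lit 314)))) (XT.nd (nat_lit 156) (nat_lit 0) (nat_lit 0) (XT.nd (nat_lit 78) (nat_lit 0) (nat_lit 0) (XT.lf (nat_lit 0) (nat_lit 120378086183) (nat_lit 152) (nat_lit 723251497541) (nat_lit 0) (nat_lit 120352797178) (nat_lit 1) (nat_lit 5) (nat_lit 3) (nat_lit 4) (nat_lit 1) (nat_lit 4) (nat_lit 393) (nat_lit 314) (nat_lit 313)) (XT.lf (nat_lit 0) (nat_lit 142758858773) (nat_lit 152) (nat_lit 822761011587) (nat_lit 0) (nat_lit 142711579329) (nat_lit 1) (nat_lit 5) (nat_lit 3) (nat_lit 4) (nat_lit 1) (nat_lit 4) (nat_lit 394) (nat_lit 314) (nat_lit 312))) (XT.nd (nat_lit 78) (nat_lit 0) (nat_lit 0) (XT.lf (nat_lit 0) (nat_lit 168145192915) (nat_lit 152) (nat_lit 937922021863) (nat_lit 0) (nat_lit 168078791350) (nat_lit 1) (nat_lit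 5) (nat_lit 3) (nat_lit 4) (nat_lit 1) (nat_lit 4) (nat_lit 395) (nat_lit 314) (nat_lit 311)) (XT.nd (nat_lit 78) (nat_lit 0) (nat_lit 0) (XT.lf (nat_lit 0) (nat_lit 197033777755) (nat_lit 152) (nat_lit 1070987678572) (nat_lit 0) (nat_lit 196950748259) (nat_lit 1) (nat_lit 5) (nat_lit 3) (nat_lit 4) (nat_lit 1) (nat_lit 4) (nat_lit 396) (nat_lit 314) (nat_lit 310)) (XT.lf (nat_lit 0) (nat_lit 229989824735) (nat_lit 152) (nat_lit 1224561440213) (nat_lit 0) (nat_lit 229892336168) (nat_lit 1) (nat_lit 5) (nat_lit 3) (nat_lit 4) (nat_lit 1) (nat_lit 4) (nat_lit 397) (nat_lit 314) (nat_lit 309))))))) (XT.nd (nat_lit 624) (nat_lit 0) (nat_lit 0) (XT.nd (nat_lit 312) (nat_lit 0) (nat_lit 0) (XT.nd (nat_lit 156) (nat_lit 0) (nat_lit 0) (XT.nd (nat_lit 78) (nat_lit 0) (nat_lit 0) (XT.lf (nat_lit 0) (nat_lit 267658126079) (nat_lit 152) (nat_lit 1401648010820) (nat_lit 0) (nat_lit 267548064407) (nat_lit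 1) (nat_lit 5) (nat_lit 3) (nat_lit 4) (nat_lit 1) (nat_lit 4) (nat_lit 398) (nat_lit 314) (nat_lit 308)) (XT.lf (nat_lit 0) (nat_lit 310775670291) (nat_lit 152) (nat_lit 1605712127642) (nat_lit 0) (nat_lit 310654675484) (nat_lit 1) (nat_lit 5) (nat_lit 3) (nat_lit 4) (nat_lit 1) (nat_lit 4) (nat_lit 399) (nat_lit 314) (nat_lit 307))) (XT.nd (nat_lit 78) (nat_lit 0) (nat_lit 0) (XT.lf (nat_lit 0) (nat_lit 360186061497) (nat_lit 152) (nat_lit 1840746349489) (nat_lit 0) (nat_lit 360055559617) (nat_lit 1) (nat_lit 5) (nat_lit 3) (nat_lit 4) (nat_lit 1) (nat_lit 4) (nat_lit 400) (nat_lit 314) (nat_lit 306)) (XT.lf (nat_lit 0) (nat_lit 416856024742) (nat_lit 152) (nat_lit 2111349172003) (nat_lit 0) (nat_lit 416717255842) (nat_lit 1) (nat_lit 5) (nat_lit 3) (nat_lit 4) (nat_lit 1) (nat_lit 4) (nat_lit 401) (nat_lit 314) (nat_lit 305)))) (XT.nd (nat_lit 156) (nat_lit 0) (nat_lit 0) (XT.nd (nat_lit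 78) (nat_lit 0) (nat_lit 0) (XT.lf (nat_lit 0) (nat_lit 481894320178) (nat_lit 152) (nat_lit 2422814998235) (nat_lit 0) (nat_lit 481748362564) (nat_lit 1) (nat_lit 5) (nat_lit 3) (nat_lit 4) (nat_lit 1) (nat_lit 4) (nat_lit 402) (nat_lit 314) (nat_lit 304)) (XT.lf (nat_lit 0) (nat_lit 556573436193) (nat_lit 152) (nat_lit 2781237724784) (nat_lit 0) (nat_lit 556421227523) (nat_lit 1) (nat_lit 5) (nat_lit 3) (nat_lit 4) (nat_lit 1) (nat_lit 4) (nat_lit 403) (nat_lit 314) (nat_lit 303))) (XT.nd (nat_lit 78) (nat_lit 0) (nat_lit 0) (XT.lf (nat_lit 0) (nat_lit 642354485926) (nat_lit 152) (nat_lit 3193629970214) (nat_lit 0) (nat_lit 642196841556) (nat_lit 1) (nat_lit 5) (nat_lit 3) (nat_lit 4) (nat_lit 1) (nat_lit 4) (nat_lit 404) (nat_lit 314) (nat_lit 302)) (XT.lf (nat_lit 0) (nat_lit 740915794263) (nat_lit 152) (nat_lit 3668060278457) (nat_lit 0) (nat_lit 740753423198) (nat_lit 1) (nat_lit 5)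 (nat_lit 3) (nat_lit 4) (nat_lit 1) (nat_lit 4) (nat_lit 405) (nat_lit 314) (nat_lit 301))))) (XT.nd (nat_lit 312) (nat_lit 0) (nat_lit 0) (XT.nd (nat_lit 156) (nat_lit 0) (nat_lit 0) (XT.nd (nat_lit 78) (nat_lit 0) (nat_lit 0) (XT.lf (nat_lit 0) (nat_lit 854185734629) (nat_lit 152) (nat_lit 4213810981630) (nat_lit 0) (nat_lit 854019253393) (nat_lit 1) (nat_lit 5) (nat_lit 3) (nat_lit 4) (nat_lit 1) (nat_lit 4) (nat_lit 406) (nat_lit 314) (nat_lit 300)) (XT.lf (nat_lit 0) (nat_lit 984380458030) (nat_lit 152) (nat_lit 4841559810883) (nat_lit 0) (nat_lit 984210402733) (nat_lit 1) (nat_lit 5) (nat_lit 3) (nat_lit 4) (nat_lit 1) (nat_lit 4) (nat_lit 407) (nat_lit 314) (nat_lit 299))) (XT.nd (nat_lit 78) (nat_lit 0) (nat_lit 0) (XT.lf (nat_lit 0) (nat_lit 1134047252534) (nat_lit 152) (nat_lit 5563588808527) (nat_lit 0) (nat_lit 1133874089357) (nat_lit 1) (nat_lit 5) (nat_lit 3) (nat_lit 4) (nat_lit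 1) (nat_lit 4) (nat_lit 408) (nat_lit 314) (nat_lit 298)) (XT.lf (nat_lit 0) (nat_lit 1306114381510) (nat_lit 152) (nat_lit 6394024628865) (nat_lit 0) (nat_lit 1305938515830) (nat_lit 1) (nat_lit 5) (nat_lit 3) (nat_lit 4) (nat_lit 1) (nat_lit 4) (nat_lit 409) (nat_lit 314) (nat_lit 297)))) (XT.nd (nat_lit 156) (nat_lit 0) (nat_lit 0) (XT.nd (nat_lit 78) (nat_lit 0) (nat_lit 0) (XT.lf (nat_lit 0) (nat_lit 1503948375743) (nat_lit 152) (nat_lit 7349114929249) (nat_lit 0) (nat_lit 1503770160060) (nat_lit 1) (nat_lit 5) (nat_lit 3) (nat_lit 4) (nat_lit 1) (nat_lit 4) (nat_lit 410) (nat_lit 314) (nat_lit 296)) (XT.lf (nat_lit 0) (nat_lit 1731419900339) (nat_lit 152) (nat_lit 8447546259037) (nat_lit 0) (nat_lit 1731239641175) (nat_lit 1) (nat_lit 5) (nat_lit 3) (nat_lit 4) (nat_lit 1) (nat_lit 4) (nat_lit 411) (nat_lit 314) (nat_lit 295))) (XT.nd (nat_lit 78) (nat_lit 0) (nat_lit 0) (XT.lf (nat_lit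 0) (nat_lit 1992979485125) (nat_lit 152) (nat_lit 9710809665983) (nat_lit 0) (nat_lit 1992797449021) (nat_lit 1) (nat_lit 5) (nat_lit 3) (nat_lit 4) (nat_lit 1) (nat_lit 4) (nat_lit 412) (nat_lit 314) (nat_lit 294)) (XT.nd (nat_lit 78) (nat_lit 0) (nat_lit 0) (XT.lf (nat_lit 0) (nat_lit 2293744600239) (nat_lit 152) (nat_lit 11163621173269) (nat_lit 0) (nat_lit 2293561018969) (nat_lit 1) (nat_lit 5) (nat_lit 3) (nat_lit 4) (nat_lit 1) (nat_lit 4) (nat_lit 413) (nat_lit 314) (nat_lit 293)) (XT.lf (nat_lit 0) (nat_lit 2639599780541) (nat_lit 152) (nat_lit 12834405353862) (nat_lit 0) (nat_lit 2639414855650) (nat_lit 1) (nat_lit 5) (nat_lit 3) (nat_lit 4) (nat_lit 1) (nat_lit 4) (nat_lit 414) (nat_lit 314) (nat_lit 292))))))))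
noncomputable def xc6 : XT := (XT.nd (nat_lit 52104) (nat_lit 0) (nat_lit 0) (XT.nd (nat_lit 51402) (nat_lit 0) (nat_lit 0) (XT.nd (nat_lit 312) (nat_lit 0) (nat_lit 0) (XT.nd (nat_lit 156) (nat_lit 0) (nat_lit 0) (XT.nd (nat_lit 78) (nat_lit 0) (nat_lit 0) (XT.lf (nat_lit 0) (nat_lit 3037311757821) (nat_lit 152) (nat_lit 14755851463469) (nat_lit 0) (nat_lit 3037125664563) (nat_lit 1) (nat_lit 5) (nat_lit 3) (nat_lit 4) (nat_lit 1) (nat_lit 4) (nat_lit 415) (nat_lit 314) (nat_lit 291)) (XT.lf (nat_lit 0) (nat_lit 3494661853373) (nat_lit 152) (nat_lit 16965553012932) (nat_lit 0) (nat_lit 3494474744144) (nat_lit 1) (nat_lit 5) (nat_lit 3) (nat_lit 4) (nat_lit 1) (nat_lit 4) (nat_lit 416) (nat_lit 314) (nat_lit 290))) (XT.nd (nat_lit 78) (nat_lit 0) (nat_lit 0) (XT.lf (nat_lit 0) (nat_lit 4020598221241) (nat_lit 152) (nat_lit 19506743293434) (nat_lit 0) (nat_lit 4020410228558) (nat_lit 1) (nat_lit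 5) (nat_lit 3) (nat_lit 4) (nat_lit 1) (nat_lit 4) (nat_lit 417) (nat_lit 314) (nat_lit 289)) (XT.lf (nat_lit 0) (nat_lit 4625410920795) (nat_lit 152) (nat_lit 22429141245247) (nat_lit 0) (nat_lit 4625222159892) (nat_lit 1) (nat_lit 5) (nat_lit 3) (nat_lit 4) (nat_lit 1) (nat_lit 4) (nat_lit 418) (nat_lit 314) (nat_lit 288)))) (XT.nd (nat_lit 50934) (nat_lit 0) (nat_lit 0) (XT.nd (nat_lit 50856) (nat_lit 0) (nat_lit 0) (XT.lf (nat_lit 0) (nat_lit 5320933243983) (nat_lit 152) (nat_lit 25789924219602) (nat_lit 0) (nat_lit 5320743815063) (nat_lit 1) (nat_lit 5) (nat_lit 3) (nat_lit 4) (nat_lit 1) (nat_lit 4) (nat_lit 419) (nat_lit 314) (nat_lit 287)) (XT.lf (nat_lit 0) (nat_lit 33705829226) (nat_lit 152) (nat_lit 249978798280) (nat_lit 0) (nat_lit 33705829226) (nat_lit 1) (nat_lit 5) (nat_lit 3) (nat_lit 4) (nat_lit 1) (nat_lit 4) (nat_lit 390) (nat_lit 315) (nat_lit 315))) (XT.nd (nat_lit 78)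 (nat_lit 0) (nat_lit 0) (XT.lf (nat_lit 0) (nat_lit 82961006443) (nat_lit 152) (nat_lit 563667389954) (nat_lit 0) (nat_lit 82931924088) (nat_lit 1) (nat_lit 5) (nat_lit 3) (nat_lit 4) (nat_lit 1) (nat_lit 4) (nat_lit 391) (nat_lit 315) (nat_lit 314)) (XT.lf (nat_lit 0) (nat_lit 100377826023) (nat_lit 152) (nat_lit 637892556274) (nat_lit 0) (nat_lit 100323454662) (nat_lit 1) (nat_lit 5) (nat_lit 3) (nat_lit 4) (nat_lit 1) (nat_lit 4) (nat_lit 392) (nat_lit 315) (nat_lit 313))))) (XT.nd (nat_lit 312) (nat_lit 0) (nat_lit 0) (XT.nd (nat_lit 156) (nat_lit 0) (nat_lit 0) (XT.nd (nat_lit 78) (nat_lit 0) (nat_lit 0) (XT.lf (nat_lit 0) (nat_lit 120002881051) (nat_lit 152) (nat_lit 724085327034) (nat_lit 0) (nat_lit 119926519251) (nat_lit 1) (nat_lit 5) (nat_lit 3) (nat_lit 4) (nat_lit 1) (nat_lit 4) (nat_lit 393) (nat_lit 315) (nat_lit 312)) (XT.lf (nat_lit 0) (nat_lit 142220139996) (nat_lit 152)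 (nat_lit 823932082533) (nat_lit 0) (nat_lit 142124656076) (nat_lit 1) (nat_lit 5) (nat_lit 3) (nat_lit 4) (nat_lit 1) (nat_lit 4) (nat_lit 394) (nat_lit 315) (nat_lit 311))) (XT.nd (nat_lit 78) (nat_lit 0) (nat_lit 0) (XT.lf (nat_lit 0) (nat_lit 167464288360) (nat_lit 152) (nat_lit 939386346247) (nat_lit 0) (nat_lit 167352176508) (nat_lit 1) (nat_lit 5) (nat_lit 3) (nat_lit 4) (nat_lit 1) (nat_lit 4) (nat_lit 395) (nat_lit 315) (nat_lit 310)) (XT.lf (nat_lit 0) (nat_lit 196229233392) (nat_lit 152) (nat_lit 1072707005944) (nat_lit 0) (nat_lit 196102662470) (nat_lit 1) (nat_lit 5) (nat_lit 3) (nat_lit 4) (nat_lit 1) (nat_lit 4) (nat_lit 396) (nat_lit 315) (nat_lit 309)))) (XT.nd (nat_lit 156) (nat_lit 0) (nat_lit 0) (XT.nd (nat_lit 78) (nat_lit 0) (nat_lit 0) (XT.lf (nat_lit 0) (nat_lit 229077767496) (nat_lit 152) (nat_lit 1226502509316) (nat_lit 0) (nat_lit 228938623469) (nat_lit 1) (nat_lit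 5) (nat_lit 3) (nat_lit 4) (nat_lit 1) (nat_lit 4) (nat_lit 397) (nat_lit 315) (nat_lit 308)) (XT.lf (nat_lit 0) (nat_lit 266652579382) (nat_lit 152) (nat_lit 1403781898818) (nat_lit 0) (nat_lit 266502502220) (nat_lit 1) (nat_lit 5) (nat_lit 3) (nat_lit 4) (nat_lit 1) (nat_lit 4) (nat_lit 398) (nat_lit 315) (nat_lit 307))) (XT.nd (nat_lit 78) (nat_lit 0) (nat_lit 0) (XT.lf (nat_lit 0) (nat_lit 309688828414) (nat_lit 152) (nat_lit 1608013684245) (nat_lit 0) (nat_lit 309529244178) (nat_lit 1) (nat_lit 5) (nat_lit 3) (nat_lit 4) (nat_lit 1) (nat_lit 4) (nat_lit 399) (nat_lit 315) (nat_lit 306)) (XT.nd (nat_lit 78) (nat_lit 0) (nat_lit 0) (XT.lf (nat_lit 0) (nat_lit 359028528159) (nat_lit 152) (nat_lit 1843193704878) (nat_lit 0) (nat_lit 358860676903) (nat_lit 1) (nat_lit 5) (nat_lit 3) (nat_lit 4) (nat_lit 1) (nat_lit 4) (nat_lit 400) (nat_lit 315) (nat_lit 305)) (XT.lf (nat_lit 0) (nat_lit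 415637020569) (nat_lit 152) (nat_lit 2113923308945) (nat_lit 0) (nat_lit 415461980599) (nat_lit 1) (nat_lit 5) (nat_lit 3) (nat_lit 4) (nat_lit 1) (nat_lit 4) (nat_lit 401) (nat_lit 315) (nat_lit 304))))))) (XT.nd (nat_lit 624) (nat_lit 0) (nat_lit 0) (XT.nd (nat_lit 312) (nat_lit 0) (nat_lit 0) (XT.nd (nat_lit 156) (nat_lit 0) (nat_lit 0) (XT.nd (nat_lit 78) (nat_lit 0) (nat_lit 0) (XT.lf (nat_lit 0) (nat_lit 480621863104) (nat_lit 152) (nat_lit 2425499380006) (nat_lit 0) (nat_lit 480440572079) (nat_lit 1) (nat_lit 5) (nat_lit 3) (nat_lit 4) (nat_lit 1) (nat_lit 4) (nat_lit 402) (nat_lit 315) (nat_lit 303)) (XT.lf (nat_lit 0) (nat_lit 555254498335) (nat_lit 152) (nat_lit 2784017971625) (nat_lit 0) (nat_lit 555067771610) (nat_lit 1) (nat_lit 5) (nat_lit 3) (nat_lit 4) (nat_lit 1) (nat_lit 4) (nat_lit 403) (nat_lit 315) (nat_lit 302))) (XT.nd (nat_lit 78) (nat_lit 0) (nat_lit 0) (XT.lf (nat_lit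 0) (nat_lit 640995129996) (nat_lit 152) (nat_lit 3196493577984) (nat_lit 0) (nat_lit 640803676575) (nat_lit 1) (nat_lit 5) (nat_lit 3) (nat_lit 4) (nat_lit 1) (nat_lit 4) (nat_lit 404) (nat_lit 315) (nat_lit 301)) (XT.lf (nat_lit 0) (nat_lit 739521292184) (nat_lit 152) (nat_lit 3670996373992) (nat_lit 0) (nat_lit 739325728592) (nat_lit 1) (nat_lit 5) (nat_lit 3) (nat_lit 4) (nat_lit 1) (nat_lit 4) (nat_lit 405) (nat_lit 315) (nat_lit 300)))) (XT.nd (nat_lit 156) (nat_lit 0) (nat_lit 0) (XT.nd (nat_lit 78) (nat_lit 0) (nat_lit 0) (XT.lf (nat_lit 0) (nat_lit 852760670680) (nat_lit 152) (nat_lit 4216810110004) (nat_lit 0) (nat_lit 852561533027) (nat_lit 1) (nat_lit 5) (nat_lit 3) (nat_lit 4) (nat_lit 1) (nat_lit 4) (nat_lit 406) (nat_lit 315) (nat_lit 299)) (XT.lf (nat_lit 0) (nat_lit 982928818543) (nat_lit 152) (nat_lit 4844613750421) (nat_lit 0) (nat_lit 982726573011) (nat_lit 1) (nat_lit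 5) (nat_lit 3) (nat_lit 4) (nat_lit 1) (nat_lit 4) (nat_lit 407) (nat_lit 315) (nat_lit 298))) (XT.nd (nat_lit 78) (nat_lit 0) (nat_lit 0) (XT.lf (nat_lit 0) (nat_lit 1132572503882) (nat_lit 152) (nat_lit 5566690409948) (nat_lit 0) (nat_lit 1132367555847) (nat_lit 1) (nat_lit 5) (nat_lit 3) (nat_lit 4) (nat_lit 1) (nat_lit 4) (nat_lit 408) (nat_lit 315) (nat_lit 297)) (XT.lf (nat_lit 0) (nat_lit 1304619537933) (nat_lit 152) (nat_lit 6397167675400) (nat_lit 0) (nat_lit 1304412239895) (nat_lit 1) (nat_lit 5) (nat_lit 3) (nat_lit 4) (nat_lit 1) (nat_lit 4) (nat_lit 409) (nat_lit 315) (nat_lit 296))))) (XT.nd (nat_lit 312) (nat_lit 0) (nat_lit 0) (XT.nd (nat_lit 156) (nat_lit 0) (nat_lit 0) (XT.nd (nat_lit 78) (nat_lit 0) (nat_lit 0) (XT.lf (nat_lit 0) (nat_lit 1502436058319) (nat_lit 152) (nat_lit 7352294015014) (nat_lit 0) (nat_lit 1502226716799) (nat_lit 1) (nat_lit 5) (nat_lit 3) (nat_lit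 4) (nat_lit 1) (nat_lit 4) (nat_lit 410) (nat_lit 315) (nat_lit 295)) (XT.lf (nat_lit 0) (nat_lit 1729892388263) (nat_lit 152) (nat_lit 8450756683263) (nat_lit 0) (nat_lit 1729681269804) (nat_lit 1) (nat_lit 5) (nat_lit 3) (nat_lit 4) (nat_lit 1) (nat_lit 4) (nat_lit 411) (nat_lit 315) (nat_lit 294))) (XT.nd (nat_lit 78) (nat_lit 0) (nat_lit 0) (XT.lf (nat_lit 0) (nat_lit 1991438760310) (nat_lit 152) (nat_lit 9714047341045) (nat_lit 0) (nat_lit 1991226096685) (nat_lit 1) (nat_lit 5) (nat_lit 3) (nat_lit 4) (nat_lit 1) (nat_lit 4) (nat_lit 412) (nat_lit 315) (nat_lit 293)) (XT.lf (nat_lit 0) (nat_lit 2292192386085) (nat_lit 152) (nat_lit 11166882544710) (nat_lit 0) (nat_lit 2291978378838) (nat_lit 1) (nat_lit 5) (nat_lit 3) (nat_lit 4) (nat_lit 1) (nat_lit 4) (nat_lit 413) (nat_lit 315) (nat_lit 292)))) (XT.nd (nat_lit 156) (nat_lit 0) (nat_lit 0) (XT.nd (nat_lit 78) (nat_lit 0) (nat_lit 0)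 (XT.lf (nat_lit 0) (nat_lit 2638037575658) (nat_lit 152) (nat_lit 12837687330849) (nat_lit 0) (nat_lit 2637822400045) (nat_lit 1) (nat_lit 5) (nat_lit 3) (nat_lit 4) (nat_lit 1) (nat_lit 4) (nat_lit 414) (nat_lit 315) (nat_lit 291)) (XT.lf (nat_lit 0) (nat_lit 3035740865348) (nat_lit 152) (nat_lit 14759151358324) (nat_lit 0) (nat_lit 3035524673763) (nat_lit 1) (nat_lit 5) (nat_lit 3) (nat_lit 4) (nat_lit 1) (nat_lit 4) (nat_lit 415) (nat_lit 315) (nat_lit 290))) (XT.nd (nat_lit 78) (nat_lit 0) (nat_lit 0) (XT.lf (nat_lit 0) (nat_lit 3493083406473) (nat_lit 152) (nat_lit 16968868488540) (nat_lit 0) (nat_lit 3492866331435) (nat_lit 1) (nat_lit 5) (nat_lit 3) (nat_lit 4) (nat_lit 1) (nat_lit 4) (nat_lit 416) (nat_lit 315) (nat_lit 289)) (XT.nd (nat_lit 78) (nat_lit 0) (nat_lit 0) (XT.lf (nat_lit 0) (nat_lit 4019013205274) (nat_lit 152) (nat_lit 19510072317524) (nat_lit 0) (nat_lit 4018795362015)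 (nat_lit 1) (nat_lit 5) (nat_lit 3) (nat_lit 4) (nat_lit 1) (nat_lit 4) (nat_lit 417) (nat_lit 315) (nat_lit 288)) (XT.lf (nat_lit 0) (nat_lit 4623820192596) (nat_lit 152) (nat_lit 22432482050625) (nat_lit 0) (nat_lit 4623601681320) (nat_lit 1) (nat_lit 5) (nat_lit 3) (nat_lit 4) (nat_lit 1) (nat_lit 4) (nat_lit 418) (nat_lit 315) (nat_lit 287))))))))
noncomputable def xc7 : XT := (XT.nd (nat_lit 51948) (nat_lit 0) (nat_lit 0) (XT.nd (nat_lit 51246) (nat_lit 0) (nat_lit 0) (XT.nd (nat_lit 50934) (nat_lit 0) (nat_lit 0) (XT.nd (nat_lit 50778) (nat_lit 0) (nat_lit 0) (XT.nd (nat_lit 50700) (nat_lit 0) (nat_lit 0) (XT.lf (nat_lit 0) (nat_lit 5319337548626) (nat_lit 152) (nat_lit 25793275269579) (nat_lit 0) (nat_lit 5319118456465) (nat_lit 1) (nat_lit 5) (nat_lit 3) (nat_lit 4) (nat_lit 1) (nat_lit 4) (nat_lit 419) (nat_lit 315) (nat_lit 286)) (XT.lf (nat_lit 0) (nat_lit 20524244033) (nat_lit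 152) (nat_lit 199344827451) (nat_lit 0) (nat_lit 20524244033) (nat_lit 1) (nat_lit 5) (nat_lit 3) (nat_lit 4) (nat_lit 1) (nat_lit 4) (nat_lit 388) (nat_lit 316) (nat_lit 316))) (XT.nd (nat_lit 78) (nat_lit 0) (nat_lit 0) (XT.lf (nat_lit 0) (nat_lit 53459000384) (nat_lit 152) (nat_lit 445516680135) (nat_lit 0) (nat_lit 53425555675) (nat_lit 1) (nat_lit 5) (nat_lit 3) (nat_lit 4) (nat_lit 1) (nat_lit 4) (nat_lit 389) (nat_lit 316) (nat_lit 315)) (XT.lf (nat_lit 0) (nat_lit 67196419346) (nat_lit 152) (nat_lit 500470498655) (nat_lit 0) (nat_lit 67133892281) (nat_lit 1) (nat_lit 5) (nat_lit 3) (nat_lit 4) (nat_lit 1) (nat_lit 4) (nat_lit 390) (nat_lit 316) (nat_lit 314)))) (XT.nd (nat_lit 156) (nat_lit 0) (nat_lit 0) (XT.nd (nat_lit 78) (nat_lit 0) (nat_lit 0) (XT.lf (nat_lit 0) (nat_lit 82529520542) (nat_lit 152) (nat_lit 564626293871) (nat_lit 0) (nat_lit 82441704472) (nat_lit 1) (nat_lit 5)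 (nat_lit 3) (nat_lit 4) (nat_lit 1) (nat_lit 4) (nat_lit 391) (nat_lit 316) (nat_lit 313)) (XT.lf (nat_lit 0) (nat_lit 99758299429) (nat_lit 152) (nat_lit 639239287862) (nat_lit 0) (nat_lit 99648492920) (nat_lit 1) (nat_lit 5) (nat_lit 3) (nat_lit 4) (nat_lit 1) (nat_lit 4) (nat_lit 392) (nat_lit 316) (nat_lit 312))) (XT.nd (nat_lit 78) (nat_lit 0) (nat_lit 0) (XT.lf (nat_lit 0) (nat_lit 119219840812) (nat_lit 152) (nat_lit 725769300075) (nat_lit 0) (nat_lit 119090912182) (nat_lit 1) (nat_lit 5) (nat_lit 3) (nat_lit 4) (nat_lit 1) (nat_lit 4) (nat_lit 393) (nat_lit 316) (nat_lit 311)) (XT.lf (nat_lit 0) (nat_lit 141294913979) (nat_lit 152) (nat_lit 825909309011) (nat_lit 0) (nat_lit 141149357418) (nat_lit 1) (nat_lit 5) (nat_lit 3) (nat_lit 4) (nat_lit 1) (nat_lit 4) (nat_lit 394) (nat_lit 316) (nat_lit 310))))) (XT.nd (nat_lit 312) (nat_lit 0) (nat_lit 0) (XT.nd (nat_lit 156) (nat_lit 0)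 (nat_lit 0) (XT.nd (nat_lit 78) (nat_lit 0) (nat_lit 0) (XT.lf (nat_lit 0) (nat_lit 166415422535) (nat_lit 152) (nat_lit 941618575714) (nat_lit 0) (nat_lit 166255406904) (nat_lit 1) (nat_lit 5) (nat_lit 3) (nat_lit 4) (nat_lit 1) (nat_lit 4) (nat_lit 395) (nat_lit 316) (nat_lit 309)) (XT.lf (nat_lit 0) (nat_lit 195072854692) (nat_lit 152) (nat_lit 1075160977142) (nat_lit 0) (nat_lit 194900265955) (nat_lit 1) (nat_lit 5) (nat_lit 3) (nat_lit 4) (nat_lit 1) (nat_lit 4) (nat_lit 396) (nat_lit 316) (nat_lit 308))) (XT.nd (nat_lit 78) (nat_lit 0) (nat_lit 0) (XT.lf (nat_lit 0) (nat_lit 227827899338) (nat_lit 152) (nat_lit 1229149299408) (nat_lit 0) (nat_lit 227644377467) (nat_lit 1) (nat_lit 5) (nat_lit 3) (nat_lit 4) (nat_lit 1) (nat_lit 4) (nat_lit 397) (nat_lit 316) (nat_lit 307)) (XT.lf (nat_lit 0) (nat_lit 265321416044) (nat_lit 152) (nat_lit 1406596357515) (nat_lit 0) (nat_lit 265128387100)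 (nat_lit 1) (nat_lit 5) (nat_lit 3) (nat_lit 4) (nat_lit 1) (nat_lit 4) (nat_lit 398) (nat_lit 316) (nat_lit 306)))) (XT.nd (nat_lit 156) (nat_lit 0) (nat_lit 0) (XT.nd (nat_lit 78) (nat_lit 0) (nat_lit 0) (XT.lf (nat_lit 0) (nat_lit 308286973615) (nat_lit 152) (nat_lit 1610973941729) (nat_lit 0) (nat_lit 308085677650) (nat_lit 1) (nat_lit 5) (nat_lit 3) (nat_lit 4) (nat_lit 1) (nat_lit 4) (nat_lit 399) (nat_lit 316) (nat_lit 305)) (XT.lf (nat_lit 0) (nat_lit 357565202524) (nat_lit 152) (nat_lit 1846280743915) (nat_lit 0) (nat_lit 357356717845) (nat_lit 1) (nat_lit 5) (nat_lit 3) (nat_lit 4) (nat_lit 1) (nat_lit 4) (nat_lit 400) (nat_lit 316) (nat_lit 304))) (XT.nd (nat_lit 78) (nat_lit 0) (nat_lit 0) (XT.lf (nat_lit 0) (nat_lit 414120242033) (nat_lit 152) (nat_lit 2117120592812) (nat_lit 0) (nat_lit 413905506299) (nat_lit 1) (nat_lit 5) (nat_lit 3) (nat_lit 4) (nat_lit 1) (nat_lit 4) (nat_lit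 401) (nat_lit 316) (nat_lit 303)) (XT.nd (nat_lit 78) (nat_lit 0) (nat_lit 0) (XT.lf (nat_lit 0) (nat_lit 479058603785) (nat_lit 152) (nat_lit 2428792528942) (nat_lit 0) (nat_lit 478838432351) (nat_lit 1) (nat_lit 5) (nat_lit 3) (nat_lit 4) (nat_lit 1) (nat_lit 4) (nat_lit 402) (nat_lit 316) (nat_lit 302)) (XT.lf (nat_lit 0) (nat_lit 553650820944) (nat_lit 152) (nat_lit 2787394481490) (nat_lit 0) (nat_lit 553425922814) (nat_lit 1) (nat_lit 5) (nat_lit 3) (nat_lit 4) (nat_lit 1) (nat_lit 4) (nat_lit 403) (nat_lit 316) (nat_lit 301))))))) (XT.nd (nat_lit 702) (nat_lit 0) (nat_lit 0) (XT.nd (nat_lit 312) (nat_lit 0) (nat_lit 0) (XT.nd (nat_lit 156) (nat_lit 0) (nat_lit 0) (XT.nd (nat_lit 78) (nat_lit 0) (nat_lit 0) (XT.lf (nat_lit 0) (nat_lit 639356306455) (nat_lit 152) (nat_lit 3199942575614) (nat_lit 0) (nat_lit 639127298155) (nat_lit 1) (nat_lit 5) (nat_lit 3) (nat_lit 4) (nat_lit 1) (nat_lit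 4) (nat_lit 404) (nat_lit 316) (nat_lit 300)) (XT.lf (nat_lit 0) (nat_lit 737851906773) (nat_lit 152) (nat_lit 3674508404461) (nat_lit 0) (nat_lit 737619324411) (nat_lit 1) (nat_lit 5) (nat_lit 3) (nat_lit 4) (nat_lit 1) (nat_lit 4) (nat_lit 405) (nat_lit 316) (nat_lit 299))) (XT.nd (nat_lit 78) (nat_lit 0) (nat_lit 0) (XT.lf (nat_lit 0) (nat_lit 851064709731) (nat_lit 152) (nat_lit 4220376951637) (nat_lit 0) (nat_lit 850829019490) (nat_lit 1) (nat_lit 5) (nat_lit 3) (nat_lit 4) (nat_lit 1) (nat_lit 4) (nat_lit 406) (nat_lit 316) (nat_lit 298)) (XT.lf (nat_lit 0) (nat_lit 981209748429) (nat_lit 152) (nat_lit 4848228253937) (nat_lit 0) (nat_lit 980971355685) (nat_lit 1) (nat_lit 5) (nat_lit 3) (nat_lit 4) (nat_lit 1) (nat_lit 4) (nat_lit 407) (nat_lit 316) (nat_lit 297)))) (XT.nd (nat_lit 156) (nat_lit 0) (nat_lit 0) (XT.nd (nat_lit 78) (nat_lit 0) (nat_lit 0) (XT.lf (nat_lit 0) (nat_lit 1130833338844)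 (nat_lit 152) (nat_lit 5570346358578) (nat_lit 0) (nat_lit 1130592596096) (nat_lit 1) (nat_lit 5) (nat_lit 3) (nat_lit 4) (nat_lit 1) (nat_lit 4) (nat_lit 408) (nat_lit 316) (nat_lit 296)) (XT.lf (nat_lit 0) (nat_lit 1302862899047) (nat_lit 152) (nat_lit 6400859663260) (nat_lit 0) (nat_lit 1302620112818) (nat_lit 1) (nat_lit 5) (nat_lit 3) (nat_lit 4) (nat_lit 1) (nat_lit 4) (nat_lit 409) (nat_lit 316) (nat_lit 295))) (XT.nd (nat_lit 78) (nat_lit 0) (nat_lit 0) (XT.lf (nat_lit 0) (nat_lit 1500664224782) (nat_lit 152) (nat_lit 7356017341336) (nat_lit 0) (nat_lit 1500419661613) (nat_lit 1) (nat_lit 5) (nat_lit 3) (nat_lit 4) (nat_lit 1) (nat_lit 4) (nat_lit 410) (nat_lit 316) (nat_lit 294)) (XT.nd (nat_lit 78) (nat_lit 0) (nat_lit 0) (XT.lf (nat_lit 0) (nat_lit 1728107341987) (nat_lit 152) (nat_lit 8454507260420) (nat_lit 0) (nat_lit 1727861233653) (nat_lit 1) (nat_lit 5) (nat_lit 3) (nat_lit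 4) (nat_lit 1) (nat_lit 4) (nat_lit 411) (nat_lit 316) (nat_lit 293)) (XT.lf (nat_lit 0) (nat_lit 1989642224695) (nat_lit 152) (nat_lit 9717821614581) (nat_lit 0) (nat_lit 1989394772739) (nat_lit 1) (nat_lit 5) (nat_lit 3) (nat_lit 4) (nat_lit 1) (nat_lit 4) (nat_lit 412) (nat_lit 316) (nat_lit 292)))))) (XT.nd (nat_lit 312) (nat_lit 0) (nat_lit 0) (XT.nd (nat_lit 156) (nat_lit 0) (nat_lit 0) (XT.nd (nat_lit 78) (nat_lit 0) (nat_lit 0) (XT.lf (nat_lit 0) (nat_lit 2290385859740) (nat_lit 152) (nat_lit 11170677423792) (nat_lit 0) (nat_lit 2290137239418) (nat_lit 1) (nat_lit 5) (nat_lit 3) (nat_lit 4) (nat_lit 1) (nat_lit 4) (nat_lit 413) (nat_lit 316) (nat_lit 291)) (XT.lf (nat_lit 0) (nat_lit 2636222361723) (nat_lit 152) (nat_lit 12841500127799) (nat_lit 0) (nat_lit 2635972725429) (nat_lit 1) (nat_lit 5) (nat_lit 3) (nat_lit 4) (nat_lit 1) (nat_lit 4) (nat_lit 414) (nat_lit 316) (nat_lit 290)))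 (XT.nd (nat_lit 78) (nat_lit 0) (nat_lit 0) (XT.lf (nat_lit 0) (nat_lit 3033918096986) (nat_lit 152) (nat_lit 14762979736027) (nat_lit 0) (nat_lit 3033667577238) (nat_lit 1) (nat_lit 5) (nat_lit 3) (nat_lit 4) (nat_lit 1) (nat_lit 4) (nat_lit 415) (nat_lit 316) (nat_lit 289)) (XT.lf (nat_lit 0) (nat_lit 3491254069044) (nat_lit 152) (nat_lit 16972710414725) (nat_lit 0) (nat_lit 3491002781077) (nat_lit 1) (nat_lit 5) (nat_lit 3) (nat_lit 4) (nat_lit 1) (nat_lit 4) (nat_lit 416) (nat_lit 316) (nat_lit 288)))) (XT.nd (nat_lit 156) (nat_lit 0) (nat_lit 0) (XT.nd (nat_lit 78) (nat_lit 0) (nat_lit 0) (XT.lf (nat_lit 0) (nat_lit 4017178155613) (nat_lit 152) (nat_lit 19513926024997) (nat_lit 0) (nat_lit 4016926199628) (nat_lit 1) (nat_lit 5) (nat_lit 3) (nat_lit 4) (nat_lit 1) (nat_lit 4) (nat_lit 417) (nat_lit 316) (nat_lit 287)) (XT.lf (nat_lit 0) (nat_lit 4621980175777) (nat_lit 152) (nat_lit 22436346002697)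 (nat_lit 0) (nat_lit 4621727638907) (nat_lit 1) (nat_lit 5) (nat_lit 3) (nat_lit 4) (nat_lit 1) (nat_lit 4) (nat_lit 418) (nat_lit 316) (nat_lit 286))) (XT.nd (nat_lit 50544) (nat_lit 0) (nat_lit 0) (XT.lf (nat_lit 0) (nat_lit 5317493212539) (nat_lit 152) (nat_lit 25797148129997) (nat_lit 0) (nat_lit 5317240170552) (nat_lit 1) (nat_lit 5) (nat_lit 3) (nat_lit 4) (nat_lit 1) (nat_lit 4) (nat_lit 419) (nat_lit 316) (nat_lit 285)) (XT.nd (nat_lit 78) (nat_lit 0) (nat_lit 0) (XT.lf (nat_lit 0) (nat_lit 9812741072) (nat_lit 152) (nat_lit 162607012385) (nat_lit 0) (nat_lit 9812741072) (nat_lit 1) (nat_lit 5) (nat_lit 3) (nat_lit 4) (nat_lit 1) (nat_lit 4) (nat_lit 386) (nat_lit 317) (nat_lit 317)) (XT.lf (nat_lit 0) (nat_lit 29760529439) (nat_lit 152) (nat_lit 359073242032) (nat_lit 0) (nat_lit 29722068024) (nat_lit 1) (nat_lit 5) (nat_lit 3) (nat_lit 4) (nat_lit 1) (nat_lit 4) (nat_lit 387) (nat_lit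 317) (nat_lit 316))))))))
noncomputable def xc8 : XT := (XT.nd (nat_lit 1326) (nat_lit 0) (nat_lit 0) (XT.nd (nat_lit 624) (nat_lit 0) (nat_lit 0) (XT.nd (nat_lit 312) (nat_lit 0) (nat_lit 0) (XT.nd (nat_lit 156) (nat_lit 0) (nat_lit 0) (XT.nd (nat_lit 78) (nat_lit 0) (nat_lit 0) (XT.lf (nat_lit 0) (nat_lit 40800963095) (nat_lit 152) (nat_lit 399279492313) (nat_lit 0) (nat_lit 40729056971) (nat_lit 1) (nat_lit 5) (nat_lit 3) (nat_lit 4) (nat_lit 1) (nat_lit 4) (nat_lit 388) (nat_lit 317) (nat_lit 315)) (XT.lf (nat_lit 0) (nat_lit 52962791597) (nat_lit 152) (nat_lit 446619419639) (nat_lit 0) (nat_lit 52861803117) (nat_lit 1) (nat_lit 5) (nat_lit 3) (nat_lit 4) (nat_lit 1) (nat_lit 4) (nat_lit 389) (nat_lit 317) (nat_lit 314))) (XT.nd (nat_lit 78) (nat_lit 0) (nat_lit 0) (XT.lf (nat_lit 0) (nat_lit 66483963763) (nat_lit 152) (nat_lit 502019239981) (nat_lit 0) (nat_lit 66357686278) (nat_lit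 1) (nat_lit 5) (nat_lit 3) (nat_lit 4) (nat_lit 1) (nat_lit 4) (nat_lit 390) (nat_lit 317) (nat_lit 313)) (XT.lf (nat_lit 0) (nat_lit 81629024267) (nat_lit 152) (nat_lit 566562862868) (nat_lit 0) (nat_lit 81480756343) (nat_lit 1) (nat_lit 5) (nat_lit 3) (nat_lit 4) (nat_lit 1) (nat_lit 4) (nat_lit 391) (nat_lit 317) (nat_lit 312)))) (XT.nd (nat_lit 156) (nat_lit 0) (nat_lit 0) (XT.nd (nat_lit 78) (nat_lit 0) (nat_lit 0) (XT.lf (nat_lit 0) (nat_lit 98694289509) (nat_lit 152) (nat_lit 641513098312) (nat_lit 0) (nat_lit 98526899464) (nat_lit 1) (nat_lit 5) (nat_lit 3) (nat_lit 4) (nat_lit 1) (nat_lit 4) (nat_lit 392) (nat_lit 317) (nat_lit 311)) (XT.lf (nat_lit 0) (nat_lit 118013645113) (nat_lit 152) (nat_lit 728336363963) (nat_lit 0) (nat_lit 117829627137) (nat_lit 1) (nat_lit 5) (nat_lit 3) (nat_lit 4) (nat_lit 1) (nat_lit 4) (nat_lit 393) (nat_lit 317) (nat_lit 310))) (XT.nd (nat_lit 78)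 (nat_lit 0) (nat_lit 0) (XT.lf (nat_lit 0) (nat_lit 139965078473) (nat_lit 152) (nat_lit 828731375888) (nat_lit 0) (nat_lit 139766601426) (nat_lit 1) (nat_lit 5) (nat_lit 3) (nat_lit 4) (nat_lit 1) (nat_lit 4) (nat_lit 394) (nat_lit 317) (nat_lit 309)) (XT.lf (nat_lit 0) (nat_lit 164978074153) (nat_lit 152) (nat_lit 944662384321) (nat_lit 0) (nat_lit 164767024002) (nat_lit 1) (nat_lit 5) (nat_lit 3) (nat_lit 4) (nat_lit 1) (nat_lit 4) (nat_lit 395) (nat_lit 317) (nat_lit 308))))) (XT.nd (nat_lit 312) (nat_lit 0) (nat_lit 0) (XT.nd (nat_lit 156) (nat_lit 0) (nat_lit 0) (XT.nd (nat_lit 78) (nat_lit 0) (nat_lit 0) (XT.lf (nat_lit 0) (nat_lit 193542016853) (nat_lit 152) (nat_lit 1078397604644) (nat_lit 0) (nat_lit 193320033566) (nat_lit 1) (nat_lit 5) (nat_lit 3) (nat_lit 4) (nat_lit 1) (nat_lit 4) (nat_lit 396) (nat_lit 317) (nat_lit 307)) (XT.lf (nat_lit 0) (nat_lit 226215766319) (nat_lit 152)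 (nat_lit 1232553595515) (nat_lit 0) (nat_lit 225984275959) (nat_lit 1) (nat_lit 5) (nat_lit 3) (nat_lit 4) (nat_lit 1) (nat_lit 4) (nat_lit 397) (nat_lit 317) (nat_lit 306))) (XT.nd (nat_lit 78) (nat_lit 0) (nat_lit 0) (XT.lf (nat_lit 0) (nat_lit 263638591564) (nat_lit 152) (nat_lit 1410146452408) (nat_lit 0) (nat_lit 263398834183) (nat_lit 1) (nat_lit 5) (nat_lit 3) (nat_lit 4) (nat_lit 1) (nat_lit 4) (nat_lit 398) (nat_lit 317) (nat_lit 305)) (XT.lf (nat_lit 0) (nat_lit 306542678299) (nat_lit 152) (nat_lit 1614650818176) (nat_lit 0) (nat_lit 306295732204) (nat_lit 1) (nat_lit 5) (nat_lit 3) (nat_lit 4) (nat_lit 1) (nat_lit 4) (nat_lit 399) (nat_lit 317) (nat_lit 304)))) (XT.nd (nat_lit 156) (nat_lit 0) (nat_lit 0) (XT.nd (nat_lit 78) (nat_lit 0) (nat_lit 0) (XT.lf (nat_lit 0) (nat_lit 355767454307) (nat_lit 152) (nat_lit 1850067865191) (nat_lit 0) (nat_lit 355514257158) (nat_lit 1) (nat_lit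 5) (nat_lit 3) (nat_lit 4) (nat_lit 1) (nat_lit 4) (nat_lit 400) (nat_lit 317) (nat_lit 303)) (XT.lf (nat_lit 0) (nat_lit 412276013033) (nat_lit 152) (nat_lit 2121003579157) (nat_lit 0) (nat_lit 412017380184) (nat_lit 1) (nat_lit 5) (nat_lit 3) (nat_lit 4) (nat_lit 1) (nat_lit 4) (nat_lit 401) (nat_lit 317) (nat_lit 302))) (XT.nd (nat_lit 78) (nat_lit 0) (nat_lit 0) (XT.lf (nat_lit 0) (nat_lit 477173956713) (nat_lit 152) (nat_lit 2432758876217) (nat_lit 0) (nat_lit 476910597167) (nat_lit 1) (nat_lit 5) (nat_lit 3) (nat_lit 4) (nat_lit 1) (nat_lit 4) (nat_lit 402) (nat_lit 317) (nat_lit 301)) (XT.nd (nat_lit 78) (nat_lit 0) (nat_lit 0) (XT.lf (nat_lit 0) (nat_lit 551731027722) (nat_lit 152) (nat_lit 2791433316529) (nat_lit 0) (nat_lit 551463558006) (nat_lit 1) (nat_lit 5) (nat_lit 3) (nat_lit 4) (nat_lit 1) (nat_lit 4) (nat_lit 403) (nat_lit 317) (nat_lit 300)) (XT.lf (nat_lit 0) (nat_lit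 637405951363) (nat_lit 152) (nat_lit 3204044443492) (nat_lit 0) (nat_lit 637134907586) (nat_lit 1) (nat_lit 5) (nat_lit 3) (nat_lit 4) (nat_lit 1) (nat_lit 4) (nat_lit 404) (nat_lit 317) (nat_lit 299))))))) (XT.nd (nat_lit 624) (nat_lit 0) (nat_lit 0) (XT.nd (nat_lit 312) (nat_lit 0) (nat_lit 0) (XT.nd (nat_lit 156) (nat_lit 0) (nat_lit 0) (XT.nd (nat_lit 78) (nat_lit 0) (nat_lit 0) (XT.lf (nat_lit 0) (nat_lit 735874976143) (nat_lit 152) (nat_lit 3678665083503) (nat_lit 0) (nat_lit 735600824487) (nat_lit 1) (nat_lit 5) (nat_lit 3) (nat_lit 4) (nat_lit 1) (nat_lit 4) (nat_lit 405) (nat_lit 317) (nat_lit 298)) (XT.lf (nat_lit 0) (nat_lit 849064669936) (nat_lit 152) (nat_lit 4224581292562) (nat_lit 0) (nat_lit 848787815777) (nat_lit 1) (nat_lit 5) (nat_lit 3) (nat_lit 4) (nat_lit 1) (nat_lit 4) (nat_lit 406) (nat_lit 317) (nat_lit 297))) (XT.nd (nat_lit 78) (nat_lit 0) (nat_lit 0) (XT.lf (nat_lit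 0) (nat_lit 979189613710) (nat_lit 152) (nat_lit 4852474039976) (nat_lit 0) (nat_lit 978910409547) (nat_lit 1) (nat_lit 5) (nat_lit 3) (nat_lit 4) (nat_lit 1) (nat_lit 4) (nat_lit 407) (nat_lit 317) (nat_lit 296)) (XT.lf (nat_lit 0) (nat_lit 1128795730276) (nat_lit 152) (nat_lit 5574628183847) (nat_lit 0) (nat_lit 1128514482632) (nat_lit 1) (nat_lit 5) (nat_lit 3) (nat_lit 4) (nat_lit 1) (nat_lit 4) (nat_lit 408) (nat_lit 317) (nat_lit 295)))) (XT.nd (nat_lit 156) (nat_lit 0) (nat_lit 0) (XT.nd (nat_lit 78) (nat_lit 0) (nat_lit 0) (XT.lf (nat_lit 0) (nat_lit 1300810095829) (nat_lit 152) (nat_lit 6405172826990) (nat_lit 0) (nat_lit 1300527071244) (nat_lit 1) (nat_lit 5) (nat_lit 3) (nat_lit 4) (nat_lit 1) (nat_lit 4) (nat_lit 409) (nat_lit 317) (nat_lit 294)) (XT.lf (nat_lit 0) (nat_lit 1498598208824) (nat_lit 152) (nat_lit 7360357755902) (nat_lit 0) (nat_lit 1498313639075) (nat_lit 1) (nat_lit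 5) (nat_lit 3) (nat_lit 4) (nat_lit 1) (nat_lit 4) (nat_lit 410) (nat_lit 317) (nat_lit 293))) (XT.nd (nat_lit 78) (nat_lit 0) (nat_lit 0) (XT.lf (nat_lit 0) (nat_lit 1726029836691) (nat_lit 152) (nat_lit 8458871371365) (nat_lit 0) (nat_lit 1725743923319) (nat_lit 1) (nat_lit 5) (nat_lit 3) (nat_lit 4) (nat_lit 1) (nat_lit 4) (nat_lit 411) (nat_lit 317) (nat_lit 292)) (XT.lf (nat_lit 0) (nat_lit 1987554728669) (nat_lit 152) (nat_lit 9722206331073) (nat_lit 0) (nat_lit 1987267646931) (nat_lit 1) (nat_lit 5) (nat_lit 3) (nat_lit 4) (nat_lit 1) (nat_lit 4) (nat_lit 412) (nat_lit 317) (nat_lit 291))))) (XT.nd (nat_lit 312) (nat_lit 0) (nat_lit 0) (XT.nd (nat_lit 156) (nat_lit 0) (nat_lit 0) (XT.nd (nat_lit 78) (nat_lit 0) (nat_lit 0) (XT.lf (nat_lit 0) (nat_lit 2288289676124) (nat_lit 152) (nat_lit 11175080058151) (nat_lit 0) (nat_lit 2288001578415) (nat_lit 1) (nat_lit 5) (nat_lit 3) (nat_lit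 4) (nat_lit 1) (nat_lit 4) (nat_lit 413) (nat_lit 317) (nat_lit 290)) (XT.lf (nat_lit 0) (nat_lit 2634118623680) (nat_lit 152) (nat_lit 12845918342912) (nat_lit 0) (nat_lit 2633829642517) (nat_lit 1) (nat_lit 5) (nat_lit 3) (nat_lit 4) (nat_lit 1) (nat_lit 4) (nat_lit 414) (nat_lit 317) (nat_lit 289))) (XT.nd (nat_lit 78) (nat_lit 0) (nat_lit 0) (XT.lf (nat_lit 0) (nat_lit 3031807789876) (nat_lit 152) (nat_lit 14767411499621) (nat_lit 0) (nat_lit 3031518040493) (nat_lit 1) (nat_lit 5) (nat_lit 3) (nat_lit 4) (nat_lit 1) (nat_lit 4) (nat_lit 415) (nat_lit 317) (nat_lit 288)) (XT.lf (nat_lit 0) (nat_lit 3489138049703) (nat_lit 152) (nat_lit 16977153959607) (nat_lit 0) (nat_lit 3488847632302) (nat_lit 1) (nat_lit 5) (nat_lit 3) (nat_lit 4) (nat_lit 1) (nat_lit 4) (nat_lit 416) (nat_lit 317) (nat_lit 287)))) (XT.nd (nat_lit 156) (nat_lit 0) (nat_lit 0) (XT.nd (nat_lit 78) (nat_lit 0) (nat_lit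 0) (XT.lf (nat_lit 0) (nat_lit 4015057169113) (nat_lit 152) (nat_lit 19518379814478) (nat_lit 0) (nat_lit 4014766170828) (nat_lit 1) (nat_lit 5) (nat_lit 3) (nat_lit 4) (nat_lit 1) (nat_lit 4) (nat_lit 417) (nat_lit 317) (nat_lit 286)) (XT.lf (nat_lit 0) (nat_lit 4619854870009) (nat_lit 152) (nat_lit 22440808700524) (nat_lit 0) (nat_lit 4619563366606) (nat_lit 1) (nat_lit 5) (nat_lit 3) (nat_lit 4) (nat_lit 1) (nat_lit 4) (nat_lit 418) (nat_lit 317) (nat_lit 285))) (XT.nd (nat_lit 50388) (nat_lit 0) (nat_lit 0) (XT.lf (nat_lit 0) (nat_lit 5315364150886) (nat_lit 152) (nat_lit 25801618574213) (nat_lit 0) (nat_lit 5315072208251) (nat_lit 1) (nat_lit 5) (nat_lit 3) (nat_lit 4) (nat_lit 1) (nat_lit 4) (nat_lit 419) (nat_lit 317) (nat_lit 284)) (XT.nd (nat_lit 78) (nat_lit 0) (nat_lit 0) (XT.lf (nat_lit 0) (nat_lit 857325529) (nat_lit 152) (nat_lit 136608998698) (nat_lit 0) (nat_lit 857325529)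 (nat_lit 1) (nat_lit 5) (nat_lit 3) (nat_lit 4) (nat_lit 1) (nat_lit 4) (nat_lit 384) (nat_lit 318) (nat_lit 318)) (XT.lf (nat_lit 0) (nat_lit 10241757435) (nat_lit 152) (nat_lit 297039377583) (nat_lit 0) (nat_lit 10197526808) (nat_lit 1) (nat_lit 5) (nat_lit 3) (nat_lit 4) (nat_lit 1) (nat_lit 4) (nat_lit 385) (nat_lit 318) (nat_lit 317))))))))
noncomputable def xc9 : XT := (XT.nd (nat_lit 1326) (nat_lit 0) (nat_lit 0) (XT.nd (nat_lit 624) (nat_lit 0) (nat_lit 0) (XT.nd (nat_lit 312) (nat_lit 0) (nat_lit 0) (XT.nd (nat_lit 156) (nat_lit 0) (nat_lit 0) (XT.nd (nat_lit 78) (nat_lit 0) (nat_lit 0) (XT.lf (nat_lit 0) (nat_lit 19340828427) (nat_lit 152) (nat_lit 325892337792) (nat_lit 0) (nat_lit 19258136384) (nat_lit 1) (nat_lit 5) (nat_lit 3) (nat_lit 4) (nat_lit 1) (nat_lit 4) (nat_lit 386) (nat_lit 318) (nat_lit 316)) (XT.lf (nat_lit 0) (nat_lit 29189889334) (nat_lit 152) (nat_lit 360341392462)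 (nat_lit 0) (nat_lit 29073752582) (nat_lit 1) (nat_lit 5) (nat_lit 3) (nat_lit 4) (nat_lit 1) (nat_lit 4) (nat_lit 387) (nat_lit 318) (nat_lit 315))) (XT.nd (nat_lit 78) (nat_lit 0) (nat_lit 0) (XT.lf (nat_lit 0) (nat_lit 39981639175) (nat_lit 152) (nat_lit 401060544837) (nat_lit 0) (nat_lit 39836420067) (nat_lit 1) (nat_lit 5) (nat_lit 3) (nat_lit 4) (nat_lit 1) (nat_lit 4) (nat_lit 388) (nat_lit 318) (nat_lit 314)) (XT.lf (nat_lit 0) (nat_lit 51927220881) (nat_lit 152) (nat_lit 448846473986) (nat_lit 0) (nat_lit 51756712768) (nat_lit 1) (nat_lit 5) (nat_lit 3) (nat_lit 4) (nat_lit 1) (nat_lit 4) (nat_lit 389) (nat_lit 318) (nat_lit 313)))) (XT.nd (nat_lit 156) (nat_lit 0) (nat_lit 0) (XT.nd (nat_lit 78) (nat_lit 0) (nat_lit 0) (XT.lf (nat_lit 0) (nat_lit 65260352355) (nat_lit 152) (nat_lit 504634121999) (nat_lit 0) (nat_lit 65067853804) (nat_lit 1) (nat_lit 5) (nat_lit 3) (nat_lit 4) (nat_lit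 1) (nat_lit 4) (nat_lit 390) (nat_lit 318) (nat_lit 312)) (XT.lf (nat_lit 0) (nat_lit 80241899214) (nat_lit 152) (nat_lit 569514986339) (nat_lit 0) (nat_lit 80030278541) (nat_lit 1) (nat_lit 5) (nat_lit 3) (nat_lit 4) (nat_lit 1) (nat_lit 4) (nat_lit 391) (nat_lit 318) (nat_lit 311))) (XT.nd (nat_lit 78) (nat_lit 0) (nat_lit 0) (XT.lf (nat_lit 0) (nat_lit 97164978677) (nat_lit 152) (nat_lit 644758475220) (nat_lit 0) (nat_lit 96936730073) (nat_lit 1) (nat_lit 5) (nat_lit 3) (nat_lit 4) (nat_lit 1) (nat_lit 4) (nat_lit 392) (nat_lit 318) (nat_lit 310)) (XT.lf (nat_lit 0) (nat_lit 116360694475) (nat_lit 152) (nat_lit 731836743860) (nat_lit 0) (nat_lit 116117986800) (nat_lit 1) (nat_lit 5) (nat_lit 3) (nat_lit 4) (nat_lit 1) (nat_lit 4) (nat_lit 393) (nat_lit 318) (nat_lit 309))))) (XT.nd (nat_lit 312) (nat_lit 0) (nat_lit 0) (XT.nd (nat_lit 156) (nat_lit 0) (nat_lit 0) (XT.nd (nat_lit 78) (nat_lit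 0) (nat_lit 0) (XT.lf (nat_lit 0) (nat_lit 138204614958) (nat_lit 152) (nat_lit 832453497515) (nat_lit 0) (nat_lit 137949334179) (nat_lit 1) (nat_lit 5) (nat_lit 3) (nat_lit 4) (nat_lit 1) (nat_lit 4) (nat_lit 394) (nat_lit 318) (nat_lit 308)) (XT.lf (nat_lit 0) (nat_lit 163124121181) (nat_lit 152) (nat_lit 948577324843) (nat_lit 0) (nat_lit 162857907267) (nat_lit 1) (nat_lit 5) (nat_lit 3) (nat_lit 4) (nat_lit 1) (nat_lit 4) (nat_lit 395) (nat_lit 318) (nat_lit 307))) (XT.nd (nat_lit 78) (nat_lit 0) (nat_lit 0) (XT.lf (nat_lit 0) (nat_lit 191606768700) (nat_lit 152) (nat_lit 1082480213771) (nat_lit 0) (nat_lit 191331047712) (nat_lit 1) (nat_lit 5) (nat_lit 3) (nat_lit 4) (nat_lit 1) (nat_lit 4) (nat_lit 396) (nat_lit 318) (nat_lit 306)) (XT.lf (nat_lit 0) (nat_lit 224209826705) (nat_lit 152) (nat_lit 1236782003429) (nat_lit 0) (nat_lit 223925838697) (nat_lit 1) (nat_lit 5) (nat_lit 3) (nat_lit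 4) (nat_lit 1) (nat_lit 4) (nat_lit 397) (nat_lit 318) (nat_lit 305)))) (XT.nd (nat_lit 156) (nat_lit 0) (nat_lit 0) (XT.nd (nat_lit 78) (nat_lit 0) (nat_lit 0) (XT.lf (nat_lit 0) (nat_lit 261571181115) (nat_lit 152) (nat_lit 1414501641876) (nat_lit 0) (nat_lit 261280004393) (nat_lit 1) (nat_lit 5) (nat_lit 3) (nat_lit 4) (nat_lit 1) (nat_lit 4) (nat_lit 398) (nat_lit 318) (nat_lit 304)) (XT.lf (nat_lit 0) (nat_lit 304421814949) (nat_lit 152) (nat_lit 1619116252473) (nat_lit 0) (nat_lit 304124387172) (nat_lit 1) (nat_lit 5) (nat_lit 3) (nat_lit 4) (nat_lit 1) (nat_lit 4) (nat_lit 399) (nat_lit 318) (nat_lit 303))) (XT.nd (nat_lit 78) (nat_lit 0) (nat_lit 0) (XT.lf (nat_lit 0) (nat_lit 353600110174) (nat_lit 152) (nat_lit 1854629164557) (nat_lit 0) (nat_lit 353297246697) (nat_lit 1) (nat_lit 5) (nat_lit 3) (nat_lit 4) (nat_lit 1) (nat_lit 4) (nat_lit 400) (nat_lit 318) (nat_lit 302)) (XT.nd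 (nat_lit 78) (nat_lit 0) (nat_lit 0) (XT.lf (nat_lit 0) (nat_lit 410068250828) (nat_lit 152) (nat_lit 2125648239453) (nat_lit 0) (nat_lit 409760660655) (nat_lit 1) (nat_lit 5) (nat_lit 3) (nat_lit 4) (nat_lit 1) (nat_lit 4) (nat_lit 401) (nat_lit 318) (nat_lit 301)) (XT.lf (nat_lit 0) (nat_lit 474931048357) (nat_lit 152) (nat_lit 2437476024277) (nat_lit 0) (nat_lit 474619348014) (nat_lit 1) (nat_lit 5) (nat_lit 3) (nat_lit 4) (nat_lit 1) (nat_lit 4) (nat_lit 402) (nat_lit 318) (nat_lit 300))))))) (XT.nd (nat_lit 624) (nat_lit 0) (nat_lit 0) (XT.nd (nat_lit 312) (nat_lit 0) (nat_lit 0) (XT.nd (nat_lit 156) (nat_lit 0) (nat_lit 0) (XT.nd (nat_lit 78) (nat_lit 0) (nat_lit 0) (XT.lf (nat_lit 0) (nat_lit 549457557497) (nat_lit 152) (nat_lit 2796213497428) (nat_lit 0) (nat_lit 549142283093) (nat_lit 1) (nat_lit 5) (nat_lit 3) (nat_lit 4) (nat_lit 1) (nat_lit 4) (nat_lit 403) (nat_lit 318) (nat_lit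 299)) (XT.lf (nat_lit 0) (nat_lit 635105905600) (nat_lit 152) (nat_lit 3208879435555) (nat_lit 0) (nat_lit 634787523316) (nat_lit 1) (nat_lit 5) (nat_lit 3) (nat_lit 4) (nat_lit 1) (nat_lit 4) (nat_lit 404) (nat_lit 318) (nat_lit 298))) (XT.nd (nat_lit 78) (nat_lit 0) (nat_lit 0) (XT.lf (nat_lit 0) (nat_lit 733551821215) (nat_lit 152) (nat_lit 3683547737448) (nat_lit 0) (nat_lit 733230736428) (nat_lit 1) (nat_lit 5) (nat_lit 3) (nat_lit 4) (nat_lit 1) (nat_lit 4) (nat_lit 405) (nat_lit 318) (nat_lit 297)) (XT.lf (nat_lit 0) (nat_lit 846721420084) (nat_lit 152) (nat_lit 4229505391622) (nat_lit 0) (nat_lit 846397985293) (nat_lit 1) (nat_lit 5) (nat_lit 3) (nat_lit 4) (nat_lit 1) (nat_lit 4) (nat_lit 406) (nat_lit 318) (nat_lit 296)))) (XT.nd (nat_lit 156) (nat_lit 0) (nat_lit 0) (XT.nd (nat_lit 78) (nat_lit 0) (nat_lit 0) (XT.lf (nat_lit 0) (nat_lit 976828890009) (nat_lit 152) (nat_lit 4857434178266)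 (nat_lit 0) (nat_lit 976503411737) (nat_lit 1) (nat_lit 5) (nat_lit 3) (nat_lit 4) (nat_lit 1) (nat_lit 4) (nat_lit 407) (nat_lit 318) (nat_lit 295)) (XT.lf (nat_lit 0) (nat_lit 1126419811925) (nat_lit 152) (nat_lit 5579619660598) (nat_lit 0) (nat_lit 1126092556713) (nat_lit 1) (nat_lit 5) (nat_lit 3) (nat_lit 4) (nat_lit 1) (nat_lit 4) (nat_lit 408) (nat_lit 318) (nat_lit 294))) (XT.nd (nat_lit 78) (nat_lit 0) (nat_lit 0) (XT.lf (nat_lit 0) (nat_lit 1298420964738) (nat_lit 152) (nat_lit 6410191554577) (nat_lit 0) (nat_lit 1298092164361) (nat_lit 1) (nat_lit 5) (nat_lit 3) (nat_lit 4) (nat_lit 1) (nat_lit 4) (nat_lit 409) (nat_lit 318) (nat_lit 293)) (XT.lf (nat_lit 0) (nat_lit 1496197588395) (nat_lit 152) (nat_lit 7365400179868) (nat_lit 0) (nat_lit 1495867444396) (nat_lit 1) (nat_lit 5) (nat_lit 3) (nat_lit 4) (nat_lit 1) (nat_lit 4) (nat_lit 410) (nat_lit 318) (nat_lit 292))))) (XT.nd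 (nat_lit 312) (nat_lit 0) (nat_lit 0) (XT.nd (nat_lit 156) (nat_lit 0) (nat_lit 0) (XT.nd (nat_lit 78) (nat_lit 0) (nat_lit 0) (XT.lf (nat_lit 0) (nat_lit 1723619225532) (nat_lit 152) (nat_lit 8463934400878) (nat_lit 0) (nat_lit 1723287913166) (nat_lit 1) (nat_lit 5) (nat_lit 3) (nat_lit 4) (nat_lit 1) (nat_lit 4) (nat_lit 411) (nat_lit 318) (nat_lit 291)) (XT.lf (nat_lit 0) (nat_lit 1985135429919) (nat_lit 152) (nat_lit 9727287278453) (nat_lit 0) (nat_lit 1984803101582) (nat_lit 1) (nat_lit 5) (nat_lit 3) (nat_lit 4) (nat_lit 1) (nat_lit 4) (nat_lit 412) (nat_lit 318) (nat_lit 290))) (XT.nd (nat_lit 78) (nat_lit 0) (nat_lit 0) (XT.lf (nat_lit 0) (nat_lit 2285862822948) (nat_lit 152) (nat_lit 11180176586285) (nat_lit 0) (nat_lit 2285529611157) (nat_lit 1) (nat_lit 5) (nat_lit 3) (nat_lit 4) (nat_lit 1) (nat_lit 4) (nat_lit 413) (nat_lit 318) (nat_lit 289)) (XT.lf (nat_lit 0) (nat_lit 2631685201437)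 (nat_lit 152) (nat_lit 12851028419526) (nat_lit 0) (nat_lit 2631351221426) (nat_lit 1) (nat_lit 5) (nat_lit 3) (nat_lit 4) (nat_lit 1) (nat_lit 4) (nat_lit 414) (nat_lit 318) (nat_lit 288)))) (XT.nd (nat_lit 156) (nat_lit 0) (nat_lit 0) (XT.nd (nat_lit 78) (nat_lit 0) (nat_lit 0) (XT.lf (nat_lit 0) (nat_lit 3029368655401) (nat_lit 152) (nat_lit 14772533357524) (nat_lit 0) (nat_lit 3029034007373) (nat_lit 1) (nat_lit 5) (nat_lit 3) (nat_lit 4) (nat_lit 1) (nat_lit 4) (nat_lit 415) (nat_lit 318) (nat_lit 287)) (XT.lf (nat_lit 0) (nat_lit 3486693948070) (nat_lit 152) (nat_lit 16982286062109) (nat_lit 0) (nat_lit 3486358719157) (nat_lit 1) (nat_lit 5) (nat_lit 3) (nat_lit 4) (nat_lit 1) (nat_lit 4) (nat_lit 416) (nat_lit 318) (nat_lit 286))) (XT.nd (nat_lit 78) (nat_lit 0) (nat_lit 0) (XT.lf (nat_lit 0) (nat_lit 4012608748212) (nat_lit 152) (nat_lit 19523520825326) (nat_lit 0) (nat_lit 4012273014182)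 (nat_lit 1) (nat_lit 5) (nat_lit 3) (nat_lit 4) (nat_lit 1) (nat_lit 4) (nat_lit 417) (nat_lit 318) (nat_lit 285)) (XT.nd (nat_lit 78) (nat_lit 0) (nat_lit 0) (XT.lf (nat_lit 0) (nat_lit 4617402693223) (nat_lit 152) (nat_lit 22445957457761) (nat_lit 0) (nat_lit 4617066519960) (nat_lit 1) (nat_lit 5) (nat_lit 3) (nat_lit 4) (nat_lit 1) (nat_lit 4) (nat_lit 418) (nat_lit 318) (nat_lit 284)) (XT.lf (nat_lit 0) (nat_lit 5312908708113) (nat_lit 152) (nat_lit 25806774067439) (nat_lit 0) (nat_lit 5312572152909) (nat_lit 1) (nat_lit 5) (nat_lit 3) (nat_lit 4) (nat_lit 1) (nat_lit 4) (nat_lit 419) (nat_lit 318) (nat_lit 283))))))))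
noncomputable def xc10 : XT := (XT.nd (nat_lit 1326) (nat_lit 0) (nat_lit 0) (XT.nd (nat_lit 624) (nat_lit 0) (nat_lit 0) (XT.nd (nat_lit 312) (nat_lit 0) (nat_lit 0) (XT.nd (nat_lit 156) (nat_lit 152) (nat_lit 0) (XT.nd (nat_lit 78) (nat_lit 0) (nat_lit 0) (XT.lf (nat_lit 0) (nat_lit 91699925020) (nat_lit 76) (nat_lit 6723983766) (nat_lit 76) (nat_lit 6723983766) (nat_lit 3) (nat_lit 4) (nat_lit 4) (nat_lit 5) (nat_lit 4) (nat_lit 4) (nat_lit 382) (nat_lit 319) (nat_lit 319)) (XT.lf (nat_lit 0) (nat_lit 228707902881) (nat_lit 76) (nat_lit 6247793098) (nat_lit 76) (nat_lit 6192858658) (nat_lit 3) (nat_lit 4) (nat_lit 4) (nat_lit 5) (nat_lit 4) (nat_lit 4) (nat_lit 383) (nat_lit 319) (nat_lit 318))) (XT.nd (nat_lit 78) (nat_lit 0) (nat_lit 0) (XT.lf (nat_lit 0) (nat_lit 1387299282) (nat_lit 152) (nat_lit 273998057370) (nat_lit 0) (nat_lit 1292203433) (nat_lit 1) (nat_lit 5) (nat_lit 3) (nat_lit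 4) (nat_lit 1) (nat_lit 4) (nat_lit 384) (nat_lit 319) (nat_lit 317)) (XT.lf (nat_lit 0) (nat_lit 9585521314) (nat_lit 152) (nat_lit 298497750577) (nat_lit 0) (nat_lit 9451964050) (nat_lit 1) (nat_lit 5) (nat_lit 3) (nat_lit 4) (nat_lit 1) (nat_lit 4) (nat_lit 385) (nat_lit 319) (nat_lit 316)))) (XT.nd (nat_lit 156) (nat_lit 0) (nat_lit 0) (XT.nd (nat_lit 78) (nat_lit 0) (nat_lit 0) (XT.lf (nat_lit 0) (nat_lit 18398605918) (nat_lit 152) (nat_lit 327940548195) (nat_lit 0) (nat_lit 18231603945) (nat_lit 1) (nat_lit 5) (nat_lit 3) (nat_lit 4) (nat_lit 1) (nat_lit 4) (nat_lit 386) (nat_lit 319) (nat_lit 315)) (XT.lf (nat_lit 0) (nat_lit 27998983011) (nat_lit 152) (nat_lit 362902504961) (nat_lit 0) (nat_lit 27802898681) (nat_lit 1) (nat_lit 5) (nat_lit 3) (nat_lit 4) (nat_lit 1) (nat_lit 4) (nat_lit 387) (nat_lit 319) (nat_lit 314))) (XT.nd (nat_lit 78) (nat_lit 0) (nat_lit 0) (XT.lf (nat_lit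 0) (nat_lit 38574486056) (nat_lit 152) (nat_lit 404067659158) (nat_lit 0) (nat_lit 38353112721) (nat_lit 1) (nat_lit 5) (nat_lit 3) (nat_lit 4) (nat_lit 1) (nat_lit 4) (nat_lit 388) (nat_lit 319) (nat_lit 313)) (XT.lf (nat_lit 0) (nat_lit 50332027070) (nat_lit 152) (nat_lit 452241415977) (nat_lit 0) (nat_lit 50088663296) (nat_lit 1) (nat_lit 5) (nat_lit 3) (nat_lit 4) (nat_lit 1) (nat_lit 4) (nat_lit 389) (nat_lit 319) (nat_lit 312))))) (XT.nd (nat_lit 312) (nat_lit 0) (nat_lit 0) (XT.nd (nat_lit 156) (nat_lit 0) (nat_lit 0) (XT.nd (nat_lit 78) (nat_lit 0) (nat_lit 0) (XT.lf (nat_lit 0) (nat_lit 63501644899) (nat_lit 152) (nat_lit 508366305444) (nat_lit 0) (nat_lit 63239159005) (nat_lit 1) (nat_lit 5) (nat_lit 3) (nat_lit 4) (nat_lit 1) (nat_lit 4) (nat_lit 390) (nat_lit 319) (nat_lit 311)) (XT.lf (nat_lit 0) (nat_lit 78341005979) (nat_lit 152) (nat_lit 573540423221) (nat_lit 0) (nat_lit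 78061892153) (nat_lit 1) (nat_lit 5) (nat_lit 3) (nat_lit 4) (nat_lit 1) (nat_lit 4) (nat_lit 391) (nat_lit 319) (nat_lit 310))) (XT.nd (nat_lit 78) (nat_lit 0) (nat_lit 0) (XT.lf (nat_lit 0) (nat_lit 95140445635) (nat_lit 152) (nat_lit 649038915092) (nat_lit 0) (nat_lit 94846872739) (nat_lit 1) (nat_lit 5) (nat_lit 3) (nat_lit 4) (nat_lit 1) (nat_lit 4) (nat_lit 392) (nat_lit 319) (nat_lit 309)) (XT.lf (nat_lit 0) (nat_lit 114228648557) (nat_lit 152) (nat_lit 736338925461) (nat_lit 0) (nat_lit 113922502555) (nat_lit 1) (nat_lit 5) (nat_lit 3) (nat_lit 4) (nat_lit 1) (nat_lit 4) (nat_lit 393) (nat_lit 319) (nat_lit 308)))) (XT.nd (nat_lit 156) (nat_lit 0) (nat_lit 0) (XT.nd (nat_lit 78) (nat_lit 0) (nat_lit 0) (XT.lf (nat_lit 0) (nat_lit 135979079583) (nat_lit 152) (nat_lit 837148498012) (nat_lit 0) (nat_lit 135662000447) (nat_lit 1) (nat_lit 5) (nat_lit 3) (nat_lit 4) (nat_lit 1) (nat_lit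 4) (nat_lit 394) (nat_lit 319) (nat_lit 307)) (XT.lf (nat_lit 0) (nat_lit 160817290626) (nat_lit 152) (nat_lit 953439993944) (nat_lit 0) (nat_lit 160490704416) (nat_lit 1) (nat_lit 5) (nat_lit 3) (nat_lit 4) (nat_lit 1) (nat_lit 4) (nat_lit 395) (nat_lit 319) (nat_lit 306))) (XT.nd (nat_lit 78) (nat_lit 0) (nat_lit 0) (XT.lf (nat_lit 0) (nat_lit 189229246683) (nat_lit 152) (nat_lit 1087488681659) (nat_lit 0) (nat_lit 188894393453) (nat_lit 1) (nat_lit 5) (nat_lit 3) (nat_lit 4) (nat_lit 1) (nat_lit 4) (nat_lit 396) (nat_lit 319) (nat_lit 305)) (XT.nd (nat_lit 78) (nat_lit 0) (nat_lit 0) (XT.lf (nat_lit 0) (nat_lit 221770833853) (nat_lit 152) (nat_lit 1241917252870) (nat_lit 0) (nat_lit 221428791909) (nat_lit 1) (nat_lit 5) (nat_lit 3) (nat_lit 4) (nat_lit 1) (nat_lit 4) (nat_lit 397) (nat_lit 319) (nat_lit 304)) (XT.lf (nat_lit 0) (nat_lit 259078735361) (nat_lit 152) (nat_lit 1419747136146)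 (nat_lit 0) (nat_lit 258730442363) (nat_lit 1) (nat_lit 5) (nat_lit 3) (nat_lit 4) (nat_lit 1) (nat_lit 4) (nat_lit 398) (nat_lit 319) (nat_lit 303))))))) (XT.nd (nat_lit 624) (nat_lit 0) (nat_lit 0) (XT.nd (nat_lit 312) (nat_lit 0) (nat_lit 0) (XT.nd (nat_lit 156) (nat_lit 0) (nat_lit 0) (XT.nd (nat_lit 78) (nat_lit 0) (nat_lit 0) (XT.lf (nat_lit 0) (nat_lit 301882888412) (nat_lit 152) (nat_lit 1624457611812) (nat_lit 0) (nat_lit 301529159713) (nat_lit 1) (nat_lit 5) (nat_lit 3) (nat_lit 4) (nat_lit 1) (nat_lit 4) (nat_lit 399) (nat_lit 319) (nat_lit 302)) (XT.lf (nat_lit 0) (nat_lit 351020765566) (nat_lit 152) (nat_lit 1860053884826) (nat_lit 0) (nat_lit 350662310171) (nat_lit 1) (nat_lit 5) (nat_lit 3) (nat_lit 4) (nat_lit 1) (nat_lit 4) (nat_lit 400) (nat_lit 319) (nat_lit 301))) (XT.nd (nat_lit 78) (nat_lit 0) (nat_lit 0) (XT.lf (nat_lit 0) (nat_lit 407453760069) (nat_lit 152) (nat_lit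 2131145447486) (nat_lit 0) (nat_lit 407091194504) (nat_lit 1) (nat_lit 5) (nat_lit 3) (nat_lit 4) (nat_lit 1) (nat_lit 4) (nat_lit 401) (nat_lit 319) (nat_lit 300)) (XT.lf (nat_lit 0) (nat_lit 472285995730) (nat_lit 152) (nat_lit 2443036265149) (nat_lit 0) (nat_lit 471919856103) (nat_lit 1) (nat_lit 5) (nat_lit 3) (nat_lit 4) (nat_lit 1) (nat_lit 4) (nat_lit 402) (nat_lit 319) (nat_lit 299)))) (XT.nd (nat_lit 156) (nat_lit 0) (nat_lit 0) (XT.nd (nat_lit 78) (nat_lit 0) (nat_lit 0) (XT.lf (nat_lit 0) (nat_lit 546785929331) (nat_lit 152) (nat_lit 2801828549465) (nat_lit 0) (nat_lit 546416681825) (nat_lit 1) (nat_lit 5) (nat_lit 3) (nat_lit 4) (nat_lit 1) (nat_lit 4) (nat_lit 403) (nat_lit 319) (nat_lit 298)) (XT.lf (nat_lit 0) (nat_lit 632411168269) (nat_lit 152) (nat_lit 3214542149474) (nat_lit 0) (nat_lit 632039218260) (nat_lit 1) (nat_lit 5) (nat_lit 3) (nat_lit 4) (nat_lit 1) (nat_lit 4)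 (nat_lit 404) (nat_lit 319) (nat_lit 297))) (XT.nd (nat_lit 78) (nat_lit 0) (nat_lit 0) (XT.lf (nat_lit 0) (nat_lit 730836988960) (nat_lit 152) (nat_lit 3689251896482) (nat_lit 0) (nat_lit 730462688947) (nat_lit 1) (nat_lit 5) (nat_lit 3) (nat_lit 4) (nat_lit 1) (nat_lit 4) (nat_lit 405) (nat_lit 319) (nat_lit 296)) (XT.lf (nat_lit 0) (nat_lit 843989113980) (nat_lit 152) (nat_lit 4235245589886) (nat_lit 0) (nat_lit 843612770486) (nat_lit 1) (nat_lit 5) (nat_lit 3) (nat_lit 4) (nat_lit 1) (nat_lit 4) (nat_lit 406) (nat_lit 319) (nat_lit 295))))) (XT.nd (nat_lit 312) (nat_lit 0) (nat_lit 0) (XT.nd (nat_lit 156) (nat_lit 0) (nat_lit 0) (XT.nd (nat_lit 78) (nat_lit 0) (nat_lit 0) (XT.lf (nat_lit 0) (nat_lit 974081389255) (nat_lit 152) (nat_lit 4863205714991) (nat_lit 0) (nat_lit 973703268821) (nat_lit 1) (nat_lit 5) (nat_lit 3) (nat_lit 4) (nat_lit 1) (nat_lit 4) (nat_lit 407) (nat_lit 319) (nat_lit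 294)) (XT.lf (nat_lit 0) (nat_lit 1123659098431) (nat_lit 152) (nat_lit 5585418448159) (nat_lit 0) (nat_lit 1123279432832) (nat_lit 1) (nat_lit 5) (nat_lit 3) (nat_lit 4) (nat_lit 1) (nat_lit 4) (nat_lit 408) (nat_lit 319) (nat_lit 293))) (XT.nd (nat_lit 78) (nat_lit 0) (nat_lit 0) (XT.lf (nat_lit 0) (nat_lit 1295648761905) (nat_lit 152) (nat_lit 6416014038517) (nat_lit 0) (nat_lit 1295267752684) (nat_lit 1) (nat_lit 5) (nat_lit 3) (nat_lit 4) (nat_lit 1) (nat_lit 4) (nat_lit 409) (nat_lit 319) (nat_lit 292)) (XT.lf (nat_lit 0) (nat_lit 1493415394833) (nat_lit 152) (nat_lit 7371243269354) (nat_lit 0) (nat_lit 1493033217245) (nat_lit 1) (nat_lit 5) (nat_lit 3) (nat_lit 4) (nat_lit 1) (nat_lit 4) (nat_lit 410) (nat_lit 319) (nat_lit 291)))) (XT.nd (nat_lit 156) (nat_lit 0) (nat_lit 0) (XT.nd (nat_lit 78) (nat_lit 0) (nat_lit 0) (XT.lf (nat_lit 0) (nat_lit 1720828344379) (nat_lit 152) (nat_lit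 8469795408231) (nat_lit 0) (nat_lit 1720445150820) (nat_lit 1) (nat_lit 5) (nat_lit 3) (nat_lit 4) (nat_lit 1) (nat_lit 4) (nat_lit 411) (nat_lit 319) (nat_lit 290)) (XT.lf (nat_lit 0) (nat_lit 1982336994340) (nat_lit 152) (nat_lit 9733163866560) (nat_lit 0) (nat_lit 1981952917328) (nat_lit 1) (nat_lit 5) (nat_lit 3) (nat_lit 4) (nat_lit 1) (nat_lit 4) (nat_lit 412) (nat_lit 319) (nat_lit 289))) (XT.nd (nat_lit 78) (nat_lit 0) (nat_lit 0) (XT.lf (nat_lit 0) (nat_lit 2283057818302) (nat_lit 152) (nat_lit 11186066722873) (nat_lit 0) (nat_lit 2282672973069) (nat_lit 1) (nat_lit 5) (nat_lit 3) (nat_lit 4) (nat_lit 1) (nat_lit 4) (nat_lit 413) (nat_lit 319) (nat_lit 288)) (XT.nd (nat_lit 78) (nat_lit 0) (nat_lit 0) (XT.lf (nat_lit 0) (nat_lit 2628874484559) (nat_lit 152) (nat_lit 12856930337403) (nat_lit 0) (nat_lit 2628488971309) (nat_lit 1) (nat_lit 5) (nat_lit 3) (nat_lit 4) (nat_lit 1) (nat_lit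 4) (nat_lit 414) (nat_lit 319) (nat_lit 287)) (XT.lf (nat_lit 0) (nat_lit 3026552971365) (nat_lit 152) (nat_lit 14778445520000) (nat_lit 0) (nat_lit 3026166877230) (nat_lit 1) (nat_lit 5) (nat_lit 3) (nat_lit 4) (nat_lit 1) (nat_lit 4) (nat_lit 415) (nat_lit 319) (nat_lit 286))))))))
noncomputable def xc11 : XT := (XT.nd (nat_lit 51324) (nat_lit 0) (nat_lit 0) (XT.nd (nat_lit 50622) (nat_lit 0) (nat_lit 0) (XT.nd (nat_lit 50310) (nat_lit 0) (nat_lit 152) (XT.nd (nat_lit 156) (nat_lit 0) (nat_lit 0) (XT.nd (nat_lit 78) (nat_lit 0) (nat_lit 0) (XT.lf (nat_lit 0) (nat_lit 3483873944765) (nat_lit 152) (nat_lit 16988207132931) (nat_lit 0) (nat_lit 3483487345513) (nat_lit 1) (nat_lit 5) (nat_lit 3) (nat_lit 4) (nat_lit 1) (nat_lit 4) (nat_lit 416) (nat_lit 319) (nat_lit 285)) (XT.lf (nat_lit 0) (nat_lit 4009784989023) (nat_lit 152) (nat_lit 19529449642536) (nat_lit 0) (nat_lit 4009397950538) (nat_lit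 1) (nat_lit 5) (nat_lit 3) (nat_lit 4) (nat_lit 1) (nat_lit 4) (nat_lit 417) (nat_lit 319) (nat_lit 284))) (XT.nd (nat_lit 78) (nat_lit 0) (nat_lit 0) (XT.lf (nat_lit 0) (nat_lit 4614575668046) (nat_lit 152) (nat_lit 22451893010961) (nat_lit 0) (nat_lit 4614188247621) (nat_lit 1) (nat_lit 5) (nat_lit 3) (nat_lit 4) (nat_lit 1) (nat_lit 4) (nat_lit 418) (nat_lit 319) (nat_lit 283)) (XT.lf (nat_lit 0) (nat_lit 5310078842948) (nat_lit 152) (nat_lit 25812715478021) (nat_lit 0) (nat_lit 5309691090399) (nat_lit 1) (nat_lit 5) (nat_lit 3) (nat_lit 4) (nat_lit 1) (nat_lit 4) (nat_lit 419) (nat_lit 319) (nat_lit 282)))) (XT.nd (nat_lit 156) (nat_lit 0) (nat_lit 0) (XT.nd (nat_lit 78) (nat_lit 0) (nat_lit 0) (XT.lf (nat_lit 0) (nat_lit 53052726925) (nat_lit 76) (nat_lit 13543506106) (nat_lit 76) (nat_lit 13543506106) (nat_lit 3) (nat_lit 4) (nat_lit 4) (nat_lit 5) (nat_lit 4) (nat_lit 4) (nat_lit 380)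 (nat_lit 320) (nat_lit 320)) (XT.lf (nat_lit 0) (nat_lit 142489058561) (nat_lit 76) (nat_lit 20550089045) (nat_lit 76) (nat_lit 20486914440) (nat_lit 3) (nat_lit 4) (nat_lit 4) (nat_lit 5) (nat_lit 4) (nat_lit 4) (nat_lit 381) (nat_lit 320) (nat_lit 319))) (XT.nd (nat_lit 78) (nat_lit 0) (nat_lit 0) (XT.lf (nat_lit 0) (nat_lit 182590846617) (nat_lit 76) (nat_lit 13927241909) (nat_lit 76) (nat_lit 13809132864) (nat_lit 3) (nat_lit 4) (nat_lit 4) (nat_lit 5) (nat_lit 4) (nat_lit 4) (nat_lit 382) (nat_lit 320) (nat_lit 318)) (XT.lf (nat_lit 0) (nat_lit 227195418218) (nat_lit 76) (nat_lit 7088893362) (nat_lit 76) (nat_lit 6923015239) (nat_lit 3) (nat_lit 4) (nat_lit 4) (nat_lit 5) (nat_lit 4) (nat_lit 4) (nat_lit 383) (nat_lit 320) (nat_lit 317))))) (XT.nd (nat_lit 312) (nat_lit 0) (nat_lit 0) (XT.nd (nat_lit 156) (nat_lit 0) (nat_lit 0) (XT.nd (nat_lit 78) (nat_lit 0) (nat_lit 0) (XT.lf (nat_lit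 0) (nat_lit 303743398) (nat_lit 152) (nat_lit 276353499334) (nat_lit 0) (nat_lit 111691128) (nat_lit 1) (nat_lit 5) (nat_lit 3) (nat_lit 4) (nat_lit 1) (nat_lit 4) (nat_lit 384) (nat_lit 320) (nat_lit 316)) (XT.lf (nat_lit 0) (nat_lit 8215979042) (nat_lit 152) (nat_lit 301443029951) (nat_lit 0) (nat_lit 7990482063) (nat_lit 1) (nat_lit 5) (nat_lit 3) (nat_lit 4) (nat_lit 1) (nat_lit 4) (nat_lit 385) (nat_lit 320) (nat_lit 315))) (XT.nd (nat_lit 78) (nat_lit 0) (nat_lit 0) (XT.lf (nat_lit 0) (nat_lit 16780379831) (nat_lit 152) (nat_lit 331398729664) (nat_lit 0) (nat_lit 16525800497) (nat_lit 1) (nat_lit 5) (nat_lit 3) (nat_lit 4) (nat_lit 1) (nat_lit 4) (nat_lit 386) (nat_lit 320) (nat_lit 314)) (XT.lf (nat_lit 0) (nat_lit 26164510128) (nat_lit 152) (nat_lit 366806688251) (nat_lit 0) (nat_lit 25884641788) (nat_lit 1) (nat_lit 5) (nat_lit 3) (nat_lit 4) (nat_lit 1) (nat_lit 4) (nat_lit 387)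 (nat_lit 320) (nat_lit 313)))) (XT.nd (nat_lit 156) (nat_lit 0) (nat_lit 0) (XT.nd (nat_lit 78) (nat_lit 0) (nat_lit 0) (XT.lf (nat_lit 0) (nat_lit 36551972481) (nat_lit 152) (nat_lit 408359670119) (nat_lit 0) (nat_lit 36250113702) (nat_lit 1) (nat_lit 5) (nat_lit 3) (nat_lit 4) (nat_lit 1) (nat_lit 4) (nat_lit 388) (nat_lit 320) (nat_lit 312)) (XT.lf (nat_lit 0) (nat_lit 48145999850) (nat_lit 152) (nat_lit 456870668392) (nat_lit 0) (nat_lit 47825018950) (nat_lit 1) (nat_lit 5) (nat_lit 3) (nat_lit 4) (nat_lit 1) (nat_lit 4) (nat_lit 389) (nat_lit 320) (nat_lit 311))) (XT.nd (nat_lit 78) (nat_lit 0) (nat_lit 0) (XT.lf (nat_lit 0) (nat_lit 61173431901) (nat_lit 152) (nat_lit 513288811296) (nat_lit 0) (nat_lit 60835823070) (nat_lit 1) (nat_lit 5) (nat_lit 3) (nat_lit 4) (nat_lit 1) (nat_lit 4) (nat_lit 390) (nat_lit 320) (nat_lit 310)) (XT.nd (nat_lit 78) (nat_lit 0) (nat_lit 0) (XT.lf (nat_lit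 0) (nat_lit 75889153173) (nat_lit 152) (nat_lit 578717932062) (nat_lit 0) (nat_lit 75537085272) (nat_lit 1) (nat_lit 5) (nat_lit 3) (nat_lit 4) (nat_lit 1) (nat_lit 4) (nat_lit 391) (nat_lit 320) (nat_lit 309)) (XT.lf (nat_lit 0) (nat_lit 92581079954) (nat_lit 152) (nat_lit 654438165662) (nat_lit 0) (nat_lit 92216438947) (nat_lit 1) (nat_lit 5) (nat_lit 3) (nat_lit 4) (nat_lit 1) (nat_lit 4) (nat_lit 392) (nat_lit 320) (nat_lit 308))))))) (XT.nd (nat_lit 702) (nat_lit 0) (nat_lit 0) (XT.nd (nat_lit 312) (nat_lit 0) (nat_lit 0) (XT.nd (nat_lit 156) (nat_lit 0) (nat_lit 0) (XT.nd (nat_lit 78) (nat_lit 0) (nat_lit 0) (XT.lf (nat_lit 0) (nat_lit 111575793418) (nat_lit 152) (nat_lit 741930994928) (nat_lit 0) (nat_lit 111200219277) (nat_lit 1) (nat_lit 5) (nat_lit 3) (nat_lit 4) (nat_lit 1) (nat_lit 4) (nat_lit 393) (nat_lit 320) (nat_lit 307)) (XT.lf (nat_lit 0) (nat_lit 133244929264) (nat_lit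 152) (nat_lit 842908236082) (nat_lit 0) (nat_lit 132859848049) (nat_lit 1) (nat_lit 5) (nat_lit 3) (nat_lit 4) (nat_lit 1) (nat_lit 4) (nat_lit 394) (nat_lit 320) (nat_lit 306))) (XT.nd (nat_lit 78) (nat_lit 0) (nat_lit 0) (XT.lf (nat_lit 0) (nat_lit 158012448845) (nat_lit 152) (nat_lit 959345530802) (nat_lit 0) (nat_lit 157619100610) (nat_lit 1) (nat_lit 5) (nat_lit 3) (nat_lit 4) (nat_lit 1) (nat_lit 4) (nat_lit 395) (nat_lit 320) (nat_lit 305)) (XT.lf (nat_lit 0) (nat_lit 186362934067) (nat_lit 152) (nat_lit 1093521000070) (nat_lit 0) (nat_lit 185962397119) (nat_lit 1) (nat_lit 5) (nat_lit 3) (nat_lit 4) (nat_lit 1) (nat_lit 4) (nat_lit 396) (nat_lit 320) (nat_lit 304)))) (XT.nd (nat_lit 156) (nat_lit 0) (nat_lit 0) (XT.nd (nat_lit 78) (nat_lit 0) (nat_lit 0) (XT.lf (nat_lit 0) (nat_lit 218851068336) (nat_lit 152) (nat_lit 1248059816111) (nat_lit 0) (nat_lit 218444280332) (nat_lit 1) (nat_lit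 5) (nat_lit 3) (nat_lit 4) (nat_lit 1) (nat_lit 4) (nat_lit 397) (nat_lit 320) (nat_lit 303)) (XT.lf (nat_lit 0) (nat_lit 256112489062) (nat_lit 152) (nat_lit 1425985564456) (nat_lit 0) (nat_lit 255700265357) (nat_lit 1) (nat_lit 5) (nat_lit 3) (nat_lit 4) (nat_lit 1) (nat_lit 4) (nat_lit 398) (nat_lit 320) (nat_lit 302))) (XT.nd (nat_lit 78) (nat_lit 0) (nat_lit 0) (XT.lf (nat_lit 0) (nat_lit 298876224040) (nat_lit 152) (nat_lit 1630779401051) (nat_lit 0) (nat_lit 298459273640) (nat_lit 1) (nat_lit 5) (nat_lit 3) (nat_lit 4) (nat_lit 1) (nat_lit 4) (nat_lit 399) (nat_lit 320) (nat_lit 301)) (XT.nd (nat_lit 78) (nat_lit 0) (nat_lit 0) (XT.lf (nat_lit 0) (nat_lit 347978955043) (nat_lit 152) (nat_lit 1866448161830) (nat_lit 0) (nat_lit 347557894473) (nat_lit 1) (nat_lit 5) (nat_lit 3) (nat_lit 4) (nat_lit 1) (nat_lit 4) (nat_lit 400) (nat_lit 320) (nat_lit 300)) (XT.lf (nat_lit 0) (nat_lit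 404381387678) (nat_lit 152) (nat_lit 2137602757329) (nat_lit 0) (nat_lit 403956753046) (nat_lit 1) (nat_lit 5) (nat_lit 3) (nat_lit 4) (nat_lit 1) (nat_lit 4) (nat_lit 401) (nat_lit 320) (nat_lit 299)))))) (XT.nd (nat_lit 312) (nat_lit 0) (nat_lit 0) (XT.nd (nat_lit 156) (nat_lit 0) (nat_lit 0) (XT.nd (nat_lit 78) (nat_lit 0) (nat_lit 0) (XT.lf (nat_lit 0) (nat_lit 469187047799) (nat_lit 152) (nat_lit 2449548386156) (nat_lit 0) (nat_lit 468759305289) (nat_lit 1) (nat_lit 5) (nat_lit 3) (nat_lit 4) (nat_lit 1) (nat_lit 4) (nat_lit 402) (nat_lit 320) (nat_lit 298)) (XT.lf (nat_lit 0) (nat_lit 543663872237) (nat_lit 152) (nat_lit 2808388332354) (nat_lit 0) (nat_lit 543233427222) (nat_lit 1) (nat_lit 5) (nat_lit 3) (nat_lit 4) (nat_lit 1) (nat_lit 4) (nat_lit 403) (nat_lit 320) (nat_lit 297))) (XT.nd (nat_lit 78) (nat_lit 0) (nat_lit 0) (XT.lf (nat_lit 0) (nat_lit 629269016250) (nat_lit 152)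 (nat_lit 3221143377478) (nat_lit 0) (nat_lit 628836221232) (nat_lit 1) (nat_lit 5) (nat_lit 3) (nat_lit 4) (nat_lit 1) (nat_lit 4) (nat_lit 404) (nat_lit 320) (nat_lit 296)) (XT.lf (nat_lit 0) (nat_lit 727677363092) (nat_lit 152) (nat_lit 3695889163716) (nat_lit 0) (nat_lit 727242524593) (nat_lit 1) (nat_lit 5) (nat_lit 3) (nat_lit 4) (nat_lit 1) (nat_lit 4) (nat_lit 405) (nat_lit 320) (nat_lit 295)))) (XT.nd (nat_lit 156) (nat_lit 0) (nat_lit 0) (XT.nd (nat_lit 78) (nat_lit 0) (nat_lit 0) (XT.lf (nat_lit 0) (nat_lit 840814293462) (nat_lit 152) (nat_lit 4241914195580) (nat_lit 0) (nat_lit 840377678023) (nat_lit 1) (nat_lit 5) (nat_lit 3) (nat_lit 4) (nat_lit 1) (nat_lit 4) (nat_lit 406) (nat_lit 320) (nat_lit 294)) (XT.lf (nat_lit 0) (nat_lit 970893355997) (nat_lit 152) (nat_lit 4869901571522) (nat_lit 0) (nat_lit 970455195393) (nat_lit 1) (nat_lit 5) (nat_lit 3) (nat_lit 4) (nat_lit 1) (nat_lit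 4) (nat_lit 407) (nat_lit 320) (nat_lit 293))) (XT.nd (nat_lit 78) (nat_lit 0) (nat_lit 0) (XT.lf (nat_lit 0) (nat_lit 1120459575835) (nat_lit 152) (nat_lit 5592138001069) (nat_lit 0) (nat_lit 1120020071609) (nat_lit 1) (nat_lit 5) (nat_lit 3) (nat_lit 4) (nat_lit 1) (nat_lit 4) (nat_lit 408) (nat_lit 320) (nat_lit 292)) (XT.nd (nat_lit 78) (nat_lit 0) (nat_lit 0) (XT.lf (nat_lit 0) (nat_lit 1292439248580) (nat_lit 152) (nat_lit 6422754196973) (nat_lit 0) (nat_lit 1291998575987) (nat_lit 1) (nat_lit 5) (nat_lit 3) (nat_lit 4) (nat_lit 1) (nat_lit 4) (nat_lit 409) (nat_lit 320) (nat_lit 291)) (XT.lf (nat_lit 0) (nat_lit 1490197193916) (nat_lit 152) (nat_lit 7378001345678) (nat_lit 0) (nat_lit 1489755505352) (nat_lit 1) (nat_lit 5) (nat_lit 3) (nat_lit 4) (nat_lit 1) (nat_lit 4) (nat_lit 410) (nat_lit 320) (nat_lit 290))))))))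
noncomputable def xc12 : XT := (XT.nd (nat_lit 51168) (nat_lit 0) (nat_lit 0) (XT.nd (nat_lit 624) (nat_lit 0) (nat_lit 0) (XT.nd (nat_lit 312) (nat_lit 0) (nat_lit 0) (XT.nd (nat_lit 156) (nat_lit 0) (nat_lit 0) (XT.nd (nat_lit 78) (nat_lit 0) (nat_lit 0) (XT.lf (nat_lit 0) (nat_lit 1717602589036) (nat_lit 152) (nat_lit 8476569065308) (nat_lit 0) (nat_lit 1717160017019) (nat_lit 1) (nat_lit 5) (nat_lit 3) (nat_lit 4) (nat_lit 1) (nat_lit 4) (nat_lit 411) (nat_lit 320) (nat_lit 289)) (XT.lf (nat_lit 0) (nat_lit 1979104669930) (nat_lit 152) (nat_lit 9739951072118) (nat_lit 0) (nat_lit 1978661329693) (nat_lit 1) (nat_lit 5) (nat_lit 3) (nat_lit 4) (nat_lit 1) (nat_lit 4) (nat_lit 412) (nat_lit 320) (nat_lit 288))) (XT.nd (nat_lit 78) (nat_lit 0) (nat_lit 0) (XT.lf (nat_lit 0) (nat_lit 2279819781660) (nat_lit 152) (nat_lit 11192865709720) (nat_lit 0) (nat_lit 2279375773405) (nat_lit 1) (nat_lit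 5) (nat_lit 3) (nat_lit 4) (nat_lit 1) (nat_lit 4) (nat_lit 413) (nat_lit 320) (nat_lit 287)) (XT.lf (nat_lit 0) (nat_lit 2625631480759) (nat_lit 152) (nat_lit 12863739568849) (nat_lit 0) (nat_lit 2625186891619) (nat_lit 1) (nat_lit 5) (nat_lit 3) (nat_lit 4) (nat_lit 1) (nat_lit 4) (nat_lit 414) (nat_lit 320) (nat_lit 286)))) (XT.nd (nat_lit 156) (nat_lit 0) (nat_lit 0) (XT.nd (nat_lit 78) (nat_lit 0) (nat_lit 0) (XT.lf (nat_lit 0) (nat_lit 3023305648297) (nat_lit 152) (nat_lit 14785263659792) (nat_lit 0) (nat_lit 3022860554040) (nat_lit 1) (nat_lit 5) (nat_lit 3) (nat_lit 4) (nat_lit 1) (nat_lit 4) (nat_lit 415) (nat_lit 320) (nat_lit 285)) (XT.lf (nat_lit 0) (nat_lit 3480622865812) (nat_lit 152) (nat_lit 16995033019111) (nat_lit 0) (nat_lit 3480177332323) (nat_lit 1) (nat_lit 5) (nat_lit 3) (nat_lit 4) (nat_lit 1) (nat_lit 4) (nat_lit 416) (nat_lit 320) (nat_lit 284))) (XT.nd (nat_lit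 78) (nat_lit 0) (nat_lit 0) (XT.lf (nat_lit 0) (nat_lit 4006530644083) (nat_lit 152) (nat_lit 19536282264706) (nat_lit 0) (nat_lit 4006084728652) (nat_lit 1) (nat_lit 5) (nat_lit 3) (nat_lit 4) (nat_lit 1) (nat_lit 4) (nat_lit 417) (nat_lit 320) (nat_lit 283)) (XT.lf (nat_lit 0) (nat_lit 4611318483117) (nat_lit 152) (nat_lit 22458731490513) (nat_lit 0) (nat_lit 4610872235564) (nat_lit 1) (nat_lit 5) (nat_lit 3) (nat_lit 4) (nat_lit 1) (nat_lit 4) (nat_lit 418) (nat_lit 320) (nat_lit 282))))) (XT.nd (nat_lit 50154) (nat_lit 0) (nat_lit 0) (XT.nd (nat_lit 49998) (nat_lit 0) (nat_lit 152) (XT.nd (nat_lit 49920) (nat_lit 0) (nat_lit 152) (XT.lf (nat_lit 0) (nat_lit 5306819188463) (nat_lit 152) (nat_lit 25819559050950) (nat_lit 0) (nat_lit 5306372652107) (nat_lit 1) (nat_lit 5) (nat_lit 3) (nat_lit 4) (nat_lit 1) (nat_lit 4) (nat_lit 419) (nat_lit 320) (nat_lit 281)) (XT.lf (nat_lit 0) (nat_lit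 21387054225) (nat_lit 76) (nat_lit 19968925992) (nat_lit 76) (nat_lit 19968925992) (nat_lit 3) (nat_lit 4) (nat_lit 4) (nat_lit 5) (nat_lit 4) (nat_lit 4) (nat_lit 378) (nat_lit 321) (nat_lit 321))) (XT.nd (nat_lit 78) (nat_lit 0) (nat_lit 0) (XT.lf (nat_lit 0) (nat_lit 72728179348) (nat_lit 76) (nat_lit 33738558532) (nat_lit 76) (nat_lit 33665907736) (nat_lit 3) (nat_lit 4) (nat_lit 4) (nat_lit 5) (nat_lit 4) (nat_lit 4) (nat_lit 379) (nat_lit 321) (nat_lit 320)) (XT.lf (nat_lit 0) (nat_lit 105175099912) (nat_lit 76) (nat_lit 27638177746) (nat_lit 76) (nat_lit 27502352344) (nat_lit 3) (nat_lit 4) (nat_lit 4) (nat_lit 5) (nat_lit 4) (nat_lit 4) (nat_lit 380) (nat_lit 321) (nat_lit 319)))) (XT.nd (nat_lit 156) (nat_lit 152) (nat_lit 0) (XT.nd (nat_lit 78) (nat_lit 0) (nat_lit 0) (XT.lf (nat_lit 0) (nat_lit 140749701199) (nat_lit 76) (nat_lit 21517354349) (nat_lit 76) (nat_lit 21326594507)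 (nat_lit 3) (nat_lit 4) (nat_lit 4) (nat_lit 5) (nat_lit 4) (nat_lit 4) (nat_lit 381) (nat_lit 321) (nat_lit 318)) (XT.lf (nat_lit 0) (nat_lit 180148008016) (nat_lit 76) (nat_lit 15256333101) (nat_lit 76) (nat_lit 15017804182) (nat_lit 3) (nat_lit 4) (nat_lit 4) (nat_lit 5) (nat_lit 4) (nat_lit 4) (nat_lit 382) (nat_lit 321) (nat_lit 317))) (XT.nd (nat_lit 78) (nat_lit 152) (nat_lit 0) (XT.lf (nat_lit 0) (nat_lit 224140856801) (nat_lit 76) (nat_lit 8732615760) (nat_lit 76) (nat_lit 8452548512) (nat_lit 3) (nat_lit 4) (nat_lit 4) (nat_lit 5) (nat_lit 4) (nat_lit 4) (nat_lit 383) (nat_lit 321) (nat_lit 316)) (XT.nd (nat_lit 78) (nat_lit 152) (nat_lit 0) (XT.lf (nat_lit 0) (nat_lit 273588977205) (nat_lit 76) (nat_lit 1818564379) (nat_lit 76) (nat_lit 1502376845) (nat_lit 3) (nat_lit 4) (nat_lit 4) (nat_lit 5) (nat_lit 4) (nat_lit 4) (nat_lit 384) (nat_lit 321) (nat_lit 315)) (XT.lf (nat_lit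 0) (nat_lit 6106335227) (nat_lit 152) (nat_lit 305932840734) (nat_lit 0) (nat_lit 5784486637) (nat_lit 1) (nat_lit 5) (nat_lit 3) (nat_lit 4) (nat_lit 1) (nat_lit 4) (nat_lit 385) (nat_lit 321) (nat_lit 314))))))) (XT.nd (nat_lit 624) (nat_lit 0) (nat_lit 0) (XT.nd (nat_lit 312) (nat_lit 0) (nat_lit 0) (XT.nd (nat_lit 156) (nat_lit 0) (nat_lit 0) (XT.nd (nat_lit 78) (nat_lit 0) (nat_lit 0) (XT.lf (nat_lit 0) (nat_lit 14454489220) (nat_lit 152) (nat_lit 336334542270) (nat_lit 0) (nat_lit 14107351625) (nat_lit 1) (nat_lit 5) (nat_lit 3) (nat_lit 4) (nat_lit 1) (nat_lit 4) (nat_lit 386) (nat_lit 321) (nat_lit 313)) (XT.lf (nat_lit 0) (nat_lit 23650578825) (nat_lit 152) (nat_lit 372130328528) (nat_lit 0) (nat_lit 23281450790) (nat_lit 1) (nat_lit 5) (nat_lit 3) (nat_lit 4) (nat_lit 1) (nat_lit 4) (nat_lit 387) (nat_lit 321) (nat_lit 312))) (XT.nd (nat_lit 78) (nat_lit 0) (nat_lit 0) (XT.lf (nat_lit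 0) (nat_lit 33874527533) (nat_lit 152) (nat_lit 414020551849) (nat_lit 0) (nat_lit 33486277377) (nat_lit 1) (nat_lit 5) (nat_lit 3) (nat_lit 4) (nat_lit 1) (nat_lit 4) (nat_lit 388) (nat_lit 321) (nat_lit 311)) (XT.lf (nat_lit 0) (nat_lit 45326369123) (nat_lit 152) (nat_lit 462824803559) (nat_lit 0) (nat_lit 44921491037) (nat_lit 1) (nat_lit 5) (nat_lit 3) (nat_lit 4) (nat_lit 1) (nat_lit 4) (nat_lit 389) (nat_lit 321) (nat_lit 310)))) (XT.nd (nat_lit 156) (nat_lit 0) (nat_lit 0) (XT.nd (nat_lit 78) (nat_lit 0) (nat_lit 0) (XT.lf (nat_lit 0) (nat_lit 58230161367) (nat_lit 152) (nat_lit 519497949452) (nat_lit 0) (nat_lit 57810824210) (nat_lit 1) (nat_lit 5) (nat_lit 3) (nat_lit 4) (nat_lit 1) (nat_lit 4) (nat_lit 390) (nat_lit 321) (nat_lit 309)) (XT.lf (nat_lit 0) (nat_lit 72838369763) (nat_lit 152) (nat_lit 585148811948) (nat_lit 0) (nat_lit 72406459501) (nat_lit 1) (nat_lit 5) (nat_lit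 3) (nat_lit 4) (nat_lit 1) (nat_lit 4) (nat_lit 391) (nat_lit 321) (nat_lit 308))) (XT.nd (nat_lit 78) (nat_lit 0) (nat_lit 0) (XT.lf (nat_lit 0) (nat_lit 89436807086) (nat_lit 152) (nat_lit 661061864444) (nat_lit 0) (nat_lit 88993963690) (nat_lit 1) (nat_lit 5) (nat_lit 3) (nat_lit 4) (nat_lit 1) (nat_lit 4) (nat_lit 392) (nat_lit 321) (nat_lit 307)) (XT.lf (nat_lit 0) (nat_lit 108350225370) (nat_lit 152) (nat_lit 748722362314) (nat_lit 0) (nat_lit 107897874900) (nat_lit 1) (nat_lit 5) (nat_lit 3) (nat_lit 4) (nat_lit 1) (nat_lit 4) (nat_lit 393) (nat_lit 321) (nat_lit 306))))) (XT.nd (nat_lit 312) (nat_lit 0) (nat_lit 0) (XT.nd (nat_lit 156) (nat_lit 0) (nat_lit 0) (XT.nd (nat_lit 78) (nat_lit 0) (nat_lit 0) (XT.lf (nat_lit 0) (nat_lit 129948669755) (nat_lit 152) (nat_lit 849845402255) (nat_lit 0) (nat_lit 129488052264) (nat_lit 1) (nat_lit 5) (nat_lit 3) (nat_lit 4) (nat_lit 1) (nat_lit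 4) (nat_lit 394) (nat_lit 321) (nat_lit 305)) (XT.lf (nat_lit 0) (nat_lit 154654718501) (nat_lit 152) (nat_lit 966409478528) (nat_lit 0) (nat_lit 154186912297) (nat_lit 1) (nat_lit 5) (nat_lit 3) (nat_lit 4) (nat_lit 1) (nat_lit 4) (nat_lit 395) (nat_lit 321) (nat_lit 304))) (XT.nd (nat_lit 78) (nat_lit 0) (nat_lit 0) (XT.lf (nat_lit 0) (nat_lit 182951750822) (nat_lit 152) (nat_lit 1100695192625) (nat_lit 0) (nat_lit 182477693563) (nat_lit 1) (nat_lit 5) (nat_lit 3) (nat_lit 4) (nat_lit 1) (nat_lit 4) (nat_lit 396) (nat_lit 321) (nat_lit 303)) (XT.lf (nat_lit 0) (nat_lit 215393404308) (nat_lit 152) (nat_lit 1255329873735) (nat_lit 0) (nat_lit 214913911348) (nat_lit 1) (nat_lit 5) (nat_lit 3) (nat_lit 4) (nat_lit 1) (nat_lit 4) (nat_lit 397) (nat_lit 321) (nat_lit 302)))) (XT.nd (nat_lit 156) (nat_lit 0) (nat_lit 0) (XT.nd (nat_lit 78) (nat_lit 0) (nat_lit 0) (XT.lf (nat_lit 0) (nat_lit 252614406961)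 (nat_lit 152) (nat_lit 1433338983010) (nat_lit 0) (nat_lit 252130187305) (nat_lit 1) (nat_lit 5) (nat_lit 3) (nat_lit 4) (nat_lit 1) (nat_lit 4) (nat_lit 398) (nat_lit 321) (nat_lit 301)) (XT.lf (nat_lit 0) (nat_lit 295342995790) (nat_lit 152) (nat_lit 1638205307370) (nat_lit 0) (nat_lit 294854665964) (nat_lit 1) (nat_lit 5) (nat_lit 3) (nat_lit 4) (nat_lit 1) (nat_lit 4) (nat_lit 399) (nat_lit 321) (nat_lit 300))) (XT.nd (nat_lit 78) (nat_lit 0) (nat_lit 0) (XT.lf (nat_lit 0) (nat_lit 344415164924) (nat_lit 152) (nat_lit 1873937100987) (nat_lit 0) (nat_lit 343923261036) (nat_lit 1) (nat_lit 5) (nat_lit 3) (nat_lit 4) (nat_lit 1) (nat_lit 4) (nat_lit 400) (nat_lit 321) (nat_lit 299)) (XT.nd (nat_lit 78) (nat_lit 0) (nat_lit 0) (XT.lf (nat_lit 0) (nat_lit 400791022020) (nat_lit 152) (nat_lit 2145146507651) (nat_lit 0) (nat_lit 400296010253) (nat_lit 1) (nat_lit 5) (nat_lit 3) (nat_lit 4) (nat_lit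 1) (nat_lit 4) (nat_lit 401) (nat_lit 321) (nat_lit 298)) (XT.lf (nat_lit 0) (nat_lit 465573572977) (nat_lit 152) (nat_lit 2457139798360) (nat_lit 0) (nat_lit 465075858707) (nat_lit 1) (nat_lit 5) (nat_lit 3) (nat_lit 4) (nat_lit 1) (nat_lit 4) (nat_lit 402) (nat_lit 321) (nat_lit 297))))))))
noncomputable def xc13 : XT := (XT.nd (nat_lit 51012) (nat_lit 0) (nat_lit 0) (XT.nd (nat_lit 624) (nat_lit 0) (nat_lit 0) (XT.nd (nat_lit 312) (nat_lit 0) (nat_lit 0) (XT.nd (nat_lit 156) (nat_lit 0) (nat_lit 0) (XT.nd (nat_lit 78) (nat_lit 0) (nat_lit 0) (XT.lf (nat_lit 0) (nat_lit 540030302489) (nat_lit 152) (nat_lit 2816021189673) (nat_lit 0) (nat_lit 539530238215) (nat_lit 1) (nat_lit 5) (nat_lit 3) (nat_lit 4) (nat_lit 1) (nat_lit 4) (nat_lit 403) (nat_lit 321) (nat_lit 296)) (XT.lf (nat_lit 0) (nat_lit 625617972654) (nat_lit 152) (nat_lit 3228812274027) (nat_lit 0) (nat_lit 625115864900) (nat_lit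 1) (nat_lit 5) (nat_lit 3) (nat_lit 4) (nat_lit 1) (nat_lit 4) (nat_lit 404) (nat_lit 321) (nat_lit 295))) (XT.nd (nat_lit 78) (nat_lit 0) (nat_lit 0) (XT.lf (nat_lit 0) (nat_lit 724011124846) (nat_lit 152) (nat_lit 3703589398726) (nat_lit 0) (nat_lit 723507240151) (nat_lit 1) (nat_lit 5) (nat_lit 3) (nat_lit 4) (nat_lit 1) (nat_lit 4) (nat_lit 405) (nat_lit 321) (nat_lit 294)) (XT.lf (nat_lit 0) (nat_lit 837134842476) (nat_lit 152) (nat_lit 4249641681426) (nat_lit 0) (nat_lit 836629412616) (nat_lit 1) (nat_lit 5) (nat_lit 3) (nat_lit 4) (nat_lit 1) (nat_lit 4) (nat_lit 406) (nat_lit 321) (nat_lit 293)))) (XT.nd (nat_lit 156) (nat_lit 0) (nat_lit 0) (XT.nd (nat_lit 78) (nat_lit 0) (nat_lit 0) (XT.lf (nat_lit 0) (nat_lit 967202415673) (nat_lit 152) (nat_lit 4877652753746) (nat_lit 0) (nat_lit 966695642191) (nat_lit 1) (nat_lit 5) (nat_lit 3) (nat_lit 4) (nat_lit 1) (nat_lit 4) (nat_lit 407)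 (nat_lit 321) (nat_lit 292)) (XT.lf (nat_lit 0) (nat_lit 1116758644781) (nat_lit 152) (nat_lit 5599909788840) (nat_lit 0) (nat_lit 1116250702932) (nat_lit 1) (nat_lit 5) (nat_lit 3) (nat_lit 4) (nat_lit 1) (nat_lit 4) (nat_lit 408) (nat_lit 321) (nat_lit 291))) (XT.nd (nat_lit 78) (nat_lit 0) (nat_lit 0) (XT.lf (nat_lit 0) (nat_lit 1288729629935) (nat_lit 152) (nat_lit 6430543902612) (nat_lit 0) (nat_lit 1288220672115) (nat_lit 1) (nat_lit 5) (nat_lit 3) (nat_lit 4) (nat_lit 1) (nat_lit 4) (nat_lit 409) (nat_lit 321) (nat_lit 290)) (XT.lf (nat_lit 0) (nat_lit 1486480020845) (nat_lit 152) (nat_lit 7385806632070) (nat_lit 0) (nat_lit 1485970179572) (nat_lit 1) (nat_lit 5) (nat_lit 3) (nat_lit 4) (nat_lit 1) (nat_lit 4) (nat_lit 410) (nat_lit 321) (nat_lit 289))))) (XT.nd (nat_lit 312) (nat_lit 0) (nat_lit 0) (XT.nd (nat_lit 156) (nat_lit 0) (nat_lit 0) (XT.nd (nat_lit 78) (nat_lit 0) (nat_lit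 0) (XT.lf (nat_lit 0) (nat_lit 1713878846898) (nat_lit 152) (nat_lit 8484387900182) (nat_lit 0) (nat_lit 1713368237405) (nat_lit 1) (nat_lit 5) (nat_lit 3) (nat_lit 4) (nat_lit 1) (nat_lit 4) (nat_lit 411) (nat_lit 321) (nat_lit 288)) (XT.lf (nat_lit 0) (nat_lit 1975375215561) (nat_lit 152) (nat_lit 9747781688280) (nat_lit 0) (nat_lit 1974863938050) (nat_lit 1) (nat_lit 5) (nat_lit 3) (nat_lit 4) (nat_lit 1) (nat_lit 4) (nat_lit 412) (nat_lit 321) (nat_lit 287))) (XT.nd (nat_lit 78) (nat_lit 0) (nat_lit 0) (XT.lf (nat_lit 0) (nat_lit 2276085360132) (nat_lit 152) (nat_lit 11200706570480) (nat_lit 0) (nat_lit 2275573501736) (nat_lit 1) (nat_lit 5) (nat_lit 3) (nat_lit 4) (nat_lit 1) (nat_lit 4) (nat_lit 413) (nat_lit 321) (nat_lit 286)) (XT.lf (nat_lit 0) (nat_lit 2621892739963) (nat_lit 152) (nat_lit 12871589337956) (nat_lit 0) (nat_lit 2621380376450) (nat_lit 1) (nat_lit 5) (nat_lit 3) (nat_lit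 4) (nat_lit 1) (nat_lit 4) (nat_lit 414) (nat_lit 321) (nat_lit 285)))) (XT.nd (nat_lit 156) (nat_lit 0) (nat_lit 0) (XT.nd (nat_lit 78) (nat_lit 0) (nat_lit 0) (XT.lf (nat_lit 0) (nat_lit 3019563151616) (nat_lit 152) (nat_lit 14793121175287) (nat_lit 0) (nat_lit 3019050348870) (nat_lit 1) (nat_lit 5) (nat_lit 3) (nat_lit 4) (nat_lit 1) (nat_lit 4) (nat_lit 415) (nat_lit 321) (nat_lit 284)) (XT.lf (nat_lit 0) (nat_lit 3476877103144) (nat_lit 152) (nat_lit 17002897270596) (nat_lit 0) (nat_lit 3476363918457) (nat_lit 1) (nat_lit 5) (nat_lit 3) (nat_lit 4) (nat_lit 1) (nat_lit 4) (nat_lit 416) (nat_lit 321) (nat_lit 283))) (XT.nd (nat_lit 78) (nat_lit 0) (nat_lit 0) (XT.lf (nat_lit 0) (nat_lit 4002782041425) (nat_lit 152) (nat_lit 19544152373574) (nat_lit 0) (nat_lit 4002268524616) (nat_lit 1) (nat_lit 5) (nat_lit 3) (nat_lit 4) (nat_lit 1) (nat_lit 4) (nat_lit 417) (nat_lit 321) (nat_lit 282))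 (XT.nd (nat_lit 78) (nat_lit 0) (nat_lit 0) (XT.lf (nat_lit 0) (nat_lit 4607567410905) (nat_lit 152) (nat_lit 22466606692757) (nat_lit 0) (nat_lit 4607053605293) (nat_lit 1) (nat_lit 5) (nat_lit 3) (nat_lit 4) (nat_lit 1) (nat_lit 4) (nat_lit 418) (nat_lit 321) (nat_lit 281)) (XT.lf (nat_lit 0) (nat_lit 5303065968811) (nat_lit 152) (nat_lit 25827438682216) (nat_lit 0) (nat_lit 5302551912066) (nat_lit 1) (nat_lit 5) (nat_lit 3) (nat_lit 4) (nat_lit 1) (nat_lit 4) (nat_lit 419) (nat_lit 321) (nat_lit 280))))))) (XT.nd (nat_lit 624) (nat_lit 152) (nat_lit 0) (XT.nd (nat_lit 312) (nat_lit 0) (nat_lit 0) (XT.nd (nat_lit 156) (nat_lit 0) (nat_lit 0) (XT.nd (nat_lit 78) (nat_lit 76) (nat_lit 0) (XT.lf (nat_lit 0) (nat_lit 21049724566) (nat_lit 152) (nat_lit 5097578592) (nat_lit 0) (nat_lit 21049724566) (nat_lit 4) (nat_lit 5) (nat_lit 6) (nat_lit 4) (nat_lit 4) (nat_lit 4) (nat_lit 376) (nat_lit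 322) (nat_lit 322)) (XT.lf (nat_lit 0) (nat_lit 14726829314) (nat_lit 76) (nat_lit 46440897042) (nat_lit 76) (nat_lit 46357348626) (nat_lit 3) (nat_lit 4) (nat_lit 4) (nat_lit 5) (nat_lit 4) (nat_lit 4) (nat_lit 377) (nat_lit 322) (nat_lit 321))) (XT.nd (nat_lit 78) (nat_lit 0) (nat_lit 0) (XT.lf (nat_lit 0) (nat_lit 41704201423) (nat_lit 76) (nat_lit 40571692347) (nat_lit 76) (nat_lit 40415493135) (nat_lit 3) (nat_lit 4) (nat_lit 4) (nat_lit 5) (nat_lit 4) (nat_lit 4) (nat_lit 378) (nat_lit 322) (nat_lit 320)) (XT.lf (nat_lit 0) (nat_lit 70727918381) (nat_lit 76) (nat_lit 34850913632) (nat_lit 76) (nat_lit 34631539814) (nat_lit 3) (nat_lit 4) (nat_lit 4) (nat_lit 5) (nat_lit 4) (nat_lit 4) (nat_lit 379) (nat_lit 322) (nat_lit 319)))) (XT.nd (nat_lit 156) (nat_lit 0) (nat_lit 0) (XT.nd (nat_lit 78) (nat_lit 0) (nat_lit 0) (XT.lf (nat_lit 0) (nat_lit 102365835521) (nat_lit 76) (nat_lit 29166632616)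 (nat_lit 76) (nat_lit 28892324359) (nat_lit 3) (nat_lit 4) (nat_lit 4) (nat_lit 5) (nat_lit 4) (nat_lit 4) (nat_lit 380) (nat_lit 322) (nat_lit 318)) (XT.lf (nat_lit 0) (nat_lit 137236955570) (nat_lit 76) (nat_lit 23407635107) (nat_lit 76) (nat_lit 23085557772) (nat_lit 3) (nat_lit 4) (nat_lit 4) (nat_lit 5) (nat_lit 4) (nat_lit 4) (nat_lit 381) (nat_lit 322) (nat_lit 317))) (XT.nd (nat_lit 78) (nat_lit 0) (nat_lit 0) (XT.lf (nat_lit 0) (nat_lit 176023539571) (nat_lit 76) (nat_lit 17461245065) (nat_lit 76) (nat_lit 17097629402) (nat_lit 3) (nat_lit 4) (nat_lit 4) (nat_lit 5) (nat_lit 4) (nat_lit 4) (nat_lit 382) (nat_lit 322) (nat_lit 316)) (XT.lf (nat_lit 0) (nat_lit 219484455473) (nat_lit 76) (nat_lit 11211120078) (nat_lit 76) (nat_lit 10811384129) (nat_lit 3) (nat_lit 4) (nat_lit 4) (nat_lit 5) (nat_lit 4) (nat_lit 4) (nat_lit 383) (nat_lit 322) (nat_lit 315))))) (XT.nd (nat_lit 312) (nat_lit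 0) (nat_lit 0) (XT.nd (nat_lit 156) (nat_lit 0) (nat_lit 0) (XT.nd (nat_lit 78) (nat_lit 152) (nat_lit 0) (XT.lf (nat_lit 0) (nat_lit 268470025542) (nat_lit 76) (nat_lit 4534975092) (nat_lit 76) (nat_lit 4103830198) (nat_lit 3) (nat_lit 4) (nat_lit 4) (nat_lit 5) (nat_lit 4) (nat_lit 4) (nat_lit 384) (nat_lit 322) (nat_lit 314)) (XT.lf (nat_lit 0) (nat_lit 3215314229) (nat_lit 152) (nat_lit 312055027053) (nat_lit 0) (nat_lit 2790816989) (nat_lit 1) (nat_lit 5) (nat_lit 3) (nat_lit 4) (nat_lit 1) (nat_lit 4) (nat_lit 385) (nat_lit 322) (nat_lit 313))) (XT.nd (nat_lit 78) (nat_lit 0) (nat_lit 0) (XT.lf (nat_lit 0) (nat_lit 11375427530) (nat_lit 152) (nat_lit 342844556259) (nat_lit 0) (nat_lit 10928939851) (nat_lit 1) (nat_lit 5) (nat_lit 3) (nat_lit 4) (nat_lit 1) (nat_lit 4) (nat_lit 386) (nat_lit 322) (nat_lit 312)) (XT.lf (nat_lit 0) (nat_lit 20408003489) (nat_lit 152) (nat_lit 378977583970)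 (nat_lit 0) (nat_lit 19942393690) (nat_lit 1) (nat_lit 5) (nat_lit 3) (nat_lit 4) (nat_lit 1) (nat_lit 4) (nat_lit 387) (nat_lit 322) (nat_lit 311)))) (XT.nd (nat_lit 156) (nat_lit 0) (nat_lit 0) (XT.nd (nat_lit 78) (nat_lit 0) (nat_lit 0) (XT.lf (nat_lit 0) (nat_lit 30489766419) (nat_lit 152) (nat_lit 421161060729) (nat_lit 0) (nat_lit 30007528688) (nat_lit 1) (nat_lit 5) (nat_lit 3) (nat_lit 4) (nat_lit 1) (nat_lit 4) (nat_lit 388) (nat_lit 322) (nat_lit 310)) (XT.lf (nat_lit 0) (nat_lit 41817968202) (nat_lit 152) (nat_lit 470220315428) (nat_lit 0) (nat_lit 41321271401) (nat_lit 1) (nat_lit 5) (nat_lit 3) (nat_lit 4) (nat_lit 1) (nat_lit 4) (nat_lit 389) (nat_lit 322) (nat_lit 309))) (XT.nd (nat_lit 78) (nat_lit 0) (nat_lit 0) (XT.lf (nat_lit 0) (nat_lit 54614247570) (nat_lit 152) (nat_lit 527115203051) (nat_lit 0) (nat_lit 54104977663) (nat_lit 1) (nat_lit 5) (nat_lit 3) (nat_lit 4) (nat_lit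 1) (nat_lit 4) (nat_lit 390) (nat_lit 322) (nat_lit 308)) (XT.nd (nat_lit 78) (nat_lit 0) (nat_lit 0) (XT.lf (nat_lit 0) (nat_lit 69128966509) (nat_lit 152) (nat_lit 592958884443) (nat_lit 0) (nat_lit 68608763468) (nat_lit 1) (nat_lit 5) (nat_lit 3) (nat_lit 4) (nat_lit 1) (nat_lit 4) (nat_lit 391) (nat_lit 322) (nat_lit 307)) (XT.lf (nat_lit 0) (nat_lit 85646108652) (nat_lit 152) (nat_lit 669039605543) (nat_lit 0) (nat_lit 85116398537) (nat_lit 1) (nat_lit 5) (nat_lit 3) (nat_lit 4) (nat_lit 1) (nat_lit 4) (nat_lit 392) (nat_lit 322) (nat_lit 306))))))))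
noncomputable def xc14 : XT := (XT.nd (nat_lit 1326) (nat_lit 0) (nat_lit 0) (XT.nd (nat_lit 624) (nat_lit 0) (nat_lit 0) (XT.nd (nat_lit 312) (nat_lit 0) (nat_lit 0) (XT.nd (nat_lit 156) (nat_lit 0) (nat_lit 0) (XT.nd (nat_lit 78) (nat_lit 0) (nat_lit 0) (XT.lf (nat_lit 0) (nat_lit 104488835474) (nat_lit 152) (nat_lit 756845902199) (nat_lit 0) (nat_lit 103950858339) (nat_lit 1) (nat_lit 5) (nat_lit 3) (nat_lit 4) (nat_lit 1) (nat_lit 4) (nat_lit 393) (nat_lit 322) (nat_lit 305)) (XT.lf (nat_lit 0) (nat_lit 126025809024) (nat_lit 152) (nat_lit 858095723694) (nat_lit 0) (nat_lit 125480643175) (nat_lit 1) (nat_lit 5) (nat_lit 3) (nat_lit 4) (nat_lit 1) (nat_lit 4) (nat_lit 394) (nat_lit 322) (nat_lit 304))) (XT.nd (nat_lit 78) (nat_lit 0) (nat_lit 0) (XT.lf (nat_lit 0) (nat_lit 150678404869) (nat_lit 152) (nat_lit 974770044797) (nat_lit 0) (nat_lit 150126987965) (nat_lit 1) (nat_lit 5) (nat_lit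 3) (nat_lit 4) (nat_lit 1) (nat_lit 4) (nat_lit 395) (nat_lit 322) (nat_lit 303)) (XT.lf (nat_lit 0) (nat_lit 178928956407) (nat_lit 152) (nat_lit 1109151623963) (nat_lit 0) (nat_lit 178372103803) (nat_lit 1) (nat_lit 5) (nat_lit 3) (nat_lit 4) (nat_lit 1) (nat_lit 4) (nat_lit 396) (nat_lit 322) (nat_lit 302)))) (XT.nd (nat_lit 156) (nat_lit 0) (nat_lit 0) (XT.nd (nat_lit 78) (nat_lit 0) (nat_lit 0) (XT.lf (nat_lit 0) (nat_lit 211330191820) (nat_lit 152) (nat_lit 1263869666002) (nat_lit 0) (nat_lit 210768612520) (nat_lit 1) (nat_lit 5) (nat_lit 3) (nat_lit 4) (nat_lit 1) (nat_lit 4) (nat_lit 397) (nat_lit 322) (nat_lit 301)) (XT.lf (nat_lit 0) (nat_lit 248516048323) (nat_lit 152) (nat_lit 1441951263041) (nat_lit 0) (nat_lit 247950358853) (nat_lit 1) (nat_lit 5) (nat_lit 3) (nat_lit 4) (nat_lit 1) (nat_lit 4) (nat_lit 398) (nat_lit 322) (nat_lit 300))) (XT.nd (nat_lit 78) (nat_lit 0) (nat_lit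 0) (XT.lf (nat_lit 0) (nat_lit 291214075283) (nat_lit 152) (nat_lit 1646880620240) (nat_lit 0) (nat_lit 290644811751) (nat_lit 1) (nat_lit 5) (nat_lit 3) (nat_lit 4) (nat_lit 1) (nat_lit 4) (nat_lit 399) (nat_lit 322) (nat_lit 299)) (XT.lf (nat_lit 0) (nat_lit 340259668878) (nat_lit 152) (nat_lit 1882667225022) (nat_lit 0) (nat_lit 339687297467) (nat_lit 1) (nat_lit 5) (nat_lit 3) (nat_lit 4) (nat_lit 1) (nat_lit 4) (nat_lit 400) (nat_lit 322) (nat_lit 298))))) (XT.nd (nat_lit 312) (nat_lit 0) (nat_lit 0) (XT.nd (nat_lit 156) (nat_lit 0) (nat_lit 0) (XT.nd (nat_lit 78) (nat_lit 0) (nat_lit 0) (XT.lf (nat_lit 0) (nat_lit 396612416810) (nat_lit 152) (nat_lit 2153924293567) (nat_lit 0) (nat_lit 396037342895) (nat_lit 1) (nat_lit 5) (nat_lit 3) (nat_lit 4) (nat_lit 1) (nat_lit 4) (nat_lit 401) (nat_lit 322) (nat_lit 297)) (XT.lf (nat_lit 0) (nat_lit 461374872842) (nat_lit 152) (nat_lit 2465959029392)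 (nat_lit 0) (nat_lit 460797448924) (nat_lit 1) (nat_lit 5) (nat_lit 3) (nat_lit 4) (nat_lit 1) (nat_lit 4) (nat_lit 402) (nat_lit 322) (nat_lit 296))) (XT.nd (nat_lit 78) (nat_lit 0) (nat_lit 0) (XT.lf (nat_lit 0) (nat_lit 535814128506) (nat_lit 152) (nat_lit 2824876459934) (nat_lit 0) (nat_lit 535234661107) (nat_lit 1) (nat_lit 5) (nat_lit 3) (nat_lit 4) (nat_lit 1) (nat_lit 4) (nat_lit 403) (nat_lit 322) (nat_lit 295)) (XT.lf (nat_lit 0) (nat_lit 621386604021) (nat_lit 152) (nat_lit 3237698882750) (nat_lit 0) (nat_lit 620805359682) (nat_lit 1) (nat_lit 5) (nat_lit 3) (nat_lit 4) (nat_lit 1) (nat_lit 4) (nat_lit 404) (nat_lit 322) (nat_lit 294)))) (XT.nd (nat_lit 156) (nat_lit 0) (nat_lit 0) (XT.nd (nat_lit 78) (nat_lit 0) (nat_lit 0) (XT.lf (nat_lit 0) (nat_lit 719766543473) (nat_lit 152) (nat_lit 3712503258284) (nat_lit 0) (nat_lit 719183753969) (nat_lit 1) (nat_lit 5) (nat_lit 3) (nat_lit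 4) (nat_lit 1) (nat_lit 4) (nat_lit 405) (nat_lit 322) (nat_lit 293)) (XT.lf (nat_lit 0) (nat_lit 832878771764) (nat_lit 152) (nat_lit 4258579237364) (nat_lit 0) (nat_lit 832294638638) (nat_lit 1) (nat_lit 5) (nat_lit 3) (nat_lit 4) (nat_lit 1) (nat_lit 4) (nat_lit 406) (nat_lit 322) (nat_lit 292))) (XT.nd (nat_lit 78) (nat_lit 0) (nat_lit 0) (XT.lf (nat_lit 0) (nat_lit 962936354232) (nat_lit 152) (nat_lit 4886610915231) (nat_lit 0) (nat_lit 962351052739) (nat_lit 1) (nat_lit 5) (nat_lit 3) (nat_lit 4) (nat_lit 1) (nat_lit 4) (nat_lit 407) (nat_lit 322) (nat_lit 291)) (XT.nd (nat_lit 78) (nat_lit 0) (nat_lit 0) (XT.lf (nat_lit 0) (nat_lit 1112483895749) (nat_lit 152) (nat_lit 5608885868191) (nat_lit 0) (nat_lit 1111897578285) (nat_lit 1) (nat_lit 5) (nat_lit 3) (nat_lit 4) (nat_lit 1) (nat_lit 4) (nat_lit 408) (nat_lit 322) (nat_lit 290)) (XT.lf (nat_lit 0) (nat_lit 1284447326477) (nat_lit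 152) (nat_lit 6439535562717) (nat_lit 0) (nat_lit 1283860125559) (nat_lit 1) (nat_lit 5) (nat_lit 3) (nat_lit 4) (nat_lit 1) (nat_lit 4) (nat_lit 409) (nat_lit 322) (nat_lit 289))))))) (XT.nd (nat_lit 624) (nat_lit 0) (nat_lit 0) (XT.nd (nat_lit 312) (nat_lit 0) (nat_lit 0) (XT.nd (nat_lit 156) (nat_lit 0) (nat_lit 0) (XT.nd (nat_lit 78) (nat_lit 0) (nat_lit 0) (XT.lf (nat_lit 0) (nat_lit 1482191148320) (nat_lit 152) (nat_lit 7394811840656) (nat_lit 0) (nat_lit 1481603179182) (nat_lit 1) (nat_lit 5) (nat_lit 3) (nat_lit 4) (nat_lit 1) (nat_lit 4) (nat_lit 410) (nat_lit 322) (nat_lit 288)) (XT.lf (nat_lit 0) (nat_lit 1709584262141) (nat_lit 152) (nat_lit 8493404890056) (nat_lit 0) (nat_lit 1708995624986) (nat_lit 1) (nat_lit 5) (nat_lit 3) (nat_lit 4) (nat_lit 1) (nat_lit 4) (nat_lit 411) (nat_lit 322) (nat_lit 287))) (XT.nd (nat_lit 78) (nat_lit 0) (nat_lit 0) (XT.lf (nat_lit 0) (nat_lit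 1971075663645) (nat_lit 152) (nat_lit 9756808922753) (nat_lit 0) (nat_lit 1970486445605) (nat_lit 1) (nat_lit 5) (nat_lit 3) (nat_lit 4) (nat_lit 1) (nat_lit 4) (nat_lit 412) (nat_lit 322) (nat_lit 286)) (XT.lf (nat_lit 0) (nat_lit 2271781488949) (nat_lit 152) (nat_lit 11209742713300) (nat_lit 0) (nat_lit 2271191765791) (nat_lit 1) (nat_lit 5) (nat_lit 3) (nat_lit 4) (nat_lit 1) (nat_lit 4) (nat_lit 413) (nat_lit 322) (nat_lit 285)))) (XT.nd (nat_lit 156) (nat_lit 0) (nat_lit 0) (XT.nd (nat_lit 78) (nat_lit 0) (nat_lit 0) (XT.lf (nat_lit 0) (nat_lit 2617585112895) (nat_lit 152) (nat_lit 12880633227164) (nat_lit 0) (nat_lit 2616994950505) (nat_lit 1) (nat_lit 5) (nat_lit 3) (nat_lit 4) (nat_lit 1) (nat_lit 4) (nat_lit 414) (nat_lit 322) (nat_lit 284)) (XT.lf (nat_lit 0) (nat_lit 3015252258560) (nat_lit 152) (nat_lit 14802171800485) (nat_lit 0) (nat_lit 3014661714229) (nat_lit 1) (nat_lit 5)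 (nat_lit 3) (nat_lit 4) (nat_lit 1) (nat_lit 4) (nat_lit 415) (nat_lit 322) (nat_lit 283))) (XT.nd (nat_lit 78) (nat_lit 0) (nat_lit 0) (XT.lf (nat_lit 0) (nat_lit 3472563370099) (nat_lit 152) (nat_lit 17011953753176) (nat_lit 0) (nat_lit 3471972493646) (nat_lit 1) (nat_lit 5) (nat_lit 3) (nat_lit 4) (nat_lit 1) (nat_lit 4) (nat_lit 416) (nat_lit 322) (nat_lit 282)) (XT.lf (nat_lit 0) (nat_lit 3998465838825) (nat_lit 152) (nat_lit 19553213949530) (nat_lit 0) (nat_lit 3997874673569) (nat_lit 1) (nat_lit 5) (nat_lit 3) (nat_lit 4) (nat_lit 1) (nat_lit 4) (nat_lit 417) (nat_lit 322) (nat_lit 281))))) (XT.nd (nat_lit 49842) (nat_lit 0) (nat_lit 152) (XT.nd (nat_lit 49686) (nat_lit 0) (nat_lit 228) (XT.nd (nat_lit 78) (nat_lit 0) (nat_lit 0) (XT.lf (nat_lit 0) (nat_lit 4603249060865) (nat_lit 152) (nat_lit 22475672697736) (nat_lit 0) (nat_lit 4602657644476) (nat_lit 1) (nat_lit 5) (nat_lit 3)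 (nat_lit 4) (nat_lit 1) (nat_lit 4) (nat_lit 418) (nat_lit 322) (nat_lit 280)) (XT.lf (nat_lit 0) (nat_lit 5298745751432) (nat_lit 152) (nat_lit 25836508538519) (nat_lit 0) (nat_lit 5298154116668) (nat_lit 1) (nat_lit 5) (nat_lit 3) (nat_lit 4) (nat_lit 1) (nat_lit 4) (nat_lit 419) (nat_lit 322) (nat_lit 279))) (XT.nd (nat_lit 78) (nat_lit 0) (nat_lit 0) (XT.lf (nat_lit 0) (nat_lit 4609346094) (nat_lit 152) (nat_lit 27383836417) (nat_lit 0) (nat_lit 4609346094) (nat_lit 4) (nat_lit 5) (nat_lit 6) (nat_lit 4) (nat_lit 4) (nat_lit 4) (nat_lit 374) (nat_lit 323) (nat_lit 323)) (XT.lf (nat_lit 0) (nat_lit 24860552159) (nat_lit 152) (nat_lit 33411074665) (nat_lit 0) (nat_lit 24764471481) (nat_lit 4) (nat_lit 5) (nat_lit 6) (nat_lit 4) (nat_lit 4) (nat_lit 4) (nat_lit 375) (nat_lit 323) (nat_lit 322)))) (XT.nd (nat_lit 156) (nat_lit 0) (nat_lit 0) (XT.nd (nat_lit 78) (nat_lit 76) (nat_lit 0) (XT.lf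 (nat_lit 0) (nat_lit 41627563451) (nat_lit 152) (nat_lit 11364001021) (nat_lit 0) (nat_lit 41447934357) (nat_lit 4) (nat_lit 5) (nat_lit 6) (nat_lit 4) (nat_lit 4) (nat_lit 4) (nat_lit 376) (nat_lit 323) (nat_lit 321)) (XT.lf (nat_lit 0) (nat_lit 12426529203) (nat_lit 76) (nat_lit 47720105406) (nat_lit 76) (nat_lit 47467825516) (nat_lit 3) (nat_lit 4) (nat_lit 4) (nat_lit 5) (nat_lit 4) (nat_lit 4) (nat_lit 377) (nat_lit 323) (nat_lit 320))) (XT.nd (nat_lit 78) (nat_lit 0) (nat_lit 0) (XT.lf (nat_lit 0) (nat_lit 38473547373) (nat_lit 76) (nat_lit 42329415448) (nat_lit 76) (nat_lit 42013960952) (nat_lit 3) (nat_lit 4) (nat_lit 4) (nat_lit 5) (nat_lit 4) (nat_lit 4) (nat_lit 378) (nat_lit 323) (nat_lit 319)) (XT.nd (nat_lit 78) (nat_lit 0) (nat_lit 0) (XT.lf (nat_lit 0) (nat_lit 66688260908) (nat_lit 76) (nat_lit 37024736503) (nat_lit 76) (nat_lit 36654347568) (nat_lit 3) (nat_lit 4) (nat_lit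 4) (nat_lit 5) (nat_lit 4) (nat_lit 4) (nat_lit 379) (nat_lit 323) (nat_lit 318)) (XT.lf (nat_lit 0) (nat_lit 97622696809) (nat_lit 76) (nat_lit 31702281375) (nat_lit 76) (nat_lit 31284123362) (nat_lit 3) (nat_lit 4) (nat_lit 4) (nat_lit 5) (nat_lit 4) (nat_lit 4) (nat_lit 380) (nat_lit 323) (nat_lit 317))))))))
noncomputable def xc15 : XT := (XT.nd (nat_lit 1326) (nat_lit 0) (nat_lit 0) (XT.nd (nat_lit 624) (nat_lit 0) (nat_lit 0) (XT.nd (nat_lit 312) (nat_lit 152) (nat_lit 0) (XT.nd (nat_lit 156) (nat_lit 0) (nat_lit 0) (XT.nd (nat_lit 78) (nat_lit 0) (nat_lit 0) (XT.lf (nat_lit 0) (nat_lit 131882094042) (nat_lit 76) (nat_lit 26257915073) (nat_lit 76) (nat_lit 25798218731) (nat_lit 3) (nat_lit 4) (nat_lit 4) (nat_lit 5) (nat_lit 4) (nat_lit 4) (nat_lit 381) (nat_lit 323) (nat_lit 316)) (XT.lf (nat_lit 0) (nat_lit 170136745159) (nat_lit 76) (nat_lit 20585117385) (nat_lit 76) (nat_lit 20089300758)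 (nat_lit 3) (nat_lit 4) (nat_lit 4) (nat_lit 5) (nat_lit 4) (nat_lit 4) (nat_lit 382) (nat_lit 323) (nat_lit 315))) (XT.nd (nat_lit 78) (nat_lit 0) (nat_lit 0) (XT.lf (nat_lit 0) (nat_lit 213135110727) (nat_lit 76) (nat_lit 14572898793) (nat_lit 76) (nat_lit 14045673221) (nat_lit 3) (nat_lit 4) (nat_lit 4) (nat_lit 5) (nat_lit 4) (nat_lit 4) (nat_lit 383) (nat_lit 323) (nat_lit 314)) (XT.lf (nat_lit 0) (nat_lit 261718463116) (nat_lit 76) (nat_lit 8103628931) (nat_lit 76) (nat_lit 7549091235) (nat_lit 3) (nat_lit 4) (nat_lit 4) (nat_lit 5) (nat_lit 4) (nat_lit 4) (nat_lit 384) (nat_lit 323) (nat_lit 313)))) (XT.nd (nat_lit 156) (nat_lit 0) (nat_lit 0) (XT.nd (nat_lit 78) (nat_lit 152) (nat_lit 0) (XT.lf (nat_lit 0) (nat_lit 316837346176) (nat_lit 76) (nat_lit 1050735130) (nat_lit 76) (nat_lit 472447759) (nat_lit 3) (nat_lit 4) (nat_lit 4) (nat_lit 5) (nat_lit 4) (nat_lit 4) (nat_lit 385) (nat_lit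 323) (nat_lit 312)) (XT.lf (nat_lit 0) (nat_lit 7482952249) (nat_lit 152) (nat_lit 351056141471) (nat_lit 0) (nat_lit 6928378859) (nat_lit 1) (nat_lit 5) (nat_lit 3) (nat_lit 4) (nat_lit 1) (nat_lit 4) (nat_lit 386) (nat_lit 323) (nat_lit 311))) (XT.nd (nat_lit 78) (nat_lit 0) (nat_lit 0) (XT.lf (nat_lit 0) (nat_lit 16373342430) (nat_lit 152) (nat_lit 387482422620) (nat_lit 0) (nat_lit 15802141108) (nat_lit 1) (nat_lit 5) (nat_lit 3) (nat_lit 4) (nat_lit 1) (nat_lit 4) (nat_lit 387) (nat_lit 323) (nat_lit 310)) (XT.lf (nat_lit 0) (nat_lit 26331465552) (nat_lit 152) (nat_lit 429920902368) (nat_lit 0) (nat_lit 25745805160) (nat_lit 1) (nat_lit 5) (nat_lit 3) (nat_lit 4) (nat_lit 1) (nat_lit 4) (nat_lit 388) (nat_lit 323) (nat_lit 309))))) (XT.nd (nat_lit 312) (nat_lit 0) (nat_lit 0) (XT.nd (nat_lit 156) (nat_lit 0) (nat_lit 0) (XT.nd (nat_lit 78) (nat_lit 0) (nat_lit 0) (XT.lf (nat_lit 0) (nat_lit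 37552154459) (nat_lit 152) (nat_lit 479201898796) (nat_lit 0) (nat_lit 36953920962) (nat_lit 1) (nat_lit 5) (nat_lit 3) (nat_lit 4) (nat_lit 1) (nat_lit 4) (nat_lit 389) (nat_lit 323) (nat_lit 308)) (XT.lf (nat_lit 0) (nat_lit 50254944370) (nat_lit 152) (nat_lit 536289605315) (nat_lit 0) (nat_lit 49645777738) (nat_lit 1) (nat_lit 5) (nat_lit 3) (nat_lit 4) (nat_lit 1) (nat_lit 4) (nat_lit 390) (nat_lit 323) (nat_lit 307))) (XT.nd (nat_lit 78) (nat_lit 0) (nat_lit 0) (XT.lf (nat_lit 0) (nat_lit 64688368129) (nat_lit 152) (nat_lit 602300955311) (nat_lit 0) (nat_lit 64069694423) (nat_lit 1) (nat_lit 5) (nat_lit 3) (nat_lit 4) (nat_lit 1) (nat_lit 4) (nat_lit 391) (nat_lit 323) (nat_lit 306)) (XT.lf (nat_lit 0) (nat_lit 81134818810) (nat_lit 152) (nat_lit 678527475198) (nat_lit 0) (nat_lit 80507878084) (nat_lit 1) (nat_lit 5) (nat_lit 3) (nat_lit 4) (nat_lit 1) (nat_lit 4) (nat_lit 392) (nat_lit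 323) (nat_lit 305)))) (XT.nd (nat_lit 156) (nat_lit 0) (nat_lit 0) (XT.nd (nat_lit 78) (nat_lit 0) (nat_lit 0) (XT.lf (nat_lit 0) (nat_lit 99916074797) (nat_lit 152) (nat_lit 766460553408) (nat_lit 0) (nat_lit 99281945358) (nat_lit 1) (nat_lit 5) (nat_lit 3) (nat_lit 4) (nat_lit 1) (nat_lit 4) (nat_lit 393) (nat_lit 323) (nat_lit 304)) (XT.lf (nat_lit 0) (nat_lit 121399595446) (nat_lit 152) (nat_lit 867820619732) (nat_lit 0) (nat_lit 120759214951) (nat_lit 1) (nat_lit 5) (nat_lit 3) (nat_lit 4) (nat_lit 1) (nat_lit 4) (nat_lit 394) (nat_lit 323) (nat_lit 303))) (XT.nd (nat_lit 78) (nat_lit 0) (nat_lit 0) (XT.lf (nat_lit 0) (nat_lit 146005710508) (nat_lit 152) (nat_lit 984590805903) (nat_lit 0) (nat_lit 145359894313) (nat_lit 1) (nat_lit 5) (nat_lit 3) (nat_lit 4) (nat_lit 1) (nat_lit 4) (nat_lit 395) (nat_lit 323) (nat_lit 302)) (XT.nd (nat_lit 78) (nat_lit 0) (nat_lit 0) (XT.lf (nat_lit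 0) (nat_lit 174215843974) (nat_lit 152) (nat_lit 1119055745999) (nat_lit 0) (nat_lit 173565301083) (nat_lit 1) (nat_lit 5) (nat_lit 3) (nat_lit 4) (nat_lit 1) (nat_lit 4) (nat_lit 396) (nat_lit 323) (nat_lit 301)) (XT.lf (nat_lit 0) (nat_lit 206581933237) (nat_lit 152) (nat_lit 1273846275803) (nat_lit 0) (nat_lit 205927280176) (nat_lit 1) (nat_lit 5) (nat_lit 3) (nat_lit 4) (nat_lit 1) (nat_lit 4) (nat_lit 397) (nat_lit 323) (nat_lit 300))))))) (XT.nd (nat_lit 702) (nat_lit 0) (nat_lit 0) (XT.nd (nat_lit 312) (nat_lit 0) (nat_lit 0) (XT.nd (nat_lit 156) (nat_lit 0) (nat_lit 0) (XT.nd (nat_lit 78) (nat_lit 0) (nat_lit 0) (XT.lf (nat_lit 0) (nat_lit 243737227871) (nat_lit 152) (nat_lit 1451990905681) (nat_lit 0) (nat_lit 243079000748) (nat_lit 1) (nat_lit 5) (nat_lit 3) (nat_lit 4) (nat_lit 1) (nat_lit 4) (nat_lit 398) (nat_lit 323) (nat_lit 299)) (XT.lf (nat_lit 0) (nat_lit 286408679292) (nat_lit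 152) (nat_lit 1656975074044) (nat_lit 0) (nat_lit 285747344290) (nat_lit 1) (nat_lit 5) (nat_lit 3) (nat_lit 4) (nat_lit 1) (nat_lit 4) (nat_lit 399) (nat_lit 323) (nat_lit 298))) (XT.nd (nat_lit 78) (nat_lit 0) (nat_lit 0) (XT.lf (nat_lit 0) (nat_lit 335431163723) (nat_lit 152) (nat_lit 1892809340708) (nat_lit 0) (nat_lit 334767126217) (nat_lit 1) (nat_lit 5) (nat_lit 3) (nat_lit 4) (nat_lit 1) (nat_lit 4) (nat_lit 400) (nat_lit 323) (nat_lit 297)) (XT.lf (nat_lit 0) (nat_lit 391763816729) (nat_lit 152) (nat_lit 2164107854368) (nat_lit 0) (nat_lit 391097429221) (nat_lit 1) (nat_lit 5) (nat_lit 3) (nat_lit 4) (nat_lit 1) (nat_lit 4) (nat_lit 401) (nat_lit 323) (nat_lit 296)))) (XT.nd (nat_lit 156) (nat_lit 0) (nat_lit 0) (XT.nd (nat_lit 78) (nat_lit 0) (nat_lit 0) (XT.lf (nat_lit 0) (nat_lit 456508798913) (nat_lit 152) (nat_lit 2476178629423) (nat_lit 0) (nat_lit 455840367924) (nat_lit 1)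 (nat_lit 5) (nat_lit 3) (nat_lit 4) (nat_lit 1) (nat_lit 4) (nat_lit 402) (nat_lit 323) (nat_lit 295)) (XT.lf (nat_lit 0) (nat_lit 530932859927) (nat_lit 152) (nat_lit 2835127398426) (nat_lit 0) (nat_lit 530262651997) (nat_lit 1) (nat_lit 5) (nat_lit 3) (nat_lit 4) (nat_lit 1) (nat_lit 4) (nat_lit 403) (nat_lit 323) (nat_lit 294))) (XT.nd (nat_lit 78) (nat_lit 0) (nat_lit 0) (XT.lf (nat_lit 0) (nat_lit 616492122702) (nat_lit 152) (nat_lit 3247977072078) (nat_lit 0) (nat_lit 615820369607) (nat_lit 1) (nat_lit 5) (nat_lit 3) (nat_lit 4) (nat_lit 1) (nat_lit 4) (nat_lit 404) (nat_lit 323) (nat_lit 293)) (XT.nd (nat_lit 78) (nat_lit 0) (nat_lit 0) (XT.lf (nat_lit 0) (nat_lit 714860572815) (nat_lit 152) (nat_lit 3722805143991) (nat_lit 0) (nat_lit 714187476099) (nat_lit 1) (nat_lit 5) (nat_lit 3) (nat_lit 4) (nat_lit 1) (nat_lit 4) (nat_lit 405) (nat_lit 323) (nat_lit 292)) (XT.lf (nat_lit 0)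 (nat_lit 827962810378) (nat_lit 152) (nat_lit 4268901728617) (nat_lit 0) (nat_lit 827288545294) (nat_lit 1) (nat_lit 5) (nat_lit 3) (nat_lit 4) (nat_lit 1) (nat_lit 4) (nat_lit 406) (nat_lit 323) (nat_lit 291)))))) (XT.nd (nat_lit 312) (nat_lit 0) (nat_lit 0) (XT.nd (nat_lit 156) (nat_lit 0) (nat_lit 0) (XT.nd (nat_lit 78) (nat_lit 0) (nat_lit 0) (XT.lf (nat_lit 0) (nat_lit 958011705254) (nat_lit 152) (nat_lit 4896951324351) (nat_lit 0) (nat_lit 957336424199) (nat_lit 1) (nat_lit 5) (nat_lit 3) (nat_lit 4) (nat_lit 1) (nat_lit 4) (nat_lit 407) (nat_lit 323) (nat_lit 290)) (XT.lf (nat_lit 0) (nat_lit 1107551692345) (nat_lit 152) (nat_lit 5619241858065) (nat_lit 0) (nat_lit 1106875527837) (nat_lit 1) (nat_lit 5) (nat_lit 3) (nat_lit 4) (nat_lit 1) (nat_lit 4) (nat_lit 408) (nat_lit 323) (nat_lit 289))) (XT.nd (nat_lit 78) (nat_lit 0) (nat_lit 0) (XT.lf (nat_lit 0) (nat_lit 1279508554006) (nat_lit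 152) (nat_lit 6449905101072) (nat_lit 0) (nat_lit 1278831621277) (nat_lit 1) (nat_lit 5) (nat_lit 3) (nat_lit 4) (nat_lit 1) (nat_lit 4) (nat_lit 409) (nat_lit 323) (nat_lit 288)) (XT.lf (nat_lit 0) (nat_lit 1477246663617) (nat_lit 152) (nat_lit 7405193160300) (nat_lit 0) (nat_lit 1476569062871) (nat_lit 1) (nat_lit 5) (nat_lit 3) (nat_lit 4) (nat_lit 1) (nat_lit 4) (nat_lit 410) (nat_lit 323) (nat_lit 287)))) (XT.nd (nat_lit 156) (nat_lit 0) (nat_lit 0) (XT.nd (nat_lit 78) (nat_lit 0) (nat_lit 0) (XT.lf (nat_lit 0) (nat_lit 1704634810280) (nat_lit 152) (nat_lit 8503796454299) (nat_lit 0) (nat_lit 1703956628649) (nat_lit 1) (nat_lit 5) (nat_lit 3) (nat_lit 4) (nat_lit 1) (nat_lit 4) (nat_lit 411) (nat_lit 323) (nat_lit 286)) (XT.lf (nat_lit 0) (nat_lit 1966121892516) (nat_lit 152) (nat_lit 9767209395343) (nat_lit 0) (nat_lit 1965443205768) (nat_lit 1) (nat_lit 5) (nat_lit 3) (nat_lit 4) (nat_lit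 1) (nat_lit 4) (nat_lit 412) (nat_lit 323) (nat_lit 285))) (XT.nd (nat_lit 78) (nat_lit 0) (nat_lit 0) (XT.lf (nat_lit 0) (nat_lit 2266823961935) (nat_lit 152) (nat_lit 11220150932278) (nat_lit 0) (nat_lit 2266144835954) (nat_lit 1) (nat_lit 5) (nat_lit 3) (nat_lit 4) (nat_lit 1) (nat_lit 4) (nat_lit 413) (nat_lit 323) (nat_lit 284)) (XT.nd (nat_lit 78) (nat_lit 0) (nat_lit 0) (XT.lf (nat_lit 0) (nat_lit 2612624319893) (nat_lit 152) (nat_lit 12891048182131) (nat_lit 0) (nat_lit 2611944811972) (nat_lit 1) (nat_lit 5) (nat_lit 3) (nat_lit 4) (nat_lit 1) (nat_lit 4) (nat_lit 414) (nat_lit 323) (nat_lit 283)) (XT.lf (nat_lit 0) (nat_lit 3010288625570) (nat_lit 152) (nat_lit 14812592612834) (nat_lit 0) (nat_lit 3009608785526) (nat_lit 1) (nat_lit 5) (nat_lit 3) (nat_lit 4) (nat_lit 1) (nat_lit 4) (nat_lit 415) (nat_lit 323) (nat_lit 282))))))))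
noncomputable def xc16 : XT := (XT.nd (nat_lit 50700) (nat_lit 0) (nat_lit 0) (XT.nd (nat_lit 49998) (nat_lit 0) (nat_lit 152) (XT.nd (nat_lit 49686) (nat_lit 0) (nat_lit 228) (XT.nd (nat_lit 156) (nat_lit 0) (nat_lit 0) (XT.nd (nat_lit 78) (nat_lit 0) (nat_lit 0) (XT.lf (nat_lit 0) (nat_lit 3467597267554) (nat_lit 152) (nat_lit 17022379658902) (nat_lit 0) (nat_lit 3466917138707) (nat_lit 1) (nat_lit 5) (nat_lit 3) (nat_lit 4) (nat_lit 1) (nat_lit 4) (nat_lit 416) (nat_lit 323) (nat_lit 281)) (XT.lf (nat_lit 0) (nat_lit 3993497588840) (nat_lit 152) (nat_lit 19563644284279) (nat_lit 0) (nat_lit 3992817208861) (nat_lit 1) (nat_lit 5) (nat_lit 3) (nat_lit 4) (nat_lit 1) (nat_lit 4) (nat_lit 417) (nat_lit 323) (nat_lit 280))) (XT.nd (nat_lit 78) (nat_lit 0) (nat_lit 0) (XT.lf (nat_lit 0) (nat_lit 4598278943541) (nat_lit 152) (nat_lit 22486106883808) (nat_lit 0) (nat_lit 4597598345186) (nat_lit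 1) (nat_lit 5) (nat_lit 3) (nat_lit 4) (nat_lit 1) (nat_lit 4) (nat_lit 418) (nat_lit 323) (nat_lit 279)) (XT.lf (nat_lit 0) (nat_lit 5293774010336) (nat_lit 152) (nat_lit 25846946073569) (nat_lit 0) (nat_lit 5293093222088) (nat_lit 1) (nat_lit 5) (nat_lit 3) (nat_lit 4) (nat_lit 1) (nat_lit 4) (nat_lit 419) (nat_lit 323) (nat_lit 278)))) (XT.nd (nat_lit 156) (nat_lit 152) (nat_lit 0) (XT.nd (nat_lit 78) (nat_lit 0) (nat_lit 0) (XT.lf (nat_lit 0) (nat_lit 10100392973) (nat_lit 76) (nat_lit 9277069603) (nat_lit 76) (nat_lit 9277069603) (nat_lit 6) (nat_lit 4) (nat_lit 7) (nat_lit 5) (nat_lit 7) (nat_lit 4) (nat_lit 372) (nat_lit 324) (nat_lit 324)) (XT.lf (nat_lit 0) (nat_lit 53894080939) (nat_lit 76) (nat_lit 5467996450) (nat_lit 76) (nat_lit 5348664248) (nat_lit 6) (nat_lit 4) (nat_lit 7) (nat_lit 5) (nat_lit 7) (nat_lit 4) (nat_lit 373) (nat_lit 324) (nat_lit 323))) (XT.nd (nat_lit 78)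 (nat_lit 0) (nat_lit 0) (XT.lf (nat_lit 0) (nat_lit 8676023654) (nat_lit 152) (nat_lit 56111843248) (nat_lit 0) (nat_lit 8469450196) (nat_lit 4) (nat_lit 5) (nat_lit 6) (nat_lit 4) (nat_lit 4) (nat_lit 4) (nat_lit 374) (nat_lit 324) (nat_lit 322)) (XT.lf (nat_lit 0) (nat_lit 23749917264) (nat_lit 152) (nat_lit 35924088916) (nat_lit 0) (nat_lit 23459795390) (nat_lit 4) (nat_lit 5) (nat_lit 6) (nat_lit 4) (nat_lit 4) (nat_lit 4) (nat_lit 375) (nat_lit 324) (nat_lit 321))))) (XT.nd (nat_lit 312) (nat_lit 0) (nat_lit 0) (XT.nd (nat_lit 156) (nat_lit 0) (nat_lit 0) (XT.nd (nat_lit 78) (nat_lit 76) (nat_lit 0) (XT.lf (nat_lit 0) (nat_lit 40023044764) (nat_lit 152) (nat_lit 14893401218) (nat_lit 0) (nat_lit 39660272093) (nat_lit 4) (nat_lit 5) (nat_lit 6) (nat_lit 4) (nat_lit 4) (nat_lit 4) (nat_lit 376) (nat_lit 324) (nat_lit 320)) (XT.lf (nat_lit 0) (nat_lit 7780923108) (nat_lit 76) (nat_lit 50220001709)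 (nat_lit 76) (nat_lit 49794054433) (nat_lit 3) (nat_lit 4) (nat_lit 4) (nat_lit 5) (nat_lit 4) (nat_lit 4) (nat_lit 377) (nat_lit 324) (nat_lit 319))) (XT.nd (nat_lit 78) (nat_lit 0) (nat_lit 0) (XT.lf (nat_lit 0) (nat_lit 33018937855) (nat_lit 76) (nat_lit 45245411521) (nat_lit 76) (nat_lit 44764529806) (nat_lit 3) (nat_lit 4) (nat_lit 4) (nat_lit 5) (nat_lit 4) (nat_lit 4) (nat_lit 378) (nat_lit 324) (nat_lit 318)) (XT.lf (nat_lit 0) (nat_lit 60530170150) (nat_lit 76) (nat_lit 40302558464) (nat_lit 76) (nat_lit 39773907671) (nat_lit 3) (nat_lit 4) (nat_lit 4) (nat_lit 5) (nat_lit 4) (nat_lit 4) (nat_lit 379) (nat_lit 324) (nat_lit 317)))) (XT.nd (nat_lit 156) (nat_lit 0) (nat_lit 0) (XT.nd (nat_lit 78) (nat_lit 0) (nat_lit 0) (XT.lf (nat_lit 0) (nat_lit 90852883236) (nat_lit 76) (nat_lit 35294734543) (nat_lit 76) (nat_lit 34724545421) (nat_lit 3) (nat_lit 4) (nat_lit 4) (nat_lit 5) (nat_lit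 4) (nat_lit 4) (nat_lit 380) (nat_lit 324) (nat_lit 316)) (XT.lf (nat_lit 0) (nat_lit 124580347585) (nat_lit 76) (nat_lit 30123960594) (nat_lit 76) (nat_lit 29517651187) (nat_lit 3) (nat_lit 4) (nat_lit 4) (nat_lit 5) (nat_lit 4) (nat_lit 4) (nat_lit 381) (nat_lit 324) (nat_lit 315))) (XT.nd (nat_lit 78) (nat_lit 0) (nat_lit 0) (XT.lf (nat_lit 0) (nat_lit 162372448369) (nat_lit 76) (nat_lit 24689069301) (nat_lit 76) (nat_lit 24051350950) (nat_lit 3) (nat_lit 4) (nat_lit 4) (nat_lit 5) (nat_lit 4) (nat_lit 4) (nat_lit 382) (nat_lit 324) (nat_lit 314)) (XT.nd (nat_lit 78) (nat_lit 0) (nat_lit 0) (XT.lf (nat_lit 0) (nat_lit 204968596256) (nat_lit 76) (nat_lit 18883725834) (nat_lit 76) (nat_lit 18218695358) (nat_lit 3) (nat_lit 4) (nat_lit 4) (nat_lit 5) (nat_lit 4) (nat_lit 4) (nat_lit 383) (nat_lit 324) (nat_lit 313)) (XT.lf (nat_lit 0) (nat_lit 253202194139) (nat_lit 76) (nat_lit 12594347387)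 (nat_lit 76) (nat_lit 11905567236) (nat_lit 3) (nat_lit 4) (nat_lit 4) (nat_lit 5) (nat_lit 4) (nat_lit 4) (nat_lit 384) (nat_lit 324) (nat_lit 312))))))) (XT.nd (nat_lit 624) (nat_lit 0) (nat_lit 0) (XT.nd (nat_lit 312) (nat_lit 0) (nat_lit 0) (XT.nd (nat_lit 156) (nat_lit 0) (nat_lit 0) (XT.nd (nat_lit 78) (nat_lit 152) (nat_lit 0) (XT.lf (nat_lit 0) (nat_lit 308016942846) (nat_lit 76) (nat_lit 5697880902) (nat_lit 76) (nat_lit 4988448860) (nat_lit 3) (nat_lit 4) (nat_lit 4) (nat_lit 5) (nat_lit 4) (nat_lit 4) (nat_lit 385) (nat_lit 324) (nat_lit 311)) (XT.lf (nat_lit 0) (nat_lit 2700906252) (nat_lit 152) (nat_lit 361129959355) (nat_lit 0) (nat_lit 2027396801) (nat_lit 1) (nat_lit 5) (nat_lit 3) (nat_lit 4) (nat_lit 1) (nat_lit 4) (nat_lit 386) (nat_lit 324) (nat_lit 310))) (XT.nd (nat_lit 78) (nat_lit 0) (nat_lit 0) (XT.lf (nat_lit 0) (nat_lit 11467656626) (nat_lit 152) (nat_lit 397811243493)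 (nat_lit 0) (nat_lit 10779688104) (nat_lit 1) (nat_lit 5) (nat_lit 3) (nat_lit 4) (nat_lit 1) (nat_lit 4) (nat_lit 387) (nat_lit 324) (nat_lit 309)) (XT.lf (nat_lit 0) (nat_lit 21318266872) (nat_lit 152) (nat_lit 440471464971) (nat_lit 0) (nat_lit 20617725245) (nat_lit 1) (nat_lit 5) (nat_lit 3) (nat_lit 4) (nat_lit 1) (nat_lit 4) (nat_lit 388) (nat_lit 324) (nat_lit 308)))) (XT.nd (nat_lit 156) (nat_lit 0) (nat_lit 0) (XT.nd (nat_lit 78) (nat_lit 0) (nat_lit 0) (XT.lf (nat_lit 0) (nat_lit 32445466322) (nat_lit 152) (nat_lit 489945280295) (nat_lit 0) (nat_lit 31733991561) (nat_lit 1) (nat_lit 5) (nat_lit 3) (nat_lit 4) (nat_lit 1) (nat_lit 4) (nat_lit 389) (nat_lit 324) (nat_lit 307)) (XT.lf (nat_lit 0) (nat_lit 45066961052) (nat_lit 152) (nat_lit 547200655418) (nat_lit 0) (nat_lit 44345979217) (nat_lit 1) (nat_lit 5) (nat_lit 3) (nat_lit 4) (nat_lit 1) (nat_lit 4) (nat_lit 390) (nat_lit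 324) (nat_lit 306))) (XT.nd (nat_lit 78) (nat_lit 0) (nat_lit 0) (XT.lf (nat_lit 0) (nat_lit 59429693350) (nat_lit 152) (nat_lit 613357804201) (nat_lit 0) (nat_lit 58700444494) (nat_lit 1) (nat_lit 5) (nat_lit 3) (nat_lit 4) (nat_lit 1) (nat_lit 4) (nat_lit 391) (nat_lit 324) (nat_lit 305)) (XT.lf (nat_lit 0) (nat_lit 75814673196) (nat_lit 152) (nat_lit 689711105641) (nat_lit 0) (nat_lit 75078235627) (nat_lit 1) (nat_lit 5) (nat_lit 3) (nat_lit 4) (nat_lit 1) (nat_lit 4) (nat_lit 392) (nat_lit 324) (nat_lit 304))))) (XT.nd (nat_lit 312) (nat_lit 0) (nat_lit 0) (XT.nd (nat_lit 156) (nat_lit 0) (nat_lit 0) (XT.nd (nat_lit 78) (nat_lit 0) (nat_lit 0) (XT.lf (nat_lit 0) (nat_lit 94542476282) (nat_lit 152) (nat_lit 777754428680) (nat_lit 0) (nat_lit 93799787658) (nat_lit 1) (nat_lit 5) (nat_lit 3) (nat_lit 4) (nat_lit 1) (nat_lit 4) (nat_lit 393) (nat_lit 324) (nat_lit 303)) (XT.lf (nat_lit 0)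 (nat_lit 115979516147) (nat_lit 152) (nat_lit 879210360074) (nat_lit 0) (nat_lit 115231391823) (nat_lit 1) (nat_lit 5) (nat_lit 3) (nat_lit 4) (nat_lit 1) (nat_lit 4) (nat_lit 394) (nat_lit 324) (nat_lit 302))) (XT.nd (nat_lit 78) (nat_lit 0) (nat_lit 0) (XT.lf (nat_lit 0) (nat_lit 140545213137) (nat_lit 152) (nat_lit 996063907175) (nat_lit 0) (nat_lit 139792362117) (nat_lit 1) (nat_lit 5) (nat_lit 3) (nat_lit 4) (nat_lit 1) (nat_lit 4) (nat_lit 395) (nat_lit 324) (nat_lit 301)) (XT.lf (nat_lit 0) (nat_lit 168720200453) (nat_lit 152) (nat_lit 1130601335035) (nat_lit 0) (nat_lit 167963239262) (nat_lit 1) (nat_lit 5) (nat_lit 3) (nat_lit 4) (nat_lit 1) (nat_lit 4) (nat_lit 396) (nat_lit 324) (nat_lit 300)))) (XT.nd (nat_lit 156) (nat_lit 0) (nat_lit 0) (XT.nd (nat_lit 78) (nat_lit 0) (nat_lit 0) (XT.lf (nat_lit 0) (nat_lit 201055727847) (nat_lit 152) (nat_lit 1285454897678) (nat_lit 0) (nat_lit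 200295192595) (nat_lit 1) (nat_lit 5) (nat_lit 3) (nat_lit 4) (nat_lit 1) (nat_lit 4) (nat_lit 397) (nat_lit 324) (nat_lit 299)) (XT.lf (nat_lit 0) (nat_lit 238184446942) (nat_lit 152) (nat_lit 1463654338720) (nat_lit 0) (nat_lit 237420803811) (nat_lit 1) (nat_lit 5) (nat_lit 3) (nat_lit 4) (nat_lit 1) (nat_lit 4) (nat_lit 398) (nat_lit 324) (nat_lit 298))) (XT.nd (nat_lit 78) (nat_lit 0) (nat_lit 0) (XT.lf (nat_lit 0) (nat_lit 280832789199) (nat_lit 152) (nat_lit 1668686168965) (nat_lit 0) (nat_lit 280066443564) (nat_lit 1) (nat_lit 5) (nat_lit 3) (nat_lit 4) (nat_lit 1) (nat_lit 4) (nat_lit 399) (nat_lit 324) (nat_lit 297)) (XT.nd (nat_lit 78) (nat_lit 0) (nat_lit 0) (XT.lf (nat_lit 0) (nat_lit 329835178705) (nat_lit 152) (nat_lit 1904561880744) (nat_lit 0) (nat_lit 329066483067) (nat_lit 1) (nat_lit 5) (nat_lit 3) (nat_lit 4) (nat_lit 1) (nat_lit 4) (nat_lit 400) (nat_lit 324) (nat_lit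 296)) (XT.lf (nat_lit 0) (nat_lit 386150357863) (nat_lit 152) (nat_lit 2175896433634) (nat_lit 0) (nat_lit 385379618744) (nat_lit 1) (nat_lit 5) (nat_lit 3) (nat_lit 4) (nat_lit 1) (nat_lit 4) (nat_lit 401) (nat_lit 324) (nat_lit 295))))))))
noncomputable def xc17 : XT := (XT.nd (nat_lit 1326) (nat_lit 0) (nat_lit 0) (XT.nd (nat_lit 624) (nat_lit 0) (nat_lit 0) (XT.nd (nat_lit 312) (nat_lit 0) (nat_lit 0) (XT.nd (nat_lit 156) (nat_lit 0) (nat_lit 0) (XT.nd (nat_lit 78) (nat_lit 0) (nat_lit 0) (XT.lf (nat_lit 0) (nat_lit 450880145397) (nat_lit 152) (nat_lit 2487998547150) (nat_lit 0) (nat_lit 450107629338) (nat_lit 1) (nat_lit 5) (nat_lit 3) (nat_lit 4) (nat_lit 1) (nat_lit 4) (nat_lit 402) (nat_lit 324) (nat_lit 294)) (XT.lf (nat_lit 0) (nat_lit 525290993671) (nat_lit 152) (nat_lit 2846974566989) (nat_lit 0) (nat_lit 524516932447) (nat_lit 1) (nat_lit 5) (nat_lit 3) (nat_lit 4) (nat_lit 1)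 (nat_lit 4) (nat_lit 403) (nat_lit 324) (nat_lit 293))) (XT.nd (nat_lit 78) (nat_lit 0) (nat_lit 0) (XT.lf (nat_lit 0) (nat_lit 610838767107) (nat_lit 152) (nat_lit 3259847937019) (nat_lit 0) (nat_lit 610063362261) (nat_lit 1) (nat_lit 5) (nat_lit 3) (nat_lit 4) (nat_lit 1) (nat_lit 4) (nat_lit 404) (nat_lit 324) (nat_lit 292)) (XT.lf (nat_lit 0) (nat_lit 709197226492) (nat_lit 152) (nat_lit 3734696614480) (nat_lit 0) (nat_lit 708420653278) (nat_lit 1) (nat_lit 5) (nat_lit 3) (nat_lit 4) (nat_lit 1) (nat_lit 4) (nat_lit 405) (nat_lit 324) (nat_lit 291)))) (XT.nd (nat_lit 156) (nat_lit 0) (nat_lit 0) (XT.nd (nat_lit 78) (nat_lit 0) (nat_lit 0) (XT.lf (nat_lit 0) (nat_lit 822290776463) (nat_lit 152) (nat_lit 4280811116973) (nat_lit 0) (nat_lit 821513187279) (nat_lit 1) (nat_lit 5) (nat_lit 3) (nat_lit 4) (nat_lit 1) (nat_lit 4) (nat_lit 406) (nat_lit 324) (nat_lit 290)) (XT.lf (nat_lit 0) (nat_lit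 952332116913) (nat_lit 152) (nat_lit 4908876293460) (nat_lit 0) (nat_lit 951553644275) (nat_lit 1) (nat_lit 5) (nat_lit 3) (nat_lit 4) (nat_lit 1) (nat_lit 4) (nat_lit 407) (nat_lit 324) (nat_lit 289))) (XT.nd (nat_lit 78) (nat_lit 0) (nat_lit 0) (XT.lf (nat_lit 0) (nat_lit 1101865534937) (nat_lit 152) (nat_lit 5631180375656) (nat_lit 0) (nat_lit 1101086294079) (nat_lit 1) (nat_lit 5) (nat_lit 3) (nat_lit 4) (nat_lit 1) (nat_lit 4) (nat_lit 408) (nat_lit 324) (nat_lit 288)) (XT.lf (nat_lit 0) (nat_lit 1273816684366) (nat_lit 152) (nat_lit 6461855399951) (nat_lit 0) (nat_lit 1273036775490) (nat_lit 1) (nat_lit 5) (nat_lit 3) (nat_lit 4) (nat_lit 1) (nat_lit 4) (nat_lit 409) (nat_lit 324) (nat_lit 287))))) (XT.nd (nat_lit 312) (nat_lit 0) (nat_lit 0) (XT.nd (nat_lit 156) (nat_lit 0) (nat_lit 0) (XT.nd (nat_lit 78) (nat_lit 0) (nat_lit 0) (XT.lf (nat_lit 0) (nat_lit 1471549826819) (nat_lit 152)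 (nat_lit 7417153703778) (nat_lit 0) (nat_lit 1470769337059) (nat_lit 1) (nat_lit 5) (nat_lit 3) (nat_lit 4) (nat_lit 1) (nat_lit 4) (nat_lit 410) (nat_lit 324) (nat_lit 286)) (XT.lf (nat_lit 0) (nat_lit 1698933654214) (nat_lit 152) (nat_lit 8515765906123) (nat_lit 0) (nat_lit 1698152659336) (nat_lit 1) (nat_lit 5) (nat_lit 3) (nat_lit 4) (nat_lit 1) (nat_lit 4) (nat_lit 411) (nat_lit 324) (nat_lit 285))) (XT.nd (nat_lit 78) (nat_lit 0) (nat_lit 0) (XT.lf (nat_lit 0) (nat_lit 1960416980565) (nat_lit 152) (nat_lit 9779186593555) (nat_lit 0) (nat_lit 1959635546455) (nat_lit 1) (nat_lit 5) (nat_lit 3) (nat_lit 4) (nat_lit 1) (nat_lit 4) (nat_lit 412) (nat_lit 324) (nat_lit 284)) (XT.lf (nat_lit 0) (nat_lit 2261115783996) (nat_lit 152) (nat_lit 11232134866480) (nat_lit 0) (nat_lit 2260333967945) (nat_lit 1) (nat_lit 5) (nat_lit 3) (nat_lit 4) (nat_lit 1) (nat_lit 4) (nat_lit 413) (nat_lit 324)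 (nat_lit 283)))) (XT.nd (nat_lit 156) (nat_lit 0) (nat_lit 0) (XT.nd (nat_lit 78) (nat_lit 0) (nat_lit 0) (XT.lf (nat_lit 0) (nat_lit 2606913301966) (nat_lit 152) (nat_lit 12903037973716) (nat_lit 0) (nat_lit 2606131153792) (nat_lit 1) (nat_lit 5) (nat_lit 3) (nat_lit 4) (nat_lit 1) (nat_lit 4) (nat_lit 414) (nat_lit 324) (nat_lit 282)) (XT.lf (nat_lit 0) (nat_lit 3004575138087) (nat_lit 152) (nat_lit 14824587497795) (nat_lit 0) (nat_lit 3003792701111) (nat_lit 1) (nat_lit 5) (nat_lit 3) (nat_lit 4) (nat_lit 1) (nat_lit 4) (nat_lit 415) (nat_lit 324) (nat_lit 281))) (XT.nd (nat_lit 78) (nat_lit 0) (nat_lit 0) (XT.lf (nat_lit 0) (nat_lit 3461881632631) (nat_lit 152) (nat_lit 17034378972885) (nat_lit 0) (nat_lit 3461098944522) (nat_lit 1) (nat_lit 5) (nat_lit 3) (nat_lit 4) (nat_lit 1) (nat_lit 4) (nat_lit 416) (nat_lit 324) (nat_lit 280)) (XT.nd (nat_lit 78) (nat_lit 0) (nat_lit 0) (XT.lf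 (nat_lit 0) (nat_lit 3987780086579) (nat_lit 152) (nat_lit 19575647449586) (nat_lit 0) (nat_lit 3986997180094) (nat_lit 1) (nat_lit 5) (nat_lit 3) (nat_lit 4) (nat_lit 1) (nat_lit 4) (nat_lit 417) (nat_lit 324) (nat_lit 279)) (XT.lf (nat_lit 0) (nat_lit 4592559817507) (nat_lit 152) (nat_lit 22498113398093) (nat_lit 0) (nat_lit 4591776721130) (nat_lit 1) (nat_lit 5) (nat_lit 3) (nat_lit 4) (nat_lit 1) (nat_lit 4) (nat_lit 418) (nat_lit 324) (nat_lit 278))))))) (XT.nd (nat_lit 49842) (nat_lit 0) (nat_lit 152) (XT.nd (nat_lit 49530) (nat_lit 0) (nat_lit 228) (XT.nd (nat_lit 49374) (nat_lit 0) (nat_lit 380) (XT.nd (nat_lit 49296) (nat_lit 0) (nat_lit 456) (XT.lf (nat_lit 0) (nat_lit 5288053472325) (nat_lit 152) (nat_lit 25858955500008) (nat_lit 0) (nat_lit 5287270210824) (nat_lit 1) (nat_lit 5) (nat_lit 3) (nat_lit 4) (nat_lit 1) (nat_lit 4) (nat_lit 419) (nat_lit 324) (nat_lit 277)) (XT.lf (nat_lit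 0) (nat_lit 1661121141) (nat_lit 152) (nat_lit 19398570508) (nat_lit 0) (nat_lit 1661121141) (nat_lit 7) (nat_lit 5) (nat_lit 9) (nat_lit 4) (nat_lit 7) (nat_lit 4) (nat_lit 370) (nat_lit 325) (nat_lit 325))) (XT.nd (nat_lit 78) (nat_lit 76) (nat_lit 0) (XT.lf (nat_lit 0) (nat_lit 19985511436) (nat_lit 152) (nat_lit 11118039254) (nat_lit 0) (nat_lit 19848279404) (nat_lit 7) (nat_lit 5) (nat_lit 9) (nat_lit 4) (nat_lit 7) (nat_lit 4) (nat_lit 371) (nat_lit 325) (nat_lit 324)) (XT.lf (nat_lit 0) (nat_lit 18807005169) (nat_lit 76) (nat_lit 19406463585) (nat_lit 76) (nat_lit 19149899350) (nat_lit 6) (nat_lit 4) (nat_lit 7) (nat_lit 5) (nat_lit 7) (nat_lit 4) (nat_lit 372) (nat_lit 325) (nat_lit 323)))) (XT.nd (nat_lit 156) (nat_lit 0) (nat_lit 0) (XT.nd (nat_lit 78) (nat_lit 152) (nat_lit 0) (XT.lf (nat_lit 0) (nat_lit 51288316877) (nat_lit 76) (nat_lit 6942140259) (nat_lit 76) (nat_lit 6581808892)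 (nat_lit 6) (nat_lit 4) (nat_lit 7) (nat_lit 5) (nat_lit 7) (nat_lit 4) (nat_lit 373) (nat_lit 325) (nat_lit 322)) (XT.lf (nat_lit 0) (nat_lit 6830827163) (nat_lit 152) (nat_lit 60170653474) (nat_lit 0) (nat_lit 6413638593) (nat_lit 4) (nat_lit 5) (nat_lit 6) (nat_lit 4) (nat_lit 4) (nat_lit 4) (nat_lit 374) (nat_lit 325) (nat_lit 321))) (XT.nd (nat_lit 78) (nat_lit 0) (nat_lit 0) (XT.lf (nat_lit 0) (nat_lit 21410836982) (nat_lit 152) (nat_lit 40999285089) (nat_lit 0) (nat_lit 20920997615) (nat_lit 4) (nat_lit 5) (nat_lit 6) (nat_lit 4) (nat_lit 4) (nat_lit 4) (nat_lit 375) (nat_lit 325) (nat_lit 320)) (XT.lf (nat_lit 0) (nat_lit 37254500315) (nat_lit 152) (nat_lit 20852411257) (nat_lit 0) (nat_lit 36701486342) (nat_lit 4) (nat_lit 5) (nat_lit 6) (nat_lit 4) (nat_lit 4) (nat_lit 4) (nat_lit 376) (nat_lit 325) (nat_lit 319))))) (XT.nd (nat_lit 312) (nat_lit 0) (nat_lit 0) (XT.nd (nat_lit 156)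 (nat_lit 0) (nat_lit 0) (XT.nd (nat_lit 78) (nat_lit 0) (nat_lit 0) (XT.lf (nat_lit 0) (nat_lit 699118737) (nat_lit 76) (nat_lit 53989496964) (nat_lit 76) (nat_lit 53381548552) (nat_lit 3) (nat_lit 4) (nat_lit 4) (nat_lit 5) (nat_lit 4) (nat_lit 4) (nat_lit 377) (nat_lit 325) (nat_lit 318)) (XT.lf (nat_lit 0) (nat_lit 25233652245) (nat_lit 76) (nat_lit 49376732664) (nat_lit 76) (nat_lit 48721015174) (nat_lit 3) (nat_lit 4) (nat_lit 4) (nat_lit 5) (nat_lit 4) (nat_lit 4) (nat_lit 378) (nat_lit 325) (nat_lit 317))) (XT.nd (nat_lit 78) (nat_lit 0) (nat_lit 0) (XT.lf (nat_lit 0) (nat_lit 52133161725) (nat_lit 76) (nat_lit 44748510814) (nat_lit 76) (nat_lit 44051254995) (nat_lit 3) (nat_lit 4) (nat_lit 4) (nat_lit 5) (nat_lit 4) (nat_lit 4) (nat_lit 379) (nat_lit 325) (nat_lit 316)) (XT.lf (nat_lit 0) (nat_lit 81923941927) (nat_lit 76) (nat_lit 40014279246) (nat_lit 76) (nat_lit 39280903142) (nat_lit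 3) (nat_lit 4) (nat_lit 4) (nat_lit 5) (nat_lit 4) (nat_lit 4) (nat_lit 380) (nat_lit 325) (nat_lit 315)))) (XT.nd (nat_lit 156) (nat_lit 0) (nat_lit 0) (XT.nd (nat_lit 78) (nat_lit 0) (nat_lit 0) (XT.lf (nat_lit 0) (nat_lit 115188855942) (nat_lit 76) (nat_lit 35081411692) (nat_lit 76) (nat_lit 34316626644) (nat_lit 3) (nat_lit 4) (nat_lit 4) (nat_lit 5) (nat_lit 4) (nat_lit 4) (nat_lit 381) (nat_lit 325) (nat_lit 314)) (XT.lf (nat_lit 0) (nat_lit 152578739045) (nat_lit 76) (nat_lit 29853395524) (nat_lit 76) (nat_lit 29061298351) (nat_lit 3) (nat_lit 4) (nat_lit 4) (nat_lit 5) (nat_lit 4) (nat_lit 4) (nat_lit 382) (nat_lit 325) (nat_lit 313))) (XT.nd (nat_lit 78) (nat_lit 0) (nat_lit 0) (XT.lf (nat_lit 0) (nat_lit 194825132426) (nat_lit 76) (nat_lit 24227943471) (nat_lit 76) (nat_lit 23412096624) (nat_lit 3) (nat_lit 4) (nat_lit 4) (nat_lit 5) (nat_lit 4) (nat_lit 4) (nat_lit 383) (nat_lit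 325) (nat_lit 312)) (XT.nd (nat_lit 78) (nat_lit 0) (nat_lit 0) (XT.lf (nat_lit 0) (nat_lit 242754595957) (nat_lit 76) (nat_lit 18094992340) (nat_lit 76) (nat_lit 17258493602) (nat_lit 3) (nat_lit 4) (nat_lit 4) (nat_lit 5) (nat_lit 4) (nat_lit 4) (nat_lit 384) (nat_lit 325) (nat_lit 311)) (XT.lf (nat_lit 0) (nat_lit 297304880010) (nat_lit 76) (nat_lit 11334549608) (nat_lit 76) (nat_lit 10480092704) (nat_lit 3) (nat_lit 4) (nat_lit 4) (nat_lit 5) (nat_lit 4) (nat_lit 4) (nat_lit 385) (nat_lit 325) (nat_lit 310))))))))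
noncomputable def xc18 : XT := (XT.nd (nat_lit 1326) (nat_lit 0) (nat_lit 0) (XT.nd (nat_lit 624) (nat_lit 0) (nat_lit 0) (XT.nd (nat_lit 312) (nat_lit 0) (nat_lit 0) (XT.nd (nat_lit 156) (nat_lit 0) (nat_lit 0) (XT.nd (nat_lit 78) (nat_lit 152) (nat_lit 0) (XT.lf (nat_lit 0) (nat_lit 359543272752) (nat_lit 76) (nat_lit 3814345744) (nat_lit 76) (nat_lit 2944273044) (nat_lit 3) (nat_lit 4) (nat_lit 4) (nat_lit 5) (nat_lit 4) (nat_lit 4) (nat_lit 386) (nat_lit 325) (nat_lit 309)) (XT.lf (nat_lit 0) (nat_lit 5594965268) (nat_lit 152) (nat_lit 410166132216) (nat_lit 0) (nat_lit 4776769292) (nat_lit 1) (nat_lit 5) (nat_lit 3) (nat_lit 4) (nat_lit 1) (nat_lit 4) (nat_lit 387) (nat_lit 325) (nat_lit 308))) (XT.nd (nat_lit 78) (nat_lit 0) (nat_lit 0) (XT.lf (nat_lit 0) (nat_lit 15352086057) (nat_lit 152) (nat_lit 453019172589) (nat_lit 0) (nat_lit 14522956947) (nat_lit 1) (nat_lit 5) (nat_lit 3)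 (nat_lit 4) (nat_lit 1) (nat_lit 4) (nat_lit 388) (nat_lit 325) (nat_lit 307)) (XT.lf (nat_lit 0) (nat_lit 26397990327) (nat_lit 152) (nat_lit 502660656518) (nat_lit 0) (nat_lit 25559354143) (nat_lit 1) (nat_lit 5) (nat_lit 3) (nat_lit 4) (nat_lit 1) (nat_lit 4) (nat_lit 389) (nat_lit 325) (nat_lit 306)))) (XT.nd (nat_lit 156) (nat_lit 0) (nat_lit 0) (XT.nd (nat_lit 78) (nat_lit 0) (nat_lit 0) (XT.lf (nat_lit 0) (nat_lit 38948793595) (nat_lit 152) (nat_lit 560061830428) (nat_lit 0) (nat_lit 38101890391) (nat_lit 1) (nat_lit 5) (nat_lit 3) (nat_lit 4) (nat_lit 1) (nat_lit 4) (nat_lit 390) (nat_lit 325) (nat_lit 305)) (XT.lf (nat_lit 0) (nat_lit 53250055058) (nat_lit 152) (nat_lit 626345760764) (nat_lit 0) (nat_lit 52395963140) (nat_lit 1) (nat_lit 5) (nat_lit 3) (nat_lit 4) (nat_lit 1) (nat_lit 4) (nat_lit 391) (nat_lit 325) (nat_lit 304))) (XT.nd (nat_lit 78) (nat_lit 0) (nat_lit 0) (XT.lf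 (nat_lit 0) (nat_lit 69581582003) (nat_lit 152) (nat_lit 702809307034) (nat_lit 0) (nat_lit 68721239029) (nat_lit 1) (nat_lit 5) (nat_lit 3) (nat_lit 4) (nat_lit 1) (nat_lit 4) (nat_lit 392) (nat_lit 325) (nat_lit 303)) (XT.lf (nat_lit 0) (nat_lit 88262904306) (nat_lit 152) (nat_lit 790948495142) (nat_lit 0) (nat_lit 87397125632) (nat_lit 1) (nat_lit 5) (nat_lit 3) (nat_lit 4) (nat_lit 1) (nat_lit 4) (nat_lit 393) (nat_lit 325) (nat_lit 302))))) (XT.nd (nat_lit 312) (nat_lit 0) (nat_lit 0) (XT.nd (nat_lit 156) (nat_lit 0) (nat_lit 0) (XT.nd (nat_lit 78) (nat_lit 0) (nat_lit 0) (XT.lf (nat_lit 0) (nat_lit 109659526099) (nat_lit 152) (nat_lit 892487787465) (nat_lit 0) (nat_lit 108789020730) (nat_lit 1) (nat_lit 5) (nat_lit 3) (nat_lit 4) (nat_lit 1) (nat_lit 4) (nat_lit 394) (nat_lit 325) (nat_lit 301)) (XT.lf (nat_lit 0) (nat_lit 134190076939) (nat_lit 152) (nat_lit 1009413822330) (nat_lit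 0) (nat_lit 133315461399) (nat_lit 1) (nat_lit 5) (nat_lit 3) (nat_lit 4) (nat_lit 1) (nat_lit 4) (nat_lit 395) (nat_lit 325) (nat_lit 300))) (XT.nd (nat_lit 78) (nat_lit 0) (nat_lit 0) (XT.lf (nat_lit 0) (nat_lit 162334502385) (nat_lit 152) (nat_lit 1144014283030) (nat_lit 0) (nat_lit 161456312785) (nat_lit 1) (nat_lit 5) (nat_lit 3) (nat_lit 4) (nat_lit 1) (nat_lit 4) (nat_lit 396) (nat_lit 325) (nat_lit 299)) (XT.lf (nat_lit 0) (nat_lit 194643454241) (nat_lit 152) (nat_lit 1298922656837) (nat_lit 0) (nat_lit 193762156761) (nat_lit 1) (nat_lit 5) (nat_lit 3) (nat_lit 4) (nat_lit 1) (nat_lit 4) (nat_lit 397) (nat_lit 325) (nat_lit 298)))) (XT.nd (nat_lit 156) (nat_lit 0) (nat_lit 0) (XT.nd (nat_lit 78) (nat_lit 0) (nat_lit 0) (XT.lf (nat_lit 0) (nat_lit 231749064172) (nat_lit 152) (nat_lit 1477169759761) (nat_lit 0) (nat_lit 230865064188) (nat_lit 1) (nat_lit 5) (nat_lit 3) (nat_lit 4) (nat_lit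 1) (nat_lit 4) (nat_lit 398) (nat_lit 325) (nat_lit 297)) (XT.lf (nat_lit 0) (nat_lit 274377311503) (nat_lit 152) (nat_lit 1682243035121) (nat_lit 0) (nat_lit 273490961516) (nat_lit 1) (nat_lit 5) (nat_lit 3) (nat_lit 4) (nat_lit 1) (nat_lit 4) (nat_lit 399) (nat_lit 325) (nat_lit 296))) (XT.nd (nat_lit 78) (nat_lit 0) (nat_lit 0) (XT.lf (nat_lit 0) (nat_lit 323362227161) (nat_lit 152) (nat_lit 1918154786130) (nat_lit 0) (nat_lit 322473833693) (nat_lit 1) (nat_lit 5) (nat_lit 3) (nat_lit 4) (nat_lit 1) (nat_lit 4) (nat_lit 400) (nat_lit 325) (nat_lit 295)) (XT.nd (nat_lit 78) (nat_lit 0) (nat_lit 0) (XT.lf (nat_lit 0) (nat_lit 379662211669) (nat_lit 152) (nat_lit 2189520677482) (nat_lit 0) (nat_lit 378772041261) (nat_lit 1) (nat_lit 5) (nat_lit 3) (nat_lit 4) (nat_lit 1) (nat_lit 4) (nat_lit 401) (nat_lit 325) (nat_lit 294)) (XT.lf (nat_lit 0) (nat_lit 444378786463) (nat_lit 152) (nat_lit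 2501650041833) (nat_lit 0) (nat_lit 443487070890) (nat_lit 1) (nat_lit 5) (nat_lit 3) (nat_lit 4) (nat_lit 1) (nat_lit 4) (nat_lit 402) (nat_lit 325) (nat_lit 293))))))) (XT.nd (nat_lit 624) (nat_lit 0) (nat_lit 0) (XT.nd (nat_lit 312) (nat_lit 0) (nat_lit 0) (XT.nd (nat_lit 156) (nat_lit 0) (nat_lit 0) (XT.nd (nat_lit 78) (nat_lit 0) (nat_lit 0) (XT.lf (nat_lit 0) (nat_lit 518778145398) (nat_lit 152) (nat_lit 2860649758051) (nat_lit 0) (nat_lit 517885086203) (nat_lit 1) (nat_lit 5) (nat_lit 3) (nat_lit 4) (nat_lit 1) (nat_lit 4) (nat_lit 403) (nat_lit 325) (nat_lit 292)) (XT.lf (nat_lit 0) (nat_lit 604315928106) (nat_lit 152) (nat_lit 3273543733628) (nat_lit 0) (nat_lit 603421700543) (nat_lit 1) (nat_lit 5) (nat_lit 3) (nat_lit 4) (nat_lit 1) (nat_lit 4) (nat_lit 404) (nat_lit 325) (nat_lit 291))) (XT.nd (nat_lit 78) (nat_lit 0) (nat_lit 0) (XT.lf (nat_lit 0) (nat_lit 702665699899) (nat_lit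 152) (nat_lit 3748410328955) (nat_lit 0) (nat_lit 701770456366) (nat_lit 1) (nat_lit 5) (nat_lit 3) (nat_lit 4) (nat_lit 1) (nat_lit 4) (nat_lit 405) (nat_lit 325) (nat_lit 290)) (XT.lf (nat_lit 0) (nat_lit 815751695444) (nat_lit 152) (nat_lit 4294540412202) (nat_lit 0) (nat_lit 814855568457) (nat_lit 1) (nat_lit 5) (nat_lit 3) (nat_lit 4) (nat_lit 1) (nat_lit 4) (nat_lit 406) (nat_lit 325) (nat_lit 289)))) (XT.nd (nat_lit 156) (nat_lit 0) (nat_lit 0) (XT.nd (nat_lit 78) (nat_lit 0) (nat_lit 0) (XT.lf (nat_lit 0) (nat_lit 945786466827) (nat_lit 152) (nat_lit 4922619137171) (nat_lit 0) (nat_lit 944889571620) (nat_lit 1) (nat_lit 5) (nat_lit 3) (nat_lit 4) (nat_lit 1) (nat_lit 4) (nat_lit 407) (nat_lit 325) (nat_lit 288)) (XT.lf (nat_lit 0) (nat_lit 1095314172619) (nat_lit 152) (nat_lit 5644935000655) (nat_lit 0) (nat_lit 1094416609395) (nat_lit 1) (nat_lit 5) (nat_lit 3) (nat_lit 4) (nat_lit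 1) (nat_lit 4) (nat_lit 408) (nat_lit 325) (nat_lit 287))) (XT.nd (nat_lit 78) (nat_lit 0) (nat_lit 0) (XT.lf (nat_lit 0) (nat_lit 1267260354890) (nat_lit 152) (nat_lit 6475620269549) (nat_lit 0) (nat_lit 1266362210780) (nat_lit 1) (nat_lit 5) (nat_lit 3) (nat_lit 4) (nat_lit 1) (nat_lit 4) (nat_lit 409) (nat_lit 325) (nat_lit 286)) (XT.lf (nat_lit 0) (nat_lit 1464989178075) (nat_lit 152) (nat_lit 7430927481722) (nat_lit 0) (nat_lit 1464090528848) (nat_lit 1) (nat_lit 5) (nat_lit 3) (nat_lit 4) (nat_lit 1) (nat_lit 4) (nat_lit 410) (nat_lit 325) (nat_lit 285))))) (XT.nd (nat_lit 312) (nat_lit 0) (nat_lit 0) (XT.nd (nat_lit 156) (nat_lit 0) (nat_lit 0) (XT.nd (nat_lit 78) (nat_lit 0) (nat_lit 0) (XT.lf (nat_lit 0) (nat_lit 1692369249585) (nat_lit 152) (nat_lit 8529547430455) (nat_lit 0) (nat_lit 1691470161126) (nat_lit 1) (nat_lit 5) (nat_lit 3) (nat_lit 4) (nat_lit 1) (nat_lit 4) (nat_lit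 411) (nat_lit 325) (nat_lit 284)) (XT.lf (nat_lit 0) (nat_lit 1953849309948) (nat_lit 152) (nat_lit 9792974853877) (nat_lit 0) (nat_lit 1952949839548) (nat_lit 1) (nat_lit 5) (nat_lit 3) (nat_lit 4) (nat_lit 1) (nat_lit 4) (nat_lit 412) (nat_lit 325) (nat_lit 283))) (XT.nd (nat_lit 78) (nat_lit 0) (nat_lit 0) (XT.lf (nat_lit 0) (nat_lit 2254545273391) (nat_lit 152) (nat_lit 11245928984184) (nat_lit 0) (nat_lit 2253645470868) (nat_lit 1) (nat_lit 5) (nat_lit 3) (nat_lit 4) (nat_lit 1) (nat_lit 4) (nat_lit 413) (nat_lit 325) (nat_lit 282)) (XT.lf (nat_lit 0) (nat_lit 2600340321805) (nat_lit 152) (nat_lit 12916837184796) (nat_lit 0) (nat_lit 2599440230480) (nat_lit 1) (nat_lit 5) (nat_lit 3) (nat_lit 4) (nat_lit 1) (nat_lit 4) (nat_lit 414) (nat_lit 325) (nat_lit 281)))) (XT.nd (nat_lit 156) (nat_lit 0) (nat_lit 0) (XT.nd (nat_lit 78) (nat_lit 0) (nat_lit 0) (XT.lf (nat_lit 0) (nat_lit 2998000010487)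 (nat_lit 152) (nat_lit 14838391137899) (nat_lit 0) (nat_lit 2997099668029) (nat_lit 1) (nat_lit 5) (nat_lit 3) (nat_lit 4) (nat_lit 1) (nat_lit 4) (nat_lit 415) (nat_lit 325) (nat_lit 280)) (XT.lf (nat_lit 0) (nat_lit 3455304637692) (nat_lit 152) (nat_lit 17048186464313) (nat_lit 0) (nat_lit 3454404076858) (nat_lit 1) (nat_lit 5) (nat_lit 3) (nat_lit 4) (nat_lit 1) (nat_lit 4) (nat_lit 416) (nat_lit 325) (nat_lit 279))) (XT.nd (nat_lit 78) (nat_lit 0) (nat_lit 0) (XT.lf (nat_lit 0) (nat_lit 3981201467867) (nat_lit 152) (nat_lit 19589458289991) (nat_lit 0) (nat_lit 3980300717141) (nat_lit 1) (nat_lit 5) (nat_lit 3) (nat_lit 4) (nat_lit 1) (nat_lit 4) (nat_lit 417) (nat_lit 325) (nat_lit 278)) (XT.nd (nat_lit 78) (nat_lit 0) (nat_lit 0) (XT.lf (nat_lit 0) (nat_lit 4585979786819) (nat_lit 152) (nat_lit 22511927150652) (nat_lit 0) (nat_lit 4585078870969) (nat_lit 1) (nat_lit 5) (nat_lit 3) (nat_lit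 4) (nat_lit 1) (nat_lit 4) (nat_lit 418) (nat_lit 325) (nat_lit 277)) (XT.lf (nat_lit 0) (nat_lit 5281472213832) (nat_lit 152) (nat_lit 25872771784875) (nat_lit 0) (nat_lit 5280571154396) (nat_lit 1) (nat_lit 5) (nat_lit 3) (nat_lit 4) (nat_lit 1) (nat_lit 4) (nat_lit 419) (nat_lit 325) (nat_lit 276))))))))
noncomputable def xc19 : XT := (XT.nd (nat_lit 1326) (nat_lit 152) (nat_lit 0) (XT.nd (nat_lit 624) (nat_lit 76) (nat_lit 0) (XT.nd (nat_lit 312) (nat_lit 228) (nat_lit 0) (XT.nd (nat_lit 156) (nat_lit 152) (nat_lit 0) (XT.nd (nat_lit 78) (nat_lit 76) (nat_lit 0) (XT.lf (nat_lit 0) (nat_lit 5331041048) (nat_lit 152) (nat_lit 7592689644) (nat_lit 0) (nat_lit 5331041048) (nat_lit 10) (nat_lit 5) (nat_lit 12) (nat_lit 4) (nat_lit 10) (nat_lit 4) (nat_lit 368) (nat_lit 326) (nat_lit 326)) (XT.lf (nat_lit 0) (nat_lit 16343969426) (nat_lit 76) (nat_lit 12245138774) (nat_lit 76) (nat_lit 12074696590)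 (nat_lit 9) (nat_lit 4) (nat_lit 10) (nat_lit 5) (nat_lit 10) (nat_lit 4) (nat_lit 369) (nat_lit 326) (nat_lit 325))) (XT.nd (nat_lit 78) (nat_lit 0) (nat_lit 0) (XT.lf (nat_lit 0) (nat_lit 2738115953) (nat_lit 152) (nat_lit 40319807967) (nat_lit 0) (nat_lit 2443067083) (nat_lit 7) (nat_lit 5) (nat_lit 9) (nat_lit 4) (nat_lit 7) (nat_lit 4) (nat_lit 370) (nat_lit 326) (nat_lit 324)) (XT.lf (nat_lit 0) (nat_lit 18756217138) (nat_lit 152) (nat_lit 13964764423) (nat_lit 0) (nat_lit 18341836065) (nat_lit 7) (nat_lit 5) (nat_lit 9) (nat_lit 4) (nat_lit 7) (nat_lit 4) (nat_lit 371) (nat_lit 326) (nat_lit 323)))) (XT.nd (nat_lit 156) (nat_lit 152) (nat_lit 0) (XT.nd (nat_lit 78) (nat_lit 0) (nat_lit 0) (XT.lf (nat_lit 0) (nat_lit 14598393214) (nat_lit 76) (nat_lit 21723548397) (nat_lit 76) (nat_lit 21205400192) (nat_lit 6) (nat_lit 4) (nat_lit 7) (nat_lit 5) (nat_lit 7) (nat_lit 4) (nat_lit 372)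 (nat_lit 326) (nat_lit 322)) (XT.lf (nat_lit 0) (nat_lit 46025806413) (nat_lit 76) (nat_lit 9799937620) (nat_lit 76) (nat_lit 9191557126) (nat_lit 6) (nat_lit 4) (nat_lit 7) (nat_lit 5) (nat_lit 7) (nat_lit 4) (nat_lit 373) (nat_lit 326) (nat_lit 321))) (XT.nd (nat_lit 78) (nat_lit 0) (nat_lit 0) (XT.lf (nat_lit 0) (nat_lit 3647001047) (nat_lit 152) (nat_lit 67023515019) (nat_lit 0) (nat_lit 3011034979) (nat_lit 4) (nat_lit 5) (nat_lit 6) (nat_lit 4) (nat_lit 4) (nat_lit 4) (nat_lit 374) (nat_lit 326) (nat_lit 320)) (XT.lf (nat_lit 0) (nat_lit 17797546699) (nat_lit 152) (nat_lit 48735960499) (nat_lit 0) (nat_lit 17098406025) (nat_lit 4) (nat_lit 5) (nat_lit 6) (nat_lit 4) (nat_lit 4) (nat_lit 4) (nat_lit 375) (nat_lit 326) (nat_lit 319))))) (XT.nd (nat_lit 312) (nat_lit 0) (nat_lit 0) (XT.nd (nat_lit 156) (nat_lit 76) (nat_lit 0) (XT.nd (nat_lit 78) (nat_lit 0) (nat_lit 0) (XT.lf (nat_lit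 0) (nat_lit 33267762930) (nat_lit 152) (nat_lit 29357620463) (nat_lit 0) (nat_lit 32513687817) (nat_lit 4) (nat_lit 5) (nat_lit 6) (nat_lit 4) (nat_lit 4) (nat_lit 4) (nat_lit 376) (nat_lit 326) (nat_lit 318)) (XT.lf (nat_lit 0) (nat_lit 50360327884) (nat_lit 152) (nat_lit 8509353477) (nat_lit 0) (nat_lit 49558483693) (nat_lit 4) (nat_lit 5) (nat_lit 6) (nat_lit 4) (nat_lit 4) (nat_lit 4) (nat_lit 377) (nat_lit 326) (nat_lit 317))) (XT.nd (nat_lit 78) (nat_lit 0) (nat_lit 0) (XT.lf (nat_lit 0) (nat_lit 14965369740) (nat_lit 76) (nat_lit 54804209073) (nat_lit 76) (nat_lit 53960826553) (nat_lit 3) (nat_lit 4) (nat_lit 4) (nat_lit 5) (nat_lit 4) (nat_lit 4) (nat_lit 378) (nat_lit 326) (nat_lit 316)) (XT.lf (nat_lit 0) (nat_lit 41332946336) (nat_lit 76) (nat_lit 50449579576) (nat_lit 76) (nat_lit 49570076771) (nat_lit 3) (nat_lit 4) (nat_lit 4) (nat_lit 5) (nat_lit 4) (nat_lit 4) (nat_lit 379)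 (nat_lit 326) (nat_lit 315)))) (XT.nd (nat_lit 156) (nat_lit 0) (nat_lit 0) (XT.nd (nat_lit 78) (nat_lit 0) (nat_lit 0) (XT.lf (nat_lit 0) (nat_lit 70661176204) (nat_lit 76) (nat_lit 45953254403) (nat_lit 76) (nat_lit 45042342654) (nat_lit 3) (nat_lit 4) (nat_lit 4) (nat_lit 5) (nat_lit 4) (nat_lit 4) (nat_lit 380) (nat_lit 326) (nat_lit 314)) (XT.lf (nat_lit 0) (nat_lit 103523872538) (nat_lit 76) (nat_lit 41227261974) (nat_lit 76) (nat_lit 40289038100) (nat_lit 3) (nat_lit 4) (nat_lit 4) (nat_lit 5) (nat_lit 4) (nat_lit 4) (nat_lit 381) (nat_lit 326) (nat_lit 313))) (XT.nd (nat_lit 78) (nat_lit 0) (nat_lit 0) (XT.lf (nat_lit 0) (nat_lit 140564001136) (nat_lit 76) (nat_lit 36179137221) (nat_lit 76) (nat_lit 35217163672) (nat_lit 3) (nat_lit 4) (nat_lit 4) (nat_lit 5) (nat_lit 4) (nat_lit 4) (nat_lit 382) (nat_lit 326) (nat_lit 312)) (XT.nd (nat_lit 78) (nat_lit 0) (nat_lit 0) (XT.lf (nat_lit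 0) (nat_lit 182506260164) (nat_lit 76) (nat_lit 30710112484) (nat_lit 76) (nat_lit 29727487044) (nat_lit 3) (nat_lit 4) (nat_lit 4) (nat_lit 5) (nat_lit 4) (nat_lit 4) (nat_lit 383) (nat_lit 326) (nat_lit 311)) (XT.lf (nat_lit 0) (nat_lit 230171259040) (nat_lit 76) (nat_lit 24713185105) (nat_lit 76) (nat_lit 23712601500) (nat_lit 3) (nat_lit 4) (nat_lit 4) (nat_lit 5) (nat_lit 4) (nat_lit 4) (nat_lit 384) (nat_lit 326) (nat_lit 310))))))) (XT.nd (nat_lit 702) (nat_lit 0) (nat_lit 0) (XT.nd (nat_lit 312) (nat_lit 0) (nat_lit 0) (XT.nd (nat_lit 156) (nat_lit 152) (nat_lit 0) (XT.nd (nat_lit 78) (nat_lit 0) (nat_lit 0) (XT.lf (nat_lit 0) (nat_lit 284491573829) (nat_lit 76) (nat_lit 18071023898) (nat_lit 76) (nat_lit 17054824496) (nat_lit 3) (nat_lit 4) (nat_lit 4) (nat_lit 5) (nat_lit 4) (nat_lit 4) (nat_lit 385) (nat_lit 326) (nat_lit 309)) (XT.lf (nat_lit 0) (nat_lit 346529993297) (nat_lit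 76) (nat_lit 10653673534) (nat_lit 76) (nat_lit 9623895179) (nat_lit 3) (nat_lit 4) (nat_lit 4) (nat_lit 5) (nat_lit 4) (nat_lit 4) (nat_lit 386) (nat_lit 326) (nat_lit 308))) (XT.nd (nat_lit 78) (nat_lit 152) (nat_lit 0) (XT.lf (nat_lit 0) (nat_lit 417500312608) (nat_lit 76) (nat_lit 2316011940) (nat_lit 76) (nat_lit 1274425800) (nat_lit 3) (nat_lit 4) (nat_lit 4) (nat_lit 5) (nat_lit 4) (nat_lit 4) (nat_lit 387) (nat_lit 326) (nat_lit 307)) (XT.lf (nat_lit 0) (nat_lit 8316193482) (nat_lit 152) (nat_lit 467809523851) (nat_lit 0) (nat_lit 7342254797) (nat_lit 1) (nat_lit 5) (nat_lit 3) (nat_lit 4) (nat_lit 1) (nat_lit 4) (nat_lit 388) (nat_lit 326) (nat_lit 306)))) (XT.nd (nat_lit 156) (nat_lit 0) (nat_lit 0) (XT.nd (nat_lit 78) (nat_lit 0) (nat_lit 0) (XT.lf (nat_lit 0) (nat_lit 19291406290) (nat_lit 152) (nat_lit 517596806566) (nat_lit 0) (nat_lit 18309200585) (nat_lit 1) (nat_lit 5) (nat_lit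 3) (nat_lit 4) (nat_lit 1) (nat_lit 4) (nat_lit 389) (nat_lit 326) (nat_lit 305)) (XT.lf (nat_lit 0) (nat_lit 31780738723) (nat_lit 152) (nat_lit 575124762030) (nat_lit 0) (nat_lit 30791344304) (nat_lit 1) (nat_lit 5) (nat_lit 3) (nat_lit 4) (nat_lit 1) (nat_lit 4) (nat_lit 390) (nat_lit 326) (nat_lit 304))) (XT.nd (nat_lit 78) (nat_lit 0) (nat_lit 0) (XT.lf (nat_lit 0) (nat_lit 46028547285) (nat_lit 152) (nat_lit 641518937195) (nat_lit 0) (nat_lit 45032901810) (nat_lit 1) (nat_lit 5) (nat_lit 3) (nat_lit 4) (nat_lit 1) (nat_lit 4) (nat_lit 391) (nat_lit 326) (nat_lit 303)) (XT.nd (nat_lit 78) (nat_lit 0) (nat_lit 0) (XT.lf (nat_lit 0) (nat_lit 62313593447) (nat_lit 152) (nat_lit 718078348534) (nat_lit 0) (nat_lit 61312512272) (nat_lit 1) (nat_lit 5) (nat_lit 3) (nat_lit 4) (nat_lit 1) (nat_lit 4) (nat_lit 392) (nat_lit 326) (nat_lit 302)) (XT.lf (nat_lit 0) (nat_lit 80954497678) (nat_lit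 152) (nat_lit 806300897571) (nat_lit 0) (nat_lit 79948689807) (nat_lit 1) (nat_lit 5) (nat_lit 3) (nat_lit 4) (nat_lit 1) (nat_lit 4) (nat_lit 393) (nat_lit 326) (nat_lit 301)))))) (XT.nd (nat_lit 312) (nat_lit 0) (nat_lit 0) (XT.nd (nat_lit 156) (nat_lit 0) (nat_lit 0) (XT.nd (nat_lit 78) (nat_lit 0) (nat_lit 0) (XT.lf (nat_lit 0) (nat_lit 102315973321) (nat_lit 152) (nat_lit 907912677659) (nat_lit 0) (nat_lit 101306055280) (nat_lit 1) (nat_lit 5) (nat_lit 3) (nat_lit 4) (nat_lit 1) (nat_lit 4) (nat_lit 394) (nat_lit 326) (nat_lit 300)) (XT.lf (nat_lit 0) (nat_lit 126815962291) (nat_lit 152) (nat_lit 1024901745364) (nat_lit 0) (nat_lit 125802470189) (nat_lit 1) (nat_lit 5) (nat_lit 3) (nat_lit 4) (nat_lit 1) (nat_lit 4) (nat_lit 395) (nat_lit 326) (nat_lit 299))) (XT.nd (nat_lit 78) (nat_lit 0) (nat_lit 0) (XT.lf (nat_lit 0) (nat_lit 154933812199) (nat_lit 152) (nat_lit 1159557017227) (nat_lit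 0) (nat_lit 153917212218) (nat_lit 1) (nat_lit 5) (nat_lit 3) (nat_lit 4) (nat_lit 1) (nat_lit 4) (nat_lit 396) (nat_lit 326) (nat_lit 298)) (XT.lf (nat_lit 0) (nat_lit 187219654891) (nat_lit 152) (nat_lit 1314513052916) (nat_lit 0) (nat_lit 186200352406) (nat_lit 1) (nat_lit 5) (nat_lit 3) (nat_lit 4) (nat_lit 1) (nat_lit 4) (nat_lit 397) (nat_lit 326) (nat_lit 297)))) (XT.nd (nat_lit 156) (nat_lit 0) (nat_lit 0) (XT.nd (nat_lit 78) (nat_lit 0) (nat_lit 0) (XT.lf (nat_lit 0) (nat_lit 224305169896) (nat_lit 152) (nat_lit 1492801600955) (nat_lit 0) (nat_lit 223283517408) (nat_lit 1) (nat_lit 5) (nat_lit 3) (nat_lit 4) (nat_lit 1) (nat_lit 4) (nat_lit 398) (nat_lit 326) (nat_lit 296)) (XT.lf (nat_lit 0) (nat_lit 266915943380) (nat_lit 152) (nat_lit 1697910915546) (nat_lit 0) (nat_lit 265892247411) (nat_lit 1) (nat_lit 5) (nat_lit 3) (nat_lit 4) (nat_lit 1) (nat_lit 4) (nat_lit 399) (nat_lit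 326) (nat_lit 295))) (XT.nd (nat_lit 78) (nat_lit 0) (nat_lit 0) (XT.lf (nat_lit 0) (nat_lit 315885664387) (nat_lit 152) (nat_lit 1933854005016) (nat_lit 0) (nat_lit 314860191478) (nat_lit 1) (nat_lit 5) (nat_lit 3) (nat_lit 4) (nat_lit 1) (nat_lit 4) (nat_lit 400) (nat_lit 326) (nat_lit 294)) (XT.nd (nat_lit 78) (nat_lit 0) (nat_lit 0) (XT.lf (nat_lit 0) (nat_lit 372172436156) (nat_lit 152) (nat_lit 2205247147203) (nat_lit 0) (nat_lit 371145418081) (nat_lit 1) (nat_lit 5) (nat_lit 3) (nat_lit 4) (nat_lit 1) (nat_lit 4) (nat_lit 401) (nat_lit 326) (nat_lit 293)) (XT.lf (nat_lit 0) (nat_lit 436877521611) (nat_lit 152) (nat_lit 2517400207933) (nat_lit 0) (nat_lit 435849159915) (nat_lit 1) (nat_lit 5) (nat_lit 3) (nat_lit 4) (nat_lit 1) (nat_lit 4) (nat_lit 402) (nat_lit 326) (nat_lit 292))))))))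
noncomputable def xc20 : XT := (XT.nd (nat_lit 50232) (nat_lit 0) (nat_lit 152) (XT.nd (nat_lit 624) (nat_lit 0) (nat_lit 0) (XT.nd (nat_lit 312) (nat_lit 0) (nat_lit 0) (XT.nd (nat_lit 156) (nat_lit 0) (nat_lit 0) (XT.nd (nat_lit 78) (nat_lit 0) (nat_lit 0) (XT.lf (nat_lit 0) (nat_lit 511266889817) (nat_lit 152) (nat_lit 2876420529698) (nat_lit 0) (nat_lit 510237359753) (nat_lit 1) (nat_lit 5) (nat_lit 3) (nat_lit 4) (nat_lit 1) (nat_lit 4) (nat_lit 403) (nat_lit 326) (nat_lit 291)) (XT.lf (nat_lit 0) (nat_lit 596795984933) (nat_lit 152) (nat_lit 3289332423142) (nat_lit 0) (nat_lit 595765438899) (nat_lit 1) (nat_lit 5) (nat_lit 3) (nat_lit 4) (nat_lit 1) (nat_lit 4) (nat_lit 404) (nat_lit 326) (nat_lit 290))) (XT.nd (nat_lit 78) (nat_lit 0) (nat_lit 0) (XT.lf (nat_lit 0) (nat_lit 695138202300) (nat_lit 152) (nat_lit 3764214599223) (nat_lit 0) (nat_lit 694106772812) (nat_lit 1) (nat_lit 5)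 (nat_lit 3) (nat_lit 4) (nat_lit 1) (nat_lit 4) (nat_lit 405) (nat_lit 326) (nat_lit 289)) (XT.lf (nat_lit 0) (nat_lit 808217628778) (nat_lit 152) (nat_lit 4310358230951) (nat_lit 0) (nat_lit 807185431070) (nat_lit 1) (nat_lit 5) (nat_lit 3) (nat_lit 4) (nat_lit 1) (nat_lit 4) (nat_lit 406) (nat_lit 326) (nat_lit 288)))) (XT.nd (nat_lit 156) (nat_lit 0) (nat_lit 0) (XT.nd (nat_lit 78) (nat_lit 0) (nat_lit 0) (XT.lf (nat_lit 0) (nat_lit 938246687929) (nat_lit 152) (nat_lit 4938448737208) (nat_lit 0) (nat_lit 937213822204) (nat_lit 1) (nat_lit 5) (nat_lit 3) (nat_lit 4) (nat_lit 1) (nat_lit 4) (nat_lit 407) (nat_lit 326) (nat_lit 287)) (XT.lf (nat_lit 0) (nat_lit 1087769426563) (nat_lit 152) (nat_lit 5660774845291) (nat_lit 0) (nat_lit 1086735979953) (nat_lit 1) (nat_lit 5) (nat_lit 3) (nat_lit 4) (nat_lit 1) (nat_lit 4) (nat_lit 408) (nat_lit 326) (nat_lit 286))) (XT.nd (nat_lit 78) (nat_lit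 0) (nat_lit 0) (XT.lf (nat_lit 0) (nat_lit 1259711289566) (nat_lit 152) (nat_lit 6491469022531) (nat_lit 0) (nat_lit 1258677337838) (nat_lit 1) (nat_lit 5) (nat_lit 3) (nat_lit 4) (nat_lit 1) (nat_lit 4) (nat_lit 409) (nat_lit 326) (nat_lit 285)) (XT.lf (nat_lit 0) (nat_lit 1457436356866) (nat_lit 152) (nat_lit 7446783981093) (nat_lit 0) (nat_lit 1456401965906) (nat_lit 1) (nat_lit 5) (nat_lit 3) (nat_lit 4) (nat_lit 1) (nat_lit 4) (nat_lit 410) (nat_lit 326) (nat_lit 284))))) (XT.nd (nat_lit 312) (nat_lit 0) (nat_lit 0) (XT.nd (nat_lit 156) (nat_lit 0) (nat_lit 0) (XT.nd (nat_lit 78) (nat_lit 0) (nat_lit 0) (XT.lf (nat_lit 0) (nat_lit 1684813162388) (nat_lit 152) (nat_lit 8545410665816) (nat_lit 0) (nat_lit 1683778389487) (nat_lit 1) (nat_lit 5) (nat_lit 3) (nat_lit 4) (nat_lit 1) (nat_lit 4) (nat_lit 411) (nat_lit 326) (nat_lit 283)) (XT.lf (nat_lit 0) (nat_lit 1946290382763) (nat_lit 152)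 (nat_lit 9808843946620) (nat_lit 0) (nat_lit 1945255277739) (nat_lit 1) (nat_lit 5) (nat_lit 3) (nat_lit 4) (nat_lit 1) (nat_lit 4) (nat_lit 412) (nat_lit 326) (nat_lit 282))) (XT.nd (nat_lit 78) (nat_lit 0) (nat_lit 0) (XT.lf (nat_lit 0) (nat_lit 2246983876650) (nat_lit 152) (nat_lit 11261803170303) (nat_lit 0) (nat_lit 2245948482824) (nat_lit 1) (nat_lit 5) (nat_lit 3) (nat_lit 4) (nat_lit 1) (nat_lit 4) (nat_lit 413) (nat_lit 326) (nat_lit 281)) (XT.lf (nat_lit 0) (nat_lit 2592776777625) (nat_lit 152) (nat_lit 12932715799938) (nat_lit 0) (nat_lit 2591741132666) (nat_lit 1) (nat_lit 5) (nat_lit 3) (nat_lit 4) (nat_lit 1) (nat_lit 4) (nat_lit 414) (nat_lit 326) (nat_lit 280)))) (XT.nd (nat_lit 156) (nat_lit 0) (nat_lit 0) (XT.nd (nat_lit 78) (nat_lit 0) (nat_lit 0) (XT.lf (nat_lit 0) (nat_lit 2990434598968) (nat_lit 152) (nat_lit 14854273604364) (nat_lit 0) (nat_lit 2989398735633) (nat_lit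 1) (nat_lit 5) (nat_lit 3) (nat_lit 4) (nat_lit 1) (nat_lit 4) (nat_lit 415) (nat_lit 326) (nat_lit 279)) (XT.lf (nat_lit 0) (nat_lit 3447737602401) (nat_lit 152) (nat_lit 17064072279756) (nat_lit 0) (nat_lit 3446701549173) (nat_lit 1) (nat_lit 5) (nat_lit 3) (nat_lit 4) (nat_lit 1) (nat_lit 4) (nat_lit 416) (nat_lit 326) (nat_lit 278))) (XT.nd (nat_lit 78) (nat_lit 0) (nat_lit 0) (XT.lf (nat_lit 0) (nat_lit 3973633020599) (nat_lit 152) (nat_lit 19605347017588) (nat_lit 0) (nat_lit 3972596802248) (nat_lit 1) (nat_lit 5) (nat_lit 3) (nat_lit 4) (nat_lit 1) (nat_lit 4) (nat_lit 417) (nat_lit 326) (nat_lit 277)) (XT.nd (nat_lit 78) (nat_lit 0) (nat_lit 0) (XT.lf (nat_lit 0) (nat_lit 4578410111745) (nat_lit 152) (nat_lit 22527818410558) (nat_lit 0) (nat_lit 4577373749808) (nat_lit 1) (nat_lit 5) (nat_lit 3) (nat_lit 4) (nat_lit 1) (nat_lit 4) (nat_lit 418) (nat_lit 326) (nat_lit 276)) (XT.lf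 (nat_lit 0) (nat_lit 5273901471101) (nat_lit 152) (nat_lit 25888665246788) (nat_lit 0) (nat_lit 5272864984307) (nat_lit 1) (nat_lit 5) (nat_lit 3) (nat_lit 4) (nat_lit 1) (nat_lit 4) (nat_lit 419) (nat_lit 326) (nat_lit 275))))))) (XT.nd (nat_lit 624) (nat_lit 228) (nat_lit 0) (XT.nd (nat_lit 312) (nat_lit 228) (nat_lit 0) (XT.nd (nat_lit 156) (nat_lit 228) (nat_lit 0) (XT.nd (nat_lit 78) (nat_lit 76) (nat_lit 0) (XT.lf (nat_lit 0) (nat_lit 4828700600) (nat_lit 152) (nat_lit 5234575042) (nat_lit 0) (nat_lit 4828700600) (nat_lit 13) (nat_lit 5) (nat_lit 15) (nat_lit 4) (nat_lit 13) (nat_lit 4) (nat_lit 366) (nat_lit 327) (nat_lit 327)) (XT.lf (nat_lit 0) (nat_lit 21515143964) (nat_lit 76) (nat_lit 5815166449) (nat_lit 76) (nat_lit 5603477256) (nat_lit 12) (nat_lit 4) (nat_lit 13) (nat_lit 5) (nat_lit 13) (nat_lit 4) (nat_lit 367) (nat_lit 327) (nat_lit 326))) (XT.nd (nat_lit 78) (nat_lit 76)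 (nat_lit 0) (XT.lf (nat_lit 0) (nat_lit 10124879271) (nat_lit 152) (nat_lit 16684904929) (nat_lit 0) (nat_lit 9758428574) (nat_lit 10) (nat_lit 5) (nat_lit 12) (nat_lit 4) (nat_lit 10) (nat_lit 4) (nat_lit 368) (nat_lit 327) (nat_lit 325)) (XT.lf (nat_lit 0) (nat_lit 13392883161) (nat_lit 76) (nat_lit 13950473441) (nat_lit 76) (nat_lit 13435812149) (nat_lit 9) (nat_lit 4) (nat_lit 10) (nat_lit 5) (nat_lit 10) (nat_lit 4) (nat_lit 369) (nat_lit 327) (nat_lit 324)))) (XT.nd (nat_lit 156) (nat_lit 76) (nat_lit 0) (XT.nd (nat_lit 78) (nat_lit 0) (nat_lit 0) (XT.lf (nat_lit 0) (nat_lit 679259539) (nat_lit 152) (nat_lit 44917600128) (nat_lit 0) (nat_lit 83389104) (nat_lit 7) (nat_lit 5) (nat_lit 9) (nat_lit 4) (nat_lit 7) (nat_lit 4) (nat_lit 370) (nat_lit 327) (nat_lit 323)) (XT.lf (nat_lit 0) (nat_lit 16136345097) (nat_lit 152) (nat_lit 19713911557) (nat_lit 0) (nat_lit 15436707530) (nat_lit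 7) (nat_lit 5) (nat_lit 9) (nat_lit 4) (nat_lit 7) (nat_lit 4) (nat_lit 371) (nat_lit 327) (nat_lit 322))) (XT.nd (nat_lit 78) (nat_lit 0) (nat_lit 0) (XT.lf (nat_lit 0) (nat_lit 7492607672) (nat_lit 76) (nat_lit 25550727910) (nat_lit 76) (nat_lit 24760858053) (nat_lit 6) (nat_lit 4) (nat_lit 7) (nat_lit 5) (nat_lit 7) (nat_lit 4) (nat_lit 372) (nat_lit 327) (nat_lit 321)) (XT.lf (nat_lit 0) (nat_lit 38003587385) (nat_lit 76) (nat_lit 14097301958) (nat_lit 76) (nat_lit 13228969241) (nat_lit 6) (nat_lit 4) (nat_lit 7) (nat_lit 5) (nat_lit 7) (nat_lit 4) (nat_lit 373) (nat_lit 327) (nat_lit 320))))) (XT.nd (nat_lit 312) (nat_lit 76) (nat_lit 0) (XT.nd (nat_lit 156) (nat_lit 0) (nat_lit 0) (XT.nd (nat_lit 78) (nat_lit 152) (nat_lit 0) (XT.lf (nat_lit 0) (nat_lit 71377881887) (nat_lit 76) (nat_lit 1804903308) (nat_lit 76) (nat_lit 868342017) (nat_lit 6) (nat_lit 4) (nat_lit 7) (nat_lit 5) (nat_lit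 7) (nat_lit 4) (nat_lit 374) (nat_lit 327) (nat_lit 319)) (XT.lf (nat_lit 0) (nat_lit 12839351605) (nat_lit 152) (nat_lit 59285484883) (nat_lit 0) (nat_lit 11917230786) (nat_lit 4) (nat_lit 5) (nat_lit 6) (nat_lit 4) (nat_lit 4) (nat_lit 4) (nat_lit 375) (nat_lit 327) (nat_lit 318))) (XT.nd (nat_lit 78) (nat_lit 0) (nat_lit 0) (XT.lf (nat_lit 0) (nat_lit 27984831226) (nat_lit 152) (nat_lit 40575435105) (nat_lit 0) (nat_lit 27014941329) (nat_lit 4) (nat_lit 5) (nat_lit 6) (nat_lit 4) (nat_lit 4) (nat_lit 4) (nat_lit 376) (nat_lit 327) (nat_lit 317)) (XT.lf (nat_lit 0) (nat_lit 44795016520) (nat_lit 152) (nat_lit 20308290082) (nat_lit 0) (nat_lit 43783588294) (nat_lit 4) (nat_lit 5) (nat_lit 6) (nat_lit 4) (nat_lit 4) (nat_lit 4) (nat_lit 377) (nat_lit 327) (nat_lit 316)))) (XT.nd (nat_lit 156) (nat_lit 0) (nat_lit 0) (XT.nd (nat_lit 78) (nat_lit 0) (nat_lit 0) (XT.lf (nat_lit 0) (nat_lit 2013189159)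 (nat_lit 76) (nat_lit 61634030503) (nat_lit 76) (nat_lit 60586481991) (nat_lit 3) (nat_lit 4) (nat_lit 4) (nat_lit 5) (nat_lit 4) (nat_lit 4) (nat_lit 378) (nat_lit 327) (nat_lit 315)) (XT.lf (nat_lit 0) (nat_lit 27918215422) (nat_lit 76) (nat_lit 57517307401) (nat_lit 76) (nat_lit 56438349945) (nat_lit 3) (nat_lit 4) (nat_lit 4) (nat_lit 5) (nat_lit 4) (nat_lit 4) (nat_lit 379) (nat_lit 327) (nat_lit 314))) (XT.nd (nat_lit 78) (nat_lit 0) (nat_lit 0) (XT.lf (nat_lit 0) (nat_lit 56844227609) (nat_lit 76) (nat_lit 53227857354) (nat_lit 76) (nat_lit 52121587772) (nat_lit 3) (nat_lit 4) (nat_lit 4) (nat_lit 5) (nat_lit 4) (nat_lit 4) (nat_lit 380) (nat_lit 327) (nat_lit 313)) (XT.nd (nat_lit 78) (nat_lit 0) (nat_lit 0) (XT.lf (nat_lit 0) (nat_lit 89357169437) (nat_lit 76) (nat_lit 48681756339) (nat_lit 76) (nat_lit 47551737083) (nat_lit 3) (nat_lit 4) (nat_lit 4) (nat_lit 5) (nat_lit 4) (nat_lit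 4) (nat_lit 381) (nat_lit 327) (nat_lit 312)) (XT.lf (nat_lit 0) (nat_lit 126093163682) (nat_lit 76) (nat_lit 43790058901) (nat_lit 76) (nat_lit 42639387755) (nat_lit 3) (nat_lit 4) (nat_lit 4) (nat_lit 5) (nat_lit 4) (nat_lit 4) (nat_lit 382) (nat_lit 327) (nat_lit 311))))))))
noncomputable def xc21 : XT := (XT.nd (nat_lit 1326) (nat_lit 0) (nat_lit 0) (XT.nd (nat_lit 624) (nat_lit 0) (nat_lit 0) (XT.nd (nat_lit 312) (nat_lit 152) (nat_lit 0) (XT.nd (nat_lit 156) (nat_lit 0) (nat_lit 0) (XT.nd (nat_lit 78) (nat_lit 0) (nat_lit 0) (XT.lf (nat_lit 0) (nat_lit 167770958056) (nat_lit 76) (nat_lit 38457057917) (nat_lit 76) (nat_lit 37288428605) (nat_lit 3) (nat_lit 4) (nat_lit 4) (nat_lit 5) (nat_lit 4) (nat_lit 4) (nat_lit 383) (nat_lit 327) (nat_lit 310)) (XT.lf (nat_lit 0) (nat_lit 215205987668) (nat_lit 76) (nat_lit 32578412064) (nat_lit 76) (nat_lit 31394166955) (nat_lit 3) (nat_lit 4) (nat_lit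 4) (nat_lit 5) (nat_lit 4) (nat_lit 4) (nat_lit 384) (nat_lit 327) (nat_lit 309))) (XT.nd (nat_lit 78) (nat_lit 0) (nat_lit 0) (XT.lf (nat_lit 0) (nat_lit 269326329182) (nat_lit 76) (nat_lit 26039104356) (nat_lit 76) (nat_lit 24841280294) (nat_lit 3) (nat_lit 4) (nat_lit 4) (nat_lit 5) (nat_lit 4) (nat_lit 4) (nat_lit 385) (nat_lit 327) (nat_lit 308)) (XT.lf (nat_lit 0) (nat_lit 331190858847) (nat_lit 76) (nat_lit 18711191817) (nat_lit 76) (nat_lit 17501559970) (nat_lit 3) (nat_lit 4) (nat_lit 4) (nat_lit 5) (nat_lit 4) (nat_lit 4) (nat_lit 386) (nat_lit 327) (nat_lit 307)))) (XT.nd (nat_lit 156) (nat_lit 76) (nat_lit 0) (XT.nd (nat_lit 78) (nat_lit 76) (nat_lit 0) (XT.lf (nat_lit 0) (nat_lit 402009969634) (nat_lit 76) (nat_lit 10451302246) (nat_lit 76) (nat_lit 9231402760) (nat_lit 3) (nat_lit 4) (nat_lit 4) (nat_lit 5) (nat_lit 4) (nat_lit 4) (nat_lit 387) (nat_lit 327) (nat_lit 306)) (XT.lf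 (nat_lit 0) (nat_lit 124445672) (nat_lit 152) (nat_lit 969980870) (nat_lit 76) (nat_lit 483041404603) (nat_lit 2) (nat_lit 5) (nat_lit 4) (nat_lit 5) (nat_lit 3) (nat_lit 4) (nat_lit 388) (nat_lit 327) (nat_lit 305))) (XT.nd (nat_lit 78) (nat_lit 0) (nat_lit 0) (XT.lf (nat_lit 0) (nat_lit 10986672352) (nat_lit 152) (nat_lit 535045959462) (nat_lit 0) (nat_lit 9841680056) (nat_lit 1) (nat_lit 5) (nat_lit 3) (nat_lit 4) (nat_lit 1) (nat_lit 4) (nat_lit 389) (nat_lit 327) (nat_lit 304)) (XT.lf (nat_lit 0) (nat_lit 23422551884) (nat_lit 152) (nat_lit 592684159754) (nat_lit 0) (nat_lit 22271308533) (nat_lit 1) (nat_lit 5) (nat_lit 3) (nat_lit 4) (nat_lit 1) (nat_lit 4) (nat_lit 390) (nat_lit 327) (nat_lit 303))))) (XT.nd (nat_lit 312) (nat_lit 0) (nat_lit 0) (XT.nd (nat_lit 156) (nat_lit 0) (nat_lit 0) (XT.nd (nat_lit 78) (nat_lit 0) (nat_lit 0) (XT.lf (nat_lit 0) (nat_lit 37623879663) (nat_lit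 152) (nat_lit 659174199989) (nat_lit 0) (nat_lit 36467200611) (nat_lit 1) (nat_lit 5) (nat_lit 3) (nat_lit 4) (nat_lit 1) (nat_lit 4) (nat_lit 391) (nat_lit 327) (nat_lit 302)) (XT.lf (nat_lit 0) (nat_lit 53868507752) (nat_lit 152) (nat_lit 735816972257) (nat_lit 0) (nat_lit 52707102005) (nat_lit 1) (nat_lit 5) (nat_lit 3) (nat_lit 4) (nat_lit 1) (nat_lit 4) (nat_lit 392) (nat_lit 327) (nat_lit 301))) (XT.nd (nat_lit 78) (nat_lit 0) (nat_lit 0) (XT.lf (nat_lit 0) (nat_lit 72474265833) (nat_lit 152) (nat_lit 824112009059) (nat_lit 0) (nat_lit 71308749916) (nat_lit 1) (nat_lit 5) (nat_lit 3) (nat_lit 4) (nat_lit 1) (nat_lit 4) (nat_lit 393) (nat_lit 327) (nat_lit 300)) (XT.lf (nat_lit 0) (nat_lit 93805179607) (nat_lit 152) (nat_lit 925786821986) (nat_lit 0) (nat_lit 92636089628) (nat_lit 1) (nat_lit 5) (nat_lit 3) (nat_lit 4) (nat_lit 1) (nat_lit 4) (nat_lit 394) (nat_lit 327) (nat_lit 299))))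 (XT.nd (nat_lit 156) (nat_lit 0) (nat_lit 0) (XT.nd (nat_lit 78) (nat_lit 0) (nat_lit 0) (XT.lf (nat_lit 0) (nat_lit 118278593039) (nat_lit 152) (nat_lit 1042830700855) (nat_lit 0) (nat_lit 117106395181) (nat_lit 1) (nat_lit 5) (nat_lit 3) (nat_lit 4) (nat_lit 1) (nat_lit 4) (nat_lit 395) (nat_lit 327) (nat_lit 298)) (XT.lf (nat_lit 0) (nat_lit 146373333782) (nat_lit 152) (nat_lit 1177533634600) (nat_lit 0) (nat_lit 145198433421) (nat_lit 1) (nat_lit 5) (nat_lit 3) (nat_lit 4) (nat_lit 1) (nat_lit 4) (nat_lit 396) (nat_lit 327) (nat_lit 297))) (XT.nd (nat_lit 78) (nat_lit 0) (nat_lit 0) (XT.lf (nat_lit 0) (nat_lit 178639081549) (nat_lit 152) (nat_lit 1332531115404) (nat_lit 0) (nat_lit 177461831184) (nat_lit 1) (nat_lit 5) (nat_lit 3) (nat_lit 4) (nat_lit 1) (nat_lit 4) (nat_lit 397) (nat_lit 327) (nat_lit 296)) (XT.nd (nat_lit 78) (nat_lit 0) (nat_lit 0) (XT.lf (nat_lit 0) (nat_lit 215707122706)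 (nat_lit 152) (nat_lit 1510855702674) (nat_lit 0) (nat_lit 214527828861) (nat_lit 1) (nat_lit 5) (nat_lit 3) (nat_lit 4) (nat_lit 1) (nat_lit 4) (nat_lit 398) (nat_lit 327) (nat_lit 295)) (XT.lf (nat_lit 0) (nat_lit 258302701539) (nat_lit 152) (nat_lit 1715996355725) (nat_lit 0) (nat_lit 257121630754) (nat_lit 1) (nat_lit 5) (nat_lit 3) (nat_lit 4) (nat_lit 1) (nat_lit 4) (nat_lit 399) (nat_lit 327) (nat_lit 294))))))) (XT.nd (nat_lit 624) (nat_lit 0) (nat_lit 0) (XT.nd (nat_lit 312) (nat_lit 0) (nat_lit 0) (XT.nd (nat_lit 156) (nat_lit 0) (nat_lit 0) (XT.nd (nat_lit 78) (nat_lit 0) (nat_lit 0) (XT.lf (nat_lit 0) (nat_lit 307259209807) (nat_lit 152) (nat_lit 1951966696031) (nat_lit 0) (nat_lit 306076593856) (nat_lit 1) (nat_lit 5) (nat_lit 3) (nat_lit 4) (nat_lit 1) (nat_lit 4) (nat_lit 400) (nat_lit 327) (nat_lit 293)) (XT.lf (nat_lit 0) (nat_lit 363534492237) (nat_lit 152) (nat_lit 2223383534597)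 (nat_lit 0) (nat_lit 362350532664) (nat_lit 1) (nat_lit 5) (nat_lit 3) (nat_lit 4) (nat_lit 1) (nat_lit 4) (nat_lit 401) (nat_lit 327) (nat_lit 292))) (XT.nd (nat_lit 78) (nat_lit 0) (nat_lit 0) (XT.lf (nat_lit 0) (nat_lit 428229586963) (nat_lit 152) (nat_lit 2535557200874) (nat_lit 0) (nat_lit 427044459023) (nat_lit 1) (nat_lit 5) (nat_lit 3) (nat_lit 4) (nat_lit 1) (nat_lit 4) (nat_lit 402) (nat_lit 327) (nat_lit 291)) (XT.lf (nat_lit 0) (nat_lit 502610267578) (nat_lit 152) (nat_lit 2894595440506) (nat_lit 0) (nat_lit 501424123667) (nat_lit 1) (nat_lit 5) (nat_lit 3) (nat_lit 4) (nat_lit 1) (nat_lit 4) (nat_lit 403) (nat_lit 327) (nat_lit 290)))) (XT.nd (nat_lit 156) (nat_lit 0) (nat_lit 0) (XT.nd (nat_lit 78) (nat_lit 0) (nat_lit 0) (XT.lf (nat_lit 0) (nat_lit 588131808268) (nat_lit 152) (nat_lit 3307522914703) (nat_lit 0) (nat_lit 586944780904) (nat_lit 1) (nat_lit 5) (nat_lit 3) (nat_lit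 4) (nat_lit 1) (nat_lit 4) (nat_lit 404) (nat_lit 327) (nat_lit 289)) (XT.lf (nat_lit 0) (nat_lit 686467456568) (nat_lit 152) (nat_lit 3782418639266) (nat_lit 0) (nat_lit 685279660983) (nat_lit 1) (nat_lit 5) (nat_lit 3) (nat_lit 4) (nat_lit 1) (nat_lit 4) (nat_lit 405) (nat_lit 327) (nat_lit 288))) (XT.nd (nat_lit 78) (nat_lit 0) (nat_lit 0) (XT.lf (nat_lit 0) (nat_lit 799541170814) (nat_lit 152) (nat_lit 4328574052282) (nat_lit 0) (nat_lit 798352707212) (nat_lit 1) (nat_lit 5) (nat_lit 3) (nat_lit 4) (nat_lit 1) (nat_lit 4) (nat_lit 406) (nat_lit 327) (nat_lit 287)) (XT.lf (nat_lit 0) (nat_lit 929565262807) (nat_lit 152) (nat_lit 4956674803138) (nat_lit 0) (nat_lit 928376218320) (nat_lit 1) (nat_lit 5) (nat_lit 3) (nat_lit 4) (nat_lit 1) (nat_lit 4) (nat_lit 407) (nat_lit 327) (nat_lit 286))))) (XT.nd (nat_lit 312) (nat_lit 0) (nat_lit 0) (XT.nd (nat_lit 156) (nat_lit 0) (nat_lit 0) (XT.nd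 (nat_lit 78) (nat_lit 0) (nat_lit 0) (XT.lf (nat_lit 0) (nat_lit 1079083682173) (nat_lit 152) (nat_lit 5679009819567) (nat_lit 0) (nat_lit 1077894132569) (nat_lit 1) (nat_lit 5) (nat_lit 3) (nat_lit 4) (nat_lit 1) (nat_lit 4) (nat_lit 408) (nat_lit 327) (nat_lit 285)) (XT.lf (nat_lit 0) (nat_lit 1251021789290) (nat_lit 152) (nat_lit 6509711743196) (nat_lit 0) (nat_lit 1249831800454) (nat_lit 1) (nat_lit 5) (nat_lit 3) (nat_lit 4) (nat_lit 1) (nat_lit 4) (nat_lit 409) (nat_lit 327) (nat_lit 284))) (XT.nd (nat_lit 78) (nat_lit 0) (nat_lit 0) (XT.lf (nat_lit 0) (nat_lit 1448743590603) (nat_lit 152) (nat_lit 7465033437747) (nat_lit 0) (nat_lit 1447553219825) (nat_lit 1) (nat_lit 5) (nat_lit 3) (nat_lit 4) (nat_lit 1) (nat_lit 4) (nat_lit 410) (nat_lit 327) (nat_lit 283)) (XT.lf (nat_lit 0) (nat_lit 1676117556137) (nat_lit 152) (nat_lit 8563665979853) (nat_lit 0) (nat_lit 1674926853236) (nat_lit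 1) (nat_lit 5) (nat_lit 3) (nat_lit 4) (nat_lit 1) (nat_lit 4) (nat_lit 411) (nat_lit 327) (nat_lit 282)))) (XT.nd (nat_lit 156) (nat_lit 0) (nat_lit 0) (XT.nd (nat_lit 78) (nat_lit 0) (nat_lit 0) (XT.lf (nat_lit 0) (nat_lit 1937592306956) (nat_lit 152) (nat_lit 9827104354033) (nat_lit 0) (nat_lit 1936401315253) (nat_lit 1) (nat_lit 5) (nat_lit 3) (nat_lit 4) (nat_lit 1) (nat_lit 4) (nat_lit 412) (nat_lit 327) (nat_lit 281)) (XT.lf (nat_lit 0) (nat_lit 2238283653404) (nat_lit 152) (nat_lit 11280068006739) (nat_lit 0) (nat_lit 2237092410568) (nat_lit 1) (nat_lit 5) (nat_lit 3) (nat_lit 4) (nat_lit 1) (nat_lit 4) (nat_lit 413) (nat_lit 327) (nat_lit 280))) (XT.nd (nat_lit 78) (nat_lit 0) (nat_lit 0) (XT.lf (nat_lit 0) (nat_lit 2584074687040) (nat_lit 152) (nat_lit 12950984487697) (nat_lit 0) (nat_lit 2582883225828) (nat_lit 1) (nat_lit 5) (nat_lit 3) (nat_lit 4) (nat_lit 1) (nat_lit 4) (nat_lit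 414) (nat_lit 327) (nat_lit 279)) (XT.nd (nat_lit 78) (nat_lit 0) (nat_lit 0) (XT.lf (nat_lit 0) (nat_lit 2981730884610) (nat_lit 152) (nat_lit 14872545641101) (nat_lit 0) (nat_lit 2980539233506) (nat_lit 1) (nat_lit 5) (nat_lit 3) (nat_lit 4) (nat_lit 1) (nat_lit 4) (nat_lit 415) (nat_lit 327) (nat_lit 278)) (XT.lf (nat_lit 0) (nat_lit 3439032476066) (nat_lit 152) (nat_lit 17082347228647) (nat_lit 0) (nat_lit 3437840659839) (nat_lit 1) (nat_lit 5) (nat_lit 3) (nat_lit 4) (nat_lit 1) (nat_lit 4) (nat_lit 416) (nat_lit 327) (nat_lit 277))))))))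
noncomputable def xc22 : XT := (XT.nd (nat_lit 50076) (nat_lit 0) (nat_lit 0) (XT.nd (nat_lit 49374) (nat_lit 0) (nat_lit 228) (XT.nd (nat_lit 49062) (nat_lit 0) (nat_lit 684) (XT.nd (nat_lit 156) (nat_lit 0) (nat_lit 0) (XT.nd (nat_lit 78) (nat_lit 0) (nat_lit 0) (XT.lf (nat_lit 0) (nat_lit 3964926666459) (nat_lit 152) (nat_lit 19623624498788) (nat_lit 0) (nat_lit 3963734706646) (nat_lit 1) (nat_lit 5) (nat_lit 3) (nat_lit 4) (nat_lit 1) (nat_lit 4) (nat_lit 417) (nat_lit 327) (nat_lit 276)) (XT.lf (nat_lit 0) (nat_lit 4569702689948) (nat_lit 152) (nat_lit 22546098093764) (nat_lit 0) (nat_lit 4568510605278) (nat_lit 1) (nat_lit 5) (nat_lit 3) (nat_lit 4) (nat_lit 1) (nat_lit 4) (nat_lit 418) (nat_lit 327) (nat_lit 275))) (XT.nd (nat_lit 48828) (nat_lit 0) (nat_lit 1140) (XT.lf (nat_lit 0) (nat_lit 5265193120907) (nat_lit 152) (nat_lit 25906946844783) (nat_lit 0) (nat_lit 5264000927664) (nat_lit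 1) (nat_lit 5) (nat_lit 3) (nat_lit 4) (nat_lit 1) (nat_lit 4) (nat_lit 419) (nat_lit 327) (nat_lit 274)) (XT.lf (nat_lit 0) (nat_lit 2191578348) (nat_lit 152) (nat_lit 7946239600) (nat_lit 0) (nat_lit 2191578348) (nat_lit 16) (nat_lit 5) (nat_lit 18) (nat_lit 4) (nat_lit 16) (nat_lit 4) (nat_lit 364) (nat_lit 328) (nat_lit 328)))) (XT.nd (nat_lit 156) (nat_lit 228) (nat_lit 0) (XT.nd (nat_lit 78) (nat_lit 152) (nat_lit 0) (XT.lf (nat_lit 0) (nat_lit 14407315053) (nat_lit 76) (nat_lit 6461187944) (nat_lit 76) (nat_lit 6198269966) (nat_lit 15) (nat_lit 4) (nat_lit 16) (nat_lit 5) (nat_lit 16) (nat_lit 4) (nat_lit 365) (nat_lit 328) (nat_lit 327)) (XT.lf (nat_lit 0) (nat_lit 9175830051) (nat_lit 152) (nat_lit 11945440627) (nat_lit 0) (nat_lit 8720698286) (nat_lit 13) (nat_lit 5) (nat_lit 15) (nat_lit 4) (nat_lit 13) (nat_lit 4) (nat_lit 366) (nat_lit 328) (nat_lit 326))) (XT.nd (nat_lit 78)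 (nat_lit 152) (nat_lit 0) (XT.lf (nat_lit 0) (nat_lit 18609784678) (nat_lit 76) (nat_lit 7538633911) (nat_lit 76) (nat_lit 6899424587) (nat_lit 12) (nat_lit 4) (nat_lit 13) (nat_lit 5) (nat_lit 13) (nat_lit 4) (nat_lit 367) (nat_lit 328) (nat_lit 325)) (XT.lf (nat_lit 0) (nat_lit 8136309606) (nat_lit 152) (nat_lit 21212820392) (nat_lit 0) (nat_lit 7396238525) (nat_lit 10) (nat_lit 5) (nat_lit 12) (nat_lit 4) (nat_lit 10) (nat_lit 4) (nat_lit 368) (nat_lit 328) (nat_lit 324))))) (XT.nd (nat_lit 312) (nat_lit 228) (nat_lit 0) (XT.nd (nat_lit 156) (nat_lit 152) (nat_lit 0) (XT.nd (nat_lit 78) (nat_lit 0) (nat_lit 0) (XT.lf (nat_lit 0) (nat_lit 7432971987) (nat_lit 76) (nat_lit 17224065832) (nat_lit 76) (nat_lit 16355115973) (nat_lit 9) (nat_lit 4) (nat_lit 10) (nat_lit 5) (nat_lit 10) (nat_lit 4) (nat_lit 369) (nat_lit 328) (nat_lit 323)) (XT.lf (nat_lit 0) (nat_lit 39428771993) (nat_lit 76)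 (nat_lit 3754513937) (nat_lit 76) (nat_lit 2773495575) (nat_lit 9) (nat_lit 4) (nat_lit 10) (nat_lit 5) (nat_lit 10) (nat_lit 4) (nat_lit 370) (nat_lit 328) (nat_lit 322))) (XT.nd (nat_lit 78) (nat_lit 0) (nat_lit 0) (XT.lf (nat_lit 0) (nat_lit 12074636949) (nat_lit 152) (nat_lit 28477963970) (nat_lit 0) (nat_lit 11076054325) (nat_lit 7) (nat_lit 5) (nat_lit 9) (nat_lit 4) (nat_lit 7) (nat_lit 4) (nat_lit 371) (nat_lit 328) (nat_lit 321)) (XT.lf (nat_lit 0) (nat_lit 28377221626) (nat_lit 152) (nat_lit 2516845092) (nat_lit 0) (nat_lit 27300176142) (nat_lit 7) (nat_lit 5) (nat_lit 9) (nat_lit 4) (nat_lit 7) (nat_lit 4) (nat_lit 372) (nat_lit 328) (nat_lit 320)))) (XT.nd (nat_lit 156) (nat_lit 152) (nat_lit 0) (XT.nd (nat_lit 78) (nat_lit 0) (nat_lit 0) (XT.lf (nat_lit 0) (nat_lit 27064703335) (nat_lit 76) (nat_lit 19918312142) (nat_lit 76) (nat_lit 18773038083) (nat_lit 6) (nat_lit 4) (nat_lit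 7) (nat_lit 5) (nat_lit 7) (nat_lit 4) (nat_lit 373) (nat_lit 328) (nat_lit 319)) (XT.lf (nat_lit 0) (nat_lit 59746042460) (nat_lit 76) (nat_lit 7981440769) (nat_lit 76) (nat_lit 6776837516) (nat_lit 6) (nat_lit 4) (nat_lit 7) (nat_lit 5) (nat_lit 7) (nat_lit 4) (nat_lit 374) (nat_lit 328) (nat_lit 318))) (XT.nd (nat_lit 78) (nat_lit 0) (nat_lit 0) (XT.lf (nat_lit 0) (nat_lit 6439243536) (nat_lit 152) (nat_lit 72854261979) (nat_lit 0) (nat_lit 5276101076) (nat_lit 4) (nat_lit 5) (nat_lit 6) (nat_lit 4) (nat_lit 4) (nat_lit 4) (nat_lit 375) (nat_lit 328) (nat_lit 317)) (XT.nd (nat_lit 78) (nat_lit 0) (nat_lit 0) (XT.lf (nat_lit 0) (nat_lit 21302343496) (nat_lit 152) (nat_lit 54725334164) (nat_lit 0) (nat_lit 20097662707) (nat_lit 4) (nat_lit 5) (nat_lit 6) (nat_lit 4) (nat_lit 4) (nat_lit 4) (nat_lit 376) (nat_lit 328) (nat_lit 316)) (XT.lf (nat_lit 0) (nat_lit 37866981258) (nat_lit 152) (nat_lit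 34963512588) (nat_lit 0) (nat_lit 36626180184) (nat_lit 4) (nat_lit 5) (nat_lit 6) (nat_lit 4) (nat_lit 4) (nat_lit 4) (nat_lit 377) (nat_lit 328) (nat_lit 315))))))) (XT.nd (nat_lit 624) (nat_lit 152) (nat_lit 0) (XT.nd (nat_lit 312) (nat_lit 0) (nat_lit 0) (XT.nd (nat_lit 156) (nat_lit 0) (nat_lit 0) (XT.nd (nat_lit 78) (nat_lit 76) (nat_lit 0) (XT.lf (nat_lit 0) (nat_lit 56457247561) (nat_lit 152) (nat_lit 13182152913) (nat_lit 0) (nat_lit 55185037543) (nat_lit 4) (nat_lit 5) (nat_lit 6) (nat_lit 4) (nat_lit 4) (nat_lit 4) (nat_lit 378) (nat_lit 328) (nat_lit 314)) (XT.lf (nat_lit 0) (nat_lit 11626506855) (nat_lit 76) (nat_lit 66089975920) (nat_lit 76) (nat_lit 64790453776) (nat_lit 3) (nat_lit 4) (nat_lit 4) (nat_lit 5) (nat_lit 4) (nat_lit 4) (nat_lit 379) (nat_lit 328) (nat_lit 313))) (XT.nd (nat_lit 78) (nat_lit 0) (nat_lit 0) (XT.lf (nat_lit 0) (nat_lit 40202764537) (nat_lit 76) (nat_lit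 61980417286) (nat_lit 76) (nat_lit 60657145468) (nat_lit 3) (nat_lit 4) (nat_lit 4) (nat_lit 5) (nat_lit 4) (nat_lit 4) (nat_lit 380) (nat_lit 328) (nat_lit 312)) (XT.lf (nat_lit 0) (nat_lit 72411572013) (nat_lit 76) (nat_lit 57590743587) (nat_lit 76) (nat_lit 56246819879) (nat_lit 3) (nat_lit 4) (nat_lit 4) (nat_lit 5) (nat_lit 4) (nat_lit 4) (nat_lit 381) (nat_lit 328) (nat_lit 311)))) (XT.nd (nat_lit 156) (nat_lit 0) (nat_lit 0) (XT.nd (nat_lit 78) (nat_lit 0) (nat_lit 0) (XT.lf (nat_lit 0) (nat_lit 108883101603) (nat_lit 76) (nat_lit 52835069903) (nat_lit 76) (nat_lit 51473188028) (nat_lit 3) (nat_lit 4) (nat_lit 4) (nat_lit 5) (nat_lit 4) (nat_lit 4) (nat_lit 382) (nat_lit 328) (nat_lit 310)) (XT.lf (nat_lit 0) (nat_lit 150330926713) (nat_lit 76) (nat_lit 47620350444) (nat_lit 76) (nat_lit 46242852773) (nat_lit 3) (nat_lit 4) (nat_lit 4) (nat_lit 5) (nat_lit 4) (nat_lit 4) (nat_lit 383)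 (nat_lit 328) (nat_lit 309))) (XT.nd (nat_lit 78) (nat_lit 0) (nat_lit 0) (XT.lf (nat_lit 0) (nat_lit 197565983050) (nat_lit 76) (nat_lit 41844558089) (nat_lit 76) (nat_lit 40453481465) (nat_lit 3) (nat_lit 4) (nat_lit 4) (nat_lit 5) (nat_lit 4) (nat_lit 4) (nat_lit 384) (nat_lit 328) (nat_lit 308)) (XT.lf (nat_lit 0) (nat_lit 251512434762) (nat_lit 76) (nat_lit 35394688208) (nat_lit 76) (nat_lit 33991803798) (nat_lit 3) (nat_lit 4) (nat_lit 4) (nat_lit 5) (nat_lit 4) (nat_lit 4) (nat_lit 385) (nat_lit 328) (nat_lit 307))))) (XT.nd (nat_lit 312) (nat_lit 0) (nat_lit 0) (XT.nd (nat_lit 156) (nat_lit 152) (nat_lit 0) (XT.nd (nat_lit 78) (nat_lit 0) (nat_lit 0) (XT.lf (nat_lit 0) (nat_lit 313225755902) (nat_lit 76) (nat_lit 28144547691) (nat_lit 76) (nat_lit 26731395642) (nat_lit 3) (nat_lit 4) (nat_lit 4) (nat_lit 5) (nat_lit 4) (nat_lit 4) (nat_lit 386) (nat_lit 328) (nat_lit 306)) (XT.lf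 (nat_lit 0) (nat_lit 383913381016) (nat_lit 76) (nat_lit 19952285966) (nat_lit 76) (nat_lit 18530205535) (nat_lit 3) (nat_lit 4) (nat_lit 4) (nat_lit 5) (nat_lit 4) (nat_lit 4) (nat_lit 387) (nat_lit 328) (nat_lit 305))) (XT.nd (nat_lit 78) (nat_lit 152) (nat_lit 0) (XT.lf (nat_lit 0) (nat_lit 464958328854) (nat_lit 76) (nat_lit 10657619649) (nat_lit 76) (nat_lit 9227775407) (nat_lit 3) (nat_lit 4) (nat_lit 4) (nat_lit 5) (nat_lit 4) (nat_lit 4) (nat_lit 388) (nat_lit 328) (nat_lit 304)) (XT.lf (nat_lit 0) (nat_lit 1312185569) (nat_lit 76) (nat_lit 9343733) (nat_lit 152) (nat_lit 555340392658) (nat_lit 1) (nat_lit 5) (nat_lit 2) (nat_lit 5) (nat_lit 3) (nat_lit 4) (nat_lit 389) (nat_lit 328) (nat_lit 303)))) (XT.nd (nat_lit 156) (nat_lit 0) (nat_lit 0) (XT.nd (nat_lit 78) (nat_lit 0) (nat_lit 0) (XT.lf (nat_lit 0) (nat_lit 13710703335) (nat_lit 152) (nat_lit 613083577036) (nat_lit 0) (nat_lit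 12375086726) (nat_lit 1) (nat_lit 5) (nat_lit 3) (nat_lit 4) (nat_lit 1) (nat_lit 4) (nat_lit 390) (nat_lit 328) (nat_lit 302)) (XT.lf (nat_lit 0) (nat_lit 27871613041) (nat_lit 152) (nat_lit 679656978200) (nat_lit 0) (nat_lit 26531269736) (nat_lit 1) (nat_lit 5) (nat_lit 3) (nat_lit 4) (nat_lit 1) (nat_lit 4) (nat_lit 391) (nat_lit 328) (nat_lit 301))) (XT.nd (nat_lit 78) (nat_lit 0) (nat_lit 0) (XT.lf (nat_lit 0) (nat_lit 44081094981) (nat_lit 152) (nat_lit 756372238233) (nat_lit 0) (nat_lit 42736641506) (nat_lit 1) (nat_lit 5) (nat_lit 3) (nat_lit 4) (nat_lit 1) (nat_lit 4) (nat_lit 392) (nat_lit 328) (nat_lit 300)) (XT.nd (nat_lit 78) (nat_lit 0) (nat_lit 0) (XT.lf (nat_lit 0) (nat_lit 62656291193) (nat_lit 152) (nat_lit 844730307874) (nat_lit 0) (nat_lit 61308263656) (nat_lit 1) (nat_lit 5) (nat_lit 3) (nat_lit 4) (nat_lit 1) (nat_lit 4) (nat_lit 393) (nat_lit 328) (nat_lit 299)) (XT.lf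 (nat_lit 0) (nat_lit 83960629428) (nat_lit 152) (nat_lit 946459931965) (nat_lit 0) (nat_lit 82609494012) (nat_lit 1) (nat_lit 5) (nat_lit 3) (nat_lit 4) (nat_lit 1) (nat_lit 4) (nat_lit 394) (nat_lit 328) (nat_lit 298))))))))
noncomputable def xc23 : XT := (XT.nd (nat_lit 1326) (nat_lit 0) (nat_lit 0) (XT.nd (nat_lit 624) (nat_lit 0) (nat_lit 0) (XT.nd (nat_lit 312) (nat_lit 0) (nat_lit 0) (XT.nd (nat_lit 156) (nat_lit 0) (nat_lit 0) (XT.nd (nat_lit 78) (nat_lit 0) (nat_lit 0) (XT.lf (nat_lit 0) (nat_lit 108410933695) (nat_lit 152) (nat_lit 1063551472716) (nat_lit 0) (nat_lit 107057095776) (nat_lit 1) (nat_lit 5) (nat_lit 3) (nat_lit 4) (nat_lit 1) (nat_lit 4) (nat_lit 395) (nat_lit 328) (nat_lit 297)) (XT.lf (nat_lit 0) (nat_lit 136485579514) (nat_lit 152) (nat_lit 1198295851576) (nat_lit 0) (nat_lit 135129391592) (nat_lit 1) (nat_lit 5) (nat_lit 3) (nat_lit 4) (nat_lit 1) (nat_lit 4) (nat_lit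 396) (nat_lit 328) (nat_lit 296))) (XT.nd (nat_lit 78) (nat_lit 0) (nat_lit 0) (XT.lf (nat_lit 0) (nat_lit 168733853432) (nat_lit 152) (nat_lit 1353329371610) (nat_lit 0) (nat_lit 167375622029) (nat_lit 1) (nat_lit 5) (nat_lit 3) (nat_lit 4) (nat_lit 1) (nat_lit 4) (nat_lit 397) (nat_lit 328) (nat_lit 295)) (XT.lf (nat_lit 0) (nat_lit 205786699939) (nat_lit 152) (nat_lit 1531685297341) (nat_lit 0) (nat_lit 204426691596) (nat_lit 1) (nat_lit 5) (nat_lit 3) (nat_lit 4) (nat_lit 1) (nat_lit 4) (nat_lit 398) (nat_lit 328) (nat_lit 294)))) (XT.nd (nat_lit 156) (nat_lit 0) (nat_lit 0) (XT.nd (nat_lit 78) (nat_lit 0) (nat_lit 0) (XT.lf (nat_lit 0) (nat_lit 248369066033) (nat_lit 152) (nat_lit 1736853201228) (nat_lit 0) (nat_lit 247007512524) (nat_lit 1) (nat_lit 5) (nat_lit 3) (nat_lit 4) (nat_lit 1) (nat_lit 4) (nat_lit 399) (nat_lit 328) (nat_lit 293)) (XT.lf (nat_lit 0) (nat_lit 297314084962)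 (nat_lit 152) (nat_lit 1972847237912) (nat_lit 0) (nat_lit 295951187831) (nat_lit 1) (nat_lit 5) (nat_lit 3) (nat_lit 4) (nat_lit 1) (nat_lit 4) (nat_lit 400) (nat_lit 328) (nat_lit 292))) (XT.nd (nat_lit 78) (nat_lit 0) (nat_lit 0) (XT.lf (nat_lit 0) (nat_lit 353579376662) (nat_lit 152) (nat_lit 2244284682026) (nat_lit 0) (nat_lit 352215311165) (nat_lit 1) (nat_lit 5) (nat_lit 3) (nat_lit 4) (nat_lit 1) (nat_lit 4) (nat_lit 401) (nat_lit 328) (nat_lit 291)) (XT.lf (nat_lit 0) (nat_lit 418265783798) (nat_lit 152) (nat_lit 2556476266169) (nat_lit 0) (nat_lit 416900702329) (nat_lit 1) (nat_lit 5) (nat_lit 3) (nat_lit 4) (nat_lit 1) (nat_lit 4) (nat_lit 402) (nat_lit 328) (nat_lit 290))))) (XT.nd (nat_lit 312) (nat_lit 0) (nat_lit 0) (XT.nd (nat_lit 156) (nat_lit 0) (nat_lit 0) (XT.nd (nat_lit 78) (nat_lit 0) (nat_lit 0) (XT.lf (nat_lit 0) (nat_lit 492638909986) (nat_lit 152) (nat_lit 2915530086555)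 (nat_lit 0) (nat_lit 491272945064) (nat_lit 1) (nat_lit 5) (nat_lit 3) (nat_lit 4) (nat_lit 1) (nat_lit 4) (nat_lit 403) (nat_lit 328) (nat_lit 289)) (XT.lf (nat_lit 0) (nat_lit 578153881609) (nat_lit 152) (nat_lit 3328471109234) (nat_lit 0) (nat_lit 576787148467) (nat_lit 1) (nat_lit 5) (nat_lit 3) (nat_lit 4) (nat_lit 1) (nat_lit 4) (nat_lit 404) (nat_lit 328) (nat_lit 288))) (XT.nd (nat_lit 78) (nat_lit 0) (nat_lit 0) (XT.lf (nat_lit 0) (nat_lit 676483817677) (nat_lit 152) (nat_lit 3803378615085) (nat_lit 0) (nat_lit 675116416517) (nat_lit 1) (nat_lit 5) (nat_lit 3) (nat_lit 4) (nat_lit 1) (nat_lit 4) (nat_lit 405) (nat_lit 328) (nat_lit 287)) (XT.lf (nat_lit 0) (nat_lit 789552564765) (nat_lit 152) (nat_lit 4349544272700) (nat_lit 0) (nat_lit 788184582720) (nat_lit 1) (nat_lit 5) (nat_lit 3) (nat_lit 4) (nat_lit 1) (nat_lit 4) (nat_lit 406) (nat_lit 328) (nat_lit 286)))) (XT.nd (nat_lit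 156) (nat_lit 0) (nat_lit 0) (XT.nd (nat_lit 78) (nat_lit 0) (nat_lit 0) (XT.lf (nat_lit 0) (nat_lit 919572337490) (nat_lit 152) (nat_lit 4977653931902) (nat_lit 0) (nat_lit 918203850328) (nat_lit 1) (nat_lit 5) (nat_lit 3) (nat_lit 4) (nat_lit 1) (nat_lit 4) (nat_lit 407) (nat_lit 328) (nat_lit 285)) (XT.lf (nat_lit 0) (nat_lit 1069087000971) (nat_lit 152) (nat_lit 5699996694720) (nat_lit 0) (nat_lit 1067718074576) (nat_lit 1) (nat_lit 5) (nat_lit 3) (nat_lit 4) (nat_lit 1) (nat_lit 4) (nat_lit 408) (nat_lit 328) (nat_lit 284))) (XT.nd (nat_lit 78) (nat_lit 0) (nat_lit 0) (XT.lf (nat_lit 0) (nat_lit 1241021842101) (nat_lit 152) (nat_lit 6530705354338) (nat_lit 0) (nat_lit 1239652533766) (nat_lit 1) (nat_lit 5) (nat_lit 3) (nat_lit 4) (nat_lit 1) (nat_lit 4) (nat_lit 409) (nat_lit 328) (nat_lit 283)) (XT.nd (nat_lit 78) (nat_lit 0) (nat_lit 0) (XT.lf (nat_lit 0) (nat_lit 1438740803425) (nat_lit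 152) (nat_lit 7486032906272) (nat_lit 0) (nat_lit 1437371162967) (nat_lit 1) (nat_lit 5) (nat_lit 3) (nat_lit 4) (nat_lit 1) (nat_lit 4) (nat_lit 410) (nat_lit 328) (nat_lit 282)) (XT.lf (nat_lit 0) (nat_lit 1666112299403) (nat_lit 152) (nat_lit 8584670541754) (nat_lit 0) (nat_lit 1664742370142) (nat_lit 1) (nat_lit 5) (nat_lit 3) (nat_lit 4) (nat_lit 1) (nat_lit 4) (nat_lit 411) (nat_lit 328) (nat_lit 281))))))) (XT.nd (nat_lit 49296) (nat_lit 0) (nat_lit 456) (XT.nd (nat_lit 312) (nat_lit 0) (nat_lit 0) (XT.nd (nat_lit 156) (nat_lit 0) (nat_lit 0) (XT.nd (nat_lit 78) (nat_lit 0) (nat_lit 0) (XT.lf (nat_lit 0) (nat_lit 1927584902783) (nat_lit 152) (nat_lit 9848113344956) (nat_lit 0) (nat_lit 1926214722390) (nat_lit 1) (nat_lit 5) (nat_lit 3) (nat_lit 4) (nat_lit 1) (nat_lit 4) (nat_lit 412) (nat_lit 328) (nat_lit 280)) (XT.lf (nat_lit 0) (nat_lit 2228274381892) (nat_lit 152) (nat_lit 11301080848986)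 (nat_lit 0) (nat_lit 2226903983122) (nat_lit 1) (nat_lit 5) (nat_lit 3) (nat_lit 4) (nat_lit 1) (nat_lit 4) (nat_lit 413) (nat_lit 328) (nat_lit 279))) (XT.nd (nat_lit 78) (nat_lit 0) (nat_lit 0) (XT.lf (nat_lit 0) (nat_lit 2574063791755) (nat_lit 152) (nat_lit 12972000678922) (nat_lit 0) (nat_lit 2572693203093) (nat_lit 1) (nat_lit 5) (nat_lit 3) (nat_lit 4) (nat_lit 1) (nat_lit 4) (nat_lit 414) (nat_lit 328) (nat_lit 278)) (XT.lf (nat_lit 0) (nat_lit 2971718577349) (nat_lit 152) (nat_lit 14893564744481) (nat_lit 0) (nat_lit 2970347823563) (nat_lit 1) (nat_lit 5) (nat_lit 3) (nat_lit 4) (nat_lit 1) (nat_lit 4) (nat_lit 415) (nat_lit 328) (nat_lit 277)))) (XT.nd (nat_lit 156) (nat_lit 0) (nat_lit 0) (XT.nd (nat_lit 78) (nat_lit 0) (nat_lit 0) (XT.lf (nat_lit 0) (nat_lit 3429018941000) (nat_lit 152) (nat_lit 17103368864335) (nat_lit 0) (nat_lit 3427648043628) (nat_lit 1) (nat_lit 5) (nat_lit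 3) (nat_lit 4) (nat_lit 1) (nat_lit 4) (nat_lit 416) (nat_lit 328) (nat_lit 276)) (XT.lf (nat_lit 0) (nat_lit 3954912063736) (nat_lit 152) (nat_lit 19644648336482) (nat_lit 0) (nat_lit 3953541041507) (nat_lit 1) (nat_lit 5) (nat_lit 3) (nat_lit 4) (nat_lit 1) (nat_lit 4) (nat_lit 417) (nat_lit 328) (nat_lit 275))) (XT.nd (nat_lit 78) (nat_lit 0) (nat_lit 0) (XT.lf (nat_lit 0) (nat_lit 4559687158827) (nat_lit 152) (nat_lit 22567123846247) (nat_lit 0) (nat_lit 4558316028027) (nat_lit 1) (nat_lit 5) (nat_lit 3) (nat_lit 4) (nat_lit 1) (nat_lit 4) (nat_lit 418) (nat_lit 328) (nat_lit 274)) (XT.nd (nat_lit 48672) (nat_lit 0) (nat_lit 1520) (XT.lf (nat_lit 0) (nat_lit 5255176782484) (nat_lit 152) (nat_lit 25927974262300) (nat_lit 0) (nat_lit 5253805557273) (nat_lit 1) (nat_lit 5) (nat_lit 3) (nat_lit 4) (nat_lit 1) (nat_lit 4) (nat_lit 419) (nat_lit 328) (nat_lit 273)) (XT.lf (nat_lit 0) (nat_lit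 7690436031) (nat_lit 76) (nat_lit 1327191115) (nat_lit 76) (nat_lit 1327191115) (nat_lit 21) (nat_lit 4) (nat_lit 22) (nat_lit 5) (nat_lit 22) (nat_lit 4) (nat_lit 362) (nat_lit 329) (nat_lit 329)))))) (XT.nd (nat_lit 312) (nat_lit 456) (nat_lit 0) (XT.nd (nat_lit 156) (nat_lit 228) (nat_lit 0) (XT.nd (nat_lit 78) (nat_lit 152) (nat_lit 0) (XT.lf (nat_lit 0) (nat_lit 1430953684) (nat_lit 76) (nat_lit 10729576013) (nat_lit 76) (nat_lit 10403031884) (nat_lit 18) (nat_lit 4) (nat_lit 19) (nat_lit 5) (nat_lit 19) (nat_lit 4) (nat_lit 363) (nat_lit 329) (nat_lit 328)) (XT.lf (nat_lit 0) (nat_lit 3968069999) (nat_lit 152) (nat_lit 17345340741) (nat_lit 0) (nat_lit 3402796347) (nat_lit 16) (nat_lit 5) (nat_lit 18) (nat_lit 4) (nat_lit 16) (nat_lit 4) (nat_lit 364) (nat_lit 329) (nat_lit 327))) (XT.nd (nat_lit 78) (nat_lit 152) (nat_lit 0) (XT.lf (nat_lit 0) (nat_lit 11548064351) (nat_lit 76) (nat_lit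 8212723966) (nat_lit 76) (nat_lit 7418825986) (nat_lit 15) (nat_lit 4) (nat_lit 16) (nat_lit 5) (nat_lit 16) (nat_lit 4) (nat_lit 365) (nat_lit 329) (nat_lit 326)) (XT.lf (nat_lit 0) (nat_lit 7266562793) (nat_lit 152) (nat_lit 16403196198) (nat_lit 0) (nat_lit 6347394511) (nat_lit 13) (nat_lit 5) (nat_lit 15) (nat_lit 4) (nat_lit 13) (nat_lit 4) (nat_lit 366) (nat_lit 329) (nat_lit 325)))) (XT.nd (nat_lit 156) (nat_lit 228) (nat_lit 0) (XT.nd (nat_lit 78) (nat_lit 152) (nat_lit 0) (XT.lf (nat_lit 0) (nat_lit 12742222119) (nat_lit 76) (nat_lit 10807599657) (nat_lit 76) (nat_lit 9728363932) (nat_lit 12) (nat_lit 4) (nat_lit 13) (nat_lit 5) (nat_lit 13) (nat_lit 4) (nat_lit 367) (nat_lit 329) (nat_lit 324)) (XT.lf (nat_lit 0) (nat_lit 4657466304) (nat_lit 152) (nat_lit 28857715329) (nat_lit 0) (nat_lit 3529295187) (nat_lit 10) (nat_lit 5) (nat_lit 12) (nat_lit 4) (nat_lit 10) (nat_lit 4) (nat_lit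 368) (nat_lit 329) (nat_lit 323))) (XT.nd (nat_lit 78) (nat_lit 228) (nat_lit 0) (XT.lf (nat_lit 0) (nat_lit 20517333006) (nat_lit 152) (nat_lit 1569712761) (nat_lit 0) (nat_lit 19277093386) (nat_lit 10) (nat_lit 5) (nat_lit 12) (nat_lit 4) (nat_lit 10) (nat_lit 4) (nat_lit 369) (nat_lit 329) (nat_lit 322)) (XT.nd (nat_lit 78) (nat_lit 152) (nat_lit 0) (XT.lf (nat_lit 0) (nat_lit 29440923313) (nat_lit 76) (nat_lit 9121996994) (nat_lit 76) (nat_lit 7784306502) (nat_lit 9) (nat_lit 4) (nat_lit 10) (nat_lit 5) (nat_lit 10) (nat_lit 4) (nat_lit 370) (nat_lit 329) (nat_lit 321)) (XT.lf (nat_lit 0) (nat_lit 6491624491) (nat_lit 152) (nat_lit 40428392252) (nat_lit 0) (nat_lit 5174559324) (nat_lit 7) (nat_lit 5) (nat_lit 9) (nat_lit 4) (nat_lit 7) (nat_lit 4) (nat_lit 371) (nat_lit 329) (nat_lit 320))))))))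
noncomputable def xc24 : XT := (XT.nd (nat_lit 1326) (nat_lit 152) (nat_lit 0) (XT.nd (nat_lit 624) (nat_lit 76) (nat_lit 0) (XT.nd (nat_lit 312) (nat_lit 152) (nat_lit 0) (XT.nd (nat_lit 156) (nat_lit 0) (nat_lit 0) (XT.nd (nat_lit 78) (nat_lit 76) (nat_lit 0) (XT.lf (nat_lit 0) (nat_lit 22425332287) (nat_lit 152) (nat_lit 15224307958) (nat_lit 0) (nat_lit 21040038546) (nat_lit 7) (nat_lit 5) (nat_lit 9) (nat_lit 4) (nat_lit 7) (nat_lit 4) (nat_lit 372) (nat_lit 329) (nat_lit 319)) (XT.lf (nat_lit 0) (nat_lit 12995132618) (nat_lit 76) (nat_lit 27376857500) (nat_lit 76) (nat_lit 25932234565) (nat_lit 6) (nat_lit 4) (nat_lit 7) (nat_lit 5) (nat_lit 7) (nat_lit 4) (nat_lit 373) (nat_lit 329) (nat_lit 318))) (XT.nd (nat_lit 78) (nat_lit 0) (nat_lit 0) (XT.lf (nat_lit 0) (nat_lit 45073901850) (nat_lit 76) (nat_lit 15749140282) (nat_lit 76) (nat_lit 14252926743) (nat_lit 6) (nat_lit 4) (nat_lit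 7) (nat_lit 5) (nat_lit 7) (nat_lit 4) (nat_lit 374) (nat_lit 329) (nat_lit 317)) (XT.lf (nat_lit 0) (nat_lit 80837942756) (nat_lit 76) (nat_lit 2955249336) (nat_lit 76) (nat_lit 1414174401) (nat_lit 6) (nat_lit 4) (nat_lit 7) (nat_lit 5) (nat_lit 7) (nat_lit 4) (nat_lit 375) (nat_lit 329) (nat_lit 316)))) (XT.nd (nat_lit 156) (nat_lit 0) (nat_lit 0) (XT.nd (nat_lit 78) (nat_lit 0) (nat_lit 0) (XT.lf (nat_lit 0) (nat_lit 13089555414) (nat_lit 152) (nat_lit 72084163492) (nat_lit 0) (nat_lit 11626513893) (nat_lit 4) (nat_lit 5) (nat_lit 6) (nat_lit 4) (nat_lit 4) (nat_lit 4) (nat_lit 376) (nat_lit 329) (nat_lit 315)) (XT.lf (nat_lit 0) (nat_lit 29440673584) (nat_lit 152) (nat_lit 52761753608) (nat_lit 0) (nat_lit 27946223119) (nat_lit 4) (nat_lit 5) (nat_lit 6) (nat_lit 4) (nat_lit 4) (nat_lit 4) (nat_lit 377) (nat_lit 329) (nat_lit 314))) (XT.nd (nat_lit 78) (nat_lit 0) (nat_lit 0) (XT.lf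 (nat_lit 0) (nat_lit 47845270676) (nat_lit 152) (nat_lit 31362491058) (nat_lit 0) (nat_lit 46323508085) (nat_lit 4) (nat_lit 5) (nat_lit 6) (nat_lit 4) (nat_lit 4) (nat_lit 4) (nat_lit 378) (nat_lit 329) (nat_lit 313)) (XT.lf (nat_lit 0) (nat_lit 68663436634) (nat_lit 152) (nat_lit 7467694617) (nat_lit 0) (nat_lit 67117924369) (nat_lit 4) (nat_lit 5) (nat_lit 6) (nat_lit 4) (nat_lit 4) (nat_lit 4) (nat_lit 379) (nat_lit 329) (nat_lit 312))))) (XT.nd (nat_lit 312) (nat_lit 0) (nat_lit 0) (XT.nd (nat_lit 156) (nat_lit 0) (nat_lit 0) (XT.nd (nat_lit 78) (nat_lit 0) (nat_lit 0) (XT.lf (nat_lit 0) (nat_lit 20411193146) (nat_lit 76) (nat_lit 72382179938) (nat_lit 76) (nat_lit 70816015783) (nat_lit 3) (nat_lit 4) (nat_lit 4) (nat_lit 5) (nat_lit 4) (nat_lit 4) (nat_lit 380) (nat_lit 329) (nat_lit 311)) (XT.lf (nat_lit 0) (nat_lit 52355535968) (nat_lit 76) (nat_lit 68128529993) (nat_lit 76) (nat_lit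 66544407671) (nat_lit 3) (nat_lit 4) (nat_lit 4) (nat_lit 5) (nat_lit 4) (nat_lit 4) (nat_lit 381) (nat_lit 329) (nat_lit 310))) (XT.nd (nat_lit 78) (nat_lit 0) (nat_lit 0) (XT.lf (nat_lit 0) (nat_lit 88597096293) (nat_lit 76) (nat_lit 63491137833) (nat_lit 76) (nat_lit 61891399715) (nat_lit 3) (nat_lit 4) (nat_lit 4) (nat_lit 5) (nat_lit 4) (nat_lit 4) (nat_lit 382) (nat_lit 329) (nat_lit 309)) (XT.lf (nat_lit 0) (nat_lit 129844948129) (nat_lit 76) (nat_lit 58379271873) (nat_lit 76) (nat_lit 56765954802) (nat_lit 3) (nat_lit 4) (nat_lit 4) (nat_lit 5) (nat_lit 4) (nat_lit 4) (nat_lit 383) (nat_lit 329) (nat_lit 308)))) (XT.nd (nat_lit 156) (nat_lit 0) (nat_lit 0) (XT.nd (nat_lit 78) (nat_lit 0) (nat_lit 0) (XT.lf (nat_lit 0) (nat_lit 176906114664) (nat_lit 76) (nat_lit 52692917345) (nat_lit 76) (nat_lit 51067792488) (nat_lit 3) (nat_lit 4) (nat_lit 4) (nat_lit 5) (nat_lit 4) (nat_lit 4)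 (nat_lit 384) (nat_lit 329) (nat_lit 307)) (XT.lf (nat_lit 0) (nat_lit 230701357851) (nat_lit 76) (nat_lit 46320819485) (nat_lit 76) (nat_lit 44685426989) (nat_lit 3) (nat_lit 4) (nat_lit 4) (nat_lit 5) (nat_lit 4) (nat_lit 4) (nat_lit 385) (nat_lit 329) (nat_lit 306))) (XT.nd (nat_lit 78) (nat_lit 0) (nat_lit 0) (XT.lf (nat_lit 0) (nat_lit 292283193318) (nat_lit 76) (nat_lit 39138306814) (nat_lit 76) (nat_lit 37493985936) (nat_lit 3) (nat_lit 4) (nat_lit 4) (nat_lit 5) (nat_lit 4) (nat_lit 4) (nat_lit 386) (nat_lit 329) (nat_lit 305)) (XT.nd (nat_lit 78) (nat_lit 0) (nat_lit 0) (XT.lf (nat_lit 0) (nat_lit 362856483063) (nat_lit 76) (nat_lit 31004851911) (nat_lit 76) (nat_lit 29352767222) (nat_lit 3) (nat_lit 4) (nat_lit 4) (nat_lit 5) (nat_lit 4) (nat_lit 4) (nat_lit 387) (nat_lit 329) (nat_lit 304)) (XT.lf (nat_lit 0) (nat_lit 443802008842) (nat_lit 76) (nat_lit 21761321961) (nat_lit 76)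 (nat_lit 20102486133) (nat_lit 3) (nat_lit 4) (nat_lit 4) (nat_lit 5) (nat_lit 4) (nat_lit 4) (nat_lit 388) (nat_lit 329) (nat_lit 303))))))) (XT.nd (nat_lit 624) (nat_lit 0) (nat_lit 0) (XT.nd (nat_lit 312) (nat_lit 0) (nat_lit 0) (XT.nd (nat_lit 156) (nat_lit 0) (nat_lit 0) (XT.nd (nat_lit 78) (nat_lit 152) (nat_lit 0) (XT.lf (nat_lit 0) (nat_lit 536703487464) (nat_lit 76) (nat_lit 11226865293) (nat_lit 76) (nat_lit 9562158908) (nat_lit 3) (nat_lit 4) (nat_lit 4) (nat_lit 5) (nat_lit 4) (nat_lit 4) (nat_lit 389) (nat_lit 329) (nat_lit 302)) (XT.lf (nat_lit 0) (nat_lit 2455178648) (nat_lit 152) (nat_lit 636722132909) (nat_lit 0) (nat_lit 909057152) (nat_lit 1) (nat_lit 5) (nat_lit 3) (nat_lit 4) (nat_lit 1) (nat_lit 4) (nat_lit 390) (nat_lit 329) (nat_lit 301))) (XT.nd (nat_lit 78) (nat_lit 0) (nat_lit 0) (XT.lf (nat_lit 0) (nat_lit 16580942205) (nat_lit 152) (nat_lit 703368021837) (nat_lit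 0) (nat_lit 15030710538) (nat_lit 1) (nat_lit 5) (nat_lit 3) (nat_lit 4) (nat_lit 1) (nat_lit 4) (nat_lit 391) (nat_lit 329) (nat_lit 300)) (XT.lf (nat_lit 0) (nat_lit 32759862275) (nat_lit 152) (nat_lit 780146314709) (nat_lit 0) (nat_lit 31206056547) (nat_lit 1) (nat_lit 5) (nat_lit 3) (nat_lit 4) (nat_lit 1) (nat_lit 4) (nat_lit 392) (nat_lit 329) (nat_lit 299)))) (XT.nd (nat_lit 156) (nat_lit 0) (nat_lit 0) (XT.nd (nat_lit 78) (nat_lit 0) (nat_lit 0) (XT.lf (nat_lit 0) (nat_lit 51308482948) (nat_lit 152) (nat_lit 868559195515) (nat_lit 0) (nat_lit 49751569341) (nat_lit 1) (nat_lit 5) (nat_lit 3) (nat_lit 4) (nat_lit 1) (nat_lit 4) (nat_lit 393) (nat_lit 329) (nat_lit 298)) (XT.lf (nat_lit 0) (nat_lit 72589712019) (nat_lit 152) (nat_lit 970336481488) (nat_lit 0) (nat_lit 71030095908) (nat_lit 1) (nat_lit 5) (nat_lit 3) (nat_lit 4) (nat_lit 1) (nat_lit 4) (nat_lit 394) (nat_lit 329) (nat_lit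 297))) (XT.nd (nat_lit 78) (nat_lit 0) (nat_lit 0) (XT.lf (nat_lit 0) (nat_lit 97019921361) (nat_lit 152) (nat_lit 1087469467353) (nat_lit 0) (nat_lit 95457955247) (nat_lit 1) (nat_lit 5) (nat_lit 3) (nat_lit 4) (nat_lit 1) (nat_lit 4) (nat_lit 395) (nat_lit 329) (nat_lit 296)) (XT.lf (nat_lit 0) (nat_lit 125077093332) (nat_lit 152) (nat_lit 1222249885444) (nat_lit 0) (nat_lit 123513083737) (nat_lit 1) (nat_lit 5) (nat_lit 3) (nat_lit 4) (nat_lit 1) (nat_lit 4) (nat_lit 396) (nat_lit 329) (nat_lit 295))))) (XT.nd (nat_lit 312) (nat_lit 0) (nat_lit 0) (XT.nd (nat_lit 156) (nat_lit 0) (nat_lit 0) (XT.nd (nat_lit 78) (nat_lit 0) (nat_lit 0) (XT.lf (nat_lit 0) (nat_lit 157310172600) (nat_lit 152) (nat_lit 1377314743939) (nat_lit 0) (nat_lit 155744386064) (nat_lit 1) (nat_lit 5) (nat_lit 3) (nat_lit 4) (nat_lit 1) (nat_lit 4) (nat_lit 397) (nat_lit 329) (nat_lit 294)) (XT.lf (nat_lit 0) (nat_lit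 194349806367) (nat_lit 152) (nat_lit 1555697920505) (nat_lit 0) (nat_lit 192782474667) (nat_lit 1) (nat_lit 5) (nat_lit 3) (nat_lit 4) (nat_lit 1) (nat_lit 4) (nat_lit 398) (nat_lit 329) (nat_lit 293))) (XT.nd (nat_lit 78) (nat_lit 0) (nat_lit 0) (XT.lf (nat_lit 0) (nat_lit 236920683122) (nat_lit 152) (nat_lit 1760889520771) (nat_lit 0) (nat_lit 235352007800) (nat_lit 1) (nat_lit 5) (nat_lit 3) (nat_lit 4) (nat_lit 1) (nat_lit 4) (nat_lit 399) (nat_lit 329) (nat_lit 292)) (XT.lf (nat_lit 0) (nat_lit 285855711322) (nat_lit 152) (nat_lit 1996904163002) (nat_lit 0) (nat_lit 284285867632) (nat_lit 1) (nat_lit 5) (nat_lit 3) (nat_lit 4) (nat_lit 1) (nat_lit 4) (nat_lit 400) (nat_lit 329) (nat_lit 291)))) (XT.nd (nat_lit 156) (nat_lit 0) (nat_lit 0) (XT.nd (nat_lit 78) (nat_lit 0) (nat_lit 0) (XT.lf (nat_lit 0) (nat_lit 342112315431) (nat_lit 152) (nat_lit 2268359524982) (nat_lit 0) (nat_lit 340541455771)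 (nat_lit 1) (nat_lit 5) (nat_lit 3) (nat_lit 4) (nat_lit 1) (nat_lit 4) (nat_lit 401) (nat_lit 329) (nat_lit 290)) (XT.lf (nat_lit 0) (nat_lit 406791168140) (nat_lit 152) (nat_lit 2580566689880) (nat_lit 0) (nat_lit 405219425026) (nat_lit 1) (nat_lit 5) (nat_lit 3) (nat_lit 4) (nat_lit 1) (nat_lit 4) (nat_lit 402) (nat_lit 329) (nat_lit 289))) (XT.nd (nat_lit 78) (nat_lit 0) (nat_lit 0) (XT.lf (nat_lit 0) (nat_lit 481157725262) (nat_lit 152) (nat_lit 2939634058747) (nat_lit 0) (nat_lit 479585213928) (nat_lit 1) (nat_lit 5) (nat_lit 3) (nat_lit 4) (nat_lit 1) (nat_lit 4) (nat_lit 403) (nat_lit 329) (nat_lit 288)) (XT.nd (nat_lit 78) (nat_lit 0) (nat_lit 0) (XT.lf (nat_lit 0) (nat_lit 566666984653) (nat_lit 152) (nat_lit 3352586862714) (nat_lit 0) (nat_lit 565093805301) (nat_lit 1) (nat_lit 5) (nat_lit 3) (nat_lit 4) (nat_lit 1) (nat_lit 4) (nat_lit 404) (nat_lit 329) (nat_lit 287)) (XT.lf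 (nat_lit 0) (nat_lit 664991953563) (nat_lit 152) (nat_lit 3827504613164) (nat_lit 0) (nat_lit 663418193326) (nat_lit 1) (nat_lit 5) (nat_lit 3) (nat_lit 4) (nat_lit 1) (nat_lit 4) (nat_lit 405) (nat_lit 329) (nat_lit 286))))))))
noncomputable def xc25 : XT := (XT.nd (nat_lit 49764) (nat_lit 0) (nat_lit 228) (XT.nd (nat_lit 624) (nat_lit 0) (nat_lit 0) (XT.nd (nat_lit 312) (nat_lit 0) (nat_lit 0) (XT.nd (nat_lit 156) (nat_lit 0) (nat_lit 0) (XT.nd (nat_lit 78) (nat_lit 0) (nat_lit 0) (XT.lf (nat_lit 0) (nat_lit 778056381383) (nat_lit 152) (nat_lit 4373679179125) (nat_lit 0) (nat_lit 776482116029) (nat_lit 1) (nat_lit 5) (nat_lit 3) (nat_lit 4) (nat_lit 1) (nat_lit 4) (nat_lit 406) (nat_lit 329) (nat_lit 285)) (XT.lf (nat_lit 0) (nat_lit 908072398223) (nat_lit 152) (nat_lit 5001796584716) (nat_lit 0) (nat_lit 906497693637) (nat_lit 1) (nat_lit 5) (nat_lit 3) (nat_lit 4) (nat_lit 1) (nat_lit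 4) (nat_lit 407) (nat_lit 329) (nat_lit 284))) (XT.nd (nat_lit 78) (nat_lit 0) (nat_lit 0) (XT.lf (nat_lit 0) (nat_lit 1057583795716) (nat_lit 152) (nat_lit 5724146083523) (nat_lit 0) (nat_lit 1056008709189) (nat_lit 1) (nat_lit 5) (nat_lit 3) (nat_lit 4) (nat_lit 1) (nat_lit 4) (nat_lit 408) (nat_lit 329) (nat_lit 283)) (XT.lf (nat_lit 0) (nat_lit 1229515796858) (nat_lit 152) (nat_lit 6554860600524) (nat_lit 0) (nat_lit 1227940378208) (nat_lit 1) (nat_lit 5) (nat_lit 3) (nat_lit 4) (nat_lit 1) (nat_lit 4) (nat_lit 409) (nat_lit 329) (nat_lit 282)))) (XT.nd (nat_lit 156) (nat_lit 0) (nat_lit 0) (XT.nd (nat_lit 78) (nat_lit 0) (nat_lit 0) (XT.lf (nat_lit 0) (nat_lit 1427232288626) (nat_lit 152) (nat_lit 7510193245834) (nat_lit 0) (nat_lit 1425656581174) (nat_lit 1) (nat_lit 5) (nat_lit 3) (nat_lit 4) (nat_lit 1) (nat_lit 4) (nat_lit 410) (nat_lit 329) (nat_lit 281)) (XT.lf (nat_lit 0) (nat_lit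 1654601637165) (nat_lit 152) (nat_lit 8608835310338) (nat_lit 0) (nat_lit 1653025678580) (nat_lit 1) (nat_lit 5) (nat_lit 3) (nat_lit 4) (nat_lit 1) (nat_lit 4) (nat_lit 411) (nat_lit 329) (nat_lit 280))) (XT.nd (nat_lit 78) (nat_lit 0) (nat_lit 0) (XT.lf (nat_lit 0) (nat_lit 1916072373206) (nat_lit 152) (nat_lit 9872281964865) (nat_lit 0) (nat_lit 1914496196245) (nat_lit 1) (nat_lit 5) (nat_lit 3) (nat_lit 4) (nat_lit 1) (nat_lit 4) (nat_lit 412) (nat_lit 329) (nat_lit 279)) (XT.lf (nat_lit 0) (nat_lit 2216760228542) (nat_lit 152) (nat_lit 11325252817873) (nat_lit 0) (nat_lit 2215183861688) (nat_lit 1) (nat_lit 5) (nat_lit 3) (nat_lit 4) (nat_lit 1) (nat_lit 4) (nat_lit 413) (nat_lit 329) (nat_lit 278))))) (XT.nd (nat_lit 312) (nat_lit 0) (nat_lit 0) (XT.nd (nat_lit 156) (nat_lit 0) (nat_lit 0) (XT.nd (nat_lit 78) (nat_lit 0) (nat_lit 0) (XT.lf (nat_lit 0) (nat_lit 2562548226429) (nat_lit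 152) (nat_lit 12996175559963) (nat_lit 0) (nat_lit 2560971694452) (nat_lit 1) (nat_lit 5) (nat_lit 3) (nat_lit 4) (nat_lit 1) (nat_lit 4) (nat_lit 414) (nat_lit 329) (nat_lit 277)) (XT.lf (nat_lit 0) (nat_lit 2960201784217) (nat_lit 152) (nat_lit 14917742157829) (nat_lit 0) (nat_lit 2958625108654) (nat_lit 1) (nat_lit 5) (nat_lit 3) (nat_lit 4) (nat_lit 1) (nat_lit 4) (nat_lit 415) (nat_lit 329) (nat_lit 276))) (XT.nd (nat_lit 78) (nat_lit 0) (nat_lit 0) (XT.lf (nat_lit 0) (nat_lit 3417501080211) (nat_lit 152) (nat_lit 17127548479690) (nat_lit 0) (nat_lit 3415924279790) (nat_lit 1) (nat_lit 5) (nat_lit 3) (nat_lit 4) (nat_lit 1) (nat_lit 4) (nat_lit 416) (nat_lit 329) (nat_lit 275)) (XT.lf (nat_lit 0) (nat_lit 3943393274549) (nat_lit 152) (nat_lit 19668829866626) (nat_lit 0) (nat_lit 3941816365557) (nat_lit 1) (nat_lit 5) (nat_lit 3) (nat_lit 4) (nat_lit 1) (nat_lit 4) (nat_lit 417) (nat_lit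 329) (nat_lit 274)))) (XT.nd (nat_lit 48594) (nat_lit 0) (nat_lit 1520) (XT.nd (nat_lit 78) (nat_lit 0) (nat_lit 0) (XT.lf (nat_lit 0) (nat_lit 4548167562339) (nat_lit 152) (nat_lit 22591307041425) (nat_lit 0) (nat_lit 4546590558937) (nat_lit 1) (nat_lit 5) (nat_lit 3) (nat_lit 4) (nat_lit 1) (nat_lit 4) (nat_lit 418) (nat_lit 329) (nat_lit 273)) (XT.lf (nat_lit 0) (nat_lit 5243656483993) (nat_lit 152) (nat_lit 25952158905333) (nat_lit 0) (nat_lit 5242079398496) (nat_lit 1) (nat_lit 5) (nat_lit 3) (nat_lit 4) (nat_lit 1) (nat_lit 4) (nat_lit 419) (nat_lit 329) (nat_lit 272))) (XT.nd (nat_lit 78) (nat_lit 304) (nat_lit 0) (XT.lf (nat_lit 0) (nat_lit 3815685531) (nat_lit 152) (nat_lit 1147006198) (nat_lit 0) (nat_lit 3815685531) (nat_lit 25) (nat_lit 5) (nat_lit 27) (nat_lit 4) (nat_lit 25) (nat_lit 4) (nat_lit 360) (nat_lit 330) (nat_lit 330)) (XT.nd (nat_lit 78) (nat_lit 76) (nat_lit 0) (XT.lf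 (nat_lit 0) (nat_lit 3251586168) (nat_lit 152) (nat_lit 12949080157) (nat_lit 0) (nat_lit 2846018361) (nat_lit 22) (nat_lit 5) (nat_lit 24) (nat_lit 4) (nat_lit 22) (nat_lit 4) (nat_lit 361) (nat_lit 330) (nat_lit 329)) (XT.lf (nat_lit 0) (nat_lit 14094889818) (nat_lit 76) (nat_lit 3702251143) (nat_lit 76) (nat_lit 2944015676) (nat_lit 21) (nat_lit 4) (nat_lit 22) (nat_lit 5) (nat_lit 22) (nat_lit 4) (nat_lit 362) (nat_lit 330) (nat_lit 328))))))) (XT.nd (nat_lit 624) (nat_lit 380) (nat_lit 0) (XT.nd (nat_lit 312) (nat_lit 304) (nat_lit 0) (XT.nd (nat_lit 156) (nat_lit 228) (nat_lit 0) (XT.nd (nat_lit 78) (nat_lit 228) (nat_lit 0) (XT.lf (nat_lit 0) (nat_lit 11173105217) (nat_lit 152) (nat_lit 1312452812) (nat_lit 0) (nat_lit 10187083925) (nat_lit 19) (nat_lit 5) (nat_lit 21) (nat_lit 4) (nat_lit 19) (nat_lit 4) (nat_lit 363) (nat_lit 330) (nat_lit 327)) (XT.lf (nat_lit 0) (nat_lit 2149414991)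 (nat_lit 152) (nat_lit 21732350914) (nat_lit 0) (nat_lit 1007807984) (nat_lit 16) (nat_lit 5) (nat_lit 18) (nat_lit 4) (nat_lit 16) (nat_lit 4) (nat_lit 364) (nat_lit 330) (nat_lit 326))) (XT.nd (nat_lit 78) (nat_lit 152) (nat_lit 0) (XT.lf (nat_lit 0) (nat_lit 5773621087) (nat_lit 76) (nat_lit 11487147217) (nat_lit 76) (nat_lit 10146736446) (nat_lit 15) (nat_lit 4) (nat_lit 16) (nat_lit 5) (nat_lit 16) (nat_lit 4) (nat_lit 365) (nat_lit 330) (nat_lit 325)) (XT.lf (nat_lit 0) (nat_lit 3892244198) (nat_lit 152) (nat_lit 23929633756) (nat_lit 0) (nat_lit 2491055671) (nat_lit 13) (nat_lit 5) (nat_lit 15) (nat_lit 4) (nat_lit 13) (nat_lit 4) (nat_lit 366) (nat_lit 330) (nat_lit 324)))) (XT.nd (nat_lit 156) (nat_lit 228) (nat_lit 0) (XT.nd (nat_lit 78) (nat_lit 0) (nat_lit 0) (XT.lf (nat_lit 0) (nat_lit 3797656150) (nat_lit 76) (nat_lit 15686021712) (nat_lit 76) (nat_lit 14145644105) (nat_lit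 12) (nat_lit 4) (nat_lit 13) (nat_lit 5) (nat_lit 13) (nat_lit 4) (nat_lit 367) (nat_lit 330) (nat_lit 323)) (XT.lf (nat_lit 0) (nat_lit 35222824574) (nat_lit 76) (nat_lit 1950507041) (nat_lit 76) (nat_lit 289095451) (nat_lit 12) (nat_lit 4) (nat_lit 13) (nat_lit 5) (nat_lit 13) (nat_lit 4) (nat_lit 368) (nat_lit 330) (nat_lit 322))) (XT.nd (nat_lit 78) (nat_lit 76) (nat_lit 0) (XT.lf (nat_lit 0) (nat_lit 15060935779) (nat_lit 152) (nat_lit 13338519855) (nat_lit 0) (nat_lit 13425140841) (nat_lit 10) (nat_lit 5) (nat_lit 12) (nat_lit 4) (nat_lit 10) (nat_lit 4) (nat_lit 369) (nat_lit 330) (nat_lit 321)) (XT.lf (nat_lit 0) (nat_lit 16267604182) (nat_lit 76) (nat_lit 16157564637) (nat_lit 76) (nat_lit 14437029811) (nat_lit 9) (nat_lit 4) (nat_lit 10) (nat_lit 5) (nat_lit 10) (nat_lit 4) (nat_lit 370) (nat_lit 330) (nat_lit 320))))) (XT.nd (nat_lit 312) (nat_lit 152) (nat_lit 0) (XT.nd (nat_lit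 156) (nat_lit 76) (nat_lit 0) (XT.nd (nat_lit 78) (nat_lit 152) (nat_lit 0) (XT.lf (nat_lit 0) (nat_lit 49655175631) (nat_lit 76) (nat_lit 2410388254) (nat_lit 76) (nat_lit 616166568) (nat_lit 9) (nat_lit 4) (nat_lit 10) (nat_lit 5) (nat_lit 10) (nat_lit 4) (nat_lit 371) (nat_lit 330) (nat_lit 319)) (XT.lf (nat_lit 0) (nat_lit 14891020160) (nat_lit 152) (nat_lit 31253215779) (nat_lit 0) (nat_lit 13170374590) (nat_lit 7) (nat_lit 5) (nat_lit 9) (nat_lit 4) (nat_lit 7) (nat_lit 4) (nat_lit 372) (nat_lit 330) (nat_lit 318))) (XT.nd (nat_lit 78) (nat_lit 76) (nat_lit 0) (XT.lf (nat_lit 0) (nat_lit 32246220822) (nat_lit 152) (nat_lit 4256271273) (nat_lit 0) (nat_lit 30473984647) (nat_lit 7) (nat_lit 5) (nat_lit 9) (nat_lit 4) (nat_lit 7) (nat_lit 4) (nat_lit 373) (nat_lit 330) (nat_lit 317)) (XT.lf (nat_lit 0) (nat_lit 27074396437) (nat_lit 76) (nat_lit 25259978577) (nat_lit 76) (nat_lit 23442881007)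 (nat_lit 6) (nat_lit 4) (nat_lit 7) (nat_lit 5) (nat_lit 7) (nat_lit 4) (nat_lit 374) (nat_lit 330) (nat_lit 316)))) (XT.nd (nat_lit 156) (nat_lit 0) (nat_lit 0) (XT.nd (nat_lit 78) (nat_lit 152) (nat_lit 0) (XT.lf (nat_lit 0) (nat_lit 62382807934) (nat_lit 76) (nat_lit 12699852587) (nat_lit 76) (nat_lit 10843745109) (nat_lit 6) (nat_lit 4) (nat_lit 7) (nat_lit 5) (nat_lit 7) (nat_lit 4) (nat_lit 375) (nat_lit 330) (nat_lit 315)) (XT.lf (nat_lit 0) (nat_lit 3185781996) (nat_lit 152) (nat_lit 92991552358) (nat_lit 0) (nat_lit 1435755017) (nat_lit 4) (nat_lit 5) (nat_lit 6) (nat_lit 4) (nat_lit 4) (nat_lit 4) (nat_lit 376) (nat_lit 330) (nat_lit 314))) (XT.nd (nat_lit 78) (nat_lit 0) (nat_lit 0) (XT.lf (nat_lit 0) (nat_lit 19351230955) (nat_lit 152) (nat_lit 74051239598) (nat_lit 0) (nat_lit 17573891851) (nat_lit 4) (nat_lit 5) (nat_lit 6) (nat_lit 4) (nat_lit 4) (nat_lit 4) (nat_lit 377) (nat_lit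 330) (nat_lit 313)) (XT.nd (nat_lit 78) (nat_lit 0) (nat_lit 0) (XT.lf (nat_lit 0) (nat_lit 37594376560) (nat_lit 152) (nat_lit 52984235416) (nat_lit 0) (nat_lit 35793287781) (nat_lit 4) (nat_lit 5) (nat_lit 6) (nat_lit 4) (nat_lit 4) (nat_lit 4) (nat_lit 378) (nat_lit 330) (nat_lit 312)) (XT.lf (nat_lit 0) (nat_lit 58272149920) (nat_lit 152) (nat_lit 29378359296) (nat_lit 0) (nat_lit 56450409250) (nat_lit 4) (nat_lit 5) (nat_lit 6) (nat_lit 4) (nat_lit 4) (nat_lit 4) (nat_lit 379) (nat_lit 330) (nat_lit 311))))))))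
noncomputable def xc26 : XT := (XT.nd (nat_lit 1326) (nat_lit 0) (nat_lit 0) (XT.nd (nat_lit 624) (nat_lit 152) (nat_lit 0) (XT.nd (nat_lit 312) (nat_lit 0) (nat_lit 0) (XT.nd (nat_lit 156) (nat_lit 0) (nat_lit 0) (XT.nd (nat_lit 78) (nat_lit 76) (nat_lit 0) (XT.lf (nat_lit 0) (nat_lit 81789116165) (nat_lit 152) (nat_lit 2771757140) (nat_lit 0) (nat_lit 79949417330) (nat_lit 4) (nat_lit 5) (nat_lit 6) (nat_lit 4) (nat_lit 4) (nat_lit 4) (nat_lit 380) (nat_lit 330) (nat_lit 310)) (XT.lf (nat_lit 0) (nat_lit 28796660597) (nat_lit 76) (nat_lit 80501289636) (nat_lit 76) (nat_lit 78645975005) (nat_lit 3) (nat_lit 4) (nat_lit 4) (nat_lit 5) (nat_lit 4) (nat_lit 4) (nat_lit 381) (nat_lit 330) (nat_lit 309))) (XT.nd (nat_lit 78) (nat_lit 0) (nat_lit 0) (XT.lf (nat_lit 0) (nat_lit 64838247649) (nat_lit 76) (nat_lit 75966750976) (nat_lit 76) (nat_lit 74097857391) (nat_lit 3) (nat_lit 4) (nat_lit 4)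 (nat_lit 5) (nat_lit 4) (nat_lit 4) (nat_lit 382) (nat_lit 330) (nat_lit 308)) (XT.lf (nat_lit 0) (nat_lit 105912209681) (nat_lit 76) (nat_lit 70944322842) (nat_lit 76) (nat_lit 69063621472) (nat_lit 3) (nat_lit 4) (nat_lit 4) (nat_lit 5) (nat_lit 4) (nat_lit 4) (nat_lit 383) (nat_lit 330) (nat_lit 307)))) (XT.nd (nat_lit 156) (nat_lit 0) (nat_lit 0) (XT.nd (nat_lit 78) (nat_lit 0) (nat_lit 0) (XT.lf (nat_lit 0) (nat_lit 152822167691) (nat_lit 76) (nat_lit 65335740336) (nat_lit 76) (nat_lit 63444771326) (nat_lit 3) (nat_lit 4) (nat_lit 4) (nat_lit 5) (nat_lit 4) (nat_lit 4) (nat_lit 384) (nat_lit 330) (nat_lit 306)) (XT.lf (nat_lit 0) (nat_lit 206485925205) (nat_lit 76) (nat_lit 59031270322) (nat_lit 76) (nat_lit 57131372930) (nat_lit 3) (nat_lit 4) (nat_lit 4) (nat_lit 5) (nat_lit 4) (nat_lit 4) (nat_lit 385) (nat_lit 330) (nat_lit 305))) (XT.nd (nat_lit 78) (nat_lit 0) (nat_lit 0) (XT.lf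 (nat_lit 0) (nat_lit 267953425303) (nat_lit 76) (nat_lit 51907564474) (nat_lit 76) (nat_lit 49999903271) (nat_lit 3) (nat_lit 4) (nat_lit 4) (nat_lit 5) (nat_lit 4) (nat_lit 4) (nat_lit 386) (nat_lit 330) (nat_lit 304)) (XT.lf (nat_lit 0) (nat_lit 338427292989) (nat_lit 76) (nat_lit 43825245937) (nat_lit 76) (nat_lit 41910833595) (nat_lit 3) (nat_lit 4) (nat_lit 4) (nat_lit 5) (nat_lit 4) (nat_lit 4) (nat_lit 387) (nat_lit 330) (nat_lit 303))))) (XT.nd (nat_lit 312) (nat_lit 0) (nat_lit 0) (XT.nd (nat_lit 156) (nat_lit 152) (nat_lit 0) (XT.nd (nat_lit 78) (nat_lit 0) (nat_lit 0) (XT.lf (nat_lit 0) (nat_lit 419286364804) (nat_lit 76) (nat_lit 34626182394) (nat_lit 76) (nat_lit 32705899495) (nat_lit 3) (nat_lit 4) (nat_lit 4) (nat_lit 5) (nat_lit 4) (nat_lit 4) (nat_lit 388) (nat_lit 330) (nat_lit 302)) (XT.lf (nat_lit 0) (nat_lit 512112666066) (nat_lit 76) (nat_lit 24130392166) (nat_lit 76)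 (nat_lit 22205004435) (nat_lit 3) (nat_lit 4) (nat_lit 4) (nat_lit 5) (nat_lit 4) (nat_lit 4) (nat_lit 389) (nat_lit 330) (nat_lit 301))) (XT.nd (nat_lit 78) (nat_lit 152) (nat_lit 0) (XT.lf (nat_lit 0) (nat_lit 618722363538) (nat_lit 76) (nat_lit 12132522834) (nat_lit 76) (nat_lit 10202696120) (nat_lit 3) (nat_lit 4) (nat_lit 4) (nat_lit 5) (nat_lit 4) (nat_lit 4) (nat_lit 390) (nat_lit 330) (nat_lit 300)) (XT.lf (nat_lit 0) (nat_lit 3530962723) (nat_lit 152) (nat_lit 730771242624) (nat_lit 0) (nat_lit 1740512075) (nat_lit 1) (nat_lit 5) (nat_lit 3) (nat_lit 4) (nat_lit 1) (nat_lit 4) (nat_lit 391) (nat_lit 330) (nat_lit 299)))) (XT.nd (nat_lit 156) (nat_lit 0) (nat_lit 0) (XT.nd (nat_lit 78) (nat_lit 0) (nat_lit 0) (XT.lf (nat_lit 0) (nat_lit 19683307255) (nat_lit 152) (nat_lit 807604346660) (nat_lit 0) (nat_lit 17889748727) (nat_lit 1) (nat_lit 5) (nat_lit 3) (nat_lit 4) (nat_lit 1) (nat_lit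 4) (nat_lit 392) (nat_lit 330) (nat_lit 298)) (XT.lf (nat_lit 0) (nat_lit 38208818764) (nat_lit 152) (nat_lit 896064889348) (nat_lit 0) (nat_lit 36412557733) (nat_lit 1) (nat_lit 5) (nat_lit 3) (nat_lit 4) (nat_lit 1) (nat_lit 4) (nat_lit 393) (nat_lit 330) (nat_lit 297))) (XT.nd (nat_lit 78) (nat_lit 0) (nat_lit 0) (XT.lf (nat_lit 0) (nat_lit 59469952910) (nat_lit 152) (nat_lit 997883620435) (nat_lit 0) (nat_lit 57671341875) (nat_lit 1) (nat_lit 5) (nat_lit 3) (nat_lit 4) (nat_lit 1) (nat_lit 4) (nat_lit 394) (nat_lit 330) (nat_lit 296)) (XT.nd (nat_lit 78) (nat_lit 0) (nat_lit 0) (XT.lf (nat_lit 0) (nat_lit 83882688404) (nat_lit 152) (nat_lit 1115052645531) (nat_lit 0) (nat_lit 82082033889) (nat_lit 1) (nat_lit 5) (nat_lit 3) (nat_lit 4) (nat_lit 1) (nat_lit 4) (nat_lit 395) (nat_lit 330) (nat_lit 295)) (XT.lf (nat_lit 0) (nat_lit 111924665724) (nat_lit 152) (nat_lit 1249864402082) (nat_lit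 0) (nat_lit 110122234269) (nat_lit 1) (nat_lit 5) (nat_lit 3) (nat_lit 4) (nat_lit 1) (nat_lit 4) (nat_lit 396) (nat_lit 330) (nat_lit 294))))))) (XT.nd (nat_lit 624) (nat_lit 0) (nat_lit 0) (XT.nd (nat_lit 312) (nat_lit 0) (nat_lit 0) (XT.nd (nat_lit 156) (nat_lit 0) (nat_lit 0) (XT.nd (nat_lit 78) (nat_lit 0) (nat_lit 0) (XT.lf (nat_lit 0) (nat_lit 144144532252) (nat_lit 152) (nat_lit 1404956511413) (nat_lit 0) (nat_lit 142340555631) (nat_lit 1) (nat_lit 5) (nat_lit 3) (nat_lit 4) (nat_lit 1) (nat_lit 4) (nat_lit 397) (nat_lit 330) (nat_lit 293)) (XT.lf (nat_lit 0) (nat_lit 181172676681) (nat_lit 152) (nat_lit 1583363384358) (nat_lit 0) (nat_lit 179367356439) (nat_lit 1) (nat_lit 5) (nat_lit 3) (nat_lit 4) (nat_lit 1) (nat_lit 4) (nat_lit 398) (nat_lit 330) (nat_lit 292))) (XT.nd (nat_lit 78) (nat_lit 0) (nat_lit 0) (XT.lf (nat_lit 0) (nat_lit 223733562707) (nat_lit 152) (nat_lit 1788575590171)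 (nat_lit 0) (nat_lit 221927074097) (nat_lit 1) (nat_lit 5) (nat_lit 3) (nat_lit 4) (nat_lit 1) (nat_lit 4) (nat_lit 399) (nat_lit 330) (nat_lit 291)) (XT.lf (nat_lit 0) (nat_lit 272659903316) (nat_lit 152) (nat_lit 2024608150270) (nat_lit 0) (nat_lit 270852398735) (nat_lit 1) (nat_lit 5) (nat_lit 3) (nat_lit 4) (nat_lit 1) (nat_lit 4) (nat_lit 400) (nat_lit 330) (nat_lit 290)))) (XT.nd (nat_lit 156) (nat_lit 0) (nat_lit 0) (XT.nd (nat_lit 78) (nat_lit 0) (nat_lit 0) (XT.lf (nat_lit 0) (nat_lit 328908952999) (nat_lit 152) (nat_lit 2296079093003) (nat_lit 0) (nat_lit 327100564964) (nat_lit 1) (nat_lit 5) (nat_lit 3) (nat_lit 4) (nat_lit 1) (nat_lit 4) (nat_lit 401) (nat_lit 330) (nat_lit 289)) (XT.lf (nat_lit 0) (nat_lit 393581236641) (nat_lit 152) (nat_lit 2608299806382) (nat_lit 0) (nat_lit 391772080386) (nat_lit 1) (nat_lit 5) (nat_lit 3) (nat_lit 4) (nat_lit 1) (nat_lit 4) (nat_lit 402)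 (nat_lit 330) (nat_lit 288))) (XT.nd (nat_lit 78) (nat_lit 0) (nat_lit 0) (XT.lf (nat_lit 0) (nat_lit 467942081530) (nat_lit 152) (nat_lit 2967378956538) (nat_lit 0) (nat_lit 466132257258) (nat_lit 1) (nat_lit 5) (nat_lit 3) (nat_lit 4) (nat_lit 1) (nat_lit 4) (nat_lit 403) (nat_lit 330) (nat_lit 287)) (XT.lf (nat_lit 0) (nat_lit 553446373763) (nat_lit 152) (nat_lit 3380342005104) (nat_lit 0) (nat_lit 551635968607) (nat_lit 1) (nat_lit 5) (nat_lit 3) (nat_lit 4) (nat_lit 1) (nat_lit 4) (nat_lit 404) (nat_lit 330) (nat_lit 286))))) (XT.nd (nat_lit 312) (nat_lit 0) (nat_lit 0) (XT.nd (nat_lit 156) (nat_lit 0) (nat_lit 0) (XT.nd (nat_lit 78) (nat_lit 0) (nat_lit 0) (XT.lf (nat_lit 0) (nat_lit 651767023405) (nat_lit 152) (nat_lit 3855268663899) (nat_lit 0) (nat_lit 649956113131) (nat_lit 1) (nat_lit 5) (nat_lit 3) (nat_lit 4) (nat_lit 1) (nat_lit 4) (nat_lit 405) (nat_lit 330) (nat_lit 285))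 (XT.lf (nat_lit 0) (nat_lit 764827695340) (nat_lit 152) (nat_lit 4401450976249) (nat_lit 0) (nat_lit 763016345833) (nat_lit 1) (nat_lit 5) (nat_lit 3) (nat_lit 4) (nat_lit 1) (nat_lit 4) (nat_lit 406) (nat_lit 330) (nat_lit 284))) (XT.nd (nat_lit 78) (nat_lit 0) (nat_lit 0) (XT.lf (nat_lit 0) (nat_lit 894840446193) (nat_lit 152) (nat_lit 5029575117830) (nat_lit 0) (nat_lit 893028714745) (nat_lit 1) (nat_lit 5) (nat_lit 3) (nat_lit 4) (nat_lit 1) (nat_lit 4) (nat_lit 407) (nat_lit 330) (nat_lit 283)) (XT.lf (nat_lit 0) (nat_lit 1044349003697) (nat_lit 152) (nat_lit 5751930474020) (nat_lit 0) (nat_lit 1042536940127) (nat_lit 1) (nat_lit 5) (nat_lit 3) (nat_lit 4) (nat_lit 1) (nat_lit 4) (nat_lit 408) (nat_lit 330) (nat_lit 282)))) (XT.nd (nat_lit 156) (nat_lit 0) (nat_lit 0) (XT.nd (nat_lit 78) (nat_lit 0) (nat_lit 0) (XT.lf (nat_lit 0) (nat_lit 1216278535283) (nat_lit 152) (nat_lit 6582650084397)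 (nat_lit 0) (nat_lit 1214466182910) (nat_lit 1) (nat_lit 5) (nat_lit 3) (nat_lit 4) (nat_lit 1) (nat_lit 4) (nat_lit 409) (nat_lit 330) (nat_lit 281)) (XT.lf (nat_lit 0) (nat_lit 1413992879612) (nat_lit 152) (nat_lit 7537987158729) (nat_lit 0) (nat_lit 1412180276107) (nat_lit 1) (nat_lit 5) (nat_lit 3) (nat_lit 4) (nat_lit 1) (nat_lit 4) (nat_lit 410) (nat_lit 330) (nat_lit 280))) (XT.nd (nat_lit 78) (nat_lit 0) (nat_lit 0) (XT.lf (nat_lit 0) (nat_lit 1641360360812) (nat_lit 152) (nat_lit 8636633074557) (nat_lit 0) (nat_lit 1639547538931) (nat_lit 1) (nat_lit 5) (nat_lit 3) (nat_lit 4) (nat_lit 1) (nat_lit 4) (nat_lit 411) (nat_lit 330) (nat_lit 279)) (XT.nd (nat_lit 78) (nat_lit 0) (nat_lit 0) (XT.lf (nat_lit 0) (nat_lit 1902829473080) (nat_lit 152) (nat_lit 9900083078062) (nat_lit 0) (nat_lit 1901016461307) (nat_lit 1) (nat_lit 5) (nat_lit 3) (nat_lit 4) (nat_lit 1) (nat_lit 4) (nat_lit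 412) (nat_lit 330) (nat_lit 278)) (XT.lf (nat_lit 0) (nat_lit 2203515916440) (nat_lit 152) (nat_lit 11353056843223) (nat_lit 0) (nat_lit 2201702739542) (nat_lit 1) (nat_lit 5) (nat_lit 3) (nat_lit 4) (nat_lit 1) (nat_lit 4) (nat_lit 413) (nat_lit 330) (nat_lit 277))))))))
noncomputable def xc27 : XT := (XT.nd (nat_lit 49608) (nat_lit 0) (nat_lit 152) (XT.nd (nat_lit 48906) (nat_lit 0) (nat_lit 836) (XT.nd (nat_lit 312) (nat_lit 0) (nat_lit 0) (XT.nd (nat_lit 156) (nat_lit 0) (nat_lit 0) (XT.nd (nat_lit 78) (nat_lit 0) (nat_lit 0) (XT.lf (nat_lit 0) (nat_lit 2549302686521) (nat_lit 152) (nat_lit 13023982117622) (nat_lit 0) (nat_lit 2547489366038) (nat_lit 1) (nat_lit 5) (nat_lit 3) (nat_lit 4) (nat_lit 1) (nat_lit 4) (nat_lit 414) (nat_lit 330) (nat_lit 276)) (XT.lf (nat_lit 0) (nat_lit 2946955176652) (nat_lit 152) (nat_lit 14945550917495) (nat_lit 0) (nat_lit 2945141731312) (nat_lit 1) (nat_lit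 5) (nat_lit 3) (nat_lit 4) (nat_lit 1) (nat_lit 4) (nat_lit 415) (nat_lit 330) (nat_lit 275))) (XT.nd (nat_lit 78) (nat_lit 0) (nat_lit 0) (XT.lf (nat_lit 0) (nat_lit 3404253544249) (nat_lit 152) (nat_lit 17155359154145) (nat_lit 0) (nat_lit 3402439990337) (nat_lit 1) (nat_lit 5) (nat_lit 3) (nat_lit 4) (nat_lit 1) (nat_lit 4) (nat_lit 416) (nat_lit 330) (nat_lit 274)) (XT.lf (nat_lit 0) (nat_lit 3930144931285) (nat_lit 152) (nat_lit 19696642206114) (nat_lit 0) (nat_lit 3928331282963) (nat_lit 1) (nat_lit 5) (nat_lit 3) (nat_lit 4) (nat_lit 1) (nat_lit 4) (nat_lit 417) (nat_lit 330) (nat_lit 273)))) (XT.nd (nat_lit 48438) (nat_lit 0) (nat_lit 1976) (XT.nd (nat_lit 78) (nat_lit 0) (nat_lit 0) (XT.lf (nat_lit 0) (nat_lit 4534918517073) (nat_lit 152) (nat_lit 22619120828769) (nat_lit 0) (nat_lit 4533104786655) (nat_lit 1) (nat_lit 5) (nat_lit 3) (nat_lit 4) (nat_lit 1) (nat_lit 4) (nat_lit 418)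 (nat_lit 330) (nat_lit 272)) (XT.lf (nat_lit 0) (nat_lit 5230406828291) (nat_lit 152) (nat_lit 25979973951681) (nat_lit 0) (nat_lit 5228593026486) (nat_lit 1) (nat_lit 5) (nat_lit 3) (nat_lit 4) (nat_lit 1) (nat_lit 4) (nat_lit 419) (nat_lit 330) (nat_lit 271))) (XT.nd (nat_lit 78) (nat_lit 228) (nat_lit 0) (XT.lf (nat_lit 0) (nat_lit 6150904134) (nat_lit 76) (nat_lit 687948487) (nat_lit 76) (nat_lit 687948487) (nat_lit 30) (nat_lit 4) (nat_lit 31) (nat_lit 5) (nat_lit 31) (nat_lit 4) (nat_lit 358) (nat_lit 331) (nat_lit 331)) (XT.lf (nat_lit 0) (nat_lit 5617657854) (nat_lit 76) (nat_lit 5586759508) (nat_lit 76) (nat_lit 5042747074) (nat_lit 27) (nat_lit 4) (nat_lit 28) (nat_lit 5) (nat_lit 28) (nat_lit 4) (nat_lit 359) (nat_lit 331) (nat_lit 330))))) (XT.nd (nat_lit 312) (nat_lit 532) (nat_lit 0) (XT.nd (nat_lit 156) (nat_lit 228) (nat_lit 0) (XT.nd (nat_lit 78) (nat_lit 228) (nat_lit 0)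 (XT.lf (nat_lit 0) (nat_lit 7526579398) (nat_lit 152) (nat_lit 3494036549) (nat_lit 0) (nat_lit 6584850949) (nat_lit 25) (nat_lit 5) (nat_lit 27) (nat_lit 4) (nat_lit 25) (nat_lit 4) (nat_lit 360) (nat_lit 331) (nat_lit 329)) (XT.lf (nat_lit 0) (nat_lit 2400569690) (nat_lit 152) (nat_lit 15575632396) (nat_lit 0) (nat_lit 1175931245) (nat_lit 22) (nat_lit 5) (nat_lit 24) (nat_lit 4) (nat_lit 22) (nat_lit 4) (nat_lit 361) (nat_lit 331) (nat_lit 328))) (XT.nd (nat_lit 78) (nat_lit 152) (nat_lit 0) (XT.lf (nat_lit 0) (nat_lit 10211782563) (nat_lit 76) (nat_lit 6108124196) (nat_lit 76) (nat_lit 4576818222) (nat_lit 21) (nat_lit 4) (nat_lit 22) (nat_lit 5) (nat_lit 22) (nat_lit 4) (nat_lit 362) (nat_lit 331) (nat_lit 327)) (XT.lf (nat_lit 0) (nat_lit 8921895221) (nat_lit 152) (nat_lit 6708376434) (nat_lit 0) (nat_lit 7257105045) (nat_lit 19) (nat_lit 5) (nat_lit 21) (nat_lit 4) (nat_lit 19) (nat_lit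 4) (nat_lit 363) (nat_lit 331) (nat_lit 326)))) (XT.nd (nat_lit 156) (nat_lit 304) (nat_lit 0) (XT.nd (nat_lit 78) (nat_lit 152) (nat_lit 0) (XT.lf (nat_lit 0) (nat_lit 21309971135) (nat_lit 76) (nat_lit 2868188566) (nat_lit 76) (nat_lit 988690324) (nat_lit 18) (nat_lit 4) (nat_lit 19) (nat_lit 5) (nat_lit 19) (nat_lit 4) (nat_lit 364) (nat_lit 331) (nat_lit 325)) (XT.lf (nat_lit 0) (nat_lit 13392376874) (nat_lit 152) (nat_lit 2877470481) (nat_lit 0) (nat_lit 11479227886) (nat_lit 16) (nat_lit 5) (nat_lit 18) (nat_lit 4) (nat_lit 16) (nat_lit 4) (nat_lit 365) (nat_lit 331) (nat_lit 324))) (XT.nd (nat_lit 78) (nat_lit 228) (nat_lit 0) (XT.lf (nat_lit 0) (nat_lit 26882495313) (nat_lit 76) (nat_lit 2950358927) (nat_lit 76) (nat_lit 886885732) (nat_lit 15) (nat_lit 4) (nat_lit 16) (nat_lit 5) (nat_lit 16) (nat_lit 4) (nat_lit 366) (nat_lit 331) (nat_lit 323)) (XT.nd (nat_lit 78) (nat_lit 76)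 (nat_lit 0) (XT.lf (nat_lit 0) (nat_lit 14072425983) (nat_lit 152) (nat_lit 7978767830) (nat_lit 0) (nat_lit 12040768671) (nat_lit 13) (nat_lit 5) (nat_lit 15) (nat_lit 4) (nat_lit 13) (nat_lit 4) (nat_lit 367) (nat_lit 331) (nat_lit 322)) (XT.lf (nat_lit 0) (nat_lit 22253625562) (nat_lit 76) (nat_lit 8927418392) (nat_lit 76) (nat_lit 6790514137) (nat_lit 12) (nat_lit 4) (nat_lit 13) (nat_lit 5) (nat_lit 13) (nat_lit 4) (nat_lit 368) (nat_lit 331) (nat_lit 321))))))) (XT.nd (nat_lit 702) (nat_lit 76) (nat_lit 0) (XT.nd (nat_lit 312) (nat_lit 228) (nat_lit 0) (XT.nd (nat_lit 156) (nat_lit 228) (nat_lit 0) (XT.nd (nat_lit 78) (nat_lit 0) (nat_lit 0) (XT.lf (nat_lit 0) (nat_lit 8002327386) (nat_lit 152) (nat_lit 28475535926) (nat_lit 0) (nat_lit 5938972447) (nat_lit 10) (nat_lit 5) (nat_lit 12) (nat_lit 4) (nat_lit 10) (nat_lit 4) (nat_lit 369) (nat_lit 331) (nat_lit 320)) (XT.lf (nat_lit 0)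 (nat_lit 24658336659) (nat_lit 152) (nat_lit 331469648) (nat_lit 0) (nat_lit 22521294861) (nat_lit 10) (nat_lit 5) (nat_lit 12) (nat_lit 4) (nat_lit 10) (nat_lit 4) (nat_lit 370) (nat_lit 331) (nat_lit 319))) (XT.nd (nat_lit 78) (nat_lit 152) (nat_lit 0) (XT.lf (nat_lit 0) (nat_lit 32445235088) (nat_lit 76) (nat_lit 11555192124) (nat_lit 76) (nat_lit 9354074795) (nat_lit 9) (nat_lit 4) (nat_lit 10) (nat_lit 5) (nat_lit 10) (nat_lit 4) (nat_lit 371) (nat_lit 331) (nat_lit 318)) (XT.lf (nat_lit 0) (nat_lit 5626874792) (nat_lit 152) (nat_lit 50917177622) (nat_lit 0) (nat_lit 3537212587) (nat_lit 7) (nat_lit 5) (nat_lit 9) (nat_lit 4) (nat_lit 7) (nat_lit 4) (nat_lit 372) (nat_lit 331) (nat_lit 317)))) (XT.nd (nat_lit 156) (nat_lit 152) (nat_lit 0) (XT.nd (nat_lit 78) (nat_lit 76) (nat_lit 0) (XT.lf (nat_lit 0) (nat_lit 22739532917) (nat_lit 152) (nat_lit 24417995643) (nat_lit 0) (nat_lit 20605009317)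 (nat_lit 7) (nat_lit 5) (nat_lit 9) (nat_lit 4) (nat_lit 7) (nat_lit 4) (nat_lit 373) (nat_lit 331) (nat_lit 316)) (XT.lf (nat_lit 0) (nat_lit 5395361983) (nat_lit 76) (nat_lit 36700037272) (nat_lit 76) (nat_lit 34526503763) (nat_lit 6) (nat_lit 4) (nat_lit 7) (nat_lit 5) (nat_lit 7) (nat_lit 4) (nat_lit 374) (nat_lit 331) (nat_lit 315))) (XT.nd (nat_lit 78) (nat_lit 152) (nat_lit 0) (XT.lf (nat_lit 0) (nat_lit 40307573994) (nat_lit 76) (nat_lit 24343185157) (nat_lit 76) (nat_lit 22135729989) (nat_lit 6) (nat_lit 4) (nat_lit 7) (nat_lit 5) (nat_lit 7) (nat_lit 4) (nat_lit 375) (nat_lit 331) (nat_lit 314)) (XT.nd (nat_lit 78) (nat_lit 152) (nat_lit 0) (XT.lf (nat_lit 0) (nat_lit 79715897029) (nat_lit 76) (nat_lit 10512838991) (nat_lit 76) (nat_lit 8275886727) (nat_lit 6) (nat_lit 4) (nat_lit 7) (nat_lit 5) (nat_lit 7) (nat_lit 4) (nat_lit 376) (nat_lit 331) (nat_lit 313)) (XT.lf (nat_lit 0)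 (nat_lit 7401251234) (nat_lit 152) (nat_lit 99248503978) (nat_lit 0) (nat_lit 5306249464) (nat_lit 4) (nat_lit 5) (nat_lit 6) (nat_lit 4) (nat_lit 4) (nat_lit 4) (nat_lit 377) (nat_lit 331) (nat_lit 312)))))) (XT.nd (nat_lit 312) (nat_lit 0) (nat_lit 0) (XT.nd (nat_lit 156) (nat_lit 76) (nat_lit 0) (XT.nd (nat_lit 78) (nat_lit 0) (nat_lit 0) (XT.lf (nat_lit 0) (nat_lit 25504004241) (nat_lit 152) (nat_lit 78470420117) (nat_lit 0) (nat_lit 23388350580) (nat_lit 4) (nat_lit 5) (nat_lit 6) (nat_lit 4) (nat_lit 4) (nat_lit 4) (nat_lit 378) (nat_lit 331) (nat_lit 311)) (XT.lf (nat_lit 0) (nat_lit 46059697080) (nat_lit 152) (nat_lit 55115779058) (nat_lit 0) (nat_lit 43926085254) (nat_lit 4) (nat_lit 5) (nat_lit 6) (nat_lit 4) (nat_lit 4) (nat_lit 4) (nat_lit 379) (nat_lit 331) (nat_lit 310))) (XT.nd (nat_lit 78) (nat_lit 76) (nat_lit 0) (XT.lf (nat_lit 0) (nat_lit 69470506352) (nat_lit 152) (nat_lit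 28727642173) (nat_lit 0) (nat_lit 67321278730) (nat_lit 4) (nat_lit 5) (nat_lit 6) (nat_lit 4) (nat_lit 4) (nat_lit 4) (nat_lit 380) (nat_lit 331) (nat_lit 309)) (XT.lf (nat_lit 0) (nat_lit 1274011382) (nat_lit 76) (nat_lit 94951098251) (nat_lit 76) (nat_lit 92788291675) (nat_lit 3) (nat_lit 4) (nat_lit 4) (nat_lit 5) (nat_lit 4) (nat_lit 4) (nat_lit 381) (nat_lit 331) (nat_lit 308)))) (XT.nd (nat_lit 156) (nat_lit 0) (nat_lit 0) (XT.nd (nat_lit 78) (nat_lit 0) (nat_lit 0) (XT.lf (nat_lit 0) (nat_lit 37141708630) (nat_lit 76) (nat_lit 90505997416) (nat_lit 76) (nat_lit 88331383055) (nat_lit 3) (nat_lit 4) (nat_lit 4) (nat_lit 5) (nat_lit 4) (nat_lit 4) (nat_lit 382) (nat_lit 331) (nat_lit 307)) (XT.lf (nat_lit 0) (nat_lit 78064462139) (nat_lit 76) (nat_lit 85561341305) (nat_lit 76) (nat_lit 83376459304) (nat_lit 3) (nat_lit 4) (nat_lit 4) (nat_lit 5) (nat_lit 4) (nat_lit 4) (nat_lit 383)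 (nat_lit 331) (nat_lit 306))) (XT.nd (nat_lit 78) (nat_lit 0) (nat_lit 0) (XT.lf (nat_lit 0) (nat_lit 124842934475) (nat_lit 76) (nat_lit 80020386644) (nat_lit 76) (nat_lit 77826576261) (nat_lit 3) (nat_lit 4) (nat_lit 4) (nat_lit 5) (nat_lit 4) (nat_lit 4) (nat_lit 384) (nat_lit 331) (nat_lit 305)) (XT.nd (nat_lit 78) (nat_lit 0) (nat_lit 0) (XT.lf (nat_lit 0) (nat_lit 178392356620) (nat_lit 76) (nat_lit 73774723453) (nat_lit 76) (nat_lit 71573149259) (nat_lit 3) (nat_lit 4) (nat_lit 4) (nat_lit 5) (nat_lit 4) (nat_lit 4) (nat_lit 385) (nat_lit 331) (nat_lit 304)) (XT.lf (nat_lit 0) (nat_lit 239760434660) (nat_lit 76) (nat_lit 66702153971) (nat_lit 76) (nat_lit 64493828638) (nat_lit 3) (nat_lit 4) (nat_lit 4) (nat_lit 5) (nat_lit 4) (nat_lit 4) (nat_lit 386) (nat_lit 331) (nat_lit 303))))))))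
noncomputable def xc28 : XT := (XT.nd (nat_lit 1326) (nat_lit 0) (nat_lit 0) (XT.nd (nat_lit 624) (nat_lit 0) (nat_lit 0) (XT.nd (nat_lit 312) (nat_lit 152) (nat_lit 0) (XT.nd (nat_lit 156) (nat_lit 0) (nat_lit 0) (XT.nd (nat_lit 78) (nat_lit 0) (nat_lit 0) (XT.lf (nat_lit 0) (nat_lit 310147848381) (nat_lit 76) (nat_lit 58664301841) (nat_lit 76) (nat_lit 56450105952) (nat_lit 3) (nat_lit 4) (nat_lit 4) (nat_lit 5) (nat_lit 4) (nat_lit 4) (nat_lit 387) (nat_lit 331) (nat_lit 302)) (XT.lf (nat_lit 0) (nat_lit 390931742835) (nat_lit 76) (nat_lit 49503904738) (nat_lit 76) (nat_lit 47284604017) (nat_lit 3) (nat_lit 4) (nat_lit 4) (nat_lit 5) (nat_lit 4) (nat_lit 4) (nat_lit 388) (nat_lit 331) (nat_lit 301))) (XT.nd (nat_lit 78) (nat_lit 0) (nat_lit 0) (XT.lf (nat_lit 0) (nat_lit 483692672479) (nat_lit 76) (nat_lit 39041737501) (nat_lit 76) (nat_lit 36817997796) (nat_lit 3) (nat_lit 4) (nat_lit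 4) (nat_lit 5) (nat_lit 4) (nat_lit 4) (nat_lit 389) (nat_lit 331) (nat_lit 300)) (XT.lf (nat_lit 0) (nat_lit 590245525066) (nat_lit 76) (nat_lit 27073105554) (nat_lit 76) (nat_lit 24845505863) (nat_lit 3) (nat_lit 4) (nat_lit 4) (nat_lit 5) (nat_lit 4) (nat_lit 4) (nat_lit 390) (nat_lit 331) (nat_lit 299)))) (XT.nd (nat_lit 156) (nat_lit 0) (nat_lit 0) (XT.nd (nat_lit 78) (nat_lit 152) (nat_lit 0) (XT.lf (nat_lit 0) (nat_lit 712675030322) (nat_lit 76) (nat_lit 13363840010) (nat_lit 76) (nat_lit 11132883810) (nat_lit 3) (nat_lit 4) (nat_lit 4) (nat_lit 5) (nat_lit 4) (nat_lit 4) (nat_lit 391) (nat_lit 331) (nat_lit 298)) (XT.lf (nat_lit 0) (nat_lit 4595584279) (nat_lit 152) (nat_lit 839283556449) (nat_lit 0) (nat_lit 2527181590) (nat_lit 1) (nat_lit 5) (nat_lit 3) (nat_lit 4) (nat_lit 1) (nat_lit 4) (nat_lit 392) (nat_lit 331) (nat_lit 297))) (XT.nd (nat_lit 78) (nat_lit 0) (nat_lit 0) (XT.lf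 (nat_lit 0) (nat_lit 23101000863) (nat_lit 152) (nat_lit 927785544252) (nat_lit 0) (nat_lit 21030248170) (nat_lit 1) (nat_lit 5) (nat_lit 3) (nat_lit 4) (nat_lit 1) (nat_lit 4) (nat_lit 393) (nat_lit 331) (nat_lit 296)) (XT.lf (nat_lit 0) (nat_lit 44344661161) (nat_lit 152) (nat_lit 1029640314570) (nat_lit 0) (nat_lit 42271864987) (nat_lit 1) (nat_lit 5) (nat_lit 3) (nat_lit 4) (nat_lit 1) (nat_lit 4) (nat_lit 394) (nat_lit 331) (nat_lit 295))))) (XT.nd (nat_lit 312) (nat_lit 0) (nat_lit 0) (XT.nd (nat_lit 156) (nat_lit 0) (nat_lit 0) (XT.nd (nat_lit 78) (nat_lit 0) (nat_lit 0) (XT.lf (nat_lit 0) (nat_lit 68742202004) (nat_lit 152) (nat_lit 1146840678127) (nat_lit 0) (nat_lit 66667628891) (nat_lit 1) (nat_lit 5) (nat_lit 3) (nat_lit 4) (nat_lit 1) (nat_lit 4) (nat_lit 395) (nat_lit 331) (nat_lit 294)) (XT.lf (nat_lit 0) (nat_lit 96770966585) (nat_lit 152) (nat_lit 1281679685514) (nat_lit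 0) (nat_lit 94694848306) (nat_lit 1) (nat_lit 5) (nat_lit 3) (nat_lit 4) (nat_lit 1) (nat_lit 4) (nat_lit 396) (nat_lit 331) (nat_lit 293))) (XT.nd (nat_lit 78) (nat_lit 0) (nat_lit 0) (XT.lf (nat_lit 0) (nat_lit 128979343774) (nat_lit 152) (nat_lit 1436795491224) (nat_lit 0) (nat_lit 126901881873) (nat_lit 1) (nat_lit 5) (nat_lit 3) (nat_lit 4) (nat_lit 1) (nat_lit 4) (nat_lit 397) (nat_lit 331) (nat_lit 292)) (XT.lf (nat_lit 0) (nat_lit 165997497474) (nat_lit 152) (nat_lit 1615222969716) (nat_lit 0) (nat_lit 163918867206) (nat_lit 1) (nat_lit 5) (nat_lit 3) (nat_lit 4) (nat_lit 1) (nat_lit 4) (nat_lit 398) (nat_lit 331) (nat_lit 291)))) (XT.nd (nat_lit 156) (nat_lit 0) (nat_lit 0) (XT.nd (nat_lit 78) (nat_lit 0) (nat_lit 0) (XT.lf (nat_lit 0) (nat_lit 208549695909) (nat_lit 152) (nat_lit 1820453093395) (nat_lit 0) (nat_lit 206470049669) (nat_lit 1) (nat_lit 5) (nat_lit 3) (nat_lit 4) (nat_lit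 1) (nat_lit 4) (nat_lit 399) (nat_lit 331) (nat_lit 290)) (XT.lf (nat_lit 0) (nat_lit 257468482091) (nat_lit 152) (nat_lit 2056501234247) (nat_lit 0) (nat_lit 255387952399) (nat_lit 1) (nat_lit 5) (nat_lit 3) (nat_lit 4) (nat_lit 1) (nat_lit 4) (nat_lit 400) (nat_lit 331) (nat_lit 289))) (XT.nd (nat_lit 78) (nat_lit 0) (nat_lit 0) (XT.lf (nat_lit 0) (nat_lit 313710962707) (nat_lit 152) (nat_lit 2327985725462) (nat_lit 0) (nat_lit 311629664795) (nat_lit 1) (nat_lit 5) (nat_lit 3) (nat_lit 4) (nat_lit 1) (nat_lit 4) (nat_lit 401) (nat_lit 331) (nat_lit 288)) (XT.nd (nat_lit 78) (nat_lit 0) (nat_lit 0) (XT.lf (nat_lit 0) (nat_lit 378377534117) (nat_lit 152) (nat_lit 2640218220130) (nat_lit 0) (nat_lit 376295568187) (nat_lit 1) (nat_lit 5) (nat_lit 3) (nat_lit 4) (nat_lit 1) (nat_lit 4) (nat_lit 402) (nat_lit 331) (nat_lit 287)) (XT.lf (nat_lit 0) (nat_lit 452733411849) (nat_lit 152) (nat_lit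 2999307614884) (nat_lit 0) (nat_lit 450650865034) (nat_lit 1) (nat_lit 5) (nat_lit 3) (nat_lit 4) (nat_lit 1) (nat_lit 4) (nat_lit 403) (nat_lit 331) (nat_lit 286))))))) (XT.nd (nat_lit 624) (nat_lit 0) (nat_lit 0) (XT.nd (nat_lit 312) (nat_lit 0) (nat_lit 0) (XT.nd (nat_lit 156) (nat_lit 0) (nat_lit 0) (XT.nd (nat_lit 78) (nat_lit 0) (nat_lit 0) (XT.lf (nat_lit 0) (nat_lit 538233384814) (nat_lit 152) (nat_lit 3412279571796) (nat_lit 0) (nat_lit 536150332882) (nat_lit 1) (nat_lit 5) (nat_lit 3) (nat_lit 4) (nat_lit 1) (nat_lit 4) (nat_lit 404) (nat_lit 331) (nat_lit 285)) (XT.lf (nat_lit 0) (nat_lit 636550278570) (nat_lit 152) (nat_lit 3887213976980) (nat_lit 0) (nat_lit 634466787406) (nat_lit 1) (nat_lit 5) (nat_lit 3) (nat_lit 4) (nat_lit 1) (nat_lit 4) (nat_lit 405) (nat_lit 331) (nat_lit 284))) (XT.nd (nat_lit 78) (nat_lit 0) (nat_lit 0) (XT.lf (nat_lit 0) (nat_lit 749607684518) (nat_lit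 152) (nat_lit 4433403025320) (nat_lit 0) (nat_lit 747523811412) (nat_lit 1) (nat_lit 5) (nat_lit 3) (nat_lit 4) (nat_lit 1) (nat_lit 4) (nat_lit 406) (nat_lit 331) (nat_lit 283)) (XT.lf (nat_lit 0) (nat_lit 879617595382) (nat_lit 152) (nat_lit 5061533024283) (nat_lit 0) (nat_lit 877533390153) (nat_lit 1) (nat_lit 5) (nat_lit 3) (nat_lit 4) (nat_lit 1) (nat_lit 4) (nat_lit 407) (nat_lit 331) (nat_lit 282)))) (XT.nd (nat_lit 156) (nat_lit 0) (nat_lit 0) (XT.nd (nat_lit 78) (nat_lit 0) (nat_lit 0) (XT.lf (nat_lit 0) (nat_lit 1029123683331) (nat_lit 152) (nat_lit 5783893473849) (nat_lit 0) (nat_lit 1027039189300) (nat_lit 1) (nat_lit 5) (nat_lit 3) (nat_lit 4) (nat_lit 1) (nat_lit 4) (nat_lit 408) (nat_lit 331) (nat_lit 281)) (XT.lf (nat_lit 0) (nat_lit 1201051067478) (nat_lit 152) (nat_lit 6614617513249) (nat_lit 0) (nat_lit 1198966322314) (nat_lit 1) (nat_lit 5) (nat_lit 3) (nat_lit 4) (nat_lit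 1) (nat_lit 4) (nat_lit 409) (nat_lit 331) (nat_lit 280))) (XT.nd (nat_lit 78) (nat_lit 0) (nat_lit 0) (XT.lf (nat_lit 0) (nat_lit 1398763544468) (nat_lit 152) (nat_lit 7569958438905) (nat_lit 0) (nat_lit 1396678580928) (nat_lit 1) (nat_lit 5) (nat_lit 3) (nat_lit 4) (nat_lit 1) (nat_lit 4) (nat_lit 410) (nat_lit 331) (nat_lit 279)) (XT.lf (nat_lit 0) (nat_lit 1626129401895) (nat_lit 152) (nat_lit 8668607703711) (nat_lit 0) (nat_lit 1624044248463) (nat_lit 1) (nat_lit 5) (nat_lit 3) (nat_lit 4) (nat_lit 1) (nat_lit 4) (nat_lit 411) (nat_lit 331) (nat_lit 278))))) (XT.nd (nat_lit 312) (nat_lit 0) (nat_lit 0) (XT.nd (nat_lit 156) (nat_lit 0) (nat_lit 0) (XT.nd (nat_lit 78) (nat_lit 0) (nat_lit 0) (XT.lf (nat_lit 0) (nat_lit 1887597102187) (nat_lit 152) (nat_lit 9932060619369) (nat_lit 0) (nat_lit 1885511783631) (nat_lit 1) (nat_lit 5) (nat_lit 3) (nat_lit 4) (nat_lit 1) (nat_lit 4) (nat_lit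 412) (nat_lit 331) (nat_lit 277)) (XT.lf (nat_lit 0) (nat_lit 2188282317741) (nat_lit 152) (nat_lit 11385036916839) (nat_lit 0) (nat_lit 2186196855599) (nat_lit 1) (nat_lit 5) (nat_lit 3) (nat_lit 4) (nat_lit 1) (nat_lit 4) (nat_lit 413) (nat_lit 331) (nat_lit 276))) (XT.nd (nat_lit 78) (nat_lit 0) (nat_lit 0) (XT.lf (nat_lit 0) (nat_lit 2534068020165) (nat_lit 152) (nat_lit 13055964393244) (nat_lit 0) (nat_lit 2531982433166) (nat_lit 1) (nat_lit 5) (nat_lit 3) (nat_lit 4) (nat_lit 1) (nat_lit 4) (nat_lit 414) (nat_lit 331) (nat_lit 275)) (XT.lf (nat_lit 0) (nat_lit 2931719581899) (nat_lit 152) (nat_lit 14977535107906) (nat_lit 0) (nat_lit 2929633886329) (nat_lit 1) (nat_lit 5) (nat_lit 3) (nat_lit 4) (nat_lit 1) (nat_lit 4) (nat_lit 415) (nat_lit 331) (nat_lit 274)))) (XT.nd (nat_lit 156) (nat_lit 0) (nat_lit 0) (XT.nd (nat_lit 78) (nat_lit 0) (nat_lit 0) (XT.lf (nat_lit 0) (nat_lit 3389017142193)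 (nat_lit 152) (nat_lit 17187345009590) (nat_lit 0) (nat_lit 3386931352213) (nat_lit 1) (nat_lit 5) (nat_lit 3) (nat_lit 4) (nat_lit 1) (nat_lit 4) (nat_lit 416) (nat_lit 331) (nat_lit 273)) (XT.lf (nat_lit 0) (nat_lit 3914907827228) (nat_lit 152) (nat_lit 19728629509415) (nat_lit 0) (nat_lit 3912821955152) (nat_lit 1) (nat_lit 5) (nat_lit 3) (nat_lit 4) (nat_lit 1) (nat_lit 4) (nat_lit 417) (nat_lit 331) (nat_lit 272))) (XT.nd (nat_lit 48282) (nat_lit 0) (nat_lit 2280) (XT.lf (nat_lit 0) (nat_lit 4519680802580) (nat_lit 152) (nat_lit 22651109391074) (nat_lit 0) (nat_lit 4517594859116) (nat_lit 1) (nat_lit 5) (nat_lit 3) (nat_lit 4) (nat_lit 1) (nat_lit 4) (nat_lit 418) (nat_lit 331) (nat_lit 271)) (XT.nd (nat_lit 78) (nat_lit 228) (nat_lit 0) (XT.lf (nat_lit 0) (nat_lit 2067741233) (nat_lit 152) (nat_lit 2370105438) (nat_lit 0) (nat_lit 2067741233) (nat_lit 34) (nat_lit 5) (nat_lit 36) (nat_lit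 4) (nat_lit 34) (nat_lit 4) (nat_lit 356) (nat_lit 332) (nat_lit 332)) (XT.lf (nat_lit 0) (nat_lit 1877224164) (nat_lit 152) (nat_lit 10914570773) (nat_lit 0) (nat_lit 1201560721) (nat_lit 31) (nat_lit 5) (nat_lit 33) (nat_lit 4) (nat_lit 31) (nat_lit 4) (nat_lit 357) (nat_lit 332) (nat_lit 331))))))))
noncomputable def xc29 : XT := (XT.nd (nat_lit 1326) (nat_lit 304) (nat_lit 0) (XT.nd (nat_lit 624) (nat_lit 684) (nat_lit 0) (XT.nd (nat_lit 312) (nat_lit 532) (nat_lit 0) (XT.nd (nat_lit 156) (nat_lit 304) (nat_lit 0) (XT.nd (nat_lit 78) (nat_lit 228) (nat_lit 0) (XT.lf (nat_lit 0) (nat_lit 11245306492) (nat_lit 76) (nat_lit 2557778970) (nat_lit 76) (nat_lit 1294582098) (nat_lit 30) (nat_lit 4) (nat_lit 31) (nat_lit 5) (nat_lit 31) (nat_lit 4) (nat_lit 358) (nat_lit 332) (nat_lit 330)) (XT.lf (nat_lit 0) (nat_lit 3300080214) (nat_lit 76) (nat_lit 7342420796) (nat_lit 76) (nat_lit 5699739771)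 (nat_lit 27) (nat_lit 4) (nat_lit 28) (nat_lit 5) (nat_lit 28) (nat_lit 4) (nat_lit 359) (nat_lit 332) (nat_lit 329))) (XT.nd (nat_lit 78) (nat_lit 152) (nat_lit 0) (XT.lf (nat_lit 0) (nat_lit 6268425684) (nat_lit 152) (nat_lit 7117587737) (nat_lit 0) (nat_lit 4366543664) (nat_lit 25) (nat_lit 5) (nat_lit 27) (nat_lit 4) (nat_lit 25) (nat_lit 4) (nat_lit 360) (nat_lit 332) (nat_lit 328)) (XT.lf (nat_lit 0) (nat_lit 359283757) (nat_lit 152) (nat_lit 1485772736) (nat_lit 76) (nat_lit 17513400043) (nat_lit 23) (nat_lit 5) (nat_lit 25) (nat_lit 5) (nat_lit 24) (nat_lit 4) (nat_lit 361) (nat_lit 332) (nat_lit 327)))) (XT.nd (nat_lit 156) (nat_lit 228) (nat_lit 0) (XT.nd (nat_lit 78) (nat_lit 152) (nat_lit 0) (XT.lf (nat_lit 0) (nat_lit 3655576460) (nat_lit 76) (nat_lit 9919072820) (nat_lit 76) (nat_lit 7584736003) (nat_lit 21) (nat_lit 4) (nat_lit 22) (nat_lit 5) (nat_lit 22) (nat_lit 4) (nat_lit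 362) (nat_lit 332) (nat_lit 326)) (XT.lf (nat_lit 0) (nat_lit 5328439827) (nat_lit 152) (nat_lit 14933971697) (nat_lit 0) (nat_lit 2952308784) (nat_lit 19) (nat_lit 5) (nat_lit 21) (nat_lit 4) (nat_lit 19) (nat_lit 4) (nat_lit 363) (nat_lit 332) (nat_lit 325))) (XT.nd (nat_lit 78) (nat_lit 152) (nat_lit 0) (XT.lf (nat_lit 0) (nat_lit 11791102138) (nat_lit 76) (nat_lit 8158378338) (nat_lit 76) (nat_lit 5595544629) (nat_lit 18) (nat_lit 4) (nat_lit 19) (nat_lit 5) (nat_lit 19) (nat_lit 4) (nat_lit 364) (nat_lit 332) (nat_lit 324)) (XT.lf (nat_lit 0) (nat_lit 8221480803) (nat_lit 152) (nat_lit 14280041237) (nat_lit 0) (nat_lit 5698162421) (nat_lit 16) (nat_lit 5) (nat_lit 18) (nat_lit 4) (nat_lit 16) (nat_lit 4) (nat_lit 365) (nat_lit 332) (nat_lit 323))))) (XT.nd (nat_lit 312) (nat_lit 380) (nat_lit 0) (XT.nd (nat_lit 156) (nat_lit 76) (nat_lit 0) (XT.nd (nat_lit 78) (nat_lit 152) (nat_lit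 0) (XT.lf (nat_lit 0) (nat_lit 14119119868) (nat_lit 76) (nat_lit 9879183158) (nat_lit 76) (nat_lit 7225148074) (nat_lit 15) (nat_lit 4) (nat_lit 16) (nat_lit 5) (nat_lit 16) (nat_lit 4) (nat_lit 366) (nat_lit 332) (nat_lit 322)) (XT.lf (nat_lit 0) (nat_lit 7179531198) (nat_lit 152) (nat_lit 22881236366) (nat_lit 0) (nat_lit 4616844364) (nat_lit 13) (nat_lit 5) (nat_lit 15) (nat_lit 4) (nat_lit 13) (nat_lit 4) (nat_lit 367) (nat_lit 332) (nat_lit 321))) (XT.nd (nat_lit 78) (nat_lit 0) (nat_lit 0) (XT.lf (nat_lit 0) (nat_lit 5894569654) (nat_lit 76) (nat_lit 17686700387) (nat_lit 76) (nat_lit 15032494473) (nat_lit 12) (nat_lit 4) (nat_lit 13) (nat_lit 5) (nat_lit 13) (nat_lit 4) (nat_lit 368) (nat_lit 332) (nat_lit 320)) (XT.lf (nat_lit 0) (nat_lit 39116297744) (nat_lit 76) (nat_lit 3376923152) (nat_lit 76) (nat_lit 643135430) (nat_lit 12) (nat_lit 4) (nat_lit 13) (nat_lit 5) (nat_lit 13)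 (nat_lit 4) (nat_lit 369) (nat_lit 332) (nat_lit 319)))) (XT.nd (nat_lit 156) (nat_lit 152) (nat_lit 0) (XT.nd (nat_lit 78) (nat_lit 76) (nat_lit 0) (XT.lf (nat_lit 0) (nat_lit 15583772593) (nat_lit 152) (nat_lit 19696580937) (nat_lit 0) (nat_lit 12988412134) (nat_lit 10) (nat_lit 5) (nat_lit 12) (nat_lit 4) (nat_lit 10) (nat_lit 4) (nat_lit 370) (nat_lit 332) (nat_lit 318)) (XT.lf (nat_lit 0) (nat_lit 11544380829) (nat_lit 76) (nat_lit 22639128182) (nat_lit 76) (nat_lit 19988049871) (nat_lit 9) (nat_lit 4) (nat_lit 10) (nat_lit 5) (nat_lit 10) (nat_lit 4) (nat_lit 371) (nat_lit 332) (nat_lit 317))) (XT.nd (nat_lit 78) (nat_lit 152) (nat_lit 0) (XT.lf (nat_lit 0) (nat_lit 47699536630) (nat_lit 76) (nat_lit 7975800086) (nat_lit 76) (nat_lit 5276271468) (nat_lit 9) (nat_lit 4) (nat_lit 10) (nat_lit 5) (nat_lit 10) (nat_lit 4) (nat_lit 372) (nat_lit 332) (nat_lit 316)) (XT.nd (nat_lit 78) (nat_lit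 0) (nat_lit 0) (XT.lf (nat_lit 0) (nat_lit 11353392735) (nat_lit 152) (nat_lit 48534578176) (nat_lit 0) (nat_lit 8814819291) (nat_lit 7) (nat_lit 5) (nat_lit 9) (nat_lit 4) (nat_lit 7) (nat_lit 4) (nat_lit 373) (nat_lit 332) (nat_lit 315)) (XT.lf (nat_lit 0) (nat_lit 30396103484) (nat_lit 152) (nat_lit 19367498390) (nat_lit 0) (nat_lit 27823608381) (nat_lit 7) (nat_lit 5) (nat_lit 9) (nat_lit 4) (nat_lit 7) (nat_lit 4) (nat_lit 374) (nat_lit 332) (nat_lit 314))))))) (XT.nd (nat_lit 624) (nat_lit 0) (nat_lit 0) (XT.nd (nat_lit 312) (nat_lit 76) (nat_lit 0) (XT.nd (nat_lit 156) (nat_lit 152) (nat_lit 0) (XT.nd (nat_lit 78) (nat_lit 0) (nat_lit 0) (XT.lf (nat_lit 0) (nat_lit 14180334186) (nat_lit 76) (nat_lit 38113051378) (nat_lit 76) (nat_lit 35511059180) (nat_lit 6) (nat_lit 4) (nat_lit 7) (nat_lit 5) (nat_lit 7) (nat_lit 4) (nat_lit 375) (nat_lit 332) (nat_lit 313)) (XT.lf (nat_lit 0) (nat_lit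 53289073489) (nat_lit 76) (nat_lit 24436409466) (nat_lit 76) (nat_lit 21808767619) (nat_lit 6) (nat_lit 4) (nat_lit 7) (nat_lit 5) (nat_lit 7) (nat_lit 4) (nat_lit 376) (nat_lit 332) (nat_lit 312))) (XT.nd (nat_lit 78) (nat_lit 152) (nat_lit 0) (XT.lf (nat_lit 0) (nat_lit 97704032363) (nat_lit 76) (nat_lit 8995631392) (nat_lit 76) (nat_lit 6345685504) (nat_lit 6) (nat_lit 4) (nat_lit 7) (nat_lit 5) (nat_lit 7) (nat_lit 4) (nat_lit 377) (nat_lit 332) (nat_lit 311)) (XT.lf (nat_lit 0) (nat_lit 11337602956) (nat_lit 152) (nat_lit 108319687905) (nat_lit 0) (nat_lit 8865991190) (nat_lit 4) (nat_lit 5) (nat_lit 6) (nat_lit 4) (nat_lit 4) (nat_lit 4) (nat_lit 378) (nat_lit 332) (nat_lit 310)))) (XT.nd (nat_lit 156) (nat_lit 76) (nat_lit 0) (XT.nd (nat_lit 78) (nat_lit 0) (nat_lit 0) (XT.lf (nat_lit 0) (nat_lit 31787138822) (nat_lit 152) (nat_lit 85183512117) (nat_lit 0) (nat_lit 29299911259) (nat_lit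 4) (nat_lit 5) (nat_lit 6) (nat_lit 4) (nat_lit 4) (nat_lit 4) (nat_lit 379) (nat_lit 332) (nat_lit 309)) (XT.lf (nat_lit 0) (nat_lit 55105637682) (nat_lit 152) (nat_lit 58985345033) (nat_lit 0) (nat_lit 52604831166) (nat_lit 4) (nat_lit 5) (nat_lit 6) (nat_lit 4) (nat_lit 4) (nat_lit 4) (nat_lit 380) (nat_lit 332) (nat_lit 308))) (XT.nd (nat_lit 78) (nat_lit 76) (nat_lit 0) (XT.lf (nat_lit 0) (nat_lit 81749331035) (nat_lit 152) (nat_lit 29212613817) (nat_lit 0) (nat_lit 79236716734) (nat_lit 4) (nat_lit 5) (nat_lit 6) (nat_lit 4) (nat_lit 4) (nat_lit 4) (nat_lit 381) (nat_lit 332) (nat_lit 307)) (XT.lf (nat_lit 0) (nat_lit 4965590432) (nat_lit 76) (nat_lit 107393340671) (nat_lit 76) (nat_lit 104870458730) (nat_lit 3) (nat_lit 4) (nat_lit 4) (nat_lit 5) (nat_lit 4) (nat_lit 4) (nat_lit 382) (nat_lit 332) (nat_lit 306))))) (XT.nd (nat_lit 312) (nat_lit 0) (nat_lit 0) (XT.nd (nat_lit 156) (nat_lit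 0) (nat_lit 0) (XT.nd (nat_lit 78) (nat_lit 0) (nat_lit 0) (XT.lf (nat_lit 0) (nat_lit 45756858266) (nat_lit 76) (nat_lit 102516312405) (nat_lit 76) (nat_lit 99984502082) (nat_lit 3) (nat_lit 4) (nat_lit 4) (nat_lit 5) (nat_lit 4) (nat_lit 4) (nat_lit 383) (nat_lit 332) (nat_lit 305)) (XT.lf (nat_lit 0) (nat_lit 92420995235) (nat_lit 76) (nat_lit 97034164566) (nat_lit 76) (nat_lit 94494590433) (nat_lit 3) (nat_lit 4) (nat_lit 4) (nat_lit 5) (nat_lit 4) (nat_lit 4) (nat_lit 384) (nat_lit 332) (nat_lit 304))) (XT.nd (nat_lit 78) (nat_lit 0) (nat_lit 0) (XT.lf (nat_lit 0) (nat_lit 145870995320) (nat_lit 76) (nat_lit 90839637742) (nat_lit 76) (nat_lit 88293312469) (nat_lit 3) (nat_lit 4) (nat_lit 4) (nat_lit 5) (nat_lit 4) (nat_lit 4) (nat_lit 385) (nat_lit 332) (nat_lit 303)) (XT.lf (nat_lit 0) (nat_lit 207152619395) (nat_lit 76) (nat_lit 83811534667) (nat_lit 76) (nat_lit 81259338837) (nat_lit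 3) (nat_lit 4) (nat_lit 4) (nat_lit 5) (nat_lit 4) (nat_lit 4) (nat_lit 386) (nat_lit 332) (nat_lit 302)))) (XT.nd (nat_lit 156) (nat_lit 0) (nat_lit 0) (XT.nd (nat_lit 78) (nat_lit 0) (nat_lit 0) (XT.lf (nat_lit 0) (nat_lit 277464855756) (nat_lit 76) (nat_lit 75812348977) (nat_lit 76) (nat_lit 73255048316) (nat_lit 3) (nat_lit 4) (nat_lit 4) (nat_lit 5) (nat_lit 4) (nat_lit 4) (nat_lit 387) (nat_lit 332) (nat_lit 301)) (XT.lf (nat_lit 0) (nat_lit 358183378592) (nat_lit 76) (nat_lit 66685574865) (nat_lit 76) (nat_lit 64123835220) (nat_lit 3) (nat_lit 4) (nat_lit 4) (nat_lit 5) (nat_lit 4) (nat_lit 4) (nat_lit 388) (nat_lit 332) (nat_lit 300))) (XT.nd (nat_lit 78) (nat_lit 0) (nat_lit 0) (XT.lf (nat_lit 0) (nat_lit 450887463351) (nat_lit 76) (nat_lit 56252645012) (nat_lit 76) (nat_lit 53687045381) (nat_lit 3) (nat_lit 4) (nat_lit 4) (nat_lit 5) (nat_lit 4) (nat_lit 4) (nat_lit 389) (nat_lit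 332) (nat_lit 299)) (XT.nd (nat_lit 78) (nat_lit 0) (nat_lit 0) (XT.lf (nat_lit 0) (nat_lit 557390885603) (nat_lit 76) (nat_lit 44309436877) (nat_lit 76) (nat_lit 41740480736) (nat_lit 3) (nat_lit 4) (nat_lit 4) (nat_lit 5) (nat_lit 4) (nat_lit 4) (nat_lit 390) (nat_lit 332) (nat_lit 298)) (XT.lf (nat_lit 0) (nat_lit 679777407959) (nat_lit 76) (nat_lit 30622278996) (nat_lit 76) (nat_lit 28050404152) (nat_lit 3) (nat_lit 4) (nat_lit 4) (nat_lit 5) (nat_lit 4) (nat_lit 4) (nat_lit 391) (nat_lit 332) (nat_lit 297))))))))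
noncomputable def xc30 : XT := (XT.nd (nat_lit 1326) (nat_lit 0) (nat_lit 0) (XT.nd (nat_lit 624) (nat_lit 0) (nat_lit 0) (XT.nd (nat_lit 312) (nat_lit 0) (nat_lit 0) (XT.nd (nat_lit 156) (nat_lit 0) (nat_lit 0) (XT.nd (nat_lit 78) (nat_lit 152) (nat_lit 0) (XT.lf (nat_lit 0) (nat_lit 820441549333) (nat_lit 76) (nat_lit 14923379150) (nat_lit 76) (nat_lit 12348966303) (nat_lit 3) (nat_lit 4) (nat_lit 4) (nat_lit 5) (nat_lit 4) (nat_lit 4) (nat_lit 392) (nat_lit 332) (nat_lit 296)) (XT.lf (nat_lit 0) (nat_lit 5689441503) (nat_lit 152) (nat_lit 964341781737) (nat_lit 0) (nat_lit 3303682422) (nat_lit 1) (nat_lit 5) (nat_lit 3) (nat_lit 4) (nat_lit 1) (nat_lit 4) (nat_lit 393) (nat_lit 332) (nat_lit 295))) (XT.nd (nat_lit 78) (nat_lit 0) (nat_lit 0) (XT.lf (nat_lit 0) (nat_lit 26917907151) (nat_lit 152) (nat_lit 1066227890516) (nat_lit 0) (nat_lit 24530371130) (nat_lit 1) (nat_lit 5) (nat_lit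 3) (nat_lit 4) (nat_lit 1) (nat_lit 4) (nat_lit 394) (nat_lit 332) (nat_lit 294)) (XT.lf (nat_lit 0) (nat_lit 51302235255) (nat_lit 152) (nat_lit 1183455504908) (nat_lit 0) (nat_lit 48913154069) (nat_lit 1) (nat_lit 5) (nat_lit 3) (nat_lit 4) (nat_lit 1) (nat_lit 4) (nat_lit 395) (nat_lit 332) (nat_lit 293)))) (XT.nd (nat_lit 156) (nat_lit 0) (nat_lit 0) (XT.nd (nat_lit 78) (nat_lit 0) (nat_lit 0) (XT.lf (nat_lit 0) (nat_lit 79319510497) (nat_lit 152) (nat_lit 1318318208675) (nat_lit 0) (nat_lit 76929085689) (nat_lit 1) (nat_lit 5) (nat_lit 3) (nat_lit 4) (nat_lit 1) (nat_lit 4) (nat_lit 396) (nat_lit 332) (nat_lit 292)) (XT.lf (nat_lit 0) (nat_lit 111517896957) (nat_lit 152) (nat_lit 1473454619931) (nat_lit 0) (nat_lit 109126303782) (nat_lit 1) (nat_lit 5) (nat_lit 3) (nat_lit 4) (nat_lit 1) (nat_lit 4) (nat_lit 397) (nat_lit 332) (nat_lit 291))) (XT.nd (nat_lit 78) (nat_lit 0) (nat_lit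 0) (XT.lf (nat_lit 0) (nat_lit 148527363066) (nat_lit 152) (nat_lit 1651900016290) (nat_lit 0) (nat_lit 146134753920) (nat_lit 1) (nat_lit 5) (nat_lit 3) (nat_lit 4) (nat_lit 1) (nat_lit 4) (nat_lit 398) (nat_lit 332) (nat_lit 290)) (XT.lf (nat_lit 0) (nat_lit 191072007074) (nat_lit 152) (nat_lit 1857145720723) (nat_lit 0) (nat_lit 188678514474) (nat_lit 1) (nat_lit 5) (nat_lit 3) (nat_lit 4) (nat_lit 1) (nat_lit 4) (nat_lit 399) (nat_lit 332) (nat_lit 289))))) (XT.nd (nat_lit 312) (nat_lit 0) (nat_lit 0) (XT.nd (nat_lit 156) (nat_lit 0) (nat_lit 0) (XT.nd (nat_lit 78) (nat_lit 0) (nat_lit 0) (XT.lf (nat_lit 0) (nat_lit 239984224189) (nat_lit 152) (nat_lit 2093207410057) (nat_lit 0) (nat_lit 237589963370) (nat_lit 1) (nat_lit 5) (nat_lit 3) (nat_lit 4) (nat_lit 1) (nat_lit 4) (nat_lit 400) (nat_lit 332) (nat_lit 288)) (XT.lf (nat_lit 0) (nat_lit 296220992574) (nat_lit 152) (nat_lit 2364703682560)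 (nat_lit 0) (nat_lit 293826063736) (nat_lit 1) (nat_lit 5) (nat_lit 3) (nat_lit 4) (nat_lit 1) (nat_lit 4) (nat_lit 401) (nat_lit 332) (nat_lit 287))) (XT.nd (nat_lit 78) (nat_lit 0) (nat_lit 0) (XT.lf (nat_lit 0) (nat_lit 360882596826) (nat_lit 152) (nat_lit 2676946421826) (nat_lit 0) (nat_lit 358487087103) (nat_lit 1) (nat_lit 5) (nat_lit 3) (nat_lit 4) (nat_lit 1) (nat_lit 4) (nat_lit 402) (nat_lit 332) (nat_lit 286)) (XT.lf (nat_lit 0) (nat_lit 435234155289) (nat_lit 152) (nat_lit 3036044724927) (nat_lit 0) (nat_lit 432838140450) (nat_lit 1) (nat_lit 5) (nat_lit 3) (nat_lit 4) (nat_lit 1) (nat_lit 4) (nat_lit 403) (nat_lit 332) (nat_lit 285)))) (XT.nd (nat_lit 156) (nat_lit 0) (nat_lit 0) (XT.nd (nat_lit 78) (nat_lit 0) (nat_lit 0) (XT.lf (nat_lit 0) (nat_lit 520730372369) (nat_lit 152) (nat_lit 3449024428228) (nat_lit 0) (nat_lit 518333918297) (nat_lit 1) (nat_lit 5) (nat_lit 3) (nat_lit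 4) (nat_lit 1) (nat_lit 4) (nat_lit 404) (nat_lit 332) (nat_lit 284)) (XT.lf (nat_lit 0) (nat_lit 619044000138) (nat_lit 152) (nat_lit 3923965569401) (nat_lit 0) (nat_lit 616647164125) (nat_lit 1) (nat_lit 5) (nat_lit 3) (nat_lit 4) (nat_lit 1) (nat_lit 4) (nat_lit 405) (nat_lit 332) (nat_lit 283))) (XT.nd (nat_lit 78) (nat_lit 0) (nat_lit 0) (XT.lf (nat_lit 0) (nat_lit 732098566097) (nat_lit 152) (nat_lit 4470160475124) (nat_lit 0) (nat_lit 729701397961) (nat_lit 1) (nat_lit 5) (nat_lit 3) (nat_lit 4) (nat_lit 1) (nat_lit 4) (nat_lit 406) (nat_lit 332) (nat_lit 282)) (XT.nd (nat_lit 78) (nat_lit 0) (nat_lit 0) (XT.lf (nat_lit 0) (nat_lit 862106007406) (nat_lit 152) (nat_lit 5098295567463) (nat_lit 0) (nat_lit 859708550467) (nat_lit 1) (nat_lit 5) (nat_lit 3) (nat_lit 4) (nat_lit 1) (nat_lit 4) (nat_lit 407) (nat_lit 332) (nat_lit 281)) (XT.lf (nat_lit 0) (nat_lit 1011609947915) (nat_lit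 152) (nat_lit 5820660446051) (nat_lit 0) (nat_lit 1009212239844) (nat_lit 1) (nat_lit 5) (nat_lit 3) (nat_lit 4) (nat_lit 1) (nat_lit 4) (nat_lit 408) (nat_lit 332) (nat_lit 280))))))) (XT.nd (nat_lit 624) (nat_lit 0) (nat_lit 0) (XT.nd (nat_lit 312) (nat_lit 0) (nat_lit 0) (XT.nd (nat_lit 156) (nat_lit 0) (nat_lit 0) (XT.nd (nat_lit 78) (nat_lit 0) (nat_lit 0) (XT.lf (nat_lit 0) (nat_lit 1183535464723) (nat_lit 152) (nat_lit 6651388336775) (nat_lit 0) (nat_lit 1181137538276) (nat_lit 1) (nat_lit 5) (nat_lit 3) (nat_lit 4) (nat_lit 1) (nat_lit 4) (nat_lit 409) (nat_lit 332) (nat_lit 279)) (XT.lf (nat_lit 0) (nat_lit 1381246317940) (nat_lit 152) (nat_lit 7606732611408) (nat_lit 0) (nat_lit 1378848201601) (nat_lit 1) (nat_lit 5) (nat_lit 3) (nat_lit 4) (nat_lit 1) (nat_lit 4) (nat_lit 410) (nat_lit 332) (nat_lit 278))) (XT.nd (nat_lit 78) (nat_lit 0) (nat_lit 0) (XT.lf (nat_lit 0) (nat_lit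 1608610763391) (nat_lit 152) (nat_lit 8705384788369) (nat_lit 0) (nat_lit 1606212481928) (nat_lit 1) (nat_lit 5) (nat_lit 3) (nat_lit 4) (nat_lit 1) (nat_lit 4) (nat_lit 411) (nat_lit 332) (nat_lit 277)) (XT.lf (nat_lit 0) (nat_lit 1870077235878) (nat_lit 152) (nat_lit 9968840236335) (nat_lit 0) (nat_lit 1867678810829) (nat_lit 1) (nat_lit 5) (nat_lit 3) (nat_lit 4) (nat_lit 1) (nat_lit 4) (nat_lit 412) (nat_lit 332) (nat_lit 276)))) (XT.nd (nat_lit 156) (nat_lit 0) (nat_lit 0) (XT.nd (nat_lit 78) (nat_lit 0) (nat_lit 0) (XT.lf (nat_lit 0) (nat_lit 2170761383774) (nat_lit 152) (nat_lit 11421818735812) (nat_lit 0) (nat_lit 2168362833868) (nat_lit 1) (nat_lit 5) (nat_lit 3) (nat_lit 4) (nat_lit 1) (nat_lit 4) (nat_lit 413) (nat_lit 332) (nat_lit 275)) (XT.lf (nat_lit 0) (nat_lit 2516546157801) (nat_lit 152) (nat_lit 13092748127006) (nat_lit 0) (nat_lit 2514147499324) (nat_lit 1) (nat_lit 5)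 (nat_lit 3) (nat_lit 4) (nat_lit 1) (nat_lit 4) (nat_lit 414) (nat_lit 332) (nat_lit 274))) (XT.nd (nat_lit 78) (nat_lit 0) (nat_lit 0) (XT.lf (nat_lit 0) (nat_lit 2914196912233) (nat_lit 152) (nat_lit 15014320506702) (nat_lit 0) (nat_lit 2911798159345) (nat_lit 1) (nat_lit 5) (nat_lit 3) (nat_lit 4) (nat_lit 1) (nat_lit 4) (nat_lit 415) (nat_lit 332) (nat_lit 273)) (XT.lf (nat_lit 0) (nat_lit 3371493770526) (nat_lit 152) (nat_lit 17224131856241) (nat_lit 0) (nat_lit 3369094935542) (nat_lit 1) (nat_lit 5) (nat_lit 3) (nat_lit 4) (nat_lit 1) (nat_lit 4) (nat_lit 416) (nat_lit 332) (nat_lit 272))))) (XT.nd (nat_lit 48360) (nat_lit 0) (nat_lit 1824) (XT.nd (nat_lit 48204) (nat_lit 0) (nat_lit 2812) (XT.nd (nat_lit 78) (nat_lit 0) (nat_lit 0) (XT.lf (nat_lit 0) (nat_lit 3897383845124) (nat_lit 152) (nat_lit 19765417615070) (nat_lit 0) (nat_lit 3894984938753) (nat_lit 1) (nat_lit 5) (nat_lit 3)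 (nat_lit 4) (nat_lit 1) (nat_lit 4) (nat_lit 417) (nat_lit 332) (nat_lit 271)) (XT.lf (nat_lit 0) (nat_lit 4502156289661) (nat_lit 152) (nat_lit 22687898591516) (nat_lit 0) (nat_lit 4499757321214) (nat_lit 1) (nat_lit 5) (nat_lit 3) (nat_lit 4) (nat_lit 1) (nat_lit 4) (nat_lit 418) (nat_lit 332) (nat_lit 270))) (XT.nd (nat_lit 78) (nat_lit 152) (nat_lit 0) (XT.lf (nat_lit 0) (nat_lit 2236791544) (nat_lit 152) (nat_lit 1717266541) (nat_lit 152) (nat_lit 1717266541) (nat_lit 40) (nat_lit 4) (nat_lit 42) (nat_lit 5) (nat_lit 42) (nat_lit 4) (nat_lit 354) (nat_lit 333) (nat_lit 333)) (XT.lf (nat_lit 0) (nat_lit 6487017881) (nat_lit 152) (nat_lit 79957072) (nat_lit 0) (nat_lit 5580709965) (nat_lit 38) (nat_lit 5) (nat_lit 40) (nat_lit 4) (nat_lit 38) (nat_lit 4) (nat_lit 355) (nat_lit 333) (nat_lit 332)))) (XT.nd (nat_lit 156) (nat_lit 456) (nat_lit 0) (XT.nd (nat_lit 78) (nat_lit 228) (nat_lit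 0) (XT.lf (nat_lit 0) (nat_lit 4449883143) (nat_lit 152) (nat_lit 5722334920) (nat_lit 0) (nat_lit 2880992627) (nat_lit 34) (nat_lit 5) (nat_lit 36) (nat_lit 4) (nat_lit 34) (nat_lit 4) (nat_lit 356) (nat_lit 333) (nat_lit 331)) (XT.lf (nat_lit 0) (nat_lit 997238753) (nat_lit 76) (nat_lit 541542675) (nat_lit 152) (nat_lit 12543902461) (nat_lit 31) (nat_lit 5) (nat_lit 32) (nat_lit 5) (nat_lit 33) (nat_lit 4) (nat_lit 357) (nat_lit 333) (nat_lit 330))) (XT.nd (nat_lit 78) (nat_lit 380) (nat_lit 0) (XT.lf (nat_lit 0) (nat_lit 8055130475) (nat_lit 76) (nat_lit 4863351867) (nat_lit 76) (nat_lit 2312243400) (nat_lit 30) (nat_lit 4) (nat_lit 31) (nat_lit 5) (nat_lit 31) (nat_lit 4) (nat_lit 358) (nat_lit 333) (nat_lit 329)) (XT.nd (nat_lit 78) (nat_lit 228) (nat_lit 0) (XT.lf (nat_lit 0) (nat_lit 8996860967) (nat_lit 152) (nat_lit 1311364826) (nat_lit 0) (nat_lit 6223371941) (nat_lit 28) (nat_lit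 5) (nat_lit 30) (nat_lit 4) (nat_lit 28) (nat_lit 4) (nat_lit 359) (nat_lit 333) (nat_lit 328)) (XT.lf (nat_lit 0) (nat_lit 3832293869) (nat_lit 152) (nat_lit 13235561530) (nat_lit 0) (nat_lit 933047543) (nat_lit 25) (nat_lit 5) (nat_lit 27) (nat_lit 4) (nat_lit 25) (nat_lit 4) (nat_lit 360) (nat_lit 333) (nat_lit 327))))))))
noncomputable def xc31 : XT := (XT.nd (nat_lit 1326) (nat_lit 380) (nat_lit 0) (XT.nd (nat_lit 624) (nat_lit 532) (nat_lit 0) (XT.nd (nat_lit 312) (nat_lit 456) (nat_lit 0) (XT.nd (nat_lit 156) (nat_lit 228) (nat_lit 0) (XT.nd (nat_lit 78) (nat_lit 152) (nat_lit 0) (XT.lf (nat_lit 0) (nat_lit 10611787241) (nat_lit 76) (nat_lit 6114504004) (nat_lit 76) (nat_lit 2927256867) (nat_lit 24) (nat_lit 4) (nat_lit 25) (nat_lit 5) (nat_lit 25) (nat_lit 4) (nat_lit 361) (nat_lit 333) (nat_lit 326)) (XT.lf (nat_lit 0) (nat_lit 9644790250) (nat_lit 152) (nat_lit 5416764851) (nat_lit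 0) (nat_lit 6461750785) (nat_lit 22) (nat_lit 5) (nat_lit 24) (nat_lit 4) (nat_lit 22) (nat_lit 4) (nat_lit 362) (nat_lit 333) (nat_lit 325))) (XT.nd (nat_lit 78) (nat_lit 76) (nat_lit 0) (XT.lf (nat_lit 0) (nat_lit 455321868) (nat_lit 152) (nat_lit 2437608858) (nat_lit 76) (nat_lit 20757515437) (nat_lit 20) (nat_lit 5) (nat_lit 22) (nat_lit 5) (nat_lit 21) (nat_lit 4) (nat_lit 363) (nat_lit 333) (nat_lit 324)) (XT.lf (nat_lit 0) (nat_lit 14306596829) (nat_lit 152) (nat_lit 725461926) (nat_lit 0) (nat_lit 11010285255) (nat_lit 19) (nat_lit 5) (nat_lit 21) (nat_lit 4) (nat_lit 19) (nat_lit 4) (nat_lit 364) (nat_lit 333) (nat_lit 323)))) (XT.nd (nat_lit 156) (nat_lit 228) (nat_lit 0) (XT.nd (nat_lit 78) (nat_lit 76) (nat_lit 0) (XT.lf (nat_lit 0) (nat_lit 1555566307) (nat_lit 152) (nat_lit 201907691) (nat_lit 76) (nat_lit 27017982205) (nat_lit 17) (nat_lit 5) (nat_lit 19) (nat_lit 5) (nat_lit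 18) (nat_lit 4) (nat_lit 365) (nat_lit 333) (nat_lit 322)) (XT.lf (nat_lit 0) (nat_lit 16635141575) (nat_lit 152) (nat_lit 1881251453) (nat_lit 0) (nat_lit 13338617830) (nat_lit 16) (nat_lit 5) (nat_lit 18) (nat_lit 4) (nat_lit 16) (nat_lit 4) (nat_lit 366) (nat_lit 333) (nat_lit 321))) (XT.nd (nat_lit 78) (nat_lit 152) (nat_lit 0) (XT.lf (nat_lit 0) (nat_lit 29546977863) (nat_lit 76) (nat_lit 4615035894) (nat_lit 76) (nat_lit 1219671542) (nat_lit 15) (nat_lit 4) (nat_lit 16) (nat_lit 5) (nat_lit 16) (nat_lit 4) (nat_lit 367) (nat_lit 333) (nat_lit 320)) (XT.lf (nat_lit 0) (nat_lit 14566213590) (nat_lit 152) (nat_lit 13465350159) (nat_lit 0) (nat_lit 11342775900) (nat_lit 13) (nat_lit 5) (nat_lit 15) (nat_lit 4) (nat_lit 13) (nat_lit 4) (nat_lit 368) (nat_lit 333) (nat_lit 319))))) (XT.nd (nat_lit 312) (nat_lit 228) (nat_lit 0) (XT.nd (nat_lit 156) (nat_lit 76) (nat_lit 0) (XT.nd (nat_lit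 78) (nat_lit 152) (nat_lit 0) (XT.lf (nat_lit 0) (nat_lit 18539301491) (nat_lit 76) (nat_lit 14348741969) (nat_lit 76) (nat_lit 11056102706) (nat_lit 12) (nat_lit 4) (nat_lit 13) (nat_lit 5) (nat_lit 13) (nat_lit 4) (nat_lit 369) (nat_lit 333) (nat_lit 318)) (XT.lf (nat_lit 0) (nat_lit 4632694529) (nat_lit 152) (nat_lit 43020383741) (nat_lit 0) (nat_lit 1528236619) (nat_lit 10) (nat_lit 5) (nat_lit 12) (nat_lit 4) (nat_lit 10) (nat_lit 4) (nat_lit 370) (nat_lit 333) (nat_lit 317))) (XT.nd (nat_lit 78) (nat_lit 76) (nat_lit 0) (XT.lf (nat_lit 0) (nat_lit 22746363887) (nat_lit 152) (nat_lit 12783177433) (nat_lit 0) (nat_lit 19593455671) (nat_lit 10) (nat_lit 5) (nat_lit 12) (nat_lit 4) (nat_lit 10) (nat_lit 4) (nat_lit 371) (nat_lit 333) (nat_lit 316)) (XT.lf (nat_lit 0) (nat_lit 22308660805) (nat_lit 76) (nat_lit 21415283621) (nat_lit 76) (nat_lit 18220244703) (nat_lit 9) (nat_lit 4) (nat_lit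 10) (nat_lit 5) (nat_lit 10) (nat_lit 4) (nat_lit 372) (nat_lit 333) (nat_lit 315)))) (XT.nd (nat_lit 156) (nat_lit 76) (nat_lit 0) (XT.nd (nat_lit 78) (nat_lit 152) (nat_lit 0) (XT.lf (nat_lit 0) (nat_lit 62708921778) (nat_lit 76) (nat_lit 5155027674) (nat_lit 76) (nat_lit 1923353364) (nat_lit 9) (nat_lit 4) (nat_lit 10) (nat_lit 5) (nat_lit 10) (nat_lit 4) (nat_lit 373) (nat_lit 333) (nat_lit 314)) (XT.lf (nat_lit 0) (nat_lit 16748263062) (nat_lit 152) (nat_lit 48238072207) (nat_lit 0) (nat_lit 13726474938) (nat_lit 7) (nat_lit 5) (nat_lit 9) (nat_lit 4) (nat_lit 7) (nat_lit 4) (nat_lit 374) (nat_lit 333) (nat_lit 313))) (XT.nd (nat_lit 78) (nat_lit 76) (nat_lit 0) (XT.lf (nat_lit 0) (nat_lit 38165833282) (nat_lit 152) (nat_lit 15684194717) (nat_lit 0) (nat_lit 35118395510) (nat_lit 7) (nat_lit 5) (nat_lit 9) (nat_lit 4) (nat_lit 7) (nat_lit 4) (nat_lit 375) (nat_lit 333) (nat_lit 312))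 (XT.nd (nat_lit 78) (nat_lit 0) (nat_lit 0) (XT.lf (nat_lit 0) (nat_lit 22338135093) (nat_lit 76) (nat_lit 40735875638) (nat_lit 76) (nat_lit 37666133824) (nat_lit 6) (nat_lit 4) (nat_lit 7) (nat_lit 5) (nat_lit 7) (nat_lit 4) (nat_lit 376) (nat_lit 333) (nat_lit 311)) (XT.lf (nat_lit 0) (nat_lit 66526565625) (nat_lit 76) (nat_lit 25411320062) (nat_lit 76) (nat_lit 22322183430) (nat_lit 6) (nat_lit 4) (nat_lit 7) (nat_lit 5) (nat_lit 7) (nat_lit 4) (nat_lit 377) (nat_lit 333) (nat_lit 310))))))) (XT.nd (nat_lit 702) (nat_lit 152) (nat_lit 0) (XT.nd (nat_lit 312) (nat_lit 76) (nat_lit 0) (XT.nd (nat_lit 156) (nat_lit 0) (nat_lit 0) (XT.nd (nat_lit 78) (nat_lit 152) (nat_lit 0) (XT.lf (nat_lit 0) (nat_lit 116919751229) (nat_lit 76) (nat_lit 8005366689) (nat_lit 76) (nat_lit 4899364997) (nat_lit 6) (nat_lit 4) (nat_lit 7) (nat_lit 5) (nat_lit 7) (nat_lit 4) (nat_lit 378) (nat_lit 333) (nat_lit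 309)) (XT.lf (nat_lit 0) (nat_lit 15175229438) (nat_lit 152) (nat_lit 120169840207) (nat_lit 0) (nat_lit 12285722992) (nat_lit 4) (nat_lit 5) (nat_lit 6) (nat_lit 4) (nat_lit 4) (nat_lit 4) (nat_lit 379) (nat_lit 333) (nat_lit 308))) (XT.nd (nat_lit 78) (nat_lit 0) (nat_lit 0) (XT.lf (nat_lit 0) (nat_lit 38413458375) (nat_lit 152) (nat_lit 94136864253) (nat_lit 0) (nat_lit 35512144143) (nat_lit 4) (nat_lit 5) (nat_lit 6) (nat_lit 4) (nat_lit 4) (nat_lit 4) (nat_lit 380) (nat_lit 333) (nat_lit 307)) (XT.lf (nat_lit 0) (nat_lit 64987351794) (nat_lit 152) (nat_lit 64507777499) (nat_lit 0) (nat_lit 62075769923) (nat_lit 4) (nat_lit 5) (nat_lit 6) (nat_lit 4) (nat_lit 4) (nat_lit 4) (nat_lit 381) (nat_lit 333) (nat_lit 306)))) (XT.nd (nat_lit 156) (nat_lit 0) (nat_lit 0) (XT.nd (nat_lit 78) (nat_lit 76) (nat_lit 0) (XT.lf (nat_lit 0) (nat_lit 95416833699) (nat_lit 152) (nat_lit 30702880421) (nat_lit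 0) (nat_lit 92496323446) (nat_lit 4) (nat_lit 5) (nat_lit 6) (nat_lit 4) (nat_lit 4) (nat_lit 4) (nat_lit 382) (nat_lit 333) (nat_lit 305)) (XT.lf (nat_lit 0) (nat_lit 8357292772) (nat_lit 76) (nat_lit 122140963837) (nat_lit 76) (nat_lit 119212689773) (nat_lit 3) (nat_lit 4) (nat_lit 4) (nat_lit 5) (nat_lit 4) (nat_lit 4) (nat_lit 383) (nat_lit 333) (nat_lit 304))) (XT.nd (nat_lit 78) (nat_lit 0) (nat_lit 0) (XT.lf (nat_lit 0) (nat_lit 54922007681) (nat_lit 76) (nat_lit 116709952366) (nat_lit 76) (nat_lit 113774927163) (nat_lit 3) (nat_lit 4) (nat_lit 4) (nat_lit 5) (nat_lit 4) (nat_lit 4) (nat_lit 384) (nat_lit 333) (nat_lit 303)) (XT.nd (nat_lit 78) (nat_lit 0) (nat_lit 0) (XT.lf (nat_lit 0) (nat_lit 108285553802) (nat_lit 76) (nat_lit 110559891948) (nat_lit 76) (nat_lit 107618996188) (nat_lit 3) (nat_lit 4) (nat_lit 4) (nat_lit 5) (nat_lit 4) (nat_lit 4) (nat_lit 385) (nat_lit 333) (nat_lit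 302)) (XT.lf (nat_lit 0) (nat_lit 169492000516) (nat_lit 76) (nat_lit 103570455313) (nat_lit 76) (nat_lit 100624454722) (nat_lit 3) (nat_lit 4) (nat_lit 4) (nat_lit 5) (nat_lit 4) (nat_lit 4) (nat_lit 386) (nat_lit 333) (nat_lit 301)))))) (XT.nd (nat_lit 312) (nat_lit 152) (nat_lit 0) (XT.nd (nat_lit 156) (nat_lit 0) (nat_lit 0) (XT.nd (nat_lit 78) (nat_lit 0) (nat_lit 0) (XT.lf (nat_lit 0) (nat_lit 239738865259) (nat_lit 76) (nat_lit 95604892615) (nat_lit 76) (nat_lit 92654453039) (nat_lit 3) (nat_lit 4) (nat_lit 4) (nat_lit 5) (nat_lit 4) (nat_lit 4) (nat_lit 387) (nat_lit 333) (nat_lit 300)) (XT.lf (nat_lit 0) (nat_lit 320400543210) (nat_lit 76) (nat_lit 86507355887) (nat_lit 76) (nat_lit 83553056325) (nat_lit 3) (nat_lit 4) (nat_lit 4) (nat_lit 5) (nat_lit 4) (nat_lit 4) (nat_lit 388) (nat_lit 333) (nat_lit 299))) (XT.nd (nat_lit 78) (nat_lit 0) (nat_lit 0) (XT.lf (nat_lit 0) (nat_lit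 413055197633) (nat_lit 76) (nat_lit 76099849846) (nat_lit 76) (nat_lit 73142193775) (nat_lit 3) (nat_lit 4) (nat_lit 4) (nat_lit 5) (nat_lit 4) (nat_lit 4) (nat_lit 389) (nat_lit 333) (nat_lit 298)) (XT.lf (nat_lit 0) (nat_lit 519515636986) (nat_lit 76) (nat_lit 64178749373) (nat_lit 76) (nat_lit 61218174598) (nat_lit 3) (nat_lit 4) (nat_lit 4) (nat_lit 5) (nat_lit 4) (nat_lit 4) (nat_lit 390) (nat_lit 333) (nat_lit 297)))) (XT.nd (nat_lit 156) (nat_lit 152) (nat_lit 0) (XT.nd (nat_lit 78) (nat_lit 0) (nat_lit 0) (XT.lf (nat_lit 0) (nat_lit 641864782907) (nat_lit 76) (nat_lit 50510815547) (nat_lit 76) (nat_lit 47547702768) (nat_lit 3) (nat_lit 4) (nat_lit 4) (nat_lit 5) (nat_lit 4) (nat_lit 4) (nat_lit 391) (nat_lit 333) (nat_lit 296)) (XT.lf (nat_lit 0) (nat_lit 782496423034) (nat_lit 76) (nat_lit 34828632270) (nat_lit 76) (nat_lit 31863312532) (nat_lit 3) (nat_lit 4) (nat_lit 4) (nat_lit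 5) (nat_lit 4) (nat_lit 4) (nat_lit 392) (nat_lit 333) (nat_lit 295))) (XT.nd (nat_lit 78) (nat_lit 152) (nat_lit 0) (XT.lf (nat_lit 0) (nat_lit 944162045978) (nat_lit 76) (nat_lit 16825374219) (nat_lit 76) (nat_lit 13858135385) (nat_lit 3) (nat_lit 4) (nat_lit 4) (nat_lit 5) (nat_lit 4) (nat_lit 4) (nat_lit 393) (nat_lit 333) (nat_lit 294)) (XT.nd (nat_lit 78) (nat_lit 0) (nat_lit 0) (XT.lf (nat_lit 0) (nat_lit 6848732649) (nat_lit 152) (nat_lit 1108362192151) (nat_lit 0) (nat_lit 4099744120) (nat_lit 1) (nat_lit 5) (nat_lit 3) (nat_lit 4) (nat_lit 1) (nat_lit 4) (nat_lit 394) (nat_lit 333) (nat_lit 293)) (XT.lf (nat_lit 0) (nat_lit 31221571415) (nat_lit 152) (nat_lit 1225613502922) (nat_lit 0) (nat_lit 28471239264) (nat_lit 1) (nat_lit 5) (nat_lit 3) (nat_lit 4) (nat_lit 1) (nat_lit 4) (nat_lit 395) (nat_lit 333) (nat_lit 292))))))))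
noncomputable def xc32 : XT := (XT.nd (nat_lit 1326) (nat_lit 0) (nat_lit 0) (XT.nd (nat_lit 624) (nat_lit 0) (nat_lit 0) (XT.nd (nat_lit 312) (nat_lit 0) (nat_lit 0) (XT.nd (nat_lit 156) (nat_lit 0) (nat_lit 0) (XT.nd (nat_lit 78) (nat_lit 0) (nat_lit 0) (XT.lf (nat_lit 0) (nat_lit 59228855927) (nat_lit 152) (nat_lit 1360496812235) (nat_lit 0) (nat_lit 56477355409) (nat_lit 1) (nat_lit 5) (nat_lit 3) (nat_lit 4) (nat_lit 1) (nat_lit 4) (nat_lit 396) (nat_lit 333) (nat_lit 291)) (XT.lf (nat_lit 0) (nat_lit 91418554797) (nat_lit 152) (nat_lit 1515651141359) (nat_lit 0) (nat_lit 88666038307) (nat_lit 1) (nat_lit 5) (nat_lit 3) (nat_lit 4) (nat_lit 1) (nat_lit 4) (nat_lit 397) (nat_lit 333) (nat_lit 290))) (XT.nd (nat_lit 78) (nat_lit 0) (nat_lit 0) (XT.lf (nat_lit 0) (nat_lit 128420466479) (nat_lit 152) (nat_lit 1694112118471) (nat_lit 0) (nat_lit 125667066536) (nat_lit 1) (nat_lit 5) (nat_lit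 3) (nat_lit 4) (nat_lit 1) (nat_lit 4) (nat_lit 398) (nat_lit 333) (nat_lit 289)) (XT.lf (nat_lit 0) (nat_lit 170958541420) (nat_lit 152) (nat_lit 1899371371386) (nat_lit 0) (nat_lit 168204373257) (nat_lit 1) (nat_lit 5) (nat_lit 3) (nat_lit 4) (nat_lit 1) (nat_lit 4) (nat_lit 399) (nat_lit 333) (nat_lit 288)))) (XT.nd (nat_lit 156) (nat_lit 0) (nat_lit 0) (XT.nd (nat_lit 78) (nat_lit 0) (nat_lit 0) (XT.lf (nat_lit 0) (nat_lit 219865046304) (nat_lit 152) (nat_lit 2135444842008) (nat_lit 0) (nat_lit 217110210123) (nat_lit 1) (nat_lit 5) (nat_lit 3) (nat_lit 4) (nat_lit 1) (nat_lit 4) (nat_lit 400) (nat_lit 333) (nat_lit 287)) (XT.lf (nat_lit 0) (nat_lit 276096847530) (nat_lit 152) (nat_lit 2406951359110) (nat_lit 0) (nat_lit 273341430465) (nat_lit 1) (nat_lit 5) (nat_lit 3) (nat_lit 4) (nat_lit 1) (nat_lit 4) (nat_lit 401) (nat_lit 333) (nat_lit 286))) (XT.nd (nat_lit 78) (nat_lit 0) (nat_lit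 0) (XT.lf (nat_lit 0) (nat_lit 340754132514) (nat_lit 152) (nat_lit 2719203006722) (nat_lit 0) (nat_lit 337998210331) (nat_lit 1) (nat_lit 5) (nat_lit 3) (nat_lit 4) (nat_lit 1) (nat_lit 4) (nat_lit 402) (nat_lit 333) (nat_lit 285)) (XT.lf (nat_lit 0) (nat_lit 415101935092) (nat_lit 152) (nat_lit 3078309056211) (nat_lit 0) (nat_lit 412345573677) (nat_lit 1) (nat_lit 5) (nat_lit 3) (nat_lit 4) (nat_lit 1) (nat_lit 4) (nat_lit 403) (nat_lit 333) (nat_lit 284))))) (XT.nd (nat_lit 312) (nat_lit 0) (nat_lit 0) (XT.nd (nat_lit 156) (nat_lit 0) (nat_lit 0) (XT.nd (nat_lit 78) (nat_lit 0) (nat_lit 0) (XT.lf (nat_lit 0) (nat_lit 500594886185) (nat_lit 152) (nat_lit 3491295495502) (nat_lit 0) (nat_lit 497838142829) (nat_lit 1) (nat_lit 5) (nat_lit 3) (nat_lit 4) (nat_lit 1) (nat_lit 4) (nat_lit 404) (nat_lit 333) (nat_lit 283)) (XT.lf (nat_lit 0) (nat_lit 598905673965) (nat_lit 152) (nat_lit 3966242494058)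 (nat_lit 0) (nat_lit 596148598486) (nat_lit 1) (nat_lit 5) (nat_lit 3) (nat_lit 4) (nat_lit 1) (nat_lit 4) (nat_lit 405) (nat_lit 333) (nat_lit 282))) (XT.nd (nat_lit 78) (nat_lit 0) (nat_lit 0) (XT.lf (nat_lit 0) (nat_lit 711957770369) (nat_lit 152) (nat_lit 4512442493156) (nat_lit 0) (nat_lit 709200406087) (nat_lit 1) (nat_lit 5) (nat_lit 3) (nat_lit 4) (nat_lit 1) (nat_lit 4) (nat_lit 406) (nat_lit 333) (nat_lit 281)) (XT.lf (nat_lit 0) (nat_lit 841963064238) (nat_lit 152) (nat_lit 5140582014518) (nat_lit 0) (nat_lit 839205448824) (nat_lit 1) (nat_lit 5) (nat_lit 3) (nat_lit 4) (nat_lit 1) (nat_lit 4) (nat_lit 407) (nat_lit 333) (nat_lit 280)))) (XT.nd (nat_lit 156) (nat_lit 0) (nat_lit 0) (XT.nd (nat_lit 78) (nat_lit 0) (nat_lit 0) (XT.lf (nat_lit 0) (nat_lit 991465137409) (nat_lit 152) (nat_lit 5862950744431) (nat_lit 0) (nat_lit 988707303618) (nat_lit 1) (nat_lit 5) (nat_lit 3) (nat_lit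 4) (nat_lit 1) (nat_lit 4) (nat_lit 408) (nat_lit 333) (nat_lit 279)) (XT.lf (nat_lit 0) (nat_lit 1163389030443) (nat_lit 152) (nat_lit 6693681984132) (nat_lit 0) (nat_lit 1160631006761) (nat_lit 1) (nat_lit 5) (nat_lit 3) (nat_lit 4) (nat_lit 1) (nat_lit 4) (nat_lit 409) (nat_lit 333) (nat_lit 278))) (XT.nd (nat_lit 78) (nat_lit 0) (nat_lit 0) (XT.lf (nat_lit 0) (nat_lit 1361098471684) (nat_lit 152) (nat_lit 7649029170919) (nat_lit 0) (nat_lit 1358340282878) (nat_lit 1) (nat_lit 5) (nat_lit 3) (nat_lit 4) (nat_lit 1) (nat_lit 4) (nat_lit 410) (nat_lit 333) (nat_lit 277)) (XT.nd (nat_lit 78) (nat_lit 0) (nat_lit 0) (XT.lf (nat_lit 0) (nat_lit 1588461689330) (nat_lit 152) (nat_lit 8747683880188) (nat_lit 0) (nat_lit 1585703356938) (nat_lit 1) (nat_lit 5) (nat_lit 3) (nat_lit 4) (nat_lit 1) (nat_lit 4) (nat_lit 411) (nat_lit 333) (nat_lit 276)) (XT.lf (nat_lit 0) (nat_lit 1849927094159) (nat_lit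 152) (nat_lit 10011141530162) (nat_lit 0) (nat_lit 1847168636910) (nat_lit 1) (nat_lit 5) (nat_lit 3) (nat_lit 4) (nat_lit 1) (nat_lit 4) (nat_lit 412) (nat_lit 333) (nat_lit 275))))))) (XT.nd (nat_lit 48516) (nat_lit 0) (nat_lit 1596) (XT.nd (nat_lit 312) (nat_lit 0) (nat_lit 0) (XT.nd (nat_lit 156) (nat_lit 0) (nat_lit 0) (XT.nd (nat_lit 78) (nat_lit 0) (nat_lit 0) (XT.lf (nat_lit 0) (nat_lit 2150610313659) (nat_lit 152) (nat_lit 11464121944427) (nat_lit 0) (nat_lit 2147851747838) (nat_lit 1) (nat_lit 5) (nat_lit 3) (nat_lit 4) (nat_lit 1) (nat_lit 4) (nat_lit 413) (nat_lit 333) (nat_lit 274)) (XT.lf (nat_lit 0) (nat_lit 2496394280384) (nat_lit 152) (nat_lit 13135053000655) (nat_lit 0) (nat_lit 2493635620153) (nat_lit 1) (nat_lit 5) (nat_lit 3) (nat_lit 4) (nat_lit 1) (nat_lit 4) (nat_lit 414) (nat_lit 333) (nat_lit 273))) (XT.nd (nat_lit 78) (nat_lit 0) (nat_lit 0) (XT.lf (nat_lit 0) (nat_lit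 2894044332813) (nat_lit 152) (nat_lit 15056626828206) (nat_lit 0) (nat_lit 2891285590487) (nat_lit 1) (nat_lit 5) (nat_lit 3) (nat_lit 4) (nat_lit 1) (nat_lit 4) (nat_lit 415) (nat_lit 333) (nat_lit 272)) (XT.lf (nat_lit 0) (nat_lit 3351340580670) (nat_lit 152) (nat_lit 17266439436749) (nat_lit 0) (nat_lit 3348581766956) (nat_lit 1) (nat_lit 5) (nat_lit 3) (nat_lit 4) (nat_lit 1) (nat_lit 4) (nat_lit 416) (nat_lit 333) (nat_lit 271)))) (XT.nd (nat_lit 48048) (nat_lit 0) (nat_lit 3268) (XT.nd (nat_lit 78) (nat_lit 0) (nat_lit 0) (XT.lf (nat_lit 0) (nat_lit 3877230124454) (nat_lit 152) (nat_lit 19807726290366) (nat_lit 0) (nat_lit 3874471248664) (nat_lit 1) (nat_lit 5) (nat_lit 3) (nat_lit 4) (nat_lit 1) (nat_lit 4) (nat_lit 417) (nat_lit 333) (nat_lit 270)) (XT.lf (nat_lit 0) (nat_lit 4482002107414) (nat_lit 152) (nat_lit 22730208218800) (nat_lit 0) (nat_lit 4479243177644) (nat_lit 1) (nat_lit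 5) (nat_lit 3) (nat_lit 4) (nat_lit 1) (nat_lit 4) (nat_lit 418) (nat_lit 333) (nat_lit 269))) (XT.nd (nat_lit 78) (nat_lit 152) (nat_lit 0) (XT.lf (nat_lit 0) (nat_lit 372922433) (nat_lit 152) (nat_lit 4243273773) (nat_lit 0) (nat_lit 372922433) (nat_lit 46) (nat_lit 5) (nat_lit 48) (nat_lit 4) (nat_lit 46) (nat_lit 4) (nat_lit 352) (nat_lit 334) (nat_lit 334)) (XT.lf (nat_lit 0) (nat_lit 7988292762) (nat_lit 152) (nat_lit 1931794920) (nat_lit 152) (nat_lit 716109733) (nat_lit 44) (nat_lit 4) (nat_lit 46) (nat_lit 5) (nat_lit 46) (nat_lit 4) (nat_lit 353) (nat_lit 334) (nat_lit 333))))) (XT.nd (nat_lit 312) (nat_lit 760) (nat_lit 0) (XT.nd (nat_lit 156) (nat_lit 456) (nat_lit 0) (XT.nd (nat_lit 78) (nat_lit 152) (nat_lit 0) (XT.lf (nat_lit 0) (nat_lit 3618476198) (nat_lit 152) (nat_lit 4933612070) (nat_lit 152) (nat_lit 2829165088) (nat_lit 40) (nat_lit 4) (nat_lit 42) (nat_lit 5) (nat_lit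 42) (nat_lit 4) (nat_lit 354) (nat_lit 334) (nat_lit 332)) (XT.lf (nat_lit 0) (nat_lit 6545066997) (nat_lit 152) (nat_lit 1873066290) (nat_lit 0) (nat_lit 3808411136) (nat_lit 38) (nat_lit 5) (nat_lit 40) (nat_lit 4) (nat_lit 38) (nat_lit 4) (nat_lit 355) (nat_lit 334) (nat_lit 331))) (XT.nd (nat_lit 78) (nat_lit 152) (nat_lit 0) (XT.lf (nat_lit 0) (nat_lit 3830345975) (nat_lit 152) (nat_lit 8687922524) (nat_lit 0) (nat_lit 661869260) (nat_lit 34) (nat_lit 5) (nat_lit 36) (nat_lit 4) (nat_lit 34) (nat_lit 4) (nat_lit 356) (nat_lit 334) (nat_lit 330)) (XT.lf (nat_lit 0) (nat_lit 302208777) (nat_lit 152) (nat_lit 3091652981) (nat_lit 76) (nat_lit 10859418482) (nat_lit 32) (nat_lit 5) (nat_lit 34) (nat_lit 5) (nat_lit 33) (nat_lit 4) (nat_lit 357) (nat_lit 334) (nat_lit 329)))) (XT.nd (nat_lit 156) (nat_lit 456) (nat_lit 0) (XT.nd (nat_lit 78) (nat_lit 152) (nat_lit 0) (XT.lf (nat_lit 0) (nat_lit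 2668863731) (nat_lit 76) (nat_lit 8337724697) (nat_lit 76) (nat_lit 4448791645) (nat_lit 30) (nat_lit 4) (nat_lit 31) (nat_lit 5) (nat_lit 31) (nat_lit 4) (nat_lit 358) (nat_lit 334) (nat_lit 328)) (XT.lf (nat_lit 0) (nat_lit 6339848978) (nat_lit 152) (nat_lit 8089439166) (nat_lit 0) (nat_lit 2381288035) (nat_lit 28) (nat_lit 5) (nat_lit 30) (nat_lit 4) (nat_lit 28) (nat_lit 4) (nat_lit 359) (nat_lit 334) (nat_lit 327))) (XT.nd (nat_lit 78) (nat_lit 304) (nat_lit 0) (XT.lf (nat_lit 0) (nat_lit 355651185) (nat_lit 152) (nat_lit 3529847351) (nat_lit 76) (nat_lit 14455054417) (nat_lit 26) (nat_lit 5) (nat_lit 28) (nat_lit 5) (nat_lit 27) (nat_lit 4) (nat_lit 360) (nat_lit 334) (nat_lit 326)) (XT.nd (nat_lit 78) (nat_lit 152) (nat_lit 0) (XT.lf (nat_lit 0) (nat_lit 697627216) (nat_lit 76) (nat_lit 11780539093) (nat_lit 76) (nat_lit 7576768589) (nat_lit 24) (nat_lit 4) (nat_lit 25) (nat_lit 5)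 (nat_lit 25) (nat_lit 4) (nat_lit 361) (nat_lit 334) (nat_lit 325)) (XT.lf (nat_lit 0) (nat_lit 4473317724) (nat_lit 152) (nat_lit 17141400376) (nat_lit 0) (nat_lit 379298749) (nat_lit 22) (nat_lit 5) (nat_lit 24) (nat_lit 4) (nat_lit 22) (nat_lit 4) (nat_lit 362) (nat_lit 334) (nat_lit 324))))))))
noncomputable def xc33 : XT := (XT.nd (nat_lit 1326) (nat_lit 380) (nat_lit 0) (XT.nd (nat_lit 624) (nat_lit 456) (nat_lit 0) (XT.nd (nat_lit 312) (nat_lit 304) (nat_lit 0) (XT.nd (nat_lit 156) (nat_lit 228) (nat_lit 0) (XT.nd (nat_lit 78) (nat_lit 152) (nat_lit 0) (XT.lf (nat_lit 0) (nat_lit 8243892104) (nat_lit 76) (nat_lit 10098452511) (nat_lit 76) (nat_lit 5829095381) (nat_lit 21) (nat_lit 4) (nat_lit 22) (nat_lit 5) (nat_lit 22) (nat_lit 4) (nat_lit 363) (nat_lit 334) (nat_lit 323)) (XT.lf (nat_lit 0) (nat_lit 7482876297) (nat_lit 152) (nat_lit 15769565046) (nat_lit 0) (nat_lit 3388593806)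 (nat_lit 19) (nat_lit 5) (nat_lit 21) (nat_lit 4) (nat_lit 19) (nat_lit 4) (nat_lit 364) (nat_lit 334) (nat_lit 322))) (XT.nd (nat_lit 78) (nat_lit 152) (nat_lit 0) (XT.lf (nat_lit 0) (nat_lit 12214233095) (nat_lit 76) (nat_lit 10716522513) (nat_lit 76) (nat_lit 6499479988) (nat_lit 18) (nat_lit 4) (nat_lit 19) (nat_lit 5) (nat_lit 19) (nat_lit 4) (nat_lit 365) (nat_lit 334) (nat_lit 321)) (XT.lf (nat_lit 0) (nat_lit 7978122556) (nat_lit 152) (nat_lit 20643735185) (nat_lit 0) (nat_lit 3974612945) (nat_lit 16) (nat_lit 5) (nat_lit 18) (nat_lit 4) (nat_lit 16) (nat_lit 4) (nat_lit 366) (nat_lit 334) (nat_lit 320)))) (XT.nd (nat_lit 156) (nat_lit 76) (nat_lit 0) (XT.nd (nat_lit 78) (nat_lit 152) (nat_lit 0) (XT.lf (nat_lit 0) (nat_lit 9296542315) (nat_lit 76) (nat_lit 15486895776) (nat_lit 76) (nat_lit 11397437812) (nat_lit 15) (nat_lit 4) (nat_lit 16) (nat_lit 5) (nat_lit 16) (nat_lit 4) (nat_lit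 367) (nat_lit 334) (nat_lit 319)) (XT.lf (nat_lit 0) (nat_lit 3848891171) (nat_lit 76) (nat_lit 3554421) (nat_lit 152) (nat_lit 36424282516) (nat_lit 13) (nat_lit 5) (nat_lit 14) (nat_lit 5) (nat_lit 15) (nat_lit 4) (nat_lit 368) (nat_lit 334) (nat_lit 318))) (XT.nd (nat_lit 78) (nat_lit 76) (nat_lit 0) (XT.lf (nat_lit 0) (nat_lit 21522225184) (nat_lit 152) (nat_lit 5770164658) (nat_lit 0) (nat_lit 17606313179) (nat_lit 13) (nat_lit 5) (nat_lit 15) (nat_lit 4) (nat_lit 13) (nat_lit 4) (nat_lit 369) (nat_lit 334) (nat_lit 317)) (XT.lf (nat_lit 0) (nat_lit 30212859391) (nat_lit 76) (nat_lit 11971024170) (nat_lit 76) (nat_lit 8002785834) (nat_lit 12) (nat_lit 4) (nat_lit 13) (nat_lit 5) (nat_lit 13) (nat_lit 4) (nat_lit 370) (nat_lit 334) (nat_lit 316))))) (XT.nd (nat_lit 312) (nat_lit 152) (nat_lit 0) (XT.nd (nat_lit 156) (nat_lit 152) (nat_lit 0) (XT.nd (nat_lit 78) (nat_lit 0) (nat_lit 0)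 (XT.lf (nat_lit 0) (nat_lit 9523272974) (nat_lit 152) (nat_lit 40892666828) (nat_lit 0) (nat_lit 5806847517) (nat_lit 10) (nat_lit 5) (nat_lit 12) (nat_lit 4) (nat_lit 10) (nat_lit 4) (nat_lit 371) (nat_lit 334) (nat_lit 315)) (XT.lf (nat_lit 0) (nat_lit 29806730876) (nat_lit 152) (nat_lit 7239111027) (nat_lit 0) (nat_lit 26053670026) (nat_lit 10) (nat_lit 5) (nat_lit 12) (nat_lit 4) (nat_lit 10) (nat_lit 4) (nat_lit 372) (nat_lit 334) (nat_lit 314))) (XT.nd (nat_lit 78) (nat_lit 76) (nat_lit 0) (XT.lf (nat_lit 0) (nat_lit 32484920494) (nat_lit 76) (nat_lit 21134408838) (nat_lit 76) (nat_lit 17349491125) (nat_lit 9) (nat_lit 4) (nat_lit 10) (nat_lit 5) (nat_lit 10) (nat_lit 4) (nat_lit 373) (nat_lit 334) (nat_lit 313)) (XT.lf (nat_lit 0) (nat_lit 875758425) (nat_lit 152) (nat_lit 1991041807) (nat_lit 76) (nat_lit 77154652979) (nat_lit 8) (nat_lit 5) (nat_lit 10) (nat_lit 5) (nat_lit 9) (nat_lit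 4) (nat_lit 374) (nat_lit 334) (nat_lit 312)))) (XT.nd (nat_lit 156) (nat_lit 76) (nat_lit 0) (XT.nd (nat_lit 78) (nat_lit 0) (nat_lit 0) (XT.lf (nat_lit 0) (nat_lit 22052080152) (nat_lit 152) (nat_lit 49744714837) (nat_lit 0) (nat_lit 18499573025) (nat_lit 7) (nat_lit 5) (nat_lit 9) (nat_lit 4) (nat_lit 7) (nat_lit 4) (nat_lit 375) (nat_lit 334) (nat_lit 311)) (XT.lf (nat_lit 0) (nat_lit 46318167083) (nat_lit 152) (nat_lit 13055025489) (nat_lit 0) (nat_lit 42746265137) (nat_lit 7) (nat_lit 5) (nat_lit 9) (nat_lit 4) (nat_lit 7) (nat_lit 4) (nat_lit 376) (nat_lit 334) (nat_lit 310))) (XT.nd (nat_lit 78) (nat_lit 0) (nat_lit 0) (XT.lf (nat_lit 0) (nat_lit 30248969368) (nat_lit 76) (nat_lit 44506647571) (nat_lit 76) (nat_lit 40917880565) (nat_lit 6) (nat_lit 4) (nat_lit 7) (nat_lit 5) (nat_lit 7) (nat_lit 4) (nat_lit 377) (nat_lit 334) (nat_lit 309)) (XT.nd (nat_lit 78) (nat_lit 0) (nat_lit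 0) (XT.lf (nat_lit 0) (nat_lit 80470867001) (nat_lit 76) (nat_lit 27188575104) (nat_lit 76) (nat_lit 23585142829) (nat_lit 6) (nat_lit 4) (nat_lit 7) (nat_lit 5) (nat_lit 7) (nat_lit 4) (nat_lit 378) (nat_lit 334) (nat_lit 308)) (XT.lf (nat_lit 0) (nat_lit 137905815245) (nat_lit 76) (nat_lit 7437090852) (nat_lit 76) (nat_lit 3820906168) (nat_lit 6) (nat_lit 4) (nat_lit 7) (nat_lit 5) (nat_lit 7) (nat_lit 4) (nat_lit 379) (nat_lit 334) (nat_lit 307))))))) (XT.nd (nat_lit 624) (nat_lit 152) (nat_lit 0) (XT.nd (nat_lit 312) (nat_lit 76) (nat_lit 0) (XT.nd (nat_lit 156) (nat_lit 0) (nat_lit 0) (XT.nd (nat_lit 78) (nat_lit 0) (nat_lit 0) (XT.lf (nat_lit 0) (nat_lit 19067382315) (nat_lit 152) (nat_lit 134869946949) (nat_lit 0) (nat_lit 15708795523) (nat_lit 4) (nat_lit 5) (nat_lit 6) (nat_lit 4) (nat_lit 4) (nat_lit 4) (nat_lit 380) (nat_lit 334) (nat_lit 306)) (XT.lf (nat_lit 0) (nat_lit 45580580140)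 (nat_lit 152) (nat_lit 105365768422) (nat_lit 0) (nat_lit 42213064966) (nat_lit 4) (nat_lit 5) (nat_lit 6) (nat_lit 4) (nat_lit 4) (nat_lit 4) (nat_lit 381) (nat_lit 334) (nat_lit 305))) (XT.nd (nat_lit 78) (nat_lit 0) (nat_lit 0) (XT.lf (nat_lit 0) (nat_lit 75957283267) (nat_lit 152) (nat_lit 71669487194) (nat_lit 0) (nat_lit 72582004283) (nat_lit 4) (nat_lit 5) (nat_lit 6) (nat_lit 4) (nat_lit 4) (nat_lit 4) (nat_lit 382) (nat_lit 334) (nat_lit 304)) (XT.lf (nat_lit 0) (nat_lit 110791818496) (nat_lit 152) (nat_lit 33121828198) (nat_lit 0) (nat_lit 107409788372) (nat_lit 4) (nat_lit 5) (nat_lit 6) (nat_lit 4) (nat_lit 4) (nat_lit 4) (nat_lit 383) (nat_lit 334) (nat_lit 303)))) (XT.nd (nat_lit 156) (nat_lit 0) (nat_lit 0) (XT.nd (nat_lit 78) (nat_lit 0) (nat_lit 0) (XT.lf (nat_lit 0) (nat_lit 11612295969) (nat_lit 76) (nat_lit 139432711109) (nat_lit 76) (nat_lit 136044810429) (nat_lit 3)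 (nat_lit 4) (nat_lit 4) (nat_lit 5) (nat_lit 4) (nat_lit 4) (nat_lit 384) (nat_lit 334) (nat_lit 302)) (XT.lf (nat_lit 0) (nat_lit 64900664730) (nat_lit 76) (nat_lit 133321317131) (nat_lit 76) (nat_lit 129928311619) (nat_lit 3) (nat_lit 4) (nat_lit 4) (nat_lit 5) (nat_lit 4) (nat_lit 4) (nat_lit 385) (nat_lit 334) (nat_lit 301))) (XT.nd (nat_lit 78) (nat_lit 0) (nat_lit 0) (XT.lf (nat_lit 0) (nat_lit 126041739826) (nat_lit 76) (nat_lit 126365503488) (nat_lit 76) (nat_lit 122968058992) (nat_lit 3) (nat_lit 4) (nat_lit 4) (nat_lit 5) (nat_lit 4) (nat_lit 4) (nat_lit 386) (nat_lit 334) (nat_lit 300)) (XT.lf (nat_lit 0) (nat_lit 196231759684) (nat_lit 76) (nat_lit 118429178173) (nat_lit 76) (nat_lit 115027873692) (nat_lit 3) (nat_lit 4) (nat_lit 4) (nat_lit 5) (nat_lit 4) (nat_lit 4) (nat_lit 387) (nat_lit 334) (nat_lit 299))))) (XT.nd (nat_lit 312) (nat_lit 152) (nat_lit 0) (XT.nd (nat_lit 156)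 (nat_lit 0) (nat_lit 0) (XT.nd (nat_lit 78) (nat_lit 0) (nat_lit 0) (XT.lf (nat_lit 0) (nat_lit 276844007300) (nat_lit 76) (nat_lit 109357065257) (nat_lit 76) (nat_lit 105952404266) (nat_lit 3) (nat_lit 4) (nat_lit 4) (nat_lit 5) (nat_lit 4) (nat_lit 4) (nat_lit 388) (nat_lit 334) (nat_lit 298)) (XT.lf (nat_lit 0) (nat_lit 369455678824) (nat_lit 76) (nat_lit 98971666879) (nat_lit 76) (nat_lit 95564087184) (nat_lit 3) (nat_lit 4) (nat_lit 4) (nat_lit 5) (nat_lit 4) (nat_lit 4) (nat_lit 389) (nat_lit 334) (nat_lit 297))) (XT.nd (nat_lit 78) (nat_lit 0) (nat_lit 0) (XT.lf (nat_lit 0) (nat_lit 475878741742) (nat_lit 76) (nat_lit 87069790461) (nat_lit 76) (nat_lit 83659672762) (nat_lit 3) (nat_lit 4) (nat_lit 4) (nat_lit 5) (nat_lit 4) (nat_lit 4) (nat_lit 390) (nat_lit 334) (nat_lit 296)) (XT.lf (nat_lit 0) (nat_lit 598195386415) (nat_lit 76) (nat_lit 73418573204) (nat_lit 76) (nat_lit 70006248546)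 (nat_lit 3) (nat_lit 4) (nat_lit 4) (nat_lit 5) (nat_lit 4) (nat_lit 4) (nat_lit 391) (nat_lit 334) (nat_lit 295)))) (XT.nd (nat_lit 156) (nat_lit 152) (nat_lit 0) (XT.nd (nat_lit 78) (nat_lit 0) (nat_lit 0) (XT.lf (nat_lit 0) (nat_lit 738798764587) (nat_lit 76) (nat_lit 57750926074) (nat_lit 76) (nat_lit 54336682321) (nat_lit 3) (nat_lit 4) (nat_lit 4) (nat_lit 5) (nat_lit 4) (nat_lit 4) (nat_lit 392) (nat_lit 334) (nat_lit 294)) (XT.lf (nat_lit 0) (nat_lit 900439811919) (nat_lit 76) (nat_lit 39760308150) (nat_lit 76) (nat_lit 36344395619) (nat_lit 3) (nat_lit 4) (nat_lit 4) (nat_lit 5) (nat_lit 4) (nat_lit 4) (nat_lit 393) (nat_lit 334) (nat_lit 293))) (XT.nd (nat_lit 78) (nat_lit 152) (nat_lit 0) (XT.lf (nat_lit 0) (nat_lit 1086281070639) (nat_lit 76) (nat_lit 19094729081) (nat_lit 76) (nat_lit 15677365438) (nat_lit 3) (nat_lit 4) (nat_lit 4) (nat_lit 5) (nat_lit 4) (nat_lit 4) (nat_lit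 394) (nat_lit 334) (nat_lit 292)) (XT.nd (nat_lit 78) (nat_lit 0) (nat_lit 0) (XT.lf (nat_lit 0) (nat_lit 8107327931) (nat_lit 152) (nat_lit 1274139502564) (nat_lit 0) (nat_lit 4941933968) (nat_lit 1) (nat_lit 5) (nat_lit 3) (nat_lit 4) (nat_lit 1) (nat_lit 4) (nat_lit 395) (nat_lit 334) (nat_lit 291)) (XT.lf (nat_lit 0) (nat_lit 36105924852) (nat_lit 152) (nat_lit 1409040729743) (nat_lit 0) (nat_lit 32939514918) (nat_lit 1) (nat_lit 5) (nat_lit 3) (nat_lit 4) (nat_lit 1) (nat_lit 4) (nat_lit 396) (nat_lit 334) (nat_lit 290))))))))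
noncomputable def xc34 : XT := (XT.nd (nat_lit 1326) (nat_lit 0) (nat_lit 0) (XT.nd (nat_lit 624) (nat_lit 0) (nat_lit 0) (XT.nd (nat_lit 312) (nat_lit 0) (nat_lit 0) (XT.nd (nat_lit 156) (nat_lit 0) (nat_lit 0) (XT.nd (nat_lit 78) (nat_lit 0) (nat_lit 0) (XT.lf (nat_lit 0) (nat_lit 68288069295) (nat_lit 152) (nat_lit 1564210639621) (nat_lit 0) (nat_lit 65120775908) (nat_lit 1) (nat_lit 5) (nat_lit 3) (nat_lit 4) (nat_lit 1) (nat_lit 4) (nat_lit 397) (nat_lit 334) (nat_lit 289)) (XT.lf (nat_lit 0) (nat_lit 105283411911) (nat_lit 152) (nat_lit 1742685165215) (nat_lit 0) (nat_lit 102115350303) (nat_lit 1) (nat_lit 5) (nat_lit 3) (nat_lit 4) (nat_lit 1) (nat_lit 4) (nat_lit 398) (nat_lit 334) (nat_lit 288))) (XT.nd (nat_lit 78) (nat_lit 0) (nat_lit 0) (XT.lf (nat_lit 0) (nat_lit 147815774620) (nat_lit 152) (nat_lit 1947956199418) (nat_lit 0) (nat_lit 144647044995) (nat_lit 1) (nat_lit 5) (nat_lit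 3) (nat_lit 4) (nat_lit 1) (nat_lit 4) (nat_lit 399) (nat_lit 334) (nat_lit 287)) (XT.lf (nat_lit 0) (nat_lit 196717312345) (nat_lit 152) (nat_lit 2184039914638) (nat_lit 0) (nat_lit 193548001835) (nat_lit 1) (nat_lit 5) (nat_lit 3) (nat_lit 4) (nat_lit 1) (nat_lit 4) (nat_lit 400) (nat_lit 334) (nat_lit 286)))) (XT.nd (nat_lit 156) (nat_lit 0) (nat_lit 0) (XT.nd (nat_lit 78) (nat_lit 0) (nat_lit 0) (XT.lf (nat_lit 0) (nat_lit 252944794303) (nat_lit 152) (nat_lit 2455555340087) (nat_lit 0) (nat_lit 249774978676) (nat_lit 1) (nat_lit 5) (nat_lit 3) (nat_lit 4) (nat_lit 1) (nat_lit 4) (nat_lit 401) (nat_lit 334) (nat_lit 285)) (XT.lf (nat_lit 0) (nat_lit 317598323402) (nat_lit 152) (nat_lit 2767814734088) (nat_lit 0) (nat_lit 314428068542) (nat_lit 1) (nat_lit 5) (nat_lit 3) (nat_lit 4) (nat_lit 1) (nat_lit 4) (nat_lit 402) (nat_lit 334) (nat_lit 284))) (XT.nd (nat_lit 78) (nat_lit 0) (nat_lit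 0) (XT.lf (nat_lit 0) (nat_lit 391942859993) (nat_lit 152) (nat_lit 3126927519566) (nat_lit 0) (nat_lit 388772223192) (nat_lit 1) (nat_lit 5) (nat_lit 3) (nat_lit 4) (nat_lit 1) (nat_lit 4) (nat_lit 403) (nat_lit 334) (nat_lit 283)) (XT.lf (nat_lit 0) (nat_lit 477432971097) (nat_lit 152) (nat_lit 3539919816239) (nat_lit 0) (nat_lit 474262002173) (nat_lit 1) (nat_lit 5) (nat_lit 3) (nat_lit 4) (nat_lit 1) (nat_lit 4) (nat_lit 404) (nat_lit 334) (nat_lit 282))))) (XT.nd (nat_lit 312) (nat_lit 0) (nat_lit 0) (XT.nd (nat_lit 156) (nat_lit 0) (nat_lit 0) (XT.nd (nat_lit 78) (nat_lit 0) (nat_lit 0) (XT.lf (nat_lit 0) (nat_lit 575741289322) (nat_lit 152) (nat_lit 4014871908172) (nat_lit 0) (nat_lit 572570031596) (nat_lit 1) (nat_lit 5) (nat_lit 3) (nat_lit 4) (nat_lit 1) (nat_lit 4) (nat_lit 405) (nat_lit 334) (nat_lit 281)) (XT.lf (nat_lit 0) (nat_lit 688791238286) (nat_lit 152) (nat_lit 4561076336293)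 (nat_lit 0) (nat_lit 685619729427) (nat_lit 1) (nat_lit 5) (nat_lit 3) (nat_lit 4) (nat_lit 1) (nat_lit 4) (nat_lit 406) (nat_lit 334) (nat_lit 280))) (XT.nd (nat_lit 78) (nat_lit 0) (nat_lit 0) (XT.lf (nat_lit 0) (nat_lit 818794664816) (nat_lit 152) (nat_lit 5189219708978) (nat_lit 0) (nat_lit 815622937581) (nat_lit 1) (nat_lit 5) (nat_lit 3) (nat_lit 4) (nat_lit 1) (nat_lit 4) (nat_lit 407) (nat_lit 334) (nat_lit 279)) (XT.lf (nat_lit 0) (nat_lit 968295114214) (nat_lit 152) (nat_lit 5911591787868) (nat_lit 0) (nat_lit 965123197087) (nat_lit 1) (nat_lit 5) (nat_lit 3) (nat_lit 4) (nat_lit 1) (nat_lit 4) (nat_lit 408) (nat_lit 334) (nat_lit 278)))) (XT.nd (nat_lit 156) (nat_lit 0) (nat_lit 0) (XT.nd (nat_lit 78) (nat_lit 0) (nat_lit 0) (XT.lf (nat_lit 0) (nat_lit 1140217595273) (nat_lit 152) (nat_lit 6742325939724) (nat_lit 0) (nat_lit 1137045513022) (nat_lit 1) (nat_lit 5) (nat_lit 3) (nat_lit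 4) (nat_lit 1) (nat_lit 4) (nat_lit 409) (nat_lit 334) (nat_lit 277)) (XT.lf (nat_lit 0) (nat_lit 1337925808708) (nat_lit 152) (nat_lit 7697675658820) (nat_lit 0) (nat_lit 1334753582872) (nat_lit 1) (nat_lit 5) (nat_lit 3) (nat_lit 4) (nat_lit 1) (nat_lit 4) (nat_lit 410) (nat_lit 334) (nat_lit 276))) (XT.nd (nat_lit 78) (nat_lit 0) (nat_lit 0) (XT.lf (nat_lit 0) (nat_lit 1565287958696) (nat_lit 152) (nat_lit 8796332570095) (nat_lit 0) (nat_lit 1562115608003) (nat_lit 1) (nat_lit 5) (nat_lit 3) (nat_lit 4) (nat_lit 1) (nat_lit 4) (nat_lit 411) (nat_lit 334) (nat_lit 275)) (XT.nd (nat_lit 78) (nat_lit 0) (nat_lit 0) (XT.lf (nat_lit 0) (nat_lit 1826752435129) (nat_lit 152) (nat_lit 10059792134857) (nat_lit 0) (nat_lit 1823579975863) (nat_lit 1) (nat_lit 5) (nat_lit 3) (nat_lit 4) (nat_lit 1) (nat_lit 4) (nat_lit 412) (nat_lit 334) (nat_lit 274)) (XT.lf (nat_lit 0) (nat_lit 2127434847326) (nat_lit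 152) (nat_lit 11512774214157) (nat_lit 0) (nat_lit 2124262293650) (nat_lit 1) (nat_lit 5) (nat_lit 3) (nat_lit 4) (nat_lit 1) (nat_lit 4) (nat_lit 413) (nat_lit 334) (nat_lit 273))))))) (XT.nd (nat_lit 48360) (nat_lit 0) (nat_lit 1824) (XT.nd (nat_lit 312) (nat_lit 0) (nat_lit 0) (XT.nd (nat_lit 156) (nat_lit 0) (nat_lit 0) (XT.nd (nat_lit 78) (nat_lit 0) (nat_lit 0) (XT.lf (nat_lit 0) (nat_lit 2473218112049) (nat_lit 152) (nat_lit 13183706718240) (nat_lit 0) (nat_lit 2470045476278) (nat_lit 1) (nat_lit 5) (nat_lit 3) (nat_lit 4) (nat_lit 1) (nat_lit 4) (nat_lit 414) (nat_lit 334) (nat_lit 272)) (XT.lf (nat_lit 0) (nat_lit 2870867554043) (nat_lit 152) (nat_lit 15105281804795) (nat_lit 0) (nat_lit 2867694846884) (nat_lit 1) (nat_lit 5) (nat_lit 3) (nat_lit 4) (nat_lit 1) (nat_lit 4) (nat_lit 415) (nat_lit 334) (nat_lit 271))) (XT.nd (nat_lit 78) (nat_lit 0) (nat_lit 0) (XT.lf (nat_lit 0) (nat_lit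 3328163271085) (nat_lit 152) (nat_lit 17315095508125) (nat_lit 0) (nat_lit 3324990501850) (nat_lit 1) (nat_lit 5) (nat_lit 3) (nat_lit 4) (nat_lit 1) (nat_lit 4) (nat_lit 416) (nat_lit 334) (nat_lit 270)) (XT.lf (nat_lit 0) (nat_lit 3854052353291) (nat_lit 152) (nat_lit 19856383313730) (nat_lit 0) (nat_lit 3850879530077) (nat_lit 1) (nat_lit 5) (nat_lit 3) (nat_lit 4) (nat_lit 1) (nat_lit 4) (nat_lit 417) (nat_lit 334) (nat_lit 269)))) (XT.nd (nat_lit 47892) (nat_lit 0) (nat_lit 3420) (XT.nd (nat_lit 47814) (nat_lit 0) (nat_lit 4104) (XT.lf (nat_lit 0) (nat_lit 4458823934879) (nat_lit 152) (nat_lit 22778866069980) (nat_lit 0) (nat_lit 4455651064727) (nat_lit 1) (nat_lit 5) (nat_lit 3) (nat_lit 4) (nat_lit 1) (nat_lit 4) (nat_lit 418) (nat_lit 334) (nat_lit 268)) (XT.lf (nat_lit 0) (nat_lit 2106706208) (nat_lit 228) (nat_lit 217936967) (nat_lit 0) (nat_lit 2106706208) (nat_lit 55) (nat_lit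 5) (nat_lit 58) (nat_lit 4) (nat_lit 55) (nat_lit 4) (nat_lit 350) (nat_lit 335) (nat_lit 335))) (XT.nd (nat_lit 78) (nat_lit 304) (nat_lit 0) (XT.lf (nat_lit 0) (nat_lit 3219274072) (nat_lit 228) (nat_lit 4468521770) (nat_lit 0) (nat_lit 1709393070) (nat_lit 50) (nat_lit 5) (nat_lit 53) (nat_lit 4) (nat_lit 50) (nat_lit 4) (nat_lit 351) (nat_lit 335) (nat_lit 334)) (XT.lf (nat_lit 0) (nat_lit 714954247) (nat_lit 76) (nat_lit 985899238) (nat_lit 152) (nat_lit 8312914467) (nat_lit 46) (nat_lit 5) (nat_lit 47) (nat_lit 5) (nat_lit 48) (nat_lit 4) (nat_lit 352) (nat_lit 335) (nat_lit 333))))) (XT.nd (nat_lit 312) (nat_lit 760) (nat_lit 0) (XT.nd (nat_lit 156) (nat_lit 380) (nat_lit 0) (XT.nd (nat_lit 78) (nat_lit 304) (nat_lit 0) (XT.lf (nat_lit 0) (nat_lit 6436405598) (nat_lit 152) (nat_lit 3971795795) (nat_lit 152) (nat_lit 300955090) (nat_lit 44) (nat_lit 4) (nat_lit 46) (nat_lit 5) (nat_lit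 46) (nat_lit 4) (nat_lit 353) (nat_lit 335) (nat_lit 332)) (XT.lf (nat_lit 0) (nat_lit 1036425172) (nat_lit 152) (nat_lit 7355731857) (nat_lit 152) (nat_lit 3105663930) (nat_lit 40) (nat_lit 4) (nat_lit 42) (nat_lit 5) (nat_lit 42) (nat_lit 4) (nat_lit 354) (nat_lit 335) (nat_lit 331))) (XT.nd (nat_lit 78) (nat_lit 228) (nat_lit 0) (XT.lf (nat_lit 0) (nat_lit 5755993055) (nat_lit 152) (nat_lit 5494367296) (nat_lit 0) (nat_lit 1135445983) (nat_lit 38) (nat_lit 5) (nat_lit 40) (nat_lit 4) (nat_lit 38) (nat_lit 4) (nat_lit 355) (nat_lit 335) (nat_lit 330)) (XT.lf (nat_lit 0) (nat_lit 2338609260) (nat_lit 228) (nat_lit 352151977) (nat_lit 76) (nat_lit 10697770358) (nat_lit 35) (nat_lit 5) (nat_lit 38) (nat_lit 5) (nat_lit 36) (nat_lit 4) (nat_lit 356) (nat_lit 335) (nat_lit 329)))) (XT.nd (nat_lit 156) (nat_lit 456) (nat_lit 0) (XT.nd (nat_lit 78) (nat_lit 152) (nat_lit 0) (XT.lf (nat_lit 0)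 (nat_lit 5219385825) (nat_lit 76) (nat_lit 7298875901) (nat_lit 76) (nat_lit 1989020594) (nat_lit 33) (nat_lit 4) (nat_lit 34) (nat_lit 5) (nat_lit 34) (nat_lit 4) (nat_lit 357) (nat_lit 335) (nat_lit 328)) (XT.lf (nat_lit 0) (nat_lit 8150701218) (nat_lit 152) (nat_lit 4767812655) (nat_lit 0) (nat_lit 2847855760) (nat_lit 31) (nat_lit 5) (nat_lit 33) (nat_lit 4) (nat_lit 31) (nat_lit 4) (nat_lit 358) (nat_lit 335) (nat_lit 327))) (XT.nd (nat_lit 78) (nat_lit 304) (nat_lit 0) (XT.lf (nat_lit 0) (nat_lit 2613136213) (nat_lit 152) (nat_lit 203446277) (nat_lit 76) (nat_lit 14368559404) (nat_lit 29) (nat_lit 5) (nat_lit 31) (nat_lit 5) (nat_lit 30) (nat_lit 4) (nat_lit 359) (nat_lit 335) (nat_lit 326)) (XT.nd (nat_lit 78) (nat_lit 152) (nat_lit 0) (XT.lf (nat_lit 0) (nat_lit 4475022278) (nat_lit 76) (nat_lit 9891107226) (nat_lit 76) (nat_lit 4399553934) (nat_lit 27) (nat_lit 4) (nat_lit 28) (nat_lit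 5) (nat_lit 28) (nat_lit 4) (nat_lit 360) (nat_lit 335) (nat_lit 325)) (XT.lf (nat_lit 0) (nat_lit 7199794589) (nat_lit 152) (nat_lit 11450958341) (nat_lit 0) (nat_lit 1897253034) (nat_lit 25) (nat_lit 5) (nat_lit 27) (nat_lit 4) (nat_lit 25) (nat_lit 4) (nat_lit 361) (nat_lit 335) (nat_lit 324))))))))
noncomputable def xc35 : XT := (XT.nd (nat_lit 1326) (nat_lit 380) (nat_lit 0) (XT.nd (nat_lit 624) (nat_lit 532) (nat_lit 0) (XT.nd (nat_lit 312) (nat_lit 456) (nat_lit 0) (XT.nd (nat_lit 156) (nat_lit 228) (nat_lit 0) (XT.nd (nat_lit 78) (nat_lit 152) (nat_lit 0) (XT.lf (nat_lit 0) (nat_lit 13445014871) (nat_lit 76) (nat_lit 7299105113) (nat_lit 76) (nat_lit 1807198350) (nat_lit 24) (nat_lit 4) (nat_lit 25) (nat_lit 5) (nat_lit 25) (nat_lit 4) (nat_lit 362) (nat_lit 335) (nat_lit 323)) (XT.lf (nat_lit 0) (nat_lit 11276984968) (nat_lit 152) (nat_lit 7485846248) (nat_lit 0) (nat_lit 6039418152)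 (nat_lit 22) (nat_lit 5) (nat_lit 24) (nat_lit 4) (nat_lit 22) (nat_lit 4) (nat_lit 363) (nat_lit 335) (nat_lit 322))) (XT.nd (nat_lit 78) (nat_lit 152) (nat_lit 0) (XT.lf (nat_lit 0) (nat_lit 20672305414) (nat_lit 76) (nat_lit 6023310822) (nat_lit 76) (nat_lit 653163171) (nat_lit 21) (nat_lit 4) (nat_lit 22) (nat_lit 5) (nat_lit 22) (nat_lit 4) (nat_lit 364) (nat_lit 335) (nat_lit 321)) (XT.lf (nat_lit 0) (nat_lit 13983061355) (nat_lit 152) (nat_lit 7319774670) (nat_lit 0) (nat_lit 8903954564) (nat_lit 19) (nat_lit 5) (nat_lit 21) (nat_lit 4) (nat_lit 19) (nat_lit 4) (nat_lit 365) (nat_lit 335) (nat_lit 320)))) (XT.nd (nat_lit 156) (nat_lit 228) (nat_lit 0) (XT.nd (nat_lit 78) (nat_lit 152) (nat_lit 0) (XT.lf (nat_lit 0) (nat_lit 23946138254) (nat_lit 76) (nat_lit 7338627897) (nat_lit 76) (nat_lit 2166696884) (nat_lit 18) (nat_lit 4) (nat_lit 19) (nat_lit 5) (nat_lit 19) (nat_lit 4) (nat_lit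 366) (nat_lit 335) (nat_lit 319)) (XT.lf (nat_lit 0) (nat_lit 13896095909) (nat_lit 152) (nat_lit 14179486081) (nat_lit 0) (nat_lit 9032533198) (nat_lit 16) (nat_lit 5) (nat_lit 18) (nat_lit 4) (nat_lit 16) (nat_lit 4) (nat_lit 367) (nat_lit 335) (nat_lit 318))) (XT.nd (nat_lit 78) (nat_lit 152) (nat_lit 0) (XT.lf (nat_lit 0) (nat_lit 19442558151) (nat_lit 76) (nat_lit 13374309374) (nat_lit 76) (nat_lit 8445757360) (nat_lit 15) (nat_lit 4) (nat_lit 16) (nat_lit 5) (nat_lit 16) (nat_lit 4) (nat_lit 368) (nat_lit 335) (nat_lit 317)) (XT.lf (nat_lit 0) (nat_lit 8578978956) (nat_lit 152) (nat_lit 33444098498) (nat_lit 0) (nat_lit 3963178539) (nat_lit 13) (nat_lit 5) (nat_lit 15) (nat_lit 4) (nat_lit 13) (nat_lit 4) (nat_lit 369) (nat_lit 335) (nat_lit 316))))) (XT.nd (nat_lit 312) (nat_lit 304) (nat_lit 0) (XT.nd (nat_lit 156) (nat_lit 152) (nat_lit 0) (XT.nd (nat_lit 78) (nat_lit 0) (nat_lit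 0) (XT.lf (nat_lit 0) (nat_lit 747637153) (nat_lit 76) (nat_lit 27628524091) (nat_lit 76) (nat_lit 22967222517) (nat_lit 12) (nat_lit 4) (nat_lit 13) (nat_lit 5) (nat_lit 13) (nat_lit 4) (nat_lit 370) (nat_lit 335) (nat_lit 315)) (XT.lf (nat_lit 0) (nat_lit 41468918867) (nat_lit 76) (nat_lit 10341324984) (nat_lit 76) (nat_lit 5640457185) (nat_lit 12) (nat_lit 4) (nat_lit 13) (nat_lit 5) (nat_lit 13) (nat_lit 4) (nat_lit 371) (nat_lit 335) (nat_lit 314))) (XT.nd (nat_lit 78) (nat_lit 0) (nat_lit 0) (XT.lf (nat_lit 0) (nat_lit 14124296446) (nat_lit 152) (nat_lit 40538268573) (nat_lit 0) (nat_lit 9739784214) (nat_lit 10) (nat_lit 5) (nat_lit 12) (nat_lit 4) (nat_lit 10) (nat_lit 4) (nat_lit 372) (nat_lit 335) (nat_lit 313)) (XT.lf (nat_lit 0) (nat_lit 37036464443) (nat_lit 152) (nat_lit 2682979178) (nat_lit 0) (nat_lit 32624250591) (nat_lit 10) (nat_lit 5) (nat_lit 12) (nat_lit 4) (nat_lit 10)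 (nat_lit 4) (nat_lit 373) (nat_lit 335) (nat_lit 312)))) (XT.nd (nat_lit 156) (nat_lit 76) (nat_lit 0) (XT.nd (nat_lit 78) (nat_lit 152) (nat_lit 0) (XT.lf (nat_lit 0) (nat_lit 42522089999) (nat_lit 76) (nat_lit 21663233811) (nat_lit 76) (nat_lit 17226931594) (nat_lit 9) (nat_lit 4) (nat_lit 10) (nat_lit 5) (nat_lit 10) (nat_lit 4) (nat_lit 374) (nat_lit 335) (nat_lit 311)) (XT.lf (nat_lit 0) (nat_lit 2441829185) (nat_lit 76) (nat_lit 875035144) (nat_lit 152) (nat_lit 88522994871) (nat_lit 7) (nat_lit 5) (nat_lit 8) (nat_lit 5) (nat_lit 9) (nat_lit 4) (nat_lit 375) (nat_lit 335) (nat_lit 310))) (XT.nd (nat_lit 78) (nat_lit 76) (nat_lit 0) (XT.lf (nat_lit 0) (nat_lit 27470725922) (nat_lit 152) (nat_lit 52874423423) (nat_lit 0) (nat_lit 23326778805) (nat_lit 7) (nat_lit 5) (nat_lit 9) (nat_lit 4) (nat_lit 7) (nat_lit 4) (nat_lit 376) (nat_lit 335) (nat_lit 309)) (XT.nd (nat_lit 78) (nat_lit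 76) (nat_lit 0) (XT.lf (nat_lit 0) (nat_lit 55101399752) (nat_lit 152) (nat_lit 11246323974) (nat_lit 0) (nat_lit 50942787366) (nat_lit 7) (nat_lit 5) (nat_lit 9) (nat_lit 4) (nat_lit 7) (nat_lit 4) (nat_lit 377) (nat_lit 335) (nat_lit 308)) (XT.lf (nat_lit 0) (nat_lit 38234416105) (nat_lit 76) (nat_lit 49413563866) (nat_lit 76) (nat_lit 45242199071) (nat_lit 6) (nat_lit 4) (nat_lit 7) (nat_lit 5) (nat_lit 7) (nat_lit 4) (nat_lit 378) (nat_lit 335) (nat_lit 307))))))) (XT.nd (nat_lit 702) (nat_lit 152) (nat_lit 0) (XT.nd (nat_lit 312) (nat_lit 76) (nat_lit 0) (XT.nd (nat_lit 156) (nat_lit 152) (nat_lit 0) (XT.nd (nat_lit 78) (nat_lit 0) (nat_lit 0) (XT.lf (nat_lit 0) (nat_lit 95539846035) (nat_lit 76) (nat_lit 29728530204) (nat_lit 76) (nat_lit 25546076358) (nat_lit 6) (nat_lit 4) (nat_lit 7) (nat_lit 5) (nat_lit 7) (nat_lit 4) (nat_lit 379) (nat_lit 335) (nat_lit 306)) (XT.lf (nat_lit 0)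 (nat_lit 161198947518) (nat_lit 76) (nat_lit 7214975205) (nat_lit 76) (nat_lit 3022878706) (nat_lit 6) (nat_lit 4) (nat_lit 7) (nat_lit 5) (nat_lit 7) (nat_lit 4) (nat_lit 380) (nat_lit 335) (nat_lit 305))) (XT.nd (nat_lit 78) (nat_lit 0) (nat_lit 0) (XT.lf (nat_lit 0) (nat_lit 23149318365) (nat_lit 152) (nat_lit 152585982062) (nat_lit 0) (nat_lit 19259983723) (nat_lit 4) (nat_lit 5) (nat_lit 6) (nat_lit 4) (nat_lit 4) (nat_lit 4) (nat_lit 381) (nat_lit 335) (nat_lit 304)) (XT.lf (nat_lit 0) (nat_lit 53480126903) (nat_lit 152) (nat_lit 118984149399) (nat_lit 0) (nat_lit 49584041121) (nat_lit 4) (nat_lit 5) (nat_lit 6) (nat_lit 4) (nat_lit 4) (nat_lit 4) (nat_lit 382) (nat_lit 335) (nat_lit 303)))) (XT.nd (nat_lit 156) (nat_lit 76) (nat_lit 0) (XT.nd (nat_lit 78) (nat_lit 0) (nat_lit 0) (XT.lf (nat_lit 0) (nat_lit 88274753794) (nat_lit 152) (nat_lit 80518619590) (nat_lit 0) (nat_lit 84372797455)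 (nat_lit 4) (nat_lit 5) (nat_lit 6) (nat_lit 4) (nat_lit 4) (nat_lit 4) (nat_lit 383) (nat_lit 335) (nat_lit 302)) (XT.lf (nat_lit 0) (nat_lit 128213963476) (nat_lit 152) (nat_lit 36436806181) (nat_lit 0) (nat_lit 124306902307) (nat_lit 4) (nat_lit 5) (nat_lit 6) (nat_lit 4) (nat_lit 4) (nat_lit 4) (nat_lit 384) (nat_lit 335) (nat_lit 301))) (XT.nd (nat_lit 78) (nat_lit 0) (nat_lit 0) (XT.lf (nat_lit 0) (nat_lit 14867493319) (nat_lit 76) (nat_lit 159569245524) (nat_lit 76) (nat_lit 155657745370) (nat_lit 3) (nat_lit 4) (nat_lit 4) (nat_lit 5) (nat_lit 4) (nat_lit 4) (nat_lit 385) (nat_lit 335) (nat_lit 300)) (XT.nd (nat_lit 78) (nat_lit 0) (nat_lit 0) (XT.lf (nat_lit 0) (nat_lit 75951723530) (nat_lit 76) (nat_lit 152642669264) (nat_lit 76) (nat_lit 148727309124) (nat_lit 3) (nat_lit 4) (nat_lit 4) (nat_lit 5) (nat_lit 4) (nat_lit 4) (nat_lit 386) (nat_lit 335) (nat_lit 299)) (XT.lf (nat_lit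 0) (nat_lit 146092313053) (nat_lit 76) (nat_lit 144731767762) (nat_lit 76) (nat_lit 140813051112) (nat_lit 3) (nat_lit 4) (nat_lit 4) (nat_lit 5) (nat_lit 4) (nat_lit 4) (nat_lit 387) (nat_lit 335) (nat_lit 298)))))) (XT.nd (nat_lit 312) (nat_lit 152) (nat_lit 0) (XT.nd (nat_lit 156) (nat_lit 0) (nat_lit 0) (XT.nd (nat_lit 78) (nat_lit 0) (nat_lit 0) (XT.lf (nat_lit 0) (nat_lit 226661577769) (nat_lit 76) (nat_lit 135681762508) (nat_lit 76) (nat_lit 131760127155) (nat_lit 3) (nat_lit 4) (nat_lit 4) (nat_lit 5) (nat_lit 4) (nat_lit 4) (nat_lit 388) (nat_lit 335) (nat_lit 297)) (XT.lf (nat_lit 0) (nat_lit 319235872858) (nat_lit 76) (nat_lit 125315588185) (nat_lit 76) (nat_lit 121391414828) (nat_lit 3) (nat_lit 4) (nat_lit 4) (nat_lit 5) (nat_lit 4) (nat_lit 4) (nat_lit 389) (nat_lit 335) (nat_lit 296))) (XT.nd (nat_lit 78) (nat_lit 0) (nat_lit 0) (XT.lf (nat_lit 0) (nat_lit 425626434529) (nat_lit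 76) (nat_lit 113430428336) (nat_lit 76) (nat_lit 109504048019) (nat_lit 3) (nat_lit 4) (nat_lit 4) (nat_lit 5) (nat_lit 4) (nat_lit 4) (nat_lit 390) (nat_lit 335) (nat_lit 295)) (XT.lf (nat_lit 0) (nat_lit 547914817248) (nat_lit 76) (nat_lit 99793747226) (nat_lit 76) (nat_lit 95865447814) (nat_lit 3) (nat_lit 4) (nat_lit 4) (nat_lit 5) (nat_lit 4) (nat_lit 4) (nat_lit 391) (nat_lit 335) (nat_lit 294)))) (XT.nd (nat_lit 156) (nat_lit 152) (nat_lit 0) (XT.nd (nat_lit 78) (nat_lit 0) (nat_lit 0) (XT.lf (nat_lit 0) (nat_lit 688493619807) (nat_lit 76) (nat_lit 84138740224) (nat_lit 76) (nat_lit 80208772034) (nat_lit 3) (nat_lit 4) (nat_lit 4) (nat_lit 5) (nat_lit 4) (nat_lit 4) (nat_lit 392) (nat_lit 335) (nat_lit 293)) (XT.lf (nat_lit 0) (nat_lit 850113297041) (nat_lit 76) (nat_lit 66159113716) (nat_lit 76) (nat_lit 62227694414) (nat_lit 3) (nat_lit 4) (nat_lit 4) (nat_lit 5) (nat_lit 4) (nat_lit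 4) (nat_lit 393) (nat_lit 335) (nat_lit 292))) (XT.nd (nat_lit 78) (nat_lit 152) (nat_lit 0) (XT.lf (nat_lit 0) (nat_lit 1035935973068) (nat_lit 76) (nat_lit 45503092399) (nat_lit 76) (nat_lit 41570411261) (nat_lit 3) (nat_lit 4) (nat_lit 4) (nat_lit 5) (nat_lit 4) (nat_lit 4) (nat_lit 394) (nat_lit 335) (nat_lit 291)) (XT.nd (nat_lit 78) (nat_lit 152) (nat_lit 0) (XT.lf (nat_lit 0) (nat_lit 1249597308941) (nat_lit 76) (nat_lit 21766536727) (nat_lit 76) (nat_lit 17832758340) (nat_lit 3) (nat_lit 4) (nat_lit 4) (nat_lit 5) (nat_lit 4) (nat_lit 4) (nat_lit 395) (nat_lit 335) (nat_lit 290)) (XT.lf (nat_lit 0) (nat_lit 9498312099) (nat_lit 152) (nat_lit 1464899733499) (nat_lit 0) (nat_lit 5855041250) (nat_lit 1) (nat_lit 5) (nat_lit 3) (nat_lit 4) (nat_lit 1) (nat_lit 4) (nat_lit 396) (nat_lit 335) (nat_lit 289))))))))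
noncomputable def xc36 : XT := (XT.nd (nat_lit 1326) (nat_lit 0) (nat_lit 0) (XT.nd (nat_lit 624) (nat_lit 0) (nat_lit 0) (XT.nd (nat_lit 312) (nat_lit 0) (nat_lit 0) (XT.nd (nat_lit 156) (nat_lit 0) (nat_lit 0) (XT.nd (nat_lit 78) (nat_lit 0) (nat_lit 0) (XT.lf (nat_lit 0) (nat_lit 41673887475) (nat_lit 152) (nat_lit 1620083191858) (nat_lit 0) (nat_lit 38029848406) (nat_lit 1) (nat_lit 5) (nat_lit 3) (nat_lit 4) (nat_lit 1) (nat_lit 4) (nat_lit 397) (nat_lit 335) (nat_lit 288)) (XT.lf (nat_lit 0) (nat_lit 78663517858) (nat_lit 152) (nat_lit 1798569498740) (nat_lit 0) (nat_lit 75018810772) (nat_lit 1) (nat_lit 5) (nat_lit 3) (nat_lit 4) (nat_lit 1) (nat_lit 4) (nat_lit 398) (nat_lit 335) (nat_lit 287))) (XT.nd (nat_lit 78) (nat_lit 0) (nat_lit 0) (XT.lf (nat_lit 0) (nat_lit 121190913409) (nat_lit 152) (nat_lit 2003850777542) (nat_lit 0) (nat_lit 117545625438) (nat_lit 1) (nat_lit 5) (nat_lit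 3) (nat_lit 4) (nat_lit 1) (nat_lit 4) (nat_lit 399) (nat_lit 335) (nat_lit 286)) (XT.lf (nat_lit 0) (nat_lit 170088131867) (nat_lit 152) (nat_lit 2239943401109) (nat_lit 0) (nat_lit 166442338778) (nat_lit 1) (nat_lit 5) (nat_lit 3) (nat_lit 4) (nat_lit 1) (nat_lit 4) (nat_lit 400) (nat_lit 335) (nat_lit 285)))) (XT.nd (nat_lit 156) (nat_lit 0) (nat_lit 0) (XT.nd (nat_lit 78) (nat_lit 0) (nat_lit 0) (XT.lf (nat_lit 0) (nat_lit 226311857940) (nat_lit 152) (nat_lit 2511466572945) (nat_lit 0) (nat_lit 222665625619) (nat_lit 1) (nat_lit 5) (nat_lit 3) (nat_lit 4) (nat_lit 1) (nat_lit 4) (nat_lit 401) (nat_lit 335) (nat_lit 284)) (XT.lf (nat_lit 0) (nat_lit 290962121051) (nat_lit 152) (nat_lit 2823732702936) (nat_lit 0) (nat_lit 287315506789) (nat_lit 1) (nat_lit 5) (nat_lit 3) (nat_lit 4) (nat_lit 1) (nat_lit 4) (nat_lit 402) (nat_lit 335) (nat_lit 283))) (XT.nd (nat_lit 78) (nat_lit 0) (nat_lit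 0) (XT.lf (nat_lit 0) (nat_lit 365303817654) (nat_lit 152) (nat_lit 3182851345797) (nat_lit 0) (nat_lit 361656871269) (nat_lit 1) (nat_lit 5) (nat_lit 3) (nat_lit 4) (nat_lit 1) (nat_lit 4) (nat_lit 403) (nat_lit 335) (nat_lit 282)) (XT.lf (nat_lit 0) (nat_lit 450791459202) (nat_lit 152) (nat_lit 3595848735846) (nat_lit 0) (nat_lit 447144224015) (nat_lit 1) (nat_lit 5) (nat_lit 3) (nat_lit 4) (nat_lit 1) (nat_lit 4) (nat_lit 404) (nat_lit 335) (nat_lit 281))))) (XT.nd (nat_lit 312) (nat_lit 0) (nat_lit 0) (XT.nd (nat_lit 156) (nat_lit 0) (nat_lit 0) (XT.nd (nat_lit 78) (nat_lit 0) (nat_lit 0) (XT.lf (nat_lit 0) (nat_lit 549097629988) (nat_lit 152) (nat_lit 4070805256801) (nat_lit 0) (nat_lit 545450143668) (nat_lit 1) (nat_lit 5) (nat_lit 3) (nat_lit 4) (nat_lit 1) (nat_lit 4) (nat_lit 405) (nat_lit 335) (nat_lit 280)) (XT.lf (nat_lit 0) (nat_lit 662145711613) (nat_lit 152) (nat_lit 4617013536246)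 (nat_lit 0) (nat_lit 658498006917) (nat_lit 1) (nat_lit 5) (nat_lit 3) (nat_lit 4) (nat_lit 1) (nat_lit 4) (nat_lit 406) (nat_lit 335) (nat_lit 279))) (XT.nd (nat_lit 78) (nat_lit 0) (nat_lit 0) (XT.lf (nat_lit 0) (nat_lit 792147514370) (nat_lit 152) (nat_lit 5245160257909) (nat_lit 0) (nat_lit 788499619782) (nat_lit 1) (nat_lit 5) (nat_lit 3) (nat_lit 4) (nat_lit 1) (nat_lit 4) (nat_lit 407) (nat_lit 335) (nat_lit 278)) (XT.lf (nat_lit 0) (nat_lit 941646551792) (nat_lit 152) (nat_lit 5967535248954) (nat_lit 0) (nat_lit 937998492079) (nat_lit 1) (nat_lit 5) (nat_lit 3) (nat_lit 4) (nat_lit 1) (nat_lit 4) (nat_lit 408) (nat_lit 335) (nat_lit 277)))) (XT.nd (nat_lit 156) (nat_lit 0) (nat_lit 0) (XT.nd (nat_lit 78) (nat_lit 0) (nat_lit 0) (XT.lf (nat_lit 0) (nat_lit 1113567805045) (nat_lit 152) (nat_lit 6798271933117) (nat_lit 0) (nat_lit 1109919601747) (nat_lit 1) (nat_lit 5) (nat_lit 3) (nat_lit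 4) (nat_lit 1) (nat_lit 4) (nat_lit 409) (nat_lit 335) (nat_lit 276)) (XT.lf (nat_lit 0) (nat_lit 1311274950823) (nat_lit 152) (nat_lit 7753623854220) (nat_lit 0) (nat_lit 1307626622668) (nat_lit 1) (nat_lit 5) (nat_lit 3) (nat_lit 4) (nat_lit 1) (nat_lit 4) (nat_lit 410) (nat_lit 335) (nat_lit 275))) (XT.nd (nat_lit 78) (nat_lit 0) (nat_lit 0) (XT.lf (nat_lit 0) (nat_lit 1538636172414) (nat_lit 152) (nat_lit 8852282680284) (nat_lit 0) (nat_lit 1534987735687) (nat_lit 1) (nat_lit 5) (nat_lit 3) (nat_lit 4) (nat_lit 1) (nat_lit 4) (nat_lit 411) (nat_lit 335) (nat_lit 274)) (XT.nd (nat_lit 78) (nat_lit 0) (nat_lit 0) (XT.lf (nat_lit 0) (nat_lit 1800099841544) (nat_lit 152) (nat_lit 10115743910080) (nat_lit 0) (nat_lit 1796451310407) (nat_lit 1) (nat_lit 5) (nat_lit 3) (nat_lit 4) (nat_lit 1) (nat_lit 4) (nat_lit 412) (nat_lit 335) (nat_lit 273)) (XT.lf (nat_lit 0) (nat_lit 2100781551740) (nat_lit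 152) (nat_lit 11568727437234) (nat_lit 0) (nat_lit 2097132938507) (nat_lit 1) (nat_lit 5) (nat_lit 3) (nat_lit 4) (nat_lit 1) (nat_lit 4) (nat_lit 413) (nat_lit 335) (nat_lit 272))))))) (XT.nd (nat_lit 48204) (nat_lit 0) (nat_lit 2204) (XT.nd (nat_lit 312) (nat_lit 0) (nat_lit 0) (XT.nd (nat_lit 156) (nat_lit 0) (nat_lit 0) (XT.nd (nat_lit 78) (nat_lit 0) (nat_lit 0) (XT.lf (nat_lit 0) (nat_lit 2446564206026) (nat_lit 152) (nat_lit 13239661200322) (nat_lit 0) (nat_lit 2442915521406) (nat_lit 1) (nat_lit 5) (nat_lit 3) (nat_lit 4) (nat_lit 1) (nat_lit 4) (nat_lit 414) (nat_lit 335) (nat_lit 271)) (XT.lf (nat_lit 0) (nat_lit 2844213117206) (nat_lit 152) (nat_lit 15161237381664) (nat_lit 0) (nat_lit 2840564370510) (nat_lit 1) (nat_lit 5) (nat_lit 3) (nat_lit 4) (nat_lit 1) (nat_lit 4) (nat_lit 415) (nat_lit 335) (nat_lit 270))) (XT.nd (nat_lit 78) (nat_lit 0) (nat_lit 0) (XT.lf (nat_lit 0) (nat_lit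 3301508372670) (nat_lit 152) (nat_lit 17371052036983) (nat_lit 0) (nat_lit 3297859571995) (nat_lit 1) (nat_lit 5) (nat_lit 3) (nat_lit 4) (nat_lit 1) (nat_lit 4) (nat_lit 416) (nat_lit 335) (nat_lit 269)) (XT.lf (nat_lit 0) (nat_lit 3827397053505) (nat_lit 152) (nat_lit 19912340670404) (nat_lit 0) (nat_lit 3823748205891) (nat_lit 1) (nat_lit 5) (nat_lit 3) (nat_lit 4) (nat_lit 1) (nat_lit 4) (nat_lit 417) (nat_lit 335) (nat_lit 268)))) (XT.nd (nat_lit 47736) (nat_lit 0) (nat_lit 4104) (XT.nd (nat_lit 47658) (nat_lit 0) (nat_lit 4788) (XT.lf (nat_lit 0) (nat_lit 4432168286074) (nat_lit 152) (nat_lit 22834824146494) (nat_lit 0) (nat_lit 4428519397644) (nat_lit 1) (nat_lit 5) (nat_lit 3) (nat_lit 4) (nat_lit 1) (nat_lit 4) (nat_lit 418) (nat_lit 335) (nat_lit 267)) (XT.lf (nat_lit 0) (nat_lit 3507943102) (nat_lit 228) (nat_lit 240805979) (nat_lit 228) (nat_lit 240805979) (nat_lit 64) (nat_lit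 4) (nat_lit 67) (nat_lit 5) (nat_lit 67) (nat_lit 4) (nat_lit 348) (nat_lit 336) (nat_lit 336))) (XT.nd (nat_lit 78) (nat_lit 228) (nat_lit 0) (XT.lf (nat_lit 0) (nat_lit 3203799530) (nat_lit 228) (nat_lit 3610854173) (nat_lit 228) (nat_lit 1585560192) (nat_lit 58) (nat_lit 4) (nat_lit 61) (nat_lit 5) (nat_lit 61) (nat_lit 4) (nat_lit 349) (nat_lit 336) (nat_lit 335)) (XT.lf (nat_lit 0) (nat_lit 5664978070) (nat_lit 228) (nat_lit 1072701311) (nat_lit 0) (nat_lit 2159034384) (nat_lit 55) (nat_lit 5) (nat_lit 58) (nat_lit 4) (nat_lit 55) (nat_lit 4) (nat_lit 350) (nat_lit 336) (nat_lit 334))))) (XT.nd (nat_lit 312) (nat_lit 912) (nat_lit 0) (XT.nd (nat_lit 156) (nat_lit 380) (nat_lit 0) (XT.nd (nat_lit 78) (nat_lit 228) (nat_lit 0) (XT.lf (nat_lit 0) (nat_lit 3561657464) (nat_lit 152) (nat_lit 517946551) (nat_lit 228) (nat_lit 5387872644) (nat_lit 50) (nat_lit 5) (nat_lit 52) (nat_lit 5) (nat_lit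 53) (nat_lit 4) (nat_lit 351) (nat_lit 336) (nat_lit 333)) (XT.lf (nat_lit 0) (nat_lit 2000661383) (nat_lit 228) (nat_lit 1539495436) (nat_lit 76) (nat_lit 6578512695) (nat_lit 47) (nat_lit 5) (nat_lit 50) (nat_lit 5) (nat_lit 48) (nat_lit 4) (nat_lit 352) (nat_lit 336) (nat_lit 332))) (XT.nd (nat_lit 78) (nat_lit 152) (nat_lit 0) (XT.lf (nat_lit 0) (nat_lit 3302268260) (nat_lit 152) (nat_lit 6876025420) (nat_lit 152) (nat_lit 678208400) (nat_lit 44) (nat_lit 4) (nat_lit 46) (nat_lit 5) (nat_lit 46) (nat_lit 4) (nat_lit 353) (nat_lit 336) (nat_lit 331)) (XT.lf (nat_lit 0) (nat_lit 7505113719) (nat_lit 152) (nat_lit 3156854039) (nat_lit 0) (nat_lit 1026271345) (nat_lit 42) (nat_lit 5) (nat_lit 44) (nat_lit 4) (nat_lit 42) (nat_lit 4) (nat_lit 354) (nat_lit 336) (nat_lit 330)))) (XT.nd (nat_lit 156) (nat_lit 380) (nat_lit 0) (XT.nd (nat_lit 78) (nat_lit 228) (nat_lit 0) (XT.lf (nat_lit 0) (nat_lit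 1545780805) (nat_lit 76) (nat_lit 2621627040) (nat_lit 152) (nat_lit 8456134786) (nat_lit 38) (nat_lit 5) (nat_lit 39) (nat_lit 5) (nat_lit 40) (nat_lit 4) (nat_lit 355) (nat_lit 336) (nat_lit 329)) (XT.lf (nat_lit 0) (nat_lit 72486149) (nat_lit 228) (nat_lit 6962253593) (nat_lit 76) (nat_lit 6637569784) (nat_lit 35) (nat_lit 5) (nat_lit 38) (nat_lit 5) (nat_lit 36) (nat_lit 4) (nat_lit 356) (nat_lit 336) (nat_lit 328))) (XT.nd (nat_lit 78) (nat_lit 304) (nat_lit 0) (XT.lf (nat_lit 0) (nat_lit 9550407673) (nat_lit 152) (nat_lit 2749765540) (nat_lit 0) (nat_lit 2547055826) (nat_lit 34) (nat_lit 5) (nat_lit 36) (nat_lit 4) (nat_lit 34) (nat_lit 4) (nat_lit 357) (nat_lit 336) (nat_lit 327)) (XT.nd (nat_lit 78) (nat_lit 76) (nat_lit 0) (XT.lf (nat_lit 0) (nat_lit 1700506033) (nat_lit 76) (nat_lit 2658463176) (nat_lit 152) (nat_lit 11805687831) (nat_lit 31) (nat_lit 5) (nat_lit 32) (nat_lit 5)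 (nat_lit 33) (nat_lit 4) (nat_lit 358) (nat_lit 336) (nat_lit 326)) (XT.lf (nat_lit 0) (nat_lit 6388247807) (nat_lit 76) (nat_lit 9179811439) (nat_lit 76) (nat_lit 2067194298) (nat_lit 30) (nat_lit 4) (nat_lit 31) (nat_lit 5) (nat_lit 31) (nat_lit 4) (nat_lit 359) (nat_lit 336) (nat_lit 325))))))))
noncomputable def xc37 : XT := (XT.nd (nat_lit 1326) (nat_lit 304) (nat_lit 0) (XT.nd (nat_lit 624) (nat_lit 760) (nat_lit 0) (XT.nd (nat_lit 312) (nat_lit 456) (nat_lit 0) (XT.nd (nat_lit 156) (nat_lit 228) (nat_lit 0) (XT.nd (nat_lit 78) (nat_lit 152) (nat_lit 0) (XT.lf (nat_lit 0) (nat_lit 8979981089) (nat_lit 152) (nat_lit 8145513668) (nat_lit 0) (nat_lit 2159032889) (nat_lit 28) (nat_lit 5) (nat_lit 30) (nat_lit 4) (nat_lit 28) (nat_lit 4) (nat_lit 360) (nat_lit 336) (nat_lit 324)) (XT.lf (nat_lit 0) (nat_lit 865550061) (nat_lit 152) (nat_lit 5225118496) (nat_lit 76) (nat_lit 15045528075)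 (nat_lit 26) (nat_lit 5) (nat_lit 28) (nat_lit 5) (nat_lit 27) (nat_lit 4) (nat_lit 361) (nat_lit 336) (nat_lit 323))) (XT.nd (nat_lit 78) (nat_lit 152) (nat_lit 0) (XT.lf (nat_lit 0) (nat_lit 13575564161) (nat_lit 152) (nat_lit 2724860931) (nat_lit 0) (nat_lit 6905840778) (nat_lit 25) (nat_lit 5) (nat_lit 27) (nat_lit 4) (nat_lit 25) (nat_lit 4) (nat_lit 362) (nat_lit 336) (nat_lit 322)) (XT.lf (nat_lit 0) (nat_lit 2986453390) (nat_lit 152) (nat_lit 601087632) (nat_lit 76) (nat_lit 21953389272) (nat_lit 23) (nat_lit 5) (nat_lit 25) (nat_lit 5) (nat_lit 24) (nat_lit 4) (nat_lit 363) (nat_lit 336) (nat_lit 321)))) (XT.nd (nat_lit 156) (nat_lit 152) (nat_lit 0) (XT.nd (nat_lit 78) (nat_lit 152) (nat_lit 0) (XT.lf (nat_lit 0) (nat_lit 669982355) (nat_lit 76) (nat_lit 16951842720) (nat_lit 76) (nat_lit 10528304402) (nat_lit 21) (nat_lit 4) (nat_lit 22) (nat_lit 5) (nat_lit 22) (nat_lit 4) (nat_lit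 364) (nat_lit 336) (nat_lit 320)) (XT.lf (nat_lit 0) (nat_lit 1086092340) (nat_lit 76) (nat_lit 2572504206) (nat_lit 152) (nat_lit 27444016099) (nat_lit 19) (nat_lit 5) (nat_lit 20) (nat_lit 5) (nat_lit 21) (nat_lit 4) (nat_lit 365) (nat_lit 336) (nat_lit 319))) (XT.nd (nat_lit 78) (nat_lit 152) (nat_lit 0) (XT.lf (nat_lit 0) (nat_lit 20146874898) (nat_lit 152) (nat_lit 239876875) (nat_lit 0) (nat_lit 14025613298) (nat_lit 19) (nat_lit 5) (nat_lit 21) (nat_lit 4) (nat_lit 19) (nat_lit 4) (nat_lit 366) (nat_lit 336) (nat_lit 318)) (XT.lf (nat_lit 0) (nat_lit 1445565277) (nat_lit 152) (nat_lit 3184674270) (nat_lit 76) (nat_lit 33538617938) (nat_lit 17) (nat_lit 5) (nat_lit 19) (nat_lit 5) (nat_lit 18) (nat_lit 4) (nat_lit 367) (nat_lit 336) (nat_lit 317))))) (XT.nd (nat_lit 312) (nat_lit 380) (nat_lit 0) (XT.nd (nat_lit 156) (nat_lit 228) (nat_lit 0) (XT.nd (nat_lit 78) (nat_lit 76) (nat_lit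 0) (XT.lf (nat_lit 0) (nat_lit 19550457342) (nat_lit 152) (nat_lit 9077063524) (nat_lit 0) (nat_lit 13761120786) (nat_lit 16) (nat_lit 5) (nat_lit 18) (nat_lit 4) (nat_lit 16) (nat_lit 4) (nat_lit 368) (nat_lit 336) (nat_lit 316)) (XT.lf (nat_lit 0) (nat_lit 28976359255) (nat_lit 76) (nat_lit 12026489225) (nat_lit 76) (nat_lit 6188011419) (nat_lit 15) (nat_lit 4) (nat_lit 16) (nat_lit 5) (nat_lit 16) (nat_lit 4) (nat_lit 369) (nat_lit 336) (nat_lit 315))) (XT.nd (nat_lit 78) (nat_lit 76) (nat_lit 0) (XT.lf (nat_lit 0) (nat_lit 13002888054) (nat_lit 152) (nat_lit 32072950949) (nat_lit 0) (nat_lit 7557323861) (nat_lit 13) (nat_lit 5) (nat_lit 15) (nat_lit 4) (nat_lit 13) (nat_lit 4) (nat_lit 370) (nat_lit 336) (nat_lit 314)) (XT.lf (nat_lit 0) (nat_lit 6706852785) (nat_lit 76) (nat_lit 28794235042) (nat_lit 76) (nat_lit 23314265438) (nat_lit 12) (nat_lit 4) (nat_lit 13) (nat_lit 5) (nat_lit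 13) (nat_lit 4) (nat_lit 371) (nat_lit 336) (nat_lit 313)))) (XT.nd (nat_lit 156) (nat_lit 228) (nat_lit 0) (XT.nd (nat_lit 78) (nat_lit 152) (nat_lit 0) (XT.lf (nat_lit 0) (nat_lit 52773665445) (nat_lit 76) (nat_lit 9302464894) (nat_lit 76) (nat_lit 3792577541) (nat_lit 12) (nat_lit 4) (nat_lit 13) (nat_lit 5) (nat_lit 13) (nat_lit 4) (nat_lit 372) (nat_lit 336) (nat_lit 312)) (XT.lf (nat_lit 0) (nat_lit 18641831292) (nat_lit 152) (nat_lit 41712923204) (nat_lit 0) (nat_lit 13515995377) (nat_lit 10) (nat_lit 5) (nat_lit 12) (nat_lit 4) (nat_lit 10) (nat_lit 4) (nat_lit 373) (nat_lit 336) (nat_lit 311))) (XT.nd (nat_lit 78) (nat_lit 152) (nat_lit 0) (XT.lf (nat_lit 0) (nat_lit 1242910817) (nat_lit 76) (nat_lit 43464906961) (nat_lit 76) (nat_lit 38318124641) (nat_lit 9) (nat_lit 4) (nat_lit 10) (nat_lit 5) (nat_lit 10) (nat_lit 4) (nat_lit 374) (nat_lit 336) (nat_lit 310)) (XT.nd (nat_lit 78)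 (nat_lit 152) (nat_lit 0) (XT.lf (nat_lit 0) (nat_lit 52805455621) (nat_lit 76) (nat_lit 22915489127) (nat_lit 76) (nat_lit 17750492542) (nat_lit 9) (nat_lit 4) (nat_lit 10) (nat_lit 5) (nat_lit 10) (nat_lit 4) (nat_lit 375) (nat_lit 336) (nat_lit 309)) (XT.lf (nat_lit 0) (nat_lit 5625700277) (nat_lit 152) (nat_lit 99016577871) (nat_lit 0) (nat_lit 828630763) (nat_lit 7) (nat_lit 5) (nat_lit 9) (nat_lit 4) (nat_lit 7) (nat_lit 4) (nat_lit 376) (nat_lit 336) (nat_lit 308))))))) (XT.nd (nat_lit 624) (nat_lit 76) (nat_lit 0) (XT.nd (nat_lit 312) (nat_lit 152) (nat_lit 0) (XT.nd (nat_lit 156) (nat_lit 76) (nat_lit 0) (XT.nd (nat_lit 78) (nat_lit 0) (nat_lit 0) (XT.lf (nat_lit 0) (nat_lit 33187428381) (nat_lit 152) (nat_lit 57529973598) (nat_lit 0) (nat_lit 28377606458) (nat_lit 7) (nat_lit 5) (nat_lit 9) (nat_lit 4) (nat_lit 7) (nat_lit 4) (nat_lit 377) (nat_lit 336) (nat_lit 307)) (XT.lf (nat_lit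 0) (nat_lit 64754517168) (nat_lit 152) (nat_lit 10084913146) (nat_lit 0) (nat_lit 59933606195) (nat_lit 7) (nat_lit 5) (nat_lit 9) (nat_lit 4) (nat_lit 7) (nat_lit 4) (nat_lit 378) (nat_lit 336) (nat_lit 306))) (XT.nd (nat_lit 78) (nat_lit 0) (nat_lit 0) (XT.lf (nat_lit 0) (nat_lit 46576838507) (nat_lit 76) (nat_lit 55487919172) (nat_lit 76) (nat_lit 50657365546) (nat_lit 6) (nat_lit 4) (nat_lit 7) (nat_lit 5) (nat_lit 7) (nat_lit 4) (nat_lit 379) (nat_lit 336) (nat_lit 305)) (XT.lf (nat_lit 0) (nat_lit 112138005536) (nat_lit 76) (nat_lit 33024610365) (nat_lit 76) (nat_lit 28185671824) (nat_lit 6) (nat_lit 4) (nat_lit 7) (nat_lit 5) (nat_lit 7) (nat_lit 4) (nat_lit 380) (nat_lit 336) (nat_lit 304)))) (XT.nd (nat_lit 156) (nat_lit 0) (nat_lit 0) (XT.nd (nat_lit 78) (nat_lit 152) (nat_lit 0) (XT.lf (nat_lit 0) (nat_lit 187350252773) (nat_lit 76) (nat_lit 7285743773) (nat_lit 76) (nat_lit 2439514001)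 (nat_lit 6) (nat_lit 4) (nat_lit 7) (nat_lit 5) (nat_lit 7) (nat_lit 4) (nat_lit 381) (nat_lit 336) (nat_lit 303)) (XT.lf (nat_lit 0) (nat_lit 27545594157) (nat_lit 152) (nat_lit 173572588688) (nat_lit 0) (nat_lit 23052473811) (nat_lit 4) (nat_lit 5) (nat_lit 6) (nat_lit 4) (nat_lit 4) (nat_lit 4) (nat_lit 382) (nat_lit 336) (nat_lit 302))) (XT.nd (nat_lit 78) (nat_lit 0) (nat_lit 0) (XT.lf (nat_lit 0) (nat_lit 62305518145) (nat_lit 152) (nat_lit 135178475563) (nat_lit 0) (nat_lit 57807292968) (nat_lit 4) (nat_lit 5) (nat_lit 6) (nat_lit 4) (nat_lit 4) (nat_lit 4) (nat_lit 383) (nat_lit 336) (nat_lit 301)) (XT.lf (nat_lit 0) (nat_lit 102214551390) (nat_lit 152) (nat_lit 91158763618) (nat_lit 0) (nat_lit 97711887229) (nat_lit 4) (nat_lit 5) (nat_lit 6) (nat_lit 4) (nat_lit 4) (nat_lit 4) (nat_lit 384) (nat_lit 336) (nat_lit 300))))) (XT.nd (nat_lit 312) (nat_lit 0) (nat_lit 0) (XT.nd (nat_lit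 156) (nat_lit 0) (nat_lit 0) (XT.nd (nat_lit 78) (nat_lit 76) (nat_lit 0) (XT.lf (nat_lit 0) (nat_lit 148053522804) (nat_lit 152) (nat_lit 40652197621) (nat_lit 0) (nat_lit 143546998657) (nat_lit 4) (nat_lit 5) (nat_lit 6) (nat_lit 4) (nat_lit 4) (nat_lit 4) (nat_lit 385) (nat_lit 336) (nat_lit 299)) (XT.lf (nat_lit 0) (nat_lit 18241929569) (nat_lit 76) (nat_lit 182916071103) (nat_lit 76) (nat_lit 178406190446) (nat_lit 3) (nat_lit 4) (nat_lit 4) (nat_lit 5) (nat_lit 4) (nat_lit 4) (nat_lit 386) (nat_lit 336) (nat_lit 298))) (XT.nd (nat_lit 78) (nat_lit 0) (nat_lit 0) (XT.lf (nat_lit 0) (nat_lit 88339536192) (nat_lit 76) (nat_lit 175027277263) (nat_lit 76) (nat_lit 170514477903) (nat_lit 3) (nat_lit 4) (nat_lit 4) (nat_lit 5) (nat_lit 4) (nat_lit 4) (nat_lit 387) (nat_lit 336) (nat_lit 297)) (XT.lf (nat_lit 0) (nat_lit 168871424474) (nat_lit 76) (nat_lit 165996496064) (nat_lit 76) (nat_lit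 161481158700) (nat_lit 3) (nat_lit 4) (nat_lit 4) (nat_lit 5) (nat_lit 4) (nat_lit 4) (nat_lit 388) (nat_lit 336) (nat_lit 296)))) (XT.nd (nat_lit 156) (nat_lit 0) (nat_lit 0) (XT.nd (nat_lit 78) (nat_lit 0) (nat_lit 0) (XT.lf (nat_lit 0) (nat_lit 261413218316) (nat_lit 76) (nat_lit 155647038310) (nat_lit 76) (nat_lit 151129493986) (nat_lit 3) (nat_lit 4) (nat_lit 4) (nat_lit 5) (nat_lit 4) (nat_lit 4) (nat_lit 389) (nat_lit 336) (nat_lit 295)) (XT.lf (nat_lit 0) (nat_lit 367775518031) (nat_lit 76) (nat_lit 143776414608) (nat_lit 76) (nat_lit 139256951189) (nat_lit 3) (nat_lit 4) (nat_lit 4) (nat_lit 5) (nat_lit 4) (nat_lit 4) (nat_lit 390) (nat_lit 336) (nat_lit 294))) (XT.nd (nat_lit 78) (nat_lit 0) (nat_lit 0) (XT.lf (nat_lit 0) (nat_lit 490039325138) (nat_lit 76) (nat_lit 130152373626) (nat_lit 76) (nat_lit 125631241428) (nat_lit 3) (nat_lit 4) (nat_lit 4) (nat_lit 5) (nat_lit 4) (nat_lit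 4) (nat_lit 391) (nat_lit 336) (nat_lit 293)) (XT.nd (nat_lit 78) (nat_lit 0) (nat_lit 0) (XT.lf (nat_lit 0) (nat_lit 630596757600) (nat_lit 76) (nat_lit 114508358040) (nat_lit 76) (nat_lit 109985774731) (nat_lit 3) (nat_lit 4) (nat_lit 4) (nat_lit 5) (nat_lit 4) (nat_lit 4) (nat_lit 392) (nat_lit 336) (nat_lit 292)) (XT.lf (nat_lit 0) (nat_lit 792197852140) (nat_lit 76) (nat_lit 96538289284) (nat_lit 76) (nat_lit 92014444139) (nat_lit 3) (nat_lit 4) (nat_lit 4) (nat_lit 5) (nat_lit 4) (nat_lit 4) (nat_lit 393) (nat_lit 336) (nat_lit 291))))))))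
noncomputable def xc38 : XT := (XT.nd (nat_lit 1326) (nat_lit 0) (nat_lit 0) (XT.nd (nat_lit 624) (nat_lit 0) (nat_lit 0) (XT.nd (nat_lit 312) (nat_lit 0) (nat_lit 0) (XT.nd (nat_lit 156) (nat_lit 152) (nat_lit 0) (XT.nd (nat_lit 78) (nat_lit 0) (nat_lit 0) (XT.lf (nat_lit 0) (nat_lit 978004369302) (nat_lit 76) (nat_lit 75890579057) (nat_lit 76) (nat_lit 71365636663) (nat_lit 3) (nat_lit 4) (nat_lit 4) (nat_lit 5) (nat_lit 4) (nat_lit 4) (nat_lit 394) (nat_lit 336) (nat_lit 290)) (XT.lf (nat_lit 0) (nat_lit 1191651653989) (nat_lit 76) (nat_lit 52161250419) (nat_lit 76) (nat_lit 47635353895) (nat_lit 3) (nat_lit 4) (nat_lit 4) (nat_lit 5) (nat_lit 4) (nat_lit 4) (nat_lit 395) (nat_lit 336) (nat_lit 289))) (XT.nd (nat_lit 78) (nat_lit 152) (nat_lit 0) (XT.lf (nat_lit 0) (nat_lit 1437319761770) (nat_lit 76) (nat_lit 24886033897) (nat_lit 76) (nat_lit 20359307695) (nat_lit 3) (nat_lit 4) (nat_lit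 4) (nat_lit 5) (nat_lit 4) (nat_lit 4) (nat_lit 396) (nat_lit 336) (nat_lit 288)) (XT.lf (nat_lit 0) (nat_lit 11055297083) (nat_lit 152) (nat_lit 1684361956700) (nat_lit 0) (nat_lit 6863215916) (nat_lit 1) (nat_lit 5) (nat_lit 3) (nat_lit 4) (nat_lit 1) (nat_lit 4) (nat_lit 397) (nat_lit 336) (nat_lit 287)))) (XT.nd (nat_lit 156) (nat_lit 0) (nat_lit 0) (XT.nd (nat_lit 78) (nat_lit 0) (nat_lit 0) (XT.lf (nat_lit 0) (nat_lit 48039960308) (nat_lit 152) (nat_lit 1862858508181) (nat_lit 0) (nat_lit 43847298256) (nat_lit 1) (nat_lit 5) (nat_lit 3) (nat_lit 4) (nat_lit 1) (nat_lit 4) (nat_lit 398) (nat_lit 336) (nat_lit 286)) (XT.lf (nat_lit 0) (nat_lit 90563036591) (nat_lit 152) (nat_lit 2068148695329) (nat_lit 0) (nat_lit 86369869422) (nat_lit 1) (nat_lit 5) (nat_lit 3) (nat_lit 4) (nat_lit 1) (nat_lit 4) (nat_lit 399) (nat_lit 336) (nat_lit 285))) (XT.nd (nat_lit 78) (nat_lit 0) (nat_lit 0)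 (XT.lf (nat_lit 0) (nat_lit 139456499163) (nat_lit 152) (nat_lit 2304249065284) (nat_lit 0) (nat_lit 135262892762) (nat_lit 1) (nat_lit 5) (nat_lit 3) (nat_lit 4) (nat_lit 1) (nat_lit 4) (nat_lit 400) (nat_lit 336) (nat_lit 284)) (XT.lf (nat_lit 0) (nat_lit 195676959249) (nat_lit 152) (nat_lit 2575778973111) (nat_lit 0) (nat_lit 191482970906) (nat_lit 1) (nat_lit 5) (nat_lit 3) (nat_lit 4) (nat_lit 1) (nat_lit 4) (nat_lit 401) (nat_lit 336) (nat_lit 283))))) (XT.nd (nat_lit 312) (nat_lit 0) (nat_lit 0) (XT.nd (nat_lit 156) (nat_lit 0) (nat_lit 0) (XT.nd (nat_lit 78) (nat_lit 0) (nat_lit 0) (XT.lf (nat_lit 0) (nat_lit 260324382372) (nat_lit 152) (nat_lit 2888050960484) (nat_lit 0) (nat_lit 256130061906) (nat_lit 1) (nat_lit 5) (nat_lit 3) (nat_lit 4) (nat_lit 1) (nat_lit 4) (nat_lit 402) (nat_lit 336) (nat_lit 282)) (XT.lf (nat_lit 0) (nat_lit 334663609419) (nat_lit 152) (nat_lit 3247174696721)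 (nat_lit 0) (nat_lit 330469000151) (nat_lit 1) (nat_lit 5) (nat_lit 3) (nat_lit 4) (nat_lit 1) (nat_lit 4) (nat_lit 403) (nat_lit 336) (nat_lit 281))) (XT.nd (nat_lit 78) (nat_lit 0) (nat_lit 0) (XT.lf (nat_lit 0) (nat_lit 420149103528) (nat_lit 152) (nat_lit 3660176515792) (nat_lit 0) (nat_lit 415954243127) (nat_lit 1) (nat_lit 5) (nat_lit 3) (nat_lit 4) (nat_lit 1) (nat_lit 4) (nat_lit 404) (nat_lit 336) (nat_lit 280)) (XT.lf (nat_lit 0) (nat_lit 518453406974) (nat_lit 152) (nat_lit 4135136888072) (nat_lit 0) (nat_lit 514258328198) (nat_lit 1) (nat_lit 5) (nat_lit 3) (nat_lit 4) (nat_lit 1) (nat_lit 4) (nat_lit 405) (nat_lit 336) (nat_lit 279)))) (XT.nd (nat_lit 156) (nat_lit 0) (nat_lit 0) (XT.nd (nat_lit 78) (nat_lit 0) (nat_lit 0) (XT.lf (nat_lit 0) (nat_lit 631499864827) (nat_lit 152) (nat_lit 4681348516494) (nat_lit 0) (nat_lit 627304596158) (nat_lit 1) (nat_lit 5) (nat_lit 3) (nat_lit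 4) (nat_lit 1) (nat_lit 4) (nat_lit 406) (nat_lit 336) (nat_lit 278)) (XT.lf (nat_lit 0) (nat_lit 761500255608) (nat_lit 152) (nat_lit 5309498150311) (nat_lit 0) (nat_lit 757304821815) (nat_lit 1) (nat_lit 5) (nat_lit 3) (nat_lit 4) (nat_lit 1) (nat_lit 4) (nat_lit 407) (nat_lit 336) (nat_lit 277))) (XT.nd (nat_lit 78) (nat_lit 0) (nat_lit 0) (XT.lf (nat_lit 0) (nat_lit 910998065224) (nat_lit 152) (nat_lit 6031875673664) (nat_lit 0) (nat_lit 906802487845) (nat_lit 1) (nat_lit 5) (nat_lit 3) (nat_lit 4) (nat_lit 1) (nat_lit 4) (nat_lit 408) (nat_lit 336) (nat_lit 276)) (XT.nd (nat_lit 78) (nat_lit 0) (nat_lit 0) (XT.lf (nat_lit 0) (nat_lit 1082918250820) (nat_lit 152) (nat_lit 6862614559834) (nat_lit 0) (nat_lit 1078722548584) (nat_lit 1) (nat_lit 5) (nat_lit 3) (nat_lit 4) (nat_lit 1) (nat_lit 4) (nat_lit 409) (nat_lit 336) (nat_lit 275)) (XT.lf (nat_lit 0) (nat_lit 1280624468201) (nat_lit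 152) (nat_lit 7817968395726) (nat_lit 0) (nat_lit 1276428657393) (nat_lit 1) (nat_lit 5) (nat_lit 3) (nat_lit 4) (nat_lit 1) (nat_lit 4) (nat_lit 410) (nat_lit 336) (nat_lit 274))))))) (XT.nd (nat_lit 48048) (nat_lit 0) (nat_lit 3116) (XT.nd (nat_lit 312) (nat_lit 0) (nat_lit 0) (XT.nd (nat_lit 156) (nat_lit 0) (nat_lit 0) (XT.nd (nat_lit 78) (nat_lit 0) (nat_lit 0) (XT.lf (nat_lit 0) (nat_lit 1507984882490) (nat_lit 152) (nat_lit 8916628886823) (nat_lit 0) (nat_lit 1503788977272) (nat_lit 1) (nat_lit 5) (nat_lit 3) (nat_lit 4) (nat_lit 1) (nat_lit 4) (nat_lit 411) (nat_lit 336) (nat_lit 273)) (XT.lf (nat_lit 0) (nat_lit 1769447849618) (nat_lit 152) (nat_lit 10180091564475) (nat_lit 0) (nat_lit 1765251862305) (nat_lit 1) (nat_lit 5) (nat_lit 3) (nat_lit 4) (nat_lit 1) (nat_lit 4) (nat_lit 412) (nat_lit 336) (nat_lit 272))) (XT.nd (nat_lit 78) (nat_lit 0) (nat_lit 0) (XT.lf (nat_lit 0) (nat_lit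 2070128949377) (nat_lit 152) (nat_lit 11633076350634) (nat_lit 0) (nat_lit 2065932890676) (nat_lit 1) (nat_lit 5) (nat_lit 3) (nat_lit 4) (nat_lit 1) (nat_lit 4) (nat_lit 413) (nat_lit 336) (nat_lit 271)) (XT.lf (nat_lit 0) (nat_lit 2415911072850) (nat_lit 152) (nat_lit 13304011208509) (nat_lit 0) (nat_lit 2411714952073) (nat_lit 1) (nat_lit 5) (nat_lit 3) (nat_lit 4) (nat_lit 1) (nat_lit 4) (nat_lit 414) (nat_lit 336) (nat_lit 270)))) (XT.nd (nat_lit 156) (nat_lit 0) (nat_lit 0) (XT.nd (nat_lit 78) (nat_lit 0) (nat_lit 0) (XT.lf (nat_lit 0) (nat_lit 2813559522451) (nat_lit 152) (nat_lit 15225588341839) (nat_lit 0) (nat_lit 2809363347695) (nat_lit 1) (nat_lit 5) (nat_lit 3) (nat_lit 4) (nat_lit 1) (nat_lit 4) (nat_lit 415) (nat_lit 336) (nat_lit 269)) (XT.lf (nat_lit 0) (nat_lit 3270854376544) (nat_lit 152) (nat_lit 17435403824974) (nat_lit 0) (nat_lit 3266658154850) (nat_lit 1) (nat_lit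 5) (nat_lit 3) (nat_lit 4) (nat_lit 1) (nat_lit 4) (nat_lit 416) (nat_lit 336) (nat_lit 268))) (XT.nd (nat_lit 78) (nat_lit 0) (nat_lit 0) (XT.lf (nat_lit 0) (nat_lit 3796742708360) (nat_lit 152) (nat_lit 19976693178235) (nat_lit 0) (nat_lit 3792546445849) (nat_lit 1) (nat_lit 5) (nat_lit 3) (nat_lit 4) (nat_lit 1) (nat_lit 4) (nat_lit 417) (nat_lit 336) (nat_lit 267)) (XT.lf (nat_lit 0) (nat_lit 4401513637434) (nat_lit 152) (nat_lit 22899177280272) (nat_lit 0) (nat_lit 4397317339431) (nat_lit 1) (nat_lit 5) (nat_lit 3) (nat_lit 4) (nat_lit 1) (nat_lit 4) (nat_lit 418) (nat_lit 336) (nat_lit 266))))) (XT.nd (nat_lit 312) (nat_lit 1216) (nat_lit 0) (XT.nd (nat_lit 156) (nat_lit 684) (nat_lit 0) (XT.nd (nat_lit 78) (nat_lit 760) (nat_lit 0) (XT.lf (nat_lit 0) (nat_lit 1776474893) (nat_lit 532) (nat_lit 96632088) (nat_lit 0) (nat_lit 1776474893) (nat_lit 77) (nat_lit 5) (nat_lit 84) (nat_lit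 4) (nat_lit 77) (nat_lit 4) (nat_lit 346) (nat_lit 337) (nat_lit 337)) (XT.lf (nat_lit 0) (nat_lit 2732458269) (nat_lit 304) (nat_lit 4671379513) (nat_lit 0) (nat_lit 217043144) (nat_lit 67) (nat_lit 5) (nat_lit 71) (nat_lit 4) (nat_lit 67) (nat_lit 4) (nat_lit 347) (nat_lit 337) (nat_lit 336))) (XT.nd (nat_lit 78) (nat_lit 380) (nat_lit 0) (XT.lf (nat_lit 0) (nat_lit 1511356564) (nat_lit 304) (nat_lit 1559110968) (nat_lit 76) (nat_lit 4938533297) (nat_lit 63) (nat_lit 5) (nat_lit 67) (nat_lit 5) (nat_lit 64) (nat_lit 4) (nat_lit 348) (nat_lit 337) (nat_lit 335)) (XT.lf (nat_lit 0) (nat_lit 2008641100) (nat_lit 228) (nat_lit 6287578465) (nat_lit 228) (nat_lit 172071206) (nat_lit 58) (nat_lit 4) (nat_lit 61) (nat_lit 5) (nat_lit 61) (nat_lit 4) (nat_lit 349) (nat_lit 337) (nat_lit 334)))) (XT.nd (nat_lit 156) (nat_lit 608) (nat_lit 0) (XT.nd (nat_lit 78) (nat_lit 380) (nat_lit 0) (XT.lf (nat_lit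 0) (nat_lit 5989061712) (nat_lit 152) (nat_lit 566698955) (nat_lit 228) (nat_lit 2442573274) (nat_lit 55) (nat_lit 5) (nat_lit 57) (nat_lit 5) (nat_lit 58) (nat_lit 4) (nat_lit 350) (nat_lit 337) (nat_lit 333)) (XT.lf (nat_lit 0) (nat_lit 747784977) (nat_lit 152) (nat_lit 3608603876) (nat_lit 228) (nat_lit 5249104619) (nat_lit 50) (nat_lit 5) (nat_lit 52) (nat_lit 5) (nat_lit 53) (nat_lit 4) (nat_lit 351) (nat_lit 337) (nat_lit 332))) (XT.nd (nat_lit 78) (nat_lit 380) (nat_lit 0) (XT.lf (nat_lit 0) (nat_lit 1647807015) (nat_lit 228) (nat_lit 5263021414) (nat_lit 76) (nat_lit 3384432146) (nat_lit 47) (nat_lit 5) (nat_lit 50) (nat_lit 5) (nat_lit 48) (nat_lit 4) (nat_lit 352) (nat_lit 337) (nat_lit 331)) (XT.nd (nat_lit 78) (nat_lit 304) (nat_lit 0) (XT.lf (nat_lit 0) (nat_lit 9261350699) (nat_lit 152) (nat_lit 1401631879) (nat_lit 0) (nat_lit 415295727) (nat_lit 46) (nat_lit 5) (nat_lit 48)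 (nat_lit 4) (nat_lit 46) (nat_lit 4) (nat_lit 353) (nat_lit 337) (nat_lit 330)) (XT.lf (nat_lit 0) (nat_lit 2808037998) (nat_lit 76) (nat_lit 3129060521) (nat_lit 152) (nat_lit 6014055213) (nat_lit 42) (nat_lit 5) (nat_lit 43) (nat_lit 5) (nat_lit 44) (nat_lit 4) (nat_lit 354) (nat_lit 337) (nat_lit 329))))))))
noncomputable def xc39 : XT := (XT.nd (nat_lit 1326) (nat_lit 760) (nat_lit 0) (XT.nd (nat_lit 624) (nat_lit 912) (nat_lit 0) (XT.nd (nat_lit 312) (nat_lit 608) (nat_lit 0) (XT.nd (nat_lit 156) (nat_lit 380) (nat_lit 0) (XT.nd (nat_lit 78) (nat_lit 76) (nat_lit 0) (XT.lf (nat_lit 0) (nat_lit 1877567510) (nat_lit 228) (nat_lit 5488675611) (nat_lit 76) (nat_lit 5567814582) (nat_lit 39) (nat_lit 5) (nat_lit 42) (nat_lit 5) (nat_lit 40) (nat_lit 4) (nat_lit 355) (nat_lit 337) (nat_lit 328)) (XT.lf (nat_lit 0) (nat_lit 10779091987) (nat_lit 152) (nat_lit 1627964545) (nat_lit 0) (nat_lit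 1630333783) (nat_lit 38) (nat_lit 5) (nat_lit 40) (nat_lit 4) (nat_lit 38) (nat_lit 4) (nat_lit 356) (nat_lit 337) (nat_lit 327))) (XT.nd (nat_lit 78) (nat_lit 76) (nat_lit 0) (XT.lf (nat_lit 0) (nat_lit 2522582003) (nat_lit 76) (nat_lit 3277015174) (nat_lit 152) (nat_lit 9465649525) (nat_lit 34) (nat_lit 5) (nat_lit 35) (nat_lit 5) (nat_lit 36) (nat_lit 4) (nat_lit 357) (nat_lit 337) (nat_lit 326)) (XT.lf (nat_lit 0) (nat_lit 7018329306) (nat_lit 76) (nat_lit 9385563324) (nat_lit 76) (nat_lit 236216247) (nat_lit 33) (nat_lit 4) (nat_lit 34) (nat_lit 5) (nat_lit 34) (nat_lit 4) (nat_lit 358) (nat_lit 337) (nat_lit 325)))) (XT.nd (nat_lit 156) (nat_lit 304) (nat_lit 0) (XT.nd (nat_lit 78) (nat_lit 152) (nat_lit 0) (XT.lf (nat_lit 0) (nat_lit 10192431839) (nat_lit 152) (nat_lit 6515319894) (nat_lit 0) (nat_lit 1466807260) (nat_lit 31) (nat_lit 5) (nat_lit 33) (nat_lit 4) (nat_lit 31) (nat_lit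 4) (nat_lit 359) (nat_lit 337) (nat_lit 324)) (XT.lf (nat_lit 0) (nat_lit 2655475326) (nat_lit 152) (nat_lit 3423111478) (nat_lit 76) (nat_lit 13813078437) (nat_lit 29) (nat_lit 5) (nat_lit 31) (nat_lit 5) (nat_lit 30) (nat_lit 4) (nat_lit 360) (nat_lit 337) (nat_lit 323))) (XT.nd (nat_lit 78) (nat_lit 228) (nat_lit 0) (XT.lf (nat_lit 0) (nat_lit 14908340156) (nat_lit 152) (nat_lit 455353487) (nat_lit 0) (nat_lit 6446705085) (nat_lit 28) (nat_lit 5) (nat_lit 30) (nat_lit 4) (nat_lit 28) (nat_lit 4) (nat_lit 361) (nat_lit 337) (nat_lit 322)) (XT.lf (nat_lit 0) (nat_lit 2499881382) (nat_lit 76) (nat_lit 2844425703) (nat_lit 152) (nat_lit 18614164247) (nat_lit 25) (nat_lit 5) (nat_lit 26) (nat_lit 5) (nat_lit 27) (nat_lit 4) (nat_lit 362) (nat_lit 337) (nat_lit 321))))) (XT.nd (nat_lit 312) (nat_lit 456) (nat_lit 0) (XT.nd (nat_lit 156) (nat_lit 228) (nat_lit 0) (XT.nd (nat_lit 78) (nat_lit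 152) (nat_lit 0) (XT.lf (nat_lit 0) (nat_lit 5014209750) (nat_lit 76) (nat_lit 14722666823) (nat_lit 76) (nat_lit 6620121535) (nat_lit 24) (nat_lit 4) (nat_lit 25) (nat_lit 5) (nat_lit 25) (nat_lit 4) (nat_lit 363) (nat_lit 337) (nat_lit 320)) (XT.lf (nat_lit 0) (nat_lit 7089622965) (nat_lit 76) (nat_lit 266357046) (nat_lit 152) (nat_lit 21702196524) (nat_lit 22) (nat_lit 5) (nat_lit 23) (nat_lit 5) (nat_lit 24) (nat_lit 4) (nat_lit 364) (nat_lit 337) (nat_lit 319))) (XT.nd (nat_lit 78) (nat_lit 152) (nat_lit 0) (XT.lf (nat_lit 0) (nat_lit 8129289271) (nat_lit 76) (nat_lit 15819162852) (nat_lit 76) (nat_lit 8129381892) (nat_lit 21) (nat_lit 4) (nat_lit 22) (nat_lit 5) (nat_lit 22) (nat_lit 4) (nat_lit 365) (nat_lit 337) (nat_lit 318)) (XT.lf (nat_lit 0) (nat_lit 7672197217) (nat_lit 152) (nat_lit 27336663162) (nat_lit 0) (nat_lit 481841215) (nat_lit 19) (nat_lit 5) (nat_lit 21) (nat_lit 4)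 (nat_lit 19) (nat_lit 4) (nat_lit 366) (nat_lit 337) (nat_lit 317)))) (XT.nd (nat_lit 156) (nat_lit 228) (nat_lit 0) (XT.nd (nat_lit 78) (nat_lit 152) (nat_lit 0) (XT.lf (nat_lit 0) (nat_lit 6218874978) (nat_lit 76) (nat_lit 20174343330) (nat_lit 76) (nat_lit 12922953895) (nat_lit 18) (nat_lit 4) (nat_lit 19) (nat_lit 5) (nat_lit 19) (nat_lit 4) (nat_lit 367) (nat_lit 337) (nat_lit 316)) (XT.lf (nat_lit 0) (nat_lit 2262942389) (nat_lit 76) (nat_lit 2336771251) (nat_lit 152) (nat_lit 39059404729) (nat_lit 16) (nat_lit 5) (nat_lit 17) (nat_lit 5) (nat_lit 18) (nat_lit 4) (nat_lit 368) (nat_lit 337) (nat_lit 315))) (XT.nd (nat_lit 78) (nat_lit 228) (nat_lit 0) (XT.lf (nat_lit 0) (nat_lit 25182418795) (nat_lit 152) (nat_lit 4972199258) (nat_lit 0) (nat_lit 18376296547) (nat_lit 16) (nat_lit 5) (nat_lit 18) (nat_lit 4) (nat_lit 16) (nat_lit 4) (nat_lit 369) (nat_lit 337) (nat_lit 314)) (XT.nd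 (nat_lit 78) (nat_lit 152) (nat_lit 0) (XT.lf (nat_lit 0) (nat_lit 38326531391) (nat_lit 76) (nat_lit 11294382037) (nat_lit 76) (nat_lit 4451101944) (nat_lit 15) (nat_lit 4) (nat_lit 16) (nat_lit 5) (nat_lit 16) (nat_lit 4) (nat_lit 370) (nat_lit 337) (nat_lit 313)) (XT.lf (nat_lit 0) (nat_lit 17325391019) (nat_lit 152) (nat_lit 32053827562) (nat_lit 0) (nat_lit 10959102813) (nat_lit 13) (nat_lit 5) (nat_lit 15) (nat_lit 4) (nat_lit 13) (nat_lit 4) (nat_lit 371) (nat_lit 337) (nat_lit 312))))))) (XT.nd (nat_lit 702) (nat_lit 228) (nat_lit 0) (XT.nd (nat_lit 312) (nat_lit 228) (nat_lit 0) (XT.nd (nat_lit 156) (nat_lit 228) (nat_lit 0) (XT.nd (nat_lit 78) (nat_lit 0) (nat_lit 0) (XT.lf (nat_lit 0) (nat_lit 12134105700) (nat_lit 76) (nat_lit 30861145223) (nat_lit 76) (nat_lit 24468841582) (nat_lit 12) (nat_lit 4) (nat_lit 13) (nat_lit 5) (nat_lit 13) (nat_lit 4) (nat_lit 372) (nat_lit 337) (nat_lit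 311)) (XT.lf (nat_lit 0) (nat_lit 64534258737) (nat_lit 76) (nat_lit 8739378041) (nat_lit 76) (nat_lit 2324452283) (nat_lit 12) (nat_lit 4) (nat_lit 13) (nat_lit 5) (nat_lit 13) (nat_lit 4) (nat_lit 373) (nat_lit 337) (nat_lit 310))) (XT.nd (nat_lit 78) (nat_lit 76) (nat_lit 0) (XT.lf (nat_lit 0) (nat_lit 23252011755) (nat_lit 152) (nat_lit 44260156085) (nat_lit 0) (nat_lit 17294051418) (nat_lit 10) (nat_lit 5) (nat_lit 12) (nat_lit 4) (nat_lit 10) (nat_lit 4) (nat_lit 374) (nat_lit 337) (nat_lit 309)) (XT.lf (nat_lit 0) (nat_lit 4825044937) (nat_lit 76) (nat_lit 48247921478) (nat_lit 76) (nat_lit 42274122650) (nat_lit 9) (nat_lit 4) (nat_lit 10) (nat_lit 5) (nat_lit 10) (nat_lit 4) (nat_lit 375) (nat_lit 337) (nat_lit 308)))) (XT.nd (nat_lit 156) (nat_lit 76) (nat_lit 0) (XT.nd (nat_lit 78) (nat_lit 152) (nat_lit 0) (XT.lf (nat_lit 0) (nat_lit 63679054397) (nat_lit 76) (nat_lit 24842619864)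 (nat_lit 76) (nat_lit 18855048435) (nat_lit 9) (nat_lit 4) (nat_lit 10) (nat_lit 5) (nat_lit 10) (nat_lit 4) (nat_lit 376) (nat_lit 337) (nat_lit 307)) (XT.lf (nat_lit 0) (nat_lit 7857462772) (nat_lit 152) (nat_lit 111020705127) (nat_lit 0) (nat_lit 2302326102) (nat_lit 7) (nat_lit 5) (nat_lit 9) (nat_lit 4) (nat_lit 7) (nat_lit 4) (nat_lit 377) (nat_lit 337) (nat_lit 306))) (XT.nd (nat_lit 78) (nat_lit 76) (nat_lit 0) (XT.lf (nat_lit 0) (nat_lit 39372418684) (nat_lit 152) (nat_lit 63682635356) (nat_lit 0) (nat_lit 33807639361) (nat_lit 7) (nat_lit 5) (nat_lit 9) (nat_lit 4) (nat_lit 7) (nat_lit 4) (nat_lit 378) (nat_lit 337) (nat_lit 305)) (XT.nd (nat_lit 78) (nat_lit 76) (nat_lit 0) (XT.lf (nat_lit 0) (nat_lit 75517152175) (nat_lit 152) (nat_lit 9443881177) (nat_lit 0) (nat_lit 69943987936) (nat_lit 7) (nat_lit 5) (nat_lit 9) (nat_lit 4) (nat_lit 7) (nat_lit 4) (nat_lit 379) (nat_lit 337)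 (nat_lit 304)) (XT.lf (nat_lit 0) (nat_lit 55534827410) (nat_lit 76) (nat_lit 62799629335) (nat_lit 76) (nat_lit 57219173866) (nat_lit 6) (nat_lit 4) (nat_lit 7) (nat_lit 5) (nat_lit 7) (nat_lit 4) (nat_lit 380) (nat_lit 337) (nat_lit 303)))))) (XT.nd (nat_lit 312) (nat_lit 76) (nat_lit 0) (XT.nd (nat_lit 156) (nat_lit 152) (nat_lit 0) (XT.nd (nat_lit 78) (nat_lit 0) (nat_lit 0) (XT.lf (nat_lit 0) (nat_lit 130673022130) (nat_lit 76) (nat_lit 37098756083) (nat_lit 76) (nat_lit 31511960414) (nat_lit 6) (nat_lit 4) (nat_lit 7) (nat_lit 5) (nat_lit 7) (nat_lit 4) (nat_lit 381) (nat_lit 337) (nat_lit 302)) (XT.lf (nat_lit 0) (nat_lit 216943500048) (nat_lit 76) (nat_lit 7613782872) (nat_lit 76) (nat_lit 2021473984) (nat_lit 6) (nat_lit 4) (nat_lit 7) (nat_lit 5) (nat_lit 7) (nat_lit 4) (nat_lit 382) (nat_lit 337) (nat_lit 301))) (XT.nd (nat_lit 78) (nat_lit 0) (nat_lit 0) (XT.lf (nat_lit 0) (nat_lit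 32376017807) (nat_lit 152) (nat_lit 198170828081) (nat_lit 0) (nat_lit 27193515038) (nat_lit 4) (nat_lit 5) (nat_lit 6) (nat_lit 4) (nat_lit 4) (nat_lit 4) (nat_lit 383) (nat_lit 337) (nat_lit 300)) (XT.lf (nat_lit 0) (nat_lit 72258810672) (nat_lit 152) (nat_lit 154205117410) (nat_lit 0) (nat_lit 67072447917) (nat_lit 4) (nat_lit 5) (nat_lit 6) (nat_lit 4) (nat_lit 4) (nat_lit 4) (nat_lit 384) (nat_lit 337) (nat_lit 299)))) (XT.nd (nat_lit 156) (nat_lit 76) (nat_lit 0) (XT.nd (nat_lit 78) (nat_lit 0) (nat_lit 0) (XT.lf (nat_lit 0) (nat_lit 118074964364) (nat_lit 152) (nat_lit 103745509042) (nat_lit 0) (nat_lit 112885245100) (nat_lit 4) (nat_lit 5) (nat_lit 6) (nat_lit 4) (nat_lit 4) (nat_lit 4) (nat_lit 385) (nat_lit 337) (nat_lit 298)) (XT.lf (nat_lit 0) (nat_lit 170720881891) (nat_lit 152) (nat_lit 45804749769) (nat_lit 0) (nat_lit 165528243922) (nat_lit 4) (nat_lit 5) (nat_lit 6) (nat_lit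 4) (nat_lit 4) (nat_lit 4) (nat_lit 386) (nat_lit 337) (nat_lit 297))) (XT.nd (nat_lit 78) (nat_lit 0) (nat_lit 0) (XT.lf (nat_lit 0) (nat_lit 21843483468) (nat_lit 76) (nat_lit 209908444907) (nat_lit 76) (nat_lit 204713268935) (nat_lit 3) (nat_lit 4) (nat_lit 4) (nat_lit 5) (nat_lit 4) (nat_lit 4) (nat_lit 387) (nat_lit 337) (nat_lit 296)) (XT.nd (nat_lit 78) (nat_lit 0) (nat_lit 0) (XT.lf (nat_lit 0) (nat_lit 102342870502) (nat_lit 76) (nat_lit 200894380277) (nat_lit 76) (nat_lit 195696997346) (nat_lit 3) (nat_lit 4) (nat_lit 4) (nat_lit 5) (nat_lit 4) (nat_lit 4) (nat_lit 388) (nat_lit 337) (nat_lit 295)) (XT.lf (nat_lit 0) (nat_lit 194856402389) (nat_lit 76) (nat_lit 190559458670) (nat_lit 76) (nat_lit 185360156643) (nat_lit 3) (nat_lit 4) (nat_lit 4) (nat_lit 5) (nat_lit 4) (nat_lit 4) (nat_lit 389) (nat_lit 337) (nat_lit 294))))))))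
noncomputable def xc40 : XT := (XT.nd (nat_lit 1326) (nat_lit 0) (nat_lit 0) (XT.nd (nat_lit 624) (nat_lit 152) (nat_lit 0) (XT.nd (nat_lit 312) (nat_lit 0) (nat_lit 0) (XT.nd (nat_lit 156) (nat_lit 0) (nat_lit 0) (XT.nd (nat_lit 78) (nat_lit 0) (nat_lit 0) (XT.lf (nat_lit 0) (nat_lit 301194126493) (nat_lit 76) (nat_lit 178701475096) (nat_lit 76) (nat_lit 173500504290) (nat_lit 3) (nat_lit 4) (nat_lit 4) (nat_lit 5) (nat_lit 4) (nat_lit 4) (nat_lit 390) (nat_lit 337) (nat_lit 293)) (XT.lf (nat_lit 0) (nat_lit 423436563501) (nat_lit 76) (nat_lit 165088425529) (nat_lit 76) (nat_lit 159886003612) (nat_lit 3) (nat_lit 4) (nat_lit 4) (nat_lit 5) (nat_lit 4) (nat_lit 4) (nat_lit 391) (nat_lit 337) (nat_lit 292))) (XT.nd (nat_lit 78) (nat_lit 0) (nat_lit 0) (XT.lf (nat_lit 0) (nat_lit 563975413270) (nat_lit 76) (nat_lit 149453967696) (nat_lit 76) (nat_lit 144250283942) (nat_lit 3) (nat_lit 4) (nat_lit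 4) (nat_lit 5) (nat_lit 4) (nat_lit 4) (nat_lit 392) (nat_lit 337) (nat_lit 291)) (XT.lf (nat_lit 0) (nat_lit 725560348945) (nat_lit 76) (nat_lit 131492210029) (nat_lit 76) (nat_lit 126287429027) (nat_lit 3) (nat_lit 4) (nat_lit 4) (nat_lit 5) (nat_lit 4) (nat_lit 4) (nat_lit 393) (nat_lit 337) (nat_lit 290)))) (XT.nd (nat_lit 156) (nat_lit 0) (nat_lit 0) (XT.nd (nat_lit 78) (nat_lit 0) (nat_lit 0) (XT.lf (nat_lit 0) (nat_lit 911352814922) (nat_lit 76) (nat_lit 110851726836) (nat_lit 76) (nat_lit 105645991704) (nat_lit 3) (nat_lit 4) (nat_lit 4) (nat_lit 5) (nat_lit 4) (nat_lit 4) (nat_lit 394) (nat_lit 337) (nat_lit 289)) (XT.lf (nat_lit 0) (nat_lit 1124987881186) (nat_lit 76) (nat_lit 87128682576) (nat_lit 76) (nat_lit 81922117766) (nat_lit 3) (nat_lit 4) (nat_lit 4) (nat_lit 5) (nat_lit 4) (nat_lit 4) (nat_lit 395) (nat_lit 337) (nat_lit 288))) (XT.nd (nat_lit 78) (nat_lit 0) (nat_lit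 0) (XT.lf (nat_lit 0) (nat_lit 1370645364251) (nat_lit 76) (nat_lit 59858930730) (nat_lit 76) (nat_lit 54651644461) (nat_lit 3) (nat_lit 4) (nat_lit 4) (nat_lit 5) (nat_lit 4) (nat_lit 4) (nat_lit 396) (nat_lit 337) (nat_lit 287)) (XT.lf (nat_lit 0) (nat_lit 1653131606177) (nat_lit 76) (nat_lit 28508932676) (nat_lit 76) (nat_lit 23301019052) (nat_lit 3) (nat_lit 4) (nat_lit 4) (nat_lit 5) (nat_lit 4) (nat_lit 4) (nat_lit 397) (nat_lit 337) (nat_lit 286))))) (XT.nd (nat_lit 312) (nat_lit 0) (nat_lit 0) (XT.nd (nat_lit 156) (nat_lit 0) (nat_lit 0) (XT.nd (nat_lit 78) (nat_lit 0) (nat_lit 0) (XT.lf (nat_lit 0) (nat_lit 12813582699) (nat_lit 152) (nat_lit 1936810021982) (nat_lit 0) (nat_lit 7990935337) (nat_lit 1) (nat_lit 5) (nat_lit 3) (nat_lit 4) (nat_lit 1) (nat_lit 4) (nat_lit 398) (nat_lit 337) (nat_lit 285)) (XT.lf (nat_lit 0) (nat_lit 55332903097) (nat_lit 152) (nat_lit 2142107955519)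 (nat_lit 0) (nat_lit 50509816503) (nat_lit 1) (nat_lit 5) (nat_lit 3) (nat_lit 4) (nat_lit 1) (nat_lit 4) (nat_lit 399) (nat_lit 337) (nat_lit 284))) (XT.nd (nat_lit 78) (nat_lit 0) (nat_lit 0) (XT.lf (nat_lit 0) (nat_lit 104223099682) (nat_lit 152) (nat_lit 2378215061464) (nat_lit 0) (nat_lit 99399631147) (nat_lit 1) (nat_lit 5) (nat_lit 3) (nat_lit 4) (nat_lit 1) (nat_lit 4) (nat_lit 400) (nat_lit 337) (nat_lit 283)) (XT.lf (nat_lit 0) (nat_lit 160440719779) (nat_lit 152) (nat_lit 2649750826673) (nat_lit 0) (nat_lit 155616919121) (nat_lit 1) (nat_lit 5) (nat_lit 3) (nat_lit 4) (nat_lit 1) (nat_lit 4) (nat_lit 401) (nat_lit 337) (nat_lit 282)))) (XT.nd (nat_lit 156) (nat_lit 0) (nat_lit 0) (XT.nd (nat_lit 78) (nat_lit 0) (nat_lit 0) (XT.lf (nat_lit 0) (nat_lit 225085673346) (nat_lit 152) (nat_lit 2962027907422) (nat_lit 0) (nat_lit 220261583886) (nat_lit 1) (nat_lit 5) (nat_lit 3) (nat_lit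 4) (nat_lit 1) (nat_lit 4) (nat_lit 402) (nat_lit 337) (nat_lit 281)) (XT.lf (nat_lit 0) (nat_lit 299422752954) (nat_lit 152) (nat_lit 3321156072682) (nat_lit 0) (nat_lit 294598412360) (nat_lit 1) (nat_lit 5) (nat_lit 3) (nat_lit 4) (nat_lit 1) (nat_lit 4) (nat_lit 403) (nat_lit 337) (nat_lit 280))) (XT.nd (nat_lit 78) (nat_lit 0) (nat_lit 0) (XT.lf (nat_lit 0) (nat_lit 384906379724) (nat_lit 152) (nat_lit 3734161743078) (nat_lit 0) (nat_lit 380081820754) (nat_lit 1) (nat_lit 5) (nat_lit 3) (nat_lit 4) (nat_lit 1) (nat_lit 4) (nat_lit 404) (nat_lit 337) (nat_lit 279)) (XT.nd (nat_lit 78) (nat_lit 0) (nat_lit 0) (XT.lf (nat_lit 0) (nat_lit 483209059398) (nat_lit 152) (nat_lit 4209125464334) (nat_lit 0) (nat_lit 478384310536) (nat_lit 1) (nat_lit 5) (nat_lit 3) (nat_lit 4) (nat_lit 1) (nat_lit 4) (nat_lit 405) (nat_lit 337) (nat_lit 278)) (XT.lf (nat_lit 0) (nat_lit 596254105274) (nat_lit 152)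 (nat_lit 4755340004911) (nat_lit 0) (nat_lit 591429191288) (nat_lit 1) (nat_lit 5) (nat_lit 3) (nat_lit 4) (nat_lit 1) (nat_lit 4) (nat_lit 406) (nat_lit 337) (nat_lit 277))))))) (XT.nd (nat_lit 624) (nat_lit 0) (nat_lit 0) (XT.nd (nat_lit 312) (nat_lit 0) (nat_lit 0) (XT.nd (nat_lit 156) (nat_lit 0) (nat_lit 0) (XT.nd (nat_lit 78) (nat_lit 0) (nat_lit 0) (XT.lf (nat_lit 0) (nat_lit 726253268249) (nat_lit 152) (nat_lit 5383492171036) (nat_lit 0) (nat_lit 721428210678) (nat_lit 1) (nat_lit 5) (nat_lit 3) (nat_lit 4) (nat_lit 1) (nat_lit 4) (nat_lit 407) (nat_lit 337) (nat_lit 276)) (XT.lf (nat_lit 0) (nat_lit 875750010208) (nat_lit 152) (nat_lit 6105871896396) (nat_lit 0) (nat_lit 870924827780) (nat_lit 1) (nat_lit 5) (nat_lit 3) (nat_lit 4) (nat_lit 1) (nat_lit 4) (nat_lit 408) (nat_lit 337) (nat_lit 275))) (XT.nd (nat_lit 78) (nat_lit 0) (nat_lit 0) (XT.lf (nat_lit 0) (nat_lit 1047669267407)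 (nat_lit 152) (nat_lit 6936612697355) (nat_lit 0) (nat_lit 1042843976407) (nat_lit 1) (nat_lit 5) (nat_lit 3) (nat_lit 4) (nat_lit 1) (nat_lit 4) (nat_lit 409) (nat_lit 337) (nat_lit 274)) (XT.lf (nat_lit 0) (nat_lit 1245374677486) (nat_lit 152) (nat_lit 7891968198280) (nat_lit 0) (nat_lit 1240549292076) (nat_lit 1) (nat_lit 5) (nat_lit 3) (nat_lit 4) (nat_lit 1) (nat_lit 4) (nat_lit 410) (nat_lit 337) (nat_lit 273)))) (XT.nd (nat_lit 156) (nat_lit 0) (nat_lit 0) (XT.nd (nat_lit 78) (nat_lit 0) (nat_lit 0) (XT.lf (nat_lit 0) (nat_lit 1472734389773) (nat_lit 152) (nat_lit 8990630137233) (nat_lit 0) (nat_lit 1467908922267) (nat_lit 1) (nat_lit 5) (nat_lit 3) (nat_lit 4) (nat_lit 1) (nat_lit 4) (nat_lit 411) (nat_lit 337) (nat_lit 272)) (XT.lf (nat_lit 0) (nat_lit 1734196746465) (nat_lit 152) (nat_lit 10254094073889) (nat_lit 0) (nat_lit 1729371207571) (nat_lit 1) (nat_lit 5) (nat_lit 3) (nat_lit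 4) (nat_lit 1) (nat_lit 4) (nat_lit 412) (nat_lit 337) (nat_lit 271))) (XT.nd (nat_lit 78) (nat_lit 0) (nat_lit 0) (XT.lf (nat_lit 0) (nat_lit 2034877315410) (nat_lit 152) (nat_lit 11707079954835) (nat_lit 0) (nat_lit 2030051714440) (nat_lit 1) (nat_lit 5) (nat_lit 3) (nat_lit 4) (nat_lit 1) (nat_lit 4) (nat_lit 413) (nat_lit 337) (nat_lit 270)) (XT.lf (nat_lit 0) (nat_lit 2380658977305) (nat_lit 152) (nat_lit 13378015764698) (nat_lit 0) (nat_lit 2375833322356) (nat_lit 1) (nat_lit 5) (nat_lit 3) (nat_lit 4) (nat_lit 1) (nat_lit 4) (nat_lit 414) (nat_lit 337) (nat_lit 269))))) (XT.nd (nat_lit 47580) (nat_lit 0) (nat_lit 4712) (XT.nd (nat_lit 156) (nat_lit 0) (nat_lit 0) (XT.nd (nat_lit 78) (nat_lit 0) (nat_lit 0) (XT.lf (nat_lit 0) (nat_lit 2778307025535) (nat_lit 152) (nat_lit 15299593725845) (nat_lit 0) (nat_lit 2773481323648) (nat_lit 1) (nat_lit 5) (nat_lit 3) (nat_lit 4) (nat_lit 1)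 (nat_lit 4) (nat_lit 415) (nat_lit 337) (nat_lit 268)) (XT.lf (nat_lit 0) (nat_lit 3235601530608) (nat_lit 152) (nat_lit 17509409928819) (nat_lit 0) (nat_lit 3230775787905) (nat_lit 1) (nat_lit 5) (nat_lit 3) (nat_lit 4) (nat_lit 1) (nat_lit 4) (nat_lit 416) (nat_lit 337) (nat_lit 267))) (XT.nd (nat_lit 78) (nat_lit 0) (nat_lit 0) (XT.lf (nat_lit 0) (nat_lit 3761489558929) (nat_lit 152) (nat_lit 20050699908028) (nat_lit 0) (nat_lit 3756663780734) (nat_lit 1) (nat_lit 5) (nat_lit 3) (nat_lit 4) (nat_lit 1) (nat_lit 4) (nat_lit 417) (nat_lit 337) (nat_lit 266)) (XT.lf (nat_lit 0) (nat_lit 4366260224095) (nat_lit 152) (nat_lit 22973184554368) (nat_lit 0) (nat_lit 4361434415037) (nat_lit 1) (nat_lit 5) (nat_lit 3) (nat_lit 4) (nat_lit 1) (nat_lit 4) (nat_lit 418) (nat_lit 337) (nat_lit 265)))) (XT.nd (nat_lit 156) (nat_lit 1520) (nat_lit 0) (XT.nd (nat_lit 78) (nat_lit 456) (nat_lit 0) (XT.lf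 (nat_lit 0) (nat_lit 562315754) (nat_lit 380) (nat_lit 2285483549) (nat_lit 0) (nat_lit 562315754) (nat_lit 89) (nat_lit 5) (nat_lit 94) (nat_lit 4) (nat_lit 89) (nat_lit 4) (nat_lit 344) (nat_lit 338) (nat_lit 338)) (XT.lf (nat_lit 0) (nat_lit 281689244) (nat_lit 456) (nat_lit 2788163601) (nat_lit 76) (nat_lit 3973281041) (nat_lit 83) (nat_lit 5) (nat_lit 89) (nat_lit 5) (nat_lit 84) (nat_lit 4) (nat_lit 345) (nat_lit 338) (nat_lit 337))) (XT.nd (nat_lit 78) (nat_lit 1064) (nat_lit 0) (XT.lf (nat_lit 0) (nat_lit 6258291747) (nat_lit 532) (nat_lit 657075839) (nat_lit 0) (nat_lit 417497829) (nat_lit 77) (nat_lit 5) (nat_lit 84) (nat_lit 4) (nat_lit 77) (nat_lit 4) (nat_lit 346) (nat_lit 338) (nat_lit 336)) (XT.nd (nat_lit 78) (nat_lit 304) (nat_lit 0) (XT.lf (nat_lit 0) (nat_lit 1869333855) (nat_lit 228) (nat_lit 2973180891) (nat_lit 304) (nat_lit 2841321526) (nat_lit 67) (nat_lit 5) (nat_lit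 70) (nat_lit 5) (nat_lit 71) (nat_lit 4) (nat_lit 347) (nat_lit 338) (nat_lit 335)) (XT.lf (nat_lit 0) (nat_lit 2989024198) (nat_lit 304) (nat_lit 3280304900) (nat_lit 76) (nat_lit 1836178740) (nat_lit 63) (nat_lit 5) (nat_lit 67) (nat_lit 5) (nat_lit 64) (nat_lit 4) (nat_lit 348) (nat_lit 338) (nat_lit 334))))))))
noncomputable def xc41 : XT := (XT.nd (nat_lit 1326) (nat_lit 1216) (nat_lit 0) (XT.nd (nat_lit 624) (nat_lit 1216) (nat_lit 0) (XT.nd (nat_lit 312) (nat_lit 836) (nat_lit 0) (XT.nd (nat_lit 156) (nat_lit 456) (nat_lit 0) (XT.nd (nat_lit 78) (nat_lit 380) (nat_lit 0) (XT.lf (nat_lit 0) (nat_lit 661723400) (nat_lit 228) (nat_lit 428196816) (nat_lit 76) (nat_lit 7511604890) (nat_lit 60) (nat_lit 5) (nat_lit 63) (nat_lit 5) (nat_lit 61) (nat_lit 5) (nat_lit 349) (nat_lit 338) (nat_lit 333)) (XT.lf (nat_lit 0) (nat_lit 2823023109) (nat_lit 152) (nat_lit 4138543498) (nat_lit 228) (nat_lit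 2203310667) (nat_lit 55) (nat_lit 5) (nat_lit 57) (nat_lit 5) (nat_lit 58) (nat_lit 4) (nat_lit 350) (nat_lit 338) (nat_lit 332))) (XT.nd (nat_lit 78) (nat_lit 228) (nat_lit 0) (XT.lf (nat_lit 0) (nat_lit 4096454712) (nat_lit 228) (nat_lit 3345118495) (nat_lit 76) (nat_lit 2369053613) (nat_lit 52) (nat_lit 5) (nat_lit 55) (nat_lit 5) (nat_lit 53) (nat_lit 4) (nat_lit 351) (nat_lit 338) (nat_lit 331)) (XT.lf (nat_lit 0) (nat_lit 635042782) (nat_lit 228) (nat_lit 31543735) (nat_lit 76) (nat_lit 9880437176) (nat_lit 49) (nat_lit 5) (nat_lit 52) (nat_lit 5) (nat_lit 50) (nat_lit 5) (nat_lit 352) (nat_lit 338) (nat_lit 330)))) (XT.nd (nat_lit 156) (nat_lit 380) (nat_lit 0) (XT.nd (nat_lit 78) (nat_lit 228) (nat_lit 0) (XT.lf (nat_lit 0) (nat_lit 3673724321) (nat_lit 76) (nat_lit 4150545711) (nat_lit 152) (nat_lit 3539767206) (nat_lit 46) (nat_lit 5) (nat_lit 47) (nat_lit 5) (nat_lit 48) (nat_lit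 4) (nat_lit 353) (nat_lit 338) (nat_lit 329)) (XT.lf (nat_lit 0) (nat_lit 3721441270) (nat_lit 228) (nat_lit 4531180462) (nat_lit 76) (nat_lit 4033966424) (nat_lit 43) (nat_lit 5) (nat_lit 46) (nat_lit 5) (nat_lit 44) (nat_lit 4) (nat_lit 354) (nat_lit 338) (nat_lit 328))) (XT.nd (nat_lit 78) (nat_lit 304) (nat_lit 0) (XT.lf (nat_lit 0) (nat_lit 12048182292) (nat_lit 152) (nat_lit 1078402704) (nat_lit 0) (nat_lit 198781774) (nat_lit 42) (nat_lit 5) (nat_lit 44) (nat_lit 4) (nat_lit 42) (nat_lit 4) (nat_lit 355) (nat_lit 338) (nat_lit 327)) (XT.lf (nat_lit 0) (nat_lit 2639431665) (nat_lit 76) (nat_lit 4529799036) (nat_lit 152) (nat_lit 7303474392) (nat_lit 38) (nat_lit 5) (nat_lit 39) (nat_lit 5) (nat_lit 40) (nat_lit 4) (nat_lit 356) (nat_lit 338) (nat_lit 326))))) (XT.nd (nat_lit 312) (nat_lit 608) (nat_lit 0) (XT.nd (nat_lit 156) (nat_lit 304) (nat_lit 0) (XT.nd (nat_lit 78) (nat_lit 76)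 (nat_lit 0) (XT.lf (nat_lit 0) (nat_lit 1309658592) (nat_lit 228) (nat_lit 8980113912) (nat_lit 76) (nat_lit 5470364313) (nat_lit 35) (nat_lit 5) (nat_lit 38) (nat_lit 5) (nat_lit 36) (nat_lit 4) (nat_lit 357) (nat_lit 338) (nat_lit 325)) (XT.lf (nat_lit 0) (nat_lit 11145974633) (nat_lit 152) (nat_lit 6016061204) (nat_lit 0) (nat_lit 34421439) (nat_lit 34) (nat_lit 5) (nat_lit 36) (nat_lit 4) (nat_lit 34) (nat_lit 4) (nat_lit 358) (nat_lit 338) (nat_lit 324))) (XT.nd (nat_lit 78) (nat_lit 152) (nat_lit 0) (XT.lf (nat_lit 0) (nat_lit 4009892604) (nat_lit 152) (nat_lit 3009522202) (nat_lit 76) (nat_lit 11775425372) (nat_lit 32) (nat_lit 5) (nat_lit 34) (nat_lit 5) (nat_lit 33) (nat_lit 4) (nat_lit 359) (nat_lit 338) (nat_lit 323)) (XT.lf (nat_lit 0) (nat_lit 108202999) (nat_lit 76) (nat_lit 15587827292) (nat_lit 76) (nat_lit 4886410814) (nat_lit 30) (nat_lit 4) (nat_lit 31) (nat_lit 5) (nat_lit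 31) (nat_lit 4) (nat_lit 360) (nat_lit 338) (nat_lit 322)))) (XT.nd (nat_lit 156) (nat_lit 380) (nat_lit 0) (XT.nd (nat_lit 78) (nat_lit 76) (nat_lit 0) (XT.lf (nat_lit 0) (nat_lit 3380960702) (nat_lit 76) (nat_lit 3469707975) (nat_lit 152) (nat_lit 15720736486) (nat_lit 28) (nat_lit 5) (nat_lit 29) (nat_lit 5) (nat_lit 30) (nat_lit 4) (nat_lit 361) (nat_lit 338) (nat_lit 321)) (XT.lf (nat_lit 0) (nat_lit 6542361623) (nat_lit 76) (nat_lit 14223741302) (nat_lit 76) (nat_lit 4025908500) (nat_lit 27) (nat_lit 4) (nat_lit 28) (nat_lit 5) (nat_lit 28) (nat_lit 4) (nat_lit 362) (nat_lit 338) (nat_lit 320))) (XT.nd (nat_lit 78) (nat_lit 228) (nat_lit 0) (XT.lf (nat_lit 0) (nat_lit 9547971307) (nat_lit 76) (nat_lit 1420949) (nat_lit 152) (nat_lit 17730392544) (nat_lit 25) (nat_lit 5) (nat_lit 26) (nat_lit 5) (nat_lit 27) (nat_lit 4) (nat_lit 363) (nat_lit 338) (nat_lit 319)) (XT.nd (nat_lit 78) (nat_lit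 152) (nat_lit 0) (XT.lf (nat_lit 0) (nat_lit 12052019187) (nat_lit 76) (nat_lit 13824450637) (nat_lit 76) (nat_lit 4179594709) (nat_lit 24) (nat_lit 4) (nat_lit 25) (nat_lit 5) (nat_lit 25) (nat_lit 4) (nat_lit 364) (nat_lit 338) (nat_lit 318)) (XT.lf (nat_lit 0) (nat_lit 11501030880) (nat_lit 152) (nat_lit 19177607128) (nat_lit 0) (nat_lit 2494805202) (nat_lit 22) (nat_lit 5) (nat_lit 24) (nat_lit 4) (nat_lit 22) (nat_lit 4) (nat_lit 365) (nat_lit 338) (nat_lit 317))))))) (XT.nd (nat_lit 624) (nat_lit 456) (nat_lit 0) (XT.nd (nat_lit 312) (nat_lit 304) (nat_lit 0) (XT.nd (nat_lit 156) (nat_lit 228) (nat_lit 0) (XT.nd (nat_lit 78) (nat_lit 152) (nat_lit 0) (XT.lf (nat_lit 0) (nat_lit 14912999912) (nat_lit 76) (nat_lit 15412864291) (nat_lit 76) (nat_lit 6340722506) (nat_lit 21) (nat_lit 4) (nat_lit 22) (nat_lit 5) (nat_lit 22) (nat_lit 4) (nat_lit 366) (nat_lit 338) (nat_lit 316)) (XT.lf (nat_lit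 0) (nat_lit 11496720785) (nat_lit 152) (nat_lit 26060084313) (nat_lit 0) (nat_lit 3043516953) (nat_lit 19) (nat_lit 5) (nat_lit 21) (nat_lit 4) (nat_lit 19) (nat_lit 4) (nat_lit 367) (nat_lit 338) (nat_lit 315))) (XT.nd (nat_lit 78) (nat_lit 152) (nat_lit 0) (XT.lf (nat_lit 0) (nat_lit 12073641650) (nat_lit 76) (nat_lit 20721883361) (nat_lit 76) (nat_lit 12222529485) (nat_lit 18) (nat_lit 4) (nat_lit 19) (nat_lit 5) (nat_lit 19) (nat_lit 4) (nat_lit 368) (nat_lit 338) (nat_lit 314)) (XT.lf (nat_lit 0) (nat_lit 7228600760) (nat_lit 76) (nat_lit 352209387) (nat_lit 152) (nat_lit 42443822324) (nat_lit 16) (nat_lit 5) (nat_lit 17) (nat_lit 5) (nat_lit 18) (nat_lit 4) (nat_lit 369) (nat_lit 338) (nat_lit 313)))) (XT.nd (nat_lit 156) (nat_lit 228) (nat_lit 0) (XT.nd (nat_lit 78) (nat_lit 76) (nat_lit 0) (XT.lf (nat_lit 0) (nat_lit 31000910425) (nat_lit 152) (nat_lit 1584627412) (nat_lit 0) (nat_lit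 23061669303) (nat_lit 16) (nat_lit 5) (nat_lit 18) (nat_lit 4) (nat_lit 16) (nat_lit 4) (nat_lit 370) (nat_lit 338) (nat_lit 312)) (XT.lf (nat_lit 0) (nat_lit 47859040966) (nat_lit 76) (nat_lit 11070898080) (nat_lit 76) (nat_lit 3103560289) (nat_lit 15) (nat_lit 4) (nat_lit 16) (nat_lit 5) (nat_lit 16) (nat_lit 4) (nat_lit 371) (nat_lit 338) (nat_lit 311))) (XT.nd (nat_lit 78) (nat_lit 76) (nat_lit 0) (XT.lf (nat_lit 0) (nat_lit 21717825197) (nat_lit 152) (nat_lit 33209677855) (nat_lit 0) (nat_lit 14318038459) (nat_lit 13) (nat_lit 5) (nat_lit 15) (nat_lit 4) (nat_lit 13) (nat_lit 4) (nat_lit 372) (nat_lit 338) (nat_lit 310)) (XT.lf (nat_lit 0) (nat_lit 17297302839) (nat_lit 76) (nat_lit 33787311278) (nat_lit 76) (nat_lit 26367853134) (nat_lit 12) (nat_lit 4) (nat_lit 13) (nat_lit 5) (nat_lit 13) (nat_lit 4) (nat_lit 373) (nat_lit 338) (nat_lit 309))))) (XT.nd (nat_lit 312) (nat_lit 228)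 (nat_lit 0) (XT.nd (nat_lit 156) (nat_lit 76) (nat_lit 0) (XT.nd (nat_lit 78) (nat_lit 152) (nat_lit 0) (XT.lf (nat_lit 0) (nat_lit 77121424751) (nat_lit 76) (nat_lit 8569410201) (nat_lit 76) (nat_lit 1132846486) (nat_lit 12) (nat_lit 4) (nat_lit 13) (nat_lit 5) (nat_lit 13) (nat_lit 4) (nat_lit 374) (nat_lit 338) (nat_lit 308)) (XT.lf (nat_lit 0) (nat_lit 28111386878) (nat_lit 152) (nat_lit 48094109102) (nat_lit 0) (nat_lit 21211907134) (nat_lit 10) (nat_lit 5) (nat_lit 12) (nat_lit 4) (nat_lit 10) (nat_lit 4) (nat_lit 375) (nat_lit 338) (nat_lit 307))) (XT.nd (nat_lit 78) (nat_lit 0) (nat_lit 0) (XT.lf (nat_lit 0) (nat_lit 8116436836) (nat_lit 76) (nat_lit 54171898715) (nat_lit 76) (nat_lit 47260442796) (nat_lit 9) (nat_lit 4) (nat_lit 10) (nat_lit 5) (nat_lit 10) (nat_lit 4) (nat_lit 376) (nat_lit 338) (nat_lit 306)) (XT.lf (nat_lit 0) (nat_lit 75463638782) (nat_lit 76) (nat_lit 27427090248)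 (nat_lit 76) (nat_lit 20505220264) (nat_lit 9) (nat_lit 4) (nat_lit 10) (nat_lit 5) (nat_lit 10) (nat_lit 4) (nat_lit 377) (nat_lit 338) (nat_lit 305)))) (XT.nd (nat_lit 156) (nat_lit 76) (nat_lit 0) (XT.nd (nat_lit 78) (nat_lit 0) (nat_lit 0) (XT.lf (nat_lit 0) (nat_lit 10085539619) (nat_lit 152) (nat_lit 125520041955) (nat_lit 0) (nat_lit 3668015829) (nat_lit 7) (nat_lit 5) (nat_lit 9) (nat_lit 4) (nat_lit 7) (nat_lit 4) (nat_lit 378) (nat_lit 338) (nat_lit 304)) (XT.lf (nat_lit 0) (nat_lit 46190853166) (nat_lit 152) (nat_lit 71362188102) (nat_lit 0) (nat_lit 39766038146) (nat_lit 7) (nat_lit 5) (nat_lit 9) (nat_lit 4) (nat_lit 7) (nat_lit 4) (nat_lit 379) (nat_lit 338) (nat_lit 303))) (XT.nd (nat_lit 78) (nat_lit 76) (nat_lit 0) (XT.lf (nat_lit 0) (nat_lit 87638265592) (nat_lit 152) (nat_lit 9231904608) (nat_lit 0) (nat_lit 81207110371) (nat_lit 7) (nat_lit 5) (nat_lit 9) (nat_lit 4) (nat_lit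 7) (nat_lit 4) (nat_lit 380) (nat_lit 338) (nat_lit 302)) (XT.nd (nat_lit 78) (nat_lit 0) (nat_lit 0) (XT.lf (nat_lit 0) (nat_lit 65355760881) (nat_lit 76) (nat_lit 71454751269) (nat_lit 76) (nat_lit 65018082830) (nat_lit 6) (nat_lit 4) (nat_lit 7) (nat_lit 5) (nat_lit 7) (nat_lit 4) (nat_lit 381) (nat_lit 338) (nat_lit 301)) (XT.lf (nat_lit 0) (nat_lit 151570244457) (nat_lit 76) (nat_lit 41998506481) (nat_lit 76) (nat_lit 35557043940) (nat_lit 6) (nat_lit 4) (nat_lit 7) (nat_lit 5) (nat_lit 7) (nat_lit 4) (nat_lit 382) (nat_lit 338) (nat_lit 300))))))))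
noncomputable def xc42 : XT := (XT.nd (nat_lit 1326) (nat_lit 0) (nat_lit 0) (XT.nd (nat_lit 624) (nat_lit 152) (nat_lit 0) (XT.nd (nat_lit 312) (nat_lit 76) (nat_lit 0) (XT.nd (nat_lit 156) (nat_lit 0) (nat_lit 0) (XT.nd (nat_lit 78) (nat_lit 152) (nat_lit 0) (XT.lf (nat_lit 0) (nat_lit 250612215497) (nat_lit 76) (nat_lit 8177534638) (nat_lit 76) (nat_lit 1731903312) (nat_lit 6) (nat_lit 4) (nat_lit 7) (nat_lit 5) (nat_lit 7) (nat_lit 4) (nat_lit 383) (nat_lit 338) (nat_lit 299)) (XT.lf (nat_lit 0) (nat_lit 37760650745) (nat_lit 152) (nat_lit 226809383174) (nat_lit 0) (nat_lit 31789117081) (nat_lit 4) (nat_lit 5) (nat_lit 6) (nat_lit 4) (nat_lit 4) (nat_lit 4) (nat_lit 384) (nat_lit 338) (nat_lit 298))) (XT.nd (nat_lit 78) (nat_lit 0) (nat_lit 0) (XT.lf (nat_lit 0) (nat_lit 83556962939) (nat_lit 152) (nat_lit 176390607527) (nat_lit 0) (nat_lit 77582510571) (nat_lit 4) (nat_lit 5) (nat_lit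 6) (nat_lit 4) (nat_lit 4) (nat_lit 4) (nat_lit 385) (nat_lit 338) (nat_lit 297)) (XT.lf (nat_lit 0) (nat_lit 136185626990) (nat_lit 152) (nat_lit 118485354968) (nat_lit 0) (nat_lit 130208636618) (nat_lit 4) (nat_lit 5) (nat_lit 6) (nat_lit 4) (nat_lit 4) (nat_lit 4) (nat_lit 386) (nat_lit 338) (nat_lit 296)))) (XT.nd (nat_lit 156) (nat_lit 0) (nat_lit 0) (XT.nd (nat_lit 78) (nat_lit 76) (nat_lit 0) (XT.lf (nat_lit 0) (nat_lit 196676334149) (nat_lit 152) (nat_lit 51960696643) (nat_lit 0) (nat_lit 190697136818) (nat_lit 4) (nat_lit 5) (nat_lit 6) (nat_lit 4) (nat_lit 4) (nat_lit 4) (nat_lit 387) (nat_lit 338) (nat_lit 295)) (XT.lf (nat_lit 0) (nat_lit 25774270233) (nat_lit 76) (nat_lit 241058199838) (nat_lit 76) (nat_lit 235077083412) (nat_lit 3) (nat_lit 4) (nat_lit 4) (nat_lit 5) (nat_lit 4) (nat_lit 4) (nat_lit 388) (nat_lit 338) (nat_lit 294))) (XT.nd (nat_lit 78) (nat_lit 0) (nat_lit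 0) (XT.lf (nat_lit 0) (nat_lit 118263226507) (nat_lit 76) (nat_lit 230735918358) (nat_lit 76) (nat_lit 224753133154) (nat_lit 3) (nat_lit 4) (nat_lit 4) (nat_lit 5) (nat_lit 4) (nat_lit 4) (nat_lit 389) (nat_lit 338) (nat_lit 293)) (XT.lf (nat_lit 0) (nat_lit 224579580513) (nat_lit 76) (nat_lit 218888926200) (nat_lit 76) (nat_lit 212904689884) (nat_lit 3) (nat_lit 4) (nat_lit 4) (nat_lit 5) (nat_lit 4) (nat_lit 4) (nat_lit 390) (nat_lit 338) (nat_lit 292))))) (XT.nd (nat_lit 312) (nat_lit 152) (nat_lit 0) (XT.nd (nat_lit 156) (nat_lit 0) (nat_lit 0) (XT.nd (nat_lit 78) (nat_lit 0) (nat_lit 0) (XT.lf (nat_lit 0) (nat_lit 346803434828) (nat_lit 76) (nat_lit 205285434386) (nat_lit 76) (nat_lit 199299936234) (nat_lit 3) (nat_lit 4) (nat_lit 4) (nat_lit 5) (nat_lit 4) (nat_lit 4) (nat_lit 391) (nat_lit 338) (nat_lit 291)) (XT.lf (nat_lit 0) (nat_lit 487326125732) (nat_lit 76) (nat_lit 189659287642)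 (nat_lit 76) (nat_lit 183672692241) (nat_lit 3) (nat_lit 4) (nat_lit 4) (nat_lit 5) (nat_lit 4) (nat_lit 4) (nat_lit 392) (nat_lit 338) (nat_lit 290))) (XT.nd (nat_lit 78) (nat_lit 0) (nat_lit 0) (XT.lf (nat_lit 0) (nat_lit 648897010221) (nat_lit 76) (nat_lit 171704757010) (nat_lit 76) (nat_lit 165717207479) (nat_lit 3) (nat_lit 4) (nat_lit 4) (nat_lit 5) (nat_lit 4) (nat_lit 4) (nat_lit 393) (nat_lit 338) (nat_lit 289)) (XT.lf (nat_lit 0) (nat_lit 834677257775) (nat_lit 76) (nat_lit 151070558194) (nat_lit 76) (nat_lit 145082178985) (nat_lit 3) (nat_lit 4) (nat_lit 4) (nat_lit 5) (nat_lit 4) (nat_lit 4) (nat_lit 394) (nat_lit 338) (nat_lit 288)))) (XT.nd (nat_lit 156) (nat_lit 152) (nat_lit 0) (XT.nd (nat_lit 78) (nat_lit 0) (nat_lit 0) (XT.lf (nat_lit 0) (nat_lit 1048301699323) (nat_lit 76) (nat_lit 127352978610) (nat_lit 76) (nat_lit 121363877942) (nat_lit 3) (nat_lit 4) (nat_lit 4) (nat_lit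 5) (nat_lit 4) (nat_lit 4) (nat_lit 395) (nat_lit 338) (nat_lit 287)) (XT.lf (nat_lit 0) (nat_lit 1293949943505) (nat_lit 76) (nat_lit 100087978656) (nat_lit 76) (nat_lit 94098250633) (nat_lit 3) (nat_lit 4) (nat_lit 4) (nat_lit 5) (nat_lit 4) (nat_lit 4) (nat_lit 396) (nat_lit 338) (nat_lit 286))) (XT.nd (nat_lit 78) (nat_lit 152) (nat_lit 0) (XT.lf (nat_lit 0) (nat_lit 1576428151621) (nat_lit 76) (nat_lit 68742112682) (nat_lit 76) (nat_lit 62751839132) (nat_lit 3) (nat_lit 4) (nat_lit 4) (nat_lit 5) (nat_lit 4) (nat_lit 4) (nat_lit 397) (nat_lit 338) (nat_lit 285)) (XT.nd (nat_lit 78) (nat_lit 152) (nat_lit 0) (XT.lf (nat_lit 0) (nat_lit 1901263071219) (nat_lit 76) (nat_lit 32702092006) (nat_lit 76) (nat_lit 26711344085) (nat_lit 3) (nat_lit 4) (nat_lit 4) (nat_lit 5) (nat_lit 4) (nat_lit 4) (nat_lit 398) (nat_lit 338) (nat_lit 284)) (XT.lf (nat_lit 0) (nat_lit 14811227706) (nat_lit 152)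 (nat_lit 2227175587115) (nat_lit 0) (nat_lit 9263856949) (nat_lit 1) (nat_lit 5) (nat_lit 3) (nat_lit 4) (nat_lit 1) (nat_lit 4) (nat_lit 399) (nat_lit 338) (nat_lit 283))))))) (XT.nd (nat_lit 624) (nat_lit 0) (nat_lit 0) (XT.nd (nat_lit 312) (nat_lit 0) (nat_lit 0) (XT.nd (nat_lit 156) (nat_lit 0) (nat_lit 0) (XT.nd (nat_lit 78) (nat_lit 0) (nat_lit 0) (XT.lf (nat_lit 0) (nat_lit 63698584303) (nat_lit 152) (nat_lit 2463288550443) (nat_lit 0) (nat_lit 58150881423) (nat_lit 1) (nat_lit 5) (nat_lit 3) (nat_lit 4) (nat_lit 1) (nat_lit 4) (nat_lit 400) (nat_lit 338) (nat_lit 282)) (XT.lf (nat_lit 0) (nat_lit 119913734844) (nat_lit 152) (nat_lit 2734829409028) (nat_lit 0) (nat_lit 114365743162) (nat_lit 1) (nat_lit 5) (nat_lit 3) (nat_lit 4) (nat_lit 1) (nat_lit 4) (nat_lit 401) (nat_lit 338) (nat_lit 281))) (XT.nd (nat_lit 78) (nat_lit 0) (nat_lit 0) (XT.lf (nat_lit 0) (nat_lit 184556540972)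 (nat_lit 152) (nat_lit 3047110918800) (nat_lit 0) (nat_lit 179008298157) (nat_lit 1) (nat_lit 5) (nat_lit 3) (nat_lit 4) (nat_lit 1) (nat_lit 4) (nat_lit 402) (nat_lit 338) (nat_lit 280)) (XT.lf (nat_lit 0) (nat_lit 258891753240) (nat_lit 152) (nat_lit 3406242935384) (nat_lit 0) (nat_lit 253343292050) (nat_lit 1) (nat_lit 5) (nat_lit 3) (nat_lit 4) (nat_lit 1) (nat_lit 4) (nat_lit 403) (nat_lit 338) (nat_lit 279)))) (XT.nd (nat_lit 156) (nat_lit 0) (nat_lit 0) (XT.nd (nat_lit 78) (nat_lit 0) (nat_lit 0) (XT.lf (nat_lit 0) (nat_lit 344373756238) (nat_lit 152) (nat_lit 3819251954757) (nat_lit 0) (nat_lit 338825105155) (nat_lit 1) (nat_lit 5) (nat_lit 3) (nat_lit 4) (nat_lit 1) (nat_lit 4) (nat_lit 404) (nat_lit 338) (nat_lit 278)) (XT.lf (nat_lit 0) (nat_lit 442675023935) (nat_lit 152) (nat_lit 4294218588168) (nat_lit 0) (nat_lit 437126207728) (nat_lit 1) (nat_lit 5) (nat_lit 3) (nat_lit 4)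 (nat_lit 1) (nat_lit 4) (nat_lit 405) (nat_lit 338) (nat_lit 277))) (XT.nd (nat_lit 78) (nat_lit 0) (nat_lit 0) (XT.lf (nat_lit 0) (nat_lit 555718842006) (nat_lit 152) (nat_lit 4840435661052) (nat_lit 0) (nat_lit 550169882213) (nat_lit 1) (nat_lit 5) (nat_lit 3) (nat_lit 4) (nat_lit 1) (nat_lit 4) (nat_lit 406) (nat_lit 338) (nat_lit 276)) (XT.lf (nat_lit 0) (nat_lit 685716937324) (nat_lit 152) (nat_lit 5468590029185) (nat_lit 0) (nat_lit 680167852674) (nat_lit 1) (nat_lit 5) (nat_lit 3) (nat_lit 4) (nat_lit 1) (nat_lit 4) (nat_lit 407) (nat_lit 338) (nat_lit 275))))) (XT.nd (nat_lit 312) (nat_lit 0) (nat_lit 0) (XT.nd (nat_lit 156) (nat_lit 0) (nat_lit 0) (XT.nd (nat_lit 78) (nat_lit 0) (nat_lit 0) (XT.lf (nat_lit 0) (nat_lit 835212750886) (nat_lit 152) (nat_lit 6190971669333) (nat_lit 0) (nat_lit 829663557664) (nat_lit 1) (nat_lit 5) (nat_lit 3) (nat_lit 4) (nat_lit 1) (nat_lit 4) (nat_lit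 408) (nat_lit 338) (nat_lit 274)) (XT.lf (nat_lit 0) (nat_lit 1007131200782) (nat_lit 152) (nat_lit 7021714135326) (nat_lit 0) (nat_lit 1001581913151) (nat_lit 1) (nat_lit 5) (nat_lit 3) (nat_lit 4) (nat_lit 1) (nat_lit 4) (nat_lit 409) (nat_lit 338) (nat_lit 273))) (XT.nd (nat_lit 78) (nat_lit 0) (nat_lit 0) (XT.lf (nat_lit 0) (nat_lit 1204835908860) (nat_lit 152) (nat_lit 7977071084106) (nat_lit 0) (nat_lit 1199286539132) (nat_lit 1) (nat_lit 5) (nat_lit 3) (nat_lit 4) (nat_lit 1) (nat_lit 4) (nat_lit 410) (nat_lit 338) (nat_lit 272)) (XT.lf (nat_lit 0) (nat_lit 1432195010710) (nat_lit 152) (nat_lit 9075734282064) (nat_lit 0) (nat_lit 1426645569595) (nat_lit 1) (nat_lit 5) (nat_lit 3) (nat_lit 4) (nat_lit 1) (nat_lit 4) (nat_lit 411) (nat_lit 338) (nat_lit 271)))) (XT.nd (nat_lit 156) (nat_lit 0) (nat_lit 0) (XT.nd (nat_lit 78) (nat_lit 0) (nat_lit 0) (XT.lf (nat_lit 0) (nat_lit 1693656836588)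 (nat_lit 152) (nat_lit 10339199313507) (nat_lit 0) (nat_lit 1688107333397) (nat_lit 1) (nat_lit 5) (nat_lit 3) (nat_lit 4) (nat_lit 1) (nat_lit 4) (nat_lit 412) (nat_lit 338) (nat_lit 270)) (XT.lf (nat_lit 0) (nat_lit 1994336943955) (nat_lit 152) (nat_lit 11792186146441) (nat_lit 0) (nat_lit 1988787386785) (nat_lit 1) (nat_lit 5) (nat_lit 3) (nat_lit 4) (nat_lit 1) (nat_lit 4) (nat_lit 413) (nat_lit 338) (nat_lit 269))) (XT.nd (nat_lit 78) (nat_lit 0) (nat_lit 0) (XT.lf (nat_lit 0) (nat_lit 2340118204479) (nat_lit 152) (nat_lit 13463122784120) (nat_lit 0) (nat_lit 2334568600370) (nat_lit 1) (nat_lit 5) (nat_lit 3) (nat_lit 4) (nat_lit 1) (nat_lit 4) (nat_lit 414) (nat_lit 338) (nat_lit 268)) (XT.nd (nat_lit 78) (nat_lit 0) (nat_lit 0) (XT.lf (nat_lit 0) (nat_lit 2737765903690) (nat_lit 152) (nat_lit 15384701465107) (nat_lit 0) (nat_lit 2732216258765) (nat_lit 1) (nat_lit 5) (nat_lit 3) (nat_lit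 4) (nat_lit 1) (nat_lit 4) (nat_lit 415) (nat_lit 338) (nat_lit 267)) (XT.lf (nat_lit 0) (nat_lit 3195060105268) (nat_lit 152) (nat_lit 17594518294029) (nat_lit 0) (nat_lit 3189510424851) (nat_lit 1) (nat_lit 5) (nat_lit 3) (nat_lit 4) (nat_lit 1) (nat_lit 4) (nat_lit 416) (nat_lit 338) (nat_lit 266))))))))
noncomputable def xc43 : XT := (XT.nd (nat_lit 48438) (nat_lit 0) (nat_lit 836) (XT.nd (nat_lit 47736) (nat_lit 0) (nat_lit 2888) (XT.nd (nat_lit 47424) (nat_lit 0) (nat_lit 5244) (XT.nd (nat_lit 47268) (nat_lit 0) (nat_lit 7068) (XT.nd (nat_lit 78) (nat_lit 0) (nat_lit 0) (XT.lf (nat_lit 0) (nat_lit 3720947869681) (nat_lit 152) (nat_lit 20135808817540) (nat_lit 0) (nat_lit 3715398158401) (nat_lit 1) (nat_lit 5) (nat_lit 3) (nat_lit 4) (nat_lit 1) (nat_lit 4) (nat_lit 417) (nat_lit 338) (nat_lit 265)) (XT.lf (nat_lit 0) (nat_lit 4325718305361) (nat_lit 152) (nat_lit 23058293937187) (nat_lit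 0) (nat_lit 4320168567244) (nat_lit 1) (nat_lit 5) (nat_lit 3) (nat_lit 4) (nat_lit 1) (nat_lit 4) (nat_lit 418) (nat_lit 338) (nat_lit 264))) (XT.nd (nat_lit 78) (nat_lit 456) (nat_lit 0) (XT.lf (nat_lit 0) (nat_lit 3223821130) (nat_lit 76) (nat_lit 22429244) (nat_lit 76) (nat_lit 22429244) (nat_lit 100) (nat_lit 4) (nat_lit 101) (nat_lit 5) (nat_lit 101) (nat_lit 4) (nat_lit 342) (nat_lit 339) (nat_lit 339)) (XT.lf (nat_lit 0) (nat_lit 646419558) (nat_lit 228) (nat_lit 5103066770) (nat_lit 228) (nat_lit 912462849) (nat_lit 94) (nat_lit 4) (nat_lit 97) (nat_lit 5) (nat_lit 97) (nat_lit 4) (nat_lit 343) (nat_lit 339) (nat_lit 338)))) (XT.nd (nat_lit 156) (nat_lit 988) (nat_lit 0) (XT.nd (nat_lit 78) (nat_lit 456) (nat_lit 0) (XT.lf (nat_lit 0) (nat_lit 1788517794) (nat_lit 304) (nat_lit 2837984669) (nat_lit 380) (nat_lit 2224238220) (nat_lit 89) (nat_lit 5) (nat_lit 93) (nat_lit 5) (nat_lit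 94) (nat_lit 4) (nat_lit 344) (nat_lit 339) (nat_lit 337)) (XT.lf (nat_lit 0) (nat_lit 3090218839) (nat_lit 456) (nat_lit 3760591060) (nat_lit 76) (nat_lit 255487370) (nat_lit 83) (nat_lit 5) (nat_lit 89) (nat_lit 5) (nat_lit 84) (nat_lit 4) (nat_lit 345) (nat_lit 339) (nat_lit 336))) (XT.nd (nat_lit 78) (nat_lit 456) (nat_lit 0) (XT.lf (nat_lit 0) (nat_lit 1177566892) (nat_lit 532) (nat_lit 2168648106) (nat_lit 76) (nat_lit 4079529776) (nat_lit 76) (nat_lit 5) (nat_lit 83) (nat_lit 5) (nat_lit 77) (nat_lit 5) (nat_lit 346) (nat_lit 339) (nat_lit 335)) (XT.lf (nat_lit 0) (nat_lit 6542052953) (nat_lit 532) (nat_lit 242570529) (nat_lit 76) (nat_lit 1030070681) (nat_lit 70) (nat_lit 5) (nat_lit 77) (nat_lit 5) (nat_lit 71) (nat_lit 4) (nat_lit 347) (nat_lit 339) (nat_lit 334))))) (XT.nd (nat_lit 312) (nat_lit 988) (nat_lit 0) (XT.nd (nat_lit 156) (nat_lit 608) (nat_lit 0) (XT.nd (nat_lit 78)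 (nat_lit 228) (nat_lit 0) (XT.lf (nat_lit 0) (nat_lit 2071094462) (nat_lit 228) (nat_lit 1980941231) (nat_lit 304) (nat_lit 4215598922) (nat_lit 63) (nat_lit 5) (nat_lit 66) (nat_lit 5) (nat_lit 67) (nat_lit 5) (nat_lit 348) (nat_lit 339) (nat_lit 333)) (XT.lf (nat_lit 0) (nat_lit 1100913824) (nat_lit 228) (nat_lit 4032249550) (nat_lit 76) (nat_lit 3662175061) (nat_lit 60) (nat_lit 5) (nat_lit 63) (nat_lit 5) (nat_lit 61) (nat_lit 5) (nat_lit 349) (nat_lit 339) (nat_lit 332))) (XT.nd (nat_lit 78) (nat_lit 380) (nat_lit 0) (XT.lf (nat_lit 0) (nat_lit 6876008741) (nat_lit 304) (nat_lit 1593124642) (nat_lit 76) (nat_lit 931614982) (nat_lit 57) (nat_lit 5) (nat_lit 61) (nat_lit 5) (nat_lit 58) (nat_lit 4) (nat_lit 350) (nat_lit 339) (nat_lit 331)) (XT.lf (nat_lit 0) (nat_lit 1171375660) (nat_lit 152) (nat_lit 2143539089) (nat_lit 228) (nat_lit 6770359528) (nat_lit 52) (nat_lit 5) (nat_lit 54)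 (nat_lit 5) (nat_lit 55) (nat_lit 5) (nat_lit 351) (nat_lit 339) (nat_lit 330)))) (XT.nd (nat_lit 156) (nat_lit 608) (nat_lit 0) (XT.nd (nat_lit 78) (nat_lit 228) (nat_lit 0) (XT.lf (nat_lit 0) (nat_lit 4361752586) (nat_lit 152) (nat_lit 5649124881) (nat_lit 228) (nat_lit 846084419) (nat_lit 50) (nat_lit 5) (nat_lit 52) (nat_lit 5) (nat_lit 53) (nat_lit 4) (nat_lit 352) (nat_lit 339) (nat_lit 329)) (XT.lf (nat_lit 0) (nat_lit 5789998072) (nat_lit 228) (nat_lit 3851115888) (nat_lit 76) (nat_lit 2082170797) (nat_lit 47) (nat_lit 5) (nat_lit 50) (nat_lit 5) (nat_lit 48) (nat_lit 4) (nat_lit 353) (nat_lit 339) (nat_lit 328))) (XT.nd (nat_lit 78) (nat_lit 456) (nat_lit 0) (XT.lf (nat_lit 0) (nat_lit 852461598) (nat_lit 152) (nat_lit 901220263) (nat_lit 76) (nat_lit 10944409806) (nat_lit 45) (nat_lit 5) (nat_lit 47) (nat_lit 5) (nat_lit 46) (nat_lit 5) (nat_lit 354) (nat_lit 339) (nat_lit 327))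 (XT.nd (nat_lit 78) (nat_lit 228) (nat_lit 0) (XT.lf (nat_lit 0) (nat_lit 2360970043) (nat_lit 76) (nat_lit 6321972664) (nat_lit 152) (nat_lit 5093659112) (nat_lit 42) (nat_lit 5) (nat_lit 43) (nat_lit 5) (nat_lit 44) (nat_lit 4) (nat_lit 355) (nat_lit 339) (nat_lit 326)) (XT.lf (nat_lit 0) (nat_lit 2873846790) (nat_lit 228) (nat_lit 8926991667) (nat_lit 76) (nat_lit 3184055327) (nat_lit 39) (nat_lit 5) (nat_lit 42) (nat_lit 5) (nat_lit 40) (nat_lit 4) (nat_lit 356) (nat_lit 339) (nat_lit 325))))))) (XT.nd (nat_lit 702) (nat_lit 912) (nat_lit 0) (XT.nd (nat_lit 312) (nat_lit 532) (nat_lit 0) (XT.nd (nat_lit 156) (nat_lit 304) (nat_lit 0) (XT.nd (nat_lit 78) (nat_lit 228) (nat_lit 0) (XT.lf (nat_lit 0) (nat_lit 10055222513) (nat_lit 76) (nat_lit 2098523191) (nat_lit 152) (nat_lit 4176636409) (nat_lit 38) (nat_lit 5) (nat_lit 39) (nat_lit 5) (nat_lit 40) (nat_lit 4) (nat_lit 357) (nat_lit 339)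 (nat_lit 324)) (XT.lf (nat_lit 0) (nat_lit 5224736426) (nat_lit 228) (nat_lit 3487000239) (nat_lit 76) (nat_lit 9114529131) (nat_lit 35) (nat_lit 5) (nat_lit 38) (nat_lit 5) (nat_lit 36) (nat_lit 4) (nat_lit 358) (nat_lit 339) (nat_lit 323))) (XT.nd (nat_lit 78) (nat_lit 228) (nat_lit 0) (XT.lf (nat_lit 0) (nat_lit 16271233411) (nat_lit 152) (nat_lit 455431396) (nat_lit 0) (nat_lit 2772643167) (nat_lit 34) (nat_lit 5) (nat_lit 36) (nat_lit 4) (nat_lit 34) (nat_lit 4) (nat_lit 359) (nat_lit 339) (nat_lit 322)) (XT.lf (nat_lit 0) (nat_lit 2763483803) (nat_lit 76) (nat_lit 5141539663) (nat_lit 152) (nat_lit 13445270074) (nat_lit 31) (nat_lit 5) (nat_lit 32) (nat_lit 5) (nat_lit 33) (nat_lit 4) (nat_lit 360) (nat_lit 339) (nat_lit 321)))) (XT.nd (nat_lit 156) (nat_lit 304) (nat_lit 0) (XT.nd (nat_lit 78) (nat_lit 152) (nat_lit 0) (XT.lf (nat_lit 0) (nat_lit 6170080978) (nat_lit 76) (nat_lit 15029253823)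 (nat_lit 76) (nat_lit 2218316205) (nat_lit 30) (nat_lit 4) (nat_lit 31) (nat_lit 5) (nat_lit 31) (nat_lit 4) (nat_lit 361) (nat_lit 339) (nat_lit 320)) (XT.lf (nat_lit 0) (nat_lit 9577958974) (nat_lit 76) (nat_lit 1246648199) (nat_lit 152) (nat_lit 14896605038) (nat_lit 28) (nat_lit 5) (nat_lit 29) (nat_lit 5) (nat_lit 30) (nat_lit 4) (nat_lit 362) (nat_lit 339) (nat_lit 319))) (XT.nd (nat_lit 78) (nat_lit 228) (nat_lit 0) (XT.lf (nat_lit 0) (nat_lit 12887491259) (nat_lit 76) (nat_lit 13741934569) (nat_lit 76) (nat_lit 1661343694) (nat_lit 27) (nat_lit 4) (nat_lit 28) (nat_lit 5) (nat_lit 28) (nat_lit 4) (nat_lit 363) (nat_lit 339) (nat_lit 318)) (XT.nd (nat_lit 78) (nat_lit 76) (nat_lit 0) (XT.lf (nat_lit 0) (nat_lit 13614710541) (nat_lit 152) (nat_lit 15199161084) (nat_lit 0) (nat_lit 2347110444) (nat_lit 25) (nat_lit 5) (nat_lit 27) (nat_lit 4) (nat_lit 25) (nat_lit 4) (nat_lit 364) (nat_lit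 339) (nat_lit 317)) (XT.lf (nat_lit 0) (nat_lit 18612697660) (nat_lit 76) (nat_lit 13549070058) (nat_lit 76) (nat_lit 2210280565) (nat_lit 24) (nat_lit 4) (nat_lit 25) (nat_lit 5) (nat_lit 25) (nat_lit 4) (nat_lit 365) (nat_lit 339) (nat_lit 316)))))) (XT.nd (nat_lit 312) (nat_lit 456) (nat_lit 0) (XT.nd (nat_lit 156) (nat_lit 228) (nat_lit 0) (XT.nd (nat_lit 78) (nat_lit 76) (nat_lit 0) (XT.lf (nat_lit 0) (nat_lit 15531683163) (nat_lit 152) (nat_lit 17457754662) (nat_lit 0) (nat_lit 4975485649) (nat_lit 22) (nat_lit 5) (nat_lit 24) (nat_lit 4) (nat_lit 22) (nat_lit 4) (nat_lit 366) (nat_lit 339) (nat_lit 315)) (XT.lf (nat_lit 0) (nat_lit 21357373151) (nat_lit 76) (nat_lit 15623339880) (nat_lit 76) (nat_lit 5017300319) (nat_lit 21) (nat_lit 4) (nat_lit 22) (nat_lit 5) (nat_lit 22) (nat_lit 4) (nat_lit 367) (nat_lit 339) (nat_lit 314))) (XT.nd (nat_lit 78) (nat_lit 76) (nat_lit 0) (XT.lf (nat_lit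 0) (nat_lit 15242925678) (nat_lit 152) (nat_lit 25903253237) (nat_lit 0) (nat_lit 5382388204) (nat_lit 19) (nat_lit 5) (nat_lit 21) (nat_lit 4) (nat_lit 19) (nat_lit 4) (nat_lit 368) (nat_lit 339) (nat_lit 313)) (XT.lf (nat_lit 0) (nat_lit 17606378201) (nat_lit 76) (nat_lit 21955979499) (nat_lit 76) (nat_lit 12060545963) (nat_lit 18) (nat_lit 4) (nat_lit 19) (nat_lit 5) (nat_lit 19) (nat_lit 4) (nat_lit 369) (nat_lit 339) (nat_lit 312)))) (XT.nd (nat_lit 156) (nat_lit 228) (nat_lit 0) (XT.nd (nat_lit 78) (nat_lit 76) (nat_lit 0) (XT.lf (nat_lit 0) (nat_lit 10483085047) (nat_lit 152) (nat_lit 45611432849) (nat_lit 0) (nat_lit 1292549919) (nat_lit 16) (nat_lit 5) (nat_lit 18) (nat_lit 4) (nat_lit 16) (nat_lit 4) (nat_lit 370) (nat_lit 339) (nat_lit 311)) (XT.lf (nat_lit 0) (nat_lit 1371744223) (nat_lit 76) (nat_lit 35855679871) (nat_lit 76) (nat_lit 26640712856) (nat_lit 15) (nat_lit 4) (nat_lit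 16) (nat_lit 5) (nat_lit 16) (nat_lit 4) (nat_lit 371) (nat_lit 339) (nat_lit 310))) (XT.nd (nat_lit 78) (nat_lit 228) (nat_lit 0) (XT.lf (nat_lit 0) (nat_lit 57898789259) (nat_lit 76) (nat_lit 11281520494) (nat_lit 76) (nat_lit 2045308361) (nat_lit 15) (nat_lit 4) (nat_lit 16) (nat_lit 5) (nat_lit 16) (nat_lit 4) (nat_lit 372) (nat_lit 339) (nat_lit 309)) (XT.nd (nat_lit 78) (nat_lit 76) (nat_lit 0) (XT.lf (nat_lit 0) (nat_lit 26331737559) (nat_lit 152) (nat_lit 35429523605) (nat_lit 0) (nat_lit 17762583717) (nat_lit 13) (nat_lit 5) (nat_lit 15) (nat_lit 4) (nat_lit 13) (nat_lit 4) (nat_lit 373) (nat_lit 339) (nat_lit 308)) (XT.lf (nat_lit 0) (nat_lit 22419748006) (nat_lit 76) (nat_lit 37567690973) (nat_lit 76) (nat_lit 28983662722) (nat_lit 12) (nat_lit 4) (nat_lit 13) (nat_lit 5) (nat_lit 13) (nat_lit 4) (nat_lit 374) (nat_lit 339) (nat_lit 307))))))))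
noncomputable def xc44 : XT := (XT.nd (nat_lit 1326) (nat_lit 152) (nat_lit 0) (XT.nd (nat_lit 624) (nat_lit 228) (nat_lit 0) (XT.nd (nat_lit 312) (nat_lit 228) (nat_lit 0) (XT.nd (nat_lit 156) (nat_lit 76) (nat_lit 0) (XT.nd (nat_lit 78) (nat_lit 152) (nat_lit 0) (XT.lf (nat_lit 0) (nat_lit 90887768674) (nat_lit 76) (nat_lit 8735067821) (nat_lit 76) (nat_lit 138105301) (nat_lit 12) (nat_lit 4) (nat_lit 13) (nat_lit 5) (nat_lit 13) (nat_lit 4) (nat_lit 375) (nat_lit 339) (nat_lit 306)) (XT.lf (nat_lit 0) (nat_lit 33365201420) (nat_lit 152) (nat_lit 53187189250) (nat_lit 0) (nat_lit 25394636874) (nat_lit 10) (nat_lit 5) (nat_lit 12) (nat_lit 4) (nat_lit 10) (nat_lit 4) (nat_lit 376) (nat_lit 339) (nat_lit 305))) (XT.nd (nat_lit 78) (nat_lit 0) (nat_lit 0) (XT.lf (nat_lit 0) (nat_lit 11275403427) (nat_lit 76) (nat_lit 61304707353) (nat_lit 76) (nat_lit 53325087098) (nat_lit 9) (nat_lit 4) (nat_lit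 10) (nat_lit 5) (nat_lit 10) (nat_lit 4) (nat_lit 377) (nat_lit 339) (nat_lit 304)) (XT.lf (nat_lit 0) (nat_lit 88471446395) (nat_lit 76) (nat_lit 30677696246) (nat_lit 76) (nat_lit 22690201462) (nat_lit 9) (nat_lit 4) (nat_lit 10) (nat_lit 5) (nat_lit 10) (nat_lit 4) (nat_lit 378) (nat_lit 339) (nat_lit 303)))) (XT.nd (nat_lit 156) (nat_lit 76) (nat_lit 0) (XT.nd (nat_lit 78) (nat_lit 0) (nat_lit 0) (XT.lf (nat_lit 0) (nat_lit 12391911152) (nat_lit 152) (nat_lit 142719489503) (nat_lit 0) (nat_lit 4989742448) (nat_lit 7) (nat_lit 5) (nat_lit 9) (nat_lit 4) (nat_lit 7) (nat_lit 4) (nat_lit 379) (nat_lit 339) (nat_lit 302)) (XT.lf (nat_lit 0) (nat_lit 53809516438) (nat_lit 152) (nat_lit 80650378278) (nat_lit 0) (nat_lit 46401834515) (nat_lit 7) (nat_lit 5) (nat_lit 9) (nat_lit 4) (nat_lit 7) (nat_lit 4) (nat_lit 380) (nat_lit 339) (nat_lit 301))) (XT.nd (nat_lit 78) (nat_lit 76) (nat_lit 0)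 (XT.lf (nat_lit 0) (nat_lit 101384036123) (nat_lit 152) (nat_lit 9385265917) (nat_lit 0) (nat_lit 93971560097) (nat_lit 7) (nat_lit 5) (nat_lit 9) (nat_lit 4) (nat_lit 7) (nat_lit 4) (nat_lit 381) (nat_lit 339) (nat_lit 300)) (XT.lf (nat_lit 0) (nat_lit 76286315455) (nat_lit 76) (nat_lit 81594648294) (nat_lit 76) (nat_lit 74178003484) (nat_lit 6) (nat_lit 4) (nat_lit 7) (nat_lit 5) (nat_lit 7) (nat_lit 4) (nat_lit 382) (nat_lit 339) (nat_lit 299))))) (XT.nd (nat_lit 312) (nat_lit 76) (nat_lit 0) (XT.nd (nat_lit 156) (nat_lit 152) (nat_lit 0) (XT.nd (nat_lit 78) (nat_lit 0) (nat_lit 0) (XT.lf (nat_lit 0) (nat_lit 175285946728) (nat_lit 76) (nat_lit 47795399267) (nat_lit 76) (nat_lit 40375129426) (nat_lit 6) (nat_lit 4) (nat_lit 7) (nat_lit 5) (nat_lit 7) (nat_lit 4) (nat_lit 383) (nat_lit 339) (nat_lit 298)) (XT.lf (nat_lit 0) (nat_lit 289056365736) (nat_lit 76) (nat_lit 8966875106) (nat_lit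 76) (nat_lit 1543453065) (nat_lit 6) (nat_lit 4) (nat_lit 7) (nat_lit 5) (nat_lit 7) (nat_lit 4) (nat_lit 384) (nat_lit 339) (nat_lit 297))) (XT.nd (nat_lit 78) (nat_lit 0) (nat_lit 0) (XT.lf (nat_lit 0) (nat_lit 43824166327) (nat_lit 152) (nat_lit 260008810219) (nat_lit 0) (nat_lit 36948089396) (nat_lit 4) (nat_lit 5) (nat_lit 6) (nat_lit 4) (nat_lit 4) (nat_lit 4) (nat_lit 385) (nat_lit 339) (nat_lit 296)) (XT.lf (nat_lit 0) (nat_lit 96437827355) (nat_lit 152) (nat_lit 202134433064) (nat_lit 0) (nat_lit 89559543465) (nat_lit 4) (nat_lit 5) (nat_lit 6) (nat_lit 4) (nat_lit 4) (nat_lit 4) (nat_lit 386) (nat_lit 339) (nat_lit 295)))) (XT.nd (nat_lit 156) (nat_lit 76) (nat_lit 0) (XT.nd (nat_lit 78) (nat_lit 0) (nat_lit 0) (XT.lf (nat_lit 0) (nat_lit 156915488407) (nat_lit 152) (nat_lit 135636622916) (nat_lit 0) (nat_lit 150035285422) (nat_lit 4) (nat_lit 5) (nat_lit 6) (nat_lit 4) (nat_lit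 4) (nat_lit 4) (nat_lit 387) (nat_lit 339) (nat_lit 294)) (XT.lf (nat_lit 0) (nat_lit 226440408070) (nat_lit 152) (nat_lit 59214335664) (nat_lit 0) (nat_lit 219558536307) (nat_lit 4) (nat_lit 5) (nat_lit 6) (nat_lit 4) (nat_lit 4) (nat_lit 4) (nat_lit 388) (nat_lit 339) (nat_lit 293))) (XT.nd (nat_lit 78) (nat_lit 0) (nat_lit 0) (XT.lf (nat_lit 0) (nat_lit 30135128533) (nat_lit 76) (nat_lit 276962478544) (nat_lit 76) (nat_lit 270079155669) (nat_lit 3) (nat_lit 4) (nat_lit 4) (nat_lit 5) (nat_lit 4) (nat_lit 4) (nat_lit 389) (nat_lit 339) (nat_lit 292)) (XT.nd (nat_lit 78) (nat_lit 0) (nat_lit 0) (XT.lf (nat_lit 0) (nat_lit 136432899845) (nat_lit 76) (nat_lit 265125044138) (nat_lit 76) (nat_lit 258240459427) (nat_lit 3) (nat_lit 4) (nat_lit 4) (nat_lit 5) (nat_lit 4) (nat_lit 4) (nat_lit 390) (nat_lit 339) (nat_lit 291)) (XT.lf (nat_lit 0) (nat_lit 258640595295) (nat_lit 76) (nat_lit 251529863414)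 (nat_lit 76) (nat_lit 244644181453) (nat_lit 3) (nat_lit 4) (nat_lit 4) (nat_lit 5) (nat_lit 4) (nat_lit 4) (nat_lit 391) (nat_lit 339) (nat_lit 290))))))) (XT.nd (nat_lit 624) (nat_lit 152) (nat_lit 0) (XT.nd (nat_lit 312) (nat_lit 0) (nat_lit 0) (XT.nd (nat_lit 156) (nat_lit 0) (nat_lit 0) (XT.nd (nat_lit 78) (nat_lit 0) (nat_lit 0) (XT.lf (nat_lit 0) (nat_lit 399149235013) (nat_lit 76) (nat_lit 235910943704) (nat_lit 76) (nat_lit 229024307614) (nat_lit 3) (nat_lit 4) (nat_lit 4) (nat_lit 5) (nat_lit 4) (nat_lit 4) (nat_lit 392) (nat_lit 339) (nat_lit 289)) (XT.lf (nat_lit 0) (nat_lit 560707901080) (nat_lit 76) (nat_lit 217962697449) (nat_lit 76) (nat_lit 211075231681) (nat_lit 3) (nat_lit 4) (nat_lit 4) (nat_lit 5) (nat_lit 4) (nat_lit 4) (nat_lit 393) (nat_lit 339) (nat_lit 288))) (XT.nd (nat_lit 78) (nat_lit 0) (nat_lit 0) (XT.lf (nat_lit 0) (nat_lit 746477523918) (nat_lit 76) (nat_lit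 197333963309) (nat_lit 76) (nat_lit 190445776083) (nat_lit 3) (nat_lit 4) (nat_lit 4) (nat_lit 5) (nat_lit 4) (nat_lit 4) (nat_lit 394) (nat_lit 339) (nat_lit 287)) (XT.lf (nat_lit 0) (nat_lit 960092726583) (nat_lit 76) (nat_lit 173621135617) (nat_lit 76) (nat_lit 166732321035) (nat_lit 3) (nat_lit 4) (nat_lit 4) (nat_lit 5) (nat_lit 4) (nat_lit 4) (nat_lit 395) (nat_lit 339) (nat_lit 286)))) (XT.nd (nat_lit 156) (nat_lit 0) (nat_lit 0) (XT.nd (nat_lit 78) (nat_lit 0) (nat_lit 0) (XT.lf (nat_lit 0) (nat_lit 1205732936954) (nat_lit 76) (nat_lit 146360267744) (nat_lit 76) (nat_lit 139470907635) (nat_lit 3) (nat_lit 4) (nat_lit 4) (nat_lit 5) (nat_lit 4) (nat_lit 4) (nat_lit 396) (nat_lit 339) (nat_lit 285)) (XT.lf (nat_lit 0) (nat_lit 1488204159146) (nat_lit 76) (nat_lit 115017994883) (nat_lit 76) (nat_lit 108128160403) (nat_lit 3) (nat_lit 4) (nat_lit 4) (nat_lit 5) (nat_lit 4) (nat_lit 4)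 (nat_lit 397) (nat_lit 339) (nat_lit 284))) (XT.nd (nat_lit 78) (nat_lit 0) (nat_lit 0) (XT.lf (nat_lit 0) (nat_lit 1813033004029) (nat_lit 76) (nat_lit 78981098653) (nat_lit 76) (nat_lit 72090851676) (nat_lit 3) (nat_lit 4) (nat_lit 4) (nat_lit 5) (nat_lit 4) (nat_lit 4) (nat_lit 398) (nat_lit 339) (nat_lit 283)) (XT.lf (nat_lit 0) (nat_lit 2186574818567) (nat_lit 76) (nat_lit 37544509344) (nat_lit 76) (nat_lit 30653903675) (nat_lit 3) (nat_lit 4) (nat_lit 4) (nat_lit 5) (nat_lit 4) (nat_lit 4) (nat_lit 399) (nat_lit 339) (nat_lit 282))))) (XT.nd (nat_lit 312) (nat_lit 0) (nat_lit 0) (XT.nd (nat_lit 156) (nat_lit 0) (nat_lit 0) (XT.nd (nat_lit 78) (nat_lit 0) (nat_lit 0) (XT.lf (nat_lit 0) (nat_lit 17090082072) (nat_lit 152) (nat_lit 2561134013527) (nat_lit 0) (nat_lit 10709602835) (nat_lit 1) (nat_lit 5) (nat_lit 3) (nat_lit 4) (nat_lit 1) (nat_lit 4) (nat_lit 400) (nat_lit 339) (nat_lit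 281)) (XT.lf (nat_lit 0) (nat_lit 73303085174) (nat_lit 152) (nat_lit 2832679301135) (nat_lit 0) (nat_lit 66922354805) (nat_lit 1) (nat_lit 5) (nat_lit 3) (nat_lit 4) (nat_lit 1) (nat_lit 4) (nat_lit 401) (nat_lit 339) (nat_lit 280))) (XT.nd (nat_lit 78) (nat_lit 0) (nat_lit 0) (XT.lf (nat_lit 0) (nat_lit 137944023963) (nat_lit 152) (nat_lit 3144964662231) (nat_lit 0) (nat_lit 131563075217) (nat_lit 1) (nat_lit 5) (nat_lit 3) (nat_lit 4) (nat_lit 1) (nat_lit 4) (nat_lit 402) (nat_lit 339) (nat_lit 279)) (XT.lf (nat_lit 0) (nat_lit 212277612459) (nat_lit 152) (nat_lit 3504100027792) (nat_lit 0) (nat_lit 205896473821) (nat_lit 1) (nat_lit 5) (nat_lit 3) (nat_lit 4) (nat_lit 1) (nat_lit 4) (nat_lit 403) (nat_lit 339) (nat_lit 278)))) (XT.nd (nat_lit 156) (nat_lit 0) (nat_lit 0) (XT.nd (nat_lit 78) (nat_lit 0) (nat_lit 0) (XT.lf (nat_lit 0) (nat_lit 297758203480) (nat_lit 152) (nat_lit 3917111959320)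 (nat_lit 0) (nat_lit 291376899718) (nat_lit 1) (nat_lit 5) (nat_lit 3) (nat_lit 4) (nat_lit 1) (nat_lit 4) (nat_lit 404) (nat_lit 339) (nat_lit 277)) (XT.lf (nat_lit 0) (nat_lit 396058243372) (nat_lit 152) (nat_lit 4392081125038) (nat_lit 0) (nat_lit 389676796024) (nat_lit 1) (nat_lit 5) (nat_lit 3) (nat_lit 4) (nat_lit 1) (nat_lit 4) (nat_lit 405) (nat_lit 339) (nat_lit 276))) (XT.nd (nat_lit 78) (nat_lit 0) (nat_lit 0) (XT.lf (nat_lit 0) (nat_lit 509100993785) (nat_lit 152) (nat_lit 4938300399930) (nat_lit 0) (nat_lit 502719421580) (nat_lit 1) (nat_lit 5) (nat_lit 3) (nat_lit 4) (nat_lit 1) (nat_lit 4) (nat_lit 406) (nat_lit 339) (nat_lit 275)) (XT.nd (nat_lit 78) (nat_lit 0) (nat_lit 0) (XT.lf (nat_lit 0) (nat_lit 639098160706) (nat_lit 152) (nat_lit 5566456682851) (nat_lit 0) (nat_lit 632716479930) (nat_lit 1) (nat_lit 5) (nat_lit 3) (nat_lit 4) (nat_lit 1) (nat_lit 4) (nat_lit 407) (nat_lit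 339) (nat_lit 274)) (XT.lf (nat_lit 0) (nat_lit 788593166966) (nat_lit 152) (nat_lit 6288839988033) (nat_lit 0) (nat_lit 782211391779) (nat_lit 1) (nat_lit 5) (nat_lit 3) (nat_lit 4) (nat_lit 1) (nat_lit 4) (nat_lit 408) (nat_lit 339) (nat_lit 273))))))))
noncomputable def xc45 : XT := (XT.nd (nat_lit 48282) (nat_lit 0) (nat_lit 2052) (XT.nd (nat_lit 624) (nat_lit 0) (nat_lit 0) (XT.nd (nat_lit 312) (nat_lit 0) (nat_lit 0) (XT.nd (nat_lit 156) (nat_lit 0) (nat_lit 0) (XT.nd (nat_lit 78) (nat_lit 0) (nat_lit 0) (XT.lf (nat_lit 0) (nat_lit 960510914860) (nat_lit 152) (nat_lit 7119583901881) (nat_lit 0) (nat_lit 954129057578) (nat_lit 1) (nat_lit 5) (nat_lit 3) (nat_lit 4) (nat_lit 1) (nat_lit 4) (nat_lit 409) (nat_lit 339) (nat_lit 272)) (XT.lf (nat_lit 0) (nat_lit 1158215012501) (nat_lit 152) (nat_lit 8074942109667) (nat_lit 0) (nat_lit 1151833083832) (nat_lit 1) (nat_lit 5) (nat_lit 3) (nat_lit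 4) (nat_lit 1) (nat_lit 4) (nat_lit 410) (nat_lit 339) (nat_lit 271))) (XT.nd (nat_lit 78) (nat_lit 0) (nat_lit 0) (XT.lf (nat_lit 0) (nat_lit 1385573583538) (nat_lit 152) (nat_lit 9173606402411) (nat_lit 0) (nat_lit 1379191592792) (nat_lit 1) (nat_lit 5) (nat_lit 3) (nat_lit 4) (nat_lit 1) (nat_lit 4) (nat_lit 411) (nat_lit 339) (nat_lit 270)) (XT.lf (nat_lit 0) (nat_lit 1647034947838) (nat_lit 152) (nat_lit 10437072385842) (nat_lit 0) (nat_lit 1640652903113) (nat_lit 1) (nat_lit 5) (nat_lit 3) (nat_lit 4) (nat_lit 1) (nat_lit 4) (nat_lit 412) (nat_lit 339) (nat_lit 269)))) (XT.nd (nat_lit 156) (nat_lit 0) (nat_lit 0) (XT.nd (nat_lit 78) (nat_lit 0) (nat_lit 0) (XT.lf (nat_lit 0) (nat_lit 1947714653834) (nat_lit 152) (nat_lit 11890060046593) (nat_lit 0) (nat_lit 1941332562170) (nat_lit 1) (nat_lit 5) (nat_lit 3) (nat_lit 4) (nat_lit 1) (nat_lit 4) (nat_lit 413) (nat_lit 339) (nat_lit 268))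 (XT.lf (nat_lit 0) (nat_lit 2293495565338) (nat_lit 152) (nat_lit 13560997404111) (nat_lit 0) (nat_lit 2287113432858) (nat_lit 1) (nat_lit 5) (nat_lit 3) (nat_lit 4) (nat_lit 1) (nat_lit 4) (nat_lit 414) (nat_lit 339) (nat_lit 267))) (XT.nd (nat_lit 78) (nat_lit 0) (nat_lit 0) (XT.lf (nat_lit 0) (nat_lit 2691142961054) (nat_lit 152) (nat_lit 15482576711046) (nat_lit 0) (nat_lit 2684760793082) (nat_lit 1) (nat_lit 5) (nat_lit 3) (nat_lit 4) (nat_lit 1) (nat_lit 4) (nat_lit 415) (nat_lit 339) (nat_lit 266)) (XT.lf (nat_lit 0) (nat_lit 3148436898724) (nat_lit 152) (nat_lit 17692394084271) (nat_lit 0) (nat_lit 3142054699890) (nat_lit 1) (nat_lit 5) (nat_lit 3) (nat_lit 4) (nat_lit 1) (nat_lit 4) (nat_lit 416) (nat_lit 339) (nat_lit 265))))) (XT.nd (nat_lit 47268) (nat_lit 0) (nat_lit 5700) (XT.nd (nat_lit 47112) (nat_lit 0) (nat_lit 7600) (XT.nd (nat_lit 78) (nat_lit 0) (nat_lit 0) (XT.lf (nat_lit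 0) (nat_lit 3674324433651) (nat_lit 152) (nat_lit 20233685081088) (nat_lit 0) (nat_lit 3667942207979) (nat_lit 1) (nat_lit 5) (nat_lit 3) (nat_lit 4) (nat_lit 1) (nat_lit 4) (nat_lit 417) (nat_lit 339) (nat_lit 264)) (XT.lf (nat_lit 0) (nat_lit 4279094669779) (nat_lit 152) (nat_lit 23156170612306) (nat_lit 0) (nat_lit 4272712420770) (nat_lit 1) (nat_lit 5) (nat_lit 3) (nat_lit 4) (nat_lit 1) (nat_lit 4) (nat_lit 418) (nat_lit 339) (nat_lit 263))) (XT.nd (nat_lit 78) (nat_lit 76) (nat_lit 0) (XT.lf (nat_lit 0) (nat_lit 1073741823) (nat_lit 0) (nat_lit 0) (nat_lit 0) (nat_lit 0) (nat_lit 102) (nat_lit 0) (nat_lit 1) (nat_lit 0) (nat_lit 1) (nat_lit 0) (nat_lit 340) (nat_lit 340) (nat_lit 340)) (XT.lf (nat_lit 0) (nat_lit 5613673146) (nat_lit 76) (nat_lit 449954179) (nat_lit 0) (nat_lit 408943076) (nat_lit 101) (nat_lit 5) (nat_lit 102) (nat_lit 0) (nat_lit 101) (nat_lit 4) (nat_lit 341) (nat_lit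 340) (nat_lit 339)))) (XT.nd (nat_lit 156) (nat_lit 1520) (nat_lit 0) (XT.nd (nat_lit 78) (nat_lit 228) (nat_lit 0) (XT.lf (nat_lit 0) (nat_lit 4423926194) (nat_lit 152) (nat_lit 528815819) (nat_lit 76) (nat_lit 1613220303) (nat_lit 99) (nat_lit 5) (nat_lit 101) (nat_lit 5) (nat_lit 100) (nat_lit 4) (nat_lit 342) (nat_lit 340) (nat_lit 338)) (XT.lf (nat_lit 0) (nat_lit 2848067328) (nat_lit 228) (nat_lit 234113083) (nat_lit 76) (nat_lit 3641837962) (nat_lit 96) (nat_lit 5) (nat_lit 99) (nat_lit 5) (nat_lit 97) (nat_lit 5) (nat_lit 343) (nat_lit 340) (nat_lit 337))) (XT.nd (nat_lit 78) (nat_lit 912) (nat_lit 0) (XT.lf (nat_lit 0) (nat_lit 469221472) (nat_lit 304) (nat_lit 393316389) (nat_lit 380) (nat_lit 6085661394) (nat_lit 88) (nat_lit 5) (nat_lit 92) (nat_lit 5) (nat_lit 93) (nat_lit 5) (nat_lit 344) (nat_lit 340) (nat_lit 336)) (XT.nd (nat_lit 78) (nat_lit 532) (nat_lit 0) (XT.lf (nat_lit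 0) (nat_lit 1488755554) (nat_lit 380) (nat_lit 4168430601) (nat_lit 456) (nat_lit 1575145347) (nat_lit 83) (nat_lit 5) (nat_lit 88) (nat_lit 5) (nat_lit 89) (nat_lit 5) (nat_lit 345) (nat_lit 340) (nat_lit 335)) (XT.lf (nat_lit 0) (nat_lit 2896099490) (nat_lit 456) (nat_lit 126766126) (nat_lit 532) (nat_lit 4562237539) (nat_lit 76) (nat_lit 5) (nat_lit 82) (nat_lit 5) (nat_lit 83) (nat_lit 5) (nat_lit 346) (nat_lit 340) (nat_lit 334))))))) (XT.nd (nat_lit 624) (nat_lit 1368) (nat_lit 0) (XT.nd (nat_lit 312) (nat_lit 836) (nat_lit 0) (XT.nd (nat_lit 156) (nat_lit 684) (nat_lit 0) (XT.nd (nat_lit 78) (nat_lit 304) (nat_lit 0) (XT.lf (nat_lit 0) (nat_lit 4636730431) (nat_lit 456) (nat_lit 3367768314) (nat_lit 532) (nat_lit 302199) (nat_lit 70) (nat_lit 5) (nat_lit 76) (nat_lit 5) (nat_lit 77) (nat_lit 5) (nat_lit 347) (nat_lit 340) (nat_lit 333)) (XT.lf (nat_lit 0) (nat_lit 4781812545) (nat_lit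 304) (nat_lit 1788697790) (nat_lit 76) (nat_lit 1923192998) (nat_lit 66) (nat_lit 5) (nat_lit 70) (nat_lit 5) (nat_lit 67) (nat_lit 5) (nat_lit 348) (nat_lit 340) (nat_lit 332))) (XT.nd (nat_lit 78) (nat_lit 228) (nat_lit 0) (XT.lf (nat_lit 0) (nat_lit 123658431) (nat_lit 152) (nat_lit 957110985) (nat_lit 228) (nat_lit 7979638901) (nat_lit 60) (nat_lit 5) (nat_lit 62) (nat_lit 5) (nat_lit 63) (nat_lit 5) (nat_lit 349) (nat_lit 340) (nat_lit 331)) (XT.lf (nat_lit 0) (nat_lit 2380864726) (nat_lit 228) (nat_lit 4075537765) (nat_lit 304) (nat_lit 3241440442) (nat_lit 57) (nat_lit 5) (nat_lit 60) (nat_lit 5) (nat_lit 61) (nat_lit 5) (nat_lit 350) (nat_lit 340) (nat_lit 330)))) (XT.nd (nat_lit 156) (nat_lit 456) (nat_lit 0) (XT.nd (nat_lit 78) (nat_lit 152) (nat_lit 0) (XT.lf (nat_lit 0) (nat_lit 2145334602) (nat_lit 228) (nat_lit 5415608382) (nat_lit 76) (nat_lit 2861957861) (nat_lit 54) (nat_lit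 5) (nat_lit 57) (nat_lit 5) (nat_lit 55) (nat_lit 5) (nat_lit 351) (nat_lit 340) (nat_lit 329)) (XT.lf (nat_lit 0) (nat_lit 7989353732) (nat_lit 152) (nat_lit 287875159) (nat_lit 228) (nat_lit 2962532466) (nat_lit 52) (nat_lit 5) (nat_lit 54) (nat_lit 5) (nat_lit 55) (nat_lit 5) (nat_lit 352) (nat_lit 340) (nat_lit 328))) (XT.nd (nat_lit 78) (nat_lit 228) (nat_lit 0) (XT.lf (nat_lit 0) (nat_lit 3263755010) (nat_lit 228) (nat_lit 864586827) (nat_lit 76) (nat_lit 8023106091) (nat_lit 49) (nat_lit 5) (nat_lit 52) (nat_lit 5) (nat_lit 50) (nat_lit 5) (nat_lit 353) (nat_lit 340) (nat_lit 327)) (XT.lf (nat_lit 0) (nat_lit 1942697237) (nat_lit 76) (nat_lit 8603034538) (nat_lit 152) (nat_lit 2624298295) (nat_lit 46) (nat_lit 5) (nat_lit 47) (nat_lit 5) (nat_lit 48) (nat_lit 4) (nat_lit 354) (nat_lit 340) (nat_lit 326))))) (XT.nd (nat_lit 312) (nat_lit 760) (nat_lit 0) (XT.nd (nat_lit 156) (nat_lit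 304) (nat_lit 0) (XT.nd (nat_lit 78) (nat_lit 76) (nat_lit 0) (XT.lf (nat_lit 0) (nat_lit 4684477341) (nat_lit 228) (nat_lit 9165201270) (nat_lit 76) (nat_lit 456176181) (nat_lit 43) (nat_lit 5) (nat_lit 46) (nat_lit 5) (nat_lit 44) (nat_lit 4) (nat_lit 355) (nat_lit 340) (nat_lit 325)) (XT.lf (nat_lit 0) (nat_lit 8647986702) (nat_lit 76) (nat_lit 4766664474) (nat_lit 152) (nat_lit 2153561372) (nat_lit 42) (nat_lit 5) (nat_lit 43) (nat_lit 5) (nat_lit 44) (nat_lit 4) (nat_lit 356) (nat_lit 340) (nat_lit 324))) (XT.nd (nat_lit 78) (nat_lit 76) (nat_lit 0) (XT.lf (nat_lit 0) (nat_lit 6557360512) (nat_lit 228) (nat_lit 4467159144) (nat_lit 76) (nat_lit 5947479945) (nat_lit 39) (nat_lit 5) (nat_lit 42) (nat_lit 5) (nat_lit 40) (nat_lit 4) (nat_lit 357) (nat_lit 340) (nat_lit 323)) (XT.lf (nat_lit 0) (nat_lit 16871540746) (nat_lit 76) (nat_lit 61131007) (nat_lit 152) (nat_lit 1610421744) (nat_lit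 38) (nat_lit 5) (nat_lit 39) (nat_lit 5) (nat_lit 40) (nat_lit 4) (nat_lit 358) (nat_lit 340) (nat_lit 322)))) (XT.nd (nat_lit 156) (nat_lit 380) (nat_lit 0) (XT.nd (nat_lit 78) (nat_lit 76) (nat_lit 0) (XT.lf (nat_lit 0) (nat_lit 1223263895) (nat_lit 76) (nat_lit 7626420325) (nat_lit 152) (nat_lit 11422919082) (nat_lit 34) (nat_lit 5) (nat_lit 35) (nat_lit 5) (nat_lit 36) (nat_lit 4) (nat_lit 359) (nat_lit 340) (nat_lit 321)) (XT.lf (nat_lit 0) (nat_lit 4593000376) (nat_lit 76) (nat_lit 16840618064) (nat_lit 76) (nat_lit 772585922) (nat_lit 33) (nat_lit 4) (nat_lit 34) (nat_lit 5) (nat_lit 34) (nat_lit 4) (nat_lit 360) (nat_lit 340) (nat_lit 320))) (XT.nd (nat_lit 78) (nat_lit 228) (nat_lit 0) (XT.lf (nat_lit 0) (nat_lit 8022378290) (nat_lit 76) (nat_lit 3625121549) (nat_lit 152) (nat_lit 12700587498) (nat_lit 31) (nat_lit 5) (nat_lit 32) (nat_lit 5) (nat_lit 33) (nat_lit 4) (nat_lit 361)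 (nat_lit 340) (nat_lit 319)) (XT.nd (nat_lit 78) (nat_lit 76) (nat_lit 0) (XT.lf (nat_lit 0) (nat_lit 19591823) (nat_lit 152) (nat_lit 15073157073) (nat_lit 76) (nat_lit 11646843720) (nat_lit 29) (nat_lit 5) (nat_lit 31) (nat_lit 5) (nat_lit 30) (nat_lit 4) (nat_lit 362) (nat_lit 340) (nat_lit 318)) (XT.lf (nat_lit 0) (nat_lit 14691565597) (nat_lit 152) (nat_lit 14099429299) (nat_lit 0) (nat_lit 608789047) (nat_lit 28) (nat_lit 5) (nat_lit 30) (nat_lit 4) (nat_lit 28) (nat_lit 4) (nat_lit 363) (nat_lit 340) (nat_lit 317))))))))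
noncomputable def xc46 : XT := (XT.nd (nat_lit 1326) (nat_lit 304) (nat_lit 0) (XT.nd (nat_lit 624) (nat_lit 684) (nat_lit 0) (XT.nd (nat_lit 312) (nat_lit 456) (nat_lit 0) (XT.nd (nat_lit 156) (nat_lit 228) (nat_lit 0) (XT.nd (nat_lit 78) (nat_lit 76) (nat_lit 0) (XT.lf (nat_lit 0) (nat_lit 317320692) (nat_lit 152) (nat_lit 13499634055) (nat_lit 76) (nat_lit 18550402942) (nat_lit 26) (nat_lit 5) (nat_lit 28) (nat_lit 5) (nat_lit 27) (nat_lit 4) (nat_lit 364) (nat_lit 340) (nat_lit 316)) (XT.lf (nat_lit 0) (nat_lit 17647804643) (nat_lit 152) (nat_lit 13552846108) (nat_lit 0) (nat_lit 4475103508) (nat_lit 25) (nat_lit 5) (nat_lit 27) (nat_lit 4) (nat_lit 25) (nat_lit 4) (nat_lit 365) (nat_lit 340) (nat_lit 315))) (XT.nd (nat_lit 78) (nat_lit 152) (nat_lit 0) (XT.lf (nat_lit 0) (nat_lit 24998459092) (nat_lit 76) (nat_lit 13805212665) (nat_lit 76) (nat_lit 578682120) (nat_lit 24) (nat_lit 4)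 (nat_lit 25) (nat_lit 5) (nat_lit 25) (nat_lit 4) (nat_lit 366) (nat_lit 340) (nat_lit 314)) (XT.lf (nat_lit 0) (nat_lit 19604723086) (nat_lit 152) (nat_lit 16600808383) (nat_lit 0) (nat_lit 7314594634) (nat_lit 22) (nat_lit 5) (nat_lit 24) (nat_lit 4) (nat_lit 22) (nat_lit 4) (nat_lit 367) (nat_lit 340) (nat_lit 313)))) (XT.nd (nat_lit 156) (nat_lit 228) (nat_lit 0) (XT.nd (nat_lit 78) (nat_lit 152) (nat_lit 0) (XT.lf (nat_lit 0) (nat_lit 27742395571) (nat_lit 76) (nat_lit 16377839686) (nat_lit 76) (nat_lit 4050023485) (nat_lit 21) (nat_lit 4) (nat_lit 22) (nat_lit 5) (nat_lit 22) (nat_lit 4) (nat_lit 368) (nat_lit 340) (nat_lit 312)) (XT.lf (nat_lit 0) (nat_lit 19058057743) (nat_lit 152) (nat_lit 26714379239) (nat_lit 0) (nat_lit 7613068710) (nat_lit 19) (nat_lit 5) (nat_lit 21) (nat_lit 4) (nat_lit 19) (nat_lit 4) (nat_lit 369) (nat_lit 340) (nat_lit 311))) (XT.nd (nat_lit 78) (nat_lit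 152) (nat_lit 0) (XT.lf (nat_lit 0) (nat_lit 23061467485) (nat_lit 76) (nat_lit 23832222272) (nat_lit 76) (nat_lit 12360846802) (nat_lit 18) (nat_lit 4) (nat_lit 19) (nat_lit 5) (nat_lit 19) (nat_lit 4) (nat_lit 370) (nat_lit 340) (nat_lit 310)) (XT.lf (nat_lit 0) (nat_lit 13397623130) (nat_lit 152) (nat_lit 49735369041) (nat_lit 0) (nat_lit 2754734058) (nat_lit 16) (nat_lit 5) (nat_lit 18) (nat_lit 4) (nat_lit 16) (nat_lit 4) (nat_lit 371) (nat_lit 340) (nat_lit 309))))) (XT.nd (nat_lit 312) (nat_lit 380) (nat_lit 0) (XT.nd (nat_lit 156) (nat_lit 228) (nat_lit 0) (XT.nd (nat_lit 78) (nat_lit 0) (nat_lit 0) (XT.lf (nat_lit 0) (nat_lit 4065238160) (nat_lit 76) (nat_lit 39973151593) (nat_lit 76) (nat_lit 29311788505) (nat_lit 15) (nat_lit 4) (nat_lit 16) (nat_lit 5) (nat_lit 16) (nat_lit 4) (nat_lit 372) (nat_lit 340) (nat_lit 308)) (XT.lf (nat_lit 0) (nat_lit 68746853128) (nat_lit 76) (nat_lit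 11877330952) (nat_lit 76) (nat_lit 1199903502) (nat_lit 15) (nat_lit 4) (nat_lit 16) (nat_lit 5) (nat_lit 16) (nat_lit 4) (nat_lit 373) (nat_lit 340) (nat_lit 307))) (XT.nd (nat_lit 78) (nat_lit 76) (nat_lit 0) (XT.lf (nat_lit 0) (nat_lit 31307009409) (nat_lit 152) (nat_lit 38655781311) (nat_lit 0) (nat_lit 21407568242) (nat_lit 13) (nat_lit 5) (nat_lit 15) (nat_lit 4) (nat_lit 13) (nat_lit 4) (nat_lit 374) (nat_lit 340) (nat_lit 306)) (XT.lf (nat_lit 0) (nat_lit 27694127781) (nat_lit 76) (nat_lit 42229145567) (nat_lit 76) (nat_lit 32318457210) (nat_lit 12) (nat_lit 4) (nat_lit 13) (nat_lit 5) (nat_lit 13) (nat_lit 4) (nat_lit 375) (nat_lit 340) (nat_lit 305)))) (XT.nd (nat_lit 156) (nat_lit 228) (nat_lit 0) (XT.nd (nat_lit 78) (nat_lit 76) (nat_lit 0) (XT.lf (nat_lit 0) (nat_lit 685726228) (nat_lit 152) (nat_lit 8494157967) (nat_lit 76) (nat_lit 105478561015) (nat_lit 11) (nat_lit 5) (nat_lit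 13) (nat_lit 5) (nat_lit 12) (nat_lit 4) (nat_lit 376) (nat_lit 340) (nat_lit 304)) (XT.lf (nat_lit 0) (nat_lit 39154183153) (nat_lit 152) (nat_lit 59561459535) (nat_lit 0) (nat_lit 29960689622) (nat_lit 10) (nat_lit 5) (nat_lit 12) (nat_lit 4) (nat_lit 10) (nat_lit 4) (nat_lit 377) (nat_lit 340) (nat_lit 303))) (XT.nd (nat_lit 78) (nat_lit 152) (nat_lit 0) (XT.lf (nat_lit 0) (nat_lit 14434767677) (nat_lit 76) (nat_lit 69749580813) (nat_lit 76) (nat_lit 60549239865) (nat_lit 9) (nat_lit 4) (nat_lit 10) (nat_lit 5) (nat_lit 10) (nat_lit 4) (nat_lit 378) (nat_lit 340) (nat_lit 302)) (XT.nd (nat_lit 78) (nat_lit 152) (nat_lit 0) (XT.lf (nat_lit 0) (nat_lit 103018731820) (nat_lit 76) (nat_lit 34626452733) (nat_lit 76) (nat_lit 25420157510) (nat_lit 9) (nat_lit 4) (nat_lit 10) (nat_lit 5) (nat_lit 10) (nat_lit 4) (nat_lit 379) (nat_lit 340) (nat_lit 301)) (XT.lf (nat_lit 0) (nat_lit 14850728518)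 (nat_lit 152) (nat_lit 162895988546) (nat_lit 0) (nat_lit 6321586986) (nat_lit 7) (nat_lit 5) (nat_lit 9) (nat_lit 4) (nat_lit 7) (nat_lit 4) (nat_lit 380) (nat_lit 340) (nat_lit 300))))))) (XT.nd (nat_lit 624) (nat_lit 76) (nat_lit 0) (XT.nd (nat_lit 312) (nat_lit 152) (nat_lit 0) (XT.nd (nat_lit 156) (nat_lit 76) (nat_lit 0) (XT.nd (nat_lit 78) (nat_lit 0) (nat_lit 0) (XT.lf (nat_lit 0) (nat_lit 62402709723) (nat_lit 152) (nat_lit 91677131209) (nat_lit 0) (nat_lit 53869399406) (nat_lit 7) (nat_lit 5) (nat_lit 9) (nat_lit 4) (nat_lit 7) (nat_lit 4) (nat_lit 381) (nat_lit 340) (nat_lit 299)) (XT.lf (nat_lit 0) (nat_lit 117045350950) (nat_lit 152) (nat_lit 9861922057) (nat_lit 0) (nat_lit 108508415602) (nat_lit 7) (nat_lit 5) (nat_lit 9) (nat_lit 4) (nat_lit 7) (nat_lit 4) (nat_lit 382) (nat_lit 340) (nat_lit 298))) (XT.nd (nat_lit 78) (nat_lit 0) (nat_lit 0) (XT.lf (nat_lit 0) (nat_lit 88581580688)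 (nat_lit 76) (nat_lit 93396555810) (nat_lit 76) (nat_lit 84856468263) (nat_lit 6) (nat_lit 4) (nat_lit 7) (nat_lit 5) (nat_lit 7) (nat_lit 4) (nat_lit 383) (nat_lit 340) (nat_lit 297)) (XT.lf (nat_lit 0) (nat_lit 202319984749) (nat_lit 76) (nat_lit 54584457220) (nat_lit 76) (nat_lit 46041628628) (nat_lit 6) (nat_lit 4) (nat_lit 7) (nat_lit 5) (nat_lit 7) (nat_lit 4) (nat_lit 384) (nat_lit 340) (nat_lit 296)))) (XT.nd (nat_lit 156) (nat_lit 0) (nat_lit 0) (XT.nd (nat_lit 78) (nat_lit 152) (nat_lit 0) (XT.lf (nat_lit 0) (nat_lit 333059295390) (nat_lit 76) (nat_lit 9981252514) (nat_lit 76) (nat_lit 1436040406) (nat_lit 6) (nat_lit 4) (nat_lit 7) (nat_lit 5) (nat_lit 7) (nat_lit 4) (nat_lit 385) (nat_lit 340) (nat_lit 295)) (XT.lf (nat_lit 0) (nat_lit 50699808645) (nat_lit 152) (nat_lit 298388596455) (nat_lit 0) (nat_lit 42785656117) (nat_lit 4) (nat_lit 5) (nat_lit 6) (nat_lit 4) (nat_lit 4)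 (nat_lit 4) (nat_lit 386) (nat_lit 340) (nat_lit 294))) (XT.nd (nat_lit 78) (nat_lit 0) (nat_lit 0) (XT.lf (nat_lit 0) (nat_lit 111166125257) (nat_lit 152) (nat_lit 231914132548) (nat_lit 0) (nat_lit 103250303950) (nat_lit 4) (nat_lit 5) (nat_lit 6) (nat_lit 4) (nat_lit 4) (nat_lit 4) (nat_lit 387) (nat_lit 340) (nat_lit 293)) (XT.lf (nat_lit 0) (nat_lit 180681180189) (nat_lit 152) (nat_lit 155512146375) (nat_lit 0) (nat_lit 172763907771) (nat_lit 4) (nat_lit 5) (nat_lit 6) (nat_lit 4) (nat_lit 4) (nat_lit 4) (nat_lit 388) (nat_lit 340) (nat_lit 292))))) (XT.nd (nat_lit 312) (nat_lit 0) (nat_lit 0) (XT.nd (nat_lit 156) (nat_lit 0) (nat_lit 0) (XT.nd (nat_lit 78) (nat_lit 76) (nat_lit 0) (XT.lf (nat_lit 0) (nat_lit 260605050604) (nat_lit 152) (nat_lit 67687816467) (nat_lit 0) (nat_lit 252686516349) (nat_lit 4) (nat_lit 5) (nat_lit 6) (nat_lit 4) (nat_lit 4) (nat_lit 4) (nat_lit 389) (nat_lit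 340) (nat_lit 291)) (XT.lf (nat_lit 0) (nat_lit 35029475518) (nat_lit 76) (nat_lit 318314448609) (nat_lit 76) (nat_lit 310394817106) (nat_lit 3) (nat_lit 4) (nat_lit 4) (nat_lit 5) (nat_lit 4) (nat_lit 4) (nat_lit 390) (nat_lit 340) (nat_lit 290))) (XT.nd (nat_lit 78) (nat_lit 0) (nat_lit 0) (XT.lf (nat_lit 0) (nat_lit 157223119782) (nat_lit 76) (nat_lit 304726494919) (nat_lit 76) (nat_lit 296805909286) (nat_lit 3) (nat_lit 4) (nat_lit 4) (nat_lit 5) (nat_lit 4) (nat_lit 4) (nat_lit 391) (nat_lit 340) (nat_lit 289)) (XT.lf (nat_lit 0) (nat_lit 297719541078) (nat_lit 76) (nat_lit 289113859586) (nat_lit 76) (nat_lit 281192444275) (nat_lit 3) (nat_lit 4) (nat_lit 4) (nat_lit 5) (nat_lit 4) (nat_lit 4) (nat_lit 392) (nat_lit 340) (nat_lit 288)))) (XT.nd (nat_lit 156) (nat_lit 0) (nat_lit 0) (XT.nd (nat_lit 78) (nat_lit 0) (nat_lit 0) (XT.lf (nat_lit 0) (nat_lit 459267582429) (nat_lit 76) (nat_lit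 271171078008) (nat_lit 76) (nat_lit 263248941238) (nat_lit 3) (nat_lit 4) (nat_lit 4) (nat_lit 5) (nat_lit 4) (nat_lit 4) (nat_lit 393) (nat_lit 340) (nat_lit 287)) (XT.lf (nat_lit 0) (nat_lit 645027966384) (nat_lit 76) (nat_lit 250547095760) (nat_lit 76) (nat_lit 242624331635) (nat_lit 3) (nat_lit 4) (nat_lit 4) (nat_lit 5) (nat_lit 4) (nat_lit 4) (nat_lit 394) (nat_lit 340) (nat_lit 286))) (XT.nd (nat_lit 78) (nat_lit 0) (nat_lit 0) (XT.lf (nat_lit 0) (nat_lit 858635135238) (nat_lit 76) (nat_lit 226838400149) (nat_lit 76) (nat_lit 218915090496) (nat_lit 3) (nat_lit 4) (nat_lit 4) (nat_lit 5) (nat_lit 4) (nat_lit 4) (nat_lit 395) (nat_lit 340) (nat_lit 285)) (XT.nd (nat_lit 78) (nat_lit 0) (nat_lit 0) (XT.lf (nat_lit 0) (nat_lit 1104268359686) (nat_lit 76) (nat_lit 199581125389) (nat_lit 76) (nat_lit 191657341365) (nat_lit 3) (nat_lit 4) (nat_lit 4) (nat_lit 5) (nat_lit 4) (nat_lit 4) (nat_lit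 396) (nat_lit 340) (nat_lit 284)) (XT.lf (nat_lit 0) (nat_lit 1386733507162) (nat_lit 76) (nat_lit 168241976974) (nat_lit 76) (nat_lit 160317780454) (nat_lit 3) (nat_lit 4) (nat_lit 4) (nat_lit 5) (nat_lit 4) (nat_lit 4) (nat_lit 397) (nat_lit 340) (nat_lit 283))))))))
noncomputable def xc47 : XT := (XT.nd (nat_lit 1326) (nat_lit 0) (nat_lit 0) (XT.nd (nat_lit 624) (nat_lit 0) (nat_lit 0) (XT.nd (nat_lit 312) (nat_lit 0) (nat_lit 0) (XT.nd (nat_lit 156) (nat_lit 152) (nat_lit 0) (XT.nd (nat_lit 78) (nat_lit 0) (nat_lit 0) (XT.lf (nat_lit 0) (nat_lit 1711557069684) (nat_lit 76) (nat_lit 132207797654) (nat_lit 76) (nat_lit 124283242441) (nat_lit 3) (nat_lit 4) (nat_lit 4) (nat_lit 5) (nat_lit 4) (nat_lit 4) (nat_lit 398) (nat_lit 340) (nat_lit 282)) (XT.lf (nat_lit 0) (nat_lit 2085094290864) (nat_lit 76) (nat_lit 90773570875) (nat_lit 76) (nat_lit 82848703756) (nat_lit 3) (nat_lit 4) (nat_lit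 4) (nat_lit 5) (nat_lit 4) (nat_lit 4) (nat_lit 399) (nat_lit 340) (nat_lit 281))) (XT.nd (nat_lit 78) (nat_lit 152) (nat_lit 0) (XT.lf (nat_lit 0) (nat_lit 2514653507640) (nat_lit 76) (nat_lit 43128626984) (nat_lit 76) (nat_lit 35203488642) (nat_lit 3) (nat_lit 4) (nat_lit 4) (nat_lit 5) (nat_lit 4) (nat_lit 4) (nat_lit 400) (nat_lit 340) (nat_lit 280)) (XT.lf (nat_lit 0) (nat_lit 19696823275) (nat_lit 152) (nat_lit 2945214957405) (nat_lit 0) (nat_lit 12358513841) (nat_lit 1) (nat_lit 5) (nat_lit 3) (nat_lit 4) (nat_lit 1) (nat_lit 4) (nat_lit 401) (nat_lit 340) (nat_lit 279)))) (XT.nd (nat_lit 156) (nat_lit 0) (nat_lit 0) (XT.nd (nat_lit 78) (nat_lit 0) (nat_lit 0) (XT.lf (nat_lit 0) (nat_lit 84336138291) (nat_lit 152) (nat_lit 3257503667478) (nat_lit 0) (nat_lit 76997638965) (nat_lit 1) (nat_lit 5) (nat_lit 3) (nat_lit 4) (nat_lit 1) (nat_lit 4) (nat_lit 402) (nat_lit 340) (nat_lit 278))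 (XT.lf (nat_lit 0) (nat_lit 158668314810) (nat_lit 152) (nat_lit 3616641945194) (nat_lit 0) (nat_lit 151329650361) (nat_lit 1) (nat_lit 5) (nat_lit 3) (nat_lit 4) (nat_lit 1) (nat_lit 4) (nat_lit 403) (nat_lit 340) (nat_lit 277))) (XT.nd (nat_lit 78) (nat_lit 0) (nat_lit 0) (XT.lf (nat_lit 0) (nat_lit 244147678026) (nat_lit 152) (nat_lit 4029656409029) (nat_lit 0) (nat_lit 236808869990) (nat_lit 1) (nat_lit 5) (nat_lit 3) (nat_lit 4) (nat_lit 1) (nat_lit 4) (nat_lit 404) (nat_lit 340) (nat_lit 276)) (XT.lf (nat_lit 0) (nat_lit 342446650261) (nat_lit 152) (nat_lit 4504627776755) (nat_lit 0) (nat_lit 335107717368) (nat_lit 1) (nat_lit 5) (nat_lit 3) (nat_lit 4) (nat_lit 1) (nat_lit 4) (nat_lit 405) (nat_lit 340) (nat_lit 275))))) (XT.nd (nat_lit 312) (nat_lit 0) (nat_lit 0) (XT.nd (nat_lit 156) (nat_lit 0) (nat_lit 0) (XT.nd (nat_lit 78) (nat_lit 0) (nat_lit 0) (XT.lf (nat_lit 0) (nat_lit 455488472277)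 (nat_lit 152) (nat_lit 5050848966436) (nat_lit 0) (nat_lit 448149430813) (nat_lit 1) (nat_lit 5) (nat_lit 3) (nat_lit 4) (nat_lit 1) (nat_lit 4) (nat_lit 406) (nat_lit 340) (nat_lit 274)) (XT.lf (nat_lit 0) (nat_lit 585484831896) (nat_lit 152) (nat_lit 5679006914391) (nat_lit 0) (nat_lit 578145696021) (nat_lit 1) (nat_lit 5) (nat_lit 3) (nat_lit 4) (nat_lit 1) (nat_lit 4) (nat_lit 407) (nat_lit 340) (nat_lit 273))) (XT.nd (nat_lit 78) (nat_lit 0) (nat_lit 0) (XT.lf (nat_lit 0) (nat_lit 734979136154) (nat_lit 152) (nat_lit 6401391667428) (nat_lit 0) (nat_lit 727639918184) (nat_lit 1) (nat_lit 5) (nat_lit 3) (nat_lit 4) (nat_lit 1) (nat_lit 4) (nat_lit 408) (nat_lit 340) (nat_lit 272)) (XT.lf (nat_lit 0) (nat_lit 906896273612) (nat_lit 152) (nat_lit 7232136840280) (nat_lit 0) (nat_lit 899556984255) (nat_lit 1) (nat_lit 5) (nat_lit 3) (nat_lit 4) (nat_lit 1) (nat_lit 4) (nat_lit 409) (nat_lit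 340) (nat_lit 271)))) (XT.nd (nat_lit 156) (nat_lit 0) (nat_lit 0) (XT.nd (nat_lit 78) (nat_lit 0) (nat_lit 0) (XT.lf (nat_lit 0) (nat_lit 1104599840439) (nat_lit 152) (nat_lit 8187496142852) (nat_lit 0) (nat_lit 1097260489005) (nat_lit 1) (nat_lit 5) (nat_lit 3) (nat_lit 4) (nat_lit 1) (nat_lit 4) (nat_lit 410) (nat_lit 340) (nat_lit 270)) (XT.lf (nat_lit 0) (nat_lit 1331957949898) (nat_lit 152) (nat_lit 9286161387585) (nat_lit 0) (nat_lit 1324618544485) (nat_lit 1) (nat_lit 5) (nat_lit 3) (nat_lit 4) (nat_lit 1) (nat_lit 4) (nat_lit 411) (nat_lit 340) (nat_lit 269))) (XT.nd (nat_lit 78) (nat_lit 0) (nat_lit 0) (XT.lf (nat_lit 0) (nat_lit 1593418912826) (nat_lit 152) (nat_lit 10549628198832) (nat_lit 0) (nat_lit 1586079460474) (nat_lit 1) (nat_lit 5) (nat_lit 3) (nat_lit 4) (nat_lit 1) (nat_lit 4) (nat_lit 412) (nat_lit 340) (nat_lit 268)) (XT.nd (nat_lit 78) (nat_lit 0) (nat_lit 0) (XT.lf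 (nat_lit 0) (nat_lit 1894098269803) (nat_lit 152) (nat_lit 12002616579423) (nat_lit 0) (nat_lit 1886758776635) (nat_lit 1) (nat_lit 5) (nat_lit 3) (nat_lit 4) (nat_lit 1) (nat_lit 4) (nat_lit 413) (nat_lit 340) (nat_lit 267)) (XT.lf (nat_lit 0) (nat_lit 2239878877812) (nat_lit 152) (nat_lit 13673554562889) (nat_lit 0) (nat_lit 2232539349152) (nat_lit 1) (nat_lit 5) (nat_lit 3) (nat_lit 4) (nat_lit 1) (nat_lit 4) (nat_lit 414) (nat_lit 340) (nat_lit 266))))))) (XT.nd (nat_lit 47736) (nat_lit 0) (nat_lit 3496) (XT.nd (nat_lit 47346) (nat_lit 0) (nat_lit 6536) (XT.nd (nat_lit 156) (nat_lit 0) (nat_lit 0) (XT.nd (nat_lit 78) (nat_lit 0) (nat_lit 0) (XT.lf (nat_lit 0) (nat_lit 2637526009620) (nat_lit 152) (nat_lit 15595134414126) (nat_lit 0) (nat_lit 2630186450097) (nat_lit 1) (nat_lit 5) (nat_lit 3) (nat_lit 4) (nat_lit 1) (nat_lit 4) (nat_lit 415) (nat_lit 340) (nat_lit 265)) (XT.lf (nat_lit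 0) (nat_lit 3094819717805) (nat_lit 152) (nat_lit 17804952260658) (nat_lit 0) (nat_lit 3087480131445) (nat_lit 1) (nat_lit 5) (nat_lit 3) (nat_lit 4) (nat_lit 1) (nat_lit 4) (nat_lit 416) (nat_lit 340) (nat_lit 264))) (XT.nd (nat_lit 78) (nat_lit 0) (nat_lit 0) (XT.lf (nat_lit 0) (nat_lit 3620707053179) (nat_lit 152) (nat_lit 20346243669046) (nat_lit 0) (nat_lit 3613367443482) (nat_lit 1) (nat_lit 5) (nat_lit 3) (nat_lit 4) (nat_lit 1) (nat_lit 4) (nat_lit 417) (nat_lit 340) (nat_lit 263)) (XT.lf (nat_lit 0) (nat_lit 4225477115782) (nat_lit 152) (nat_lit 23268729558151) (nat_lit 0) (nat_lit 4218137485793) (nat_lit 1) (nat_lit 5) (nat_lit 3) (nat_lit 4) (nat_lit 1) (nat_lit 4) (nat_lit 418) (nat_lit 340) (nat_lit 262)))) (XT.nd (nat_lit 156) (nat_lit 608) (nat_lit 0) (XT.nd (nat_lit 78) (nat_lit 228) (nat_lit 0) (XT.lf (nat_lit 0) (nat_lit 1995328835) (nat_lit 228) (nat_lit 635764647) (nat_lit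 228) (nat_lit 635764647) (nat_lit 98) (nat_lit 3) (nat_lit 101) (nat_lit 3) (nat_lit 101) (nat_lit 5) (nat_lit 341) (nat_lit 341) (nat_lit 338)) (XT.lf (nat_lit 0) (nat_lit 1990494271) (nat_lit 228) (nat_lit 1765984884) (nat_lit 304) (nat_lit 2902949501) (nat_lit 95) (nat_lit 5) (nat_lit 98) (nat_lit 3) (nat_lit 99) (nat_lit 5) (nat_lit 342) (nat_lit 341) (nat_lit 337))) (XT.nd (nat_lit 78) (nat_lit 608) (nat_lit 0) (XT.lf (nat_lit 76) (nat_lit 4952143088) (nat_lit 0) (nat_lit 1456762420) (nat_lit 304) (nat_lit 441834200) (nat_lit 96) (nat_lit 5) (nat_lit 95) (nat_lit 5) (nat_lit 99) (nat_lit 5) (nat_lit 343) (nat_lit 341) (nat_lit 336)) (XT.nd (nat_lit 78) (nat_lit 380) (nat_lit 0) (XT.lf (nat_lit 0) (nat_lit 3692593502) (nat_lit 304) (nat_lit 1749034281) (nat_lit 76) (nat_lit 1661439011) (nat_lit 92) (nat_lit 5) (nat_lit 96) (nat_lit 5) (nat_lit 93) (nat_lit 5) (nat_lit 344) (nat_lit 341)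 (nat_lit 335)) (XT.lf (nat_lit 0) (nat_lit 572288725) (nat_lit 380) (nat_lit 1260345515) (nat_lit 76) (nat_lit 5590404542) (nat_lit 87) (nat_lit 5) (nat_lit 92) (nat_lit 5) (nat_lit 88) (nat_lit 5) (nat_lit 345) (nat_lit 341) (nat_lit 334)))))) (XT.nd (nat_lit 312) (nat_lit 1140) (nat_lit 0) (XT.nd (nat_lit 156) (nat_lit 532) (nat_lit 0) (XT.nd (nat_lit 78) (nat_lit 988) (nat_lit 0) (XT.lf (nat_lit 0) (nat_lit 4669023712) (nat_lit 456) (nat_lit 511810026) (nat_lit 76) (nat_lit 2625864744) (nat_lit 82) (nat_lit 5) (nat_lit 88) (nat_lit 5) (nat_lit 83) (nat_lit 5) (nat_lit 346) (nat_lit 341) (nat_lit 333)) (XT.lf (nat_lit 0) (nat_lit 611834298) (nat_lit 456) (nat_lit 258392126) (nat_lit 532) (nat_lit 7392149267) (nat_lit 69) (nat_lit 5) (nat_lit 75) (nat_lit 5) (nat_lit 76) (nat_lit 5) (nat_lit 347) (nat_lit 341) (nat_lit 332))) (XT.nd (nat_lit 78) (nat_lit 304) (nat_lit 0) (XT.lf (nat_lit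 0) (nat_lit 1993893120) (nat_lit 228) (nat_lit 3263901743) (nat_lit 304) (nat_lit 3525129260) (nat_lit 66) (nat_lit 5) (nat_lit 69) (nat_lit 5) (nat_lit 70) (nat_lit 5) (nat_lit 348) (nat_lit 341) (nat_lit 331)) (XT.lf (nat_lit 0) (nat_lit 833364347) (nat_lit 304) (nat_lit 5635926201) (nat_lit 76) (nat_lit 2914032892) (nat_lit 62) (nat_lit 5) (nat_lit 66) (nat_lit 5) (nat_lit 63) (nat_lit 5) (nat_lit 349) (nat_lit 341) (nat_lit 330)))) (XT.nd (nat_lit 156) (nat_lit 684) (nat_lit 0) (XT.nd (nat_lit 78) (nat_lit 304) (nat_lit 0) (XT.lf (nat_lit 0) (nat_lit 5679971541) (nat_lit 228) (nat_lit 4251789991) (nat_lit 76) (nat_lit 131377497) (nat_lit 60) (nat_lit 5) (nat_lit 63) (nat_lit 5) (nat_lit 61) (nat_lit 5) (nat_lit 350) (nat_lit 341) (nat_lit 329)) (XT.lf (nat_lit 0) (nat_lit 577605708) (nat_lit 304) (nat_lit 2615673140) (nat_lit 76) (nat_lit 7635811457) (nat_lit 56) (nat_lit 5) (nat_lit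 60) (nat_lit 5) (nat_lit 57) (nat_lit 5) (nat_lit 351) (nat_lit 341) (nat_lit 328))) (XT.nd (nat_lit 78) (nat_lit 532) (nat_lit 0) (XT.lf (nat_lit 0) (nat_lit 6210900128) (nat_lit 228) (nat_lit 740994518) (nat_lit 76) (nat_lit 4733985399) (nat_lit 54) (nat_lit 5) (nat_lit 57) (nat_lit 5) (nat_lit 55) (nat_lit 5) (nat_lit 352) (nat_lit 341) (nat_lit 327)) (XT.nd (nat_lit 78) (nat_lit 152) (nat_lit 0) (XT.lf (nat_lit 0) (nat_lit 300270888) (nat_lit 228) (nat_lit 11052697179) (nat_lit 76) (nat_lit 1295603265) (nat_lit 49) (nat_lit 5) (nat_lit 52) (nat_lit 5) (nat_lit 50) (nat_lit 5) (nat_lit 353) (nat_lit 341) (nat_lit 326)) (XT.lf (nat_lit 0) (nat_lit 4191987348) (nat_lit 152) (nat_lit 2828937601) (nat_lit 228) (nat_lit 6691163216) (nat_lit 47) (nat_lit 5) (nat_lit 49) (nat_lit 5) (nat_lit 50) (nat_lit 5) (nat_lit 354) (nat_lit 341) (nat_lit 325))))))))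
noncomputable def xc48 : XT := (XT.nd (nat_lit 1326) (nat_lit 1064) (nat_lit 0) (XT.nd (nat_lit 624) (nat_lit 988) (nat_lit 0) (XT.nd (nat_lit 312) (nat_lit 608) (nat_lit 0) (XT.nd (nat_lit 156) (nat_lit 304) (nat_lit 0) (XT.nd (nat_lit 78) (nat_lit 152) (nat_lit 0) (XT.lf (nat_lit 0) (nat_lit 236213589) (nat_lit 152) (nat_lit 7680808331) (nat_lit 76) (nat_lit 6985526060) (nat_lit 45) (nat_lit 5) (nat_lit 47) (nat_lit 5) (nat_lit 46) (nat_lit 5) (nat_lit 355) (nat_lit 341) (nat_lit 324)) (XT.lf (nat_lit 0) (nat_lit 8245045785) (nat_lit 228) (nat_lit 5639038061) (nat_lit 76) (nat_lit 2338549436) (nat_lit 43) (nat_lit 5) (nat_lit 46) (nat_lit 5) (nat_lit 44) (nat_lit 4) (nat_lit 356) (nat_lit 341) (nat_lit 323))) (XT.nd (nat_lit 78) (nat_lit 152) (nat_lit 0) (XT.lf (nat_lit 0) (nat_lit 308050051) (nat_lit 152) (nat_lit 3272107081) (nat_lit 76) (nat_lit 14114814973) (nat_lit 41) (nat_lit 5)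 (nat_lit 43) (nat_lit 5) (nat_lit 42) (nat_lit 5) (nat_lit 357) (nat_lit 341) (nat_lit 322)) (XT.lf (nat_lit 0) (nat_lit 10000274004) (nat_lit 228) (nat_lit 752445663) (nat_lit 76) (nat_lit 8568007470) (nat_lit 39) (nat_lit 5) (nat_lit 42) (nat_lit 5) (nat_lit 40) (nat_lit 4) (nat_lit 358) (nat_lit 341) (nat_lit 321)))) (XT.nd (nat_lit 156) (nat_lit 228) (nat_lit 0) (XT.nd (nat_lit 78) (nat_lit 76) (nat_lit 0) (XT.lf (nat_lit 0) (nat_lit 634097514) (nat_lit 228) (nat_lit 18806968520) (nat_lit 76) (nat_lit 1695315804) (nat_lit 35) (nat_lit 5) (nat_lit 38) (nat_lit 5) (nat_lit 36) (nat_lit 4) (nat_lit 359) (nat_lit 341) (nat_lit 320)) (XT.lf (nat_lit 0) (nat_lit 5523559764) (nat_lit 76) (nat_lit 6878724604) (nat_lit 152) (nat_lit 10732968229) (nat_lit 34) (nat_lit 5) (nat_lit 35) (nat_lit 5) (nat_lit 36) (nat_lit 4) (nat_lit 360) (nat_lit 341) (nat_lit 319))) (XT.nd (nat_lit 78) (nat_lit 76)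 (nat_lit 0) (XT.lf (nat_lit 0) (nat_lit 1277897849) (nat_lit 152) (nat_lit 16232045626) (nat_lit 76) (nat_lit 7858962138) (nat_lit 32) (nat_lit 5) (nat_lit 34) (nat_lit 5) (nat_lit 33) (nat_lit 4) (nat_lit 361) (nat_lit 341) (nat_lit 318)) (XT.lf (nat_lit 0) (nat_lit 12888776179) (nat_lit 76) (nat_lit 2439098430) (nat_lit 152) (nat_lit 12517605236) (nat_lit 31) (nat_lit 5) (nat_lit 32) (nat_lit 5) (nat_lit 33) (nat_lit 4) (nat_lit 362) (nat_lit 341) (nat_lit 317))))) (XT.nd (nat_lit 312) (nat_lit 532) (nat_lit 0) (XT.nd (nat_lit 156) (nat_lit 228) (nat_lit 0) (XT.nd (nat_lit 78) (nat_lit 76) (nat_lit 0) (XT.lf (nat_lit 0) (nat_lit 1869820521) (nat_lit 152) (nat_lit 13780107709) (nat_lit 76) (nat_lit 14952690770) (nat_lit 29) (nat_lit 5) (nat_lit 31) (nat_lit 5) (nat_lit 30) (nat_lit 4) (nat_lit 363) (nat_lit 341) (nat_lit 316)) (XT.lf (nat_lit 0) (nat_lit 18617604069) (nat_lit 152) (nat_lit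 12863997595) (nat_lit 0) (nat_lit 2190253132) (nat_lit 28) (nat_lit 5) (nat_lit 30) (nat_lit 4) (nat_lit 28) (nat_lit 4) (nat_lit 364) (nat_lit 341) (nat_lit 315))) (XT.nd (nat_lit 78) (nat_lit 76) (nat_lit 0) (XT.lf (nat_lit 0) (nat_lit 1977238441) (nat_lit 152) (nat_lit 12372830741) (nat_lit 76) (nat_lit 22743316051) (nat_lit 26) (nat_lit 5) (nat_lit 28) (nat_lit 5) (nat_lit 27) (nat_lit 4) (nat_lit 365) (nat_lit 341) (nat_lit 314)) (XT.lf (nat_lit 0) (nat_lit 21800372330) (nat_lit 152) (nat_lit 12617009971) (nat_lit 0) (nat_lit 6489224609) (nat_lit 25) (nat_lit 5) (nat_lit 27) (nat_lit 4) (nat_lit 25) (nat_lit 4) (nat_lit 366) (nat_lit 341) (nat_lit 313)))) (XT.nd (nat_lit 156) (nat_lit 304) (nat_lit 0) (XT.nd (nat_lit 78) (nat_lit 76) (nat_lit 0) (XT.lf (nat_lit 0) (nat_lit 777965553) (nat_lit 152) (nat_lit 13733682137) (nat_lit 76) (nat_lit 30666463493) (nat_lit 23) (nat_lit 5) (nat_lit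 25) (nat_lit 5) (nat_lit 24) (nat_lit 4) (nat_lit 367) (nat_lit 341) (nat_lit 312)) (XT.lf (nat_lit 0) (nat_lit 23863607313) (nat_lit 152) (nat_lit 16462869544) (nat_lit 0) (nat_lit 9616158980) (nat_lit 22) (nat_lit 5) (nat_lit 24) (nat_lit 4) (nat_lit 22) (nat_lit 4) (nat_lit 368) (nat_lit 341) (nat_lit 311))) (XT.nd (nat_lit 78) (nat_lit 228) (nat_lit 0) (XT.lf (nat_lit 0) (nat_lit 34309362806) (nat_lit 76) (nat_lit 17633002462) (nat_lit 76) (nat_lit 3357056777) (nat_lit 21) (nat_lit 4) (nat_lit 22) (nat_lit 5) (nat_lit 22) (nat_lit 4) (nat_lit 369) (nat_lit 341) (nat_lit 310)) (XT.nd (nat_lit 78) (nat_lit 76) (nat_lit 0) (XT.lf (nat_lit 0) (nat_lit 23072678097) (nat_lit 152) (nat_lit 28396876780) (nat_lit 0) (nat_lit 9831265142) (nat_lit 19) (nat_lit 5) (nat_lit 21) (nat_lit 4) (nat_lit 19) (nat_lit 4) (nat_lit 370) (nat_lit 341) (nat_lit 309)) (XT.lf (nat_lit 0) (nat_lit 28648576117)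 (nat_lit 76) (nat_lit 26335483475) (nat_lit 76) (nat_lit 13074118583) (nat_lit 18) (nat_lit 4) (nat_lit 19) (nat_lit 5) (nat_lit 19) (nat_lit 4) (nat_lit 371) (nat_lit 341) (nat_lit 308))))))) (XT.nd (nat_lit 624) (nat_lit 380) (nat_lit 0) (XT.nd (nat_lit 312) (nat_lit 304) (nat_lit 0) (XT.nd (nat_lit 156) (nat_lit 152) (nat_lit 0) (XT.nd (nat_lit 78) (nat_lit 76) (nat_lit 0) (XT.lf (nat_lit 0) (nat_lit 16422068358) (nat_lit 152) (nat_lit 55140643217) (nat_lit 0) (nat_lit 4126962429) (nat_lit 16) (nat_lit 5) (nat_lit 18) (nat_lit 4) (nat_lit 16) (nat_lit 4) (nat_lit 372) (nat_lit 341) (nat_lit 307)) (XT.lf (nat_lit 0) (nat_lit 6556106910) (nat_lit 76) (nat_lit 45015717709) (nat_lit 76) (nat_lit 32706642770) (nat_lit 15) (nat_lit 4) (nat_lit 16) (nat_lit 5) (nat_lit 16) (nat_lit 4) (nat_lit 373) (nat_lit 341) (nat_lit 306))) (XT.nd (nat_lit 78) (nat_lit 152) (nat_lit 0) (XT.lf (nat_lit 0)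 (nat_lit 80694605468) (nat_lit 76) (nat_lit 12829881358) (nat_lit 76) (nat_lit 508659453) (nat_lit 15) (nat_lit 4) (nat_lit 16) (nat_lit 5) (nat_lit 16) (nat_lit 4) (nat_lit 374) (nat_lit 341) (nat_lit 305)) (XT.lf (nat_lit 0) (nat_lit 36778494631) (nat_lit 152) (nat_lit 42875191355) (nat_lit 0) (nat_lit 25360175665) (nat_lit 13) (nat_lit 5) (nat_lit 15) (nat_lit 4) (nat_lit 13) (nat_lit 4) (nat_lit 375) (nat_lit 341) (nat_lit 304)))) (XT.nd (nat_lit 156) (nat_lit 152) (nat_lit 0) (XT.nd (nat_lit 78) (nat_lit 76) (nat_lit 0) (XT.lf (nat_lit 0) (nat_lit 33293553243) (nat_lit 76) (nat_lit 47827261030) (nat_lit 76) (nat_lit 36400437572) (nat_lit 12) (nat_lit 4) (nat_lit 13) (nat_lit 5) (nat_lit 13) (nat_lit 4) (nat_lit 376) (nat_lit 341) (nat_lit 303)) (XT.lf (nat_lit 0) (nat_lit 1421176807) (nat_lit 152) (nat_lit 8478170908) (nat_lit 76) (nat_lit 121907245428) (nat_lit 11) (nat_lit 5) (nat_lit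 13) (nat_lit 5) (nat_lit 12) (nat_lit 4) (nat_lit 377) (nat_lit 341) (nat_lit 302))) (XT.nd (nat_lit 78) (nat_lit 76) (nat_lit 0) (XT.lf (nat_lit 0) (nat_lit 45620279640) (nat_lit 152) (nat_lit 67282969124) (nat_lit 0) (nat_lit 35027085857) (nat_lit 10) (nat_lit 5) (nat_lit 12) (nat_lit 4) (nat_lit 10) (nat_lit 4) (nat_lit 378) (nat_lit 341) (nat_lit 301)) (XT.lf (nat_lit 0) (nat_lit 17710042364) (nat_lit 76) (nat_lit 79644280588) (nat_lit 76) (nat_lit 69045909174) (nat_lit 9) (nat_lit 4) (nat_lit 10) (nat_lit 5) (nat_lit 10) (nat_lit 4) (nat_lit 379) (nat_lit 341) (nat_lit 300))))) (XT.nd (nat_lit 312) (nat_lit 228) (nat_lit 0) (XT.nd (nat_lit 156) (nat_lit 0) (nat_lit 0) (XT.nd (nat_lit 78) (nat_lit 152) (nat_lit 0) (XT.lf (nat_lit 0) (nat_lit 119436810754) (nat_lit 76) (nat_lit 39326735993) (nat_lit 76) (nat_lit 28723862292) (nat_lit 9) (nat_lit 4) (nat_lit 10) (nat_lit 5) (nat_lit 10)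 (nat_lit 4) (nat_lit 380) (nat_lit 341) (nat_lit 299)) (XT.lf (nat_lit 0) (nat_lit 17532047204) (nat_lit 152) (nat_lit 186399253080) (nat_lit 0) (nat_lit 7710946524) (nat_lit 7) (nat_lit 5) (nat_lit 9) (nat_lit 4) (nat_lit 7) (nat_lit 4) (nat_lit 381) (nat_lit 341) (nat_lit 298))) (XT.nd (nat_lit 78) (nat_lit 0) (nat_lit 0) (XT.lf (nat_lit 0) (nat_lit 72157646101) (nat_lit 152) (nat_lit 104619019371) (nat_lit 0) (nat_lit 62333393221) (nat_lit 7) (nat_lit 5) (nat_lit 9) (nat_lit 4) (nat_lit 7) (nat_lit 4) (nat_lit 382) (nat_lit 341) (nat_lit 297)) (XT.lf (nat_lit 0) (nat_lit 134945223088) (nat_lit 152) (nat_lit 10637139478) (nat_lit 0) (nat_lit 125118229164) (nat_lit 7) (nat_lit 5) (nat_lit 9) (nat_lit 4) (nat_lit 7) (nat_lit 4) (nat_lit 383) (nat_lit 341) (nat_lit 296)))) (XT.nd (nat_lit 156) (nat_lit 152) (nat_lit 0) (XT.nd (nat_lit 78) (nat_lit 0) (nat_lit 0) (XT.lf (nat_lit 0) (nat_lit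 102513292584) (nat_lit 76) (nat_lit 107075385324) (nat_lit 76) (nat_lit 97246007884) (nat_lit 6) (nat_lit 4) (nat_lit 7) (nat_lit 5) (nat_lit 7) (nat_lit 4) (nat_lit 384) (nat_lit 341) (nat_lit 295)) (XT.lf (nat_lit 0) (nat_lit 233228395326) (nat_lit 76) (nat_lit 62484600708) (nat_lit 76) (nat_lit 52653150645) (nat_lit 6) (nat_lit 4) (nat_lit 7) (nat_lit 5) (nat_lit 7) (nat_lit 4) (nat_lit 385) (nat_lit 341) (nat_lit 294))) (XT.nd (nat_lit 78) (nat_lit 152) (nat_lit 0) (XT.lf (nat_lit 0) (nat_lit 383505505232) (nat_lit 76) (nat_lit 11228418570) (nat_lit 76) (nat_lit 1395166226) (nat_lit 6) (nat_lit 4) (nat_lit 7) (nat_lit 5) (nat_lit 7) (nat_lit 4) (nat_lit 386) (nat_lit 341) (nat_lit 293)) (XT.nd (nat_lit 78) (nat_lit 0) (nat_lit 0) (XT.lf (nat_lit 0) (nat_lit 58533148463) (nat_lit 152) (nat_lit 342676915945) (nat_lit 0) (nat_lit 49426834070) (nat_lit 4) (nat_lit 5) (nat_lit 6) (nat_lit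 4) (nat_lit 4) (nat_lit 4) (nat_lit 387) (nat_lit 341) (nat_lit 292)) (XT.lf (nat_lit 0) (nat_lit 128039625368) (nat_lit 152) (nat_lit 266292582883) (nat_lit 0) (nat_lit 118932049139) (nat_lit 4) (nat_lit 5) (nat_lit 6) (nat_lit 4) (nat_lit 4) (nat_lit 4) (nat_lit 388) (nat_lit 341) (nat_lit 291))))))))
noncomputable def xc49 : XT := (XT.nd (nat_lit 1326) (nat_lit 0) (nat_lit 0) (XT.nd (nat_lit 624) (nat_lit 152) (nat_lit 0) (XT.nd (nat_lit 312) (nat_lit 0) (nat_lit 0) (XT.nd (nat_lit 156) (nat_lit 76) (nat_lit 0) (XT.nd (nat_lit 78) (nat_lit 0) (nat_lit 0) (XT.lf (nat_lit 0) (nat_lit 207956036629) (nat_lit 152) (nat_lit 178483603508) (nat_lit 0) (nat_lit 198847363151) (nat_lit 4) (nat_lit 5) (nat_lit 6) (nat_lit 4) (nat_lit 4) (nat_lit 4) (nat_lit 389) (nat_lit 341) (nat_lit 290)) (XT.lf (nat_lit 0) (nat_lit 299845964204) (nat_lit 152) (nat_lit 77531976047) (nat_lit 0) (nat_lit 290736336596)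 (nat_lit 4) (nat_lit 5) (nat_lit 6) (nat_lit 4) (nat_lit 4) (nat_lit 4) (nat_lit 390) (nat_lit 341) (nat_lit 289))) (XT.nd (nat_lit 78) (nat_lit 0) (nat_lit 0) (XT.lf (nat_lit 0) (nat_lit 40566753334) (nat_lit 76) (nat_lit 365916132561) (nat_lit 76) (nat_lit 356805675276) (nat_lit 3) (nat_lit 4) (nat_lit 4) (nat_lit 5) (nat_lit 4) (nat_lit 4) (nat_lit 391) (nat_lit 341) (nat_lit 288)) (XT.lf (nat_lit 0) (nat_lit 181052549913) (nat_lit 76) (nat_lit 350308961905) (nat_lit 76) (nat_lit 341197783161) (nat_lit 3) (nat_lit 4) (nat_lit 4) (nat_lit 5) (nat_lit 4) (nat_lit 4) (nat_lit 392) (nat_lit 341) (nat_lit 287)))) (XT.nd (nat_lit 156) (nat_lit 0) (nat_lit 0) (XT.nd (nat_lit 78) (nat_lit 0) (nat_lit 0) (XT.lf (nat_lit 0) (nat_lit 342591352381) (nat_lit 76) (nat_lit 332370932219) (nat_lit 76) (nat_lit 323259126118) (nat_lit 3) (nat_lit 4) (nat_lit 4) (nat_lit 5) (nat_lit 4) (nat_lit 4) (nat_lit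 393) (nat_lit 341) (nat_lit 286)) (XT.lf (nat_lit 0) (nat_lit 528343702525) (nat_lit 76) (nat_lit 311751082052) (nat_lit 76) (nat_lit 302638730425) (nat_lit 3) (nat_lit 4) (nat_lit 4) (nat_lit 5) (nat_lit 4) (nat_lit 4) (nat_lit 394) (nat_lit 341) (nat_lit 285))) (XT.nd (nat_lit 78) (nat_lit 0) (nat_lit 0) (XT.lf (nat_lit 0) (nat_lit 741943885456) (nat_lit 76) (nat_lit 288045979553) (nat_lit 76) (nat_lit 278933153555) (nat_lit 3) (nat_lit 4) (nat_lit 4) (nat_lit 5) (nat_lit 4) (nat_lit 4) (nat_lit 395) (nat_lit 341) (nat_lit 284)) (XT.lf (nat_lit 0) (nat_lit 987571035189) (nat_lit 76) (nat_lit 260791829239) (nat_lit 76) (nat_lit 251678590745) (nat_lit 3) (nat_lit 4) (nat_lit 4) (nat_lit 5) (nat_lit 4) (nat_lit 4) (nat_lit 396) (nat_lit 341) (nat_lit 283))))) (XT.nd (nat_lit 312) (nat_lit 152) (nat_lit 0) (XT.nd (nat_lit 156) (nat_lit 0) (nat_lit 0) (XT.nd (nat_lit 78) (nat_lit 0) (nat_lit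 0) (XT.lf (nat_lit 0) (nat_lit 1270030900304) (nat_lit 76) (nat_lit 229455397735) (nat_lit 76) (nat_lit 220341800548) (nat_lit 3) (nat_lit 4) (nat_lit 4) (nat_lit 5) (nat_lit 4) (nat_lit 4) (nat_lit 397) (nat_lit 341) (nat_lit 282)) (XT.lf (nat_lit 0) (nat_lit 1594849869468) (nat_lit 76) (nat_lit 193423580944) (nat_lit 76) (nat_lit 184309671851) (nat_lit 3) (nat_lit 4) (nat_lit 4) (nat_lit 5) (nat_lit 4) (nat_lit 4) (nat_lit 398) (nat_lit 341) (nat_lit 281))) (XT.nd (nat_lit 78) (nat_lit 0) (nat_lit 0) (XT.lf (nat_lit 0) (nat_lit 1968383096424) (nat_lit 76) (nat_lit 151991408540) (nat_lit 76) (nat_lit 142877228223) (nat_lit 3) (nat_lit 4) (nat_lit 4) (nat_lit 5) (nat_lit 4) (nat_lit 4) (nat_lit 399) (nat_lit 341) (nat_lit 280)) (XT.lf (nat_lit 0) (nat_lit 2397938839961) (nat_lit 76) (nat_lit 104348251061) (nat_lit 76) (nat_lit 95233834898) (nat_lit 3) (nat_lit 4) (nat_lit 4) (nat_lit 5) (nat_lit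 4) (nat_lit 4) (nat_lit 400) (nat_lit 341) (nat_lit 279)))) (XT.nd (nat_lit 156) (nat_lit 0) (nat_lit 0) (XT.nd (nat_lit 78) (nat_lit 152) (nat_lit 0) (XT.lf (nat_lit 0) (nat_lit 2891921451584) (nat_lit 76) (nat_lit 49561959775) (nat_lit 76) (nat_lit 40447338529) (nat_lit 3) (nat_lit 4) (nat_lit 4) (nat_lit 5) (nat_lit 4) (nat_lit 4) (nat_lit 401) (nat_lit 341) (nat_lit 278)) (XT.lf (nat_lit 0) (nat_lit 22684034019) (nat_lit 152) (nat_lit 3386929784644) (nat_lit 0) (nat_lit 14244404778) (nat_lit 1) (nat_lit 5) (nat_lit 3) (nat_lit 4) (nat_lit 1) (nat_lit 4) (nat_lit 402) (nat_lit 341) (nat_lit 277))) (XT.nd (nat_lit 78) (nat_lit 0) (nat_lit 0) (XT.lf (nat_lit 0) (nat_lit 97014982733) (nat_lit 152) (nat_lit 3746070594668) (nat_lit 0) (nat_lit 88575209906) (nat_lit 1) (nat_lit 5) (nat_lit 3) (nat_lit 4) (nat_lit 1) (nat_lit 4) (nat_lit 403) (nat_lit 341) (nat_lit 276)) (XT.nd (nat_lit 78) (nat_lit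 0) (nat_lit 0) (XT.lf (nat_lit 0) (nat_lit 182493278291) (nat_lit 152) (nat_lit 4159087260511) (nat_lit 0) (nat_lit 174053380607) (nat_lit 1) (nat_lit 5) (nat_lit 3) (nat_lit 4) (nat_lit 1) (nat_lit 4) (nat_lit 404) (nat_lit 341) (nat_lit 275)) (XT.lf (nat_lit 0) (nat_lit 280791322129) (nat_lit 152) (nat_lit 4634060543025) (nat_lit 0) (nat_lit 272351315874) (nat_lit 1) (nat_lit 5) (nat_lit 3) (nat_lit 4) (nat_lit 1) (nat_lit 4) (nat_lit 405) (nat_lit 341) (nat_lit 274))))))) (XT.nd (nat_lit 624) (nat_lit 0) (nat_lit 0) (XT.nd (nat_lit 312) (nat_lit 0) (nat_lit 0) (XT.nd (nat_lit 156) (nat_lit 0) (nat_lit 0) (XT.nd (nat_lit 78) (nat_lit 0) (nat_lit 0) (XT.lf (nat_lit 0) (nat_lit 393832336843) (nat_lit 152) (nat_lit 5180283397739) (nat_lit 0) (nat_lit 385392236178) (nat_lit 1) (nat_lit 5) (nat_lit 3) (nat_lit 4) (nat_lit 1) (nat_lit 4) (nat_lit 406) (nat_lit 341) (nat_lit 273)) (XT.lf (nat_lit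 0) (nat_lit 523827994460) (nat_lit 152) (nat_lit 5808442793549) (nat_lit 0) (nat_lit 515387811699) (nat_lit 1) (nat_lit 5) (nat_lit 3) (nat_lit 4) (nat_lit 1) (nat_lit 4) (nat_lit 407) (nat_lit 341) (nat_lit 272))) (XT.nd (nat_lit 78) (nat_lit 0) (nat_lit 0) (XT.lf (nat_lit 0) (nat_lit 673321688282) (nat_lit 152) (nat_lit 6530828805591) (nat_lit 0) (nat_lit 664881434133) (nat_lit 1) (nat_lit 5) (nat_lit 3) (nat_lit 4) (nat_lit 1) (nat_lit 4) (nat_lit 408) (nat_lit 341) (nat_lit 271)) (XT.lf (nat_lit 0) (nat_lit 845238294926) (nat_lit 152) (nat_lit 7361575073231) (nat_lit 0) (nat_lit 836797978701) (nat_lit 1) (nat_lit 5) (nat_lit 3) (nat_lit 4) (nat_lit 1) (nat_lit 4) (nat_lit 409) (nat_lit 341) (nat_lit 270)))) (XT.nd (nat_lit 156) (nat_lit 0) (nat_lit 0) (XT.nd (nat_lit 78) (nat_lit 0) (nat_lit 0) (XT.lf (nat_lit 0) (nat_lit 1042941400175) (nat_lit 152) (nat_lit 8316935327791) (nat_lit 0)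 (nat_lit 1034501029971) (nat_lit 1) (nat_lit 5) (nat_lit 3) (nat_lit 4) (nat_lit 1) (nat_lit 4) (nat_lit 410) (nat_lit 341) (nat_lit 269)) (XT.lf (nat_lit 0) (nat_lit 1270299108262) (nat_lit 152) (nat_lit 9415601400340) (nat_lit 0) (nat_lit 1261858691119) (nat_lit 1) (nat_lit 5) (nat_lit 3) (nat_lit 4) (nat_lit 1) (nat_lit 4) (nat_lit 411) (nat_lit 341) (nat_lit 268))) (XT.nd (nat_lit 78) (nat_lit 0) (nat_lit 0) (XT.lf (nat_lit 0) (nat_lit 1531759722171) (nat_lit 152) (nat_lit 10679068931427) (nat_lit 0) (nat_lit 1523319264213) (nat_lit 1) (nat_lit 5) (nat_lit 3) (nat_lit 4) (nat_lit 1) (nat_lit 4) (nat_lit 412) (nat_lit 341) (nat_lit 267)) (XT.lf (nat_lit 0) (nat_lit 1832438775653) (nat_lit 152) (nat_lit 12132057937965) (nat_lit 0) (nat_lit 1823998282202) (nat_lit 1) (nat_lit 5) (nat_lit 3) (nat_lit 4) (nat_lit 1) (nat_lit 4) (nat_lit 413) (nat_lit 341) (nat_lit 266))))) (XT.nd (nat_lit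 312) (nat_lit 0) (nat_lit 0) (XT.nd (nat_lit 156) (nat_lit 0) (nat_lit 0) (XT.nd (nat_lit 78) (nat_lit 0) (nat_lit 0) (XT.lf (nat_lit 0) (nat_lit 2178219119754) (nat_lit 152) (nat_lit 13802996465734) (nat_lit 0) (nat_lit 2169778595441) (nat_lit 1) (nat_lit 5) (nat_lit 3) (nat_lit 4) (nat_lit 1) (nat_lit 4) (nat_lit 414) (nat_lit 341) (nat_lit 265)) (XT.lf (nat_lit 0) (nat_lit 2575866022076) (nat_lit 152) (nat_lit 15724576790278) (nat_lit 0) (nat_lit 2567425470925) (nat_lit 1) (nat_lit 5) (nat_lit 3) (nat_lit 4) (nat_lit 1) (nat_lit 4) (nat_lit 415) (nat_lit 341) (nat_lit 264))) (XT.nd (nat_lit 78) (nat_lit 0) (nat_lit 0) (XT.lf (nat_lit 0) (nat_lit 3033159530708) (nat_lit 152) (nat_lit 17934395048380) (nat_lit 0) (nat_lit 3024718956221) (nat_lit 1) (nat_lit 5) (nat_lit 3) (nat_lit 4) (nat_lit 1) (nat_lit 4) (nat_lit 416) (nat_lit 341) (nat_lit 263)) (XT.lf (nat_lit 0) (nat_lit 3559046692558)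 (nat_lit 152) (nat_lit 20475686814656) (nat_lit 0) (nat_lit 3550606097778) (nat_lit 1) (nat_lit 5) (nat_lit 3) (nat_lit 4) (nat_lit 1) (nat_lit 4) (nat_lit 417) (nat_lit 341) (nat_lit 262)))) (XT.nd (nat_lit 47268) (nat_lit 0) (nat_lit 6536) (XT.nd (nat_lit 47190) (nat_lit 0) (nat_lit 7144) (XT.lf (nat_lit 0) (nat_lit 4163816604271) (nat_lit 152) (nat_lit 23398173014968) (nat_lit 0) (nat_lit 4155375991845) (nat_lit 1) (nat_lit 5) (nat_lit 3) (nat_lit 4) (nat_lit 1) (nat_lit 4) (nat_lit 418) (nat_lit 341) (nat_lit 261)) (XT.lf (nat_lit 0) (nat_lit 1483313550) (nat_lit 0) (nat_lit 1483313550) (nat_lit 228) (nat_lit 442146738) (nat_lit 95) (nat_lit 5) (nat_lit 95) (nat_lit 3) (nat_lit 98) (nat_lit 3) (nat_lit 342) (nat_lit 342) (nat_lit 336))) (XT.nd (nat_lit 78) (nat_lit 228) (nat_lit 0) (XT.lf (nat_lit 76) (nat_lit 2548290106) (nat_lit 0) (nat_lit 166098812) (nat_lit 380) (nat_lit 4325105637)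 (nat_lit 91) (nat_lit 5) (nat_lit 90) (nat_lit 3) (nat_lit 95) (nat_lit 5) (nat_lit 343) (nat_lit 342) (nat_lit 335)) (XT.nd (nat_lit 78) (nat_lit 304) (nat_lit 0) (XT.lf (nat_lit 76) (nat_lit 2458427501) (nat_lit 0) (nat_lit 3956115767) (nat_lit 380) (nat_lit 909551210) (nat_lit 92) (nat_lit 5) (nat_lit 91) (nat_lit 5) (nat_lit 96) (nat_lit 5) (nat_lit 344) (nat_lit 342) (nat_lit 334)) (XT.lf (nat_lit 0) (nat_lit 2500782705) (nat_lit 380) (nat_lit 4957593394) (nat_lit 76) (nat_lit 216784500) (nat_lit 87) (nat_lit 5) (nat_lit 92) (nat_lit 5) (nat_lit 88) (nat_lit 5) (nat_lit 345) (nat_lit 342) (nat_lit 333))))))))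
noncomputable def xc50 : XT := (XT.nd (nat_lit 1326) (nat_lit 1672) (nat_lit 0) (XT.nd (nat_lit 624) (nat_lit 1520) (nat_lit 0) (XT.nd (nat_lit 312) (nat_lit 988) (nat_lit 0) (XT.nd (nat_lit 156) (nat_lit 760) (nat_lit 0) (XT.nd (nat_lit 78) (nat_lit 532) (nat_lit 0) (XT.lf (nat_lit 0) (nat_lit 3267687223) (nat_lit 380) (nat_lit 2928923492) (nat_lit 456) (nat_lit 1894386633) (nat_lit 82) (nat_lit 5) (nat_lit 87) (nat_lit 5) (nat_lit 88) (nat_lit 5) (nat_lit 346) (nat_lit 342) (nat_lit 332)) (XT.lf (nat_lit 0) (nat_lit 1634828501) (nat_lit 532) (nat_lit 4426605868) (nat_lit 76) (nat_lit 2516251569) (nat_lit 75) (nat_lit 5) (nat_lit 82) (nat_lit 5) (nat_lit 76) (nat_lit 5) (nat_lit 347) (nat_lit 342) (nat_lit 331))) (XT.nd (nat_lit 78) (nat_lit 304) (nat_lit 0) (XT.lf (nat_lit 0) (nat_lit 5357912425) (nat_lit 456) (nat_lit 170383400) (nat_lit 532) (nat_lit 3609539792) (nat_lit 69) (nat_lit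 5) (nat_lit 75) (nat_lit 5) (nat_lit 76) (nat_lit 5) (nat_lit 348) (nat_lit 342) (nat_lit 330)) (XT.lf (nat_lit 0) (nat_lit 305532246) (nat_lit 304) (nat_lit 2899001354) (nat_lit 76) (nat_lit 6569734172) (nat_lit 65) (nat_lit 5) (nat_lit 69) (nat_lit 5) (nat_lit 66) (nat_lit 5) (nat_lit 349) (nat_lit 342) (nat_lit 329)))) (XT.nd (nat_lit 156) (nat_lit 608) (nat_lit 0) (XT.nd (nat_lit 78) (nat_lit 152) (nat_lit 0) (XT.lf (nat_lit 0) (nat_lit 4695178835) (nat_lit 304) (nat_lit 1795262254) (nat_lit 76) (nat_lit 4000250341) (nat_lit 62) (nat_lit 5) (nat_lit 66) (nat_lit 5) (nat_lit 63) (nat_lit 5) (nat_lit 350) (nat_lit 342) (nat_lit 328)) (XT.lf (nat_lit 0) (nat_lit 9907058413) (nat_lit 228) (nat_lit 353451832) (nat_lit 76) (nat_lit 1041061268) (nat_lit 60) (nat_lit 5) (nat_lit 63) (nat_lit 5) (nat_lit 61) (nat_lit 5) (nat_lit 351) (nat_lit 342) (nat_lit 327))) (XT.nd (nat_lit 78) (nat_lit 152)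 (nat_lit 0) (XT.lf (nat_lit 0) (nat_lit 1377879620) (nat_lit 152) (nat_lit 2433901762) (nat_lit 228) (nat_lit 8389039508) (nat_lit 54) (nat_lit 5) (nat_lit 56) (nat_lit 5) (nat_lit 57) (nat_lit 5) (nat_lit 352) (nat_lit 342) (nat_lit 326)) (XT.lf (nat_lit 0) (nat_lit 3470385405) (nat_lit 152) (nat_lit 6586437044) (nat_lit 228) (nat_lit 3148074728) (nat_lit 52) (nat_lit 5) (nat_lit 54) (nat_lit 5) (nat_lit 55) (nat_lit 5) (nat_lit 353) (nat_lit 342) (nat_lit 325))))) (XT.nd (nat_lit 312) (nat_lit 836) (nat_lit 0) (XT.nd (nat_lit 156) (nat_lit 304) (nat_lit 0) (XT.nd (nat_lit 78) (nat_lit 152) (nat_lit 0) (XT.lf (nat_lit 0) (nat_lit 3099041340) (nat_lit 228) (nat_lit 8383156525) (nat_lit 76) (nat_lit 2842779548) (nat_lit 49) (nat_lit 5) (nat_lit 52) (nat_lit 5) (nat_lit 50) (nat_lit 5) (nat_lit 354) (nat_lit 342) (nat_lit 324)) (XT.lf (nat_lit 0) (nat_lit 8781933996) (nat_lit 152) (nat_lit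 1781943081) (nat_lit 228) (nat_lit 5005333821) (nat_lit 47) (nat_lit 5) (nat_lit 49) (nat_lit 5) (nat_lit 50) (nat_lit 5) (nat_lit 355) (nat_lit 342) (nat_lit 323))) (XT.nd (nat_lit 78) (nat_lit 152) (nat_lit 0) (XT.lf (nat_lit 0) (nat_lit 2618100747) (nat_lit 152) (nat_lit 4932708163) (nat_lit 76) (nat_lit 9398997917) (nat_lit 45) (nat_lit 5) (nat_lit 47) (nat_lit 5) (nat_lit 46) (nat_lit 5) (nat_lit 356) (nat_lit 342) (nat_lit 322)) (XT.lf (nat_lit 0) (nat_lit 11642783252) (nat_lit 228) (nat_lit 2779076455) (nat_lit 76) (nat_lit 4060936258) (nat_lit 43) (nat_lit 5) (nat_lit 46) (nat_lit 5) (nat_lit 44) (nat_lit 4) (nat_lit 357) (nat_lit 342) (nat_lit 321)))) (XT.nd (nat_lit 156) (nat_lit 456) (nat_lit 0) (XT.nd (nat_lit 78) (nat_lit 228) (nat_lit 0) (XT.lf (nat_lit 0) (nat_lit 2366171576) (nat_lit 152) (nat_lit 264556067) (nat_lit 76) (nat_lit 17557252244) (nat_lit 41) (nat_lit 5) (nat_lit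 43) (nat_lit 5) (nat_lit 42) (nat_lit 5) (nat_lit 358) (nat_lit 342) (nat_lit 320)) (XT.lf (nat_lit 0) (nat_lit 2579240743) (nat_lit 76) (nat_lit 10842696404) (nat_lit 152) (nat_lit 8642921548) (nat_lit 38) (nat_lit 5) (nat_lit 39) (nat_lit 5) (nat_lit 40) (nat_lit 4) (nat_lit 359) (nat_lit 342) (nat_lit 319))) (XT.nd (nat_lit 78) (nat_lit 228) (nat_lit 0) (XT.lf (nat_lit 0) (nat_lit 2578027989) (nat_lit 228) (nat_lit 18227259919) (nat_lit 76) (nat_lit 3353446462) (nat_lit 35) (nat_lit 5) (nat_lit 38) (nat_lit 5) (nat_lit 36) (nat_lit 4) (nat_lit 360) (nat_lit 342) (nat_lit 318)) (XT.nd (nat_lit 78) (nat_lit 152) (nat_lit 0) (XT.lf (nat_lit 0) (nat_lit 9464990731) (nat_lit 76) (nat_lit 6480167496) (nat_lit 152) (nat_lit 10525606306) (nat_lit 34) (nat_lit 5) (nat_lit 35) (nat_lit 5) (nat_lit 36) (nat_lit 4) (nat_lit 361) (nat_lit 342) (nat_lit 317)) (XT.lf (nat_lit 0) (nat_lit 3074063888)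 (nat_lit 152) (nat_lit 15640938564) (nat_lit 76) (nat_lit 10330740834) (nat_lit 32) (nat_lit 5) (nat_lit 34) (nat_lit 5) (nat_lit 33) (nat_lit 4) (nat_lit 362) (nat_lit 342) (nat_lit 316))))))) (XT.nd (nat_lit 624) (nat_lit 836) (nat_lit 0) (XT.nd (nat_lit 312) (nat_lit 380) (nat_lit 0) (XT.nd (nat_lit 156) (nat_lit 228) (nat_lit 0) (XT.nd (nat_lit 78) (nat_lit 152) (nat_lit 0) (XT.lf (nat_lit 0) (nat_lit 17591877972) (nat_lit 76) (nat_lit 1496992418) (nat_lit 152) (nat_lit 12816364821) (nat_lit 31) (nat_lit 5) (nat_lit 32) (nat_lit 5) (nat_lit 33) (nat_lit 4) (nat_lit 363) (nat_lit 342) (nat_lit 315)) (XT.lf (nat_lit 0) (nat_lit 3547110177) (nat_lit 152) (nat_lit 13159771937) (nat_lit 76) (nat_lit 18374286629) (nat_lit 29) (nat_lit 5) (nat_lit 31) (nat_lit 5) (nat_lit 30) (nat_lit 4) (nat_lit 364) (nat_lit 342) (nat_lit 314))) (XT.nd (nat_lit 78) (nat_lit 152) (nat_lit 0) (XT.lf (nat_lit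 0) (nat_lit 22712553665) (nat_lit 152) (nat_lit 12260254247) (nat_lit 0) (nat_lit 3645555358) (nat_lit 28) (nat_lit 5) (nat_lit 30) (nat_lit 4) (nat_lit 28) (nat_lit 4) (nat_lit 365) (nat_lit 342) (nat_lit 313)) (XT.lf (nat_lit 0) (nat_lit 3492969497) (nat_lit 152) (nat_lit 11845580742) (nat_lit 76) (nat_lit 27221242698) (nat_lit 26) (nat_lit 5) (nat_lit 28) (nat_lit 5) (nat_lit 27) (nat_lit 4) (nat_lit 366) (nat_lit 342) (nat_lit 312)))) (XT.nd (nat_lit 156) (nat_lit 152) (nat_lit 0) (XT.nd (nat_lit 78) (nat_lit 152) (nat_lit 0) (XT.lf (nat_lit 0) (nat_lit 26208724581) (nat_lit 152) (nat_lit 12264750085) (nat_lit 0) (nat_lit 8478000040) (nat_lit 25) (nat_lit 5) (nat_lit 27) (nat_lit 4) (nat_lit 25) (nat_lit 4) (nat_lit 367) (nat_lit 342) (nat_lit 311)) (XT.lf (nat_lit 0) (nat_lit 1960943762) (nat_lit 152) (nat_lit 13682738655) (nat_lit 76) (nat_lit 36225794843) (nat_lit 23) (nat_lit 5) (nat_lit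 25) (nat_lit 5) (nat_lit 24) (nat_lit 4) (nat_lit 368) (nat_lit 342) (nat_lit 310))) (XT.nd (nat_lit 78) (nat_lit 76) (nat_lit 0) (XT.lf (nat_lit 0) (nat_lit 28439878667) (nat_lit 152) (nat_lit 16945108975) (nat_lit 0) (nat_lit 11969263470) (nat_lit 22) (nat_lit 5) (nat_lit 24) (nat_lit 4) (nat_lit 22) (nat_lit 4) (nat_lit 369) (nat_lit 342) (nat_lit 309)) (XT.lf (nat_lit 0) (nat_lit 41274752407) (nat_lit 76) (nat_lit 19369436252) (nat_lit 76) (nat_lit 2877272963) (nat_lit 21) (nat_lit 4) (nat_lit 22) (nat_lit 5) (nat_lit 22) (nat_lit 4) (nat_lit 370) (nat_lit 342) (nat_lit 308))))) (XT.nd (nat_lit 312) (nat_lit 380) (nat_lit 0) (XT.nd (nat_lit 156) (nat_lit 228) (nat_lit 0) (XT.nd (nat_lit 78) (nat_lit 76) (nat_lit 0) (XT.lf (nat_lit 0) (nat_lit 27407615118) (nat_lit 152) (nat_lit 30898631855) (nat_lit 0) (nat_lit 12119744044) (nat_lit 19) (nat_lit 5) (nat_lit 21) (nat_lit 4) (nat_lit 19)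 (nat_lit 4) (nat_lit 371) (nat_lit 342) (nat_lit 307)) (XT.lf (nat_lit 0) (nat_lit 34554851956) (nat_lit 76) (nat_lit 29475543511) (nat_lit 76) (nat_lit 14172585905) (nat_lit 18) (nat_lit 4) (nat_lit 19) (nat_lit 5) (nat_lit 19) (nat_lit 4) (nat_lit 372) (nat_lit 342) (nat_lit 306))) (XT.nd (nat_lit 78) (nat_lit 76) (nat_lit 0) (XT.lf (nat_lit 0) (nat_lit 19652714535) (nat_lit 152) (nat_lit 61857840886) (nat_lit 0) (nat_lit 5471162379) (nat_lit 16) (nat_lit 5) (nat_lit 18) (nat_lit 4) (nat_lit 16) (nat_lit 4) (nat_lit 373) (nat_lit 342) (nat_lit 305)) (XT.lf (nat_lit 0) (nat_lit 8961891965) (nat_lit 76) (nat_lit 51047162985) (nat_lit 76) (nat_lit 36855048251) (nat_lit 15) (nat_lit 4) (nat_lit 16) (nat_lit 5) (nat_lit 16) (nat_lit 4) (nat_lit 374) (nat_lit 342) (nat_lit 304)))) (XT.nd (nat_lit 156) (nat_lit 228) (nat_lit 0) (XT.nd (nat_lit 78) (nat_lit 76) (nat_lit 0) (XT.lf (nat_lit 0) (nat_lit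 70123761) (nat_lit 152) (nat_lit 14055442161) (nat_lit 76) (nat_lit 93963597843) (nat_lit 14) (nat_lit 5) (nat_lit 16) (nat_lit 5) (nat_lit 15) (nat_lit 4) (nat_lit 375) (nat_lit 342) (nat_lit 303)) (XT.lf (nat_lit 0) (nat_lit 42881608192) (nat_lit 152) (nat_lit 48112551606) (nat_lit 0) (nat_lit 29724861514) (nat_lit 13) (nat_lit 5) (nat_lit 15) (nat_lit 4) (nat_lit 13) (nat_lit 4) (nat_lit 376) (nat_lit 342) (nat_lit 302))) (XT.nd (nat_lit 78) (nat_lit 152) (nat_lit 0) (XT.lf (nat_lit 0) (nat_lit 39380445431) (nat_lit 76) (nat_lit 54444634591) (nat_lit 76) (nat_lit 41281457295) (nat_lit 12) (nat_lit 4) (nat_lit 13) (nat_lit 5) (nat_lit 13) (nat_lit 4) (nat_lit 377) (nat_lit 342) (nat_lit 301)) (XT.nd (nat_lit 78) (nat_lit 76) (nat_lit 0) (XT.lf (nat_lit 0) (nat_lit 2112683494) (nat_lit 152) (nat_lit 8774387468) (nat_lit 76) (nat_lit 140652236031) (nat_lit 11) (nat_lit 5) (nat_lit 13) (nat_lit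 5) (nat_lit 12) (nat_lit 4) (nat_lit 378) (nat_lit 342) (nat_lit 300)) (XT.lf (nat_lit 0) (nat_lit 52911691350) (nat_lit 152) (nat_lit 76458432005) (nat_lit 0) (nat_lit 40713884306) (nat_lit 10) (nat_lit 5) (nat_lit 12) (nat_lit 4) (nat_lit 10) (nat_lit 4) (nat_lit 379) (nat_lit 342) (nat_lit 299))))))))
noncomputable def xc51 : XT := (XT.nd (nat_lit 1326) (nat_lit 152) (nat_lit 0) (XT.nd (nat_lit 624) (nat_lit 228) (nat_lit 0) (XT.nd (nat_lit 312) (nat_lit 76) (nat_lit 0) (XT.nd (nat_lit 156) (nat_lit 152) (nat_lit 0) (XT.nd (nat_lit 78) (nat_lit 0) (nat_lit 0) (XT.lf (nat_lit 0) (nat_lit 21205913206) (nat_lit 76) (nat_lit 91161631675) (nat_lit 76) (nat_lit 78959909599) (nat_lit 9) (nat_lit 4) (nat_lit 10) (nat_lit 5) (nat_lit 10) (nat_lit 4) (nat_lit 380) (nat_lit 342) (nat_lit 298)) (XT.lf (nat_lit 0) (nat_lit 138082214531) (nat_lit 76) (nat_lit 44852449870) (nat_lit 76) (nat_lit 32647323417)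 (nat_lit 9) (nat_lit 4) (nat_lit 10) (nat_lit 5) (nat_lit 10) (nat_lit 4) (nat_lit 381) (nat_lit 342) (nat_lit 297))) (XT.nd (nat_lit 78) (nat_lit 0) (nat_lit 0) (XT.lf (nat_lit 0) (nat_lit 20504923780) (nat_lit 152) (nat_lit 213655070154) (nat_lit 0) (nat_lit 9201139724) (nat_lit 7) (nat_lit 5) (nat_lit 9) (nat_lit 4) (nat_lit 7) (nat_lit 4) (nat_lit 382) (nat_lit 342) (nat_lit 296)) (XT.lf (nat_lit 0) (nat_lit 83279614317) (nat_lit 152) (nat_lit 119699636722) (nat_lit 0) (nat_lit 71973446745) (nat_lit 7) (nat_lit 5) (nat_lit 9) (nat_lit 4) (nat_lit 7) (nat_lit 4) (nat_lit 383) (nat_lit 342) (nat_lit 295)))) (XT.nd (nat_lit 156) (nat_lit 0) (nat_lit 0) (XT.nd (nat_lit 78) (nat_lit 76) (nat_lit 0) (XT.lf (nat_lit 0) (nat_lit 155446416378) (nat_lit 152) (nat_lit 11700331657) (nat_lit 0) (nat_lit 144138176183) (nat_lit 7) (nat_lit 5) (nat_lit 9) (nat_lit 4) (nat_lit 7) (nat_lit 4) (nat_lit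 384) (nat_lit 342) (nat_lit 294)) (XT.lf (nat_lit 0) (nat_lit 118377602006) (nat_lit 76) (nat_lit 122886671301) (nat_lit 76) (nat_lit 111576628825) (nat_lit 6) (nat_lit 4) (nat_lit 7) (nat_lit 5) (nat_lit 7) (nat_lit 4) (nat_lit 385) (nat_lit 342) (nat_lit 293))) (XT.nd (nat_lit 78) (nat_lit 0) (nat_lit 0) (XT.lf (nat_lit 0) (nat_lit 268636407263) (nat_lit 76) (nat_lit 71639880535) (nat_lit 76) (nat_lit 60328270859) (nat_lit 6) (nat_lit 4) (nat_lit 7) (nat_lit 5) (nat_lit 7) (nat_lit 4) (nat_lit 386) (nat_lit 342) (nat_lit 292)) (XT.lf (nat_lit 0) (nat_lit 441399811572) (nat_lit 76) (nat_lit 12723628939) (nat_lit 76) (nat_lit 1410656479) (nat_lit 6) (nat_lit 4) (nat_lit 7) (nat_lit 5) (nat_lit 7) (nat_lit 4) (nat_lit 387) (nat_lit 342) (nat_lit 291))))) (XT.nd (nat_lit 312) (nat_lit 76) (nat_lit 0) (XT.nd (nat_lit 156) (nat_lit 0) (nat_lit 0) (XT.nd (nat_lit 78) (nat_lit 0) (nat_lit 0) (XT.lf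 (nat_lit 0) (nat_lit 67485800143) (nat_lit 152) (nat_lit 393723088513) (nat_lit 0) (nat_lit 57009728395) (nat_lit 4) (nat_lit 5) (nat_lit 6) (nat_lit 4) (nat_lit 4) (nat_lit 4) (nat_lit 388) (nat_lit 342) (nat_lit 290)) (XT.lf (nat_lit 0) (nat_lit 147395725183) (nat_lit 152) (nat_lit 305927457426) (nat_lit 0) (nat_lit 136918699305) (nat_lit 4) (nat_lit 5) (nat_lit 6) (nat_lit 4) (nat_lit 4) (nat_lit 4) (nat_lit 389) (nat_lit 342) (nat_lit 289))) (XT.nd (nat_lit 78) (nat_lit 0) (nat_lit 0) (XT.lf (nat_lit 0) (nat_lit 239280012566) (nat_lit 152) (nat_lit 204987437173) (nat_lit 0) (nat_lit 228802157010) (nat_lit 4) (nat_lit 5) (nat_lit 6) (nat_lit 4) (nat_lit 4) (nat_lit 4) (nat_lit 390) (nat_lit 342) (nat_lit 288)) (XT.lf (nat_lit 0) (nat_lit 344936398350) (nat_lit 152) (nat_lit 88928114314) (nat_lit 0) (nat_lit 334457821335) (nat_lit 4) (nat_lit 5) (nat_lit 6) (nat_lit 4) (nat_lit 4) (nat_lit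 4) (nat_lit 391) (nat_lit 342) (nat_lit 287)))) (XT.nd (nat_lit 156) (nat_lit 0) (nat_lit 0) (XT.nd (nat_lit 78) (nat_lit 0) (nat_lit 0) (XT.lf (nat_lit 0) (nat_lit 46865646476) (nat_lit 76) (nat_lit 420693546140) (nat_lit 76) (nat_lit 410214341769) (nat_lit 3) (nat_lit 4) (nat_lit 4) (nat_lit 5) (nat_lit 4) (nat_lit 4) (nat_lit 392) (nat_lit 342) (nat_lit 286)) (XT.lf (nat_lit 0) (nat_lit 208396415133) (nat_lit 76) (nat_lit 402759648534) (nat_lit 76) (nat_lit 392279898636) (nat_lit 3) (nat_lit 4) (nat_lit 4) (nat_lit 5) (nat_lit 4) (nat_lit 4) (nat_lit 393) (nat_lit 342) (nat_lit 285))) (XT.nd (nat_lit 78) (nat_lit 0) (nat_lit 0) (XT.lf (nat_lit 0) (nat_lit 394141779354) (nat_lit 76) (nat_lit 382143391480) (nat_lit 76) (nat_lit 371663167212) (nat_lit 3) (nat_lit 4) (nat_lit 4) (nat_lit 5) (nat_lit 4) (nat_lit 4) (nat_lit 394) (nat_lit 342) (nat_lit 284)) (XT.nd (nat_lit 78) (nat_lit 0) (nat_lit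 0) (XT.lf (nat_lit 0) (nat_lit 607735887569) (nat_lit 76) (nat_lit 358441413428) (nat_lit 76) (nat_lit 347960776663) (nat_lit 3) (nat_lit 4) (nat_lit 4) (nat_lit 5) (nat_lit 4) (nat_lit 4) (nat_lit 395) (nat_lit 342) (nat_lit 283)) (XT.lf (nat_lit 0) (nat_lit 853357754940) (nat_lit 76) (nat_lit 331189980024) (nat_lit 76) (nat_lit 320708984566) (nat_lit 3) (nat_lit 4) (nat_lit 4) (nat_lit 5) (nat_lit 4) (nat_lit 4) (nat_lit 396) (nat_lit 342) (nat_lit 282))))))) (XT.nd (nat_lit 702) (nat_lit 0) (nat_lit 0) (XT.nd (nat_lit 312) (nat_lit 152) (nat_lit 0) (XT.nd (nat_lit 156) (nat_lit 0) (nat_lit 0) (XT.nd (nat_lit 78) (nat_lit 0) (nat_lit 0) (XT.lf (nat_lit 0) (nat_lit 1135813026698) (nat_lit 76) (nat_lit 299855911049) (nat_lit 76) (nat_lit 289374603685) (nat_lit 3) (nat_lit 4) (nat_lit 4) (nat_lit 5) (nat_lit 4) (nat_lit 4) (nat_lit 397) (nat_lit 342) (nat_lit 281)) (XT.lf (nat_lit 0) (nat_lit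 1460628001637) (nat_lit 76) (nat_lit 263826148633) (nat_lit 76) (nat_lit 253344570046) (nat_lit 3) (nat_lit 4) (nat_lit 4) (nat_lit 5) (nat_lit 4) (nat_lit 4) (nat_lit 398) (nat_lit 342) (nat_lit 280))) (XT.nd (nat_lit 78) (nat_lit 0) (nat_lit 0) (XT.lf (nat_lit 0) (nat_lit 1834157755355) (nat_lit 76) (nat_lit 222395762641) (nat_lit 76) (nat_lit 211913948208) (nat_lit 3) (nat_lit 4) (nat_lit 4) (nat_lit 5) (nat_lit 4) (nat_lit 4) (nat_lit 399) (nat_lit 342) (nat_lit 279)) (XT.lf (nat_lit 0) (nat_lit 2263710478686) (nat_lit 76) (nat_lit 174754158564) (nat_lit 76) (nat_lit 164272139047) (nat_lit 3) (nat_lit 4) (nat_lit 4) (nat_lit 5) (nat_lit 4) (nat_lit 4) (nat_lit 400) (nat_lit 342) (nat_lit 278)))) (XT.nd (nat_lit 156) (nat_lit 152) (nat_lit 0) (XT.nd (nat_lit 78) (nat_lit 0) (nat_lit 0) (XT.lf (nat_lit 0) (nat_lit 2757690464041) (nat_lit 76) (nat_lit 119969218063) (nat_lit 76) (nat_lit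 109487020212) (nat_lit 3) (nat_lit 4) (nat_lit 4) (nat_lit 5) (nat_lit 4) (nat_lit 4) (nat_lit 401) (nat_lit 342) (nat_lit 277)) (XT.lf (nat_lit 0) (nat_lit 3325762537222) (nat_lit 76) (nat_lit 56969061865) (nat_lit 76) (nat_lit 46486708942) (nat_lit 3) (nat_lit 4) (nat_lit 4) (nat_lit 5) (nat_lit 4) (nat_lit 4) (nat_lit 402) (nat_lit 342) (nat_lit 276))) (XT.nd (nat_lit 78) (nat_lit 0) (nat_lit 0) (XT.lf (nat_lit 0) (nat_lit 26111355382) (nat_lit 152) (nat_lit 3894918275878) (nat_lit 0) (nat_lit 16405348188) (nat_lit 1) (nat_lit 5) (nat_lit 3) (nat_lit 4) (nat_lit 1) (nat_lit 4) (nat_lit 403) (nat_lit 342) (nat_lit 275)) (XT.nd (nat_lit 78) (nat_lit 0) (nat_lit 0) (XT.lf (nat_lit 0) (nat_lit 111588722543) (nat_lit 152) (nat_lit 4307936856510) (nat_lit 0) (nat_lit 101882606777) (nat_lit 1) (nat_lit 5) (nat_lit 3) (nat_lit 4) (nat_lit 1) (nat_lit 4) (nat_lit 404) (nat_lit 342) (nat_lit 274))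 (XT.lf (nat_lit 0) (nat_lit 209885959078) (nat_lit 152) (nat_lit 4782911804058) (nat_lit 0) (nat_lit 200179748903) (nat_lit 1) (nat_lit 5) (nat_lit 3) (nat_lit 4) (nat_lit 1) (nat_lit 4) (nat_lit 405) (nat_lit 342) (nat_lit 273)))))) (XT.nd (nat_lit 312) (nat_lit 0) (nat_lit 0) (XT.nd (nat_lit 156) (nat_lit 0) (nat_lit 0) (XT.nd (nat_lit 78) (nat_lit 0) (nat_lit 0) (XT.lf (nat_lit 0) (nat_lit 322926271790) (nat_lit 152) (nat_lit 5329136106627) (nat_lit 0) (nat_lit 313219979519) (nat_lit 1) (nat_lit 5) (nat_lit 3) (nat_lit 4) (nat_lit 1) (nat_lit 4) (nat_lit 406) (nat_lit 342) (nat_lit 272)) (XT.lf (nat_lit 0) (nat_lit 452921318971) (nat_lit 152) (nat_lit 5957296761442) (nat_lit 0) (nat_lit 443214955312) (nat_lit 1) (nat_lit 5) (nat_lit 3) (nat_lit 4) (nat_lit 1) (nat_lit 4) (nat_lit 407) (nat_lit 342) (nat_lit 271))) (XT.nd (nat_lit 78) (nat_lit 0) (nat_lit 0) (XT.lf (nat_lit 0) (nat_lit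 602414481978) (nat_lit 152) (nat_lit 6679683868271) (nat_lit 0) (nat_lit 592708056244) (nat_lit 1) (nat_lit 5) (nat_lit 3) (nat_lit 4) (nat_lit 1) (nat_lit 4) (nat_lit 408) (nat_lit 342) (nat_lit 270)) (XT.lf (nat_lit 0) (nat_lit 774330627045) (nat_lit 152) (nat_lit 7510431087899) (nat_lit 0) (nat_lit 764624147331) (nat_lit 1) (nat_lit 5) (nat_lit 3) (nat_lit 4) (nat_lit 1) (nat_lit 4) (nat_lit 409) (nat_lit 342) (nat_lit 269)))) (XT.nd (nat_lit 156) (nat_lit 0) (nat_lit 0) (XT.nd (nat_lit 78) (nat_lit 0) (nat_lit 0) (XT.lf (nat_lit 0) (nat_lit 972033330922) (nat_lit 152) (nat_lit 8465792170275) (nat_lit 0) (nat_lit 962326804270) (nat_lit 1) (nat_lit 5) (nat_lit 3) (nat_lit 4) (nat_lit 1) (nat_lit 4) (nat_lit 410) (nat_lit 342) (nat_lit 268)) (XT.lf (nat_lit 0) (nat_lit 1199390689990) (nat_lit 152) (nat_lit 9564458962664) (nat_lit 0) (nat_lit 1189684122522) (nat_lit 1) (nat_lit 5) (nat_lit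 3) (nat_lit 4) (nat_lit 1) (nat_lit 4) (nat_lit 411) (nat_lit 342) (nat_lit 267))) (XT.nd (nat_lit 78) (nat_lit 0) (nat_lit 0) (XT.lf (nat_lit 0) (nat_lit 1460851000405) (nat_lit 152) (nat_lit 10827927119699) (nat_lit 0) (nat_lit 1451144397444) (nat_lit 1) (nat_lit 5) (nat_lit 3) (nat_lit 4) (nat_lit 1) (nat_lit 4) (nat_lit 412) (nat_lit 342) (nat_lit 266)) (XT.nd (nat_lit 78) (nat_lit 0) (nat_lit 0) (XT.lf (nat_lit 0) (nat_lit 1761529789978) (nat_lit 152) (nat_lit 12280916670539) (nat_lit 0) (nat_lit 1751823156155) (nat_lit 1) (nat_lit 5) (nat_lit 3) (nat_lit 4) (nat_lit 1) (nat_lit 4) (nat_lit 413) (nat_lit 342) (nat_lit 265)) (XT.lf (nat_lit 0) (nat_lit 2107309904594) (nat_lit 152) (nat_lit 13951855671615) (nat_lit 0) (nat_lit 2097603243933) (nat_lit 1) (nat_lit 5) (nat_lit 3) (nat_lit 4) (nat_lit 1) (nat_lit 4) (nat_lit 414) (nat_lit 342) (nat_lit 264))))))))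
noncomputable def xc52 : XT := (XT.nd (nat_lit 48516) (nat_lit 0) (nat_lit 1368) (XT.nd (nat_lit 47814) (nat_lit 0) (nat_lit 3648) (XT.nd (nat_lit 47502) (nat_lit 0) (nat_lit 6384) (XT.nd (nat_lit 156) (nat_lit 0) (nat_lit 0) (XT.nd (nat_lit 78) (nat_lit 0) (nat_lit 0) (XT.lf (nat_lit 0) (nat_lit 2504956607363) (nat_lit 152) (nat_lit 15873436407729) (nat_lit 0) (nat_lit 2495249923366) (nat_lit 1) (nat_lit 5) (nat_lit 3) (nat_lit 4) (nat_lit 1) (nat_lit 4) (nat_lit 415) (nat_lit 342) (nat_lit 263)) (XT.lf (nat_lit 0) (nat_lit 2962249942471) (nat_lit 152) (nat_lit 18083255023719) (nat_lit 0) (nat_lit 2952543238181) (nat_lit 1) (nat_lit 5) (nat_lit 3) (nat_lit 4) (nat_lit 1) (nat_lit 4) (nat_lit 416) (nat_lit 342) (nat_lit 262))) (XT.nd (nat_lit 78) (nat_lit 0) (nat_lit 0) (XT.lf (nat_lit 0) (nat_lit 3488136953430) (nat_lit 152) (nat_lit 20624547101202) (nat_lit 0) (nat_lit 3478430231494) (nat_lit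 1) (nat_lit 5) (nat_lit 3) (nat_lit 4) (nat_lit 1) (nat_lit 4) (nat_lit 417) (nat_lit 342) (nat_lit 261)) (XT.lf (nat_lit 0) (nat_lit 4092906733934) (nat_lit 152) (nat_lit 23547033572128) (nat_lit 0) (nat_lit 4083199996654) (nat_lit 1) (nat_lit 5) (nat_lit 3) (nat_lit 4) (nat_lit 1) (nat_lit 4) (nat_lit 418) (nat_lit 342) (nat_lit 260)))) (XT.nd (nat_lit 156) (nat_lit 0) (nat_lit 76) (XT.nd (nat_lit 78) (nat_lit 380) (nat_lit 0) (XT.lf (nat_lit 0) (nat_lit 2925878067) (nat_lit 380) (nat_lit 360374875) (nat_lit 380) (nat_lit 360374875) (nat_lit 90) (nat_lit 3) (nat_lit 95) (nat_lit 3) (nat_lit 95) (nat_lit 5) (nat_lit 343) (nat_lit 343) (nat_lit 334)) (XT.lf (nat_lit 0) (nat_lit 1443517562) (nat_lit 380) (nat_lit 1346081137) (nat_lit 456) (nat_lit 4819121910) (nat_lit 85) (nat_lit 5) (nat_lit 90) (nat_lit 3) (nat_lit 91) (nat_lit 5) (nat_lit 344) (nat_lit 343) (nat_lit 333))) (XT.nd (nat_lit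 78) (nat_lit 0) (nat_lit 0) (XT.lf (nat_lit 0) (nat_lit 4402227005) (nat_lit 380) (nat_lit 1696716722) (nat_lit 456) (nat_lit 1891687517) (nat_lit 86) (nat_lit 5) (nat_lit 91) (nat_lit 5) (nat_lit 92) (nat_lit 5) (nat_lit 345) (nat_lit 343) (nat_lit 332)) (XT.lf (nat_lit 76) (nat_lit 6677778312) (nat_lit 0) (nat_lit 969161214) (nat_lit 456) (nat_lit 795708568) (nat_lit 87) (nat_lit 5) (nat_lit 86) (nat_lit 5) (nat_lit 92) (nat_lit 5) (nat_lit 346) (nat_lit 343) (nat_lit 331))))) (XT.nd (nat_lit 312) (nat_lit 988) (nat_lit 0) (XT.nd (nat_lit 156) (nat_lit 988) (nat_lit 0) (XT.nd (nat_lit 78) (nat_lit 456) (nat_lit 0) (XT.lf (nat_lit 0) (nat_lit 2257300710) (nat_lit 456) (nat_lit 1640369376) (nat_lit 76) (nat_lit 5063325539) (nat_lit 81) (nat_lit 5) (nat_lit 87) (nat_lit 5) (nat_lit 82) (nat_lit 5) (nat_lit 347) (nat_lit 343) (nat_lit 330)) (XT.lf (nat_lit 0) (nat_lit 5719704376) (nat_lit 532)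 (nat_lit 1245835098) (nat_lit 76) (nat_lit 2590154538) (nat_lit 75) (nat_lit 5) (nat_lit 82) (nat_lit 5) (nat_lit 76) (nat_lit 5) (nat_lit 348) (nat_lit 343) (nat_lit 329))) (XT.nd (nat_lit 78) (nat_lit 532) (nat_lit 0) (XT.lf (nat_lit 0) (nat_lit 9680921015) (nat_lit 456) (nat_lit 100086435) (nat_lit 532) (nat_lit 452345532) (nat_lit 69) (nat_lit 5) (nat_lit 75) (nat_lit 5) (nat_lit 76) (nat_lit 5) (nat_lit 349) (nat_lit 343) (nat_lit 328)) (XT.lf (nat_lit 0) (nat_lit 319872194) (nat_lit 228) (nat_lit 3182198677) (nat_lit 304) (nat_lit 7485249287) (nat_lit 62) (nat_lit 5) (nat_lit 65) (nat_lit 5) (nat_lit 66) (nat_lit 5) (nat_lit 350) (nat_lit 343) (nat_lit 327)))) (XT.nd (nat_lit 156) (nat_lit 532) (nat_lit 0) (XT.nd (nat_lit 78) (nat_lit 304) (nat_lit 0) (XT.lf (nat_lit 0) (nat_lit 1556647423) (nat_lit 152) (nat_lit 6705810737) (nat_lit 228) (nat_lit 3571900194) (nat_lit 60) (nat_lit 5)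 (nat_lit 62) (nat_lit 5) (nat_lit 63) (nat_lit 5) (nat_lit 351) (nat_lit 343) (nat_lit 326)) (XT.lf (nat_lit 0) (nat_lit 1174146466) (nat_lit 304) (nat_lit 9632775274) (nat_lit 76) (nat_lit 1976440035) (nat_lit 56) (nat_lit 5) (nat_lit 60) (nat_lit 5) (nat_lit 57) (nat_lit 5) (nat_lit 352) (nat_lit 343) (nat_lit 325))) (XT.nd (nat_lit 78) (nat_lit 380) (nat_lit 0) (XT.lf (nat_lit 0) (nat_lit 5020705950) (nat_lit 152) (nat_lit 1800413398) (nat_lit 228) (nat_lit 7014191283) (nat_lit 54) (nat_lit 5) (nat_lit 56) (nat_lit 5) (nat_lit 57) (nat_lit 5) (nat_lit 353) (nat_lit 343) (nat_lit 324)) (XT.nd (nat_lit 78) (nat_lit 228) (nat_lit 0) (XT.lf (nat_lit 0) (nat_lit 7293326186) (nat_lit 152) (nat_lit 6491952001) (nat_lit 228) (nat_lit 1222213123) (nat_lit 52) (nat_lit 5) (nat_lit 54) (nat_lit 5) (nat_lit 55) (nat_lit 5) (nat_lit 354) (nat_lit 343) (nat_lit 323)) (XT.lf (nat_lit 0) (nat_lit 5646112905)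 (nat_lit 228) (nat_lit 6368459697) (nat_lit 76) (nat_lit 4292134699) (nat_lit 49) (nat_lit 5) (nat_lit 52) (nat_lit 5) (nat_lit 50) (nat_lit 5) (nat_lit 355) (nat_lit 343) (nat_lit 322))))))) (XT.nd (nat_lit 624) (nat_lit 988) (nat_lit 0) (XT.nd (nat_lit 312) (nat_lit 532) (nat_lit 0) (XT.nd (nat_lit 156) (nat_lit 456) (nat_lit 0) (XT.nd (nat_lit 78) (nat_lit 152) (nat_lit 0) (XT.lf (nat_lit 0) (nat_lit 13094421483) (nat_lit 152) (nat_lit 936693780) (nat_lit 228) (nat_lit 3722482570) (nat_lit 47) (nat_lit 5) (nat_lit 49) (nat_lit 5) (nat_lit 50) (nat_lit 5) (nat_lit 356) (nat_lit 343) (nat_lit 321)) (XT.lf (nat_lit 0) (nat_lit 4785073039) (nat_lit 152) (nat_lit 2723486661) (nat_lit 76) (nat_lit 11841469871) (nat_lit 45) (nat_lit 5) (nat_lit 47) (nat_lit 5) (nat_lit 46) (nat_lit 5) (nat_lit 357) (nat_lit 343) (nat_lit 320))) (XT.nd (nat_lit 78) (nat_lit 304) (nat_lit 0) (XT.lf (nat_lit 0)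 (nat_lit 15023212535) (nat_lit 228) (nat_lit 393807628) (nat_lit 76) (nat_lit 5707206682) (nat_lit 43) (nat_lit 5) (nat_lit 46) (nat_lit 5) (nat_lit 44) (nat_lit 4) (nat_lit 358) (nat_lit 343) (nat_lit 319)) (XT.lf (nat_lit 0) (nat_lit 2464303051) (nat_lit 152) (nat_lit 1837356852) (nat_lit 228) (nat_lit 18787856525) (nat_lit 39) (nat_lit 5) (nat_lit 41) (nat_lit 5) (nat_lit 42) (nat_lit 5) (nat_lit 359) (nat_lit 343) (nat_lit 318)))) (XT.nd (nat_lit 156) (nat_lit 228) (nat_lit 0) (XT.nd (nat_lit 78) (nat_lit 228) (nat_lit 0) (XT.lf (nat_lit 0) (nat_lit 5605158296) (nat_lit 76) (nat_lit 11299656334) (nat_lit 152) (nat_lit 8352018583) (nat_lit 38) (nat_lit 5) (nat_lit 39) (nat_lit 5) (nat_lit 40) (nat_lit 4) (nat_lit 360) (nat_lit 343) (nat_lit 317)) (XT.lf (nat_lit 0) (nat_lit 4362702584) (nat_lit 228) (nat_lit 18389890396) (nat_lit 76) (nat_lit 4917963081) (nat_lit 35) (nat_lit 5) (nat_lit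 38) (nat_lit 5) (nat_lit 36) (nat_lit 4) (nat_lit 361) (nat_lit 343) (nat_lit 316))) (XT.nd (nat_lit 78) (nat_lit 152) (nat_lit 0) (XT.lf (nat_lit 0) (nat_lit 13238536695) (nat_lit 76) (nat_lit 6370630580) (nat_lit 152) (nat_lit 10730301954) (nat_lit 34) (nat_lit 5) (nat_lit 35) (nat_lit 5) (nat_lit 36) (nat_lit 4) (nat_lit 362) (nat_lit 343) (nat_lit 315)) (XT.lf (nat_lit 0) (nat_lit 4748391893) (nat_lit 152) (nat_lit 15699053710) (nat_lit 76) (nat_lit 12857996099) (nat_lit 32) (nat_lit 5) (nat_lit 34) (nat_lit 5) (nat_lit 33) (nat_lit 4) (nat_lit 363) (nat_lit 343) (nat_lit 314))))) (XT.nd (nat_lit 312) (nat_lit 532) (nat_lit 0) (XT.nd (nat_lit 156) (nat_lit 228) (nat_lit 0) (XT.nd (nat_lit 78) (nat_lit 152) (nat_lit 0) (XT.lf (nat_lit 0) (nat_lit 22325015331) (nat_lit 76) (nat_lit 732527461) (nat_lit 152) (nat_lit 13544958524) (nat_lit 31) (nat_lit 5) (nat_lit 32) (nat_lit 5) (nat_lit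 33) (nat_lit 4) (nat_lit 364) (nat_lit 343) (nat_lit 313)) (XT.lf (nat_lit 0) (nat_lit 5135370714) (nat_lit 152) (nat_lit 13101713585) (nat_lit 76) (nat_lit 22021690299) (nat_lit 29) (nat_lit 5) (nat_lit 31) (nat_lit 5) (nat_lit 30) (nat_lit 4) (nat_lit 365) (nat_lit 343) (nat_lit 312))) (XT.nd (nat_lit 78) (nat_lit 152) (nat_lit 0) (XT.lf (nat_lit 0) (nat_lit 27104169407) (nat_lit 152) (nat_lit 12183721128) (nat_lit 0) (nat_lit 5044384318) (nat_lit 28) (nat_lit 5) (nat_lit 30) (nat_lit 4) (nat_lit 28) (nat_lit 4) (nat_lit 366) (nat_lit 343) (nat_lit 311)) (XT.lf (nat_lit 0) (nat_lit 4938763911) (nat_lit 152) (nat_lit 11820395463) (nat_lit 76) (nat_lit 32110802818) (nat_lit 26) (nat_lit 5) (nat_lit 28) (nat_lit 5) (nat_lit 27) (nat_lit 4) (nat_lit 367) (nat_lit 343) (nat_lit 310)))) (XT.nd (nat_lit 156) (nat_lit 304) (nat_lit 0) (XT.nd (nat_lit 78) (nat_lit 152) (nat_lit 0) (XT.lf (nat_lit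 0) (nat_lit 31000748884) (nat_lit 152) (nat_lit 12407062687) (nat_lit 0) (nat_lit 10517482079) (nat_lit 25) (nat_lit 5) (nat_lit 27) (nat_lit 4) (nat_lit 25) (nat_lit 4) (nat_lit 368) (nat_lit 343) (nat_lit 309)) (XT.lf (nat_lit 0) (nat_lit 3061348749) (nat_lit 152) (nat_lit 14138933344) (nat_lit 76) (nat_lit 42385079439) (nat_lit 23) (nat_lit 5) (nat_lit 25) (nat_lit 5) (nat_lit 24) (nat_lit 4) (nat_lit 369) (nat_lit 343) (nat_lit 308))) (XT.nd (nat_lit 78) (nat_lit 228) (nat_lit 0) (XT.lf (nat_lit 0) (nat_lit 33459531739) (nat_lit 152) (nat_lit 17984273432) (nat_lit 0) (nat_lit 14453258393) (nat_lit 22) (nat_lit 5) (nat_lit 24) (nat_lit 4) (nat_lit 22) (nat_lit 4) (nat_lit 370) (nat_lit 343) (nat_lit 307)) (XT.nd (nat_lit 78) (nat_lit 152) (nat_lit 0) (XT.lf (nat_lit 0) (nat_lit 48841379392) (nat_lit 76) (nat_lit 21587882631) (nat_lit 76) (nat_lit 2565315832) (nat_lit 21) (nat_lit 4) (nat_lit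 22) (nat_lit 5) (nat_lit 22) (nat_lit 4) (nat_lit 371) (nat_lit 343) (nat_lit 306)) (XT.lf (nat_lit 0) (nat_lit 32179653648) (nat_lit 152) (nat_lit 34204295108) (nat_lit 0) (nat_lit 14553047148) (nat_lit 19) (nat_lit 5) (nat_lit 21) (nat_lit 4) (nat_lit 19) (nat_lit 4) (nat_lit 372) (nat_lit 343) (nat_lit 305))))))))
noncomputable def xc53 : XT := (XT.nd (nat_lit 1326) (nat_lit 228) (nat_lit 0) (XT.nd (nat_lit 624) (nat_lit 456) (nat_lit 0) (XT.nd (nat_lit 312) (nat_lit 304) (nat_lit 0) (XT.nd (nat_lit 156) (nat_lit 152) (nat_lit 0) (XT.nd (nat_lit 78) (nat_lit 152) (nat_lit 0) (XT.lf (nat_lit 0) (nat_lit 40954706912) (nat_lit 76) (nat_lit 33284200190) (nat_lit 76) (nat_lit 15646186105) (nat_lit 18) (nat_lit 4) (nat_lit 19) (nat_lit 5) (nat_lit 19) (nat_lit 4) (nat_lit 373) (nat_lit 343) (nat_lit 304)) (XT.lf (nat_lit 0) (nat_lit 23180837914) (nat_lit 152) (nat_lit 69961546272) (nat_lit 0)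 (nat_lit 6840158540) (nat_lit 16) (nat_lit 5) (nat_lit 18) (nat_lit 4) (nat_lit 16) (nat_lit 4) (nat_lit 374) (nat_lit 343) (nat_lit 303))) (XT.nd (nat_lit 78) (nat_lit 76) (nat_lit 0) (XT.lf (nat_lit 0) (nat_lit 11381691085) (nat_lit 76) (nat_lit 58159124102) (nat_lit 76) (nat_lit 41810457901) (nat_lit 15) (nat_lit 4) (nat_lit 16) (nat_lit 5) (nat_lit 16) (nat_lit 4) (nat_lit 375) (nat_lit 343) (nat_lit 302)) (XT.lf (nat_lit 0) (nat_lit 553852265) (nat_lit 152) (nat_lit 15203598555) (nat_lit 76) (nat_lit 108507219899) (nat_lit 14) (nat_lit 5) (nat_lit 16) (nat_lit 5) (nat_lit 15) (nat_lit 4) (nat_lit 376) (nat_lit 343) (nat_lit 301)))) (XT.nd (nat_lit 156) (nat_lit 152) (nat_lit 0) (XT.nd (nat_lit 78) (nat_lit 76) (nat_lit 0) (XT.lf (nat_lit 0) (nat_lit 49757206219) (nat_lit 152) (nat_lit 54426660471) (nat_lit 0) (nat_lit 34607529871) (nat_lit 13) (nat_lit 5) (nat_lit 15) (nat_lit 4) (nat_lit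 13) (nat_lit 4) (nat_lit 377) (nat_lit 343) (nat_lit 300)) (XT.lf (nat_lit 0) (nat_lit 46113870811) (nat_lit 76) (nat_lit 62190372809) (nat_lit 76) (nat_lit 47035833989) (nat_lit 12) (nat_lit 4) (nat_lit 13) (nat_lit 5) (nat_lit 13) (nat_lit 4) (nat_lit 378) (nat_lit 343) (nat_lit 299))) (XT.nd (nat_lit 78) (nat_lit 76) (nat_lit 0) (XT.lf (nat_lit 0) (nat_lit 2791272344) (nat_lit 152) (nat_lit 9352920578) (nat_lit 76) (nat_lit 162097068629) (nat_lit 11) (nat_lit 5) (nat_lit 13) (nat_lit 5) (nat_lit 12) (nat_lit 4) (nat_lit 379) (nat_lit 343) (nat_lit 298)) (XT.lf (nat_lit 0) (nat_lit 61187477011) (nat_lit 152) (nat_lit 87233826304) (nat_lit 0) (nat_lit 47148177213) (nat_lit 10) (nat_lit 5) (nat_lit 12) (nat_lit 4) (nat_lit 10) (nat_lit 4) (nat_lit 380) (nat_lit 343) (nat_lit 297))))) (XT.nd (nat_lit 312) (nat_lit 228) (nat_lit 0) (XT.nd (nat_lit 156) (nat_lit 152) (nat_lit 0) (XT.nd (nat_lit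 78) (nat_lit 0) (nat_lit 0) (XT.lf (nat_lit 0) (nat_lit 25021480329) (nat_lit 76) (nat_lit 104511270756) (nat_lit 76) (nat_lit 90469010631) (nat_lit 9) (nat_lit 4) (nat_lit 10) (nat_lit 5) (nat_lit 10) (nat_lit 4) (nat_lit 381) (nat_lit 343) (nat_lit 296)) (XT.lf (nat_lit 0) (nat_lit 159346442486) (nat_lit 76) (nat_lit 51298051550) (nat_lit 76) (nat_lit 37253217227) (nat_lit 9) (nat_lit 4) (nat_lit 10) (nat_lit 5) (nat_lit 10) (nat_lit 4) (nat_lit 382) (nat_lit 343) (nat_lit 295))) (XT.nd (nat_lit 78) (nat_lit 0) (nat_lit 0) (XT.lf (nat_lit 0) (nat_lit 23840072174) (nat_lit 152) (nat_lit 245170951935) (nat_lit 0) (nat_lit 10833523327) (nat_lit 7) (nat_lit 5) (nat_lit 9) (nat_lit 4) (nat_lit 7) (nat_lit 4) (nat_lit 383) (nat_lit 343) (nat_lit 294)) (XT.lf (nat_lit 0) (nat_lit 95997130228) (nat_lit 152) (nat_lit 137191644193) (nat_lit 0) (nat_lit 82988779099) (nat_lit 7) (nat_lit 5) (nat_lit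 9) (nat_lit 4) (nat_lit 7) (nat_lit 4) (nat_lit 384) (nat_lit 343) (nat_lit 293)))) (XT.nd (nat_lit 156) (nat_lit 152) (nat_lit 0) (XT.nd (nat_lit 78) (nat_lit 76) (nat_lit 0) (XT.lf (nat_lit 0) (nat_lit 178959529932) (nat_lit 152) (nat_lit 13052826591) (nat_lit 0) (nat_lit 165949611604) (nat_lit 7) (nat_lit 5) (nat_lit 9) (nat_lit 4) (nat_lit 7) (nat_lit 4) (nat_lit 385) (nat_lit 343) (nat_lit 292)) (XT.lf (nat_lit 0) (nat_lit 136502722862) (nat_lit 76) (nat_lit 141130619580) (nat_lit 76) (nat_lit 128119338468) (nat_lit 6) (nat_lit 4) (nat_lit 7) (nat_lit 5) (nat_lit 7) (nat_lit 4) (nat_lit 386) (nat_lit 343) (nat_lit 291))) (XT.nd (nat_lit 78) (nat_lit 152) (nat_lit 0) (XT.lf (nat_lit 0) (nat_lit 309252286226) (nat_lit 76) (nat_lit 82221469210) (nat_lit 76) (nat_lit 69209003069) (nat_lit 6) (nat_lit 4) (nat_lit 7) (nat_lit 5) (nat_lit 7) (nat_lit 4) (nat_lit 387) (nat_lit 343) (nat_lit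 290)) (XT.nd (nat_lit 78) (nat_lit 152) (nat_lit 0) (XT.lf (nat_lit 0) (nat_lit 507888407546) (nat_lit 76) (nat_lit 14489222492) (nat_lit 76) (nat_lit 1475725891) (nat_lit 6) (nat_lit 4) (nat_lit 7) (nat_lit 5) (nat_lit 7) (nat_lit 4) (nat_lit 388) (nat_lit 343) (nat_lit 289)) (XT.lf (nat_lit 0) (nat_lit 77739240608) (nat_lit 152) (nat_lit 452512844929) (nat_lit 0) (nat_lit 65688877041) (nat_lit 4) (nat_lit 5) (nat_lit 6) (nat_lit 4) (nat_lit 4) (nat_lit 4) (nat_lit 389) (nat_lit 343) (nat_lit 288))))))) (XT.nd (nat_lit 624) (nat_lit 152) (nat_lit 0) (XT.nd (nat_lit 312) (nat_lit 0) (nat_lit 0) (XT.nd (nat_lit 156) (nat_lit 76) (nat_lit 0) (XT.nd (nat_lit 78) (nat_lit 0) (nat_lit 0) (XT.lf (nat_lit 0) (nat_lit 169618623476) (nat_lit 152) (nat_lit 351582917900) (nat_lit 0) (nat_lit 157567538450) (nat_lit 4) (nat_lit 5) (nat_lit 6) (nat_lit 4) (nat_lit 4) (nat_lit 4) (nat_lit 390) (nat_lit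 343) (nat_lit 287)) (XT.lf (nat_lit 0) (nat_lit 275270744465) (nat_lit 152) (nat_lit 235532371758) (nat_lit 0) (nat_lit 263219032083) (nat_lit 4) (nat_lit 5) (nat_lit 6) (nat_lit 4) (nat_lit 4) (nat_lit 4) (nat_lit 391) (nat_lit 343) (nat_lit 286))) (XT.nd (nat_lit 78) (nat_lit 76) (nat_lit 0) (XT.lf (nat_lit 0) (nat_lit 396762710288) (nat_lit 152) (nat_lit 102090652338) (nat_lit 0) (nat_lit 384710452380) (nat_lit 4) (nat_lit 5) (nat_lit 6) (nat_lit 4) (nat_lit 4) (nat_lit 4) (nat_lit 392) (nat_lit 343) (nat_lit 285)) (XT.lf (nat_lit 0) (nat_lit 54057217562) (nat_lit 76) (nat_lit 483714397489) (nat_lit 76) (nat_lit 471661665210) (nat_lit 3) (nat_lit 4) (nat_lit 4) (nat_lit 5) (nat_lit 4) (nat_lit 4) (nat_lit 393) (nat_lit 343) (nat_lit 284)))) (XT.nd (nat_lit 156) (nat_lit 0) (nat_lit 0) (XT.nd (nat_lit 78) (nat_lit 0) (nat_lit 0) (XT.lf (nat_lit 0) (nat_lit 239796507068) (nat_lit 76) (nat_lit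 463101264882) (nat_lit 76) (nat_lit 451048120106) (nat_lit 3) (nat_lit 4) (nat_lit 4) (nat_lit 5) (nat_lit 4) (nat_lit 4) (nat_lit 394) (nat_lit 343) (nat_lit 283)) (XT.lf (nat_lit 0) (nat_lit 453385332922) (nat_lit 76) (nat_lit 439402003740) (nat_lit 76) (nat_lit 427348500271) (nat_lit 3) (nat_lit 4) (nat_lit 4) (nat_lit 5) (nat_lit 4) (nat_lit 4) (nat_lit 395) (nat_lit 343) (nat_lit 282))) (XT.nd (nat_lit 78) (nat_lit 0) (nat_lit 0) (XT.lf (nat_lit 0) (nat_lit 699002606935) (nat_lit 76) (nat_lit 412152932866) (nat_lit 76) (nat_lit 400099117491) (nat_lit 3) (nat_lit 4) (nat_lit 4) (nat_lit 5) (nat_lit 4) (nat_lit 4) (nat_lit 396) (nat_lit 343) (nat_lit 281)) (XT.lf (nat_lit 0) (nat_lit 981453884469) (nat_lit 76) (nat_lit 380820918266) (nat_lit 76) (nat_lit 368766831667) (nat_lit 3) (nat_lit 4) (nat_lit 4) (nat_lit 5) (nat_lit 4) (nat_lit 4) (nat_lit 397) (nat_lit 343) (nat_lit 280))))) (XT.nd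 (nat_lit 312) (nat_lit 152) (nat_lit 0) (XT.nd (nat_lit 156) (nat_lit 0) (nat_lit 0) (XT.nd (nat_lit 78) (nat_lit 0) (nat_lit 0) (XT.lf (nat_lit 0) (nat_lit 1306265386170) (nat_lit 76) (nat_lit 344792942262) (nat_lit 76) (nat_lit 332738619817) (nat_lit 3) (nat_lit 4) (nat_lit 4) (nat_lit 5) (nat_lit 4) (nat_lit 4) (nat_lit 398) (nat_lit 343) (nat_lit 279)) (XT.lf (nat_lit 0) (nat_lit 1679792119681) (nat_lit 76) (nat_lit 303364109672) (nat_lit 76) (nat_lit 291309582143) (nat_lit 3) (nat_lit 4) (nat_lit 4) (nat_lit 5) (nat_lit 4) (nat_lit 4) (nat_lit 399) (nat_lit 343) (nat_lit 278))) (XT.nd (nat_lit 78) (nat_lit 0) (nat_lit 0) (XT.lf (nat_lit 0) (nat_lit 2109342216744) (nat_lit 76) (nat_lit 255723856379) (nat_lit 76) (nat_lit 243669150517) (nat_lit 3) (nat_lit 4) (nat_lit 4) (nat_lit 5) (nat_lit 4) (nat_lit 4) (nat_lit 400) (nat_lit 343) (nat_lit 277)) (XT.lf (nat_lit 0) (nat_lit 2603319918388)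 (nat_lit 76) (nat_lit 200940090473) (nat_lit 76) (nat_lit 188885229538) (nat_lit 3) (nat_lit 4) (nat_lit 4) (nat_lit 5) (nat_lit 4) (nat_lit 4) (nat_lit 401) (nat_lit 343) (nat_lit 276)))) (XT.nd (nat_lit 156) (nat_lit 152) (nat_lit 0) (XT.nd (nat_lit 78) (nat_lit 0) (nat_lit 0) (XT.lf (nat_lit 0) (nat_lit 3171390005734) (nat_lit 76) (nat_lit 137940955662) (nat_lit 76) (nat_lit 125885959882) (nat_lit 3) (nat_lit 4) (nat_lit 4) (nat_lit 5) (nat_lit 4) (nat_lit 4) (nat_lit 402) (nat_lit 343) (nat_lit 275)) (XT.lf (nat_lit 0) (nat_lit 3824666893533) (nat_lit 76) (nat_lit 65493860180) (nat_lit 76) (nat_lit 53438747142) (nat_lit 3) (nat_lit 4) (nat_lit 4) (nat_lit 5) (nat_lit 4) (nat_lit 4) (nat_lit 403) (nat_lit 343) (nat_lit 274))) (XT.nd (nat_lit 78) (nat_lit 0) (nat_lit 0) (XT.lf (nat_lit 0) (nat_lit 30046747732) (nat_lit 152) (nat_lit 4479117471731) (nat_lit 0) (nat_lit 18884511620) (nat_lit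 1) (nat_lit 5) (nat_lit 3) (nat_lit 4) (nat_lit 1) (nat_lit 4) (nat_lit 404) (nat_lit 343) (nat_lit 273)) (XT.nd (nat_lit 78) (nat_lit 0) (nat_lit 0) (XT.lf (nat_lit 0) (nat_lit 128343282266) (nat_lit 152) (nat_lit 4954093867135) (nat_lit 0) (nat_lit 117180964058) (nat_lit 1) (nat_lit 5) (nat_lit 3) (nat_lit 4) (nat_lit 1) (nat_lit 4) (nat_lit 405) (nat_lit 343) (nat_lit 272)) (XT.lf (nat_lit 0) (nat_lit 241382984541) (nat_lit 152) (nat_lit 5500319428709) (nat_lit 0) (nat_lit 230220594947) (nat_lit 1) (nat_lit 5) (nat_lit 3) (nat_lit 4) (nat_lit 1) (nat_lit 4) (nat_lit 406) (nat_lit 343) (nat_lit 271))))))))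
noncomputable def xc54 : XT := (XT.nd (nat_lit 48594) (nat_lit 0) (nat_lit 2280) (XT.nd (nat_lit 624) (nat_lit 0) (nat_lit 0) (XT.nd (nat_lit 312) (nat_lit 0) (nat_lit 0) (XT.nd (nat_lit 156) (nat_lit 0) (nat_lit 0) (XT.nd (nat_lit 78) (nat_lit 0) (nat_lit 0) (XT.lf (nat_lit 0) (nat_lit 371377500908) (nat_lit 152) (nat_lit 6128481178310) (nat_lit 0) (nat_lit 360215049237) (nat_lit 1) (nat_lit 5) (nat_lit 3) (nat_lit 4) (nat_lit 1) (nat_lit 4) (nat_lit 407) (nat_lit 343) (nat_lit 270)) (XT.lf (nat_lit 0) (nat_lit 520870202338) (nat_lit 152) (nat_lit 6850869237127) (nat_lit 0) (nat_lit 509707696687) (nat_lit 1) (nat_lit 5) (nat_lit 3) (nat_lit 4) (nat_lit 1) (nat_lit 4) (nat_lit 408) (nat_lit 343) (nat_lit 269))) (XT.nd (nat_lit 78) (nat_lit 0) (nat_lit 0) (XT.lf (nat_lit 0) (nat_lit 692785946033) (nat_lit 152) (nat_lit 7681617284571) (nat_lit 0) (nat_lit 681623393444) (nat_lit 1) (nat_lit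 5) (nat_lit 3) (nat_lit 4) (nat_lit 1) (nat_lit 4) (nat_lit 409) (nat_lit 343) (nat_lit 268)) (XT.lf (nat_lit 0) (nat_lit 890488300891) (nat_lit 152) (nat_lit 8636979086787) (nat_lit 0) (nat_lit 879325707486) (nat_lit 1) (nat_lit 5) (nat_lit 3) (nat_lit 4) (nat_lit 1) (nat_lit 4) (nat_lit 410) (nat_lit 343) (nat_lit 267)))) (XT.nd (nat_lit 156) (nat_lit 0) (nat_lit 0) (XT.nd (nat_lit 78) (nat_lit 0) (nat_lit 0) (XT.lf (nat_lit 0) (nat_lit 1117845356464) (nat_lit 152) (nat_lit 9735646505124) (nat_lit 0) (nat_lit 1106682727567) (nat_lit 1) (nat_lit 5) (nat_lit 3) (nat_lit 4) (nat_lit 1) (nat_lit 4) (nat_lit 411) (nat_lit 343) (nat_lit 266)) (XT.lf (nat_lit 0) (nat_lit 1379305402970) (nat_lit 152) (nat_lit 10999115206462) (nat_lit 0) (nat_lit 1368142743210) (nat_lit 1) (nat_lit 5) (nat_lit 3) (nat_lit 4) (nat_lit 1) (nat_lit 4) (nat_lit 412) (nat_lit 343) (nat_lit 265))) (XT.nd (nat_lit 78)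 (nat_lit 0) (nat_lit 0) (XT.lf (nat_lit 0) (nat_lit 1679983963058) (nat_lit 152) (nat_lit 12452105230609) (nat_lit 0) (nat_lit 1668821276461) (nat_lit 1) (nat_lit 5) (nat_lit 3) (nat_lit 4) (nat_lit 1) (nat_lit 4) (nat_lit 413) (nat_lit 343) (nat_lit 264)) (XT.lf (nat_lit 0) (nat_lit 2025763878121) (nat_lit 152) (nat_lit 14123044643255) (nat_lit 0) (nat_lit 2014601168187) (nat_lit 1) (nat_lit 5) (nat_lit 3) (nat_lit 4) (nat_lit 1) (nat_lit 4) (nat_lit 414) (nat_lit 343) (nat_lit 263))))) (XT.nd (nat_lit 47580) (nat_lit 0) (nat_lit 5624) (XT.nd (nat_lit 156) (nat_lit 0) (nat_lit 0) (XT.nd (nat_lit 78) (nat_lit 0) (nat_lit 0) (XT.lf (nat_lit 0) (nat_lit 2423410407366) (nat_lit 152) (nat_lit 16044625737257) (nat_lit 0) (nat_lit 2412247677139) (nat_lit 1) (nat_lit 5) (nat_lit 3) (nat_lit 4) (nat_lit 1) (nat_lit 4) (nat_lit 415) (nat_lit 343) (nat_lit 262)) (XT.lf (nat_lit 0) (nat_lit 2880703591583)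 (nat_lit 152) (nat_lit 18254444664454) (nat_lit 0) (nat_lit 2869540843711) (nat_lit 1) (nat_lit 5) (nat_lit 3) (nat_lit 4) (nat_lit 1) (nat_lit 4) (nat_lit 416) (nat_lit 343) (nat_lit 261))) (XT.nd (nat_lit 78) (nat_lit 0) (nat_lit 0) (XT.lf (nat_lit 0) (nat_lit 3406590471334) (nat_lit 152) (nat_lit 20795737012551) (nat_lit 0) (nat_lit 3395427708117) (nat_lit 1) (nat_lit 5) (nat_lit 3) (nat_lit 4) (nat_lit 1) (nat_lit 4) (nat_lit 417) (nat_lit 343) (nat_lit 260)) (XT.lf (nat_lit 0) (nat_lit 4011360137743) (nat_lit 152) (nat_lit 23718223718794) (nat_lit 0) (nat_lit 4000197361183) (nat_lit 1) (nat_lit 5) (nat_lit 3) (nat_lit 4) (nat_lit 1) (nat_lit 4) (nat_lit 418) (nat_lit 343) (nat_lit 259)))) (XT.nd (nat_lit 156) (nat_lit 760) (nat_lit 0) (XT.nd (nat_lit 78) (nat_lit 0) (nat_lit 0) (XT.lf (nat_lit 0) (nat_lit 953377316) (nat_lit 0) (nat_lit 953377316) (nat_lit 380) (nat_lit 2071720307) (nat_lit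 85) (nat_lit 5) (nat_lit 85) (nat_lit 3) (nat_lit 90) (nat_lit 3) (nat_lit 344) (nat_lit 344) (nat_lit 332)) (XT.lf (nat_lit 76) (nat_lit 1314896367) (nat_lit 0) (nat_lit 5041101682) (nat_lit 456) (nat_lit 2016250982) (nat_lit 86) (nat_lit 5) (nat_lit 85) (nat_lit 5) (nat_lit 91) (nat_lit 5) (nat_lit 345) (nat_lit 344) (nat_lit 331))) (XT.nd (nat_lit 78) (nat_lit 380) (nat_lit 0) (XT.lf (nat_lit 0) (nat_lit 292943958) (nat_lit 456) (nat_lit 7837130520) (nat_lit 532) (nat_lit 728343465) (nat_lit 80) (nat_lit 5) (nat_lit 86) (nat_lit 5) (nat_lit 87) (nat_lit 5) (nat_lit 346) (nat_lit 344) (nat_lit 330)) (XT.nd (nat_lit 78) (nat_lit 380) (nat_lit 0) (XT.lf (nat_lit 76) (nat_lit 916048990) (nat_lit 0) (nat_lit 1944394574) (nat_lit 532) (nat_lit 6550510989) (nat_lit 81) (nat_lit 5) (nat_lit 80) (nat_lit 5) (nat_lit 87) (nat_lit 5) (nat_lit 347) (nat_lit 344) (nat_lit 329)) (XT.lf (nat_lit 0) (nat_lit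 1081906957) (nat_lit 456) (nat_lit 4811740856) (nat_lit 532) (nat_lit 4146396398) (nat_lit 75) (nat_lit 5) (nat_lit 81) (nat_lit 5) (nat_lit 82) (nat_lit 5) (nat_lit 348) (nat_lit 344) (nat_lit 328))))))) (XT.nd (nat_lit 624) (nat_lit 1368) (nat_lit 0) (XT.nd (nat_lit 312) (nat_lit 836) (nat_lit 0) (XT.nd (nat_lit 156) (nat_lit 380) (nat_lit 0) (XT.nd (nat_lit 78) (nat_lit 304) (nat_lit 0) (XT.lf (nat_lit 0) (nat_lit 1552125409) (nat_lit 456) (nat_lit 7966191518) (nat_lit 532) (nat_lit 1234365071) (nat_lit 69) (nat_lit 5) (nat_lit 75) (nat_lit 5) (nat_lit 76) (nat_lit 5) (nat_lit 349) (nat_lit 344) (nat_lit 327)) (XT.lf (nat_lit 0) (nat_lit 2219612923) (nat_lit 304) (nat_lit 9259459403) (nat_lit 76) (nat_lit 72284841) (nat_lit 65) (nat_lit 5) (nat_lit 69) (nat_lit 5) (nat_lit 66) (nat_lit 5) (nat_lit 350) (nat_lit 344) (nat_lit 326))) (XT.nd (nat_lit 78) (nat_lit 152) (nat_lit 0) (XT.lf (nat_lit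 0) (nat_lit 3263337686) (nat_lit 228) (nat_lit 3210251825) (nat_lit 304) (nat_lit 5965352386) (nat_lit 62) (nat_lit 5) (nat_lit 65) (nat_lit 5) (nat_lit 66) (nat_lit 5) (nat_lit 351) (nat_lit 344) (nat_lit 325)) (XT.lf (nat_lit 0) (nat_lit 4610495875) (nat_lit 152) (nat_lit 7095693679) (nat_lit 228) (nat_lit 1726295590) (nat_lit 60) (nat_lit 5) (nat_lit 62) (nat_lit 5) (nat_lit 63) (nat_lit 5) (nat_lit 352) (nat_lit 344) (nat_lit 324)))) (XT.nd (nat_lit 156) (nat_lit 380) (nat_lit 0) (XT.nd (nat_lit 78) (nat_lit 152) (nat_lit 0) (XT.lf (nat_lit 0) (nat_lit 3398034874) (nat_lit 304) (nat_lit 8239209367) (nat_lit 76) (nat_lit 2899254632) (nat_lit 56) (nat_lit 5) (nat_lit 60) (nat_lit 5) (nat_lit 57) (nat_lit 5) (nat_lit 353) (nat_lit 344) (nat_lit 323)) (XT.lf (nat_lit 0) (nat_lit 8372030661) (nat_lit 152) (nat_lit 1315410283) (nat_lit 228) (nat_lit 6075239332) (nat_lit 54) (nat_lit 5) (nat_lit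 56) (nat_lit 5) (nat_lit 57) (nat_lit 5) (nat_lit 354) (nat_lit 344) (nat_lit 322))) (XT.nd (nat_lit 78) (nat_lit 152) (nat_lit 0) (XT.lf (nat_lit 0) (nat_lit 387345550) (nat_lit 228) (nat_lit 6249320371) (nat_lit 76) (nat_lit 10486464819) (nat_lit 51) (nat_lit 5) (nat_lit 54) (nat_lit 5) (nat_lit 52) (nat_lit 5) (nat_lit 355) (nat_lit 344) (nat_lit 321)) (XT.lf (nat_lit 0) (nat_lit 8067483802) (nat_lit 228) (nat_lit 4849497796) (nat_lit 76) (nat_lit 5709443159) (nat_lit 49) (nat_lit 5) (nat_lit 52) (nat_lit 5) (nat_lit 50) (nat_lit 5) (nat_lit 356) (nat_lit 344) (nat_lit 320))))) (XT.nd (nat_lit 312) (nat_lit 608) (nat_lit 0) (XT.nd (nat_lit 156) (nat_lit 456) (nat_lit 0) (XT.nd (nat_lit 78) (nat_lit 152) (nat_lit 0) (XT.lf (nat_lit 0) (nat_lit 17323384243) (nat_lit 152) (nat_lit 235957194) (nat_lit 228) (nat_lit 2743122385) (nat_lit 47) (nat_lit 5) (nat_lit 49) (nat_lit 5) (nat_lit 50)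 (nat_lit 5) (nat_lit 357) (nat_lit 344) (nat_lit 319)) (XT.lf (nat_lit 0) (nat_lit 6844427325) (nat_lit 152) (nat_lit 902045406) (nat_lit 76) (nat_lit 14398501140) (nat_lit 45) (nat_lit 5) (nat_lit 47) (nat_lit 5) (nat_lit 46) (nat_lit 5) (nat_lit 358) (nat_lit 344) (nat_lit 318))) (XT.nd (nat_lit 78) (nat_lit 228) (nat_lit 0) (XT.lf (nat_lit 0) (nat_lit 1753659452) (nat_lit 76) (nat_lit 16800758187) (nat_lit 152) (nat_lit 5636023056) (nat_lit 42) (nat_lit 5) (nat_lit 43) (nat_lit 5) (nat_lit 44) (nat_lit 4) (nat_lit 359) (nat_lit 344) (nat_lit 317)) (XT.lf (nat_lit 0) (nat_lit 4939478371) (nat_lit 152) (nat_lit 1208386932) (nat_lit 228) (nat_lit 20308839177) (nat_lit 39) (nat_lit 5) (nat_lit 41) (nat_lit 5) (nat_lit 42) (nat_lit 5) (nat_lit 360) (nat_lit 344) (nat_lit 316)))) (XT.nd (nat_lit 156) (nat_lit 304) (nat_lit 0) (XT.nd (nat_lit 78) (nat_lit 228) (nat_lit 0) (XT.lf (nat_lit 0) (nat_lit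 8441418952) (nat_lit 76) (nat_lit 12110336708) (nat_lit 152) (nat_lit 8404563376) (nat_lit 38) (nat_lit 5) (nat_lit 39) (nat_lit 5) (nat_lit 40) (nat_lit 4) (nat_lit 361) (nat_lit 344) (nat_lit 315)) (XT.lf (nat_lit 0) (nat_lit 6074174433) (nat_lit 228) (nat_lit 19203981888) (nat_lit 76) (nat_lit 6458303781) (nat_lit 35) (nat_lit 5) (nat_lit 38) (nat_lit 5) (nat_lit 36) (nat_lit 4) (nat_lit 362) (nat_lit 344) (nat_lit 314))) (XT.nd (nat_lit 78) (nat_lit 228) (nat_lit 0) (XT.lf (nat_lit 0) (nat_lit 17004126164) (nat_lit 76) (nat_lit 6508408879) (nat_lit 152) (nat_lit 11300795981) (nat_lit 34) (nat_lit 5) (nat_lit 35) (nat_lit 5) (nat_lit 36) (nat_lit 4) (nat_lit 363) (nat_lit 344) (nat_lit 313)) (XT.nd (nat_lit 78) (nat_lit 76) (nat_lit 0) (XT.lf (nat_lit 0) (nat_lit 6378018104) (nat_lit 152) (nat_lit 16323835670) (nat_lit 76) (nat_lit 15525934939) (nat_lit 32) (nat_lit 5) (nat_lit 34) (nat_lit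 5) (nat_lit 33) (nat_lit 4) (nat_lit 364) (nat_lit 344) (nat_lit 312)) (XT.lf (nat_lit 0) (nat_lit 27257401404) (nat_lit 76) (nat_lit 94570044) (nat_lit 152) (nat_lit 14673971852) (nat_lit 31) (nat_lit 5) (nat_lit 32) (nat_lit 5) (nat_lit 33) (nat_lit 4) (nat_lit 365) (nat_lit 344) (nat_lit 311))))))))
noncomputable def xc55 : XT := (XT.nd (nat_lit 1326) (nat_lit 456) (nat_lit 0) (XT.nd (nat_lit 624) (nat_lit 760) (nat_lit 0) (XT.nd (nat_lit 312) (nat_lit 456) (nat_lit 0) (XT.nd (nat_lit 156) (nat_lit 228) (nat_lit 0) (XT.nd (nat_lit 78) (nat_lit 76) (nat_lit 0) (XT.lf (nat_lit 0) (nat_lit 6704310733) (nat_lit 152) (nat_lit 13530468435) (nat_lit 76) (nat_lit 25998864960) (nat_lit 29) (nat_lit 5) (nat_lit 31) (nat_lit 5) (nat_lit 30) (nat_lit 4) (nat_lit 366) (nat_lit 344) (nat_lit 310)) (XT.lf (nat_lit 0) (nat_lit 31914394207) (nat_lit 152) (nat_lit 12562832222) (nat_lit 0) (nat_lit 6445273086)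 (nat_lit 28) (nat_lit 5) (nat_lit 30) (nat_lit 4) (nat_lit 28) (nat_lit 4) (nat_lit 367) (nat_lit 344) (nat_lit 309))) (XT.nd (nat_lit 78) (nat_lit 76) (nat_lit 0) (XT.lf (nat_lit 0) (nat_lit 6376628774) (nat_lit 152) (nat_lit 12230866964) (nat_lit 76) (nat_lit 37537157619) (nat_lit 26) (nat_lit 5) (nat_lit 28) (nat_lit 5) (nat_lit 27) (nat_lit 4) (nat_lit 368) (nat_lit 344) (nat_lit 308)) (XT.lf (nat_lit 0) (nat_lit 36301685878) (nat_lit 152) (nat_lit 12984643896) (nat_lit 0) (nat_lit 12675657913) (nat_lit 25) (nat_lit 5) (nat_lit 27) (nat_lit 4) (nat_lit 25) (nat_lit 4) (nat_lit 369) (nat_lit 344) (nat_lit 307)))) (XT.nd (nat_lit 156) (nat_lit 228) (nat_lit 0) (XT.nd (nat_lit 78) (nat_lit 76) (nat_lit 0) (XT.lf (nat_lit 0) (nat_lit 4130202043) (nat_lit 152) (nat_lit 15052804644) (nat_lit 76) (nat_lit 49291359593) (nat_lit 23) (nat_lit 5) (nat_lit 25) (nat_lit 5) (nat_lit 24) (nat_lit 4)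 (nat_lit 370) (nat_lit 344) (nat_lit 306)) (XT.lf (nat_lit 0) (nat_lit 39048345259) (nat_lit 152) (nat_lit 19545731543) (nat_lit 0) (nat_lit 17141931765) (nat_lit 22) (nat_lit 5) (nat_lit 24) (nat_lit 4) (nat_lit 22) (nat_lit 4) (nat_lit 371) (nat_lit 344) (nat_lit 305))) (XT.nd (nat_lit 78) (nat_lit 152) (nat_lit 0) (XT.lf (nat_lit 0) (nat_lit 57207596981) (nat_lit 76) (nat_lit 24306617723) (nat_lit 76) (nat_lit 2387884038) (nat_lit 21) (nat_lit 4) (nat_lit 22) (nat_lit 5) (nat_lit 22) (nat_lit 4) (nat_lit 372) (nat_lit 344) (nat_lit 304)) (XT.lf (nat_lit 0) (nat_lit 37506334219) (nat_lit 152) (nat_lit 38329924989) (nat_lit 0) (nat_lit 17201290797) (nat_lit 19) (nat_lit 5) (nat_lit 21) (nat_lit 4) (nat_lit 19) (nat_lit 4) (nat_lit 373) (nat_lit 344) (nat_lit 303))))) (XT.nd (nat_lit 312) (nat_lit 380) (nat_lit 0) (XT.nd (nat_lit 156) (nat_lit 152) (nat_lit 0) (XT.nd (nat_lit 78) (nat_lit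 152) (nat_lit 0) (XT.lf (nat_lit 0) (nat_lit 48017857872) (nat_lit 76) (nat_lit 37813560013) (nat_lit 76) (nat_lit 17499890818) (nat_lit 18) (nat_lit 4) (nat_lit 19) (nat_lit 5) (nat_lit 19) (nat_lit 4) (nat_lit 374) (nat_lit 344) (nat_lit 302)) (XT.lf (nat_lit 0) (nat_lit 27096690406) (nat_lit 152) (nat_lit 79567331523) (nat_lit 0) (nat_lit 8280792381) (nat_lit 16) (nat_lit 5) (nat_lit 18) (nat_lit 4) (nat_lit 16) (nat_lit 4) (nat_lit 375) (nat_lit 344) (nat_lit 301))) (XT.nd (nat_lit 78) (nat_lit 76) (nat_lit 0) (XT.lf (nat_lit 0) (nat_lit 13902188851) (nat_lit 76) (nat_lit 66470808724) (nat_lit 76) (nat_lit 47648871510) (nat_lit 15) (nat_lit 4) (nat_lit 16) (nat_lit 5) (nat_lit 16) (nat_lit 4) (nat_lit 376) (nat_lit 344) (nat_lit 300)) (XT.lf (nat_lit 0) (nat_lit 994744805) (nat_lit 152) (nat_lit 16758119487) (nat_lit 76) (nat_lit 125122873682) (nat_lit 14) (nat_lit 5) (nat_lit 16) (nat_lit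 5) (nat_lit 15) (nat_lit 4) (nat_lit 377) (nat_lit 344) (nat_lit 299)))) (XT.nd (nat_lit 156) (nat_lit 228) (nat_lit 0) (XT.nd (nat_lit 78) (nat_lit 76) (nat_lit 0) (XT.lf (nat_lit 0) (nat_lit 57556028588) (nat_lit 152) (nat_lit 61908032791) (nat_lit 0) (nat_lit 40119218239) (nat_lit 13) (nat_lit 5) (nat_lit 15) (nat_lit 4) (nat_lit 13) (nat_lit 4) (nat_lit 378) (nat_lit 344) (nat_lit 298)) (XT.lf (nat_lit 0) (nat_lit 53655797228) (nat_lit 76) (nat_lit 71200624783) (nat_lit 76) (nat_lit 53760137708) (nat_lit 12) (nat_lit 4) (nat_lit 13) (nat_lit 5) (nat_lit 13) (nat_lit 4) (nat_lit 379) (nat_lit 344) (nat_lit 297))) (XT.nd (nat_lit 78) (nat_lit 152) (nat_lit 0) (XT.lf (nat_lit 0) (nat_lit 3483450021) (nat_lit 152) (nat_lit 10198108184) (nat_lit 76) (nat_lit 186674008654) (nat_lit 11) (nat_lit 5) (nat_lit 13) (nat_lit 5) (nat_lit 12) (nat_lit 4) (nat_lit 380) (nat_lit 344) (nat_lit 296)) (XT.nd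 (nat_lit 78) (nat_lit 76) (nat_lit 0) (XT.lf (nat_lit 0) (nat_lit 70621955430) (nat_lit 152) (nat_lit 99794612535) (nat_lit 0) (nat_lit 54467821762) (nat_lit 10) (nat_lit 5) (nat_lit 12) (nat_lit 4) (nat_lit 10) (nat_lit 4) (nat_lit 381) (nat_lit 344) (nat_lit 295)) (XT.lf (nat_lit 0) (nat_lit 29254611749) (nat_lit 76) (nat_lit 119942512846) (nat_lit 76) (nat_lit 103786140745) (nat_lit 9) (nat_lit 4) (nat_lit 10) (nat_lit 5) (nat_lit 10) (nat_lit 4) (nat_lit 382) (nat_lit 344) (nat_lit 294))))))) (XT.nd (nat_lit 702) (nat_lit 76) (nat_lit 0) (XT.nd (nat_lit 312) (nat_lit 228) (nat_lit 0) (XT.nd (nat_lit 156) (nat_lit 0) (nat_lit 0) (XT.nd (nat_lit 78) (nat_lit 152) (nat_lit 0) (XT.lf (nat_lit 0) (nat_lit 183665721355) (nat_lit 76) (nat_lit 58779325784) (nat_lit 76) (nat_lit 42621007220) (nat_lit 9) (nat_lit 4) (nat_lit 10) (nat_lit 5) (nat_lit 10) (nat_lit 4) (nat_lit 383) (nat_lit 344) (nat_lit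 293)) (XT.lf (nat_lit 0) (nat_lit 27612234098) (nat_lit 152) (nat_lit 281544039910) (nat_lit 0) (nat_lit 12649260819) (nat_lit 7) (nat_lit 5) (nat_lit 9) (nat_lit 4) (nat_lit 7) (nat_lit 4) (nat_lit 384) (nat_lit 344) (nat_lit 292))) (XT.nd (nat_lit 78) (nat_lit 0) (nat_lit 0) (XT.lf (nat_lit 0) (nat_lit 110567265934) (nat_lit 152) (nat_lit 157420343157) (nat_lit 0) (nat_lit 95602929872) (nat_lit 7) (nat_lit 5) (nat_lit 9) (nat_lit 4) (nat_lit 7) (nat_lit 4) (nat_lit 385) (nat_lit 344) (nat_lit 291)) (XT.lf (nat_lit 0) (nat_lit 205951777833) (nat_lit 152) (nat_lit 14706361306) (nat_lit 0) (nat_lit 190986256742) (nat_lit 7) (nat_lit 5) (nat_lit 9) (nat_lit 4) (nat_lit 7) (nat_lit 4) (nat_lit 386) (nat_lit 344) (nat_lit 290)))) (XT.nd (nat_lit 156) (nat_lit 152) (nat_lit 0) (XT.nd (nat_lit 78) (nat_lit 0) (nat_lit 0) (XT.lf (nat_lit 0) (nat_lit 157256755529) (nat_lit 76) (nat_lit 162157261729)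 (nat_lit 76) (nat_lit 147190710178) (nat_lit 6) (nat_lit 4) (nat_lit 7) (nat_lit 5) (nat_lit 7) (nat_lit 4) (nat_lit 387) (nat_lit 344) (nat_lit 289)) (XT.lf (nat_lit 0) (nat_lit 355882411106) (nat_lit 76) (nat_lit 94430384559) (nat_lit 76) (nat_lit 79462936956) (nat_lit 6) (nat_lit 4) (nat_lit 7) (nat_lit 5) (nat_lit 7) (nat_lit 4) (nat_lit 388) (nat_lit 344) (nat_lit 288))) (XT.nd (nat_lit 78) (nat_lit 152) (nat_lit 0) (XT.lf (nat_lit 0) (nat_lit 584282348631) (nat_lit 76) (nat_lit 16554514533) (nat_lit 76) (nat_lit 1586287755) (nat_lit 6) (nat_lit 4) (nat_lit 7) (nat_lit 5) (nat_lit 7) (nat_lit 4) (nat_lit 389) (nat_lit 344) (nat_lit 287)) (XT.nd (nat_lit 78) (nat_lit 0) (nat_lit 0) (XT.lf (nat_lit 0) (nat_lit 89498856713) (nat_lit 152) (nat_lit 520186590678) (nat_lit 0) (nat_lit 75638760118) (nat_lit 4) (nat_lit 5) (nat_lit 6) (nat_lit 4) (nat_lit 4) (nat_lit 4) (nat_lit 390) (nat_lit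 344) (nat_lit 286)) (XT.lf (nat_lit 0) (nat_lit 195147269184) (nat_lit 152) (nat_lit 404143676463) (nat_lit 0) (nat_lit 181286627062) (nat_lit 4) (nat_lit 5) (nat_lit 6) (nat_lit 4) (nat_lit 4) (nat_lit 4) (nat_lit 391) (nat_lit 344) (nat_lit 285)))))) (XT.nd (nat_lit 312) (nat_lit 0) (nat_lit 0) (XT.nd (nat_lit 156) (nat_lit 76) (nat_lit 0) (XT.nd (nat_lit 78) (nat_lit 0) (nat_lit 0) (XT.lf (nat_lit 0) (nat_lit 316636010209) (nat_lit 152) (nat_lit 270708593502) (nat_lit 0) (nat_lit 302774893717) (nat_lit 4) (nat_lit 5) (nat_lit 6) (nat_lit 4) (nat_lit 4) (nat_lit 4) (nat_lit 392) (nat_lit 344) (nat_lit 284)) (XT.lf (nat_lit 0) (nat_lit 456342033418) (nat_lit 152) (nat_lit 117270655389) (nat_lit 0) (nat_lit 442480504429) (nat_lit 4) (nat_lit 5) (nat_lit 6) (nat_lit 4) (nat_lit 4) (nat_lit 4) (nat_lit 393) (nat_lit 344) (nat_lit 283))) (XT.nd (nat_lit 78) (nat_lit 0) (nat_lit 0) (XT.lf (nat_lit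 0) (nat_lit 62288086862) (nat_lit 76) (nat_lit 556208660650) (nat_lit 76) (nat_lit 542346772969) (nat_lit 3) (nat_lit 4) (nat_lit 4) (nat_lit 5) (nat_lit 4) (nat_lit 4) (nat_lit 394) (nat_lit 344) (nat_lit 282)) (XT.lf (nat_lit 0) (nat_lit 275872319359) (nat_lit 76) (nat_lit 532511762038) (nat_lit 76) (nat_lit 518649562450) (nat_lit 3) (nat_lit 4) (nat_lit 4) (nat_lit 5) (nat_lit 4) (nat_lit 4) (nat_lit 395) (nat_lit 344) (nat_lit 281)))) (XT.nd (nat_lit 156) (nat_lit 0) (nat_lit 0) (XT.nd (nat_lit 78) (nat_lit 0) (nat_lit 0) (XT.lf (nat_lit 0) (nat_lit 521485599148) (nat_lit 76) (nat_lit 505264745539) (nat_lit 76) (nat_lit 491402274727) (nat_lit 3) (nat_lit 4) (nat_lit 4) (nat_lit 5) (nat_lit 4) (nat_lit 4) (nat_lit 396) (nat_lit 344) (nat_lit 280)) (XT.lf (nat_lit 0) (nat_lit 803933403443) (nat_lit 76) (nat_lit 473934517351) (nat_lit 76) (nat_lit 460071810693) (nat_lit 3) (nat_lit 4) (nat_lit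 4) (nat_lit 5) (nat_lit 4) (nat_lit 4) (nat_lit 397) (nat_lit 344) (nat_lit 279))) (XT.nd (nat_lit 78) (nat_lit 0) (nat_lit 0) (XT.lf (nat_lit 0) (nat_lit 1128741884937) (nat_lit 76) (nat_lit 437908094749) (nat_lit 76) (nat_lit 424045183008) (nat_lit 3) (nat_lit 4) (nat_lit 4) (nat_lit 5) (nat_lit 4) (nat_lit 4) (nat_lit 398) (nat_lit 344) (nat_lit 278)) (XT.nd (nat_lit 78) (nat_lit 0) (nat_lit 0) (XT.lf (nat_lit 0) (nat_lit 1502265992181) (nat_lit 76) (nat_lit 396480612943) (nat_lit 76) (nat_lit 382617522868) (nat_lit 3) (nat_lit 4) (nat_lit 4) (nat_lit 5) (nat_lit 4) (nat_lit 4) (nat_lit 399) (nat_lit 344) (nat_lit 277)) (XT.lf (nat_lit 0) (nat_lit 1931813805533) (nat_lit 76) (nat_lit 348841534246) (nat_lit 76) (nat_lit 334978289098) (nat_lit 3) (nat_lit 4) (nat_lit 4) (nat_lit 5) (nat_lit 4) (nat_lit 4) (nat_lit 400) (nat_lit 344) (nat_lit 276))))))))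
noncomputable def xc56 : XT := (XT.nd (nat_lit 1326) (nat_lit 0) (nat_lit 0) (XT.nd (nat_lit 624) (nat_lit 0) (nat_lit 0) (XT.nd (nat_lit 312) (nat_lit 152) (nat_lit 0) (XT.nd (nat_lit 156) (nat_lit 0) (nat_lit 0) (XT.nd (nat_lit 78) (nat_lit 0) (nat_lit 0) (XT.lf (nat_lit 0) (nat_lit 2425789521342) (nat_lit 76) (nat_lit 294058789727) (nat_lit 76) (nat_lit 280195409733) (nat_lit 3) (nat_lit 4) (nat_lit 4) (nat_lit 5) (nat_lit 4) (nat_lit 4) (nat_lit 401) (nat_lit 344) (nat_lit 275)) (XT.lf (nat_lit 0) (nat_lit 2993857881875) (nat_lit 76) (nat_lit 231060543079) (nat_lit 76) (nat_lit 217197045828) (nat_lit 3) (nat_lit 4) (nat_lit 4) (nat_lit 5) (nat_lit 4) (nat_lit 4) (nat_lit 402) (nat_lit 344) (nat_lit 274))) (XT.nd (nat_lit 78) (nat_lit 0) (nat_lit 0) (XT.lf (nat_lit 0) (nat_lit 3647133268097) (nat_lit 76) (nat_lit 158614219912) (nat_lit 76) (nat_lit 144750620698) (nat_lit 3) (nat_lit 4)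 (nat_lit 4) (nat_lit 5) (nat_lit 4) (nat_lit 4) (nat_lit 403) (nat_lit 344) (nat_lit 273)) (XT.lf (nat_lit 0) (nat_lit 4398397154956) (nat_lit 76) (nat_lit 75302392163) (nat_lit 76) (nat_lit 61438704286) (nat_lit 3) (nat_lit 4) (nat_lit 4) (nat_lit 5) (nat_lit 4) (nat_lit 4) (nat_lit 404) (nat_lit 344) (nat_lit 272)))) (XT.nd (nat_lit 156) (nat_lit 0) (nat_lit 0) (XT.nd (nat_lit 78) (nat_lit 0) (nat_lit 0) (XT.lf (nat_lit 0) (nat_lit 34567891493) (nat_lit 152) (nat_lit 5150955946533) (nat_lit 0) (nat_lit 21731072071) (nat_lit 1) (nat_lit 5) (nat_lit 3) (nat_lit 4) (nat_lit 1) (nat_lit 4) (nat_lit 405) (nat_lit 344) (nat_lit 271)) (XT.lf (nat_lit 0) (nat_lit 147607062955) (nat_lit 152) (nat_lit 5697182602894) (nat_lit 0) (nat_lit 134770181457) (nat_lit 1) (nat_lit 5) (nat_lit 3) (nat_lit 4) (nat_lit 1) (nat_lit 4) (nat_lit 406) (nat_lit 344) (nat_lit 270))) (XT.nd (nat_lit 78) (nat_lit 0)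 (nat_lit 0) (XT.lf (nat_lit 0) (nat_lit 277601117744) (nat_lit 152) (nat_lit 6325345304484) (nat_lit 0) (nat_lit 264764182267) (nat_lit 1) (nat_lit 5) (nat_lit 3) (nat_lit 4) (nat_lit 1) (nat_lit 4) (nat_lit 407) (nat_lit 344) (nat_lit 269)) (XT.lf (nat_lit 0) (nat_lit 427093417802) (nat_lit 152) (nat_lit 7047734191117) (nat_lit 0) (nat_lit 414256435386) (nat_lit 1) (nat_lit 5) (nat_lit 3) (nat_lit 4) (nat_lit 1) (nat_lit 4) (nat_lit 408) (nat_lit 344) (nat_lit 268))))) (XT.nd (nat_lit 312) (nat_lit 0) (nat_lit 0) (XT.nd (nat_lit 156) (nat_lit 0) (nat_lit 0) (XT.nd (nat_lit 78) (nat_lit 0) (nat_lit 0) (XT.lf (nat_lit 0) (nat_lit 599008812478) (nat_lit 152) (nat_lit 7878482958400) (nat_lit 0) (nat_lit 586171789246) (nat_lit 1) (nat_lit 5) (nat_lit 3) (nat_lit 4) (nat_lit 1) (nat_lit 4) (nat_lit 409) (nat_lit 344) (nat_lit 267)) (XT.lf (nat_lit 0) (nat_lit 796710863841) (nat_lit 152) (nat_lit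 8833845386565) (nat_lit 0) (nat_lit 783873805117) (nat_lit 1) (nat_lit 5) (nat_lit 3) (nat_lit 4) (nat_lit 1) (nat_lit 4) (nat_lit 410) (nat_lit 344) (nat_lit 266))) (XT.nd (nat_lit 78) (nat_lit 0) (nat_lit 0) (XT.lf (nat_lit 0) (nat_lit 1024067655506) (nat_lit 152) (nat_lit 9932513349204) (nat_lit 0) (nat_lit 1011230565919) (nat_lit 1) (nat_lit 5) (nat_lit 3) (nat_lit 4) (nat_lit 1) (nat_lit 4) (nat_lit 411) (nat_lit 344) (nat_lit 265)) (XT.lf (nat_lit 0) (nat_lit 1285527472526) (nat_lit 152) (nat_lit 11195982523848) (nat_lit 0) (nat_lit 1272690356102) (nat_lit 1) (nat_lit 5) (nat_lit 3) (nat_lit 4) (nat_lit 1) (nat_lit 4) (nat_lit 412) (nat_lit 344) (nat_lit 264)))) (XT.nd (nat_lit 156) (nat_lit 0) (nat_lit 0) (XT.nd (nat_lit 78) (nat_lit 0) (nat_lit 0) (XT.lf (nat_lit 0) (nat_lit 1586205833061) (nat_lit 152) (nat_lit 12648972959566) (nat_lit 0) (nat_lit 1573368693301) (nat_lit 1) (nat_lit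 5) (nat_lit 3) (nat_lit 4) (nat_lit 1) (nat_lit 4) (nat_lit 413) (nat_lit 344) (nat_lit 263)) (XT.lf (nat_lit 0) (nat_lit 1931985574600) (nat_lit 152) (nat_lit 14319912730100) (nat_lit 0) (nat_lit 1919148414547) (nat_lit 1) (nat_lit 5) (nat_lit 3) (nat_lit 4) (nat_lit 1) (nat_lit 4) (nat_lit 414) (nat_lit 344) (nat_lit 262))) (XT.nd (nat_lit 78) (nat_lit 0) (nat_lit 0) (XT.lf (nat_lit 0) (nat_lit 2329631952955) (nat_lit 152) (nat_lit 16241494135308) (nat_lit 0) (nat_lit 2316794775255) (nat_lit 1) (nat_lit 5) (nat_lit 3) (nat_lit 4) (nat_lit 1) (nat_lit 4) (nat_lit 415) (nat_lit 344) (nat_lit 261)) (XT.nd (nat_lit 78) (nat_lit 0) (nat_lit 0) (XT.lf (nat_lit 0) (nat_lit 2786925005963) (nat_lit 152) (nat_lit 18451313333119) (nat_lit 0) (nat_lit 2774087812919) (nat_lit 1) (nat_lit 5) (nat_lit 3) (nat_lit 4) (nat_lit 1) (nat_lit 4) (nat_lit 416) (nat_lit 344) (nat_lit 260)) (XT.lf (nat_lit 0)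 (nat_lit 3312811771618) (nat_lit 152) (nat_lit 20992605916534) (nat_lit 0) (nat_lit 3299974565232) (nat_lit 1) (nat_lit 5) (nat_lit 3) (nat_lit 4) (nat_lit 1) (nat_lit 4) (nat_lit 417) (nat_lit 344) (nat_lit 259))))))) (XT.nd (nat_lit 47970) (nat_lit 0) (nat_lit 3116) (XT.nd (nat_lit 47658) (nat_lit 0) (nat_lit 4864) (XT.nd (nat_lit 47502) (nat_lit 0) (nat_lit 5928) (XT.nd (nat_lit 47424) (nat_lit 0) (nat_lit 6384) (XT.lf (nat_lit 0) (nat_lit 3917581338814) (nat_lit 152) (nat_lit 23915092827401) (nat_lit 0) (nat_lit 3904744120825) (nat_lit 1) (nat_lit 5) (nat_lit 3) (nat_lit 4) (nat_lit 1) (nat_lit 4) (nat_lit 418) (nat_lit 344) (nat_lit 258)) (XT.lf (nat_lit 0) (nat_lit 2122710187) (nat_lit 0) (nat_lit 2122710187) (nat_lit 380) (nat_lit 164699063) (nat_lit 85) (nat_lit 5) (nat_lit 85) (nat_lit 3) (nat_lit 90) (nat_lit 3) (nat_lit 345) (nat_lit 345) (nat_lit 330))) (XT.nd (nat_lit 78) (nat_lit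 0) (nat_lit 0) (XT.lf (nat_lit 0) (nat_lit 1472259216) (nat_lit 456) (nat_lit 5638808966) (nat_lit 532) (nat_lit 2226010065) (nat_lit 79) (nat_lit 5) (nat_lit 85) (nat_lit 5) (nat_lit 86) (nat_lit 5) (nat_lit 346) (nat_lit 345) (nat_lit 329)) (XT.lf (nat_lit 76) (nat_lit 3413806016) (nat_lit 0) (nat_lit 150795001) (nat_lit 532) (nat_lit 6363081782) (nat_lit 80) (nat_lit 5) (nat_lit 79) (nat_lit 5) (nat_lit 86) (nat_lit 5) (nat_lit 347) (nat_lit 345) (nat_lit 328)))) (XT.nd (nat_lit 156) (nat_lit 760) (nat_lit 0) (XT.nd (nat_lit 78) (nat_lit 380) (nat_lit 0) (XT.lf (nat_lit 76) (nat_lit 3344086354) (nat_lit 0) (nat_lit 2804068967) (nat_lit 532) (nat_lit 4444637234) (nat_lit 81) (nat_lit 5) (nat_lit 80) (nat_lit 5) (nat_lit 87) (nat_lit 5) (nat_lit 348) (nat_lit 345) (nat_lit 327)) (XT.lf (nat_lit 0) (nat_lit 3563790374) (nat_lit 456) (nat_lit 5743590499) (nat_lit 532) (nat_lit 2035326782)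 (nat_lit 75) (nat_lit 5) (nat_lit 81) (nat_lit 5) (nat_lit 82) (nat_lit 5) (nat_lit 349) (nat_lit 345) (nat_lit 326))) (XT.nd (nat_lit 78) (nat_lit 228) (nat_lit 0) (XT.lf (nat_lit 0) (nat_lit 961742630) (nat_lit 532) (nat_lit 8110055994) (nat_lit 76) (nat_lit 3110917004) (nat_lit 68) (nat_lit 5) (nat_lit 75) (nat_lit 5) (nat_lit 69) (nat_lit 5) (nat_lit 350) (nat_lit 345) (nat_lit 325)) (XT.lf (nat_lit 0) (nat_lit 4619138804) (nat_lit 304) (nat_lit 8256516754) (nat_lit 76) (nat_lit 242400519) (nat_lit 65) (nat_lit 5) (nat_lit 69) (nat_lit 5) (nat_lit 66) (nat_lit 5) (nat_lit 351) (nat_lit 345) (nat_lit 324))))) (XT.nd (nat_lit 312) (nat_lit 912) (nat_lit 0) (XT.nd (nat_lit 156) (nat_lit 456) (nat_lit 0) (XT.nd (nat_lit 78) (nat_lit 152) (nat_lit 0) (XT.lf (nat_lit 0) (nat_lit 5942240731) (nat_lit 228) (nat_lit 3352071903) (nat_lit 304) (nat_lit 4861906251) (nat_lit 62) (nat_lit 5) (nat_lit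 65) (nat_lit 5) (nat_lit 66) (nat_lit 5) (nat_lit 352) (nat_lit 345) (nat_lit 323)) (XT.lf (nat_lit 0) (nat_lit 7434661060) (nat_lit 152) (nat_lit 7694271800) (nat_lit 228) (nat_lit 184567238) (nat_lit 60) (nat_lit 5) (nat_lit 62) (nat_lit 5) (nat_lit 63) (nat_lit 5) (nat_lit 353) (nat_lit 345) (nat_lit 322))) (XT.nd (nat_lit 78) (nat_lit 152) (nat_lit 0) (XT.lf (nat_lit 0) (nat_lit 5456145729) (nat_lit 304) (nat_lit 7328790433) (nat_lit 76) (nat_lit 3807752348) (nat_lit 56) (nat_lit 5) (nat_lit 60) (nat_lit 5) (nat_lit 57) (nat_lit 5) (nat_lit 354) (nat_lit 345) (nat_lit 321)) (XT.lf (nat_lit 0) (nat_lit 11592461965) (nat_lit 152) (nat_lit 941784113) (nat_lit 228) (nat_lit 5480982213) (nat_lit 54) (nat_lit 5) (nat_lit 56) (nat_lit 5) (nat_lit 57) (nat_lit 5) (nat_lit 355) (nat_lit 345) (nat_lit 320)))) (XT.nd (nat_lit 156) (nat_lit 532) (nat_lit 0) (XT.nd (nat_lit 78) (nat_lit 152) (nat_lit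 0) (XT.lf (nat_lit 0) (nat_lit 1747965026) (nat_lit 228) (nat_lit 5229692999) (nat_lit 76) (nat_lit 12609451939) (nat_lit 51) (nat_lit 5) (nat_lit 54) (nat_lit 5) (nat_lit 52) (nat_lit 5) (nat_lit 356) (nat_lit 345) (nat_lit 319)) (XT.lf (nat_lit 0) (nat_lit 10468119765) (nat_lit 228) (nat_lit 3706048472) (nat_lit 76) (nat_lit 7150727880) (nat_lit 49) (nat_lit 5) (nat_lit 52) (nat_lit 5) (nat_lit 50) (nat_lit 5) (nat_lit 357) (nat_lit 345) (nat_lit 318))) (XT.nd (nat_lit 78) (nat_lit 380) (nat_lit 0) (XT.lf (nat_lit 0) (nat_lit 21278429888) (nat_lit 228) (nat_lit 1635868177) (nat_lit 76) (nat_lit 346501845) (nat_lit 47) (nat_lit 5) (nat_lit 50) (nat_lit 5) (nat_lit 48) (nat_lit 4) (nat_lit 358) (nat_lit 345) (nat_lit 317)) (XT.nd (nat_lit 78) (nat_lit 76) (nat_lit 0) (XT.lf (nat_lit 0) (nat_lit 682986903) (nat_lit 152) (nat_lit 8218967673) (nat_lit 228) (nat_lit 16482120392) (nat_lit 43)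 (nat_lit 5) (nat_lit 45) (nat_lit 5) (nat_lit 46) (nat_lit 5) (nat_lit 359) (nat_lit 345) (nat_lit 316)) (XT.lf (nat_lit 0) (nat_lit 3703200634) (nat_lit 76) (nat_lit 18609191377) (nat_lit 152) (nat_lit 5428476865) (nat_lit 42) (nat_lit 5) (nat_lit 43) (nat_lit 5) (nat_lit 44) (nat_lit 4) (nat_lit 360) (nat_lit 345) (nat_lit 315))))))))
noncomputable def xc57 : XT := (XT.nd (nat_lit 1326) (nat_lit 836) (nat_lit 0) (XT.nd (nat_lit 624) (nat_lit 988) (nat_lit 0) (XT.nd (nat_lit 312) (nat_lit 456) (nat_lit 0) (XT.nd (nat_lit 156) (nat_lit 304) (nat_lit 0) (XT.nd (nat_lit 78) (nat_lit 76) (nat_lit 0) (XT.lf (nat_lit 0) (nat_lit 7272483197) (nat_lit 152) (nat_lit 705657487) (nat_lit 228) (nat_lit 22374298645) (nat_lit 39) (nat_lit 5) (nat_lit 41) (nat_lit 5) (nat_lit 42) (nat_lit 5) (nat_lit 361) (nat_lit 345) (nat_lit 314)) (XT.lf (nat_lit 0) (nat_lit 11216506586) (nat_lit 76) (nat_lit 13258253508)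 (nat_lit 152) (nat_lit 8757680401) (nat_lit 38) (nat_lit 5) (nat_lit 39) (nat_lit 5) (nat_lit 40) (nat_lit 4) (nat_lit 362) (nat_lit 345) (nat_lit 313))) (XT.nd (nat_lit 78) (nat_lit 76) (nat_lit 0) (XT.lf (nat_lit 0) (nat_lit 7784594709) (nat_lit 228) (nat_lit 20614339422) (nat_lit 76) (nat_lit 8033965218) (nat_lit 35) (nat_lit 5) (nat_lit 38) (nat_lit 5) (nat_lit 36) (nat_lit 4) (nat_lit 363) (nat_lit 345) (nat_lit 312)) (XT.lf (nat_lit 0) (nat_lit 20900536366) (nat_lit 76) (nat_lit 6866283603) (nat_lit 152) (nat_lit 12210243344) (nat_lit 34) (nat_lit 5) (nat_lit 35) (nat_lit 5) (nat_lit 36) (nat_lit 4) (nat_lit 364) (nat_lit 345) (nat_lit 311)))) (XT.nd (nat_lit 156) (nat_lit 228) (nat_lit 0) (XT.nd (nat_lit 78) (nat_lit 76) (nat_lit 0) (XT.lf (nat_lit 0) (nat_lit 8028382389) (nat_lit 152) (nat_lit 17464224936) (nat_lit 76) (nat_lit 18413796390) (nat_lit 32) (nat_lit 5) (nat_lit 34) (nat_lit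 5) (nat_lit 33) (nat_lit 4) (nat_lit 365) (nat_lit 345) (nat_lit 310)) (XT.lf (nat_lit 0) (nat_lit 32097733991) (nat_lit 152) (nat_lit 15746741445) (nat_lit 0) (nat_lit 433869510) (nat_lit 31) (nat_lit 5) (nat_lit 33) (nat_lit 4) (nat_lit 31) (nat_lit 4) (nat_lit 366) (nat_lit 345) (nat_lit 309))) (XT.nd (nat_lit 78) (nat_lit 76) (nat_lit 0) (XT.lf (nat_lit 0) (nat_lit 8313839696) (nat_lit 152) (nat_lit 14398222302) (nat_lit 76) (nat_lit 30408275888) (nat_lit 29) (nat_lit 5) (nat_lit 31) (nat_lit 5) (nat_lit 30) (nat_lit 4) (nat_lit 367) (nat_lit 345) (nat_lit 308)) (XT.lf (nat_lit 0) (nat_lit 37264577451) (nat_lit 152) (nat_lit 13352022973) (nat_lit 0) (nat_lit 7899195331) (nat_lit 28) (nat_lit 5) (nat_lit 30) (nat_lit 4) (nat_lit 28) (nat_lit 4) (nat_lit 368) (nat_lit 345) (nat_lit 307))))) (XT.nd (nat_lit 312) (nat_lit 532) (nat_lit 0) (XT.nd (nat_lit 156) (nat_lit 228) (nat_lit 0) (XT.nd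 (nat_lit 78) (nat_lit 76) (nat_lit 0) (XT.lf (nat_lit 0) (nat_lit 7860193242) (nat_lit 152) (nat_lit 13035184859) (nat_lit 76) (nat_lit 43628778051) (nat_lit 26) (nat_lit 5) (nat_lit 28) (nat_lit 5) (nat_lit 27) (nat_lit 4) (nat_lit 369) (nat_lit 345) (nat_lit 306)) (XT.lf (nat_lit 0) (nat_lit 42239055707) (nat_lit 152) (nat_lit 13961846572) (nat_lit 0) (nat_lit 15015988469) (nat_lit 25) (nat_lit 5) (nat_lit 27) (nat_lit 4) (nat_lit 25) (nat_lit 4) (nat_lit 370) (nat_lit 345) (nat_lit 305))) (XT.nd (nat_lit 78) (nat_lit 76) (nat_lit 0) (XT.lf (nat_lit 0) (nat_lit 5210716078) (nat_lit 152) (nat_lit 16398083600) (nat_lit 76) (nat_lit 57099822124) (nat_lit 23) (nat_lit 5) (nat_lit 25) (nat_lit 5) (nat_lit 24) (nat_lit 4) (nat_lit 371) (nat_lit 345) (nat_lit 304)) (XT.lf (nat_lit 0) (nat_lit 45336511044) (nat_lit 152) (nat_lit 21618473767) (nat_lit 0) (nat_lit 20106933903) (nat_lit 22) (nat_lit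 5) (nat_lit 24) (nat_lit 4) (nat_lit 22) (nat_lit 4) (nat_lit 372) (nat_lit 345) (nat_lit 303)))) (XT.nd (nat_lit 156) (nat_lit 304) (nat_lit 0) (XT.nd (nat_lit 78) (nat_lit 152) (nat_lit 0) (XT.lf (nat_lit 0) (nat_lit 66575134017) (nat_lit 76) (nat_lit 27559833593) (nat_lit 76) (nat_lit 2320940618) (nat_lit 21) (nat_lit 4) (nat_lit 22) (nat_lit 5) (nat_lit 22) (nat_lit 4) (nat_lit 373) (nat_lit 345) (nat_lit 302)) (XT.lf (nat_lit 0) (nat_lit 43510153934) (nat_lit 152) (nat_lit 43319478474) (nat_lit 0) (nat_lit 20133307915) (nat_lit 19) (nat_lit 5) (nat_lit 21) (nat_lit 4) (nat_lit 19) (nat_lit 4) (nat_lit 374) (nat_lit 345) (nat_lit 301))) (XT.nd (nat_lit 78) (nat_lit 228) (nat_lit 0) (XT.lf (nat_lit 0) (nat_lit 55916147081) (nat_lit 76) (nat_lit 43135295182) (nat_lit 76) (nat_lit 19751926839) (nat_lit 18) (nat_lit 4) (nat_lit 19) (nat_lit 5) (nat_lit 19) (nat_lit 4) (nat_lit 375) (nat_lit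 345) (nat_lit 300)) (XT.nd (nat_lit 78) (nat_lit 76) (nat_lit 0) (XT.lf (nat_lit 0) (nat_lit 31492934462) (nat_lit 152) (nat_lit 90830637913) (nat_lit 0) (nat_lit 9836416009) (nat_lit 16) (nat_lit 5) (nat_lit 18) (nat_lit 4) (nat_lit 16) (nat_lit 4) (nat_lit 376) (nat_lit 345) (nat_lit 299)) (XT.lf (nat_lit 0) (nat_lit 16602446557) (nat_lit 76) (nat_lit 76129759717) (nat_lit 76) (nat_lit 54468674769) (nat_lit 15) (nat_lit 4) (nat_lit 16) (nat_lit 5) (nat_lit 16) (nat_lit 4) (nat_lit 377) (nat_lit 345) (nat_lit 298))))))) (XT.nd (nat_lit 624) (nat_lit 228) (nat_lit 0) (XT.nd (nat_lit 312) (nat_lit 304) (nat_lit 0) (XT.nd (nat_lit 156) (nat_lit 152) (nat_lit 0) (XT.nd (nat_lit 78) (nat_lit 76) (nat_lit 0) (XT.lf (nat_lit 0) (nat_lit 1414515845) (nat_lit 152) (nat_lit 18722862853) (nat_lit 76) (nat_lit 144148069042) (nat_lit 14) (nat_lit 5) (nat_lit 16) (nat_lit 5) (nat_lit 15) (nat_lit 4) (nat_lit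 378) (nat_lit 345) (nat_lit 297)) (XT.lf (nat_lit 0) (nat_lit 66442923565) (nat_lit 152) (nat_lit 70678073816) (nat_lit 0) (nat_lit 46379489548) (nat_lit 13) (nat_lit 5) (nat_lit 15) (nat_lit 4) (nat_lit 13) (nat_lit 4) (nat_lit 379) (nat_lit 345) (nat_lit 296))) (XT.nd (nat_lit 78) (nat_lit 76) (nat_lit 0) (XT.lf (nat_lit 0) (nat_lit 62176640003) (nat_lit 76) (nat_lit 81640034986) (nat_lit 76) (nat_lit 61573820837) (nat_lit 12) (nat_lit 4) (nat_lit 13) (nat_lit 5) (nat_lit 13) (nat_lit 4) (nat_lit 380) (nat_lit 345) (nat_lit 295)) (XT.lf (nat_lit 0) (nat_lit 4212762855) (nat_lit 152) (nat_lit 11306084918) (nat_lit 76) (nat_lit 214873506724) (nat_lit 11) (nat_lit 5) (nat_lit 13) (nat_lit 5) (nat_lit 12) (nat_lit 4) (nat_lit 381) (nat_lit 345) (nat_lit 294)))) (XT.nd (nat_lit 156) (nat_lit 152) (nat_lit 0) (XT.nd (nat_lit 78) (nat_lit 76) (nat_lit 0) (XT.lf (nat_lit 0) (nat_lit 81409091367)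 (nat_lit 152) (nat_lit 114367367581) (nat_lit 0) (nat_lit 62825078555) (nat_lit 10) (nat_lit 5) (nat_lit 12) (nat_lit 4) (nat_lit 10) (nat_lit 4) (nat_lit 382) (nat_lit 345) (nat_lit 293)) (XT.lf (nat_lit 0) (nat_lit 34005683943) (nat_lit 76) (nat_lit 137748295427) (nat_lit 76) (nat_lit 119162590038) (nat_lit 9) (nat_lit 4) (nat_lit 10) (nat_lit 5) (nat_lit 10) (nat_lit 4) (nat_lit 383) (nat_lit 345) (nat_lit 292))) (XT.nd (nat_lit 78) (nat_lit 152) (nat_lit 0) (XT.lf (nat_lit 0) (nat_lit 211531127759) (nat_lit 76) (nat_lit 67434838264) (nat_lit 76) (nat_lit 48847661069) (nat_lit 9) (nat_lit 4) (nat_lit 10) (nat_lit 5) (nat_lit 10) (nat_lit 4) (nat_lit 384) (nat_lit 345) (nat_lit 291)) (XT.lf (nat_lit 0) (nat_lit 31902387623) (nat_lit 152) (nat_lit 323471256623) (nat_lit 0) (nat_lit 14690853340) (nat_lit 7) (nat_lit 5) (nat_lit 9) (nat_lit 4) (nat_lit 7) (nat_lit 4) (nat_lit 385) (nat_lit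 345) (nat_lit 290))))) (XT.nd (nat_lit 312) (nat_lit 152) (nat_lit 0) (XT.nd (nat_lit 156) (nat_lit 76) (nat_lit 0) (XT.nd (nat_lit 78) (nat_lit 0) (nat_lit 0) (XT.lf (nat_lit 0) (nat_lit 127281328355) (nat_lit 152) (nat_lit 180768708306) (nat_lit 0) (nat_lit 110068763611) (nat_lit 7) (nat_lit 5) (nat_lit 9) (nat_lit 4) (nat_lit 7) (nat_lit 4) (nat_lit 386) (nat_lit 345) (nat_lit 289)) (XT.lf (nat_lit 0) (nat_lit 236956694534) (nat_lit 152) (nat_lit 16682153480) (nat_lit 0) (nat_lit 219743233739) (nat_lit 7) (nat_lit 5) (nat_lit 9) (nat_lit 4) (nat_lit 7) (nat_lit 4) (nat_lit 387) (nat_lit 345) (nat_lit 288))) (XT.nd (nat_lit 78) (nat_lit 0) (nat_lit 0) (XT.lf (nat_lit 0) (nat_lit 181055948812) (nat_lit 76) (nat_lit 186372759656) (nat_lit 76) (nat_lit 169158519685) (nat_lit 6) (nat_lit 4) (nat_lit 7) (nat_lit 5) (nat_lit 7) (nat_lit 4) (nat_lit 388) (nat_lit 345) (nat_lit 287)) (XT.lf (nat_lit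 0) (nat_lit 409447972731) (nat_lit 76) (nat_lit 108500949779) (nat_lit 76) (nat_lit 91286032264) (nat_lit 6) (nat_lit 4) (nat_lit 7) (nat_lit 5) (nat_lit 7) (nat_lit 4) (nat_lit 389) (nat_lit 345) (nat_lit 286)))) (XT.nd (nat_lit 156) (nat_lit 0) (nat_lit 0) (XT.nd (nat_lit 78) (nat_lit 152) (nat_lit 0) (XT.lf (nat_lit 0) (nat_lit 672084005238) (nat_lit 76) (nat_lit 18955959136) (nat_lit 76) (nat_lit 1740452453) (nat_lit 6) (nat_lit 4) (nat_lit 7) (nat_lit 5) (nat_lit 7) (nat_lit 4) (nat_lit 390) (nat_lit 345) (nat_lit 285)) (XT.lf (nat_lit 0) (nat_lit 102998339294) (nat_lit 152) (nat_lit 598060945260) (nat_lit 0) (nat_lit 87057580957) (nat_lit 4) (nat_lit 5) (nat_lit 6) (nat_lit 4) (nat_lit 4) (nat_lit 4) (nat_lit 391) (nat_lit 345) (nat_lit 284))) (XT.nd (nat_lit 78) (nat_lit 0) (nat_lit 0) (XT.lf (nat_lit 0) (nat_lit 224484276148) (nat_lit 152) (nat_lit 464631633133) (nat_lit 0) (nat_lit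 208543105314) (nat_lit 4) (nat_lit 5) (nat_lit 6) (nat_lit 4) (nat_lit 4) (nat_lit 4) (nat_lit 392) (nat_lit 345) (nat_lit 283)) (XT.nd (nat_lit 78) (nat_lit 0) (nat_lit 0) (XT.lf (nat_lit 0) (nat_lit 364187860946) (nat_lit 152) (nat_lit 311198713136) (nat_lit 0) (nat_lit 348246331420) (nat_lit 4) (nat_lit 5) (nat_lit 6) (nat_lit 4) (nat_lit 4) (nat_lit 4) (nat_lit 393) (nat_lit 345) (nat_lit 282)) (XT.lf (nat_lit 0) (nat_lit 524842424697) (nat_lit 152) (nat_lit 134760236836) (nat_lit 0) (nat_lit 508900583264) (nat_lit 4) (nat_lit 5) (nat_lit 6) (nat_lit 4) (nat_lit 4) (nat_lit 4) (nat_lit 394) (nat_lit 345) (nat_lit 281))))))))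
noncomputable def xc58 : XT := (XT.nd (nat_lit 1326) (nat_lit 0) (nat_lit 0) (XT.nd (nat_lit 624) (nat_lit 152) (nat_lit 0) (XT.nd (nat_lit 312) (nat_lit 0) (nat_lit 0) (XT.nd (nat_lit 156) (nat_lit 0) (nat_lit 0) (XT.nd (nat_lit 78) (nat_lit 0) (nat_lit 0) (XT.lf (nat_lit 0) (nat_lit 71723766179) (nat_lit 76) (nat_lit 639592400986) (nat_lit 76) (nat_lit 623650288330) (nat_lit 3) (nat_lit 4) (nat_lit 4) (nat_lit 5) (nat_lit 4) (nat_lit 4) (nat_lit 395) (nat_lit 345) (nat_lit 280)) (XT.lf (nat_lit 0) (nat_lit 317333572730) (nat_lit 76) (nat_lit 612347170899) (nat_lit 76) (nat_lit 596404822397) (nat_lit 3) (nat_lit 4) (nat_lit 4) (nat_lit 5) (nat_lit 4) (nat_lit 4) (nat_lit 396) (nat_lit 345) (nat_lit 279))) (XT.nd (nat_lit 78) (nat_lit 0) (nat_lit 0) (XT.lf (nat_lit 0) (nat_lit 599778356818) (nat_lit 76) (nat_lit 581018496113) (nat_lit 76) (nat_lit 565075942527) (nat_lit 3) (nat_lit 4) (nat_lit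 4) (nat_lit 5) (nat_lit 4) (nat_lit 4) (nat_lit 397) (nat_lit 345) (nat_lit 278)) (XT.lf (nat_lit 0) (nat_lit 924584212045) (nat_lit 76) (nat_lit 544993424296) (nat_lit 76) (nat_lit 529050692376) (nat_lit 3) (nat_lit 4) (nat_lit 4) (nat_lit 5) (nat_lit 4) (nat_lit 4) (nat_lit 398) (nat_lit 345) (nat_lit 277)))) (XT.nd (nat_lit 156) (nat_lit 0) (nat_lit 0) (XT.nd (nat_lit 78) (nat_lit 0) (nat_lit 0) (XT.lf (nat_lit 0) (nat_lit 1298106035578) (nat_lit 76) (nat_lit 503567117085) (nat_lit 76) (nat_lit 487624230093) (nat_lit 3) (nat_lit 4) (nat_lit 4) (nat_lit 5) (nat_lit 4) (nat_lit 4) (nat_lit 399) (nat_lit 345) (nat_lit 276)) (XT.lf (nat_lit 0) (nat_lit 1727651863095) (nat_lit 76) (nat_lit 455929059775) (nat_lit 76) (nat_lit 439986037937) (nat_lit 3) (nat_lit 4) (nat_lit 4) (nat_lit 5) (nat_lit 4) (nat_lit 4) (nat_lit 400) (nat_lit 345) (nat_lit 275))) (XT.nd (nat_lit 78) (nat_lit 0) (nat_lit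 0) (XT.lf (nat_lit 0) (nat_lit 2221625852091) (nat_lit 76) (nat_lit 401147203418) (nat_lit 76) (nat_lit 385204064322) (nat_lit 3) (nat_lit 4) (nat_lit 4) (nat_lit 5) (nat_lit 4) (nat_lit 4) (nat_lit 401) (nat_lit 345) (nat_lit 274)) (XT.lf (nat_lit 0) (nat_lit 2789692711046) (nat_lit 76) (nat_lit 338149729085) (nat_lit 76) (nat_lit 322206488027) (nat_lit 3) (nat_lit 4) (nat_lit 4) (nat_lit 5) (nat_lit 4) (nat_lit 4) (nat_lit 402) (nat_lit 345) (nat_lit 273))))) (XT.nd (nat_lit 312) (nat_lit 0) (nat_lit 0) (XT.nd (nat_lit 156) (nat_lit 152) (nat_lit 0) (XT.nd (nat_lit 78) (nat_lit 0) (nat_lit 0) (XT.lf (nat_lit 0) (nat_lit 3442966791549) (nat_lit 76) (nat_lit 265704077497) (nat_lit 76) (nat_lit 249760747775) (nat_lit 3) (nat_lit 4) (nat_lit 4) (nat_lit 5) (nat_lit 4) (nat_lit 4) (nat_lit 403) (nat_lit 345) (nat_lit 272)) (XT.lf (nat_lit 0) (nat_lit 4194229543001) (nat_lit 76) (nat_lit 182392833730)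 (nat_lit 76) (nat_lit 166449426910) (nat_lit 3) (nat_lit 4) (nat_lit 4) (nat_lit 5) (nat_lit 4) (nat_lit 4) (nat_lit 404) (nat_lit 345) (nat_lit 271))) (XT.nd (nat_lit 78) (nat_lit 152) (nat_lit 0) (XT.lf (nat_lit 0) (nat_lit 5058179584452) (nat_lit 76) (nat_lit 86585995189) (nat_lit 76) (nat_lit 70642521327) (nat_lit 3) (nat_lit 4) (nat_lit 4) (nat_lit 5) (nat_lit 4) (nat_lit 4) (nat_lit 405) (nat_lit 345) (nat_lit 270)) (XT.lf (nat_lit 0) (nat_lit 39763760738) (nat_lit 152) (nat_lit 5923577299981) (nat_lit 0) (nat_lit 25001230960) (nat_lit 1) (nat_lit 5) (nat_lit 3) (nat_lit 4) (nat_lit 1) (nat_lit 4) (nat_lit 406) (nat_lit 345) (nat_lit 269)))) (XT.nd (nat_lit 156) (nat_lit 0) (nat_lit 0) (XT.nd (nat_lit 78) (nat_lit 0) (nat_lit 0) (XT.lf (nat_lit 0) (nat_lit 169757414155) (nat_lit 152) (nat_lit 6551740829387) (nat_lit 0) (nat_lit 154994837439) (nat_lit 1) (nat_lit 5) (nat_lit 3) (nat_lit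 4) (nat_lit 1) (nat_lit 4) (nat_lit 407) (nat_lit 345) (nat_lit 268)) (XT.lf (nat_lit 0) (nat_lit 319249365194) (nat_lit 152) (nat_lit 7274130435860) (nat_lit 0) (nat_lit 304486747662) (nat_lit 1) (nat_lit 5) (nat_lit 3) (nat_lit 4) (nat_lit 1) (nat_lit 4) (nat_lit 408) (nat_lit 345) (nat_lit 267))) (XT.nd (nat_lit 78) (nat_lit 0) (nat_lit 0) (XT.lf (nat_lit 0) (nat_lit 491164456375) (nat_lit 152) (nat_lit 8104879829092) (nat_lit 0) (nat_lit 476401803351) (nat_lit 1) (nat_lit 5) (nat_lit 3) (nat_lit 4) (nat_lit 1) (nat_lit 4) (nat_lit 409) (nat_lit 345) (nat_lit 266)) (XT.nd (nat_lit 78) (nat_lit 0) (nat_lit 0) (XT.lf (nat_lit 0) (nat_lit 688866243831) (nat_lit 152) (nat_lit 9060242801559) (nat_lit 0) (nat_lit 674103559943) (nat_lit 1) (nat_lit 5) (nat_lit 3) (nat_lit 4) (nat_lit 1) (nat_lit 4) (nat_lit 410) (nat_lit 345) (nat_lit 265)) (XT.lf (nat_lit 0) (nat_lit 916222806010) (nat_lit 152)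 (nat_lit 10158911237504) (nat_lit 0) (nat_lit 901460095285) (nat_lit 1) (nat_lit 5) (nat_lit 3) (nat_lit 4) (nat_lit 1) (nat_lit 4) (nat_lit 411) (nat_lit 345) (nat_lit 264))))))) (XT.nd (nat_lit 48048) (nat_lit 0) (nat_lit 4180) (XT.nd (nat_lit 312) (nat_lit 0) (nat_lit 0) (XT.nd (nat_lit 156) (nat_lit 0) (nat_lit 0) (XT.nd (nat_lit 78) (nat_lit 0) (nat_lit 0) (XT.lf (nat_lit 0) (nat_lit 1177682423477) (nat_lit 152) (nat_lit 11422380823719) (nat_lit 0) (nat_lit 1162919689416) (nat_lit 1) (nat_lit 5) (nat_lit 3) (nat_lit 4) (nat_lit 1) (nat_lit 4) (nat_lit 412) (nat_lit 345) (nat_lit 263)) (XT.lf (nat_lit 0) (nat_lit 1478360610488) (nat_lit 152) (nat_lit 12875371617325) (nat_lit 0) (nat_lit 1463597856134) (nat_lit 1) (nat_lit 5) (nat_lit 3) (nat_lit 4) (nat_lit 1) (nat_lit 4) (nat_lit 413) (nat_lit 345) (nat_lit 262))) (XT.nd (nat_lit 78) (nat_lit 0) (nat_lit 0) (XT.lf (nat_lit 0) (nat_lit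 1824140201137) (nat_lit 152) (nat_lit 14546311699065) (nat_lit 0) (nat_lit 1809377429136) (nat_lit 1) (nat_lit 5) (nat_lit 3) (nat_lit 4) (nat_lit 1) (nat_lit 4) (nat_lit 414) (nat_lit 345) (nat_lit 261)) (XT.lf (nat_lit 0) (nat_lit 2221786448282) (nat_lit 152) (nat_lit 16467893374889) (nat_lit 0) (nat_lit 2207023660938) (nat_lit 1) (nat_lit 5) (nat_lit 3) (nat_lit 4) (nat_lit 1) (nat_lit 4) (nat_lit 415) (nat_lit 345) (nat_lit 260)))) (XT.nd (nat_lit 156) (nat_lit 0) (nat_lit 0) (XT.nd (nat_lit 78) (nat_lit 0) (nat_lit 0) (XT.lf (nat_lit 0) (nat_lit 2679079387195) (nat_lit 152) (nat_lit 18677712808017) (nat_lit 0) (nat_lit 2664316586508) (nat_lit 1) (nat_lit 5) (nat_lit 3) (nat_lit 4) (nat_lit 1) (nat_lit 4) (nat_lit 416) (nat_lit 345) (nat_lit 259)) (XT.lf (nat_lit 0) (nat_lit 3204966053638) (nat_lit 152) (nat_lit 21219005596054) (nat_lit 0) (nat_lit 3190203241348) (nat_lit 1) (nat_lit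 5) (nat_lit 3) (nat_lit 4) (nat_lit 1) (nat_lit 4) (nat_lit 417) (nat_lit 345) (nat_lit 258))) (XT.nd (nat_lit 47502) (nat_lit 0) (nat_lit 5852) (XT.lf (nat_lit 0) (nat_lit 3809735534561) (nat_lit 152) (nat_lit 24141492684855) (nat_lit 0) (nat_lit 3794972712183) (nat_lit 1) (nat_lit 5) (nat_lit 3) (nat_lit 4) (nat_lit 1) (nat_lit 4) (nat_lit 418) (nat_lit 345) (nat_lit 257)) (XT.lf (nat_lit 0) (nat_lit 1413142275) (nat_lit 532) (nat_lit 1765386739) (nat_lit 532) (nat_lit 1765386739) (nat_lit 78) (nat_lit 3) (nat_lit 85) (nat_lit 3) (nat_lit 85) (nat_lit 5) (nat_lit 346) (nat_lit 346) (nat_lit 328))))) (XT.nd (nat_lit 312) (nat_lit 1444) (nat_lit 0) (XT.nd (nat_lit 156) (nat_lit 304) (nat_lit 0) (XT.nd (nat_lit 78) (nat_lit 0) (nat_lit 0) (XT.lf (nat_lit 0) (nat_lit 4471894052) (nat_lit 456) (nat_lit 4653717585) (nat_lit 532) (nat_lit 1388611107) (nat_lit 79) (nat_lit 5) (nat_lit 85) (nat_lit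 5) (nat_lit 86) (nat_lit 5) (nat_lit 347) (nat_lit 346) (nat_lit 327)) (XT.lf (nat_lit 76) (nat_lit 5601812002) (nat_lit 0) (nat_lit 954129755) (nat_lit 532) (nat_lit 4663393099) (nat_lit 80) (nat_lit 5) (nat_lit 79) (nat_lit 5) (nat_lit 86) (nat_lit 5) (nat_lit 348) (nat_lit 346) (nat_lit 326))) (XT.nd (nat_lit 78) (nat_lit 380) (nat_lit 0) (XT.lf (nat_lit 76) (nat_lit 5577744687) (nat_lit 0) (nat_lit 3654180413) (nat_lit 532) (nat_lit 2776020605) (nat_lit 81) (nat_lit 5) (nat_lit 80) (nat_lit 5) (nat_lit 87) (nat_lit 5) (nat_lit 349) (nat_lit 346) (nat_lit 325)) (XT.lf (nat_lit 0) (nat_lit 5852307795) (nat_lit 456) (nat_lit 6763986173) (nat_lit 532) (nat_lit 274063172) (nat_lit 75) (nat_lit 5) (nat_lit 81) (nat_lit 5) (nat_lit 82) (nat_lit 5) (nat_lit 350) (nat_lit 346) (nat_lit 324)))) (XT.nd (nat_lit 156) (nat_lit 684) (nat_lit 0) (XT.nd (nat_lit 78) (nat_lit 228) (nat_lit 0) (XT.lf (nat_lit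 0) (nat_lit 2852886695) (nat_lit 532) (nat_lit 7484262239) (nat_lit 76) (nat_lit 3532633902) (nat_lit 68) (nat_lit 5) (nat_lit 75) (nat_lit 5) (nat_lit 69) (nat_lit 5) (nat_lit 351) (nat_lit 346) (nat_lit 323)) (XT.lf (nat_lit 0) (nat_lit 6874643987) (nat_lit 304) (nat_lit 7686403296) (nat_lit 76) (nat_lit 399193830) (nat_lit 65) (nat_lit 5) (nat_lit 69) (nat_lit 5) (nat_lit 66) (nat_lit 5) (nat_lit 352) (nat_lit 346) (nat_lit 322))) (XT.nd (nat_lit 78) (nat_lit 456) (nat_lit 0) (XT.lf (nat_lit 0) (nat_lit 8489079595) (nat_lit 228) (nat_lit 3598007304) (nat_lit 304) (nat_lit 4080228867) (nat_lit 62) (nat_lit 5) (nat_lit 65) (nat_lit 5) (nat_lit 66) (nat_lit 5) (nat_lit 353) (nat_lit 346) (nat_lit 321)) (XT.nd (nat_lit 78) (nat_lit 228) (nat_lit 0) (XT.lf (nat_lit 0) (nat_lit 1091821539) (nat_lit 228) (nat_lit 7374545174) (nat_lit 76) (nat_lit 9040731375) (nat_lit 59) (nat_lit 5) (nat_lit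 62) (nat_lit 5) (nat_lit 60) (nat_lit 5) (nat_lit 354) (nat_lit 346) (nat_lit 320)) (XT.lf (nat_lit 0) (nat_lit 7445384695) (nat_lit 304) (nat_lit 6805197589) (nat_lit 76) (nat_lit 4737032040) (nat_lit 56) (nat_lit 5) (nat_lit 60) (nat_lit 5) (nat_lit 57) (nat_lit 5) (nat_lit 355) (nat_lit 346) (nat_lit 319))))))))
noncomputable def xc59 : XT := (XT.nd (nat_lit 1326) (nat_lit 1292) (nat_lit 0) (XT.nd (nat_lit 624) (nat_lit 1140) (nat_lit 0) (XT.nd (nat_lit 312) (nat_lit 684) (nat_lit 0) (XT.nd (nat_lit 156) (nat_lit 304) (nat_lit 0) (XT.nd (nat_lit 78) (nat_lit 228) (nat_lit 0) (XT.lf (nat_lit 0) (nat_lit 14816871302) (nat_lit 152) (nat_lit 651340793) (nat_lit 228) (nat_lit 5164722725) (nat_lit 54) (nat_lit 5) (nat_lit 56) (nat_lit 5) (nat_lit 57) (nat_lit 5) (nat_lit 356) (nat_lit 346) (nat_lit 318)) (XT.lf (nat_lit 0) (nat_lit 2995050248) (nat_lit 228) (nat_lit 4534354565) (nat_lit 76)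 (nat_lit 14916761902) (nat_lit 51) (nat_lit 5) (nat_lit 54) (nat_lit 5) (nat_lit 52) (nat_lit 5) (nat_lit 357) (nat_lit 346) (nat_lit 317))) (XT.nd (nat_lit 78) (nat_lit 152) (nat_lit 0) (XT.lf (nat_lit 0) (nat_lit 12938536892) (nat_lit 228) (nat_lit 2847306221) (nat_lit 76) (nat_lit 8665581482) (nat_lit 49) (nat_lit 5) (nat_lit 52) (nat_lit 5) (nat_lit 50) (nat_lit 5) (nat_lit 358) (nat_lit 346) (nat_lit 316)) (XT.lf (nat_lit 0) (nat_lit 25295686414) (nat_lit 228) (nat_lit 532630372) (nat_lit 76) (nat_lit 855398524) (nat_lit 47) (nat_lit 5) (nat_lit 50) (nat_lit 5) (nat_lit 48) (nat_lit 4) (nat_lit 359) (nat_lit 346) (nat_lit 315)))) (XT.nd (nat_lit 156) (nat_lit 304) (nat_lit 0) (XT.nd (nat_lit 78) (nat_lit 76) (nat_lit 0) (XT.lf (nat_lit 0) (nat_lit 2127562915) (nat_lit 152) (nat_lit 8909023398) (nat_lit 228) (nat_lit 18091019786) (nat_lit 43) (nat_lit 5) (nat_lit 45) (nat_lit 5) (nat_lit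 46) (nat_lit 5) (nat_lit 360) (nat_lit 346) (nat_lit 314)) (XT.lf (nat_lit 0) (nat_lit 5533911175) (nat_lit 76) (nat_lit 20862437353) (nat_lit 152) (nat_lit 5446567186) (nat_lit 42) (nat_lit 5) (nat_lit 43) (nat_lit 5) (nat_lit 44) (nat_lit 4) (nat_lit 361) (nat_lit 346) (nat_lit 313))) (XT.nd (nat_lit 78) (nat_lit 76) (nat_lit 0) (XT.lf (nat_lit 0) (nat_lit 9567199209) (nat_lit 152) (nat_lit 294313306) (nat_lit 228) (nat_lit 24988767518) (nat_lit 39) (nat_lit 5) (nat_lit 41) (nat_lit 5) (nat_lit 42) (nat_lit 5) (nat_lit 362) (nat_lit 346) (nat_lit 312)) (XT.lf (nat_lit 0) (nat_lit 14039908692) (nat_lit 76) (nat_lit 14741408392) (nat_lit 152) (nat_lit 9385081057) (nat_lit 38) (nat_lit 5) (nat_lit 39) (nat_lit 5) (nat_lit 40) (nat_lit 4) (nat_lit 363) (nat_lit 346) (nat_lit 311))))) (XT.nd (nat_lit 312) (nat_lit 608) (nat_lit 0) (XT.nd (nat_lit 156) (nat_lit 228) (nat_lit 0) (XT.nd (nat_lit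 78) (nat_lit 76) (nat_lit 0) (XT.lf (nat_lit 0) (nat_lit 9556665096) (nat_lit 228) (nat_lit 22594777859) (nat_lit 76) (nat_lit 9697975592) (nat_lit 35) (nat_lit 5) (nat_lit 38) (nat_lit 5) (nat_lit 36) (nat_lit 4) (nat_lit 364) (nat_lit 346) (nat_lit 310)) (XT.lf (nat_lit 0) (nat_lit 25053228373) (nat_lit 76) (nat_lit 7428637027) (nat_lit 152) (nat_lit 13447698913) (nat_lit 34) (nat_lit 5) (nat_lit 35) (nat_lit 5) (nat_lit 36) (nat_lit 4) (nat_lit 365) (nat_lit 346) (nat_lit 309))) (XT.nd (nat_lit 78) (nat_lit 76) (nat_lit 0) (XT.lf (nat_lit 0) (nat_lit 9757147551) (nat_lit 152) (nat_lit 19094682053) (nat_lit 76) (nat_lit 21598528390) (nat_lit 32) (nat_lit 5) (nat_lit 34) (nat_lit 5) (nat_lit 33) (nat_lit 4) (nat_lit 366) (nat_lit 346) (nat_lit 308)) (XT.lf (nat_lit 0) (nat_lit 37400547132) (nat_lit 152) (nat_lit 17175318890) (nat_lit 0) (nat_lit 905138722) (nat_lit 31) (nat_lit 5) (nat_lit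 33) (nat_lit 4) (nat_lit 31) (nat_lit 4) (nat_lit 367) (nat_lit 346) (nat_lit 307)))) (XT.nd (nat_lit 156) (nat_lit 380) (nat_lit 0) (XT.nd (nat_lit 78) (nat_lit 76) (nat_lit 0) (XT.lf (nat_lit 0) (nat_lit 10017537468) (nat_lit 152) (nat_lit 15679455535) (nat_lit 76) (nat_lit 35354833856) (nat_lit 29) (nat_lit 5) (nat_lit 31) (nat_lit 5) (nat_lit 30) (nat_lit 4) (nat_lit 368) (nat_lit 346) (nat_lit 306)) (XT.lf (nat_lit 0) (nat_lit 43279991186) (nat_lit 152) (nat_lit 14526672103) (nat_lit 0) (nat_lit 9452415865) (nat_lit 28) (nat_lit 5) (nat_lit 30) (nat_lit 4) (nat_lit 28) (nat_lit 4) (nat_lit 369) (nat_lit 346) (nat_lit 305))) (XT.nd (nat_lit 78) (nat_lit 228) (nat_lit 0) (XT.lf (nat_lit 0) (nat_lit 9437762986) (nat_lit 152) (nat_lit 14211398580) (nat_lit 76) (nat_lit 50521712369) (nat_lit 26) (nat_lit 5) (nat_lit 28) (nat_lit 5) (nat_lit 27) (nat_lit 4) (nat_lit 370) (nat_lit 346) (nat_lit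 304)) (XT.nd (nat_lit 78) (nat_lit 152) (nat_lit 0) (XT.lf (nat_lit 0) (nat_lit 48947025176) (nat_lit 152) (nat_lit 15322290735) (nat_lit 0) (nat_lit 17600320100) (nat_lit 25) (nat_lit 5) (nat_lit 27) (nat_lit 4) (nat_lit 25) (nat_lit 4) (nat_lit 371) (nat_lit 346) (nat_lit 303)) (XT.lf (nat_lit 0) (nat_lit 6340893417) (nat_lit 152) (nat_lit 18167707868) (nat_lit 76) (nat_lit 65978412525) (nat_lit 23) (nat_lit 5) (nat_lit 25) (nat_lit 5) (nat_lit 24) (nat_lit 4) (nat_lit 372) (nat_lit 346) (nat_lit 302))))))) (XT.nd (nat_lit 702) (nat_lit 456) (nat_lit 0) (XT.nd (nat_lit 312) (nat_lit 456) (nat_lit 0) (XT.nd (nat_lit 156) (nat_lit 228) (nat_lit 0) (XT.nd (nat_lit 78) (nat_lit 76) (nat_lit 0) (XT.lf (nat_lit 0) (nat_lit 52462820589) (nat_lit 152) (nat_lit 24211628569) (nat_lit 0) (nat_lit 23420677107) (nat_lit 22) (nat_lit 5) (nat_lit 24) (nat_lit 4) (nat_lit 22) (nat_lit 4) (nat_lit 373)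 (nat_lit 346) (nat_lit 301)) (XT.lf (nat_lit 0) (nat_lit 77156033602) (nat_lit 76) (nat_lit 31396812951) (nat_lit 76) (nat_lit 2347625359) (nat_lit 21) (nat_lit 4) (nat_lit 22) (nat_lit 5) (nat_lit 22) (nat_lit 4) (nat_lit 374) (nat_lit 346) (nat_lit 300))) (XT.nd (nat_lit 78) (nat_lit 76) (nat_lit 0) (XT.lf (nat_lit 0) (nat_lit 50322400717) (nat_lit 152) (nat_lit 49242780008) (nat_lit 0) (nat_lit 23419333212) (nat_lit 19) (nat_lit 5) (nat_lit 21) (nat_lit 4) (nat_lit 19) (nat_lit 4) (nat_lit 375) (nat_lit 346) (nat_lit 299)) (XT.lf (nat_lit 0) (nat_lit 64829550640) (nat_lit 76) (nat_lit 49340713216) (nat_lit 76) (nat_lit 22432713898) (nat_lit 18) (nat_lit 4) (nat_lit 19) (nat_lit 5) (nat_lit 19) (nat_lit 4) (nat_lit 376) (nat_lit 346) (nat_lit 298)))) (XT.nd (nat_lit 156) (nat_lit 228) (nat_lit 0) (XT.nd (nat_lit 78) (nat_lit 76) (nat_lit 0) (XT.lf (nat_lit 0) (nat_lit 36467718106) (nat_lit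 152) (nat_lit 103947261322) (nat_lit 0) (nat_lit 11548933058) (nat_lit 16) (nat_lit 5) (nat_lit 18) (nat_lit 4) (nat_lit 16) (nat_lit 4) (nat_lit 377) (nat_lit 346) (nat_lit 297)) (XT.lf (nat_lit 0) (nat_lit 19557788495) (nat_lit 76) (nat_lit 87313556138) (nat_lit 76) (nat_lit 62391318164) (nat_lit 15) (nat_lit 4) (nat_lit 16) (nat_lit 5) (nat_lit 16) (nat_lit 4) (nat_lit 378) (nat_lit 346) (nat_lit 296))) (XT.nd (nat_lit 78) (nat_lit 152) (nat_lit 0) (XT.lf (nat_lit 0) (nat_lit 1831274937) (nat_lit 152) (nat_lit 21116188647) (nat_lit 76) (nat_lit 165964430104) (nat_lit 14) (nat_lit 5) (nat_lit 16) (nat_lit 5) (nat_lit 15) (nat_lit 4) (nat_lit 379) (nat_lit 346) (nat_lit 295)) (XT.nd (nat_lit 78) (nat_lit 76) (nat_lit 0) (XT.lf (nat_lit 0) (nat_lit 76601037478) (nat_lit 152) (nat_lit 80889490829) (nat_lit 0) (nat_lit 53519693565) (nat_lit 13) (nat_lit 5) (nat_lit 15) (nat_lit 4) (nat_lit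 13) (nat_lit 4) (nat_lit 380) (nat_lit 346) (nat_lit 294)) (XT.lf (nat_lit 0) (nat_lit 71860393615) (nat_lit 76) (nat_lit 93704048919) (nat_lit 76) (nat_lit 70620602826) (nat_lit 12) (nat_lit 4) (nat_lit 13) (nat_lit 5) (nat_lit 13) (nat_lit 4) (nat_lit 381) (nat_lit 346) (nat_lit 293)))))) (XT.nd (nat_lit 312) (nat_lit 228) (nat_lit 0) (XT.nd (nat_lit 156) (nat_lit 76) (nat_lit 0) (XT.nd (nat_lit 78) (nat_lit 76) (nat_lit 0) (XT.lf (nat_lit 0) (nat_lit 5001044263) (nat_lit 152) (nat_lit 12683102008) (nat_lit 76) (nat_lit 247254549195) (nat_lit 11) (nat_lit 5) (nat_lit 13) (nat_lit 5) (nat_lit 12) (nat_lit 4) (nat_lit 382) (nat_lit 346) (nat_lit 292)) (XT.lf (nat_lit 0) (nat_lit 93767027943) (nat_lit 152) (nat_lit 131222709516) (nat_lit 0) (nat_lit 72390302364) (nat_lit 10) (nat_lit 5) (nat_lit 12) (nat_lit 4) (nat_lit 10) (nat_lit 4) (nat_lit 383) (nat_lit 346) (nat_lit 291))) (XT.nd (nat_lit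 78) (nat_lit 0) (nat_lit 0) (XT.lf (nat_lit 0) (nat_lit 39380926274) (nat_lit 76) (nat_lit 158270203752) (nat_lit 76) (nat_lit 136892198341) (nat_lit 9) (nat_lit 4) (nat_lit 10) (nat_lit 5) (nat_lit 10) (nat_lit 4) (nat_lit 384) (nat_lit 346) (nat_lit 290)) (XT.lf (nat_lit 0) (nat_lit 243499396697) (nat_lit 76) (nat_lit 77428032709) (nat_lit 76) (nat_lit 56048914401) (nat_lit 9) (nat_lit 4) (nat_lit 10) (nat_lit 5) (nat_lit 10) (nat_lit 4) (nat_lit 385) (nat_lit 346) (nat_lit 289)))) (XT.nd (nat_lit 156) (nat_lit 76) (nat_lit 0) (XT.nd (nat_lit 78) (nat_lit 0) (nat_lit 0) (XT.lf (nat_lit 0) (nat_lit 36799895793) (nat_lit 152) (nat_lit 371761783095) (nat_lit 0) (nat_lit 17003519827) (nat_lit 7) (nat_lit 5) (nat_lit 9) (nat_lit 4) (nat_lit 7) (nat_lit 4) (nat_lit 386) (nat_lit 346) (nat_lit 288)) (XT.lf (nat_lit 0) (nat_lit 146471049370) (nat_lit 152) (nat_lit 207683873663) (nat_lit 0) (nat_lit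 126673894228) (nat_lit 7) (nat_lit 5) (nat_lit 9) (nat_lit 4) (nat_lit 7) (nat_lit 4) (nat_lit 387) (nat_lit 346) (nat_lit 287))) (XT.nd (nat_lit 78) (nat_lit 76) (nat_lit 0) (XT.lf (nat_lit 0) (nat_lit 272585000247) (nat_lit 152) (nat_lit 19010440946) (nat_lit 0) (nat_lit 252787167561) (nat_lit 7) (nat_lit 5) (nat_lit 9) (nat_lit 4) (nat_lit 7) (nat_lit 4) (nat_lit 388) (nat_lit 346) (nat_lit 286)) (XT.nd (nat_lit 78) (nat_lit 0) (nat_lit 0) (XT.lf (nat_lit 0) (nat_lit 208373645446) (nat_lit 76) (nat_lit 214246941027) (nat_lit 76) (nat_lit 194448519172) (nat_lit 6) (nat_lit 4) (nat_lit 7) (nat_lit 5) (nat_lit 7) (nat_lit 4) (nat_lit 389) (nat_lit 346) (nat_lit 285)) (XT.lf (nat_lit 0) (nat_lit 471003694130) (nat_lit 76) (nat_lit 124705020440) (nat_lit 76) (nat_lit 104906086265) (nat_lit 6) (nat_lit 4) (nat_lit 7) (nat_lit 5) (nat_lit 7) (nat_lit 4) (nat_lit 390) (nat_lit 346) (nat_lit 284))))))))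
noncomputable def xc60 : XT := (XT.nd (nat_lit 1326) (nat_lit 0) (nat_lit 0) (XT.nd (nat_lit 624) (nat_lit 152) (nat_lit 0) (XT.nd (nat_lit 312) (nat_lit 76) (nat_lit 0) (XT.nd (nat_lit 156) (nat_lit 0) (nat_lit 0) (XT.nd (nat_lit 78) (nat_lit 152) (nat_lit 0) (XT.lf (nat_lit 0) (nat_lit 773017062970) (nat_lit 76) (nat_lit 21737551436) (nat_lit 76) (nat_lit 1938171764) (nat_lit 6) (nat_lit 4) (nat_lit 7) (nat_lit 5) (nat_lit 7) (nat_lit 4) (nat_lit 391) (nat_lit 346) (nat_lit 283)) (XT.lf (nat_lit 0) (nat_lit 118504539394) (nat_lit 152) (nat_lit 687653917658) (nat_lit 0) (nat_lit 100171421746) (nat_lit 4) (nat_lit 5) (nat_lit 6) (nat_lit 4) (nat_lit 4) (nat_lit 4) (nat_lit 392) (nat_lit 346) (nat_lit 282))) (XT.nd (nat_lit 78) (nat_lit 0) (nat_lit 0) (XT.lf (nat_lit 0) (nat_lit 258206003836) (nat_lit 152) (nat_lit 534225361241) (nat_lit 0) (nat_lit 239872574281) (nat_lit 4) (nat_lit 5) (nat_lit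 6) (nat_lit 4) (nat_lit 4) (nat_lit 4) (nat_lit 393) (nat_lit 346) (nat_lit 281)) (XT.lf (nat_lit 0) (nat_lit 418858723798) (nat_lit 152) (nat_lit 357790679357) (nat_lit 0) (nat_lit 400525023020) (nat_lit 4) (nat_lit 5) (nat_lit 6) (nat_lit 4) (nat_lit 4) (nat_lit 4) (nat_lit 394) (nat_lit 346) (nat_lit 280)))) (XT.nd (nat_lit 156) (nat_lit 0) (nat_lit 0) (XT.nd (nat_lit 78) (nat_lit 76) (nat_lit 0) (XT.lf (nat_lit 0) (nat_lit 603605904671) (nat_lit 152) (nat_lit 154897889101) (nat_lit 0) (nat_lit 585271968047) (nat_lit 4) (nat_lit 5) (nat_lit 6) (nat_lit 4) (nat_lit 4) (nat_lit 4) (nat_lit 395) (nat_lit 346) (nat_lit 279)) (XT.lf (nat_lit 0) (nat_lit 82552248904) (nat_lit 76) (nat_lit 735495299878) (nat_lit 76) (nat_lit 717161158170) (nat_lit 3) (nat_lit 4) (nat_lit 4) (nat_lit 5) (nat_lit 4) (nat_lit 4) (nat_lit 396) (nat_lit 346) (nat_lit 278))) (XT.nd (nat_lit 78) (nat_lit 0) (nat_lit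 0) (XT.lf (nat_lit 0) (nat_lit 364994406725) (nat_lit 76) (nat_lit 704167975876) (nat_lit 76) (nat_lit 685833655835) (nat_lit 3) (nat_lit 4) (nat_lit 4) (nat_lit 5) (nat_lit 4) (nat_lit 4) (nat_lit 397) (nat_lit 346) (nat_lit 277)) (XT.lf (nat_lit 0) (nat_lit 689797978241) (nat_lit 76) (nat_lit 668144078654) (nat_lit 76) (nat_lit 649809603540) (nat_lit 3) (nat_lit 4) (nat_lit 4) (nat_lit 5) (nat_lit 4) (nat_lit 4) (nat_lit 398) (nat_lit 346) (nat_lit 276))))) (XT.nd (nat_lit 312) (nat_lit 152) (nat_lit 0) (XT.nd (nat_lit 156) (nat_lit 0) (nat_lit 0) (XT.nd (nat_lit 78) (nat_lit 0) (nat_lit 0) (XT.lf (nat_lit 0) (nat_lit 1063317815939) (nat_lit 76) (nat_lit 626718792830) (nat_lit 76) (nat_lit 608384182870) (nat_lit 3) (nat_lit 4) (nat_lit 4) (nat_lit 5) (nat_lit 4) (nat_lit 4) (nat_lit 399) (nat_lit 346) (nat_lit 275)) (XT.lf (nat_lit 0) (nat_lit 1492861916642) (nat_lit 76) (nat_lit 579081623683)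 (nat_lit 76) (nat_lit 560746896466) (nat_lit 3) (nat_lit 4) (nat_lit 4) (nat_lit 5) (nat_lit 4) (nat_lit 4) (nat_lit 400) (nat_lit 346) (nat_lit 274))) (XT.nd (nat_lit 78) (nat_lit 0) (nat_lit 0) (XT.lf (nat_lit 0) (nat_lit 1986834404062) (nat_lit 76) (nat_lit 524300539641) (nat_lit 76) (nat_lit 505965710461) (nat_lit 3) (nat_lit 4) (nat_lit 4) (nat_lit 5) (nat_lit 4) (nat_lit 4) (nat_lit 401) (nat_lit 346) (nat_lit 273)) (XT.lf (nat_lit 0) (nat_lit 2554899957298) (nat_lit 76) (nat_lit 461303736887) (nat_lit 76) (nat_lit 442968819044) (nat_lit 3) (nat_lit 4) (nat_lit 4) (nat_lit 5) (nat_lit 4) (nat_lit 4) (nat_lit 402) (nat_lit 346) (nat_lit 272)))) (XT.nd (nat_lit 156) (nat_lit 152) (nat_lit 0) (XT.nd (nat_lit 78) (nat_lit 0) (nat_lit 0) (XT.lf (nat_lit 0) (nat_lit 3208172902393) (nat_lit 76) (nat_lit 388858669280) (nat_lit 76) (nat_lit 370523674338) (nat_lit 3) (nat_lit 4) (nat_lit 4) (nat_lit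 5) (nat_lit 4) (nat_lit 4) (nat_lit 403) (nat_lit 346) (nat_lit 271)) (XT.lf (nat_lit 0) (nat_lit 3959434666534) (nat_lit 76) (nat_lit 305547933323) (nat_lit 76) (nat_lit 287212871339) (nat_lit 3) (nat_lit 4) (nat_lit 4) (nat_lit 5) (nat_lit 4) (nat_lit 4) (nat_lit 404) (nat_lit 346) (nat_lit 270))) (XT.nd (nat_lit 78) (nat_lit 152) (nat_lit 0) (XT.lf (nat_lit 0) (nat_lit 4823383849453) (nat_lit 76) (nat_lit 209741536356) (nat_lit 76) (nat_lit 191406416074) (nat_lit 3) (nat_lit 4) (nat_lit 4) (nat_lit 5) (nat_lit 4) (nat_lit 4) (nat_lit 405) (nat_lit 346) (nat_lit 269)) (XT.nd (nat_lit 78) (nat_lit 152) (nat_lit 0) (XT.lf (nat_lit 0) (nat_lit 5816923804730) (nat_lit 76) (nat_lit 99565005395) (nat_lit 76) (nat_lit 81229834420) (nat_lit 3) (nat_lit 4) (nat_lit 4) (nat_lit 5) (nat_lit 4) (nat_lit 4) (nat_lit 406) (nat_lit 346) (nat_lit 268)) (XT.lf (nat_lit 0) (nat_lit 45736404638) (nat_lit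 152) (nat_lit 6812097230683) (nat_lit 0) (nat_lit 28759353660) (nat_lit 1) (nat_lit 5) (nat_lit 3) (nat_lit 4) (nat_lit 1) (nat_lit 4) (nat_lit 407) (nat_lit 346) (nat_lit 267))))))) (XT.nd (nat_lit 624) (nat_lit 0) (nat_lit 0) (XT.nd (nat_lit 312) (nat_lit 0) (nat_lit 0) (XT.nd (nat_lit 156) (nat_lit 0) (nat_lit 0) (XT.nd (nat_lit 78) (nat_lit 0) (nat_lit 0) (XT.lf (nat_lit 0) (nat_lit 195228052182) (nat_lit 152) (nat_lit 7534487463103) (nat_lit 0) (nat_lit 178250965712) (nat_lit 1) (nat_lit 5) (nat_lit 3) (nat_lit 4) (nat_lit 1) (nat_lit 4) (nat_lit 408) (nat_lit 346) (nat_lit 266)) (XT.lf (nat_lit 0) (nat_lit 367142879455) (nat_lit 152) (nat_lit 8365237400637) (nat_lit 0) (nat_lit 350165762121) (nat_lit 1) (nat_lit 5) (nat_lit 3) (nat_lit 4) (nat_lit 1) (nat_lit 4) (nat_lit 409) (nat_lit 346) (nat_lit 265))) (XT.nd (nat_lit 78) (nat_lit 0) (nat_lit 0) (XT.lf (nat_lit 0) (nat_lit 564844437424)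 (nat_lit 152) (nat_lit 9320600846411) (nat_lit 0) (nat_lit 547867293254) (nat_lit 1) (nat_lit 5) (nat_lit 3) (nat_lit 4) (nat_lit 1) (nat_lit 4) (nat_lit 410) (nat_lit 346) (nat_lit 264)) (XT.lf (nat_lit 0) (nat_lit 792200800051) (nat_lit 152) (nat_lit 10419269693927) (nat_lit 0) (nat_lit 775223632543) (nat_lit 1) (nat_lit 5) (nat_lit 3) (nat_lit 4) (nat_lit 1) (nat_lit 4) (nat_lit 411) (nat_lit 346) (nat_lit 263)))) (XT.nd (nat_lit 156) (nat_lit 0) (nat_lit 0) (XT.nd (nat_lit 78) (nat_lit 0) (nat_lit 0) (XT.lf (nat_lit 0) (nat_lit 1053660243994) (nat_lit 152) (nat_lit 11682739638030) (nat_lit 0) (nat_lit 1036683056194) (nat_lit 1) (nat_lit 5) (nat_lit 3) (nat_lit 4) (nat_lit 1) (nat_lit 4) (nat_lit 412) (nat_lit 346) (nat_lit 262)) (XT.lf (nat_lit 0) (nat_lit 1354338280115) (nat_lit 152) (nat_lit 13135730742842) (nat_lit 0) (nat_lit 1337361074669) (nat_lit 1) (nat_lit 5) (nat_lit 3) (nat_lit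 4) (nat_lit 1) (nat_lit 4) (nat_lit 413) (nat_lit 346) (nat_lit 261))) (XT.nd (nat_lit 78) (nat_lit 0) (nat_lit 0) (XT.lf (nat_lit 0) (nat_lit 1700117739554) (nat_lit 152) (nat_lit 14806671095197) (nat_lit 0) (nat_lit 1683140518763) (nat_lit 1) (nat_lit 5) (nat_lit 3) (nat_lit 4) (nat_lit 1) (nat_lit 4) (nat_lit 414) (nat_lit 346) (nat_lit 260)) (XT.lf (nat_lit 0) (nat_lit 2097763872604) (nat_lit 152) (nat_lit 16728253006337) (nat_lit 0) (nat_lit 2080786638471) (nat_lit 1) (nat_lit 5) (nat_lit 3) (nat_lit 4) (nat_lit 1) (nat_lit 4) (nat_lit 415) (nat_lit 346) (nat_lit 259))))) (XT.nd (nat_lit 47814) (nat_lit 0) (nat_lit 5092) (XT.nd (nat_lit 156) (nat_lit 0) (nat_lit 0) (XT.nd (nat_lit 78) (nat_lit 0) (nat_lit 0) (XT.lf (nat_lit 0) (nat_lit 2555056712305) (nat_lit 152) (nat_lit 18938072644089) (nat_lit 0) (nat_lit 2538079466569) (nat_lit 1) (nat_lit 5) (nat_lit 3) (nat_lit 4) (nat_lit 1)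 (nat_lit 4) (nat_lit 416) (nat_lit 346) (nat_lit 258)) (XT.lf (nat_lit 0) (nat_lit 3080943292475) (nat_lit 152) (nat_lit 21479365610060) (nat_lit 0) (nat_lit 3063966036650) (nat_lit 1) (nat_lit 5) (nat_lit 3) (nat_lit 4) (nat_lit 1) (nat_lit 4) (nat_lit 417) (nat_lit 346) (nat_lit 257))) (XT.nd (nat_lit 47580) (nat_lit 0) (nat_lit 5852) (XT.lf (nat_lit 0) (nat_lit 3685712698379) (nat_lit 152) (nat_lit 24401852853585) (nat_lit 0) (nat_lit 3668735433782) (nat_lit 1) (nat_lit 5) (nat_lit 3) (nat_lit 4) (nat_lit 1) (nat_lit 4) (nat_lit 418) (nat_lit 346) (nat_lit 256)) (XT.lf (nat_lit 0) (nat_lit 2829704502) (nat_lit 532) (nat_lit 1379473592) (nat_lit 532) (nat_lit 1379473592) (nat_lit 78) (nat_lit 3) (nat_lit 85) (nat_lit 3) (nat_lit 85) (nat_lit 5) (nat_lit 347) (nat_lit 347) (nat_lit 326)))) (XT.nd (nat_lit 156) (nat_lit 836) (nat_lit 0) (XT.nd (nat_lit 78) (nat_lit 0) (nat_lit 0) (XT.lf (nat_lit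 0) (nat_lit 7243847124) (nat_lit 456) (nat_lit 3967342159) (nat_lit 532) (nat_lit 711231341) (nat_lit 79) (nat_lit 5) (nat_lit 85) (nat_lit 5) (nat_lit 86) (nat_lit 5) (nat_lit 348) (nat_lit 347) (nat_lit 325)) (XT.lf (nat_lit 76) (nat_lit 7709331503) (nat_lit 0) (nat_lit 1687582302) (nat_lit 532) (nat_lit 3355982630) (nat_lit 80) (nat_lit 5) (nat_lit 79) (nat_lit 5) (nat_lit 86) (nat_lit 5) (nat_lit 349) (nat_lit 347) (nat_lit 324))) (XT.nd (nat_lit 78) (nat_lit 912) (nat_lit 0) (XT.lf (nat_lit 76) (nat_lit 7724081536) (nat_lit 0) (nat_lit 4527072013) (nat_lit 532) (nat_lit 1426592154) (nat_lit 81) (nat_lit 5) (nat_lit 80) (nat_lit 5) (nat_lit 87) (nat_lit 5) (nat_lit 350) (nat_lit 347) (nat_lit 323)) (XT.nd (nat_lit 78) (nat_lit 456) (nat_lit 0) (XT.lf (nat_lit 0) (nat_lit 1185043314) (nat_lit 532) (nat_lit 6681258390) (nat_lit 76) (nat_lit 6838946792) (nat_lit 74) (nat_lit 5) (nat_lit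 81) (nat_lit 5) (nat_lit 75) (nat_lit 5) (nat_lit 351) (nat_lit 347) (nat_lit 322)) (XT.lf (nat_lit 0) (nat_lit 4601713968) (nat_lit 532) (nat_lit 7213856468) (nat_lit 76) (nat_lit 4028562521) (nat_lit 68) (nat_lit 5) (nat_lit 75) (nat_lit 5) (nat_lit 69) (nat_lit 5) (nat_lit 352) (nat_lit 347) (nat_lit 321))))))))
noncomputable def xc61 : XT := (XT.nd (nat_lit 1326) (nat_lit 1520) (nat_lit 0) (XT.nd (nat_lit 624) (nat_lit 1292) (nat_lit 0) (XT.nd (nat_lit 312) (nat_lit 760) (nat_lit 0) (XT.nd (nat_lit 156) (nat_lit 456) (nat_lit 0) (XT.nd (nat_lit 78) (nat_lit 228) (nat_lit 0) (XT.lf (nat_lit 0) (nat_lit 9087416661) (nat_lit 304) (nat_lit 7471809180) (nat_lit 76) (nat_lit 550137731) (nat_lit 65) (nat_lit 5) (nat_lit 69) (nat_lit 5) (nat_lit 66) (nat_lit 5) (nat_lit 353) (nat_lit 347) (nat_lit 320)) (XT.lf (nat_lit 0) (nat_lit 11014239458) (nat_lit 228) (nat_lit 3943473704) (nat_lit 304)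 (nat_lit 3549757849) (nat_lit 62) (nat_lit 5) (nat_lit 65) (nat_lit 5) (nat_lit 66) (nat_lit 5) (nat_lit 354) (nat_lit 347) (nat_lit 319))) (XT.nd (nat_lit 78) (nat_lit 228) (nat_lit 0) (XT.lf (nat_lit 0) (nat_lit 2233633442) (nat_lit 228) (nat_lit 7209638068) (nat_lit 76) (nat_lit 10611376812) (nat_lit 59) (nat_lit 5) (nat_lit 62) (nat_lit 5) (nat_lit 60) (nat_lit 5) (nat_lit 355) (nat_lit 347) (nat_lit 318)) (XT.lf (nat_lit 0) (nat_lit 9447498341) (nat_lit 304) (nat_lit 6598823043) (nat_lit 76) (nat_lit 5718374627) (nat_lit 56) (nat_lit 5) (nat_lit 60) (nat_lit 5) (nat_lit 57) (nat_lit 5) (nat_lit 356) (nat_lit 347) (nat_lit 317)))) (XT.nd (nat_lit 156) (nat_lit 380) (nat_lit 0) (XT.nd (nat_lit 78) (nat_lit 228) (nat_lit 0) (XT.lf (nat_lit 0) (nat_lit 18162683692) (nat_lit 152) (nat_lit 422606422) (nat_lit 228) (nat_lit 5078632026) (nat_lit 54) (nat_lit 5) (nat_lit 56) (nat_lit 5) (nat_lit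 57) (nat_lit 5) (nat_lit 357) (nat_lit 347) (nat_lit 316)) (XT.lf (nat_lit 0) (nat_lit 4189026476) (nat_lit 228) (nat_lit 4095572110) (nat_lit 76) (nat_lit 17468750419) (nat_lit 51) (nat_lit 5) (nat_lit 54) (nat_lit 5) (nat_lit 52) (nat_lit 5) (nat_lit 358) (nat_lit 347) (nat_lit 315))) (XT.nd (nat_lit 78) (nat_lit 228) (nat_lit 0) (XT.lf (nat_lit 0) (nat_lit 15559997322) (nat_lit 228) (nat_lit 2204723876) (nat_lit 76) (nat_lit 10299819023) (nat_lit 49) (nat_lit 5) (nat_lit 52) (nat_lit 5) (nat_lit 50) (nat_lit 5) (nat_lit 359) (nat_lit 347) (nat_lit 314)) (XT.lf (nat_lit 0) (nat_lit 428667752) (nat_lit 76) (nat_lit 29295871673) (nat_lit 152) (nat_lit 910848245) (nat_lit 46) (nat_lit 5) (nat_lit 47) (nat_lit 5) (nat_lit 48) (nat_lit 4) (nat_lit 360) (nat_lit 347) (nat_lit 313))))) (XT.nd (nat_lit 312) (nat_lit 684) (nat_lit 0) (XT.nd (nat_lit 156) (nat_lit 304) (nat_lit 0) (XT.nd (nat_lit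 78) (nat_lit 76) (nat_lit 0) (XT.lf (nat_lit 0) (nat_lit 3461538923) (nat_lit 152) (nat_lit 9834950121) (nat_lit 228) (nat_lit 20151804199) (nat_lit 43) (nat_lit 5) (nat_lit 45) (nat_lit 5) (nat_lit 46) (nat_lit 5) (nat_lit 361) (nat_lit 347) (nat_lit 312)) (XT.lf (nat_lit 0) (nat_lit 7328255276) (nat_lit 76) (nat_lit 23584897299) (nat_lit 152) (nat_lit 5661524885) (nat_lit 42) (nat_lit 5) (nat_lit 43) (nat_lit 5) (nat_lit 44) (nat_lit 4) (nat_lit 362) (nat_lit 347) (nat_lit 311))) (XT.nd (nat_lit 78) (nat_lit 76) (nat_lit 0) (XT.lf (nat_lit 0) (nat_lit 11861211305) (nat_lit 228) (nat_lit 28124922645) (nat_lit 76) (nat_lit 49979908) (nat_lit 39) (nat_lit 5) (nat_lit 42) (nat_lit 5) (nat_lit 40) (nat_lit 4) (nat_lit 363) (nat_lit 347) (nat_lit 310)) (XT.lf (nat_lit 0) (nat_lit 17008599056) (nat_lit 76) (nat_lit 16570326160) (nat_lit 152) (nat_lit 10273938563) (nat_lit 38) (nat_lit 5) (nat_lit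 39) (nat_lit 5) (nat_lit 40) (nat_lit 4) (nat_lit 364) (nat_lit 347) (nat_lit 309)))) (XT.nd (nat_lit 156) (nat_lit 380) (nat_lit 0) (XT.nd (nat_lit 78) (nat_lit 76) (nat_lit 0) (XT.lf (nat_lit 0) (nat_lit 11447163863) (nat_lit 228) (nat_lit 25143380190) (nat_lit 76) (nat_lit 11499678049) (nat_lit 35) (nat_lit 5) (nat_lit 38) (nat_lit 5) (nat_lit 36) (nat_lit 4) (nat_lit 365) (nat_lit 347) (nat_lit 308)) (XT.lf (nat_lit 0) (nat_lit 29580673159) (nat_lit 76) (nat_lit 8189368031) (nat_lit 152) (nat_lit 15015643214) (nat_lit 34) (nat_lit 5) (nat_lit 35) (nat_lit 5) (nat_lit 36) (nat_lit 4) (nat_lit 366) (nat_lit 347) (nat_lit 307))) (XT.nd (nat_lit 78) (nat_lit 228) (nat_lit 0) (XT.lf (nat_lit 0) (nat_lit 11617322938) (nat_lit 152) (nat_lit 21210924721) (nat_lit 76) (nat_lit 25157901252) (nat_lit 32) (nat_lit 5) (nat_lit 34) (nat_lit 5) (nat_lit 33) (nat_lit 4) (nat_lit 367) (nat_lit 347) (nat_lit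 306)) (XT.nd (nat_lit 78) (nat_lit 152) (nat_lit 0) (XT.lf (nat_lit 0) (nat_lit 43379743034) (nat_lit 152) (nat_lit 19045806688) (nat_lit 0) (nat_lit 1348046608) (nat_lit 31) (nat_lit 5) (nat_lit 33) (nat_lit 4) (nat_lit 31) (nat_lit 4) (nat_lit 368) (nat_lit 347) (nat_lit 305)) (XT.lf (nat_lit 0) (nat_lit 11865439783) (nat_lit 152) (nat_lit 17367101569) (nat_lit 76) (nat_lit 40949413631) (nat_lit 29) (nat_lit 5) (nat_lit 31) (nat_lit 5) (nat_lit 30) (nat_lit 4) (nat_lit 369) (nat_lit 347) (nat_lit 304))))))) (XT.nd (nat_lit 624) (nat_lit 684) (nat_lit 0) (XT.nd (nat_lit 312) (nat_lit 380) (nat_lit 0) (XT.nd (nat_lit 156) (nat_lit 228) (nat_lit 0) (XT.nd (nat_lit 78) (nat_lit 152) (nat_lit 0) (XT.lf (nat_lit 0) (nat_lit 50093900728) (nat_lit 152) (nat_lit 16079469277) (nat_lit 0) (nat_lit 11148797136) (nat_lit 28) (nat_lit 5) (nat_lit 30) (nat_lit 4) (nat_lit 28) (nat_lit 4) (nat_lit 370)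 (nat_lit 347) (nat_lit 303)) (XT.lf (nat_lit 0) (nat_lit 11154781504) (nat_lit 152) (nat_lit 15754024052) (nat_lit 76) (nat_lit 58363574223) (nat_lit 26) (nat_lit 5) (nat_lit 28) (nat_lit 5) (nat_lit 27) (nat_lit 4) (nat_lit 371) (nat_lit 347) (nat_lit 302))) (XT.nd (nat_lit 78) (nat_lit 152) (nat_lit 0) (XT.lf (nat_lit 0) (nat_lit 56570448414) (nat_lit 152) (nat_lit 17065751304) (nat_lit 0) (nat_lit 20491357424) (nat_lit 25) (nat_lit 5) (nat_lit 27) (nat_lit 4) (nat_lit 25) (nat_lit 4) (nat_lit 372) (nat_lit 347) (nat_lit 301)) (XT.lf (nat_lit 0) (nat_lit 7555596373) (nat_lit 152) (nat_lit 20371058170) (nat_lit 76) (nat_lit 76112313975) (nat_lit 23) (nat_lit 5) (nat_lit 25) (nat_lit 5) (nat_lit 24) (nat_lit 4) (nat_lit 373) (nat_lit 347) (nat_lit 300)))) (XT.nd (nat_lit 156) (nat_lit 228) (nat_lit 0) (XT.nd (nat_lit 78) (nat_lit 76) (nat_lit 0) (XT.lf (nat_lit 0) (nat_lit 60578620153) (nat_lit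 152) (nat_lit 27352169631) (nat_lit 0) (nat_lit 27158885000) (nat_lit 22) (nat_lit 5) (nat_lit 24) (nat_lit 4) (nat_lit 22) (nat_lit 4) (nat_lit 374) (nat_lit 347) (nat_lit 299)) (XT.lf (nat_lit 0) (nat_lit 89179063959) (nat_lit 76) (nat_lit 35881763490) (nat_lit 76) (nat_lit 2456701977) (nat_lit 21) (nat_lit 4) (nat_lit 22) (nat_lit 5) (nat_lit 22) (nat_lit 4) (nat_lit 375) (nat_lit 347) (nat_lit 298))) (XT.nd (nat_lit 78) (nat_lit 76) (nat_lit 0) (XT.lf (nat_lit 0) (nat_lit 58086808985) (nat_lit 152) (nat_lit 56194701556) (nat_lit 0) (nat_lit 27133389421) (nat_lit 19) (nat_lit 5) (nat_lit 21) (nat_lit 4) (nat_lit 19) (nat_lit 4) (nat_lit 376) (nat_lit 347) (nat_lit 297)) (XT.lf (nat_lit 0) (nat_lit 74951700813) (nat_lit 76) (nat_lit 56541535704) (nat_lit 76) (nat_lit 25584386981) (nat_lit 18) (nat_lit 4) (nat_lit 19) (nat_lit 5) (nat_lit 19) (nat_lit 4) (nat_lit 377) (nat_lit 347) (nat_lit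 296))))) (XT.nd (nat_lit 312) (nat_lit 304) (nat_lit 0) (XT.nd (nat_lit 156) (nat_lit 152) (nat_lit 0) (XT.nd (nat_lit 78) (nat_lit 76) (nat_lit 0) (XT.lf (nat_lit 0) (nat_lit 42127549526) (nat_lit 152) (nat_lit 119155250499) (nat_lit 0) (nat_lit 13460520387) (nat_lit 16) (nat_lit 5) (nat_lit 18) (nat_lit 4) (nat_lit 16) (nat_lit 4) (nat_lit 378) (nat_lit 347) (nat_lit 295)) (XT.lf (nat_lit 0) (nat_lit 22843044637) (nat_lit 76) (nat_lit 100232391044) (nat_lit 76) (nat_lit 71562750997) (nat_lit 15) (nat_lit 4) (nat_lit 16) (nat_lit 5) (nat_lit 16) (nat_lit 4) (nat_lit 379) (nat_lit 347) (nat_lit 294))) (XT.nd (nat_lit 78) (nat_lit 76) (nat_lit 0) (XT.lf (nat_lit 0) (nat_lit 2260659347) (nat_lit 152) (nat_lit 23969738959) (nat_lit 76) (nat_lit 191005900446) (nat_lit 14) (nat_lit 5) (nat_lit 16) (nat_lit 5) (nat_lit 15) (nat_lit 4) (nat_lit 380) (nat_lit 347) (nat_lit 293)) (XT.lf (nat_lit 0)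 (nat_lit 88236127224) (nat_lit 152) (nat_lit 92727796072) (nat_lit 0) (nat_lit 61686234054) (nat_lit 13) (nat_lit 5) (nat_lit 15) (nat_lit 4) (nat_lit 13) (nat_lit 4) (nat_lit 381) (nat_lit 347) (nat_lit 292)))) (XT.nd (nat_lit 156) (nat_lit 152) (nat_lit 0) (XT.nd (nat_lit 78) (nat_lit 76) (nat_lit 0) (XT.lf (nat_lit 0) (nat_lit 82909590738) (nat_lit 76) (nat_lit 107622044677) (nat_lit 76) (nat_lit 81070561957) (nat_lit 12) (nat_lit 4) (nat_lit 13) (nat_lit 5) (nat_lit 13) (nat_lit 4) (nat_lit 382) (nat_lit 347) (nat_lit 291)) (XT.lf (nat_lit 0) (nat_lit 5869436804) (nat_lit 152) (nat_lit 14344436385) (nat_lit 76) (nat_lit 284456165573) (nat_lit 11) (nat_lit 5) (nat_lit 13) (nat_lit 5) (nat_lit 12) (nat_lit 4) (nat_lit 383) (nat_lit 347) (nat_lit 290))) (XT.nd (nat_lit 78) (nat_lit 76) (nat_lit 0) (XT.lf (nat_lit 0) (nat_lit 107942912284) (nat_lit 152) (nat_lit 150679451897) (nat_lit 0)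 (nat_lit 83355813333) (nat_lit 10) (nat_lit 5) (nat_lit 12) (nat_lit 4) (nat_lit 10) (nat_lit 4) (nat_lit 384) (nat_lit 347) (nat_lit 289)) (XT.nd (nat_lit 78) (nat_lit 0) (nat_lit 0) (XT.lf (nat_lit 0) (nat_lit 45495543279) (nat_lit 76) (nat_lit 181904620145) (nat_lit 76) (nat_lit 157316553458) (nat_lit 9) (nat_lit 4) (nat_lit 10) (nat_lit 5) (nat_lit 10) (nat_lit 4) (nat_lit 385) (nat_lit 347) (nat_lit 288)) (XT.lf (nat_lit 0) (nat_lit 280204721910) (nat_lit 76) (nat_lit 88949964424) (nat_lit 76) (nat_lit 64361056228) (nat_lit 9) (nat_lit 4) (nat_lit 10) (nat_lit 5) (nat_lit 10) (nat_lit 4) (nat_lit 386) (nat_lit 347) (nat_lit 287))))))))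
noncomputable def xc62 : XT := (XT.nd (nat_lit 1326) (nat_lit 152) (nat_lit 0) (XT.nd (nat_lit 624) (nat_lit 76) (nat_lit 0) (XT.nd (nat_lit 312) (nat_lit 152) (nat_lit 0) (XT.nd (nat_lit 156) (nat_lit 76) (nat_lit 0) (XT.nd (nat_lit 78) (nat_lit 0) (nat_lit 0) (XT.lf (nat_lit 0) (nat_lit 42404681695) (nat_lit 152) (nat_lit 427352015004) (nat_lit 0) (nat_lit 19636496562) (nat_lit 7) (nat_lit 5) (nat_lit 9) (nat_lit 4) (nat_lit 7) (nat_lit 4) (nat_lit 387) (nat_lit 347) (nat_lit 286)) (XT.lf (nat_lit 0) (nat_lit 168515447239) (nat_lit 152) (nat_lit 238685119447) (nat_lit 0) (nat_lit 145746672937) (nat_lit 7) (nat_lit 5) (nat_lit 9) (nat_lit 4) (nat_lit 7) (nat_lit 4) (nat_lit 388) (nat_lit 347) (nat_lit 285))) (XT.nd (nat_lit 78) (nat_lit 76) (nat_lit 0) (XT.lf (nat_lit 0) (nat_lit 313536872426) (nat_lit 152) (nat_lit 21730411205) (nat_lit 0) (nat_lit 290767585803) (nat_lit 7) (nat_lit 5)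 (nat_lit 9) (nat_lit 4) (nat_lit 7) (nat_lit 4) (nat_lit 389) (nat_lit 347) (nat_lit 284)) (XT.lf (nat_lit 0) (nat_lit 239750149210) (nat_lit 76) (nat_lit 246322180611) (nat_lit 76) (nat_lit 223552448492) (nat_lit 6) (nat_lit 4) (nat_lit 7) (nat_lit 5) (nat_lit 7) (nat_lit 4) (nat_lit 390) (nat_lit 347) (nat_lit 283)))) (XT.nd (nat_lit 156) (nat_lit 152) (nat_lit 0) (XT.nd (nat_lit 78) (nat_lit 0) (nat_lit 0) (XT.lf (nat_lit 0) (nat_lit 541758993421) (nat_lit 76) (nat_lit 143357033011) (nat_lit 76) (nat_lit 120586913504) (nat_lit 6) (nat_lit 4) (nat_lit 7) (nat_lit 5) (nat_lit 7) (nat_lit 4) (nat_lit 391) (nat_lit 347) (nat_lit 282)) (XT.lf (nat_lit 0) (nat_lit 889060705174) (nat_lit 76) (nat_lit 24951453286) (nat_lit 76) (nat_lit 2180996920) (nat_lit 6) (nat_lit 4) (nat_lit 7) (nat_lit 5) (nat_lit 7) (nat_lit 4) (nat_lit 392) (nat_lit 347) (nat_lit 281))) (XT.nd (nat_lit 78) (nat_lit 0)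 (nat_lit 0) (XT.lf (nat_lit 0) (nat_lit 136322904013) (nat_lit 152) (nat_lit 790714164557) (nat_lit 0) (nat_lit 115238876895) (nat_lit 4) (nat_lit 5) (nat_lit 6) (nat_lit 4) (nat_lit 4) (nat_lit 4) (nat_lit 393) (nat_lit 347) (nat_lit 280)) (XT.lf (nat_lit 0) (nat_lit 296974020680) (nat_lit 152) (nat_lit 614282782166) (nat_lit 0) (nat_lit 275889757716) (nat_lit 4) (nat_lit 5) (nat_lit 6) (nat_lit 4) (nat_lit 4) (nat_lit 4) (nat_lit 394) (nat_lit 347) (nat_lit 279))))) (XT.nd (nat_lit 312) (nat_lit 0) (nat_lit 0) (XT.nd (nat_lit 156) (nat_lit 76) (nat_lit 0) (XT.nd (nat_lit 78) (nat_lit 0) (nat_lit 0) (XT.lf (nat_lit 0) (nat_lit 481719807384) (nat_lit 152) (nat_lit 411392861035) (nat_lit 0) (nat_lit 460635339336) (nat_lit 4) (nat_lit 5) (nat_lit 6) (nat_lit 4) (nat_lit 4) (nat_lit 4) (nat_lit 395) (nat_lit 347) (nat_lit 278)) (XT.lf (nat_lit 0) (nat_lit 694174855603) (nat_lit 152) (nat_lit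 178074815748) (nat_lit 0) (nat_lit 673090209222) (nat_lit 4) (nat_lit 5) (nat_lit 6) (nat_lit 4) (nat_lit 4) (nat_lit 4) (nat_lit 396) (nat_lit 347) (nat_lit 277))) (XT.nd (nat_lit 78) (nat_lit 0) (nat_lit 0) (XT.lf (nat_lit 0) (nat_lit 94987954140) (nat_lit 76) (nat_lit 845792402983) (nat_lit 76) (nat_lit 824707601529) (nat_lit 3) (nat_lit 4) (nat_lit 4) (nat_lit 5) (nat_lit 4) (nat_lit 4) (nat_lit 397) (nat_lit 347) (nat_lit 276)) (XT.lf (nat_lit 0) (nat_lit 419789539821) (nat_lit 76) (nat_lit 809769527148) (nat_lit 76) (nat_lit 788684590848) (nat_lit 3) (nat_lit 4) (nat_lit 4) (nat_lit 5) (nat_lit 4) (nat_lit 4) (nat_lit 398) (nat_lit 347) (nat_lit 275)))) (XT.nd (nat_lit 156) (nat_lit 0) (nat_lit 0) (XT.nd (nat_lit 78) (nat_lit 0) (nat_lit 0) (XT.lf (nat_lit 0) (nat_lit 793307650705) (nat_lit 76) (nat_lit 768345129487) (nat_lit 76) (nat_lit 747260075930) (nat_lit 3) (nat_lit 4) (nat_lit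 4) (nat_lit 5) (nat_lit 4) (nat_lit 4) (nat_lit 399) (nat_lit 347) (nat_lit 274)) (XT.lf (nat_lit 0) (nat_lit 1222850249832) (nat_lit 76) (nat_lit 720708732655) (nat_lit 76) (nat_lit 699623577135) (nat_lit 3) (nat_lit 4) (nat_lit 4) (nat_lit 5) (nat_lit 4) (nat_lit 4) (nat_lit 400) (nat_lit 347) (nat_lit 273))) (XT.nd (nat_lit 78) (nat_lit 0) (nat_lit 0) (XT.lf (nat_lit 0) (nat_lit 1716821431532) (nat_lit 76) (nat_lit 665928320192) (nat_lit 76) (nat_lit 644843076008) (nat_lit 3) (nat_lit 4) (nat_lit 4) (nat_lit 5) (nat_lit 4) (nat_lit 4) (nat_lit 401) (nat_lit 347) (nat_lit 272)) (XT.nd (nat_lit 78) (nat_lit 0) (nat_lit 0) (XT.lf (nat_lit 0) (nat_lit 2284885849361) (nat_lit 76) (nat_lit 602932101419) (nat_lit 76) (nat_lit 581846780137) (nat_lit 3) (nat_lit 4) (nat_lit 4) (nat_lit 5) (nat_lit 4) (nat_lit 4) (nat_lit 402) (nat_lit 347) (nat_lit 271)) (XT.lf (nat_lit 0) (nat_lit 2938157807145)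 (nat_lit 76) (nat_lit 530487541622) (nat_lit 76) (nat_lit 509402153298) (nat_lit 3) (nat_lit 4) (nat_lit 4) (nat_lit 5) (nat_lit 4) (nat_lit 4) (nat_lit 403) (nat_lit 347) (nat_lit 270))))))) (XT.nd (nat_lit 624) (nat_lit 0) (nat_lit 0) (XT.nd (nat_lit 312) (nat_lit 152) (nat_lit 0) (XT.nd (nat_lit 156) (nat_lit 0) (nat_lit 0) (XT.nd (nat_lit 78) (nat_lit 0) (nat_lit 0) (XT.lf (nat_lit 0) (nat_lit 3689418712754) (nat_lit 76) (nat_lit 447177247239) (nat_lit 76) (nat_lit 426091800617) (nat_lit 3) (nat_lit 4) (nat_lit 4) (nat_lit 5) (nat_lit 4) (nat_lit 4) (nat_lit 404) (nat_lit 347) (nat_lit 269)) (XT.lf (nat_lit 0) (nat_lit 4553367149125) (nat_lit 76) (nat_lit 351371234249) (nat_lit 76) (nat_lit 330285736934) (nat_lit 3) (nat_lit 4) (nat_lit 4) (nat_lit 5) (nat_lit 4) (nat_lit 4) (nat_lit 405) (nat_lit 347) (nat_lit 268))) (XT.nd (nat_lit 78) (nat_lit 0) (nat_lit 0) (XT.lf (nat_lit 0) (nat_lit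 5546906455228) (nat_lit 76) (nat_lit 241195037181) (nat_lit 76) (nat_lit 220109495785) (nat_lit 3) (nat_lit 4) (nat_lit 4) (nat_lit 5) (nat_lit 4) (nat_lit 4) (nat_lit 406) (nat_lit 347) (nat_lit 267)) (XT.lf (nat_lit 0) (nat_lit 6689475443576) (nat_lit 76) (nat_lit 114493034789) (nat_lit 76) (nat_lit 93407455061) (nat_lit 3) (nat_lit 4) (nat_lit 4) (nat_lit 5) (nat_lit 4) (nat_lit 4) (nat_lit 407) (nat_lit 347) (nat_lit 266)))) (XT.nd (nat_lit 156) (nat_lit 0) (nat_lit 0) (XT.nd (nat_lit 78) (nat_lit 0) (nat_lit 0) (XT.lf (nat_lit 0) (nat_lit 52602974815) (nat_lit 152) (nat_lit 7833899214683) (nat_lit 0) (nat_lit 33079259019) (nat_lit 1) (nat_lit 5) (nat_lit 3) (nat_lit 4) (nat_lit 1) (nat_lit 4) (nat_lit 408) (nat_lit 347) (nat_lit 265)) (XT.lf (nat_lit 0) (nat_lit 224517572602) (nat_lit 152) (nat_lit 8664649625524) (nat_lit 0) (nat_lit 204993829969) (nat_lit 1) (nat_lit 5) (nat_lit 3)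 (nat_lit 4) (nat_lit 1) (nat_lit 4) (nat_lit 409) (nat_lit 347) (nat_lit 264))) (XT.nd (nat_lit 78) (nat_lit 0) (nat_lit 0) (XT.lf (nat_lit 0) (nat_lit 422218931019) (nat_lit 152) (nat_lit 9620013482868) (nat_lit 0) (nat_lit 402695165049) (nat_lit 1) (nat_lit 5) (nat_lit 3) (nat_lit 4) (nat_lit 1) (nat_lit 4) (nat_lit 410) (nat_lit 347) (nat_lit 263)) (XT.lf (nat_lit 0) (nat_lit 649575120121) (nat_lit 152) (nat_lit 10718682688272) (nat_lit 0) (nat_lit 630051333858) (nat_lit 1) (nat_lit 5) (nat_lit 3) (nat_lit 4) (nat_lit 1) (nat_lit 4) (nat_lit 411) (nat_lit 347) (nat_lit 262))))) (XT.nd (nat_lit 312) (nat_lit 0) (nat_lit 0) (XT.nd (nat_lit 156) (nat_lit 0) (nat_lit 0) (XT.nd (nat_lit 78) (nat_lit 0) (nat_lit 0) (XT.lf (nat_lit 0) (nat_lit 911034413174) (nat_lit 152) (nat_lit 11982152943581) (nat_lit 0) (nat_lit 891510609265) (nat_lit 1) (nat_lit 5) (nat_lit 3) (nat_lit 4) (nat_lit 1) (nat_lit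 4) (nat_lit 412) (nat_lit 347) (nat_lit 261)) (XT.lf (nat_lit 0) (nat_lit 1211712318086) (nat_lit 152) (nat_lit 13435144319008) (nat_lit 0) (nat_lit 1192188498832) (nat_lit 1) (nat_lit 5) (nat_lit 3) (nat_lit 4) (nat_lit 1) (nat_lit 4) (nat_lit 413) (nat_lit 347) (nat_lit 260))) (XT.nd (nat_lit 78) (nat_lit 0) (nat_lit 0) (XT.lf (nat_lit 0) (nat_lit 1557491663430) (nat_lit 152) (nat_lit 15106084906680) (nat_lit 0) (nat_lit 1537967830834) (nat_lit 1) (nat_lit 5) (nat_lit 3) (nat_lit 4) (nat_lit 1) (nat_lit 4) (nat_lit 414) (nat_lit 347) (nat_lit 259)) (XT.lf (nat_lit 0) (nat_lit 1955137697267) (nat_lit 152) (nat_lit 17027667022444) (nat_lit 0) (nat_lit 1935613853069) (nat_lit 1) (nat_lit 5) (nat_lit 3) (nat_lit 4) (nat_lit 1) (nat_lit 4) (nat_lit 415) (nat_lit 347) (nat_lit 258)))) (XT.nd (nat_lit 156) (nat_lit 0) (nat_lit 0) (XT.nd (nat_lit 78) (nat_lit 0) (nat_lit 0) (XT.lf (nat_lit 0) (nat_lit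 2412430450695) (nat_lit 152) (nat_lit 19237486838129) (nat_lit 0) (nat_lit 2392906596408) (nat_lit 1) (nat_lit 5) (nat_lit 3) (nat_lit 4) (nat_lit 1) (nat_lit 4) (nat_lit 416) (nat_lit 347) (nat_lit 257)) (XT.lf (nat_lit 0) (nat_lit 2938316955846) (nat_lit 152) (nat_lit 21778779958825) (nat_lit 0) (nat_lit 2918793092786) (nat_lit 1) (nat_lit 5) (nat_lit 3) (nat_lit 4) (nat_lit 1) (nat_lit 4) (nat_lit 417) (nat_lit 347) (nat_lit 256))) (XT.nd (nat_lit 47658) (nat_lit 0) (nat_lit 5852) (XT.lf (nat_lit 0) (nat_lit 3543086296517) (nat_lit 152) (nat_lit 24701267336893) (nat_lit 0) (nat_lit 3523562425827) (nat_lit 1) (nat_lit 5) (nat_lit 3) (nat_lit 4) (nat_lit 1) (nat_lit 4) (nat_lit 418) (nat_lit 347) (nat_lit 255)) (XT.nd (nat_lit 78) (nat_lit 0) (nat_lit 76) (XT.lf (nat_lit 0) (nat_lit 4165003948) (nat_lit 532) (nat_lit 1094355948) (nat_lit 532) (nat_lit 1094355948) (nat_lit 78) (nat_lit 3)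 (nat_lit 85) (nat_lit 3) (nat_lit 85) (nat_lit 5) (nat_lit 348) (nat_lit 348) (nat_lit 324)) (XT.lf (nat_lit 0) (nat_lit 9919209798) (nat_lit 456) (nat_lit 3515613190) (nat_lit 532) (nat_lit 148221198) (nat_lit 79) (nat_lit 5) (nat_lit 85) (nat_lit 5) (nat_lit 86) (nat_lit 5) (nat_lit 349) (nat_lit 348) (nat_lit 323))))))))
noncomputable def xc63 : XT := (XT.nd (nat_lit 1326) (nat_lit 1824) (nat_lit 0) (XT.nd (nat_lit 624) (nat_lit 1596) (nat_lit 0) (XT.nd (nat_lit 312) (nat_lit 912) (nat_lit 0) (XT.nd (nat_lit 156) (nat_lit 836) (nat_lit 0) (XT.nd (nat_lit 78) (nat_lit 0) (nat_lit 76) (XT.lf (nat_lit 76) (nat_lit 9823952551) (nat_lit 0) (nat_lit 2387096271) (nat_lit 532) (nat_lit 2341860604) (nat_lit 80) (nat_lit 5) (nat_lit 79) (nat_lit 5) (nat_lit 86) (nat_lit 5) (nat_lit 350) (nat_lit 348) (nat_lit 322)) (XT.lf (nat_lit 76) (nat_lit 9872996334) (nat_lit 0) (nat_lit 5451701464) (nat_lit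 532) (nat_lit 305358639) (nat_lit 81) (nat_lit 5) (nat_lit 80) (nat_lit 5) (nat_lit 87) (nat_lit 5) (nat_lit 351) (nat_lit 348) (nat_lit 321))) (XT.nd (nat_lit 78) (nat_lit 456) (nat_lit 0) (XT.lf (nat_lit 0) (nat_lit 2485257090) (nat_lit 532) (nat_lit 6621126961) (nat_lit 76) (nat_lit 7714467517) (nat_lit 74) (nat_lit 5) (nat_lit 81) (nat_lit 5) (nat_lit 75) (nat_lit 5) (nat_lit 352) (nat_lit 348) (nat_lit 320)) (XT.lf (nat_lit 0) (nat_lit 6290756900) (nat_lit 532) (nat_lit 7242592703) (nat_lit 76) (nat_lit 4607163371) (nat_lit 68) (nat_lit 5) (nat_lit 75) (nat_lit 5) (nat_lit 69) (nat_lit 5) (nat_lit 353) (nat_lit 348) (nat_lit 319)))) (XT.nd (nat_lit 156) (nat_lit 456) (nat_lit 0) (XT.nd (nat_lit 78) (nat_lit 228) (nat_lit 0) (XT.lf (nat_lit 0) (nat_lit 11343970428) (nat_lit 304) (nat_lit 7558512800) (nat_lit 76) (nat_lit 701516483) (nat_lit 65) (nat_lit 5) (nat_lit 69) (nat_lit 5) (nat_lit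 66) (nat_lit 5) (nat_lit 354) (nat_lit 348) (nat_lit 318)) (XT.lf (nat_lit 0) (nat_lit 13612914449) (nat_lit 228) (nat_lit 4388125425) (nat_lit 304) (nat_lit 3218323343) (nat_lit 62) (nat_lit 5) (nat_lit 65) (nat_lit 5) (nat_lit 66) (nat_lit 5) (nat_lit 355) (nat_lit 348) (nat_lit 317))) (XT.nd (nat_lit 78) (nat_lit 228) (nat_lit 0) (XT.lf (nat_lit 0) (nat_lit 3308216207) (nat_lit 228) (nat_lit 7329957969) (nat_lit 76) (nat_lit 12365303169) (nat_lit 59) (nat_lit 5) (nat_lit 62) (nat_lit 5) (nat_lit 60) (nat_lit 5) (nat_lit 356) (nat_lit 348) (nat_lit 316)) (XT.lf (nat_lit 0) (nat_lit 11534041573) (nat_lit 304) (nat_lit 6660741634) (nat_lit 76) (nat_lit 6780885287) (nat_lit 56) (nat_lit 5) (nat_lit 60) (nat_lit 5) (nat_lit 57) (nat_lit 5) (nat_lit 357) (nat_lit 348) (nat_lit 315))))) (XT.nd (nat_lit 312) (nat_lit 836) (nat_lit 0) (XT.nd (nat_lit 156) (nat_lit 380) (nat_lit 0) (XT.nd (nat_lit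 78) (nat_lit 228) (nat_lit 0) (XT.lf (nat_lit 0) (nat_lit 21736448586) (nat_lit 152) (nat_lit 239165257) (nat_lit 228) (nat_lit 5189539035) (nat_lit 54) (nat_lit 5) (nat_lit 56) (nat_lit 5) (nat_lit 57) (nat_lit 5) (nat_lit 358) (nat_lit 348) (nat_lit 314)) (XT.lf (nat_lit 0) (nat_lit 5380494769) (nat_lit 228) (nat_lit 3863831828) (nat_lit 76) (nat_lit 20326850681) (nat_lit 51) (nat_lit 5) (nat_lit 54) (nat_lit 5) (nat_lit 52) (nat_lit 5) (nat_lit 359) (nat_lit 348) (nat_lit 313))) (XT.nd (nat_lit 78) (nat_lit 228) (nat_lit 0) (XT.lf (nat_lit 0) (nat_lit 18408688713) (nat_lit 228) (nat_lit 1726602002) (nat_lit 76) (nat_lit 12097646559) (nat_lit 49) (nat_lit 5) (nat_lit 52) (nat_lit 5) (nat_lit 50) (nat_lit 5) (nat_lit 360) (nat_lit 348) (nat_lit 312)) (XT.lf (nat_lit 0) (nat_lit 1304648186) (nat_lit 76) (nat_lit 33370070838) (nat_lit 152) (nat_lit 516562435) (nat_lit 46) (nat_lit 5) (nat_lit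 47) (nat_lit 5) (nat_lit 48) (nat_lit 4) (nat_lit 361) (nat_lit 348) (nat_lit 311)))) (XT.nd (nat_lit 156) (nat_lit 532) (nat_lit 0) (XT.nd (nat_lit 78) (nat_lit 76) (nat_lit 0) (XT.lf (nat_lit 0) (nat_lit 4748135788) (nat_lit 152) (nat_lit 10999851023) (nat_lit 228) (nat_lit 22680912405) (nat_lit 43) (nat_lit 5) (nat_lit 45) (nat_lit 5) (nat_lit 46) (nat_lit 5) (nat_lit 362) (nat_lit 348) (nat_lit 310)) (XT.lf (nat_lit 0) (nat_lit 9156610714) (nat_lit 76) (nat_lit 26814952758) (nat_lit 152) (nat_lit 6055534427) (nat_lit 42) (nat_lit 5) (nat_lit 43) (nat_lit 5) (nat_lit 44) (nat_lit 4) (nat_lit 363) (nat_lit 348) (nat_lit 309))) (XT.nd (nat_lit 78) (nat_lit 304) (nat_lit 0) (XT.lf (nat_lit 0) (nat_lit 14040099535) (nat_lit 228) (nat_lit 31631010513) (nat_lit 76) (nat_lit 338391114) (nat_lit 39) (nat_lit 5) (nat_lit 42) (nat_lit 5) (nat_lit 40) (nat_lit 4) (nat_lit 364) (nat_lit 348) (nat_lit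 308)) (XT.nd (nat_lit 78) (nat_lit 228) (nat_lit 0) (XT.lf (nat_lit 0) (nat_lit 20212217125) (nat_lit 76) (nat_lit 18766806281) (nat_lit 152) (nat_lit 11422662880) (nat_lit 38) (nat_lit 5) (nat_lit 39) (nat_lit 5) (nat_lit 40) (nat_lit 4) (nat_lit 365) (nat_lit 348) (nat_lit 307)) (XT.lf (nat_lit 0) (nat_lit 13509795343) (nat_lit 228) (nat_lit 28279262002) (nat_lit 76) (nat_lit 13487016236) (nat_lit 35) (nat_lit 5) (nat_lit 38) (nat_lit 5) (nat_lit 36) (nat_lit 4) (nat_lit 366) (nat_lit 348) (nat_lit 306))))))) (XT.nd (nat_lit 702) (nat_lit 836) (nat_lit 0) (XT.nd (nat_lit 312) (nat_lit 532) (nat_lit 0) (XT.nd (nat_lit 156) (nat_lit 228) (nat_lit 0) (XT.nd (nat_lit 78) (nat_lit 152) (nat_lit 0) (XT.lf (nat_lit 0) (nat_lit 34599596841) (nat_lit 76) (nat_lit 9150427641) (nat_lit 152) (nat_lit 16928321995) (nat_lit 34) (nat_lit 5) (nat_lit 35) (nat_lit 5) (nat_lit 36) (nat_lit 4) (nat_lit 367)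 (nat_lit 348) (nat_lit 305)) (XT.lf (nat_lit 0) (nat_lit 13659810417) (nat_lit 152) (nat_lit 23826998484) (nat_lit 76) (nat_lit 29173245119) (nat_lit 32) (nat_lit 5) (nat_lit 34) (nat_lit 5) (nat_lit 33) (nat_lit 4) (nat_lit 368) (nat_lit 348) (nat_lit 304))) (XT.nd (nat_lit 78) (nat_lit 152) (nat_lit 0) (XT.lf (nat_lit 0) (nat_lit 50165807576) (nat_lit 152) (nat_lit 21368983903) (nat_lit 0) (nat_lit 1782493355) (nat_lit 31) (nat_lit 5) (nat_lit 33) (nat_lit 4) (nat_lit 31) (nat_lit 4) (nat_lit 369) (nat_lit 348) (nat_lit 303)) (XT.lf (nat_lit 0) (nat_lit 13906330757) (nat_lit 152) (nat_lit 19469881514) (nat_lit 76) (nat_lit 47312131684) (nat_lit 29) (nat_lit 5) (nat_lit 31) (nat_lit 5) (nat_lit 30) (nat_lit 4) (nat_lit 370) (nat_lit 348) (nat_lit 302)))) (XT.nd (nat_lit 156) (nat_lit 304) (nat_lit 0) (XT.nd (nat_lit 78) (nat_lit 152) (nat_lit 0) (XT.lf (nat_lit 0) (nat_lit 57851396698) (nat_lit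 152) (nat_lit 18017889750) (nat_lit 0) (nat_lit 13031717002) (nat_lit 28) (nat_lit 5) (nat_lit 30) (nat_lit 4) (nat_lit 28) (nat_lit 4) (nat_lit 371) (nat_lit 348) (nat_lit 301)) (XT.lf (nat_lit 0) (nat_lit 13055865701) (nat_lit 152) (nat_lit 17671695285) (nat_lit 76) (nat_lit 67317433606) (nat_lit 26) (nat_lit 5) (nat_lit 28) (nat_lit 5) (nat_lit 27) (nat_lit 4) (nat_lit 372) (nat_lit 348) (nat_lit 300))) (XT.nd (nat_lit 78) (nat_lit 228) (nat_lit 0) (XT.lf (nat_lit 0) (nat_lit 65268771412) (nat_lit 152) (nat_lit 19206042701) (nat_lit 0) (nat_lit 23754845014) (nat_lit 25) (nat_lit 5) (nat_lit 27) (nat_lit 4) (nat_lit 25) (nat_lit 4) (nat_lit 373) (nat_lit 348) (nat_lit 299)) (XT.nd (nat_lit 78) (nat_lit 76) (nat_lit 0) (XT.lf (nat_lit 0) (nat_lit 8888231816) (nat_lit 152) (nat_lit 23032156686) (nat_lit 76) (nat_lit 87708472656) (nat_lit 23) (nat_lit 5) (nat_lit 25) (nat_lit 5) (nat_lit 24)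 (nat_lit 4) (nat_lit 374) (nat_lit 348) (nat_lit 298)) (XT.lf (nat_lit 0) (nat_lit 69851709188) (nat_lit 152) (nat_lit 31083574869) (nat_lit 0) (nat_lit 31402930474) (nat_lit 22) (nat_lit 5) (nat_lit 24) (nat_lit 4) (nat_lit 22) (nat_lit 4) (nat_lit 375) (nat_lit 348) (nat_lit 297)))))) (XT.nd (nat_lit 312) (nat_lit 380) (nat_lit 0) (XT.nd (nat_lit 156) (nat_lit 228) (nat_lit 0) (XT.nd (nat_lit 78) (nat_lit 152) (nat_lit 0) (XT.lf (nat_lit 0) (nat_lit 102895904889) (nat_lit 76) (nat_lit 41094219768) (nat_lit 76) (nat_lit 2641413562) (nat_lit 21) (nat_lit 4) (nat_lit 22) (nat_lit 5) (nat_lit 22) (nat_lit 4) (nat_lit 376) (nat_lit 348) (nat_lit 296)) (XT.lf (nat_lit 0) (nat_lit 66963193781) (nat_lit 152) (nat_lit 64295365804) (nat_lit 0) (nat_lit 31355500842) (nat_lit 19) (nat_lit 5) (nat_lit 21) (nat_lit 4) (nat_lit 19) (nat_lit 4) (nat_lit 377) (nat_lit 348) (nat_lit 295))) (XT.nd (nat_lit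 78) (nat_lit 152) (nat_lit 0) (XT.lf (nat_lit 0) (nat_lit 86495187562) (nat_lit 76) (nat_lit 64871322207) (nat_lit 76) (nat_lit 29260809488) (nat_lit 18) (nat_lit 4) (nat_lit 19) (nat_lit 5) (nat_lit 19) (nat_lit 4) (nat_lit 378) (nat_lit 348) (nat_lit 294)) (XT.lf (nat_lit 0) (nat_lit 48590102526) (nat_lit 152) (nat_lit 136738103275) (nat_lit 0) (nat_lit 15615135209) (nat_lit 16) (nat_lit 5) (nat_lit 18) (nat_lit 4) (nat_lit 16) (nat_lit 4) (nat_lit 379) (nat_lit 348) (nat_lit 293)))) (XT.nd (nat_lit 156) (nat_lit 228) (nat_lit 0) (XT.nd (nat_lit 78) (nat_lit 76) (nat_lit 0) (XT.lf (nat_lit 0) (nat_lit 26535352273) (nat_lit 76) (nat_lit 115132506022) (nat_lit 76) (nat_lit 82155564484) (nat_lit 15) (nat_lit 4) (nat_lit 16) (nat_lit 5) (nat_lit 16) (nat_lit 4) (nat_lit 380) (nat_lit 348) (nat_lit 292)) (XT.lf (nat_lit 0) (nat_lit 2716728509) (nat_lit 152) (nat_lit 27327862953) (nat_lit 76)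 (nat_lit 219767791809) (nat_lit 14) (nat_lit 5) (nat_lit 16) (nat_lit 5) (nat_lit 15) (nat_lit 4) (nat_lit 381) (nat_lit 348) (nat_lit 291))) (XT.nd (nat_lit 78) (nat_lit 152) (nat_lit 0) (XT.lf (nat_lit 0) (nat_lit 101581137327) (nat_lit 152) (nat_lit 106413813587) (nat_lit 0) (nat_lit 71043960431) (nat_lit 13) (nat_lit 5) (nat_lit 15) (nat_lit 4) (nat_lit 13) (nat_lit 4) (nat_lit 382) (nat_lit 348) (nat_lit 290)) (XT.nd (nat_lit 78) (nat_lit 76) (nat_lit 0) (XT.lf (nat_lit 0) (nat_lit 95550292548) (nat_lit 76) (nat_lit 123661297254) (nat_lit 76) (nat_lit 93122918429) (nat_lit 12) (nat_lit 4) (nat_lit 13) (nat_lit 5) (nat_lit 13) (nat_lit 4) (nat_lit 383) (nat_lit 348) (nat_lit 289)) (XT.lf (nat_lit 0) (nat_lit 6839255652) (nat_lit 152) (nat_lit 16313772221) (nat_lit 76) (nat_lit 327210362808) (nat_lit 11) (nat_lit 5) (nat_lit 13) (nat_lit 5) (nat_lit 12) (nat_lit 4) (nat_lit 384) (nat_lit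 348) (nat_lit 288))))))))
noncomputable def xc64 : XT := (XT.nd (nat_lit 1326) (nat_lit 152) (nat_lit 0) (XT.nd (nat_lit 624) (nat_lit 228) (nat_lit 0) (XT.nd (nat_lit 312) (nat_lit 76) (nat_lit 0) (XT.nd (nat_lit 156) (nat_lit 152) (nat_lit 0) (XT.nd (nat_lit 78) (nat_lit 76) (nat_lit 0) (XT.lf (nat_lit 0) (nat_lit 124218152641) (nat_lit 152) (nat_lit 173109979098) (nat_lit 0) (nat_lit 95940066705) (nat_lit 10) (nat_lit 5) (nat_lit 12) (nat_lit 4) (nat_lit 10) (nat_lit 4) (nat_lit 385) (nat_lit 348) (nat_lit 287)) (XT.lf (nat_lit 0) (nat_lit 52476757996) (nat_lit 76) (nat_lit 209110075609) (nat_lit 76) (nat_lit 180831257926) (nat_lit 9) (nat_lit 4) (nat_lit 10) (nat_lit 5) (nat_lit 10) (nat_lit 4) (nat_lit 386) (nat_lit 348) (nat_lit 286))) (XT.nd (nat_lit 78) (nat_lit 152) (nat_lit 0) (XT.lf (nat_lit 0) (nat_lit 322371850391) (nat_lit 76) (nat_lit 102222687299) (nat_lit 76) (nat_lit 73943233313)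 (nat_lit 9) (nat_lit 4) (nat_lit 10) (nat_lit 5) (nat_lit 10) (nat_lit 4) (nat_lit 387) (nat_lit 348) (nat_lit 285)) (XT.lf (nat_lit 0) (nat_lit 48829506091) (nat_lit 152) (nat_lit 491323221371) (nat_lit 0) (nat_lit 22644314154) (nat_lit 7) (nat_lit 5) (nat_lit 9) (nat_lit 4) (nat_lit 7) (nat_lit 4) (nat_lit 388) (nat_lit 348) (nat_lit 284)))) (XT.nd (nat_lit 156) (nat_lit 76) (nat_lit 0) (XT.nd (nat_lit 78) (nat_lit 0) (nat_lit 0) (XT.lf (nat_lit 0) (nat_lit 193848522709) (nat_lit 152) (nat_lit 274373456162) (nat_lit 0) (nat_lit 167662885276) (nat_lit 7) (nat_lit 5) (nat_lit 9) (nat_lit 4) (nat_lit 7) (nat_lit 4) (nat_lit 389) (nat_lit 348) (nat_lit 283)) (XT.lf (nat_lit 0) (nat_lit 360615888841) (nat_lit 152) (nat_lit 24890467492) (nat_lit 0) (nat_lit 334429864020) (nat_lit 7) (nat_lit 5) (nat_lit 9) (nat_lit 4) (nat_lit 7) (nat_lit 4) (nat_lit 390) (nat_lit 348) (nat_lit 282))) (XT.nd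 (nat_lit 78) (nat_lit 0) (nat_lit 0) (XT.lf (nat_lit 0) (nat_lit 275803754349) (nat_lit 76) (nat_lit 283223776837) (nat_lit 76) (nat_lit 257037415156) (nat_lit 6) (nat_lit 4) (nat_lit 7) (nat_lit 5) (nat_lit 7) (nat_lit 4) (nat_lit 391) (nat_lit 348) (nat_lit 281)) (XT.lf (nat_lit 0) (nat_lit 623102044832) (nat_lit 76) (nat_lit 164819952427) (nat_lit 76) (nat_lit 138633297825) (nat_lit 6) (nat_lit 4) (nat_lit 7) (nat_lit 5) (nat_lit 7) (nat_lit 4) (nat_lit 392) (nat_lit 348) (nat_lit 280))))) (XT.nd (nat_lit 312) (nat_lit 76) (nat_lit 0) (XT.nd (nat_lit 156) (nat_lit 0) (nat_lit 0) (XT.nd (nat_lit 78) (nat_lit 152) (nat_lit 0) (XT.lf (nat_lit 0) (nat_lit 1022488682600) (nat_lit 76) (nat_lit 28658836030) (nat_lit 76) (nat_lit 2471926715) (nat_lit 6) (nat_lit 4) (nat_lit 7) (nat_lit 5) (nat_lit 7) (nat_lit 4) (nat_lit 393) (nat_lit 348) (nat_lit 279)) (XT.lf (nat_lit 0) (nat_lit 156803614632)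 (nat_lit 152) (nat_lit 909254869014) (nat_lit 0) (nat_lit 132556271293) (nat_lit 4) (nat_lit 5) (nat_lit 6) (nat_lit 4) (nat_lit 4) (nat_lit 4) (nat_lit 394) (nat_lit 348) (nat_lit 278))) (XT.nd (nat_lit 78) (nat_lit 0) (nat_lit 0) (XT.lf (nat_lit 0) (nat_lit 341548189014) (nat_lit 152) (nat_lit 706367442773) (nat_lit 0) (nat_lit 317300667342) (nat_lit 4) (nat_lit 5) (nat_lit 6) (nat_lit 4) (nat_lit 4) (nat_lit 4) (nat_lit 395) (nat_lit 348) (nat_lit 277)) (XT.lf (nat_lit 0) (nat_lit 554002183041) (nat_lit 152) (nat_lit 473051566956) (nat_lit 0) (nat_lit 529754506296) (nat_lit 4) (nat_lit 5) (nat_lit 6) (nat_lit 4) (nat_lit 4) (nat_lit 4) (nat_lit 396) (nat_lit 348) (nat_lit 276)))) (XT.nd (nat_lit 156) (nat_lit 0) (nat_lit 0) (XT.nd (nat_lit 78) (nat_lit 76) (nat_lit 0) (XT.lf (nat_lit 0) (nat_lit 798322305291) (nat_lit 152) (nat_lit 204742365733) (nat_lit 0) (nat_lit 774074493700) (nat_lit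 4) (nat_lit 5) (nat_lit 6) (nat_lit 4) (nat_lit 4) (nat_lit 4) (nat_lit 397) (nat_lit 348) (nat_lit 275)) (XT.lf (nat_lit 0) (nat_lit 109276122989) (nat_lit 76) (nat_lit 972640702466) (nat_lit 76) (nat_lit 948392773618) (nat_lit 3) (nat_lit 4) (nat_lit 4) (nat_lit 5) (nat_lit 4) (nat_lit 4) (nat_lit 398) (nat_lit 348) (nat_lit 274))) (XT.nd (nat_lit 78) (nat_lit 0) (nat_lit 0) (XT.lf (nat_lit 0) (nat_lit 482792732296) (nat_lit 76) (nat_lit 931217077120) (nat_lit 76) (nat_lit 906969046309) (nat_lit 3) (nat_lit 4) (nat_lit 4) (nat_lit 5) (nat_lit 4) (nat_lit 4) (nat_lit 399) (nat_lit 348) (nat_lit 273)) (XT.nd (nat_lit 78) (nat_lit 0) (nat_lit 0) (XT.lf (nat_lit 0) (nat_lit 912334025704) (nat_lit 76) (nat_lit 883581351866) (nat_lit 76) (nat_lit 859333232392) (nat_lit 3) (nat_lit 4) (nat_lit 4) (nat_lit 5) (nat_lit 4) (nat_lit 4) (nat_lit 400) (nat_lit 348) (nat_lit 272)) (XT.lf (nat_lit 0)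 (nat_lit 1406304071997) (nat_lit 76) (nat_lit 828801523385) (nat_lit 76) (nat_lit 804553326812) (nat_lit 3) (nat_lit 4) (nat_lit 4) (nat_lit 5) (nat_lit 4) (nat_lit 4) (nat_lit 401) (nat_lit 348) (nat_lit 271))))))) (XT.nd (nat_lit 624) (nat_lit 0) (nat_lit 0) (XT.nd (nat_lit 312) (nat_lit 152) (nat_lit 0) (XT.nd (nat_lit 156) (nat_lit 0) (nat_lit 0) (XT.nd (nat_lit 78) (nat_lit 0) (nat_lit 0) (XT.lf (nat_lit 0) (nat_lit 1974367502514) (nat_lit 76) (nat_lit 765805812422) (nat_lit 76) (nat_lit 741557548807) (nat_lit 3) (nat_lit 4) (nat_lit 4) (nat_lit 5) (nat_lit 4) (nat_lit 4) (nat_lit 402) (nat_lit 348) (nat_lit 270)) (XT.lf (nat_lit 0) (nat_lit 2627638601767) (nat_lit 76) (nat_lit 693361694199) (nat_lit 76) (nat_lit 669113372286) (nat_lit 3) (nat_lit 4) (nat_lit 4) (nat_lit 5) (nat_lit 4) (nat_lit 4) (nat_lit 403) (nat_lit 348) (nat_lit 269))) (XT.nd (nat_lit 78) (nat_lit 0) (nat_lit 0)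 (XT.lf (nat_lit 0) (nat_lit 3378898760827) (nat_lit 76) (nat_lit 610051783793) (nat_lit 76) (nat_lit 585803411187) (nat_lit 3) (nat_lit 4) (nat_lit 4) (nat_lit 5) (nat_lit 4) (nat_lit 4) (nat_lit 404) (nat_lit 348) (nat_lit 268)) (XT.lf (nat_lit 0) (nat_lit 4242846548024) (nat_lit 76) (nat_lit 514246104696) (nat_lit 76) (nat_lit 489997688009) (nat_lit 3) (nat_lit 4) (nat_lit 4) (nat_lit 5) (nat_lit 4) (nat_lit 4) (nat_lit 405) (nat_lit 348) (nat_lit 267)))) (XT.nd (nat_lit 156) (nat_lit 152) (nat_lit 0) (XT.nd (nat_lit 78) (nat_lit 0) (nat_lit 0) (XT.lf (nat_lit 0) (nat_lit 5236385289630) (nat_lit 76) (nat_lit 404070197970) (nat_lit 76) (nat_lit 379821742951) (nat_lit 3) (nat_lit 4) (nat_lit 4) (nat_lit 5) (nat_lit 4) (nat_lit 4) (nat_lit 406) (nat_lit 348) (nat_lit 266)) (XT.lf (nat_lit 0) (nat_lit 6378953787109) (nat_lit 76) (nat_lit 277368448049) (nat_lit 76) (nat_lit 253119959698) (nat_lit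 3) (nat_lit 4) (nat_lit 4) (nat_lit 5) (nat_lit 4) (nat_lit 4) (nat_lit 407) (nat_lit 348) (nat_lit 265))) (XT.nd (nat_lit 78) (nat_lit 152) (nat_lit 0) (XT.lf (nat_lit 0) (nat_lit 7692906641501) (nat_lit 76) (nat_lit 131661907651) (nat_lit 76) (nat_lit 107413390316) (nat_lit 3) (nat_lit 4) (nat_lit 4) (nat_lit 5) (nat_lit 4) (nat_lit 4) (nat_lit 408) (nat_lit 348) (nat_lit 264)) (XT.lf (nat_lit 0) (nat_lit 60498040683) (nat_lit 152) (nat_lit 9008974569020) (nat_lit 0) (nat_lit 38045686481) (nat_lit 1) (nat_lit 5) (nat_lit 3) (nat_lit 4) (nat_lit 1) (nat_lit 4) (nat_lit 409) (nat_lit 348) (nat_lit 263))))) (XT.nd (nat_lit 312) (nat_lit 0) (nat_lit 0) (XT.nd (nat_lit 156) (nat_lit 0) (nat_lit 0) (XT.nd (nat_lit 78) (nat_lit 0) (nat_lit 0) (XT.lf (nat_lit 0) (nat_lit 258199225576) (nat_lit 152) (nat_lit 9964338784252) (nat_lit 0) (nat_lit 235746851080) (nat_lit 1) (nat_lit 5) (nat_lit 3) (nat_lit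 4) (nat_lit 1) (nat_lit 4) (nat_lit 410) (nat_lit 348) (nat_lit 262)) (XT.lf (nat_lit 0) (nat_lit 485555263787) (nat_lit 152) (nat_lit 11063008300863) (nat_lit 0) (nat_lit 463102871646) (nat_lit 1) (nat_lit 5) (nat_lit 3) (nat_lit 4) (nat_lit 1) (nat_lit 4) (nat_lit 411) (nat_lit 348) (nat_lit 261))) (XT.nd (nat_lit 78) (nat_lit 0) (nat_lit 0) (XT.lf (nat_lit 0) (nat_lit 747014425631) (nat_lit 152) (nat_lit 12326478826787) (nat_lit 0) (nat_lit 724562018146) (nat_lit 1) (nat_lit 5) (nat_lit 3) (nat_lit 4) (nat_lit 1) (nat_lit 4) (nat_lit 412) (nat_lit 348) (nat_lit 260)) (XT.lf (nat_lit 0) (nat_lit 1047692216448) (nat_lit 152) (nat_lit 13779470437530) (nat_lit 0) (nat_lit 1025239795620) (nat_lit 1) (nat_lit 5) (nat_lit 3) (nat_lit 4) (nat_lit 1) (nat_lit 4) (nat_lit 413) (nat_lit 348) (nat_lit 259)))) (XT.nd (nat_lit 156) (nat_lit 0) (nat_lit 0) (XT.nd (nat_lit 78) (nat_lit 0) (nat_lit 0)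 (XT.lf (nat_lit 0) (nat_lit 1393471462579) (nat_lit 152) (nat_lit 15450411229826) (nat_lit 0) (nat_lit 1371019030148) (nat_lit 1) (nat_lit 5) (nat_lit 3) (nat_lit 4) (nat_lit 1) (nat_lit 4) (nat_lit 414) (nat_lit 348) (nat_lit 258)) (XT.lf (nat_lit 0) (nat_lit 1791117410144) (nat_lit 152) (nat_lit 17371993523523) (nat_lit 0) (nat_lit 1768664967624) (nat_lit 1) (nat_lit 5) (nat_lit 3) (nat_lit 4) (nat_lit 1) (nat_lit 4) (nat_lit 415) (nat_lit 348) (nat_lit 257))) (XT.nd (nat_lit 78) (nat_lit 0) (nat_lit 0) (XT.lf (nat_lit 0) (nat_lit 2248410088553) (nat_lit 152) (nat_lit 19581813493933) (nat_lit 0) (nat_lit 2225957637260) (nat_lit 1) (nat_lit 5) (nat_lit 3) (nat_lit 4) (nat_lit 1) (nat_lit 4) (nat_lit 416) (nat_lit 348) (nat_lit 256)) (XT.nd (nat_lit 78) (nat_lit 0) (nat_lit 0) (XT.lf (nat_lit 0) (nat_lit 2774296528470) (nat_lit 152) (nat_lit 22123106749172) (nat_lit 0) (nat_lit 2751844069548)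 (nat_lit 1) (nat_lit 5) (nat_lit 3) (nat_lit 4) (nat_lit 1) (nat_lit 4) (nat_lit 417) (nat_lit 348) (nat_lit 255)) (XT.lf (nat_lit 0) (nat_lit 3379065812415) (nat_lit 152) (nat_lit 25045594244235) (nat_lit 0) (nat_lit 3356613346860) (nat_lit 1) (nat_lit 5) (nat_lit 3) (nat_lit 4) (nat_lit 1) (nat_lit 4) (nat_lit 418) (nat_lit 348) (nat_lit 254))))))))
noncomputable def xc65 : XT := (XT.nd (nat_lit 1326) (nat_lit 1900) (nat_lit 0) (XT.nd (nat_lit 624) (nat_lit 1748) (nat_lit 0) (XT.nd (nat_lit 312) (nat_lit 836) (nat_lit 0) (XT.nd (nat_lit 156) (nat_lit 380) (nat_lit 0) (XT.nd (nat_lit 78) (nat_lit 0) (nat_lit 0) (XT.lf (nat_lit 0) (nat_lit 5478483289) (nat_lit 532) (nat_lit 886457407) (nat_lit 532) (nat_lit 886457407) (nat_lit 78) (nat_lit 3) (nat_lit 85) (nat_lit 3) (nat_lit 85) (nat_lit 5) (nat_lit 349) (nat_lit 349) (nat_lit 322)) (XT.lf (nat_lit 76) (nat_lit 12263325352) (nat_lit 0) (nat_lit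 353620676) (nat_lit 532) (nat_lit 2906284981) (nat_lit 79) (nat_lit 5) (nat_lit 78) (nat_lit 3) (nat_lit 85) (nat_lit 5) (nat_lit 350) (nat_lit 349) (nat_lit 321))) (XT.nd (nat_lit 78) (nat_lit 456) (nat_lit 0) (XT.lf (nat_lit 76) (nat_lit 12022098420) (nat_lit 0) (nat_lit 3082685568) (nat_lit 532) (nat_lit 1545676995) (nat_lit 80) (nat_lit 5) (nat_lit 79) (nat_lit 5) (nat_lit 86) (nat_lit 5) (nat_lit 351) (nat_lit 349) (nat_lit 320)) (XT.lf (nat_lit 0) (nat_lit 625518770) (nat_lit 532) (nat_lit 5812520300) (nat_lit 608) (nat_lit 11460135237) (nat_lit 73) (nat_lit 5) (nat_lit 80) (nat_lit 5) (nat_lit 81) (nat_lit 5) (nat_lit 352) (nat_lit 349) (nat_lit 319)))) (XT.nd (nat_lit 156) (nat_lit 456) (nat_lit 0) (XT.nd (nat_lit 78) (nat_lit 456) (nat_lit 0) (XT.lf (nat_lit 0) (nat_lit 3706784616) (nat_lit 532) (nat_lit 6811029323) (nat_lit 76) (nat_lit 8757973150) (nat_lit 74) (nat_lit 5) (nat_lit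 81) (nat_lit 5) (nat_lit 75) (nat_lit 5) (nat_lit 353) (nat_lit 349) (nat_lit 318)) (XT.lf (nat_lit 0) (nat_lit 7989596021) (nat_lit 532) (nat_lit 7532503547) (nat_lit 76) (nat_lit 5278817439) (nat_lit 68) (nat_lit 5) (nat_lit 75) (nat_lit 5) (nat_lit 69) (nat_lit 5) (nat_lit 354) (nat_lit 349) (nat_lit 317))) (XT.nd (nat_lit 78) (nat_lit 228) (nat_lit 0) (XT.lf (nat_lit 0) (nat_lit 13721135949) (nat_lit 304) (nat_lit 7910385933) (nat_lit 76) (nat_lit 858810566) (nat_lit 65) (nat_lit 5) (nat_lit 69) (nat_lit 5) (nat_lit 66) (nat_lit 5) (nat_lit 355) (nat_lit 349) (nat_lit 316)) (XT.lf (nat_lit 0) (nat_lit 16370571142) (nat_lit 228) (nat_lit 4935289921) (nat_lit 304) (nat_lit 3047840704) (nat_lit 62) (nat_lit 5) (nat_lit 65) (nat_lit 5) (nat_lit 66) (nat_lit 5) (nat_lit 356) (nat_lit 349) (nat_lit 315))))) (XT.nd (nat_lit 312) (nat_lit 912) (nat_lit 0) (XT.nd (nat_lit 156) (nat_lit 380) (nat_lit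 0) (XT.nd (nat_lit 78) (nat_lit 228) (nat_lit 0) (XT.lf (nat_lit 0) (nat_lit 4363645422) (nat_lit 228) (nat_lit 7702702470) (nat_lit 76) (nat_lit 14342760145) (nat_lit 59) (nat_lit 5) (nat_lit 62) (nat_lit 5) (nat_lit 60) (nat_lit 5) (nat_lit 357) (nat_lit 349) (nat_lit 314)) (XT.lf (nat_lit 0) (nat_lit 13770324354) (nat_lit 304) (nat_lit 6958223491) (nat_lit 76) (nat_lit 7952841873) (nat_lit 56) (nat_lit 5) (nat_lit 60) (nat_lit 5) (nat_lit 57) (nat_lit 5) (nat_lit 358) (nat_lit 349) (nat_lit 313))) (XT.nd (nat_lit 78) (nat_lit 228) (nat_lit 0) (XT.lf (nat_lit 0) (nat_lit 25639155829) (nat_lit 152) (nat_lit 88399494) (nat_lit 228) (nat_lit 5475805207) (nat_lit 54) (nat_lit 5) (nat_lit 56) (nat_lit 5) (nat_lit 57) (nat_lit 5) (nat_lit 359) (nat_lit 349) (nat_lit 312)) (XT.lf (nat_lit 0) (nat_lit 6613364312) (nat_lit 228) (nat_lit 3803651519) (nat_lit 76) (nat_lit 23555679946) (nat_lit 51)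 (nat_lit 5) (nat_lit 54) (nat_lit 5) (nat_lit 52) (nat_lit 5) (nat_lit 360) (nat_lit 349) (nat_lit 311)))) (XT.nd (nat_lit 156) (nat_lit 532) (nat_lit 0) (XT.nd (nat_lit 78) (nat_lit 228) (nat_lit 0) (XT.lf (nat_lit 0) (nat_lit 21559172959) (nat_lit 228) (nat_lit 1374000275) (nat_lit 76) (nat_lit 14103488010) (nat_lit 49) (nat_lit 5) (nat_lit 52) (nat_lit 5) (nat_lit 50) (nat_lit 5) (nat_lit 361) (nat_lit 349) (nat_lit 310)) (XT.lf (nat_lit 0) (nat_lit 2114092311) (nat_lit 76) (nat_lit 38133478185) (nat_lit 152) (nat_lit 192600263) (nat_lit 46) (nat_lit 5) (nat_lit 47) (nat_lit 5) (nat_lit 48) (nat_lit 4) (nat_lit 362) (nat_lit 349) (nat_lit 309))) (XT.nd (nat_lit 78) (nat_lit 304) (nat_lit 0) (XT.lf (nat_lit 0) (nat_lit 6040595118) (nat_lit 152) (nat_lit 12415165829) (nat_lit 228) (nat_lit 25709769550) (nat_lit 43) (nat_lit 5) (nat_lit 45) (nat_lit 5) (nat_lit 46) (nat_lit 5) (nat_lit 363)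 (nat_lit 349) (nat_lit 308)) (XT.nd (nat_lit 78) (nat_lit 228) (nat_lit 0) (XT.lf (nat_lit 0) (nat_lit 11081419634) (nat_lit 76) (nat_lit 30604546041) (nat_lit 152) (nat_lit 6619653483) (nat_lit 42) (nat_lit 5) (nat_lit 43) (nat_lit 5) (nat_lit 44) (nat_lit 4) (nat_lit 364) (nat_lit 349) (nat_lit 307)) (XT.lf (nat_lit 0) (nat_lit 16448350030) (nat_lit 228) (nat_lit 35836795906) (nat_lit 76) (nat_lit 601561290) (nat_lit 39) (nat_lit 5) (nat_lit 42) (nat_lit 5) (nat_lit 40) (nat_lit 4) (nat_lit 365) (nat_lit 349) (nat_lit 306))))))) (XT.nd (nat_lit 624) (nat_lit 912) (nat_lit 0) (XT.nd (nat_lit 312) (nat_lit 456) (nat_lit 0) (XT.nd (nat_lit 156) (nat_lit 228) (nat_lit 0) (XT.nd (nat_lit 78) (nat_lit 228) (nat_lit 0) (XT.lf (nat_lit 0) (nat_lit 23737303540) (nat_lit 76) (nat_lit 21363249679) (nat_lit 152) (nat_lit 12839376892) (nat_lit 38) (nat_lit 5) (nat_lit 39) (nat_lit 5) (nat_lit 40) (nat_lit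 4) (nat_lit 366) (nat_lit 349) (nat_lit 305)) (XT.lf (nat_lit 0) (nat_lit 15797555308) (nat_lit 228) (nat_lit 32040527321) (nat_lit 76) (nat_lit 15708470546) (nat_lit 35) (nat_lit 5) (nat_lit 38) (nat_lit 5) (nat_lit 36) (nat_lit 4) (nat_lit 367) (nat_lit 349) (nat_lit 304))) (XT.nd (nat_lit 78) (nat_lit 152) (nat_lit 0) (XT.lf (nat_lit 0) (nat_lit 40229477923) (nat_lit 76) (nat_lit 10320840108) (nat_lit 152) (nat_lit 19210732712) (nat_lit 34) (nat_lit 5) (nat_lit 35) (nat_lit 5) (nat_lit 36) (nat_lit 4) (nat_lit 368) (nat_lit 349) (nat_lit 303)) (XT.lf (nat_lit 0) (nat_lit 15935541178) (nat_lit 152) (nat_lit 26973399905) (nat_lit 76) (nat_lit 33731960567) (nat_lit 32) (nat_lit 5) (nat_lit 34) (nat_lit 5) (nat_lit 33) (nat_lit 4) (nat_lit 369) (nat_lit 349) (nat_lit 302)))) (XT.nd (nat_lit 156) (nat_lit 228) (nat_lit 0) (XT.nd (nat_lit 78) (nat_lit 152) (nat_lit 0) (XT.lf (nat_lit 0) (nat_lit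 57901720744) (nat_lit 152) (nat_lit 24170782310) (nat_lit 0) (nat_lit 2225473980) (nat_lit 31) (nat_lit 5) (nat_lit 33) (nat_lit 4) (nat_lit 31) (nat_lit 4) (nat_lit 370) (nat_lit 349) (nat_lit 301)) (XT.lf (nat_lit 0) (nat_lit 16189690583) (nat_lit 152) (nat_lit 22010563899) (nat_lit 76) (nat_lit 54575534429) (nat_lit 29) (nat_lit 5) (nat_lit 31) (nat_lit 5) (nat_lit 30) (nat_lit 4) (nat_lit 371) (nat_lit 349) (nat_lit 300))) (XT.nd (nat_lit 78) (nat_lit 152) (nat_lit 0) (XT.lf (nat_lit 0) (nat_lit 66713159784) (nat_lit 152) (nat_lit 20362539248) (nat_lit 0) (nat_lit 15145718633) (nat_lit 28) (nat_lit 5) (nat_lit 30) (nat_lit 4) (nat_lit 28) (nat_lit 4) (nat_lit 372) (nat_lit 349) (nat_lit 299)) (XT.lf (nat_lit 0) (nat_lit 15186545724) (nat_lit 152) (nat_lit 19985638708) (nat_lit 76) (nat_lit 77565765660) (nat_lit 26) (nat_lit 5) (nat_lit 28) (nat_lit 5) (nat_lit 27) (nat_lit 4) (nat_lit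 373) (nat_lit 349) (nat_lit 298))))) (XT.nd (nat_lit 312) (nat_lit 532) (nat_lit 0) (XT.nd (nat_lit 156) (nat_lit 152) (nat_lit 0) (XT.nd (nat_lit 78) (nat_lit 152) (nat_lit 0) (XT.lf (nat_lit 0) (nat_lit 75219961027) (nat_lit 152) (nat_lit 21769692926) (nat_lit 0) (nat_lit 27461575718) (nat_lit 25) (nat_lit 5) (nat_lit 27) (nat_lit 4) (nat_lit 25) (nat_lit 4) (nat_lit 374) (nat_lit 349) (nat_lit 297)) (XT.lf (nat_lit 0) (nat_lit 10372162987) (nat_lit 152) (nat_lit 26188635986) (nat_lit 76) (nat_lit 101000328874) (nat_lit 23) (nat_lit 5) (nat_lit 25) (nat_lit 5) (nat_lit 24) (nat_lit 4) (nat_lit 375) (nat_lit 349) (nat_lit 296))) (XT.nd (nat_lit 78) (nat_lit 76) (nat_lit 0) (XT.lf (nat_lit 0) (nat_lit 80470332116) (nat_lit 152) (nat_lit 35465264062) (nat_lit 0) (nat_lit 36242075318) (nat_lit 22) (nat_lit 5) (nat_lit 24) (nat_lit 4) (nat_lit 22) (nat_lit 4) (nat_lit 376) (nat_lit 349) (nat_lit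 295)) (XT.lf (nat_lit 0) (nat_lit 118587365357) (nat_lit 76) (nat_lit 47129953305) (nat_lit 76) (nat_lit 2898651144) (nat_lit 21) (nat_lit 4) (nat_lit 22) (nat_lit 5) (nat_lit 22) (nat_lit 4) (nat_lit 377) (nat_lit 349) (nat_lit 294)))) (XT.nd (nat_lit 156) (nat_lit 304) (nat_lit 0) (XT.nd (nat_lit 78) (nat_lit 76) (nat_lit 0) (XT.lf (nat_lit 0) (nat_lit 77131199085) (nat_lit 152) (nat_lit 73691246489) (nat_lit 0) (nat_lit 36173837694) (nat_lit 19) (nat_lit 5) (nat_lit 21) (nat_lit 4) (nat_lit 19) (nat_lit 4) (nat_lit 378) (nat_lit 349) (nat_lit 293)) (XT.lf (nat_lit 0) (nat_lit 99696862012) (nat_lit 76) (nat_lit 74487507229) (nat_lit 76) (nat_lit 33528013679) (nat_lit 18) (nat_lit 4) (nat_lit 19) (nat_lit 5) (nat_lit 19) (nat_lit 4) (nat_lit 379) (nat_lit 349) (nat_lit 292))) (XT.nd (nat_lit 78) (nat_lit 152) (nat_lit 0) (XT.lf (nat_lit 0) (nat_lit 55987064461) (nat_lit 152) (nat_lit 157029208333)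 (nat_lit 0) (nat_lit 18059890756) (nat_lit 16) (nat_lit 5) (nat_lit 18) (nat_lit 4) (nat_lit 16) (nat_lit 4) (nat_lit 380) (nat_lit 349) (nat_lit 291)) (XT.nd (nat_lit 78) (nat_lit 76) (nat_lit 0) (XT.lf (nat_lit 0) (nat_lit 30716676618) (nat_lit 76) (nat_lit 132300496347) (nat_lit 76) (nat_lit 94371829846) (nat_lit 15) (nat_lit 4) (nat_lit 16) (nat_lit 5) (nat_lit 16) (nat_lit 4) (nat_lit 381) (nat_lit 349) (nat_lit 290)) (XT.lf (nat_lit 0) (nat_lit 3212684107) (nat_lit 152) (nat_lit 31247581640) (nat_lit 76) (nat_lit 252816897288) (nat_lit 14) (nat_lit 5) (nat_lit 16) (nat_lit 5) (nat_lit 15) (nat_lit 4) (nat_lit 382) (nat_lit 349) (nat_lit 289))))))))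
noncomputable def xc66 : XT := (XT.nd (nat_lit 1326) (nat_lit 152) (nat_lit 0) (XT.nd (nat_lit 624) (nat_lit 304) (nat_lit 0) (XT.nd (nat_lit 312) (nat_lit 228) (nat_lit 0) (XT.nd (nat_lit 156) (nat_lit 152) (nat_lit 0) (XT.nd (nat_lit 78) (nat_lit 76) (nat_lit 0) (XT.lf (nat_lit 0) (nat_lit 116901174482) (nat_lit 152) (nat_lit 122207150732) (nat_lit 0) (nat_lit 81779791750) (nat_lit 13) (nat_lit 5) (nat_lit 15) (nat_lit 4) (nat_lit 13) (nat_lit 4) (nat_lit 383) (nat_lit 349) (nat_lit 288)) (XT.lf (nat_lit 0) (nat_lit 110037288755) (nat_lit 76) (nat_lit 142131811974) (nat_lit 76) (nat_lit 107009520412) (nat_lit 12) (nat_lit 4) (nat_lit 13) (nat_lit 5) (nat_lit 13) (nat_lit 4) (nat_lit 384) (nat_lit 349) (nat_lit 287))) (XT.nd (nat_lit 78) (nat_lit 76) (nat_lit 0) (XT.lf (nat_lit 0) (nat_lit 7932745761) (nat_lit 152) (nat_lit 18622970666) (nat_lit 76) (nat_lit 376356773486) (nat_lit 11) (nat_lit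 5) (nat_lit 13) (nat_lit 5) (nat_lit 12) (nat_lit 4) (nat_lit 385) (nat_lit 349) (nat_lit 286)) (XT.lf (nat_lit 0) (nat_lit 142914243034) (nat_lit 152) (nat_lit 198946880058) (nat_lit 0) (nat_lit 110392234649) (nat_lit 10) (nat_lit 5) (nat_lit 12) (nat_lit 4) (nat_lit 10) (nat_lit 4) (nat_lit 386) (nat_lit 349) (nat_lit 285)))) (XT.nd (nat_lit 156) (nat_lit 152) (nat_lit 0) (XT.nd (nat_lit 78) (nat_lit 0) (nat_lit 0) (XT.lf (nat_lit 0) (nat_lit 60466897952) (nat_lit 76) (nat_lit 240415915830) (nat_lit 76) (nat_lit 207893354138) (nat_lit 9) (nat_lit 4) (nat_lit 10) (nat_lit 5) (nat_lit 10) (nat_lit 4) (nat_lit 387) (nat_lit 349) (nat_lit 284)) (XT.lf (nat_lit 0) (nat_lit 370830781217) (nat_lit 76) (nat_lit 117503332897) (nat_lit 76) (nat_lit 84980290069) (nat_lit 9) (nat_lit 4) (nat_lit 10) (nat_lit 5) (nat_lit 10) (nat_lit 4) (nat_lit 388) (nat_lit 349) (nat_lit 283))) (XT.nd (nat_lit 78)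 (nat_lit 0) (nat_lit 0) (XT.lf (nat_lit 0) (nat_lit 56202417556) (nat_lit 152) (nat_lit 564922199183) (nat_lit 0) (nat_lit 26088101624) (nat_lit 7) (nat_lit 5) (nat_lit 9) (nat_lit 4) (nat_lit 7) (nat_lit 4) (nat_lit 389) (nat_lit 349) (nat_lit 282)) (XT.lf (nat_lit 0) (nat_lit 222967962464) (nat_lit 152) (nat_lit 315442948157) (nat_lit 0) (nat_lit 192853309673) (nat_lit 7) (nat_lit 5) (nat_lit 9) (nat_lit 4) (nat_lit 7) (nat_lit 4) (nat_lit 390) (nat_lit 349) (nat_lit 281))))) (XT.nd (nat_lit 312) (nat_lit 228) (nat_lit 0) (XT.nd (nat_lit 156) (nat_lit 0) (nat_lit 0) (XT.nd (nat_lit 78) (nat_lit 76) (nat_lit 0) (XT.lf (nat_lit 0) (nat_lit 414744934210) (nat_lit 152) (nat_lit 28548797243) (nat_lit 0) (nat_lit 384629988498) (nat_lit 7) (nat_lit 5) (nat_lit 9) (nat_lit 4) (nat_lit 7) (nat_lit 4) (nat_lit 391) (nat_lit 349) (nat_lit 280)) (XT.lf (nat_lit 0) (nat_lit 317243189152) (nat_lit 76)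 (nat_lit 325672008114) (nat_lit 76) (nat_lit 295556807687) (nat_lit 6) (nat_lit 4) (nat_lit 7) (nat_lit 5) (nat_lit 7) (nat_lit 4) (nat_lit 392) (nat_lit 349) (nat_lit 279))) (XT.nd (nat_lit 78) (nat_lit 0) (nat_lit 0) (XT.lf (nat_lit 0) (nat_lit 716627239948) (nat_lit 76) (nat_lit 189512218988) (nat_lit 76) (nat_lit 159396797071) (nat_lit 6) (nat_lit 4) (nat_lit 7) (nat_lit 5) (nat_lit 7) (nat_lit 4) (nat_lit 393) (nat_lit 349) (nat_lit 278)) (XT.lf (nat_lit 0) (nat_lit 1175914061853) (nat_lit 76) (nat_lit 32930942911) (nat_lit 76) (nat_lit 2815328394) (nat_lit 6) (nat_lit 4) (nat_lit 7) (nat_lit 5) (nat_lit 7) (nat_lit 4) (nat_lit 394) (nat_lit 349) (nat_lit 277)))) (XT.nd (nat_lit 156) (nat_lit 76) (nat_lit 0) (XT.nd (nat_lit 78) (nat_lit 0) (nat_lit 0) (XT.lf (nat_lit 0) (nat_lit 180348561376) (nat_lit 152) (nat_lit 1045592876133) (nat_lit 0) (nat_lit 152463578047) (nat_lit 4) (nat_lit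 5) (nat_lit 6) (nat_lit 4) (nat_lit 4) (nat_lit 4) (nat_lit 395) (nat_lit 349) (nat_lit 276)) (XT.lf (nat_lit 0) (nat_lit 392801638714) (nat_lit 152) (nat_lit 812278886812) (nat_lit 0) (nat_lit 364916520539) (nat_lit 4) (nat_lit 5) (nat_lit 6) (nat_lit 4) (nat_lit 4) (nat_lit 4) (nat_lit 396) (nat_lit 349) (nat_lit 275))) (XT.nd (nat_lit 78) (nat_lit 76) (nat_lit 0) (XT.lf (nat_lit 0) (nat_lit 637120963843) (nat_lit 152) (nat_lit 543971326020) (nat_lit 0) (nat_lit 609235728411) (nat_lit 4) (nat_lit 5) (nat_lit 6) (nat_lit 4) (nat_lit 4) (nat_lit 4) (nat_lit 397) (nat_lit 349) (nat_lit 274)) (XT.nd (nat_lit 78) (nat_lit 76) (nat_lit 0) (XT.lf (nat_lit 0) (nat_lit 918086697472) (nat_lit 152) (nat_lit 235420698002) (nat_lit 0) (nat_lit 890201360077) (nat_lit 4) (nat_lit 5) (nat_lit 6) (nat_lit 4) (nat_lit 4) (nat_lit 4) (nat_lit 398) (nat_lit 349) (nat_lit 273)) (XT.lf (nat_lit 0) (nat_lit 125697768830)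 (nat_lit 76) (nat_lit 1118521260792) (nat_lit 76) (nat_lit 1090635834733) (nat_lit 3) (nat_lit 4) (nat_lit 4) (nat_lit 5) (nat_lit 4) (nat_lit 4) (nat_lit 399) (nat_lit 349) (nat_lit 272))))))) (XT.nd (nat_lit 624) (nat_lit 152) (nat_lit 0) (XT.nd (nat_lit 312) (nat_lit 0) (nat_lit 0) (XT.nd (nat_lit 156) (nat_lit 0) (nat_lit 0) (XT.nd (nat_lit 78) (nat_lit 0) (nat_lit 0) (XT.lf (nat_lit 0) (nat_lit 555237926831) (nat_lit 76) (nat_lit 1070886119520) (nat_lit 76) (nat_lit 1043000616363) (nat_lit 3) (nat_lit 4) (nat_lit 4) (nat_lit 5) (nat_lit 4) (nat_lit 4) (nat_lit 400) (nat_lit 349) (nat_lit 271)) (XT.lf (nat_lit 0) (nat_lit 1049206985812) (nat_lit 76) (nat_lit 1016106798848) (nat_lit 76) (nat_lit 988221228649) (nat_lit 3) (nat_lit 4) (nat_lit 4) (nat_lit 5) (nat_lit 4) (nat_lit 4) (nat_lit 401) (nat_lit 349) (nat_lit 270))) (XT.nd (nat_lit 78) (nat_lit 0) (nat_lit 0) (XT.lf (nat_lit 0)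 (nat_lit 1617269557798) (nat_lit 76) (nat_lit 953111529459) (nat_lit 76) (nat_lit 925225900962) (nat_lit 3) (nat_lit 4) (nat_lit 4) (nat_lit 5) (nat_lit 4) (nat_lit 4) (nat_lit 402) (nat_lit 349) (nat_lit 269)) (XT.lf (nat_lit 0) (nat_lit 2270539910502) (nat_lit 76) (nat_lit 880667795213) (nat_lit 76) (nat_lit 852782116022) (nat_lit 3) (nat_lit 4) (nat_lit 4) (nat_lit 5) (nat_lit 4) (nat_lit 4) (nat_lit 403) (nat_lit 349) (nat_lit 268)))) (XT.nd (nat_lit 156) (nat_lit 0) (nat_lit 0) (XT.nd (nat_lit 78) (nat_lit 0) (nat_lit 0) (XT.lf (nat_lit 0) (nat_lit 3021799420389) (nat_lit 76) (nat_lit 797358218700) (nat_lit 76) (nat_lit 769472495428) (nat_lit 3) (nat_lit 4) (nat_lit 4) (nat_lit 5) (nat_lit 4) (nat_lit 4) (nat_lit 404) (nat_lit 349) (nat_lit 267)) (XT.lf (nat_lit 0) (nat_lit 3885746643088) (nat_lit 76) (nat_lit 701552829946) (nat_lit 76) (nat_lit 673667068342) (nat_lit 3) (nat_lit 4)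 (nat_lit 4) (nat_lit 5) (nat_lit 4) (nat_lit 4) (nat_lit 405) (nat_lit 349) (nat_lit 266))) (XT.nd (nat_lit 78) (nat_lit 0) (nat_lit 0) (XT.lf (nat_lit 0) (nat_lit 4879284893825) (nat_lit 76) (nat_lit 591377175691) (nat_lit 76) (nat_lit 563491380756) (nat_lit 3) (nat_lit 4) (nat_lit 4) (nat_lit 5) (nat_lit 4) (nat_lit 4) (nat_lit 406) (nat_lit 349) (nat_lit 265)) (XT.lf (nat_lit 0) (nat_lit 6021852964463) (nat_lit 76) (nat_lit 464675645310) (nat_lit 76) (nat_lit 436789821391) (nat_lit 3) (nat_lit 4) (nat_lit 4) (nat_lit 5) (nat_lit 4) (nat_lit 4) (nat_lit 407) (nat_lit 349) (nat_lit 264))))) (XT.nd (nat_lit 312) (nat_lit 0) (nat_lit 0) (XT.nd (nat_lit 156) (nat_lit 152) (nat_lit 0) (XT.nd (nat_lit 78) (nat_lit 0) (nat_lit 0) (XT.lf (nat_lit 0) (nat_lit 7335805447687) (nat_lit 76) (nat_lit 318969295816) (nat_lit 76) (nat_lit 291083446693) (nat_lit 3) (nat_lit 4) (nat_lit 4) (nat_lit 5) (nat_lit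 4) (nat_lit 4) (nat_lit 408) (nat_lit 349) (nat_lit 263)) (XT.lf (nat_lit 0) (nat_lit 8846850109475) (nat_lit 76) (nat_lit 151407350807) (nat_lit 76) (nat_lit 123521479768) (nat_lit 3) (nat_lit 4) (nat_lit 4) (nat_lit 5) (nat_lit 4) (nat_lit 4) (nat_lit 409) (nat_lit 349) (nat_lit 262))) (XT.nd (nat_lit 78) (nat_lit 0) (nat_lit 0) (XT.lf (nat_lit 0) (nat_lit 69576239901) (nat_lit 152) (nat_lit 10360313549938) (nat_lit 0) (nat_lit 43755971293) (nat_lit 1) (nat_lit 5) (nat_lit 3) (nat_lit 4) (nat_lit 1) (nat_lit 4) (nat_lit 410) (nat_lit 349) (nat_lit 261)) (XT.lf (nat_lit 0) (nat_lit 296932146904) (nat_lit 152) (nat_lit 11458983337164) (nat_lit 0) (nat_lit 271111862952) (nat_lit 1) (nat_lit 5) (nat_lit 3) (nat_lit 4) (nat_lit 1) (nat_lit 4) (nat_lit 411) (nat_lit 349) (nat_lit 260)))) (XT.nd (nat_lit 156) (nat_lit 0) (nat_lit 0) (XT.nd (nat_lit 78) (nat_lit 0) (nat_lit 0) (XT.lf (nat_lit 0)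 (nat_lit 558391194653) (nat_lit 152) (nat_lit 12722454098405) (nat_lit 0) (nat_lit 532570897358) (nat_lit 1) (nat_lit 5) (nat_lit 3) (nat_lit 4) (nat_lit 1) (nat_lit 4) (nat_lit 412) (nat_lit 349) (nat_lit 259)) (XT.lf (nat_lit 0) (nat_lit 859068886256) (nat_lit 152) (nat_lit 14175445913772) (nat_lit 0) (nat_lit 833248577359) (nat_lit 1) (nat_lit 5) (nat_lit 3) (nat_lit 4) (nat_lit 1) (nat_lit 4) (nat_lit 413) (nat_lit 349) (nat_lit 258))) (XT.nd (nat_lit 78) (nat_lit 0) (nat_lit 0) (XT.lf (nat_lit 0) (nat_lit 1204848046115) (nat_lit 152) (nat_lit 15846386884001) (nat_lit 0) (nat_lit 1179027727128) (nat_lit 1) (nat_lit 5) (nat_lit 3) (nat_lit 4) (nat_lit 1) (nat_lit 4) (nat_lit 414) (nat_lit 349) (nat_lit 257)) (XT.nd (nat_lit 78) (nat_lit 0) (nat_lit 0) (XT.lf (nat_lit 0) (nat_lit 1602493918662) (nat_lit 152) (nat_lit 17767969332423) (nat_lit 0) (nat_lit 1576673590902) (nat_lit 1) (nat_lit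 5) (nat_lit 3) (nat_lit 4) (nat_lit 1) (nat_lit 4) (nat_lit 415) (nat_lit 349) (nat_lit 256)) (XT.lf (nat_lit 0) (nat_lit 2059786531836) (nat_lit 152) (nat_lit 19977789437376) (nat_lit 0) (nat_lit 2033966196448) (nat_lit 1) (nat_lit 5) (nat_lit 3) (nat_lit 4) (nat_lit 1) (nat_lit 4) (nat_lit 416) (nat_lit 349) (nat_lit 255))))))))
noncomputable def xc67 : XT := (XT.nd (nat_lit 49062) (nat_lit 0) (nat_lit 1064) (XT.nd (nat_lit 48360) (nat_lit 0) (nat_lit 3192) (XT.nd (nat_lit 48048) (nat_lit 0) (nat_lit 5092) (XT.nd (nat_lit 47892) (nat_lit 0) (nat_lit 5852) (XT.nd (nat_lit 78) (nat_lit 0) (nat_lit 0) (XT.lf (nat_lit 0) (nat_lit 2585672915028) (nat_lit 152) (nat_lit 22519082809609) (nat_lit 0) (nat_lit 2559852573005) (nat_lit 1) (nat_lit 5) (nat_lit 3) (nat_lit 4) (nat_lit 1) (nat_lit 4) (nat_lit 417) (nat_lit 349) (nat_lit 254)) (XT.lf (nat_lit 0) (nat_lit 3190442149646) (nat_lit 152) (nat_lit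 25441570406406) (nat_lit 0) (nat_lit 3164621801855) (nat_lit 1) (nat_lit 5) (nat_lit 3) (nat_lit 4) (nat_lit 1) (nat_lit 4) (nat_lit 418) (nat_lit 349) (nat_lit 253))) (XT.nd (nat_lit 78) (nat_lit 0) (nat_lit 0) (XT.lf (nat_lit 0) (nat_lit 6821033664) (nat_lit 532) (nat_lit 738101304) (nat_lit 532) (nat_lit 738101304) (nat_lit 78) (nat_lit 3) (nat_lit 85) (nat_lit 3) (nat_lit 85) (nat_lit 5) (nat_lit 350) (nat_lit 350) (nat_lit 320)) (XT.lf (nat_lit 76) (nat_lit 14617848111) (nat_lit 0) (nat_lit 809726824) (nat_lit 532) (nat_lit 2350329739) (nat_lit 79) (nat_lit 5) (nat_lit 78) (nat_lit 3) (nat_lit 85) (nat_lit 5) (nat_lit 351) (nat_lit 350) (nat_lit 319)))) (XT.nd (nat_lit 156) (nat_lit 380) (nat_lit 0) (XT.nd (nat_lit 78) (nat_lit 456) (nat_lit 0) (XT.lf (nat_lit 76) (nat_lit 14373279334) (nat_lit 0) (nat_lit 3800305687) (nat_lit 532) (nat_lit 909881891) (nat_lit 80) (nat_lit 5) (nat_lit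 79) (nat_lit 5) (nat_lit 86) (nat_lit 5) (nat_lit 352) (nat_lit 350) (nat_lit 318)) (XT.lf (nat_lit 0) (nat_lit 1444575045) (nat_lit 532) (nat_lit 6079745526) (nat_lit 608) (nat_lit 13000306738) (nat_lit 73) (nat_lit 5) (nat_lit 80) (nat_lit 5) (nat_lit 81) (nat_lit 5) (nat_lit 353) (nat_lit 350) (nat_lit 317))) (XT.nd (nat_lit 78) (nat_lit 456) (nat_lit 0) (XT.lf (nat_lit 0) (nat_lit 4904570901) (nat_lit 532) (nat_lit 7225298707) (nat_lit 76) (nat_lit 9985722435) (nat_lit 74) (nat_lit 5) (nat_lit 81) (nat_lit 5) (nat_lit 75) (nat_lit 5) (nat_lit 354) (nat_lit 350) (nat_lit 316)) (XT.lf (nat_lit 0) (nat_lit 9759094468) (nat_lit 532) (nat_lit 8060127237) (nat_lit 76) (nat_lit 6055955413) (nat_lit 68) (nat_lit 5) (nat_lit 75) (nat_lit 5) (nat_lit 69) (nat_lit 5) (nat_lit 355) (nat_lit 350) (nat_lit 315))))) (XT.nd (nat_lit 312) (nat_lit 988) (nat_lit 0) (XT.nd (nat_lit 156) (nat_lit 456) (nat_lit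 0) (XT.nd (nat_lit 78) (nat_lit 228) (nat_lit 0) (XT.lf (nat_lit 0) (nat_lit 16290134286) (nat_lit 304) (nat_lit 8505712226) (nat_lit 76) (nat_lit 1027001988) (nat_lit 65) (nat_lit 5) (nat_lit 69) (nat_lit 5) (nat_lit 66) (nat_lit 5) (nat_lit 356) (nat_lit 350) (nat_lit 314)) (XT.lf (nat_lit 0) (nat_lit 19367343601) (nat_lit 228) (nat_lit 5591610391) (nat_lit 304) (nat_lit 3011080220) (nat_lit 62) (nat_lit 5) (nat_lit 65) (nat_lit 5) (nat_lit 66) (nat_lit 5) (nat_lit 357) (nat_lit 350) (nat_lit 313))) (XT.nd (nat_lit 78) (nat_lit 228) (nat_lit 0) (XT.lf (nat_lit 0) (nat_lit 5441025344) (nat_lit 228) (nat_lit 8308581040) (nat_lit 76) (nat_lit 16586923884) (nat_lit 59) (nat_lit 5) (nat_lit 62) (nat_lit 5) (nat_lit 60) (nat_lit 5) (nat_lit 358) (nat_lit 350) (nat_lit 312)) (XT.lf (nat_lit 0) (nat_lit 16218615196) (nat_lit 304) (nat_lit 7471424396) (nat_lit 76) (nat_lit 9262837185) (nat_lit 56)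 (nat_lit 5) (nat_lit 60) (nat_lit 5) (nat_lit 57) (nat_lit 5) (nat_lit 359) (nat_lit 350) (nat_lit 311)))) (XT.nd (nat_lit 156) (nat_lit 608) (nat_lit 0) (XT.nd (nat_lit 78) (nat_lit 228) (nat_lit 0) (XT.lf (nat_lit 0) (nat_lit 29932136425) (nat_lit 228) (nat_lit 5886510325) (nat_lit 76) (nat_lit 37493320) (nat_lit 54) (nat_lit 5) (nat_lit 57) (nat_lit 5) (nat_lit 55) (nat_lit 5) (nat_lit 360) (nat_lit 350) (nat_lit 310)) (XT.lf (nat_lit 0) (nat_lit 7927331400) (nat_lit 228) (nat_lit 3890452491) (nat_lit 76) (nat_lit 27224987826) (nat_lit 51) (nat_lit 5) (nat_lit 54) (nat_lit 5) (nat_lit 52) (nat_lit 5) (nat_lit 361) (nat_lit 350) (nat_lit 309))) (XT.nd (nat_lit 78) (nat_lit 456) (nat_lit 0) (XT.lf (nat_lit 0) (nat_lit 25087325606) (nat_lit 228) (nat_lit 1117648878) (nat_lit 76) (nat_lit 16363581697) (nat_lit 49) (nat_lit 5) (nat_lit 52) (nat_lit 5) (nat_lit 50) (nat_lit 5) (nat_lit 362)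 (nat_lit 350) (nat_lit 308)) (XT.nd (nat_lit 78) (nat_lit 152) (nat_lit 0) (XT.lf (nat_lit 0) (nat_lit 77955932) (nat_lit 152) (nat_lit 43590347665) (nat_lit 76) (nat_lit 2815199601) (nat_lit 45) (nat_lit 5) (nat_lit 47) (nat_lit 5) (nat_lit 46) (nat_lit 5) (nat_lit 363) (nat_lit 350) (nat_lit 307)) (XT.lf (nat_lit 0) (nat_lit 7385428403) (nat_lit 152) (nat_lit 14100001877) (nat_lit 228) (nat_lit 29283981889) (nat_lit 43) (nat_lit 5) (nat_lit 45) (nat_lit 5) (nat_lit 46) (nat_lit 5) (nat_lit 364) (nat_lit 350) (nat_lit 306))))))) (XT.nd (nat_lit 702) (nat_lit 988) (nat_lit 0) (XT.nd (nat_lit 312) (nat_lit 532) (nat_lit 0) (XT.nd (nat_lit 156) (nat_lit 304) (nat_lit 0) (XT.nd (nat_lit 78) (nat_lit 228) (nat_lit 0) (XT.lf (nat_lit 0) (nat_lit 13160507674) (nat_lit 76) (nat_lit 35019311403) (nat_lit 152) (nat_lit 7352328456) (nat_lit 42) (nat_lit 5) (nat_lit 43) (nat_lit 5) (nat_lit 44) (nat_lit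 4) (nat_lit 365) (nat_lit 350) (nat_lit 305)) (XT.lf (nat_lit 0) (nat_lit 19144136043) (nat_lit 228) (nat_lit 40804855039) (nat_lit 76) (nat_lit 852409100) (nat_lit 39) (nat_lit 5) (nat_lit 42) (nat_lit 5) (nat_lit 40) (nat_lit 4) (nat_lit 366) (nat_lit 350) (nat_lit 304))) (XT.nd (nat_lit 78) (nat_lit 228) (nat_lit 0) (XT.lf (nat_lit 0) (nat_lit 27670869843) (nat_lit 76) (nat_lit 24402461104) (nat_lit 152) (nat_lit 14540946625) (nat_lit 38) (nat_lit 5) (nat_lit 39) (nat_lit 5) (nat_lit 40) (nat_lit 4) (nat_lit 367) (nat_lit 350) (nat_lit 303)) (XT.lf (nat_lit 0) (nat_lit 18364761884) (nat_lit 228) (nat_lit 36483185639) (nat_lit 76) (nat_lit 18214761448) (nat_lit 35) (nat_lit 5) (nat_lit 38) (nat_lit 5) (nat_lit 36) (nat_lit 4) (nat_lit 368) (nat_lit 350) (nat_lit 302)))) (XT.nd (nat_lit 156) (nat_lit 304) (nat_lit 0) (XT.nd (nat_lit 78) (nat_lit 152) (nat_lit 0) (XT.lf (nat_lit 0) (nat_lit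 46596558632) (nat_lit 76) (nat_lit 11716110413) (nat_lit 152) (nat_lit 21898136508) (nat_lit 34) (nat_lit 5) (nat_lit 35) (nat_lit 5) (nat_lit 36) (nat_lit 4) (nat_lit 369) (nat_lit 350) (nat_lit 301)) (XT.lf (nat_lit 0) (nat_lit 18497334886) (nat_lit 152) (nat_lit 30696046298) (nat_lit 76) (nat_lit 38929923786) (nat_lit 32) (nat_lit 5) (nat_lit 34) (nat_lit 5) (nat_lit 33) (nat_lit 4) (nat_lit 370) (nat_lit 350) (nat_lit 300))) (XT.nd (nat_lit 78) (nat_lit 228) (nat_lit 0) (XT.lf (nat_lit 0) (nat_lit 66746556951) (nat_lit 152) (nat_lit 27491258501) (nat_lit 0) (nat_lit 2692078911) (nat_lit 31) (nat_lit 5) (nat_lit 33) (nat_lit 4) (nat_lit 31) (nat_lit 4) (nat_lit 371) (nat_lit 350) (nat_lit 299)) (XT.nd (nat_lit 78) (nat_lit 76) (nat_lit 0) (XT.lf (nat_lit 0) (nat_lit 18767414652) (nat_lit 152) (nat_lit 25024965239) (nat_lit 76) (nat_lit 62887825269) (nat_lit 29) (nat_lit 5) (nat_lit 31)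 (nat_lit 5) (nat_lit 30) (nat_lit 4) (nat_lit 372) (nat_lit 350) (nat_lit 298)) (XT.lf (nat_lit 0) (nat_lit 76859304701) (nat_lit 152) (nat_lit 23146195020) (nat_lit 0) (nat_lit 17537987830) (nat_lit 28) (nat_lit 5) (nat_lit 30) (nat_lit 4) (nat_lit 28) (nat_lit 4) (nat_lit 373) (nat_lit 350) (nat_lit 297)))))) (XT.nd (nat_lit 312) (nat_lit 532) (nat_lit 0) (XT.nd (nat_lit 156) (nat_lit 228) (nat_lit 0) (XT.nd (nat_lit 78) (nat_lit 76) (nat_lit 0) (XT.lf (nat_lit 0) (nat_lit 17594811264) (nat_lit 152) (nat_lit 22728807108) (nat_lit 76) (nat_lit 89314594224) (nat_lit 26) (nat_lit 5) (nat_lit 28) (nat_lit 5) (nat_lit 27) (nat_lit 4) (nat_lit 374) (nat_lit 350) (nat_lit 296)) (XT.lf (nat_lit 0) (nat_lit 86624598964) (nat_lit 152) (nat_lit 24795255614) (nat_lit 0) (nat_lit 31689321680) (nat_lit 25) (nat_lit 5) (nat_lit 27) (nat_lit 4) (nat_lit 25) (nat_lit 4) (nat_lit 375) (nat_lit 350) (nat_lit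 295))) (XT.nd (nat_lit 78) (nat_lit 76) (nat_lit 0) (XT.lf (nat_lit 0) (nat_lit 12041935563) (nat_lit 152) (nat_lit 29891340303) (nat_lit 76) (nat_lit 116252900186) (nat_lit 23) (nat_lit 5) (nat_lit 25) (nat_lit 5) (nat_lit 24) (nat_lit 4) (nat_lit 376) (nat_lit 350) (nat_lit 294)) (XT.lf (nat_lit 0) (nat_lit 92647397283) (nat_lit 152) (nat_lit 40572692963) (nat_lit 0) (nat_lit 41775706293) (nat_lit 22) (nat_lit 5) (nat_lit 24) (nat_lit 4) (nat_lit 22) (nat_lit 4) (nat_lit 377) (nat_lit 350) (nat_lit 293)))) (XT.nd (nat_lit 156) (nat_lit 304) (nat_lit 0) (XT.nd (nat_lit 78) (nat_lit 152) (nat_lit 0) (XT.lf (nat_lit 0) (nat_lit 136569855593) (nat_lit 76) (nat_lit 54102357885) (nat_lit 76) (nat_lit 3228364164) (nat_lit 21) (nat_lit 4) (nat_lit 22) (nat_lit 5) (nat_lit 22) (nat_lit 4) (nat_lit 378) (nat_lit 350) (nat_lit 292)) (XT.lf (nat_lit 0) (nat_lit 88794282529) (nat_lit 152) (nat_lit 84557089088)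 (nat_lit 0) (nat_lit 41686878736) (nat_lit 19) (nat_lit 5) (nat_lit 21) (nat_lit 4) (nat_lit 19) (nat_lit 4) (nat_lit 379) (nat_lit 350) (nat_lit 291))) (XT.nd (nat_lit 78) (nat_lit 228) (nat_lit 0) (XT.lf (nat_lit 0) (nat_lit 114823335598) (nat_lit 76) (nat_lit 85574044799) (nat_lit 76) (nat_lit 38465028787) (nat_lit 18) (nat_lit 4) (nat_lit 19) (nat_lit 5) (nat_lit 19) (nat_lit 4) (nat_lit 380) (nat_lit 350) (nat_lit 290)) (XT.nd (nat_lit 78) (nat_lit 76) (nat_lit 0) (XT.lf (nat_lit 0) (nat_lit 64467125307) (nat_lit 152) (nat_lit 180417532544) (nat_lit 0) (nat_lit 20846367954) (nat_lit 16) (nat_lit 5) (nat_lit 18) (nat_lit 4) (nat_lit 16) (nat_lit 4) (nat_lit 381) (nat_lit 350) (nat_lit 289)) (XT.lf (nat_lit 0) (nat_lit 35476179249) (nat_lit 76) (nat_lit 152068530663) (nat_lit 76) (nat_lit 108446644542) (nat_lit 15) (nat_lit 4) (nat_lit 16) (nat_lit 5) (nat_lit 16) (nat_lit 4) (nat_lit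 382) (nat_lit 350) (nat_lit 288))))))))
noncomputable def xc68 : XT := (XT.nd (nat_lit 1326) (nat_lit 228) (nat_lit 0) (XT.nd (nat_lit 624) (nat_lit 228) (nat_lit 0) (XT.nd (nat_lit 312) (nat_lit 304) (nat_lit 0) (XT.nd (nat_lit 156) (nat_lit 152) (nat_lit 0) (XT.nd (nat_lit 78) (nat_lit 76) (nat_lit 0) (XT.lf (nat_lit 0) (nat_lit 3761464848) (nat_lit 152) (nat_lit 35799020771) (nat_lit 76) (nat_lit 290802900091) (nat_lit 14) (nat_lit 5) (nat_lit 16) (nat_lit 5) (nat_lit 15) (nat_lit 4) (nat_lit 383) (nat_lit 350) (nat_lit 287)) (XT.lf (nat_lit 0) (nat_lit 134499009676) (nat_lit 152) (nat_lit 140410635522) (nat_lit 0) (nat_lit 94106675261) (nat_lit 13) (nat_lit 5) (nat_lit 15) (nat_lit 4) (nat_lit 13) (nat_lit 4) (nat_lit 384) (nat_lit 350) (nat_lit 286))) (XT.nd (nat_lit 78) (nat_lit 76) (nat_lit 0) (XT.lf (nat_lit 0) (nat_lit 126659670215) (nat_lit 76) (nat_lit 163392090487) (nat_lit 76)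 (nat_lit 122999068865) (nat_lit 12) (nat_lit 4) (nat_lit 13) (nat_lit 5) (nat_lit 13) (nat_lit 4) (nat_lit 385) (nat_lit 350) (nat_lit 285)) (XT.lf (nat_lit 0) (nat_lit 9173774268) (nat_lit 152) (nat_lit 21312168713) (nat_lit 76) (nat_lit 432859330157) (nat_lit 11) (nat_lit 5) (nat_lit 13) (nat_lit 5) (nat_lit 12) (nat_lit 4) (nat_lit 386) (nat_lit 350) (nat_lit 284)))) (XT.nd (nat_lit 156) (nat_lit 152) (nat_lit 0) (XT.nd (nat_lit 78) (nat_lit 76) (nat_lit 0) (XT.lf (nat_lit 0) (nat_lit 164399294421) (nat_lit 152) (nat_lit 228690918945) (nat_lit 0) (nat_lit 126997314033) (nat_lit 10) (nat_lit 5) (nat_lit 12) (nat_lit 4) (nat_lit 10) (nat_lit 4) (nat_lit 387) (nat_lit 350) (nat_lit 283)) (XT.lf (nat_lit 0) (nat_lit 69626631138) (nat_lit 76) (nat_lit 276432427121) (nat_lit 76) (nat_lit 239030028354) (nat_lit 9) (nat_lit 4) (nat_lit 10) (nat_lit 5) (nat_lit 10) (nat_lit 4) (nat_lit 388) (nat_lit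 350) (nat_lit 282))) (XT.nd (nat_lit 78) (nat_lit 152) (nat_lit 0) (XT.lf (nat_lit 0) (nat_lit 426533397089) (nat_lit 76) (nat_lit 135088940585) (nat_lit 76) (nat_lit 97686178010) (nat_lit 9) (nat_lit 4) (nat_lit 10) (nat_lit 5) (nat_lit 10) (nat_lit 4) (nat_lit 389) (nat_lit 350) (nat_lit 281)) (XT.lf (nat_lit 0) (nat_lit 64669442233) (nat_lit 152) (nat_lit 649585288688) (nat_lit 0) (nat_lit 30036961742) (nat_lit 7) (nat_lit 5) (nat_lit 9) (nat_lit 4) (nat_lit 7) (nat_lit 4) (nat_lit 390) (nat_lit 350) (nat_lit 280))))) (XT.nd (nat_lit 312) (nat_lit 152) (nat_lit 0) (XT.nd (nat_lit 156) (nat_lit 76) (nat_lit 0) (XT.nd (nat_lit 78) (nat_lit 0) (nat_lit 0) (XT.lf (nat_lit 0) (nat_lit 256445036871) (nat_lit 152) (nat_lit 362693963969) (nat_lit 0) (nat_lit 221812301667) (nat_lit 7) (nat_lit 5) (nat_lit 9) (nat_lit 4) (nat_lit 7) (nat_lit 4) (nat_lit 391) (nat_lit 350) (nat_lit 279)) (XT.lf (nat_lit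 0) (nat_lit 476984396113) (nat_lit 152) (nat_lit 32774224298) (nat_lit 0) (nat_lit 442351439419) (nat_lit 7) (nat_lit 5) (nat_lit 9) (nat_lit 4) (nat_lit 7) (nat_lit 4) (nat_lit 392) (nat_lit 350) (nat_lit 278))) (XT.nd (nat_lit 78) (nat_lit 0) (nat_lit 0) (XT.lf (nat_lit 0) (nat_lit 364881744387) (nat_lit 76) (nat_lit 374496090807) (nat_lit 76) (nat_lit 339862941512) (nat_lit 6) (nat_lit 4) (nat_lit 7) (nat_lit 5) (nat_lit 7) (nat_lit 4) (nat_lit 393) (nat_lit 350) (nat_lit 277)) (XT.lf (nat_lit 0) (nat_lit 824166610169) (nat_lit 76) (nat_lit 217915818336) (nat_lit 76) (nat_lit 183282501563) (nat_lit 6) (nat_lit 4) (nat_lit 7) (nat_lit 5) (nat_lit 7) (nat_lit 4) (nat_lit 394) (nat_lit 350) (nat_lit 276)))) (XT.nd (nat_lit 156) (nat_lit 0) (nat_lit 0) (XT.nd (nat_lit 78) (nat_lit 152) (nat_lit 0) (XT.lf (nat_lit 0) (nat_lit 1352340548720) (nat_lit 76) (nat_lit 37850381304) (nat_lit 76) (nat_lit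 3216918897) (nat_lit 6) (nat_lit 4) (nat_lit 7) (nat_lit 5) (nat_lit 7) (nat_lit 4) (nat_lit 395) (nat_lit 350) (nat_lit 275)) (XT.lf (nat_lit 0) (nat_lit 207419298928) (nat_lit 152) (nat_lit 1202393831573) (nat_lit 0) (nat_lit 175351160923) (nat_lit 4) (nat_lit 5) (nat_lit 6) (nat_lit 4) (nat_lit 4) (nat_lit 4) (nat_lit 396) (nat_lit 350) (nat_lit 274))) (XT.nd (nat_lit 78) (nat_lit 0) (nat_lit 0) (XT.lf (nat_lit 0) (nat_lit 451737930908) (nat_lit 152) (nat_lit 934087697242) (nat_lit 0) (nat_lit 419669690941) (nat_lit 4) (nat_lit 5) (nat_lit 6) (nat_lit 4) (nat_lit 4) (nat_lit 4) (nat_lit 397) (nat_lit 350) (nat_lit 273)) (XT.nd (nat_lit 78) (nat_lit 0) (nat_lit 0) (XT.lf (nat_lit 0) (nat_lit 732703061800) (nat_lit 152) (nat_lit 625538309626) (nat_lit 0) (nat_lit 700634733169) (nat_lit 4) (nat_lit 5) (nat_lit 6) (nat_lit 4) (nat_lit 4) (nat_lit 4) (nat_lit 398) (nat_lit 350) (nat_lit 272))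 (XT.lf (nat_lit 0) (nat_lit 1055811835467) (nat_lit 152) (nat_lit 270708832879) (nat_lit 0) (nat_lit 1023743429738) (nat_lit 4) (nat_lit 5) (nat_lit 6) (nat_lit 4) (nat_lit 4) (nat_lit 4) (nat_lit 399) (nat_lit 350) (nat_lit 271))))))) (XT.nd (nat_lit 624) (nat_lit 152) (nat_lit 0) (XT.nd (nat_lit 312) (nat_lit 0) (nat_lit 0) (XT.nd (nat_lit 156) (nat_lit 0) (nat_lit 0) (XT.nd (nat_lit 78) (nat_lit 0) (nat_lit 0) (XT.lf (nat_lit 0) (nat_lit 144575290407) (nat_lit 76) (nat_lit 1286287694112) (nat_lit 76) (nat_lit 1254219221341) (nat_lit 3) (nat_lit 4) (nat_lit 4) (nat_lit 5) (nat_lit 4) (nat_lit 4) (nat_lit 400) (nat_lit 350) (nat_lit 270)) (XT.lf (nat_lit 0) (nat_lit 638543490857) (nat_lit 76) (nat_lit 1231508815014) (nat_lit 76) (nat_lit 1199440283945) (nat_lit 3) (nat_lit 4) (nat_lit 4) (nat_lit 5) (nat_lit 4) (nat_lit 4) (nat_lit 401) (nat_lit 350) (nat_lit 269))) (XT.nd (nat_lit 78) (nat_lit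 0) (nat_lit 0) (XT.lf (nat_lit 0) (nat_lit 1206605316294) (nat_lit 76) (nat_lit 1168513929603) (nat_lit 76) (nat_lit 1136445347840) (nat_lit 3) (nat_lit 4) (nat_lit 4) (nat_lit 5) (nat_lit 4) (nat_lit 4) (nat_lit 402) (nat_lit 350) (nat_lit 268)) (XT.lf (nat_lit 0) (nat_lit 1859875019825) (nat_lit 76) (nat_lit 1096070529250) (nat_lit 76) (nat_lit 1064001903406) (nat_lit 3) (nat_lit 4) (nat_lit 4) (nat_lit 5) (nat_lit 4) (nat_lit 4) (nat_lit 403) (nat_lit 350) (nat_lit 267)))) (XT.nd (nat_lit 156) (nat_lit 0) (nat_lit 0) (XT.nd (nat_lit 78) (nat_lit 0) (nat_lit 0) (XT.lf (nat_lit 0) (nat_lit 2611133965214) (nat_lit 76) (nat_lit 1012761243079) (nat_lit 76) (nat_lit 980692578903) (nat_lit 3) (nat_lit 4) (nat_lit 4) (nat_lit 5) (nat_lit 4) (nat_lit 4) (nat_lit 404) (nat_lit 350) (nat_lit 266)) (XT.lf (nat_lit 0) (nat_lit 3475080697044) (nat_lit 76) (nat_lit 916956106796) (nat_lit 76) (nat_lit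 884887409288) (nat_lit 3) (nat_lit 4) (nat_lit 4) (nat_lit 5) (nat_lit 4) (nat_lit 4) (nat_lit 405) (nat_lit 350) (nat_lit 265))) (XT.nd (nat_lit 78) (nat_lit 0) (nat_lit 0) (XT.lf (nat_lit 0) (nat_lit 4468618520940) (nat_lit 76) (nat_lit 806780672081) (nat_lit 76) (nat_lit 774711945590) (nat_lit 3) (nat_lit 4) (nat_lit 4) (nat_lit 5) (nat_lit 4) (nat_lit 4) (nat_lit 406) (nat_lit 350) (nat_lit 264)) (XT.lf (nat_lit 0) (nat_lit 5611186220410) (nat_lit 76) (nat_lit 680079332605) (nat_lit 76) (nat_lit 648010580910) (nat_lit 3) (nat_lit 4) (nat_lit 4) (nat_lit 5) (nat_lit 4) (nat_lit 4) (nat_lit 407) (nat_lit 350) (nat_lit 263))))) (XT.nd (nat_lit 312) (nat_lit 0) (nat_lit 0) (XT.nd (nat_lit 156) (nat_lit 152) (nat_lit 0) (XT.nd (nat_lit 78) (nat_lit 0) (nat_lit 0) (XT.lf (nat_lit 0) (nat_lit 6925138380881) (nat_lit 76) (nat_lit 534373149115) (nat_lit 76) (nat_lit 502304375504) (nat_lit 3) (nat_lit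 4) (nat_lit 4) (nat_lit 5) (nat_lit 4) (nat_lit 4) (nat_lit 408) (nat_lit 350) (nat_lit 262)) (XT.lf (nat_lit 0) (nat_lit 8436182762014) (nat_lit 76) (nat_lit 366811348457) (nat_lit 76) (nat_lit 334742555788) (nat_lit 3) (nat_lit 4) (nat_lit 4) (nat_lit 5) (nat_lit 4) (nat_lit 4) (nat_lit 409) (nat_lit 350) (nat_lit 261))) (XT.nd (nat_lit 78) (nat_lit 152) (nat_lit 0) (XT.lf (nat_lit 0) (nat_lit 10173883275613) (nat_lit 76) (nat_lit 174115547575) (nat_lit 76) (nat_lit 142046738334) (nat_lit 3) (nat_lit 4) (nat_lit 4) (nat_lit 5) (nat_lit 4) (nat_lit 4) (nat_lit 410) (nat_lit 350) (nat_lit 260)) (XT.lf (nat_lit 0) (nat_lit 80015317184) (nat_lit 152) (nat_lit 11914355134841) (nat_lit 0) (nat_lit 50321961952) (nat_lit 1) (nat_lit 5) (nat_lit 3) (nat_lit 4) (nat_lit 1) (nat_lit 4) (nat_lit 411) (nat_lit 350) (nat_lit 259)))) (XT.nd (nat_lit 156) (nat_lit 0) (nat_lit 0) (XT.nd (nat_lit 78) (nat_lit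 0) (nat_lit 0) (XT.lf (nat_lit 0) (nat_lit 341474265720) (nat_lit 152) (nat_lit 13177826100706) (nat_lit 0) (nat_lit 311780898885) (nat_lit 1) (nat_lit 5) (nat_lit 3) (nat_lit 4) (nat_lit 1) (nat_lit 4) (nat_lit 412) (nat_lit 350) (nat_lit 258)) (XT.lf (nat_lit 0) (nat_lit 642151871051) (nat_lit 152) (nat_lit 14630818094006) (nat_lit 0) (nat_lit 612458494127) (nat_lit 1) (nat_lit 5) (nat_lit 3) (nat_lit 4) (nat_lit 1) (nat_lit 4) (nat_lit 413) (nat_lit 350) (nat_lit 257))) (XT.nd (nat_lit 78) (nat_lit 0) (nat_lit 0) (XT.lf (nat_lit 0) (nat_lit 987930955891) (nat_lit 152) (nat_lit 16301759218960) (nat_lit 0) (nat_lit 958237570194) (nat_lit 1) (nat_lit 5) (nat_lit 3) (nat_lit 4) (nat_lit 1) (nat_lit 4) (nat_lit 414) (nat_lit 350) (nat_lit 256)) (XT.nd (nat_lit 78) (nat_lit 0) (nat_lit 0) (XT.lf (nat_lit 0) (nat_lit 1385576763203) (nat_lit 152) (nat_lit 18223341801925) (nat_lit 0) (nat_lit 1355883369877)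 (nat_lit 1) (nat_lit 5) (nat_lit 3) (nat_lit 4) (nat_lit 1) (nat_lit 4) (nat_lit 415) (nat_lit 350) (nat_lit 255)) (XT.lf (nat_lit 0) (nat_lit 1842869319653) (nat_lit 152) (nat_lit 20433162023872) (nat_lit 0) (nat_lit 1813175919693) (nat_lit 1) (nat_lit 5) (nat_lit 3) (nat_lit 4) (nat_lit 1) (nat_lit 4) (nat_lit 416) (nat_lit 350) (nat_lit 254))))))))
noncomputable def xc69 : XT := (XT.nd (nat_lit 49140) (nat_lit 0) (nat_lit 1140) (XT.nd (nat_lit 48438) (nat_lit 0) (nat_lit 3192) (XT.nd (nat_lit 48126) (nat_lit 0) (nat_lit 5092) (XT.nd (nat_lit 47970) (nat_lit 0) (nat_lit 5852) (XT.nd (nat_lit 78) (nat_lit 0) (nat_lit 0) (XT.lf (nat_lit 0) (nat_lit 2368755653518) (nat_lit 152) (nat_lit 22974455497840) (nat_lit 0) (nat_lit 2339062247789) (nat_lit 1) (nat_lit 5) (nat_lit 3) (nat_lit 4) (nat_lit 1) (nat_lit 4) (nat_lit 417) (nat_lit 350) (nat_lit 253)) (XT.lf (nat_lit 0) (nat_lit 2973524845244)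 (nat_lit 152) (nat_lit 25896943183100) (nat_lit 0) (nat_lit 2943831434499) (nat_lit 1) (nat_lit 5) (nat_lit 3) (nat_lit 4) (nat_lit 1) (nat_lit 4) (nat_lit 418) (nat_lit 350) (nat_lit 252))) (XT.nd (nat_lit 78) (nat_lit 0) (nat_lit 0) (XT.lf (nat_lit 0) (nat_lit 8237971611) (nat_lit 532) (nat_lit 636094599) (nat_lit 532) (nat_lit 636094599) (nat_lit 78) (nat_lit 3) (nat_lit 85) (nat_lit 3) (nat_lit 85) (nat_lit 5) (nat_lit 351) (nat_lit 351) (nat_lit 318)) (XT.lf (nat_lit 76) (nat_lit 17199957430) (nat_lit 0) (nat_lit 1235959418) (nat_lit 532) (nat_lit 1952861817) (nat_lit 79) (nat_lit 5) (nat_lit 78) (nat_lit 3) (nat_lit 85) (nat_lit 5) (nat_lit 352) (nat_lit 351) (nat_lit 317)))) (XT.nd (nat_lit 156) (nat_lit 380) (nat_lit 0) (XT.nd (nat_lit 78) (nat_lit 456) (nat_lit 0) (XT.lf (nat_lit 76) (nat_lit 16943536755) (nat_lit 0) (nat_lit 4563332472) (nat_lit 532) (nat_lit 390298652) (nat_lit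 80) (nat_lit 5) (nat_lit 79) (nat_lit 5) (nat_lit 86) (nat_lit 5) (nat_lit 353) (nat_lit 351) (nat_lit 316)) (XT.lf (nat_lit 0) (nat_lit 2209638209) (nat_lit 532) (nat_lit 6534502955) (nat_lit 608) (nat_lit 14815117374) (nat_lit 73) (nat_lit 5) (nat_lit 80) (nat_lit 5) (nat_lit 81) (nat_lit 5) (nat_lit 354) (nat_lit 351) (nat_lit 315))) (XT.nd (nat_lit 78) (nat_lit 456) (nat_lit 0) (XT.lf (nat_lit 0) (nat_lit 6125525793) (nat_lit 532) (nat_lit 7849823181) (nat_lit 76) (nat_lit 11418592757) (nat_lit 74) (nat_lit 5) (nat_lit 81) (nat_lit 5) (nat_lit 75) (nat_lit 5) (nat_lit 355) (nat_lit 351) (nat_lit 314)) (XT.lf (nat_lit 0) (nat_lit 11654761318) (nat_lit 532) (nat_lit 8813757406) (nat_lit 76) (nat_lit 6953245027) (nat_lit 68) (nat_lit 5) (nat_lit 75) (nat_lit 5) (nat_lit 69) (nat_lit 5) (nat_lit 356) (nat_lit 351) (nat_lit 313))))) (XT.nd (nat_lit 312) (nat_lit 988) (nat_lit 0) (XT.nd (nat_lit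 156) (nat_lit 456) (nat_lit 0) (XT.nd (nat_lit 78) (nat_lit 228) (nat_lit 0) (XT.lf (nat_lit 0) (nat_lit 19119913745) (nat_lit 304) (nat_lit 9334513033) (nat_lit 76) (nat_lit 1210821540) (nat_lit 65) (nat_lit 5) (nat_lit 69) (nat_lit 5) (nat_lit 66) (nat_lit 5) (nat_lit 357) (nat_lit 351) (nat_lit 312)) (XT.lf (nat_lit 0) (nat_lit 22681660102) (nat_lit 228) (nat_lit 6366856283) (nat_lit 304) (nat_lit 3089255228) (nat_lit 62) (nat_lit 5) (nat_lit 65) (nat_lit 5) (nat_lit 66) (nat_lit 5) (nat_lit 358) (nat_lit 351) (nat_lit 311))) (XT.nd (nat_lit 78) (nat_lit 228) (nat_lit 0) (XT.lf (nat_lit 0) (nat_lit 6576901722) (nat_lit 228) (nat_lit 9139346986) (nat_lit 76) (nat_lit 19145094577) (nat_lit 59) (nat_lit 5) (nat_lit 62) (nat_lit 5) (nat_lit 60) (nat_lit 5) (nat_lit 359) (nat_lit 351) (nat_lit 310)) (XT.lf (nat_lit 0) (nat_lit 18940815558) (nat_lit 304) (nat_lit 8190979176) (nat_lit 76) (nat_lit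 10740783768) (nat_lit 56) (nat_lit 5) (nat_lit 60) (nat_lit 5) (nat_lit 57) (nat_lit 5) (nat_lit 360) (nat_lit 351) (nat_lit 309)))) (XT.nd (nat_lit 156) (nat_lit 608) (nat_lit 0) (XT.nd (nat_lit 78) (nat_lit 228) (nat_lit 0) (XT.lf (nat_lit 0) (nat_lit 34685013761) (nat_lit 228) (nat_lit 6383944212) (nat_lit 76) (nat_lit 144491475) (nat_lit 54) (nat_lit 5) (nat_lit 57) (nat_lit 5) (nat_lit 55) (nat_lit 5) (nat_lit 361) (nat_lit 351) (nat_lit 308)) (XT.lf (nat_lit 0) (nat_lit 9359880971) (nat_lit 228) (nat_lit 4108238319) (nat_lit 76) (nat_lit 31411538185) (nat_lit 51) (nat_lit 5) (nat_lit 54) (nat_lit 5) (nat_lit 52) (nat_lit 5) (nat_lit 362) (nat_lit 351) (nat_lit 307))) (XT.nd (nat_lit 78) (nat_lit 456) (nat_lit 0) (XT.lf (nat_lit 0) (nat_lit 29072939913) (nat_lit 228) (nat_lit 935616484) (nat_lit 76) (nat_lit 18927435009) (nat_lit 49) (nat_lit 5) (nat_lit 52) (nat_lit 5) (nat_lit 50)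 (nat_lit 5) (nat_lit 363) (nat_lit 351) (nat_lit 306)) (XT.nd (nat_lit 78) (nat_lit 152) (nat_lit 0) (XT.lf (nat_lit 0) (nat_lit 307695745) (nat_lit 152) (nat_lit 49766468282) (nat_lit 76) (nat_lit 3364383123) (nat_lit 45) (nat_lit 5) (nat_lit 47) (nat_lit 5) (nat_lit 46) (nat_lit 5) (nat_lit 364) (nat_lit 351) (nat_lit 305)) (XT.lf (nat_lit 0) (nat_lit 8824996173) (nat_lit 152) (nat_lit 16080832914) (nat_lit 228) (nat_lit 33463155284) (nat_lit 43) (nat_lit 5) (nat_lit 45) (nat_lit 5) (nat_lit 46) (nat_lit 5) (nat_lit 365) (nat_lit 351) (nat_lit 304))))))) (XT.nd (nat_lit 624) (nat_lit 988) (nat_lit 0) (XT.nd (nat_lit 312) (nat_lit 456) (nat_lit 0) (XT.nd (nat_lit 156) (nat_lit 304) (nat_lit 0) (XT.nd (nat_lit 78) (nat_lit 228) (nat_lit 0) (XT.lf (nat_lit 0) (nat_lit 15449801288) (nat_lit 76) (nat_lit 40139189932) (nat_lit 152) (nat_lit 8258373906) (nat_lit 42) (nat_lit 5) (nat_lit 43) (nat_lit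 5) (nat_lit 44) (nat_lit 4) (nat_lit 366) (nat_lit 351) (nat_lit 303)) (XT.lf (nat_lit 0) (nat_lit 22188560615) (nat_lit 228) (nat_lit 46617484805) (nat_lit 76) (nat_lit 1101717434) (nat_lit 39) (nat_lit 5) (nat_lit 42) (nat_lit 5) (nat_lit 40) (nat_lit 4) (nat_lit 367) (nat_lit 351) (nat_lit 302))) (XT.nd (nat_lit 78) (nat_lit 228) (nat_lit 0) (XT.lf (nat_lit 0) (nat_lit 32103519806) (nat_lit 76) (nat_lit 27937857849) (nat_lit 152) (nat_lit 16552457767) (nat_lit 38) (nat_lit 5) (nat_lit 39) (nat_lit 5) (nat_lit 40) (nat_lit 4) (nat_lit 368) (nat_lit 351) (nat_lit 301)) (XT.lf (nat_lit 0) (nat_lit 21268869951) (nat_lit 228) (nat_lit 41680865163) (nat_lit 76) (nat_lit 21060412581) (nat_lit 35) (nat_lit 5) (nat_lit 38) (nat_lit 5) (nat_lit 36) (nat_lit 4) (nat_lit 369) (nat_lit 351) (nat_lit 300)))) (XT.nd (nat_lit 156) (nat_lit 228) (nat_lit 0) (XT.nd (nat_lit 78) (nat_lit 152) (nat_lit 0)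 (XT.lf (nat_lit 0) (nat_lit 53837580440) (nat_lit 76) (nat_lit 13357946096) (nat_lit 152) (nat_lit 25036009263) (nat_lit 34) (nat_lit 5) (nat_lit 35) (nat_lit 5) (nat_lit 36) (nat_lit 4) (nat_lit 370) (nat_lit 351) (nat_lit 299)) (XT.lf (nat_lit 0) (nat_lit 21401585426) (nat_lit 152) (nat_lit 35055943910) (nat_lit 76) (nat_lit 44873888070) (nat_lit 32) (nat_lit 5) (nat_lit 34) (nat_lit 5) (nat_lit 33) (nat_lit 4) (nat_lit 371) (nat_lit 351) (nat_lit 298))) (XT.nd (nat_lit 78) (nat_lit 152) (nat_lit 0) (XT.lf (nat_lit 0) (nat_lit 76879204460) (nat_lit 152) (nat_lit 31384216724) (nat_lit 0) (nat_lit 3196294404) (nat_lit 31) (nat_lit 5) (nat_lit 33) (nat_lit 4) (nat_lit 31) (nat_lit 4) (nat_lit 372) (nat_lit 351) (nat_lit 297)) (XT.lf (nat_lit 0) (nat_lit 21695396780) (nat_lit 152) (nat_lit 28561558233) (nat_lit 76) (nat_lit 72416243426) (nat_lit 29) (nat_lit 5) (nat_lit 31) (nat_lit 5) (nat_lit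 30) (nat_lit 4) (nat_lit 373) (nat_lit 351) (nat_lit 296))))) (XT.nd (nat_lit 312) (nat_lit 532) (nat_lit 0) (XT.nd (nat_lit 156) (nat_lit 228) (nat_lit 0) (XT.nd (nat_lit 78) (nat_lit 152) (nat_lit 0) (XT.lf (nat_lit 0) (nat_lit 88493433639) (nat_lit 152) (nat_lit 26413417192) (nat_lit 0) (nat_lit 20259734325) (nat_lit 28) (nat_lit 5) (nat_lit 30) (nat_lit 4) (nat_lit 28) (nat_lit 4) (nat_lit 374) (nat_lit 351) (nat_lit 295)) (XT.lf (nat_lit 0) (nat_lit 20332546133) (nat_lit 152) (nat_lit 25945555467) (nat_lit 76) (nat_lit 102797956299) (nat_lit 26) (nat_lit 5) (nat_lit 28) (nat_lit 5) (nat_lit 27) (nat_lit 4) (nat_lit 375) (nat_lit 351) (nat_lit 294))) (XT.nd (nat_lit 78) (nat_lit 152) (nat_lit 0) (XT.lf (nat_lit 0) (nat_lit 99710268985) (nat_lit 152) (nat_lit 28333151705) (nat_lit 0) (nat_lit 36524768783) (nat_lit 25) (nat_lit 5) (nat_lit 27) (nat_lit 4) (nat_lit 25) (nat_lit 4) (nat_lit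 376) (nat_lit 351) (nat_lit 293)) (XT.lf (nat_lit 0) (nat_lit 13934387053) (nat_lit 152) (nat_lit 34204462082) (nat_lit 76) (nat_lit 133768356560) (nat_lit 23) (nat_lit 5) (nat_lit 25) (nat_lit 5) (nat_lit 24) (nat_lit 4) (nat_lit 377) (nat_lit 351) (nat_lit 292)))) (XT.nd (nat_lit 156) (nat_lit 380) (nat_lit 0) (XT.nd (nat_lit 78) (nat_lit 76) (nat_lit 0) (XT.lf (nat_lit 0) (nat_lit 106625047782) (nat_lit 152) (nat_lit 46498021703) (nat_lit 0) (nat_lit 48115649895) (nat_lit 22) (nat_lit 5) (nat_lit 24) (nat_lit 4) (nat_lit 22) (nat_lit 4) (nat_lit 378) (nat_lit 351) (nat_lit 291)) (XT.lf (nat_lit 0) (nat_lit 157202317246) (nat_lit 76) (nat_lit 62144298778) (nat_lit 76) (nat_lit 3633159695) (nat_lit 21) (nat_lit 4) (nat_lit 22) (nat_lit 5) (nat_lit 22) (nat_lit 4) (nat_lit 379) (nat_lit 351) (nat_lit 290))) (XT.nd (nat_lit 78) (nat_lit 228) (nat_lit 0) (XT.lf (nat_lit 0) (nat_lit 102184051436)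 (nat_lit 152) (nat_lit 97098615117) (nat_lit 0) (nat_lit 48005668874) (nat_lit 19) (nat_lit 5) (nat_lit 21) (nat_lit 4) (nat_lit 19) (nat_lit 4) (nat_lit 380) (nat_lit 351) (nat_lit 289)) (XT.nd (nat_lit 78) (nat_lit 152) (nat_lit 0) (XT.lf (nat_lit 0) (nat_lit 132176850519) (nat_lit 76) (nat_lit 98344678163) (nat_lit 76) (nat_lit 44165076532) (nat_lit 18) (nat_lit 4) (nat_lit 19) (nat_lit 5) (nat_lit 19) (nat_lit 4) (nat_lit 381) (nat_lit 351) (nat_lit 288)) (XT.lf (nat_lit 0) (nat_lit 74199198774) (nat_lit 152) (nat_lit 207354599447) (nat_lit 0) (nat_lit 24031919430) (nat_lit 16) (nat_lit 5) (nat_lit 18) (nat_lit 4) (nat_lit 16) (nat_lit 4) (nat_lit 382) (nat_lit 351) (nat_lit 287))))))))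
noncomputable def xc70 : XT := (XT.nd (nat_lit 1326) (nat_lit 228) (nat_lit 0) (XT.nd (nat_lit 624) (nat_lit 380) (nat_lit 0) (XT.nd (nat_lit 312) (nat_lit 228) (nat_lit 0) (XT.nd (nat_lit 156) (nat_lit 152) (nat_lit 0) (XT.nd (nat_lit 78) (nat_lit 76) (nat_lit 0) (XT.lf (nat_lit 0) (nat_lit 40912540834) (nat_lit 76) (nat_lit 174820556852) (nat_lit 76) (nat_lit 124652423998) (nat_lit 15) (nat_lit 4) (nat_lit 16) (nat_lit 5) (nat_lit 16) (nat_lit 4) (nat_lit 383) (nat_lit 351) (nat_lit 286)) (XT.lf (nat_lit 0) (nat_lit 4376254047) (nat_lit 152) (nat_lit 41066266617) (nat_lit 76) (nat_lit 334471326190) (nat_lit 14) (nat_lit 5) (nat_lit 16) (nat_lit 5) (nat_lit 15) (nat_lit 4) (nat_lit 384) (nat_lit 351) (nat_lit 285))) (XT.nd (nat_lit 78) (nat_lit 76) (nat_lit 0) (XT.lf (nat_lit 0) (nat_lit 154721240349) (nat_lit 152) (nat_lit 161375756128) (nat_lit 0) (nat_lit 108267980707) (nat_lit 13) (nat_lit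 5) (nat_lit 15) (nat_lit 4) (nat_lit 13) (nat_lit 4) (nat_lit 385) (nat_lit 351) (nat_lit 284)) (XT.lf (nat_lit 0) (nat_lit 145746929365) (nat_lit 76) (nat_lit 187855918590) (nat_lit 76) (nat_lit 141402139321) (nat_lit 12) (nat_lit 4) (nat_lit 13) (nat_lit 5) (nat_lit 13) (nat_lit 4) (nat_lit 386) (nat_lit 351) (nat_lit 283)))) (XT.nd (nat_lit 156) (nat_lit 76) (nat_lit 0) (XT.nd (nat_lit 78) (nat_lit 76) (nat_lit 0) (XT.lf (nat_lit 0) (nat_lit 10588491934) (nat_lit 152) (nat_lit 24430167893) (nat_lit 76) (nat_lit 497825311456) (nat_lit 11) (nat_lit 5) (nat_lit 13) (nat_lit 5) (nat_lit 12) (nat_lit 4) (nat_lit 387) (nat_lit 351) (nat_lit 282)) (XT.lf (nat_lit 0) (nat_lit 189095419157) (nat_lit 152) (nat_lit 262920459907) (nat_lit 0) (nat_lit 146081878387) (nat_lit 10) (nat_lit 5) (nat_lit 12) (nat_lit 4) (nat_lit 10) (nat_lit 4) (nat_lit 388) (nat_lit 351) (nat_lit 281))) (XT.nd (nat_lit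 78) (nat_lit 0) (nat_lit 0) (XT.lf (nat_lit 0) (nat_lit 80138450756) (nat_lit 76) (nat_lit 317862602278) (nat_lit 76) (nat_lit 274848745155) (nat_lit 9) (nat_lit 4) (nat_lit 10) (nat_lit 5) (nat_lit 10) (nat_lit 4) (nat_lit 389) (nat_lit 351) (nat_lit 280)) (XT.lf (nat_lit 0) (nat_lit 490572384867) (nat_lit 76) (nat_lit 155322117403) (nat_lit 76) (nat_lit 112307985188) (nat_lit 9) (nat_lit 4) (nat_lit 10) (nat_lit 5) (nat_lit 10) (nat_lit 4) (nat_lit 390) (nat_lit 351) (nat_lit 279))))) (XT.nd (nat_lit 312) (nat_lit 152) (nat_lit 0) (XT.nd (nat_lit 156) (nat_lit 76) (nat_lit 0) (XT.nd (nat_lit 78) (nat_lit 0) (nat_lit 0) (XT.lf (nat_lit 0) (nat_lit 74397580339) (nat_lit 152) (nat_lit 746966189459) (nat_lit 0) (nat_lit 34569458650) (nat_lit 7) (nat_lit 5) (nat_lit 9) (nat_lit 4) (nat_lit 7) (nat_lit 4) (nat_lit 391) (nat_lit 351) (nat_lit 278)) (XT.lf (nat_lit 0) (nat_lit 294935898290) (nat_lit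 152) (nat_lit 417048586797) (nat_lit 0) (nat_lit 255107584001) (nat_lit 7) (nat_lit 5) (nat_lit 9) (nat_lit 4) (nat_lit 7) (nat_lit 4) (nat_lit 392) (nat_lit 351) (nat_lit 277))) (XT.nd (nat_lit 78) (nat_lit 76) (nat_lit 0) (XT.lf (nat_lit 0) (nat_lit 548553017172) (nat_lit 152) (nat_lit 37647339015) (nat_lit 0) (nat_lit 508724535404) (nat_lit 7) (nat_lit 5) (nat_lit 9) (nat_lit 4) (nat_lit 7) (nat_lit 4) (nat_lit 393) (nat_lit 351) (nat_lit 276)) (XT.lf (nat_lit 0) (nat_lit 419653383635) (nat_lit 76) (nat_lit 430650301385) (nat_lit 76) (nat_lit 390821673983) (nat_lit 6) (nat_lit 4) (nat_lit 7) (nat_lit 5) (nat_lit 7) (nat_lit 4) (nat_lit 394) (nat_lit 351) (nat_lit 275)))) (XT.nd (nat_lit 156) (nat_lit 152) (nat_lit 0) (XT.nd (nat_lit 78) (nat_lit 0) (nat_lit 0) (XT.lf (nat_lit 0) (nat_lit 947825843077) (nat_lit 76) (nat_lit 250585623224) (nat_lit 76) (nat_lit 210756869184) (nat_lit 6) (nat_lit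 4) (nat_lit 7) (nat_lit 5) (nat_lit 7) (nat_lit 4) (nat_lit 395) (nat_lit 351) (nat_lit 274)) (XT.lf (nat_lit 0) (nat_lit 1555221406143) (nat_lit 76) (nat_lit 43512662097) (nat_lit 76) (nat_lit 3683797938) (nat_lit 6) (nat_lit 4) (nat_lit 7) (nat_lit 5) (nat_lit 7) (nat_lit 4) (nat_lit 396) (nat_lit 351) (nat_lit 273))) (XT.nd (nat_lit 78) (nat_lit 0) (nat_lit 0) (XT.lf (nat_lit 0) (nat_lit 238546147147) (nat_lit 152) (nat_lit 1382724191012) (nat_lit 0) (nat_lit 201667480559) (nat_lit 4) (nat_lit 5) (nat_lit 6) (nat_lit 4) (nat_lit 4) (nat_lit 4) (nat_lit 397) (nat_lit 351) (nat_lit 272)) (XT.nd (nat_lit 78) (nat_lit 0) (nat_lit 0) (XT.lf (nat_lit 0) (nat_lit 519510753919) (nat_lit 152) (nat_lit 1074175882005) (nat_lit 0) (nat_lit 482632010232) (nat_lit 4) (nat_lit 5) (nat_lit 6) (nat_lit 4) (nat_lit 4) (nat_lit 4) (nat_lit 398) (nat_lit 351) (nat_lit 271)) (XT.lf (nat_lit 0) (nat_lit 842619071830)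 (nat_lit 152) (nat_lit 719347343180) (nat_lit 0) (nat_lit 805740261101) (nat_lit 4) (nat_lit 5) (nat_lit 6) (nat_lit 4) (nat_lit 4) (nat_lit 4) (nat_lit 399) (nat_lit 351) (nat_lit 270))))))) (XT.nd (nat_lit 624) (nat_lit 152) (nat_lit 0) (XT.nd (nat_lit 312) (nat_lit 0) (nat_lit 0) (XT.nd (nat_lit 156) (nat_lit 0) (nat_lit 0) (XT.nd (nat_lit 78) (nat_lit 76) (nat_lit 0) (XT.lf (nat_lit 0) (nat_lit 1214192785362) (nat_lit 152) (nat_lit 311296277037) (nat_lit 0) (nat_lit 1177313916335) (nat_lit 4) (nat_lit 5) (nat_lit 6) (nat_lit 4) (nat_lit 4) (nat_lit 4) (nat_lit 400) (nat_lit 351) (nat_lit 269)) (XT.lf (nat_lit 0) (nat_lit 166278866579) (nat_lit 76) (nat_lit 1479221959157) (nat_lit 76) (nat_lit 1442343039436) (nat_lit 3) (nat_lit 4) (nat_lit 4) (nat_lit 5) (nat_lit 4) (nat_lit 4) (nat_lit 401) (nat_lit 351) (nat_lit 268))) (XT.nd (nat_lit 78) (nat_lit 0) (nat_lit 0) (XT.lf (nat_lit 0) (nat_lit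 734340042843) (nat_lit 76) (nat_lit 1416227407638) (nat_lit 76) (nat_lit 1379348443836) (nat_lit 3) (nat_lit 4) (nat_lit 4) (nat_lit 5) (nat_lit 4) (nat_lit 4) (nat_lit 402) (nat_lit 351) (nat_lit 267)) (XT.lf (nat_lit 0) (nat_lit 1387609181875) (nat_lit 76) (nat_lit 1343784297627) (nat_lit 76) (nat_lit 1306905295494) (nat_lit 3) (nat_lit 4) (nat_lit 4) (nat_lit 5) (nat_lit 4) (nat_lit 4) (nat_lit 403) (nat_lit 351) (nat_lit 266)))) (XT.nd (nat_lit 156) (nat_lit 0) (nat_lit 0) (XT.nd (nat_lit 78) (nat_lit 0) (nat_lit 0) (XT.lf (nat_lit 0) (nat_lit 2138867636396) (nat_lit 76) (nat_lit 1260475263928) (nat_lit 76) (nat_lit 1223596228462) (nat_lit 3) (nat_lit 4) (nat_lit 4) (nat_lit 5) (nat_lit 4) (nat_lit 4) (nat_lit 404) (nat_lit 351) (nat_lit 265)) (XT.lf (nat_lit 0) (nat_lit 3002813941384) (nat_lit 76) (nat_lit 1164670347185) (nat_lit 76) (nat_lit 1127791282735) (nat_lit 3) (nat_lit 4) (nat_lit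 4) (nat_lit 5) (nat_lit 4) (nat_lit 4) (nat_lit 405) (nat_lit 351) (nat_lit 264))) (XT.nd (nat_lit 78) (nat_lit 0) (nat_lit 0) (XT.lf (nat_lit 0) (nat_lit 3996351394113) (nat_lit 76) (nat_lit 1054495103375) (nat_lit 76) (nat_lit 1017616013722) (nat_lit 3) (nat_lit 4) (nat_lit 4) (nat_lit 5) (nat_lit 4) (nat_lit 4) (nat_lit 406) (nat_lit 351) (nat_lit 263)) (XT.lf (nat_lit 0) (nat_lit 5138918770830) (nat_lit 76) (nat_lit 927793929902) (nat_lit 76) (nat_lit 890914818333) (nat_lit 3) (nat_lit 4) (nat_lit 4) (nat_lit 5) (nat_lit 4) (nat_lit 4) (nat_lit 407) (nat_lit 351) (nat_lit 262))))) (XT.nd (nat_lit 312) (nat_lit 152) (nat_lit 0) (XT.nd (nat_lit 156) (nat_lit 0) (nat_lit 0) (XT.nd (nat_lit 78) (nat_lit 0) (nat_lit 0) (XT.lf (nat_lit 0) (nat_lit 6452870650645) (nat_lit 76) (nat_lit 782087890764) (nat_lit 76) (nat_lit 745208760137) (nat_lit 3) (nat_lit 4) (nat_lit 4) (nat_lit 5) (nat_lit 4)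 (nat_lit 4) (nat_lit 408) (nat_lit 351) (nat_lit 261)) (XT.lf (nat_lit 0) (nat_lit 7963914787730) (nat_lit 76) (nat_lit 614526215629) (nat_lit 76) (nat_lit 577647068430) (nat_lit 3) (nat_lit 4) (nat_lit 4) (nat_lit 5) (nat_lit 4) (nat_lit 4) (nat_lit 409) (nat_lit 351) (nat_lit 260))) (XT.nd (nat_lit 78) (nat_lit 0) (nat_lit 0) (XT.lf (nat_lit 0) (nat_lit 9701615089113) (nat_lit 76) (nat_lit 421830523897) (nat_lit 76) (nat_lit 384951362288) (nat_lit 3) (nat_lit 4) (nat_lit 4) (nat_lit 5) (nat_lit 4) (nat_lit 4) (nat_lit 410) (nat_lit 351) (nat_lit 259)) (XT.lf (nat_lit 0) (nat_lit 11699970038951) (nat_lit 76) (nat_lit 200230682468) (nat_lit 76) (nat_lit 163351508329) (nat_lit 3) (nat_lit 4) (nat_lit 4) (nat_lit 5) (nat_lit 4) (nat_lit 4) (nat_lit 411) (nat_lit 351) (nat_lit 258)))) (XT.nd (nat_lit 156) (nat_lit 0) (nat_lit 0) (XT.nd (nat_lit 78) (nat_lit 0) (nat_lit 0) (XT.lf (nat_lit 0)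 (nat_lit 92019611962) (nat_lit 152) (nat_lit 13701504285909) (nat_lit 0) (nat_lit 57872218410) (nat_lit 1) (nat_lit 5) (nat_lit 3) (nat_lit 4) (nat_lit 1) (nat_lit 4) (nat_lit 412) (nat_lit 351) (nat_lit 257)) (XT.lf (nat_lit 0) (nat_lit 392697142274) (nat_lit 152) (nat_lit 15154496433934) (nat_lit 0) (nat_lit 358549739949) (nat_lit 1) (nat_lit 5) (nat_lit 3) (nat_lit 4) (nat_lit 1) (nat_lit 4) (nat_lit 413) (nat_lit 351) (nat_lit 256))) (XT.nd (nat_lit 78) (nat_lit 0) (nat_lit 0) (XT.lf (nat_lit 0) (nat_lit 738476161879) (nat_lit 152) (nat_lit 16825437693431) (nat_lit 0) (nat_lit 704328751926) (nat_lit 1) (nat_lit 5) (nat_lit 3) (nat_lit 4) (nat_lit 1) (nat_lit 4) (nat_lit 414) (nat_lit 351) (nat_lit 255)) (XT.nd (nat_lit 78) (nat_lit 0) (nat_lit 0) (XT.lf (nat_lit 0) (nat_lit 1136121912466) (nat_lit 152) (nat_lit 18747020393390) (nat_lit 0) (nat_lit 1101974495879) (nat_lit 1) (nat_lit 5)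 (nat_lit 3) (nat_lit 4) (nat_lit 1) (nat_lit 4) (nat_lit 415) (nat_lit 351) (nat_lit 254)) (XT.lf (nat_lit 0) (nat_lit 1593414419589) (nat_lit 152) (nat_lit 20956840717071) (nat_lit 0) (nat_lit 1559266997233) (nat_lit 1) (nat_lit 5) (nat_lit 3) (nat_lit 4) (nat_lit 1) (nat_lit 4) (nat_lit 416) (nat_lit 351) (nat_lit 253))))))))
noncomputable def xc71 : XT := (XT.nd (nat_lit 49218) (nat_lit 0) (nat_lit 1064) (XT.nd (nat_lit 48516) (nat_lit 0) (nat_lit 3192) (XT.nd (nat_lit 48204) (nat_lit 0) (nat_lit 5092) (XT.nd (nat_lit 48048) (nat_lit 0) (nat_lit 5852) (XT.nd (nat_lit 78) (nat_lit 0) (nat_lit 0) (XT.lf (nat_lit 0) (nat_lit 2119300710562) (nat_lit 152) (nat_lit 23498134279503) (nat_lit 0) (nat_lit 2085153283190) (nat_lit 1) (nat_lit 5) (nat_lit 3) (nat_lit 4) (nat_lit 1) (nat_lit 4) (nat_lit 417) (nat_lit 351) (nat_lit 252)) (XT.lf (nat_lit 0) (nat_lit 2724069864990) (nat_lit 152) (nat_lit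 26420622041689) (nat_lit 0) (nat_lit 2689922433256) (nat_lit 1) (nat_lit 5) (nat_lit 3) (nat_lit 4) (nat_lit 1) (nat_lit 4) (nat_lit 418) (nat_lit 351) (nat_lit 251))) (XT.nd (nat_lit 78) (nat_lit 0) (nat_lit 0) (XT.lf (nat_lit 0) (nat_lit 9771423797) (nat_lit 532) (nat_lit 570660471) (nat_lit 532) (nat_lit 570660471) (nat_lit 78) (nat_lit 3) (nat_lit 85) (nat_lit 3) (nat_lit 85) (nat_lit 5) (nat_lit 352) (nat_lit 352) (nat_lit 316)) (XT.lf (nat_lit 76) (nat_lit 20074417663) (nat_lit 0) (nat_lit 1651805936) (nat_lit 532) (nat_lit 1678670195) (nat_lit 79) (nat_lit 5) (nat_lit 78) (nat_lit 3) (nat_lit 85) (nat_lit 5) (nat_lit 353) (nat_lit 352) (nat_lit 315)))) (XT.nd (nat_lit 156) (nat_lit 304) (nat_lit 0) (XT.nd (nat_lit 78) (nat_lit 0) (nat_lit 76) (XT.lf (nat_lit 0) (nat_lit 44873387) (nat_lit 532) (nat_lit 5347653348) (nat_lit 608) (nat_lit 19752211214) (nat_lit 72) (nat_lit 5) (nat_lit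 79) (nat_lit 5) (nat_lit 80) (nat_lit 5) (nat_lit 354) (nat_lit 352) (nat_lit 314)) (XT.lf (nat_lit 0) (nat_lit 2955735666) (nat_lit 532) (nat_lit 7168966186) (nat_lit 608) (nat_lit 16935127607) (nat_lit 73) (nat_lit 5) (nat_lit 80) (nat_lit 5) (nat_lit 81) (nat_lit 5) (nat_lit 355) (nat_lit 352) (nat_lit 313))) (XT.nd (nat_lit 78) (nat_lit 456) (nat_lit 0) (XT.lf (nat_lit 0) (nat_lit 7411287937) (nat_lit 532) (nat_lit 8680022304) (nat_lit 76) (nat_lit 13082241373) (nat_lit 74) (nat_lit 5) (nat_lit 81) (nat_lit 5) (nat_lit 75) (nat_lit 5) (nat_lit 356) (nat_lit 352) (nat_lit 312)) (XT.lf (nat_lit 0) (nat_lit 13729480377) (nat_lit 532) (nat_lit 9791481572) (nat_lit 76) (nat_lit 7987835790) (nat_lit 68) (nat_lit 5) (nat_lit 75) (nat_lit 5) (nat_lit 69) (nat_lit 5) (nat_lit 357) (nat_lit 352) (nat_lit 311))))) (XT.nd (nat_lit 312) (nat_lit 988) (nat_lit 0) (XT.nd (nat_lit 156) (nat_lit 456)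 (nat_lit 0) (XT.nd (nat_lit 78) (nat_lit 228) (nat_lit 0) (XT.lf (nat_lit 0) (nat_lit 22279968342) (nat_lit 304) (nat_lit 10396651403) (nat_lit 76) (nat_lit 1414954603) (nat_lit 65) (nat_lit 5) (nat_lit 69) (nat_lit 5) (nat_lit 66) (nat_lit 5) (nat_lit 358) (nat_lit 352) (nat_lit 310)) (XT.lf (nat_lit 0) (nat_lit 26393334420) (nat_lit 228) (nat_lit 7273872880) (nat_lit 304) (nat_lit 3270233664) (nat_lit 62) (nat_lit 5) (nat_lit 65) (nat_lit 5) (nat_lit 66) (nat_lit 5) (nat_lit 359) (nat_lit 352) (nat_lit 309))) (XT.nd (nat_lit 78) (nat_lit 228) (nat_lit 0) (XT.lf (nat_lit 0) (nat_lit 7805193182) (nat_lit 228) (nat_lit 10196055302) (nat_lit 76) (nat_lit 22069888716) (nat_lit 59) (nat_lit 5) (nat_lit 62) (nat_lit 5) (nat_lit 60) (nat_lit 5) (nat_lit 360) (nat_lit 352) (nat_lit 308)) (XT.lf (nat_lit 0) (nat_lit 22000771980) (nat_lit 304) (nat_lit 9116292306) (nat_lit 76) (nat_lit 12418835932)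 (nat_lit 56) (nat_lit 5) (nat_lit 60) (nat_lit 5) (nat_lit 57) (nat_lit 5) (nat_lit 361) (nat_lit 352) (nat_lit 307)))) (XT.nd (nat_lit 156) (nat_lit 608) (nat_lit 0) (XT.nd (nat_lit 78) (nat_lit 228) (nat_lit 0) (XT.lf (nat_lit 0) (nat_lit 40086674613) (nat_lit 228) (nat_lit 7050010202) (nat_lit 76) (nat_lit 242818624) (nat_lit 54) (nat_lit 5) (nat_lit 57) (nat_lit 5) (nat_lit 55) (nat_lit 5) (nat_lit 362) (nat_lit 352) (nat_lit 306)) (XT.lf (nat_lit 0) (nat_lit 10947946188) (nat_lit 228) (nat_lit 4447890290) (nat_lit 76) (nat_lit 36201002133) (nat_lit 51) (nat_lit 5) (nat_lit 54) (nat_lit 5) (nat_lit 52) (nat_lit 5) (nat_lit 363) (nat_lit 352) (nat_lit 305))) (XT.nd (nat_lit 78) (nat_lit 456) (nat_lit 0) (XT.lf (nat_lit 0) (nat_lit 33602134560) (nat_lit 228) (nat_lit 811550846) (nat_lit 76) (nat_lit 21849208905) (nat_lit 49) (nat_lit 5) (nat_lit 52) (nat_lit 5) (nat_lit 50) (nat_lit 5)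 (nat_lit 364) (nat_lit 352) (nat_lit 304)) (XT.nd (nat_lit 78) (nat_lit 152) (nat_lit 0) (XT.lf (nat_lit 0) (nat_lit 518724529) (nat_lit 152) (nat_lit 56957388215) (nat_lit 76) (nat_lit 3964997932) (nat_lit 45) (nat_lit 5) (nat_lit 47) (nat_lit 5) (nat_lit 46) (nat_lit 5) (nat_lit 365) (nat_lit 352) (nat_lit 303)) (XT.lf (nat_lit 0) (nat_lit 10399598914) (nat_lit 152) (nat_lit 18391506626) (nat_lit 228) (nat_lit 38321249455) (nat_lit 43) (nat_lit 5) (nat_lit 45) (nat_lit 5) (nat_lit 46) (nat_lit 5) (nat_lit 366) (nat_lit 352) (nat_lit 302))))))) (XT.nd (nat_lit 702) (nat_lit 988) (nat_lit 0) (XT.nd (nat_lit 312) (nat_lit 532) (nat_lit 0) (XT.nd (nat_lit 156) (nat_lit 304) (nat_lit 0) (XT.nd (nat_lit 78) (nat_lit 228) (nat_lit 0) (XT.lf (nat_lit 0) (nat_lit 18005621170) (nat_lit 76) (nat_lit 46059487567) (nat_lit 152) (nat_lit 9348318031) (nat_lit 42) (nat_lit 5) (nat_lit 43) (nat_lit 5) (nat_lit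 44) (nat_lit 4) (nat_lit 367) (nat_lit 352) (nat_lit 301)) (XT.lf (nat_lit 0) (nat_lit 25647509482) (nat_lit 228) (nat_lit 53377140804) (nat_lit 76) (nat_lit 1358806406) (nat_lit 39) (nat_lit 5) (nat_lit 42) (nat_lit 5) (nat_lit 40) (nat_lit 4) (nat_lit 368) (nat_lit 352) (nat_lit 300))) (XT.nd (nat_lit 78) (nat_lit 228) (nat_lit 0) (XT.lf (nat_lit 0) (nat_lit 37132295027) (nat_lit 76) (nat_lit 32034039423) (nat_lit 152) (nat_lit 18907061138) (nat_lit 38) (nat_lit 5) (nat_lit 39) (nat_lit 5) (nat_lit 40) (nat_lit 4) (nat_lit 369) (nat_lit 352) (nat_lit 299)) (XT.lf (nat_lit 0) (nat_lit 24572163608) (nat_lit 228) (nat_lit 47725207927) (nat_lit 76) (nat_lit 24305249074) (nat_lit 35) (nat_lit 5) (nat_lit 38) (nat_lit 5) (nat_lit 36) (nat_lit 4) (nat_lit 370) (nat_lit 352) (nat_lit 298)))) (XT.nd (nat_lit 156) (nat_lit 304) (nat_lit 0) (XT.nd (nat_lit 78) (nat_lit 152) (nat_lit 0) (XT.lf (nat_lit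 0) (nat_lit 62103416381) (nat_lit 76) (nat_lit 15274242262) (nat_lit 152) (nat_lit 28680372679) (nat_lit 34) (nat_lit 5) (nat_lit 35) (nat_lit 5) (nat_lit 36) (nat_lit 4) (nat_lit 371) (nat_lit 352) (nat_lit 297)) (XT.lf (nat_lit 0) (nat_lit 24709857499) (nat_lit 152) (nat_lit 40129451313) (nat_lit 76) (nat_lit 51683969932) (nat_lit 32) (nat_lit 5) (nat_lit 34) (nat_lit 5) (nat_lit 33) (nat_lit 4) (nat_lit 372) (nat_lit 352) (nat_lit 296))) (XT.nd (nat_lit 78) (nat_lit 228) (nat_lit 0) (XT.lf (nat_lit 0) (nat_lit 88502324423) (nat_lit 152) (nat_lit 35917383787) (nat_lit 0) (nat_lit 3751658152) (nat_lit 31) (nat_lit 5) (nat_lit 33) (nat_lit 4) (nat_lit 31) (nat_lit 4) (nat_lit 373) (nat_lit 352) (nat_lit 295)) (XT.nd (nat_lit 78) (nat_lit 76) (nat_lit 0) (XT.lf (nat_lit 0) (nat_lit 25035052180) (nat_lit 152) (nat_lit 32681594016) (nat_lit 76) (nat_lit 83350698365) (nat_lit 29) (nat_lit 5)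 (nat_lit 31) (nat_lit 5) (nat_lit 30) (nat_lit 4) (nat_lit 374) (nat_lit 352) (nat_lit 294)) (XT.lf (nat_lit 0) (nat_lit 101847020127) (nat_lit 152) (nat_lit 30220641808) (nat_lit 0) (nat_lit 23367540084) (nat_lit 28) (nat_lit 5) (nat_lit 30) (nat_lit 4) (nat_lit 28) (nat_lit 4) (nat_lit 375) (nat_lit 352) (nat_lit 293)))))) (XT.nd (nat_lit 312) (nat_lit 532) (nat_lit 0) (XT.nd (nat_lit 156) (nat_lit 228) (nat_lit 0) (XT.nd (nat_lit 78) (nat_lit 76) (nat_lit 0) (XT.lf (nat_lit 0) (nat_lit 23456918171) (nat_lit 152) (nat_lit 29691776153) (nat_lit 76) (nat_lit 118282808868) (nat_lit 26) (nat_lit 5) (nat_lit 28) (nat_lit 5) (nat_lit 27) (nat_lit 4) (nat_lit 376) (nat_lit 352) (nat_lit 292)) (XT.lf (nat_lit 0) (nat_lit 114736359560) (nat_lit 152) (nat_lit 32445965860) (nat_lit 0) (nat_lit 42065524819) (nat_lit 25) (nat_lit 5) (nat_lit 27) (nat_lit 4) (nat_lit 25) (nat_lit 4) (nat_lit 377) (nat_lit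 352) (nat_lit 291))) (XT.nd (nat_lit 78) (nat_lit 76) (nat_lit 0) (XT.lf (nat_lit 0) (nat_lit 16089695322) (nat_lit 152) (nat_lit 39206148961) (nat_lit 76) (nat_lit 153892227319) (nat_lit 23) (nat_lit 5) (nat_lit 25) (nat_lit 5) (nat_lit 24) (nat_lit 4) (nat_lit 378) (nat_lit 352) (nat_lit 290)) (XT.lf (nat_lit 0) (nat_lit 122679705446) (nat_lit 152) (nat_lit 53351307034) (nat_lit 0) (nat_lit 55388640221) (nat_lit 22) (nat_lit 5) (nat_lit 24) (nat_lit 4) (nat_lit 22) (nat_lit 4) (nat_lit 379) (nat_lit 352) (nat_lit 289)))) (XT.nd (nat_lit 156) (nat_lit 304) (nat_lit 0) (XT.nd (nat_lit 78) (nat_lit 152) (nat_lit 0) (XT.lf (nat_lit 0) (nat_lit 180893805335) (nat_lit 76) (nat_lit 71410432978) (nat_lit 76) (nat_lit 4118051158) (nat_lit 21) (nat_lit 4) (nat_lit 22) (nat_lit 5) (nat_lit 22) (nat_lit 4) (nat_lit 380) (nat_lit 352) (nat_lit 288)) (XT.lf (nat_lit 0) (nat_lit 117565062952) (nat_lit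 152) (nat_lit 111556006753) (nat_lit 0) (nat_lit 55256241948) (nat_lit 19) (nat_lit 5) (nat_lit 21) (nat_lit 4) (nat_lit 19) (nat_lit 4) (nat_lit 381) (nat_lit 352) (nat_lit 287))) (XT.nd (nat_lit 78) (nat_lit 228) (nat_lit 0) (XT.lf (nat_lit 0) (nat_lit 152101687800) (nat_lit 76) (nat_lit 113046872623) (nat_lit 76) (nat_lit 50737129828) (nat_lit 18) (nat_lit 4) (nat_lit 19) (nat_lit 5) (nat_lit 19) (nat_lit 4) (nat_lit 382) (nat_lit 352) (nat_lit 286)) (XT.nd (nat_lit 78) (nat_lit 76) (nat_lit 0) (XT.lf (nat_lit 0) (nat_lit 85375963029) (nat_lit 152) (nat_lit 238362845713) (nat_lit 0) (nat_lit 27681014553) (nat_lit 16) (nat_lit 5) (nat_lit 18) (nat_lit 4) (nat_lit 16) (nat_lit 4) (nat_lit 383) (nat_lit 352) (nat_lit 285)) (XT.lf (nat_lit 0) (nat_lit 47136329103) (nat_lit 76) (nat_lit 200999592432) (nat_lit 76) (nat_lit 143303998581) (nat_lit 15) (nat_lit 4) (nat_lit 16) (nat_lit 5) (nat_lit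 16) (nat_lit 4) (nat_lit 384) (nat_lit 352) (nat_lit 284))))))))
noncomputable def xc72 : XT := (XT.nd (nat_lit 1326) (nat_lit 228) (nat_lit 0) (XT.nd (nat_lit 624) (nat_lit 228) (nat_lit 0) (XT.nd (nat_lit 312) (nat_lit 304) (nat_lit 0) (XT.nd (nat_lit 156) (nat_lit 152) (nat_lit 0) (XT.nd (nat_lit 78) (nat_lit 76) (nat_lit 0) (XT.lf (nat_lit 0) (nat_lit 5070929940) (nat_lit 152) (nat_lit 47148620773) (nat_lit 76) (nat_lit 384678313274) (nat_lit 14) (nat_lit 5) (nat_lit 16) (nat_lit 5) (nat_lit 15) (nat_lit 4) (nat_lit 385) (nat_lit 352) (nat_lit 283)) (XT.lf (nat_lit 0) (nat_lit 177965251901) (nat_lit 152) (nat_lit 185509170797) (nat_lit 0) (nat_lit 124542434265) (nat_lit 13) (nat_lit 5) (nat_lit 15) (nat_lit 4) (nat_lit 13) (nat_lit 4) (nat_lit 386) (nat_lit 352) (nat_lit 282))) (XT.nd (nat_lit 78) (nat_lit 76) (nat_lit 0) (XT.lf (nat_lit 0) (nat_lit 167675742772) (nat_lit 76) (nat_lit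 216000290901) (nat_lit 76) (nat_lit 162577080353) (nat_lit 12) (nat_lit 4) (nat_lit 13) (nat_lit 5) (nat_lit 13) (nat_lit 4) (nat_lit 387) (nat_lit 352) (nat_lit 281)) (XT.lf (nat_lit 0) (nat_lit 12205991831) (nat_lit 152) (nat_lit 28035089200) (nat_lit 76) (nat_lit 572527147324) (nat_lit 11) (nat_lit 5) (nat_lit 13) (nat_lit 5) (nat_lit 12) (nat_lit 4) (nat_lit 388) (nat_lit 352) (nat_lit 280)))) (XT.nd (nat_lit 156) (nat_lit 152) (nat_lit 0) (XT.nd (nat_lit 78) (nat_lit 76) (nat_lit 0) (XT.lf (nat_lit 0) (nat_lit 217487127548) (nat_lit 152) (nat_lit 302302501008) (nat_lit 0) (nat_lit 168020600410) (nat_lit 10) (nat_lit 5) (nat_lit 12) (nat_lit 4) (nat_lit 10) (nat_lit 4) (nat_lit 389) (nat_lit 352) (nat_lit 279)) (XT.lf (nat_lit 0) (nat_lit 92210503773) (nat_lit 76) (nat_lit 365515762820) (nat_lit 76) (nat_lit 316048996473) (nat_lit 9) (nat_lit 4) (nat_lit 10) (nat_lit 5) (nat_lit 10) (nat_lit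 4) (nat_lit 390) (nat_lit 352) (nat_lit 278))) (XT.nd (nat_lit 78) (nat_lit 152) (nat_lit 0) (XT.lf (nat_lit 0) (nat_lit 564202838601) (nat_lit 76) (nat_lit 178597626491) (nat_lit 76) (nat_lit 129130652135) (nat_lit 9) (nat_lit 4) (nat_lit 10) (nat_lit 5) (nat_lit 10) (nat_lit 4) (nat_lit 391) (nat_lit 352) (nat_lit 277)) (XT.lf (nat_lit 0) (nat_lit 85578179032) (nat_lit 152) (nat_lit 858968098950) (nat_lit 0) (nat_lit 39775257520) (nat_lit 7) (nat_lit 5) (nat_lit 9) (nat_lit 4) (nat_lit 7) (nat_lit 4) (nat_lit 392) (nat_lit 352) (nat_lit 276))))) (XT.nd (nat_lit 312) (nat_lit 152) (nat_lit 0) (XT.nd (nat_lit 156) (nat_lit 76) (nat_lit 0) (XT.nd (nat_lit 78) (nat_lit 0) (nat_lit 0) (XT.lf (nat_lit 0) (nat_lit 339194510548) (nat_lit 152) (nat_lit 479568467054) (nat_lit 0) (nat_lit 293391443403) (nat_lit 7) (nat_lit 5) (nat_lit 9) (nat_lit 4) (nat_lit 7) (nat_lit 4) (nat_lit 393) (nat_lit 352)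 (nat_lit 275)) (XT.lf (nat_lit 0) (nat_lit 630851819761) (nat_lit 152) (nat_lit 43261911378) (nat_lit 0) (nat_lit 585048625978) (nat_lit 7) (nat_lit 5) (nat_lit 9) (nat_lit 4) (nat_lit 7) (nat_lit 4) (nat_lit 394) (nat_lit 352) (nat_lit 274))) (XT.nd (nat_lit 78) (nat_lit 0) (nat_lit 0) (XT.lf (nat_lit 0) (nat_lit 482631166295) (nat_lit 76) (nat_lit 495232570189) (nat_lit 76) (nat_lit 449429266286) (nat_lit 6) (nat_lit 4) (nat_lit 7) (nat_lit 5) (nat_lit 7) (nat_lit 4) (nat_lit 395) (nat_lit 352) (nat_lit 273)) (XT.lf (nat_lit 0) (nat_lit 1090025610943) (nat_lit 76) (nat_lit 288160182878) (nat_lit 76) (nat_lit 242356783219) (nat_lit 6) (nat_lit 4) (nat_lit 7) (nat_lit 5) (nat_lit 7) (nat_lit 4) (nat_lit 396) (nat_lit 352) (nat_lit 272)))) (XT.nd (nat_lit 156) (nat_lit 0) (nat_lit 0) (XT.nd (nat_lit 78) (nat_lit 152) (nat_lit 0) (XT.lf (nat_lit 0) (nat_lit 1788527131330) (nat_lit 76) (nat_lit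 50028010256) (nat_lit 76) (nat_lit 4224527331) (nat_lit 6) (nat_lit 4) (nat_lit 7) (nat_lit 5) (nat_lit 7) (nat_lit 4) (nat_lit 397) (nat_lit 352) (nat_lit 271)) (XT.lf (nat_lit 0) (nat_lit 274338619980) (nat_lit 152) (nat_lit 1590111106774) (nat_lit 0) (nat_lit 231927920599) (nat_lit 4) (nat_lit 5) (nat_lit 6) (nat_lit 4) (nat_lit 4) (nat_lit 4) (nat_lit 398) (nat_lit 352) (nat_lit 270))) (XT.nd (nat_lit 78) (nat_lit 0) (nat_lit 0) (XT.lf (nat_lit 0) (nat_lit 597446541581) (nat_lit 152) (nat_lit 1235283383533) (nat_lit 0) (nat_lit 555035783902) (nat_lit 4) (nat_lit 5) (nat_lit 6) (nat_lit 4) (nat_lit 4) (nat_lit 4) (nat_lit 399) (nat_lit 352) (nat_lit 269)) (XT.nd (nat_lit 78) (nat_lit 0) (nat_lit 0) (XT.lf (nat_lit 0) (nat_lit 969019910495) (nat_lit 152) (nat_lit 827233026593) (nat_lit 0) (nat_lit 926609102123) (nat_lit 4) (nat_lit 5) (nat_lit 6) (nat_lit 4) (nat_lit 4) (nat_lit 4) (nat_lit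 400) (nat_lit 352) (nat_lit 268)) (XT.lf (nat_lit 0) (nat_lit 1396328640462) (nat_lit 152) (nat_lit 357976442015) (nat_lit 0) (nat_lit 1353917788008) (nat_lit 4) (nat_lit 5) (nat_lit 6) (nat_lit 4) (nat_lit 4) (nat_lit 4) (nat_lit 401) (nat_lit 352) (nat_lit 267))))))) (XT.nd (nat_lit 624) (nat_lit 152) (nat_lit 0) (XT.nd (nat_lit 312) (nat_lit 0) (nat_lit 0) (XT.nd (nat_lit 156) (nat_lit 0) (nat_lit 0) (XT.nd (nat_lit 78) (nat_lit 0) (nat_lit 0) (XT.lf (nat_lit 0) (nat_lit 191233764702) (nat_lit 76) (nat_lit 1701098531614) (nat_lit 76) (nat_lit 1658687640829) (nat_lit 3) (nat_lit 4) (nat_lit 4) (nat_lit 5) (nat_lit 4) (nat_lit 4) (nat_lit 402) (nat_lit 352) (nat_lit 266)) (XT.lf (nat_lit 0) (nat_lit 844502412866) (nat_lit 76) (nat_lit 1628655674074) (nat_lit 76) (nat_lit 1586244749958) (nat_lit 3) (nat_lit 4) (nat_lit 4) (nat_lit 5) (nat_lit 4) (nat_lit 4) (nat_lit 403) (nat_lit 352) (nat_lit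 265))) (XT.nd (nat_lit 78) (nat_lit 0) (nat_lit 0) (XT.lf (nat_lit 0) (nat_lit 1595760440545) (nat_lit 76) (nat_lit 1545346859915) (nat_lit 76) (nat_lit 1502935906814) (nat_lit 3) (nat_lit 4) (nat_lit 4) (nat_lit 5) (nat_lit 4) (nat_lit 4) (nat_lit 404) (nat_lit 352) (nat_lit 264)) (XT.lf (nat_lit 0) (nat_lit 2459706374367) (nat_lit 76) (nat_lit 1449542134077) (nat_lit 76) (nat_lit 1407131155772) (nat_lit 3) (nat_lit 4) (nat_lit 4) (nat_lit 5) (nat_lit 4) (nat_lit 4) (nat_lit 405) (nat_lit 352) (nat_lit 263)))) (XT.nd (nat_lit 156) (nat_lit 0) (nat_lit 0) (XT.nd (nat_lit 78) (nat_lit 0) (nat_lit 0) (XT.lf (nat_lit 0) (nat_lit 3453243504341) (nat_lit 76) (nat_lit 1339367056271) (nat_lit 76) (nat_lit 1296956056050) (nat_lit 3) (nat_lit 4) (nat_lit 4) (nat_lit 5) (nat_lit 4) (nat_lit 4) (nat_lit 406) (nat_lit 352) (nat_lit 262)) (XT.lf (nat_lit 0) (nat_lit 4595810600403) (nat_lit 76) (nat_lit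 1212666027149) (nat_lit 76) (nat_lit 1170255007871) (nat_lit 3) (nat_lit 4) (nat_lit 4) (nat_lit 5) (nat_lit 4) (nat_lit 4) (nat_lit 407) (nat_lit 352) (nat_lit 261))) (XT.nd (nat_lit 78) (nat_lit 0) (nat_lit 0) (XT.lf (nat_lit 0) (nat_lit 5909762236170) (nat_lit 76) (nat_lit 1066960113534) (nat_lit 76) (nat_lit 1024549077684) (nat_lit 3) (nat_lit 4) (nat_lit 4) (nat_lit 5) (nat_lit 4) (nat_lit 4) (nat_lit 408) (nat_lit 352) (nat_lit 260)) (XT.lf (nat_lit 0) (nat_lit 7420806161039) (nat_lit 76) (nat_lit 899398547549) (nat_lit 76) (nat_lit 856987497289) (nat_lit 3) (nat_lit 4) (nat_lit 4) (nat_lit 5) (nat_lit 4) (nat_lit 4) (nat_lit 409) (nat_lit 352) (nat_lit 259))))) (XT.nd (nat_lit 312) (nat_lit 0) (nat_lit 0) (XT.nd (nat_lit 156) (nat_lit 152) (nat_lit 0) (XT.nd (nat_lit 78) (nat_lit 0) (nat_lit 0) (XT.lf (nat_lit 0) (nat_lit 9158506277886) (nat_lit 76) (nat_lit 706702950730) (nat_lit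 76) (nat_lit 664291887939) (nat_lit 3) (nat_lit 4) (nat_lit 4) (nat_lit 5) (nat_lit 4) (nat_lit 4) (nat_lit 410) (nat_lit 352) (nat_lit 258)) (XT.lf (nat_lit 0) (nat_lit 11156861067259) (nat_lit 76) (nat_lit 485103191835) (nat_lit 76) (nat_lit 442692118148) (nat_lit 3) (nat_lit 4) (nat_lit 4) (nat_lit 5) (nat_lit 4) (nat_lit 4) (nat_lit 411) (nat_lit 352) (nat_lit 257))) (XT.nd (nat_lit 78) (nat_lit 152) (nat_lit 0) (XT.lf (nat_lit 0) (nat_lit 13454968775038) (nat_lit 76) (nat_lit 230263623407) (nat_lit 76) (nat_lit 187852540245) (nat_lit 3) (nat_lit 4) (nat_lit 4) (nat_lit 5) (nat_lit 4) (nat_lit 4) (nat_lit 412) (nat_lit 352) (nat_lit 256)) (XT.lf (nat_lit 0) (nat_lit 105824063927) (nat_lit 152) (nat_lit 15756726814119) (nat_lit 0) (nat_lit 66554534851) (nat_lit 1) (nat_lit 5) (nat_lit 3) (nat_lit 4) (nat_lit 1) (nat_lit 4) (nat_lit 413) (nat_lit 352) (nat_lit 255)))) (XT.nd (nat_lit 156)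 (nat_lit 0) (nat_lit 0) (XT.nd (nat_lit 78) (nat_lit 0) (nat_lit 0) (XT.lf (nat_lit 0) (nat_lit 451603026807) (nat_lit 152) (nat_lit 17427668190610) (nat_lit 0) (nat_lit 412333491097) (nat_lit 1) (nat_lit 5) (nat_lit 3) (nat_lit 4) (nat_lit 1) (nat_lit 4) (nat_lit 414) (nat_lit 352) (nat_lit 254)) (XT.lf (nat_lit 0) (nat_lit 849248728067) (nat_lit 152) (nat_lit 19349250992303) (nat_lit 0) (nat_lit 809979186589) (nat_lit 1) (nat_lit 5) (nat_lit 3) (nat_lit 4) (nat_lit 1) (nat_lit 4) (nat_lit 415) (nat_lit 352) (nat_lit 253))) (XT.nd (nat_lit 78) (nat_lit 0) (nat_lit 0) (XT.lf (nat_lit 0) (nat_lit 1306541192298) (nat_lit 152) (nat_lit 21559071404449) (nat_lit 0) (nat_lit 1267271645804) (nat_lit 1) (nat_lit 5) (nat_lit 3) (nat_lit 4) (nat_lit 1) (nat_lit 4) (nat_lit 416) (nat_lit 352) (nat_lit 252)) (XT.nd (nat_lit 48126) (nat_lit 0) (nat_lit 5852) (XT.lf (nat_lit 0) (nat_lit 1832427445973)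 (nat_lit 152) (nat_lit 24100365043806) (nat_lit 0) (nat_lit 1793157895117) (nat_lit 1) (nat_lit 5) (nat_lit 3) (nat_lit 4) (nat_lit 1) (nat_lit 4) (nat_lit 417) (nat_lit 352) (nat_lit 251)) (XT.lf (nat_lit 0) (nat_lit 11462284017) (nat_lit 532) (nat_lit 534635104) (nat_lit 532) (nat_lit 534635104) (nat_lit 78) (nat_lit 3) (nat_lit 85) (nat_lit 3) (nat_lit 85) (nat_lit 5) (nat_lit 353) (nat_lit 353) (nat_lit 314))))))))
noncomputable def xc73 : XT := (XT.nd (nat_lit 1326) (nat_lit 1900) (nat_lit 0) (XT.nd (nat_lit 624) (nat_lit 1596) (nat_lit 0) (XT.nd (nat_lit 312) (nat_lit 988) (nat_lit 0) (XT.nd (nat_lit 156) (nat_lit 0) (nat_lit 76) (XT.nd (nat_lit 78) (nat_lit 456) (nat_lit 0) (XT.lf (nat_lit 76) (nat_lit 23308239381) (nat_lit 0) (nat_lit 2073832104) (nat_lit 532) (nat_lit 1501645852) (nat_lit 79) (nat_lit 5) (nat_lit 78) (nat_lit 3) (nat_lit 85) (nat_lit 5) (nat_lit 354) (nat_lit 353)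 (nat_lit 313)) (XT.lf (nat_lit 0) (nat_lit 407947586) (nat_lit 532) (nat_lit 5894052579) (nat_lit 608) (nat_lit 22585814307) (nat_lit 72) (nat_lit 5) (nat_lit 79) (nat_lit 5) (nat_lit 80) (nat_lit 5) (nat_lit 355) (nat_lit 353) (nat_lit 312))) (XT.nd (nat_lit 78) (nat_lit 0) (nat_lit 76) (XT.lf (nat_lit 0) (nat_lit 3712632293) (nat_lit 532) (nat_lit 7982903015) (nat_lit 608) (nat_lit 19398075483) (nat_lit 73) (nat_lit 5) (nat_lit 80) (nat_lit 5) (nat_lit 81) (nat_lit 5) (nat_lit 356) (nat_lit 353) (nat_lit 311)) (XT.lf (nat_lit 0) (nat_lit 8800435401) (nat_lit 532) (nat_lit 9719436346) (nat_lit 76) (nat_lit 15007420454) (nat_lit 74) (nat_lit 5) (nat_lit 81) (nat_lit 5) (nat_lit 75) (nat_lit 5) (nat_lit 357) (nat_lit 353) (nat_lit 310)))) (XT.nd (nat_lit 156) (nat_lit 456) (nat_lit 0) (XT.nd (nat_lit 78) (nat_lit 228) (nat_lit 0) (XT.lf (nat_lit 0) (nat_lit 16035787017) (nat_lit 532) (nat_lit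 10999833717) (nat_lit 76) (nat_lit 9179662583) (nat_lit 68) (nat_lit 5) (nat_lit 75) (nat_lit 5) (nat_lit 69) (nat_lit 5) (nat_lit 358) (nat_lit 353) (nat_lit 309)) (XT.lf (nat_lit 0) (nat_lit 25842808610) (nat_lit 304) (nat_lit 11700543379) (nat_lit 76) (nat_lit 1644218461) (nat_lit 65) (nat_lit 5) (nat_lit 69) (nat_lit 5) (nat_lit 66) (nat_lit 5) (nat_lit 359) (nat_lit 353) (nat_lit 308))) (XT.nd (nat_lit 78) (nat_lit 228) (nat_lit 0) (XT.lf (nat_lit 0) (nat_lit 30586304565) (nat_lit 228) (nat_lit 8328649958) (nat_lit 304) (nat_lit 3547226295) (nat_lit 62) (nat_lit 5) (nat_lit 65) (nat_lit 5) (nat_lit 66) (nat_lit 5) (nat_lit 360) (nat_lit 353) (nat_lit 307)) (XT.lf (nat_lit 0) (nat_lit 9158774580) (nat_lit 228) (nat_lit 11487887996) (nat_lit 76) (nat_lit 25420470285) (nat_lit 59) (nat_lit 5) (nat_lit 62) (nat_lit 5) (nat_lit 60) (nat_lit 5) (nat_lit 361) (nat_lit 353) (nat_lit 306)))))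 (XT.nd (nat_lit 312) (nat_lit 836) (nat_lit 0) (XT.nd (nat_lit 156) (nat_lit 380) (nat_lit 0) (XT.nd (nat_lit 78) (nat_lit 152) (nat_lit 0) (XT.lf (nat_lit 0) (nat_lit 25466357788) (nat_lit 304) (nat_lit 10254372260) (nat_lit 76) (nat_lit 14332273494) (nat_lit 56) (nat_lit 5) (nat_lit 60) (nat_lit 5) (nat_lit 57) (nat_lit 5) (nat_lit 362) (nat_lit 353) (nat_lit 305)) (XT.lf (nat_lit 0) (nat_lit 46250079425) (nat_lit 228) (nat_lit 7887076464) (nat_lit 76) (nat_lit 337202421) (nat_lit 54) (nat_lit 5) (nat_lit 57) (nat_lit 5) (nat_lit 55) (nat_lit 5) (nat_lit 363) (nat_lit 353) (nat_lit 304))) (XT.nd (nat_lit 78) (nat_lit 152) (nat_lit 0) (XT.lf (nat_lit 0) (nat_lit 12729331364) (nat_lit 228) (nat_lit 4905936762) (nat_lit 76) (nat_lit 41689929936) (nat_lit 51) (nat_lit 5) (nat_lit 54) (nat_lit 5) (nat_lit 52) (nat_lit 5) (nat_lit 364) (nat_lit 353) (nat_lit 303)) (XT.lf (nat_lit 0) (nat_lit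 38769678683) (nat_lit 228) (nat_lit 733352954) (nat_lit 76) (nat_lit 25189092051) (nat_lit 49) (nat_lit 5) (nat_lit 52) (nat_lit 5) (nat_lit 50) (nat_lit 5) (nat_lit 365) (nat_lit 353) (nat_lit 302)))) (XT.nd (nat_lit 156) (nat_lit 380) (nat_lit 0) (XT.nd (nat_lit 78) (nat_lit 152) (nat_lit 0) (XT.lf (nat_lit 0) (nat_lit 721201958) (nat_lit 152) (nat_lit 65293775041) (nat_lit 76) (nat_lit 4632305156) (nat_lit 45) (nat_lit 5) (nat_lit 47) (nat_lit 5) (nat_lit 46) (nat_lit 5) (nat_lit 366) (nat_lit 353) (nat_lit 301)) (XT.lf (nat_lit 0) (nat_lit 12149219897) (nat_lit 152) (nat_lit 21073520919) (nat_lit 228) (nat_lit 43947411072) (nat_lit 43) (nat_lit 5) (nat_lit 45) (nat_lit 5) (nat_lit 46) (nat_lit 5) (nat_lit 367) (nat_lit 353) (nat_lit 300))) (XT.nd (nat_lit 78) (nat_lit 304) (nat_lit 0) (XT.lf (nat_lit 0) (nat_lit 20886690953) (nat_lit 76) (nat_lit 52892357126) (nat_lit 152) (nat_lit 10638042515)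 (nat_lit 42) (nat_lit 5) (nat_lit 43) (nat_lit 5) (nat_lit 44) (nat_lit 4) (nat_lit 368) (nat_lit 353) (nat_lit 299)) (XT.nd (nat_lit 78) (nat_lit 76) (nat_lit 0) (XT.lf (nat_lit 0) (nat_lit 29593437247) (nat_lit 228) (nat_lit 61207555613) (nat_lit 76) (nat_lit 1632065066) (nat_lit 39) (nat_lit 5) (nat_lit 42) (nat_lit 5) (nat_lit 40) (nat_lit 4) (nat_lit 369) (nat_lit 353) (nat_lit 298)) (XT.lf (nat_lit 0) (nat_lit 42863384838) (nat_lit 76) (nat_lit 36767691949) (nat_lit 152) (nat_lit 21646133319) (nat_lit 38) (nat_lit 5) (nat_lit 39) (nat_lit 5) (nat_lit 40) (nat_lit 4) (nat_lit 370) (nat_lit 353) (nat_lit 297))))))) (XT.nd (nat_lit 624) (nat_lit 912) (nat_lit 0) (XT.nd (nat_lit 312) (nat_lit 456) (nat_lit 0) (XT.nd (nat_lit 156) (nat_lit 228) (nat_lit 0) (XT.nd (nat_lit 78) (nat_lit 76) (nat_lit 0) (XT.lf (nat_lit 0) (nat_lit 28343404530) (nat_lit 228) (nat_lit 54726872284) (nat_lit 76)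 (nat_lit 28015894360) (nat_lit 35) (nat_lit 5) (nat_lit 38) (nat_lit 5) (nat_lit 36) (nat_lit 4) (nat_lit 371) (nat_lit 353) (nat_lit 296)) (XT.lf (nat_lit 0) (nat_lit 71562746513) (nat_lit 76) (nat_lit 17499294859) (nat_lit 152) (nat_lit 32898467920) (nat_lit 34) (nat_lit 5) (nat_lit 35) (nat_lit 5) (nat_lit 36) (nat_lit 4) (nat_lit 372) (nat_lit 353) (nat_lit 295))) (XT.nd (nat_lit 78) (nat_lit 76) (nat_lit 0) (XT.lf (nat_lit 0) (nat_lit 28490464108) (nat_lit 152) (nat_lit 46009070005) (nat_lit 76) (nat_lit 59496299751) (nat_lit 32) (nat_lit 5) (nat_lit 34) (nat_lit 5) (nat_lit 33) (nat_lit 4) (nat_lit 373) (nat_lit 353) (nat_lit 294)) (XT.lf (nat_lit 0) (nat_lit 101846663101) (nat_lit 152) (nat_lit 41173070412) (nat_lit 0) (nat_lit 4371812991) (nat_lit 31) (nat_lit 5) (nat_lit 33) (nat_lit 4) (nat_lit 31) (nat_lit 4) (nat_lit 374) (nat_lit 353) (nat_lit 293)))) (XT.nd (nat_lit 156) (nat_lit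 228) (nat_lit 0) (XT.nd (nat_lit 78) (nat_lit 76) (nat_lit 0) (XT.lf (nat_lit 0) (nat_lit 28854843755) (nat_lit 152) (nat_lit 37459675876) (nat_lit 76) (nat_lit 95907759396) (nat_lit 29) (nat_lit 5) (nat_lit 31) (nat_lit 5) (nat_lit 30) (nat_lit 4) (nat_lit 375) (nat_lit 353) (nat_lit 292)) (XT.lf (nat_lit 0) (nat_lit 117184240588) (nat_lit 152) (nat_lit 34636696141) (nat_lit 0) (nat_lit 26924728269) (nat_lit 28) (nat_lit 5) (nat_lit 30) (nat_lit 4) (nat_lit 28) (nat_lit 4) (nat_lit 376) (nat_lit 353) (nat_lit 291))) (XT.nd (nat_lit 78) (nat_lit 76) (nat_lit 0) (XT.lf (nat_lit 0) (nat_lit 27031781127) (nat_lit 152) (nat_lit 34035438506) (nat_lit 76) (nat_lit 136074499858) (nat_lit 26) (nat_lit 5) (nat_lit 28) (nat_lit 5) (nat_lit 27) (nat_lit 4) (nat_lit 377) (nat_lit 353) (nat_lit 290)) (XT.lf (nat_lit 0) (nat_lit 131999403458) (nat_lit 152) (nat_lit 37209149131) (nat_lit 0) (nat_lit 48422265238)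 (nat_lit 25) (nat_lit 5) (nat_lit 27) (nat_lit 4) (nat_lit 25) (nat_lit 4) (nat_lit 378) (nat_lit 353) (nat_lit 289))))) (XT.nd (nat_lit 312) (nat_lit 456) (nat_lit 0) (XT.nd (nat_lit 156) (nat_lit 228) (nat_lit 0) (XT.nd (nat_lit 78) (nat_lit 76) (nat_lit 0) (XT.lf (nat_lit 0) (nat_lit 18552412541) (nat_lit 152) (nat_lit 44989542056) (nat_lit 76) (nat_lit 177020384499) (nat_lit 23) (nat_lit 5) (nat_lit 25) (nat_lit 5) (nat_lit 24) (nat_lit 4) (nat_lit 379) (nat_lit 353) (nat_lit 288)) (XT.lf (nat_lit 0) (nat_lit 141127710788) (nat_lit 152) (nat_lit 61262193694) (nat_lit 0) (nat_lit 63739010236) (nat_lit 22) (nat_lit 5) (nat_lit 24) (nat_lit 4) (nat_lit 22) (nat_lit 4) (nat_lit 380) (nat_lit 353) (nat_lit 287))) (XT.nd (nat_lit 78) (nat_lit 152) (nat_lit 0) (XT.lf (nat_lit 0) (nat_lit 208111914321) (nat_lit 76) (nat_lit 82080023924) (nat_lit 76) (nat_lit 4690327837) (nat_lit 21) (nat_lit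 4) (nat_lit 22) (nat_lit 5) (nat_lit 22) (nat_lit 4) (nat_lit 381) (nat_lit 353) (nat_lit 286)) (XT.lf (nat_lit 0) (nat_lit 135240203341) (nat_lit 152) (nat_lit 128208197459) (nat_lit 0) (nat_lit 63582275777) (nat_lit 19) (nat_lit 5) (nat_lit 21) (nat_lit 4) (nat_lit 19) (nat_lit 4) (nat_lit 382) (nat_lit 353) (nat_lit 285)))) (XT.nd (nat_lit 156) (nat_lit 228) (nat_lit 0) (XT.nd (nat_lit 78) (nat_lit 152) (nat_lit 0) (XT.lf (nat_lit 0) (nat_lit 174991277229) (nat_lit 76) (nat_lit 129966468913) (nat_lit 76) (nat_lit 58307844342) (nat_lit 18) (nat_lit 4) (nat_lit 19) (nat_lit 5) (nat_lit 19) (nat_lit 4) (nat_lit 383) (nat_lit 353) (nat_lit 284)) (XT.lf (nat_lit 0) (nat_lit 98217808855) (nat_lit 152) (nat_lit 274045481530) (nat_lit 0) (nat_lit 31866669352) (nat_lit 16) (nat_lit 5) (nat_lit 18) (nat_lit 4) (nat_lit 16) (nat_lit 4) (nat_lit 384) (nat_lit 353) (nat_lit 283))) (XT.nd (nat_lit 78)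 (nat_lit 152) (nat_lit 0) (XT.lf (nat_lit 0) (nat_lit 54272492754) (nat_lit 76) (nat_lit 231116224721) (nat_lit 76) (nat_lit 164764597221) (nat_lit 15) (nat_lit 4) (nat_lit 16) (nat_lit 5) (nat_lit 16) (nat_lit 4) (nat_lit 385) (nat_lit 353) (nat_lit 282)) (XT.nd (nat_lit 78) (nat_lit 76) (nat_lit 0) (XT.lf (nat_lit 0) (nat_lit 5860482690) (nat_lit 152) (nat_lit 54162247849) (nat_lit 76) (nat_lit 442407499324) (nat_lit 14) (nat_lit 5) (nat_lit 16) (nat_lit 5) (nat_lit 15) (nat_lit 4) (nat_lit 386) (nat_lit 353) (nat_lit 281)) (XT.lf (nat_lit 0) (nat_lit 204687128910) (nat_lit 152) (nat_lit 213280386680) (nat_lit 0) (nat_lit 143249702204) (nat_lit 13) (nat_lit 5) (nat_lit 15) (nat_lit 4) (nat_lit 13) (nat_lit 4) (nat_lit 387) (nat_lit 353) (nat_lit 280))))))))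
noncomputable def xc74 : XT := (XT.nd (nat_lit 1326) (nat_lit 152) (nat_lit 0) (XT.nd (nat_lit 624) (nat_lit 304) (nat_lit 0) (XT.nd (nat_lit 312) (nat_lit 152) (nat_lit 0) (XT.nd (nat_lit 156) (nat_lit 152) (nat_lit 0) (XT.nd (nat_lit 78) (nat_lit 76) (nat_lit 0) (XT.lf (nat_lit 0) (nat_lit 192877594927) (nat_lit 76) (nat_lit 248374613947) (nat_lit 76) (nat_lit 186936890144) (nat_lit 12) (nat_lit 4) (nat_lit 13) (nat_lit 5) (nat_lit 13) (nat_lit 4) (nat_lit 388) (nat_lit 353) (nat_lit 279)) (XT.lf (nat_lit 0) (nat_lit 14058989741) (nat_lit 152) (nat_lit 32195283486) (nat_lit 76) (nat_lit 658427421048) (nat_lit 11) (nat_lit 5) (nat_lit 13) (nat_lit 5) (nat_lit 12) (nat_lit 4) (nat_lit 389) (nat_lit 353) (nat_lit 278))) (XT.nd (nat_lit 78) (nat_lit 76) (nat_lit 0) (XT.lf (nat_lit 0) (nat_lit 250130911627) (nat_lit 152) (nat_lit 347605511028) (nat_lit 0) (nat_lit 193243683110) (nat_lit 10)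 (nat_lit 5) (nat_lit 12) (nat_lit 4) (nat_lit 10) (nat_lit 4) (nat_lit 390) (nat_lit 353) (nat_lit 277)) (XT.lf (nat_lit 0) (nat_lit 106080858473) (nat_lit 76) (nat_lit 420323293746) (nat_lit 76) (nat_lit 363435884352) (nat_lit 9) (nat_lit 4) (nat_lit 10) (nat_lit 5) (nat_lit 10) (nat_lit 4) (nat_lit 391) (nat_lit 353) (nat_lit 276)))) (XT.nd (nat_lit 156) (nat_lit 0) (nat_lit 0) (XT.nd (nat_lit 78) (nat_lit 152) (nat_lit 0) (XT.lf (nat_lit 0) (nat_lit 648866985377) (nat_lit 76) (nat_lit 205370023946) (nat_lit 76) (nat_lit 148482457267) (nat_lit 9) (nat_lit 4) (nat_lit 10) (nat_lit 5) (nat_lit 10) (nat_lit 4) (nat_lit 392) (nat_lit 353) (nat_lit 275)) (XT.lf (nat_lit 0) (nat_lit 98430755899) (nat_lit 152) (nat_lit 987780785303) (nat_lit 0) (nat_lit 45756956411) (nat_lit 7) (nat_lit 5) (nat_lit 9) (nat_lit 4) (nat_lit 7) (nat_lit 4) (nat_lit 393) (nat_lit 353) (nat_lit 274))) (XT.nd (nat_lit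 78) (nat_lit 0) (nat_lit 0) (XT.lf (nat_lit 0) (nat_lit 390087469751) (nat_lit 152) (nat_lit 551475451469) (nat_lit 0) (nat_lit 337413560142) (nat_lit 7) (nat_lit 5) (nat_lit 9) (nat_lit 4) (nat_lit 7) (nat_lit 4) (nat_lit 394) (nat_lit 353) (nat_lit 273)) (XT.lf (nat_lit 0) (nat_lit 725491577612) (nat_lit 152) (nat_lit 49726601873) (nat_lit 0) (nat_lit 672817572247) (nat_lit 7) (nat_lit 5) (nat_lit 9) (nat_lit 4) (nat_lit 7) (nat_lit 4) (nat_lit 395) (nat_lit 353) (nat_lit 272))))) (XT.nd (nat_lit 312) (nat_lit 76) (nat_lit 0) (XT.nd (nat_lit 156) (nat_lit 152) (nat_lit 0) (XT.nd (nat_lit 78) (nat_lit 0) (nat_lit 0) (XT.lf (nat_lit 0) (nat_lit 555048355504) (nat_lit 76) (nat_lit 569505904563) (nat_lit 76) (nat_lit 516831815931) (nat_lit 6) (nat_lit 4) (nat_lit 7) (nat_lit 5) (nat_lit 7) (nat_lit 4) (nat_lit 396) (nat_lit 353) (nat_lit 271)) (XT.lf (nat_lit 0) (nat_lit 1253549030205) (nat_lit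 76) (nat_lit 331374165827) (nat_lit 76) (nat_lit 278700004791) (nat_lit 6) (nat_lit 4) (nat_lit 7) (nat_lit 5) (nat_lit 7) (nat_lit 4) (nat_lit 397) (nat_lit 353) (nat_lit 270))) (XT.nd (nat_lit 78) (nat_lit 152) (nat_lit 0) (XT.lf (nat_lit 0) (nat_lit 2056823225048) (nat_lit 76) (nat_lit 57523477462) (nat_lit 76) (nat_lit 4849253464) (nat_lit 6) (nat_lit 4) (nat_lit 7) (nat_lit 5) (nat_lit 7) (nat_lit 4) (nat_lit 398) (nat_lit 353) (nat_lit 269)) (XT.lf (nat_lit 0) (nat_lit 315497390867) (nat_lit 152) (nat_lit 1828611354726) (nat_lit 0) (nat_lit 266724910546) (nat_lit 4) (nat_lit 5) (nat_lit 6) (nat_lit 4) (nat_lit 4) (nat_lit 4) (nat_lit 399) (nat_lit 353) (nat_lit 268)))) (XT.nd (nat_lit 156) (nat_lit 76) (nat_lit 0) (XT.nd (nat_lit 78) (nat_lit 0) (nat_lit 0) (XT.lf (nat_lit 0) (nat_lit 687070460114) (nat_lit 152) (nat_lit 1420561614485) (nat_lit 0) (nat_lit 638297935712) (nat_lit 4)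 (nat_lit 5) (nat_lit 6) (nat_lit 4) (nat_lit 4) (nat_lit 4) (nat_lit 400) (nat_lit 353) (nat_lit 267)) (XT.lf (nat_lit 0) (nat_lit 1114378929501) (nat_lit 152) (nat_lit 951305566167) (nat_lit 0) (nat_lit 1065606366766) (nat_lit 4) (nat_lit 5) (nat_lit 6) (nat_lit 4) (nat_lit 4) (nat_lit 4) (nat_lit 401) (nat_lit 353) (nat_lit 266))) (XT.nd (nat_lit 78) (nat_lit 76) (nat_lit 0) (XT.lf (nat_lit 0) (nat_lit 1605783182124) (nat_lit 152) (nat_lit 411662113174) (nat_lit 0) (nat_lit 1557010586058) (nat_lit 4) (nat_lit 5) (nat_lit 6) (nat_lit 4) (nat_lit 4) (nat_lit 4) (nat_lit 402) (nat_lit 353) (nat_lit 265)) (XT.nd (nat_lit 78) (nat_lit 0) (nat_lit 0) (XT.lf (nat_lit 0) (nat_lit 219928710796) (nat_lit 76) (nat_lit 1956258229000) (nat_lit 76) (nat_lit 1907485603950) (nat_lit 3) (nat_lit 4) (nat_lit 4) (nat_lit 5) (nat_lit 4) (nat_lit 4) (nat_lit 403) (nat_lit 353) (nat_lit 264)) (XT.lf (nat_lit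 0) (nat_lit 971186367308) (nat_lit 76) (nat_lit 1872949605746) (nat_lit 76) (nat_lit 1824176955491) (nat_lit 3) (nat_lit 4) (nat_lit 4) (nat_lit 5) (nat_lit 4) (nat_lit 4) (nat_lit 404) (nat_lit 353) (nat_lit 263))))))) (XT.nd (nat_lit 624) (nat_lit 152) (nat_lit 0) (XT.nd (nat_lit 312) (nat_lit 0) (nat_lit 0) (XT.nd (nat_lit 156) (nat_lit 0) (nat_lit 0) (XT.nd (nat_lit 78) (nat_lit 0) (nat_lit 0) (XT.lf (nat_lit 0) (nat_lit 1835131978376) (nat_lit 76) (nat_lit 1777145045911) (nat_lit 76) (nat_lit 1728372373741) (nat_lit 3) (nat_lit 4) (nat_lit 4) (nat_lit 5) (nat_lit 4) (nat_lit 4) (nat_lit 405) (nat_lit 353) (nat_lit 262)) (XT.lf (nat_lit 0) (nat_lit 2828668827695) (nat_lit 76) (nat_lit 1666970112457) (nat_lit 76) (nat_lit 1618197421229) (nat_lit 3) (nat_lit 4) (nat_lit 4) (nat_lit 5) (nat_lit 4) (nat_lit 4) (nat_lit 406) (nat_lit 353) (nat_lit 261))) (XT.nd (nat_lit 78) (nat_lit 0) (nat_lit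 0) (XT.lf (nat_lit 0) (nat_lit 3971235679709) (nat_lit 76) (nat_lit 1540269208858) (nat_lit 76) (nat_lit 1491496501058) (nat_lit 3) (nat_lit 4) (nat_lit 4) (nat_lit 5) (nat_lit 4) (nat_lit 4) (nat_lit 407) (nat_lit 353) (nat_lit 260)) (XT.lf (nat_lit 0) (nat_lit 5285187103260) (nat_lit 76) (nat_lit 1394563404393) (nat_lit 76) (nat_lit 1345790682183) (nat_lit 3) (nat_lit 4) (nat_lit 4) (nat_lit 5) (nat_lit 4) (nat_lit 4) (nat_lit 408) (nat_lit 353) (nat_lit 259)))) (XT.nd (nat_lit 156) (nat_lit 0) (nat_lit 0) (XT.nd (nat_lit 78) (nat_lit 0) (nat_lit 0) (XT.lf (nat_lit 0) (nat_lit 6796230843593) (nat_lit 76) (nat_lit 1227001933321) (nat_lit 76) (nat_lit 1178229198581) (nat_lit 3) (nat_lit 4) (nat_lit 4) (nat_lit 5) (nat_lit 4) (nat_lit 4) (nat_lit 409) (nat_lit 353) (nat_lit 258)) (XT.lf (nat_lit 0) (nat_lit 8533930799975) (nat_lit 76) (nat_lit 1034306419036) (nat_lit 76) (nat_lit 985533673399)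 (nat_lit 3) (nat_lit 4) (nat_lit 4) (nat_lit 5) (nat_lit 4) (nat_lit 4) (nat_lit 410) (nat_lit 353) (nat_lit 257))) (XT.nd (nat_lit 78) (nat_lit 0) (nat_lit 0) (XT.lf (nat_lit 0) (nat_lit 10532285449813) (nat_lit 76) (nat_lit 812706731909) (nat_lit 76) (nat_lit 763933976797) (nat_lit 3) (nat_lit 4) (nat_lit 4) (nat_lit 5) (nat_lit 4) (nat_lit 4) (nat_lit 411) (nat_lit 353) (nat_lit 256)) (XT.lf (nat_lit 0) (nat_lit 12830393036256) (nat_lit 76) (nat_lit 557867225888) (nat_lit 76) (nat_lit 509094462537) (nat_lit 3) (nat_lit 4) (nat_lit 4) (nat_lit 5) (nat_lit 4) (nat_lit 4) (nat_lit 412) (nat_lit 353) (nat_lit 255))))) (XT.nd (nat_lit 312) (nat_lit 0) (nat_lit 0) (XT.nd (nat_lit 156) (nat_lit 0) (nat_lit 0) (XT.nd (nat_lit 78) (nat_lit 152) (nat_lit 0) (XT.lf (nat_lit 0) (nat_lit 15473216533822) (nat_lit 76) (nat_lit 264801910638) (nat_lit 76) (nat_lit 216029140122) (nat_lit 3) (nat_lit 4)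 (nat_lit 4) (nat_lit 5) (nat_lit 4) (nat_lit 4) (nat_lit 413) (nat_lit 353) (nat_lit 254)) (XT.lf (nat_lit 0) (nat_lit 121698815421) (nat_lit 152) (nat_lit 18120233481094) (nat_lit 0) (nat_lit 76538836954) (nat_lit 1) (nat_lit 5) (nat_lit 3) (nat_lit 4) (nat_lit 1) (nat_lit 4) (nat_lit 414) (nat_lit 353) (nat_lit 253))) (XT.nd (nat_lit 78) (nat_lit 0) (nat_lit 0) (XT.lf (nat_lit 0) (nat_lit 519344473789) (nat_lit 152) (nat_lit 20041816371252) (nat_lit 0) (nat_lit 474184490305) (nat_lit 1) (nat_lit 5) (nat_lit 3) (nat_lit 4) (nat_lit 1) (nat_lit 4) (nat_lit 415) (nat_lit 353) (nat_lit 252)) (XT.lf (nat_lit 0) (nat_lit 976636900722) (nat_lit 152) (nat_lit 22251636860323) (nat_lit 0) (nat_lit 931476912876) (nat_lit 1) (nat_lit 5) (nat_lit 3) (nat_lit 4) (nat_lit 1) (nat_lit 4) (nat_lit 416) (nat_lit 353) (nat_lit 251)))) (XT.nd (nat_lit 48282) (nat_lit 0) (nat_lit 5396) (XT.nd (nat_lit 48204)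 (nat_lit 0) (nat_lit 5852) (XT.lf (nat_lit 0) (nat_lit 1502523121964) (nat_lit 152) (nat_lit 24792930566572) (nat_lit 0) (nat_lit 1457363130325) (nat_lit 1) (nat_lit 5) (nat_lit 3) (nat_lit 4) (nat_lit 1) (nat_lit 4) (nat_lit 417) (nat_lit 353) (nat_lit 250)) (XT.lf (nat_lit 0) (nat_lit 13351869833) (nat_lit 532) (nat_lit 522864822) (nat_lit 532) (nat_lit 522864822) (nat_lit 78) (nat_lit 3) (nat_lit 85) (nat_lit 3) (nat_lit 85) (nat_lit 5) (nat_lit 354) (nat_lit 354) (nat_lit 312))) (XT.nd (nat_lit 78) (nat_lit 456) (nat_lit 0) (XT.lf (nat_lit 76) (nat_lit 26972837533) (nat_lit 0) (nat_lit 2516668945) (nat_lit 532) (nat_lit 1402639517) (nat_lit 79) (nat_lit 5) (nat_lit 78) (nat_lit 3) (nat_lit 85) (nat_lit 5) (nat_lit 355) (nat_lit 354) (nat_lit 311)) (XT.nd (nat_lit 78) (nat_lit 0) (nat_lit 76) (XT.lf (nat_lit 0) (nat_lit 738586371) (nat_lit 532) (nat_lit 6584777652) (nat_lit 608) (nat_lit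 25875971073) (nat_lit 72) (nat_lit 5) (nat_lit 79) (nat_lit 5) (nat_lit 80) (nat_lit 5) (nat_lit 356) (nat_lit 354) (nat_lit 310)) (XT.lf (nat_lit 0) (nat_lit 4506605607) (nat_lit 532) (nat_lit 8982676388) (nat_lit 608) (nat_lit 22249320821) (nat_lit 73) (nat_lit 5) (nat_lit 80) (nat_lit 5) (nat_lit 81) (nat_lit 5) (nat_lit 357) (nat_lit 354) (nat_lit 309))))))))
noncomputable def xc75 : XT := (XT.nd (nat_lit 1326) (nat_lit 1748) (nat_lit 0) (XT.nd (nat_lit 624) (nat_lit 1444) (nat_lit 0) (XT.nd (nat_lit 312) (nat_lit 836) (nat_lit 0) (XT.nd (nat_lit 156) (nat_lit 456) (nat_lit 0) (XT.nd (nat_lit 78) (nat_lit 456) (nat_lit 0) (XT.lf (nat_lit 0) (nat_lit 10330296002) (nat_lit 532) (nat_lit 10978796560) (nat_lit 76) (nat_lit 17230437398) (nat_lit 74) (nat_lit 5) (nat_lit 81) (nat_lit 5) (nat_lit 75) (nat_lit 5) (nat_lit 358) (nat_lit 354) (nat_lit 308)) (XT.lf (nat_lit 0) (nat_lit 18627835284)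 (nat_lit 532) (nat_lit 12452931579) (nat_lit 76) (nat_lit 10551811536) (nat_lit 68) (nat_lit 5) (nat_lit 75) (nat_lit 5) (nat_lit 69) (nat_lit 5) (nat_lit 359) (nat_lit 354) (nat_lit 307))) (XT.nd (nat_lit 78) (nat_lit 228) (nat_lit 0) (XT.lf (nat_lit 0) (nat_lit 29886220463) (nat_lit 304) (nat_lit 13262350228) (nat_lit 76) (nat_lit 1903721300) (nat_lit 65) (nat_lit 5) (nat_lit 69) (nat_lit 5) (nat_lit 66) (nat_lit 5) (nat_lit 360) (nat_lit 354) (nat_lit 306)) (XT.lf (nat_lit 0) (nat_lit 35351165171) (nat_lit 228) (nat_lit 9550496523) (nat_lit 304) (nat_lit 3917841491) (nat_lit 62) (nat_lit 5) (nat_lit 65) (nat_lit 5) (nat_lit 66) (nat_lit 5) (nat_lit 361) (nat_lit 354) (nat_lit 305)))) (XT.nd (nat_lit 156) (nat_lit 380) (nat_lit 0) (XT.nd (nat_lit 78) (nat_lit 228) (nat_lit 0) (XT.lf (nat_lit 0) (nat_lit 10670815660) (nat_lit 228) (nat_lit 13031429910) (nat_lit 76) (nat_lit 29263860875)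 (nat_lit 59) (nat_lit 5) (nat_lit 62) (nat_lit 5) (nat_lit 60) (nat_lit 5) (nat_lit 362) (nat_lit 354) (nat_lit 304)) (XT.lf (nat_lit 0) (nat_lit 29411430557) (nat_lit 304) (nat_lit 11619096045) (nat_lit 76) (nat_lit 16520384592) (nat_lit 56) (nat_lit 5) (nat_lit 60) (nat_lit 5) (nat_lit 57) (nat_lit 5) (nat_lit 363) (nat_lit 354) (nat_lit 303))) (XT.nd (nat_lit 78) (nat_lit 228) (nat_lit 0) (XT.lf (nat_lit 0) (nat_lit 53301318084) (nat_lit 228) (nat_lit 8903457202) (nat_lit 76) (nat_lit 431609630) (nat_lit 54) (nat_lit 5) (nat_lit 57) (nat_lit 5) (nat_lit 55) (nat_lit 5) (nat_lit 364) (nat_lit 354) (nat_lit 302)) (XT.lf (nat_lit 0) (nat_lit 14743981162) (nat_lit 228) (nat_lit 5483689604) (nat_lit 76) (nat_lit 47987863647) (nat_lit 51) (nat_lit 5) (nat_lit 54) (nat_lit 5) (nat_lit 52) (nat_lit 5) (nat_lit 365) (nat_lit 354) (nat_lit 301))))) (XT.nd (nat_lit 312) (nat_lit 760) (nat_lit 0)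 (XT.nd (nat_lit 156) (nat_lit 228) (nat_lit 0) (XT.nd (nat_lit 78) (nat_lit 304) (nat_lit 0) (XT.lf (nat_lit 0) (nat_lit 44681330062) (nat_lit 228) (nat_lit 692179702) (nat_lit 76) (nat_lit 29014716207) (nat_lit 49) (nat_lit 5) (nat_lit 52) (nat_lit 5) (nat_lit 50) (nat_lit 5) (nat_lit 366) (nat_lit 354) (nat_lit 300)) (XT.lf (nat_lit 0) (nat_lit 923649737) (nat_lit 152) (nat_lit 74931152144) (nat_lit 76) (nat_lit 5382014850) (nat_lit 45) (nat_lit 5) (nat_lit 47) (nat_lit 5) (nat_lit 46) (nat_lit 5) (nat_lit 367) (nat_lit 354) (nat_lit 299))) (XT.nd (nat_lit 78) (nat_lit 76) (nat_lit 0) (XT.lf (nat_lit 0) (nat_lit 14115029079) (nat_lit 152) (nat_lit 24176543990) (nat_lit 228) (nat_lit 50447253696) (nat_lit 43) (nat_lit 5) (nat_lit 45) (nat_lit 5) (nat_lit 46) (nat_lit 5) (nat_lit 368) (nat_lit 354) (nat_lit 298)) (XT.lf (nat_lit 0) (nat_lit 24155971803) (nat_lit 76) (nat_lit 60768703264)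 (nat_lit 152) (nat_lit 12148665170) (nat_lit 42) (nat_lit 5) (nat_lit 43) (nat_lit 5) (nat_lit 44) (nat_lit 4) (nat_lit 369) (nat_lit 354) (nat_lit 297)))) (XT.nd (nat_lit 156) (nat_lit 456) (nat_lit 0) (XT.nd (nat_lit 78) (nat_lit 76) (nat_lit 0) (XT.lf (nat_lit 0) (nat_lit 34107160843) (nat_lit 228) (nat_lit 70255489475) (nat_lit 76) (nat_lit 1929379702) (nat_lit 39) (nat_lit 5) (nat_lit 42) (nat_lit 5) (nat_lit 40) (nat_lit 4) (nat_lit 370) (nat_lit 354) (nat_lit 296)) (XT.lf (nat_lit 0) (nat_lit 49414817371) (nat_lit 76) (nat_lit 42228816715) (nat_lit 152) (nat_lit 24819717219) (nat_lit 38) (nat_lit 5) (nat_lit 39) (nat_lit 5) (nat_lit 40) (nat_lit 4) (nat_lit 371) (nat_lit 354) (nat_lit 295))) (XT.nd (nat_lit 78) (nat_lit 228) (nat_lit 0) (XT.lf (nat_lit 0) (nat_lit 32659502266) (nat_lit 228) (nat_lit 62817100229) (nat_lit 76) (nat_lit 32267320423) (nat_lit 35) (nat_lit 5) (nat_lit 38)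 (nat_lit 5) (nat_lit 36) (nat_lit 4) (nat_lit 372) (nat_lit 354) (nat_lit 294)) (XT.nd (nat_lit 78) (nat_lit 152) (nat_lit 0) (XT.lf (nat_lit 0) (nat_lit 82405905314) (nat_lit 76) (nat_lit 20074220284) (nat_lit 152) (nat_lit 37769751786) (nat_lit 34) (nat_lit 5) (nat_lit 35) (nat_lit 5) (nat_lit 36) (nat_lit 4) (nat_lit 373) (nat_lit 354) (nat_lit 293)) (XT.lf (nat_lit 0) (nat_lit 32820085130) (nat_lit 152) (nat_lit 52804722374) (nat_lit 76) (nat_lit 68465912449) (nat_lit 32) (nat_lit 5) (nat_lit 34) (nat_lit 5) (nat_lit 33) (nat_lit 4) (nat_lit 374) (nat_lit 354) (nat_lit 292))))))) (XT.nd (nat_lit 702) (nat_lit 760) (nat_lit 0) (XT.nd (nat_lit 312) (nat_lit 532) (nat_lit 0) (XT.nd (nat_lit 156) (nat_lit 228) (nat_lit 0) (XT.nd (nat_lit 78) (nat_lit 152) (nat_lit 0) (XT.lf (nat_lit 0) (nat_lit 117175828929) (nat_lit 152) (nat_lit 47249279789) (nat_lit 0) (nat_lit 5070992211) (nat_lit 31)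 (nat_lit 5) (nat_lit 33) (nat_lit 4) (nat_lit 31) (nat_lit 4) (nat_lit 375) (nat_lit 354) (nat_lit 291)) (XT.lf (nat_lit 0) (nat_lit 33231867104) (nat_lit 152) (nat_lit 42984746546) (nat_lit 76) (nat_lit 110335100073) (nat_lit 29) (nat_lit 5) (nat_lit 31) (nat_lit 5) (nat_lit 30) (nat_lit 4) (nat_lit 376) (nat_lit 354) (nat_lit 290))) (XT.nd (nat_lit 78) (nat_lit 152) (nat_lit 0) (XT.lf (nat_lit 0) (nat_lit 134807371907) (nat_lit 152) (nat_lit 39743700042) (nat_lit 0) (nat_lit 31002800210) (nat_lit 28) (nat_lit 5) (nat_lit 30) (nat_lit 4) (nat_lit 28) (nat_lit 4) (nat_lit 377) (nat_lit 354) (nat_lit 289)) (XT.lf (nat_lit 0) (nat_lit 31129138262) (nat_lit 152) (nat_lit 39057499786) (nat_lit 76) (nat_lit 156522929777) (nat_lit 26) (nat_lit 5) (nat_lit 28) (nat_lit 5) (nat_lit 27) (nat_lit 4) (nat_lit 378) (nat_lit 354) (nat_lit 288)))) (XT.nd (nat_lit 156) (nat_lit 304) (nat_lit 0) (XT.nd (nat_lit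 78) (nat_lit 152) (nat_lit 0) (XT.lf (nat_lit 0) (nat_lit 151839079545) (nat_lit 152) (nat_lit 42712100625) (nat_lit 0) (nat_lit 55721077006) (nat_lit 25) (nat_lit 5) (nat_lit 27) (nat_lit 4) (nat_lit 25) (nat_lit 4) (nat_lit 379) (nat_lit 354) (nat_lit 287)) (XT.lf (nat_lit 0) (nat_lit 21372524267) (nat_lit 152) (nat_lit 51664227240) (nat_lit 76) (nat_lit 203606956791) (nat_lit 23) (nat_lit 5) (nat_lit 25) (nat_lit 5) (nat_lit 24) (nat_lit 4) (nat_lit 380) (nat_lit 354) (nat_lit 286))) (XT.nd (nat_lit 78) (nat_lit 228) (nat_lit 0) (XT.lf (nat_lit 0) (nat_lit 162331687463) (nat_lit 152) (nat_lit 70382101656) (nat_lit 0) (nat_lit 73331675747) (nat_lit 22) (nat_lit 5) (nat_lit 24) (nat_lit 4) (nat_lit 22) (nat_lit 4) (nat_lit 381) (nat_lit 354) (nat_lit 285)) (XT.nd (nat_lit 78) (nat_lit 152) (nat_lit 0) (XT.lf (nat_lit 0) (nat_lit 239392246412) (nat_lit 76) (nat_lit 94360289137) (nat_lit 76)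 (nat_lit 5359524654) (nat_lit 21) (nat_lit 4) (nat_lit 22) (nat_lit 5) (nat_lit 22) (nat_lit 4) (nat_lit 382) (nat_lit 354) (nat_lit 284)) (XT.lf (nat_lit 0) (nat_lit 155556767639) (nat_lit 152) (nat_lit 147378020419) (nat_lit 0) (nat_lit 73148046283) (nat_lit 19) (nat_lit 5) (nat_lit 21) (nat_lit 4) (nat_lit 19) (nat_lit 4) (nat_lit 383) (nat_lit 354) (nat_lit 283)))))) (XT.nd (nat_lit 312) (nat_lit 380) (nat_lit 0) (XT.nd (nat_lit 156) (nat_lit 152) (nat_lit 0) (XT.nd (nat_lit 78) (nat_lit 152) (nat_lit 0) (XT.lf (nat_lit 0) (nat_lit 201296177705) (nat_lit 76) (nat_lit 149433133311) (nat_lit 76) (nat_lit 67023884918) (nat_lit 18) (nat_lit 4) (nat_lit 19) (nat_lit 5) (nat_lit 19) (nat_lit 4) (nat_lit 384) (nat_lit 354) (nat_lit 282)) (XT.lf (nat_lit 0) (nat_lit 112977286513) (nat_lit 152) (nat_lit 315098019419) (nat_lit 0) (nat_lit 36672002545) (nat_lit 16) (nat_lit 5) (nat_lit 18) (nat_lit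 4) (nat_lit 16) (nat_lit 4) (nat_lit 385) (nat_lit 354) (nat_lit 281))) (XT.nd (nat_lit 78) (nat_lit 76) (nat_lit 0) (XT.lf (nat_lit 0) (nat_lit 62463056109) (nat_lit 76) (nat_lit 265758473872) (nat_lit 76) (nat_lit 189452820908) (nat_lit 15) (nat_lit 4) (nat_lit 16) (nat_lit 5) (nat_lit 16) (nat_lit 4) (nat_lit 386) (nat_lit 354) (nat_lit 280)) (XT.lf (nat_lit 0) (nat_lit 6761417672) (nat_lit 152) (nat_lit 62242225072) (nat_lit 76) (nat_lit 508789372093) (nat_lit 14) (nat_lit 5) (nat_lit 16) (nat_lit 5) (nat_lit 15) (nat_lit 4) (nat_lit 387) (nat_lit 354) (nat_lit 279)))) (XT.nd (nat_lit 156) (nat_lit 228) (nat_lit 0) (XT.nd (nat_lit 78) (nat_lit 76) (nat_lit 0) (XT.lf (nat_lit 0) (nat_lit 235410681592) (nat_lit 152) (nat_lit 245230735998) (nat_lit 0) (nat_lit 164756743773) (nat_lit 13) (nat_lit 5) (nat_lit 15) (nat_lit 4) (nat_lit 13) (nat_lit 4) (nat_lit 388) (nat_lit 354) (nat_lit 278))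 (XT.lf (nat_lit 0) (nat_lit 221847412418) (nat_lit 76) (nat_lit 285611357580) (nat_lit 76) (nat_lit 214957195112) (nat_lit 12) (nat_lit 4) (nat_lit 13) (nat_lit 5) (nat_lit 13) (nat_lit 4) (nat_lit 389) (nat_lit 354) (nat_lit 277))) (XT.nd (nat_lit 78) (nat_lit 152) (nat_lit 0) (XT.lf (nat_lit 0) (nat_lit 16184548324) (nat_lit 152) (nat_lit 36990497299) (nat_lit 76) (nat_lit 757207565680) (nat_lit 11) (nat_lit 5) (nat_lit 13) (nat_lit 5) (nat_lit 12) (nat_lit 4) (nat_lit 390) (nat_lit 354) (nat_lit 276)) (XT.nd (nat_lit 78) (nat_lit 76) (nat_lit 0) (XT.lf (nat_lit 0) (nat_lit 287666211847) (nat_lit 152) (nat_lit 399714303557) (nat_lit 0) (nat_lit 222245352883) (nat_lit 10) (nat_lit 5) (nat_lit 12) (nat_lit 4) (nat_lit 10) (nat_lit 4) (nat_lit 391) (nat_lit 354) (nat_lit 275)) (XT.lf (nat_lit 0) (nat_lit 122022309841) (nat_lit 76) (nat_lit 483356790835) (nat_lit 76) (nat_lit 417935795102)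 (nat_lit 9) (nat_lit 4) (nat_lit 10) (nat_lit 5) (nat_lit 10) (nat_lit 4) (nat_lit 392) (nat_lit 354) (nat_lit 274))))))))
noncomputable def xc76 : XT := (XT.nd (nat_lit 1326) (nat_lit 152) (nat_lit 0) (XT.nd (nat_lit 624) (nat_lit 76) (nat_lit 0) (XT.nd (nat_lit 312) (nat_lit 228) (nat_lit 0) (XT.nd (nat_lit 156) (nat_lit 0) (nat_lit 0) (XT.nd (nat_lit 78) (nat_lit 152) (nat_lit 0) (XT.lf (nat_lit 0) (nat_lit 746222531093) (nat_lit 76) (nat_lit 236162486692) (nat_lit 76) (nat_lit 170741372029) (nat_lit 9) (nat_lit 4) (nat_lit 10) (nat_lit 5) (nat_lit 10) (nat_lit 4) (nat_lit 393) (nat_lit 354) (nat_lit 273)) (XT.lf (nat_lit 0) (nat_lit 113207354171) (nat_lit 152) (nat_lit 1135923306887) (nat_lit 0) (nat_lit 52632152245) (nat_lit 7) (nat_lit 5) (nat_lit 9) (nat_lit 4) (nat_lit 7) (nat_lit 4) (nat_lit 394) (nat_lit 354) (nat_lit 272))) (XT.nd (nat_lit 78) (nat_lit 0) (nat_lit 0) (XT.lf (nat_lit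 0) (nat_lit 448611011854) (nat_lit 152) (nat_lit 634175381179) (nat_lit 0) (nat_lit 388035726662) (nat_lit 7) (nat_lit 5) (nat_lit 9) (nat_lit 4) (nat_lit 7) (nat_lit 4) (nat_lit 395) (nat_lit 354) (nat_lit 271)) (XT.lf (nat_lit 0) (nat_lit 834324376550) (nat_lit 152) (nat_lit 57166993884) (nat_lit 0) (nat_lit 773749018952) (nat_lit 7) (nat_lit 5) (nat_lit 9) (nat_lit 4) (nat_lit 7) (nat_lit 4) (nat_lit 396) (nat_lit 354) (nat_lit 270)))) (XT.nd (nat_lit 156) (nat_lit 152) (nat_lit 0) (XT.nd (nat_lit 78) (nat_lit 0) (nat_lit 0) (XT.lf (nat_lit 0) (nat_lit 638322632848) (nat_lit 76) (nat_lit 654923055914) (nat_lit 76) (nat_lit 594347635355) (nat_lit 6) (nat_lit 4) (nat_lit 7) (nat_lit 5) (nat_lit 7) (nat_lit 4) (nat_lit 397) (nat_lit 354) (nat_lit 269)) (XT.lf (nat_lit 0) (nat_lit 1441596188231) (nat_lit 76) (nat_lit 381072695629) (nat_lit 76) (nat_lit 320497220321) (nat_lit 6) (nat_lit 4)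 (nat_lit 7) (nat_lit 5) (nat_lit 7) (nat_lit 4) (nat_lit 398) (nat_lit 354) (nat_lit 268))) (XT.nd (nat_lit 78) (nat_lit 152) (nat_lit 0) (XT.lf (nat_lit 0) (nat_lit 2365359581409) (nat_lit 76) (nat_lit 66145394671) (nat_lit 76) (nat_lit 5569871755) (nat_lit 6) (nat_lit 4) (nat_lit 7) (nat_lit 5) (nat_lit 7) (nat_lit 4) (nat_lit 399) (nat_lit 354) (nat_lit 267)) (XT.lf (nat_lit 0) (nat_lit 362828031929) (nat_lit 152) (nat_lit 2102890643519) (nat_lit 0) (nat_lit 306739546453) (nat_lit 4) (nat_lit 5) (nat_lit 6) (nat_lit 4) (nat_lit 4) (nat_lit 4) (nat_lit 400) (nat_lit 354) (nat_lit 266))))) (XT.nd (nat_lit 312) (nat_lit 0) (nat_lit 0) (XT.nd (nat_lit 156) (nat_lit 76) (nat_lit 0) (XT.nd (nat_lit 78) (nat_lit 0) (nat_lit 0) (XT.lf (nat_lit 0) (nat_lit 790136274724) (nat_lit 152) (nat_lit 1633635061514) (nat_lit 0) (nat_lit 734047755916) (nat_lit 4) (nat_lit 5) (nat_lit 6) (nat_lit 4) (nat_lit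 4) (nat_lit 4) (nat_lit 401) (nat_lit 354) (nat_lit 265)) (XT.lf (nat_lit 0) (nat_lit 1281540330311) (nat_lit 152) (nat_lit 1093992014010) (nat_lit 0) (nat_lit 1225451782519) (nat_lit 4) (nat_lit 5) (nat_lit 6) (nat_lit 4) (nat_lit 4) (nat_lit 4) (nat_lit 402) (nat_lit 354) (nat_lit 264))) (XT.nd (nat_lit 78) (nat_lit 76) (nat_lit 0) (XT.lf (nat_lit 0) (nat_lit 1846654625864) (nat_lit 152) (nat_lit 473403267470) (nat_lit 0) (nat_lit 1790566052868) (nat_lit 4) (nat_lit 5) (nat_lit 6) (nat_lit 4) (nat_lit 4) (nat_lit 4) (nat_lit 403) (nat_lit 354) (nat_lit 263)) (XT.lf (nat_lit 0) (nat_lit 252925489164) (nat_lit 76) (nat_lit 2249693120359) (nat_lit 76) (nat_lit 2193604525447) (nat_lit 3) (nat_lit 4) (nat_lit 4) (nat_lit 5) (nat_lit 4) (nat_lit 4) (nat_lit 404) (nat_lit 354) (nat_lit 262)))) (XT.nd (nat_lit 156) (nat_lit 0) (nat_lit 0) (XT.nd (nat_lit 78) (nat_lit 0) (nat_lit 0) (XT.lf (nat_lit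 0) (nat_lit 1116870819577) (nat_lit 76) (nat_lit 2153888704876) (nat_lit 76) (nat_lit 2097800090906) (nat_lit 3) (nat_lit 4) (nat_lit 4) (nat_lit 5) (nat_lit 4) (nat_lit 4) (nat_lit 405) (nat_lit 354) (nat_lit 261)) (XT.lf (nat_lit 0) (nat_lit 2110407424848) (nat_lit 76) (nat_lit 2043713896944) (nat_lit 76) (nat_lit 1987625266403) (nat_lit 3) (nat_lit 4) (nat_lit 4) (nat_lit 5) (nat_lit 4) (nat_lit 4) (nat_lit 406) (nat_lit 354) (nat_lit 260))) (XT.nd (nat_lit 78) (nat_lit 0) (nat_lit 0) (XT.lf (nat_lit 0) (nat_lit 3252974064646) (nat_lit 76) (nat_lit 1917013102496) (nat_lit 76) (nat_lit 1860924457544) (nat_lit 3) (nat_lit 4) (nat_lit 4) (nat_lit 5) (nat_lit 4) (nat_lit 4) (nat_lit 407) (nat_lit 354) (nat_lit 259)) (XT.nd (nat_lit 78) (nat_lit 0) (nat_lit 0) (XT.lf (nat_lit 0) (nat_lit 4566925303662) (nat_lit 76) (nat_lit 1771307392944) (nat_lit 76) (nat_lit 1715218735462) (nat_lit 3) (nat_lit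 4) (nat_lit 4) (nat_lit 5) (nat_lit 4) (nat_lit 4) (nat_lit 408) (nat_lit 354) (nat_lit 258)) (XT.lf (nat_lit 0) (nat_lit 6077968883529) (nat_lit 76) (nat_lit 1603746004406) (nat_lit 76) (nat_lit 1547657336027) (nat_lit 3) (nat_lit 4) (nat_lit 4) (nat_lit 5) (nat_lit 4) (nat_lit 4) (nat_lit 409) (nat_lit 354) (nat_lit 257))))))) (XT.nd (nat_lit 48828) (nat_lit 0) (nat_lit 4408) (XT.nd (nat_lit 312) (nat_lit 152) (nat_lit 0) (XT.nd (nat_lit 156) (nat_lit 0) (nat_lit 0) (XT.nd (nat_lit 78) (nat_lit 0) (nat_lit 0) (XT.lf (nat_lit 0) (nat_lit 7815668700376) (nat_lit 76) (nat_lit 1411050561888) (nat_lit 76) (nat_lit 1354961884035) (nat_lit 3) (nat_lit 4) (nat_lit 4) (nat_lit 5) (nat_lit 4) (nat_lit 4) (nat_lit 410) (nat_lit 354) (nat_lit 256)) (XT.lf (nat_lit 0) (nat_lit 9814023228878) (nat_lit 76) (nat_lit 1189450937168) (nat_lit 76) (nat_lit 1133362251076) (nat_lit 3) (nat_lit 4) (nat_lit 4)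 (nat_lit 5) (nat_lit 4) (nat_lit 4) (nat_lit 411) (nat_lit 354) (nat_lit 255))) (XT.nd (nat_lit 78) (nat_lit 0) (nat_lit 0) (XT.lf (nat_lit 0) (nat_lit 12112130709813) (nat_lit 76) (nat_lit 934611485414) (nat_lit 76) (nat_lit 878522792157) (nat_lit 3) (nat_lit 4) (nat_lit 4) (nat_lit 5) (nat_lit 4) (nat_lit 4) (nat_lit 412) (nat_lit 354) (nat_lit 254)) (XT.lf (nat_lit 0) (nat_lit 14754954115632) (nat_lit 76) (nat_lit 641546217353) (nat_lit 76) (nat_lit 585457517866) (nat_lit 3) (nat_lit 4) (nat_lit 4) (nat_lit 5) (nat_lit 4) (nat_lit 4) (nat_lit 413) (nat_lit 354) (nat_lit 253)))) (XT.nd (nat_lit 156) (nat_lit 0) (nat_lit 0) (XT.nd (nat_lit 78) (nat_lit 152) (nat_lit 0) (XT.lf (nat_lit 0) (nat_lit 17794200860797) (nat_lit 76) (nat_lit 304521247305) (nat_lit 76) (nat_lit 248432542400) (nat_lit 3) (nat_lit 4) (nat_lit 4) (nat_lit 5) (nat_lit 4) (nat_lit 4) (nat_lit 414) (nat_lit 354) (nat_lit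 252)) (XT.lf (nat_lit 0) (nat_lit 139954501180) (nat_lit 152) (nat_lit 20838266722432) (nat_lit 0) (nat_lit 88020510795) (nat_lit 1) (nat_lit 5) (nat_lit 3) (nat_lit 4) (nat_lit 1) (nat_lit 4) (nat_lit 415) (nat_lit 354) (nat_lit 251))) (XT.nd (nat_lit 78) (nat_lit 0) (nat_lit 0) (XT.lf (nat_lit 0) (nat_lit 597246895679) (nat_lit 152) (nat_lit 23048087278395) (nat_lit 0) (nat_lit 545312901502) (nat_lit 1) (nat_lit 5) (nat_lit 3) (nat_lit 4) (nat_lit 1) (nat_lit 4) (nat_lit 416) (nat_lit 354) (nat_lit 250)) (XT.lf (nat_lit 0) (nat_lit 1123133088719) (nat_lit 152) (nat_lit 25589381042811) (nat_lit 0) (nat_lit 1071199091243) (nat_lit 1) (nat_lit 5) (nat_lit 3) (nat_lit 4) (nat_lit 1) (nat_lit 4) (nat_lit 417) (nat_lit 354) (nat_lit 249))))) (XT.nd (nat_lit 312) (nat_lit 988) (nat_lit 0) (XT.nd (nat_lit 156) (nat_lit 456) (nat_lit 0) (XT.nd (nat_lit 78) (nat_lit 0) (nat_lit 0) (XT.lf (nat_lit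 0) (nat_lit 15483378635) (nat_lit 532) (nat_lit 531755379) (nat_lit 532) (nat_lit 531755379) (nat_lit 78) (nat_lit 3) (nat_lit 85) (nat_lit 3) (nat_lit 85) (nat_lit 5) (nat_lit 355) (nat_lit 355) (nat_lit 310)) (XT.lf (nat_lit 76) (nat_lit 31146069209) (nat_lit 0) (nat_lit 2993800308) (nat_lit 532) (nat_lit 1367853432) (nat_lit 79) (nat_lit 5) (nat_lit 78) (nat_lit 3) (nat_lit 85) (nat_lit 5) (nat_lit 356) (nat_lit 355) (nat_lit 309))) (XT.nd (nat_lit 78) (nat_lit 0) (nat_lit 76) (XT.lf (nat_lit 0) (nat_lit 1053114703) (nat_lit 532) (nat_lit 7426269110) (nat_lit 608) (nat_lit 29683479869) (nat_lit 72) (nat_lit 5) (nat_lit 79) (nat_lit 5) (nat_lit 80) (nat_lit 5) (nat_lit 357) (nat_lit 355) (nat_lit 308)) (XT.lf (nat_lit 0) (nat_lit 5361861832) (nat_lit 532) (nat_lit 10180616917) (nat_lit 608) (nat_lit 25542510260) (nat_lit 73) (nat_lit 5) (nat_lit 80) (nat_lit 5) (nat_lit 81) (nat_lit 5)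 (nat_lit 358) (nat_lit 355) (nat_lit 307)))) (XT.nd (nat_lit 156) (nat_lit 684) (nat_lit 0) (XT.nd (nat_lit 78) (nat_lit 456) (nat_lit 0) (XT.lf (nat_lit 0) (nat_lit 12038475783) (nat_lit 532) (nat_lit 12475479757) (nat_lit 76) (nat_lit 19793758301) (nat_lit 74) (nat_lit 5) (nat_lit 81) (nat_lit 5) (nat_lit 75) (nat_lit 5) (nat_lit 359) (nat_lit 355) (nat_lit 306)) (XT.lf (nat_lit 0) (nat_lit 21563167639) (nat_lit 532) (nat_lit 14172003871) (nat_lit 76) (nat_lit 12130953448) (nat_lit 68) (nat_lit 5) (nat_lit 75) (nat_lit 5) (nat_lit 69) (nat_lit 5) (nat_lit 360) (nat_lit 355) (nat_lit 305))) (XT.nd (nat_lit 78) (nat_lit 456) (nat_lit 0) (XT.lf (nat_lit 0) (nat_lit 34495422388) (nat_lit 304) (nat_lit 15105559354) (nat_lit 76) (nat_lit 2199011117) (nat_lit 65) (nat_lit 5) (nat_lit 69) (nat_lit 5) (nat_lit 66) (nat_lit 5) (nat_lit 361) (nat_lit 355) (nat_lit 304)) (XT.nd (nat_lit 78) (nat_lit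 228) (nat_lit 0) (XT.lf (nat_lit 0) (nat_lit 40787613043) (nat_lit 228) (nat_lit 10962314156) (nat_lit 304) (nat_lit 4383424144) (nat_lit 62) (nat_lit 5) (nat_lit 65) (nat_lit 5) (nat_lit 66) (nat_lit 5) (nat_lit 362) (nat_lit 355) (nat_lit 303)) (XT.lf (nat_lit 0) (nat_lit 12375955887) (nat_lit 228) (nat_lit 14850309775) (nat_lit 76) (nat_lit 33676366318) (nat_lit 59) (nat_lit 5) (nat_lit 62) (nat_lit 5) (nat_lit 60) (nat_lit 5) (nat_lit 363) (nat_lit 355) (nat_lit 302))))))))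
noncomputable def xc77 : XT := (XT.nd (nat_lit 1326) (nat_lit 1368) (nat_lit 0) (XT.nd (nat_lit 624) (nat_lit 1064) (nat_lit 0) (XT.nd (nat_lit 312) (nat_lit 760) (nat_lit 0) (XT.nd (nat_lit 156) (nat_lit 380) (nat_lit 0) (XT.nd (nat_lit 78) (nat_lit 152) (nat_lit 0) (XT.lf (nat_lit 0) (nat_lit 33917753156) (nat_lit 304) (nat_lit 13230820902) (nat_lit 76) (nat_lit 19027379954) (nat_lit 56) (nat_lit 5) (nat_lit 60) (nat_lit 5) (nat_lit 57) (nat_lit 5) (nat_lit 364) (nat_lit 355) (nat_lit 301)) (XT.lf (nat_lit 0) (nat_lit 61382509555) (nat_lit 228) (nat_lit 10112941202) (nat_lit 76) (nat_lit 529490466) (nat_lit 54) (nat_lit 5) (nat_lit 57) (nat_lit 5) (nat_lit 55) (nat_lit 5) (nat_lit 365) (nat_lit 355) (nat_lit 300))) (XT.nd (nat_lit 78) (nat_lit 152) (nat_lit 0) (XT.lf (nat_lit 0) (nat_lit 17035162528) (nat_lit 228) (nat_lit 6186668245) (nat_lit 76) (nat_lit 55219649411) (nat_lit 51) (nat_lit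 5) (nat_lit 54) (nat_lit 5) (nat_lit 52) (nat_lit 5) (nat_lit 366) (nat_lit 355) (nat_lit 299)) (XT.lf (nat_lit 0) (nat_lit 51456270272) (nat_lit 228) (nat_lit 681695734) (nat_lit 76) (nat_lit 33402659252) (nat_lit 49) (nat_lit 5) (nat_lit 52) (nat_lit 5) (nat_lit 50) (nat_lit 5) (nat_lit 367) (nat_lit 355) (nat_lit 298)))) (XT.nd (nat_lit 156) (nat_lit 304) (nat_lit 0) (XT.nd (nat_lit 78) (nat_lit 152) (nat_lit 0) (XT.lf (nat_lit 0) (nat_lit 1133476960) (nat_lit 152) (nat_lit 86052345454) (nat_lit 76) (nat_lit 6230802084) (nat_lit 45) (nat_lit 5) (nat_lit 47) (nat_lit 5) (nat_lit 46) (nat_lit 5) (nat_lit 368) (nat_lit 355) (nat_lit 297)) (XT.lf (nat_lit 0) (nat_lit 16340734252) (nat_lit 152) (nat_lit 27759165424) (nat_lit 228) (nat_lit 57944573102) (nat_lit 43) (nat_lit 5) (nat_lit 45) (nat_lit 5) (nat_lit 46) (nat_lit 5) (nat_lit 369) (nat_lit 355) (nat_lit 296))) (XT.nd (nat_lit 78) (nat_lit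 228) (nat_lit 0) (XT.lf (nat_lit 0) (nat_lit 27882412722) (nat_lit 76) (nat_lit 69840524874) (nat_lit 152) (nat_lit 13906629429) (nat_lit 42) (nat_lit 5) (nat_lit 43) (nat_lit 5) (nat_lit 44) (nat_lit 4) (nat_lit 370) (nat_lit 355) (nat_lit 295)) (XT.lf (nat_lit 0) (nat_lit 39279724958) (nat_lit 228) (nat_lit 80693094954) (nat_lit 76) (nat_lit 2258487887) (nat_lit 39) (nat_lit 5) (nat_lit 42) (nat_lit 5) (nat_lit 40) (nat_lit 4) (nat_lit 371) (nat_lit 355) (nat_lit 294))))) (XT.nd (nat_lit 312) (nat_lit 532) (nat_lit 0) (XT.nd (nat_lit 156) (nat_lit 228) (nat_lit 0) (XT.nd (nat_lit 78) (nat_lit 228) (nat_lit 0) (XT.lf (nat_lit 0) (nat_lit 56919232647) (nat_lit 76) (nat_lit 48522285517) (nat_lit 152) (nat_lit 28487222176) (nat_lit 38) (nat_lit 5) (nat_lit 39) (nat_lit 5) (nat_lit 40) (nat_lit 4) (nat_lit 372) (nat_lit 355) (nat_lit 293)) (XT.lf (nat_lit 0) (nat_lit 37607264699) (nat_lit 228)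 (nat_lit 72149833205) (nat_lit 76) (nat_lit 37144501215) (nat_lit 35) (nat_lit 5) (nat_lit 38) (nat_lit 5) (nat_lit 36) (nat_lit 4) (nat_lit 373) (nat_lit 355) (nat_lit 292))) (XT.nd (nat_lit 78) (nat_lit 152) (nat_lit 0) (XT.lf (nat_lit 0) (nat_lit 94849019334) (nat_lit 76) (nat_lit 23047569733) (nat_lit 152) (nat_lit 43387209773) (nat_lit 34) (nat_lit 5) (nat_lit 35) (nat_lit 5) (nat_lit 36) (nat_lit 4) (nat_lit 374) (nat_lit 355) (nat_lit 291)) (XT.lf (nat_lit 0) (nat_lit 37785480815) (nat_lit 152) (nat_lit 60645500195) (nat_lit 76) (nat_lit 78769952614) (nat_lit 32) (nat_lit 5) (nat_lit 34) (nat_lit 5) (nat_lit 33) (nat_lit 4) (nat_lit 375) (nat_lit 355) (nat_lit 290)))) (XT.nd (nat_lit 156) (nat_lit 304) (nat_lit 0) (XT.nd (nat_lit 78) (nat_lit 152) (nat_lit 0) (XT.lf (nat_lit 0) (nat_lit 134791648533) (nat_lit 152) (nat_lit 54261245531) (nat_lit 0) (nat_lit 5864463176) (nat_lit 31)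 (nat_lit 5) (nat_lit 33) (nat_lit 4) (nat_lit 31) (nat_lit 4) (nat_lit 376) (nat_lit 355) (nat_lit 289)) (XT.lf (nat_lit 0) (nat_lit 38253544550) (nat_lit 152) (nat_lit 49361471221) (nat_lit 76) (nat_lit 126916500637) (nat_lit 29) (nat_lit 5) (nat_lit 31) (nat_lit 5) (nat_lit 30) (nat_lit 4) (nat_lit 377) (nat_lit 355) (nat_lit 288))) (XT.nd (nat_lit 78) (nat_lit 228) (nat_lit 0) (XT.lf (nat_lit 0) (nat_lit 155062878624) (nat_lit 152) (nat_lit 45638335941) (nat_lit 0) (nat_lit 35682984099) (nat_lit 28) (nat_lit 5) (nat_lit 30) (nat_lit 4) (nat_lit 28) (nat_lit 4) (nat_lit 378) (nat_lit 355) (nat_lit 287)) (XT.nd (nat_lit 78) (nat_lit 76) (nat_lit 0) (XT.lf (nat_lit 0) (nat_lit 35830713135) (nat_lit 152) (nat_lit 44853172394) (nat_lit 76) (nat_lit 180029539331) (nat_lit 26) (nat_lit 5) (nat_lit 28) (nat_lit 5) (nat_lit 27) (nat_lit 4) (nat_lit 379) (nat_lit 355) (nat_lit 286)) (XT.lf (nat_lit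 0) (nat_lit 174645009960) (nat_lit 152) (nat_lit 49059618270) (nat_lit 0) (nat_lit 64106060471) (nat_lit 25) (nat_lit 5) (nat_lit 27) (nat_lit 4) (nat_lit 25) (nat_lit 4) (nat_lit 380) (nat_lit 355) (nat_lit 285))))))) (XT.nd (nat_lit 624) (nat_lit 532) (nat_lit 0) (XT.nd (nat_lit 312) (nat_lit 380) (nat_lit 0) (XT.nd (nat_lit 156) (nat_lit 228) (nat_lit 0) (XT.nd (nat_lit 78) (nat_lit 76) (nat_lit 0) (XT.lf (nat_lit 0) (nat_lit 24606569141) (nat_lit 152) (nat_lit 59358098662) (nat_lit 76) (nat_lit 234173342175) (nat_lit 23) (nat_lit 5) (nat_lit 25) (nat_lit 5) (nat_lit 24) (nat_lit 4) (nat_lit 381) (nat_lit 355) (nat_lit 284)) (XT.lf (nat_lit 0) (nat_lit 186707769548) (nat_lit 152) (nat_lit 80886924585) (nat_lit 0) (nat_lit 84355483045) (nat_lit 22) (nat_lit 5) (nat_lit 24) (nat_lit 4) (nat_lit 22) (nat_lit 4) (nat_lit 382) (nat_lit 355) (nat_lit 283))) (XT.nd (nat_lit 78) (nat_lit 152)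 (nat_lit 0) (XT.lf (nat_lit 0) (nat_lit 275349132480) (nat_lit 76) (nat_lit 108490333737) (nat_lit 76) (nat_lit 6137478033) (nat_lit 21) (nat_lit 4) (nat_lit 22) (nat_lit 5) (nat_lit 22) (nat_lit 4) (nat_lit 383) (nat_lit 355) (nat_lit 282)) (XT.lf (nat_lit 0) (nat_lit 178913370721) (nat_lit 152) (nat_lit 169438291226) (nat_lit 0) (nat_lit 84141749740) (nat_lit 19) (nat_lit 5) (nat_lit 21) (nat_lit 4) (nat_lit 19) (nat_lit 4) (nat_lit 384) (nat_lit 355) (nat_lit 281)))) (XT.nd (nat_lit 156) (nat_lit 152) (nat_lit 0) (XT.nd (nat_lit 78) (nat_lit 152) (nat_lit 0) (XT.lf (nat_lit 0) (nat_lit 231533106358) (nat_lit 76) (nat_lit 171826699951) (nat_lit 76) (nat_lit 77054680454) (nat_lit 18) (nat_lit 4) (nat_lit 19) (nat_lit 5) (nat_lit 19) (nat_lit 4) (nat_lit 385) (nat_lit 355) (nat_lit 280)) (XT.lf (nat_lit 0) (nat_lit 129944148927) (nat_lit 152) (nat_lit 362321675572) (nat_lit 0) (nat_lit 42191958156)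 (nat_lit 16) (nat_lit 5) (nat_lit 18) (nat_lit 4) (nat_lit 16) (nat_lit 4) (nat_lit 386) (nat_lit 355) (nat_lit 279))) (XT.nd (nat_lit 78) (nat_lit 76) (nat_lit 0) (XT.lf (nat_lit 0) (nat_lit 71870086882) (nat_lit 76) (nat_lit 305603201810) (nat_lit 76) (nat_lit 217850732024) (nat_lit 15) (nat_lit 4) (nat_lit 16) (nat_lit 5) (nat_lit 16) (nat_lit 4) (nat_lit 387) (nat_lit 355) (nat_lit 278)) (XT.lf (nat_lit 0) (nat_lit 7792161572) (nat_lit 152) (nat_lit 71545016334) (nat_lit 76) (nat_lit 585123466278) (nat_lit 14) (nat_lit 5) (nat_lit 16) (nat_lit 5) (nat_lit 15) (nat_lit 4) (nat_lit 388) (nat_lit 355) (nat_lit 277))))) (XT.nd (nat_lit 312) (nat_lit 228) (nat_lit 0) (XT.nd (nat_lit 156) (nat_lit 152) (nat_lit 0) (XT.nd (nat_lit 78) (nat_lit 76) (nat_lit 0) (XT.lf (nat_lit 0) (nat_lit 270737772182) (nat_lit 152) (nat_lit 281983808640) (nat_lit 0) (nat_lit 189485065348) (nat_lit 13) (nat_lit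 5) (nat_lit 15) (nat_lit 4) (nat_lit 13) (nat_lit 4) (nat_lit 389) (nat_lit 355) (nat_lit 276)) (XT.lf (nat_lit 0) (nat_lit 255153392525) (nat_lit 76) (nat_lit 328438355387) (nat_lit 76) (nat_lit 247185478686) (nat_lit 12) (nat_lit 4) (nat_lit 13) (nat_lit 5) (nat_lit 13) (nat_lit 4) (nat_lit 390) (nat_lit 355) (nat_lit 275))) (XT.nd (nat_lit 78) (nat_lit 76) (nat_lit 0) (XT.lf (nat_lit 0) (nat_lit 18624865825) (nat_lit 152) (nat_lit 42513303494) (nat_lit 76) (nat_lit 870800822630) (nat_lit 11) (nat_lit 5) (nat_lit 13) (nat_lit 5) (nat_lit 12) (nat_lit 4) (nat_lit 391) (nat_lit 355) (nat_lit 274)) (XT.lf (nat_lit 0) (nat_lit 330827987463) (nat_lit 152) (nat_lit 459647226689) (nat_lit 0) (nat_lit 255593586671) (nat_lit 10) (nat_lit 5) (nat_lit 12) (nat_lit 4) (nat_lit 10) (nat_lit 4) (nat_lit 392) (nat_lit 355) (nat_lit 273)))) (XT.nd (nat_lit 156) (nat_lit 152) (nat_lit 0) (XT.nd (nat_lit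 78) (nat_lit 0) (nat_lit 0) (XT.lf (nat_lit 0) (nat_lit 140347828412) (nat_lit 76) (nat_lit 555848969594) (nat_lit 76) (nat_lit 480614465386) (nat_lit 9) (nat_lit 4) (nat_lit 10) (nat_lit 5) (nat_lit 10) (nat_lit 4) (nat_lit 393) (nat_lit 355) (nat_lit 272)) (XT.lf (nat_lit 0) (nat_lit 858175190841) (nat_lit 76) (nat_lit 271576998942) (nat_lit 76) (nat_lit 196342404806) (nat_lit 9) (nat_lit 4) (nat_lit 10) (nat_lit 5) (nat_lit 10) (nat_lit 4) (nat_lit 394) (nat_lit 355) (nat_lit 271))) (XT.nd (nat_lit 78) (nat_lit 0) (nat_lit 0) (XT.lf (nat_lit 0) (nat_lit 130197519593) (nat_lit 152) (nat_lit 1306293204651) (nat_lit 0) (nat_lit 60535785950) (nat_lit 7) (nat_lit 5) (nat_lit 9) (nat_lit 4) (nat_lit 7) (nat_lit 4) (nat_lit 395) (nat_lit 355) (nat_lit 270)) (XT.nd (nat_lit 78) (nat_lit 0) (nat_lit 0) (XT.lf (nat_lit 0) (nat_lit 515910543890) (nat_lit 152) (nat_lit 729285515948) (nat_lit 0) (nat_lit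 446248747285) (nat_lit 7) (nat_lit 5) (nat_lit 9) (nat_lit 4) (nat_lit 7) (nat_lit 4) (nat_lit 396) (nat_lit 355) (nat_lit 269)) (XT.lf (nat_lit 0) (nat_lit 959479885431) (nat_lit 152) (nat_lit 65727980003) (nat_lit 0) (nat_lit 889818034077) (nat_lit 7) (nat_lit 5) (nat_lit 9) (nat_lit 4) (nat_lit 7) (nat_lit 4) (nat_lit 397) (nat_lit 355) (nat_lit 268))))))))
noncomputable def xc78 : XT := (XT.nd (nat_lit 1326) (nat_lit 152) (nat_lit 0) (XT.nd (nat_lit 624) (nat_lit 0) (nat_lit 0) (XT.nd (nat_lit 312) (nat_lit 76) (nat_lit 0) (XT.nd (nat_lit 156) (nat_lit 152) (nat_lit 0) (XT.nd (nat_lit 78) (nat_lit 0) (nat_lit 0) (XT.lf (nat_lit 0) (nat_lit 734083900379) (nat_lit 76) (nat_lit 753154909891) (nat_lit 76) (nat_lit 683493010929) (nat_lit 6) (nat_lit 4) (nat_lit 7) (nat_lit 5) (nat_lit 7) (nat_lit 4) (nat_lit 398) (nat_lit 355) (nat_lit 267)) (XT.lf (nat_lit 0) (nat_lit 1657846810034) (nat_lit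 76) (nat_lit 438227857008) (nat_lit 76) (nat_lit 368565916649) (nat_lit 6) (nat_lit 4) (nat_lit 7) (nat_lit 5) (nat_lit 7) (nat_lit 4) (nat_lit 399) (nat_lit 355) (nat_lit 266))) (XT.nd (nat_lit 78) (nat_lit 152) (nat_lit 0) (XT.lf (nat_lit 0) (nat_lit 2720173252158) (nat_lit 76) (nat_lit 76062209988) (nat_lit 76) (nat_lit 6400233630) (nat_lit 6) (nat_lit 4) (nat_lit 7) (nat_lit 5) (nat_lit 7) (nat_lit 4) (nat_lit 400) (nat_lit 355) (nat_lit 265)) (XT.lf (nat_lit 0) (nat_lit 417256798103) (nat_lit 152) (nat_lit 2418314852966) (nat_lit 0) (nat_lit 352754939158) (nat_lit 4) (nat_lit 5) (nat_lit 6) (nat_lit 4) (nat_lit 4) (nat_lit 4) (nat_lit 401) (nat_lit 355) (nat_lit 264)))) (XT.nd (nat_lit 156) (nat_lit 76) (nat_lit 0) (XT.nd (nat_lit 78) (nat_lit 0) (nat_lit 0) (XT.lf (nat_lit 0) (nat_lit 908660682354) (nat_lit 152) (nat_lit 1878672158062) (nat_lit 0) (nat_lit 844158798205) (nat_lit 4)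 (nat_lit 5) (nat_lit 6) (nat_lit 4) (nat_lit 4) (nat_lit 4) (nat_lit 402) (nat_lit 355) (nat_lit 263)) (XT.lf (nat_lit 0) (nat_lit 1473774828920) (nat_lit 152) (nat_lit 1258083718130) (nat_lit 0) (nat_lit 1409272922855) (nat_lit 4) (nat_lit 5) (nat_lit 6) (nat_lit 4) (nat_lit 4) (nat_lit 4) (nat_lit 403) (nat_lit 355) (nat_lit 262))) (XT.nd (nat_lit 78) (nat_lit 76) (nat_lit 0) (XT.lf (nat_lit 0) (nat_lit 2123655818928) (nat_lit 152) (nat_lit 544407585432) (nat_lit 0) (nat_lit 2059153893805) (nat_lit 4) (nat_lit 5) (nat_lit 6) (nat_lit 4) (nat_lit 4) (nat_lit 4) (nat_lit 404) (nat_lit 355) (nat_lit 261)) (XT.lf (nat_lit 0) (nat_lit 290869962255) (nat_lit 76) (nat_lit 2587144182559) (nat_lit 76) (nat_lit 2522642240865) (nat_lit 3) (nat_lit 4) (nat_lit 4) (nat_lit 5) (nat_lit 4) (nat_lit 4) (nat_lit 405) (nat_lit 355) (nat_lit 260))))) (XT.nd (nat_lit 312) (nat_lit 0) (nat_lit 0) (XT.nd (nat_lit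 156) (nat_lit 0) (nat_lit 0) (XT.nd (nat_lit 78) (nat_lit 0) (nat_lit 0) (XT.lf (nat_lit 0) (nat_lit 1284406355310) (nat_lit 76) (nat_lit 2476969483778) (nat_lit 76) (nat_lit 2412467527673) (nat_lit 3) (nat_lit 4) (nat_lit 4) (nat_lit 5) (nat_lit 4) (nat_lit 4) (nat_lit 406) (nat_lit 355) (nat_lit 259)) (XT.lf (nat_lit 0) (nat_lit 2426972810573) (nat_lit 76) (nat_lit 2350268784243) (nat_lit 76) (nat_lit 2285766815608) (nat_lit 3) (nat_lit 4) (nat_lit 4) (nat_lit 5) (nat_lit 4) (nat_lit 4) (nat_lit 407) (nat_lit 355) (nat_lit 258))) (XT.nd (nat_lit 78) (nat_lit 0) (nat_lit 0) (XT.lf (nat_lit 0) (nat_lit 3740923889123) (nat_lit 76) (nat_lit 2204563157224) (nat_lit 76) (nat_lit 2140061177693) (nat_lit 3) (nat_lit 4) (nat_lit 4) (nat_lit 5) (nat_lit 4) (nat_lit 4) (nat_lit 408) (nat_lit 355) (nat_lit 257)) (XT.lf (nat_lit 0) (nat_lit 5251967329455) (nat_lit 76) (nat_lit 2037001840454) (nat_lit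 76) (nat_lit 1972499851448) (nat_lit 3) (nat_lit 4) (nat_lit 4) (nat_lit 5) (nat_lit 4) (nat_lit 4) (nat_lit 409) (nat_lit 355) (nat_lit 256)))) (XT.nd (nat_lit 156) (nat_lit 0) (nat_lit 0) (XT.nd (nat_lit 78) (nat_lit 0) (nat_lit 0) (XT.lf (nat_lit 0) (nat_lit 6989667024966) (nat_lit 76) (nat_lit 1844306460344) (nat_lit 76) (nat_lit 1779804463098) (nat_lit 3) (nat_lit 4) (nat_lit 4) (nat_lit 5) (nat_lit 4) (nat_lit 4) (nat_lit 410) (nat_lit 355) (nat_lit 255)) (XT.lf (nat_lit 0) (nat_lit 8988021447960) (nat_lit 76) (nat_lit 1622706889891) (nat_lit 76) (nat_lit 1558204885481) (nat_lit 3) (nat_lit 4) (nat_lit 4) (nat_lit 5) (nat_lit 4) (nat_lit 4) (nat_lit 411) (nat_lit 355) (nat_lit 254))) (XT.nd (nat_lit 78) (nat_lit 0) (nat_lit 0) (XT.lf (nat_lit 0) (nat_lit 11286128837148) (nat_lit 76) (nat_lit 1367867485326) (nat_lit 76) (nat_lit 1303365474686) (nat_lit 3) (nat_lit 4) (nat_lit 4) (nat_lit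 5) (nat_lit 4) (nat_lit 4) (nat_lit 412) (nat_lit 355) (nat_lit 253)) (XT.nd (nat_lit 78) (nat_lit 0) (nat_lit 0) (XT.lf (nat_lit 0) (nat_lit 13928952163187) (nat_lit 76) (nat_lit 1074802258298) (nat_lit 76) (nat_lit 1010300242241) (nat_lit 3) (nat_lit 4) (nat_lit 4) (nat_lit 5) (nat_lit 4) (nat_lit 4) (nat_lit 413) (nat_lit 355) (nat_lit 252)) (XT.lf (nat_lit 0) (nat_lit 16968198838978) (nat_lit 76) (nat_lit 737777323931) (nat_lit 76) (nat_lit 673275303163) (nat_lit 3) (nat_lit 4) (nat_lit 4) (nat_lit 5) (nat_lit 4) (nat_lit 4) (nat_lit 414) (nat_lit 355) (nat_lit 251))))))) (XT.nd (nat_lit 48906) (nat_lit 0) (nat_lit 3344) (XT.nd (nat_lit 48594) (nat_lit 0) (nat_lit 5396) (XT.nd (nat_lit 156) (nat_lit 0) (nat_lit 0) (XT.nd (nat_lit 78) (nat_lit 152) (nat_lit 0) (XT.lf (nat_lit 0) (nat_lit 20463332386440) (nat_lit 76) (nat_lit 350198716118) (nat_lit 76) (nat_lit 285696691254) (nat_lit 3)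 (nat_lit 4) (nat_lit 4) (nat_lit 5) (nat_lit 4) (nat_lit 4) (nat_lit 415) (nat_lit 355) (nat_lit 250)) (XT.lf (nat_lit 0) (nat_lit 160948329245) (nat_lit 152) (nat_lit 23964005384237) (nat_lit 0) (nat_lit 101224228850) (nat_lit 1) (nat_lit 5) (nat_lit 3) (nat_lit 4) (nat_lit 1) (nat_lit 4) (nat_lit 416) (nat_lit 355) (nat_lit 249))) (XT.nd (nat_lit 48360) (nat_lit 0) (nat_lit 5852) (XT.lf (nat_lit 0) (nat_lit 686834497760) (nat_lit 152) (nat_lit 26505299199232) (nat_lit 0) (nat_lit 627110394497) (nat_lit 1) (nat_lit 5) (nat_lit 3) (nat_lit 4) (nat_lit 1) (nat_lit 4) (nat_lit 417) (nat_lit 355) (nat_lit 248)) (XT.lf (nat_lit 0) (nat_lit 17903222540) (nat_lit 532) (nat_lit 558937085) (nat_lit 532) (nat_lit 558937085) (nat_lit 78) (nat_lit 3) (nat_lit 85) (nat_lit 3) (nat_lit 85) (nat_lit 5) (nat_lit 356) (nat_lit 356) (nat_lit 308)))) (XT.nd (nat_lit 156) (nat_lit 0) (nat_lit 76) (XT.nd (nat_lit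 78) (nat_lit 456) (nat_lit 0) (XT.lf (nat_lit 76) (nat_lit 35914241250) (nat_lit 0) (nat_lit 3518205719) (nat_lit 532) (nat_lit 1387638621) (nat_lit 79) (nat_lit 5) (nat_lit 78) (nat_lit 3) (nat_lit 85) (nat_lit 5) (nat_lit 357) (nat_lit 356) (nat_lit 307)) (XT.lf (nat_lit 0) (nat_lit 1365138904) (nat_lit 532) (nat_lit 8429642226) (nat_lit 608) (nat_lit 34080132764) (nat_lit 72) (nat_lit 5) (nat_lit 79) (nat_lit 5) (nat_lit 80) (nat_lit 5) (nat_lit 358) (nat_lit 356) (nat_lit 306))) (XT.nd (nat_lit 78) (nat_lit 0) (nat_lit 76) (XT.lf (nat_lit 0) (nat_lit 6301691491) (nat_lit 532) (nat_lit 11594695519) (nat_lit 608) (nat_lit 29340458683) (nat_lit 73) (nat_lit 5) (nat_lit 80) (nat_lit 5) (nat_lit 81) (nat_lit 5) (nat_lit 359) (nat_lit 356) (nat_lit 305)) (XT.lf (nat_lit 0) (nat_lit 13964198289) (nat_lit 532) (nat_lit 14233277119) (nat_lit 76) (nat_lit 22746757995) (nat_lit 74) (nat_lit 5) (nat_lit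 81) (nat_lit 5) (nat_lit 75) (nat_lit 5) (nat_lit 360) (nat_lit 356) (nat_lit 304))))) (XT.nd (nat_lit 312) (nat_lit 1064) (nat_lit 0) (XT.nd (nat_lit 156) (nat_lit 456) (nat_lit 0) (XT.nd (nat_lit 78) (nat_lit 228) (nat_lit 0) (XT.lf (nat_lit 0) (nat_lit 24904377803) (nat_lit 532) (nat_lit 16185239276) (nat_lit 76) (nat_lit 13947851800) (nat_lit 68) (nat_lit 5) (nat_lit 75) (nat_lit 5) (nat_lit 69) (nat_lit 5) (nat_lit 361) (nat_lit 356) (nat_lit 303)) (XT.lf (nat_lit 0) (nat_lit 39765213142) (nat_lit 304) (nat_lit 17260887844) (nat_lit 76) (nat_lit 2536221289) (nat_lit 65) (nat_lit 5) (nat_lit 69) (nat_lit 5) (nat_lit 66) (nat_lit 5) (nat_lit 362) (nat_lit 356) (nat_lit 302))) (XT.nd (nat_lit 78) (nat_lit 228) (nat_lit 0) (XT.lf (nat_lit 0) (nat_lit 47006906680) (nat_lit 228) (nat_lit 12590966121) (nat_lit 304) (nat_lit 4948617486) (nat_lit 62) (nat_lit 5) (nat_lit 65) (nat_lit 5) (nat_lit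 66) (nat_lit 5) (nat_lit 363) (nat_lit 356) (nat_lit 301)) (XT.lf (nat_lit 0) (nat_lit 14311379801) (nat_lit 228) (nat_lit 16975145754) (nat_lit 76) (nat_lit 38745156851) (nat_lit 59) (nat_lit 5) (nat_lit 62) (nat_lit 5) (nat_lit 60) (nat_lit 5) (nat_lit 364) (nat_lit 356) (nat_lit 300)))) (XT.nd (nat_lit 156) (nat_lit 684) (nat_lit 0) (XT.nd (nat_lit 78) (nat_lit 152) (nat_lit 0) (XT.lf (nat_lit 0) (nat_lit 39076953381) (nat_lit 304) (nat_lit 15116283698) (nat_lit 76) (nat_lit 21903367986) (nat_lit 56) (nat_lit 5) (nat_lit 60) (nat_lit 5) (nat_lit 57) (nat_lit 5) (nat_lit 365) (nat_lit 356) (nat_lit 299)) (XT.lf (nat_lit 0) (nat_lit 70654909624) (nat_lit 228) (nat_lit 11534582133) (nat_lit 76) (nat_lit 633972177) (nat_lit 54) (nat_lit 5) (nat_lit 57) (nat_lit 5) (nat_lit 55) (nat_lit 5) (nat_lit 366) (nat_lit 356) (nat_lit 298))) (XT.nd (nat_lit 78) (nat_lit 456) (nat_lit 0) (XT.lf (nat_lit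 0) (nat_lit 19650613989) (nat_lit 228) (nat_lit 7024252754) (nat_lit 76) (nat_lit 63528007950) (nat_lit 51) (nat_lit 5) (nat_lit 54) (nat_lit 5) (nat_lit 52) (nat_lit 5) (nat_lit 367) (nat_lit 356) (nat_lit 297)) (XT.nd (nat_lit 78) (nat_lit 304) (nat_lit 0) (XT.lf (nat_lit 0) (nat_lit 59229713233) (nat_lit 228) (nat_lit 697514614) (nat_lit 76) (nat_lit 38440079397) (nat_lit 49) (nat_lit 5) (nat_lit 52) (nat_lit 5) (nat_lit 50) (nat_lit 5) (nat_lit 368) (nat_lit 356) (nat_lit 296)) (XT.lf (nat_lit 0) (nat_lit 1357396246) (nat_lit 152) (nat_lit 98870609740) (nat_lit 76) (nat_lit 7196791021) (nat_lit 45) (nat_lit 5) (nat_lit 47) (nat_lit 5) (nat_lit 46) (nat_lit 5) (nat_lit 369) (nat_lit 356) (nat_lit 295))))))))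
noncomputable def xc79 : XT := (XT.nd (nat_lit 1326) (nat_lit 1064) (nat_lit 0) (XT.nd (nat_lit 624) (nat_lit 988) (nat_lit 0) (XT.nd (nat_lit 312) (nat_lit 532) (nat_lit 0) (XT.nd (nat_lit 156) (nat_lit 304) (nat_lit 0) (XT.nd (nat_lit 78) (nat_lit 76) (nat_lit 0) (XT.lf (nat_lit 0) (nat_lit 18873848783) (nat_lit 152) (nat_lit 31889875653) (nat_lit 228) (nat_lit 66583503947) (nat_lit 43) (nat_lit 5) (nat_lit 45) (nat_lit 5) (nat_lit 46) (nat_lit 5) (nat_lit 370) (nat_lit 356) (nat_lit 294)) (XT.lf (nat_lit 0) (nat_lit 32142691566) (nat_lit 76) (nat_lit 80283723546) (nat_lit 152) (nat_lit 15943976949) (nat_lit 42) (nat_lit 5) (nat_lit 43) (nat_lit 5) (nat_lit 44) (nat_lit 4) (nat_lit 371) (nat_lit 356) (nat_lit 293))) (XT.nd (nat_lit 78) (nat_lit 76) (nat_lit 0) (XT.lf (nat_lit 0) (nat_lit 45214398248) (nat_lit 228) (nat_lit 92720901962) (nat_lit 76) (nat_lit 2627280904) (nat_lit 39) (nat_lit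 5) (nat_lit 42) (nat_lit 5) (nat_lit 40) (nat_lit 4) (nat_lit 372) (nat_lit 356) (nat_lit 292)) (XT.lf (nat_lit 0) (nat_lit 65526828448) (nat_lit 76) (nat_lit 55769737073) (nat_lit 152) (nat_lit 32718375350) (nat_lit 38) (nat_lit 5) (nat_lit 39) (nat_lit 5) (nat_lit 40) (nat_lit 4) (nat_lit 373) (nat_lit 356) (nat_lit 291)))) (XT.nd (nat_lit 156) (nat_lit 228) (nat_lit 0) (XT.nd (nat_lit 78) (nat_lit 76) (nat_lit 0) (XT.lf (nat_lit 0) (nat_lit 43285282262) (nat_lit 228) (nat_lit 82904382243) (nat_lit 76) (nat_lit 42744216269) (nat_lit 35) (nat_lit 5) (nat_lit 38) (nat_lit 5) (nat_lit 36) (nat_lit 4) (nat_lit 374) (nat_lit 356) (nat_lit 290)) (XT.lf (nat_lit 0) (nat_lit 109138548584) (nat_lit 76) (nat_lit 26476135367) (nat_lit 152) (nat_lit 49858992728) (nat_lit 34) (nat_lit 5) (nat_lit 35) (nat_lit 5) (nat_lit 36) (nat_lit 4) (nat_lit 375) (nat_lit 356) (nat_lit 289))) (XT.nd (nat_lit 78)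 (nat_lit 76) (nat_lit 0) (XT.lf (nat_lit 0) (nat_lit 43485350510) (nat_lit 152) (nat_lit 69681886257) (nat_lit 76) (nat_lit 90611270305) (nat_lit 32) (nat_lit 5) (nat_lit 34) (nat_lit 5) (nat_lit 33) (nat_lit 4) (nat_lit 376) (nat_lit 356) (nat_lit 288)) (XT.lf (nat_lit 0) (nat_lit 155040222100) (nat_lit 152) (nat_lit 62343399297) (nat_lit 0) (nat_lit 6768950901) (nat_lit 31) (nat_lit 5) (nat_lit 33) (nat_lit 4) (nat_lit 31) (nat_lit 4) (nat_lit 377) (nat_lit 356) (nat_lit 287))))) (XT.nd (nat_lit 312) (nat_lit 532) (nat_lit 0) (XT.nd (nat_lit 156) (nat_lit 228) (nat_lit 0) (XT.nd (nat_lit 78) (nat_lit 76) (nat_lit 0) (XT.lf (nat_lit 0) (nat_lit 44019475953) (nat_lit 152) (nat_lit 56712015303) (nat_lit 76) (nat_lit 145977518683) (nat_lit 29) (nat_lit 5) (nat_lit 31) (nat_lit 5) (nat_lit 30) (nat_lit 4) (nat_lit 378) (nat_lit 356) (nat_lit 286)) (XT.lf (nat_lit 0) (nat_lit 178348322463) (nat_lit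 152) (nat_lit 52433485872) (nat_lit 0) (nat_lit 41057937466) (nat_lit 28) (nat_lit 5) (nat_lit 30) (nat_lit 4) (nat_lit 28) (nat_lit 4) (nat_lit 379) (nat_lit 356) (nat_lit 285))) (XT.nd (nat_lit 78) (nat_lit 76) (nat_lit 0) (XT.lf (nat_lit 0) (nat_lit 41229671057) (nat_lit 152) (nat_lit 51533547225) (nat_lit 76) (nat_lit 207055270864) (nat_lit 26) (nat_lit 5) (nat_lit 28) (nat_lit 5) (nat_lit 27) (nat_lit 4) (nat_lit 380) (nat_lit 356) (nat_lit 284)) (XT.lf (nat_lit 0) (nat_lit 200864497547) (nat_lit 152) (nat_lit 56373723620) (nat_lit 0) (nat_lit 73742250763) (nat_lit 25) (nat_lit 5) (nat_lit 27) (nat_lit 4) (nat_lit 25) (nat_lit 4) (nat_lit 381) (nat_lit 356) (nat_lit 283)))) (XT.nd (nat_lit 156) (nat_lit 304) (nat_lit 0) (XT.nd (nat_lit 78) (nat_lit 76) (nat_lit 0) (XT.lf (nat_lit 0) (nat_lit 28318852232) (nat_lit 152) (nat_lit 68219648875) (nat_lit 76) (nat_lit 269318505593) (nat_lit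 23) (nat_lit 5) (nat_lit 25) (nat_lit 5) (nat_lit 24) (nat_lit 4) (nat_lit 382) (nat_lit 356) (nat_lit 282)) (XT.lf (nat_lit 0) (nat_lit 214733843461) (nat_lit 152) (nat_lit 92980271538) (nat_lit 0) (nat_lit 97026995245) (nat_lit 22) (nat_lit 5) (nat_lit 24) (nat_lit 4) (nat_lit 22) (nat_lit 4) (nat_lit 383) (nat_lit 356) (nat_lit 281))) (XT.nd (nat_lit 78) (nat_lit 228) (nat_lit 0) (XT.lf (nat_lit 0) (nat_lit 316687834380) (nat_lit 76) (nat_lit 124745737278) (nat_lit 76) (nat_lit 7038458666) (nat_lit 21) (nat_lit 4) (nat_lit 22) (nat_lit 5) (nat_lit 22) (nat_lit 4) (nat_lit 384) (nat_lit 356) (nat_lit 280)) (XT.nd (nat_lit 78) (nat_lit 76) (nat_lit 0) (XT.lf (nat_lit 0) (nat_lit 205767834127) (nat_lit 152) (nat_lit 194818925453) (nat_lit 0) (nat_lit 96779266654) (nat_lit 19) (nat_lit 5) (nat_lit 21) (nat_lit 4) (nat_lit 19) (nat_lit 4) (nat_lit 385) (nat_lit 356) (nat_lit 279)) (XT.lf (nat_lit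 0) (nat_lit 266295209928) (nat_lit 76) (nat_lit 197584520932) (nat_lit 76) (nat_lit 88595652123) (nat_lit 18) (nat_lit 4) (nat_lit 19) (nat_lit 5) (nat_lit 19) (nat_lit 4) (nat_lit 386) (nat_lit 356) (nat_lit 278))))))) (XT.nd (nat_lit 702) (nat_lit 380) (nat_lit 0) (XT.nd (nat_lit 312) (nat_lit 304) (nat_lit 0) (XT.nd (nat_lit 156) (nat_lit 152) (nat_lit 0) (XT.nd (nat_lit 78) (nat_lit 76) (nat_lit 0) (XT.lf (nat_lit 0) (nat_lit 149451097872) (nat_lit 152) (nat_lit 416638889659) (nat_lit 0) (nat_lit 48535235984) (nat_lit 16) (nat_lit 5) (nat_lit 18) (nat_lit 4) (nat_lit 16) (nat_lit 4) (nat_lit 387) (nat_lit 356) (nat_lit 277)) (XT.lf (nat_lit 0) (nat_lit 82679010014) (nat_lit 76) (nat_lit 351429282729) (nat_lit 76) (nat_lit 250513209866) (nat_lit 15) (nat_lit 4) (nat_lit 16) (nat_lit 5) (nat_lit 16) (nat_lit 4) (nat_lit 388) (nat_lit 356) (nat_lit 276))) (XT.nd (nat_lit 78) (nat_lit 76)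 (nat_lit 0) (XT.lf (nat_lit 0) (nat_lit 8973485808) (nat_lit 152) (nat_lit 82251405837) (nat_lit 76) (nat_lit 672903848882) (nat_lit 14) (nat_lit 5) (nat_lit 16) (nat_lit 5) (nat_lit 15) (nat_lit 4) (nat_lit 389) (nat_lit 356) (nat_lit 275)) (XT.lf (nat_lit 0) (nat_lit 311360149429) (nat_lit 152) (nat_lit 324257532860) (nat_lit 0) (nat_lit 217919023645) (nat_lit 13) (nat_lit 5) (nat_lit 15) (nat_lit 4) (nat_lit 13) (nat_lit 4) (nat_lit 390) (nat_lit 356) (nat_lit 274)))) (XT.nd (nat_lit 156) (nat_lit 152) (nat_lit 0) (XT.nd (nat_lit 78) (nat_lit 76) (nat_lit 0) (XT.lf (nat_lit 0) (nat_lit 293448229943) (nat_lit 76) (nat_lit 377692988975) (nat_lit 76) (nat_lit 284251734747) (nat_lit 12) (nat_lit 4) (nat_lit 13) (nat_lit 5) (nat_lit 13) (nat_lit 4) (nat_lit 391) (nat_lit 356) (nat_lit 273)) (XT.lf (nat_lit 0) (nat_lit 21428149765) (nat_lit 152) (nat_lit 48870814405) (nat_lit 76) (nat_lit 1001430112072)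 (nat_lit 11) (nat_lit 5) (nat_lit 13) (nat_lit 5) (nat_lit 12) (nat_lit 4) (nat_lit 392) (nat_lit 356) (nat_lit 272))) (XT.nd (nat_lit 78) (nat_lit 76) (nat_lit 0) (XT.lf (nat_lit 0) (nat_lit 380461141226) (nat_lit 152) (nat_lit 528575995077) (nat_lit 0) (nat_lit 293941268041) (nat_lit 10) (nat_lit 5) (nat_lit 12) (nat_lit 4) (nat_lit 10) (nat_lit 4) (nat_lit 393) (nat_lit 356) (nat_lit 271)) (XT.nd (nat_lit 78) (nat_lit 0) (nat_lit 0) (XT.lf (nat_lit 0) (nat_lit 161416767964) (nat_lit 76) (nat_lit 639217740465) (nat_lit 76) (nat_lit 552697789083) (nat_lit 9) (nat_lit 4) (nat_lit 10) (nat_lit 5) (nat_lit 10) (nat_lit 4) (nat_lit 394) (nat_lit 356) (nat_lit 270)) (XT.lf (nat_lit 0) (nat_lit 986916047980) (nat_lit 76) (nat_lit 312306092637) (nat_lit 76) (nat_lit 225786073256) (nat_lit 9) (nat_lit 4) (nat_lit 10) (nat_lit 5) (nat_lit 10) (nat_lit 4) (nat_lit 395) (nat_lit 356) (nat_lit 269))))))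 (XT.nd (nat_lit 312) (nat_lit 152) (nat_lit 0) (XT.nd (nat_lit 156) (nat_lit 76) (nat_lit 0) (XT.nd (nat_lit 78) (nat_lit 0) (nat_lit 0) (XT.lf (nat_lit 0) (nat_lit 149733999930) (nat_lit 152) (nat_lit 1502223122385) (nat_lit 0) (nat_lit 69622816125) (nat_lit 7) (nat_lit 5) (nat_lit 9) (nat_lit 4) (nat_lit 7) (nat_lit 4) (nat_lit 396) (nat_lit 356) (nat_lit 268)) (XT.lf (nat_lit 0) (nat_lit 593303084080) (nat_lit 152) (nat_lit 838666114676) (nat_lit 0) (nat_lit 513191852667) (nat_lit 7) (nat_lit 5) (nat_lit 9) (nat_lit 4) (nat_lit 7) (nat_lit 4) (nat_lit 397) (nat_lit 356) (nat_lit 267))) (XT.nd (nat_lit 78) (nat_lit 76) (nat_lit 0) (XT.lf (nat_lit 0) (nat_lit 1103407049643) (nat_lit 152) (nat_lit 75576543383) (nat_lit 0) (nat_lit 1023295776831) (nat_lit 7) (nat_lit 5) (nat_lit 9) (nat_lit 4) (nat_lit 7) (nat_lit 4) (nat_lit 398) (nat_lit 356) (nat_lit 266)) (XT.lf (nat_lit 0) (nat_lit 844206218974)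 (nat_lit 76) (nat_lit 866123152491) (nat_lit 76) (nat_lit 786011843681) (nat_lit 6) (nat_lit 4) (nat_lit 7) (nat_lit 5) (nat_lit 7) (nat_lit 4) (nat_lit 399) (nat_lit 356) (nat_lit 265)))) (XT.nd (nat_lit 156) (nat_lit 152) (nat_lit 0) (XT.nd (nat_lit 78) (nat_lit 0) (nat_lit 0) (XT.lf (nat_lit 0) (nat_lit 1906532295485) (nat_lit 76) (nat_lit 503957693052) (nat_lit 76) (nat_lit 423846352939) (nat_lit 6) (nat_lit 4) (nat_lit 7) (nat_lit 5) (nat_lit 7) (nat_lit 4) (nat_lit 400) (nat_lit 356) (nat_lit 264)) (XT.lf (nat_lit 0) (nat_lit 3128206599935) (nat_lit 76) (nat_lit 87467765393) (nat_lit 76) (nat_lit 7356398060) (nat_lit 6) (nat_lit 4) (nat_lit 7) (nat_lit 5) (nat_lit 7) (nat_lit 4) (nat_lit 401) (nat_lit 356) (nat_lit 263))) (XT.nd (nat_lit 78) (nat_lit 0) (nat_lit 0) (XT.lf (nat_lit 0) (nat_lit 479848766881) (nat_lit 152) (nat_lit 2781054982929) (nat_lit 0) (nat_lit 405671552990) (nat_lit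 4) (nat_lit 5) (nat_lit 6) (nat_lit 4) (nat_lit 4) (nat_lit 4) (nat_lit 402) (nat_lit 356) (nat_lit 262)) (XT.nd (nat_lit 78) (nat_lit 0) (nat_lit 0) (XT.lf (nat_lit 0) (nat_lit 1044962783892) (nat_lit 152) (nat_lit 2160466809613) (nat_lit 0) (nat_lit 970785550943) (nat_lit 4) (nat_lit 5) (nat_lit 6) (nat_lit 4) (nat_lit 4) (nat_lit 4) (nat_lit 403) (nat_lit 356) (nat_lit 261)) (XT.lf (nat_lit 0) (nat_lit 1694843661244) (nat_lit 152) (nat_lit 1446790908755) (nat_lit 0) (nat_lit 1620666411724) (nat_lit 4) (nat_lit 5) (nat_lit 6) (nat_lit 4) (nat_lit 4) (nat_lit 4) (nat_lit 404) (nat_lit 356) (nat_lit 260))))))))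
noncomputable def xc80 : XT := (XT.nd (nat_lit 49686) (nat_lit 0) (nat_lit 2356) (XT.nd (nat_lit 624) (nat_lit 152) (nat_lit 0) (XT.nd (nat_lit 312) (nat_lit 0) (nat_lit 0) (XT.nd (nat_lit 156) (nat_lit 0) (nat_lit 0) (XT.nd (nat_lit 78) (nat_lit 76) (nat_lit 0) (XT.lf (nat_lit 0) (nat_lit 2442206459582) (nat_lit 152) (nat_lit 626064056209) (nat_lit 0) (nat_lit 2368029195651) (nat_lit 4) (nat_lit 5) (nat_lit 6) (nat_lit 4) (nat_lit 4) (nat_lit 4) (nat_lit 405) (nat_lit 356) (nat_lit 259)) (XT.lf (nat_lit 0) (nat_lit 334504728590) (nat_lit 76) (nat_lit 2975213612701) (nat_lit 76) (nat_lit 2901036336239) (nat_lit 3) (nat_lit 4) (nat_lit 4) (nat_lit 5) (nat_lit 4) (nat_lit 4) (nat_lit 406) (nat_lit 356) (nat_lit 258))) (XT.nd (nat_lit 78) (nat_lit 0) (nat_lit 0) (XT.lf (nat_lit 0) (nat_lit 1477071023387) (nat_lit 76) (nat_lit 2848512995699) (nat_lit 76) (nat_lit 2774335708341) (nat_lit 3) (nat_lit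 4) (nat_lit 4) (nat_lit 5) (nat_lit 4) (nat_lit 4) (nat_lit 407) (nat_lit 356) (nat_lit 257)) (XT.lf (nat_lit 0) (nat_lit 2791021962402) (nat_lit 76) (nat_lit 2702807440448) (nat_lit 76) (nat_lit 2628630143616) (nat_lit 3) (nat_lit 4) (nat_lit 4) (nat_lit 5) (nat_lit 4) (nat_lit 4) (nat_lit 408) (nat_lit 356) (nat_lit 256)))) (XT.nd (nat_lit 156) (nat_lit 0) (nat_lit 0) (XT.nd (nat_lit 78) (nat_lit 0) (nat_lit 0) (XT.lf (nat_lit 0) (nat_lit 4302065281399) (nat_lit 76) (nat_lit 2535246186085) (nat_lit 76) (nat_lit 2461068881014) (nat_lit 3) (nat_lit 4) (nat_lit 4) (nat_lit 5) (nat_lit 4) (nat_lit 4) (nat_lit 409) (nat_lit 356) (nat_lit 255)) (XT.lf (nat_lit 0) (nat_lit 6039764871401) (nat_lit 76) (nat_lit 2342550860242) (nat_lit 76) (nat_lit 2268373548006) (nat_lit 3) (nat_lit 4) (nat_lit 4) (nat_lit 5) (nat_lit 4) (nat_lit 4) (nat_lit 410) (nat_lit 356) (nat_lit 254))) (XT.nd (nat_lit 78)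 (nat_lit 0) (nat_lit 0) (XT.lf (nat_lit 0) (nat_lit 8038119202648) (nat_lit 76) (nat_lit 2120951336978) (nat_lit 76) (nat_lit 2046774018511) (nat_lit 3) (nat_lit 4) (nat_lit 4) (nat_lit 5) (nat_lit 4) (nat_lit 4) (nat_lit 411) (nat_lit 356) (nat_lit 253)) (XT.lf (nat_lit 0) (nat_lit 10336226512056) (nat_lit 76) (nat_lit 1866111973446) (nat_lit 76) (nat_lit 1791934649563) (nat_lit 3) (nat_lit 4) (nat_lit 4) (nat_lit 5) (nat_lit 4) (nat_lit 4) (nat_lit 412) (nat_lit 356) (nat_lit 252))))) (XT.nd (nat_lit 312) (nat_lit 152) (nat_lit 0) (XT.nd (nat_lit 156) (nat_lit 0) (nat_lit 0) (XT.nd (nat_lit 78) (nat_lit 0) (nat_lit 0) (XT.lf (nat_lit 0) (nat_lit 12979049768722) (nat_lit 76) (nat_lit 1573046782100) (nat_lit 76) (nat_lit 1498869453505) (nat_lit 3) (nat_lit 4) (nat_lit 4) (nat_lit 5) (nat_lit 4) (nat_lit 4) (nat_lit 413) (nat_lit 356) (nat_lit 251)) (XT.lf (nat_lit 0) (nat_lit 16018296384188)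 (nat_lit 76) (nat_lit 1236021878760) (nat_lit 76) (nat_lit 1161844546070) (nat_lit 3) (nat_lit 4) (nat_lit 4) (nat_lit 5) (nat_lit 4) (nat_lit 4) (nat_lit 414) (nat_lit 356) (nat_lit 250))) (XT.nd (nat_lit 78) (nat_lit 0) (nat_lit 0) (XT.lf (nat_lit 0) (nat_lit 19513429879193) (nat_lit 76) (nat_lit 848443297928) (nat_lit 76) (nat_lit 774265961675) (nat_lit 3) (nat_lit 4) (nat_lit 4) (nat_lit 5) (nat_lit 4) (nat_lit 4) (nat_lit 415) (nat_lit 356) (nat_lit 249)) (XT.lf (nat_lit 0) (nat_lit 23532833300378) (nat_lit 76) (nat_lit 402727980411) (nat_lit 76) (nat_lit 328550641061) (nat_lit 3) (nat_lit 4) (nat_lit 4) (nat_lit 5) (nat_lit 4) (nat_lit 4) (nat_lit 416) (nat_lit 356) (nat_lit 248)))) (XT.nd (nat_lit 48516) (nat_lit 0) (nat_lit 5396) (XT.nd (nat_lit 48438) (nat_lit 0) (nat_lit 5852) (XT.lf (nat_lit 0) (nat_lit 185091072309) (nat_lit 152) (nat_lit 27558605173679) (nat_lit 0) (nat_lit 116408348195)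 (nat_lit 1) (nat_lit 5) (nat_lit 3) (nat_lit 4) (nat_lit 1) (nat_lit 4) (nat_lit 417) (nat_lit 356) (nat_lit 247)) (XT.lf (nat_lit 0) (nat_lit 20662306761) (nat_lit 532) (nat_lit 603018404) (nat_lit 532) (nat_lit 603018404) (nat_lit 78) (nat_lit 3) (nat_lit 85) (nat_lit 3) (nat_lit 85) (nat_lit 5) (nat_lit 357) (nat_lit 357) (nat_lit 306))) (XT.nd (nat_lit 78) (nat_lit 456) (nat_lit 0) (XT.lf (nat_lit 76) (nat_lit 41374165082) (nat_lit 0) (nat_lit 4102900937) (nat_lit 532) (nat_lit 1455600802) (nat_lit 79) (nat_lit 5) (nat_lit 78) (nat_lit 3) (nat_lit 85) (nat_lit 5) (nat_lit 358) (nat_lit 357) (nat_lit 305)) (XT.nd (nat_lit 78) (nat_lit 0) (nat_lit 76) (XT.lf (nat_lit 0) (nat_lit 1686398960) (nat_lit 532) (nat_lit 9610483833) (nat_lit 608) (nat_lit 39149907624) (nat_lit 72) (nat_lit 5) (nat_lit 79) (nat_lit 5) (nat_lit 80) (nat_lit 5) (nat_lit 359) (nat_lit 357) (nat_lit 304)) (XT.lf (nat_lit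 0) (nat_lit 7349440780) (nat_lit 532) (nat_lit 13248445075) (nat_lit 608) (nat_lit 33716251027) (nat_lit 73) (nat_lit 5) (nat_lit 80) (nat_lit 5) (nat_lit 81) (nat_lit 5) (nat_lit 360) (nat_lit 357) (nat_lit 303))))))) (XT.nd (nat_lit 624) (nat_lit 1444) (nat_lit 0) (XT.nd (nat_lit 312) (nat_lit 836) (nat_lit 0) (XT.nd (nat_lit 156) (nat_lit 456) (nat_lit 0) (XT.nd (nat_lit 78) (nat_lit 456) (nat_lit 0) (XT.lf (nat_lit 0) (nat_lit 16149528327) (nat_lit 532) (nat_lit 16282427778) (nat_lit 76) (nat_lit 26146624965) (nat_lit 74) (nat_lit 5) (nat_lit 81) (nat_lit 5) (nat_lit 75) (nat_lit 5) (nat_lit 361) (nat_lit 357) (nat_lit 302)) (XT.lf (nat_lit 0) (nat_lit 28720741482) (nat_lit 532) (nat_lit 18527909723) (nat_lit 76) (nat_lit 16037954210) (nat_lit 68) (nat_lit 5) (nat_lit 75) (nat_lit 5) (nat_lit 69) (nat_lit 5) (nat_lit 362) (nat_lit 357) (nat_lit 301))) (XT.nd (nat_lit 78) (nat_lit 228)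 (nat_lit 0) (XT.lf (nat_lit 0) (nat_lit 45802189741) (nat_lit 304) (nat_lit 19766463053) (nat_lit 76) (nat_lit 2922218568) (nat_lit 65) (nat_lit 5) (nat_lit 69) (nat_lit 5) (nat_lit 66) (nat_lit 5) (nat_lit 363) (nat_lit 357) (nat_lit 300)) (XT.lf (nat_lit 0) (nat_lit 54134427884) (nat_lit 228) (nat_lit 14467743246) (nat_lit 304) (nat_lit 5621102713) (nat_lit 62) (nat_lit 5) (nat_lit 65) (nat_lit 5) (nat_lit 66) (nat_lit 5) (nat_lit 364) (nat_lit 357) (nat_lit 299)))) (XT.nd (nat_lit 156) (nat_lit 380) (nat_lit 0) (XT.nd (nat_lit 78) (nat_lit 228) (nat_lit 0) (XT.lf (nat_lit 0) (nat_lit 16517845207) (nat_lit 228) (nat_lit 19443753731) (nat_lit 76) (nat_lit 44570038572) (nat_lit 59) (nat_lit 5) (nat_lit 62) (nat_lit 5) (nat_lit 60) (nat_lit 5) (nat_lit 365) (nat_lit 357) (nat_lit 298)) (XT.lf (nat_lit 0) (nat_lit 44992588828) (nat_lit 304) (nat_lit 17308746790) (nat_lit 76) (nat_lit 25205418393)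 (nat_lit 56) (nat_lit 5) (nat_lit 60) (nat_lit 5) (nat_lit 57) (nat_lit 5) (nat_lit 366) (nat_lit 357) (nat_lit 297))) (XT.nd (nat_lit 78) (nat_lit 228) (nat_lit 0) (XT.lf (nat_lit 0) (nat_lit 81302313278) (nat_lit 228) (nat_lit 13192708773) (nat_lit 76) (nat_lit 748015559) (nat_lit 54) (nat_lit 5) (nat_lit 57) (nat_lit 5) (nat_lit 55) (nat_lit 5) (nat_lit 367) (nat_lit 357) (nat_lit 296)) (XT.lf (nat_lit 0) (nat_lit 22643708607) (nat_lit 228) (nat_lit 8009523388) (nat_lit 76) (nat_lit 73076423606) (nat_lit 51) (nat_lit 5) (nat_lit 54) (nat_lit 5) (nat_lit 52) (nat_lit 5) (nat_lit 368) (nat_lit 357) (nat_lit 295))))) (XT.nd (nat_lit 312) (nat_lit 760) (nat_lit 0) (XT.nd (nat_lit 156) (nat_lit 228) (nat_lit 0) (XT.nd (nat_lit 78) (nat_lit 304) (nat_lit 0) (XT.lf (nat_lit 0) (nat_lit 68155759949) (nat_lit 228) (nat_lit 736784165) (nat_lit 76) (nat_lit 44226523259) (nat_lit 49) (nat_lit 5) (nat_lit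 52) (nat_lit 5) (nat_lit 50) (nat_lit 5) (nat_lit 369) (nat_lit 357) (nat_lit 294)) (XT.lf (nat_lit 0) (nat_lit 1601760118) (nat_lit 152) (nat_lit 113633460157) (nat_lit 76) (nat_lit 8300028861) (nat_lit 45) (nat_lit 5) (nat_lit 47) (nat_lit 5) (nat_lit 46) (nat_lit 5) (nat_lit 370) (nat_lit 357) (nat_lit 293))) (XT.nd (nat_lit 78) (nat_lit 76) (nat_lit 0) (XT.lf (nat_lit 0) (nat_lit 21766933204) (nat_lit 152) (nat_lit 36648279810) (nat_lit 228) (nat_lit 76531139088) (nat_lit 43) (nat_lit 5) (nat_lit 45) (nat_lit 5) (nat_lit 46) (nat_lit 5) (nat_lit 371) (nat_lit 357) (nat_lit 292)) (XT.lf (nat_lit 0) (nat_lit 37023011699) (nat_lit 76) (nat_lit 92301420028) (nat_lit 152) (nat_lit 18298789451) (nat_lit 42) (nat_lit 5) (nat_lit 43) (nat_lit 5) (nat_lit 44) (nat_lit 4) (nat_lit 372) (nat_lit 357) (nat_lit 291)))) (XT.nd (nat_lit 156) (nat_lit 456) (nat_lit 0) (XT.nd (nat_lit 78) (nat_lit 76)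 (nat_lit 0) (XT.lf (nat_lit 0) (nat_lit 52028856320) (nat_lit 228) (nat_lit 106571451446) (nat_lit 76) (nat_lit 3044072346) (nat_lit 39) (nat_lit 5) (nat_lit 42) (nat_lit 5) (nat_lit 40) (nat_lit 4) (nat_lit 373) (nat_lit 357) (nat_lit 290)) (XT.lf (nat_lit 0) (nat_lit 75408564174) (nat_lit 76) (nat_lit 64111839395) (nat_lit 152) (nat_lit 37594426433) (nat_lit 38) (nat_lit 5) (nat_lit 39) (nat_lit 5) (nat_lit 40) (nat_lit 4) (nat_lit 374) (nat_lit 357) (nat_lit 289))) (XT.nd (nat_lit 78) (nat_lit 228) (nat_lit 0) (XT.lf (nat_lit 0) (nat_lit 49805997368) (nat_lit 228) (nat_lit 95288677808) (nat_lit 76) (nat_lit 49177050880) (nat_lit 35) (nat_lit 5) (nat_lit 38) (nat_lit 5) (nat_lit 36) (nat_lit 4) (nat_lit 375) (nat_lit 357) (nat_lit 288)) (XT.nd (nat_lit 78) (nat_lit 152) (nat_lit 0) (XT.lf (nat_lit 0) (nat_lit 125556345124) (nat_lit 76) (nat_lit 30425952780) (nat_lit 152) (nat_lit 57310394749)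 (nat_lit 34) (nat_lit 5) (nat_lit 35) (nat_lit 5) (nat_lit 36) (nat_lit 4) (nat_lit 376) (nat_lit 357) (nat_lit 287)) (XT.lf (nat_lit 0) (nat_lit 50032385656) (nat_lit 152) (nat_lit 80088468653) (nat_lit 76) (nat_lit 104222488109) (nat_lit 32) (nat_lit 5) (nat_lit 34) (nat_lit 5) (nat_lit 33) (nat_lit 4) (nat_lit 377) (nat_lit 357) (nat_lit 286))))))))
noncomputable def xc81 : XT := (XT.nd (nat_lit 1326) (nat_lit 532) (nat_lit 0) (XT.nd (nat_lit 624) (nat_lit 836) (nat_lit 0) (XT.nd (nat_lit 312) (nat_lit 380) (nat_lit 0) (XT.nd (nat_lit 156) (nat_lit 228) (nat_lit 0) (XT.nd (nat_lit 78) (nat_lit 152) (nat_lit 0) (XT.lf (nat_lit 0) (nat_lit 178318808373) (nat_lit 152) (nat_lit 71651784001) (nat_lit 0) (nat_lit 7803059697) (nat_lit 31) (nat_lit 5) (nat_lit 33) (nat_lit 4) (nat_lit 31) (nat_lit 4) (nat_lit 378) (nat_lit 357) (nat_lit 285)) (XT.lf (nat_lit 0) (nat_lit 50643493543) (nat_lit 152)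 (nat_lit 65178230376) (nat_lit 76) (nat_lit 167891948339) (nat_lit 29) (nat_lit 5) (nat_lit 31) (nat_lit 5) (nat_lit 30) (nat_lit 4) (nat_lit 379) (nat_lit 357) (nat_lit 284))) (XT.nd (nat_lit 78) (nat_lit 152) (nat_lit 0) (XT.lf (nat_lit 0) (nat_lit 205120239676) (nat_lit 152) (nat_lit 60260247536) (nat_lit 0) (nat_lit 47233645668) (nat_lit 28) (nat_lit 5) (nat_lit 30) (nat_lit 4) (nat_lit 28) (nat_lit 4) (nat_lit 380) (nat_lit 357) (nat_lit 283)) (XT.lf (nat_lit 0) (nat_lit 47432534533) (nat_lit 152) (nat_lit 59227586093) (nat_lit 76) (nat_lit 238129667833) (nat_lit 26) (nat_lit 5) (nat_lit 28) (nat_lit 5) (nat_lit 27) (nat_lit 4) (nat_lit 381) (nat_lit 357) (nat_lit 282)))) (XT.nd (nat_lit 156) (nat_lit 152) (nat_lit 0) (XT.nd (nat_lit 78) (nat_lit 152) (nat_lit 0) (XT.lf (nat_lit 0) (nat_lit 231011363931) (nat_lit 152) (nat_lit 64795878655) (nat_lit 0) (nat_lit 84818923894) (nat_lit 25)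 (nat_lit 5) (nat_lit 27) (nat_lit 4) (nat_lit 25) (nat_lit 4) (nat_lit 382) (nat_lit 357) (nat_lit 281)) (XT.lf (nat_lit 0) (nat_lit 32582784203) (nat_lit 152) (nat_lit 78420713722) (nat_lit 76) (nat_lit 309730770726) (nat_lit 23) (nat_lit 5) (nat_lit 25) (nat_lit 5) (nat_lit 24) (nat_lit 4) (nat_lit 383) (nat_lit 357) (nat_lit 280))) (XT.nd (nat_lit 78) (nat_lit 76) (nat_lit 0) (XT.lf (nat_lit 0) (nat_lit 246958973651) (nat_lit 152) (nat_lit 106897299615) (nat_lit 0) (nat_lit 111594798591) (nat_lit 22) (nat_lit 5) (nat_lit 24) (nat_lit 4) (nat_lit 22) (nat_lit 4) (nat_lit 384) (nat_lit 357) (nat_lit 279)) (XT.lf (nat_lit 0) (nat_lit 364218481769) (nat_lit 76) (nat_lit 143443876495) (nat_lit 76) (nat_lit 8079375993) (nat_lit 21) (nat_lit 4) (nat_lit 22) (nat_lit 5) (nat_lit 22) (nat_lit 4) (nat_lit 385) (nat_lit 357) (nat_lit 278))))) (XT.nd (nat_lit 312) (nat_lit 380) (nat_lit 0) (XT.nd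 (nat_lit 156) (nat_lit 228) (nat_lit 0) (XT.nd (nat_lit 78) (nat_lit 76) (nat_lit 0) (XT.lf (nat_lit 0) (nat_lit 236646209849) (nat_lit 152) (nat_lit 224015216477) (nat_lit 0) (nat_lit 111308447353) (nat_lit 19) (nat_lit 5) (nat_lit 21) (nat_lit 4) (nat_lit 19) (nat_lit 4) (nat_lit 386) (nat_lit 357) (nat_lit 277)) (XT.lf (nat_lit 0) (nat_lit 306263792072) (nat_lit 76) (nat_lit 227209961633) (nat_lit 76) (nat_lit 101871971285) (nat_lit 18) (nat_lit 4) (nat_lit 19) (nat_lit 5) (nat_lit 19) (nat_lit 4) (nat_lit 387) (nat_lit 357) (nat_lit 276))) (XT.nd (nat_lit 78) (nat_lit 76) (nat_lit 0) (XT.lf (nat_lit 0) (nat_lit 171880351669) (nat_lit 152) (nat_lit 479111254490) (nat_lit 0) (nat_lit 55826473446) (nat_lit 16) (nat_lit 5) (nat_lit 18) (nat_lit 4) (nat_lit 16) (nat_lit 4) (nat_lit 388) (nat_lit 357) (nat_lit 275)) (XT.lf (nat_lit 0) (nat_lit 95102343633) (nat_lit 76) (nat_lit 404132787159)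 (nat_lit 76) (nat_lit 288078749409) (nat_lit 15) (nat_lit 4) (nat_lit 16) (nat_lit 5) (nat_lit 16) (nat_lit 4) (nat_lit 389) (nat_lit 357) (nat_lit 274)))) (XT.nd (nat_lit 156) (nat_lit 228) (nat_lit 0) (XT.nd (nat_lit 78) (nat_lit 76) (nat_lit 0) (XT.lf (nat_lit 0) (nat_lit 10328960475) (nat_lit 152) (nat_lit 94569938680) (nat_lit 76) (nat_lit 773848396091) (nat_lit 14) (nat_lit 5) (nat_lit 16) (nat_lit 5) (nat_lit 15) (nat_lit 4) (nat_lit 390) (nat_lit 357) (nat_lit 273)) (XT.lf (nat_lit 0) (nat_lit 358073027358) (nat_lit 152) (nat_lit 372878130973) (nat_lit 0) (nat_lit 250615344863) (nat_lit 13) (nat_lit 5) (nat_lit 15) (nat_lit 4) (nat_lit 13) (nat_lit 4) (nat_lit 391) (nat_lit 357) (nat_lit 272))) (XT.nd (nat_lit 78) (nat_lit 152) (nat_lit 0) (XT.lf (nat_lit 0) (nat_lit 337481969947) (nat_lit 76) (nat_lit 434338529215) (nat_lit 76) (nat_lit 326880749598) (nat_lit 12) (nat_lit 4) (nat_lit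 13) (nat_lit 5) (nat_lit 13) (nat_lit 4) (nat_lit 392) (nat_lit 357) (nat_lit 271)) (XT.nd (nat_lit 78) (nat_lit 76) (nat_lit 0) (XT.lf (nat_lit 0) (nat_lit 24649596476) (nat_lit 152) (nat_lit 56186703399) (nat_lit 76) (nat_lit 1151651559732) (nat_lit 11) (nat_lit 5) (nat_lit 13) (nat_lit 5) (nat_lit 12) (nat_lit 4) (nat_lit 393) (nat_lit 357) (nat_lit 270)) (XT.lf (nat_lit 0) (nat_lit 437537084163) (nat_lit 152) (nat_lit 607848545102) (nat_lit 0) (nat_lit 338038993876) (nat_lit 10) (nat_lit 5) (nat_lit 12) (nat_lit 4) (nat_lit 10) (nat_lit 4) (nat_lit 394) (nat_lit 357) (nat_lit 269))))))) (XT.nd (nat_lit 624) (nat_lit 228) (nat_lit 0) (XT.nd (nat_lit 312) (nat_lit 76) (nat_lit 0) (XT.nd (nat_lit 156) (nat_lit 152) (nat_lit 0) (XT.nd (nat_lit 78) (nat_lit 0) (nat_lit 0) (XT.lf (nat_lit 0) (nat_lit 185641960126) (nat_lit 76) (nat_lit 735093917930) (nat_lit 76) (nat_lit 635595768514) (nat_lit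 9) (nat_lit 4) (nat_lit 10) (nat_lit 5) (nat_lit 10) (nat_lit 4) (nat_lit 395) (nat_lit 357) (nat_lit 268)) (XT.lf (nat_lit 0) (nat_lit 1134964478627) (nat_lit 76) (nat_lit 359146368615) (nat_lit 76) (nat_lit 259648167783) (nat_lit 9) (nat_lit 4) (nat_lit 10) (nat_lit 5) (nat_lit 10) (nat_lit 4) (nat_lit 396) (nat_lit 357) (nat_lit 267))) (XT.nd (nat_lit 78) (nat_lit 0) (nat_lit 0) (XT.lf (nat_lit 0) (nat_lit 172199281317) (nat_lit 152) (nat_lit 1727545957122) (nat_lit 0) (nat_lit 80071276186) (nat_lit 7) (nat_lit 5) (nat_lit 9) (nat_lit 4) (nat_lit 7) (nat_lit 4) (nat_lit 397) (nat_lit 357) (nat_lit 266)) (XT.lf (nat_lit 0) (nat_lit 682303052255) (nat_lit 152) (nat_lit 964456785251) (nat_lit 0) (nat_lit 590175011125) (nat_lit 7) (nat_lit 5) (nat_lit 9) (nat_lit 4) (nat_lit 7) (nat_lit 4) (nat_lit 398) (nat_lit 357) (nat_lit 265)))) (XT.nd (nat_lit 156) (nat_lit 0) (nat_lit 0) (XT.nd (nat_lit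 78) (nat_lit 76) (nat_lit 0) (XT.lf (nat_lit 0) (nat_lit 1268922024970) (nat_lit 152) (nat_lit 86904984345) (nat_lit 0) (nat_lit 1176793952537) (nat_lit 7) (nat_lit 5) (nat_lit 9) (nat_lit 4) (nat_lit 7) (nat_lit 4) (nat_lit 399) (nat_lit 357) (nat_lit 264)) (XT.lf (nat_lit 0) (nat_lit 970844511774) (nat_lit 76) (nat_lit 996037849272) (nat_lit 76) (nat_lit 903909749619) (nat_lit 6) (nat_lit 4) (nat_lit 7) (nat_lit 5) (nat_lit 7) (nat_lit 4) (nat_lit 400) (nat_lit 357) (nat_lit 263))) (XT.nd (nat_lit 78) (nat_lit 0) (nat_lit 0) (XT.lf (nat_lit 0) (nat_lit 2192518539767) (nat_lit 76) (nat_lit 579548063451) (nat_lit 76) (nat_lit 487419940129) (nat_lit 6) (nat_lit 4) (nat_lit 7) (nat_lit 5) (nat_lit 7) (nat_lit 4) (nat_lit 401) (nat_lit 357) (nat_lit 262)) (XT.lf (nat_lit 0) (nat_lit 3597443155108) (nat_lit 76) (nat_lit 100585074933) (nat_lit 76) (nat_lit 8456931029) (nat_lit 6) (nat_lit 4) (nat_lit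 7) (nat_lit 5) (nat_lit 7) (nat_lit 4) (nat_lit 402) (nat_lit 357) (nat_lit 261))))) (XT.nd (nat_lit 312) (nat_lit 76) (nat_lit 0) (XT.nd (nat_lit 156) (nat_lit 0) (nat_lit 0) (XT.nd (nat_lit 78) (nat_lit 0) (nat_lit 0) (XT.lf (nat_lit 0) (nat_lit 551828689900) (nat_lit 152) (nat_lit 3198207863274) (nat_lit 0) (nat_lit 466524836379) (nat_lit 4) (nat_lit 5) (nat_lit 6) (nat_lit 4) (nat_lit 4) (nat_lit 4) (nat_lit 403) (nat_lit 357) (nat_lit 260)) (XT.lf (nat_lit 0) (nat_lit 1201709469290) (nat_lit 152) (nat_lit 2484532164016) (nat_lit 0) (nat_lit 1116405601360) (nat_lit 4) (nat_lit 5) (nat_lit 6) (nat_lit 4) (nat_lit 4) (nat_lit 4) (nat_lit 404) (nat_lit 357) (nat_lit 259))) (XT.nd (nat_lit 78) (nat_lit 0) (nat_lit 0) (XT.lf (nat_lit 0) (nat_lit 1949072182444) (nat_lit 152) (nat_lit 1663805486774) (nat_lit 0) (nat_lit 1863768301982) (nat_lit 4) (nat_lit 5) (nat_lit 6) (nat_lit 4) (nat_lit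 4) (nat_lit 4) (nat_lit 405) (nat_lit 357) (nat_lit 258)) (XT.lf (nat_lit 0) (nat_lit 2808539143313) (nat_lit 152) (nat_lit 719970135689) (nat_lit 0) (nat_lit 2723235251955) (nat_lit 4) (nat_lit 5) (nat_lit 6) (nat_lit 4) (nat_lit 4) (nat_lit 4) (nat_lit 406) (nat_lit 357) (nat_lit 257)))) (XT.nd (nat_lit 156) (nat_lit 0) (nat_lit 0) (XT.nd (nat_lit 78) (nat_lit 0) (nat_lit 0) (XT.lf (nat_lit 0) (nat_lit 384683668123) (nat_lit 76) (nat_lit 3421493993174) (nat_lit 76) (nat_lit 3336190092342) (nat_lit 3) (nat_lit 4) (nat_lit 4) (nat_lit 5) (nat_lit 4) (nat_lit 4) (nat_lit 407) (nat_lit 357) (nat_lit 256)) (XT.lf (nat_lit 0) (nat_lit 1698634485802) (nat_lit 76) (nat_lit 3275788500331) (nat_lit 76) (nat_lit 3190484591259) (nat_lit 3) (nat_lit 4) (nat_lit 4) (nat_lit 5) (nat_lit 4) (nat_lit 4) (nat_lit 408) (nat_lit 357) (nat_lit 255))) (XT.nd (nat_lit 78) (nat_lit 0) (nat_lit 0) (XT.lf (nat_lit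 0) (nat_lit 3209677699290) (nat_lit 76) (nat_lit 3108227300235) (nat_lit 76) (nat_lit 3022923383999) (nat_lit 3) (nat_lit 4) (nat_lit 4) (nat_lit 5) (nat_lit 4) (nat_lit 4) (nat_lit 409) (nat_lit 357) (nat_lit 254)) (XT.nd (nat_lit 78) (nat_lit 0) (nat_lit 0) (XT.lf (nat_lit 0) (nat_lit 4947377197546) (nat_lit 76) (nat_lit 2915532021580) (nat_lit 76) (nat_lit 2830228099114) (nat_lit 3) (nat_lit 4) (nat_lit 4) (nat_lit 5) (nat_lit 4) (nat_lit 4) (nat_lit 410) (nat_lit 357) (nat_lit 253)) (XT.lf (nat_lit 0) (nat_lit 6945731449014) (nat_lit 76) (nat_lit 2693932539350) (nat_lit 76) (nat_lit 2608628611466) (nat_lit 3) (nat_lit 4) (nat_lit 4) (nat_lit 5) (nat_lit 4) (nat_lit 4) (nat_lit 411) (nat_lit 357) (nat_lit 252))))))))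
noncomputable def xc82 : XT := (XT.nd (nat_lit 49764) (nat_lit 0) (nat_lit 1444) (XT.nd (nat_lit 49062) (nat_lit 0) (nat_lit 3876) (XT.nd (nat_lit 312) (nat_lit 0) (nat_lit 0) (XT.nd (nat_lit 156) (nat_lit 0) (nat_lit 0) (XT.nd (nat_lit 78) (nat_lit 0) (nat_lit 0) (XT.lf (nat_lit 0) (nat_lit 9243838689048) (nat_lit 76) (nat_lit 2439093211499) (nat_lit 76) (nat_lit 2353789278905) (nat_lit 3) (nat_lit 4) (nat_lit 4) (nat_lit 5) (nat_lit 4) (nat_lit 4) (nat_lit 412) (nat_lit 357) (nat_lit 251)) (XT.lf (nat_lit 0) (nat_lit 11886661885388) (nat_lit 76) (nat_lit 2146028051180) (nat_lit 76) (nat_lit 2060724114490) (nat_lit 3) (nat_lit 4) (nat_lit 4) (nat_lit 5) (nat_lit 4) (nat_lit 4) (nat_lit 413) (nat_lit 357) (nat_lit 250))) (XT.nd (nat_lit 78) (nat_lit 0) (nat_lit 0) (XT.lf (nat_lit 0) (nat_lit 14925908448398) (nat_lit 76) (nat_lit 1809003174821) (nat_lit 76) (nat_lit 1723699234569) (nat_lit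 3) (nat_lit 4) (nat_lit 4) (nat_lit 5) (nat_lit 4) (nat_lit 4) (nat_lit 414) (nat_lit 357) (nat_lit 249)) (XT.lf (nat_lit 0) (nat_lit 18421041897789) (nat_lit 76) (nat_lit 1421424617450) (nat_lit 76) (nat_lit 1336120674100) (nat_lit 3) (nat_lit 4) (nat_lit 4) (nat_lit 5) (nat_lit 4) (nat_lit 4) (nat_lit 415) (nat_lit 357) (nat_lit 248)))) (XT.nd (nat_lit 48594) (nat_lit 0) (nat_lit 5700) (XT.nd (nat_lit 78) (nat_lit 0) (nat_lit 0) (XT.lf (nat_lit 0) (nat_lit 22440445279309) (nat_lit 76) (nat_lit 975709320334) (nat_lit 76) (nat_lit 890405374291) (nat_lit 3) (nat_lit 4) (nat_lit 4) (nat_lit 5) (nat_lit 4) (nat_lit 4) (nat_lit 416) (nat_lit 357) (nat_lit 247)) (XT.lf (nat_lit 0) (nat_lit 27062759093902) (nat_lit 76) (nat_lit 463136766793) (nat_lit 76) (nat_lit 377832818407) (nat_lit 3) (nat_lit 4) (nat_lit 4) (nat_lit 5) (nat_lit 4) (nat_lit 4) (nat_lit 417) (nat_lit 357) (nat_lit 246))) (XT.nd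 (nat_lit 78) (nat_lit 0) (nat_lit 0) (XT.lf (nat_lit 0) (nat_lit 23817305583) (nat_lit 532) (nat_lit 663407464) (nat_lit 532) (nat_lit 663407464) (nat_lit 78) (nat_lit 3) (nat_lit 85) (nat_lit 3) (nat_lit 85) (nat_lit 5) (nat_lit 358) (nat_lit 358) (nat_lit 304)) (XT.lf (nat_lit 76) (nat_lit 47635327761) (nat_lit 0) (nat_lit 4761409317) (nat_lit 532) (nat_lit 1567941972) (nat_lit 79) (nat_lit 5) (nat_lit 78) (nat_lit 3) (nat_lit 85) (nat_lit 5) (nat_lit 359) (nat_lit 358) (nat_lit 303))))) (XT.nd (nat_lit 312) (nat_lit 1064) (nat_lit 0) (XT.nd (nat_lit 156) (nat_lit 304) (nat_lit 0) (XT.nd (nat_lit 78) (nat_lit 0) (nat_lit 76) (XT.lf (nat_lit 0) (nat_lit 2027441392) (nat_lit 532) (nat_lit 10988839223) (nat_lit 608) (nat_lit 44990450437) (nat_lit 72) (nat_lit 5) (nat_lit 79) (nat_lit 5) (nat_lit 80) (nat_lit 5) (nat_lit 360) (nat_lit 358) (nat_lit 302)) (XT.lf (nat_lit 0) (nat_lit 8529358269)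 (nat_lit 532) (nat_lit 15171095752) (nat_lit 608) (nat_lit 38754576047) (nat_lit 73) (nat_lit 5) (nat_lit 80) (nat_lit 5) (nat_lit 81) (nat_lit 5) (nat_lit 361) (nat_lit 358) (nat_lit 301))) (XT.nd (nat_lit 78) (nat_lit 456) (nat_lit 0) (XT.lf (nat_lit 0) (nat_lit 18640540028) (nat_lit 532) (nat_lit 18659883884) (nat_lit 76) (nat_lit 30059434037) (nat_lit 74) (nat_lit 5) (nat_lit 81) (nat_lit 5) (nat_lit 75) (nat_lit 5) (nat_lit 362) (nat_lit 358) (nat_lit 300)) (XT.lf (nat_lit 0) (nat_lit 33089878798) (nat_lit 532) (nat_lit 21242736677) (nat_lit 76) (nat_lit 18442078071) (nat_lit 68) (nat_lit 5) (nat_lit 75) (nat_lit 5) (nat_lit 69) (nat_lit 5) (nat_lit 363) (nat_lit 358) (nat_lit 299)))) (XT.nd (nat_lit 156) (nat_lit 608) (nat_lit 0) (XT.nd (nat_lit 78) (nat_lit 228) (nat_lit 0) (XT.lf (nat_lit 0) (nat_lit 52727107713) (nat_lit 304) (nat_lit 22668250682) (nat_lit 76) (nat_lit 3364758602)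 (nat_lit 65) (nat_lit 5) (nat_lit 69) (nat_lit 5) (nat_lit 66) (nat_lit 5) (nat_lit 364) (nat_lit 358) (nat_lit 298)) (XT.lf (nat_lit 0) (nat_lit 62312425868) (nat_lit 228) (nat_lit 16628930975) (nat_lit 304) (nat_lit 6411483700) (nat_lit 62) (nat_lit 5) (nat_lit 65) (nat_lit 5) (nat_lit 66) (nat_lit 5) (nat_lit 365) (nat_lit 358) (nat_lit 297))) (XT.nd (nat_lit 78) (nat_lit 380) (nat_lit 0) (XT.lf (nat_lit 0) (nat_lit 19040707951) (nat_lit 228) (nat_lit 22301591736) (nat_lit 76) (nat_lit 51265456035) (nat_lit 59) (nat_lit 5) (nat_lit 62) (nat_lit 5) (nat_lit 60) (nat_lit 5) (nat_lit 366) (nat_lit 358) (nat_lit 296)) (XT.nd (nat_lit 78) (nat_lit 152) (nat_lit 0) (XT.lf (nat_lit 0) (nat_lit 51782378809) (nat_lit 304) (nat_lit 19848363562) (nat_lit 76) (nat_lit 28998741708) (nat_lit 56) (nat_lit 5) (nat_lit 60) (nat_lit 5) (nat_lit 57) (nat_lit 5) (nat_lit 367) (nat_lit 358) (nat_lit 295))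 (XT.lf (nat_lit 0) (nat_lit 93534837745) (nat_lit 228) (nat_lit 15117126862) (nat_lit 76) (nat_lit 874544966) (nat_lit 54) (nat_lit 5) (nat_lit 57) (nat_lit 5) (nat_lit 55) (nat_lit 5) (nat_lit 368) (nat_lit 358) (nat_lit 294))))))) (XT.nd (nat_lit 624) (nat_lit 988) (nat_lit 0) (XT.nd (nat_lit 312) (nat_lit 608) (nat_lit 0) (XT.nd (nat_lit 156) (nat_lit 456) (nat_lit 0) (XT.nd (nat_lit 78) (nat_lit 152) (nat_lit 0) (XT.lf (nat_lit 0) (nat_lit 26074671340) (nat_lit 228) (nat_lit 9159256410) (nat_lit 76) (nat_lit 84052416042) (nat_lit 51) (nat_lit 5) (nat_lit 54) (nat_lit 5) (nat_lit 52) (nat_lit 5) (nat_lit 369) (nat_lit 358) (nat_lit 293)) (XT.lf (nat_lit 0) (nat_lit 78410571754) (nat_lit 228) (nat_lit 797882024) (nat_lit 76) (nat_lit 50875951240) (nat_lit 49) (nat_lit 5) (nat_lit 52) (nat_lit 5) (nat_lit 50) (nat_lit 5) (nat_lit 370) (nat_lit 358) (nat_lit 292))) (XT.nd (nat_lit 78) (nat_lit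 152) (nat_lit 0) (XT.lf (nat_lit 0) (nat_lit 1872840344) (nat_lit 152) (nat_lit 130627257218) (nat_lit 76) (nat_lit 9562968303) (nat_lit 45) (nat_lit 5) (nat_lit 47) (nat_lit 5) (nat_lit 46) (nat_lit 5) (nat_lit 371) (nat_lit 358) (nat_lit 291)) (XT.lf (nat_lit 0) (nat_lit 25078859463) (nat_lit 152) (nat_lit 42126559822) (nat_lit 228) (nat_lit 87980647039) (nat_lit 43) (nat_lit 5) (nat_lit 45) (nat_lit 5) (nat_lit 46) (nat_lit 5) (nat_lit 372) (nat_lit 358) (nat_lit 290)))) (XT.nd (nat_lit 156) (nat_lit 304) (nat_lit 0) (XT.nd (nat_lit 78) (nat_lit 228) (nat_lit 0) (XT.lf (nat_lit 0) (nat_lit 42621012715) (nat_lit 76) (nat_lit 106127833752) (nat_lit 152) (nat_lit 21015793849) (nat_lit 42) (nat_lit 5) (nat_lit 43) (nat_lit 5) (nat_lit 44) (nat_lit 4) (nat_lit 373) (nat_lit 358) (nat_lit 289)) (XT.lf (nat_lit 0) (nat_lit 59857606948) (nat_lit 228) (nat_lit 122513626017) (nat_lit 76) (nat_lit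 3517847136) (nat_lit 39) (nat_lit 5) (nat_lit 42) (nat_lit 5) (nat_lit 40) (nat_lit 4) (nat_lit 374) (nat_lit 358) (nat_lit 288))) (XT.nd (nat_lit 78) (nat_lit 228) (nat_lit 0) (XT.lf (nat_lit 0) (nat_lit 86759706236) (nat_lit 76) (nat_lit 73710953120) (nat_lit 152) (nat_lit 43209616698) (nat_lit 38) (nat_lit 5) (nat_lit 39) (nat_lit 5) (nat_lit 40) (nat_lit 4) (nat_lit 375) (nat_lit 358) (nat_lit 287)) (XT.lf (nat_lit 0) (nat_lit 57298010597) (nat_lit 228) (nat_lit 109543142602) (nat_lit 76) (nat_lit 56569640399) (nat_lit 35) (nat_lit 5) (nat_lit 38) (nat_lit 5) (nat_lit 36) (nat_lit 4) (nat_lit 376) (nat_lit 358) (nat_lit 286))))) (XT.nd (nat_lit 312) (nat_lit 532) (nat_lit 0) (XT.nd (nat_lit 156) (nat_lit 228) (nat_lit 0) (XT.nd (nat_lit 78) (nat_lit 152) (nat_lit 0) (XT.lf (nat_lit 0) (nat_lit 144425346423) (nat_lit 76) (nat_lit 34973510806) (nat_lit 152) (nat_lit 65886200170) (nat_lit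 34) (nat_lit 5) (nat_lit 35) (nat_lit 5) (nat_lit 36) (nat_lit 4) (nat_lit 377) (nat_lit 358) (nat_lit 285)) (XT.lf (nat_lit 0) (nat_lit 57555566809) (nat_lit 152) (nat_lit 92067182775) (nat_lit 76) (nat_lit 119870626738) (nat_lit 32) (nat_lit 5) (nat_lit 34) (nat_lit 5) (nat_lit 33) (nat_lit 4) (nat_lit 378) (nat_lit 358) (nat_lit 284))) (XT.nd (nat_lit 78) (nat_lit 152) (nat_lit 0) (XT.lf (nat_lit 0) (nat_lit 205083682905) (nat_lit 152) (nat_lit 82366942762) (nat_lit 0) (nat_lit 8987708565) (nat_lit 31) (nat_lit 5) (nat_lit 33) (nat_lit 4) (nat_lit 31) (nat_lit 4) (nat_lit 379) (nat_lit 358) (nat_lit 283)) (XT.lf (nat_lit 0) (nat_lit 58255969330) (nat_lit 152) (nat_lit 74924275161) (nat_lit 76) (nat_lit 193089201348) (nat_lit 29) (nat_lit 5) (nat_lit 31) (nat_lit 5) (nat_lit 30) (nat_lit 4) (nat_lit 380) (nat_lit 358) (nat_lit 282)))) (XT.nd (nat_lit 156) (nat_lit 304) (nat_lit 0) (XT.nd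 (nat_lit 78) (nat_lit 152) (nat_lit 0) (XT.lf (nat_lit 0) (nat_lit 235903148099) (nat_lit 152) (nat_lit 69270353689) (nat_lit 0) (nat_lit 54331560255) (nat_lit 28) (nat_lit 5) (nat_lit 30) (nat_lit 4) (nat_lit 28) (nat_lit 4) (nat_lit 381) (nat_lit 358) (nat_lit 281)) (XT.lf (nat_lit 0) (nat_lit 54561337448) (nat_lit 152) (nat_lit 68084507964) (nat_lit 76) (nat_lit 273861296714) (nat_lit 26) (nat_lit 5) (nat_lit 28) (nat_lit 5) (nat_lit 27) (nat_lit 4) (nat_lit 382) (nat_lit 358) (nat_lit 280))) (XT.nd (nat_lit 78) (nat_lit 228) (nat_lit 0) (XT.lf (nat_lit 0) (nat_lit 265676067956) (nat_lit 152) (nat_lit 74489624530) (nat_lit 0) (nat_lit 97553358332) (nat_lit 25) (nat_lit 5) (nat_lit 27) (nat_lit 4) (nat_lit 25) (nat_lit 4) (nat_lit 383) (nat_lit 358) (nat_lit 279)) (XT.nd (nat_lit 78) (nat_lit 76) (nat_lit 0) (XT.lf (nat_lit 0) (nat_lit 37482378874) (nat_lit 152) (nat_lit 90159713041) (nat_lit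 76) (nat_lit 356201342323) (nat_lit 23) (nat_lit 5) (nat_lit 25) (nat_lit 5) (nat_lit 24) (nat_lit 4) (nat_lit 384) (nat_lit 358) (nat_lit 278)) (XT.lf (nat_lit 0) (nat_lit 284014202437) (nat_lit 152) (nat_lit 122909200679) (nat_lit 0) (nat_lit 128344418425) (nat_lit 22) (nat_lit 5) (nat_lit 24) (nat_lit 4) (nat_lit 22) (nat_lit 4) (nat_lit 385) (nat_lit 358) (nat_lit 277))))))))
noncomputable def xc83 : XT := (XT.nd (nat_lit 1326) (nat_lit 228) (nat_lit 0) (XT.nd (nat_lit 624) (nat_lit 456) (nat_lit 0) (XT.nd (nat_lit 312) (nat_lit 304) (nat_lit 0) (XT.nd (nat_lit 156) (nat_lit 228) (nat_lit 0) (XT.nd (nat_lit 78) (nat_lit 152) (nat_lit 0) (XT.lf (nat_lit 0) (nat_lit 418872026989) (nat_lit 76) (nat_lit 164950082638) (nat_lit 76) (nat_lit 9280052545) (nat_lit 21) (nat_lit 4) (nat_lit 22) (nat_lit 5) (nat_lit 22) (nat_lit 4) (nat_lit 386) (nat_lit 358) (nat_lit 276)) (XT.lf (nat_lit 0) (nat_lit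 272153122879) (nat_lit 152) (nat_lit 257597425003) (nat_lit 0) (nat_lit 128014007993) (nat_lit 19) (nat_lit 5) (nat_lit 21) (nat_lit 4) (nat_lit 19) (nat_lit 4) (nat_lit 387) (nat_lit 358) (nat_lit 275))) (XT.nd (nat_lit 78) (nat_lit 152) (nat_lit 0) (XT.lf (nat_lit 0) (nat_lit 352221735669) (nat_lit 76) (nat_lit 261282202616) (nat_lit 76) (nat_lit 117142915441) (nat_lit 18) (nat_lit 4) (nat_lit 19) (nat_lit 5) (nat_lit 19) (nat_lit 4) (nat_lit 388) (nat_lit 358) (nat_lit 274)) (XT.lf (nat_lit 0) (nat_lit 197671167457) (nat_lit 152) (nat_lit 550960197016) (nat_lit 0) (nat_lit 64208725797) (nat_lit 16) (nat_lit 5) (nat_lit 18) (nat_lit 4) (nat_lit 16) (nat_lit 4) (nat_lit 389) (nat_lit 358) (nat_lit 273)))) (XT.nd (nat_lit 156) (nat_lit 152) (nat_lit 0) (XT.nd (nat_lit 78) (nat_lit 76) (nat_lit 0) (XT.lf (nat_lit 0) (nat_lit 109383938745) (nat_lit 76) (nat_lit 464744472357) (nat_lit 76) (nat_lit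 331281910072) (nat_lit 15) (nat_lit 4) (nat_lit 16) (nat_lit 5) (nat_lit 16) (nat_lit 4) (nat_lit 390) (nat_lit 358) (nat_lit 272)) (XT.lf (nat_lit 0) (nat_lit 11885451462) (nat_lit 152) (nat_lit 108740928134) (nat_lit 76) (nat_lit 889932438020) (nat_lit 14) (nat_lit 5) (nat_lit 16) (nat_lit 5) (nat_lit 15) (nat_lit 4) (nat_lit 391) (nat_lit 358) (nat_lit 271))) (XT.nd (nat_lit 78) (nat_lit 76) (nat_lit 0) (XT.lf (nat_lit 0) (nat_lit 411790677504) (nat_lit 152) (nat_lit 428796215976) (nat_lit 0) (nat_lit 288214049368) (nat_lit 13) (nat_lit 5) (nat_lit 15) (nat_lit 4) (nat_lit 13) (nat_lit 4) (nat_lit 392) (nat_lit 358) (nat_lit 270)) (XT.lf (nat_lit 0) (nat_lit 388116745977) (nat_lit 76) (nat_lit 499482950861) (nat_lit 76) (nat_lit 375906249287) (nat_lit 12) (nat_lit 4) (nat_lit 13) (nat_lit 5) (nat_lit 13) (nat_lit 4) (nat_lit 393) (nat_lit 358) (nat_lit 269))))) (XT.nd (nat_lit 312) (nat_lit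 228) (nat_lit 0) (XT.nd (nat_lit 156) (nat_lit 76) (nat_lit 0) (XT.nd (nat_lit 78) (nat_lit 76) (nat_lit 0) (XT.lf (nat_lit 0) (nat_lit 28352498516) (nat_lit 152) (nat_lit 64603568518) (nat_lit 76) (nat_lit 1324404534409) (nat_lit 11) (nat_lit 5) (nat_lit 13) (nat_lit 5) (nat_lit 12) (nat_lit 4) (nat_lit 394) (nat_lit 358) (nat_lit 268)) (XT.lf (nat_lit 0) (nat_lit 503172767205) (nat_lit 152) (nat_lit 699015354855) (nat_lit 0) (nat_lit 388749784832) (nat_lit 10) (nat_lit 5) (nat_lit 12) (nat_lit 4) (nat_lit 10) (nat_lit 4) (nat_lit 395) (nat_lit 358) (nat_lit 267))) (XT.nd (nat_lit 78) (nat_lit 0) (nat_lit 0) (XT.lf (nat_lit 0) (nat_lit 213497839754) (nat_lit 76) (nat_lit 845353103082) (nat_lit 76) (nat_lit 730930075999) (nat_lit 9) (nat_lit 4) (nat_lit 10) (nat_lit 5) (nat_lit 10) (nat_lit 4) (nat_lit 396) (nat_lit 358) (nat_lit 266)) (XT.lf (nat_lit 0) (nat_lit 1305217485733) (nat_lit 76)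 (nat_lit 413014060832) (nat_lit 76) (nat_lit 298590994871) (nat_lit 9) (nat_lit 4) (nat_lit 10) (nat_lit 5) (nat_lit 10) (nat_lit 4) (nat_lit 397) (nat_lit 358) (nat_lit 265)))) (XT.nd (nat_lit 156) (nat_lit 76) (nat_lit 0) (XT.nd (nat_lit 78) (nat_lit 0) (nat_lit 0) (XT.lf (nat_lit 0) (nat_lit 198033091395) (nat_lit 152) (nat_lit 1986669810145) (nat_lit 0) (nat_lit 92085776795) (nat_lit 7) (nat_lit 5) (nat_lit 9) (nat_lit 4) (nat_lit 7) (nat_lit 4) (nat_lit 398) (nat_lit 358) (nat_lit 264)) (XT.lf (nat_lit 0) (nat_lit 784651916946) (nat_lit 152) (nat_lit 1109118311260) (nat_lit 0) (nat_lit 678704575125) (nat_lit 7) (nat_lit 5) (nat_lit 9) (nat_lit 4) (nat_lit 7) (nat_lit 4) (nat_lit 399) (nat_lit 358) (nat_lit 263))) (XT.nd (nat_lit 78) (nat_lit 76) (nat_lit 0) (XT.lf (nat_lit 0) (nat_lit 1459263291196) (nat_lit 152) (nat_lit 99934652190) (nat_lit 0) (nat_lit 1353315925706) (nat_lit 7) (nat_lit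 5) (nat_lit 9) (nat_lit 4) (nat_lit 7) (nat_lit 4) (nat_lit 400) (nat_lit 358) (nat_lit 262)) (XT.nd (nat_lit 78) (nat_lit 0) (nat_lit 0) (XT.lf (nat_lit 0) (nat_lit 1116476753722) (nat_lit 76) (nat_lit 1145440671393) (nat_lit 76) (nat_lit 1039493285321) (nat_lit 6) (nat_lit 4) (nat_lit 7) (nat_lit 5) (nat_lit 7) (nat_lit 4) (nat_lit 401) (nat_lit 358) (nat_lit 261)) (XT.lf (nat_lit 0) (nat_lit 2521401160021) (nat_lit 76) (nat_lit 666477790126) (nat_lit 76) (nat_lit 560530386156) (nat_lit 6) (nat_lit 4) (nat_lit 7) (nat_lit 5) (nat_lit 7) (nat_lit 4) (nat_lit 402) (nat_lit 358) (nat_lit 260))))))) (XT.nd (nat_lit 702) (nat_lit 0) (nat_lit 0) (XT.nd (nat_lit 312) (nat_lit 76) (nat_lit 0) (XT.nd (nat_lit 156) (nat_lit 0) (nat_lit 0) (XT.nd (nat_lit 78) (nat_lit 152) (nat_lit 0) (XT.lf (nat_lit 0) (nat_lit 4137063836451) (nat_lit 76) (nat_lit 115670677180) (nat_lit 76) (nat_lit 9723257647) (nat_lit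 6) (nat_lit 4) (nat_lit 7) (nat_lit 5) (nat_lit 7) (nat_lit 4) (nat_lit 403) (nat_lit 358) (nat_lit 259)) (XT.lf (nat_lit 0) (nat_lit 634604965397) (nat_lit 152) (nat_lit 3677934984471) (nat_lit 0) (nat_lit 536505490336) (nat_lit 4) (nat_lit 5) (nat_lit 6) (nat_lit 4) (nat_lit 4) (nat_lit 4) (nat_lit 404) (nat_lit 358) (nat_lit 258))) (XT.nd (nat_lit 78) (nat_lit 0) (nat_lit 0) (XT.lf (nat_lit 0) (nat_lit 1381967604477) (nat_lit 152) (nat_lit 2857208459667) (nat_lit 0) (nat_lit 1283868118520) (nat_lit 4) (nat_lit 5) (nat_lit 6) (nat_lit 4) (nat_lit 4) (nat_lit 4) (nat_lit 405) (nat_lit 358) (nat_lit 257)) (XT.lf (nat_lit 0) (nat_lit 2241434500935) (nat_lit 152) (nat_lit 1913373241137) (nat_lit 0) (nat_lit 2143335005503) (nat_lit 4) (nat_lit 5) (nat_lit 6) (nat_lit 4) (nat_lit 4) (nat_lit 4) (nat_lit 406) (nat_lit 358) (nat_lit 256)))) (XT.nd (nat_lit 156) (nat_lit 0) (nat_lit 0) (XT.nd (nat_lit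 78) (nat_lit 76) (nat_lit 0) (XT.lf (nat_lit 0) (nat_lit 3229821311440) (nat_lit 152) (nat_lit 827962987648) (nat_lit 0) (nat_lit 3131721807768) (nat_lit 4) (nat_lit 5) (nat_lit 6) (nat_lit 4) (nat_lit 4) (nat_lit 4) (nat_lit 407) (nat_lit 358) (nat_lit 255)) (XT.lf (nat_lit 0) (nat_lit 442388660869) (nat_lit 76) (nat_lit 3934716835870) (nat_lit 76) (nat_lit 3836617325034) (nat_lit 3) (nat_lit 4) (nat_lit 4) (nat_lit 5) (nat_lit 4) (nat_lit 4) (nat_lit 408) (nat_lit 358) (nat_lit 254))) (XT.nd (nat_lit 78) (nat_lit 0) (nat_lit 0) (XT.lf (nat_lit 0) (nat_lit 1953431782610) (nat_lit 76) (nat_lit 3767155682963) (nat_lit 76) (nat_lit 3669056165897) (nat_lit 3) (nat_lit 4) (nat_lit 4) (nat_lit 5) (nat_lit 4) (nat_lit 4) (nat_lit 409) (nat_lit 358) (nat_lit 253)) (XT.nd (nat_lit 78) (nat_lit 0) (nat_lit 0) (XT.lf (nat_lit 0) (nat_lit 3691131201086) (nat_lit 76) (nat_lit 3574460445342) (nat_lit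 76) (nat_lit 3476360922858) (nat_lit 3) (nat_lit 4) (nat_lit 4) (nat_lit 5) (nat_lit 4) (nat_lit 4) (nat_lit 410) (nat_lit 358) (nat_lit 252)) (XT.lf (nat_lit 0) (nat_lit 5689485383180) (nat_lit 76) (nat_lit 3352860998792) (nat_lit 76) (nat_lit 3254761471598) (nat_lit 3) (nat_lit 4) (nat_lit 4) (nat_lit 5) (nat_lit 4) (nat_lit 4) (nat_lit 411) (nat_lit 358) (nat_lit 251)))))) (XT.nd (nat_lit 312) (nat_lit 0) (nat_lit 0) (XT.nd (nat_lit 156) (nat_lit 0) (nat_lit 0) (XT.nd (nat_lit 78) (nat_lit 0) (nat_lit 0) (XT.lf (nat_lit 0) (nat_lit 7987592562889) (nat_lit 76) (nat_lit 3098021701970) (nat_lit 76) (nat_lit 2999922170679) (nat_lit 3) (nat_lit 4) (nat_lit 4) (nat_lit 5) (nat_lit 4) (nat_lit 4) (nat_lit 412) (nat_lit 358) (nat_lit 250)) (XT.lf (nat_lit 0) (nat_lit 10630415706773) (nat_lit 76) (nat_lit 2804956568631) (nat_lit 76) (nat_lit 2706857033779) (nat_lit 3) (nat_lit 4) (nat_lit 4) (nat_lit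 5) (nat_lit 4) (nat_lit 4) (nat_lit 413) (nat_lit 358) (nat_lit 249))) (XT.nd (nat_lit 78) (nat_lit 0) (nat_lit 0) (XT.lf (nat_lit 0) (nat_lit 13669662224169) (nat_lit 76) (nat_lit 2467931715733) (nat_lit 76) (nat_lit 2369832177783) (nat_lit 3) (nat_lit 4) (nat_lit 4) (nat_lit 5) (nat_lit 4) (nat_lit 4) (nat_lit 414) (nat_lit 358) (nat_lit 248)) (XT.lf (nat_lit 0) (nat_lit 17164795633895) (nat_lit 76) (nat_lit 2080353178762) (nat_lit 76) (nat_lit 1982253638119) (nat_lit 3) (nat_lit 4) (nat_lit 4) (nat_lit 5) (nat_lit 4) (nat_lit 4) (nat_lit 415) (nat_lit 358) (nat_lit 247)))) (XT.nd (nat_lit 48750) (nat_lit 0) (nat_lit 5244) (XT.nd (nat_lit 48672) (nat_lit 0) (nat_lit 5700) (XT.lf (nat_lit 0) (nat_lit 21184198980924) (nat_lit 76) (nat_lit 1634637899387) (nat_lit 76) (nat_lit 1536538356402) (nat_lit 3) (nat_lit 4) (nat_lit 4) (nat_lit 5) (nat_lit 4) (nat_lit 4) (nat_lit 416) (nat_lit 358)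 (nat_lit 246)) (XT.lf (nat_lit 0) (nat_lit 27431982940) (nat_lit 532) (nat_lit 740186106) (nat_lit 532) (nat_lit 740186106) (nat_lit 78) (nat_lit 3) (nat_lit 85) (nat_lit 3) (nat_lit 85) (nat_lit 5) (nat_lit 359) (nat_lit 359) (nat_lit 302))) (XT.nd (nat_lit 78) (nat_lit 456) (nat_lit 0) (XT.lf (nat_lit 76) (nat_lit 54822243497) (nat_lit 0) (nat_lit 5508190272) (nat_lit 532) (nat_lit 1722982833) (nat_lit 79) (nat_lit 5) (nat_lit 78) (nat_lit 3) (nat_lit 85) (nat_lit 5) (nat_lit 360) (nat_lit 359) (nat_lit 301)) (XT.nd (nat_lit 78) (nat_lit 0) (nat_lit 76) (XT.lf (nat_lit 0) (nat_lit 2398160691) (nat_lit 532) (nat_lit 12589363833) (nat_lit 608) (nat_lit 51714864255) (nat_lit 72) (nat_lit 5) (nat_lit 79) (nat_lit 5) (nat_lit 80) (nat_lit 5) (nat_lit 361) (nat_lit 359) (nat_lit 300)) (XT.lf (nat_lit 0) (nat_lit 9867364182) (nat_lit 532) (nat_lit 17397901072) (nat_lit 608) (nat_lit 44553310556)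 (nat_lit 73) (nat_lit 5) (nat_lit 80) (nat_lit 5) (nat_lit 81) (nat_lit 5) (nat_lit 362) (nat_lit 359) (nat_lit 299))))))))
noncomputable def xc84 : XT := (XT.nd (nat_lit 1326) (nat_lit 1672) (nat_lit 0) (XT.nd (nat_lit 624) (nat_lit 1444) (nat_lit 0) (XT.nd (nat_lit 312) (nat_lit 836) (nat_lit 0) (XT.nd (nat_lit 156) (nat_lit 456) (nat_lit 0) (XT.nd (nat_lit 78) (nat_lit 456) (nat_lit 0) (XT.lf (nat_lit 0) (nat_lit 21488479220) (nat_lit 532) (nat_lit 21409786649) (nat_lit 76) (nat_lit 34561404210) (nat_lit 74) (nat_lit 5) (nat_lit 81) (nat_lit 5) (nat_lit 75) (nat_lit 5) (nat_lit 363) (nat_lit 359) (nat_lit 298)) (XT.lf (nat_lit 0) (nat_lit 38099505111) (nat_lit 532) (nat_lit 24380482147) (nat_lit 76) (nat_lit 21207203187) (nat_lit 68) (nat_lit 5) (nat_lit 75) (nat_lit 5) (nat_lit 69) (nat_lit 5) (nat_lit 364) (nat_lit 359) (nat_lit 297))) (XT.nd (nat_lit 78) (nat_lit 228) (nat_lit 0) (XT.lf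 (nat_lit 0) (nat_lit 60677451383) (nat_lit 304) (nat_lit 26020713745) (nat_lit 76) (nat_lit 3872653677) (nat_lit 65) (nat_lit 5) (nat_lit 69) (nat_lit 5) (nat_lit 66) (nat_lit 5) (nat_lit 365) (nat_lit 359) (nat_lit 296)) (XT.lf (nat_lit 0) (nat_lit 71703020411) (nat_lit 228) (nat_lit 19116485172) (nat_lit 304) (nat_lit 7333293650) (nat_lit 62) (nat_lit 5) (nat_lit 65) (nat_lit 5) (nat_lit 66) (nat_lit 5) (nat_lit 366) (nat_lit 359) (nat_lit 295)))) (XT.nd (nat_lit 156) (nat_lit 380) (nat_lit 0) (XT.nd (nat_lit 78) (nat_lit 228) (nat_lit 0) (XT.lf (nat_lit 0) (nat_lit 21930981223) (nat_lit 228) (nat_lit 25602425918) (nat_lit 76) (nat_lit 58962769092) (nat_lit 59) (nat_lit 5) (nat_lit 62) (nat_lit 5) (nat_lit 60) (nat_lit 5) (nat_lit 367) (nat_lit 359) (nat_lit 294)) (XT.lf (nat_lit 0) (nat_lit 59580663158) (nat_lit 304) (nat_lit 22782748345) (nat_lit 76) (nat_lit 33358012741) (nat_lit 56)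 (nat_lit 5) (nat_lit 60) (nat_lit 5) (nat_lit 57) (nat_lit 5) (nat_lit 368) (nat_lit 359) (nat_lit 293))) (XT.nd (nat_lit 78) (nat_lit 228) (nat_lit 0) (XT.lf (nat_lit 0) (nat_lit 107593174919) (nat_lit 228) (nat_lit 17343494964) (nat_lit 76) (nat_lit 1016560037) (nat_lit 54) (nat_lit 5) (nat_lit 57) (nat_lit 5) (nat_lit 55) (nat_lit 5) (nat_lit 369) (nat_lit 359) (nat_lit 292)) (XT.lf (nat_lit 0) (nat_lit 30011888255) (nat_lit 228) (nat_lit 10494055658) (nat_lit 76) (nat_lit 96671264380) (nat_lit 51) (nat_lit 5) (nat_lit 54) (nat_lit 5) (nat_lit 52) (nat_lit 5) (nat_lit 370) (nat_lit 359) (nat_lit 291))))) (XT.nd (nat_lit 312) (nat_lit 760) (nat_lit 0) (XT.nd (nat_lit 156) (nat_lit 228) (nat_lit 0) (XT.nd (nat_lit 78) (nat_lit 304) (nat_lit 0) (XT.lf (nat_lit 0) (nat_lit 90195936581) (nat_lit 228) (nat_lit 880195884) (nat_lit 76) (nat_lit 58519025961) (nat_lit 49) (nat_lit 5) (nat_lit 52)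 (nat_lit 5) (nat_lit 50) (nat_lit 5) (nat_lit 371) (nat_lit 359) (nat_lit 290)) (XT.lf (nat_lit 0) (nat_lit 2177067876) (nat_lit 152) (nat_lit 150182614638) (nat_lit 76) (nat_lit 11010975071) (nat_lit 45) (nat_lit 5) (nat_lit 47) (nat_lit 5) (nat_lit 46) (nat_lit 5) (nat_lit 372) (nat_lit 359) (nat_lit 289))) (XT.nd (nat_lit 78) (nat_lit 76) (nat_lit 0) (XT.lf (nat_lit 0) (nat_lit 28876141145) (nat_lit 152) (nat_lit 48431205830) (nat_lit 228) (nat_lit 101154936600) (nat_lit 43) (nat_lit 5) (nat_lit 45) (nat_lit 5) (nat_lit 46) (nat_lit 5) (nat_lit 373) (nat_lit 359) (nat_lit 288)) (XT.lf (nat_lit 0) (nat_lit 49047850264) (nat_lit 76) (nat_lit 122032793857) (nat_lit 152) (nat_lit 24147131531) (nat_lit 42) (nat_lit 5) (nat_lit 43) (nat_lit 5) (nat_lit 44) (nat_lit 4) (nat_lit 374) (nat_lit 359) (nat_lit 287)))) (XT.nd (nat_lit 156) (nat_lit 456) (nat_lit 0) (XT.nd (nat_lit 78) (nat_lit 76)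 (nat_lit 0) (XT.lf (nat_lit 0) (nat_lit 68854714668) (nat_lit 228) (nat_lit 140857745045) (nat_lit 76) (nat_lit 4058502609) (nat_lit 39) (nat_lit 5) (nat_lit 42) (nat_lit 5) (nat_lit 40) (nat_lit 4) (nat_lit 375) (nat_lit 359) (nat_lit 286)) (XT.lf (nat_lit 0) (nat_lit 99803800120) (nat_lit 76) (nat_lit 84754240940) (nat_lit 152) (nat_lit 49672931641) (nat_lit 38) (nat_lit 5) (nat_lit 39) (nat_lit 5) (nat_lit 40) (nat_lit 4) (nat_lit 376) (nat_lit 359) (nat_lit 285))) (XT.nd (nat_lit 78) (nat_lit 228) (nat_lit 0) (XT.lf (nat_lit 0) (nat_lit 65908677119) (nat_lit 228) (nat_lit 125945247733) (nat_lit 76) (nat_lit 65067208868) (nat_lit 35) (nat_lit 5) (nat_lit 38) (nat_lit 5) (nat_lit 36) (nat_lit 4) (nat_lit 377) (nat_lit 359) (nat_lit 284)) (XT.nd (nat_lit 78) (nat_lit 152) (nat_lit 0) (XT.lf (nat_lit 0) (nat_lit 166116028938) (nat_lit 76) (nat_lit 40207185903) (nat_lit 152) (nat_lit 75753437347)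 (nat_lit 34) (nat_lit 5) (nat_lit 35) (nat_lit 5) (nat_lit 36) (nat_lit 4) (nat_lit 378) (nat_lit 359) (nat_lit 283)) (XT.lf (nat_lit 0) (nat_lit 66202756880) (nat_lit 152) (nat_lit 105851130758) (nat_lit 76) (nat_lit 137862385522) (nat_lit 32) (nat_lit 5) (nat_lit 34) (nat_lit 5) (nat_lit 33) (nat_lit 4) (nat_lit 379) (nat_lit 359) (nat_lit 282))))))) (XT.nd (nat_lit 624) (nat_lit 836) (nat_lit 0) (XT.nd (nat_lit 312) (nat_lit 380) (nat_lit 0) (XT.nd (nat_lit 156) (nat_lit 228) (nat_lit 0) (XT.nd (nat_lit 78) (nat_lit 152) (nat_lit 0) (XT.lf (nat_lit 0) (nat_lit 235859130068) (nat_lit 152) (nat_lit 94697327209) (nat_lit 0) (nat_lit 10346594464) (nat_lit 31) (nat_lit 5) (nat_lit 33) (nat_lit 4) (nat_lit 31) (nat_lit 4) (nat_lit 380) (nat_lit 359) (nat_lit 281)) (XT.lf (nat_lit 0) (nat_lit 67006426548) (nat_lit 152) (nat_lit 86139710559) (nat_lit 76) (nat_lit 222062759818) (nat_lit 29) (nat_lit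 5) (nat_lit 31) (nat_lit 5) (nat_lit 30) (nat_lit 4) (nat_lit 381) (nat_lit 359) (nat_lit 280))) (XT.nd (nat_lit 78) (nat_lit 152) (nat_lit 0) (XT.lf (nat_lit 0) (nat_lit 271299866039) (nat_lit 152) (nat_lit 79639030768) (nat_lit 0) (nat_lit 62491024151) (nat_lit 28) (nat_lit 5) (nat_lit 30) (nat_lit 4) (nat_lit 28) (nat_lit 4) (nat_lit 382) (nat_lit 359) (nat_lit 279)) (XT.lf (nat_lit 0) (nat_lit 62756065654) (nat_lit 152) (nat_lit 78276604921) (nat_lit 76) (nat_lit 314949700072) (nat_lit 26) (nat_lit 5) (nat_lit 28) (nat_lit 5) (nat_lit 27) (nat_lit 4) (nat_lit 383) (nat_lit 359) (nat_lit 278)))) (XT.nd (nat_lit 156) (nat_lit 152) (nat_lit 0) (XT.nd (nat_lit 78) (nat_lit 152) (nat_lit 0) (XT.lf (nat_lit 0) (nat_lit 305537307590) (nat_lit 152) (nat_lit 85643683768) (nat_lit 0) (nat_lit 112195130214) (nat_lit 25) (nat_lit 5) (nat_lit 27) (nat_lit 4) (nat_lit 25) (nat_lit 4) (nat_lit 384)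 (nat_lit 359) (nat_lit 277)) (XT.lf (nat_lit 0) (nat_lit 43113943297) (nat_lit 152) (nat_lit 103665441083) (nat_lit 76) (nat_lit 409639827972) (nat_lit 23) (nat_lit 5) (nat_lit 25) (nat_lit 5) (nat_lit 24) (nat_lit 4) (nat_lit 385) (nat_lit 359) (nat_lit 276))) (XT.nd (nat_lit 78) (nat_lit 76) (nat_lit 0) (XT.lf (nat_lit 0) (nat_lit 326624939789) (nat_lit 152) (nat_lit 141328420949) (nat_lit 0) (nat_lit 147603945117) (nat_lit 22) (nat_lit 5) (nat_lit 24) (nat_lit 4) (nat_lit 22) (nat_lit 4) (nat_lit 386) (nat_lit 359) (nat_lit 275)) (XT.lf (nat_lit 0) (nat_lit 481718538375) (nat_lit 76) (nat_lit 189684749793) (nat_lit 76) (nat_lit 10663569049) (nat_lit 21) (nat_lit 4) (nat_lit 22) (nat_lit 5) (nat_lit 22) (nat_lit 4) (nat_lit 387) (nat_lit 359) (nat_lit 274))))) (XT.nd (nat_lit 312) (nat_lit 380) (nat_lit 0) (XT.nd (nat_lit 156) (nat_lit 228) (nat_lit 0) (XT.nd (nat_lit 78) (nat_lit 76) (nat_lit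 0) (XT.lf (nat_lit 0) (nat_lit 312983638798) (nat_lit 152) (nat_lit 296221859967) (nat_lit 0) (nat_lit 147223136440) (nat_lit 19) (nat_lit 5) (nat_lit 21) (nat_lit 4) (nat_lit 19) (nat_lit 4) (nat_lit 388) (nat_lit 359) (nat_lit 273)) (XT.lf (nat_lit 0) (nat_lit 405068889998) (nat_lit 76) (nat_lit 300467536214) (nat_lit 76) (nat_lit 134706903580) (nat_lit 18) (nat_lit 4) (nat_lit 19) (nat_lit 5) (nat_lit 19) (nat_lit 4) (nat_lit 389) (nat_lit 359) (nat_lit 272))) (XT.nd (nat_lit 78) (nat_lit 76) (nat_lit 0) (XT.lf (nat_lit 0) (nat_lit 227328468690) (nat_lit 152) (nat_lit 633590808310) (nat_lit 0) (nat_lit 73846296545) (nat_lit 16) (nat_lit 5) (nat_lit 18) (nat_lit 4) (nat_lit 16) (nat_lit 4) (nat_lit 390) (nat_lit 359) (nat_lit 271)) (XT.lf (nat_lit 0) (nat_lit 125803812026) (nat_lit 76) (nat_lit 534449917973) (nat_lit 76) (nat_lit 380967654618) (nat_lit 15) (nat_lit 4) (nat_lit 16) (nat_lit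 5) (nat_lit 16) (nat_lit 4) (nat_lit 391) (nat_lit 359) (nat_lit 270)))) (XT.nd (nat_lit 156) (nat_lit 228) (nat_lit 0) (XT.nd (nat_lit 78) (nat_lit 76) (nat_lit 0) (XT.lf (nat_lit 0) (nat_lit 13673673276) (nat_lit 152) (nat_lit 125041102252) (nat_lit 76) (nat_lit 1023427432280) (nat_lit 14) (nat_lit 5) (nat_lit 16) (nat_lit 5) (nat_lit 15) (nat_lit 4) (nat_lit 392) (nat_lit 359) (nat_lit 269)) (XT.lf (nat_lit 0) (nat_lit 473564342300) (nat_lit 152) (nat_lit 493105338624) (nat_lit 0) (nat_lit 331450998192) (nat_lit 13) (nat_lit 5) (nat_lit 15) (nat_lit 4) (nat_lit 13) (nat_lit 4) (nat_lit 393) (nat_lit 359) (nat_lit 268))) (XT.nd (nat_lit 78) (nat_lit 152) (nat_lit 0) (XT.lf (nat_lit 0) (nat_lit 446343694954) (nat_lit 76) (nat_lit 574400586129) (nat_lit 76) (nat_lit 432287186491) (nat_lit 12) (nat_lit 4) (nat_lit 13) (nat_lit 5) (nat_lit 13) (nat_lit 4) (nat_lit 394) (nat_lit 359) (nat_lit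 267)) (XT.nd (nat_lit 78) (nat_lit 76) (nat_lit 0) (XT.lf (nat_lit 0) (nat_lit 32609503780) (nat_lit 152) (nat_lit 74285680060) (nat_lit 76) (nat_lit 1523069177306) (nat_lit 11) (nat_lit 5) (nat_lit 13) (nat_lit 5) (nat_lit 12) (nat_lit 4) (nat_lit 395) (nat_lit 359) (nat_lit 266)) (XT.lf (nat_lit 0) (nat_lit 578652554058) (nat_lit 152) (nat_lit 803859739738) (nat_lit 0) (nat_lit 447065989324) (nat_lit 10) (nat_lit 5) (nat_lit 12) (nat_lit 4) (nat_lit 10) (nat_lit 4) (nat_lit 396) (nat_lit 359) (nat_lit 265))))))))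
noncomputable def xc85 : XT := (XT.nd (nat_lit 1326) (nat_lit 0) (nat_lit 0) (XT.nd (nat_lit 624) (nat_lit 228) (nat_lit 0) (XT.nd (nat_lit 312) (nat_lit 76) (nat_lit 0) (XT.nd (nat_lit 156) (nat_lit 152) (nat_lit 0) (XT.nd (nat_lit 78) (nat_lit 0) (nat_lit 0) (XT.lf (nat_lit 0) (nat_lit 245529763814) (nat_lit 76) (nat_lit 972152361522) (nat_lit 76) (nat_lit 840565762981) (nat_lit 9) (nat_lit 4) (nat_lit 10) (nat_lit 5) (nat_lit 10) (nat_lit 4) (nat_lit 397) (nat_lit 359) (nat_lit 264)) (XT.lf (nat_lit 0) (nat_lit 1501006411286) (nat_lit 76) (nat_lit 474962946459) (nat_lit 76) (nat_lit 343376318520) (nat_lit 9) (nat_lit 4) (nat_lit 10) (nat_lit 5) (nat_lit 10) (nat_lit 4) (nat_lit 398) (nat_lit 359) (nat_lit 263))) (XT.nd (nat_lit 78) (nat_lit 0) (nat_lit 0) (XT.lf (nat_lit 0) (nat_lit 227741017586) (nat_lit 152) (nat_lit 2284664201859) (nat_lit 0) (nat_lit 105901523602) (nat_lit 7) (nat_lit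 5) (nat_lit 9) (nat_lit 4) (nat_lit 7) (nat_lit 4) (nat_lit 399) (nat_lit 359) (nat_lit 262)) (XT.lf (nat_lit 0) (nat_lit 902352280558) (nat_lit 152) (nat_lit 1275480771160) (nat_lit 0) (nat_lit 780512765993) (nat_lit 7) (nat_lit 5) (nat_lit 9) (nat_lit 4) (nat_lit 7) (nat_lit 4) (nat_lit 400) (nat_lit 359) (nat_lit 261)))) (XT.nd (nat_lit 156) (nat_lit 0) (nat_lit 0) (XT.nd (nat_lit 78) (nat_lit 76) (nat_lit 0) (XT.lf (nat_lit 0) (nat_lit 1678155024937) (nat_lit 152) (nat_lit 114920252810) (nat_lit 0) (nat_lit 1556315492474) (nat_lit 7) (nat_lit 5) (nat_lit 9) (nat_lit 4) (nat_lit 7) (nat_lit 4) (nat_lit 401) (nat_lit 359) (nat_lit 260)) (XT.lf (nat_lit 0) (nat_lit 1283952474857) (nat_lit 76) (nat_lit 1317254613109) (nat_lit 76) (nat_lit 1195415065083) (nat_lit 6) (nat_lit 4) (nat_lit 7) (nat_lit 5) (nat_lit 7) (nat_lit 4) (nat_lit 402) (nat_lit 359) (nat_lit 259))) (XT.nd (nat_lit 78) (nat_lit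 0) (nat_lit 0) (XT.lf (nat_lit 0) (nat_lit 2899614993222) (nat_lit 76) (nat_lit 766447581259) (nat_lit 76) (nat_lit 644608019700) (nat_lit 6) (nat_lit 4) (nat_lit 7) (nat_lit 5) (nat_lit 7) (nat_lit 4) (nat_lit 403) (nat_lit 359) (nat_lit 258)) (XT.lf (nat_lit 0) (nat_lit 4757626593829) (nat_lit 76) (nat_lit 133019646248) (nat_lit 76) (nat_lit 11180072921) (nat_lit 6) (nat_lit 4) (nat_lit 7) (nat_lit 5) (nat_lit 7) (nat_lit 4) (nat_lit 404) (nat_lit 359) (nat_lit 257))))) (XT.nd (nat_lit 312) (nat_lit 76) (nat_lit 0) (XT.nd (nat_lit 156) (nat_lit 0) (nat_lit 0) (XT.nd (nat_lit 78) (nat_lit 0) (nat_lit 0) (XT.lf (nat_lit 0) (nat_lit 729797201332) (nat_lit 152) (nat_lit 4229622163488) (nat_lit 0) (nat_lit 616982772109) (nat_lit 4) (nat_lit 5) (nat_lit 6) (nat_lit 4) (nat_lit 4) (nat_lit 4) (nat_lit 405) (nat_lit 359) (nat_lit 256)) (XT.lf (nat_lit 0) (nat_lit 1589264041779) (nat_lit 152) (nat_lit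 3285787060223) (nat_lit 0) (nat_lit 1476449604318) (nat_lit 4) (nat_lit 5) (nat_lit 6) (nat_lit 4) (nat_lit 4) (nat_lit 4) (nat_lit 406) (nat_lit 359) (nat_lit 255))) (XT.nd (nat_lit 78) (nat_lit 0) (nat_lit 0) (XT.lf (nat_lit 0) (nat_lit 2577650803580) (nat_lit 152) (nat_lit 2200376906964) (nat_lit 0) (nat_lit 2464836358954) (nat_lit 4) (nat_lit 5) (nat_lit 6) (nat_lit 4) (nat_lit 4) (nat_lit 4) (nat_lit 407) (nat_lit 359) (nat_lit 254)) (XT.lf (nat_lit 0) (nat_lit 3714295488595) (nat_lit 152) (nat_lit 952155418105) (nat_lit 0) (nat_lit 3601481037739) (nat_lit 4) (nat_lit 5) (nat_lit 6) (nat_lit 4) (nat_lit 4) (nat_lit 4) (nat_lit 408) (nat_lit 359) (nat_lit 253)))) (XT.nd (nat_lit 156) (nat_lit 0) (nat_lit 0) (XT.nd (nat_lit 78) (nat_lit 0) (nat_lit 0) (XT.lf (nat_lit 0) (nat_lit 508748806902) (nat_lit 76) (nat_lit 4524923411322) (nat_lit 76) (nat_lit 4412108955049) (nat_lit 3) (nat_lit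 4) (nat_lit 4) (nat_lit 5) (nat_lit 4) (nat_lit 4) (nat_lit 409) (nat_lit 359) (nat_lit 252)) (XT.lf (nat_lit 0) (nat_lit 2246448156004) (nat_lit 76) (nat_lit 4332228209382) (nat_lit 76) (nat_lit 4219413748398) (nat_lit 3) (nat_lit 4) (nat_lit 4) (nat_lit 5) (nat_lit 4) (nat_lit 4) (nat_lit 410) (nat_lit 359) (nat_lit 251))) (XT.nd (nat_lit 78) (nat_lit 0) (nat_lit 0) (XT.lf (nat_lit 0) (nat_lit 4244802277773) (nat_lit 76) (nat_lit 4110628793860) (nat_lit 76) (nat_lit 3997814328780) (nat_lit 3) (nat_lit 4) (nat_lit 4) (nat_lit 5) (nat_lit 4) (nat_lit 4) (nat_lit 411) (nat_lit 359) (nat_lit 250)) (XT.nd (nat_lit 78) (nat_lit 0) (nat_lit 0) (XT.lf (nat_lit 0) (nat_lit 6542909405025) (nat_lit 76) (nat_lit 3855789524018) (nat_lit 76) (nat_lit 3742975055376) (nat_lit 3) (nat_lit 4) (nat_lit 4) (nat_lit 5) (nat_lit 4) (nat_lit 4) (nat_lit 412) (nat_lit 359) (nat_lit 249)) (XT.lf (nat_lit 0) (nat_lit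 9185732503295) (nat_lit 76) (nat_lit 3562724414140) (nat_lit 76) (nat_lit 3449909942401) (nat_lit 3) (nat_lit 4) (nat_lit 4) (nat_lit 5) (nat_lit 4) (nat_lit 4) (nat_lit 413) (nat_lit 359) (nat_lit 248))))))) (XT.nd (nat_lit 49296) (nat_lit 0) (nat_lit 3192) (XT.nd (nat_lit 48984) (nat_lit 0) (nat_lit 5244) (XT.nd (nat_lit 156) (nat_lit 0) (nat_lit 0) (XT.nd (nat_lit 78) (nat_lit 0) (nat_lit 0) (XT.lf (nat_lit 0) (nat_lit 12224978981026) (nat_lit 76) (nat_lit 3225699581643) (nat_lit 76) (nat_lit 3112885107210) (nat_lit 3) (nat_lit 4) (nat_lit 4) (nat_lit 5) (nat_lit 4) (nat_lit 4) (nat_lit 414) (nat_lit 359) (nat_lit 247)) (XT.lf (nat_lit 0) (nat_lit 15720112356261) (nat_lit 76) (nat_lit 2838121062412) (nat_lit 76) (nat_lit 2725306585637) (nat_lit 3) (nat_lit 4) (nat_lit 4) (nat_lit 5) (nat_lit 4) (nat_lit 4) (nat_lit 415) (nat_lit 359) (nat_lit 246))) (XT.nd (nat_lit 48750) (nat_lit 0) (nat_lit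 5700) (XT.lf (nat_lit 0) (nat_lit 19739515673298) (nat_lit 76) (nat_lit 2392405798463) (nat_lit 76) (nat_lit 2279591319652) (nat_lit 3) (nat_lit 4) (nat_lit 4) (nat_lit 5) (nat_lit 4) (nat_lit 4) (nat_lit 416) (nat_lit 359) (nat_lit 245)) (XT.lf (nat_lit 0) (nat_lit 31578600055) (nat_lit 532) (nat_lit 834025004) (nat_lit 532) (nat_lit 834025004) (nat_lit 78) (nat_lit 3) (nat_lit 85) (nat_lit 3) (nat_lit 85) (nat_lit 5) (nat_lit 360) (nat_lit 360) (nat_lit 300)))) (XT.nd (nat_lit 156) (nat_lit 0) (nat_lit 76) (XT.nd (nat_lit 78) (nat_lit 456) (nat_lit 0) (XT.lf (nat_lit 76) (nat_lit 63077048129) (nat_lit 0) (nat_lit 6359046077) (nat_lit 532) (nat_lit 1920825015) (nat_lit 79) (nat_lit 5) (nat_lit 78) (nat_lit 3) (nat_lit 85) (nat_lit 5) (nat_lit 361) (nat_lit 360) (nat_lit 299)) (XT.lf (nat_lit 0) (nat_lit 2808246299) (nat_lit 532) (nat_lit 14441623777) (nat_lit 608) (nat_lit 59453830191) (nat_lit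 72) (nat_lit 5) (nat_lit 79) (nat_lit 5) (nat_lit 80) (nat_lit 5) (nat_lit 362) (nat_lit 360) (nat_lit 298))) (XT.nd (nat_lit 78) (nat_lit 0) (nat_lit 76) (XT.lf (nat_lit 0) (nat_lit 11391780470) (nat_lit 532) (nat_lit 19970641777) (nat_lit 608) (nat_lit 51225379429) (nat_lit 73) (nat_lit 5) (nat_lit 80) (nat_lit 5) (nat_lit 81) (nat_lit 5) (nat_lit 363) (nat_lit 360) (nat_lit 297)) (XT.lf (nat_lit 0) (nat_lit 24750963343) (nat_lit 532) (nat_lit 24584143252) (nat_lit 76) (nat_lit 39740363475) (nat_lit 74) (nat_lit 5) (nat_lit 81) (nat_lit 5) (nat_lit 75) (nat_lit 5) (nat_lit 364) (nat_lit 360) (nat_lit 296))))) (XT.nd (nat_lit 312) (nat_lit 1064) (nat_lit 0) (XT.nd (nat_lit 156) (nat_lit 456) (nat_lit 0) (XT.nd (nat_lit 78) (nat_lit 228) (nat_lit 0) (XT.lf (nat_lit 0) (nat_lit 43849322745) (nat_lit 532) (nat_lit 28000756714) (nat_lit 76) (nat_lit 24387386430) (nat_lit 68) (nat_lit 5) (nat_lit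 75) (nat_lit 5) (nat_lit 69) (nat_lit 5) (nat_lit 365) (nat_lit 360) (nat_lit 295)) (XT.lf (nat_lit 0) (nat_lit 69810280820) (nat_lit 304) (nat_lit 29887696392) (nat_lit 76) (nat_lit 4455957237) (nat_lit 65) (nat_lit 5) (nat_lit 69) (nat_lit 5) (nat_lit 66) (nat_lit 5) (nat_lit 366) (nat_lit 360) (nat_lit 294))) (XT.nd (nat_lit 78) (nat_lit 228) (nat_lit 0) (XT.lf (nat_lit 0) (nat_lit 82491540137) (nat_lit 228) (nat_lit 21978827173) (nat_lit 304) (nat_lit 8403108034) (nat_lit 62) (nat_lit 5) (nat_lit 65) (nat_lit 5) (nat_lit 66) (nat_lit 5) (nat_lit 367) (nat_lit 360) (nat_lit 293)) (XT.lf (nat_lit 0) (nat_lit 25246463628) (nat_lit 228) (nat_lit 29409213565) (nat_lit 76) (nat_lit 67812851489) (nat_lit 59) (nat_lit 5) (nat_lit 62) (nat_lit 5) (nat_lit 60) (nat_lit 5) (nat_lit 368) (nat_lit 360) (nat_lit 292)))) (XT.nd (nat_lit 156) (nat_lit 684) (nat_lit 0) (XT.nd (nat_lit 78) (nat_lit 152)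 (nat_lit 0) (XT.lf (nat_lit 0) (nat_lit 68541148286) (nat_lit 304) (nat_lit 26167744906) (nat_lit 76) (nat_lit 38368867602) (nat_lit 56) (nat_lit 5) (nat_lit 60) (nat_lit 5) (nat_lit 57) (nat_lit 5) (nat_lit 369) (nat_lit 360) (nat_lit 291)) (XT.lf (nat_lit 0) (nat_lit 123753407499) (nat_lit 228) (nat_lit 19913865388) (nat_lit 76) (nat_lit 1177235594) (nat_lit 54) (nat_lit 5) (nat_lit 57) (nat_lit 5) (nat_lit 55) (nat_lit 5) (nat_lit 370) (nat_lit 360) (nat_lit 290))) (XT.nd (nat_lit 78) (nat_lit 456) (nat_lit 0) (XT.lf (nat_lit 0) (nat_lit 34533343488) (nat_lit 228) (nat_lit 12038606945) (nat_lit 76) (nat_lit 111180260979) (nat_lit 51) (nat_lit 5) (nat_lit 54) (nat_lit 5) (nat_lit 52) (nat_lit 5) (nat_lit 371) (nat_lit 360) (nat_lit 289)) (XT.nd (nat_lit 78) (nat_lit 304) (nat_lit 0) (XT.lf (nat_lit 0) (nat_lit 103743307456) (nat_lit 228) (nat_lit 983969355) (nat_lit 76) (nat_lit 67305713152)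 (nat_lit 49) (nat_lit 5) (nat_lit 52) (nat_lit 5) (nat_lit 50) (nat_lit 5) (nat_lit 372) (nat_lit 360) (nat_lit 288)) (XT.lf (nat_lit 0) (nat_lit 2521247325) (nat_lit 152) (nat_lit 172680720511) (nat_lit 76) (nat_lit 12672875791) (nat_lit 45) (nat_lit 5) (nat_lit 47) (nat_lit 5) (nat_lit 46) (nat_lit 5) (nat_lit 373) (nat_lit 360) (nat_lit 287))))))))
noncomputable def xc86 : XT := (XT.nd (nat_lit 1326) (nat_lit 1064) (nat_lit 0) (XT.nd (nat_lit 624) (nat_lit 988) (nat_lit 0) (XT.nd (nat_lit 312) (nat_lit 532) (nat_lit 0) (XT.nd (nat_lit 156) (nat_lit 304) (nat_lit 0) (XT.nd (nat_lit 78) (nat_lit 76) (nat_lit 0) (XT.lf (nat_lit 0) (nat_lit 33234369698) (nat_lit 152) (nat_lit 55685045143) (nat_lit 228) (nat_lit 116310931348) (nat_lit 43) (nat_lit 5) (nat_lit 45) (nat_lit 5) (nat_lit 46) (nat_lit 5) (nat_lit 374) (nat_lit 360) (nat_lit 286)) (XT.lf (nat_lit 0) (nat_lit 56430498988) (nat_lit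 76) (nat_lit 140326964386) (nat_lit 152) (nat_lit 27753298505) (nat_lit 42) (nat_lit 5) (nat_lit 43) (nat_lit 5) (nat_lit 44) (nat_lit 4) (nat_lit 375) (nat_lit 360) (nat_lit 285))) (XT.nd (nat_lit 78) (nat_lit 76) (nat_lit 0) (XT.lf (nat_lit 0) (nat_lit 79196885329) (nat_lit 228) (nat_lit 161961510867) (nat_lit 76) (nat_lit 4677091537) (nat_lit 39) (nat_lit 5) (nat_lit 42) (nat_lit 5) (nat_lit 40) (nat_lit 4) (nat_lit 376) (nat_lit 360) (nat_lit 284)) (XT.lf (nat_lit 0) (nat_lit 114797158756) (nat_lit 76) (nat_lit 97457278669) (nat_lit 152) (nat_lit 57110164346) (nat_lit 38) (nat_lit 5) (nat_lit 39) (nat_lit 5) (nat_lit 40) (nat_lit 4) (nat_lit 377) (nat_lit 360) (nat_lit 283)))) (XT.nd (nat_lit 156) (nat_lit 228) (nat_lit 0) (XT.nd (nat_lit 78) (nat_lit 76) (nat_lit 0) (XT.lf (nat_lit 0) (nat_lit 75807050469) (nat_lit 228) (nat_lit 144814829781) (nat_lit 76) (nat_lit 74836456482) (nat_lit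 35) (nat_lit 5) (nat_lit 38) (nat_lit 5) (nat_lit 36) (nat_lit 4) (nat_lit 378) (nat_lit 360) (nat_lit 282)) (XT.lf (nat_lit 0) (nat_lit 191053758838) (nat_lit 76) (nat_lit 46228924262) (nat_lit 152) (nat_lit 87104586902) (nat_lit 34) (nat_lit 5) (nat_lit 35) (nat_lit 5) (nat_lit 36) (nat_lit 4) (nat_lit 379) (nat_lit 360) (nat_lit 281))) (XT.nd (nat_lit 78) (nat_lit 76) (nat_lit 0) (XT.lf (nat_lit 0) (nat_lit 76143646821) (nat_lit 152) (nat_lit 121709042765) (nat_lit 76) (nat_lit 158550185523) (nat_lit 32) (nat_lit 5) (nat_lit 34) (nat_lit 5) (nat_lit 33) (nat_lit 4) (nat_lit 380) (nat_lit 360) (nat_lit 280)) (XT.lf (nat_lit 0) (nat_lit 271247749845) (nat_lit 152) (nat_lit 108883282081) (nat_lit 0) (nat_lit 11906696763) (nat_lit 31) (nat_lit 5) (nat_lit 33) (nat_lit 4) (nat_lit 31) (nat_lit 4) (nat_lit 381) (nat_lit 360) (nat_lit 279))))) (XT.nd (nat_lit 312) (nat_lit 532) (nat_lit 0) (XT.nd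 (nat_lit 156) (nat_lit 228) (nat_lit 0) (XT.nd (nat_lit 78) (nat_lit 76) (nat_lit 0) (XT.lf (nat_lit 0) (nat_lit 77066510999) (nat_lit 152) (nat_lit 99043120166) (nat_lit 76) (nat_lit 255379870023) (nat_lit 29) (nat_lit 5) (nat_lit 31) (nat_lit 5) (nat_lit 30) (nat_lit 4) (nat_lit 382) (nat_lit 360) (nat_lit 278)) (XT.lf (nat_lit 0) (nat_lit 312003349329) (nat_lit 152) (nat_lit 91568344003) (nat_lit 0) (nat_lit 71872034945) (nat_lit 28) (nat_lit 5) (nat_lit 30) (nat_lit 4) (nat_lit 28) (nat_lit 4) (nat_lit 383) (nat_lit 360) (nat_lit 277))) (XT.nd (nat_lit 78) (nat_lit 76) (nat_lit 0) (XT.lf (nat_lit 0) (nat_lit 72177435871) (nat_lit 152) (nat_lit 90002534799) (nat_lit 76) (nat_lit 362199118298) (nat_lit 26) (nat_lit 5) (nat_lit 28) (nat_lit 5) (nat_lit 27) (nat_lit 4) (nat_lit 384) (nat_lit 360) (nat_lit 276)) (XT.lf (nat_lit 0) (nat_lit 351375336198) (nat_lit 152) (nat_lit 98475578911)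 (nat_lit 0) (nat_lit 129031029713) (nat_lit 25) (nat_lit 5) (nat_lit 27) (nat_lit 4) (nat_lit 25) (nat_lit 4) (nat_lit 385) (nat_lit 360) (nat_lit 275)))) (XT.nd (nat_lit 156) (nat_lit 304) (nat_lit 0) (XT.nd (nat_lit 78) (nat_lit 76) (nat_lit 0) (XT.lf (nat_lit 0) (nat_lit 49587997054) (nat_lit 152) (nat_lit 119201473568) (nat_lit 76) (nat_lit 471092066290) (nat_lit 23) (nat_lit 5) (nat_lit 25) (nat_lit 5) (nat_lit 24) (nat_lit 4) (nat_lit 386) (nat_lit 360) (nat_lit 274)) (XT.lf (nat_lit 0) (nat_lit 375625188875) (nat_lit 152) (nat_lit 162514708793) (nat_lit 0) (nat_lit 169750483144) (nat_lit 22) (nat_lit 5) (nat_lit 24) (nat_lit 4) (nat_lit 22) (nat_lit 4) (nat_lit 387) (nat_lit 360) (nat_lit 273))) (XT.nd (nat_lit 78) (nat_lit 228) (nat_lit 0) (XT.lf (nat_lit 0) (nat_lit 553988196136) (nat_lit 76) (nat_lit 218131530133) (nat_lit 76) (nat_lit 12256683705) (nat_lit 21) (nat_lit 4) (nat_lit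 22) (nat_lit 5) (nat_lit 22) (nat_lit 4) (nat_lit 388) (nat_lit 360) (nat_lit 272)) (XT.nd (nat_lit 78) (nat_lit 76) (nat_lit 0) (XT.lf (nat_lit 0) (nat_lit 359936891603) (nat_lit 152) (nat_lit 340643661618) (nat_lit 0) (nat_lit 169311920516) (nat_lit 19) (nat_lit 5) (nat_lit 21) (nat_lit 4) (nat_lit 19) (nat_lit 4) (nat_lit 389) (nat_lit 360) (nat_lit 271)) (XT.lf (nat_lit 0) (nat_lit 465839729341) (nat_lit 76) (nat_lit 345532376063) (nat_lit 76) (nat_lit 154907306469) (nat_lit 18) (nat_lit 4) (nat_lit 19) (nat_lit 5) (nat_lit 19) (nat_lit 4) (nat_lit 390) (nat_lit 360) (nat_lit 270))))))) (XT.nd (nat_lit 624) (nat_lit 380) (nat_lit 0) (XT.nd (nat_lit 312) (nat_lit 304) (nat_lit 0) (XT.nd (nat_lit 156) (nat_lit 152) (nat_lit 0) (XT.nd (nat_lit 78) (nat_lit 76) (nat_lit 0) (XT.lf (nat_lit 0) (nat_lit 261432749288) (nat_lit 152) (nat_lit 728619283425) (nat_lit 0) (nat_lit 84927975907) (nat_lit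 16) (nat_lit 5) (nat_lit 18) (nat_lit 4) (nat_lit 16) (nat_lit 4) (nat_lit 391) (nat_lit 360) (nat_lit 269)) (XT.lf (nat_lit 0) (nat_lit 144683671142) (nat_lit 76) (nat_lit 614612698496) (nat_lit 76) (nat_lit 438107856146) (nat_lit 15) (nat_lit 4) (nat_lit 16) (nat_lit 5) (nat_lit 16) (nat_lit 4) (nat_lit 392) (nat_lit 360) (nat_lit 268))) (XT.nd (nat_lit 78) (nat_lit 76) (nat_lit 0) (XT.lf (nat_lit 0) (nat_lit 15728810540) (nat_lit 152) (nat_lit 143788976397) (nat_lit 76) (nat_lit 1176945425047) (nat_lit 14) (nat_lit 5) (nat_lit 16) (nat_lit 5) (nat_lit 15) (nat_lit 4) (nat_lit 393) (nat_lit 360) (nat_lit 267)) (XT.lf (nat_lit 0) (nat_lit 544602822128) (nat_lit 152) (nat_lit 567063343766) (nat_lit 0) (nat_lit 381172308729) (nat_lit 13) (nat_lit 5) (nat_lit 15) (nat_lit 4) (nat_lit 13) (nat_lit 4) (nat_lit 394) (nat_lit 360) (nat_lit 266)))) (XT.nd (nat_lit 156) (nat_lit 152) (nat_lit 0)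 (XT.nd (nat_lit 78) (nat_lit 76) (nat_lit 0) (XT.lf (nat_lit 0) (nat_lit 513302384986) (nat_lit 76) (nat_lit 660557038992) (nat_lit 76) (nat_lit 497126483604) (nat_lit 12) (nat_lit 4) (nat_lit 13) (nat_lit 5) (nat_lit 13) (nat_lit 4) (nat_lit 395) (nat_lit 360) (nat_lit 265)) (XT.lf (nat_lit 0) (nat_lit 37504052588) (nat_lit 152) (nat_lit 85422162515) (nat_lit 76) (nat_lit 1751532550299) (nat_lit 11) (nat_lit 5) (nat_lit 13) (nat_lit 5) (nat_lit 12) (nat_lit 4) (nat_lit 396) (nat_lit 360) (nat_lit 264))) (XT.nd (nat_lit 78) (nat_lit 76) (nat_lit 0) (XT.lf (nat_lit 0) (nat_lit 665453364782) (nat_lit 152) (nat_lit 924432713291) (nat_lit 0) (nat_lit 514128713255) (nat_lit 10) (nat_lit 5) (nat_lit 12) (nat_lit 4) (nat_lit 10) (nat_lit 4) (nat_lit 397) (nat_lit 360) (nat_lit 263)) (XT.lf (nat_lit 0) (nat_lit 282364708990) (nat_lit 76) (nat_lit 1117972412709) (nat_lit 76) (nat_lit 966647735619)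 (nat_lit 9) (nat_lit 4) (nat_lit 10) (nat_lit 5) (nat_lit 10) (nat_lit 4) (nat_lit 398) (nat_lit 360) (nat_lit 262))))) (XT.nd (nat_lit 312) (nat_lit 228) (nat_lit 0) (XT.nd (nat_lit 156) (nat_lit 0) (nat_lit 0) (XT.nd (nat_lit 78) (nat_lit 152) (nat_lit 0) (XT.lf (nat_lit 0) (nat_lit 1726162138721) (nat_lit 76) (nat_lit 546204951001) (nat_lit 76) (nat_lit 394880251682) (nat_lit 9) (nat_lit 4) (nat_lit 10) (nat_lit 5) (nat_lit 10) (nat_lit 4) (nat_lit 399) (nat_lit 360) (nat_lit 261)) (XT.lf (nat_lit 0) (nat_lit 261904410285) (nat_lit 152) (nat_lit 2627359234931) (nat_lit 0) (nat_lit 121788930055) (nat_lit 7) (nat_lit 5) (nat_lit 9) (nat_lit 4) (nat_lit 7) (nat_lit 4) (nat_lit 400) (nat_lit 360) (nat_lit 260))) (XT.nd (nat_lit 78) (nat_lit 0) (nat_lit 0) (XT.lf (nat_lit 0) (nat_lit 1037707070521) (nat_lit 152) (nat_lit 1466798889262) (nat_lit 0) (nat_lit 897591574728) (nat_lit 7) (nat_lit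 5) (nat_lit 9) (nat_lit 4) (nat_lit 7) (nat_lit 4) (nat_lit 401) (nat_lit 360) (nat_lit 259)) (XT.lf (nat_lit 0) (nat_lit 1929879972485) (nat_lit 152) (nat_lit 132154814582) (nat_lit 0) (nat_lit 1789764463159) (nat_lit 7) (nat_lit 5) (nat_lit 9) (nat_lit 4) (nat_lit 7) (nat_lit 4) (nat_lit 402) (nat_lit 360) (nat_lit 258)))) (XT.nd (nat_lit 156) (nat_lit 152) (nat_lit 0) (XT.nd (nat_lit 78) (nat_lit 0) (nat_lit 0) (XT.lf (nat_lit 0) (nat_lit 1476548527997) (nat_lit 76) (nat_lit 1514841172566) (nat_lit 76) (nat_lit 1374725651472) (nat_lit 6) (nat_lit 4) (nat_lit 7) (nat_lit 5) (nat_lit 7) (nat_lit 4) (nat_lit 403) (nat_lit 360) (nat_lit 257)) (XT.lf (nat_lit 0) (nat_lit 3334560009084) (nat_lit 76) (nat_lit 881413298875) (nat_lit 76) (nat_lit 741297767548) (nat_lit 6) (nat_lit 4) (nat_lit 7) (nat_lit 5) (nat_lit 7) (nat_lit 4) (nat_lit 404) (nat_lit 360) (nat_lit 256))) (XT.nd (nat_lit 78)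 (nat_lit 152) (nat_lit 0) (XT.lf (nat_lit 0) (nat_lit 5471272988885) (nat_lit 76) (nat_lit 152971358773) (nat_lit 76) (nat_lit 12855818548) (nat_lit 6) (nat_lit 4) (nat_lit 7) (nat_lit 5) (nat_lit 7) (nat_lit 4) (nat_lit 405) (nat_lit 360) (nat_lit 255)) (XT.nd (nat_lit 78) (nat_lit 0) (nat_lit 0) (XT.lf (nat_lit 0) (nat_lit 839267909036) (nat_lit 152) (nat_lit 4864063167668) (nat_lit 0) (nat_lit 709531290552) (nat_lit 4) (nat_lit 5) (nat_lit 6) (nat_lit 4) (nat_lit 4) (nat_lit 4) (nat_lit 406) (nat_lit 360) (nat_lit 254)) (XT.lf (nat_lit 0) (nat_lit 1827654628485) (nat_lit 152) (nat_lit 3778653101567) (nat_lit 0) (nat_lit 1697918003771) (nat_lit 4) (nat_lit 5) (nat_lit 6) (nat_lit 4) (nat_lit 4) (nat_lit 4) (nat_lit 407) (nat_lit 360) (nat_lit 253))))))))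
noncomputable def xc87 : XT := (XT.nd (nat_lit 50076) (nat_lit 0) (nat_lit 1672) (XT.nd (nat_lit 624) (nat_lit 0) (nat_lit 0) (XT.nd (nat_lit 312) (nat_lit 0) (nat_lit 0) (XT.nd (nat_lit 156) (nat_lit 76) (nat_lit 0) (XT.nd (nat_lit 78) (nat_lit 0) (nat_lit 0) (XT.lf (nat_lit 0) (nat_lit 2964299276672) (nat_lit 152) (nat_lit 2530431688497) (nat_lit 0) (nat_lit 2834562646541) (nat_lit 4) (nat_lit 5) (nat_lit 6) (nat_lit 4) (nat_lit 4) (nat_lit 4) (nat_lit 408) (nat_lit 360) (nat_lit 252)) (XT.lf (nat_lit 0) (nat_lit 4271440553237) (nat_lit 152) (nat_lit 1094977205158) (nat_lit 0) (nat_lit 4141703918394) (nat_lit 4) (nat_lit 5) (nat_lit 6) (nat_lit 4) (nat_lit 4) (nat_lit 4) (nat_lit 409) (nat_lit 360) (nat_lit 251))) (XT.nd (nat_lit 78) (nat_lit 0) (nat_lit 0) (XT.lf (nat_lit 0) (nat_lit 585062524460) (nat_lit 76) (nat_lit 5203661204738) (nat_lit 76) (nat_lit 5073924565799) (nat_lit 3) (nat_lit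 4) (nat_lit 4) (nat_lit 5) (nat_lit 4) (nat_lit 4) (nat_lit 410) (nat_lit 360) (nat_lit 250)) (XT.lf (nat_lit 0) (nat_lit 2583416593773) (nat_lit 76) (nat_lit 4982061816196) (nat_lit 76) (nat_lit 4852325173696) (nat_lit 3) (nat_lit 4) (nat_lit 4) (nat_lit 5) (nat_lit 4) (nat_lit 4) (nat_lit 411) (nat_lit 360) (nat_lit 249)))) (XT.nd (nat_lit 156) (nat_lit 0) (nat_lit 0) (XT.nd (nat_lit 78) (nat_lit 0) (nat_lit 0) (XT.lf (nat_lit 0) (nat_lit 4881523675411) (nat_lit 76) (nat_lit 4727222569815) (nat_lit 76) (nat_lit 4597485924217) (nat_lit 3) (nat_lit 4) (nat_lit 4) (nat_lit 5) (nat_lit 4) (nat_lit 4) (nat_lit 412) (nat_lit 360) (nat_lit 248)) (XT.lf (nat_lit 0) (nat_lit 7524346734016) (nat_lit 76) (nat_lit 4434157480338) (nat_lit 76) (nat_lit 4304420832047) (nat_lit 3) (nat_lit 4) (nat_lit 4) (nat_lit 5) (nat_lit 4) (nat_lit 4) (nat_lit 413) (nat_lit 360) (nat_lit 247))) (XT.nd (nat_lit 78)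 (nat_lit 0) (nat_lit 0) (XT.lf (nat_lit 0) (nat_lit 10563593177256) (nat_lit 76) (nat_lit 4097132665581) (nat_lit 76) (nat_lit 3967396014948) (nat_lit 3) (nat_lit 4) (nat_lit 4) (nat_lit 5) (nat_lit 4) (nat_lit 4) (nat_lit 414) (nat_lit 360) (nat_lit 246)) (XT.lf (nat_lit 0) (nat_lit 14058726522499) (nat_lit 76) (nat_lit 3709554161776) (nat_lit 76) (nat_lit 3579817509106) (nat_lit 3) (nat_lit 4) (nat_lit 4) (nat_lit 5) (nat_lit 4) (nat_lit 4) (nat_lit 415) (nat_lit 360) (nat_lit 245))))) (XT.nd (nat_lit 49062) (nat_lit 0) (nat_lit 4484) (XT.nd (nat_lit 48906) (nat_lit 0) (nat_lit 5244) (XT.nd (nat_lit 48828) (nat_lit 0) (nat_lit 5700) (XT.lf (nat_lit 0) (nat_lit 18078129813456) (nat_lit 76) (nat_lit 3263838911241) (nat_lit 76) (nat_lit 3134102256800) (nat_lit 3) (nat_lit 4) (nat_lit 4) (nat_lit 5) (nat_lit 4) (nat_lit 4) (nat_lit 416) (nat_lit 360) (nat_lit 244)) (XT.lf (nat_lit 0) (nat_lit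 36339450308) (nat_lit 532) (nat_lit 946131387) (nat_lit 532) (nat_lit 946131387) (nat_lit 78) (nat_lit 3) (nat_lit 85) (nat_lit 3) (nat_lit 85) (nat_lit 5) (nat_lit 361) (nat_lit 361) (nat_lit 298))) (XT.nd (nat_lit 78) (nat_lit 456) (nat_lit 0) (XT.lf (nat_lit 76) (nat_lit 72562399758) (nat_lit 0) (nat_lit 7331524739) (nat_lit 532) (nat_lit 2163122496) (nat_lit 79) (nat_lit 5) (nat_lit 78) (nat_lit 3) (nat_lit 85) (nat_lit 5) (nat_lit 362) (nat_lit 361) (nat_lit 297)) (XT.lf (nat_lit 0) (nat_lit 3267563777) (nat_lit 532) (nat_lit 16580536810) (nat_lit 608) (nat_lit 68358094736) (nat_lit 72) (nat_lit 5) (nat_lit 79) (nat_lit 5) (nat_lit 80) (nat_lit 5) (nat_lit 363) (nat_lit 361) (nat_lit 296)))) (XT.nd (nat_lit 156) (nat_lit 836) (nat_lit 0) (XT.nd (nat_lit 78) (nat_lit 0) (nat_lit 76) (XT.lf (nat_lit 0) (nat_lit 13134053523) (nat_lit 532) (nat_lit 22938302728) (nat_lit 608) (nat_lit 58900923425)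 (nat_lit 73) (nat_lit 5) (nat_lit 80) (nat_lit 5) (nat_lit 81) (nat_lit 5) (nat_lit 364) (nat_lit 361) (nat_lit 295)) (XT.lf (nat_lit 0) (nat_lit 28493257932) (nat_lit 532) (nat_lit 28243703195) (nat_lit 76) (nat_lit 45697447208) (nat_lit 74) (nat_lit 5) (nat_lit 81) (nat_lit 5) (nat_lit 75) (nat_lit 5) (nat_lit 365) (nat_lit 361) (nat_lit 294))) (XT.nd (nat_lit 78) (nat_lit 456) (nat_lit 0) (XT.lf (nat_lit 0) (nat_lit 50453104421) (nat_lit 532) (nat_lit 32173045831) (nat_lit 76) (nat_lit 28044815955) (nat_lit 68) (nat_lit 5) (nat_lit 75) (nat_lit 5) (nat_lit 69) (nat_lit 5) (nat_lit 366) (nat_lit 361) (nat_lit 293)) (XT.nd (nat_lit 78) (nat_lit 228) (nat_lit 0) (XT.lf (nat_lit 0) (nat_lit 80305423495) (nat_lit 304) (nat_lit 34343535603) (nat_lit 76) (nat_lit 5126169732) (nat_lit 65) (nat_lit 5) (nat_lit 69) (nat_lit 5) (nat_lit 66) (nat_lit 5) (nat_lit 367) (nat_lit 361) (nat_lit 292)) (XT.lf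 (nat_lit 0) (nat_lit 94890274306) (nat_lit 228) (nat_lit 25271771646) (nat_lit 304) (nat_lit 9640754078) (nat_lit 62) (nat_lit 5) (nat_lit 65) (nat_lit 5) (nat_lit 66) (nat_lit 5) (nat_lit 368) (nat_lit 361) (nat_lit 291))))))) (XT.nd (nat_lit 702) (nat_lit 1064) (nat_lit 0) (XT.nd (nat_lit 312) (nat_lit 912) (nat_lit 0) (XT.nd (nat_lit 156) (nat_lit 380) (nat_lit 0) (XT.nd (nat_lit 78) (nat_lit 228) (nat_lit 0) (XT.lf (nat_lit 0) (nat_lit 29052968310) (nat_lit 228) (nat_lit 33795207138) (nat_lit 76) (nat_lit 77989064304) (nat_lit 59) (nat_lit 5) (nat_lit 62) (nat_lit 5) (nat_lit 60) (nat_lit 5) (nat_lit 369) (nat_lit 361) (nat_lit 290)) (XT.lf (nat_lit 0) (nat_lit 78840003444) (nat_lit 304) (nat_lit 30068395723) (nat_lit 76) (nat_lit 44129606401) (nat_lit 56) (nat_lit 5) (nat_lit 60) (nat_lit 5) (nat_lit 57) (nat_lit 5) (nat_lit 370) (nat_lit 361) (nat_lit 289))) (XT.nd (nat_lit 78) (nat_lit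 228) (nat_lit 0) (XT.lf (nat_lit 0) (nat_lit 142332491472) (nat_lit 228) (nat_lit 22877388432) (nat_lit 76) (nat_lit 1360014922) (nat_lit 54) (nat_lit 5) (nat_lit 57) (nat_lit 5) (nat_lit 55) (nat_lit 5) (nat_lit 371) (nat_lit 361) (nat_lit 288)) (XT.lf (nat_lit 0) (nat_lit 39728219866) (nat_lit 228) (nat_lit 13822048602) (nat_lit 76) (nat_lit 127863581368) (nat_lit 51) (nat_lit 5) (nat_lit 54) (nat_lit 5) (nat_lit 52) (nat_lit 5) (nat_lit 372) (nat_lit 361) (nat_lit 287)))) (XT.nd (nat_lit 156) (nat_lit 456) (nat_lit 0) (XT.nd (nat_lit 78) (nat_lit 304) (nat_lit 0) (XT.lf (nat_lit 0) (nat_lit 119318399332) (nat_lit 228) (nat_lit 1110199229) (nat_lit 76) (nat_lit 77408249367) (nat_lit 49) (nat_lit 5) (nat_lit 52) (nat_lit 5) (nat_lit 50) (nat_lit 5) (nat_lit 373) (nat_lit 361) (nat_lit 286)) (XT.lf (nat_lit 0) (nat_lit 2912757121) (nat_lit 152) (nat_lit 198560683920) (nat_lit 76) (nat_lit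 14581561004) (nat_lit 45) (nat_lit 5) (nat_lit 47) (nat_lit 5) (nat_lit 46) (nat_lit 5) (nat_lit 374) (nat_lit 361) (nat_lit 285))) (XT.nd (nat_lit 78) (nat_lit 304) (nat_lit 0) (XT.lf (nat_lit 0) (nat_lit 38239795385) (nat_lit 152) (nat_lit 64029604136) (nat_lit 228) (nat_lit 133744530791) (nat_lit 43) (nat_lit 5) (nat_lit 45) (nat_lit 5) (nat_lit 46) (nat_lit 5) (nat_lit 375) (nat_lit 361) (nat_lit 284)) (XT.nd (nat_lit 78) (nat_lit 228) (nat_lit 0) (XT.lf (nat_lit 0) (nat_lit 64914333711) (nat_lit 76) (nat_lit 161367881596) (nat_lit 152) (nat_lit 31904268513) (nat_lit 42) (nat_lit 5) (nat_lit 43) (nat_lit 5) (nat_lit 44) (nat_lit 4) (nat_lit 376) (nat_lit 361) (nat_lit 283)) (XT.lf (nat_lit 0) (nat_lit 91086976512) (nat_lit 228) (nat_lit 186236912593) (nat_lit 76) (nat_lit 5386075711) (nat_lit 39) (nat_lit 5) (nat_lit 42) (nat_lit 5) (nat_lit 40) (nat_lit 4) (nat_lit 377) (nat_lit 361)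 (nat_lit 282)))))) (XT.nd (nat_lit 312) (nat_lit 532) (nat_lit 0) (XT.nd (nat_lit 156) (nat_lit 228) (nat_lit 0) (XT.nd (nat_lit 78) (nat_lit 228) (nat_lit 0) (XT.lf (nat_lit 0) (nat_lit 132033964038) (nat_lit 76) (nat_lit 112068234620) (nat_lit 152) (nat_lit 65666324505) (nat_lit 38) (nat_lit 5) (nat_lit 39) (nat_lit 5) (nat_lit 40) (nat_lit 4) (nat_lit 378) (nat_lit 361) (nat_lit 281)) (XT.lf (nat_lit 0) (nat_lit 87187236041) (nat_lit 228) (nat_lit 166520263995) (nat_lit 76) (nat_lit 86068855982) (nat_lit 35) (nat_lit 5) (nat_lit 38) (nat_lit 5) (nat_lit 36) (nat_lit 4) (nat_lit 379) (nat_lit 361) (nat_lit 280))) (XT.nd (nat_lit 78) (nat_lit 152) (nat_lit 0) (XT.lf (nat_lit 0) (nat_lit 219727191706) (nat_lit 76) (nat_lit 53156200878) (nat_lit 152) (nat_lit 100161302501) (nat_lit 34) (nat_lit 5) (nat_lit 35) (nat_lit 5) (nat_lit 36) (nat_lit 4) (nat_lit 380) (nat_lit 361) (nat_lit 279))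 (XT.lf (nat_lit 0) (nat_lit 87573115514) (nat_lit 152) (nat_lit 139950459592) (nat_lit 76) (nat_lit 182339096847) (nat_lit 32) (nat_lit 5) (nat_lit 34) (nat_lit 5) (nat_lit 33) (nat_lit 4) (nat_lit 381) (nat_lit 361) (nat_lit 278)))) (XT.nd (nat_lit 156) (nat_lit 304) (nat_lit 0) (XT.nd (nat_lit 78) (nat_lit 152) (nat_lit 0) (XT.lf (nat_lit 0) (nat_lit 311942284923) (nat_lit 152) (nat_lit 125201676692) (nat_lit 0) (nat_lit 13698835969) (nat_lit 31) (nat_lit 5) (nat_lit 33) (nat_lit 4) (nat_lit 31) (nat_lit 4) (nat_lit 382) (nat_lit 361) (nat_lit 277)) (XT.lf (nat_lit 0) (nat_lit 88633384033) (nat_lit 152) (nat_lit 113886320156) (nat_lit 76) (nat_lit 293692669984) (nat_lit 29) (nat_lit 5) (nat_lit 31) (nat_lit 5) (nat_lit 30) (nat_lit 4) (nat_lit 383) (nat_lit 361) (nat_lit 276))) (XT.nd (nat_lit 78) (nat_lit 228) (nat_lit 0) (XT.lf (nat_lit 0) (nat_lit 358810281508) (nat_lit 152) (nat_lit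 105291087944) (nat_lit 0) (nat_lit 82658403264) (nat_lit 28) (nat_lit 5) (nat_lit 30) (nat_lit 4) (nat_lit 28) (nat_lit 4) (nat_lit 384) (nat_lit 361) (nat_lit 275)) (XT.nd (nat_lit 78) (nat_lit 76) (nat_lit 0) (XT.lf (nat_lit 0) (nat_lit 83010070435) (nat_lit 152) (nat_lit 103491148773) (nat_lit 76) (nat_lit 416534251234) (nat_lit 26) (nat_lit 5) (nat_lit 28) (nat_lit 5) (nat_lit 27) (nat_lit 4) (nat_lit 385) (nat_lit 361) (nat_lit 274)) (XT.lf (nat_lit 0) (nat_lit 404087256642) (nat_lit 152) (nat_lit 113235832631) (nat_lit 0) (nat_lit 148390697378) (nat_lit 25) (nat_lit 5) (nat_lit 27) (nat_lit 4) (nat_lit 25) (nat_lit 4) (nat_lit 386) (nat_lit 361) (nat_lit 273))))))))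
noncomputable def xc88 : XT := (XT.nd (nat_lit 1326) (nat_lit 304) (nat_lit 0) (XT.nd (nat_lit 624) (nat_lit 532) (nat_lit 0) (XT.nd (nat_lit 312) (nat_lit 380) (nat_lit 0) (XT.nd (nat_lit 156) (nat_lit 228) (nat_lit 0) (XT.nd (nat_lit 78) (nat_lit 76) (nat_lit 0) (XT.lf (nat_lit 0) (nat_lit 57031461083) (nat_lit 152) (nat_lit 137071272162) (nat_lit 76) (nat_lit 541760612809) (nat_lit 23) (nat_lit 5) (nat_lit 25) (nat_lit 5) (nat_lit 24) (nat_lit 4) (nat_lit 387) (nat_lit 361) (nat_lit 272)) (XT.lf (nat_lit 0) (nat_lit 431973888278) (nat_lit 152) (nat_lit 186882103922) (nat_lit 0) (nat_lit 195217551842) (nat_lit 22) (nat_lit 5) (nat_lit 24) (nat_lit 4) (nat_lit 22) (nat_lit 4) (nat_lit 388) (nat_lit 361) (nat_lit 271))) (XT.nd (nat_lit 78) (nat_lit 152) (nat_lit 0) (XT.lf (nat_lit 0) (nat_lit 637095406278) (nat_lit 76) (nat_lit 250846774111) (nat_lit 76) (nat_lit 14090331288) (nat_lit 21)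 (nat_lit 4) (nat_lit 22) (nat_lit 5) (nat_lit 22) (nat_lit 4) (nat_lit 389) (nat_lit 361) (nat_lit 270)) (XT.lf (nat_lit 0) (nat_lit 413931740644) (nat_lit 152) (nat_lit 391731532340) (nat_lit 0) (nat_lit 194712726445) (nat_lit 19) (nat_lit 5) (nat_lit 21) (nat_lit 4) (nat_lit 19) (nat_lit 4) (nat_lit 390) (nat_lit 361) (nat_lit 269)))) (XT.nd (nat_lit 156) (nat_lit 152) (nat_lit 0) (XT.nd (nat_lit 78) (nat_lit 152) (nat_lit 0) (XT.lf (nat_lit 0) (nat_lit 535723632670) (nat_lit 76) (nat_lit 397358232033) (nat_lit 76) (nat_lit 178139143349) (nat_lit 18) (nat_lit 4) (nat_lit 19) (nat_lit 5) (nat_lit 19) (nat_lit 4) (nat_lit 391) (nat_lit 361) (nat_lit 268)) (XT.lf (nat_lit 0) (nat_lit 300651450184) (nat_lit 152) (nat_lit 837904504006) (nat_lit 0) (nat_lit 97670752542) (nat_lit 16) (nat_lit 5) (nat_lit 18) (nat_lit 4) (nat_lit 16) (nat_lit 4) (nat_lit 392) (nat_lit 361) (nat_lit 267))) (XT.nd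 (nat_lit 78) (nat_lit 76) (nat_lit 0) (XT.lf (nat_lit 0) (nat_lit 166393244356) (nat_lit 76) (nat_lit 706801043970) (nat_lit 76) (nat_lit 503820294178) (nat_lit 15) (nat_lit 4) (nat_lit 16) (nat_lit 5) (nat_lit 16) (nat_lit 4) (nat_lit 393) (nat_lit 361) (nat_lit 266)) (XT.lf (nat_lit 0) (nat_lit 18091221930) (nat_lit 152) (nat_lit 165351053524) (nat_lit 76) (nat_lit 1353490171073) (nat_lit 14) (nat_lit 5) (nat_lit 16) (nat_lit 5) (nat_lit 15) (nat_lit 4) (nat_lit 394) (nat_lit 361) (nat_lit 265))))) (XT.nd (nat_lit 312) (nat_lit 228) (nat_lit 0) (XT.nd (nat_lit 156) (nat_lit 152) (nat_lit 0) (XT.nd (nat_lit 78) (nat_lit 76) (nat_lit 0) (XT.lf (nat_lit 0) (nat_lit 626296140331) (nat_lit 152) (nat_lit 652116950698) (nat_lit 0) (nat_lit 438350923135) (nat_lit 13) (nat_lit 5) (nat_lit 15) (nat_lit 4) (nat_lit 13) (nat_lit 4) (nat_lit 395) (nat_lit 361) (nat_lit 264)) (XT.lf (nat_lit 0) (nat_lit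 590303138415) (nat_lit 76) (nat_lit 759637846216) (nat_lit 76) (nat_lit 571692597270) (nat_lit 12) (nat_lit 4) (nat_lit 13) (nat_lit 5) (nat_lit 13) (nat_lit 4) (nat_lit 396) (nat_lit 361) (nat_lit 263))) (XT.nd (nat_lit 78) (nat_lit 76) (nat_lit 0) (XT.lf (nat_lit 0) (nat_lit 43132022096) (nat_lit 152) (nat_lit 98230670593) (nat_lit 76) (nat_lit 2014264698551) (nat_lit 11) (nat_lit 5) (nat_lit 13) (nat_lit 5) (nat_lit 12) (nat_lit 4) (nat_lit 397) (nat_lit 361) (nat_lit 262)) (XT.lf (nat_lit 0) (nat_lit 765273583198) (nat_lit 152) (nat_lit 1063093092945) (nat_lit 0) (nat_lit 591250156752) (nat_lit 10) (nat_lit 5) (nat_lit 12) (nat_lit 4) (nat_lit 10) (nat_lit 4) (nat_lit 398) (nat_lit 361) (nat_lit 261)))) (XT.nd (nat_lit 156) (nat_lit 152) (nat_lit 0) (XT.nd (nat_lit 78) (nat_lit 0) (nat_lit 0) (XT.lf (nat_lit 0) (nat_lit 324723559461) (nat_lit 76) (nat_lit 1285666155114) (nat_lit 76) (nat_lit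 1111642709339) (nat_lit 9) (nat_lit 4) (nat_lit 10) (nat_lit 5) (nat_lit 10) (nat_lit 4) (nat_lit 399) (nat_lit 361) (nat_lit 260)) (XT.lf (nat_lit 0) (nat_lit 1985090063114) (nat_lit 76) (nat_lit 628133850606) (nat_lit 76) (nat_lit 454110388023) (nat_lit 9) (nat_lit 4) (nat_lit 10) (nat_lit 5) (nat_lit 10) (nat_lit 4) (nat_lit 400) (nat_lit 361) (nat_lit 259))) (XT.nd (nat_lit 78) (nat_lit 0) (nat_lit 0) (XT.lf (nat_lit 0) (nat_lit 301191765635) (nat_lit 152) (nat_lit 3021459644021) (nat_lit 0) (nat_lit 140058916377) (nat_lit 7) (nat_lit 5) (nat_lit 9) (nat_lit 4) (nat_lit 7) (nat_lit 4) (nat_lit 401) (nat_lit 361) (nat_lit 258)) (XT.nd (nat_lit 78) (nat_lit 0) (nat_lit 0) (XT.lf (nat_lit 0) (nat_lit 1193364603976) (nat_lit 152) (nat_lit 1686815699913) (nat_lit 0) (nat_lit 1032231742950) (nat_lit 7) (nat_lit 5) (nat_lit 9) (nat_lit 4) (nat_lit 7) (nat_lit 4) (nat_lit 402) (nat_lit 361) (nat_lit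 257)) (XT.lf (nat_lit 0) (nat_lit 2219363249120) (nat_lit 152) (nat_lit 151975408301) (nat_lit 0) (nat_lit 2058230377861) (nat_lit 7) (nat_lit 5) (nat_lit 9) (nat_lit 4) (nat_lit 7) (nat_lit 4) (nat_lit 403) (nat_lit 361) (nat_lit 256))))))) (XT.nd (nat_lit 624) (nat_lit 0) (nat_lit 0) (XT.nd (nat_lit 312) (nat_lit 76) (nat_lit 0) (XT.nd (nat_lit 156) (nat_lit 152) (nat_lit 0) (XT.nd (nat_lit 78) (nat_lit 0) (nat_lit 0) (XT.lf (nat_lit 0) (nat_lit 1698033213178) (nat_lit 76) (nat_lit 1742066114040) (nat_lit 76) (nat_lit 1580933233882) (nat_lit 6) (nat_lit 4) (nat_lit 7) (nat_lit 5) (nat_lit 7) (nat_lit 4) (nat_lit 404) (nat_lit 361) (nat_lit 255)) (XT.lf (nat_lit 0) (nat_lit 3834746102605) (nat_lit 76) (nat_lit 1013624220305) (nat_lit 76) (nat_lit 852491332410) (nat_lit 6) (nat_lit 4) (nat_lit 7) (nat_lit 5) (nat_lit 7) (nat_lit 4) (nat_lit 405) (nat_lit 361) (nat_lit 254))) (XT.nd (nat_lit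 78) (nat_lit 152) (nat_lit 0) (XT.lf (nat_lit 0) (nat_lit 6291965756486) (nat_lit 76) (nat_lit 175916129197) (nat_lit 76) (nat_lit 14783234574) (nat_lit 6) (nat_lit 4) (nat_lit 7) (nat_lit 5) (nat_lit 7) (nat_lit 4) (nat_lit 406) (nat_lit 361) (nat_lit 253)) (XT.lf (nat_lit 0) (nat_lit 965158947947) (nat_lit 152) (nat_lit 5593670888306) (nat_lit 0) (nat_lit 815961817878) (nat_lit 4) (nat_lit 5) (nat_lit 6) (nat_lit 4) (nat_lit 4) (nat_lit 4) (nat_lit 407) (nat_lit 361) (nat_lit 252)))) (XT.nd (nat_lit 156) (nat_lit 76) (nat_lit 0) (XT.nd (nat_lit 78) (nat_lit 0) (nat_lit 0) (XT.lf (nat_lit 0) (nat_lit 2101803564110) (nat_lit 152) (nat_lit 4345449541139) (nat_lit 0) (nat_lit 1952606429331) (nat_lit 4) (nat_lit 5) (nat_lit 6) (nat_lit 4) (nat_lit 4) (nat_lit 4) (nat_lit 408) (nat_lit 361) (nat_lit 251)) (XT.lf (nat_lit 0) (nat_lit 3408944812828) (nat_lit 152) (nat_lit 2909995115108) (nat_lit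 0) (nat_lit 3259747673952) (nat_lit 4) (nat_lit 5) (nat_lit 6) (nat_lit 4) (nat_lit 4) (nat_lit 4) (nat_lit 409) (nat_lit 361) (nat_lit 250))) (XT.nd (nat_lit 78) (nat_lit 76) (nat_lit 0) (XT.lf (nat_lit 0) (nat_lit 4912157196791) (nat_lit 152) (nat_lit 1259222632311) (nat_lit 0) (nat_lit 4762960054354) (nat_lit 4) (nat_lit 5) (nat_lit 6) (nat_lit 4) (nat_lit 4) (nat_lit 4) (nat_lit 410) (nat_lit 361) (nat_lit 249)) (XT.lf (nat_lit 0) (nat_lit 672822959102) (nat_lit 76) (nat_lit 5984209842324) (nat_lit 76) (nat_lit 5835012696789) (nat_lit 3) (nat_lit 4) (nat_lit 4) (nat_lit 5) (nat_lit 4) (nat_lit 4) (nat_lit 411) (nat_lit 361) (nat_lit 248))))) (XT.nd (nat_lit 312) (nat_lit 0) (nat_lit 0) (XT.nd (nat_lit 156) (nat_lit 0) (nat_lit 0) (XT.nd (nat_lit 78) (nat_lit 0) (nat_lit 0) (XT.lf (nat_lit 0) (nat_lit 2970930001075) (nat_lit 76) (nat_lit 5729370616343) (nat_lit 76) (nat_lit 5580173468115)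 (nat_lit 3) (nat_lit 4) (nat_lit 4) (nat_lit 5) (nat_lit 4) (nat_lit 4) (nat_lit 412) (nat_lit 361) (nat_lit 247)) (XT.lf (nat_lit 0) (nat_lit 5613753025189) (nat_lit 76) (nat_lit 5436305544606) (nat_lit 76) (nat_lit 5287108394036) (nat_lit 3) (nat_lit 4) (nat_lit 4) (nat_lit 5) (nat_lit 4) (nat_lit 4) (nat_lit 413) (nat_lit 361) (nat_lit 246))) (XT.nd (nat_lit 78) (nat_lit 0) (nat_lit 0) (XT.lf (nat_lit 0) (nat_lit 8652999438437) (nat_lit 76) (nat_lit 5099280745275) (nat_lit 76) (nat_lit 4950083592668) (nat_lit 3) (nat_lit 4) (nat_lit 4) (nat_lit 5) (nat_lit 4) (nat_lit 4) (nat_lit 414) (nat_lit 361) (nat_lit 245)) (XT.lf (nat_lit 0) (nat_lit 12148132757600) (nat_lit 76) (nat_lit 4711702254885) (nat_lit 76) (nat_lit 4562505100507) (nat_lit 3) (nat_lit 4) (nat_lit 4) (nat_lit 5) (nat_lit 4) (nat_lit 4) (nat_lit 415) (nat_lit 361) (nat_lit 244)))) (XT.nd (nat_lit 48984) (nat_lit 0) (nat_lit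 5244) (XT.nd (nat_lit 48906) (nat_lit 0) (nat_lit 5700) (XT.lf (nat_lit 0) (nat_lit 16167536025879) (nat_lit 76) (nat_lit 4265987016014) (nat_lit 76) (nat_lit 4116789860096) (nat_lit 3) (nat_lit 4) (nat_lit 4) (nat_lit 5) (nat_lit 4) (nat_lit 4) (nat_lit 416) (nat_lit 361) (nat_lit 243)) (XT.lf (nat_lit 0) (nat_lit 41808560856) (nat_lit 532) (nat_lit 1078223218) (nat_lit 532) (nat_lit 1078223218) (nat_lit 78) (nat_lit 3) (nat_lit 85) (nat_lit 3) (nat_lit 85) (nat_lit 5) (nat_lit 362) (nat_lit 362) (nat_lit 296))) (XT.nd (nat_lit 78) (nat_lit 456) (nat_lit 0) (XT.lf (nat_lit 76) (nat_lit 83464751714) (nat_lit 0) (nat_lit 8445334169) (nat_lit 532) (nat_lit 2452939625) (nat_lit 79) (nat_lit 5) (nat_lit 78) (nat_lit 3) (nat_lit 85) (nat_lit 5) (nat_lit 363) (nat_lit 362) (nat_lit 295)) (XT.nd (nat_lit 78) (nat_lit 0) (nat_lit 76) (XT.lf (nat_lit 0) (nat_lit 3786492698) (nat_lit 532) (nat_lit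 19046951522) (nat_lit 608) (nat_lit 78601366615) (nat_lit 72) (nat_lit 5) (nat_lit 79) (nat_lit 5) (nat_lit 80) (nat_lit 5) (nat_lit 364) (nat_lit 362) (nat_lit 294)) (XT.lf (nat_lit 0) (nat_lit 15129496888) (nat_lit 532) (nat_lit 26357925024) (nat_lit 608) (nat_lit 67729813984) (nat_lit 73) (nat_lit 5) (nat_lit 80) (nat_lit 5) (nat_lit 81) (nat_lit 5) (nat_lit 365) (nat_lit 362) (nat_lit 293))))))))
noncomputable def xc89 : XT := (XT.nd (nat_lit 1326) (nat_lit 1672) (nat_lit 0) (XT.nd (nat_lit 624) (nat_lit 1444) (nat_lit 0) (XT.nd (nat_lit 312) (nat_lit 836) (nat_lit 0) (XT.nd (nat_lit 156) (nat_lit 456) (nat_lit 0) (XT.nd (nat_lit 78) (nat_lit 456) (nat_lit 0) (XT.lf (nat_lit 0) (nat_lit 32789666347) (nat_lit 532) (nat_lit 32459040114) (nat_lit 76) (nat_lit 52549061804) (nat_lit 74) (nat_lit 5) (nat_lit 81) (nat_lit 5) (nat_lit 75) (nat_lit 5) (nat_lit 366) (nat_lit 362) (nat_lit 292))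 (XT.lf (nat_lit 0) (nat_lit 58041019622) (nat_lit 532) (nat_lit 36977963470) (nat_lit 76) (nat_lit 32251025351) (nat_lit 68) (nat_lit 5) (nat_lit 75) (nat_lit 5) (nat_lit 69) (nat_lit 5) (nat_lit 367) (nat_lit 362) (nat_lit 291))) (XT.nd (nat_lit 78) (nat_lit 228) (nat_lit 0) (XT.lf (nat_lit 0) (nat_lit 92369082427) (nat_lit 304) (nat_lit 39474411691) (nat_lit 76) (nat_lit 5896470549) (nat_lit 65) (nat_lit 5) (nat_lit 69) (nat_lit 5) (nat_lit 66) (nat_lit 5) (nat_lit 368) (nat_lit 362) (nat_lit 290)) (XT.lf (nat_lit 0) (nat_lit 109142721424) (nat_lit 228) (nat_lit 29059603855) (nat_lit 304) (nat_lit 11069611870) (nat_lit 62) (nat_lit 5) (nat_lit 65) (nat_lit 5) (nat_lit 66) (nat_lit 5) (nat_lit 369) (nat_lit 362) (nat_lit 289)))) (XT.nd (nat_lit 156) (nat_lit 380) (nat_lit 0) (XT.nd (nat_lit 78) (nat_lit 228) (nat_lit 0) (XT.lf (nat_lit 0) (nat_lit 33425684928) (nat_lit 228) (nat_lit 38845290884)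 (nat_lit 76) (nat_lit 89690664095) (nat_lit 59) (nat_lit 5) (nat_lit 62) (nat_lit 5) (nat_lit 60) (nat_lit 5) (nat_lit 370) (nat_lit 362) (nat_lit 288)) (XT.lf (nat_lit 0) (nat_lit 90679374784) (nat_lit 304) (nat_lit 34560121305) (nat_lit 76) (nat_lit 50753137084) (nat_lit 56) (nat_lit 5) (nat_lit 60) (nat_lit 5) (nat_lit 57) (nat_lit 5) (nat_lit 371) (nat_lit 362) (nat_lit 287))) (XT.nd (nat_lit 78) (nat_lit 228) (nat_lit 0) (XT.lf (nat_lit 0) (nat_lit 163694518575) (nat_lit 228) (nat_lit 26291184398) (nat_lit 76) (nat_lit 1568700706) (nat_lit 54) (nat_lit 5) (nat_lit 57) (nat_lit 5) (nat_lit 55) (nat_lit 5) (nat_lit 372) (nat_lit 362) (nat_lit 286)) (XT.lf (nat_lit 0) (nat_lit 45698700373) (nat_lit 228) (nat_lit 15878456546) (nat_lit 76) (nat_lit 147047868095) (nat_lit 51) (nat_lit 5) (nat_lit 54) (nat_lit 5) (nat_lit 52) (nat_lit 5) (nat_lit 373) (nat_lit 362) (nat_lit 285))))) (XT.nd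 (nat_lit 312) (nat_lit 760) (nat_lit 0) (XT.nd (nat_lit 156) (nat_lit 228) (nat_lit 0) (XT.nd (nat_lit 78) (nat_lit 304) (nat_lit 0) (XT.lf (nat_lit 0) (nat_lit 137226439577) (nat_lit 228) (nat_lit 1260573704) (nat_lit 76) (nat_lit 89024537238) (nat_lit 49) (nat_lit 5) (nat_lit 52) (nat_lit 5) (nat_lit 50) (nat_lit 5) (nat_lit 374) (nat_lit 362) (nat_lit 284)) (XT.lf (nat_lit 0) (nat_lit 3359744562) (nat_lit 152) (nat_lit 228328041957) (nat_lit 76) (nat_lit 16774658174) (nat_lit 45) (nat_lit 5) (nat_lit 47) (nat_lit 5) (nat_lit 46) (nat_lit 5) (nat_lit 375) (nat_lit 362) (nat_lit 283))) (XT.nd (nat_lit 78) (nat_lit 76) (nat_lit 0) (XT.lf (nat_lit 0) (nat_lit 43991091901) (nat_lit 152) (nat_lit 73627846058) (nat_lit 228) (nat_lit 153796350100) (nat_lit 43) (nat_lit 5) (nat_lit 45) (nat_lit 5) (nat_lit 46) (nat_lit 5) (nat_lit 376) (nat_lit 362) (nat_lit 282)) (XT.lf (nat_lit 0) (nat_lit 74666047000)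 (nat_lit 76) (nat_lit 185566918317) (nat_lit 152) (nat_lit 36680816338) (nat_lit 42) (nat_lit 5) (nat_lit 43) (nat_lit 5) (nat_lit 44) (nat_lit 4) (nat_lit 377) (nat_lit 362) (nat_lit 281)))) (XT.nd (nat_lit 156) (nat_lit 456) (nat_lit 0) (XT.nd (nat_lit 78) (nat_lit 76) (nat_lit 0) (XT.lf (nat_lit 0) (nat_lit 104758006643) (nat_lit 228) (nat_lit 214158215151) (nat_lit 76) (nat_lit 6199597989) (nat_lit 39) (nat_lit 5) (nat_lit 42) (nat_lit 5) (nat_lit 40) (nat_lit 4) (nat_lit 378) (nat_lit 362) (nat_lit 280)) (XT.lf (nat_lit 0) (nat_lit 151852088111) (nat_lit 76) (nat_lit 128872696014) (nat_lit 152) (nat_lit 75508436136) (nat_lit 38) (nat_lit 5) (nat_lit 39) (nat_lit 5) (nat_lit 40) (nat_lit 4) (nat_lit 379) (nat_lit 362) (nat_lit 279))) (XT.nd (nat_lit 78) (nat_lit 228) (nat_lit 0) (XT.lf (nat_lit 0) (nat_lit 100272223528) (nat_lit 228) (nat_lit 191485607750) (nat_lit 76) (nat_lit 98984425231)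 (nat_lit 35) (nat_lit 5) (nat_lit 38) (nat_lit 5) (nat_lit 36) (nat_lit 4) (nat_lit 380) (nat_lit 362) (nat_lit 278)) (XT.nd (nat_lit 78) (nat_lit 152) (nat_lit 0) (XT.lf (nat_lit 0) (nat_lit 252697891666) (nat_lit 76) (nat_lit 61124291105) (nat_lit 152) (nat_lit 115178713425) (nat_lit 34) (nat_lit 5) (nat_lit 35) (nat_lit 5) (nat_lit 36) (nat_lit 4) (nat_lit 381) (nat_lit 362) (nat_lit 277)) (XT.lf (nat_lit 0) (nat_lit 100715072762) (nat_lit 152) (nat_lit 160931732056) (nat_lit 76) (nat_lit 209694788214) (nat_lit 32) (nat_lit 5) (nat_lit 34) (nat_lit 5) (nat_lit 33) (nat_lit 4) (nat_lit 382) (nat_lit 362) (nat_lit 276))))))) (XT.nd (nat_lit 624) (nat_lit 836) (nat_lit 0) (XT.nd (nat_lit 312) (nat_lit 380) (nat_lit 0) (XT.nd (nat_lit 156) (nat_lit 228) (nat_lit 0) (XT.nd (nat_lit 78) (nat_lit 152) (nat_lit 0) (XT.lf (nat_lit 0) (nat_lit 358739202408) (nat_lit 152) (nat_lit 143971268308) (nat_lit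 0) (nat_lit 15758300072) (nat_lit 31) (nat_lit 5) (nat_lit 33) (nat_lit 4) (nat_lit 31) (nat_lit 4) (nat_lit 383) (nat_lit 362) (nat_lit 275)) (XT.lf (nat_lit 0) (nat_lit 101933606295) (nat_lit 152) (nat_lit 130959235639) (nat_lit 76) (nat_lit 337750970827) (nat_lit 29) (nat_lit 5) (nat_lit 31) (nat_lit 5) (nat_lit 30) (nat_lit 4) (nat_lit 384) (nat_lit 362) (nat_lit 274))) (XT.nd (nat_lit 78) (nat_lit 152) (nat_lit 0) (XT.lf (nat_lit 0) (nat_lit 412636685571) (nat_lit 152) (nat_lit 121075293548) (nat_lit 0) (nat_lit 95061370240) (nat_lit 28) (nat_lit 5) (nat_lit 30) (nat_lit 4) (nat_lit 28) (nat_lit 4) (nat_lit 385) (nat_lit 362) (nat_lit 273)) (XT.lf (nat_lit 0) (nat_lit 95466132367) (nat_lit 152) (nat_lit 119005924116) (nat_lit 76) (nat_lit 479018370159) (nat_lit 26) (nat_lit 5) (nat_lit 28) (nat_lit 5) (nat_lit 27) (nat_lit 4) (nat_lit 386) (nat_lit 362) (nat_lit 272)))) (XT.nd (nat_lit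 156) (nat_lit 152) (nat_lit 0) (XT.nd (nat_lit 78) (nat_lit 152) (nat_lit 0) (XT.lf (nat_lit 0) (nat_lit 464704594676) (nat_lit 152) (nat_lit 130212827097) (nat_lit 0) (nat_lit 170653092690) (nat_lit 25) (nat_lit 5) (nat_lit 27) (nat_lit 4) (nat_lit 25) (nat_lit 4) (nat_lit 387) (nat_lit 362) (nat_lit 271)) (XT.lf (nat_lit 0) (nat_lit 65590160942) (nat_lit 152) (nat_lit 157624082124) (nat_lit 76) (nat_lit 623028286262) (nat_lit 23) (nat_lit 5) (nat_lit 25) (nat_lit 5) (nat_lit 24) (nat_lit 4) (nat_lit 388) (nat_lit 362) (nat_lit 270))) (XT.nd (nat_lit 78) (nat_lit 76) (nat_lit 0) (XT.lf (nat_lit 0) (nat_lit 496773692557) (nat_lit 152) (nat_lit 214907000841) (nat_lit 0) (nat_lit 224503584411) (nat_lit 22) (nat_lit 5) (nat_lit 24) (nat_lit 4) (nat_lit 22) (nat_lit 4) (nat_lit 389) (nat_lit 362) (nat_lit 269)) (XT.lf (nat_lit 0) (nat_lit 732666507935) (nat_lit 76) (nat_lit 288470398513) (nat_lit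 76) (nat_lit 16200209924) (nat_lit 21) (nat_lit 4) (nat_lit 22) (nat_lit 5) (nat_lit 22) (nat_lit 4) (nat_lit 390) (nat_lit 362) (nat_lit 268))))) (XT.nd (nat_lit 312) (nat_lit 380) (nat_lit 0) (XT.nd (nat_lit 156) (nat_lit 228) (nat_lit 0) (XT.nd (nat_lit 78) (nat_lit 76) (nat_lit 0) (XT.lf (nat_lit 0) (nat_lit 476024764727) (nat_lit 152) (nat_lit 450484699982) (nat_lit 0) (nat_lit 223922673486) (nat_lit 19) (nat_lit 5) (nat_lit 21) (nat_lit 4) (nat_lit 19) (nat_lit 4) (nat_lit 391) (nat_lit 362) (nat_lit 267)) (XT.lf (nat_lit 0) (nat_lit 616088184321) (nat_lit 76) (nat_lit 456958941930) (nat_lit 76) (nat_lit 204856794367) (nat_lit 18) (nat_lit 4) (nat_lit 19) (nat_lit 5) (nat_lit 19) (nat_lit 4) (nat_lit 392) (nat_lit 362) (nat_lit 266))) (XT.nd (nat_lit 78) (nat_lit 76) (nat_lit 0) (XT.lf (nat_lit 0) (nat_lit 345752032364) (nat_lit 152) (nat_lit 963584378524) (nat_lit 0) (nat_lit 112324072606)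 (nat_lit 16) (nat_lit 5) (nat_lit 18) (nat_lit 4) (nat_lit 16) (nat_lit 4) (nat_lit 393) (nat_lit 362) (nat_lit 265)) (XT.lf (nat_lit 0) (nat_lit 191357541060) (nat_lit 76) (nat_lit 812818509224) (nat_lit 76) (nat_lit 579390510033) (nat_lit 15) (nat_lit 4) (nat_lit 16) (nat_lit 5) (nat_lit 16) (nat_lit 4) (nat_lit 394) (nat_lit 362) (nat_lit 264)))) (XT.nd (nat_lit 156) (nat_lit 228) (nat_lit 0) (XT.nd (nat_lit 78) (nat_lit 76) (nat_lit 0) (XT.lf (nat_lit 0) (nat_lit 20807241559) (nat_lit 152) (nat_lit 190148971037) (nat_lit 76) (nat_lit 1556515913951) (nat_lit 14) (nat_lit 5) (nat_lit 16) (nat_lit 5) (nat_lit 15) (nat_lit 4) (nat_lit 395) (nat_lit 362) (nat_lit 263)) (XT.lf (nat_lit 0) (nat_lit 720242750329) (nat_lit 152) (nat_lit 749930036114) (nat_lit 0) (nat_lit 504105654684) (nat_lit 13) (nat_lit 5) (nat_lit 15) (nat_lit 4) (nat_lit 13) (nat_lit 4) (nat_lit 396) (nat_lit 362) (nat_lit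 262))) (XT.nd (nat_lit 78) (nat_lit 152) (nat_lit 0) (XT.lf (nat_lit 0) (nat_lit 678852689087) (nat_lit 76) (nat_lit 873581444793) (nat_lit 76) (nat_lit 657444325141) (nat_lit 12) (nat_lit 4) (nat_lit 13) (nat_lit 5) (nat_lit 13) (nat_lit 4) (nat_lit 397) (nat_lit 362) (nat_lit 261)) (XT.nd (nat_lit 78) (nat_lit 76) (nat_lit 0) (XT.lf (nat_lit 0) (nat_lit 49603611133) (nat_lit 152) (nat_lit 112961629369) (nat_lit 76) (nat_lit 2316406116533) (nat_lit 11) (nat_lit 5) (nat_lit 13) (nat_lit 5) (nat_lit 12) (nat_lit 4) (nat_lit 398) (nat_lit 362) (nat_lit 260)) (XT.lf (nat_lit 0) (nat_lit 880066294552) (nat_lit 152) (nat_lit 1222553633568) (nat_lit 0) (nat_lit 679939295773) (nat_lit 10) (nat_lit 5) (nat_lit 12) (nat_lit 4) (nat_lit 10) (nat_lit 4) (nat_lit 399) (nat_lit 362) (nat_lit 259))))))))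
noncomputable def xc90 : XT := (XT.nd (nat_lit 50232) (nat_lit 0) (nat_lit 2736) (XT.nd (nat_lit 624) (nat_lit 228) (nat_lit 0) (XT.nd (nat_lit 312) (nat_lit 76) (nat_lit 0) (XT.nd (nat_lit 156) (nat_lit 152) (nat_lit 0) (XT.nd (nat_lit 78) (nat_lit 0) (nat_lit 0) (XT.lf (nat_lit 0) (nat_lit 373435226933) (nat_lit 76) (nat_lit 1478514475733) (nat_lit 76) (nat_lit 1278387462338) (nat_lit 9) (nat_lit 4) (nat_lit 10) (nat_lit 5) (nat_lit 10) (nat_lit 4) (nat_lit 400) (nat_lit 362) (nat_lit 258)) (XT.lf (nat_lit 0) (nat_lit 2282856297410) (nat_lit 76) (nat_lit 722352534589) (nat_lit 76) (nat_lit 522225508486) (nat_lit 9) (nat_lit 4) (nat_lit 10) (nat_lit 5) (nat_lit 10) (nat_lit 4) (nat_lit 401) (nat_lit 362) (nat_lit 257))) (XT.nd (nat_lit 78) (nat_lit 0) (nat_lit 0) (XT.lf (nat_lit 0) (nat_lit 346371811243) (nat_lit 152) (nat_lit 3474675962155) (nat_lit 0) (nat_lit 161068999062) (nat_lit 7)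 (nat_lit 5) (nat_lit 9) (nat_lit 4) (nat_lit 7) (nat_lit 4) (nat_lit 402) (nat_lit 362) (nat_lit 256)) (XT.lf (nat_lit 0) (nat_lit 1372370408279) (nat_lit 152) (nat_lit 1939835769275) (nat_lit 0) (nat_lit 1187067587200) (nat_lit 7) (nat_lit 5) (nat_lit 9) (nat_lit 4) (nat_lit 7) (nat_lit 4) (nat_lit 403) (nat_lit 362) (nat_lit 255)))) (XT.nd (nat_lit 156) (nat_lit 0) (nat_lit 0) (XT.nd (nat_lit 78) (nat_lit 76) (nat_lit 0) (XT.lf (nat_lit 0) (nat_lit 2552268704928) (nat_lit 152) (nat_lit 174769732047) (nat_lit 0) (nat_lit 2366965876112) (nat_lit 7) (nat_lit 5) (nat_lit 9) (nat_lit 4) (nat_lit 7) (nat_lit 4) (nat_lit 404) (nat_lit 362) (nat_lit 254)) (XT.lf (nat_lit 0) (nat_lit 1952740014422) (nat_lit 76) (nat_lit 2003375097753) (nat_lit 76) (nat_lit 1818072262208) (nat_lit 6) (nat_lit 4) (nat_lit 7) (nat_lit 5) (nat_lit 7) (nat_lit 4) (nat_lit 405) (nat_lit 362) (nat_lit 253))) (XT.nd (nat_lit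 78) (nat_lit 0) (nat_lit 0) (XT.lf (nat_lit 0) (nat_lit 4409959599968) (nat_lit 76) (nat_lit 1165667041705) (nat_lit 76) (nat_lit 980364200309) (nat_lit 6) (nat_lit 4) (nat_lit 7) (nat_lit 5) (nat_lit 7) (nat_lit 4) (nat_lit 406) (nat_lit 362) (nat_lit 252)) (XT.lf (nat_lit 0) (nat_lit 7235761995587) (nat_lit 76) (nat_lit 202302842798) (nat_lit 76) (nat_lit 16999996314) (nat_lit 6) (nat_lit 4) (nat_lit 7) (nat_lit 5) (nat_lit 7) (nat_lit 4) (nat_lit 407) (nat_lit 362) (nat_lit 251))))) (XT.nd (nat_lit 312) (nat_lit 76) (nat_lit 0) (XT.nd (nat_lit 156) (nat_lit 0) (nat_lit 0) (XT.nd (nat_lit 78) (nat_lit 0) (nat_lit 0) (XT.lf (nat_lit 0) (nat_lit 1109933434794) (nat_lit 152) (nat_lit 6432720194888) (nat_lit 0) (nat_lit 938356720990) (nat_lit 4) (nat_lit 5) (nat_lit 6) (nat_lit 4) (nat_lit 4) (nat_lit 4) (nat_lit 408) (nat_lit 362) (nat_lit 250)) (XT.lf (nat_lit 0) (nat_lit 2417074659296) (nat_lit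 152) (nat_lit 4997265818689) (nat_lit 0) (nat_lit 2245497941931) (nat_lit 4) (nat_lit 5) (nat_lit 6) (nat_lit 4) (nat_lit 4) (nat_lit 4) (nat_lit 409) (nat_lit 362) (nat_lit 249))) (XT.nd (nat_lit 78) (nat_lit 0) (nat_lit 0) (XT.lf (nat_lit 0) (nat_lit 3920287022203) (nat_lit 152) (nat_lit 3346493379225) (nat_lit 0) (nat_lit 3748710301741) (nat_lit 4) (nat_lit 5) (nat_lit 6) (nat_lit 4) (nat_lit 4) (nat_lit 4) (nat_lit 410) (nat_lit 362) (nat_lit 248)) (XT.lf (nat_lit 0) (nat_lit 5648981200181) (nat_lit 152) (nat_lit 1448105154855) (nat_lit 0) (nat_lit 5477404477025) (nat_lit 4) (nat_lit 5) (nat_lit 6) (nat_lit 4) (nat_lit 4) (nat_lit 4) (nat_lit 411) (nat_lit 362) (nat_lit 247)))) (XT.nd (nat_lit 156) (nat_lit 0) (nat_lit 0) (XT.nd (nat_lit 78) (nat_lit 0) (nat_lit 0) (XT.lf (nat_lit 0) (nat_lit 773747201434) (nat_lit 76) (nat_lit 6881840907992) (nat_lit 76) (nat_lit 6710264182494) (nat_lit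 3) (nat_lit 4) (nat_lit 4) (nat_lit 5) (nat_lit 4) (nat_lit 4) (nat_lit 412) (nat_lit 362) (nat_lit 246)) (XT.lf (nat_lit 0) (nat_lit 3416570195556) (nat_lit 76) (nat_lit 6588775851681) (nat_lit 76) (nat_lit 6417199124147) (nat_lit 3) (nat_lit 4) (nat_lit 4) (nat_lit 5) (nat_lit 4) (nat_lit 4) (nat_lit 413) (nat_lit 362) (nat_lit 245))) (XT.nd (nat_lit 78) (nat_lit 0) (nat_lit 0) (XT.lf (nat_lit 0) (nat_lit 6455816582724) (nat_lit 76) (nat_lit 6251751065764) (nat_lit 76) (nat_lit 6080174336459) (nat_lit 3) (nat_lit 4) (nat_lit 4) (nat_lit 5) (nat_lit 4) (nat_lit 4) (nat_lit 414) (nat_lit 362) (nat_lit 244)) (XT.nd (nat_lit 78) (nat_lit 0) (nat_lit 0) (XT.lf (nat_lit 0) (nat_lit 9950949879208) (nat_lit 76) (nat_lit 5864172587038) (nat_lit 76) (nat_lit 5692595856192) (nat_lit 3) (nat_lit 4) (nat_lit 4) (nat_lit 5) (nat_lit 4) (nat_lit 4) (nat_lit 415) (nat_lit 362) (nat_lit 243)) (XT.lf (nat_lit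 0) (nat_lit 13970353127766) (nat_lit 76) (nat_lit 5418457358310) (nat_lit 76) (nat_lit 5246880626125) (nat_lit 3) (nat_lit 4) (nat_lit 4) (nat_lit 5) (nat_lit 4) (nat_lit 4) (nat_lit 416) (nat_lit 362) (nat_lit 242))))))) (XT.nd (nat_lit 624) (nat_lit 1748) (nat_lit 0) (XT.nd (nat_lit 312) (nat_lit 760) (nat_lit 0) (XT.nd (nat_lit 156) (nat_lit 456) (nat_lit 0) (XT.nd (nat_lit 78) (nat_lit 0) (nat_lit 0) (XT.lf (nat_lit 0) (nat_lit 48093601507) (nat_lit 532) (nat_lit 1232525414) (nat_lit 532) (nat_lit 1232525414) (nat_lit 78) (nat_lit 3) (nat_lit 85) (nat_lit 3) (nat_lit 85) (nat_lit 5) (nat_lit 363) (nat_lit 363) (nat_lit 294)) (XT.lf (nat_lit 76) (nat_lit 95998069003) (nat_lit 0) (nat_lit 9722781340) (nat_lit 532) (nat_lit 2794679250) (nat_lit 79) (nat_lit 5) (nat_lit 78) (nat_lit 3) (nat_lit 85) (nat_lit 5) (nat_lit 364) (nat_lit 363) (nat_lit 293))) (XT.nd (nat_lit 78) (nat_lit 0) (nat_lit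 76) (XT.lf (nat_lit 0) (nat_lit 4376239271) (nat_lit 532) (nat_lit 21888367929) (nat_lit 608) (nat_lit 90383675704) (nat_lit 72) (nat_lit 5) (nat_lit 79) (nat_lit 5) (nat_lit 80) (nat_lit 5) (nat_lit 365) (nat_lit 363) (nat_lit 292)) (XT.lf (nat_lit 0) (nat_lit 17418078575) (nat_lit 532) (nat_lit 30295641670) (nat_lit 608) (nat_lit 77884561731) (nat_lit 73) (nat_lit 5) (nat_lit 80) (nat_lit 5) (nat_lit 81) (nat_lit 5) (nat_lit 366) (nat_lit 363) (nat_lit 291)))) (XT.nd (nat_lit 156) (nat_lit 456) (nat_lit 0) (XT.nd (nat_lit 78) (nat_lit 456) (nat_lit 0) (XT.lf (nat_lit 0) (nat_lit 37725068833) (nat_lit 532) (nat_lit 37311851852) (nat_lit 76) (nat_lit 60429150764) (nat_lit 74) (nat_lit 5) (nat_lit 81) (nat_lit 5) (nat_lit 75) (nat_lit 5) (nat_lit 367) (nat_lit 363) (nat_lit 290)) (XT.lf (nat_lit 0) (nat_lit 66762257282) (nat_lit 532) (nat_lit 42508749305) (nat_lit 76) (nat_lit 37088291254)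 (nat_lit 68) (nat_lit 5) (nat_lit 75) (nat_lit 5) (nat_lit 69) (nat_lit 5) (nat_lit 368) (nat_lit 363) (nat_lit 289))) (XT.nd (nat_lit 78) (nat_lit 228) (nat_lit 0) (XT.lf (nat_lit 0) (nat_lit 106237938484) (nat_lit 304) (nat_lit 45379955863) (nat_lit 76) (nat_lit 6781981099) (nat_lit 65) (nat_lit 5) (nat_lit 69) (nat_lit 5) (nat_lit 66) (nat_lit 5) (nat_lit 369) (nat_lit 363) (nat_lit 288)) (XT.lf (nat_lit 0) (nat_lit 125528425269) (nat_lit 228) (nat_lit 33416326258) (nat_lit 304) (nat_lit 12717006149) (nat_lit 62) (nat_lit 5) (nat_lit 65) (nat_lit 5) (nat_lit 66) (nat_lit 5) (nat_lit 370) (nat_lit 363) (nat_lit 287))))) (XT.nd (nat_lit 312) (nat_lit 912) (nat_lit 0) (XT.nd (nat_lit 156) (nat_lit 380) (nat_lit 0) (XT.nd (nat_lit 78) (nat_lit 228) (nat_lit 0) (XT.lf (nat_lit 0) (nat_lit 38450706947) (nat_lit 228) (nat_lit 44657568581) (nat_lit 76) (nat_lit 103146713724) (nat_lit 59) (nat_lit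 5) (nat_lit 62) (nat_lit 5) (nat_lit 60) (nat_lit 5) (nat_lit 371) (nat_lit 363) (nat_lit 286)) (XT.lf (nat_lit 0) (nat_lit 104291391266) (nat_lit 304) (nat_lit 39730125303) (nat_lit 76) (nat_lit 58369200064) (nat_lit 56) (nat_lit 5) (nat_lit 60) (nat_lit 5) (nat_lit 57) (nat_lit 5) (nat_lit 372) (nat_lit 363) (nat_lit 285))) (XT.nd (nat_lit 78) (nat_lit 228) (nat_lit 0) (XT.lf (nat_lit 0) (nat_lit 188257886064) (nat_lit 228) (nat_lit 30221393402) (nat_lit 76) (nat_lit 1807547246) (nat_lit 54) (nat_lit 5) (nat_lit 57) (nat_lit 5) (nat_lit 55) (nat_lit 5) (nat_lit 373) (nat_lit 363) (nat_lit 284)) (XT.lf (nat_lit 0) (nat_lit 52562010175) (nat_lit 228) (nat_lit 18247446694) (nat_lit 76) (nat_lit 169108639630) (nat_lit 51) (nat_lit 5) (nat_lit 54) (nat_lit 5) (nat_lit 52) (nat_lit 5) (nat_lit 374) (nat_lit 363) (nat_lit 283)))) (XT.nd (nat_lit 156) (nat_lit 456) (nat_lit 0) (XT.nd (nat_lit 78)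 (nat_lit 304) (nat_lit 0) (XT.lf (nat_lit 0) (nat_lit 157818178932) (nat_lit 228) (nat_lit 1437443950) (nat_lit 76) (nat_lit 102382036702) (nat_lit 49) (nat_lit 5) (nat_lit 52) (nat_lit 5) (nat_lit 50) (nat_lit 5) (nat_lit 375) (nat_lit 363) (nat_lit 282)) (XT.lf (nat_lit 0) (nat_lit 3871323542) (nat_lit 152) (nat_lit 262564586965) (nat_lit 76) (nat_lit 19295290186) (nat_lit 45) (nat_lit 5) (nat_lit 47) (nat_lit 5) (nat_lit 46) (nat_lit 5) (nat_lit 376) (nat_lit 363) (nat_lit 281))) (XT.nd (nat_lit 78) (nat_lit 304) (nat_lit 0) (XT.lf (nat_lit 0) (nat_lit 50601345257) (nat_lit 152) (nat_lit 84667335861) (nat_lit 228) (nat_lit 176858346805) (nat_lit 43) (nat_lit 5) (nat_lit 45) (nat_lit 5) (nat_lit 46) (nat_lit 5) (nat_lit 377) (nat_lit 363) (nat_lit 280)) (XT.nd (nat_lit 78) (nat_lit 228) (nat_lit 0) (XT.lf (nat_lit 0) (nat_lit 85876965946) (nat_lit 76) (nat_lit 213397309170) (nat_lit 152)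 (nat_lit 42176063588) (nat_lit 42) (nat_lit 5) (nat_lit 43) (nat_lit 5) (nat_lit 44) (nat_lit 4) (nat_lit 378) (nat_lit 363) (nat_lit 279)) (XT.lf (nat_lit 0) (nat_lit 120477744429) (nat_lit 228) (nat_lit 246271184224) (nat_lit 76) (nat_lit 7133780350) (nat_lit 39) (nat_lit 5) (nat_lit 42) (nat_lit 5) (nat_lit 40) (nat_lit 4) (nat_lit 379) (nat_lit 363) (nat_lit 278))))))))
noncomputable def xc91 : XT := (XT.nd (nat_lit 1326) (nat_lit 836) (nat_lit 0) (XT.nd (nat_lit 624) (nat_lit 912) (nat_lit 0) (XT.nd (nat_lit 312) (nat_lit 456) (nat_lit 0) (XT.nd (nat_lit 156) (nat_lit 228) (nat_lit 0) (XT.nd (nat_lit 78) (nat_lit 228) (nat_lit 0) (XT.lf (nat_lit 0) (nat_lit 174639753476) (nat_lit 76) (nat_lit 148199234594) (nat_lit 152) (nat_lit 86828775624) (nat_lit 38) (nat_lit 5) (nat_lit 39) (nat_lit 5) (nat_lit 40) (nat_lit 4) (nat_lit 380) (nat_lit 363) (nat_lit 277)) (XT.lf (nat_lit 0) (nat_lit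 115318276022) (nat_lit 228) (nat_lit 220198849030) (nat_lit 76) (nat_lit 113836051853) (nat_lit 35) (nat_lit 5) (nat_lit 38) (nat_lit 5) (nat_lit 36) (nat_lit 4) (nat_lit 381) (nat_lit 363) (nat_lit 276))) (XT.nd (nat_lit 78) (nat_lit 152) (nat_lit 0) (XT.lf (nat_lit 0) (nat_lit 290611362717) (nat_lit 76) (nat_lit 70288897036) (nat_lit 152) (nat_lit 132450390419) (nat_lit 34) (nat_lit 5) (nat_lit 35) (nat_lit 5) (nat_lit 36) (nat_lit 4) (nat_lit 382) (nat_lit 363) (nat_lit 275)) (XT.lf (nat_lit 0) (nat_lit 115826862916) (nat_lit 152) (nat_lit 185062950106) (nat_lit 76) (nat_lit 241152656230) (nat_lit 32) (nat_lit 5) (nat_lit 34) (nat_lit 5) (nat_lit 33) (nat_lit 4) (nat_lit 383) (nat_lit 363) (nat_lit 274)))) (XT.nd (nat_lit 156) (nat_lit 228) (nat_lit 0) (XT.nd (nat_lit 78) (nat_lit 152) (nat_lit 0) (XT.lf (nat_lit 0) (nat_lit 412554298079) (nat_lit 152) (nat_lit 165558898148) (nat_lit 0)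 (nat_lit 18125552612) (nat_lit 31) (nat_lit 5) (nat_lit 33) (nat_lit 4) (nat_lit 31) (nat_lit 4) (nat_lit 384) (nat_lit 363) (nat_lit 273)) (XT.lf (nat_lit 0) (nat_lit 117227590269) (nat_lit 152) (nat_lit 150595534943) (nat_lit 76) (nat_lit 388416943745) (nat_lit 29) (nat_lit 5) (nat_lit 31) (nat_lit 5) (nat_lit 30) (nat_lit 4) (nat_lit 385) (nat_lit 363) (nat_lit 272))) (XT.nd (nat_lit 78) (nat_lit 152) (nat_lit 0) (XT.lf (nat_lit 0) (nat_lit 474535864655) (nat_lit 152) (nat_lit 139229436285) (nat_lit 0) (nat_lit 109323756484) (nat_lit 28) (nat_lit 5) (nat_lit 30) (nat_lit 4) (nat_lit 28) (nat_lit 4) (nat_lit 386) (nat_lit 363) (nat_lit 271)) (XT.lf (nat_lit 0) (nat_lit 109789493710) (nat_lit 152) (nat_lit 136850085344) (nat_lit 76) (nat_lit 550874136073) (nat_lit 26) (nat_lit 5) (nat_lit 28) (nat_lit 5) (nat_lit 27) (nat_lit 4) (nat_lit 387) (nat_lit 363) (nat_lit 270))))) (XT.nd (nat_lit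 312) (nat_lit 532) (nat_lit 0) (XT.nd (nat_lit 156) (nat_lit 152) (nat_lit 0) (XT.nd (nat_lit 78) (nat_lit 152) (nat_lit 0) (XT.lf (nat_lit 0) (nat_lit 534413497139) (nat_lit 152) (nat_lit 149738414353) (nat_lit 0) (nat_lit 196253922911) (nat_lit 25) (nat_lit 5) (nat_lit 27) (nat_lit 4) (nat_lit 25) (nat_lit 4) (nat_lit 388) (nat_lit 363) (nat_lit 269)) (XT.lf (nat_lit 0) (nat_lit 75431695061) (nat_lit 152) (nat_lit 181261735379) (nat_lit 76) (nat_lit 716485237354) (nat_lit 23) (nat_lit 5) (nat_lit 25) (nat_lit 5) (nat_lit 24) (nat_lit 4) (nat_lit 389) (nat_lit 363) (nat_lit 268))) (XT.nd (nat_lit 78) (nat_lit 76) (nat_lit 0) (XT.lf (nat_lit 0) (nat_lit 571292560079) (nat_lit 152) (nat_lit 247137441388) (nat_lit 0) (nat_lit 258181692805) (nat_lit 22) (nat_lit 5) (nat_lit 24) (nat_lit 4) (nat_lit 22) (nat_lit 4) (nat_lit 390) (nat_lit 363) (nat_lit 267)) (XT.lf (nat_lit 0) (nat_lit 842571618882)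 (nat_lit 76) (nat_lit 331738393667) (nat_lit 76) (nat_lit 18627465566) (nat_lit 21) (nat_lit 4) (nat_lit 22) (nat_lit 5) (nat_lit 22) (nat_lit 4) (nat_lit 391) (nat_lit 363) (nat_lit 266)))) (XT.nd (nat_lit 156) (nat_lit 304) (nat_lit 0) (XT.nd (nat_lit 78) (nat_lit 76) (nat_lit 0) (XT.lf (nat_lit 0) (nat_lit 547430946724) (nat_lit 152) (nat_lit 518052443007) (nat_lit 0) (nat_lit 257513371729) (nat_lit 19) (nat_lit 5) (nat_lit 21) (nat_lit 4) (nat_lit 19) (nat_lit 4) (nat_lit 392) (nat_lit 363) (nat_lit 265)) (XT.lf (nat_lit 0) (nat_lit 708505953935) (nat_lit 76) (nat_lit 525500495955) (nat_lit 76) (nat_lit 235582878372) (nat_lit 18) (nat_lit 4) (nat_lit 19) (nat_lit 5) (nat_lit 19) (nat_lit 4) (nat_lit 393) (nat_lit 363) (nat_lit 264))) (XT.nd (nat_lit 78) (nat_lit 152) (nat_lit 0) (XT.lf (nat_lit 0) (nat_lit 397617003308) (nat_lit 152) (nat_lit 1108117648850) (nat_lit 0) (nat_lit 129174730516)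 (nat_lit 16) (nat_lit 5) (nat_lit 18) (nat_lit 4) (nat_lit 16) (nat_lit 4) (nat_lit 394) (nat_lit 363) (nat_lit 263)) (XT.nd (nat_lit 78) (nat_lit 76) (nat_lit 0) (XT.lf (nat_lit 0) (nat_lit 220065187380) (nat_lit 76) (nat_lit 934739250567) (nat_lit 76) (nat_lit 666296947958) (nat_lit 15) (nat_lit 4) (nat_lit 16) (nat_lit 5) (nat_lit 16) (nat_lit 4) (nat_lit 395) (nat_lit 363) (nat_lit 262)) (XT.lf (nat_lit 0) (nat_lit 23930094401) (nat_lit 152) (nat_lit 218667732181) (nat_lit 76) (nat_lit 1789994977577) (nat_lit 14) (nat_lit 5) (nat_lit 16) (nat_lit 5) (nat_lit 15) (nat_lit 4) (nat_lit 396) (nat_lit 363) (nat_lit 261))))))) (XT.nd (nat_lit 702) (nat_lit 304) (nat_lit 0) (XT.nd (nat_lit 312) (nat_lit 228) (nat_lit 0) (XT.nd (nat_lit 156) (nat_lit 152) (nat_lit 0) (XT.nd (nat_lit 78) (nat_lit 76) (nat_lit 0) (XT.lf (nat_lit 0) (nat_lit 828280818038) (nat_lit 152) (nat_lit 862416171256) (nat_lit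 0) (nat_lit 579723085555) (nat_lit 13) (nat_lit 5) (nat_lit 15) (nat_lit 4) (nat_lit 13) (nat_lit 4) (nat_lit 397) (nat_lit 363) (nat_lit 260)) (XT.lf (nat_lit 0) (nat_lit 780683677449) (nat_lit 76) (nat_lit 1004617089977) (nat_lit 76) (nat_lit 756059339341) (nat_lit 12) (nat_lit 4) (nat_lit 13) (nat_lit 5) (nat_lit 13) (nat_lit 4) (nat_lit 398) (nat_lit 363) (nat_lit 259))) (XT.nd (nat_lit 78) (nat_lit 76) (nat_lit 0) (XT.lf (nat_lit 0) (nat_lit 57045503067) (nat_lit 152) (nat_lit 129903120040) (nat_lit 76) (nat_lit 2663868329439) (nat_lit 11) (nat_lit 5) (nat_lit 13) (nat_lit 5) (nat_lit 12) (nat_lit 4) (nat_lit 399) (nat_lit 363) (nat_lit 258)) (XT.lf (nat_lit 0) (nat_lit 1012077504423) (nat_lit 152) (nat_lit 1405934090081) (nat_lit 0) (nat_lit 781931411695) (nat_lit 10) (nat_lit 5) (nat_lit 12) (nat_lit 4) (nat_lit 10) (nat_lit 4) (nat_lit 400) (nat_lit 363) (nat_lit 257)))) (XT.nd (nat_lit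 156) (nat_lit 152) (nat_lit 0) (XT.nd (nat_lit 78) (nat_lit 0) (nat_lit 0) (XT.lf (nat_lit 0) (nat_lit 429452880389) (nat_lit 76) (nat_lit 1700290435261) (nat_lit 76) (nat_lit 1470144331480) (nat_lit 9) (nat_lit 4) (nat_lit 10) (nat_lit 5) (nat_lit 10) (nat_lit 4) (nat_lit 401) (nat_lit 363) (nat_lit 256)) (XT.lf (nat_lit 0) (nat_lit 2625286802383) (nat_lit 76) (nat_lit 830704361011) (nat_lit 76) (nat_lit 600558247620) (nat_lit 9) (nat_lit 4) (nat_lit 10) (nat_lit 5) (nat_lit 10) (nat_lit 4) (nat_lit 402) (nat_lit 363) (nat_lit 255))) (XT.nd (nat_lit 78) (nat_lit 0) (nat_lit 0) (XT.lf (nat_lit 0) (nat_lit 398328551369) (nat_lit 152) (nat_lit 3995875368979) (nat_lit 0) (nat_lit 185230290493) (nat_lit 7) (nat_lit 5) (nat_lit 9) (nat_lit 4) (nat_lit 7) (nat_lit 4) (nat_lit 403) (nat_lit 363) (nat_lit 254)) (XT.nd (nat_lit 78) (nat_lit 0) (nat_lit 0) (XT.lf (nat_lit 0) (nat_lit 1578226811642)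 (nat_lit 152) (nat_lit 2230809406406) (nat_lit 0) (nat_lit 1365128544037) (nat_lit 7) (nat_lit 5) (nat_lit 9) (nat_lit 4) (nat_lit 7) (nat_lit 4) (nat_lit 404) (nat_lit 363) (nat_lit 253)) (XT.lf (nat_lit 0) (nat_lit 2935109742948) (nat_lit 152) (nat_lit 200983689018) (nat_lit 0) (nat_lit 2722011469492) (nat_lit 7) (nat_lit 5) (nat_lit 9) (nat_lit 4) (nat_lit 7) (nat_lit 4) (nat_lit 405) (nat_lit 363) (nat_lit 252)))))) (XT.nd (nat_lit 312) (nat_lit 76) (nat_lit 0) (XT.nd (nat_lit 156) (nat_lit 152) (nat_lit 0) (XT.nd (nat_lit 78) (nat_lit 0) (nat_lit 0) (XT.lf (nat_lit 0) (nat_lit 2245652392214) (nat_lit 76) (nat_lit 2303880656637) (nat_lit 76) (nat_lit 2090782378094) (nat_lit 6) (nat_lit 4) (nat_lit 7) (nat_lit 5) (nat_lit 7) (nat_lit 4) (nat_lit 406) (nat_lit 363) (nat_lit 251)) (XT.lf (nat_lit 0) (nat_lit 5071454736161) (nat_lit 76) (nat_lit 1340516484240) (nat_lit 76) (nat_lit 1127418201273)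 (nat_lit 6) (nat_lit 4) (nat_lit 7) (nat_lit 5) (nat_lit 7) (nat_lit 4) (nat_lit 407) (nat_lit 363) (nat_lit 250))) (XT.nd (nat_lit 78) (nat_lit 152) (nat_lit 0) (XT.lf (nat_lit 0) (nat_lit 8321127335098) (nat_lit 76) (nat_lit 232647735547) (nat_lit 76) (nat_lit 19549448733) (nat_lit 6) (nat_lit 4) (nat_lit 7) (nat_lit 5) (nat_lit 7) (nat_lit 4) (nat_lit 408) (nat_lit 363) (nat_lit 249)) (XT.lf (nat_lit 0) (nat_lit 1276423937464) (nat_lit 152) (nat_lit 7397627220973) (nat_lit 0) (nat_lit 1079110705835) (nat_lit 4) (nat_lit 5) (nat_lit 6) (nat_lit 4) (nat_lit 4) (nat_lit 4) (nat_lit 409) (nat_lit 363) (nat_lit 248)))) (XT.nd (nat_lit 156) (nat_lit 76) (nat_lit 0) (XT.nd (nat_lit 78) (nat_lit 0) (nat_lit 0) (XT.lf (nat_lit 0) (nat_lit 2779636282061) (nat_lit 152) (nat_lit 5746854819190) (nat_lit 0) (nat_lit 2582323047739) (nat_lit 4) (nat_lit 5) (nat_lit 6) (nat_lit 4) (nat_lit 4) (nat_lit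 4) (nat_lit 410) (nat_lit 363) (nat_lit 247)) (XT.lf (nat_lit 0) (nat_lit 4508330444117) (nat_lit 152) (nat_lit 3848466627585) (nat_lit 0) (nat_lit 4311017207452) (nat_lit 4) (nat_lit 5) (nat_lit 6) (nat_lit 4) (nat_lit 4) (nat_lit 4) (nat_lit 411) (nat_lit 363) (nat_lit 246))) (XT.nd (nat_lit 78) (nat_lit 76) (nat_lit 0) (XT.lf (nat_lit 0) (nat_lit 6496328700715) (nat_lit 152) (nat_lit 1665320268497) (nat_lit 0) (nat_lit 6299015462014) (nat_lit 4) (nat_lit 5) (nat_lit 6) (nat_lit 4) (nat_lit 4) (nat_lit 4) (nat_lit 412) (nat_lit 363) (nat_lit 245)) (XT.nd (nat_lit 78) (nat_lit 0) (nat_lit 0) (XT.lf (nat_lit 0) (nat_lit 889809885405) (nat_lit 76) (nat_lit 7914116733657) (nat_lit 76) (nat_lit 7716803493185) (nat_lit 3) (nat_lit 4) (nat_lit 4) (nat_lit 5) (nat_lit 4) (nat_lit 4) (nat_lit 413) (nat_lit 363) (nat_lit 244)) (XT.lf (nat_lit 0) (nat_lit 3929056249894) (nat_lit 76) (nat_lit 7577091959405)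 (nat_lit 76) (nat_lit 7379778717392) (nat_lit 3) (nat_lit 4) (nat_lit 4) (nat_lit 5) (nat_lit 4) (nat_lit 4) (nat_lit 414) (nat_lit 363) (nat_lit 243))))))))
noncomputable def xc92 : XT := (XT.nd (nat_lit 50310) (nat_lit 0) (nat_lit 988) (XT.nd (nat_lit 49608) (nat_lit 0) (nat_lit 3040) (XT.nd (nat_lit 49296) (nat_lit 0) (nat_lit 4940) (XT.nd (nat_lit 49140) (nat_lit 0) (nat_lit 5700) (XT.nd (nat_lit 78) (nat_lit 0) (nat_lit 0) (XT.lf (nat_lit 0) (nat_lit 7424189526658) (nat_lit 76) (nat_lit 7189513490821) (nat_lit 76) (nat_lit 6992200247470) (nat_lit 3) (nat_lit 4) (nat_lit 4) (nat_lit 5) (nat_lit 4) (nat_lit 4) (nat_lit 415) (nat_lit 363) (nat_lit 242)) (XT.lf (nat_lit 0) (nat_lit 11443592758068) (nat_lit 76) (nat_lit 6743798270913) (nat_lit 76) (nat_lit 6546485026397) (nat_lit 3) (nat_lit 4) (nat_lit 4) (nat_lit 5) (nat_lit 4) (nat_lit 4) (nat_lit 416) (nat_lit 363) (nat_lit 241))) (XT.nd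 (nat_lit 78) (nat_lit 0) (nat_lit 0) (XT.lf (nat_lit 0) (nat_lit 55318043641) (nat_lit 532) (nat_lit 1411785106) (nat_lit 532) (nat_lit 1411785106) (nat_lit 78) (nat_lit 3) (nat_lit 85) (nat_lit 3) (nat_lit 85) (nat_lit 5) (nat_lit 364) (nat_lit 364) (nat_lit 292)) (XT.lf (nat_lit 76) (nat_lit 110408066334) (nat_lit 0) (nat_lit 11189249238) (nat_lit 532) (nat_lit 3194069176) (nat_lit 79) (nat_lit 5) (nat_lit 78) (nat_lit 3) (nat_lit 85) (nat_lit 5) (nat_lit 365) (nat_lit 364) (nat_lit 291)))) (XT.nd (nat_lit 156) (nat_lit 304) (nat_lit 0) (XT.nd (nat_lit 78) (nat_lit 0) (nat_lit 76) (XT.lf (nat_lit 0) (nat_lit 5049138427) (nat_lit 532) (nat_lit 25159807375) (nat_lit 608) (nat_lit 103935256623) (nat_lit 72) (nat_lit 5) (nat_lit 79) (nat_lit 5) (nat_lit 80) (nat_lit 5) (nat_lit 366) (nat_lit 364) (nat_lit 290)) (XT.lf (nat_lit 0) (nat_lit 20045275922) (nat_lit 532) (nat_lit 34827910713) (nat_lit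 608) (nat_lit 89563673703) (nat_lit 73) (nat_lit 5) (nat_lit 80) (nat_lit 5) (nat_lit 81) (nat_lit 5) (nat_lit 367) (nat_lit 364) (nat_lit 289))) (XT.nd (nat_lit 78) (nat_lit 456) (nat_lit 0) (XT.lf (nat_lit 0) (nat_lit 43396647708) (nat_lit 532) (nat_lit 42896497849) (nat_lit 76) (nat_lit 69491806697) (nat_lit 74) (nat_lit 5) (nat_lit 81) (nat_lit 5) (nat_lit 75) (nat_lit 5) (nat_lit 368) (nat_lit 364) (nat_lit 288)) (XT.lf (nat_lit 0) (nat_lit 76788002088) (nat_lit 532) (nat_lit 48873032449) (nat_lit 76) (nat_lit 42651241634) (nat_lit 68) (nat_lit 5) (nat_lit 75) (nat_lit 5) (nat_lit 69) (nat_lit 5) (nat_lit 369) (nat_lit 364) (nat_lit 287))))) (XT.nd (nat_lit 312) (nat_lit 988) (nat_lit 0) (XT.nd (nat_lit 156) (nat_lit 456) (nat_lit 0) (XT.nd (nat_lit 78) (nat_lit 228) (nat_lit 0) (XT.lf (nat_lit 0) (nat_lit 122183832426) (nat_lit 304) (nat_lit 52175140107) (nat_lit 76) (nat_lit 7800064629)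 (nat_lit 65) (nat_lit 5) (nat_lit 69) (nat_lit 5) (nat_lit 66) (nat_lit 5) (nat_lit 370) (nat_lit 364) (nat_lit 286)) (XT.lf (nat_lit 0) (nat_lit 144368498610) (nat_lit 228) (nat_lit 38427097938) (nat_lit 304) (nat_lit 14614691286) (nat_lit 62) (nat_lit 5) (nat_lit 65) (nat_lit 5) (nat_lit 66) (nat_lit 5) (nat_lit 371) (nat_lit 364) (nat_lit 285))) (XT.nd (nat_lit 78) (nat_lit 228) (nat_lit 0) (XT.lf (nat_lit 0) (nat_lit 44226758568) (nat_lit 228) (nat_lit 51345227736) (nat_lit 76) (nat_lit 118620573346) (nat_lit 59) (nat_lit 5) (nat_lit 62) (nat_lit 5) (nat_lit 60) (nat_lit 5) (nat_lit 372) (nat_lit 364) (nat_lit 284)) (XT.lf (nat_lit 0) (nat_lit 119942744768) (nat_lit 304) (nat_lit 45679047352) (nat_lit 76) (nat_lit 67126918386) (nat_lit 56) (nat_lit 5) (nat_lit 60) (nat_lit 5) (nat_lit 57) (nat_lit 5) (nat_lit 373) (nat_lit 364) (nat_lit 283)))) (XT.nd (nat_lit 156) (nat_lit 608) (nat_lit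 0) (XT.nd (nat_lit 78) (nat_lit 228) (nat_lit 0) (XT.lf (nat_lit 0) (nat_lit 216503517710) (nat_lit 228) (nat_lit 34744418173) (nat_lit 76) (nat_lit 2081357165) (nat_lit 54) (nat_lit 5) (nat_lit 57) (nat_lit 5) (nat_lit 55) (nat_lit 5) (nat_lit 374) (nat_lit 364) (nat_lit 282)) (XT.lf (nat_lit 0) (nat_lit 60452742512) (nat_lit 228) (nat_lit 20974901443) (nat_lit 76) (nat_lit 194477651129) (nat_lit 51) (nat_lit 5) (nat_lit 54) (nat_lit 5) (nat_lit 52) (nat_lit 5) (nat_lit 375) (nat_lit 364) (nat_lit 281))) (XT.nd (nat_lit 78) (nat_lit 456) (nat_lit 0) (XT.lf (nat_lit 0) (nat_lit 181496783593) (nat_lit 228) (nat_lit 1643823635) (nat_lit 76) (nat_lit 117742229828) (nat_lit 49) (nat_lit 5) (nat_lit 52) (nat_lit 5) (nat_lit 50) (nat_lit 5) (nat_lit 376) (nat_lit 364) (nat_lit 280)) (XT.nd (nat_lit 78) (nat_lit 152) (nat_lit 0) (XT.lf (nat_lit 0) (nat_lit 4457781843) (nat_lit 152) (nat_lit 301939701259)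 (nat_lit 76) (nat_lit 22192935915) (nat_lit 45) (nat_lit 5) (nat_lit 47) (nat_lit 5) (nat_lit 46) (nat_lit 5) (nat_lit 377) (nat_lit 364) (nat_lit 279)) (XT.lf (nat_lit 0) (nat_lit 58200310426) (nat_lit 152) (nat_lit 97363892114) (nat_lit 228) (nat_lit 203381461162) (nat_lit 43) (nat_lit 5) (nat_lit 45) (nat_lit 5) (nat_lit 46) (nat_lit 5) (nat_lit 378) (nat_lit 364) (nat_lit 278))))))) (XT.nd (nat_lit 624) (nat_lit 988) (nat_lit 0) (XT.nd (nat_lit 312) (nat_lit 456) (nat_lit 0) (XT.nd (nat_lit 156) (nat_lit 304) (nat_lit 0) (XT.nd (nat_lit 78) (nat_lit 228) (nat_lit 0) (XT.lf (nat_lit 0) (nat_lit 98766837414) (nat_lit 76) (nat_lit 245403391826) (nat_lit 152) (nat_lit 48497274487) (nat_lit 42) (nat_lit 5) (nat_lit 43) (nat_lit 5) (nat_lit 44) (nat_lit 4) (nat_lit 379) (nat_lit 364) (nat_lit 277)) (XT.lf (nat_lit 0) (nat_lit 138553970773) (nat_lit 228) (nat_lit 283203723332) (nat_lit 76) (nat_lit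 8207055466) (nat_lit 39) (nat_lit 5) (nat_lit 42) (nat_lit 5) (nat_lit 40) (nat_lit 4) (nat_lit 380) (nat_lit 364) (nat_lit 276))) (XT.nd (nat_lit 78) (nat_lit 228) (nat_lit 0) (XT.lf (nat_lit 0) (nat_lit 200843166137) (nat_lit 76) (nat_lit 170425818595) (nat_lit 152) (nat_lit 99848611112) (nat_lit 38) (nat_lit 5) (nat_lit 39) (nat_lit 5) (nat_lit 40) (nat_lit 4) (nat_lit 381) (nat_lit 364) (nat_lit 275)) (XT.lf (nat_lit 0) (nat_lit 132619963713) (nat_lit 228) (nat_lit 253221417494) (nat_lit 76) (nat_lit 130914456106) (nat_lit 35) (nat_lit 5) (nat_lit 38) (nat_lit 5) (nat_lit 36) (nat_lit 4) (nat_lit 382) (nat_lit 364) (nat_lit 274)))) (XT.nd (nat_lit 156) (nat_lit 228) (nat_lit 0) (XT.nd (nat_lit 78) (nat_lit 152) (nat_lit 0) (XT.lf (nat_lit 0) (nat_lit 334209711585) (nat_lit 76) (nat_lit 80829178483) (nat_lit 152) (nat_lit 152314069949) (nat_lit 34) (nat_lit 5) (nat_lit 35) (nat_lit 5)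 (nat_lit 36) (nat_lit 4) (nat_lit 383) (nat_lit 364) (nat_lit 273)) (XT.lf (nat_lit 0) (nat_lit 133204317110) (nat_lit 152) (nat_lit 212815933825) (nat_lit 76) (nat_lit 277328314426) (nat_lit 32) (nat_lit 5) (nat_lit 34) (nat_lit 5) (nat_lit 33) (nat_lit 4) (nat_lit 384) (nat_lit 364) (nat_lit 272))) (XT.nd (nat_lit 78) (nat_lit 152) (nat_lit 0) (XT.lf (nat_lit 0) (nat_lit 474440630170) (nat_lit 152) (nat_lit 190386638046) (nat_lit 0) (nat_lit 20847037701) (nat_lit 31) (nat_lit 5) (nat_lit 33) (nat_lit 4) (nat_lit 31) (nat_lit 4) (nat_lit 385) (nat_lit 364) (nat_lit 271)) (XT.lf (nat_lit 0) (nat_lit 134814710307) (nat_lit 152) (nat_lit 173179129046) (nat_lit 76) (nat_lit 446682001219) (nat_lit 29) (nat_lit 5) (nat_lit 31) (nat_lit 5) (nat_lit 30) (nat_lit 4) (nat_lit 386) (nat_lit 364) (nat_lit 270))))) (XT.nd (nat_lit 312) (nat_lit 532) (nat_lit 0) (XT.nd (nat_lit 156) (nat_lit 228) (nat_lit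 0) (XT.nd (nat_lit 78) (nat_lit 152) (nat_lit 0) (XT.lf (nat_lit 0) (nat_lit 545719024124) (nat_lit 152) (nat_lit 160108444321) (nat_lit 0) (nat_lit 125724725028) (nat_lit 28) (nat_lit 5) (nat_lit 30) (nat_lit 4) (nat_lit 28) (nat_lit 4) (nat_lit 387) (nat_lit 364) (nat_lit 269)) (XT.lf (nat_lit 0) (nat_lit 126260520025) (nat_lit 152) (nat_lit 157372511273) (nat_lit 76) (nat_lit 633507532771) (nat_lit 26) (nat_lit 5) (nat_lit 28) (nat_lit 5) (nat_lit 27) (nat_lit 4) (nat_lit 388) (nat_lit 364) (nat_lit 268))) (XT.nd (nat_lit 78) (nat_lit 152) (nat_lit 0) (XT.lf (nat_lit 0) (nat_lit 614577951398) (nat_lit 152) (nat_lit 172194384969) (nat_lit 0) (nat_lit 225694178696) (nat_lit 25) (nat_lit 5) (nat_lit 27) (nat_lit 4) (nat_lit 25) (nat_lit 4) (nat_lit 389) (nat_lit 364) (nat_lit 267)) (XT.lf (nat_lit 0) (nat_lit 86748725297) (nat_lit 152) (nat_lit 208446489777) (nat_lit 76) (nat_lit 823960070710)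 (nat_lit 23) (nat_lit 5) (nat_lit 25) (nat_lit 5) (nat_lit 24) (nat_lit 4) (nat_lit 390) (nat_lit 364) (nat_lit 266)))) (XT.nd (nat_lit 156) (nat_lit 380) (nat_lit 0) (XT.nd (nat_lit 78) (nat_lit 76) (nat_lit 0) (XT.lf (nat_lit 0) (nat_lit 656988571606) (nat_lit 152) (nat_lit 284203815948) (nat_lit 0) (nat_lit 296910890569) (nat_lit 22) (nat_lit 5) (nat_lit 24) (nat_lit 4) (nat_lit 22) (nat_lit 4) (nat_lit 391) (nat_lit 364) (nat_lit 265)) (XT.lf (nat_lit 0) (nat_lit 968961244328) (nat_lit 76) (nat_lit 381497213494) (nat_lit 76) (nat_lit 21419486462) (nat_lit 21) (nat_lit 4) (nat_lit 22) (nat_lit 5) (nat_lit 22) (nat_lit 4) (nat_lit 392) (nat_lit 364) (nat_lit 264))) (XT.nd (nat_lit 78) (nat_lit 228) (nat_lit 0) (XT.lf (nat_lit 0) (nat_lit 629547454356) (nat_lit 152) (nat_lit 595756557495) (nat_lit 0) (nat_lit 296142114516) (nat_lit 19) (nat_lit 5) (nat_lit 21) (nat_lit 4) (nat_lit 19) (nat_lit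 4) (nat_lit 393) (nat_lit 364) (nat_lit 263)) (XT.nd (nat_lit 78) (nat_lit 152) (nat_lit 0) (XT.lf (nat_lit 0) (nat_lit 814785281404) (nat_lit 76) (nat_lit 604323840847) (nat_lit 76) (nat_lit 270918468806) (nat_lit 18) (nat_lit 4) (nat_lit 19) (nat_lit 5) (nat_lit 19) (nat_lit 4) (nat_lit 394) (nat_lit 364) (nat_lit 262)) (XT.lf (nat_lit 0) (nat_lit 457261191678) (nat_lit 152) (nat_lit 1274331979389) (nat_lit 0) (nat_lit 148552487934) (nat_lit 16) (nat_lit 5) (nat_lit 18) (nat_lit 4) (nat_lit 16) (nat_lit 4) (nat_lit 395) (nat_lit 364) (nat_lit 261))))))))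
noncomputable def xc93 : XT := (XT.nd (nat_lit 1326) (nat_lit 76) (nat_lit 0) (XT.nd (nat_lit 624) (nat_lit 380) (nat_lit 0) (XT.nd (nat_lit 312) (nat_lit 228) (nat_lit 0) (XT.nd (nat_lit 156) (nat_lit 152) (nat_lit 0) (XT.nd (nat_lit 78) (nat_lit 76) (nat_lit 0) (XT.lf (nat_lit 0) (nat_lit 253078001526) (nat_lit 76) (nat_lit 1074948599368) (nat_lit 76) (nat_lit 766239873079) (nat_lit 15) (nat_lit 4) (nat_lit 16) (nat_lit 5) (nat_lit 16) (nat_lit 4) (nat_lit 396) (nat_lit 364) (nat_lit 260)) (XT.lf (nat_lit 0) (nat_lit 27520944370) (nat_lit 152) (nat_lit 251465181603) (nat_lit 76) (nat_lit 2058495491915) (nat_lit 14) (nat_lit 5) (nat_lit 16) (nat_lit 5) (nat_lit 15) (nat_lit 4) (nat_lit 397) (nat_lit 364) (nat_lit 259))) (XT.nd (nat_lit 78) (nat_lit 76) (nat_lit 0) (XT.lf (nat_lit 0) (nat_lit 952524192281) (nat_lit 152) (nat_lit 991776048532) (nat_lit 0) (nat_lit 666682745112) (nat_lit 13)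 (nat_lit 5) (nat_lit 15) (nat_lit 4) (nat_lit 13) (nat_lit 4) (nat_lit 398) (nat_lit 364) (nat_lit 258)) (XT.lf (nat_lit 0) (nat_lit 897788561768) (nat_lit 76) (nat_lit 1155308465167) (nat_lit 76) (nat_lit 869467004272) (nat_lit 12) (nat_lit 4) (nat_lit 13) (nat_lit 5) (nat_lit 13) (nat_lit 4) (nat_lit 399) (nat_lit 364) (nat_lit 257)))) (XT.nd (nat_lit 156) (nat_lit 76) (nat_lit 0) (XT.nd (nat_lit 78) (nat_lit 76) (nat_lit 0) (XT.lf (nat_lit 0) (nat_lit 65603349520) (nat_lit 152) (nat_lit 149386505828) (nat_lit 76) (nat_lit 3063449558382) (nat_lit 11) (nat_lit 5) (nat_lit 13) (nat_lit 5) (nat_lit 12) (nat_lit 4) (nat_lit 400) (nat_lit 364) (nat_lit 256)) (XT.lf (nat_lit 0) (nat_lit 1163890087130) (nat_lit 152) (nat_lit 1616822246300) (nat_lit 0) (nat_lit 899222047121) (nat_lit 10) (nat_lit 5) (nat_lit 12) (nat_lit 4) (nat_lit 10) (nat_lit 4) (nat_lit 401) (nat_lit 364) (nat_lit 255))) (XT.nd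 (nat_lit 78) (nat_lit 0) (nat_lit 0) (XT.lf (nat_lit 0) (nat_lit 493872604066) (nat_lit 76) (nat_lit 1955333084231) (nat_lit 76) (nat_lit 1690665035865) (nat_lit 9) (nat_lit 4) (nat_lit 10) (nat_lit 5) (nat_lit 10) (nat_lit 4) (nat_lit 402) (nat_lit 364) (nat_lit 254)) (XT.lf (nat_lit 0) (nat_lit 3019081380670) (nat_lit 76) (nat_lit 955309218363) (nat_lit 76) (nat_lit 690641162731) (nat_lit 9) (nat_lit 4) (nat_lit 10) (nat_lit 5) (nat_lit 10) (nat_lit 4) (nat_lit 403) (nat_lit 364) (nat_lit 253))))) (XT.nd (nat_lit 312) (nat_lit 152) (nat_lit 0) (XT.nd (nat_lit 156) (nat_lit 76) (nat_lit 0) (XT.nd (nat_lit 78) (nat_lit 0) (nat_lit 0) (XT.lf (nat_lit 0) (nat_lit 458078566355) (nat_lit 152) (nat_lit 4595255171491) (nat_lit 0) (nat_lit 213015546030) (nat_lit 7) (nat_lit 5) (nat_lit 9) (nat_lit 4) (nat_lit 7) (nat_lit 4) (nat_lit 404) (nat_lit 364) (nat_lit 252)) (XT.lf (nat_lit 0) (nat_lit 1814961470154)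 (nat_lit 152) (nat_lit 2565429510553) (nat_lit 0) (nat_lit 1569898444741) (nat_lit 7) (nat_lit 5) (nat_lit 9) (nat_lit 4) (nat_lit 7) (nat_lit 4) (nat_lit 405) (nat_lit 364) (nat_lit 251))) (XT.nd (nat_lit 78) (nat_lit 76) (nat_lit 0) (XT.lf (nat_lit 0) (nat_lit 3375376758099) (nat_lit 152) (nat_lit 231130106012) (nat_lit 0) (nat_lit 3130313728262) (nat_lit 7) (nat_lit 5) (nat_lit 9) (nat_lit 4) (nat_lit 7) (nat_lit 4) (nat_lit 406) (nat_lit 364) (nat_lit 250)) (XT.lf (nat_lit 0) (nat_lit 2582501291218) (nat_lit 76) (nat_lit 2649462221463) (nat_lit 76) (nat_lit 2404399187779) (nat_lit 6) (nat_lit 4) (nat_lit 7) (nat_lit 5) (nat_lit 7) (nat_lit 4) (nat_lit 407) (nat_lit 364) (nat_lit 249)))) (XT.nd (nat_lit 156) (nat_lit 152) (nat_lit 0) (XT.nd (nat_lit 78) (nat_lit 0) (nat_lit 0) (XT.lf (nat_lit 0) (nat_lit 5832173851083) (nat_lit 76) (nat_lit 1541593492815) (nat_lit 76) (nat_lit 1296530455787)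 (nat_lit 6) (nat_lit 4) (nat_lit 7) (nat_lit 5) (nat_lit 7) (nat_lit 4) (nat_lit 408) (nat_lit 364) (nat_lit 248)) (XT.lf (nat_lit 0) (nat_lit 9569297221882) (nat_lit 76) (nat_lit 267544492348) (nat_lit 76) (nat_lit 22481452410) (nat_lit 6) (nat_lit 4) (nat_lit 7) (nat_lit 5) (nat_lit 7) (nat_lit 4) (nat_lit 409) (nat_lit 364) (nat_lit 247))) (XT.nd (nat_lit 78) (nat_lit 0) (nat_lit 0) (XT.lf (nat_lit 0) (nat_lit 1467887896667) (nat_lit 152) (nat_lit 8507270545595) (nat_lit 0) (nat_lit 1240977672160) (nat_lit 4) (nat_lit 5) (nat_lit 6) (nat_lit 4) (nat_lit 4) (nat_lit 4) (nat_lit 410) (nat_lit 364) (nat_lit 246)) (XT.nd (nat_lit 78) (nat_lit 0) (nat_lit 0) (XT.lf (nat_lit 0) (nat_lit 3196582044878) (nat_lit 152) (nat_lit 6608882382482) (nat_lit 0) (nat_lit 2969671818335) (nat_lit 4) (nat_lit 5) (nat_lit 6) (nat_lit 4) (nat_lit 4) (nat_lit 4) (nat_lit 411) (nat_lit 364) (nat_lit 245)) (XT.lf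 (nat_lit 0) (nat_lit 5184580289437) (nat_lit 152) (nat_lit 4425736048170) (nat_lit 0) (nat_lit 4957670061123) (nat_lit 4) (nat_lit 5) (nat_lit 6) (nat_lit 4) (nat_lit 4) (nat_lit 4) (nat_lit 412) (nat_lit 364) (nat_lit 244))))))) (XT.nd (nat_lit 49686) (nat_lit 0) (nat_lit 3496) (XT.nd (nat_lit 49374) (nat_lit 0) (nat_lit 5244) (XT.nd (nat_lit 156) (nat_lit 0) (nat_lit 0) (XT.nd (nat_lit 78) (nat_lit 76) (nat_lit 0) (XT.lf (nat_lit 0) (nat_lit 7470778248172) (nat_lit 152) (nat_lit 1915117810030) (nat_lit 0) (nat_lit 7243868018318) (nat_lit 4) (nat_lit 5) (nat_lit 6) (nat_lit 4) (nat_lit 4) (nat_lit 4) (nat_lit 413) (nat_lit 364) (nat_lit 243)) (XT.lf (nat_lit 0) (nat_lit 1023281824742) (nat_lit 76) (nat_lit 9101234008898) (nat_lit 76) (nat_lit 8874323777705) (nat_lit 3) (nat_lit 4) (nat_lit 4) (nat_lit 5) (nat_lit 4) (nat_lit 4) (nat_lit 414) (nat_lit 364) (nat_lit 242))) (XT.nd (nat_lit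 78) (nat_lit 0) (nat_lit 0) (XT.lf (nat_lit 0) (nat_lit 4518415084357) (nat_lit 76) (nat_lit 8713655549135) (nat_lit 76) (nat_lit 8486745316777) (nat_lit 3) (nat_lit 4) (nat_lit 4) (nat_lit 5) (nat_lit 4) (nat_lit 4) (nat_lit 415) (nat_lit 364) (nat_lit 241)) (XT.lf (nat_lit 0) (nat_lit 8537818300856) (nat_lit 76) (nat_lit 8267940336896) (nat_lit 76) (nat_lit 8041030103526) (nat_lit 3) (nat_lit 4) (nat_lit 4) (nat_lit 5) (nat_lit 4) (nat_lit 4) (nat_lit 416) (nat_lit 364) (nat_lit 240)))) (XT.nd (nat_lit 156) (nat_lit 456) (nat_lit 0) (XT.nd (nat_lit 78) (nat_lit 0) (nat_lit 0) (XT.lf (nat_lit 0) (nat_lit 63623615524) (nat_lit 532) (nat_lit 1619304009) (nat_lit 532) (nat_lit 1619304009) (nat_lit 78) (nat_lit 3) (nat_lit 85) (nat_lit 3) (nat_lit 85) (nat_lit 5) (nat_lit 365) (nat_lit 365) (nat_lit 290)) (XT.lf (nat_lit 76) (nat_lit 126977054718) (nat_lit 0) (nat_lit 12873724107) (nat_lit 532)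 (nat_lit 3658198863) (nat_lit 79) (nat_lit 5) (nat_lit 78) (nat_lit 3) (nat_lit 85) (nat_lit 5) (nat_lit 366) (nat_lit 365) (nat_lit 289))) (XT.nd (nat_lit 78) (nat_lit 0) (nat_lit 76) (XT.lf (nat_lit 0) (nat_lit 5818957785) (nat_lit 532) (nat_lit 28924844081) (nat_lit 608) (nat_lit 119521030609) (nat_lit 72) (nat_lit 5) (nat_lit 79) (nat_lit 5) (nat_lit 80) (nat_lit 5) (nat_lit 367) (nat_lit 365) (nat_lit 288)) (XT.lf (nat_lit 0) (nat_lit 23063020475) (nat_lit 532) (nat_lit 40042965215) (nat_lit 608) (nat_lit 102995523596) (nat_lit 73) (nat_lit 5) (nat_lit 80) (nat_lit 5) (nat_lit 81) (nat_lit 5) (nat_lit 368) (nat_lit 365) (nat_lit 287))))) (XT.nd (nat_lit 312) (nat_lit 988) (nat_lit 0) (XT.nd (nat_lit 156) (nat_lit 456) (nat_lit 0) (XT.nd (nat_lit 78) (nat_lit 456) (nat_lit 0) (XT.lf (nat_lit 0) (nat_lit 49915837531) (nat_lit 532) (nat_lit 49321799158) (nat_lit 76) (nat_lit 79914279645)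 (nat_lit 74) (nat_lit 5) (nat_lit 81) (nat_lit 5) (nat_lit 75) (nat_lit 5) (nat_lit 369) (nat_lit 365) (nat_lit 286)) (XT.lf (nat_lit 0) (nat_lit 88314827137) (nat_lit 532) (nat_lit 56194891474) (nat_lit 76) (nat_lit 49048706097) (nat_lit 68) (nat_lit 5) (nat_lit 75) (nat_lit 5) (nat_lit 69) (nat_lit 5) (nat_lit 370) (nat_lit 365) (nat_lit 285))) (XT.nd (nat_lit 78) (nat_lit 228) (nat_lit 0) (XT.lf (nat_lit 0) (nat_lit 140519122353) (nat_lit 304) (nat_lit 59992481721) (nat_lit 76) (nat_lit 8970668928) (nat_lit 65) (nat_lit 5) (nat_lit 69) (nat_lit 5) (nat_lit 66) (nat_lit 5) (nat_lit 371) (nat_lit 365) (nat_lit 284)) (XT.lf (nat_lit 0) (nat_lit 166031946975) (nat_lit 228) (nat_lit 44189894379) (nat_lit 304) (nat_lit 16799435027) (nat_lit 62) (nat_lit 5) (nat_lit 65) (nat_lit 5) (nat_lit 66) (nat_lit 5) (nat_lit 372) (nat_lit 365) (nat_lit 283)))) (XT.nd (nat_lit 156) (nat_lit 532) (nat_lit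 0) (XT.nd (nat_lit 78) (nat_lit 228) (nat_lit 0) (XT.lf (nat_lit 0) (nat_lit 50867158425) (nat_lit 228) (nat_lit 59038712363) (nat_lit 76) (nat_lit 136415060152) (nat_lit 59) (nat_lit 5) (nat_lit 62) (nat_lit 5) (nat_lit 60) (nat_lit 5) (nat_lit 373) (nat_lit 365) (nat_lit 282)) (XT.lf (nat_lit 0) (nat_lit 137939937059) (nat_lit 304) (nat_lit 52522891791) (nat_lit 76) (nat_lit 77197724244) (nat_lit 56) (nat_lit 5) (nat_lit 60) (nat_lit 5) (nat_lit 57) (nat_lit 5) (nat_lit 374) (nat_lit 365) (nat_lit 281))) (XT.nd (nat_lit 78) (nat_lit 380) (nat_lit 0) (XT.lf (nat_lit 0) (nat_lit 248984299609) (nat_lit 228) (nat_lit 39948380151) (nat_lit 76) (nat_lit 2395585566) (nat_lit 54) (nat_lit 5) (nat_lit 57) (nat_lit 5) (nat_lit 55) (nat_lit 5) (nat_lit 375) (nat_lit 365) (nat_lit 280)) (XT.nd (nat_lit 78) (nat_lit 152) (nat_lit 0) (XT.lf (nat_lit 0) (nat_lit 69525516505) (nat_lit 228) (nat_lit 24113830606)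 (nat_lit 76) (nat_lit 223651352148) (nat_lit 51) (nat_lit 5) (nat_lit 54) (nat_lit 5) (nat_lit 52) (nat_lit 5) (nat_lit 376) (nat_lit 365) (nat_lit 279)) (XT.lf (nat_lit 0) (nat_lit 208725745609) (nat_lit 228) (nat_lit 1883412751) (nat_lit 76) (nat_lit 135405747758) (nat_lit 49) (nat_lit 5) (nat_lit 52) (nat_lit 5) (nat_lit 50) (nat_lit 5) (nat_lit 377) (nat_lit 365) (nat_lit 278))))))))
noncomputable def xc94 : XT := (XT.nd (nat_lit 1326) (nat_lit 1140) (nat_lit 0) (XT.nd (nat_lit 624) (nat_lit 988) (nat_lit 0) (XT.nd (nat_lit 312) (nat_lit 532) (nat_lit 0) (XT.nd (nat_lit 156) (nat_lit 304) (nat_lit 0) (XT.nd (nat_lit 78) (nat_lit 152) (nat_lit 0) (XT.lf (nat_lit 0) (nat_lit 5130804333) (nat_lit 152) (nat_lit 347223417317) (nat_lit 76) (nat_lit 25524411048) (nat_lit 45) (nat_lit 5) (nat_lit 47) (nat_lit 5) (nat_lit 46) (nat_lit 5) (nat_lit 378) (nat_lit 365) (nat_lit 277)) (XT.lf (nat_lit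 0) (nat_lit 66936983365) (nat_lit 152) (nat_lit 111965796063) (nat_lit 228) (nat_lit 233884417452) (nat_lit 43) (nat_lit 5) (nat_lit 45) (nat_lit 5) (nat_lit 46) (nat_lit 5) (nat_lit 379) (nat_lit 365) (nat_lit 276))) (XT.nd (nat_lit 78) (nat_lit 228) (nat_lit 0) (XT.lf (nat_lit 0) (nat_lit 113588159113) (nat_lit 76) (nat_lit 282211243722) (nat_lit 152) (nat_lit 55767934742) (nat_lit 42) (nat_lit 5) (nat_lit 43) (nat_lit 5) (nat_lit 44) (nat_lit 4) (nat_lit 380) (nat_lit 365) (nat_lit 275)) (XT.lf (nat_lit 0) (nat_lit 159340517943) (nat_lit 228) (nat_lit 325678127937) (nat_lit 76) (nat_lit 9440539542) (nat_lit 39) (nat_lit 5) (nat_lit 42) (nat_lit 5) (nat_lit 40) (nat_lit 4) (nat_lit 381) (nat_lit 365) (nat_lit 274)))) (XT.nd (nat_lit 156) (nat_lit 228) (nat_lit 0) (XT.nd (nat_lit 78) (nat_lit 228) (nat_lit 0) (XT.lf (nat_lit 0) (nat_lit 230975274056) (nat_lit 76) (nat_lit 195987195211) (nat_lit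 152) (nat_lit 114822514608) (nat_lit 38) (nat_lit 5) (nat_lit 39) (nat_lit 5) (nat_lit 40) (nat_lit 4) (nat_lit 382) (nat_lit 365) (nat_lit 273)) (XT.lf (nat_lit 0) (nat_lit 152515942230) (nat_lit 228) (nat_lit 291199141355) (nat_lit 76) (nat_lit 150553890287) (nat_lit 35) (nat_lit 5) (nat_lit 38) (nat_lit 5) (nat_lit 36) (nat_lit 4) (nat_lit 383) (nat_lit 365) (nat_lit 272))) (XT.nd (nat_lit 78) (nat_lit 152) (nat_lit 0) (XT.lf (nat_lit 0) (nat_lit 384346192491) (nat_lit 76) (nat_lit 92951246668) (nat_lit 152) (nat_lit 175158247336) (nat_lit 34) (nat_lit 5) (nat_lit 35) (nat_lit 5) (nat_lit 36) (nat_lit 4) (nat_lit 384) (nat_lit 365) (nat_lit 271)) (XT.lf (nat_lit 0) (nat_lit 153187554285) (nat_lit 152) (nat_lit 244733440121) (nat_lit 76) (nat_lit 318929648366) (nat_lit 32) (nat_lit 5) (nat_lit 34) (nat_lit 5) (nat_lit 33) (nat_lit 4) (nat_lit 385) (nat_lit 365) (nat_lit 270))))) (XT.nd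 (nat_lit 312) (nat_lit 532) (nat_lit 0) (XT.nd (nat_lit 156) (nat_lit 228) (nat_lit 0) (XT.nd (nat_lit 78) (nat_lit 152) (nat_lit 0) (XT.lf (nat_lit 0) (nat_lit 545609134812) (nat_lit 152) (nat_lit 218940025189) (nat_lit 0) (nat_lit 23976098797) (nat_lit 31) (nat_lit 5) (nat_lit 33) (nat_lit 4) (nat_lit 31) (nat_lit 4) (nat_lit 386) (nat_lit 365) (nat_lit 269)) (XT.lf (nat_lit 0) (nat_lit 155039171293) (nat_lit 152) (nat_lit 199151661059) (nat_lit 76) (nat_lit 513686203793) (nat_lit 29) (nat_lit 5) (nat_lit 31) (nat_lit 5) (nat_lit 30) (nat_lit 4) (nat_lit 387) (nat_lit 365) (nat_lit 268))) (XT.nd (nat_lit 78) (nat_lit 152) (nat_lit 0) (XT.lf (nat_lit 0) (nat_lit 627578979649) (nat_lit 152) (nat_lit 184120622193) (nat_lit 0) (nat_lit 144585252362) (nat_lit 28) (nat_lit 5) (nat_lit 30) (nat_lit 4) (nat_lit 28) (nat_lit 4) (nat_lit 388) (nat_lit 365) (nat_lit 267)) (XT.lf (nat_lit 0) (nat_lit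 145201565710) (nat_lit 152) (nat_lit 180974541557) (nat_lit 76) (nat_lit 728535383887) (nat_lit 26) (nat_lit 5) (nat_lit 28) (nat_lit 5) (nat_lit 27) (nat_lit 4) (nat_lit 389) (nat_lit 365) (nat_lit 266)))) (XT.nd (nat_lit 156) (nat_lit 304) (nat_lit 0) (XT.nd (nat_lit 78) (nat_lit 152) (nat_lit 0) (XT.lf (nat_lit 0) (nat_lit 706766481300) (nat_lit 152) (nat_lit 198019919623) (nat_lit 0) (nat_lit 259549944327) (nat_lit 25) (nat_lit 5) (nat_lit 27) (nat_lit 4) (nat_lit 25) (nat_lit 4) (nat_lit 390) (nat_lit 365) (nat_lit 265)) (XT.lf (nat_lit 0) (nat_lit 99762755056) (nat_lit 152) (nat_lit 239710056129) (nat_lit 76) (nat_lit 947555629712) (nat_lit 23) (nat_lit 5) (nat_lit 25) (nat_lit 5) (nat_lit 24) (nat_lit 4) (nat_lit 391) (nat_lit 365) (nat_lit 264))) (XT.nd (nat_lit 78) (nat_lit 228) (nat_lit 0) (XT.lf (nat_lit 0) (nat_lit 755538466054) (nat_lit 152) (nat_lit 326831181045) (nat_lit 0)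 (nat_lit 341448993979) (nat_lit 22) (nat_lit 5) (nat_lit 24) (nat_lit 4) (nat_lit 22) (nat_lit 4) (nat_lit 392) (nat_lit 365) (nat_lit 263)) (XT.nd (nat_lit 78) (nat_lit 152) (nat_lit 0) (XT.lf (nat_lit 0) (nat_lit 1114308366791) (nat_lit 76) (nat_lit 438720329186) (nat_lit 76) (nat_lit 24630822332) (nat_lit 21) (nat_lit 4) (nat_lit 22) (nat_lit 5) (nat_lit 22) (nat_lit 4) (nat_lit 393) (nat_lit 365) (nat_lit 262)) (XT.lf (nat_lit 0) (nat_lit 723980983189) (nat_lit 152) (nat_lit 685117204095) (nat_lit 0) (nat_lit 340564745137) (nat_lit 19) (nat_lit 5) (nat_lit 21) (nat_lit 4) (nat_lit 19) (nat_lit 4) (nat_lit 394) (nat_lit 365) (nat_lit 261))))))) (XT.nd (nat_lit 624) (nat_lit 456) (nat_lit 0) (XT.nd (nat_lit 312) (nat_lit 304) (nat_lit 0) (XT.nd (nat_lit 156) (nat_lit 152) (nat_lit 0) (XT.nd (nat_lit 78) (nat_lit 152) (nat_lit 0) (XT.lf (nat_lit 0) (nat_lit 937005670499) (nat_lit 76) (nat_lit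 694971109223) (nat_lit 76) (nat_lit 311554846822) (nat_lit 18) (nat_lit 4) (nat_lit 19) (nat_lit 5) (nat_lit 19) (nat_lit 4) (nat_lit 395) (nat_lit 365) (nat_lit 260)) (XT.lf (nat_lit 0) (nat_lit 525851608898) (nat_lit 152) (nat_lit 1465479268329) (nat_lit 0) (nat_lit 170836531514) (nat_lit 16) (nat_lit 5) (nat_lit 18) (nat_lit 4) (nat_lit 16) (nat_lit 4) (nat_lit 396) (nat_lit 365) (nat_lit 259))) (XT.nd (nat_lit 78) (nat_lit 76) (nat_lit 0) (XT.lf (nat_lit 0) (nat_lit 291041997436) (nat_lit 76) (nat_lit 1236189725732) (nat_lit 76) (nat_lit 881174631300) (nat_lit 15) (nat_lit 4) (nat_lit 16) (nat_lit 5) (nat_lit 16) (nat_lit 4) (nat_lit 397) (nat_lit 365) (nat_lit 258)) (XT.lf (nat_lit 0) (nat_lit 31650096090) (nat_lit 152) (nat_lit 289182909387) (nat_lit 76) (nat_lit 2367270774266) (nat_lit 14) (nat_lit 5) (nat_lit 16) (nat_lit 5) (nat_lit 15) (nat_lit 4) (nat_lit 398) (nat_lit 365) (nat_lit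 257)))) (XT.nd (nat_lit 156) (nat_lit 152) (nat_lit 0) (XT.nd (nat_lit 78) (nat_lit 76) (nat_lit 0) (XT.lf (nat_lit 0) (nat_lit 1095403767466) (nat_lit 152) (nat_lit 1140540528847) (nat_lit 0) (nat_lit 766686061775) (nat_lit 13) (nat_lit 5) (nat_lit 15) (nat_lit 4) (nat_lit 13) (nat_lit 4) (nat_lit 399) (nat_lit 365) (nat_lit 256)) (XT.lf (nat_lit 0) (nat_lit 1032458609891) (nat_lit 76) (nat_lit 1328603836412) (nat_lit 76) (nat_lit 999886120342) (nat_lit 12) (nat_lit 4) (nat_lit 13) (nat_lit 5) (nat_lit 13) (nat_lit 4) (nat_lit 400) (nat_lit 365) (nat_lit 255))) (XT.nd (nat_lit 78) (nat_lit 76) (nat_lit 0) (XT.lf (nat_lit 0) (nat_lit 75444623965) (nat_lit 152) (nat_lit 171792907246) (nat_lit 76) (nat_lit 3522967732803) (nat_lit 11) (nat_lit 5) (nat_lit 13) (nat_lit 5) (nat_lit 12) (nat_lit 4) (nat_lit 401) (nat_lit 365) (nat_lit 254)) (XT.lf (nat_lit 0) (nat_lit 1338474323861) (nat_lit 152)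 (nat_lit 1859344103249) (nat_lit 0) (nat_lit 1034106052617) (nat_lit 10) (nat_lit 5) (nat_lit 12) (nat_lit 4) (nat_lit 10) (nat_lit 4) (nat_lit 402) (nat_lit 365) (nat_lit 253))))) (XT.nd (nat_lit 312) (nat_lit 228) (nat_lit 0) (XT.nd (nat_lit 156) (nat_lit 152) (nat_lit 0) (XT.nd (nat_lit 78) (nat_lit 0) (nat_lit 0) (XT.lf (nat_lit 0) (nat_lit 567954849397) (nat_lit 76) (nat_lit 2248632353996) (nat_lit 76) (nat_lit 1944264076434) (nat_lit 9) (nat_lit 4) (nat_lit 10) (nat_lit 5) (nat_lit 10) (nat_lit 4) (nat_lit 403) (nat_lit 365) (nat_lit 252)) (XT.lf (nat_lit 0) (nat_lit 3471944765789) (nat_lit 76) (nat_lit 1098604998623) (nat_lit 76) (nat_lit 794236715566) (nat_lit 9) (nat_lit 4) (nat_lit 10) (nat_lit 5) (nat_lit 10) (nat_lit 4) (nat_lit 404) (nat_lit 365) (nat_lit 251))) (XT.nd (nat_lit 78) (nat_lit 0) (nat_lit 0) (XT.lf (nat_lit 0) (nat_lit 526790905017) (nat_lit 152) (nat_lit 5284542310855)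 (nat_lit 0) (nat_lit 244968416281) (nat_lit 7) (nat_lit 5) (nat_lit 9) (nat_lit 4) (nat_lit 7) (nat_lit 4) (nat_lit 405) (nat_lit 365) (nat_lit 250)) (XT.lf (nat_lit 0) (nat_lit 2087206172163) (nat_lit 152) (nat_lit 2950242948998) (nat_lit 0) (nat_lit 1805383679580) (nat_lit 7) (nat_lit 5) (nat_lit 9) (nat_lit 4) (nat_lit 7) (nat_lit 4) (nat_lit 406) (nat_lit 365) (nat_lit 249)))) (XT.nd (nat_lit 156) (nat_lit 152) (nat_lit 0) (XT.nd (nat_lit 78) (nat_lit 76) (nat_lit 0) (XT.lf (nat_lit 0) (nat_lit 3881683690497) (nat_lit 152) (nat_lit 265798762663) (nat_lit 0) (nat_lit 3599861194569) (nat_lit 7) (nat_lit 5) (nat_lit 9) (nat_lit 4) (nat_lit 7) (nat_lit 4) (nat_lit 407) (nat_lit 365) (nat_lit 248)) (XT.lf (nat_lit 0) (nat_lit 2969877271421) (nat_lit 76) (nat_lit 3046881151151) (nat_lit 76) (nat_lit 2765058652314) (nat_lit 6) (nat_lit 4) (nat_lit 7) (nat_lit 5) (nat_lit 7) (nat_lit 4) (nat_lit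 408) (nat_lit 365) (nat_lit 247))) (XT.nd (nat_lit 78) (nat_lit 152) (nat_lit 0) (XT.lf (nat_lit 0) (nat_lit 6707000612676) (nat_lit 76) (nat_lit 1772832165841) (nat_lit 76) (nat_lit 1491009664474) (nat_lit 6) (nat_lit 4) (nat_lit 7) (nat_lit 5) (nat_lit 7) (nat_lit 4) (nat_lit 409) (nat_lit 365) (nat_lit 246)) (XT.nd (nat_lit 78) (nat_lit 152) (nat_lit 0) (XT.lf (nat_lit 0) (nat_lit 11004692399886) (nat_lit 76) (nat_lit 307675861073) (nat_lit 76) (nat_lit 25853357506) (nat_lit 6) (nat_lit 4) (nat_lit 7) (nat_lit 5) (nat_lit 7) (nat_lit 4) (nat_lit 410) (nat_lit 365) (nat_lit 245)) (XT.lf (nat_lit 0) (nat_lit 1688071359869) (nat_lit 152) (nat_lit 9783360553881) (nat_lit 0) (nat_lit 1427124595537) (nat_lit 4) (nat_lit 5) (nat_lit 6) (nat_lit 4) (nat_lit 4) (nat_lit 4) (nat_lit 411) (nat_lit 365) (nat_lit 244))))))))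
noncomputable def xc95 : XT := (XT.nd (nat_lit 50544) (nat_lit 0) (nat_lit 1140) (XT.nd (nat_lit 49842) (nat_lit 0) (nat_lit 3496) (XT.nd (nat_lit 49530) (nat_lit 0) (nat_lit 5244) (XT.nd (nat_lit 156) (nat_lit 76) (nat_lit 0) (XT.nd (nat_lit 78) (nat_lit 0) (nat_lit 0) (XT.lf (nat_lit 0) (nat_lit 3676069593959) (nat_lit 152) (nat_lit 7600214241112) (nat_lit 0) (nat_lit 3415122828087) (nat_lit 4) (nat_lit 5) (nat_lit 6) (nat_lit 4) (nat_lit 4) (nat_lit 4) (nat_lit 412) (nat_lit 365) (nat_lit 243)) (XT.lf (nat_lit 0) (nat_lit 5962267543591) (nat_lit 152) (nat_lit 5089596021706) (nat_lit 0) (nat_lit 5701320776380) (nat_lit 4) (nat_lit 5) (nat_lit 6) (nat_lit 4) (nat_lit 4) (nat_lit 4) (nat_lit 413) (nat_lit 365) (nat_lit 242))) (XT.nd (nat_lit 78) (nat_lit 76) (nat_lit 0) (XT.lf (nat_lit 0) (nat_lit 8591395168649) (nat_lit 152) (nat_lit 2202385104414) (nat_lit 0) (nat_lit 8330448400273) (nat_lit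 4) (nat_lit 5) (nat_lit 6) (nat_lit 4) (nat_lit 4) (nat_lit 4) (nat_lit 414) (nat_lit 365) (nat_lit 241)) (XT.lf (nat_lit 0) (nat_lit 1176774443652) (nat_lit 76) (nat_lit 10466418932684) (nat_lit 76) (nat_lit 10205472163296) (nat_lit 3) (nat_lit 4) (nat_lit 4) (nat_lit 5) (nat_lit 4) (nat_lit 4) (nat_lit 415) (nat_lit 365) (nat_lit 240)))) (XT.nd (nat_lit 156) (nat_lit 456) (nat_lit 0) (XT.nd (nat_lit 78) (nat_lit 0) (nat_lit 0) (XT.lf (nat_lit 0) (nat_lit 73173105177) (nat_lit 532) (nat_lit 1858986860) (nat_lit 532) (nat_lit 1858986860) (nat_lit 78) (nat_lit 3) (nat_lit 85) (nat_lit 3) (nat_lit 85) (nat_lit 5) (nat_lit 366) (nat_lit 366) (nat_lit 288)) (XT.lf (nat_lit 76) (nat_lit 146029494541) (nat_lit 0) (nat_lit 14809385735) (nat_lit 532) (nat_lit 4195601139) (nat_lit 79) (nat_lit 5) (nat_lit 78) (nat_lit 3) (nat_lit 85) (nat_lit 5) (nat_lit 367) (nat_lit 366) (nat_lit 287))) (XT.nd (nat_lit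 78) (nat_lit 0) (nat_lit 76) (XT.lf (nat_lit 0) (nat_lit 6701214378) (nat_lit 532) (nat_lit 33256815003) (nat_lit 608) (nat_lit 137445771583) (nat_lit 72) (nat_lit 5) (nat_lit 79) (nat_lit 5) (nat_lit 80) (nat_lit 5) (nat_lit 368) (nat_lit 366) (nat_lit 286)) (XT.lf (nat_lit 0) (nat_lit 26530755713) (nat_lit 532) (nat_lit 46042504815) (nat_lit 608) (nat_lit 118442809668) (nat_lit 73) (nat_lit 5) (nat_lit 80) (nat_lit 5) (nat_lit 81) (nat_lit 5) (nat_lit 369) (nat_lit 366) (nat_lit 285))))) (XT.nd (nat_lit 312) (nat_lit 988) (nat_lit 0) (XT.nd (nat_lit 156) (nat_lit 456) (nat_lit 0) (XT.nd (nat_lit 78) (nat_lit 456) (nat_lit 0) (XT.lf (nat_lit 0) (nat_lit 57410542209) (nat_lit 532) (nat_lit 56713132647) (nat_lit 76) (nat_lit 91900440073) (nat_lit 74) (nat_lit 5) (nat_lit 81) (nat_lit 5) (nat_lit 75) (nat_lit 5) (nat_lit 370) (nat_lit 366) (nat_lit 284)) (XT.lf (nat_lit 0) (nat_lit 101568572747)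 (nat_lit 532) (nat_lit 64617247432) (nat_lit 76) (nat_lit 56405844311) (nat_lit 68) (nat_lit 5) (nat_lit 75) (nat_lit 5) (nat_lit 69) (nat_lit 5) (nat_lit 371) (nat_lit 366) (nat_lit 283))) (XT.nd (nat_lit 78) (nat_lit 228) (nat_lit 0) (XT.lf (nat_lit 0) (nat_lit 161602824401) (nat_lit 304) (nat_lit 68984602067) (nat_lit 76) (nat_lit 10316718874) (nat_lit 65) (nat_lit 5) (nat_lit 69) (nat_lit 5) (nat_lit 66) (nat_lit 5) (nat_lit 372) (nat_lit 366) (nat_lit 282)) (XT.lf (nat_lit 0) (nat_lit 190942919417) (nat_lit 228) (nat_lit 50817419558) (nat_lit 304) (nat_lit 19313709486) (nat_lit 62) (nat_lit 5) (nat_lit 65) (nat_lit 5) (nat_lit 66) (nat_lit 5) (nat_lit 373) (nat_lit 366) (nat_lit 281)))) (XT.nd (nat_lit 156) (nat_lit 532) (nat_lit 0) (XT.nd (nat_lit 78) (nat_lit 228) (nat_lit 0) (XT.lf (nat_lit 0) (nat_lit 58502060976) (nat_lit 228) (nat_lit 67888243578) (nat_lit 76) (nat_lit 156878378384)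 (nat_lit 59) (nat_lit 5) (nat_lit 62) (nat_lit 5) (nat_lit 60) (nat_lit 5) (nat_lit 374) (nat_lit 366) (nat_lit 280)) (XT.lf (nat_lit 0) (nat_lit 158635298564) (nat_lit 304) (nat_lit 60395266836) (nat_lit 76) (nat_lit 88778719818) (nat_lit 56) (nat_lit 5) (nat_lit 60) (nat_lit 5) (nat_lit 57) (nat_lit 5) (nat_lit 375) (nat_lit 366) (nat_lit 279))) (XT.nd (nat_lit 78) (nat_lit 380) (nat_lit 0) (XT.lf (nat_lit 0) (nat_lit 286335917513) (nat_lit 228) (nat_lit 45934814302) (nat_lit 76) (nat_lit 2756454461) (nat_lit 54) (nat_lit 5) (nat_lit 57) (nat_lit 5) (nat_lit 55) (nat_lit 5) (nat_lit 376) (nat_lit 366) (nat_lit 278)) (XT.nd (nat_lit 78) (nat_lit 152) (nat_lit 0) (XT.lf (nat_lit 0) (nat_lit 79958020817) (nat_lit 228) (nat_lit 27725380770) (nat_lit 76) (nat_lit 257200607597) (nat_lit 51) (nat_lit 5) (nat_lit 54) (nat_lit 5) (nat_lit 52) (nat_lit 5) (nat_lit 377) (nat_lit 366) (nat_lit 277))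 (XT.lf (nat_lit 0) (nat_lit 240037968114) (nat_lit 228) (nat_lit 2160643431) (nat_lit 76) (nat_lit 155718260928) (nat_lit 49) (nat_lit 5) (nat_lit 52) (nat_lit 5) (nat_lit 50) (nat_lit 5) (nat_lit 378) (nat_lit 366) (nat_lit 276))))))) (XT.nd (nat_lit 702) (nat_lit 988) (nat_lit 0) (XT.nd (nat_lit 312) (nat_lit 608) (nat_lit 0) (XT.nd (nat_lit 156) (nat_lit 304) (nat_lit 0) (XT.nd (nat_lit 78) (nat_lit 152) (nat_lit 0) (XT.lf (nat_lit 0) (nat_lit 5903718150) (nat_lit 152) (nat_lit 399301456091) (nat_lit 76) (nat_lit 29354989337) (nat_lit 45) (nat_lit 5) (nat_lit 47) (nat_lit 5) (nat_lit 46) (nat_lit 5) (nat_lit 379) (nat_lit 366) (nat_lit 275)) (XT.lf (nat_lit 0) (nat_lit 76982541361) (nat_lit 152) (nat_lit 128758639107) (nat_lit 228) (nat_lit 268963856717) (nat_lit 43) (nat_lit 5) (nat_lit 45) (nat_lit 5) (nat_lit 46) (nat_lit 5) (nat_lit 380) (nat_lit 366) (nat_lit 274))) (XT.nd (nat_lit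 78) (nat_lit 228) (nat_lit 0) (XT.lf (nat_lit 0) (nat_lit 130631143727) (nat_lit 76) (nat_lit 324540921300) (nat_lit 152) (nat_lit 64130152615) (nat_lit 42) (nat_lit 5) (nat_lit 43) (nat_lit 5) (nat_lit 44) (nat_lit 4) (nat_lit 381) (nat_lit 366) (nat_lit 273)) (XT.lf (nat_lit 0) (nat_lit 183244205505) (nat_lit 228) (nat_lit 374525193900) (nat_lit 76) (nat_lit 10858454693) (nat_lit 39) (nat_lit 5) (nat_lit 42) (nat_lit 5) (nat_lit 40) (nat_lit 4) (nat_lit 382) (nat_lit 366) (nat_lit 272)))) (XT.nd (nat_lit 156) (nat_lit 304) (nat_lit 0) (XT.nd (nat_lit 78) (nat_lit 228) (nat_lit 0) (XT.lf (nat_lit 0) (nat_lit 265625824520) (nat_lit 76) (nat_lit 225383387027) (nat_lit 152) (nat_lit 132043329855) (nat_lit 38) (nat_lit 5) (nat_lit 39) (nat_lit 5) (nat_lit 40) (nat_lit 4) (nat_lit 383) (nat_lit 366) (nat_lit 271)) (XT.lf (nat_lit 0) (nat_lit 175395589867) (nat_lit 228) (nat_lit 334874862264)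 (nat_lit 76) (nat_lit 173138687074) (nat_lit 35) (nat_lit 5) (nat_lit 38) (nat_lit 5) (nat_lit 36) (nat_lit 4) (nat_lit 384) (nat_lit 366) (nat_lit 270))) (XT.nd (nat_lit 78) (nat_lit 228) (nat_lit 0) (XT.lf (nat_lit 0) (nat_lit 442001920357) (nat_lit 76) (nat_lit 106892188044) (nat_lit 152) (nat_lit 201429766588) (nat_lit 34) (nat_lit 5) (nat_lit 35) (nat_lit 5) (nat_lit 36) (nat_lit 4) (nat_lit 385) (nat_lit 366) (nat_lit 269)) (XT.nd (nat_lit 78) (nat_lit 76) (nat_lit 0) (XT.lf (nat_lit 0) (nat_lit 176167645543) (nat_lit 152) (nat_lit 281439763302) (nat_lit 76) (nat_lit 366770673524) (nat_lit 32) (nat_lit 5) (nat_lit 34) (nat_lit 5) (nat_lit 33) (nat_lit 4) (nat_lit 386) (nat_lit 366) (nat_lit 268)) (XT.lf (nat_lit 0) (nat_lit 627452327428) (nat_lit 152) (nat_lit 251777544231) (nat_lit 0) (nat_lit 27574030019) (nat_lit 31) (nat_lit 5) (nat_lit 33) (nat_lit 4) (nat_lit 31) (nat_lit 4) (nat_lit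 387) (nat_lit 366) (nat_lit 267)))))) (XT.nd (nat_lit 312) (nat_lit 532) (nat_lit 0) (XT.nd (nat_lit 156) (nat_lit 228) (nat_lit 0) (XT.nd (nat_lit 78) (nat_lit 76) (nat_lit 0) (XT.lf (nat_lit 0) (nat_lit 178296751668) (nat_lit 152) (nat_lit 229021130563) (nat_lit 76) (nat_lit 590740572843) (nat_lit 29) (nat_lit 5) (nat_lit 31) (nat_lit 5) (nat_lit 30) (nat_lit 4) (nat_lit 388) (nat_lit 366) (nat_lit 266)) (XT.lf (nat_lit 0) (nat_lit 721717415940) (nat_lit 152) (nat_lit 211735623820) (nat_lit 0) (nat_lit 166274415325) (nat_lit 28) (nat_lit 5) (nat_lit 30) (nat_lit 4) (nat_lit 28) (nat_lit 4) (nat_lit 389) (nat_lit 366) (nat_lit 265))) (XT.nd (nat_lit 78) (nat_lit 76) (nat_lit 0) (XT.lf (nat_lit 0) (nat_lit 166983288417) (nat_lit 152) (nat_lit 208117814355) (nat_lit 76) (nat_lit 837816992945) (nat_lit 26) (nat_lit 5) (nat_lit 28) (nat_lit 5) (nat_lit 27) (nat_lit 4) (nat_lit 390) (nat_lit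 366) (nat_lit 264)) (XT.lf (nat_lit 0) (nat_lit 812782842677) (nat_lit 152) (nat_lit 227720167990) (nat_lit 0) (nat_lit 298483675164) (nat_lit 25) (nat_lit 5) (nat_lit 27) (nat_lit 4) (nat_lit 25) (nat_lit 4) (nat_lit 391) (nat_lit 366) (nat_lit 263)))) (XT.nd (nat_lit 156) (nat_lit 304) (nat_lit 0) (XT.nd (nat_lit 78) (nat_lit 76) (nat_lit 0) (XT.lf (nat_lit 0) (nat_lit 114728469611) (nat_lit 152) (nat_lit 275663988280) (nat_lit 76) (nat_lit 1089690144978) (nat_lit 23) (nat_lit 5) (nat_lit 25) (nat_lit 5) (nat_lit 24) (nat_lit 4) (nat_lit 392) (nat_lit 366) (nat_lit 262)) (XT.lf (nat_lit 0) (nat_lit 868870452376) (nat_lit 152) (nat_lit 375853433026) (nat_lit 0) (nat_lit 392667454474) (nat_lit 22) (nat_lit 5) (nat_lit 24) (nat_lit 4) (nat_lit 22) (nat_lit 4) (nat_lit 393) (nat_lit 366) (nat_lit 261))) (XT.nd (nat_lit 78) (nat_lit 228) (nat_lit 0) (XT.lf (nat_lit 0) (nat_lit 1281456841707)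 (nat_lit 76) (nat_lit 504527269807) (nat_lit 76) (nat_lit 28324245607) (nat_lit 21) (nat_lit 4) (nat_lit 22) (nat_lit 5) (nat_lit 22) (nat_lit 4) (nat_lit 394) (nat_lit 366) (nat_lit 260)) (XT.nd (nat_lit 78) (nat_lit 76) (nat_lit 0) (XT.lf (nat_lit 0) (nat_lit 832579197343) (nat_lit 152) (nat_lit 787882639512) (nat_lit 0) (nat_lit 391650450059) (nat_lit 19) (nat_lit 5) (nat_lit 21) (nat_lit 4) (nat_lit 19) (nat_lit 4) (nat_lit 395) (nat_lit 366) (nat_lit 259)) (XT.lf (nat_lit 0) (nat_lit 1077558484691) (nat_lit 76) (nat_lit 799215786759) (nat_lit 76) (nat_lit 358287021064) (nat_lit 18) (nat_lit 4) (nat_lit 19) (nat_lit 5) (nat_lit 19) (nat_lit 4) (nat_lit 396) (nat_lit 366) (nat_lit 258))))))))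
noncomputable def xc96 : XT := (XT.nd (nat_lit 1326) (nat_lit 0) (nat_lit 0) (XT.nd (nat_lit 624) (nat_lit 380) (nat_lit 0) (XT.nd (nat_lit 312) (nat_lit 304) (nat_lit 0) (XT.nd (nat_lit 156) (nat_lit 152) (nat_lit 0) (XT.nd (nat_lit 78) (nat_lit 76) (nat_lit 0) (XT.lf (nat_lit 0) (nat_lit 604730286693) (nat_lit 152) (nat_lit 1685299262194) (nat_lit 0) (nat_lit 196462896224) (nat_lit 16) (nat_lit 5) (nat_lit 18) (nat_lit 4) (nat_lit 16) (nat_lit 4) (nat_lit 397) (nat_lit 366) (nat_lit 257)) (XT.lf (nat_lit 0) (nat_lit 334700032917) (nat_lit 76) (nat_lit 1421617304788) (nat_lit 76) (nat_lit 1013349901428) (nat_lit 15) (nat_lit 4) (nat_lit 16) (nat_lit 5) (nat_lit 16) (nat_lit 4) (nat_lit 398) (nat_lit 366) (nat_lit 256))) (XT.nd (nat_lit 78) (nat_lit 76) (nat_lit 0) (XT.lf (nat_lit 0) (nat_lit 36398374257) (nat_lit 152) (nat_lit 332558796112) (nat_lit 76) (nat_lit 2722362115218) (nat_lit 14)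 (nat_lit 5) (nat_lit 16) (nat_lit 5) (nat_lit 15) (nat_lit 4) (nat_lit 399) (nat_lit 366) (nat_lit 255)) (XT.lf (nat_lit 0) (nat_lit 1259715048157) (nat_lit 152) (nat_lit 1311620151111) (nat_lit 0) (nat_lit 881689655272) (nat_lit 13) (nat_lit 5) (nat_lit 15) (nat_lit 4) (nat_lit 13) (nat_lit 4) (nat_lit 400) (nat_lit 366) (nat_lit 254)))) (XT.nd (nat_lit 156) (nat_lit 152) (nat_lit 0) (XT.nd (nat_lit 78) (nat_lit 76) (nat_lit 0) (XT.lf (nat_lit 0) (nat_lit 1187328735105) (nat_lit 76) (nat_lit 1527893732456) (nat_lit 76) (nat_lit 1149868331724) (nat_lit 12) (nat_lit 4) (nat_lit 13) (nat_lit 5) (nat_lit 13) (nat_lit 4) (nat_lit 401) (nat_lit 366) (nat_lit 253)) (XT.lf (nat_lit 0) (nat_lit 86761901317) (nat_lit 152) (nat_lit 197560652817) (nat_lit 76) (nat_lit 4051413452772) (nat_lit 11) (nat_lit 5) (nat_lit 13) (nat_lit 5) (nat_lit 12) (nat_lit 4) (nat_lit 402) (nat_lit 366) (nat_lit 252)))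 (XT.nd (nat_lit 78) (nat_lit 76) (nat_lit 0) (XT.lf (nat_lit 0) (nat_lit 1539246019633) (nat_lit 152) (nat_lit 2138244599648) (nat_lit 0) (nat_lit 1189222488622) (nat_lit 10) (nat_lit 5) (nat_lit 12) (nat_lit 4) (nat_lit 10) (nat_lit 4) (nat_lit 403) (nat_lit 366) (nat_lit 251)) (XT.lf (nat_lit 0) (nat_lit 653149101171) (nat_lit 76) (nat_lit 2585926683187) (nat_lit 76) (nat_lit 2235903147399) (nat_lit 9) (nat_lit 4) (nat_lit 10) (nat_lit 5) (nat_lit 10) (nat_lit 4) (nat_lit 404) (nat_lit 366) (nat_lit 250))))) (XT.nd (nat_lit 312) (nat_lit 228) (nat_lit 0) (XT.nd (nat_lit 156) (nat_lit 0) (nat_lit 0) (XT.nd (nat_lit 78) (nat_lit 152) (nat_lit 0) (XT.lf (nat_lit 0) (nat_lit 3992737371409) (nat_lit 76) (nat_lit 1263395292844) (nat_lit 76) (nat_lit 913371752901) (nat_lit 9) (nat_lit 4) (nat_lit 10) (nat_lit 5) (nat_lit 10) (nat_lit 4) (nat_lit 405) (nat_lit 366) (nat_lit 249)) (XT.lf (nat_lit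 0) (nat_lit 605809959453) (nat_lit 152) (nat_lit 6077222798232) (nat_lit 0) (nat_lit 281714085790) (nat_lit 7) (nat_lit 5) (nat_lit 9) (nat_lit 4) (nat_lit 7) (nat_lit 4) (nat_lit 406) (nat_lit 366) (nat_lit 248))) (XT.nd (nat_lit 78) (nat_lit 0) (nat_lit 0) (XT.lf (nat_lit 0) (nat_lit 2400287462060) (nat_lit 152) (nat_lit 3392778644172) (nat_lit 0) (nat_lit 2076191585489) (nat_lit 7) (nat_lit 5) (nat_lit 9) (nat_lit 4) (nat_lit 7) (nat_lit 4) (nat_lit 407) (nat_lit 366) (nat_lit 247)) (XT.lf (nat_lit 0) (nat_lit 4463936560657) (nat_lit 152) (nat_lit 305667927345) (nat_lit 0) (nat_lit 4139840681555) (nat_lit 7) (nat_lit 5) (nat_lit 9) (nat_lit 4) (nat_lit 7) (nat_lit 4) (nat_lit 408) (nat_lit 366) (nat_lit 246)))) (XT.nd (nat_lit 156) (nat_lit 152) (nat_lit 0) (XT.nd (nat_lit 78) (nat_lit 0) (nat_lit 0) (XT.lf (nat_lit 0) (nat_lit 3415359456856) (nat_lit 76) (nat_lit 3503913018696) (nat_lit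 76) (nat_lit 3179817137395) (nat_lit 6) (nat_lit 4) (nat_lit 7) (nat_lit 5) (nat_lit 7) (nat_lit 4) (nat_lit 409) (nat_lit 366) (nat_lit 245)) (XT.lf (nat_lit 0) (nat_lit 7713051221727) (nat_lit 76) (nat_lit 2038756725389) (nat_lit 76) (nat_lit 1714660842176) (nat_lit 6) (nat_lit 4) (nat_lit 7) (nat_lit 5) (nat_lit 7) (nat_lit 4) (nat_lit 410) (nat_lit 366) (nat_lit 244))) (XT.nd (nat_lit 78) (nat_lit 152) (nat_lit 0) (XT.lf (nat_lit 0) (nat_lit 12655396709564) (nat_lit 76) (nat_lit 353827009513) (nat_lit 76) (nat_lit 29731124637) (nat_lit 6) (nat_lit 4) (nat_lit 7) (nat_lit 5) (nat_lit 7) (nat_lit 4) (nat_lit 411) (nat_lit 366) (nat_lit 243)) (XT.nd (nat_lit 78) (nat_lit 0) (nat_lit 0) (XT.lf (nat_lit 0) (nat_lit 1941282274588) (nat_lit 152) (nat_lit 11250864203274) (nat_lit 0) (nat_lit 1641193490956) (nat_lit 4) (nat_lit 5) (nat_lit 6) (nat_lit 4) (nat_lit 4) (nat_lit 4) (nat_lit 412) (nat_lit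 366) (nat_lit 242)) (XT.lf (nat_lit 0) (nat_lit 4227480216304) (nat_lit 152) (nat_lit 8740246000159) (nat_lit 0) (nat_lit 3927391431508) (nat_lit 4) (nat_lit 5) (nat_lit 6) (nat_lit 4) (nat_lit 4) (nat_lit 4) (nat_lit 413) (nat_lit 366) (nat_lit 241))))))) (XT.nd (nat_lit 49920) (nat_lit 0) (nat_lit 2964) (XT.nd (nat_lit 49608) (nat_lit 0) (nat_lit 4864) (XT.nd (nat_lit 49452) (nat_lit 0) (nat_lit 5624) (XT.nd (nat_lit 78) (nat_lit 0) (nat_lit 0) (XT.lf (nat_lit 0) (nat_lit 6856607834478) (nat_lit 152) (nat_lit 5853035097032) (nat_lit 0) (nat_lit 6556519048669) (nat_lit 4) (nat_lit 5) (nat_lit 6) (nat_lit 4) (nat_lit 4) (nat_lit 4) (nat_lit 414) (nat_lit 366) (nat_lit 240)) (XT.lf (nat_lit 0) (nat_lit 9880104582510) (nat_lit 152) (nat_lit 2532742584919) (nat_lit 0) (nat_lit 9580015795821) (nat_lit 4) (nat_lit 5) (nat_lit 6) (nat_lit 4) (nat_lit 4) (nat_lit 4) (nat_lit 415) (nat_lit 366) (nat_lit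 239))) (XT.nd (nat_lit 78) (nat_lit 0) (nat_lit 0) (XT.lf (nat_lit 0) (nat_lit 84153567986) (nat_lit 532) (nat_lit 2135405588) (nat_lit 532) (nat_lit 2135405588) (nat_lit 78) (nat_lit 3) (nat_lit 85) (nat_lit 3) (nat_lit 85) (nat_lit 5) (nat_lit 367) (nat_lit 367) (nat_lit 286)) (XT.lf (nat_lit 76) (nat_lit 167938366067) (nat_lit 0) (nat_lit 17034274133) (nat_lit 532) (nat_lit 4816376052) (nat_lit 79) (nat_lit 5) (nat_lit 78) (nat_lit 3) (nat_lit 85) (nat_lit 5) (nat_lit 368) (nat_lit 367) (nat_lit 285)))) (XT.nd (nat_lit 156) (nat_lit 304) (nat_lit 0) (XT.nd (nat_lit 78) (nat_lit 0) (nat_lit 76) (XT.lf (nat_lit 0) (nat_lit 7713514059) (nat_lit 532) (nat_lit 38240228982) (nat_lit 608) (nat_lit 158060056136) (nat_lit 72) (nat_lit 5) (nat_lit 79) (nat_lit 5) (nat_lit 80) (nat_lit 5) (nat_lit 369) (nat_lit 367) (nat_lit 284)) (XT.lf (nat_lit 0) (nat_lit 30516631578) (nat_lit 532) (nat_lit 52943659227)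 (nat_lit 608) (nat_lit 136207686719) (nat_lit 73) (nat_lit 5) (nat_lit 80) (nat_lit 5) (nat_lit 81) (nat_lit 5) (nat_lit 370) (nat_lit 367) (nat_lit 283))) (XT.nd (nat_lit 78) (nat_lit 456) (nat_lit 0) (XT.lf (nat_lit 0) (nat_lit 66027665353) (nat_lit 532) (nat_lit 65214857640) (nat_lit 76) (nat_lit 105684763916) (nat_lit 74) (nat_lit 5) (nat_lit 81) (nat_lit 5) (nat_lit 75) (nat_lit 5) (nat_lit 371) (nat_lit 367) (nat_lit 282)) (XT.lf (nat_lit 0) (nat_lit 116808789880) (nat_lit 532) (nat_lit 74304633969) (nat_lit 76) (nat_lit 64866594153) (nat_lit 68) (nat_lit 5) (nat_lit 75) (nat_lit 5) (nat_lit 69) (nat_lit 5) (nat_lit 372) (nat_lit 367) (nat_lit 281))))) (XT.nd (nat_lit 312) (nat_lit 988) (nat_lit 0) (XT.nd (nat_lit 156) (nat_lit 456) (nat_lit 0) (XT.nd (nat_lit 78) (nat_lit 228) (nat_lit 0) (XT.lf (nat_lit 0) (nat_lit 185847659173) (nat_lit 304) (nat_lit 79327186962) (nat_lit 76) (nat_lit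 11864566672) (nat_lit 65) (nat_lit 5) (nat_lit 69) (nat_lit 5) (nat_lit 66) (nat_lit 5) (nat_lit 373) (nat_lit 367) (nat_lit 280)) (XT.lf (nat_lit 0) (nat_lit 219589030597) (nat_lit 228) (nat_lit 58439307366) (nat_lit 304) (nat_lit 22206500658) (nat_lit 62) (nat_lit 5) (nat_lit 65) (nat_lit 5) (nat_lit 66) (nat_lit 5) (nat_lit 374) (nat_lit 367) (nat_lit 279))) (XT.nd (nat_lit 78) (nat_lit 228) (nat_lit 0) (XT.lf (nat_lit 0) (nat_lit 67281021380) (nat_lit 228) (nat_lit 78066734830) (nat_lit 76) (nat_lit 180410936056) (nat_lit 59) (nat_lit 5) (nat_lit 62) (nat_lit 5) (nat_lit 60) (nat_lit 5) (nat_lit 375) (nat_lit 367) (nat_lit 278)) (XT.lf (nat_lit 0) (nat_lit 182433898412) (nat_lit 304) (nat_lit 69449975595) (nat_lit 76) (nat_lit 102096538708) (nat_lit 56) (nat_lit 5) (nat_lit 60) (nat_lit 5) (nat_lit 57) (nat_lit 5) (nat_lit 376) (nat_lit 367) (nat_lit 277)))) (XT.nd (nat_lit 156) (nat_lit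 608) (nat_lit 0) (XT.nd (nat_lit 78) (nat_lit 228) (nat_lit 0) (XT.lf (nat_lit 0) (nat_lit 329289309270) (nat_lit 228) (nat_lit 52820633520) (nat_lit 76) (nat_lit 3171080331) (nat_lit 54) (nat_lit 5) (nat_lit 57) (nat_lit 5) (nat_lit 55) (nat_lit 5) (nat_lit 377) (nat_lit 367) (nat_lit 276)) (XT.lf (nat_lit 0) (nat_lit 91954504156) (nat_lit 228) (nat_lit 31880010626) (nat_lit 76) (nat_lit 295781872746) (nat_lit 51) (nat_lit 5) (nat_lit 54) (nat_lit 5) (nat_lit 52) (nat_lit 5) (nat_lit 378) (nat_lit 367) (nat_lit 275))) (XT.nd (nat_lit 78) (nat_lit 456) (nat_lit 0) (XT.lf (nat_lit 0) (nat_lit 276046204475) (nat_lit 228) (nat_lit 2480746576) (nat_lit 76) (nat_lit 179077248465) (nat_lit 49) (nat_lit 5) (nat_lit 52) (nat_lit 5) (nat_lit 50) (nat_lit 5) (nat_lit 379) (nat_lit 367) (nat_lit 274)) (XT.nd (nat_lit 78) (nat_lit 152) (nat_lit 0) (XT.lf (nat_lit 0) (nat_lit 6791765980) (nat_lit 152)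 (nat_lit 459192535508) (nat_lit 76) (nat_lit 33759686986) (nat_lit 45) (nat_lit 5) (nat_lit 47) (nat_lit 5) (nat_lit 46) (nat_lit 5) (nat_lit 380) (nat_lit 367) (nat_lit 273)) (XT.lf (nat_lit 0) (nat_lit 88533711216) (nat_lit 152) (nat_lit 148070902750) (nat_lit 228) (nat_lit 309305997907) (nat_lit 43) (nat_lit 5) (nat_lit 45) (nat_lit 5) (nat_lit 46) (nat_lit 5) (nat_lit 381) (nat_lit 367) (nat_lit 272))))))))
noncomputable def xc97 : XT := (XT.nd (nat_lit 1326) (nat_lit 912) (nat_lit 0) (XT.nd (nat_lit 624) (nat_lit 988) (nat_lit 0) (XT.nd (nat_lit 312) (nat_lit 456) (nat_lit 0) (XT.nd (nat_lit 156) (nat_lit 304) (nat_lit 0) (XT.nd (nat_lit 78) (nat_lit 228) (nat_lit 0) (XT.lf (nat_lit 0) (nat_lit 150229415094) (nat_lit 76) (nat_lit 373220540417) (nat_lit 152) (nat_lit 73747427992) (nat_lit 42) (nat_lit 5) (nat_lit 43) (nat_lit 5) (nat_lit 44) (nat_lit 4) (nat_lit 382) (nat_lit 367) (nat_lit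 271)) (XT.lf (nat_lit 0) (nat_lit 210732809769) (nat_lit 228) (nat_lit 430700454476) (nat_lit 76) (nat_lit 12488609831) (nat_lit 39) (nat_lit 5) (nat_lit 42) (nat_lit 5) (nat_lit 40) (nat_lit 4) (nat_lit 383) (nat_lit 367) (nat_lit 270))) (XT.nd (nat_lit 78) (nat_lit 228) (nat_lit 0) (XT.lf (nat_lit 0) (nat_lit 305472918883) (nat_lit 76) (nat_lit 259189467887) (nat_lit 152) (nat_lit 151847892136) (nat_lit 38) (nat_lit 5) (nat_lit 39) (nat_lit 5) (nat_lit 40) (nat_lit 4) (nat_lit 384) (nat_lit 367) (nat_lit 269)) (XT.lf (nat_lit 0) (nat_lit 201706634436) (nat_lit 228) (nat_lit 385102953385) (nat_lit 76) (nat_lit 199110785593) (nat_lit 35) (nat_lit 5) (nat_lit 38) (nat_lit 5) (nat_lit 36) (nat_lit 4) (nat_lit 385) (nat_lit 367) (nat_lit 268)))) (XT.nd (nat_lit 156) (nat_lit 228) (nat_lit 0) (XT.nd (nat_lit 78) (nat_lit 152) (nat_lit 0) (XT.lf (nat_lit 0) (nat_lit 508305080994) (nat_lit 76)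 (nat_lit 122924696307) (nat_lit 152) (nat_lit 231642554564) (nat_lit 34) (nat_lit 5) (nat_lit 35) (nat_lit 5) (nat_lit 36) (nat_lit 4) (nat_lit 386) (nat_lit 367) (nat_lit 267)) (XT.lf (nat_lit 0) (nat_lit 202594272992) (nat_lit 152) (nat_lit 323652935481) (nat_lit 76) (nat_lit 421787467673) (nat_lit 32) (nat_lit 5) (nat_lit 34) (nat_lit 5) (nat_lit 33) (nat_lit 4) (nat_lit 387) (nat_lit 367) (nat_lit 266))) (XT.nd (nat_lit 78) (nat_lit 152) (nat_lit 0) (XT.lf (nat_lit 0) (nat_lit 721571554535) (nat_lit 152) (nat_lit 289541540905) (nat_lit 0) (nat_lit 31711281140) (nat_lit 31) (nat_lit 5) (nat_lit 33) (nat_lit 4) (nat_lit 31) (nat_lit 4) (nat_lit 388) (nat_lit 367) (nat_lit 265)) (XT.lf (nat_lit 0) (nat_lit 205042553402) (nat_lit 152) (nat_lit 263371820257) (nat_lit 76) (nat_lit 679352746468) (nat_lit 29) (nat_lit 5) (nat_lit 31) (nat_lit 5) (nat_lit 30) (nat_lit 4) (nat_lit 389) (nat_lit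 367) (nat_lit 264))))) (XT.nd (nat_lit 312) (nat_lit 532) (nat_lit 0) (XT.nd (nat_lit 156) (nat_lit 228) (nat_lit 0) (XT.nd (nat_lit 78) (nat_lit 152) (nat_lit 0) (XT.lf (nat_lit 0) (nat_lit 829976230103) (nat_lit 152) (nat_lit 243493629622) (nat_lit 0) (nat_lit 191216617402) (nat_lit 28) (nat_lit 5) (nat_lit 30) (nat_lit 4) (nat_lit 28) (nat_lit 4) (nat_lit 390) (nat_lit 367) (nat_lit 263)) (XT.lf (nat_lit 0) (nat_lit 192031906708) (nat_lit 152) (nat_lit 239333287312) (nat_lit 76) (nat_lit 963490525989) (nat_lit 26) (nat_lit 5) (nat_lit 28) (nat_lit 5) (nat_lit 27) (nat_lit 4) (nat_lit 391) (nat_lit 367) (nat_lit 262))) (XT.nd (nat_lit 78) (nat_lit 152) (nat_lit 0) (XT.lf (nat_lit 0) (nat_lit 934701319499) (nat_lit 152) (nat_lit 261876121675) (nat_lit 0) (nat_lit 343257163443) (nat_lit 25) (nat_lit 5) (nat_lit 27) (nat_lit 4) (nat_lit 25) (nat_lit 4) (nat_lit 392) (nat_lit 367) (nat_lit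 261)) (XT.lf (nat_lit 0) (nat_lit 131938724020) (nat_lit 152) (nat_lit 317011638494) (nat_lit 76) (nat_lit 1253144552024) (nat_lit 23) (nat_lit 5) (nat_lit 25) (nat_lit 5) (nat_lit 24) (nat_lit 4) (nat_lit 393) (nat_lit 367) (nat_lit 260)))) (XT.nd (nat_lit 156) (nat_lit 380) (nat_lit 0) (XT.nd (nat_lit 78) (nat_lit 76) (nat_lit 0) (XT.lf (nat_lit 0) (nat_lit 999201940016) (nat_lit 152) (nat_lit 432229614198) (nat_lit 0) (nat_lit 451568413022) (nat_lit 22) (nat_lit 5) (nat_lit 24) (nat_lit 4) (nat_lit 22) (nat_lit 4) (nat_lit 394) (nat_lit 367) (nat_lit 259)) (XT.lf (nat_lit 0) (nat_lit 1473677046524) (nat_lit 76) (nat_lit 580205521898) (nat_lit 76) (nat_lit 32571975019) (nat_lit 21) (nat_lit 4) (nat_lit 22) (nat_lit 5) (nat_lit 22) (nat_lit 4) (nat_lit 395) (nat_lit 367) (nat_lit 258))) (XT.nd (nat_lit 78) (nat_lit 228) (nat_lit 0) (XT.lf (nat_lit 0) (nat_lit 957466883505) (nat_lit 152)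 (nat_lit 906063413361) (nat_lit 0) (nat_lit 450398768533) (nat_lit 19) (nat_lit 5) (nat_lit 21) (nat_lit 4) (nat_lit 19) (nat_lit 4) (nat_lit 396) (nat_lit 367) (nat_lit 257)) (XT.nd (nat_lit 78) (nat_lit 152) (nat_lit 0) (XT.lf (nat_lit 0) (nat_lit 1239193742172) (nat_lit 76) (nat_lit 919097407063) (nat_lit 76) (nat_lit 412029278169) (nat_lit 18) (nat_lit 4) (nat_lit 19) (nat_lit 5) (nat_lit 19) (nat_lit 4) (nat_lit 397) (nat_lit 367) (nat_lit 256)) (XT.lf (nat_lit 0) (nat_lit 695440537795) (nat_lit 152) (nat_lit 1938092717584) (nat_lit 0) (nat_lit 225932999832) (nat_lit 16) (nat_lit 5) (nat_lit 18) (nat_lit 4) (nat_lit 16) (nat_lit 4) (nat_lit 398) (nat_lit 367) (nat_lit 255))))))) (XT.nd (nat_lit 624) (nat_lit 380) (nat_lit 0) (XT.nd (nat_lit 312) (nat_lit 228) (nat_lit 0) (XT.nd (nat_lit 156) (nat_lit 152) (nat_lit 0) (XT.nd (nat_lit 78) (nat_lit 76) (nat_lit 0) (XT.lf (nat_lit 0) (nat_lit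 384906350418) (nat_lit 76) (nat_lit 1634859235247) (nat_lit 76) (nat_lit 1165351687537) (nat_lit 15) (nat_lit 4) (nat_lit 16) (nat_lit 5) (nat_lit 16) (nat_lit 4) (nat_lit 399) (nat_lit 367) (nat_lit 254)) (XT.lf (nat_lit 0) (nat_lit 41858707903) (nat_lit 152) (nat_lit 382441443746) (nat_lit 76) (nat_lit 3130716980562) (nat_lit 14) (nat_lit 5) (nat_lit 16) (nat_lit 5) (nat_lit 15) (nat_lit 4) (nat_lit 400) (nat_lit 367) (nat_lit 253))) (XT.nd (nat_lit 78) (nat_lit 76) (nat_lit 0) (XT.lf (nat_lit 0) (nat_lit 1448672846455) (nat_lit 152) (nat_lit 1508362072028) (nat_lit 0) (nat_lit 1013943620940) (nat_lit 13) (nat_lit 5) (nat_lit 15) (nat_lit 4) (nat_lit 13) (nat_lit 4) (nat_lit 401) (nat_lit 367) (nat_lit 252)) (XT.lf (nat_lit 0) (nat_lit 1365429053862) (nat_lit 76) (nat_lit 1757077278587) (nat_lit 76) (nat_lit 1322348047138) (nat_lit 12) (nat_lit 4) (nat_lit 13) (nat_lit 5) (nat_lit 13) (nat_lit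 4) (nat_lit 402) (nat_lit 367) (nat_lit 251)))) (XT.nd (nat_lit 156) (nat_lit 76) (nat_lit 0) (XT.nd (nat_lit 78) (nat_lit 76) (nat_lit 0) (XT.lf (nat_lit 0) (nat_lit 99776627918) (nat_lit 152) (nat_lit 227193850539) (nat_lit 76) (nat_lit 4659125894164) (nat_lit 11) (nat_lit 5) (nat_lit 13) (nat_lit 5) (nat_lit 12) (nat_lit 4) (nat_lit 403) (nat_lit 367) (nat_lit 250)) (XT.lf (nat_lit 0) (nat_lit 1770133336334) (nat_lit 152) (nat_lit 2458980443403) (nat_lit 0) (nat_lit 1367606261244) (nat_lit 10) (nat_lit 5) (nat_lit 12) (nat_lit 4) (nat_lit 10) (nat_lit 4) (nat_lit 404) (nat_lit 367) (nat_lit 249))) (XT.nd (nat_lit 78) (nat_lit 0) (nat_lit 0) (XT.lf (nat_lit 0) (nat_lit 751122240913) (nat_lit 76) (nat_lit 2973815289515) (nat_lit 76) (nat_lit 2571288210813) (nat_lit 9) (nat_lit 4) (nat_lit 10) (nat_lit 5) (nat_lit 10) (nat_lit 4) (nat_lit 405) (nat_lit 367) (nat_lit 248)) (XT.lf (nat_lit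 0) (nat_lit 4591648650656) (nat_lit 76) (nat_lit 1452904242292) (nat_lit 76) (nat_lit 1050377160449) (nat_lit 9) (nat_lit 4) (nat_lit 10) (nat_lit 5) (nat_lit 10) (nat_lit 4) (nat_lit 406) (nat_lit 367) (nat_lit 247))))) (XT.nd (nat_lit 312) (nat_lit 152) (nat_lit 0) (XT.nd (nat_lit 156) (nat_lit 76) (nat_lit 0) (XT.nd (nat_lit 78) (nat_lit 0) (nat_lit 0) (XT.lf (nat_lit 0) (nat_lit 696681769956) (nat_lit 152) (nat_lit 6988805568250) (nat_lit 0) (nat_lit 323971506460) (nat_lit 7) (nat_lit 5) (nat_lit 9) (nat_lit 4) (nat_lit 7) (nat_lit 4) (nat_lit 407) (nat_lit 367) (nat_lit 246)) (XT.lf (nat_lit 0) (nat_lit 2760330856661) (nat_lit 152) (nat_lit 3901694875827) (nat_lit 0) (nat_lit 2387620590965) (nat_lit 7) (nat_lit 5) (nat_lit 9) (nat_lit 4) (nat_lit 7) (nat_lit 4) (nat_lit 408) (nat_lit 367) (nat_lit 245))) (XT.nd (nat_lit 78) (nat_lit 76) (nat_lit 0) (XT.lf (nat_lit 0) (nat_lit 5133527284139)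 (nat_lit 152) (nat_lit 351517625167) (nat_lit 0) (nat_lit 4760817016531) (nat_lit 7) (nat_lit 5) (nat_lit 9) (nat_lit 4) (nat_lit 7) (nat_lit 4) (nat_lit 409) (nat_lit 367) (nat_lit 244)) (XT.lf (nat_lit 0) (nat_lit 3927663825079) (nat_lit 76) (nat_lit 4029499740780) (nat_lit 76) (nat_lit 3656789471509) (nat_lit 6) (nat_lit 4) (nat_lit 7) (nat_lit 5) (nat_lit 7) (nat_lit 4) (nat_lit 410) (nat_lit 367) (nat_lit 243)))) (XT.nd (nat_lit 156) (nat_lit 152) (nat_lit 0) (XT.nd (nat_lit 78) (nat_lit 0) (nat_lit 0) (XT.lf (nat_lit 0) (nat_lit 8870009296025) (nat_lit 76) (nat_lit 2344570033571) (nat_lit 76) (nat_lit 1971859762854) (nat_lit 6) (nat_lit 4) (nat_lit 7) (nat_lit 5) (nat_lit 7) (nat_lit 4) (nat_lit 411) (nat_lit 367) (nat_lit 242)) (XT.lf (nat_lit 0) (nat_lit 14553706556033) (nat_lit 76) (nat_lit 406900886482) (nat_lit 76) (nat_lit 34190614508) (nat_lit 6) (nat_lit 4) (nat_lit 7) (nat_lit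 5) (nat_lit 7) (nat_lit 4) (nat_lit 412) (nat_lit 367) (nat_lit 241))) (XT.nd (nat_lit 78) (nat_lit 0) (nat_lit 0) (XT.lf (nat_lit 0) (nat_lit 2232474775125) (nat_lit 152) (nat_lit 12938493505834) (nat_lit 0) (nat_lit 1887372670432) (nat_lit 4) (nat_lit 5) (nat_lit 6) (nat_lit 4) (nat_lit 4) (nat_lit 4) (nat_lit 413) (nat_lit 367) (nat_lit 240)) (XT.nd (nat_lit 78) (nat_lit 0) (nat_lit 0) (XT.lf (nat_lit 0) (nat_lit 4861602387314) (nat_lit 152) (nat_lit 10051282615025) (nat_lit 0) (nat_lit 4516500281740) (nat_lit 4) (nat_lit 5) (nat_lit 6) (nat_lit 4) (nat_lit 4) (nat_lit 4) (nat_lit 414) (nat_lit 367) (nat_lit 239)) (XT.lf (nat_lit 0) (nat_lit 7885099130141) (nat_lit 152) (nat_lit 6730990113623) (nat_lit 0) (nat_lit 7539997023802) (nat_lit 4) (nat_lit 5) (nat_lit 6) (nat_lit 4) (nat_lit 4) (nat_lit 4) (nat_lit 415) (nat_lit 367) (nat_lit 238))))))))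
noncomputable def xc98 : XT := (XT.nd (nat_lit 1326) (nat_lit 1900) (nat_lit 0) (XT.nd (nat_lit 624) (nat_lit 1748) (nat_lit 0) (XT.nd (nat_lit 312) (nat_lit 760) (nat_lit 0) (XT.nd (nat_lit 156) (nat_lit 456) (nat_lit 0) (XT.nd (nat_lit 78) (nat_lit 0) (nat_lit 0) (XT.lf (nat_lit 0) (nat_lit 96780003586) (nat_lit 532) (nat_lit 2453879526) (nat_lit 532) (nat_lit 2453879526) (nat_lit 78) (nat_lit 3) (nat_lit 85) (nat_lit 3) (nat_lit 85) (nat_lit 5) (nat_lit 368) (nat_lit 368) (nat_lit 284)) (XT.lf (nat_lit 76) (nat_lit 193132483809) (nat_lit 0) (nat_lit 19592047040) (nat_lit 532) (nat_lit 5532355894) (nat_lit 79) (nat_lit 5) (nat_lit 78) (nat_lit 3) (nat_lit 85) (nat_lit 5) (nat_lit 369) (nat_lit 368) (nat_lit 283))) (XT.nd (nat_lit 78) (nat_lit 0) (nat_lit 76) (XT.lf (nat_lit 0) (nat_lit 8875923039) (nat_lit 532) (nat_lit 43972400742) (nat_lit 608) (nat_lit 181767112810) (nat_lit 72) (nat_lit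 5) (nat_lit 79) (nat_lit 5) (nat_lit 80) (nat_lit 5) (nat_lit 370) (nat_lit 368) (nat_lit 282)) (XT.lf (nat_lit 0) (nat_lit 35098861670) (nat_lit 532) (nat_lit 60881260050) (nat_lit 608) (nat_lit 156637671940) (nat_lit 73) (nat_lit 5) (nat_lit 80) (nat_lit 5) (nat_lit 81) (nat_lit 5) (nat_lit 371) (nat_lit 368) (nat_lit 281)))) (XT.nd (nat_lit 156) (nat_lit 456) (nat_lit 0) (XT.nd (nat_lit 78) (nat_lit 456) (nat_lit 0) (XT.lf (nat_lit 0) (nat_lit 75936005563) (nat_lit 532) (nat_lit 74993120386) (nat_lit 76) (nat_lit 121536917317) (nat_lit 74) (nat_lit 5) (nat_lit 81) (nat_lit 5) (nat_lit 75) (nat_lit 5) (nat_lit 372) (nat_lit 368) (nat_lit 280)) (XT.lf (nat_lit 0) (nat_lit 134333837074) (nat_lit 532) (nat_lit 85446396681) (nat_lit 76) (nat_lit 74596487393) (nat_lit 68) (nat_lit 5) (nat_lit 75) (nat_lit 5) (nat_lit 69) (nat_lit 5) (nat_lit 373) (nat_lit 368) (nat_lit 279))) (XT.nd (nat_lit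 78) (nat_lit 228) (nat_lit 0) (XT.lf (nat_lit 0) (nat_lit 213728143483) (nat_lit 304) (nat_lit 91222404579) (nat_lit 76) (nat_lit 13644508737) (nat_lit 65) (nat_lit 5) (nat_lit 69) (nat_lit 5) (nat_lit 66) (nat_lit 5) (nat_lit 374) (nat_lit 368) (nat_lit 278)) (XT.lf (nat_lit 0) (nat_lit 252530918848) (nat_lit 228) (nat_lit 67204655172) (nat_lit 304) (nat_lit 25534250614) (nat_lit 62) (nat_lit 5) (nat_lit 65) (nat_lit 5) (nat_lit 66) (nat_lit 5) (nat_lit 375) (nat_lit 368) (nat_lit 277))))) (XT.nd (nat_lit 312) (nat_lit 912) (nat_lit 0) (XT.nd (nat_lit 156) (nat_lit 380) (nat_lit 0) (XT.nd (nat_lit 78) (nat_lit 228) (nat_lit 0) (XT.lf (nat_lit 0) (nat_lit 77375935462) (nat_lit 228) (nat_lit 89773156938) (nat_lit 76) (nat_lit 207473182071) (nat_lit 59) (nat_lit 5) (nat_lit 62) (nat_lit 5) (nat_lit 60) (nat_lit 5) (nat_lit 376) (nat_lit 368) (nat_lit 276)) (XT.lf (nat_lit 0) (nat_lit 209801482277)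 (nat_lit 304) (nat_lit 79864007839) (nat_lit 76) (nat_lit 117411783912) (nat_lit 56) (nat_lit 5) (nat_lit 60) (nat_lit 5) (nat_lit 57) (nat_lit 5) (nat_lit 377) (nat_lit 368) (nat_lit 275))) (XT.nd (nat_lit 78) (nat_lit 228) (nat_lit 0) (XT.lf (nat_lit 0) (nat_lit 378684977215) (nat_lit 228) (nat_lit 60740399302) (nat_lit 76) (nat_lit 3647617769) (nat_lit 54) (nat_lit 5) (nat_lit 57) (nat_lit 5) (nat_lit 55) (nat_lit 5) (nat_lit 378) (nat_lit 368) (nat_lit 274)) (XT.lf (nat_lit 0) (nat_lit 105749782023) (nat_lit 228) (nat_lit 36658853612) (nat_lit 76) (nat_lit 340150041377) (nat_lit 51) (nat_lit 5) (nat_lit 54) (nat_lit 5) (nat_lit 52) (nat_lit 5) (nat_lit 379) (nat_lit 368) (nat_lit 273)))) (XT.nd (nat_lit 156) (nat_lit 456) (nat_lit 0) (XT.nd (nat_lit 78) (nat_lit 304) (nat_lit 0) (XT.lf (nat_lit 0) (nat_lit 317455056617) (nat_lit 228) (nat_lit 2849839001) (nat_lit 76) (nat_lit 205939779703)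 (nat_lit 49) (nat_lit 5) (nat_lit 52) (nat_lit 5) (nat_lit 50) (nat_lit 5) (nat_lit 380) (nat_lit 368) (nat_lit 272)) (XT.lf (nat_lit 0) (nat_lit 7812413756) (nat_lit 152) (nat_lit 528068286159) (nat_lit 76) (nat_lit 38824735875) (nat_lit 45) (nat_lit 5) (nat_lit 47) (nat_lit 5) (nat_lit 46) (nat_lit 5) (nat_lit 381) (nat_lit 368) (nat_lit 271))) (XT.nd (nat_lit 78) (nat_lit 304) (nat_lit 0) (XT.lf (nat_lit 0) (nat_lit 101816632663) (nat_lit 152) (nat_lit 170280379581) (nat_lit 228) (nat_lit 355700054631) (nat_lit 43) (nat_lit 5) (nat_lit 45) (nat_lit 5) (nat_lit 46) (nat_lit 5) (nat_lit 382) (nat_lit 368) (nat_lit 270)) (XT.nd (nat_lit 78) (nat_lit 228) (nat_lit 0) (XT.lf (nat_lit 0) (nat_lit 172766549330) (nat_lit 76) (nat_lit 429202472838) (nat_lit 152) (nat_lit 84807842747) (nat_lit 42) (nat_lit 5) (nat_lit 43) (nat_lit 5) (nat_lit 44) (nat_lit 4) (nat_lit 383) (nat_lit 368) (nat_lit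 269)) (XT.lf (nat_lit 0) (nat_lit 242344223436) (nat_lit 228) (nat_lit 495302862149) (nat_lit 76) (nat_lit 14362950028) (nat_lit 39) (nat_lit 5) (nat_lit 42) (nat_lit 5) (nat_lit 40) (nat_lit 4) (nat_lit 384) (nat_lit 368) (nat_lit 268))))))) (XT.nd (nat_lit 624) (nat_lit 912) (nat_lit 0) (XT.nd (nat_lit 312) (nat_lit 456) (nat_lit 0) (XT.nd (nat_lit 156) (nat_lit 228) (nat_lit 0) (XT.nd (nat_lit 78) (nat_lit 228) (nat_lit 0) (XT.lf (nat_lit 0) (nat_lit 351296292016) (nat_lit 76) (nat_lit 298066808905) (nat_lit 152) (nat_lit 174623611156) (nat_lit 38) (nat_lit 5) (nat_lit 39) (nat_lit 5) (nat_lit 40) (nat_lit 4) (nat_lit 385) (nat_lit 368) (nat_lit 267)) (XT.lf (nat_lit 0) (nat_lit 231963919650) (nat_lit 228) (nat_lit 442866023449) (nat_lit 76) (nat_lit 228978382985) (nat_lit 35) (nat_lit 5) (nat_lit 38) (nat_lit 5) (nat_lit 36) (nat_lit 4) (nat_lit 386) (nat_lit 368) (nat_lit 266))) (XT.nd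 (nat_lit 78) (nat_lit 152) (nat_lit 0) (XT.lf (nat_lit 0) (nat_lit 584553015229) (nat_lit 76) (nat_lit 141362402687) (nat_lit 152) (nat_lit 266387669686) (nat_lit 34) (nat_lit 5) (nat_lit 35) (nat_lit 5) (nat_lit 36) (nat_lit 4) (nat_lit 387) (nat_lit 368) (nat_lit 265)) (XT.lf (nat_lit 0) (nat_lit 232984533500) (nat_lit 152) (nat_lit 372198764412) (nat_lit 76) (nat_lit 485056489995) (nat_lit 32) (nat_lit 5) (nat_lit 34) (nat_lit 5) (nat_lit 33) (nat_lit 4) (nat_lit 388) (nat_lit 368) (nat_lit 264)))) (XT.nd (nat_lit 156) (nat_lit 228) (nat_lit 0) (XT.nd (nat_lit 78) (nat_lit 152) (nat_lit 0) (XT.lf (nat_lit 0) (nat_lit 829808329675) (nat_lit 152) (nat_lit 332970779632) (nat_lit 0) (nat_lit 36468840318) (nat_lit 31) (nat_lit 5) (nat_lit 33) (nat_lit 4) (nat_lit 31) (nat_lit 4) (nat_lit 389) (nat_lit 368) (nat_lit 263)) (XT.lf (nat_lit 0) (nat_lit 235799911069) (nat_lit 152) (nat_lit 302875718142)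 (nat_lit 76) (nat_lit 781256480894) (nat_lit 29) (nat_lit 5) (nat_lit 31) (nat_lit 5) (nat_lit 30) (nat_lit 4) (nat_lit 390) (nat_lit 368) (nat_lit 262))) (XT.nd (nat_lit 78) (nat_lit 152) (nat_lit 0) (XT.lf (nat_lit 0) (nat_lit 954473573331) (nat_lit 152) (nat_lit 280015906374) (nat_lit 0) (nat_lit 219899896235) (nat_lit 28) (nat_lit 5) (nat_lit 30) (nat_lit 4) (nat_lit 28) (nat_lit 4) (nat_lit 391) (nat_lit 368) (nat_lit 261)) (XT.lf (nat_lit 0) (nat_lit 220837543397) (nat_lit 152) (nat_lit 275231617502) (nat_lit 76) (nat_lit 1108014849010) (nat_lit 26) (nat_lit 5) (nat_lit 28) (nat_lit 5) (nat_lit 27) (nat_lit 4) (nat_lit 392) (nat_lit 368) (nat_lit 260))))) (XT.nd (nat_lit 312) (nat_lit 532) (nat_lit 0) (XT.nd (nat_lit 156) (nat_lit 152) (nat_lit 0) (XT.nd (nat_lit 78) (nat_lit 152) (nat_lit 0) (XT.lf (nat_lit 0) (nat_lit 1074907311693) (nat_lit 152) (nat_lit 301155973564) (nat_lit 0)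 (nat_lit 394746446470) (nat_lit 25) (nat_lit 5) (nat_lit 27) (nat_lit 4) (nat_lit 25) (nat_lit 4) (nat_lit 393) (nat_lit 368) (nat_lit 259)) (XT.lf (nat_lit 0) (nat_lit 151730276644) (nat_lit 152) (nat_lit 364561911279) (nat_lit 76) (nat_lit 1441116904242) (nat_lit 23) (nat_lit 5) (nat_lit 25) (nat_lit 5) (nat_lit 24) (nat_lit 4) (nat_lit 394) (nat_lit 368) (nat_lit 258))) (XT.nd (nat_lit 78) (nat_lit 76) (nat_lit 0) (XT.lf (nat_lit 0) (nat_lit 1149082926507) (nat_lit 152) (nat_lit 497062669726) (nat_lit 0) (nat_lit 519304310421) (nat_lit 22) (nat_lit 5) (nat_lit 24) (nat_lit 4) (nat_lit 22) (nat_lit 4) (nat_lit 395) (nat_lit 368) (nat_lit 257)) (XT.lf (nat_lit 0) (nat_lit 1694729872736) (nat_lit 76) (nat_lit 667235716247) (nat_lit 76) (nat_lit 37457085126) (nat_lit 21) (nat_lit 4) (nat_lit 22) (nat_lit 5) (nat_lit 22) (nat_lit 4) (nat_lit 396) (nat_lit 368) (nat_lit 256)))) (XT.nd (nat_lit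 156) (nat_lit 304) (nat_lit 0) (XT.nd (nat_lit 78) (nat_lit 76) (nat_lit 0) (XT.lf (nat_lit 0) (nat_lit 1101087525907) (nat_lit 152) (nat_lit 1041971698842) (nat_lit 0) (nat_lit 517959151651) (nat_lit 19) (nat_lit 5) (nat_lit 21) (nat_lit 4) (nat_lit 19) (nat_lit 4) (nat_lit 397) (nat_lit 368) (nat_lit 255)) (XT.lf (nat_lit 0) (nat_lit 1425073926202) (nat_lit 76) (nat_lit 1056961452745) (nat_lit 76) (nat_lit 473833067962) (nat_lit 18) (nat_lit 4) (nat_lit 19) (nat_lit 5) (nat_lit 19) (nat_lit 4) (nat_lit 398) (nat_lit 368) (nat_lit 254))) (XT.nd (nat_lit 78) (nat_lit 152) (nat_lit 0) (XT.lf (nat_lit 0) (nat_lit 799757153889) (nat_lit 152) (nat_lit 2228805540957) (nat_lit 0) (nat_lit 259823455799) (nat_lit 16) (nat_lit 5) (nat_lit 18) (nat_lit 4) (nat_lit 16) (nat_lit 4) (nat_lit 399) (nat_lit 368) (nat_lit 253)) (XT.nd (nat_lit 78) (nat_lit 76) (nat_lit 0) (XT.lf (nat_lit 0) (nat_lit 442643295467)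 (nat_lit 76) (nat_lit 1880087617503) (nat_lit 76) (nat_lit 1340153912044) (nat_lit 15) (nat_lit 4) (nat_lit 16) (nat_lit 5) (nat_lit 16) (nat_lit 4) (nat_lit 400) (nat_lit 368) (nat_lit 252)) (XT.lf (nat_lit 0) (nat_lit 48137950767) (nat_lit 152) (nat_lit 439806774271) (nat_lit 76) (nat_lit 3600324942060) (nat_lit 14) (nat_lit 5) (nat_lit 16) (nat_lit 5) (nat_lit 15) (nat_lit 4) (nat_lit 401) (nat_lit 368) (nat_lit 251))))))))
noncomputable def xc99 : XT := (XT.nd (nat_lit 50778) (nat_lit 0) (nat_lit 2128) (XT.nd (nat_lit 624) (nat_lit 228) (nat_lit 0) (XT.nd (nat_lit 312) (nat_lit 228) (nat_lit 0) (XT.nd (nat_lit 156) (nat_lit 152) (nat_lit 0) (XT.nd (nat_lit 78) (nat_lit 76) (nat_lit 0) (XT.lf (nat_lit 0) (nat_lit 1665974182554) (nat_lit 152) (nat_lit 1734615549752) (nat_lit 0) (nat_lit 1166035555293) (nat_lit 13) (nat_lit 5) (nat_lit 15) (nat_lit 4) (nat_lit 13) (nat_lit 4) (nat_lit 402)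 (nat_lit 368) (nat_lit 250)) (XT.lf (nat_lit 0) (nat_lit 1570244174506) (nat_lit 76) (nat_lit 2020638481916) (nat_lit 76) (nat_lit 1520699850168) (nat_lit 12) (nat_lit 4) (nat_lit 13) (nat_lit 5) (nat_lit 13) (nat_lit 4) (nat_lit 403) (nat_lit 368) (nat_lit 249))) (XT.nd (nat_lit 78) (nat_lit 76) (nat_lit 0) (XT.lf (nat_lit 0) (nat_lit 114743455870) (nat_lit 152) (nat_lit 261272247439) (nat_lit 76) (nat_lit 5357995098498) (nat_lit 11) (nat_lit 5) (nat_lit 13) (nat_lit 5) (nat_lit 12) (nat_lit 4) (nat_lit 404) (nat_lit 368) (nat_lit 248)) (XT.lf (nat_lit 0) (nat_lit 2035653649643) (nat_lit 152) (nat_lit 2827826870070) (nat_lit 0) (nat_lit 1572747502381) (nat_lit 10) (nat_lit 5) (nat_lit 12) (nat_lit 4) (nat_lit 10) (nat_lit 4) (nat_lit 405) (nat_lit 368) (nat_lit 247)))) (XT.nd (nat_lit 156) (nat_lit 152) (nat_lit 0) (XT.nd (nat_lit 78) (nat_lit 0) (nat_lit 0) (XT.lf (nat_lit 0) (nat_lit 863791162733)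 (nat_lit 76) (nat_lit 3419887283396) (nat_lit 76) (nat_lit 2956981133403) (nat_lit 9) (nat_lit 4) (nat_lit 10) (nat_lit 5) (nat_lit 10) (nat_lit 4) (nat_lit 406) (nat_lit 368) (nat_lit 246)) (XT.lf (nat_lit 0) (nat_lit 5280396457544) (nat_lit 76) (nat_lit 1670839618161) (nat_lit 76) (nat_lit 1207933465792) (nat_lit 9) (nat_lit 4) (nat_lit 10) (nat_lit 5) (nat_lit 10) (nat_lit 4) (nat_lit 407) (nat_lit 368) (nat_lit 245))) (XT.nd (nat_lit 78) (nat_lit 0) (nat_lit 0) (XT.lf (nat_lit 0) (nat_lit 801184274833) (nat_lit 152) (nat_lit 8037125912208) (nat_lit 0) (nat_lit 372567465171) (nat_lit 7) (nat_lit 5) (nat_lit 9) (nat_lit 4) (nat_lit 7) (nat_lit 4) (nat_lit 408) (nat_lit 368) (nat_lit 244)) (XT.lf (nat_lit 0) (nat_lit 3174380693319) (nat_lit 152) (nat_lit 4486948680001) (nat_lit 0) (nat_lit 2745763881995) (nat_lit 7) (nat_lit 5) (nat_lit 9) (nat_lit 4) (nat_lit 7) (nat_lit 4) (nat_lit 409)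 (nat_lit 368) (nat_lit 243))))) (XT.nd (nat_lit 312) (nat_lit 152) (nat_lit 0) (XT.nd (nat_lit 156) (nat_lit 0) (nat_lit 0) (XT.nd (nat_lit 78) (nat_lit 76) (nat_lit 0) (XT.lf (nat_lit 0) (nat_lit 5903556557768) (nat_lit 152) (nat_lit 404244897464) (nat_lit 0) (nat_lit 5474939744997) (nat_lit 7) (nat_lit 5) (nat_lit 9) (nat_lit 4) (nat_lit 7) (nat_lit 4) (nat_lit 410) (nat_lit 368) (nat_lit 242)) (XT.lf (nat_lit 0) (nat_lit 4516813738875) (nat_lit 76) (nat_lit 4633924527439) (nat_lit 76) (nat_lit 4205307713411) (nat_lit 6) (nat_lit 4) (nat_lit 7) (nat_lit 5) (nat_lit 7) (nat_lit 4) (nat_lit 411) (nat_lit 368) (nat_lit 241))) (XT.nd (nat_lit 78) (nat_lit 0) (nat_lit 0) (XT.lf (nat_lit 0) (nat_lit 10200510986111) (nat_lit 76) (nat_lit 2696255386904) (nat_lit 76) (nat_lit 2267638571782) (nat_lit 6) (nat_lit 4) (nat_lit 7) (nat_lit 5) (nat_lit 7) (nat_lit 4) (nat_lit 412) (nat_lit 368) (nat_lit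 240)) (XT.lf (nat_lit 0) (nat_lit 16736762796553) (nat_lit 76) (nat_lit 467935887540) (nat_lit 76) (nat_lit 39319071467) (nat_lit 6) (nat_lit 4) (nat_lit 7) (nat_lit 5) (nat_lit 7) (nat_lit 4) (nat_lit 413) (nat_lit 368) (nat_lit 239)))) (XT.nd (nat_lit 49608) (nat_lit 0) (nat_lit 5168) (XT.nd (nat_lit 78) (nat_lit 0) (nat_lit 0) (XT.lf (nat_lit 0) (nat_lit 2567346111884) (nat_lit 152) (nat_lit 14879267283747) (nat_lit 0) (nat_lit 2170478688829) (nat_lit 4) (nat_lit 5) (nat_lit 6) (nat_lit 4) (nat_lit 4) (nat_lit 4) (nat_lit 414) (nat_lit 368) (nat_lit 238)) (XT.lf (nat_lit 0) (nat_lit 5590842850185) (nat_lit 152) (nat_lit 11558974791659) (nat_lit 0) (nat_lit 5193975426464) (nat_lit 4) (nat_lit 5) (nat_lit 6) (nat_lit 4) (nat_lit 4) (nat_lit 4) (nat_lit 415) (nat_lit 368) (nat_lit 237))) (XT.nd (nat_lit 78) (nat_lit 456) (nat_lit 0) (XT.lf (nat_lit 0) (nat_lit 111299575316) (nat_lit 532)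 (nat_lit 2820572494) (nat_lit 532) (nat_lit 2820572494) (nat_lit 78) (nat_lit 3) (nat_lit 85) (nat_lit 3) (nat_lit 85) (nat_lit 5) (nat_lit 369) (nat_lit 369) (nat_lit 282)) (XT.nd (nat_lit 78) (nat_lit 456) (nat_lit 0) (XT.lf (nat_lit 76) (nat_lit 222104899165) (nat_lit 0) (nat_lit 22532844105) (nat_lit 532) (nat_lit 6357312064) (nat_lit 79) (nat_lit 5) (nat_lit 78) (nat_lit 3) (nat_lit 85) (nat_lit 5) (nat_lit 370) (nat_lit 369) (nat_lit 281)) (XT.lf (nat_lit 0) (nat_lit 10211380962) (nat_lit 532) (nat_lit 50565340182) (nat_lit 608) (nat_lit 209030703931) (nat_lit 72) (nat_lit 5) (nat_lit 79) (nat_lit 5) (nat_lit 80) (nat_lit 5) (nat_lit 371) (nat_lit 369) (nat_lit 280))))))) (XT.nd (nat_lit 702) (nat_lit 1444) (nat_lit 0) (XT.nd (nat_lit 312) (nat_lit 1064) (nat_lit 0) (XT.nd (nat_lit 156) (nat_lit 608) (nat_lit 0) (XT.nd (nat_lit 78) (nat_lit 0) (nat_lit 76) (XT.lf (nat_lit 0) (nat_lit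 40367271529) (nat_lit 532) (nat_lit 70010463756) (nat_lit 608) (nat_lit 180132439716) (nat_lit 73) (nat_lit 5) (nat_lit 80) (nat_lit 5) (nat_lit 81) (nat_lit 5) (nat_lit 372) (nat_lit 369) (nat_lit 279)) (XT.lf (nat_lit 0) (nat_lit 87329574947) (nat_lit 532) (nat_lit 86239089653) (nat_lit 76) (nat_lit 139767030578) (nat_lit 74) (nat_lit 5) (nat_lit 81) (nat_lit 5) (nat_lit 75) (nat_lit 5) (nat_lit 373) (nat_lit 369) (nat_lit 278))) (XT.nd (nat_lit 78) (nat_lit 228) (nat_lit 0) (XT.lf (nat_lit 0) (nat_lit 154486732076) (nat_lit 532) (nat_lit 98260382736) (nat_lit 76) (nat_lit 85785888001) (nat_lit 68) (nat_lit 5) (nat_lit 75) (nat_lit 5) (nat_lit 69) (nat_lit 5) (nat_lit 374) (nat_lit 369) (nat_lit 277)) (XT.lf (nat_lit 0) (nat_lit 245789887074) (nat_lit 304) (nat_lit 104902846228) (nat_lit 76) (nat_lit 15691379425) (nat_lit 65) (nat_lit 5) (nat_lit 69) (nat_lit 5) (nat_lit 66) (nat_lit 5)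 (nat_lit 375) (nat_lit 369) (nat_lit 276)))) (XT.nd (nat_lit 156) (nat_lit 608) (nat_lit 0) (XT.nd (nat_lit 78) (nat_lit 228) (nat_lit 0) (XT.lf (nat_lit 0) (nat_lit 290413228631) (nat_lit 228) (nat_lit 77284938855) (nat_lit 304) (nat_lit 29361949535) (nat_lit 62) (nat_lit 5) (nat_lit 65) (nat_lit 5) (nat_lit 66) (nat_lit 5) (nat_lit 376) (nat_lit 369) (nat_lit 275)) (XT.lf (nat_lit 0) (nat_lit 88984413399) (nat_lit 228) (nat_lit 103236417346) (nat_lit 76) (nat_lit 238594617307) (nat_lit 59) (nat_lit 5) (nat_lit 62) (nat_lit 5) (nat_lit 60) (nat_lit 5) (nat_lit 377) (nat_lit 369) (nat_lit 274))) (XT.nd (nat_lit 78) (nat_lit 380) (nat_lit 0) (XT.lf (nat_lit 0) (nat_lit 241273594299) (nat_lit 304) (nat_lit 91840989661) (nat_lit 76) (nat_lit 135024129494) (nat_lit 56) (nat_lit 5) (nat_lit 60) (nat_lit 5) (nat_lit 57) (nat_lit 5) (nat_lit 378) (nat_lit 369) (nat_lit 273)) (XT.nd (nat_lit 78)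 (nat_lit 228) (nat_lit 0) (XT.lf (nat_lit 0) (nat_lit 435489441418) (nat_lit 228) (nat_lit 69848941809) (nat_lit 76) (nat_lit 4195422353) (nat_lit 54) (nat_lit 5) (nat_lit 57) (nat_lit 5) (nat_lit 55) (nat_lit 5) (nat_lit 379) (nat_lit 369) (nat_lit 272)) (XT.lf (nat_lit 0) (nat_lit 121613838924) (nat_lit 228) (nat_lit 42155293291) (nat_lit 76) (nat_lit 391173218827) (nat_lit 51) (nat_lit 5) (nat_lit 54) (nat_lit 5) (nat_lit 52) (nat_lit 5) (nat_lit 380) (nat_lit 369) (nat_lit 271)))))) (XT.nd (nat_lit 312) (nat_lit 760) (nat_lit 0) (XT.nd (nat_lit 156) (nat_lit 228) (nat_lit 0) (XT.nd (nat_lit 78) (nat_lit 304) (nat_lit 0) (XT.lf (nat_lit 0) (nat_lit 365074768017) (nat_lit 228) (nat_lit 3275031629) (nat_lit 76) (nat_lit 236831460435) (nat_lit 49) (nat_lit 5) (nat_lit 52) (nat_lit 5) (nat_lit 50) (nat_lit 5) (nat_lit 381) (nat_lit 369) (nat_lit 270)) (XT.lf (nat_lit 0) (nat_lit 8985699547)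 (nat_lit 152) (nat_lit 607276162598) (nat_lit 76) (nat_lit 44649274869) (nat_lit 45) (nat_lit 5) (nat_lit 47) (nat_lit 5) (nat_lit 46) (nat_lit 5) (nat_lit 382) (nat_lit 369) (nat_lit 269))) (XT.nd (nat_lit 78) (nat_lit 76) (nat_lit 0) (XT.lf (nat_lit 0) (nat_lit 117091293737) (nat_lit 152) (nat_lit 195821560465) (nat_lit 228) (nat_lit 409053669282) (nat_lit 43) (nat_lit 5) (nat_lit 45) (nat_lit 5) (nat_lit 46) (nat_lit 5) (nat_lit 383) (nat_lit 369) (nat_lit 268)) (XT.lf (nat_lit 0) (nat_lit 198683589932) (nat_lit 76) (nat_lit 493581975226) (nat_lit 152) (nat_lit 97527734134) (nat_lit 42) (nat_lit 5) (nat_lit 43) (nat_lit 5) (nat_lit 44) (nat_lit 4) (nat_lit 384) (nat_lit 369) (nat_lit 267)))) (XT.nd (nat_lit 156) (nat_lit 456) (nat_lit 0) (XT.nd (nat_lit 78) (nat_lit 76) (nat_lit 0) (XT.lf (nat_lit 0) (nat_lit 278696985271) (nat_lit 228) (nat_lit 569596279752) (nat_lit 76) (nat_lit 16518185516)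 (nat_lit 39) (nat_lit 5) (nat_lit 42) (nat_lit 5) (nat_lit 40) (nat_lit 4) (nat_lit 385) (nat_lit 369) (nat_lit 266)) (XT.lf (nat_lit 0) (nat_lit 403992577255) (nat_lit 76) (nat_lit 342776014238) (nat_lit 152) (nat_lit 200816045231) (nat_lit 38) (nat_lit 5) (nat_lit 39) (nat_lit 5) (nat_lit 40) (nat_lit 4) (nat_lit 386) (nat_lit 369) (nat_lit 265))) (XT.nd (nat_lit 78) (nat_lit 228) (nat_lit 0) (XT.lf (nat_lit 0) (nat_lit 266759483059) (nat_lit 228) (nat_lit 509294132679) (nat_lit 76) (nat_lit 263325881116) (nat_lit 35) (nat_lit 5) (nat_lit 38) (nat_lit 5) (nat_lit 36) (nat_lit 4) (nat_lit 387) (nat_lit 369) (nat_lit 264)) (XT.nd (nat_lit 78) (nat_lit 152) (nat_lit 0) (XT.lf (nat_lit 0) (nat_lit 672237609923) (nat_lit 76) (nat_lit 162566008409) (nat_lit 152) (nat_lit 306344861301) (nat_lit 34) (nat_lit 5) (nat_lit 35) (nat_lit 5) (nat_lit 36) (nat_lit 4) (nat_lit 388) (nat_lit 369) (nat_lit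 263)) (XT.lf (nat_lit 0) (nat_lit 267933060072) (nat_lit 152) (nat_lit 428026982558) (nat_lit 76) (nat_lit 557815645665) (nat_lit 32) (nat_lit 5) (nat_lit 34) (nat_lit 5) (nat_lit 33) (nat_lit 4) (nat_lit 389) (nat_lit 369) (nat_lit 262))))))))
noncomputable def xc100 : XT := (XT.nd (nat_lit 1326) (nat_lit 456) (nat_lit 0) (XT.nd (nat_lit 624) (nat_lit 836) (nat_lit 0) (XT.nd (nat_lit 312) (nat_lit 380) (nat_lit 0) (XT.nd (nat_lit 156) (nat_lit 228) (nat_lit 0) (XT.nd (nat_lit 78) (nat_lit 152) (nat_lit 0) (XT.lf (nat_lit 0) (nat_lit 954280366998) (nat_lit 152) (nat_lit 382914890029) (nat_lit 0) (nat_lit 41939821949) (nat_lit 31) (nat_lit 5) (nat_lit 33) (nat_lit 4) (nat_lit 31) (nat_lit 4) (nat_lit 390) (nat_lit 369) (nat_lit 261)) (XT.lf (nat_lit 0) (nat_lit 271170634710) (nat_lit 152) (nat_lit 348305657978) (nat_lit 76) (nat_lit 898445574923) (nat_lit 29) (nat_lit 5) (nat_lit 31) (nat_lit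 5) (nat_lit 30) (nat_lit 4) (nat_lit 391) (nat_lit 369) (nat_lit 260))) (XT.nd (nat_lit 78) (nat_lit 152) (nat_lit 0) (XT.lf (nat_lit 0) (nat_lit 1097645296448) (nat_lit 152) (nat_lit 322016955702) (nat_lit 0) (nat_lit 252885475168) (nat_lit 28) (nat_lit 5) (nat_lit 30) (nat_lit 4) (nat_lit 28) (nat_lit 4) (nat_lit 392) (nat_lit 369) (nat_lit 259)) (XT.lf (nat_lit 0) (nat_lit 253963818145) (nat_lit 152) (nat_lit 316515102730) (nat_lit 76) (nat_lit 1274217639025) (nat_lit 26) (nat_lit 5) (nat_lit 28) (nat_lit 5) (nat_lit 27) (nat_lit 4) (nat_lit 393) (nat_lit 369) (nat_lit 258)))) (XT.nd (nat_lit 156) (nat_lit 152) (nat_lit 0) (XT.nd (nat_lit 78) (nat_lit 152) (nat_lit 0) (XT.lf (nat_lit 0) (nat_lit 1236144009029) (nat_lit 152) (nat_lit 346328185204) (nat_lit 0) (nat_lit 453958949175) (nat_lit 25) (nat_lit 5) (nat_lit 27) (nat_lit 4) (nat_lit 25) (nat_lit 4) (nat_lit 394) (nat_lit 369) (nat_lit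 257)) (XT.lf (nat_lit 0) (nat_lit 174490380727) (nat_lit 152) (nat_lit 419245084179) (nat_lit 76) (nat_lit 1657284946052) (nat_lit 23) (nat_lit 5) (nat_lit 25) (nat_lit 5) (nat_lit 24) (nat_lit 4) (nat_lit 395) (nat_lit 369) (nat_lit 256))) (XT.nd (nat_lit 78) (nat_lit 76) (nat_lit 0) (XT.lf (nat_lit 0) (nat_lit 1321445891373) (nat_lit 152) (nat_lit 571621021714) (nat_lit 0) (nat_lit 597200437473) (nat_lit 22) (nat_lit 5) (nat_lit 24) (nat_lit 4) (nat_lit 22) (nat_lit 4) (nat_lit 396) (nat_lit 369) (nat_lit 255)) (XT.lf (nat_lit 0) (nat_lit 1948940313369) (nat_lit 76) (nat_lit 767320594338) (nat_lit 76) (nat_lit 43075129069) (nat_lit 21) (nat_lit 4) (nat_lit 22) (nat_lit 5) (nat_lit 22) (nat_lit 4) (nat_lit 397) (nat_lit 369) (nat_lit 254))))) (XT.nd (nat_lit 312) (nat_lit 380) (nat_lit 0) (XT.nd (nat_lit 156) (nat_lit 228) (nat_lit 0) (XT.nd (nat_lit 78) (nat_lit 76) (nat_lit 0) (XT.lf (nat_lit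 0) (nat_lit 1266251115947) (nat_lit 152) (nat_lit 1198266526240) (nat_lit 0) (nat_lit 595653453766) (nat_lit 19) (nat_lit 5) (nat_lit 21) (nat_lit 4) (nat_lit 19) (nat_lit 4) (nat_lit 398) (nat_lit 369) (nat_lit 253)) (XT.lf (nat_lit 0) (nat_lit 1638835864058) (nat_lit 76) (nat_lit 1215505243151) (nat_lit 76) (nat_lit 544907573010) (nat_lit 18) (nat_lit 4) (nat_lit 19) (nat_lit 5) (nat_lit 19) (nat_lit 4) (nat_lit 399) (nat_lit 369) (nat_lit 252))) (XT.nd (nat_lit 78) (nat_lit 76) (nat_lit 0) (XT.lf (nat_lit 0) (nat_lit 919721131829) (nat_lit 152) (nat_lit 2563125552241) (nat_lit 0) (nat_lit 298797356772) (nat_lit 16) (nat_lit 5) (nat_lit 18) (nat_lit 4) (nat_lit 16) (nat_lit 4) (nat_lit 400) (nat_lit 369) (nat_lit 251)) (XT.lf (nat_lit 0) (nat_lit 509040540250) (nat_lit 76) (nat_lit 2162100379765) (nat_lit 76) (nat_lit 1541176599134) (nat_lit 15) (nat_lit 4) (nat_lit 16) (nat_lit 5) (nat_lit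 16) (nat_lit 4) (nat_lit 401) (nat_lit 369) (nat_lit 250)))) (XT.nd (nat_lit 156) (nat_lit 228) (nat_lit 0) (XT.nd (nat_lit 78) (nat_lit 76) (nat_lit 0) (XT.lf (nat_lit 0) (nat_lit 55358973574) (nat_lit 152) (nat_lit 505777120441) (nat_lit 76) (nat_lit 4140373996726) (nat_lit 14) (nat_lit 5) (nat_lit 16) (nat_lit 5) (nat_lit 15) (nat_lit 4) (nat_lit 402) (nat_lit 369) (nat_lit 249)) (XT.lf (nat_lit 0) (nat_lit 1915870619298) (nat_lit 152) (nat_lit 1994807252287) (nat_lit 0) (nat_lit 1340941184399) (nat_lit 13) (nat_lit 5) (nat_lit 15) (nat_lit 4) (nat_lit 13) (nat_lit 4) (nat_lit 403) (nat_lit 369) (nat_lit 248))) (XT.nd (nat_lit 78) (nat_lit 152) (nat_lit 0) (XT.lf (nat_lit 0) (nat_lit 1805781377290) (nat_lit 76) (nat_lit 2323733960472) (nat_lit 76) (nat_lit 1748804522180) (nat_lit 12) (nat_lit 4) (nat_lit 13) (nat_lit 5) (nat_lit 13) (nat_lit 4) (nat_lit 404) (nat_lit 369) (nat_lit 247))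 (XT.nd (nat_lit 78) (nat_lit 76) (nat_lit 0) (XT.lf (nat_lit 0) (nat_lit 131955226624) (nat_lit 152) (nat_lit 300462569862) (nat_lit 76) (nat_lit 6161694605398) (nat_lit 11) (nat_lit 5) (nat_lit 13) (nat_lit 5) (nat_lit 12) (nat_lit 4) (nat_lit 405) (nat_lit 369) (nat_lit 246)) (XT.lf (nat_lit 0) (nat_lit 2341001933655) (nat_lit 152) (nat_lit 3252000416768) (nat_lit 0) (nat_lit 1808659856056) (nat_lit 10) (nat_lit 5) (nat_lit 12) (nat_lit 4) (nat_lit 10) (nat_lit 4) (nat_lit 406) (nat_lit 369) (nat_lit 245))))))) (XT.nd (nat_lit 624) (nat_lit 152) (nat_lit 0) (XT.nd (nat_lit 312) (nat_lit 76) (nat_lit 0) (XT.nd (nat_lit 156) (nat_lit 152) (nat_lit 0) (XT.nd (nat_lit 78) (nat_lit 0) (nat_lit 0) (XT.lf (nat_lit 0) (nat_lit 993360280004) (nat_lit 76) (nat_lit 3932870149406) (nat_lit 76) (nat_lit 3400528069740) (nat_lit 9) (nat_lit 4) (nat_lit 10) (nat_lit 5) (nat_lit 10) (nat_lit 4) (nat_lit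 407) (nat_lit 369) (nat_lit 244)) (XT.lf (nat_lit 0) (nat_lit 6072456311272) (nat_lit 76) (nat_lit 1921465363929) (nat_lit 76) (nat_lit 1389123282467) (nat_lit 9) (nat_lit 4) (nat_lit 10) (nat_lit 5) (nat_lit 10) (nat_lit 4) (nat_lit 408) (nat_lit 369) (nat_lit 243))) (XT.nd (nat_lit 78) (nat_lit 0) (nat_lit 0) (XT.lf (nat_lit 0) (nat_lit 921362097066) (nat_lit 152) (nat_lit 9242694427561) (nat_lit 0) (nat_lit 428452760934) (nat_lit 7) (nat_lit 5) (nat_lit 9) (nat_lit 4) (nat_lit 7) (nat_lit 4) (nat_lit 409) (nat_lit 369) (nat_lit 242)) (XT.lf (nat_lit 0) (nat_lit 3650537954716) (nat_lit 152) (nat_lit 5159990658977) (nat_lit 0) (nat_lit 3157628617326) (nat_lit 7) (nat_lit 5) (nat_lit 9) (nat_lit 4) (nat_lit 7) (nat_lit 4) (nat_lit 410) (nat_lit 369) (nat_lit 241)))) (XT.nd (nat_lit 156) (nat_lit 0) (nat_lit 0) (XT.nd (nat_lit 78) (nat_lit 76) (nat_lit 0) (XT.lf (nat_lit 0) (nat_lit 6789090178302)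 (nat_lit 152) (nat_lit 464881351193) (nat_lit 0) (nat_lit 6296180839818) (nat_lit 7) (nat_lit 5) (nat_lit 9) (nat_lit 4) (nat_lit 7) (nat_lit 4) (nat_lit 411) (nat_lit 369) (nat_lit 240)) (XT.lf (nat_lit 0) (nat_lit 5194336056821) (nat_lit 76) (nat_lit 5329013074640) (nat_lit 76) (nat_lit 4836103735206) (nat_lit 6) (nat_lit 4) (nat_lit 7) (nat_lit 5) (nat_lit 7) (nat_lit 4) (nat_lit 412) (nat_lit 369) (nat_lit 239))) (XT.nd (nat_lit 78) (nat_lit 0) (nat_lit 0) (XT.lf (nat_lit 0) (nat_lit 11730587857606) (nat_lit 76) (nat_lit 3100693580231) (nat_lit 76) (nat_lit 2607784239969) (nat_lit 6) (nat_lit 4) (nat_lit 7) (nat_lit 5) (nat_lit 7) (nat_lit 4) (nat_lit 413) (nat_lit 369) (nat_lit 238)) (XT.lf (nat_lit 0) (nat_lit 19247277410452) (nat_lit 76) (nat_lit 538126170924) (nat_lit 76) (nat_lit 45216829943) (nat_lit 6) (nat_lit 4) (nat_lit 7) (nat_lit 5) (nat_lit 7) (nat_lit 4) (nat_lit 414) (nat_lit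 369) (nat_lit 237))))) (XT.nd (nat_lit 49842) (nat_lit 0) (nat_lit 4408) (XT.nd (nat_lit 49686) (nat_lit 0) (nat_lit 5168) (XT.nd (nat_lit 49608) (nat_lit 0) (nat_lit 5624) (XT.lf (nat_lit 0) (nat_lit 2952448119775) (nat_lit 152) (nat_lit 17111157188813) (nat_lit 0) (nat_lit 2496050581251) (nat_lit 4) (nat_lit 5) (nat_lit 6) (nat_lit 4) (nat_lit 4) (nat_lit 4) (nat_lit 415) (nat_lit 369) (nat_lit 236)) (XT.lf (nat_lit 0) (nat_lit 127996455805) (nat_lit 532) (nat_lit 3242608115) (nat_lit 532) (nat_lit 3242608115) (nat_lit 78) (nat_lit 3) (nat_lit 85) (nat_lit 3) (nat_lit 85) (nat_lit 5) (nat_lit 370) (nat_lit 370) (nat_lit 280))) (XT.nd (nat_lit 78) (nat_lit 456) (nat_lit 0) (XT.lf (nat_lit 76) (nat_lit 255422556750) (nat_lit 0) (nat_lit 25914275454) (nat_lit 532) (nat_lit 7307205877) (nat_lit 79) (nat_lit 5) (nat_lit 78) (nat_lit 3) (nat_lit 85) (nat_lit 5) (nat_lit 371) (nat_lit 370) (nat_lit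 279)) (XT.lf (nat_lit 0) (nat_lit 11746165208) (nat_lit 532) (nat_lit 58147932762) (nat_lit 608) (nat_lit 240384193604) (nat_lit 72) (nat_lit 5) (nat_lit 79) (nat_lit 5) (nat_lit 80) (nat_lit 5) (nat_lit 372) (nat_lit 370) (nat_lit 278)))) (XT.nd (nat_lit 156) (nat_lit 836) (nat_lit 0) (XT.nd (nat_lit 78) (nat_lit 0) (nat_lit 76) (XT.lf (nat_lit 0) (nat_lit 46425069714) (nat_lit 532) (nat_lit 80509776003) (nat_lit 608) (nat_lit 207151637988) (nat_lit 73) (nat_lit 5) (nat_lit 80) (nat_lit 5) (nat_lit 81) (nat_lit 5) (nat_lit 373) (nat_lit 370) (nat_lit 277)) (XT.lf (nat_lit 0) (nat_lit 100431407068) (nat_lit 532) (nat_lit 99172685585) (nat_lit 76) (nat_lit 160731764304) (nat_lit 74) (nat_lit 5) (nat_lit 81) (nat_lit 5) (nat_lit 75) (nat_lit 5) (nat_lit 374) (nat_lit 370) (nat_lit 276))) (XT.nd (nat_lit 78) (nat_lit 456) (nat_lit 0) (XT.lf (nat_lit 0) (nat_lit 177661873790) (nat_lit 532) (nat_lit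 112997191794) (nat_lit 76) (nat_lit 98653716380) (nat_lit 68) (nat_lit 5) (nat_lit 75) (nat_lit 5) (nat_lit 69) (nat_lit 5) (nat_lit 375) (nat_lit 370) (nat_lit 275)) (XT.nd (nat_lit 78) (nat_lit 228) (nat_lit 0) (XT.lf (nat_lit 0) (nat_lit 282660277180) (nat_lit 304) (nat_lit 120636065951) (nat_lit 76) (nat_lit 18045233316) (nat_lit 65) (nat_lit 5) (nat_lit 69) (nat_lit 5) (nat_lit 66) (nat_lit 5) (nat_lit 376) (nat_lit 370) (nat_lit 274)) (XT.lf (nat_lit 0) (nat_lit 333977233308) (nat_lit 228) (nat_lit 88877366192) (nat_lit 304) (nat_lit 33764397980) (nat_lit 62) (nat_lit 5) (nat_lit 65) (nat_lit 5) (nat_lit 66) (nat_lit 5) (nat_lit 377) (nat_lit 370) (nat_lit 273))))))))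
noncomputable def xc101 : XT := (XT.nd (nat_lit 1326) (nat_lit 1444) (nat_lit 0) (XT.nd (nat_lit 624) (nat_lit 1216) (nat_lit 0) (XT.nd (nat_lit 312) (nat_lit 684) (nat_lit 0) (XT.nd (nat_lit 156) (nat_lit 380) (nat_lit 0) (XT.nd (nat_lit 78) (nat_lit 228) (nat_lit 0) (XT.lf (nat_lit 0) (nat_lit 102333653949) (nat_lit 228) (nat_lit 118719828430) (nat_lit 76) (nat_lit 274384156160) (nat_lit 59) (nat_lit 5) (nat_lit 62) (nat_lit 5) (nat_lit 60) (nat_lit 5) (nat_lit 378) (nat_lit 370) (nat_lit 272)) (XT.lf (nat_lit 0) (nat_lit 277466062314) (nat_lit 304) (nat_lit 105615157503) (nat_lit 76) (nat_lit 155278185966) (nat_lit 56) (nat_lit 5) (nat_lit 60) (nat_lit 5) (nat_lit 57) (nat_lit 5) (nat_lit 379) (nat_lit 370) (nat_lit 271))) (XT.nd (nat_lit 78) (nat_lit 228) (nat_lit 0) (XT.lf (nat_lit 0) (nat_lit 500814156400) (nat_lit 228) (nat_lit 80324379573) (nat_lit 76) (nat_lit 4825236212) (nat_lit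 54) (nat_lit 5) (nat_lit 57) (nat_lit 5) (nat_lit 55) (nat_lit 5) (nat_lit 380) (nat_lit 370) (nat_lit 270)) (XT.lf (nat_lit 0) (nat_lit 139857116728) (nat_lit 228) (nat_lit 48476781341) (nat_lit 76) (nat_lit 449849709208) (nat_lit 51) (nat_lit 5) (nat_lit 54) (nat_lit 5) (nat_lit 52) (nat_lit 5) (nat_lit 381) (nat_lit 370) (nat_lit 269)))) (XT.nd (nat_lit 156) (nat_lit 228) (nat_lit 0) (XT.nd (nat_lit 78) (nat_lit 304) (nat_lit 0) (XT.lf (nat_lit 0) (nat_lit 419837081826) (nat_lit 228) (nat_lit 3764559929) (nat_lit 76) (nat_lit 272356719217) (nat_lit 49) (nat_lit 5) (nat_lit 52) (nat_lit 5) (nat_lit 50) (nat_lit 5) (nat_lit 382) (nat_lit 370) (nat_lit 268)) (XT.lf (nat_lit 0) (nat_lit 10334631021) (nat_lit 152) (nat_lit 698365797585) (nat_lit 76) (nat_lit 51347292650) (nat_lit 45) (nat_lit 5) (nat_lit 47) (nat_lit 5) (nat_lit 46) (nat_lit 5) (nat_lit 383) (nat_lit 370) (nat_lit 267))) (XT.nd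 (nat_lit 78) (nat_lit 76) (nat_lit 0) (XT.lf (nat_lit 0) (nat_lit 134656625736) (nat_lit 152) (nat_lit 225194132112) (nat_lit 228) (nat_lit 470410665954) (nat_lit 43) (nat_lit 5) (nat_lit 45) (nat_lit 5) (nat_lit 46) (nat_lit 5) (nat_lit 384) (nat_lit 370) (nat_lit 266)) (XT.lf (nat_lit 0) (nat_lit 228487684718) (nat_lit 76) (nat_lit 567618614771) (nat_lit 152) (nat_lit 112155922592) (nat_lit 42) (nat_lit 5) (nat_lit 43) (nat_lit 5) (nat_lit 44) (nat_lit 4) (nat_lit 385) (nat_lit 370) (nat_lit 265))))) (XT.nd (nat_lit 312) (nat_lit 608) (nat_lit 0) (XT.nd (nat_lit 156) (nat_lit 304) (nat_lit 0) (XT.nd (nat_lit 78) (nat_lit 76) (nat_lit 0) (XT.lf (nat_lit 0) (nat_lit 320502386233) (nat_lit 228) (nat_lit 655034200566) (nat_lit 76) (nat_lit 18996512953) (nat_lit 39) (nat_lit 5) (nat_lit 42) (nat_lit 5) (nat_lit 40) (nat_lit 4) (nat_lit 386) (nat_lit 370) (nat_lit 264)) (XT.lf (nat_lit 0) (nat_lit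 464592856234) (nat_lit 76) (nat_lit 394191799358) (nat_lit 152) (nat_lit 230937614511) (nat_lit 38) (nat_lit 5) (nat_lit 39) (nat_lit 5) (nat_lit 40) (nat_lit 4) (nat_lit 387) (nat_lit 370) (nat_lit 263))) (XT.nd (nat_lit 78) (nat_lit 76) (nat_lit 0) (XT.lf (nat_lit 0) (nat_lit 306774143107) (nat_lit 228) (nat_lit 585686895843) (nat_lit 76) (nat_lit 302825323346) (nat_lit 35) (nat_lit 5) (nat_lit 38) (nat_lit 5) (nat_lit 36) (nat_lit 4) (nat_lit 388) (nat_lit 370) (nat_lit 262)) (XT.lf (nat_lit 0) (nat_lit 773074493309) (nat_lit 76) (nat_lit 186950339023) (nat_lit 152) (nat_lit 352295865478) (nat_lit 34) (nat_lit 5) (nat_lit 35) (nat_lit 5) (nat_lit 36) (nat_lit 4) (nat_lit 389) (nat_lit 370) (nat_lit 261)))) (XT.nd (nat_lit 156) (nat_lit 380) (nat_lit 0) (XT.nd (nat_lit 78) (nat_lit 76) (nat_lit 0) (XT.lf (nat_lit 0) (nat_lit 308123659194) (nat_lit 152) (nat_lit 492229822746) (nat_lit 76)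 (nat_lit 641488508334) (nat_lit 32) (nat_lit 5) (nat_lit 34) (nat_lit 5) (nat_lit 33) (nat_lit 4) (nat_lit 390) (nat_lit 370) (nat_lit 260)) (XT.lf (nat_lit 0) (nat_lit 1097423017791) (nat_lit 152) (nat_lit 440350984367) (nat_lit 0) (nat_lit 48231290955) (nat_lit 31) (nat_lit 5) (nat_lit 33) (nat_lit 4) (nat_lit 31) (nat_lit 4) (nat_lit 391) (nat_lit 370) (nat_lit 259))) (XT.nd (nat_lit 78) (nat_lit 228) (nat_lit 0) (XT.lf (nat_lit 0) (nat_lit 311846787180) (nat_lit 152) (nat_lit 400550434549) (nat_lit 76) (nat_lit 1033212881404) (nat_lit 29) (nat_lit 5) (nat_lit 31) (nat_lit 5) (nat_lit 30) (nat_lit 4) (nat_lit 392) (nat_lit 370) (nat_lit 258)) (XT.nd (nat_lit 78) (nat_lit 152) (nat_lit 0) (XT.lf (nat_lit 0) (nat_lit 1262292610474) (nat_lit 152) (nat_lit 370318488375) (nat_lit 0) (nat_lit 290818745968) (nat_lit 28) (nat_lit 5) (nat_lit 30) (nat_lit 4) (nat_lit 28) (nat_lit 4) (nat_lit 393)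 (nat_lit 370) (nat_lit 257)) (XT.lf (nat_lit 0) (nat_lit 292058877248) (nat_lit 152) (nat_lit 363991417366) (nat_lit 76) (nat_lit 1465350710333) (nat_lit 26) (nat_lit 5) (nat_lit 28) (nat_lit 5) (nat_lit 27) (nat_lit 4) (nat_lit 394) (nat_lit 370) (nat_lit 256))))))) (XT.nd (nat_lit 624) (nat_lit 608) (nat_lit 0) (XT.nd (nat_lit 312) (nat_lit 456) (nat_lit 0) (XT.nd (nat_lit 156) (nat_lit 152) (nat_lit 0) (XT.nd (nat_lit 78) (nat_lit 152) (nat_lit 0) (XT.lf (nat_lit 0) (nat_lit 1421566064509) (nat_lit 152) (nat_lit 398276517412) (nat_lit 0) (nat_lit 522053196645) (nat_lit 25) (nat_lit 5) (nat_lit 27) (nat_lit 4) (nat_lit 25) (nat_lit 4) (nat_lit 395) (nat_lit 370) (nat_lit 255)) (XT.lf (nat_lit 0) (nat_lit 200664363232) (nat_lit 152) (nat_lit 482131004619) (nat_lit 76) (nat_lit 1905878070699) (nat_lit 23) (nat_lit 5) (nat_lit 25) (nat_lit 5) (nat_lit 24) (nat_lit 4) (nat_lit 396) (nat_lit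 370) (nat_lit 254))) (XT.nd (nat_lit 78) (nat_lit 76) (nat_lit 0) (XT.lf (nat_lit 0) (nat_lit 1519663172726) (nat_lit 152) (nat_lit 657363382177) (nat_lit 0) (nat_lit 686780866412) (nat_lit 22) (nat_lit 5) (nat_lit 24) (nat_lit 4) (nat_lit 22) (nat_lit 4) (nat_lit 397) (nat_lit 370) (nat_lit 253)) (XT.lf (nat_lit 0) (nat_lit 2241282086063) (nat_lit 76) (nat_lit 882418321034) (nat_lit 76) (nat_lit 49536006123) (nat_lit 21) (nat_lit 4) (nat_lit 22) (nat_lit 5) (nat_lit 22) (nat_lit 4) (nat_lit 398) (nat_lit 370) (nat_lit 252)))) (XT.nd (nat_lit 156) (nat_lit 228) (nat_lit 0) (XT.nd (nat_lit 78) (nat_lit 76) (nat_lit 0) (XT.lf (nat_lit 0) (nat_lit 1456189132037) (nat_lit 152) (nat_lit 1378005803907) (nat_lit 0) (nat_lit 685001796494) (nat_lit 19) (nat_lit 5) (nat_lit 21) (nat_lit 4) (nat_lit 19) (nat_lit 4) (nat_lit 399) (nat_lit 370) (nat_lit 251)) (XT.lf (nat_lit 0) (nat_lit 1884661885577)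 (nat_lit 76) (nat_lit 1397830706367) (nat_lit 76) (nat_lit 626643364805) (nat_lit 18) (nat_lit 4) (nat_lit 19) (nat_lit 5) (nat_lit 19) (nat_lit 4) (nat_lit 400) (nat_lit 370) (nat_lit 250))) (XT.nd (nat_lit 78) (nat_lit 76) (nat_lit 0) (XT.lf (nat_lit 0) (nat_lit 1057679607734) (nat_lit 152) (nat_lit 2947593765146) (nat_lit 0) (nat_lit 343617249590) (nat_lit 16) (nat_lit 5) (nat_lit 18) (nat_lit 4) (nat_lit 16) (nat_lit 4) (nat_lit 401) (nat_lit 370) (nat_lit 249)) (XT.lf (nat_lit 0) (nat_lit 585397188745) (nat_lit 76) (nat_lit 2486415149120) (nat_lit 76) (nat_lit 1772352786762) (nat_lit 15) (nat_lit 4) (nat_lit 16) (nat_lit 5) (nat_lit 16) (nat_lit 4) (nat_lit 402) (nat_lit 370) (nat_lit 248))))) (XT.nd (nat_lit 312) (nat_lit 304) (nat_lit 0) (XT.nd (nat_lit 156) (nat_lit 152) (nat_lit 0) (XT.nd (nat_lit 78) (nat_lit 76) (nat_lit 0) (XT.lf (nat_lit 0) (nat_lit 63663069283) (nat_lit 152)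 (nat_lit 581643181913) (nat_lit 76) (nat_lit 4761430333177) (nat_lit 14) (nat_lit 5) (nat_lit 16) (nat_lit 5) (nat_lit 15) (nat_lit 4) (nat_lit 403) (nat_lit 370) (nat_lit 247)) (XT.lf (nat_lit 0) (nat_lit 2203251446114) (nat_lit 152) (nat_lit 2294027863813) (nat_lit 0) (nat_lit 1542082585735) (nat_lit 13) (nat_lit 5) (nat_lit 15) (nat_lit 4) (nat_lit 13) (nat_lit 4) (nat_lit 404) (nat_lit 370) (nat_lit 246))) (XT.nd (nat_lit 78) (nat_lit 76) (nat_lit 0) (XT.lf (nat_lit 0) (nat_lit 2076649019882) (nat_lit 76) (nat_lit 2672293832440) (nat_lit 76) (nat_lit 2011124969496) (nat_lit 12) (nat_lit 4) (nat_lit 13) (nat_lit 5) (nat_lit 13) (nat_lit 4) (nat_lit 405) (nat_lit 370) (nat_lit 245)) (XT.lf (nat_lit 0) (nat_lit 151748701449) (nat_lit 152) (nat_lit 345531566160) (nat_lit 76) (nat_lit 7085948979288) (nat_lit 11) (nat_lit 5) (nat_lit 13) (nat_lit 5) (nat_lit 12) (nat_lit 4) (nat_lit 406) (nat_lit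 370) (nat_lit 244)))) (XT.nd (nat_lit 156) (nat_lit 152) (nat_lit 0) (XT.nd (nat_lit 78) (nat_lit 76) (nat_lit 0) (XT.lf (nat_lit 0) (nat_lit 2692152402582) (nat_lit 152) (nat_lit 3739800113451) (nat_lit 0) (nat_lit 2079959007105) (nat_lit 10) (nat_lit 5) (nat_lit 12) (nat_lit 4) (nat_lit 10) (nat_lit 4) (nat_lit 407) (nat_lit 370) (nat_lit 243)) (XT.lf (nat_lit 0) (nat_lit 1142364656871) (nat_lit 76) (nat_lit 4522800500550) (nat_lit 76) (nat_lit 3910607103511) (nat_lit 9) (nat_lit 4) (nat_lit 10) (nat_lit 5) (nat_lit 10) (nat_lit 4) (nat_lit 408) (nat_lit 370) (nat_lit 242))) (XT.nd (nat_lit 78) (nat_lit 152) (nat_lit 0) (XT.lf (nat_lit 0) (nat_lit 6983325049151) (nat_lit 76) (nat_lit 2209685019590) (nat_lit 76) (nat_lit 1597491621193) (nat_lit 9) (nat_lit 4) (nat_lit 10) (nat_lit 5) (nat_lit 10) (nat_lit 4) (nat_lit 409) (nat_lit 370) (nat_lit 241)) (XT.nd (nat_lit 78) (nat_lit 0) (nat_lit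 0) (XT.lf (nat_lit 0) (nat_lit 1059566548495) (nat_lit 152) (nat_lit 10629098310805) (nat_lit 0) (nat_lit 492720808145) (nat_lit 7) (nat_lit 5) (nat_lit 9) (nat_lit 4) (nat_lit 7) (nat_lit 4) (nat_lit 410) (nat_lit 370) (nat_lit 240)) (XT.lf (nat_lit 0) (nat_lit 4198118766939) (nat_lit 152) (nat_lit 5933989013571) (nat_lit 0) (nat_lit 3631273025638) (nat_lit 7) (nat_lit 5) (nat_lit 9) (nat_lit 4) (nat_lit 7) (nat_lit 4) (nat_lit 411) (nat_lit 370) (nat_lit 239))))))))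
noncomputable def xc102 : XT := (XT.nd (nat_lit 50934) (nat_lit 0) (nat_lit 988) (XT.nd (nat_lit 50232) (nat_lit 0) (nat_lit 3268) (XT.nd (nat_lit 49920) (nat_lit 0) (nat_lit 5016) (XT.nd (nat_lit 156) (nat_lit 0) (nat_lit 0) (XT.nd (nat_lit 78) (nat_lit 76) (nat_lit 0) (XT.lf (nat_lit 0) (nat_lit 7807453808539) (nat_lit 152) (nat_lit 534613341479) (nat_lit 0) (nat_lit 7240608066411) (nat_lit 7) (nat_lit 5) (nat_lit 9) (nat_lit 4) (nat_lit 7) (nat_lit 4) (nat_lit 412) (nat_lit 370) (nat_lit 238)) (XT.lf (nat_lit 0) (nat_lit 5973486659760) (nat_lit 76) (nat_lit 6128364936090) (nat_lit 76) (nat_lit 5561519193243) (nat_lit 6) (nat_lit 4) (nat_lit 7) (nat_lit 5) (nat_lit 7) (nat_lit 4) (nat_lit 413) (nat_lit 370) (nat_lit 237))) (XT.nd (nat_lit 78) (nat_lit 0) (nat_lit 0) (XT.lf (nat_lit 0) (nat_lit 13490176205304) (nat_lit 76) (nat_lit 3565797530530) (nat_lit 76) (nat_lit 2998951787057) (nat_lit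 6) (nat_lit 4) (nat_lit 7) (nat_lit 5) (nat_lit 7) (nat_lit 4) (nat_lit 414) (nat_lit 370) (nat_lit 236)) (XT.lf (nat_lit 0) (nat_lit 22134369169026) (nat_lit 76) (nat_lit 618845021140) (nat_lit 76) (nat_lit 51999277124) (nat_lit 6) (nat_lit 4) (nat_lit 7) (nat_lit 5) (nat_lit 7) (nat_lit 4) (nat_lit 415) (nat_lit 370) (nat_lit 235)))) (XT.nd (nat_lit 156) (nat_lit 456) (nat_lit 0) (XT.nd (nat_lit 78) (nat_lit 0) (nat_lit 0) (XT.lf (nat_lit 0) (nat_lit 147197394263) (nat_lit 532) (nat_lit 3728205189) (nat_lit 532) (nat_lit 3728205189) (nat_lit 78) (nat_lit 3) (nat_lit 85) (nat_lit 3) (nat_lit 85) (nat_lit 5) (nat_lit 371) (nat_lit 371) (nat_lit 278)) (XT.lf (nat_lit 76) (nat_lit 293737394108) (nat_lit 0) (nat_lit 29802554566) (nat_lit 532) (nat_lit 8400486761) (nat_lit 79) (nat_lit 5) (nat_lit 78) (nat_lit 3) (nat_lit 85) (nat_lit 5) (nat_lit 372) (nat_lit 371) (nat_lit 277))) (XT.nd (nat_lit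 78) (nat_lit 0) (nat_lit 76) (XT.lf (nat_lit 0) (nat_lit 13510416721) (nat_lit 532) (nat_lit 66868452773) (nat_lit 608) (nat_lit 276440978851) (nat_lit 72) (nat_lit 5) (nat_lit 79) (nat_lit 5) (nat_lit 80) (nat_lit 5) (nat_lit 373) (nat_lit 371) (nat_lit 276)) (XT.lf (nat_lit 0) (nat_lit 53390877396) (nat_lit 532) (nat_lit 92584535548) (nat_lit 608) (nat_lit 238223878819) (nat_lit 73) (nat_lit 5) (nat_lit 80) (nat_lit 5) (nat_lit 81) (nat_lit 5) (nat_lit 374) (nat_lit 371) (nat_lit 275))))) (XT.nd (nat_lit 312) (nat_lit 988) (nat_lit 0) (XT.nd (nat_lit 156) (nat_lit 456) (nat_lit 0) (XT.nd (nat_lit 78) (nat_lit 456) (nat_lit 0) (XT.lf (nat_lit 0) (nat_lit 115497929757) (nat_lit 532) (nat_lit 114046873854) (nat_lit 76) (nat_lit 184841286334) (nat_lit 74) (nat_lit 5) (nat_lit 81) (nat_lit 5) (nat_lit 75) (nat_lit 5) (nat_lit 375) (nat_lit 371) (nat_lit 274)) (XT.lf (nat_lit 0) (nat_lit 204312766884)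 (nat_lit 532) (nat_lit 129945070485) (nat_lit 76) (nat_lit 113451732384) (nat_lit 68) (nat_lit 5) (nat_lit 75) (nat_lit 5) (nat_lit 69) (nat_lit 5) (nat_lit 376) (nat_lit 371) (nat_lit 273))) (XT.nd (nat_lit 78) (nat_lit 228) (nat_lit 0) (XT.lf (nat_lit 0) (nat_lit 325060760758) (nat_lit 304) (nat_lit 138729806874) (nat_lit 76) (nat_lit 20752129449) (nat_lit 65) (nat_lit 5) (nat_lit 69) (nat_lit 5) (nat_lit 66) (nat_lit 5) (nat_lit 377) (nat_lit 371) (nat_lit 272)) (XT.lf (nat_lit 0) (nat_lit 384075346004) (nat_lit 228) (nat_lit 102208734076) (nat_lit 304) (nat_lit 38827663358) (nat_lit 62) (nat_lit 5) (nat_lit 65) (nat_lit 5) (nat_lit 66) (nat_lit 5) (nat_lit 378) (nat_lit 371) (nat_lit 271)))) (XT.nd (nat_lit 156) (nat_lit 532) (nat_lit 0) (XT.nd (nat_lit 78) (nat_lit 228) (nat_lit 0) (XT.lf (nat_lit 0) (nat_lit 117684895643) (nat_lit 228) (nat_lit 136526251453) (nat_lit 76) (nat_lit 315542041405)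 (nat_lit 59) (nat_lit 5) (nat_lit 62) (nat_lit 5) (nat_lit 60) (nat_lit 5) (nat_lit 379) (nat_lit 371) (nat_lit 270)) (XT.lf (nat_lit 0) (nat_lit 319087052092) (nat_lit 304) (nat_lit 121455933504) (nat_lit 76) (nat_lit 178570244331) (nat_lit 56) (nat_lit 5) (nat_lit 60) (nat_lit 5) (nat_lit 57) (nat_lit 5) (nat_lit 380) (nat_lit 371) (nat_lit 269))) (XT.nd (nat_lit 78) (nat_lit 380) (nat_lit 0) (XT.lf (nat_lit 0) (nat_lit 575937261915) (nat_lit 228) (nat_lit 92371597185) (nat_lit 76) (nat_lit 5549400099) (nat_lit 54) (nat_lit 5) (nat_lit 57) (nat_lit 5) (nat_lit 55) (nat_lit 5) (nat_lit 381) (nat_lit 371) (nat_lit 268)) (XT.nd (nat_lit 78) (nat_lit 152) (nat_lit 0) (XT.lf (nat_lit 0) (nat_lit 160836593094) (nat_lit 228) (nat_lit 55746932988) (nat_lit 76) (nat_lit 517327549375) (nat_lit 51) (nat_lit 5) (nat_lit 54) (nat_lit 5) (nat_lit 52) (nat_lit 5) (nat_lit 382) (nat_lit 371) (nat_lit 267))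 (XT.lf (nat_lit 0) (nat_lit 482813474805) (nat_lit 228) (nat_lit 4327938479) (nat_lit 76) (nat_lit 313210635203) (nat_lit 49) (nat_lit 5) (nat_lit 52) (nat_lit 5) (nat_lit 50) (nat_lit 5) (nat_lit 383) (nat_lit 371) (nat_lit 266))))))) (XT.nd (nat_lit 624) (nat_lit 988) (nat_lit 0) (XT.nd (nat_lit 312) (nat_lit 532) (nat_lit 0) (XT.nd (nat_lit 156) (nat_lit 304) (nat_lit 0) (XT.nd (nat_lit 78) (nat_lit 152) (nat_lit 0) (XT.lf (nat_lit 0) (nat_lit 11885639695) (nat_lit 152) (nat_lit 803119314177) (nat_lit 76) (nat_lit 59049860309) (nat_lit 45) (nat_lit 5) (nat_lit 47) (nat_lit 5) (nat_lit 46) (nat_lit 5) (nat_lit 384) (nat_lit 371) (nat_lit 265)) (XT.lf (nat_lit 0) (nat_lit 154856358113) (nat_lit 152) (nat_lit 258972751043) (nat_lit 228) (nat_lit 540971469084) (nat_lit 43) (nat_lit 5) (nat_lit 45) (nat_lit 5) (nat_lit 46) (nat_lit 5) (nat_lit 385) (nat_lit 371) (nat_lit 264))) (XT.nd (nat_lit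 78) (nat_lit 228) (nat_lit 0) (XT.lf (nat_lit 0) (nat_lit 262762014210) (nat_lit 76) (nat_lit 652760910397) (nat_lit 152) (nat_lit 128978576264) (nat_lit 42) (nat_lit 5) (nat_lit 43) (nat_lit 5) (nat_lit 44) (nat_lit 4) (nat_lit 386) (nat_lit 371) (nat_lit 263)) (XT.lf (nat_lit 0) (nat_lit 368578389288) (nat_lit 228) (nat_lit 753288180445) (nat_lit 76) (nat_lit 21846443287) (nat_lit 39) (nat_lit 5) (nat_lit 42) (nat_lit 5) (nat_lit 40) (nat_lit 4) (nat_lit 387) (nat_lit 371) (nat_lit 262)))) (XT.nd (nat_lit 156) (nat_lit 228) (nat_lit 0) (XT.nd (nat_lit 78) (nat_lit 228) (nat_lit 0) (XT.lf (nat_lit 0) (nat_lit 534282837517) (nat_lit 76) (nat_lit 453320102709) (nat_lit 152) (nat_lit 265577623415) (nat_lit 38) (nat_lit 5) (nat_lit 39) (nat_lit 5) (nat_lit 40) (nat_lit 4) (nat_lit 388) (nat_lit 371) (nat_lit 261)) (XT.lf (nat_lit 0) (nat_lit 352790822297) (nat_lit 228) (nat_lit 673538904330)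 (nat_lit 76) (nat_lit 348249545335) (nat_lit 35) (nat_lit 5) (nat_lit 38) (nat_lit 5) (nat_lit 36) (nat_lit 4) (nat_lit 389) (nat_lit 371) (nat_lit 260))) (XT.nd (nat_lit 78) (nat_lit 152) (nat_lit 0) (XT.lf (nat_lit 0) (nat_lit 889036606358) (nat_lit 76) (nat_lit 214992458384) (nat_lit 152) (nat_lit 405139697081) (nat_lit 34) (nat_lit 5) (nat_lit 35) (nat_lit 5) (nat_lit 36) (nat_lit 4) (nat_lit 390) (nat_lit 371) (nat_lit 259)) (XT.lf (nat_lit 0) (nat_lit 354342692090) (nat_lit 152) (nat_lit 566063383345) (nat_lit 76) (nat_lit 737712174618) (nat_lit 32) (nat_lit 5) (nat_lit 34) (nat_lit 5) (nat_lit 33) (nat_lit 4) (nat_lit 391) (nat_lit 371) (nat_lit 258))))) (XT.nd (nat_lit 312) (nat_lit 532) (nat_lit 0) (XT.nd (nat_lit 156) (nat_lit 228) (nat_lit 0) (XT.nd (nat_lit 78) (nat_lit 152) (nat_lit 0) (XT.lf (nat_lit 0) (nat_lit 1262036920928) (nat_lit 152) (nat_lit 506402770648) (nat_lit 0)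 (nat_lit 55466359430) (nat_lit 31) (nat_lit 5) (nat_lit 33) (nat_lit 4) (nat_lit 31) (nat_lit 4) (nat_lit 392) (nat_lit 371) (nat_lit 257)) (XT.lf (nat_lit 0) (nat_lit 358624226628) (nat_lit 152) (nat_lit 460632189051) (nat_lit 76) (nat_lit 1188195169185) (nat_lit 29) (nat_lit 5) (nat_lit 31) (nat_lit 5) (nat_lit 30) (nat_lit 4) (nat_lit 393) (nat_lit 371) (nat_lit 256))) (XT.nd (nat_lit 78) (nat_lit 152) (nat_lit 0) (XT.lf (nat_lit 0) (nat_lit 1451636894906) (nat_lit 152) (nat_lit 425865497410) (nat_lit 0) (nat_lit 334441897769) (nat_lit 28) (nat_lit 5) (nat_lit 30) (nat_lit 4) (nat_lit 28) (nat_lit 4) (nat_lit 394) (nat_lit 371) (nat_lit 255)) (XT.lf (nat_lit 0) (nat_lit 335868076609) (nat_lit 152) (nat_lit 418589411050) (nat_lit 76) (nat_lit 1685153638587) (nat_lit 26) (nat_lit 5) (nat_lit 28) (nat_lit 5) (nat_lit 27) (nat_lit 4) (nat_lit 395) (nat_lit 371) (nat_lit 254)))) (XT.nd (nat_lit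 156) (nat_lit 304) (nat_lit 0) (XT.nd (nat_lit 78) (nat_lit 152) (nat_lit 0) (XT.lf (nat_lit 0) (nat_lit 1634801317570) (nat_lit 152) (nat_lit 458017317842) (nat_lit 0) (nat_lit 600361482450) (nat_lit 25) (nat_lit 5) (nat_lit 27) (nat_lit 4) (nat_lit 25) (nat_lit 4) (nat_lit 396) (nat_lit 371) (nat_lit 253)) (XT.lf (nat_lit 0) (nat_lit 230764339377) (nat_lit 152) (nat_lit 554450018498) (nat_lit 76) (nat_lit 2191760070710) (nat_lit 23) (nat_lit 5) (nat_lit 25) (nat_lit 5) (nat_lit 24) (nat_lit 4) (nat_lit 397) (nat_lit 371) (nat_lit 252))) (XT.nd (nat_lit 78) (nat_lit 228) (nat_lit 0) (XT.lf (nat_lit 0) (nat_lit 1747612949314) (nat_lit 152) (nat_lit 755967290037) (nat_lit 0) (nat_lit 789798271094) (nat_lit 22) (nat_lit 5) (nat_lit 24) (nat_lit 4) (nat_lit 22) (nat_lit 4) (nat_lit 398) (nat_lit 371) (nat_lit 251)) (XT.nd (nat_lit 78) (nat_lit 152) (nat_lit 0) (XT.lf (nat_lit 0) (nat_lit 2577474947697)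 (nat_lit 76) (nat_lit 1014780795121) (nat_lit 76) (nat_lit 56966110401) (nat_lit 21) (nat_lit 4) (nat_lit 22) (nat_lit 5) (nat_lit 22) (nat_lit 4) (nat_lit 399) (nat_lit 371) (nat_lit 250)) (XT.lf (nat_lit 0) (nat_lit 1674617765509) (nat_lit 152) (nat_lit 1584706144233) (nat_lit 0) (nat_lit 787752311460) (nat_lit 19) (nat_lit 5) (nat_lit 21) (nat_lit 4) (nat_lit 19) (nat_lit 4) (nat_lit 400) (nat_lit 371) (nat_lit 249))))))))
noncomputable def xc103 : XT := (XT.nd (nat_lit 51012) (nat_lit 0) (nat_lit 2128) (XT.nd (nat_lit 624) (nat_lit 304) (nat_lit 0) (XT.nd (nat_lit 312) (nat_lit 304) (nat_lit 0) (XT.nd (nat_lit 156) (nat_lit 152) (nat_lit 0) (XT.nd (nat_lit 78) (nat_lit 152) (nat_lit 0) (XT.lf (nat_lit 0) (nat_lit 2167361653790) (nat_lit 76) (nat_lit 1607505067895) (nat_lit 76) (nat_lit 720639609294) (nat_lit 18) (nat_lit 4) (nat_lit 19) (nat_lit 5) (nat_lit 19) (nat_lit 4) (nat_lit 401)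 (nat_lit 371) (nat_lit 248)) (XT.lf (nat_lit 0) (nat_lit 1216331780373) (nat_lit 152) (nat_lit 3389732361161) (nat_lit 0) (nat_lit 395160055783) (nat_lit 16) (nat_lit 5) (nat_lit 18) (nat_lit 4) (nat_lit 16) (nat_lit 4) (nat_lit 402) (nat_lit 371) (nat_lit 247))) (XT.nd (nat_lit 78) (nat_lit 76) (nat_lit 0) (XT.lf (nat_lit 0) (nat_lit 673207196135) (nat_lit 76) (nat_lit 2859377204014) (nat_lit 76) (nat_lit 2038205476238) (nat_lit 15) (nat_lit 4) (nat_lit 16) (nat_lit 5) (nat_lit 16) (nat_lit 4) (nat_lit 403) (nat_lit 371) (nat_lit 246)) (XT.lf (nat_lit 0) (nat_lit 73212718463) (nat_lit 152) (nat_lit 668889276143) (nat_lit 76) (nat_lit 5475645062316) (nat_lit 14) (nat_lit 5) (nat_lit 16) (nat_lit 5) (nat_lit 15) (nat_lit 4) (nat_lit 404) (nat_lit 371) (nat_lit 245)))) (XT.nd (nat_lit 156) (nat_lit 152) (nat_lit 0) (XT.nd (nat_lit 78) (nat_lit 76) (nat_lit 0) (XT.lf (nat_lit 0) (nat_lit 2533739339910)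 (nat_lit 152) (nat_lit 2638131683222) (nat_lit 0) (nat_lit 1773395142727) (nat_lit 13) (nat_lit 5) (nat_lit 15) (nat_lit 4) (nat_lit 13) (nat_lit 4) (nat_lit 405) (nat_lit 371) (nat_lit 244)) (XT.lf (nat_lit 0) (nat_lit 2388146702542) (nat_lit 76) (nat_lit 3073137739364) (nat_lit 76) (nat_lit 2312793540242) (nat_lit 12) (nat_lit 4) (nat_lit 13) (nat_lit 5) (nat_lit 13) (nat_lit 4) (nat_lit 406) (nat_lit 371) (nat_lit 243))) (XT.nd (nat_lit 78) (nat_lit 76) (nat_lit 0) (XT.lf (nat_lit 0) (nat_lit 174511150962) (nat_lit 152) (nat_lit 397361006807) (nat_lit 76) (nat_lit 8148841464616) (nat_lit 11) (nat_lit 5) (nat_lit 13) (nat_lit 5) (nat_lit 12) (nat_lit 4) (nat_lit 407) (nat_lit 371) (nat_lit 242)) (XT.lf (nat_lit 0) (nat_lit 3095975398227) (nat_lit 152) (nat_lit 4300769853847) (nat_lit 0) (nat_lit 2391952988712) (nat_lit 10) (nat_lit 5) (nat_lit 12) (nat_lit 4) (nat_lit 10) (nat_lit 4) (nat_lit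 408) (nat_lit 371) (nat_lit 241))))) (XT.nd (nat_lit 312) (nat_lit 76) (nat_lit 0) (XT.nd (nat_lit 156) (nat_lit 152) (nat_lit 0) (XT.nd (nat_lit 78) (nat_lit 0) (nat_lit 0) (XT.lf (nat_lit 0) (nat_lit 1313719608609) (nat_lit 76) (nat_lit 5201220446130) (nat_lit 76) (nat_lit 4497198035435) (nat_lit 9) (nat_lit 4) (nat_lit 10) (nat_lit 5) (nat_lit 10) (nat_lit 4) (nat_lit 409) (nat_lit 371) (nat_lit 240)) (XT.lf (nat_lit 0) (nat_lit 8030824026704) (nat_lit 76) (nat_lit 2541137659918) (nat_lit 76) (nat_lit 1837115248196) (nat_lit 9) (nat_lit 4) (nat_lit 10) (nat_lit 5) (nat_lit 10) (nat_lit 4) (nat_lit 410) (nat_lit 371) (nat_lit 239))) (XT.nd (nat_lit 78) (nat_lit 0) (nat_lit 0) (XT.lf (nat_lit 0) (nat_lit 1218501634261) (nat_lit 152) (nat_lit 12223462845032) (nat_lit 0) (nat_lit 566629029987) (nat_lit 7) (nat_lit 5) (nat_lit 9) (nat_lit 4) (nat_lit 7) (nat_lit 4) (nat_lit 411) (nat_lit 371)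 (nat_lit 238)) (XT.lf (nat_lit 0) (nat_lit 4827836671973) (nat_lit 152) (nat_lit 6824087180917) (nat_lit 0) (nat_lit 4175964066981) (nat_lit 7) (nat_lit 5) (nat_lit 9) (nat_lit 4) (nat_lit 7) (nat_lit 4) (nat_lit 412) (nat_lit 371) (nat_lit 237)))) (XT.nd (nat_lit 156) (nat_lit 0) (nat_lit 0) (XT.nd (nat_lit 78) (nat_lit 76) (nat_lit 0) (XT.lf (nat_lit 0) (nat_lit 8978571958075) (nat_lit 152) (nat_lit 614805182100) (nat_lit 0) (nat_lit 8326699352457) (nat_lit 7) (nat_lit 5) (nat_lit 9) (nat_lit 4) (nat_lit 7) (nat_lit 4) (nat_lit 413) (nat_lit 371) (nat_lit 236)) (XT.lf (nat_lit 0) (nat_lit 6869509805730) (nat_lit 76) (nat_lit 7047619601080) (nat_lit 76) (nat_lit 6395746994919) (nat_lit 6) (nat_lit 4) (nat_lit 7) (nat_lit 5) (nat_lit 7) (nat_lit 4) (nat_lit 414) (nat_lit 371) (nat_lit 235))) (XT.nd (nat_lit 49764) (nat_lit 0) (nat_lit 5472) (XT.lf (nat_lit 0) (nat_lit 15513702763931) (nat_lit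 76) (nat_lit 4100667094524) (nat_lit 76) (nat_lit 3448794487889) (nat_lit 6) (nat_lit 4) (nat_lit 7) (nat_lit 5) (nat_lit 7) (nat_lit 4) (nat_lit 415) (nat_lit 371) (nat_lit 234)) (XT.nd (nat_lit 78) (nat_lit 0) (nat_lit 0) (XT.lf (nat_lit 0) (nat_lit 169278115000) (nat_lit 532) (nat_lit 4286835481) (nat_lit 532) (nat_lit 4286835481) (nat_lit 78) (nat_lit 3) (nat_lit 85) (nat_lit 3) (nat_lit 85) (nat_lit 5) (nat_lit 372) (nat_lit 372) (nat_lit 276)) (XT.lf (nat_lit 76) (nat_lit 337799102540) (nat_lit 0) (nat_lit 34273798087) (nat_lit 532) (nat_lit 9658442574) (nat_lit 79) (nat_lit 5) (nat_lit 78) (nat_lit 3) (nat_lit 85) (nat_lit 5) (nat_lit 373) (nat_lit 372) (nat_lit 275))))))) (XT.nd (nat_lit 702) (nat_lit 1520) (nat_lit 0) (XT.nd (nat_lit 312) (nat_lit 1064) (nat_lit 0) (XT.nd (nat_lit 156) (nat_lit 304) (nat_lit 0) (XT.nd (nat_lit 78) (nat_lit 0) (nat_lit 76) (XT.lf (nat_lit 0) (nat_lit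 15538738572) (nat_lit 532) (nat_lit 76897458003) (nat_lit 608) (nat_lit 317906487649) (nat_lit 72) (nat_lit 5) (nat_lit 79) (nat_lit 5) (nat_lit 80) (nat_lit 5) (nat_lit 374) (nat_lit 372) (nat_lit 274)) (XT.lf (nat_lit 0) (nat_lit 61401057001) (nat_lit 532) (nat_lit 106470925253) (nat_lit 608) (nat_lit 273957078890) (nat_lit 73) (nat_lit 5) (nat_lit 80) (nat_lit 5) (nat_lit 81) (nat_lit 5) (nat_lit 375) (nat_lit 372) (nat_lit 273))) (XT.nd (nat_lit 78) (nat_lit 456) (nat_lit 0) (XT.lf (nat_lit 0) (nat_lit 132823989073) (nat_lit 532) (nat_lit 131152608472) (nat_lit 76) (nat_lit 212567295831) (nat_lit 74) (nat_lit 5) (nat_lit 81) (nat_lit 5) (nat_lit 75) (nat_lit 5) (nat_lit 376) (nat_lit 372) (nat_lit 272)) (XT.lf (nat_lit 0) (nat_lit 234960900839) (nat_lit 532) (nat_lit 149435545555) (nat_lit 76) (nat_lit 130469460898) (nat_lit 68) (nat_lit 5) (nat_lit 75) (nat_lit 5) (nat_lit 69) (nat_lit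 5) (nat_lit 377) (nat_lit 372) (nat_lit 271)))) (XT.nd (nat_lit 156) (nat_lit 608) (nat_lit 0) (XT.nd (nat_lit 78) (nat_lit 228) (nat_lit 0) (XT.lf (nat_lit 0) (nat_lit 373820965231) (nat_lit 304) (nat_lit 159538015925) (nat_lit 76) (nat_lit 23865032902) (nat_lit 65) (nat_lit 5) (nat_lit 69) (nat_lit 5) (nat_lit 66) (nat_lit 5) (nat_lit 378) (nat_lit 372) (nat_lit 270)) (XT.lf (nat_lit 0) (nat_lit 441687803065) (nat_lit 228) (nat_lit 117539864947) (nat_lit 304) (nat_lit 44650758557) (nat_lit 62) (nat_lit 5) (nat_lit 65) (nat_lit 5) (nat_lit 66) (nat_lit 5) (nat_lit 379) (nat_lit 372) (nat_lit 269))) (XT.nd (nat_lit 78) (nat_lit 380) (nat_lit 0) (XT.lf (nat_lit 0) (nat_lit 135338532525) (nat_lit 228) (nat_lit 157004016209) (nat_lit 76) (nat_lit 362873545589) (nat_lit 59) (nat_lit 5) (nat_lit 62) (nat_lit 5) (nat_lit 60) (nat_lit 5) (nat_lit 380) (nat_lit 372) (nat_lit 268)) (XT.nd (nat_lit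 78) (nat_lit 152) (nat_lit 0) (XT.lf (nat_lit 0) (nat_lit 366950926867) (nat_lit 304) (nat_lit 139673191111) (nat_lit 76) (nat_lit 205356030864) (nat_lit 56) (nat_lit 5) (nat_lit 60) (nat_lit 5) (nat_lit 57) (nat_lit 5) (nat_lit 381) (nat_lit 372) (nat_lit 267)) (XT.lf (nat_lit 0) (nat_lit 662328593777) (nat_lit 228) (nat_lit 106226248426) (nat_lit 76) (nat_lit 6382096280) (nat_lit 54) (nat_lit 5) (nat_lit 57) (nat_lit 5) (nat_lit 55) (nat_lit 5) (nat_lit 382) (nat_lit 372) (nat_lit 266)))))) (XT.nd (nat_lit 312) (nat_lit 684) (nat_lit 0) (XT.nd (nat_lit 156) (nat_lit 456) (nat_lit 0) (XT.nd (nat_lit 78) (nat_lit 152) (nat_lit 0) (XT.lf (nat_lit 0) (nat_lit 184962769286) (nat_lit 228) (nat_lit 64107940382) (nat_lit 76) (nat_lit 594926971978) (nat_lit 51) (nat_lit 5) (nat_lit 54) (nat_lit 5) (nat_lit 52) (nat_lit 5) (nat_lit 383) (nat_lit 372) (nat_lit 265)) (XT.lf (nat_lit 0) (nat_lit 555236124157)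 (nat_lit 228) (nat_lit 4976142151) (nat_lit 76) (nat_lit 360192539068) (nat_lit 49) (nat_lit 5) (nat_lit 52) (nat_lit 5) (nat_lit 50) (nat_lit 5) (nat_lit 384) (nat_lit 372) (nat_lit 264))) (XT.nd (nat_lit 78) (nat_lit 152) (nat_lit 0) (XT.lf (nat_lit 0) (nat_lit 13669101166) (nat_lit 152) (nat_lit 923586188207) (nat_lit 76) (nat_lit 67907697588) (nat_lit 45) (nat_lit 5) (nat_lit 47) (nat_lit 5) (nat_lit 46) (nat_lit 5) (nat_lit 385) (nat_lit 372) (nat_lit 263)) (XT.lf (nat_lit 0) (nat_lit 178085748326) (nat_lit 152) (nat_lit 297818284957) (nat_lit 228) (nat_lit 622116586979) (nat_lit 43) (nat_lit 5) (nat_lit 45) (nat_lit 5) (nat_lit 46) (nat_lit 5) (nat_lit 386) (nat_lit 372) (nat_lit 262)))) (XT.nd (nat_lit 156) (nat_lit 380) (nat_lit 0) (XT.nd (nat_lit 78) (nat_lit 228) (nat_lit 0) (XT.lf (nat_lit 0) (nat_lit 302177206159) (nat_lit 76) (nat_lit 750674671464) (nat_lit 152) (nat_lit 148324807152)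 (nat_lit 42) (nat_lit 5) (nat_lit 43) (nat_lit 5) (nat_lit 44) (nat_lit 4) (nat_lit 387) (nat_lit 372) (nat_lit 261)) (XT.lf (nat_lit 0) (nat_lit 423865635484) (nat_lit 228) (nat_lit 866280537790) (nat_lit 76) (nat_lit 25123752609) (nat_lit 39) (nat_lit 5) (nat_lit 42) (nat_lit 5) (nat_lit 40) (nat_lit 4) (nat_lit 388) (nat_lit 372) (nat_lit 260))) (XT.nd (nat_lit 78) (nat_lit 304) (nat_lit 0) (XT.lf (nat_lit 0) (nat_lit 614426059249) (nat_lit 76) (nat_lit 521317765335) (nat_lit 152) (nat_lit 305413788081) (nat_lit 38) (nat_lit 5) (nat_lit 39) (nat_lit 5) (nat_lit 40) (nat_lit 4) (nat_lit 389) (nat_lit 372) (nat_lit 259)) (XT.nd (nat_lit 78) (nat_lit 76) (nat_lit 0) (XT.lf (nat_lit 0) (nat_lit 405709867360) (nat_lit 228) (nat_lit 774568964260) (nat_lit 76) (nat_lit 400487297353) (nat_lit 35) (nat_lit 5) (nat_lit 38) (nat_lit 5) (nat_lit 36) (nat_lit 4) (nat_lit 390) (nat_lit 372) (nat_lit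 258)) (XT.lf (nat_lit 0) (nat_lit 1022392807371) (nat_lit 76) (nat_lit 247241000873) (nat_lit 152) (nat_lit 465910237111) (nat_lit 34) (nat_lit 5) (nat_lit 35) (nat_lit 5) (nat_lit 36) (nat_lit 4) (nat_lit 391) (nat_lit 372) (nat_lit 257))))))))
noncomputable def xc104 : XT := (XT.nd (nat_lit 1326) (nat_lit 380) (nat_lit 0) (XT.nd (nat_lit 624) (nat_lit 836) (nat_lit 0) (XT.nd (nat_lit 312) (nat_lit 456) (nat_lit 0) (XT.nd (nat_lit 156) (nat_lit 228) (nat_lit 0) (XT.nd (nat_lit 78) (nat_lit 76) (nat_lit 0) (XT.lf (nat_lit 0) (nat_lit 407494461889) (nat_lit 152) (nat_lit 650972200629) (nat_lit 76) (nat_lit 848369295732) (nat_lit 32) (nat_lit 5) (nat_lit 34) (nat_lit 5) (nat_lit 33) (nat_lit 4) (nat_lit 392) (nat_lit 372) (nat_lit 256)) (XT.lf (nat_lit 0) (nat_lit 1451342799686) (nat_lit 152) (nat_lit 582362534924) (nat_lit 0) (nat_lit 63786596771) (nat_lit 31) (nat_lit 5) (nat_lit 33) (nat_lit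 4) (nat_lit 31) (nat_lit 4) (nat_lit 393) (nat_lit 372) (nat_lit 255))) (XT.nd (nat_lit 78) (nat_lit 76) (nat_lit 0) (XT.lf (nat_lit 0) (nat_lit 412418179239) (nat_lit 152) (nat_lit 529726404418) (nat_lit 76) (nat_lit 1366424713425) (nat_lit 29) (nat_lit 5) (nat_lit 31) (nat_lit 5) (nat_lit 30) (nat_lit 4) (nat_lit 394) (nat_lit 372) (nat_lit 254)) (XT.lf (nat_lit 0) (nat_lit 1669382726202) (nat_lit 152) (nat_lit 489744744160) (nat_lit 0) (nat_lit 384608439452) (nat_lit 28) (nat_lit 5) (nat_lit 30) (nat_lit 4) (nat_lit 28) (nat_lit 4) (nat_lit 395) (nat_lit 372) (nat_lit 253)))) (XT.nd (nat_lit 156) (nat_lit 228) (nat_lit 0) (XT.nd (nat_lit 78) (nat_lit 76) (nat_lit 0) (XT.lf (nat_lit 0) (nat_lit 386248566190) (nat_lit 152) (nat_lit 481377279100) (nat_lit 76) (nat_lit 1937926927631) (nat_lit 26) (nat_lit 5) (nat_lit 28) (nat_lit 5) (nat_lit 27) (nat_lit 4) (nat_lit 396) (nat_lit 372) (nat_lit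 252)) (XT.lf (nat_lit 0) (nat_lit 1880021774853) (nat_lit 152) (nat_lit 526719403472) (nat_lit 0) (nat_lit 690415936430) (nat_lit 25) (nat_lit 5) (nat_lit 27) (nat_lit 4) (nat_lit 25) (nat_lit 4) (nat_lit 397) (nat_lit 372) (nat_lit 251))) (XT.nd (nat_lit 78) (nat_lit 76) (nat_lit 0) (XT.lf (nat_lit 0) (nat_lit 265379233506) (nat_lit 152) (nat_lit 637617039750) (nat_lit 76) (nat_lit 2520524300149) (nat_lit 23) (nat_lit 5) (nat_lit 25) (nat_lit 5) (nat_lit 24) (nat_lit 4) (nat_lit 398) (nat_lit 372) (nat_lit 250)) (XT.lf (nat_lit 0) (nat_lit 2009755119068) (nat_lit 152) (nat_lit 869361930260) (nat_lit 0) (nat_lit 908268219487) (nat_lit 22) (nat_lit 5) (nat_lit 24) (nat_lit 4) (nat_lit 22) (nat_lit 4) (nat_lit 399) (nat_lit 372) (nat_lit 249))))) (XT.nd (nat_lit 312) (nat_lit 380) (nat_lit 0) (XT.nd (nat_lit 156) (nat_lit 228) (nat_lit 0) (XT.nd (nat_lit 78) (nat_lit 152) (nat_lit 0) (XT.lf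 (nat_lit 0) (nat_lit 2964096604766) (nat_lit 76) (nat_lit 1166997707155) (nat_lit 76) (nat_lit 65510802659) (nat_lit 21) (nat_lit 4) (nat_lit 22) (nat_lit 5) (nat_lit 22) (nat_lit 4) (nat_lit 400) (nat_lit 372) (nat_lit 248)) (XT.lf (nat_lit 0) (nat_lit 1925810629705) (nat_lit 152) (nat_lit 1822411664915) (nat_lit 0) (nat_lit 905915343806) (nat_lit 19) (nat_lit 5) (nat_lit 21) (nat_lit 4) (nat_lit 19) (nat_lit 4) (nat_lit 401) (nat_lit 372) (nat_lit 247))) (XT.nd (nat_lit 78) (nat_lit 152) (nat_lit 0) (XT.lf (nat_lit 0) (nat_lit 2492466268873) (nat_lit 76) (nat_lit 1848630643256) (nat_lit 76) (nat_lit 828735353916) (nat_lit 18) (nat_lit 4) (nat_lit 19) (nat_lit 5) (nat_lit 19) (nat_lit 4) (nat_lit 402) (nat_lit 372) (nat_lit 246)) (XT.lf (nat_lit 0) (nat_lit 1398781722460) (nat_lit 152) (nat_lit 3898191860887) (nat_lit 0) (nat_lit 454434229560) (nat_lit 16) (nat_lit 5) (nat_lit 18) (nat_lit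 4) (nat_lit 16) (nat_lit 4) (nat_lit 403) (nat_lit 372) (nat_lit 245)))) (XT.nd (nat_lit 156) (nat_lit 228) (nat_lit 0) (XT.nd (nat_lit 78) (nat_lit 76) (nat_lit 0) (XT.lf (nat_lit 0) (nat_lit 774188600002) (nat_lit 76) (nat_lit 3288283620175) (nat_lit 76) (nat_lit 2343936124865) (nat_lit 15) (nat_lit 4) (nat_lit 16) (nat_lit 5) (nat_lit 16) (nat_lit 4) (nat_lit 404) (nat_lit 372) (nat_lit 244)) (XT.lf (nat_lit 0) (nat_lit 84194768984) (nat_lit 152) (nat_lit 769222377917) (nat_lit 76) (nat_lit 6296991957136) (nat_lit 14) (nat_lit 5) (nat_lit 16) (nat_lit 5) (nat_lit 15) (nat_lit 4) (nat_lit 405) (nat_lit 372) (nat_lit 243))) (XT.nd (nat_lit 78) (nat_lit 152) (nat_lit 0) (XT.lf (nat_lit 0) (nat_lit 2913800374641) (nat_lit 152) (nat_lit 3033851163369) (nat_lit 0) (nat_lit 2039404542024) (nat_lit 13) (nat_lit 5) (nat_lit 15) (nat_lit 4) (nat_lit 13) (nat_lit 4) (nat_lit 406) (nat_lit 372) (nat_lit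 242)) (XT.nd (nat_lit 78) (nat_lit 76) (nat_lit 0) (XT.lf (nat_lit 0) (nat_lit 2746368957207) (nat_lit 76) (nat_lit 3534108273281) (nat_lit 76) (nat_lit 2659712439197) (nat_lit 12) (nat_lit 4) (nat_lit 13) (nat_lit 5) (nat_lit 13) (nat_lit 4) (nat_lit 407) (nat_lit 372) (nat_lit 241)) (XT.lf (nat_lit 0) (nat_lit 200687932714) (nat_lit 152) (nat_lit 456964935313) (nat_lit 76) (nat_lit 9371167788986) (nat_lit 11) (nat_lit 5) (nat_lit 13) (nat_lit 5) (nat_lit 12) (nat_lit 4) (nat_lit 408) (nat_lit 372) (nat_lit 240))))))) (XT.nd (nat_lit 50388) (nat_lit 0) (nat_lit 3800) (XT.nd (nat_lit 312) (nat_lit 76) (nat_lit 0) (XT.nd (nat_lit 156) (nat_lit 152) (nat_lit 0) (XT.nd (nat_lit 78) (nat_lit 76) (nat_lit 0) (XT.lf (nat_lit 0) (nat_lit 3560371810235) (nat_lit 152) (nat_lit 4945885122758) (nat_lit 0) (nat_lit 2750746035727) (nat_lit 10) (nat_lit 5) (nat_lit 12) (nat_lit 4) (nat_lit 10) (nat_lit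 4) (nat_lit 409) (nat_lit 372) (nat_lit 239)) (XT.lf (nat_lit 0) (nat_lit 1510777741361) (nat_lit 76) (nat_lit 5981403415128) (nat_lit 76) (nat_lit 5171777639726) (nat_lit 9) (nat_lit 4) (nat_lit 10) (nat_lit 5) (nat_lit 10) (nat_lit 4) (nat_lit 410) (nat_lit 372) (nat_lit 238))) (XT.nd (nat_lit 78) (nat_lit 152) (nat_lit 0) (XT.lf (nat_lit 0) (nat_lit 9235447797198) (nat_lit 76) (nat_lit 2922308223757) (nat_lit 76) (nat_lit 2112682447579) (nat_lit 9) (nat_lit 4) (nat_lit 10) (nat_lit 5) (nat_lit 10) (nat_lit 4) (nat_lit 411) (nat_lit 372) (nat_lit 237)) (XT.lf (nat_lit 0) (nat_lit 1401276957655) (nat_lit 152) (nat_lit 14056982111187) (nat_lit 0) (nat_lit 651623460569) (nat_lit 7) (nat_lit 5) (nat_lit 9) (nat_lit 4) (nat_lit 7) (nat_lit 4) (nat_lit 412) (nat_lit 372) (nat_lit 236)))) (XT.nd (nat_lit 156) (nat_lit 76) (nat_lit 0) (XT.nd (nat_lit 78) (nat_lit 0) (nat_lit 0) (XT.lf (nat_lit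 0) (nat_lit 5552012240817) (nat_lit 152) (nat_lit 7847700118402) (nat_lit 0) (nat_lit 4802358743188) (nat_lit 7) (nat_lit 5) (nat_lit 9) (nat_lit 4) (nat_lit 7) (nat_lit 4) (nat_lit 413) (nat_lit 372) (nat_lit 235)) (XT.lf (nat_lit 0) (nat_lit 10325357810958) (nat_lit 152) (nat_lit 707025837979) (nat_lit 0) (nat_lit 9575704312856) (nat_lit 7) (nat_lit 5) (nat_lit 9) (nat_lit 4) (nat_lit 7) (nat_lit 4) (nat_lit 414) (nat_lit 372) (nat_lit 234))) (XT.nd (nat_lit 49842) (nat_lit 0) (nat_lit 5472) (XT.lf (nat_lit 0) (nat_lit 7899936387748) (nat_lit 76) (nat_lit 8104762484212) (nat_lit 76) (nat_lit 7355108985698) (nat_lit 6) (nat_lit 4) (nat_lit 7) (nat_lit 5) (nat_lit 7) (nat_lit 4) (nat_lit 415) (nat_lit 372) (nat_lit 233)) (XT.lf (nat_lit 0) (nat_lit 194670672778) (nat_lit 532) (nat_lit 4929406750) (nat_lit 532) (nat_lit 4929406750) (nat_lit 78) (nat_lit 3) (nat_lit 85) (nat_lit 3) (nat_lit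 85) (nat_lit 5) (nat_lit 373) (nat_lit 373) (nat_lit 274))))) (XT.nd (nat_lit 312) (nat_lit 1216) (nat_lit 0) (XT.nd (nat_lit 156) (nat_lit 0) (nat_lit 76) (XT.nd (nat_lit 78) (nat_lit 456) (nat_lit 0) (XT.lf (nat_lit 76) (nat_lit 388469799161) (nat_lit 0) (nat_lit 39415518338) (nat_lit 532) (nat_lit 11105608052) (nat_lit 79) (nat_lit 5) (nat_lit 78) (nat_lit 3) (nat_lit 85) (nat_lit 5) (nat_lit 374) (nat_lit 373) (nat_lit 273)) (XT.lf (nat_lit 0) (nat_lit 17870879674) (nat_lit 532) (nat_lit 88431121931) (nat_lit 608) (nat_lit 365591978354) (nat_lit 72) (nat_lit 5) (nat_lit 79) (nat_lit 5) (nat_lit 80) (nat_lit 5) (nat_lit 375) (nat_lit 373) (nat_lit 272))) (XT.nd (nat_lit 78) (nat_lit 0) (nat_lit 76) (XT.lf (nat_lit 0) (nat_lit 70612386059) (nat_lit 532) (nat_lit 122440588140) (nat_lit 608) (nat_lit 315050352065) (nat_lit 73) (nat_lit 5) (nat_lit 80) (nat_lit 5) (nat_lit 81) (nat_lit 5)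 (nat_lit 376) (nat_lit 373) (nat_lit 271)) (XT.lf (nat_lit 0) (nat_lit 152748623238) (nat_lit 532) (nat_lit 150824519433) (nat_lit 76) (nat_lit 244452251490) (nat_lit 74) (nat_lit 5) (nat_lit 81) (nat_lit 5) (nat_lit 75) (nat_lit 5) (nat_lit 377) (nat_lit 373) (nat_lit 270)))) (XT.nd (nat_lit 156) (nat_lit 684) (nat_lit 0) (XT.nd (nat_lit 78) (nat_lit 228) (nat_lit 0) (XT.lf (nat_lit 0) (nat_lit 270205957645) (nat_lit 532) (nat_lit 171849905363) (nat_lit 76) (nat_lit 150039856332) (nat_lit 68) (nat_lit 5) (nat_lit 75) (nat_lit 5) (nat_lit 69) (nat_lit 5) (nat_lit 378) (nat_lit 373) (nat_lit 269)) (XT.lf (nat_lit 0) (nat_lit 429894934484) (nat_lit 304) (nat_lit 183467764075) (nat_lit 76) (nat_lit 27444851379) (nat_lit 65) (nat_lit 5) (nat_lit 69) (nat_lit 5) (nat_lit 66) (nat_lit 5) (nat_lit 379) (nat_lit 373) (nat_lit 268))) (XT.nd (nat_lit 78) (nat_lit 456) (nat_lit 0) (XT.lf (nat_lit 0)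 (nat_lit 507941846991) (nat_lit 228) (nat_lit 135170709158) (nat_lit 304) (nat_lit 51347575135) (nat_lit 62) (nat_lit 5) (nat_lit 65) (nat_lit 5) (nat_lit 66) (nat_lit 5) (nat_lit 380) (nat_lit 373) (nat_lit 267)) (XT.nd (nat_lit 78) (nat_lit 228) (nat_lit 0) (XT.lf (nat_lit 0) (nat_lit 155639994850) (nat_lit 228) (nat_lit 180553731713) (nat_lit 76) (nat_lit 417304727124) (nat_lit 59) (nat_lit 5) (nat_lit 62) (nat_lit 5) (nat_lit 60) (nat_lit 5) (nat_lit 381) (nat_lit 373) (nat_lit 266)) (XT.lf (nat_lit 0) (nat_lit 421994183637) (nat_lit 304) (nat_lit 160623313506) (nat_lit 76) (nat_lit 236159624442) (nat_lit 56) (nat_lit 5) (nat_lit 60) (nat_lit 5) (nat_lit 57) (nat_lit 5) (nat_lit 382) (nat_lit 373) (nat_lit 265))))))))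
noncomputable def xc105 : XT := (XT.nd (nat_lit 1326) (nat_lit 1216) (nat_lit 0) (XT.nd (nat_lit 624) (nat_lit 1140) (nat_lit 0) (XT.nd (nat_lit 312) (nat_lit 532) (nat_lit 0) (XT.nd (nat_lit 156) (nat_lit 456) (nat_lit 0) (XT.nd (nat_lit 78) (nat_lit 228) (nat_lit 0) (XT.lf (nat_lit 0) (nat_lit 761678444338) (nat_lit 228) (nat_lit 122159362751) (nat_lit 76) (nat_lit 7339627104) (nat_lit 54) (nat_lit 5) (nat_lit 57) (nat_lit 5) (nat_lit 55) (nat_lit 5) (nat_lit 383) (nat_lit 373) (nat_lit 264)) (XT.lf (nat_lit 0) (nat_lit 212707704321) (nat_lit 228) (nat_lit 73723350679) (nat_lit 76) (nat_lit 684166237206) (nat_lit 51) (nat_lit 5) (nat_lit 54) (nat_lit 5) (nat_lit 52) (nat_lit 5) (nat_lit 384) (nat_lit 373) (nat_lit 263))) (XT.nd (nat_lit 78) (nat_lit 304) (nat_lit 0) (XT.lf (nat_lit 0) (nat_lit 638522017739) (nat_lit 228) (nat_lit 5721817084) (nat_lit 76) (nat_lit 414221653263) (nat_lit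 49) (nat_lit 5) (nat_lit 52) (nat_lit 5) (nat_lit 50) (nat_lit 5) (nat_lit 385) (nat_lit 373) (nat_lit 262)) (XT.lf (nat_lit 0) (nat_lit 15719931760) (nat_lit 152) (nat_lit 1062123342830) (nat_lit 76) (nat_lit 78094123101) (nat_lit 45) (nat_lit 5) (nat_lit 47) (nat_lit 5) (nat_lit 46) (nat_lit 5) (nat_lit 386) (nat_lit 373) (nat_lit 261)))) (XT.nd (nat_lit 156) (nat_lit 304) (nat_lit 0) (XT.nd (nat_lit 78) (nat_lit 76) (nat_lit 0) (XT.lf (nat_lit 0) (nat_lit 204799318702) (nat_lit 152) (nat_lit 342490741317) (nat_lit 228) (nat_lit 715433619474) (nat_lit 43) (nat_lit 5) (nat_lit 45) (nat_lit 5) (nat_lit 46) (nat_lit 5) (nat_lit 387) (nat_lit 373) (nat_lit 260)) (XT.lf (nat_lit 0) (nat_lit 347504459913) (nat_lit 76) (nat_lit 863275588257) (nat_lit 152) (nat_lit 170573108149) (nat_lit 42) (nat_lit 5) (nat_lit 43) (nat_lit 5) (nat_lit 44) (nat_lit 4) (nat_lit 388) (nat_lit 373) (nat_lit 259)))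 (XT.nd (nat_lit 78) (nat_lit 76) (nat_lit 0) (XT.lf (nat_lit 0) (nat_lit 487445849657) (nat_lit 228) (nat_lit 996221960824) (nat_lit 76) (nat_lit 28892574729) (nat_lit 39) (nat_lit 5) (nat_lit 42) (nat_lit 5) (nat_lit 40) (nat_lit 4) (nat_lit 389) (nat_lit 373) (nat_lit 258)) (XT.lf (nat_lit 0) (nat_lit 706590570105) (nat_lit 76) (nat_lit 599515163382) (nat_lit 152) (nat_lit 351225494217) (nat_lit 38) (nat_lit 5) (nat_lit 39) (nat_lit 5) (nat_lit 40) (nat_lit 4) (nat_lit 390) (nat_lit 373) (nat_lit 257))))) (XT.nd (nat_lit 312) (nat_lit 608) (nat_lit 0) (XT.nd (nat_lit 156) (nat_lit 228) (nat_lit 0) (XT.nd (nat_lit 78) (nat_lit 76) (nat_lit 0) (XT.lf (nat_lit 0) (nat_lit 466566666345) (nat_lit 228) (nat_lit 890753722344) (nat_lit 76) (nat_lit 460560634087) (nat_lit 35) (nat_lit 5) (nat_lit 38) (nat_lit 5) (nat_lit 36) (nat_lit 4) (nat_lit 391) (nat_lit 373) (nat_lit 256)) (XT.lf (nat_lit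 0) (nat_lit 1175752265383) (nat_lit 76) (nat_lit 284326904297) (nat_lit 152) (nat_lit 535796459233) (nat_lit 34) (nat_lit 5) (nat_lit 35) (nat_lit 5) (nat_lit 36) (nat_lit 4) (nat_lit 392) (nat_lit 373) (nat_lit 255))) (XT.nd (nat_lit 78) (nat_lit 76) (nat_lit 0) (XT.lf (nat_lit 0) (nat_lit 468618907911) (nat_lit 152) (nat_lit 748617508820) (nat_lit 76) (nat_lit 975624913094) (nat_lit 32) (nat_lit 5) (nat_lit 34) (nat_lit 5) (nat_lit 33) (nat_lit 4) (nat_lit 393) (nat_lit 373) (nat_lit 254)) (XT.lf (nat_lit 0) (nat_lit 1669044477195) (nat_lit 152) (nat_lit 669716422669) (nat_lit 0) (nat_lit 73354800598) (nat_lit 31) (nat_lit 5) (nat_lit 33) (nat_lit 4) (nat_lit 31) (nat_lit 4) (nat_lit 394) (nat_lit 373) (nat_lit 253)))) (XT.nd (nat_lit 156) (nat_lit 380) (nat_lit 0) (XT.nd (nat_lit 78) (nat_lit 76) (nat_lit 0) (XT.lf (nat_lit 0) (nat_lit 474281147045) (nat_lit 152) (nat_lit 609184901571)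 (nat_lit 76) (nat_lit 1571388623737) (nat_lit 29) (nat_lit 5) (nat_lit 31) (nat_lit 5) (nat_lit 30) (nat_lit 4) (nat_lit 395) (nat_lit 373) (nat_lit 252)) (XT.lf (nat_lit 0) (nat_lit 1919790359752) (nat_lit 152) (nat_lit 563206018838) (nat_lit 0) (nat_lit 442299899712) (nat_lit 28) (nat_lit 5) (nat_lit 30) (nat_lit 4) (nat_lit 28) (nat_lit 4) (nat_lit 396) (nat_lit 373) (nat_lit 251))) (XT.nd (nat_lit 78) (nat_lit 228) (nat_lit 0) (XT.lf (nat_lit 0) (nat_lit 444186061395) (nat_lit 152) (nat_lit 553583459920) (nat_lit 76) (nat_lit 2228616150711) (nat_lit 26) (nat_lit 5) (nat_lit 28) (nat_lit 5) (nat_lit 27) (nat_lit 4) (nat_lit 397) (nat_lit 373) (nat_lit 250)) (XT.nd (nat_lit 78) (nat_lit 152) (nat_lit 0) (XT.lf (nat_lit 0) (nat_lit 2162025237413) (nat_lit 152) (nat_lit 605726926812) (nat_lit 0) (nat_lit 793978502028) (nat_lit 25) (nat_lit 5) (nat_lit 27) (nat_lit 4) (nat_lit 25) (nat_lit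 4) (nat_lit 398) (nat_lit 373) (nat_lit 249)) (XT.lf (nat_lit 0) (nat_lit 305186302442) (nat_lit 152) (nat_lit 733259231612) (nat_lit 76) (nat_lit 2898603110640) (nat_lit 23) (nat_lit 5) (nat_lit 25) (nat_lit 5) (nat_lit 24) (nat_lit 4) (nat_lit 399) (nat_lit 373) (nat_lit 248))))))) (XT.nd (nat_lit 624) (nat_lit 456) (nat_lit 0) (XT.nd (nat_lit 312) (nat_lit 380) (nat_lit 0) (XT.nd (nat_lit 156) (nat_lit 228) (nat_lit 0) (XT.nd (nat_lit 78) (nat_lit 76) (nat_lit 0) (XT.lf (nat_lit 0) (nat_lit 2311218558842) (nat_lit 152) (nat_lit 999765877052) (nat_lit 0) (nat_lit 1044508609482) (nat_lit 22) (nat_lit 5) (nat_lit 24) (nat_lit 4) (nat_lit 22) (nat_lit 4) (nat_lit 400) (nat_lit 373) (nat_lit 247)) (XT.lf (nat_lit 0) (nat_lit 3408711409216) (nat_lit 76) (nat_lit 1342047206529) (nat_lit 76) (nat_lit 75337253452) (nat_lit 21) (nat_lit 4) (nat_lit 22) (nat_lit 5) (nat_lit 22) (nat_lit 4) (nat_lit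 401) (nat_lit 373) (nat_lit 246))) (XT.nd (nat_lit 78) (nat_lit 76) (nat_lit 0) (XT.lf (nat_lit 0) (nat_lit 2214682374912) (nat_lit 152) (nat_lit 2095773111475) (nat_lit 0) (nat_lit 1041802785738) (nat_lit 19) (nat_lit 5) (nat_lit 21) (nat_lit 4) (nat_lit 19) (nat_lit 4) (nat_lit 402) (nat_lit 373) (nat_lit 245)) (XT.lf (nat_lit 0) (nat_lit 2866336486719) (nat_lit 76) (nat_lit 2125925099992) (nat_lit 76) (nat_lit 953045508215) (nat_lit 18) (nat_lit 4) (nat_lit 19) (nat_lit 5) (nat_lit 19) (nat_lit 4) (nat_lit 403) (nat_lit 373) (nat_lit 244)))) (XT.nd (nat_lit 156) (nat_lit 152) (nat_lit 0) (XT.nd (nat_lit 78) (nat_lit 76) (nat_lit 0) (XT.lf (nat_lit 0) (nat_lit 1608599113178) (nat_lit 152) (nat_lit 4482920372007) (nat_lit 0) (nat_lit 522599489067) (nat_lit 16) (nat_lit 5) (nat_lit 18) (nat_lit 4) (nat_lit 16) (nat_lit 4) (nat_lit 404) (nat_lit 373) (nat_lit 243)) (XT.lf (nat_lit 0) (nat_lit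 890317135329) (nat_lit 76) (nat_lit 3781526038860) (nat_lit 76) (nat_lit 2695526412927) (nat_lit 15) (nat_lit 4) (nat_lit 16) (nat_lit 5) (nat_lit 16) (nat_lit 4) (nat_lit 405) (nat_lit 373) (nat_lit 242))) (XT.nd (nat_lit 78) (nat_lit 76) (nat_lit 0) (XT.lf (nat_lit 0) (nat_lit 96824092272) (nat_lit 152) (nat_lit 884605515590) (nat_lit 76) (nat_lit 7241540853143) (nat_lit 14) (nat_lit 5) (nat_lit 16) (nat_lit 5) (nat_lit 15) (nat_lit 4) (nat_lit 406) (nat_lit 373) (nat_lit 241)) (XT.lf (nat_lit 0) (nat_lit 3350870531968) (nat_lit 152) (nat_lit 3488928631950) (nat_lit 0) (nat_lit 2345315320029) (nat_lit 13) (nat_lit 5) (nat_lit 15) (nat_lit 4) (nat_lit 13) (nat_lit 4) (nat_lit 407) (nat_lit 373) (nat_lit 240))))) (XT.nd (nat_lit 312) (nat_lit 152) (nat_lit 0) (XT.nd (nat_lit 156) (nat_lit 152) (nat_lit 0) (XT.nd (nat_lit 78) (nat_lit 76) (nat_lit 0) (XT.lf (nat_lit 0) (nat_lit 3158324489283)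 (nat_lit 76) (nat_lit 4064224418252) (nat_lit 76) (nat_lit 3058669205204) (nat_lit 12) (nat_lit 4) (nat_lit 13) (nat_lit 5) (nat_lit 13) (nat_lit 4) (nat_lit 408) (nat_lit 373) (nat_lit 239)) (XT.lf (nat_lit 0) (nat_lit 230791205123) (nat_lit 152) (nat_lit 525509507356) (nat_lit 76) (nat_lit 10776843036485) (nat_lit 11) (nat_lit 5) (nat_lit 13) (nat_lit 5) (nat_lit 12) (nat_lit 4) (nat_lit 409) (nat_lit 373) (nat_lit 238))) (XT.nd (nat_lit 78) (nat_lit 76) (nat_lit 0) (XT.lf (nat_lit 0) (nat_lit 4094427659105) (nat_lit 152) (nat_lit 5687767733012) (nat_lit 0) (nat_lit 3163358015724) (nat_lit 10) (nat_lit 5) (nat_lit 12) (nat_lit 4) (nat_lit 10) (nat_lit 4) (nat_lit 410) (nat_lit 373) (nat_lit 237)) (XT.lf (nat_lit 0) (nat_lit 1737394547337) (nat_lit 76) (nat_lit 6878613853354) (nat_lit 76) (nat_lit 5947544209297) (nat_lit 9) (nat_lit 4) (nat_lit 10) (nat_lit 5) (nat_lit 10) (nat_lit 4) (nat_lit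 411) (nat_lit 373) (nat_lit 236)))) (XT.nd (nat_lit 156) (nat_lit 0) (nat_lit 0) (XT.nd (nat_lit 78) (nat_lit 152) (nat_lit 0) (XT.lf (nat_lit 0) (nat_lit 10620765092666) (nat_lit 76) (nat_lit 3360654392935) (nat_lit 76) (nat_lit 2429584748291) (nat_lit 9) (nat_lit 4) (nat_lit 10) (nat_lit 5) (nat_lit 10) (nat_lit 4) (nat_lit 412) (nat_lit 373) (nat_lit 235)) (XT.lf (nat_lit 0) (nat_lit 1611468560476) (nat_lit 152) (nat_lit 16165529306428) (nat_lit 0) (nat_lit 749367037185) (nat_lit 7) (nat_lit 5) (nat_lit 9) (nat_lit 4) (nat_lit 7) (nat_lit 4) (nat_lit 413) (nat_lit 373) (nat_lit 234))) (XT.nd (nat_lit 78) (nat_lit 0) (nat_lit 0) (XT.lf (nat_lit 0) (nat_lit 6384814128394) (nat_lit 152) (nat_lit 9024855030566) (nat_lit 0) (nat_lit 5522712604692) (nat_lit 7) (nat_lit 5) (nat_lit 9) (nat_lit 4) (nat_lit 7) (nat_lit 4) (nat_lit 414) (nat_lit 373) (nat_lit 233)) (XT.nd (nat_lit 49920) (nat_lit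 0) (nat_lit 5396) (XT.lf (nat_lit 0) (nat_lit 11874161527344) (nat_lit 152) (nat_lit 813079621852) (nat_lit 0) (nat_lit 11012060003285) (nat_lit 7) (nat_lit 5) (nat_lit 9) (nat_lit 4) (nat_lit 7) (nat_lit 4) (nat_lit 415) (nat_lit 373) (nat_lit 232)) (XT.lf (nat_lit 0) (nat_lit 223871909254) (nat_lit 532) (nat_lit 5668474433) (nat_lit 532) (nat_lit 5668474433) (nat_lit 78) (nat_lit 3) (nat_lit 85) (nat_lit 3) (nat_lit 85) (nat_lit 5) (nat_lit 374) (nat_lit 374) (nat_lit 272))))))))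
noncomputable def xc106 : XT := (XT.nd (nat_lit 1326) (nat_lit 1900) (nat_lit 0) (XT.nd (nat_lit 624) (nat_lit 1596) (nat_lit 0) (XT.nd (nat_lit 312) (nat_lit 988) (nat_lit 0) (XT.nd (nat_lit 156) (nat_lit 0) (nat_lit 76) (XT.nd (nat_lit 78) (nat_lit 456) (nat_lit 0) (XT.lf (nat_lit 76) (nat_lit 446740897573) (nat_lit 0) (nat_lit 45328337988) (nat_lit 532) (nat_lit 12770238744) (nat_lit 79) (nat_lit 5) (nat_lit 78) (nat_lit 3) (nat_lit 85) (nat_lit 5) (nat_lit 375) (nat_lit 374) (nat_lit 271)) (XT.lf (nat_lit 0) (nat_lit 20552517535) (nat_lit 532) (nat_lit 101695068275) (nat_lit 608) (nat_lit 420430410312) (nat_lit 72) (nat_lit 5) (nat_lit 79) (nat_lit 5) (nat_lit 80) (nat_lit 5) (nat_lit 376) (nat_lit 374) (nat_lit 270))) (XT.nd (nat_lit 78) (nat_lit 0) (nat_lit 76) (XT.lf (nat_lit 0) (nat_lit 81205129039) (nat_lit 532) (nat_lit 140805938441) (nat_lit 608) (nat_lit 362307686607) (nat_lit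 73) (nat_lit 5) (nat_lit 80) (nat_lit 5) (nat_lit 81) (nat_lit 5) (nat_lit 377) (nat_lit 374) (nat_lit 269)) (XT.lf (nat_lit 0) (nat_lit 175661699941) (nat_lit 532) (nat_lit 173447456093) (nat_lit 76) (nat_lit 281119984323) (nat_lit 74) (nat_lit 5) (nat_lit 81) (nat_lit 5) (nat_lit 75) (nat_lit 5) (nat_lit 378) (nat_lit 374) (nat_lit 268)))) (XT.nd (nat_lit 156) (nat_lit 456) (nat_lit 0) (XT.nd (nat_lit 78) (nat_lit 228) (nat_lit 0) (XT.lf (nat_lit 0) (nat_lit 310737548215) (nat_lit 532) (nat_lit 197626656177) (nat_lit 76) (nat_lit 172545816860) (nat_lit 68) (nat_lit 5) (nat_lit 75) (nat_lit 5) (nat_lit 69) (nat_lit 5) (nat_lit 379) (nat_lit 374) (nat_lit 267)) (XT.lf (nat_lit 0) (nat_lit 494379798073) (nat_lit 304) (nat_lit 210987207145) (nat_lit 76) (nat_lit 31561627133) (nat_lit 65) (nat_lit 5) (nat_lit 69) (nat_lit 5) (nat_lit 66) (nat_lit 5) (nat_lit 380) (nat_lit 374) (nat_lit 266)))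 (XT.nd (nat_lit 78) (nat_lit 228) (nat_lit 0) (XT.lf (nat_lit 0) (nat_lit 584133784507) (nat_lit 228) (nat_lit 155446213051) (nat_lit 304) (nat_lit 59049108603) (nat_lit 62) (nat_lit 5) (nat_lit 65) (nat_lit 5) (nat_lit 66) (nat_lit 5) (nat_lit 381) (nat_lit 374) (nat_lit 265)) (XT.lf (nat_lit 0) (nat_lit 178986510104) (nat_lit 228) (nat_lit 207636120825) (nat_lit 76) (nat_lit 479900549385) (nat_lit 59) (nat_lit 5) (nat_lit 62) (nat_lit 5) (nat_lit 60) (nat_lit 5) (nat_lit 382) (nat_lit 374) (nat_lit 264))))) (XT.nd (nat_lit 312) (nat_lit 836) (nat_lit 0) (XT.nd (nat_lit 156) (nat_lit 380) (nat_lit 0) (XT.nd (nat_lit 78) (nat_lit 152) (nat_lit 0) (XT.lf (nat_lit 0) (nat_lit 485293778282) (nat_lit 304) (nat_lit 184716163068) (nat_lit 76) (nat_lit 271583710980) (nat_lit 56) (nat_lit 5) (nat_lit 60) (nat_lit 5) (nat_lit 57) (nat_lit 5) (nat_lit 383) (nat_lit 374) (nat_lit 263)) (XT.lf (nat_lit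 0) (nat_lit 875930635558) (nat_lit 228) (nat_lit 140482644904) (nat_lit 76) (nat_lit 8440734786) (nat_lit 54) (nat_lit 5) (nat_lit 57) (nat_lit 5) (nat_lit 55) (nat_lit 5) (nat_lit 384) (nat_lit 374) (nat_lit 262))) (XT.nd (nat_lit 78) (nat_lit 152) (nat_lit 0) (XT.lf (nat_lit 0) (nat_lit 244614252894) (nat_lit 228) (nat_lit 84781262915) (nat_lit 76) (nat_lit 786791338708) (nat_lit 51) (nat_lit 5) (nat_lit 54) (nat_lit 5) (nat_lit 52) (nat_lit 5) (nat_lit 385) (nat_lit 374) (nat_lit 261)) (XT.lf (nat_lit 0) (nat_lit 734300679536) (nat_lit 228) (nat_lit 6579525269) (nat_lit 76) (nat_lit 476355077687) (nat_lit 49) (nat_lit 5) (nat_lit 52) (nat_lit 5) (nat_lit 50) (nat_lit 5) (nat_lit 386) (nat_lit 374) (nat_lit 260)))) (XT.nd (nat_lit 156) (nat_lit 380) (nat_lit 0) (XT.nd (nat_lit 78) (nat_lit 152) (nat_lit 0) (XT.lf (nat_lit 0) (nat_lit 18078273447) (nat_lit 152) (nat_lit 1221441259296) (nat_lit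 76) (nat_lit 89808446387) (nat_lit 45) (nat_lit 5) (nat_lit 47) (nat_lit 5) (nat_lit 46) (nat_lit 5) (nat_lit 387) (nat_lit 374) (nat_lit 259)) (XT.lf (nat_lit 0) (nat_lit 235519751952) (nat_lit 152) (nat_lit 393864135968) (nat_lit 228) (nat_lit 822748317932) (nat_lit 43) (nat_lit 5) (nat_lit 45) (nat_lit 5) (nat_lit 46) (nat_lit 5) (nat_lit 388) (nat_lit 374) (nat_lit 258))) (XT.nd (nat_lit 78) (nat_lit 304) (nat_lit 0) (XT.lf (nat_lit 0) (nat_lit 399630637656) (nat_lit 76) (nat_lit 992766711806) (nat_lit 152) (nat_lit 196158756733) (nat_lit 42) (nat_lit 5) (nat_lit 43) (nat_lit 5) (nat_lit 44) (nat_lit 4) (nat_lit 389) (nat_lit 374) (nat_lit 257)) (XT.nd (nat_lit 78) (nat_lit 76) (nat_lit 0) (XT.lf (nat_lit 0) (nat_lit 560563006008) (nat_lit 228) (nat_lit 1145654757681) (nat_lit 76) (nat_lit 33226656951) (nat_lit 39) (nat_lit 5) (nat_lit 42) (nat_lit 5) (nat_lit 40) (nat_lit 4) (nat_lit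 390) (nat_lit 374) (nat_lit 256)) (XT.lf (nat_lit 0) (nat_lit 812579610796) (nat_lit 76) (nat_lit 689442236186) (nat_lit 152) (nat_lit 403909044569) (nat_lit 38) (nat_lit 5) (nat_lit 39) (nat_lit 5) (nat_lit 40) (nat_lit 4) (nat_lit 391) (nat_lit 374) (nat_lit 255))))))) (XT.nd (nat_lit 624) (nat_lit 912) (nat_lit 0) (XT.nd (nat_lit 312) (nat_lit 456) (nat_lit 0) (XT.nd (nat_lit 156) (nat_lit 228) (nat_lit 0) (XT.nd (nat_lit 78) (nat_lit 76) (nat_lit 0) (XT.lf (nat_lit 0) (nat_lit 536551907416) (nat_lit 228) (nat_lit 1024366337175) (nat_lit 76) (nat_lit 529644912285) (nat_lit 35) (nat_lit 5) (nat_lit 38) (nat_lit 5) (nat_lit 36) (nat_lit 4) (nat_lit 392) (nat_lit 374) (nat_lit 254)) (XT.lf (nat_lit 0) (nat_lit 1352115511169) (nat_lit 76) (nat_lit 326975753396) (nat_lit 152) (nat_lit 616165691108) (nat_lit 34) (nat_lit 5) (nat_lit 35) (nat_lit 5) (nat_lit 36) (nat_lit 4) (nat_lit 393) (nat_lit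 374) (nat_lit 253))) (XT.nd (nat_lit 78) (nat_lit 76) (nat_lit 0) (XT.lf (nat_lit 0) (nat_lit 538911953351) (nat_lit 152) (nat_lit 860909740509) (nat_lit 76) (nat_lit 1121968818681) (nat_lit 32) (nat_lit 5) (nat_lit 34) (nat_lit 5) (nat_lit 33) (nat_lit 4) (nat_lit 394) (nat_lit 374) (nat_lit 252)) (XT.lf (nat_lit 0) (nat_lit 1919401343525) (nat_lit 152) (nat_lit 770173513674) (nat_lit 0) (nat_lit 84358182737) (nat_lit 31) (nat_lit 5) (nat_lit 33) (nat_lit 4) (nat_lit 31) (nat_lit 4) (nat_lit 395) (nat_lit 374) (nat_lit 251)))) (XT.nd (nat_lit 156) (nat_lit 228) (nat_lit 0) (XT.nd (nat_lit 78) (nat_lit 76) (nat_lit 0) (XT.lf (nat_lit 0) (nat_lit 545423501273) (nat_lit 152) (nat_lit 700562286327) (nat_lit 76) (nat_lit 1807097071021) (nat_lit 29) (nat_lit 5) (nat_lit 31) (nat_lit 5) (nat_lit 30) (nat_lit 4) (nat_lit 396) (nat_lit 374) (nat_lit 250)) (XT.lf (nat_lit 0) (nat_lit 2207759083560)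 (nat_lit 152) (nat_lit 647686591270) (nat_lit 0) (nat_lit 508645031619) (nat_lit 28) (nat_lit 5) (nat_lit 30) (nat_lit 4) (nat_lit 28) (nat_lit 4) (nat_lit 397) (nat_lit 374) (nat_lit 249))) (XT.nd (nat_lit 78) (nat_lit 76) (nat_lit 0) (XT.lf (nat_lit 0) (nat_lit 510814129603) (nat_lit 152) (nat_lit 636620668099) (nat_lit 76) (nat_lit 2562908712399) (nat_lit 26) (nat_lit 5) (nat_lit 28) (nat_lit 5) (nat_lit 27) (nat_lit 4) (nat_lit 398) (nat_lit 374) (nat_lit 248)) (XT.lf (nat_lit 0) (nat_lit 2486329171479) (nat_lit 152) (nat_lit 696585673070) (nat_lit 0) (nat_lit 913075409758) (nat_lit 25) (nat_lit 5) (nat_lit 27) (nat_lit 4) (nat_lit 25) (nat_lit 4) (nat_lit 399) (nat_lit 374) (nat_lit 247))))) (XT.nd (nat_lit 312) (nat_lit 456) (nat_lit 0) (XT.nd (nat_lit 156) (nat_lit 228) (nat_lit 0) (XT.nd (nat_lit 78) (nat_lit 76) (nat_lit 0) (XT.lf (nat_lit 0) (nat_lit 350964386871) (nat_lit 152)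 (nat_lit 843247841041) (nat_lit 76) (nat_lit 3333393702355) (nat_lit 23) (nat_lit 5) (nat_lit 25) (nat_lit 5) (nat_lit 24) (nat_lit 4) (nat_lit 400) (nat_lit 374) (nat_lit 246)) (XT.lf (nat_lit 0) (nat_lit 2657901472661) (nat_lit 152) (nat_lit 1149730499444) (nat_lit 0) (nat_lit 1201185019674) (nat_lit 22) (nat_lit 5) (nat_lit 24) (nat_lit 4) (nat_lit 22) (nat_lit 4) (nat_lit 401) (nat_lit 374) (nat_lit 245))) (XT.nd (nat_lit 78) (nat_lit 152) (nat_lit 0) (XT.lf (nat_lit 0) (nat_lit 3920018357827) (nat_lit 76) (nat_lit 1543354169022) (nat_lit 76) (nat_lit 86637713225) (nat_lit 21) (nat_lit 4) (nat_lit 22) (nat_lit 5) (nat_lit 22) (nat_lit 4) (nat_lit 402) (nat_lit 374) (nat_lit 244)) (XT.lf (nat_lit 0) (nat_lit 2546884845140) (nat_lit 152) (nat_lit 2410138848950) (nat_lit 0) (nat_lit 1198073309731) (nat_lit 19) (nat_lit 5) (nat_lit 21) (nat_lit 4) (nat_lit 19) (nat_lit 4) (nat_lit 403) (nat_lit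 374) (nat_lit 243)))) (XT.nd (nat_lit 156) (nat_lit 228) (nat_lit 0) (XT.nd (nat_lit 78) (nat_lit 152) (nat_lit 0) (XT.lf (nat_lit 0) (nat_lit 3296287169569) (nat_lit 76) (nat_lit 2444813759318) (nat_lit 76) (nat_lit 1096002221942) (nat_lit 18) (nat_lit 4) (nat_lit 19) (nat_lit 5) (nat_lit 19) (nat_lit 4) (nat_lit 404) (nat_lit 374) (nat_lit 242)) (XT.lf (nat_lit 0) (nat_lit 1849889080229) (nat_lit 152) (nat_lit 5155358225152) (nat_lit 0) (nat_lit 600989507001) (nat_lit 16) (nat_lit 5) (nat_lit 18) (nat_lit 4) (nat_lit 16) (nat_lit 4) (nat_lit 405) (nat_lit 374) (nat_lit 241))) (XT.nd (nat_lit 78) (nat_lit 152) (nat_lit 0) (XT.lf (nat_lit 0) (nat_lit 1023864891132) (nat_lit 76) (nat_lit 4348754850669) (nat_lit 76) (nat_lit 3099855276063) (nat_lit 15) (nat_lit 4) (nat_lit 16) (nat_lit 5) (nat_lit 16) (nat_lit 4) (nat_lit 406) (nat_lit 374) (nat_lit 240)) (XT.nd (nat_lit 78) (nat_lit 76) (nat_lit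 0) (XT.lf (nat_lit 0) (nat_lit 111347787731) (nat_lit 152) (nat_lit 1017296177322) (nat_lit 76) (nat_lit 8327772058572) (nat_lit 14) (nat_lit 5) (nat_lit 16) (nat_lit 5) (nat_lit 15) (nat_lit 4) (nat_lit 407) (nat_lit 374) (nat_lit 239)) (XT.lf (nat_lit 0) (nat_lit 3853501188233) (nat_lit 152) (nat_lit 4012267771034) (nat_lit 0) (nat_lit 2697112691154) (nat_lit 13) (nat_lit 5) (nat_lit 15) (nat_lit 4) (nat_lit 13) (nat_lit 4) (nat_lit 408) (nat_lit 374) (nat_lit 238))))))))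
noncomputable def xc107 : XT := (XT.nd (nat_lit 51246) (nat_lit 0) (nat_lit 1140) (XT.nd (nat_lit 50544) (nat_lit 0) (nat_lit 3724) (XT.nd (nat_lit 312) (nat_lit 152) (nat_lit 0) (XT.nd (nat_lit 156) (nat_lit 152) (nat_lit 0) (XT.nd (nat_lit 78) (nat_lit 76) (nat_lit 0) (XT.lf (nat_lit 0) (nat_lit 3632073305204) (nat_lit 76) (nat_lit 4673858008384) (nat_lit 76) (nat_lit 3517469510466) (nat_lit 12) (nat_lit 4) (nat_lit 13) (nat_lit 5) (nat_lit 13) (nat_lit 4) (nat_lit 409) (nat_lit 374) (nat_lit 237)) (XT.lf (nat_lit 0) (nat_lit 265409948274) (nat_lit 152) (nat_lit 604335806235) (nat_lit 76) (nat_lit 12393369551807) (nat_lit 11) (nat_lit 5) (nat_lit 13) (nat_lit 5) (nat_lit 12) (nat_lit 4) (nat_lit 410) (nat_lit 374) (nat_lit 236))) (XT.nd (nat_lit 78) (nat_lit 76) (nat_lit 0) (XT.lf (nat_lit 0) (nat_lit 4708591866446) (nat_lit 152) (nat_lit 6540932773373) (nat_lit 0) (nat_lit 3637861774519)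 (nat_lit 10) (nat_lit 5) (nat_lit 12) (nat_lit 4) (nat_lit 10) (nat_lit 4) (nat_lit 411) (nat_lit 374) (nat_lit 235)) (XT.lf (nat_lit 0) (nat_lit 1998003838907) (nat_lit 76) (nat_lit 7910405875369) (nat_lit 76) (nat_lit 6839675782932) (nat_lit 9) (nat_lit 4) (nat_lit 10) (nat_lit 5) (nat_lit 10) (nat_lit 4) (nat_lit 412) (nat_lit 374) (nat_lit 234)))) (XT.nd (nat_lit 156) (nat_lit 0) (nat_lit 0) (XT.nd (nat_lit 78) (nat_lit 152) (nat_lit 0) (XT.lf (nat_lit 0) (nat_lit 12213879951756) (nat_lit 76) (nat_lit 3864752503190) (nat_lit 76) (nat_lit 2794022410309) (nat_lit 9) (nat_lit 4) (nat_lit 10) (nat_lit 5) (nat_lit 10) (nat_lit 4) (nat_lit 413) (nat_lit 374) (nat_lit 233)) (XT.lf (nat_lit 0) (nat_lit 1853188889290) (nat_lit 152) (nat_lit 18590358610568) (nat_lit 0) (nat_lit 861772136264) (nat_lit 7) (nat_lit 5) (nat_lit 9) (nat_lit 4) (nat_lit 7) (nat_lit 4) (nat_lit 414) (nat_lit 374) (nat_lit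 232))) (XT.nd (nat_lit 49998) (nat_lit 0) (nat_lit 5396) (XT.lf (nat_lit 0) (nat_lit 7342536286560) (nat_lit 152) (nat_lit 10378583205304) (nat_lit 0) (nat_lit 6351119533223) (nat_lit 7) (nat_lit 5) (nat_lit 9) (nat_lit 4) (nat_lit 7) (nat_lit 4) (nat_lit 415) (nat_lit 374) (nat_lit 231)) (XT.lf (nat_lit 0) (nat_lit 257453176217) (nat_lit 532) (nat_lit 6518485991) (nat_lit 532) (nat_lit 6518485991) (nat_lit 78) (nat_lit 3) (nat_lit 85) (nat_lit 3) (nat_lit 85) (nat_lit 5) (nat_lit 375) (nat_lit 375) (nat_lit 270))))) (XT.nd (nat_lit 312) (nat_lit 1216) (nat_lit 0) (XT.nd (nat_lit 156) (nat_lit 0) (nat_lit 76) (XT.nd (nat_lit 78) (nat_lit 456) (nat_lit 0) (XT.lf (nat_lit 76) (nat_lit 513752507473) (nat_lit 0) (nat_lit 52127960633) (nat_lit 532) (nat_lit 14684859231) (nat_lit 79) (nat_lit 5) (nat_lit 78) (nat_lit 3) (nat_lit 85) (nat_lit 5) (nat_lit 376) (nat_lit 375) (nat_lit 269)) (XT.lf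 (nat_lit 0) (nat_lit 23636155778) (nat_lit 532) (nat_lit 116948782622) (nat_lit 608) (nat_lit 483494696021) (nat_lit 72) (nat_lit 5) (nat_lit 79) (nat_lit 5) (nat_lit 80) (nat_lit 5) (nat_lit 377) (nat_lit 375) (nat_lit 268))) (XT.nd (nat_lit 78) (nat_lit 0) (nat_lit 76) (XT.lf (nat_lit 0) (nat_lit 93386567637) (nat_lit 532) (nat_lit 161926271233) (nat_lit 608) (nat_lit 416653674556) (nat_lit 73) (nat_lit 5) (nat_lit 80) (nat_lit 5) (nat_lit 81) (nat_lit 5) (nat_lit 378) (nat_lit 375) (nat_lit 267)) (XT.lf (nat_lit 0) (nat_lit 202011547157) (nat_lit 532) (nat_lit 199464014012) (nat_lit 76) (nat_lit 323287902660) (nat_lit 74) (nat_lit 5) (nat_lit 81) (nat_lit 5) (nat_lit 75) (nat_lit 5) (nat_lit 379) (nat_lit 375) (nat_lit 266)))) (XT.nd (nat_lit 156) (nat_lit 684) (nat_lit 0) (XT.nd (nat_lit 78) (nat_lit 228) (nat_lit 0) (XT.lf (nat_lit 0) (nat_lit 357348707421) (nat_lit 532) (nat_lit 227270098845)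 (nat_lit 76) (nat_lit 198427675838) (nat_lit 68) (nat_lit 5) (nat_lit 75) (nat_lit 5) (nat_lit 69) (nat_lit 5) (nat_lit 380) (nat_lit 375) (nat_lit 265)) (XT.lf (nat_lit 0) (nat_lit 568537239176) (nat_lit 304) (nat_lit 242634742628) (nat_lit 76) (nat_lit 36295907534) (nat_lit 65) (nat_lit 5) (nat_lit 69) (nat_lit 5) (nat_lit 66) (nat_lit 5) (nat_lit 381) (nat_lit 375) (nat_lit 264))) (XT.nd (nat_lit 78) (nat_lit 456) (nat_lit 0) (XT.lf (nat_lit 0) (nat_lit 671754351590) (nat_lit 228) (nat_lit 178763067518) (nat_lit 304) (nat_lit 67906019089) (nat_lit 62) (nat_lit 5) (nat_lit 65) (nat_lit 5) (nat_lit 66) (nat_lit 5) (nat_lit 382) (nat_lit 375) (nat_lit 263)) (XT.nd (nat_lit 78) (nat_lit 228) (nat_lit 0) (XT.lf (nat_lit 0) (nat_lit 205834876811) (nat_lit 228) (nat_lit 238781031845) (nat_lit 76) (nat_lit 551885717383) (nat_lit 59) (nat_lit 5) (nat_lit 62) (nat_lit 5) (nat_lit 60) (nat_lit 5)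 (nat_lit 383) (nat_lit 375) (nat_lit 262)) (XT.lf (nat_lit 0) (nat_lit 558088198220) (nat_lit 304) (nat_lit 212423097953) (nat_lit 76) (nat_lit 312321375658) (nat_lit 56) (nat_lit 5) (nat_lit 60) (nat_lit 5) (nat_lit 57) (nat_lit 5) (nat_lit 384) (nat_lit 375) (nat_lit 261))))))) (XT.nd (nat_lit 702) (nat_lit 988) (nat_lit 0) (XT.nd (nat_lit 312) (nat_lit 760) (nat_lit 0) (XT.nd (nat_lit 156) (nat_lit 456) (nat_lit 0) (XT.nd (nat_lit 78) (nat_lit 228) (nat_lit 0) (XT.lf (nat_lit 0) (nat_lit 1007320551927) (nat_lit 228) (nat_lit 161554571122) (nat_lit 76) (nat_lit 9706968722) (nat_lit 54) (nat_lit 5) (nat_lit 57) (nat_lit 5) (nat_lit 55) (nat_lit 5) (nat_lit 385) (nat_lit 375) (nat_lit 260)) (XT.lf (nat_lit 0) (nat_lit 281306687935) (nat_lit 228) (nat_lit 97498005950) (nat_lit 76) (nat_lit 904810164974) (nat_lit 51) (nat_lit 5) (nat_lit 54) (nat_lit 5) (nat_lit 52) (nat_lit 5) (nat_lit 386)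 (nat_lit 375) (nat_lit 259))) (XT.nd (nat_lit 78) (nat_lit 304) (nat_lit 0) (XT.lf (nat_lit 0) (nat_lit 844446053026) (nat_lit 228) (nat_lit 7566027309) (nat_lit 76) (nat_lit 547808472750) (nat_lit 49) (nat_lit 5) (nat_lit 52) (nat_lit 5) (nat_lit 50) (nat_lit 5) (nat_lit 387) (nat_lit 375) (nat_lit 258)) (XT.lf (nat_lit 0) (nat_lit 20790280569) (nat_lit 152) (nat_lit 1404657005877) (nat_lit 76) (nat_lit 103279868218) (nat_lit 45) (nat_lit 5) (nat_lit 47) (nat_lit 5) (nat_lit 46) (nat_lit 5) (nat_lit 388) (nat_lit 375) (nat_lit 257)))) (XT.nd (nat_lit 156) (nat_lit 532) (nat_lit 0) (XT.nd (nat_lit 78) (nat_lit 76) (nat_lit 0) (XT.lf (nat_lit 0) (nat_lit 270848119618) (nat_lit 152) (nat_lit 452943592622) (nat_lit 228) (nat_lit 946160305159) (nat_lit 43) (nat_lit 5) (nat_lit 45) (nat_lit 5) (nat_lit 46) (nat_lit 5) (nat_lit 389) (nat_lit 375) (nat_lit 256)) (XT.lf (nat_lit 0) (nat_lit 459575617997)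 (nat_lit 76) (nat_lit 1141681556241) (nat_lit 152) (nat_lit 225582330063) (nat_lit 42) (nat_lit 5) (nat_lit 43) (nat_lit 5) (nat_lit 44) (nat_lit 4) (nat_lit 390) (nat_lit 375) (nat_lit 255))) (XT.nd (nat_lit 78) (nat_lit 304) (nat_lit 0) (XT.lf (nat_lit 0) (nat_lit 644647667801) (nat_lit 228) (nat_lit 1317502595329) (nat_lit 76) (nat_lit 38210803709) (nat_lit 39) (nat_lit 5) (nat_lit 42) (nat_lit 5) (nat_lit 40) (nat_lit 4) (nat_lit 391) (nat_lit 375) (nat_lit 254)) (XT.nd (nat_lit 78) (nat_lit 228) (nat_lit 0) (XT.lf (nat_lit 0) (nat_lit 934466896593) (nat_lit 76) (nat_lit 792858419097) (nat_lit 152) (nat_lit 464495194236) (nat_lit 38) (nat_lit 5) (nat_lit 39) (nat_lit 5) (nat_lit 40) (nat_lit 4) (nat_lit 392) (nat_lit 375) (nat_lit 253)) (XT.lf (nat_lit 0) (nat_lit 617034875849) (nat_lit 228) (nat_lit 1178020952386) (nat_lit 76) (nat_lit 609091787567) (nat_lit 35) (nat_lit 5) (nat_lit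 38) (nat_lit 5) (nat_lit 36) (nat_lit 4) (nat_lit 393) (nat_lit 375) (nat_lit 252)))))) (XT.nd (nat_lit 312) (nat_lit 532) (nat_lit 0) (XT.nd (nat_lit 156) (nat_lit 228) (nat_lit 0) (XT.nd (nat_lit 78) (nat_lit 152) (nat_lit 0) (XT.lf (nat_lit 0) (nat_lit 1554933144823) (nat_lit 76) (nat_lit 376021975350) (nat_lit 152) (nat_lit 708590365560) (nat_lit 34) (nat_lit 5) (nat_lit 35) (nat_lit 5) (nat_lit 36) (nat_lit 4) (nat_lit 394) (nat_lit 375) (nat_lit 251)) (XT.lf (nat_lit 0) (nat_lit 619748904579) (nat_lit 152) (nat_lit 990045903185) (nat_lit 76) (nat_lit 1290264268985) (nat_lit 32) (nat_lit 5) (nat_lit 34) (nat_lit 5) (nat_lit 33) (nat_lit 4) (nat_lit 395) (nat_lit 375) (nat_lit 250))) (XT.nd (nat_lit 78) (nat_lit 152) (nat_lit 0) (XT.lf (nat_lit 0) (nat_lit 2207311692312) (nat_lit 152) (nat_lit 885699259141) (nat_lit 0) (nat_lit 97012032681) (nat_lit 31) (nat_lit 5) (nat_lit 33) (nat_lit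 4) (nat_lit 31) (nat_lit 4) (nat_lit 396) (nat_lit 375) (nat_lit 249)) (XT.lf (nat_lit 0) (nat_lit 627237164210) (nat_lit 152) (nat_lit 805646364263) (nat_lit 76) (nat_lit 2078161747911) (nat_lit 29) (nat_lit 5) (nat_lit 31) (nat_lit 5) (nat_lit 30) (nat_lit 4) (nat_lit 397) (nat_lit 375) (nat_lit 248)))) (XT.nd (nat_lit 156) (nat_lit 304) (nat_lit 0) (XT.nd (nat_lit 78) (nat_lit 152) (nat_lit 0) (XT.lf (nat_lit 0) (nat_lit 2538923074521) (nat_lit 152) (nat_lit 744839330135) (nat_lit 0) (nat_lit 584941897478) (nat_lit 28) (nat_lit 5) (nat_lit 30) (nat_lit 4) (nat_lit 28) (nat_lit 4) (nat_lit 398) (nat_lit 375) (nat_lit 247)) (XT.lf (nat_lit 0) (nat_lit 587436369269) (nat_lit 152) (nat_lit 732113533297) (nat_lit 76) (nat_lit 2947345124425) (nat_lit 26) (nat_lit 5) (nat_lit 28) (nat_lit 5) (nat_lit 27) (nat_lit 4) (nat_lit 399) (nat_lit 375) (nat_lit 246))) (XT.nd (nat_lit 78) (nat_lit 228)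 (nat_lit 0) (XT.lf (nat_lit 0) (nat_lit 2859278659454) (nat_lit 152) (nat_lit 801073302659) (nat_lit 0) (nat_lit 1050036821354) (nat_lit 25) (nat_lit 5) (nat_lit 27) (nat_lit 4) (nat_lit 25) (nat_lit 4) (nat_lit 400) (nat_lit 375) (nat_lit 245)) (XT.nd (nat_lit 78) (nat_lit 76) (nat_lit 0) (XT.lf (nat_lit 0) (nat_lit 403609150054) (nat_lit 152) (nat_lit 969734809022) (nat_lit 76) (nat_lit 3833402852315) (nat_lit 23) (nat_lit 5) (nat_lit 25) (nat_lit 5) (nat_lit 24) (nat_lit 4) (nat_lit 401) (nat_lit 375) (nat_lit 244)) (XT.lf (nat_lit 0) (nat_lit 3056586791852) (nat_lit 152) (nat_lit 1322189878394) (nat_lit 0) (nat_lit 1381362862432) (nat_lit 22) (nat_lit 5) (nat_lit 24) (nat_lit 4) (nat_lit 22) (nat_lit 4) (nat_lit 402) (nat_lit 375) (nat_lit 243))))))))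
noncomputable def xc108 : XT := (XT.nd (nat_lit 51324) (nat_lit 0) (nat_lit 1900) (XT.nd (nat_lit 624) (nat_lit 380) (nat_lit 0) (XT.nd (nat_lit 312) (nat_lit 304) (nat_lit 0) (XT.nd (nat_lit 156) (nat_lit 228) (nat_lit 0) (XT.nd (nat_lit 78) (nat_lit 152) (nat_lit 0) (XT.lf (nat_lit 0) (nat_lit 4508021290881) (nat_lit 76) (nat_lit 1774857204782) (nat_lit 76) (nat_lit 99633273236) (nat_lit 21) (nat_lit 4) (nat_lit 22) (nat_lit 5) (nat_lit 22) (nat_lit 4) (nat_lit 403) (nat_lit 375) (nat_lit 242)) (XT.lf (nat_lit 0) (nat_lit 2928917658103) (nat_lit 152) (nat_lit 2771659502950) (nat_lit 0) (nat_lit 1377784386443) (nat_lit 19) (nat_lit 5) (nat_lit 21) (nat_lit 4) (nat_lit 19) (nat_lit 4) (nat_lit 404) (nat_lit 375) (nat_lit 241))) (XT.nd (nat_lit 78) (nat_lit 152) (nat_lit 0) (XT.lf (nat_lit 0) (nat_lit 3790730403674) (nat_lit 76) (nat_lit 2811535743312) (nat_lit 76) (nat_lit 1260402470164)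 (nat_lit 18) (nat_lit 4) (nat_lit 19) (nat_lit 5) (nat_lit 19) (nat_lit 4) (nat_lit 405) (nat_lit 375) (nat_lit 240)) (XT.lf (nat_lit 0) (nat_lit 2127372517935) (nat_lit 152) (nat_lit 5928661805687) (nat_lit 0) (nat_lit 691138004562) (nat_lit 16) (nat_lit 5) (nat_lit 18) (nat_lit 4) (nat_lit 16) (nat_lit 4) (nat_lit 406) (nat_lit 375) (nat_lit 239)))) (XT.nd (nat_lit 156) (nat_lit 152) (nat_lit 0) (XT.nd (nat_lit 78) (nat_lit 76) (nat_lit 0) (XT.lf (nat_lit 0) (nat_lit 1177444765068) (nat_lit 76) (nat_lit 5001068007176) (nat_lit 76) (nat_lit 3564833492762) (nat_lit 15) (nat_lit 4) (nat_lit 16) (nat_lit 5) (nat_lit 16) (nat_lit 4) (nat_lit 407) (nat_lit 375) (nat_lit 238)) (XT.lf (nat_lit 0) (nat_lit 128050017606) (nat_lit 152) (nat_lit 1169890478698) (nat_lit 76) (nat_lit 9576937925926) (nat_lit 14) (nat_lit 5) (nat_lit 16) (nat_lit 5) (nat_lit 15) (nat_lit 4) (nat_lit 408) (nat_lit 375)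 (nat_lit 237))) (XT.nd (nat_lit 78) (nat_lit 76) (nat_lit 0) (XT.lf (nat_lit 0) (nat_lit 4431526424290) (nat_lit 152) (nat_lit 4614107818951) (nat_lit 0) (nat_lit 3101679650116) (nat_lit 13) (nat_lit 5) (nat_lit 15) (nat_lit 4) (nat_lit 13) (nat_lit 4) (nat_lit 409) (nat_lit 375) (nat_lit 236)) (XT.lf (nat_lit 0) (nat_lit 4176884408757) (nat_lit 76) (nat_lit 5374936654741) (nat_lit 76) (nat_lit 4045089879934) (nat_lit 12) (nat_lit 4) (nat_lit 13) (nat_lit 5) (nat_lit 13) (nat_lit 4) (nat_lit 410) (nat_lit 375) (nat_lit 235))))) (XT.nd (nat_lit 312) (nat_lit 152) (nat_lit 0) (XT.nd (nat_lit 156) (nat_lit 76) (nat_lit 0) (XT.nd (nat_lit 78) (nat_lit 76) (nat_lit 0) (XT.lf (nat_lit 0) (nat_lit 305221487686) (nat_lit 152) (nat_lit 694986080971) (nat_lit 76) (nat_lit 14252375029833) (nat_lit 11) (nat_lit 5) (nat_lit 13) (nat_lit 5) (nat_lit 12) (nat_lit 4) (nat_lit 411) (nat_lit 375) (nat_lit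 234)) (XT.lf (nat_lit 0) (nat_lit 5414880690629) (nat_lit 152) (nat_lit 7522072598951) (nat_lit 0) (nat_lit 4183541083371) (nat_lit 10) (nat_lit 5) (nat_lit 12) (nat_lit 4) (nat_lit 10) (nat_lit 4) (nat_lit 412) (nat_lit 375) (nat_lit 233))) (XT.nd (nat_lit 78) (nat_lit 0) (nat_lit 0) (XT.lf (nat_lit 0) (nat_lit 2297704497517) (nat_lit 76) (nat_lit 9096966714340) (nat_lit 76) (nat_lit 7865627106696) (nat_lit 9) (nat_lit 4) (nat_lit 10) (nat_lit 5) (nat_lit 10) (nat_lit 4) (nat_lit 413) (nat_lit 375) (nat_lit 232)) (XT.lf (nat_lit 0) (nat_lit 14045962016497) (nat_lit 76) (nat_lit 4444465341856) (nat_lit 76) (nat_lit 3213125733877) (nat_lit 9) (nat_lit 4) (nat_lit 10) (nat_lit 5) (nat_lit 10) (nat_lit 4) (nat_lit 414) (nat_lit 375) (nat_lit 231)))) (XT.nd (nat_lit 50154) (nat_lit 0) (nat_lit 4940) (XT.nd (nat_lit 50076) (nat_lit 0) (nat_lit 5396) (XT.lf (nat_lit 0) (nat_lit 2131167256515) (nat_lit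 152) (nat_lit 21378912332722) (nat_lit 0) (nat_lit 991037989597) (nat_lit 7) (nat_lit 5) (nat_lit 9) (nat_lit 4) (nat_lit 7) (nat_lit 4) (nat_lit 415) (nat_lit 375) (nat_lit 230)) (XT.lf (nat_lit 0) (nat_lit 296071516033) (nat_lit 532) (nat_lit 7496062590) (nat_lit 532) (nat_lit 7496062590) (nat_lit 78) (nat_lit 3) (nat_lit 85) (nat_lit 3) (nat_lit 85) (nat_lit 5) (nat_lit 376) (nat_lit 376) (nat_lit 268))) (XT.nd (nat_lit 78) (nat_lit 456) (nat_lit 0) (XT.lf (nat_lit 76) (nat_lit 590815742963) (nat_lit 0) (nat_lit 59947435974) (nat_lit 532) (nat_lit 16886895999) (nat_lit 79) (nat_lit 5) (nat_lit 78) (nat_lit 3) (nat_lit 85) (nat_lit 5) (nat_lit 377) (nat_lit 376) (nat_lit 267)) (XT.nd (nat_lit 78) (nat_lit 0) (nat_lit 76) (XT.lf (nat_lit 0) (nat_lit 27182154277) (nat_lit 532) (nat_lit 134490687241) (nat_lit 608) (nat_lit 556018691852) (nat_lit 72) (nat_lit 5) (nat_lit 79) (nat_lit 5) (nat_lit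 80) (nat_lit 5) (nat_lit 378) (nat_lit 376) (nat_lit 266)) (XT.lf (nat_lit 0) (nat_lit 107395058825) (nat_lit 532) (nat_lit 186214790009) (nat_lit 608) (nat_lit 479151600944) (nat_lit 73) (nat_lit 5) (nat_lit 80) (nat_lit 5) (nat_lit 81) (nat_lit 5) (nat_lit 379) (nat_lit 376) (nat_lit 265))))))) (XT.nd (nat_lit 624) (nat_lit 1444) (nat_lit 0) (XT.nd (nat_lit 312) (nat_lit 836) (nat_lit 0) (XT.nd (nat_lit 156) (nat_lit 456) (nat_lit 0) (XT.nd (nat_lit 78) (nat_lit 456) (nat_lit 0) (XT.lf (nat_lit 0) (nat_lit 232313727037) (nat_lit 532) (nat_lit 229383192299) (nat_lit 76) (nat_lit 371781028088) (nat_lit 74) (nat_lit 5) (nat_lit 81) (nat_lit 5) (nat_lit 75) (nat_lit 5) (nat_lit 380) (nat_lit 376) (nat_lit 264)) (XT.lf (nat_lit 0) (nat_lit 410951412002) (nat_lit 532) (nat_lit 261360193438) (nat_lit 76) (nat_lit 228191816968) (nat_lit 68) (nat_lit 5) (nat_lit 75) (nat_lit 5) (nat_lit 69) (nat_lit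 5) (nat_lit 381) (nat_lit 376) (nat_lit 263))) (XT.nd (nat_lit 78) (nat_lit 228) (nat_lit 0) (XT.lf (nat_lit 0) (nat_lit 653818181493) (nat_lit 304) (nat_lit 279029541479) (nat_lit 76) (nat_lit 41740321135) (nat_lit 65) (nat_lit 5) (nat_lit 69) (nat_lit 5) (nat_lit 66) (nat_lit 5) (nat_lit 382) (nat_lit 376) (nat_lit 262)) (XT.lf (nat_lit 0) (nat_lit 772517881953) (nat_lit 228) (nat_lit 205577469052) (nat_lit 304) (nat_lit 78091577298) (nat_lit 62) (nat_lit 5) (nat_lit 65) (nat_lit 5) (nat_lit 66) (nat_lit 5) (nat_lit 383) (nat_lit 376) (nat_lit 261)))) (XT.nd (nat_lit 156) (nat_lit 380) (nat_lit 0) (XT.nd (nat_lit 78) (nat_lit 228) (nat_lit 0) (XT.lf (nat_lit 0) (nat_lit 236710403373) (nat_lit 228) (nat_lit 274597803179) (nat_lit 76) (nat_lit 634668639708) (nat_lit 59) (nat_lit 5) (nat_lit 62) (nat_lit 5) (nat_lit 60) (nat_lit 5) (nat_lit 384) (nat_lit 376) (nat_lit 260)) (XT.lf (nat_lit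 0) (nat_lit 641801695019) (nat_lit 304) (nat_lit 244286192456) (nat_lit 76) (nat_lit 359169663694) (nat_lit 56) (nat_lit 5) (nat_lit 60) (nat_lit 5) (nat_lit 57) (nat_lit 5) (nat_lit 385) (nat_lit 376) (nat_lit 259))) (XT.nd (nat_lit 78) (nat_lit 228) (nat_lit 0) (XT.lf (nat_lit 0) (nat_lit 1158418877466) (nat_lit 228) (nat_lit 185787401011) (nat_lit 76) (nat_lit 11163107578) (nat_lit 54) (nat_lit 5) (nat_lit 57) (nat_lit 5) (nat_lit 55) (nat_lit 5) (nat_lit 386) (nat_lit 376) (nat_lit 258)) (XT.lf (nat_lit 0) (nat_lit 323502915781) (nat_lit 228) (nat_lit 112122369299) (nat_lit 76) (nat_lit 1040531784586) (nat_lit 51) (nat_lit 5) (nat_lit 54) (nat_lit 5) (nat_lit 52) (nat_lit 5) (nat_lit 387) (nat_lit 376) (nat_lit 257))))) (XT.nd (nat_lit 312) (nat_lit 760) (nat_lit 0) (XT.nd (nat_lit 156) (nat_lit 228) (nat_lit 0) (XT.nd (nat_lit 78) (nat_lit 304) (nat_lit 0) (XT.lf (nat_lit 0) (nat_lit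 971113166317) (nat_lit 228) (nat_lit 8700608720) (nat_lit 76) (nat_lit 629979844540) (nat_lit 49) (nat_lit 5) (nat_lit 52) (nat_lit 5) (nat_lit 50) (nat_lit 5) (nat_lit 388) (nat_lit 376) (nat_lit 256)) (XT.lf (nat_lit 0) (nat_lit 23909023868) (nat_lit 152) (nat_lit 1615355222307) (nat_lit 76) (nat_lit 118771965558) (nat_lit 45) (nat_lit 5) (nat_lit 47) (nat_lit 5) (nat_lit 46) (nat_lit 5) (nat_lit 389) (nat_lit 376) (nat_lit 255))) (XT.nd (nat_lit 78) (nat_lit 76) (nat_lit 0) (XT.lf (nat_lit 0) (nat_lit 311475643703) (nat_lit 152) (nat_lit 520885007704) (nat_lit 228) (nat_lit 1088084153985) (nat_lit 43) (nat_lit 5) (nat_lit 45) (nat_lit 5) (nat_lit 46) (nat_lit 5) (nat_lit 390) (nat_lit 376) (nat_lit 254)) (XT.lf (nat_lit 0) (nat_lit 528512251580) (nat_lit 76) (nat_lit 1312933666928) (nat_lit 152) (nat_lit 259419497961) (nat_lit 42) (nat_lit 5) (nat_lit 43) (nat_lit 5) (nat_lit 44) (nat_lit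 4) (nat_lit 391) (nat_lit 376) (nat_lit 253)))) (XT.nd (nat_lit 156) (nat_lit 456) (nat_lit 0) (XT.nd (nat_lit 78) (nat_lit 76) (nat_lit 0) (XT.lf (nat_lit 0) (nat_lit 741344977435) (nat_lit 228) (nat_lit 1515127700315) (nat_lit 76) (nat_lit 43942536336) (nat_lit 39) (nat_lit 5) (nat_lit 42) (nat_lit 5) (nat_lit 40) (nat_lit 4) (nat_lit 392) (nat_lit 376) (nat_lit 252)) (XT.lf (nat_lit 0) (nat_lit 1074637191330) (nat_lit 76) (nat_lit 911787066637) (nat_lit 152) (nat_lit 534169316836) (nat_lit 38) (nat_lit 5) (nat_lit 39) (nat_lit 5) (nat_lit 40) (nat_lit 4) (nat_lit 393) (nat_lit 376) (nat_lit 251))) (XT.nd (nat_lit 78) (nat_lit 228) (nat_lit 0) (XT.lf (nat_lit 0) (nat_lit 709590245087) (nat_lit 228) (nat_lit 1354723841660) (nat_lit 76) (nat_lit 700455660382) (nat_lit 35) (nat_lit 5) (nat_lit 38) (nat_lit 5) (nat_lit 36) (nat_lit 4) (nat_lit 394) (nat_lit 376) (nat_lit 250)) (XT.nd (nat_lit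 78) (nat_lit 152) (nat_lit 0) (XT.lf (nat_lit 0) (nat_lit 1788173348666) (nat_lit 76) (nat_lit 432425164994) (nat_lit 152) (nat_lit 814878784883) (nat_lit 34) (nat_lit 5) (nat_lit 35) (nat_lit 5) (nat_lit 36) (nat_lit 4) (nat_lit 395) (nat_lit 376) (nat_lit 249)) (XT.lf (nat_lit 0) (nat_lit 712711359908) (nat_lit 152) (nat_lit 1138552563029) (nat_lit 76) (nat_lit 1483804005744) (nat_lit 32) (nat_lit 5) (nat_lit 34) (nat_lit 5) (nat_lit 33) (nat_lit 4) (nat_lit 396) (nat_lit 376) (nat_lit 248))))))))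
noncomputable def xc109 : XT := (XT.nd (nat_lit 1326) (nat_lit 76) (nat_lit 0) (XT.nd (nat_lit 624) (nat_lit 836) (nat_lit 0) (XT.nd (nat_lit 312) (nat_lit 380) (nat_lit 0) (XT.nd (nat_lit 156) (nat_lit 228) (nat_lit 0) (XT.nd (nat_lit 78) (nat_lit 152) (nat_lit 0) (XT.lf (nat_lit 0) (nat_lit 2538408557508) (nat_lit 152) (nat_lit 1018553935093) (nat_lit 0) (nat_lit 111563930236) (nat_lit 31) (nat_lit 5) (nat_lit 33) (nat_lit 4) (nat_lit 31) (nat_lit 4) (nat_lit 397) (nat_lit 376) (nat_lit 247)) (XT.lf (nat_lit 0) (nat_lit 721322842999) (nat_lit 152) (nat_lit 926493118515) (nat_lit 76) (nat_lit 2389886097989) (nat_lit 29) (nat_lit 5) (nat_lit 31) (nat_lit 5) (nat_lit 30) (nat_lit 4) (nat_lit 398) (nat_lit 376) (nat_lit 246))) (XT.nd (nat_lit 78) (nat_lit 152) (nat_lit 0) (XT.lf (nat_lit 0) (nat_lit 2919761632808) (nat_lit 152) (nat_lit 856565040751) (nat_lit 0) (nat_lit 672683266119) (nat_lit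 28) (nat_lit 5) (nat_lit 30) (nat_lit 4) (nat_lit 28) (nat_lit 4) (nat_lit 399) (nat_lit 376) (nat_lit 245)) (XT.lf (nat_lit 0) (nat_lit 675551915567) (nat_lit 152) (nat_lit 841930385586) (nat_lit 76) (nat_lit 3389446972609) (nat_lit 26) (nat_lit 5) (nat_lit 28) (nat_lit 5) (nat_lit 27) (nat_lit 4) (nat_lit 400) (nat_lit 376) (nat_lit 244)))) (XT.nd (nat_lit 156) (nat_lit 152) (nat_lit 0) (XT.nd (nat_lit 78) (nat_lit 152) (nat_lit 0) (XT.lf (nat_lit 0) (nat_lit 3288170543252) (nat_lit 152) (nat_lit 921234130669) (nat_lit 0) (nat_lit 1207542420272) (nat_lit 25) (nat_lit 5) (nat_lit 27) (nat_lit 4) (nat_lit 25) (nat_lit 4) (nat_lit 401) (nat_lit 376) (nat_lit 243)) (XT.lf (nat_lit 0) (nat_lit 464150602071) (nat_lit 152) (nat_lit 1115194872965) (nat_lit 76) (nat_lit 4408413351700) (nat_lit 23) (nat_lit 5) (nat_lit 25) (nat_lit 5) (nat_lit 24) (nat_lit 4) (nat_lit 402) (nat_lit 376) (nat_lit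 242))) (XT.nd (nat_lit 78) (nat_lit 76) (nat_lit 0) (XT.lf (nat_lit 0) (nat_lit 3515074884953) (nat_lit 152) (nat_lit 1520518211974) (nat_lit 0) (nat_lit 1588567359703) (nat_lit 22) (nat_lit 5) (nat_lit 24) (nat_lit 4) (nat_lit 22) (nat_lit 4) (nat_lit 403) (nat_lit 376) (nat_lit 241)) (XT.lf (nat_lit 0) (nat_lit 5184224620149) (nat_lit 76) (nat_lit 2041085717754) (nat_lit 76) (nat_lit 114578190897) (nat_lit 21) (nat_lit 4) (nat_lit 22) (nat_lit 5) (nat_lit 22) (nat_lit 4) (nat_lit 404) (nat_lit 376) (nat_lit 240))))) (XT.nd (nat_lit 312) (nat_lit 380) (nat_lit 0) (XT.nd (nat_lit 156) (nat_lit 228) (nat_lit 0) (XT.nd (nat_lit 78) (nat_lit 76) (nat_lit 0) (XT.lf (nat_lit 0) (nat_lit 3368255371993) (nat_lit 152) (nat_lit 3187408297320) (nat_lit 0) (nat_lit 1584452105091) (nat_lit 19) (nat_lit 5) (nat_lit 21) (nat_lit 4) (nat_lit 19) (nat_lit 4) (nat_lit 405) (nat_lit 376) (nat_lit 239)) (XT.lf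 (nat_lit 0) (nat_lit 4359340084203) (nat_lit 76) (nat_lit 3233266044390) (nat_lit 76) (nat_lit 1449462776363) (nat_lit 18) (nat_lit 4) (nat_lit 19) (nat_lit 5) (nat_lit 19) (nat_lit 4) (nat_lit 406) (nat_lit 376) (nat_lit 238))) (XT.nd (nat_lit 78) (nat_lit 76) (nat_lit 0) (XT.lf (nat_lit 0) (nat_lit 2446478452843) (nat_lit 152) (nat_lit 6817960960670) (nat_lit 0) (nat_lit 794808759320) (nat_lit 16) (nat_lit 5) (nat_lit 18) (nat_lit 4) (nat_lit 16) (nat_lit 4) (nat_lit 407) (nat_lit 376) (nat_lit 237)) (XT.lf (nat_lit 0) (nat_lit 1354061585890) (nat_lit 76) (nat_lit 5751228154496) (nat_lit 76) (nat_lit 4099558460186) (nat_lit 15) (nat_lit 4) (nat_lit 16) (nat_lit 5) (nat_lit 16) (nat_lit 4) (nat_lit 408) (nat_lit 376) (nat_lit 236)))) (XT.nd (nat_lit 156) (nat_lit 228) (nat_lit 0) (XT.nd (nat_lit 78) (nat_lit 76) (nat_lit 0) (XT.lf (nat_lit 0) (nat_lit 147257566912) (nat_lit 152) (nat_lit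 1345373955817) (nat_lit 76) (nat_lit 11013478659101) (nat_lit 14) (nat_lit 5) (nat_lit 16) (nat_lit 5) (nat_lit 15) (nat_lit 4) (nat_lit 409) (nat_lit 376) (nat_lit 235)) (XT.lf (nat_lit 0) (nat_lit 5096255431655) (nat_lit 152) (nat_lit 5306223902767) (nat_lit 0) (nat_lit 3566931639441) (nat_lit 13) (nat_lit 5) (nat_lit 15) (nat_lit 4) (nat_lit 13) (nat_lit 4) (nat_lit 410) (nat_lit 376) (nat_lit 234))) (XT.nd (nat_lit 78) (nat_lit 152) (nat_lit 0) (XT.lf (nat_lit 0) (nat_lit 4803417151562) (nat_lit 76) (nat_lit 6181177111440) (nat_lit 76) (nat_lit 4651853318746) (nat_lit 12) (nat_lit 4) (nat_lit 13) (nat_lit 5) (nat_lit 13) (nat_lit 4) (nat_lit 411) (nat_lit 376) (nat_lit 233)) (XT.nd (nat_lit 78) (nat_lit 76) (nat_lit 0) (XT.lf (nat_lit 0) (nat_lit 351004746507) (nat_lit 152) (nat_lit 799233920376) (nat_lit 76) (nat_lit 16390231318527) (nat_lit 11) (nat_lit 5) (nat_lit 13) (nat_lit 5) (nat_lit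 12) (nat_lit 4) (nat_lit 412) (nat_lit 376) (nat_lit 232)) (XT.lf (nat_lit 0) (nat_lit 6227112827657) (nat_lit 152) (nat_lit 8650383420417) (nat_lit 0) (nat_lit 4811072278145) (nat_lit 10) (nat_lit 5) (nat_lit 12) (nat_lit 4) (nat_lit 10) (nat_lit 4) (nat_lit 413) (nat_lit 376) (nat_lit 231))))))) (XT.nd (nat_lit 50700) (nat_lit 0) (nat_lit 2584) (XT.nd (nat_lit 50388) (nat_lit 0) (nat_lit 4484) (XT.nd (nat_lit 50232) (nat_lit 0) (nat_lit 5244) (XT.nd (nat_lit 78) (nat_lit 0) (nat_lit 0) (XT.lf (nat_lit 0) (nat_lit 2642360234733) (nat_lit 76) (nat_lit 10461511689480) (nat_lit 76) (nat_lit 9045471139676) (nat_lit 9) (nat_lit 4) (nat_lit 10) (nat_lit 5) (nat_lit 10) (nat_lit 4) (nat_lit 414) (nat_lit 376) (nat_lit 230)) (XT.lf (nat_lit 0) (nat_lit 16152856373397) (nat_lit 76) (nat_lit 5111135115299) (nat_lit 76) (nat_lit 3695094565241) (nat_lit 9) (nat_lit 4) (nat_lit 10) (nat_lit 5) (nat_lit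 10) (nat_lit 4) (nat_lit 415) (nat_lit 376) (nat_lit 229))) (XT.nd (nat_lit 78) (nat_lit 0) (nat_lit 0) (XT.lf (nat_lit 0) (nat_lit 340482518207) (nat_lit 532) (nat_lit 8620323547) (nat_lit 532) (nat_lit 8620323547) (nat_lit 78) (nat_lit 3) (nat_lit 85) (nat_lit 3) (nat_lit 85) (nat_lit 5) (nat_lit 377) (nat_lit 377) (nat_lit 266)) (XT.lf (nat_lit 76) (nat_lit 679438376141) (nat_lit 0) (nat_lit 68939764032) (nat_lit 532) (nat_lit 19419407059) (nat_lit 79) (nat_lit 5) (nat_lit 78) (nat_lit 3) (nat_lit 85) (nat_lit 5) (nat_lit 378) (nat_lit 377) (nat_lit 265)))) (XT.nd (nat_lit 156) (nat_lit 304) (nat_lit 0) (XT.nd (nat_lit 78) (nat_lit 0) (nat_lit 76) (XT.lf (nat_lit 0) (nat_lit 31259912302) (nat_lit 532) (nat_lit 154663978210) (nat_lit 608) (nat_lit 639421337918) (nat_lit 72) (nat_lit 5) (nat_lit 79) (nat_lit 5) (nat_lit 80) (nat_lit 5) (nat_lit 379) (nat_lit 377) (nat_lit 264)) (XT.lf (nat_lit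 0) (nat_lit 123504700290) (nat_lit 532) (nat_lit 214146689487) (nat_lit 608) (nat_lit 551024246723) (nat_lit 73) (nat_lit 5) (nat_lit 80) (nat_lit 5) (nat_lit 81) (nat_lit 5) (nat_lit 380) (nat_lit 377) (nat_lit 263))) (XT.nd (nat_lit 78) (nat_lit 456) (nat_lit 0) (XT.lf (nat_lit 0) (nat_lit 267161124699) (nat_lit 532) (nat_lit 263790350679) (nat_lit 76) (nat_lit 427548136955) (nat_lit 74) (nat_lit 5) (nat_lit 81) (nat_lit 5) (nat_lit 75) (nat_lit 5) (nat_lit 381) (nat_lit 377) (nat_lit 262)) (XT.lf (nat_lit 0) (nat_lit 472594425101) (nat_lit 532) (nat_lit 300563904697) (nat_lit 76) (nat_lit 262420581765) (nat_lit 68) (nat_lit 5) (nat_lit 75) (nat_lit 5) (nat_lit 69) (nat_lit 5) (nat_lit 382) (nat_lit 377) (nat_lit 261))))) (XT.nd (nat_lit 312) (nat_lit 988) (nat_lit 0) (XT.nd (nat_lit 156) (nat_lit 456) (nat_lit 0) (XT.nd (nat_lit 78) (nat_lit 228) (nat_lit 0) (XT.lf (nat_lit 0) (nat_lit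 751891178237) (nat_lit 304) (nat_lit 320883660758) (nat_lit 76) (nat_lit 48001390078) (nat_lit 65) (nat_lit 5) (nat_lit 69) (nat_lit 5) (nat_lit 66) (nat_lit 5) (nat_lit 383) (nat_lit 377) (nat_lit 260)) (XT.lf (nat_lit 0) (nat_lit 888395849784) (nat_lit 228) (nat_lit 236414045104) (nat_lit 304) (nat_lit 89805053285) (nat_lit 62) (nat_lit 5) (nat_lit 65) (nat_lit 5) (nat_lit 66) (nat_lit 5) (nat_lit 384) (nat_lit 377) (nat_lit 259))) (XT.nd (nat_lit 78) (nat_lit 228) (nat_lit 0) (XT.lf (nat_lit 0) (nat_lit 272217186972) (nat_lit 228) (nat_lit 315787183717) (nat_lit 76) (nat_lit 729868984601) (nat_lit 59) (nat_lit 5) (nat_lit 62) (nat_lit 5) (nat_lit 60) (nat_lit 5) (nat_lit 385) (nat_lit 377) (nat_lit 258)) (XT.lf (nat_lit 0) (nat_lit 738072151212) (nat_lit 304) (nat_lit 280928841408) (nat_lit 76) (nat_lit 413045175016) (nat_lit 56) (nat_lit 5) (nat_lit 60) (nat_lit 5) (nat_lit 57) (nat_lit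 5) (nat_lit 386) (nat_lit 377) (nat_lit 257)))) (XT.nd (nat_lit 156) (nat_lit 608) (nat_lit 0) (XT.nd (nat_lit 78) (nat_lit 228) (nat_lit 0) (XT.lf (nat_lit 0) (nat_lit 1332181892639) (nat_lit 228) (nat_lit 213655242143) (nat_lit 76) (nat_lit 12837644451) (nat_lit 54) (nat_lit 5) (nat_lit 57) (nat_lit 5) (nat_lit 55) (nat_lit 5) (nat_lit 387) (nat_lit 377) (nat_lit 256)) (XT.lf (nat_lit 0) (nat_lit 372028523020) (nat_lit 228) (nat_lit 128940469462) (nat_lit 76) (nat_lit 1196611624007) (nat_lit 51) (nat_lit 5) (nat_lit 54) (nat_lit 5) (nat_lit 52) (nat_lit 5) (nat_lit 388) (nat_lit 377) (nat_lit 255))) (XT.nd (nat_lit 78) (nat_lit 456) (nat_lit 0) (XT.lf (nat_lit 0) (nat_lit 1116780296529) (nat_lit 228) (nat_lit 10005456033) (nat_lit 76) (nat_lit 724476897498) (nat_lit 49) (nat_lit 5) (nat_lit 52) (nat_lit 5) (nat_lit 50) (nat_lit 5) (nat_lit 389) (nat_lit 377) (nat_lit 254)) (XT.nd (nat_lit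 78) (nat_lit 152) (nat_lit 0) (XT.lf (nat_lit 0) (nat_lit 27495529595) (nat_lit 152) (nat_lit 1857658252759) (nat_lit 76) (nat_lit 136587848941) (nat_lit 45) (nat_lit 5) (nat_lit 47) (nat_lit 5) (nat_lit 46) (nat_lit 5) (nat_lit 390) (nat_lit 377) (nat_lit 253)) (XT.lf (nat_lit 0) (nat_lit 358197221746) (nat_lit 152) (nat_lit 599017665240) (nat_lit 228) (nat_lit 1251296628162) (nat_lit 43) (nat_lit 5) (nat_lit 45) (nat_lit 5) (nat_lit 46) (nat_lit 5) (nat_lit 391) (nat_lit 377) (nat_lit 252))))))))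
noncomputable def xc110 : XT := (XT.nd (nat_lit 1326) (nat_lit 532) (nat_lit 0) (XT.nd (nat_lit 624) (nat_lit 988) (nat_lit 0) (XT.nd (nat_lit 312) (nat_lit 456) (nat_lit 0) (XT.nd (nat_lit 156) (nat_lit 304) (nat_lit 0) (XT.nd (nat_lit 78) (nat_lit 228) (nat_lit 0) (XT.lf (nat_lit 0) (nat_lit 607789309266) (nat_lit 76) (nat_lit 1509873624151) (nat_lit 152) (nat_lit 298332285332) (nat_lit 42) (nat_lit 5) (nat_lit 43) (nat_lit 5) (nat_lit 44) (nat_lit 4) (nat_lit 392) (nat_lit 377) (nat_lit 251)) (XT.lf (nat_lit 0) (nat_lit 852546844628) (nat_lit 228) (nat_lit 1742396640380) (nat_lit 76) (nat_lit 50534001529) (nat_lit 39) (nat_lit 5) (nat_lit 42) (nat_lit 5) (nat_lit 40) (nat_lit 4) (nat_lit 393) (nat_lit 377) (nat_lit 250))) (XT.nd (nat_lit 78) (nat_lit 228) (nat_lit 0) (XT.lf (nat_lit 0) (nat_lit 1235832966814) (nat_lit 76) (nat_lit 1048555039431) (nat_lit 152) (nat_lit 614294595998) (nat_lit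 38) (nat_lit 5) (nat_lit 39) (nat_lit 5) (nat_lit 40) (nat_lit 4) (nat_lit 394) (nat_lit 377) (nat_lit 249)) (XT.lf (nat_lit 0) (nat_lit 816028886093) (nat_lit 228) (nat_lit 1557932226163) (nat_lit 76) (nat_lit 805524088592) (nat_lit 35) (nat_lit 5) (nat_lit 38) (nat_lit 5) (nat_lit 36) (nat_lit 4) (nat_lit 395) (nat_lit 377) (nat_lit 248)))) (XT.nd (nat_lit 156) (nat_lit 228) (nat_lit 0) (XT.nd (nat_lit 78) (nat_lit 152) (nat_lit 0) (XT.lf (nat_lit 0) (nat_lit 2056399526481) (nat_lit 76) (nat_lit 497288859094) (nat_lit 152) (nat_lit 937110500150) (nat_lit 34) (nat_lit 5) (nat_lit 35) (nat_lit 5) (nat_lit 36) (nat_lit 4) (nat_lit 396) (nat_lit 377) (nat_lit 247)) (XT.lf (nat_lit 0) (nat_lit 819618154360) (nat_lit 152) (nat_lit 1309335276873) (nat_lit 76) (nat_lit 1706374679505) (nat_lit 32) (nat_lit 5) (nat_lit 34) (nat_lit 5) (nat_lit 33) (nat_lit 4) (nat_lit 397) (nat_lit 377) (nat_lit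 246))) (XT.nd (nat_lit 78) (nat_lit 152) (nat_lit 0) (XT.lf (nat_lit 0) (nat_lit 2919169925330) (nat_lit 152) (nat_lit 1171336864361) (nat_lit 0) (nat_lit 128298589830) (nat_lit 31) (nat_lit 5) (nat_lit 33) (nat_lit 4) (nat_lit 31) (nat_lit 4) (nat_lit 398) (nat_lit 377) (nat_lit 245)) (XT.lf (nat_lit 0) (nat_lit 829521348206) (nat_lit 152) (nat_lit 1065466934770) (nat_lit 76) (nat_lit 2748369079146) (nat_lit 29) (nat_lit 5) (nat_lit 31) (nat_lit 5) (nat_lit 30) (nat_lit 4) (nat_lit 399) (nat_lit 377) (nat_lit 244))))) (XT.nd (nat_lit 312) (nat_lit 532) (nat_lit 0) (XT.nd (nat_lit 156) (nat_lit 228) (nat_lit 0) (XT.nd (nat_lit 78) (nat_lit 152) (nat_lit 0) (XT.lf (nat_lit 0) (nat_lit 3357725951158) (nat_lit 152) (nat_lit 985049654026) (nat_lit 0) (nat_lit 773585819567) (nat_lit 28) (nat_lit 5) (nat_lit 30) (nat_lit 4) (nat_lit 28) (nat_lit 4) (nat_lit 400) (nat_lit 377) (nat_lit 243)) (XT.lf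 (nat_lit 0) (nat_lit 776884771642) (nat_lit 152) (nat_lit 968219809052) (nat_lit 76) (nat_lit 3897864078630) (nat_lit 26) (nat_lit 5) (nat_lit 28) (nat_lit 5) (nat_lit 27) (nat_lit 4) (nat_lit 401) (nat_lit 377) (nat_lit 242))) (XT.nd (nat_lit 78) (nat_lit 152) (nat_lit 0) (XT.lf (nat_lit 0) (nat_lit 3781396188920) (nat_lit 152) (nat_lit 1059419123699) (nat_lit 0) (nat_lit 1388673840564) (nat_lit 25) (nat_lit 5) (nat_lit 27) (nat_lit 4) (nat_lit 25) (nat_lit 4) (nat_lit 402) (nat_lit 377) (nat_lit 241)) (XT.lf (nat_lit 0) (nat_lit 533773252503) (nat_lit 152) (nat_lit 1282473984884) (nat_lit 76) (nat_lit 5069675408547) (nat_lit 23) (nat_lit 5) (nat_lit 25) (nat_lit 5) (nat_lit 24) (nat_lit 4) (nat_lit 403) (nat_lit 377) (nat_lit 240)))) (XT.nd (nat_lit 156) (nat_lit 380) (nat_lit 0) (XT.nd (nat_lit 78) (nat_lit 76) (nat_lit 0) (XT.lf (nat_lit 0) (nat_lit 4042336173895) (nat_lit 152) (nat_lit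 1748595831726) (nat_lit 0) (nat_lit 1826852515006) (nat_lit 22) (nat_lit 5) (nat_lit 24) (nat_lit 4) (nat_lit 22) (nat_lit 4) (nat_lit 404) (nat_lit 377) (nat_lit 239)) (XT.lf (nat_lit 0) (nat_lit 5961858415732) (nat_lit 76) (nat_lit 2347248524191) (nat_lit 76) (nat_lit 131764864087) (nat_lit 21) (nat_lit 4) (nat_lit 22) (nat_lit 5) (nat_lit 22) (nat_lit 4) (nat_lit 405) (nat_lit 377) (nat_lit 238))) (XT.nd (nat_lit 78) (nat_lit 228) (nat_lit 0) (XT.lf (nat_lit 0) (nat_lit 3873493727073) (nat_lit 152) (nat_lit 3665519442809) (nat_lit 0) (nat_lit 1822119966739) (nat_lit 19) (nat_lit 5) (nat_lit 21) (nat_lit 4) (nat_lit 19) (nat_lit 4) (nat_lit 406) (nat_lit 377) (nat_lit 237)) (XT.nd (nat_lit 78) (nat_lit 152) (nat_lit 0) (XT.lf (nat_lit 0) (nat_lit 5013241187554) (nat_lit 76) (nat_lit 3718255905363) (nat_lit 76) (nat_lit 1666882144178) (nat_lit 18) (nat_lit 4) (nat_lit 19) (nat_lit 5) (nat_lit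 19) (nat_lit 4) (nat_lit 407) (nat_lit 377) (nat_lit 236)) (XT.lf (nat_lit 0) (nat_lit 2813450264034) (nat_lit 152) (nat_lit 7840655017157) (nat_lit 0) (nat_lit 914030114104) (nat_lit 16) (nat_lit 5) (nat_lit 18) (nat_lit 4) (nat_lit 16) (nat_lit 4) (nat_lit 408) (nat_lit 377) (nat_lit 235))))))) (XT.nd (nat_lit 50778) (nat_lit 0) (nat_lit 3572) (XT.nd (nat_lit 312) (nat_lit 228) (nat_lit 0) (XT.nd (nat_lit 156) (nat_lit 152) (nat_lit 0) (XT.nd (nat_lit 78) (nat_lit 76) (nat_lit 0) (XT.lf (nat_lit 0) (nat_lit 1557170903972) (nat_lit 76) (nat_lit 6613912337024) (nat_lit 76) (nat_lit 4714492186498) (nat_lit 15) (nat_lit 4) (nat_lit 16) (nat_lit 5) (nat_lit 16) (nat_lit 4) (nat_lit 409) (nat_lit 377) (nat_lit 234)) (XT.lf (nat_lit 0) (nat_lit 169346237235) (nat_lit 152) (nat_lit 1547179977593) (nat_lit 76) (nat_lit 12665500491453) (nat_lit 14) (nat_lit 5) (nat_lit 16) (nat_lit 5) (nat_lit 15)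 (nat_lit 4) (nat_lit 410) (nat_lit 377) (nat_lit 233))) (XT.nd (nat_lit 78) (nat_lit 76) (nat_lit 0) (XT.lf (nat_lit 0) (nat_lit 5860693779463) (nat_lit 152) (nat_lit 6102157420865) (nat_lit 0) (nat_lit 4101971416969) (nat_lit 13) (nat_lit 5) (nat_lit 15) (nat_lit 4) (nat_lit 13) (nat_lit 4) (nat_lit 411) (nat_lit 377) (nat_lit 232)) (XT.lf (nat_lit 0) (nat_lit 5523929785915) (nat_lit 76) (nat_lit 7108353646766) (nat_lit 76) (nat_lit 5349631283910) (nat_lit 12) (nat_lit 4) (nat_lit 13) (nat_lit 5) (nat_lit 13) (nat_lit 4) (nat_lit 412) (nat_lit 377) (nat_lit 231)))) (XT.nd (nat_lit 156) (nat_lit 76) (nat_lit 0) (XT.nd (nat_lit 78) (nat_lit 76) (nat_lit 0) (XT.lf (nat_lit 0) (nat_lit 403655485453) (nat_lit 152) (nat_lit 919118953429) (nat_lit 76) (nat_lit 18848766042181) (nat_lit 11) (nat_lit 5) (nat_lit 13) (nat_lit 5) (nat_lit 12) (nat_lit 4) (nat_lit 413) (nat_lit 377) (nat_lit 230)) (XT.lf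 (nat_lit 0) (nat_lit 7161179777086) (nat_lit 152) (nat_lit 9947940881777) (nat_lit 0) (nat_lit 5532733144265) (nat_lit 10) (nat_lit 5) (nat_lit 12) (nat_lit 4) (nat_lit 10) (nat_lit 4) (nat_lit 414) (nat_lit 377) (nat_lit 229))) (XT.nd (nat_lit 50232) (nat_lit 0) (nat_lit 5244) (XT.lf (nat_lit 0) (nat_lit 3038714317269) (nat_lit 76) (nat_lit 12030738418698) (nat_lit 76) (nat_lit 10402291785656) (nat_lit 9) (nat_lit 4) (nat_lit 10) (nat_lit 5) (nat_lit 10) (nat_lit 4) (nat_lit 415) (nat_lit 377) (nat_lit 228)) (XT.lf (nat_lit 0) (nat_lit 391555103704) (nat_lit 532) (nat_lit 9913259845) (nat_lit 532) (nat_lit 9913259845) (nat_lit 78) (nat_lit 3) (nat_lit 85) (nat_lit 3) (nat_lit 85) (nat_lit 5) (nat_lit 378) (nat_lit 378) (nat_lit 264))))) (XT.nd (nat_lit 312) (nat_lit 1216) (nat_lit 0) (XT.nd (nat_lit 156) (nat_lit 0) (nat_lit 76) (XT.nd (nat_lit 78) (nat_lit 456) (nat_lit 0) (XT.lf (nat_lit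 76) (nat_lit 781354338033) (nat_lit 0) (nat_lit 79280889439) (nat_lit 532) (nat_lit 22331922398) (nat_lit 79) (nat_lit 5) (nat_lit 78) (nat_lit 3) (nat_lit 85) (nat_lit 5) (nat_lit 379) (nat_lit 378) (nat_lit 263)) (XT.lf (nat_lit 0) (nat_lit 35949227981) (nat_lit 532) (nat_lit 177863338937) (nat_lit 608) (nat_lit 735334419354) (nat_lit 72) (nat_lit 5) (nat_lit 79) (nat_lit 5) (nat_lit 80) (nat_lit 5) (nat_lit 380) (nat_lit 378) (nat_lit 262))) (XT.nd (nat_lit 78) (nat_lit 0) (nat_lit 76) (XT.lf (nat_lit 0) (nat_lit 142030694665) (nat_lit 532) (nat_lit 246268451683) (nat_lit 608) (nat_lit 633677812379) (nat_lit 73) (nat_lit 5) (nat_lit 80) (nat_lit 5) (nat_lit 81) (nat_lit 5) (nat_lit 381) (nat_lit 378) (nat_lit 261)) (XT.lf (nat_lit 0) (nat_lit 307235549439) (nat_lit 532) (nat_lit 303358660963) (nat_lit 76) (nat_lit 491680323210) (nat_lit 74) (nat_lit 5) (nat_lit 81) (nat_lit 5) (nat_lit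 75) (nat_lit 5) (nat_lit 382) (nat_lit 378) (nat_lit 260)))) (XT.nd (nat_lit 156) (nat_lit 684) (nat_lit 0) (XT.nd (nat_lit 78) (nat_lit 228) (nat_lit 0) (XT.lf (nat_lit 0) (nat_lit 543483816692) (nat_lit 532) (nat_lit 345648250132) (nat_lit 76) (nat_lit 301783663172) (nat_lit 68) (nat_lit 5) (nat_lit 75) (nat_lit 5) (nat_lit 69) (nat_lit 5) (nat_lit 383) (nat_lit 378) (nat_lit 259)) (XT.lf (nat_lit 0) (nat_lit 864675058769) (nat_lit 304) (nat_lit 369015973999) (nat_lit 76) (nat_lit 55201614296) (nat_lit 65) (nat_lit 5) (nat_lit 69) (nat_lit 5) (nat_lit 66) (nat_lit 5) (nat_lit 384) (nat_lit 378) (nat_lit 258))) (XT.nd (nat_lit 78) (nat_lit 456) (nat_lit 0) (XT.lf (nat_lit 0) (nat_lit 1021655443159) (nat_lit 228) (nat_lit 271876118369) (nat_lit 304) (nat_lit 103275614220) (nat_lit 62) (nat_lit 5) (nat_lit 65) (nat_lit 5) (nat_lit 66) (nat_lit 5) (nat_lit 385) (nat_lit 378) (nat_lit 257))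 (XT.nd (nat_lit 78) (nat_lit 228) (nat_lit 0) (XT.lf (nat_lit 0) (nat_lit 313049933708) (nat_lit 228) (nat_lit 363155042040) (nat_lit 76) (nat_lit 839349369293) (nat_lit 59) (nat_lit 5) (nat_lit 62) (nat_lit 5) (nat_lit 60) (nat_lit 5) (nat_lit 386) (nat_lit 378) (nat_lit 256)) (XT.lf (nat_lit 0) (nat_lit 848783126589) (nat_lit 304) (nat_lit 323067955962) (nat_lit 76) (nat_lit 475001997973) (nat_lit 56) (nat_lit 5) (nat_lit 60) (nat_lit 5) (nat_lit 57) (nat_lit 5) (nat_lit 387) (nat_lit 378) (nat_lit 255))))))))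
noncomputable def xc111 : XT := (XT.nd (nat_lit 1326) (nat_lit 988) (nat_lit 0) (XT.nd (nat_lit 624) (nat_lit 1140) (nat_lit 0) (XT.nd (nat_lit 312) (nat_lit 532) (nat_lit 0) (XT.nd (nat_lit 156) (nat_lit 456) (nat_lit 0) (XT.nd (nat_lit 78) (nat_lit 228) (nat_lit 0) (XT.lf (nat_lit 0) (nat_lit 1532009315327) (nat_lit 228) (nat_lit 245703325047) (nat_lit 76) (nat_lit 14763344605) (nat_lit 54) (nat_lit 5) (nat_lit 57) (nat_lit 5) (nat_lit 55) (nat_lit 5) (nat_lit 388) (nat_lit 378) (nat_lit 254)) (XT.lf (nat_lit 0) (nat_lit 427832929921) (nat_lit 228) (nat_lit 148281346889) (nat_lit 76) (nat_lit 1376103421848) (nat_lit 51) (nat_lit 5) (nat_lit 54) (nat_lit 5) (nat_lit 52) (nat_lit 5) (nat_lit 389) (nat_lit 378) (nat_lit 253))) (XT.nd (nat_lit 78) (nat_lit 304) (nat_lit 0) (XT.lf (nat_lit 0) (nat_lit 1284297458411) (nat_lit 228) (nat_lit 11506089942) (nat_lit 76) (nat_lit 833148489800) (nat_lit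 49) (nat_lit 5) (nat_lit 52) (nat_lit 5) (nat_lit 50) (nat_lit 5) (nat_lit 390) (nat_lit 378) (nat_lit 252)) (XT.lf (nat_lit 0) (nat_lit 31619974078) (nat_lit 152) (nat_lit 2136306799449) (nat_lit 76) (nat_lit 157076093238) (nat_lit 45) (nat_lit 5) (nat_lit 47) (nat_lit 5) (nat_lit 46) (nat_lit 5) (nat_lit 391) (nat_lit 378) (nat_lit 251)))) (XT.nd (nat_lit 156) (nat_lit 304) (nat_lit 0) (XT.nd (nat_lit 78) (nat_lit 76) (nat_lit 0) (XT.lf (nat_lit 0) (nat_lit 411926980046) (nat_lit 152) (nat_lit 688870244237) (nat_lit 228) (nat_lit 1438991009781) (nat_lit 43) (nat_lit 5) (nat_lit 45) (nat_lit 5) (nat_lit 46) (nat_lit 5) (nat_lit 392) (nat_lit 378) (nat_lit 250)) (XT.lf (nat_lit 0) (nat_lit 698957871970) (nat_lit 76) (nat_lit 1736354597591) (nat_lit 152) (nat_lit 343082024295) (nat_lit 42) (nat_lit 5) (nat_lit 43) (nat_lit 5) (nat_lit 44) (nat_lit 4) (nat_lit 393) (nat_lit 378) (nat_lit 249)))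 (XT.nd (nat_lit 78) (nat_lit 76) (nat_lit 0) (XT.lf (nat_lit 0) (nat_lit 980428962496) (nat_lit 228) (nat_lit 2003755973880) (nat_lit 76) (nat_lit 58114165835) (nat_lit 39) (nat_lit 5) (nat_lit 42) (nat_lit 5) (nat_lit 40) (nat_lit 4) (nat_lit 394) (nat_lit 378) (nat_lit 248)) (XT.lf (nat_lit 0) (nat_lit 1421208060634) (nat_lit 76) (nat_lit 1205838229408) (nat_lit 152) (nat_lit 706438695898) (nat_lit 38) (nat_lit 5) (nat_lit 39) (nat_lit 5) (nat_lit 40) (nat_lit 4) (nat_lit 395) (nat_lit 378) (nat_lit 247))))) (XT.nd (nat_lit 312) (nat_lit 608) (nat_lit 0) (XT.nd (nat_lit 156) (nat_lit 228) (nat_lit 0) (XT.nd (nat_lit 78) (nat_lit 76) (nat_lit 0) (XT.lf (nat_lit 0) (nat_lit 938433297829) (nat_lit 228) (nat_lit 1791621915101) (nat_lit 76) (nat_lit 926352761732) (nat_lit 35) (nat_lit 5) (nat_lit 38) (nat_lit 5) (nat_lit 36) (nat_lit 4) (nat_lit 396) (nat_lit 378) (nat_lit 246)) (XT.lf (nat_lit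 0) (nat_lit 2364859588169) (nat_lit 76) (nat_lit 571882126976) (nat_lit 152) (nat_lit 1077676997694) (nat_lit 34) (nat_lit 5) (nat_lit 35) (nat_lit 5) (nat_lit 36) (nat_lit 4) (nat_lit 397) (nat_lit 378) (nat_lit 245))) (XT.nd (nat_lit 78) (nat_lit 76) (nat_lit 0) (XT.lf (nat_lit 0) (nat_lit 942560945919) (nat_lit 152) (nat_lit 1505735439397) (nat_lit 76) (nat_lit 1962330936554) (nat_lit 32) (nat_lit 5) (nat_lit 34) (nat_lit 5) (nat_lit 33) (nat_lit 4) (nat_lit 398) (nat_lit 378) (nat_lit 244)) (XT.lf (nat_lit 0) (nat_lit 3357045477793) (nat_lit 152) (nat_lit 1347037272278) (nat_lit 0) (nat_lit 147543431279) (nat_lit 31) (nat_lit 5) (nat_lit 33) (nat_lit 4) (nat_lit 31) (nat_lit 4) (nat_lit 399) (nat_lit 378) (nat_lit 243)))) (XT.nd (nat_lit 156) (nat_lit 380) (nat_lit 0) (XT.nd (nat_lit 78) (nat_lit 76) (nat_lit 0) (XT.lf (nat_lit 0) (nat_lit 953949609988) (nat_lit 152) (nat_lit 1225286860414)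 (nat_lit 76) (nat_lit 3160624491270) (nat_lit 29) (nat_lit 5) (nat_lit 31) (nat_lit 5) (nat_lit 30) (nat_lit 4) (nat_lit 400) (nat_lit 378) (nat_lit 242)) (XT.lf (nat_lit 0) (nat_lit 3861384899355) (nat_lit 152) (nat_lit 1132806994123) (nat_lit 0) (nat_lit 889623740541) (nat_lit 28) (nat_lit 5) (nat_lit 30) (nat_lit 4) (nat_lit 28) (nat_lit 4) (nat_lit 401) (nat_lit 378) (nat_lit 241))) (XT.nd (nat_lit 78) (nat_lit 228) (nat_lit 0) (XT.lf (nat_lit 0) (nat_lit 893417539366) (nat_lit 152) (nat_lit 1113452678806) (nat_lit 76) (nat_lit 4482543735890) (nat_lit 26) (nat_lit 5) (nat_lit 28) (nat_lit 5) (nat_lit 27) (nat_lit 4) (nat_lit 402) (nat_lit 378) (nat_lit 240)) (XT.nd (nat_lit 78) (nat_lit 152) (nat_lit 0) (XT.lf (nat_lit 0) (nat_lit 4348605665789) (nat_lit 152) (nat_lit 1218331896549) (nat_lit 0) (nat_lit 1596974959939) (nat_lit 25) (nat_lit 5) (nat_lit 27) (nat_lit 4) (nat_lit 25) (nat_lit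 4) (nat_lit 403) (nat_lit 378) (nat_lit 239)) (XT.lf (nat_lit 0) (nat_lit 613839285838) (nat_lit 152) (nat_lit 1474844992617) (nat_lit 76) (nat_lit 5830126760730) (nat_lit 23) (nat_lit 5) (nat_lit 25) (nat_lit 5) (nat_lit 24) (nat_lit 4) (nat_lit 404) (nat_lit 378) (nat_lit 238))))))) (XT.nd (nat_lit 702) (nat_lit 152) (nat_lit 0) (XT.nd (nat_lit 312) (nat_lit 456) (nat_lit 0) (XT.nd (nat_lit 156) (nat_lit 228) (nat_lit 0) (XT.nd (nat_lit 78) (nat_lit 76) (nat_lit 0) (XT.lf (nat_lit 0) (nat_lit 4648686642474) (nat_lit 152) (nat_lit 2010885121763) (nat_lit 0) (nat_lit 2100880431083) (nat_lit 22) (nat_lit 5) (nat_lit 24) (nat_lit 4) (nat_lit 22) (nat_lit 4) (nat_lit 405) (nat_lit 378) (nat_lit 237)) (XT.lf (nat_lit 0) (nat_lit 6856137255643) (nat_lit 76) (nat_lit 2699335764087) (nat_lit 76) (nat_lit 151529551776) (nat_lit 21) (nat_lit 4) (nat_lit 22) (nat_lit 5) (nat_lit 22) (nat_lit 4) (nat_lit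 406) (nat_lit 378) (nat_lit 236))) (XT.nd (nat_lit 78) (nat_lit 76) (nat_lit 0) (XT.lf (nat_lit 0) (nat_lit 4454517823398) (nat_lit 152) (nat_lit 4215347284289) (nat_lit 0) (nat_lit 2095437996445) (nat_lit 19) (nat_lit 5) (nat_lit 21) (nat_lit 4) (nat_lit 19) (nat_lit 4) (nat_lit 407) (nat_lit 378) (nat_lit 235)) (XT.lf (nat_lit 0) (nat_lit 5765227434285) (nat_lit 76) (nat_lit 4275994256623) (nat_lit 76) (nat_lit 1916914429027) (nat_lit 18) (nat_lit 4) (nat_lit 19) (nat_lit 5) (nat_lit 19) (nat_lit 4) (nat_lit 408) (nat_lit 378) (nat_lit 234)))) (XT.nd (nat_lit 156) (nat_lit 228) (nat_lit 0) (XT.nd (nat_lit 78) (nat_lit 76) (nat_lit 0) (XT.lf (nat_lit 0) (nat_lit 3235467836354) (nat_lit 152) (nat_lit 9016753203482) (nat_lit 0) (nat_lit 1051134662136) (nat_lit 16) (nat_lit 5) (nat_lit 18) (nat_lit 4) (nat_lit 16) (nat_lit 4) (nat_lit 409) (nat_lit 378) (nat_lit 233)) (XT.lf (nat_lit 0) (nat_lit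 1790746600209) (nat_lit 76) (nat_lit 7605999156842) (nat_lit 76) (nat_lit 5421665982174) (nat_lit 15) (nat_lit 4) (nat_lit 16) (nat_lit 5) (nat_lit 16) (nat_lit 4) (nat_lit 410) (nat_lit 378) (nat_lit 232))) (XT.nd (nat_lit 78) (nat_lit 152) (nat_lit 0) (XT.lf (nat_lit 0) (nat_lit 194748199501) (nat_lit 152) (nat_lit 1779256920096) (nat_lit 76) (nat_lit 14565325590492) (nat_lit 14) (nat_lit 5) (nat_lit 16) (nat_lit 5) (nat_lit 15) (nat_lit 4) (nat_lit 411) (nat_lit 378) (nat_lit 231)) (XT.nd (nat_lit 78) (nat_lit 76) (nat_lit 0) (XT.lf (nat_lit 0) (nat_lit 6739797871380) (nat_lit 152) (nat_lit 7017480983093) (nat_lit 0) (nat_lit 4717267153417) (nat_lit 13) (nat_lit 5) (nat_lit 15) (nat_lit 4) (nat_lit 13) (nat_lit 4) (nat_lit 412) (nat_lit 378) (nat_lit 230)) (XT.lf (nat_lit 0) (nat_lit 6352519300395) (nat_lit 76) (nat_lit 8174606670047) (nat_lit 76) (nat_lit 6152075951809) (nat_lit 12) (nat_lit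 4) (nat_lit 13) (nat_lit 5) (nat_lit 13) (nat_lit 4) (nat_lit 413) (nat_lit 378) (nat_lit 229)))))) (XT.nd (nat_lit 50544) (nat_lit 0) (nat_lit 4180) (XT.nd (nat_lit 50388) (nat_lit 0) (nat_lit 5168) (XT.nd (nat_lit 78) (nat_lit 76) (nat_lit 0) (XT.lf (nat_lit 0) (nat_lit 464203828664) (nat_lit 152) (nat_lit 1056986754854) (nat_lit 76) (nat_lit 21676080968073) (nat_lit 11) (nat_lit 5) (nat_lit 13) (nat_lit 5) (nat_lit 12) (nat_lit 4) (nat_lit 414) (nat_lit 378) (nat_lit 228)) (XT.lf (nat_lit 0) (nat_lit 8235356762765) (nat_lit 152) (nat_lit 11440131974949) (nat_lit 0) (nat_lit 6362643134354) (nat_lit 10) (nat_lit 5) (nat_lit 12) (nat_lit 4) (nat_lit 10) (nat_lit 4) (nat_lit 415) (nat_lit 378) (nat_lit 227))) (XT.nd (nat_lit 78) (nat_lit 0) (nat_lit 0) (XT.lf (nat_lit 0) (nat_lit 450288526360) (nat_lit 532) (nat_lit 11400163955) (nat_lit 532) (nat_lit 11400163955) (nat_lit 78) (nat_lit 3)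 (nat_lit 85) (nat_lit 3) (nat_lit 85) (nat_lit 5) (nat_lit 379) (nat_lit 379) (nat_lit 262)) (XT.lf (nat_lit 76) (nat_lit 898557644102) (nat_lit 0) (nat_lit 91173144446) (nat_lit 532) (nat_lit 25681411537) (nat_lit 79) (nat_lit 5) (nat_lit 78) (nat_lit 3) (nat_lit 85) (nat_lit 5) (nat_lit 380) (nat_lit 379) (nat_lit 261)))) (XT.nd (nat_lit 156) (nat_lit 532) (nat_lit 0) (XT.nd (nat_lit 78) (nat_lit 0) (nat_lit 76) (XT.lf (nat_lit 0) (nat_lit 41341860824) (nat_lit 532) (nat_lit 204542661323) (nat_lit 608) (nat_lit 845634492085) (nat_lit 72) (nat_lit 5) (nat_lit 79) (nat_lit 5) (nat_lit 80) (nat_lit 5) (nat_lit 381) (nat_lit 379) (nat_lit 260)) (XT.lf (nat_lit 0) (nat_lit 163335517641) (nat_lit 532) (nat_lit 283208537032) (nat_lit 608) (nat_lit 728729430284) (nat_lit 73) (nat_lit 5) (nat_lit 80) (nat_lit 5) (nat_lit 81) (nat_lit 5) (nat_lit 382) (nat_lit 379) (nat_lit 259))) (XT.nd (nat_lit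 78) (nat_lit 684) (nat_lit 0) (XT.lf (nat_lit 0) (nat_lit 353321075454) (nat_lit 532) (nat_lit 348862276880) (nat_lit 76) (nat_lit 565432345764) (nat_lit 74) (nat_lit 5) (nat_lit 81) (nat_lit 5) (nat_lit 75) (nat_lit 5) (nat_lit 383) (nat_lit 379) (nat_lit 258)) (XT.nd (nat_lit 78) (nat_lit 228) (nat_lit 0) (XT.lf (nat_lit 0) (nat_lit 625006561464) (nat_lit 532) (nat_lit 397495305974) (nat_lit 76) (nat_lit 347051208217) (nat_lit 68) (nat_lit 5) (nat_lit 75) (nat_lit 5) (nat_lit 69) (nat_lit 5) (nat_lit 384) (nat_lit 379) (nat_lit 257)) (XT.lf (nat_lit 0) (nat_lit 994376471684) (nat_lit 304) (nat_lit 424368191745) (nat_lit 76) (nat_lit 63481868317) (nat_lit 65) (nat_lit 5) (nat_lit 69) (nat_lit 5) (nat_lit 66) (nat_lit 5) (nat_lit 385) (nat_lit 379) (nat_lit 256))))))))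
noncomputable def xc112 : XT := (XT.nd (nat_lit 1326) (nat_lit 1216) (nat_lit 0) (XT.nd (nat_lit 624) (nat_lit 1140) (nat_lit 0) (XT.nd (nat_lit 312) (nat_lit 836) (nat_lit 0) (XT.nd (nat_lit 156) (nat_lit 380) (nat_lit 0) (XT.nd (nat_lit 78) (nat_lit 228) (nat_lit 0) (XT.lf (nat_lit 0) (nat_lit 1174903922891) (nat_lit 228) (nat_lit 312657510793) (nat_lit 304) (nat_lit 118766807350) (nat_lit 62) (nat_lit 5) (nat_lit 65) (nat_lit 5) (nat_lit 66) (nat_lit 5) (nat_lit 386) (nat_lit 379) (nat_lit 255)) (XT.lf (nat_lit 0) (nat_lit 360007551318) (nat_lit 228) (nat_lit 417628132573) (nat_lit 76) (nat_lit 965251802667) (nat_lit 59) (nat_lit 5) (nat_lit 62) (nat_lit 5) (nat_lit 60) (nat_lit 5) (nat_lit 387) (nat_lit 379) (nat_lit 254))) (XT.nd (nat_lit 78) (nat_lit 152) (nat_lit 0) (XT.lf (nat_lit 0) (nat_lit 976100711038) (nat_lit 304) (nat_lit 371527989313) (nat_lit 76) (nat_lit 546252332985) (nat_lit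 56) (nat_lit 5) (nat_lit 60) (nat_lit 5) (nat_lit 57) (nat_lit 5) (nat_lit 388) (nat_lit 379) (nat_lit 253)) (XT.lf (nat_lit 0) (nat_lit 1761810817574) (nat_lit 228) (nat_lit 282558669991) (nat_lit 76) (nat_lit 16977886740) (nat_lit 54) (nat_lit 5) (nat_lit 57) (nat_lit 5) (nat_lit 55) (nat_lit 5) (nat_lit 389) (nat_lit 379) (nat_lit 252)))) (XT.nd (nat_lit 156) (nat_lit 456) (nat_lit 0) (XT.nd (nat_lit 78) (nat_lit 152) (nat_lit 0) (XT.lf (nat_lit 0) (nat_lit 492007966534) (nat_lit 228) (nat_lit 170523402993) (nat_lit 76) (nat_lit 1582518976138) (nat_lit 51) (nat_lit 5) (nat_lit 54) (nat_lit 5) (nat_lit 52) (nat_lit 5) (nat_lit 390) (nat_lit 379) (nat_lit 251)) (XT.lf (nat_lit 0) (nat_lit 1476942165946) (nat_lit 228) (nat_lit 13231863927) (nat_lit 76) (nat_lit 958120806882) (nat_lit 49) (nat_lit 5) (nat_lit 52) (nat_lit 5) (nat_lit 50) (nat_lit 5) (nat_lit 391) (nat_lit 379) (nat_lit 250)))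 (XT.nd (nat_lit 78) (nat_lit 152) (nat_lit 0) (XT.lf (nat_lit 0) (nat_lit 36363057180) (nat_lit 152) (nat_lit 2456752674774) (nat_lit 76) (nat_lit 180637557853) (nat_lit 45) (nat_lit 5) (nat_lit 47) (nat_lit 5) (nat_lit 46) (nat_lit 5) (nat_lit 392) (nat_lit 379) (nat_lit 249)) (XT.lf (nat_lit 0) (nat_lit 473716159407) (nat_lit 152) (nat_lit 792200727346) (nat_lit 228) (nat_lit 1654839576102) (nat_lit 43) (nat_lit 5) (nat_lit 45) (nat_lit 5) (nat_lit 46) (nat_lit 5) (nat_lit 393) (nat_lit 379) (nat_lit 248))))) (XT.nd (nat_lit 312) (nat_lit 532) (nat_lit 0) (XT.nd (nat_lit 156) (nat_lit 304) (nat_lit 0) (XT.nd (nat_lit 78) (nat_lit 228) (nat_lit 0) (XT.lf (nat_lit 0) (nat_lit 803801678522) (nat_lit 76) (nat_lit 1996807734162) (nat_lit 152) (nat_lit 394544249424) (nat_lit 42) (nat_lit 5) (nat_lit 43) (nat_lit 5) (nat_lit 44) (nat_lit 4) (nat_lit 394) (nat_lit 379) (nat_lit 247)) (XT.lf (nat_lit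 0) (nat_lit 1127493375811) (nat_lit 228) (nat_lit 2304319247045) (nat_lit 76) (nat_lit 66831339162) (nat_lit 39) (nat_lit 5) (nat_lit 42) (nat_lit 5) (nat_lit 40) (nat_lit 4) (nat_lit 395) (nat_lit 379) (nat_lit 246))) (XT.nd (nat_lit 78) (nat_lit 228) (nat_lit 0) (XT.lf (nat_lit 0) (nat_lit 1634389382242) (nat_lit 76) (nat_lit 1386713913961) (nat_lit 152) (nat_lit 812404432608) (nat_lit 38) (nat_lit 5) (nat_lit 39) (nat_lit 5) (nat_lit 40) (nat_lit 4) (nat_lit 396) (nat_lit 379) (nat_lit 245)) (XT.lf (nat_lit 0) (nat_lit 1079198352104) (nat_lit 228) (nat_lit 2060365092734) (nat_lit 76) (nat_lit 1065305721248) (nat_lit 35) (nat_lit 5) (nat_lit 38) (nat_lit 5) (nat_lit 36) (nat_lit 4) (nat_lit 397) (nat_lit 379) (nat_lit 244)))) (XT.nd (nat_lit 156) (nat_lit 304) (nat_lit 0) (XT.nd (nat_lit 78) (nat_lit 152) (nat_lit 0) (XT.lf (nat_lit 0) (nat_lit 2719588626746) (nat_lit 76) (nat_lit 657664399912)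 (nat_lit 152) (nat_lit 1239328488762) (nat_lit 34) (nat_lit 5) (nat_lit 35) (nat_lit 5) (nat_lit 36) (nat_lit 4) (nat_lit 398) (nat_lit 379) (nat_lit 243)) (XT.lf (nat_lit 0) (nat_lit 1083945139532) (nat_lit 152) (nat_lit 1731595657759) (nat_lit 76) (nat_lit 2256680618718) (nat_lit 32) (nat_lit 5) (nat_lit 34) (nat_lit 5) (nat_lit 33) (nat_lit 4) (nat_lit 399) (nat_lit 379) (nat_lit 242))) (XT.nd (nat_lit 78) (nat_lit 228) (nat_lit 0) (XT.lf (nat_lit 0) (nat_lit 3860602347602) (nat_lit 152) (nat_lit 1549092771069) (nat_lit 0) (nat_lit 169674986027) (nat_lit 31) (nat_lit 5) (nat_lit 33) (nat_lit 4) (nat_lit 31) (nat_lit 4) (nat_lit 400) (nat_lit 379) (nat_lit 241)) (XT.nd (nat_lit 78) (nat_lit 76) (nat_lit 0) (XT.lf (nat_lit 0) (nat_lit 1097042096517) (nat_lit 152) (nat_lit 1409079802843) (nat_lit 76) (nat_lit 3634718202959) (nat_lit 29) (nat_lit 5) (nat_lit 31) (nat_lit 5) (nat_lit 30) (nat_lit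 4) (nat_lit 401) (nat_lit 379) (nat_lit 240)) (XT.lf (nat_lit 0) (nat_lit 4440592676241) (nat_lit 152) (nat_lit 1302727961574) (nat_lit 0) (nat_lit 1023067337946) (nat_lit 28) (nat_lit 5) (nat_lit 30) (nat_lit 4) (nat_lit 28) (nat_lit 4) (nat_lit 402) (nat_lit 379) (nat_lit 239))))))) (XT.nd (nat_lit 624) (nat_lit 304) (nat_lit 0) (XT.nd (nat_lit 312) (nat_lit 456) (nat_lit 0) (XT.nd (nat_lit 156) (nat_lit 228) (nat_lit 0) (XT.nd (nat_lit 78) (nat_lit 76) (nat_lit 0) (XT.lf (nat_lit 0) (nat_lit 1027430209572) (nat_lit 152) (nat_lit 1280470503800) (nat_lit 76) (nat_lit 5154925330653) (nat_lit 26) (nat_lit 5) (nat_lit 28) (nat_lit 5) (nat_lit 27) (nat_lit 4) (nat_lit 403) (nat_lit 379) (nat_lit 238)) (XT.lf (nat_lit 0) (nat_lit 5000896552353) (nat_lit 152) (nat_lit 1401081608664) (nat_lit 0) (nat_lit 1836521236663) (nat_lit 25) (nat_lit 5) (nat_lit 27) (nat_lit 4) (nat_lit 25) (nat_lit 4) (nat_lit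 404) (nat_lit 379) (nat_lit 237))) (XT.nd (nat_lit 78) (nat_lit 76) (nat_lit 0) (XT.lf (nat_lit 0) (nat_lit 705915213088) (nat_lit 152) (nat_lit 1696071673456) (nat_lit 76) (nat_lit 6704645805767) (nat_lit 23) (nat_lit 5) (nat_lit 25) (nat_lit 5) (nat_lit 24) (nat_lit 4) (nat_lit 405) (nat_lit 379) (nat_lit 236)) (XT.lf (nat_lit 0) (nat_lit 5345989670978) (nat_lit 152) (nat_lit 2312517825966) (nat_lit 0) (nat_lit 2416012525103) (nat_lit 22) (nat_lit 5) (nat_lit 24) (nat_lit 4) (nat_lit 22) (nat_lit 4) (nat_lit 406) (nat_lit 379) (nat_lit 235)))) (XT.nd (nat_lit 156) (nat_lit 228) (nat_lit 0) (XT.nd (nat_lit 78) (nat_lit 152) (nat_lit 0) (XT.lf (nat_lit 0) (nat_lit 7884557902628) (nat_lit 76) (nat_lit 3104236099411) (nat_lit 76) (nat_lit 174258952843) (nat_lit 21) (nat_lit 4) (nat_lit 22) (nat_lit 5) (nat_lit 22) (nat_lit 4) (nat_lit 407) (nat_lit 379) (nat_lit 234)) (XT.lf (nat_lit 0) (nat_lit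 5122695525084) (nat_lit 152) (nat_lit 4847649320267) (nat_lit 0) (nat_lit 2409753722147) (nat_lit 19) (nat_lit 5) (nat_lit 21) (nat_lit 4) (nat_lit 19) (nat_lit 4) (nat_lit 408) (nat_lit 379) (nat_lit 233))) (XT.nd (nat_lit 78) (nat_lit 152) (nat_lit 0) (XT.lf (nat_lit 0) (nat_lit 6630011601297) (nat_lit 76) (nat_lit 4917393368996) (nat_lit 76) (nat_lit 2204451565571) (nat_lit 18) (nat_lit 4) (nat_lit 19) (nat_lit 5) (nat_lit 19) (nat_lit 4) (nat_lit 409) (nat_lit 379) (nat_lit 232)) (XT.lf (nat_lit 0) (nat_lit 3720788036544) (nat_lit 152) (nat_lit 10369266133910) (nat_lit 0) (nat_lit 1208804884834) (nat_lit 16) (nat_lit 5) (nat_lit 18) (nat_lit 4) (nat_lit 16) (nat_lit 4) (nat_lit 410) (nat_lit 379) (nat_lit 231))))) (XT.nd (nat_lit 50700) (nat_lit 0) (nat_lit 4560) (XT.nd (nat_lit 156) (nat_lit 152) (nat_lit 0) (XT.nd (nat_lit 78) (nat_lit 76) (nat_lit 0) (XT.lf (nat_lit 0) (nat_lit 2059358636094)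 (nat_lit 76) (nat_lit 8746899007128) (nat_lit 76) (nat_lit 6234915855077) (nat_lit 15) (nat_lit 4) (nat_lit 16) (nat_lit 5) (nat_lit 16) (nat_lit 4) (nat_lit 411) (nat_lit 379) (nat_lit 230)) (XT.lf (nat_lit 0) (nat_lit 223960449601) (nat_lit 152) (nat_lit 2046145417174) (nat_lit 76) (nat_lit 16750124448212) (nat_lit 14) (nat_lit 5) (nat_lit 16) (nat_lit 5) (nat_lit 15) (nat_lit 4) (nat_lit 412) (nat_lit 379) (nat_lit 229))) (XT.nd (nat_lit 78) (nat_lit 76) (nat_lit 0) (XT.lf (nat_lit 0) (nat_lit 7750767570990) (nat_lit 152) (nat_lit 8070103092068) (nat_lit 0) (nat_lit 5424857244504) (nat_lit 13) (nat_lit 5) (nat_lit 15) (nat_lit 4) (nat_lit 13) (nat_lit 4) (nat_lit 413) (nat_lit 379) (nat_lit 228)) (XT.lf (nat_lit 0) (nat_lit 7305397230686) (nat_lit 76) (nat_lit 9400797652607) (nat_lit 76) (nat_lit 7074887325914) (nat_lit 12) (nat_lit 4) (nat_lit 13) (nat_lit 5) (nat_lit 13) (nat_lit 4)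 (nat_lit 414) (nat_lit 379) (nat_lit 227)))) (XT.nd (nat_lit 156) (nat_lit 456) (nat_lit 0) (XT.nd (nat_lit 78) (nat_lit 0) (nat_lit 0) (XT.lf (nat_lit 0) (nat_lit 517831924105) (nat_lit 532) (nat_lit 13110124378) (nat_lit 532) (nat_lit 13110124378) (nat_lit 78) (nat_lit 3) (nat_lit 85) (nat_lit 3) (nat_lit 85) (nat_lit 5) (nat_lit 380) (nat_lit 380) (nat_lit 260)) (XT.lf (nat_lit 76) (nat_lit 1033341408196) (nat_lit 0) (nat_lit 104849208052) (nat_lit 532) (nat_lit 29533397014) (nat_lit 79) (nat_lit 5) (nat_lit 78) (nat_lit 3) (nat_lit 85) (nat_lit 5) (nat_lit 381) (nat_lit 380) (nat_lit 259))) (XT.nd (nat_lit 78) (nat_lit 0) (nat_lit 76) (XT.lf (nat_lit 0) (nat_lit 47543327959) (nat_lit 532) (nat_lit 235223925585) (nat_lit 608) (nat_lit 972479597715) (nat_lit 72) (nat_lit 5) (nat_lit 79) (nat_lit 5) (nat_lit 80) (nat_lit 5) (nat_lit 382) (nat_lit 380) (nat_lit 258)) (XT.nd (nat_lit 78) (nat_lit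 0) (nat_lit 76) (XT.lf (nat_lit 0) (nat_lit 187836010714) (nat_lit 532) (nat_lit 325689679665) (nat_lit 608) (nat_lit 838038804030) (nat_lit 73) (nat_lit 5) (nat_lit 80) (nat_lit 5) (nat_lit 81) (nat_lit 5) (nat_lit 383) (nat_lit 380) (nat_lit 257)) (XT.lf (nat_lit 0) (nat_lit 406319383161) (nat_lit 532) (nat_lit 401191479867) (nat_lit 76) (nat_lit 650247178024) (nat_lit 74) (nat_lit 5) (nat_lit 81) (nat_lit 5) (nat_lit 75) (nat_lit 5) (nat_lit 384) (nat_lit 380) (nat_lit 256))))))))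
noncomputable def xc113 : XT := (XT.nd (nat_lit 1326) (nat_lit 1368) (nat_lit 0) (XT.nd (nat_lit 624) (nat_lit 1368) (nat_lit 0) (XT.nd (nat_lit 312) (nat_lit 760) (nat_lit 0) (XT.nd (nat_lit 156) (nat_lit 456) (nat_lit 0) (XT.nd (nat_lit 78) (nat_lit 228) (nat_lit 0) (XT.lf (nat_lit 0) (nat_lit 718757675944) (nat_lit 532) (nat_lit 457119464495) (nat_lit 76) (nat_lit 399108886101) (nat_lit 68) (nat_lit 5) (nat_lit 75) (nat_lit 5) (nat_lit 69) (nat_lit 5) (nat_lit 385) (nat_lit 380) (nat_lit 255)) (XT.lf (nat_lit 0) (nat_lit 1143533058957) (nat_lit 304) (nat_lit 488023285645) (nat_lit 76) (nat_lit 73004157545) (nat_lit 65) (nat_lit 5) (nat_lit 69) (nat_lit 5) (nat_lit 66) (nat_lit 5) (nat_lit 386) (nat_lit 380) (nat_lit 254))) (XT.nd (nat_lit 78) (nat_lit 228) (nat_lit 0) (XT.lf (nat_lit 0) (nat_lit 1351139634770) (nat_lit 228) (nat_lit 359556118257) (nat_lit 304) (nat_lit 136581715784) (nat_lit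 62) (nat_lit 5) (nat_lit 65) (nat_lit 5) (nat_lit 66) (nat_lit 5) (nat_lit 387) (nat_lit 380) (nat_lit 253)) (XT.lf (nat_lit 0) (nat_lit 414008780465) (nat_lit 228) (nat_lit 480272227111) (nat_lit 76) (nat_lit 1110039594223) (nat_lit 59) (nat_lit 5) (nat_lit 62) (nat_lit 5) (nat_lit 60) (nat_lit 5) (nat_lit 388) (nat_lit 380) (nat_lit 252)))) (XT.nd (nat_lit 156) (nat_lit 380) (nat_lit 0) (XT.nd (nat_lit 78) (nat_lit 152) (nat_lit 0) (XT.lf (nat_lit 0) (nat_lit 1122515904998) (nat_lit 304) (nat_lit 427257066694) (nat_lit 76) (nat_lit 628190209636) (nat_lit 56) (nat_lit 5) (nat_lit 60) (nat_lit 5) (nat_lit 57) (nat_lit 5) (nat_lit 389) (nat_lit 380) (nat_lit 251)) (XT.lf (nat_lit 0) (nat_lit 2026082519565) (nat_lit 228) (nat_lit 324942354185) (nat_lit 76) (nat_lit 19524600332) (nat_lit 54) (nat_lit 5) (nat_lit 57) (nat_lit 5) (nat_lit 55) (nat_lit 5) (nat_lit 390) (nat_lit 380) (nat_lit 250)))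 (XT.nd (nat_lit 78) (nat_lit 152) (nat_lit 0) (XT.lf (nat_lit 0) (nat_lit 565809234955) (nat_lit 228) (nat_lit 196101803098) (nat_lit 76) (nat_lit 1819896853571) (nat_lit 51) (nat_lit 5) (nat_lit 54) (nat_lit 5) (nat_lit 52) (nat_lit 5) (nat_lit 391) (nat_lit 380) (nat_lit 249)) (XT.lf (nat_lit 0) (nat_lit 1698483557963) (nat_lit 228) (nat_lit 15216538030) (nat_lit 76) (nat_lit 1101838960891) (nat_lit 49) (nat_lit 5) (nat_lit 52) (nat_lit 5) (nat_lit 50) (nat_lit 5) (nat_lit 392) (nat_lit 380) (nat_lit 248))))) (XT.nd (nat_lit 312) (nat_lit 608) (nat_lit 0) (XT.nd (nat_lit 156) (nat_lit 304) (nat_lit 0) (XT.nd (nat_lit 78) (nat_lit 152) (nat_lit 0) (XT.lf (nat_lit 0) (nat_lit 41817581534) (nat_lit 152) (nat_lit 2825265466657) (nat_lit 76) (nat_lit 207733229813) (nat_lit 45) (nat_lit 5) (nat_lit 47) (nat_lit 5) (nat_lit 46) (nat_lit 5) (nat_lit 393) (nat_lit 380) (nat_lit 247)) (XT.lf (nat_lit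 0) (nat_lit 544773683397) (nat_lit 152) (nat_lit 911030795973) (nat_lit 228) (nat_lit 1903065448135) (nat_lit 43) (nat_lit 5) (nat_lit 45) (nat_lit 5) (nat_lit 46) (nat_lit 5) (nat_lit 394) (nat_lit 380) (nat_lit 246))) (XT.nd (nat_lit 78) (nat_lit 228) (nat_lit 0) (XT.lf (nat_lit 0) (nat_lit 924372025390) (nat_lit 76) (nat_lit 2296328854160) (nat_lit 152) (nat_lit 453725827469) (nat_lit 42) (nat_lit 5) (nat_lit 43) (nat_lit 5) (nat_lit 44) (nat_lit 4) (nat_lit 395) (nat_lit 380) (nat_lit 245)) (XT.lf (nat_lit 0) (nat_lit 1296617434312) (nat_lit 228) (nat_lit 2649967041160) (nat_lit 76) (nat_lit 76856076673) (nat_lit 39) (nat_lit 5) (nat_lit 42) (nat_lit 5) (nat_lit 40) (nat_lit 4) (nat_lit 396) (nat_lit 380) (nat_lit 244)))) (XT.nd (nat_lit 156) (nat_lit 304) (nat_lit 0) (XT.nd (nat_lit 78) (nat_lit 228) (nat_lit 0) (XT.lf (nat_lit 0) (nat_lit 1879547874653) (nat_lit 76) (nat_lit 1594720963356)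 (nat_lit 152) (nat_lit 934265046328) (nat_lit 38) (nat_lit 5) (nat_lit 39) (nat_lit 5) (nat_lit 40) (nat_lit 4) (nat_lit 397) (nat_lit 380) (nat_lit 243)) (XT.lf (nat_lit 0) (nat_lit 1241078149987) (nat_lit 228) (nat_lit 2369419773747) (nat_lit 76) (nat_lit 1225101613655) (nat_lit 35) (nat_lit 5) (nat_lit 38) (nat_lit 5) (nat_lit 36) (nat_lit 4) (nat_lit 398) (nat_lit 380) (nat_lit 242))) (XT.nd (nat_lit 78) (nat_lit 228) (nat_lit 0) (XT.lf (nat_lit 0) (nat_lit 3127526996638) (nat_lit 76) (nat_lit 756314025032) (nat_lit 152) (nat_lit 1425227717778) (nat_lit 34) (nat_lit 5) (nat_lit 35) (nat_lit 5) (nat_lit 36) (nat_lit 4) (nat_lit 399) (nat_lit 380) (nat_lit 241)) (XT.nd (nat_lit 78) (nat_lit 76) (nat_lit 0) (XT.lf (nat_lit 0) (nat_lit 1246536949573) (nat_lit 152) (nat_lit 1991334932663) (nat_lit 76) (nat_lit 2595182743042) (nat_lit 32) (nat_lit 5) (nat_lit 34) (nat_lit 5) (nat_lit 33) (nat_lit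 4) (nat_lit 400) (nat_lit 380) (nat_lit 240)) (XT.lf (nat_lit 0) (nat_lit 4439692736142) (nat_lit 152) (nat_lit 1781456617127) (nat_lit 0) (nat_lit 195126264220) (nat_lit 31) (nat_lit 5) (nat_lit 33) (nat_lit 4) (nat_lit 31) (nat_lit 4) (nat_lit 401) (nat_lit 380) (nat_lit 239))))))) (XT.nd (nat_lit 624) (nat_lit 456) (nat_lit 0) (XT.nd (nat_lit 312) (nat_lit 456) (nat_lit 0) (XT.nd (nat_lit 156) (nat_lit 228) (nat_lit 0) (XT.nd (nat_lit 78) (nat_lit 76) (nat_lit 0) (XT.lf (nat_lit 0) (nat_lit 1261598445043) (nat_lit 152) (nat_lit 1620441707762) (nat_lit 76) (nat_lit 4179925962135) (nat_lit 29) (nat_lit 5) (nat_lit 31) (nat_lit 5) (nat_lit 30) (nat_lit 4) (nat_lit 402) (nat_lit 380) (nat_lit 238)) (XT.lf (nat_lit 0) (nat_lit 5106681609423) (nat_lit 152) (nat_lit 1498137094057) (nat_lit 0) (nat_lit 1176527466104) (nat_lit 28) (nat_lit 5) (nat_lit 30) (nat_lit 4) (nat_lit 28) (nat_lit 4) (nat_lit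 403) (nat_lit 380) (nat_lit 237))) (XT.nd (nat_lit 78) (nat_lit 76) (nat_lit 0) (XT.lf (nat_lit 0) (nat_lit 1181544770726) (nat_lit 152) (nat_lit 1472541021277) (nat_lit 76) (nat_lit 5928164156246) (nat_lit 26) (nat_lit 5) (nat_lit 28) (nat_lit 5) (nat_lit 27) (nat_lit 4) (nat_lit 404) (nat_lit 380) (nat_lit 236)) (XT.lf (nat_lit 0) (nat_lit 5751031062953) (nat_lit 152) (nat_lit 1611243795244) (nat_lit 0) (nat_lit 2111999446914) (nat_lit 25) (nat_lit 5) (nat_lit 27) (nat_lit 4) (nat_lit 25) (nat_lit 4) (nat_lit 405) (nat_lit 380) (nat_lit 235)))) (XT.nd (nat_lit 156) (nat_lit 228) (nat_lit 0) (XT.nd (nat_lit 78) (nat_lit 76) (nat_lit 0) (XT.lf (nat_lit 0) (nat_lit 811802521043) (nat_lit 152) (nat_lit 1950482373017) (nat_lit 76) (nat_lit 7710342700018) (nat_lit 23) (nat_lit 5) (nat_lit 25) (nat_lit 5) (nat_lit 24) (nat_lit 4) (nat_lit 406) (nat_lit 380) (nat_lit 234)) (XT.lf (nat_lit 0) (nat_lit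 6147888145921) (nat_lit 152) (nat_lit 2659395451421) (nat_lit 0) (nat_lit 2778414426068) (nat_lit 22) (nat_lit 5) (nat_lit 24) (nat_lit 4) (nat_lit 22) (nat_lit 4) (nat_lit 407) (nat_lit 380) (nat_lit 233))) (XT.nd (nat_lit 78) (nat_lit 152) (nat_lit 0) (XT.lf (nat_lit 0) (nat_lit 9067241632363) (nat_lit 76) (nat_lit 3569871492177) (nat_lit 76) (nat_lit 200397771799) (nat_lit 21) (nat_lit 4) (nat_lit 22) (nat_lit 5) (nat_lit 22) (nat_lit 4) (nat_lit 408) (nat_lit 380) (nat_lit 232)) (XT.lf (nat_lit 0) (nat_lit 5891099875153) (nat_lit 152) (nat_lit 5574796675459) (nat_lit 0) (nat_lit 2771216800306) (nat_lit 19) (nat_lit 5) (nat_lit 21) (nat_lit 4) (nat_lit 19) (nat_lit 4) (nat_lit 409) (nat_lit 380) (nat_lit 231))))) (XT.nd (nat_lit 312) (nat_lit 76) (nat_lit 0) (XT.nd (nat_lit 156) (nat_lit 152) (nat_lit 0) (XT.nd (nat_lit 78) (nat_lit 152) (nat_lit 0) (XT.lf (nat_lit 0) (nat_lit 7624513380713)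 (nat_lit 76) (nat_lit 5655002354594) (nat_lit 76) (nat_lit 2535119279379) (nat_lit 18) (nat_lit 4) (nat_lit 19) (nat_lit 5) (nat_lit 19) (nat_lit 4) (nat_lit 410) (nat_lit 380) (nat_lit 230)) (XT.lf (nat_lit 0) (nat_lit 4278906260731) (nat_lit 152) (nat_lit 11924656016119) (nat_lit 0) (nat_lit 1390125635235) (nat_lit 16) (nat_lit 5) (nat_lit 18) (nat_lit 4) (nat_lit 16) (nat_lit 4) (nat_lit 411) (nat_lit 380) (nat_lit 229))) (XT.nd (nat_lit 78) (nat_lit 76) (nat_lit 0) (XT.lf (nat_lit 0) (nat_lit 2368262466180) (nat_lit 76) (nat_lit 10058933840624) (nat_lit 76) (nat_lit 7170153214872) (nat_lit 15) (nat_lit 4) (nat_lit 16) (nat_lit 5) (nat_lit 16) (nat_lit 4) (nat_lit 412) (nat_lit 380) (nat_lit 228)) (XT.lf (nat_lit 0) (nat_lit 257554532297) (nat_lit 152) (nat_lit 2353067198798) (nat_lit 76) (nat_lit 19262643129922) (nat_lit 14) (nat_lit 5) (nat_lit 16) (nat_lit 5) (nat_lit 15) (nat_lit 4)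 (nat_lit 413) (nat_lit 380) (nat_lit 227)))) (XT.nd (nat_lit 50622) (nat_lit 0) (nat_lit 4484) (XT.nd (nat_lit 50544) (nat_lit 0) (nat_lit 4940) (XT.lf (nat_lit 0) (nat_lit 8913382720931) (nat_lit 152) (nat_lit 9280618526776) (nat_lit 0) (nat_lit 6238585844846) (nat_lit 13) (nat_lit 5) (nat_lit 15) (nat_lit 4) (nat_lit 13) (nat_lit 4) (nat_lit 414) (nat_lit 380) (nat_lit 226)) (XT.lf (nat_lit 0) (nat_lit 595506802544) (nat_lit 532) (nat_lit 15076594512) (nat_lit 532) (nat_lit 15076594512) (nat_lit 78) (nat_lit 3) (nat_lit 85) (nat_lit 3) (nat_lit 85) (nat_lit 5) (nat_lit 381) (nat_lit 381) (nat_lit 258))) (XT.nd (nat_lit 78) (nat_lit 456) (nat_lit 0) (XT.lf (nat_lit 76) (nat_lit 1188342708256) (nat_lit 0) (nat_lit 120576658779) (nat_lit 532) (nat_lit 33963235485) (nat_lit 79) (nat_lit 5) (nat_lit 78) (nat_lit 3) (nat_lit 85) (nat_lit 5) (nat_lit 382) (nat_lit 381) (nat_lit 257)) (XT.nd (nat_lit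 78) (nat_lit 0) (nat_lit 76) (XT.lf (nat_lit 0) (nat_lit 54674969317) (nat_lit 532) (nat_lit 270507412391) (nat_lit 608) (nat_lit 1118351485817) (nat_lit 72) (nat_lit 5) (nat_lit 79) (nat_lit 5) (nat_lit 80) (nat_lit 5) (nat_lit 383) (nat_lit 381) (nat_lit 256)) (XT.lf (nat_lit 0) (nat_lit 216011537407) (nat_lit 532) (nat_lit 374543027325) (nat_lit 608) (nat_lit 963744593788) (nat_lit 73) (nat_lit 5) (nat_lit 80) (nat_lit 5) (nat_lit 81) (nat_lit 5) (nat_lit 384) (nat_lit 381) (nat_lit 255))))))))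
noncomputable def xc114 : XT := (XT.nd (nat_lit 1326) (nat_lit 1368) (nat_lit 0) (XT.nd (nat_lit 624) (nat_lit 1444) (nat_lit 0) (XT.nd (nat_lit 312) (nat_lit 836) (nat_lit 0) (XT.nd (nat_lit 156) (nat_lit 456) (nat_lit 0) (XT.nd (nat_lit 78) (nat_lit 456) (nat_lit 0) (XT.lf (nat_lit 0) (nat_lit 467267401327) (nat_lit 532) (nat_lit 461370097086) (nat_lit 76) (nat_lit 747784239904) (nat_lit 74) (nat_lit 5) (nat_lit 81) (nat_lit 5) (nat_lit 75) (nat_lit 5) (nat_lit 385) (nat_lit 381) (nat_lit 254)) (XT.lf (nat_lit 0) (nat_lit 826571425831) (nat_lit 532) (nat_lit 525687280294) (nat_lit 76) (nat_lit 458975216483) (nat_lit 68) (nat_lit 5) (nat_lit 75) (nat_lit 5) (nat_lit 69) (nat_lit 5) (nat_lit 386) (nat_lit 381) (nat_lit 253))) (XT.nd (nat_lit 78) (nat_lit 228) (nat_lit 0) (XT.lf (nat_lit 0) (nat_lit 1315063105907) (nat_lit 304) (nat_lit 561226676517) (nat_lit 76) (nat_lit 83954787967) (nat_lit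 65) (nat_lit 5) (nat_lit 69) (nat_lit 5) (nat_lit 66) (nat_lit 5) (nat_lit 387) (nat_lit 381) (nat_lit 252)) (XT.lf (nat_lit 0) (nat_lit 1553810673329) (nat_lit 228) (nat_lit 413489521512) (nat_lit 304) (nat_lit 157068887959) (nat_lit 62) (nat_lit 5) (nat_lit 65) (nat_lit 5) (nat_lit 66) (nat_lit 5) (nat_lit 388) (nat_lit 381) (nat_lit 251)))) (XT.nd (nat_lit 156) (nat_lit 380) (nat_lit 0) (XT.nd (nat_lit 78) (nat_lit 228) (nat_lit 0) (XT.lf (nat_lit 0) (nat_lit 476110170464) (nat_lit 228) (nat_lit 552312966396) (nat_lit 76) (nat_lit 1276545549354) (nat_lit 59) (nat_lit 5) (nat_lit 62) (nat_lit 5) (nat_lit 60) (nat_lit 5) (nat_lit 389) (nat_lit 381) (nat_lit 250)) (XT.lf (nat_lit 0) (nat_lit 1290893356763) (nat_lit 304) (nat_lit 491345535193) (nat_lit 76) (nat_lit 722418761273) (nat_lit 56) (nat_lit 5) (nat_lit 60) (nat_lit 5) (nat_lit 57) (nat_lit 5) (nat_lit 390) (nat_lit 381) (nat_lit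 249))) (XT.nd (nat_lit 78) (nat_lit 228) (nat_lit 0) (XT.lf (nat_lit 0) (nat_lit 2329994957503) (nat_lit 228) (nat_lit 373683619369) (nat_lit 76) (nat_lit 22453313505) (nat_lit 54) (nat_lit 5) (nat_lit 57) (nat_lit 5) (nat_lit 55) (nat_lit 5) (nat_lit 391) (nat_lit 381) (nat_lit 248)) (XT.lf (nat_lit 0) (nat_lit 650680675729) (nat_lit 228) (nat_lit 225516990127) (nat_lit 76) (nat_lit 2092881405056) (nat_lit 51) (nat_lit 5) (nat_lit 54) (nat_lit 5) (nat_lit 52) (nat_lit 5) (nat_lit 392) (nat_lit 381) (nat_lit 247))))) (XT.nd (nat_lit 312) (nat_lit 760) (nat_lit 0) (XT.nd (nat_lit 156) (nat_lit 228) (nat_lit 0) (XT.nd (nat_lit 78) (nat_lit 304) (nat_lit 0) (XT.lf (nat_lit 0) (nat_lit 1953256142414) (nat_lit 228) (nat_lit 17498938972) (nat_lit 76) (nat_lit 1267114829960) (nat_lit 49) (nat_lit 5) (nat_lit 52) (nat_lit 5) (nat_lit 50) (nat_lit 5) (nat_lit 393) (nat_lit 381) (nat_lit 246)) (XT.lf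 (nat_lit 0) (nat_lit 48090268501) (nat_lit 152) (nat_lit 3249055203984) (nat_lit 76) (nat_lit 238893243232) (nat_lit 45) (nat_lit 5) (nat_lit 47) (nat_lit 5) (nat_lit 46) (nat_lit 5) (nat_lit 394) (nat_lit 381) (nat_lit 245))) (XT.nd (nat_lit 78) (nat_lit 76) (nat_lit 0) (XT.lf (nat_lit 0) (nat_lit 626489811580) (nat_lit 152) (nat_lit 1047685384765) (nat_lit 228) (nat_lit 2188525216673) (nat_lit 43) (nat_lit 5) (nat_lit 45) (nat_lit 5) (nat_lit 46) (nat_lit 5) (nat_lit 395) (nat_lit 381) (nat_lit 244)) (XT.lf (nat_lit 0) (nat_lit 1063027901101) (nat_lit 76) (nat_lit 2640778151942) (nat_lit 152) (nat_lit 521784656698) (nat_lit 42) (nat_lit 5) (nat_lit 43) (nat_lit 5) (nat_lit 44) (nat_lit 4) (nat_lit 396) (nat_lit 381) (nat_lit 243)))) (XT.nd (nat_lit 156) (nat_lit 456) (nat_lit 0) (XT.nd (nat_lit 78) (nat_lit 76) (nat_lit 0) (XT.lf (nat_lit 0) (nat_lit 1491110088875) (nat_lit 228) (nat_lit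 3047462027056) (nat_lit 76) (nat_lit 88384515877) (nat_lit 39) (nat_lit 5) (nat_lit 42) (nat_lit 5) (nat_lit 40) (nat_lit 4) (nat_lit 397) (nat_lit 381) (nat_lit 242)) (XT.lf (nat_lit 0) (nat_lit 2161480120181) (nat_lit 76) (nat_lit 1833929079353) (nat_lit 152) (nat_lit 1074404764584) (nat_lit 38) (nat_lit 5) (nat_lit 39) (nat_lit 5) (nat_lit 40) (nat_lit 4) (nat_lit 398) (nat_lit 381) (nat_lit 241))) (XT.nd (nat_lit 78) (nat_lit 228) (nat_lit 0) (XT.lf (nat_lit 0) (nat_lit 1427239906562) (nat_lit 228) (nat_lit 2724832677127) (nat_lit 76) (nat_lit 1408866881579) (nat_lit 35) (nat_lit 5) (nat_lit 38) (nat_lit 5) (nat_lit 36) (nat_lit 4) (nat_lit 399) (nat_lit 381) (nat_lit 240)) (XT.nd (nat_lit 78) (nat_lit 152) (nat_lit 0) (XT.lf (nat_lit 0) (nat_lit 3596656103510) (nat_lit 76) (nat_lit 869761102422) (nat_lit 152) (nat_lit 1639011841948) (nat_lit 34) (nat_lit 5) (nat_lit 35) (nat_lit 5) (nat_lit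 36) (nat_lit 4) (nat_lit 400) (nat_lit 381) (nat_lit 239)) (XT.lf (nat_lit 0) (nat_lit 1433517521582) (nat_lit 152) (nat_lit 2290035116789) (nat_lit 76) (nat_lit 2984460178330) (nat_lit 32) (nat_lit 5) (nat_lit 34) (nat_lit 5) (nat_lit 33) (nat_lit 4) (nat_lit 401) (nat_lit 381) (nat_lit 238))))))) (XT.nd (nat_lit 624) (nat_lit 532) (nat_lit 0) (XT.nd (nat_lit 312) (nat_lit 380) (nat_lit 0) (XT.nd (nat_lit 156) (nat_lit 228) (nat_lit 0) (XT.nd (nat_lit 78) (nat_lit 152) (nat_lit 0) (XT.lf (nat_lit 0) (nat_lit 5105646674087) (nat_lit 152) (nat_lit 2048675057065) (nat_lit 0) (nat_lit 224395226755) (nat_lit 31) (nat_lit 5) (nat_lit 33) (nat_lit 4) (nat_lit 31) (nat_lit 4) (nat_lit 402) (nat_lit 381) (nat_lit 237)) (XT.lf (nat_lit 0) (nat_lit 1450838237545) (nat_lit 152) (nat_lit 1863507914394) (nat_lit 76) (nat_lit 4806914878180) (nat_lit 29) (nat_lit 5) (nat_lit 31) (nat_lit 5) (nat_lit 30)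 (nat_lit 4) (nat_lit 403) (nat_lit 381) (nat_lit 236))) (XT.nd (nat_lit 78) (nat_lit 152) (nat_lit 0) (XT.lf (nat_lit 0) (nat_lit 5872683874840) (nat_lit 152) (nat_lit 1722857611471) (nat_lit 0) (nat_lit 1353006606788) (nat_lit 28) (nat_lit 5) (nat_lit 30) (nat_lit 4) (nat_lit 28) (nat_lit 4) (nat_lit 404) (nat_lit 381) (nat_lit 235)) (XT.lf (nat_lit 0) (nat_lit 1358776508807) (nat_lit 152) (nat_lit 1693422130543) (nat_lit 76) (nat_lit 6817388799340) (nat_lit 26) (nat_lit 5) (nat_lit 28) (nat_lit 5) (nat_lit 27) (nat_lit 4) (nat_lit 405) (nat_lit 381) (nat_lit 234)))) (XT.nd (nat_lit 156) (nat_lit 152) (nat_lit 0) (XT.nd (nat_lit 78) (nat_lit 152) (nat_lit 0) (XT.lf (nat_lit 0) (nat_lit 6613685743377) (nat_lit 152) (nat_lit 1852930323155) (nat_lit 0) (nat_lit 2428799382667) (nat_lit 25) (nat_lit 5) (nat_lit 27) (nat_lit 4) (nat_lit 25) (nat_lit 4) (nat_lit 406) (nat_lit 381) (nat_lit 233))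 (XT.lf (nat_lit 0) (nat_lit 933572918853) (nat_lit 152) (nat_lit 2243054690060) (nat_lit 76) (nat_lit 8866894122703) (nat_lit 23) (nat_lit 5) (nat_lit 25) (nat_lit 5) (nat_lit 24) (nat_lit 4) (nat_lit 407) (nat_lit 381) (nat_lit 232))) (XT.nd (nat_lit 78) (nat_lit 76) (nat_lit 0) (XT.lf (nat_lit 0) (nat_lit 7070071386180) (nat_lit 152) (nat_lit 3058304732506) (nat_lit 0) (nat_lit 3195176606764) (nat_lit 22) (nat_lit 5) (nat_lit 24) (nat_lit 4) (nat_lit 22) (nat_lit 4) (nat_lit 408) (nat_lit 381) (nat_lit 231)) (XT.lf (nat_lit 0) (nat_lit 10427327910744) (nat_lit 76) (nat_lit 4105352199258) (nat_lit 76) (nat_lit 230457419444) (nat_lit 21) (nat_lit 4) (nat_lit 22) (nat_lit 5) (nat_lit 22) (nat_lit 4) (nat_lit 409) (nat_lit 381) (nat_lit 230))))) (XT.nd (nat_lit 312) (nat_lit 76) (nat_lit 0) (XT.nd (nat_lit 156) (nat_lit 228) (nat_lit 0) (XT.nd (nat_lit 78) (nat_lit 76) (nat_lit 0) (XT.lf (nat_lit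 0) (nat_lit 6774764872536) (nat_lit 152) (nat_lit 6411016144379) (nat_lit 0) (nat_lit 3186899335351) (nat_lit 19) (nat_lit 5) (nat_lit 21) (nat_lit 4) (nat_lit 19) (nat_lit 4) (nat_lit 410) (nat_lit 381) (nat_lit 229)) (XT.lf (nat_lit 0) (nat_lit 8768190417476) (nat_lit 76) (nat_lit 6503252692849) (nat_lit 76) (nat_lit 2915387155386) (nat_lit 18) (nat_lit 4) (nat_lit 19) (nat_lit 5) (nat_lit 19) (nat_lit 4) (nat_lit 411) (nat_lit 381) (nat_lit 228))) (XT.nd (nat_lit 78) (nat_lit 76) (nat_lit 0) (XT.lf (nat_lit 0) (nat_lit 4920742213984) (nat_lit 152) (nat_lit 13713354389896) (nat_lit 0) (nat_lit 1598644493887) (nat_lit 16) (nat_lit 5) (nat_lit 18) (nat_lit 4) (nat_lit 16) (nat_lit 4) (nat_lit 412) (nat_lit 381) (nat_lit 227)) (XT.lf (nat_lit 0) (nat_lit 2723501862324) (nat_lit 76) (nat_lit 11567773903430) (nat_lit 76) (nat_lit 8245676183139) (nat_lit 15) (nat_lit 4) (nat_lit 16) (nat_lit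 5) (nat_lit 16) (nat_lit 4) (nat_lit 413) (nat_lit 381) (nat_lit 226)))) (XT.nd (nat_lit 50700) (nat_lit 0) (nat_lit 4408) (XT.nd (nat_lit 50622) (nat_lit 0) (nat_lit 4864) (XT.lf (nat_lit 0) (nat_lit 296187723676) (nat_lit 152) (nat_lit 2706027255213) (nat_lit 76) (nat_lit 22152039610357) (nat_lit 14) (nat_lit 5) (nat_lit 16) (nat_lit 5) (nat_lit 15) (nat_lit 4) (nat_lit 414) (nat_lit 381) (nat_lit 225)) (XT.lf (nat_lit 0) (nat_lit 684832890844) (nat_lit 532) (nat_lit 17338046999) (nat_lit 532) (nat_lit 17338046999) (nat_lit 78) (nat_lit 3) (nat_lit 85) (nat_lit 3) (nat_lit 85) (nat_lit 5) (nat_lit 382) (nat_lit 382) (nat_lit 256))) (XT.nd (nat_lit 78) (nat_lit 456) (nat_lit 0) (XT.lf (nat_lit 76) (nat_lit 1366594181663) (nat_lit 0) (nat_lit 138663210163) (nat_lit 532) (nat_lit 39057591446) (nat_lit 79) (nat_lit 5) (nat_lit 78) (nat_lit 3) (nat_lit 85) (nat_lit 5) (nat_lit 383) (nat_lit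 382) (nat_lit 255)) (XT.nd (nat_lit 78) (nat_lit 0) (nat_lit 76) (XT.lf (nat_lit 0) (nat_lit 62876322211) (nat_lit 532) (nat_lit 311083447100) (nat_lit 608) (nat_lit 1286104169706) (nat_lit 72) (nat_lit 5) (nat_lit 79) (nat_lit 5) (nat_lit 80) (nat_lit 5) (nat_lit 384) (nat_lit 382) (nat_lit 254)) (XT.lf (nat_lit 0) (nat_lit 248413362601) (nat_lit 532) (nat_lit 430724402566) (nat_lit 608) (nat_lit 1108306259531) (nat_lit 73) (nat_lit 5) (nat_lit 80) (nat_lit 5) (nat_lit 81) (nat_lit 5) (nat_lit 385) (nat_lit 382) (nat_lit 253))))))))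
noncomputable def xc115 : XT := (XT.nd (nat_lit 1326) (nat_lit 1292) (nat_lit 0) (XT.nd (nat_lit 624) (nat_lit 1444) (nat_lit 0) (XT.nd (nat_lit 312) (nat_lit 836) (nat_lit 0) (XT.nd (nat_lit 156) (nat_lit 456) (nat_lit 0) (XT.nd (nat_lit 78) (nat_lit 456) (nat_lit 0) (XT.lf (nat_lit 0) (nat_lit 537357595224) (nat_lit 532) (nat_lit 530575532435) (nat_lit 76) (nat_lit 859951864681) (nat_lit 74) (nat_lit 5) (nat_lit 81) (nat_lit 5) (nat_lit 75) (nat_lit 5) (nat_lit 386) (nat_lit 382) (nat_lit 252)) (XT.lf (nat_lit 0) (nat_lit 950557214182) (nat_lit 532) (nat_lit 604540293793) (nat_lit 76) (nat_lit 527821497040) (nat_lit 68) (nat_lit 5) (nat_lit 75) (nat_lit 5) (nat_lit 69) (nat_lit 5) (nat_lit 387) (nat_lit 382) (nat_lit 251))) (XT.nd (nat_lit 78) (nat_lit 228) (nat_lit 0) (XT.lf (nat_lit 0) (nat_lit 1512322638415) (nat_lit 304) (nat_lit 645410600888) (nat_lit 76) (nat_lit 96548011297) (nat_lit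 65) (nat_lit 5) (nat_lit 69) (nat_lit 5) (nat_lit 66) (nat_lit 5) (nat_lit 388) (nat_lit 382) (nat_lit 250)) (XT.lf (nat_lit 0) (nat_lit 1786882344909) (nat_lit 228) (nat_lit 475512938788) (nat_lit 304) (nat_lit 180629156734) (nat_lit 62) (nat_lit 5) (nat_lit 65) (nat_lit 5) (nat_lit 66) (nat_lit 5) (nat_lit 389) (nat_lit 382) (nat_lit 249)))) (XT.nd (nat_lit 156) (nat_lit 380) (nat_lit 0) (XT.nd (nat_lit 78) (nat_lit 228) (nat_lit 0) (XT.lf (nat_lit 0) (nat_lit 547526751179) (nat_lit 228) (nat_lit 635159839687) (nat_lit 76) (nat_lit 1468027393854) (nat_lit 59) (nat_lit 5) (nat_lit 62) (nat_lit 5) (nat_lit 60) (nat_lit 5) (nat_lit 390) (nat_lit 382) (nat_lit 248)) (XT.lf (nat_lit 0) (nat_lit 1484527410194) (nat_lit 304) (nat_lit 565047296281) (nat_lit 76) (nat_lit 830781590732) (nat_lit 56) (nat_lit 5) (nat_lit 60) (nat_lit 5) (nat_lit 57) (nat_lit 5) (nat_lit 391) (nat_lit 382) (nat_lit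 247))) (XT.nd (nat_lit 78) (nat_lit 228) (nat_lit 0) (XT.lf (nat_lit 0) (nat_lit 2679494246501) (nat_lit 228) (nat_lit 429736095777) (nat_lit 76) (nat_lit 25821328016) (nat_lit 54) (nat_lit 5) (nat_lit 57) (nat_lit 5) (nat_lit 55) (nat_lit 5) (nat_lit 392) (nat_lit 382) (nat_lit 246)) (XT.lf (nat_lit 0) (nat_lit 748282819079) (nat_lit 228) (nat_lit 259344475557) (nat_lit 76) (nat_lit 2406813633545) (nat_lit 51) (nat_lit 5) (nat_lit 54) (nat_lit 5) (nat_lit 52) (nat_lit 5) (nat_lit 393) (nat_lit 382) (nat_lit 245))))) (XT.nd (nat_lit 312) (nat_lit 760) (nat_lit 0) (XT.nd (nat_lit 156) (nat_lit 228) (nat_lit 0) (XT.nd (nat_lit 78) (nat_lit 304) (nat_lit 0) (XT.lf (nat_lit 0) (nat_lit 2246244602155) (nat_lit 228) (nat_lit 20123719506) (nat_lit 76) (nat_lit 1457182073308) (nat_lit 49) (nat_lit 5) (nat_lit 52) (nat_lit 5) (nat_lit 50) (nat_lit 5) (nat_lit 394) (nat_lit 382) (nat_lit 244)) (XT.lf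 (nat_lit 0) (nat_lit 55303846385) (nat_lit 152) (nat_lit 3736413422070) (nat_lit 76) (nat_lit 274727251605) (nat_lit 45) (nat_lit 5) (nat_lit 47) (nat_lit 5) (nat_lit 46) (nat_lit 5) (nat_lit 395) (nat_lit 382) (nat_lit 243))) (XT.nd (nat_lit 78) (nat_lit 76) (nat_lit 0) (XT.lf (nat_lit 0) (nat_lit 720463340537) (nat_lit 152) (nat_lit 1204838169339) (nat_lit 228) (nat_lit 2516803962363) (nat_lit 43) (nat_lit 5) (nat_lit 45) (nat_lit 5) (nat_lit 46) (nat_lit 5) (nat_lit 396) (nat_lit 382) (nat_lit 242)) (XT.lf (nat_lit 0) (nat_lit 1222482140634) (nat_lit 76) (nat_lit 3036894851791) (nat_lit 152) (nat_lit 600052321258) (nat_lit 42) (nat_lit 5) (nat_lit 43) (nat_lit 5) (nat_lit 44) (nat_lit 4) (nat_lit 397) (nat_lit 382) (nat_lit 241)))) (XT.nd (nat_lit 156) (nat_lit 456) (nat_lit 0) (XT.nd (nat_lit 78) (nat_lit 76) (nat_lit 0) (XT.lf (nat_lit 0) (nat_lit 1714776632012) (nat_lit 228) (nat_lit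 3504581277974) (nat_lit 76) (nat_lit 101642214205) (nat_lit 39) (nat_lit 5) (nat_lit 42) (nat_lit 5) (nat_lit 40) (nat_lit 4) (nat_lit 398) (nat_lit 382) (nat_lit 240)) (XT.lf (nat_lit 0) (nat_lit 2485702186850) (nat_lit 76) (nat_lit 2109018419701) (nat_lit 152) (nat_lit 1235565450014) (nat_lit 38) (nat_lit 5) (nat_lit 39) (nat_lit 5) (nat_lit 40) (nat_lit 4) (nat_lit 399) (nat_lit 382) (nat_lit 239))) (XT.nd (nat_lit 78) (nat_lit 228) (nat_lit 0) (XT.lf (nat_lit 0) (nat_lit 1641325918313) (nat_lit 228) (nat_lit 3133557531300) (nat_lit 76) (nat_lit 1620196933381) (nat_lit 35) (nat_lit 5) (nat_lit 38) (nat_lit 5) (nat_lit 36) (nat_lit 4) (nat_lit 400) (nat_lit 382) (nat_lit 238)) (XT.nd (nat_lit 78) (nat_lit 152) (nat_lit 0) (XT.lf (nat_lit 0) (nat_lit 4136154562421) (nat_lit 76) (nat_lit 1000225247851) (nat_lit 152) (nat_lit 1884863592913) (nat_lit 34) (nat_lit 5) (nat_lit 35) (nat_lit 5)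 (nat_lit 36) (nat_lit 4) (nat_lit 401) (nat_lit 382) (nat_lit 237)) (XT.lf (nat_lit 0) (nat_lit 1648545172181) (nat_lit 152) (nat_lit 2633540342135) (nat_lit 76) (nat_lit 3432129223099) (nat_lit 32) (nat_lit 5) (nat_lit 34) (nat_lit 5) (nat_lit 33) (nat_lit 4) (nat_lit 402) (nat_lit 382) (nat_lit 236))))))) (XT.nd (nat_lit 702) (nat_lit 304) (nat_lit 0) (XT.nd (nat_lit 312) (nat_lit 532) (nat_lit 0) (XT.nd (nat_lit 156) (nat_lit 228) (nat_lit 0) (XT.nd (nat_lit 78) (nat_lit 152) (nat_lit 0) (XT.lf (nat_lit 0) (nat_lit 5871493696012) (nat_lit 152) (nat_lit 2355976275829) (nat_lit 0) (nat_lit 258054528086) (nat_lit 31) (nat_lit 5) (nat_lit 33) (nat_lit 4) (nat_lit 31) (nat_lit 4) (nat_lit 403) (nat_lit 382) (nat_lit 235)) (XT.lf (nat_lit 0) (nat_lit 1668463992645) (nat_lit 152) (nat_lit 2143034064099) (nat_lit 76) (nat_lit 5527952126335) (nat_lit 29) (nat_lit 5) (nat_lit 31) (nat_lit 5) (nat_lit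 30) (nat_lit 4) (nat_lit 404) (nat_lit 382) (nat_lit 234))) (XT.nd (nat_lit 78) (nat_lit 152) (nat_lit 0) (XT.lf (nat_lit 0) (nat_lit 6753586474216) (nat_lit 152) (nat_lit 1981286217884) (nat_lit 0) (nat_lit 1555957613510) (nat_lit 28) (nat_lit 5) (nat_lit 30) (nat_lit 4) (nat_lit 28) (nat_lit 4) (nat_lit 405) (nat_lit 382) (nat_lit 233)) (XT.lf (nat_lit 0) (nat_lit 1562593002119) (nat_lit 152) (nat_lit 1947435416910) (nat_lit 76) (nat_lit 7839997134104) (nat_lit 26) (nat_lit 5) (nat_lit 28) (nat_lit 5) (nat_lit 27) (nat_lit 4) (nat_lit 406) (nat_lit 382) (nat_lit 232)))) (XT.nd (nat_lit 156) (nat_lit 304) (nat_lit 0) (XT.nd (nat_lit 78) (nat_lit 152) (nat_lit 0) (XT.lf (nat_lit 0) (nat_lit 7605738620748) (nat_lit 152) (nat_lit 2130869840342) (nat_lit 0) (nat_lit 2793119304219) (nat_lit 25) (nat_lit 5) (nat_lit 27) (nat_lit 4) (nat_lit 25) (nat_lit 4) (nat_lit 407) (nat_lit 382) (nat_lit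 231)) (XT.lf (nat_lit 0) (nat_lit 1073608871542) (nat_lit 152) (nat_lit 2579512864148) (nat_lit 76) (nat_lit 10196928254480) (nat_lit 23) (nat_lit 5) (nat_lit 25) (nat_lit 5) (nat_lit 24) (nat_lit 4) (nat_lit 408) (nat_lit 382) (nat_lit 230))) (XT.nd (nat_lit 78) (nat_lit 228) (nat_lit 0) (XT.lf (nat_lit 0) (nat_lit 8130582107999) (nat_lit 152) (nat_lit 3517050414687) (nat_lit 0) (nat_lit 3674453110470) (nat_lit 22) (nat_lit 5) (nat_lit 24) (nat_lit 4) (nat_lit 22) (nat_lit 4) (nat_lit 409) (nat_lit 382) (nat_lit 229)) (XT.nd (nat_lit 78) (nat_lit 152) (nat_lit 0) (XT.lf (nat_lit 0) (nat_lit 11991427122707) (nat_lit 76) (nat_lit 4721155016485) (nat_lit 76) (nat_lit 265026018656) (nat_lit 21) (nat_lit 4) (nat_lit 22) (nat_lit 5) (nat_lit 22) (nat_lit 4) (nat_lit 410) (nat_lit 382) (nat_lit 228)) (XT.lf (nat_lit 0) (nat_lit 7790979615598) (nat_lit 152) (nat_lit 7372668541538) (nat_lit 0) (nat_lit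 3664934246996) (nat_lit 19) (nat_lit 5) (nat_lit 21) (nat_lit 4) (nat_lit 19) (nat_lit 4) (nat_lit 411) (nat_lit 382) (nat_lit 227)))))) (XT.nd (nat_lit 50934) (nat_lit 0) (nat_lit 4028) (XT.nd (nat_lit 156) (nat_lit 76) (nat_lit 0) (XT.nd (nat_lit 78) (nat_lit 152) (nat_lit 0) (XT.lf (nat_lit 0) (nat_lit 10083419002522) (nat_lit 76) (nat_lit 7478740585483) (nat_lit 76) (nat_lit 3352695216671) (nat_lit 18) (nat_lit 4) (nat_lit 19) (nat_lit 5) (nat_lit 19) (nat_lit 4) (nat_lit 412) (nat_lit 382) (nat_lit 226)) (XT.lf (nat_lit 0) (nat_lit 5658853556776) (nat_lit 152) (nat_lit 15770357526723) (nat_lit 0) (nat_lit 1838441178076) (nat_lit 16) (nat_lit 5) (nat_lit 18) (nat_lit 4) (nat_lit 16) (nat_lit 4) (nat_lit 413) (nat_lit 382) (nat_lit 225))) (XT.nd (nat_lit 50700) (nat_lit 0) (nat_lit 4788) (XT.lf (nat_lit 0) (nat_lit 3132027161496) (nat_lit 76) (nat_lit 13302939978897) (nat_lit 76) (nat_lit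 9482527600051) (nat_lit 15) (nat_lit 4) (nat_lit 16) (nat_lit 5) (nat_lit 16) (nat_lit 4) (nat_lit 414) (nat_lit 382) (nat_lit 224)) (XT.lf (nat_lit 0) (nat_lit 787557875827) (nat_lit 532) (nat_lit 19938726307) (nat_lit 532) (nat_lit 19938726307) (nat_lit 78) (nat_lit 3) (nat_lit 85) (nat_lit 3) (nat_lit 85) (nat_lit 5) (nat_lit 383) (nat_lit 383) (nat_lit 254)))) (XT.nd (nat_lit 156) (nat_lit 304) (nat_lit 0) (XT.nd (nat_lit 78) (nat_lit 456) (nat_lit 0) (XT.lf (nat_lit 76) (nat_lit 1571583359701) (nat_lit 0) (nat_lit 159462731436) (nat_lit 532) (nat_lit 44916132347) (nat_lit 79) (nat_lit 5) (nat_lit 78) (nat_lit 3) (nat_lit 85) (nat_lit 5) (nat_lit 384) (nat_lit 383) (nat_lit 253)) (XT.lf (nat_lit 0) (nat_lit 72307851825) (nat_lit 532) (nat_lit 357745905828) (nat_lit 608) (nat_lit 1479019765684) (nat_lit 72) (nat_lit 5) (nat_lit 79) (nat_lit 5) (nat_lit 80) (nat_lit 5) (nat_lit 385) (nat_lit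 383) (nat_lit 252))) (XT.nd (nat_lit 78) (nat_lit 380) (nat_lit 0) (XT.lf (nat_lit 0) (nat_lit 285675438509) (nat_lit 532) (nat_lit 495333003323) (nat_lit 608) (nat_lit 1274552180823) (nat_lit 73) (nat_lit 5) (nat_lit 80) (nat_lit 5) (nat_lit 81) (nat_lit 5) (nat_lit 386) (nat_lit 383) (nat_lit 251)) (XT.nd (nat_lit 78) (nat_lit 456) (nat_lit 0) (XT.lf (nat_lit 0) (nat_lit 617961297796) (nat_lit 532) (nat_lit 610161802403) (nat_lit 76) (nat_lit 988944635907) (nat_lit 74) (nat_lit 5) (nat_lit 81) (nat_lit 5) (nat_lit 75) (nat_lit 5) (nat_lit 387) (nat_lit 383) (nat_lit 250)) (XT.lf (nat_lit 0) (nat_lit 1093140852624) (nat_lit 532) (nat_lit 695221278471) (nat_lit 76) (nat_lit 606994720148) (nat_lit 68) (nat_lit 5) (nat_lit 75) (nat_lit 5) (nat_lit 69) (nat_lit 5) (nat_lit 388) (nat_lit 383) (nat_lit 249))))))))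
noncomputable def xc116 : XT := (XT.nd (nat_lit 1326) (nat_lit 836) (nat_lit 0) (XT.nd (nat_lit 624) (nat_lit 1216) (nat_lit 0) (XT.nd (nat_lit 312) (nat_lit 836) (nat_lit 0) (XT.nd (nat_lit 156) (nat_lit 456) (nat_lit 0) (XT.nd (nat_lit 78) (nat_lit 228) (nat_lit 0) (XT.lf (nat_lit 0) (nat_lit 1739171084553) (nat_lit 304) (nat_lit 742222132717) (nat_lit 76) (nat_lit 111030216874) (nat_lit 65) (nat_lit 5) (nat_lit 69) (nat_lit 5) (nat_lit 66) (nat_lit 5) (nat_lit 389) (nat_lit 383) (nat_lit 248)) (XT.lf (nat_lit 0) (nat_lit 2054914750014) (nat_lit 228) (nat_lit 546839871325) (nat_lit 304) (nat_lit 207723481535) (nat_lit 62) (nat_lit 5) (nat_lit 65) (nat_lit 5) (nat_lit 66) (nat_lit 5) (nat_lit 390) (nat_lit 383) (nat_lit 247))) (XT.nd (nat_lit 78) (nat_lit 228) (nat_lit 0) (XT.lf (nat_lit 0) (nat_lit 629655805554) (nat_lit 228) (nat_lit 730433761449) (nat_lit 76) (nat_lit 1688231512078) (nat_lit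 59) (nat_lit 5) (nat_lit 62) (nat_lit 5) (nat_lit 60) (nat_lit 5) (nat_lit 391) (nat_lit 383) (nat_lit 246)) (XT.lf (nat_lit 0) (nat_lit 1707206559467) (nat_lit 304) (nat_lit 649804338405) (nat_lit 76) (nat_lit 955398840887) (nat_lit 56) (nat_lit 5) (nat_lit 60) (nat_lit 5) (nat_lit 57) (nat_lit 5) (nat_lit 392) (nat_lit 383) (nat_lit 245)))) (XT.nd (nat_lit 156) (nat_lit 456) (nat_lit 0) (XT.nd (nat_lit 78) (nat_lit 228) (nat_lit 0) (XT.lf (nat_lit 0) (nat_lit 3081418417783) (nat_lit 228) (nat_lit 494196459862) (nat_lit 76) (nat_lit 29694540439) (nat_lit 54) (nat_lit 5) (nat_lit 57) (nat_lit 5) (nat_lit 55) (nat_lit 5) (nat_lit 393) (nat_lit 383) (nat_lit 244)) (XT.lf (nat_lit 0) (nat_lit 860525273691) (nat_lit 228) (nat_lit 298246099186) (nat_lit 76) (nat_lit 2767835691984) (nat_lit 51) (nat_lit 5) (nat_lit 54) (nat_lit 5) (nat_lit 52) (nat_lit 5) (nat_lit 394) (nat_lit 383) (nat_lit 243)))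 (XT.nd (nat_lit 78) (nat_lit 304) (nat_lit 0) (XT.lf (nat_lit 0) (nat_lit 2583181321499) (nat_lit 228) (nat_lit 23142231827) (nat_lit 76) (nat_lit 1675759398562) (nat_lit 49) (nat_lit 5) (nat_lit 52) (nat_lit 5) (nat_lit 50) (nat_lit 5) (nat_lit 395) (nat_lit 383) (nat_lit 242)) (XT.lf (nat_lit 0) (nat_lit 63599451780) (nat_lit 152) (nat_lit 4296875388113) (nat_lit 76) (nat_lit 315936355897) (nat_lit 45) (nat_lit 5) (nat_lit 47) (nat_lit 5) (nat_lit 46) (nat_lit 5) (nat_lit 396) (nat_lit 383) (nat_lit 241))))) (XT.nd (nat_lit 312) (nat_lit 684) (nat_lit 0) (XT.nd (nat_lit 156) (nat_lit 304) (nat_lit 0) (XT.nd (nat_lit 78) (nat_lit 76) (nat_lit 0) (XT.lf (nat_lit 0) (nat_lit 828532884885) (nat_lit 152) (nat_lit 1385563877241) (nat_lit 228) (nat_lit 2894324528883) (nat_lit 43) (nat_lit 5) (nat_lit 45) (nat_lit 5) (nat_lit 46) (nat_lit 5) (nat_lit 397) (nat_lit 383) (nat_lit 240)) (XT.lf (nat_lit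 0) (nat_lit 1405854502839) (nat_lit 76) (nat_lit 3492429062211) (nat_lit 152) (nat_lit 690060143780) (nat_lit 42) (nat_lit 5) (nat_lit 43) (nat_lit 5) (nat_lit 44) (nat_lit 4) (nat_lit 398) (nat_lit 383) (nat_lit 239))) (XT.nd (nat_lit 78) (nat_lit 76) (nat_lit 0) (XT.lf (nat_lit 0) (nat_lit 1971993149350) (nat_lit 228) (nat_lit 4030268429489) (nat_lit 76) (nat_lit 116888562175) (nat_lit 39) (nat_lit 5) (nat_lit 42) (nat_lit 5) (nat_lit 40) (nat_lit 4) (nat_lit 399) (nat_lit 383) (nat_lit 238)) (XT.lf (nat_lit 0) (nat_lit 2858557551658) (nat_lit 76) (nat_lit 2425371166357) (nat_lit 152) (nat_lit 1420900245393) (nat_lit 38) (nat_lit 5) (nat_lit 39) (nat_lit 5) (nat_lit 40) (nat_lit 4) (nat_lit 400) (nat_lit 383) (nat_lit 237)))) (XT.nd (nat_lit 156) (nat_lit 380) (nat_lit 0) (XT.nd (nat_lit 78) (nat_lit 76) (nat_lit 0) (XT.lf (nat_lit 0) (nat_lit 1887524825544) (nat_lit 228) (nat_lit 3603591125156)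 (nat_lit 76) (nat_lit 1863226488182) (nat_lit 35) (nat_lit 5) (nat_lit 38) (nat_lit 5) (nat_lit 36) (nat_lit 4) (nat_lit 401) (nat_lit 383) (nat_lit 236)) (XT.lf (nat_lit 0) (nat_lit 4756577779590) (nat_lit 76) (nat_lit 1150259019954) (nat_lit 152) (nat_lit 2167593112698) (nat_lit 34) (nat_lit 5) (nat_lit 35) (nat_lit 5) (nat_lit 36) (nat_lit 4) (nat_lit 402) (nat_lit 383) (nat_lit 235))) (XT.nd (nat_lit 78) (nat_lit 228) (nat_lit 0) (XT.lf (nat_lit 0) (nat_lit 1895826964917) (nat_lit 152) (nat_lit 3028571361567) (nat_lit 76) (nat_lit 3946948620190) (nat_lit 32) (nat_lit 5) (nat_lit 34) (nat_lit 5) (nat_lit 33) (nat_lit 4) (nat_lit 403) (nat_lit 383) (nat_lit 234)) (XT.nd (nat_lit 78) (nat_lit 152) (nat_lit 0) (XT.lf (nat_lit 0) (nat_lit 6752217766151) (nat_lit 152) (nat_lit 2709372687112) (nat_lit 0) (nat_lit 296762720393) (nat_lit 31) (nat_lit 5) (nat_lit 33) (nat_lit 4) (nat_lit 31) (nat_lit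 4) (nat_lit 404) (nat_lit 383) (nat_lit 233)) (XT.lf (nat_lit 0) (nat_lit 1918733606262) (nat_lit 152) (nat_lit 2464489145393) (nat_lit 76) (nat_lit 6357144957707) (nat_lit 29) (nat_lit 5) (nat_lit 31) (nat_lit 5) (nat_lit 30) (nat_lit 4) (nat_lit 405) (nat_lit 383) (nat_lit 232))))))) (XT.nd (nat_lit 51402) (nat_lit 0) (nat_lit 3116) (XT.nd (nat_lit 312) (nat_lit 380) (nat_lit 0) (XT.nd (nat_lit 156) (nat_lit 228) (nat_lit 0) (XT.nd (nat_lit 78) (nat_lit 152) (nat_lit 0) (XT.lf (nat_lit 0) (nat_lit 7766624459073) (nat_lit 152) (nat_lit 2278479123870) (nat_lit 0) (nat_lit 1789351267411) (nat_lit 28) (nat_lit 5) (nat_lit 30) (nat_lit 4) (nat_lit 28) (nat_lit 4) (nat_lit 406) (nat_lit 383) (nat_lit 231)) (XT.lf (nat_lit 0) (nat_lit 1796981965285) (nat_lit 152) (nat_lit 2239550704331) (nat_lit 76) (nat_lit 9015996715458) (nat_lit 26) (nat_lit 5) (nat_lit 28) (nat_lit 5) (nat_lit 27) (nat_lit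 4) (nat_lit 407) (nat_lit 383) (nat_lit 230))) (XT.nd (nat_lit 78) (nat_lit 152) (nat_lit 0) (XT.lf (nat_lit 0) (nat_lit 8746599425856) (nat_lit 152) (nat_lit 2450500292736) (nat_lit 0) (nat_lit 3212087210552) (nat_lit 25) (nat_lit 5) (nat_lit 27) (nat_lit 4) (nat_lit 25) (nat_lit 4) (nat_lit 408) (nat_lit 383) (nat_lit 229)) (XT.lf (nat_lit 0) (nat_lit 1234650213511) (nat_lit 152) (nat_lit 2966439771524) (nat_lit 76) (nat_lit 11726467502762) (nat_lit 23) (nat_lit 5) (nat_lit 25) (nat_lit 5) (nat_lit 24) (nat_lit 4) (nat_lit 409) (nat_lit 383) (nat_lit 228)))) (XT.nd (nat_lit 156) (nat_lit 228) (nat_lit 0) (XT.nd (nat_lit 78) (nat_lit 76) (nat_lit 0) (XT.lf (nat_lit 0) (nat_lit 9350169434703) (nat_lit 152) (nat_lit 4044607955948) (nat_lit 0) (nat_lit 4225621086638) (nat_lit 22) (nat_lit 5) (nat_lit 24) (nat_lit 4) (nat_lit 22) (nat_lit 4) (nat_lit 410) (nat_lit 383) (nat_lit 227)) (XT.lf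 (nat_lit 0) (nat_lit 13790141210283) (nat_lit 76) (nat_lit 5429328259383) (nat_lit 76) (nat_lit 304779911091) (nat_lit 21) (nat_lit 4) (nat_lit 22) (nat_lit 5) (nat_lit 22) (nat_lit 4) (nat_lit 411) (nat_lit 383) (nat_lit 226))) (XT.nd (nat_lit 78) (nat_lit 76) (nat_lit 0) (XT.lf (nat_lit 0) (nat_lit 8959626567148) (nat_lit 152) (nat_lit 8478568804244) (nat_lit 0) (nat_lit 4214674392621) (nat_lit 19) (nat_lit 5) (nat_lit 21) (nat_lit 4) (nat_lit 19) (nat_lit 4) (nat_lit 412) (nat_lit 383) (nat_lit 225)) (XT.lf (nat_lit 0) (nat_lit 11595931869857) (nat_lit 76) (nat_lit 8600551664767) (nat_lit 76) (nat_lit 3855599490081) (nat_lit 18) (nat_lit 4) (nat_lit 19) (nat_lit 5) (nat_lit 19) (nat_lit 4) (nat_lit 413) (nat_lit 383) (nat_lit 224))))) (XT.nd (nat_lit 312) (nat_lit 988) (nat_lit 0) (XT.nd (nat_lit 156) (nat_lit 456) (nat_lit 0) (XT.nd (nat_lit 78) (nat_lit 0) (nat_lit 0) (XT.lf (nat_lit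 0) (nat_lit 905691596035) (nat_lit 532) (nat_lit 22929514275) (nat_lit 532) (nat_lit 22929514275) (nat_lit 78) (nat_lit 3) (nat_lit 85) (nat_lit 3) (nat_lit 85) (nat_lit 5) (nat_lit 384) (nat_lit 384) (nat_lit 252)) (XT.lf (nat_lit 76) (nat_lit 1807320902060) (nat_lit 0) (nat_lit 183382171206) (nat_lit 532) (nat_lit 51653478237) (nat_lit 79) (nat_lit 5) (nat_lit 78) (nat_lit 3) (nat_lit 85) (nat_lit 5) (nat_lit 385) (nat_lit 384) (nat_lit 251))) (XT.nd (nat_lit 78) (nat_lit 0) (nat_lit 76) (XT.lf (nat_lit 0) (nat_lit 83154091061) (nat_lit 532) (nat_lit 411407747591) (nat_lit 608) (nat_lit 1700872708248) (nat_lit 72) (nat_lit 5) (nat_lit 79) (nat_lit 5) (nat_lit 80) (nat_lit 5) (nat_lit 386) (nat_lit 384) (nat_lit 250)) (XT.lf (nat_lit 0) (nat_lit 328526808364) (nat_lit 532) (nat_lit 569632908735) (nat_lit 608) (nat_lit 1465734994611) (nat_lit 73) (nat_lit 5) (nat_lit 80) (nat_lit 5) (nat_lit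 81) (nat_lit 5) (nat_lit 387) (nat_lit 384) (nat_lit 249)))) (XT.nd (nat_lit 156) (nat_lit 684) (nat_lit 0) (XT.nd (nat_lit 78) (nat_lit 456) (nat_lit 0) (XT.lf (nat_lit 0) (nat_lit 710655540320) (nat_lit 532) (nat_lit 701686027473) (nat_lit 76) (nat_lit 1137286324885) (nat_lit 74) (nat_lit 5) (nat_lit 81) (nat_lit 5) (nat_lit 75) (nat_lit 5) (nat_lit 388) (nat_lit 384) (nat_lit 248)) (XT.lf (nat_lit 0) (nat_lit 1257112023100) (nat_lit 532) (nat_lit 799504425334) (nat_lit 76) (nat_lit 698043927076) (nat_lit 68) (nat_lit 5) (nat_lit 75) (nat_lit 5) (nat_lit 69) (nat_lit 5) (nat_lit 389) (nat_lit 384) (nat_lit 247))) (XT.nd (nat_lit 78) (nat_lit 456) (nat_lit 0) (XT.lf (nat_lit 0) (nat_lit 2000046785326) (nat_lit 304) (nat_lit 853555408538) (nat_lit 76) (nat_lit 127684752341) (nat_lit 65) (nat_lit 5) (nat_lit 69) (nat_lit 5) (nat_lit 66) (nat_lit 5) (nat_lit 390) (nat_lit 384) (nat_lit 246))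 (XT.nd (nat_lit 78) (nat_lit 228) (nat_lit 0) (XT.lf (nat_lit 0) (nat_lit 2363152002871) (nat_lit 228) (nat_lit 628865845762) (nat_lit 304) (nat_lit 238881966934) (nat_lit 62) (nat_lit 5) (nat_lit 65) (nat_lit 5) (nat_lit 66) (nat_lit 5) (nat_lit 391) (nat_lit 384) (nat_lit 245)) (XT.lf (nat_lit 0) (nat_lit 724104207916) (nat_lit 228) (nat_lit 839998784689) (nat_lit 76) (nat_lit 1941466245806) (nat_lit 59) (nat_lit 5) (nat_lit 62) (nat_lit 5) (nat_lit 60) (nat_lit 5) (nat_lit 392) (nat_lit 384) (nat_lit 244))))))))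
noncomputable def xc117 : XT := (XT.nd (nat_lit 1326) (nat_lit 456) (nat_lit 0) (XT.nd (nat_lit 624) (nat_lit 1064) (nat_lit 0) (XT.nd (nat_lit 312) (nat_lit 760) (nat_lit 0) (XT.nd (nat_lit 156) (nat_lit 380) (nat_lit 0) (XT.nd (nat_lit 78) (nat_lit 152) (nat_lit 0) (XT.lf (nat_lit 0) (nat_lit 1963287571927) (nat_lit 304) (nat_lit 747274949605) (nat_lit 76) (nat_lit 1098708675750) (nat_lit 56) (nat_lit 5) (nat_lit 60) (nat_lit 5) (nat_lit 57) (nat_lit 5) (nat_lit 393) (nat_lit 384) (nat_lit 243)) (XT.lf (nat_lit 0) (nat_lit 3543631206392) (nat_lit 228) (nat_lit 568325890821) (nat_lit 76) (nat_lit 34148731502) (nat_lit 54) (nat_lit 5) (nat_lit 57) (nat_lit 5) (nat_lit 55) (nat_lit 5) (nat_lit 394) (nat_lit 384) (nat_lit 242))) (XT.nd (nat_lit 78) (nat_lit 152) (nat_lit 0) (XT.lf (nat_lit 0) (nat_lit 989604088752) (nat_lit 228) (nat_lit 342982977993) (nat_lit 76) (nat_lit 3183011055920) (nat_lit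 51) (nat_lit 5) (nat_lit 54) (nat_lit 5) (nat_lit 52) (nat_lit 5) (nat_lit 395) (nat_lit 384) (nat_lit 241)) (XT.lf (nat_lit 0) (nat_lit 2970658541667) (nat_lit 228) (nat_lit 26613532118) (nat_lit 76) (nat_lit 1927123319126) (nat_lit 49) (nat_lit 5) (nat_lit 52) (nat_lit 5) (nat_lit 50) (nat_lit 5) (nat_lit 396) (nat_lit 384) (nat_lit 240)))) (XT.nd (nat_lit 156) (nat_lit 304) (nat_lit 0) (XT.nd (nat_lit 78) (nat_lit 152) (nat_lit 0) (XT.lf (nat_lit 0) (nat_lit 73139391050) (nat_lit 152) (nat_lit 4941406660589) (nat_lit 76) (nat_lit 363326821796) (nat_lit 45) (nat_lit 5) (nat_lit 47) (nat_lit 5) (nat_lit 46) (nat_lit 5) (nat_lit 397) (nat_lit 384) (nat_lit 239)) (XT.lf (nat_lit 0) (nat_lit 952812850334) (nat_lit 152) (nat_lit 1593398445596) (nat_lit 228) (nat_lit 3328473187169) (nat_lit 43) (nat_lit 5) (nat_lit 45) (nat_lit 5) (nat_lit 46) (nat_lit 5) (nat_lit 398) (nat_lit 384) (nat_lit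 238))) (XT.nd (nat_lit 78) (nat_lit 228) (nat_lit 0) (XT.lf (nat_lit 0) (nat_lit 1616732709350) (nat_lit 76) (nat_lit 4016293408426) (nat_lit 152) (nat_lit 793569145940) (nat_lit 42) (nat_lit 5) (nat_lit 43) (nat_lit 5) (nat_lit 44) (nat_lit 4) (nat_lit 399) (nat_lit 384) (nat_lit 237)) (XT.lf (nat_lit 0) (nat_lit 2267792138794) (nat_lit 228) (nat_lit 4634808663529) (nat_lit 76) (nat_lit 134421858478) (nat_lit 39) (nat_lit 5) (nat_lit 42) (nat_lit 5) (nat_lit 40) (nat_lit 4) (nat_lit 400) (nat_lit 384) (nat_lit 236))))) (XT.nd (nat_lit 312) (nat_lit 532) (nat_lit 0) (XT.nd (nat_lit 156) (nat_lit 228) (nat_lit 0) (XT.nd (nat_lit 78) (nat_lit 228) (nat_lit 0) (XT.lf (nat_lit 0) (nat_lit 3287341212218) (nat_lit 76) (nat_lit 2789176828987) (nat_lit 152) (nat_lit 1634035265474) (nat_lit 38) (nat_lit 5) (nat_lit 39) (nat_lit 5) (nat_lit 40) (nat_lit 4) (nat_lit 401) (nat_lit 384) (nat_lit 235))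 (XT.lf (nat_lit 0) (nat_lit 2170653564108) (nat_lit 228) (nat_lit 4144129766831) (nat_lit 76) (nat_lit 2142710472596) (nat_lit 35) (nat_lit 5) (nat_lit 38) (nat_lit 5) (nat_lit 36) (nat_lit 4) (nat_lit 402) (nat_lit 384) (nat_lit 234))) (XT.nd (nat_lit 78) (nat_lit 152) (nat_lit 0) (XT.lf (nat_lit 0) (nat_lit 5470064471333) (nat_lit 76) (nat_lit 1322797861550) (nat_lit 152) (nat_lit 2492732065122) (nat_lit 34) (nat_lit 5) (nat_lit 35) (nat_lit 5) (nat_lit 36) (nat_lit 4) (nat_lit 403) (nat_lit 384) (nat_lit 233)) (XT.lf (nat_lit 0) (nat_lit 2180201022440) (nat_lit 152) (nat_lit 3482857041690) (nat_lit 76) (nat_lit 4538990923521) (nat_lit 32) (nat_lit 5) (nat_lit 34) (nat_lit 5) (nat_lit 33) (nat_lit 4) (nat_lit 404) (nat_lit 384) (nat_lit 232)))) (XT.nd (nat_lit 156) (nat_lit 304) (nat_lit 0) (XT.nd (nat_lit 78) (nat_lit 152) (nat_lit 0) (XT.lf (nat_lit 0) (nat_lit 7765050442973) (nat_lit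 152) (nat_lit 3115778567426) (nat_lit 0) (nat_lit 341277138354) (nat_lit 31) (nat_lit 5) (nat_lit 33) (nat_lit 4) (nat_lit 31) (nat_lit 4) (nat_lit 405) (nat_lit 384) (nat_lit 231)) (XT.lf (nat_lit 0) (nat_lit 2206543658332) (nat_lit 152) (nat_lit 2834162495788) (nat_lit 76) (nat_lit 7310716710756) (nat_lit 29) (nat_lit 5) (nat_lit 31) (nat_lit 5) (nat_lit 30) (nat_lit 4) (nat_lit 406) (nat_lit 384) (nat_lit 230))) (XT.nd (nat_lit 78) (nat_lit 228) (nat_lit 0) (XT.lf (nat_lit 0) (nat_lit 8931618138312) (nat_lit 152) (nat_lit 2620250972263) (nat_lit 0) (nat_lit 2057753966502) (nat_lit 28) (nat_lit 5) (nat_lit 30) (nat_lit 4) (nat_lit 28) (nat_lit 4) (nat_lit 407) (nat_lit 384) (nat_lit 229)) (XT.nd (nat_lit 78) (nat_lit 76) (nat_lit 0) (XT.lf (nat_lit 0) (nat_lit 2066529269793) (nat_lit 152) (nat_lit 2575483290990) (nat_lit 76) (nat_lit 10368396231275) (nat_lit 26) (nat_lit 5) (nat_lit 28)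 (nat_lit 5) (nat_lit 27) (nat_lit 4) (nat_lit 408) (nat_lit 384) (nat_lit 228)) (XT.lf (nat_lit 0) (nat_lit 10058589348805) (nat_lit 152) (nat_lit 2818075318759) (nat_lit 0) (nat_lit 3693900300227) (nat_lit 25) (nat_lit 5) (nat_lit 27) (nat_lit 4) (nat_lit 25) (nat_lit 4) (nat_lit 409) (nat_lit 384) (nat_lit 227))))))) (XT.nd (nat_lit 51480) (nat_lit 0) (nat_lit 2280) (XT.nd (nat_lit 51168) (nat_lit 0) (nat_lit 4028) (XT.nd (nat_lit 156) (nat_lit 228) (nat_lit 0) (XT.nd (nat_lit 78) (nat_lit 76) (nat_lit 0) (XT.lf (nat_lit 0) (nat_lit 1419847754034) (nat_lit 152) (nat_lit 3411405720431) (nat_lit 76) (nat_lit 13485437635821) (nat_lit 23) (nat_lit 5) (nat_lit 25) (nat_lit 5) (nat_lit 24) (nat_lit 4) (nat_lit 410) (nat_lit 384) (nat_lit 226)) (XT.lf (nat_lit 0) (nat_lit 10752694857851) (nat_lit 152) (nat_lit 4651299133505) (nat_lit 0) (nat_lit 4859464256891) (nat_lit 22) (nat_lit 5) (nat_lit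 24) (nat_lit 4) (nat_lit 22) (nat_lit 4) (nat_lit 411) (nat_lit 384) (nat_lit 225))) (XT.nd (nat_lit 78) (nat_lit 152) (nat_lit 0) (XT.lf (nat_lit 0) (nat_lit 15858662406320) (nat_lit 76) (nat_lit 6243727491051) (nat_lit 76) (nat_lit 350496889919) (nat_lit 21) (nat_lit 4) (nat_lit 22) (nat_lit 5) (nat_lit 22) (nat_lit 4) (nat_lit 412) (nat_lit 384) (nat_lit 224)) (XT.lf (nat_lit 0) (nat_lit 10303570559186) (nat_lit 152) (nat_lit 9750354110874) (nat_lit 0) (nat_lit 4846875557999) (nat_lit 19) (nat_lit 5) (nat_lit 21) (nat_lit 4) (nat_lit 19) (nat_lit 4) (nat_lit 413) (nat_lit 384) (nat_lit 223)))) (XT.nd (nat_lit 156) (nat_lit 456) (nat_lit 0) (XT.nd (nat_lit 78) (nat_lit 0) (nat_lit 0) (XT.lf (nat_lit 0) (nat_lit 1041545364803) (nat_lit 532) (nat_lit 26368925554) (nat_lit 532) (nat_lit 26368925554) (nat_lit 78) (nat_lit 3) (nat_lit 85) (nat_lit 3) (nat_lit 85) (nat_lit 5) (nat_lit 385) (nat_lit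 385) (nat_lit 250)) (XT.lf (nat_lit 76) (nat_lit 2078419066408) (nat_lit 0) (nat_lit 210889519614) (nat_lit 532) (nat_lit 59401444046) (nat_lit 79) (nat_lit 5) (nat_lit 78) (nat_lit 3) (nat_lit 85) (nat_lit 5) (nat_lit 386) (nat_lit 385) (nat_lit 249))) (XT.nd (nat_lit 78) (nat_lit 0) (nat_lit 76) (XT.lf (nat_lit 0) (nat_lit 95627251193) (nat_lit 532) (nat_lit 473118876375) (nat_lit 608) (nat_lit 1956003597631) (nat_lit 72) (nat_lit 5) (nat_lit 79) (nat_lit 5) (nat_lit 80) (nat_lit 5) (nat_lit 387) (nat_lit 385) (nat_lit 248)) (XT.lf (nat_lit 0) (nat_lit 377805870509) (nat_lit 532) (nat_lit 655077810953) (nat_lit 608) (nat_lit 1685595233718) (nat_lit 73) (nat_lit 5) (nat_lit 80) (nat_lit 5) (nat_lit 81) (nat_lit 5) (nat_lit 388) (nat_lit 385) (nat_lit 247))))) (XT.nd (nat_lit 312) (nat_lit 988) (nat_lit 0) (XT.nd (nat_lit 156) (nat_lit 456) (nat_lit 0) (XT.nd (nat_lit 78) (nat_lit 456) (nat_lit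 0) (XT.lf (nat_lit 0) (nat_lit 817253907553) (nat_lit 532) (nat_lit 806938897347) (nat_lit 76) (nat_lit 1307879268772) (nat_lit 74) (nat_lit 5) (nat_lit 81) (nat_lit 5) (nat_lit 75) (nat_lit 5) (nat_lit 389) (nat_lit 385) (nat_lit 246)) (XT.lf (nat_lit 0) (nat_lit 1445678858763) (nat_lit 532) (nat_lit 919430055177) (nat_lit 76) (nat_lit 802750515309) (nat_lit 68) (nat_lit 5) (nat_lit 75) (nat_lit 5) (nat_lit 69) (nat_lit 5) (nat_lit 390) (nat_lit 385) (nat_lit 245))) (XT.nd (nat_lit 78) (nat_lit 228) (nat_lit 0) (XT.lf (nat_lit 0) (nat_lit 2300053831928) (nat_lit 304) (nat_lit 981588686483) (nat_lit 76) (nat_lit 146837467412) (nat_lit 65) (nat_lit 5) (nat_lit 69) (nat_lit 5) (nat_lit 66) (nat_lit 5) (nat_lit 391) (nat_lit 385) (nat_lit 244)) (XT.lf (nat_lit 0) (nat_lit 2717624833816) (nat_lit 228) (nat_lit 723195717892) (nat_lit 304) (nat_lit 274714234124) (nat_lit 62) (nat_lit 5) (nat_lit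 65) (nat_lit 5) (nat_lit 66) (nat_lit 5) (nat_lit 392) (nat_lit 385) (nat_lit 243)))) (XT.nd (nat_lit 156) (nat_lit 532) (nat_lit 0) (XT.nd (nat_lit 78) (nat_lit 228) (nat_lit 0) (XT.lf (nat_lit 0) (nat_lit 832719862944) (nat_lit 228) (nat_lit 965998571409) (nat_lit 76) (nat_lit 2232686187907) (nat_lit 59) (nat_lit 5) (nat_lit 62) (nat_lit 5) (nat_lit 60) (nat_lit 5) (nat_lit 393) (nat_lit 385) (nat_lit 242)) (XT.lf (nat_lit 0) (nat_lit 2257780729296) (nat_lit 304) (nat_lit 859366162133) (nat_lit 76) (nat_lit 1263514983713) (nat_lit 56) (nat_lit 5) (nat_lit 60) (nat_lit 5) (nat_lit 57) (nat_lit 5) (nat_lit 394) (nat_lit 385) (nat_lit 241))) (XT.nd (nat_lit 78) (nat_lit 380) (nat_lit 0) (XT.lf (nat_lit 0) (nat_lit 4075175906966) (nat_lit 228) (nat_lit 653574745695) (nat_lit 76) (nat_lit 39271048787) (nat_lit 54) (nat_lit 5) (nat_lit 57) (nat_lit 5) (nat_lit 55) (nat_lit 5) (nat_lit 395) (nat_lit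 385) (nat_lit 240)) (XT.nd (nat_lit 78) (nat_lit 152) (nat_lit 0) (XT.lf (nat_lit 0) (nat_lit 1138044720218) (nat_lit 228) (nat_lit 394430397416) (nat_lit 76) (nat_lit 3660462721973) (nat_lit 51) (nat_lit 5) (nat_lit 54) (nat_lit 5) (nat_lit 52) (nat_lit 5) (nat_lit 396) (nat_lit 385) (nat_lit 239)) (XT.lf (nat_lit 0) (nat_lit 3416257339509) (nat_lit 228) (nat_lit 30605535861) (nat_lit 76) (nat_lit 2216191825146) (nat_lit 49) (nat_lit 5) (nat_lit 52) (nat_lit 5) (nat_lit 50) (nat_lit 5) (nat_lit 397) (nat_lit 385) (nat_lit 238))))))))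
noncomputable def xc118 : XT := (XT.nd (nat_lit 52260) (nat_lit 0) (nat_lit 1292) (XT.nd (nat_lit 624) (nat_lit 836) (nat_lit 0) (XT.nd (nat_lit 312) (nat_lit 532) (nat_lit 0) (XT.nd (nat_lit 156) (nat_lit 304) (nat_lit 0) (XT.nd (nat_lit 78) (nat_lit 152) (nat_lit 0) (XT.lf (nat_lit 0) (nat_lit 84110315966) (nat_lit 152) (nat_lit 5682617632652) (nat_lit 76) (nat_lit 417825854528) (nat_lit 45) (nat_lit 5) (nat_lit 47) (nat_lit 5) (nat_lit 46) (nat_lit 5) (nat_lit 398) (nat_lit 385) (nat_lit 237)) (XT.lf (nat_lit 0) (nat_lit 1095734802622) (nat_lit 152) (nat_lit 1832408202431) (nat_lit 228) (nat_lit 3827744149330) (nat_lit 43) (nat_lit 5) (nat_lit 45) (nat_lit 5) (nat_lit 46) (nat_lit 5) (nat_lit 399) (nat_lit 385) (nat_lit 236))) (XT.nd (nat_lit 78) (nat_lit 228) (nat_lit 0) (XT.lf (nat_lit 0) (nat_lit 1859242639258) (nat_lit 76) (nat_lit 4618737409771) (nat_lit 152) (nat_lit 912604503156)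 (nat_lit 42) (nat_lit 5) (nat_lit 43) (nat_lit 5) (nat_lit 44) (nat_lit 4) (nat_lit 400) (nat_lit 385) (nat_lit 235)) (XT.lf (nat_lit 0) (nat_lit 2607960972499) (nat_lit 228) (nat_lit 5330029940084) (nat_lit 76) (nat_lit 154585146305) (nat_lit 39) (nat_lit 5) (nat_lit 42) (nat_lit 5) (nat_lit 40) (nat_lit 4) (nat_lit 401) (nat_lit 385) (nat_lit 234)))) (XT.nd (nat_lit 156) (nat_lit 228) (nat_lit 0) (XT.nd (nat_lit 78) (nat_lit 228) (nat_lit 0) (XT.lf (nat_lit 0) (nat_lit 3780442415081) (nat_lit 76) (nat_lit 3207553344016) (nat_lit 152) (nat_lit 1879140542646) (nat_lit 38) (nat_lit 5) (nat_lit 39) (nat_lit 5) (nat_lit 40) (nat_lit 4) (nat_lit 402) (nat_lit 385) (nat_lit 233)) (XT.lf (nat_lit 0) (nat_lit 2496251609865) (nat_lit 228) (nat_lit 4765749211364) (nat_lit 76) (nat_lit 2464117051944) (nat_lit 35) (nat_lit 5) (nat_lit 38) (nat_lit 5) (nat_lit 36) (nat_lit 4) (nat_lit 403) (nat_lit 385)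 (nat_lit 232))) (XT.nd (nat_lit 78) (nat_lit 152) (nat_lit 0) (XT.lf (nat_lit 0) (nat_lit 6290574160790) (nat_lit 76) (nat_lit 1521217532164) (nat_lit 152) (nat_lit 2866641863940) (nat_lit 34) (nat_lit 5) (nat_lit 35) (nat_lit 5) (nat_lit 36) (nat_lit 4) (nat_lit 404) (nat_lit 385) (nat_lit 231)) (XT.lf (nat_lit 0) (nat_lit 2507231185474) (nat_lit 152) (nat_lit 4005285579711) (nat_lit 76) (nat_lit 5219839569840) (nat_lit 32) (nat_lit 5) (nat_lit 34) (nat_lit 5) (nat_lit 33) (nat_lit 4) (nat_lit 405) (nat_lit 385) (nat_lit 230))))) (XT.nd (nat_lit 312) (nat_lit 380) (nat_lit 0) (XT.nd (nat_lit 156) (nat_lit 228) (nat_lit 0) (XT.nd (nat_lit 78) (nat_lit 152) (nat_lit 0) (XT.lf (nat_lit 0) (nat_lit 8929808018417) (nat_lit 152) (nat_lit 3583145335335) (nat_lit 0) (nat_lit 392468716594) (nat_lit 31) (nat_lit 5) (nat_lit 33) (nat_lit 4) (nat_lit 31) (nat_lit 4) (nat_lit 406) (nat_lit 385) (nat_lit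 229)) (XT.lf (nat_lit 0) (nat_lit 2537525215498) (nat_lit 152) (nat_lit 3259286853964) (nat_lit 76) (nat_lit 8407324224471) (nat_lit 29) (nat_lit 5) (nat_lit 31) (nat_lit 5) (nat_lit 30) (nat_lit 4) (nat_lit 407) (nat_lit 385) (nat_lit 228))) (XT.nd (nat_lit 78) (nat_lit 152) (nat_lit 0) (XT.lf (nat_lit 0) (nat_lit 10271360866906) (nat_lit 152) (nat_lit 3013288602838) (nat_lit 0) (nat_lit 2366417068267) (nat_lit 28) (nat_lit 5) (nat_lit 30) (nat_lit 4) (nat_lit 28) (nat_lit 4) (nat_lit 408) (nat_lit 385) (nat_lit 227)) (XT.lf (nat_lit 0) (nat_lit 2376508667607) (nat_lit 152) (nat_lit 2961805770279) (nat_lit 76) (nat_lit 11923655672391) (nat_lit 26) (nat_lit 5) (nat_lit 28) (nat_lit 5) (nat_lit 27) (nat_lit 4) (nat_lit 409) (nat_lit 385) (nat_lit 226)))) (XT.nd (nat_lit 156) (nat_lit 152) (nat_lit 0) (XT.nd (nat_lit 78) (nat_lit 152) (nat_lit 0) (XT.lf (nat_lit 0) (nat_lit 11567377757985)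 (nat_lit 152) (nat_lit 3240786603047) (nat_lit 0) (nat_lit 4247985351379) (nat_lit 25) (nat_lit 5) (nat_lit 27) (nat_lit 4) (nat_lit 25) (nat_lit 4) (nat_lit 410) (nat_lit 385) (nat_lit 225)) (XT.lf (nat_lit 0) (nat_lit 1632824923564) (nat_lit 152) (nat_lit 3923116565776) (nat_lit 76) (nat_lit 15508253286975) (nat_lit 23) (nat_lit 5) (nat_lit 25) (nat_lit 5) (nat_lit 24) (nat_lit 4) (nat_lit 411) (nat_lit 385) (nat_lit 224))) (XT.nd (nat_lit 78) (nat_lit 76) (nat_lit 0) (XT.lf (nat_lit 0) (nat_lit 12365599092535) (nat_lit 152) (nat_lit 5348993991557) (nat_lit 0) (nat_lit 5588383900912) (nat_lit 22) (nat_lit 5) (nat_lit 24) (nat_lit 4) (nat_lit 22) (nat_lit 4) (nat_lit 412) (nat_lit 385) (nat_lit 223)) (XT.nd (nat_lit 51012) (nat_lit 0) (nat_lit 4332) (XT.lf (nat_lit 0) (nat_lit 18237461778228) (nat_lit 76) (nat_lit 7180286609235) (nat_lit 76) (nat_lit 403071417482) (nat_lit 21) (nat_lit 4)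 (nat_lit 22) (nat_lit 5) (nat_lit 22) (nat_lit 4) (nat_lit 413) (nat_lit 385) (nat_lit 222)) (XT.lf (nat_lit 0) (nat_lit 1197777191726) (nat_lit 532) (nat_lit 30324252394) (nat_lit 532) (nat_lit 30324252394) (nat_lit 78) (nat_lit 3) (nat_lit 85) (nat_lit 3) (nat_lit 85) (nat_lit 5) (nat_lit 386) (nat_lit 386) (nat_lit 248))))))) (XT.nd (nat_lit 624) (nat_lit 1596) (nat_lit 0) (XT.nd (nat_lit 312) (nat_lit 988) (nat_lit 0) (XT.nd (nat_lit 156) (nat_lit 0) (nat_lit 76) (XT.nd (nat_lit 78) (nat_lit 456) (nat_lit 0) (XT.lf (nat_lit 76) (nat_lit 2390181948327) (nat_lit 0) (nat_lit 242522964740) (nat_lit 532) (nat_lit 68311618364) (nat_lit 79) (nat_lit 5) (nat_lit 78) (nat_lit 3) (nat_lit 85) (nat_lit 5) (nat_lit 387) (nat_lit 386) (nat_lit 247)) (XT.lf (nat_lit 0) (nat_lit 109971374013) (nat_lit 532) (nat_lit 544086682611) (nat_lit 608) (nat_lit 2249404124532) (nat_lit 72) (nat_lit 5) (nat_lit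 79) (nat_lit 5) (nat_lit 80) (nat_lit 5) (nat_lit 388) (nat_lit 386) (nat_lit 246))) (XT.nd (nat_lit 78) (nat_lit 0) (nat_lit 76) (XT.lf (nat_lit 0) (nat_lit 434476782005) (nat_lit 532) (nat_lit 753339456817) (nat_lit 608) (nat_lit 1938434511151) (nat_lit 73) (nat_lit 5) (nat_lit 80) (nat_lit 5) (nat_lit 81) (nat_lit 5) (nat_lit 389) (nat_lit 386) (nat_lit 245)) (XT.lf (nat_lit 0) (nat_lit 939842021047) (nat_lit 532) (nat_lit 927979706054) (nat_lit 76) (nat_lit 1504061155423) (nat_lit 74) (nat_lit 5) (nat_lit 81) (nat_lit 5) (nat_lit 75) (nat_lit 5) (nat_lit 390) (nat_lit 386) (nat_lit 244)))) (XT.nd (nat_lit 156) (nat_lit 456) (nat_lit 0) (XT.nd (nat_lit 78) (nat_lit 228) (nat_lit 0) (XT.lf (nat_lit 0) (nat_lit 1662530711924) (nat_lit 532) (nat_lit 1057344537778) (nat_lit 76) (nat_lit 923163091980) (nat_lit 68) (nat_lit 5) (nat_lit 75) (nat_lit 5) (nat_lit 69) (nat_lit 5) (nat_lit 391) (nat_lit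 386) (nat_lit 243)) (XT.lf (nat_lit 0) (nat_lit 2645061928495) (nat_lit 304) (nat_lit 1128826964249) (nat_lit 76) (nat_lit 168863089203) (nat_lit 65) (nat_lit 5) (nat_lit 69) (nat_lit 5) (nat_lit 66) (nat_lit 5) (nat_lit 392) (nat_lit 386) (nat_lit 242))) (XT.nd (nat_lit 78) (nat_lit 228) (nat_lit 0) (XT.lf (nat_lit 0) (nat_lit 3125268581961) (nat_lit 228) (nat_lit 831675071996) (nat_lit 304) (nat_lit 315921348185) (nat_lit 62) (nat_lit 5) (nat_lit 65) (nat_lit 5) (nat_lit 66) (nat_lit 5) (nat_lit 393) (nat_lit 386) (nat_lit 241)) (XT.lf (nat_lit 0) (nat_lit 957627860413) (nat_lit 228) (nat_lit 1110898333692) (nat_lit 76) (nat_lit 2567589120047) (nat_lit 59) (nat_lit 5) (nat_lit 62) (nat_lit 5) (nat_lit 60) (nat_lit 5) (nat_lit 394) (nat_lit 386) (nat_lit 240))))) (XT.nd (nat_lit 312) (nat_lit 836) (nat_lit 0) (XT.nd (nat_lit 156) (nat_lit 380) (nat_lit 0) (XT.nd (nat_lit 78) (nat_lit 152)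 (nat_lit 0) (XT.lf (nat_lit 0) (nat_lit 2596447855009) (nat_lit 304) (nat_lit 988271063834) (nat_lit 76) (nat_lit 1453042236261) (nat_lit 56) (nat_lit 5) (nat_lit 60) (nat_lit 5) (nat_lit 57) (nat_lit 5) (nat_lit 395) (nat_lit 386) (nat_lit 239)) (XT.lf (nat_lit 0) (nat_lit 4686452307843) (nat_lit 228) (nat_lit 751610935811) (nat_lit 76) (nat_lit 45161711821) (nat_lit 54) (nat_lit 5) (nat_lit 57) (nat_lit 5) (nat_lit 55) (nat_lit 5) (nat_lit 396) (nat_lit 386) (nat_lit 238))) (XT.nd (nat_lit 78) (nat_lit 152) (nat_lit 0) (XT.lf (nat_lit 0) (nat_lit 1308751441978) (nat_lit 228) (nat_lit 453594936405) (nat_lit 76) (nat_lit 4209532136066) (nat_lit 51) (nat_lit 5) (nat_lit 54) (nat_lit 5) (nat_lit 52) (nat_lit 5) (nat_lit 397) (nat_lit 386) (nat_lit 237)) (XT.lf (nat_lit 0) (nat_lit 3928695952982) (nat_lit 228) (nat_lit 35196346524) (nat_lit 76) (nat_lit 2548620605082) (nat_lit 49) (nat_lit 5)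 (nat_lit 52) (nat_lit 5) (nat_lit 50) (nat_lit 5) (nat_lit 398) (nat_lit 386) (nat_lit 236)))) (XT.nd (nat_lit 156) (nat_lit 380) (nat_lit 0) (XT.nd (nat_lit 78) (nat_lit 152) (nat_lit 0) (XT.lf (nat_lit 0) (nat_lit 96726875655) (nat_lit 152) (nat_lit 6535010257115) (nat_lit 76) (nat_lit 480499739863) (nat_lit 45) (nat_lit 5) (nat_lit 47) (nat_lit 5) (nat_lit 46) (nat_lit 5) (nat_lit 399) (nat_lit 386) (nat_lit 235)) (XT.lf (nat_lit 0) (nat_lit 1260095041720) (nat_lit 152) (nat_lit 2107269425231) (nat_lit 228) (nat_lit 4401905759696) (nat_lit 43) (nat_lit 5) (nat_lit 45) (nat_lit 5) (nat_lit 46) (nat_lit 5) (nat_lit 400) (nat_lit 386) (nat_lit 234))) (XT.nd (nat_lit 78) (nat_lit 304) (nat_lit 0) (XT.lf (nat_lit 0) (nat_lit 2138129052920) (nat_lit 76) (nat_lit 5311548013736) (nat_lit 152) (nat_lit 1049495167532) (nat_lit 42) (nat_lit 5) (nat_lit 43) (nat_lit 5) (nat_lit 44) (nat_lit 4) (nat_lit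 401) (nat_lit 386) (nat_lit 233)) (XT.nd (nat_lit 78) (nat_lit 76) (nat_lit 0) (XT.lf (nat_lit 0) (nat_lit 2999155128117) (nat_lit 228) (nat_lit 6129534413725) (nat_lit 76) (nat_lit 177772925099) (nat_lit 39) (nat_lit 5) (nat_lit 42) (nat_lit 5) (nat_lit 40) (nat_lit 4) (nat_lit 402) (nat_lit 386) (nat_lit 232)) (XT.lf (nat_lit 0) (nat_lit 4347508793244) (nat_lit 76) (nat_lit 3688686338572) (nat_lit 152) (nat_lit 2161011614479) (nat_lit 38) (nat_lit 5) (nat_lit 39) (nat_lit 5) (nat_lit 40) (nat_lit 4) (nat_lit 403) (nat_lit 386) (nat_lit 231))))))))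
noncomputable def xc119 : XT := (XT.nd (nat_lit 52416) (nat_lit 0) (nat_lit 152) (XT.nd (nat_lit 624) (nat_lit 152) (nat_lit 0) (XT.nd (nat_lit 312) (nat_lit 456) (nat_lit 0) (XT.nd (nat_lit 156) (nat_lit 228) (nat_lit 0) (XT.nd (nat_lit 78) (nat_lit 76) (nat_lit 0) (XT.lf (nat_lit 0) (nat_lit 2870689359768) (nat_lit 228) (nat_lit 5480611577575) (nat_lit 76) (nat_lit 2833734616132) (nat_lit 35) (nat_lit 5) (nat_lit 38) (nat_lit 5) (nat_lit 36) (nat_lit 4) (nat_lit 404) (nat_lit 386) (nat_lit 230)) (XT.lf (nat_lit 0) (nat_lit 7234160299091) (nat_lit 76) (nat_lit 1749400155472) (nat_lit 152) (nat_lit 3296638135251) (nat_lit 34) (nat_lit 5) (nat_lit 35) (nat_lit 5) (nat_lit 36) (nat_lit 4) (nat_lit 405) (nat_lit 386) (nat_lit 229))) (XT.nd (nat_lit 78) (nat_lit 76) (nat_lit 0) (XT.lf (nat_lit 0) (nat_lit 2883315870605) (nat_lit 152) (nat_lit 4606078402882) (nat_lit 76) (nat_lit 6002815511207)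 (nat_lit 32) (nat_lit 5) (nat_lit 34) (nat_lit 5) (nat_lit 33) (nat_lit 4) (nat_lit 406) (nat_lit 386) (nat_lit 228)) (XT.lf (nat_lit 0) (nat_lit 10269279227983) (nat_lit 152) (nat_lit 4120617122626) (nat_lit 0) (nat_lit 451339029744) (nat_lit 31) (nat_lit 5) (nat_lit 33) (nat_lit 4) (nat_lit 31) (nat_lit 4) (nat_lit 407) (nat_lit 386) (nat_lit 227)))) (XT.nd (nat_lit 156) (nat_lit 228) (nat_lit 0) (XT.nd (nat_lit 78) (nat_lit 76) (nat_lit 0) (XT.lf (nat_lit 0) (nat_lit 2918154004187) (nat_lit 152) (nat_lit 3748179869814) (nat_lit 76) (nat_lit 9668422863512) (nat_lit 29) (nat_lit 5) (nat_lit 31) (nat_lit 5) (nat_lit 30) (nat_lit 4) (nat_lit 408) (nat_lit 386) (nat_lit 226)) (XT.lf (nat_lit 0) (nat_lit 11812065002875) (nat_lit 152) (nat_lit 3465281881722) (nat_lit 0) (nat_lit 2721379633640) (nat_lit 28) (nat_lit 5) (nat_lit 30) (nat_lit 4) (nat_lit 28) (nat_lit 4) (nat_lit 409) (nat_lit 386)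 (nat_lit 225))) (XT.nd (nat_lit 78) (nat_lit 76) (nat_lit 0) (XT.lf (nat_lit 0) (nat_lit 2732984973303) (nat_lit 152) (nat_lit 3406076624963) (nat_lit 76) (nat_lit 13712204028109) (nat_lit 26) (nat_lit 5) (nat_lit 28) (nat_lit 5) (nat_lit 27) (nat_lit 4) (nat_lit 410) (nat_lit 386) (nat_lit 224)) (XT.lf (nat_lit 0) (nat_lit 13302484426869) (nat_lit 152) (nat_lit 3726904583277) (nat_lit 0) (nat_lit 4885183158712) (nat_lit 25) (nat_lit 5) (nat_lit 27) (nat_lit 4) (nat_lit 25) (nat_lit 4) (nat_lit 411) (nat_lit 386) (nat_lit 223))))) (XT.nd (nat_lit 51402) (nat_lit 0) (nat_lit 2964) (XT.nd (nat_lit 51246) (nat_lit 0) (nat_lit 3724) (XT.nd (nat_lit 51168) (nat_lit 0) (nat_lit 4180) (XT.lf (nat_lit 0) (nat_lit 1877748666957) (nat_lit 152) (nat_lit 4511584041025) (nat_lit 76) (nat_lit 17834491284392) (nat_lit 23) (nat_lit 5) (nat_lit 25) (nat_lit 5) (nat_lit 24) (nat_lit 4) (nat_lit 412) (nat_lit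 386) (nat_lit 222)) (XT.lf (nat_lit 0) (nat_lit 1377443787274) (nat_lit 532) (nat_lit 34872881184) (nat_lit 532) (nat_lit 34872881184) (nat_lit 78) (nat_lit 3) (nat_lit 85) (nat_lit 3) (nat_lit 85) (nat_lit 5) (nat_lit 387) (nat_lit 387) (nat_lit 246))) (XT.nd (nat_lit 78) (nat_lit 456) (nat_lit 0) (XT.lf (nat_lit 76) (nat_lit 2748709257179) (nat_lit 0) (nat_lit 278901422445) (nat_lit 532) (nat_lit 78558329143) (nat_lit 79) (nat_lit 5) (nat_lit 78) (nat_lit 3) (nat_lit 85) (nat_lit 5) (nat_lit 388) (nat_lit 387) (nat_lit 245)) (XT.lf (nat_lit 0) (nat_lit 126467106687) (nat_lit 532) (nat_lit 625699665932) (nat_lit 608) (nat_lit 2586814733576) (nat_lit 72) (nat_lit 5) (nat_lit 79) (nat_lit 5) (nat_lit 80) (nat_lit 5) (nat_lit 389) (nat_lit 387) (nat_lit 244)))) (XT.nd (nat_lit 156) (nat_lit 836) (nat_lit 0) (XT.nd (nat_lit 78) (nat_lit 0) (nat_lit 76) (XT.lf (nat_lit 0) (nat_lit 499648322686)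 (nat_lit 532) (nat_lit 866340355847) (nat_lit 608) (nat_lit 2229199682058) (nat_lit 73) (nat_lit 5) (nat_lit 80) (nat_lit 5) (nat_lit 81) (nat_lit 5) (nat_lit 390) (nat_lit 387) (nat_lit 243)) (XT.lf (nat_lit 0) (nat_lit 1080818344893) (nat_lit 532) (nat_lit 1067176642382) (nat_lit 76) (nat_lit 1729670325966) (nat_lit 74) (nat_lit 5) (nat_lit 81) (nat_lit 5) (nat_lit 75) (nat_lit 5) (nat_lit 391) (nat_lit 387) (nat_lit 242))) (XT.nd (nat_lit 78) (nat_lit 456) (nat_lit 0) (XT.lf (nat_lit 0) (nat_lit 1911910337122) (nat_lit 532) (nat_lit 1215946199029) (nat_lit 76) (nat_lit 1061637555303) (nat_lit 68) (nat_lit 5) (nat_lit 75) (nat_lit 5) (nat_lit 69) (nat_lit 5) (nat_lit 392) (nat_lit 387) (nat_lit 241)) (XT.nd (nat_lit 78) (nat_lit 228) (nat_lit 0) (XT.lf (nat_lit 0) (nat_lit 3041821234238) (nat_lit 304) (nat_lit 1298150989827) (nat_lit 76) (nat_lit 194192553852) (nat_lit 65) (nat_lit 5) (nat_lit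 69) (nat_lit 5) (nat_lit 66) (nat_lit 5) (nat_lit 393) (nat_lit 387) (nat_lit 240)) (XT.lf (nat_lit 0) (nat_lit 3594058886702) (nat_lit 228) (nat_lit 956426330088) (nat_lit 304) (nat_lit 363309534489) (nat_lit 62) (nat_lit 5) (nat_lit 65) (nat_lit 5) (nat_lit 66) (nat_lit 5) (nat_lit 394) (nat_lit 387) (nat_lit 239))))))) (XT.nd (nat_lit 702) (nat_lit 1064) (nat_lit 0) (XT.nd (nat_lit 312) (nat_lit 912) (nat_lit 0) (XT.nd (nat_lit 156) (nat_lit 380) (nat_lit 0) (XT.nd (nat_lit 78) (nat_lit 228) (nat_lit 0) (XT.lf (nat_lit 0) (nat_lit 1101272053106) (nat_lit 228) (nat_lit 1277533066030) (nat_lit 76) (nat_lit 2952727491044) (nat_lit 59) (nat_lit 5) (nat_lit 62) (nat_lit 5) (nat_lit 60) (nat_lit 5) (nat_lit 395) (nat_lit 387) (nat_lit 238)) (XT.lf (nat_lit 0) (nat_lit 2985915045598) (nat_lit 304) (nat_lit 1136511706307) (nat_lit 76) (nat_lit 1670998575475) (nat_lit 56) (nat_lit 5) (nat_lit 60)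 (nat_lit 5) (nat_lit 57) (nat_lit 5) (nat_lit 396) (nat_lit 387) (nat_lit 237))) (XT.nd (nat_lit 78) (nat_lit 228) (nat_lit 0) (XT.lf (nat_lit 0) (nat_lit 5389420165235) (nat_lit 228) (nat_lit 864352559746) (nat_lit 76) (nat_lit 51935972916) (nat_lit 54) (nat_lit 5) (nat_lit 57) (nat_lit 5) (nat_lit 55) (nat_lit 5) (nat_lit 397) (nat_lit 387) (nat_lit 236)) (XT.lf (nat_lit 0) (nat_lit 1505064168654) (nat_lit 228) (nat_lit 521634161271) (nat_lit 76) (nat_lit 4840961960859) (nat_lit 51) (nat_lit 5) (nat_lit 54) (nat_lit 5) (nat_lit 52) (nat_lit 5) (nat_lit 398) (nat_lit 387) (nat_lit 235)))) (XT.nd (nat_lit 156) (nat_lit 456) (nat_lit 0) (XT.nd (nat_lit 78) (nat_lit 304) (nat_lit 0) (XT.lf (nat_lit 0) (nat_lit 4518000355416) (nat_lit 228) (nat_lit 40475783595) (nat_lit 76) (nat_lit 2930913700505) (nat_lit 49) (nat_lit 5) (nat_lit 52) (nat_lit 5) (nat_lit 50) (nat_lit 5) (nat_lit 399) (nat_lit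 387) (nat_lit 234)) (XT.lf (nat_lit 0) (nat_lit 111235916300) (nat_lit 152) (nat_lit 7515261780230) (nat_lit 76) (nat_lit 552574706252) (nat_lit 45) (nat_lit 5) (nat_lit 47) (nat_lit 5) (nat_lit 46) (nat_lit 5) (nat_lit 400) (nat_lit 387) (nat_lit 233))) (XT.nd (nat_lit 78) (nat_lit 304) (nat_lit 0) (XT.lf (nat_lit 0) (nat_lit 1449109312122) (nat_lit 152) (nat_lit 2423359833296) (nat_lit 228) (nat_lit 5062191614552) (nat_lit 43) (nat_lit 5) (nat_lit 45) (nat_lit 5) (nat_lit 46) (nat_lit 5) (nat_lit 401) (nat_lit 387) (nat_lit 232)) (XT.nd (nat_lit 78) (nat_lit 228) (nat_lit 0) (XT.lf (nat_lit 0) (nat_lit 2458848424297) (nat_lit 76) (nat_lit 6108280210126) (nat_lit 152) (nat_lit 1206919434272) (nat_lit 42) (nat_lit 5) (nat_lit 43) (nat_lit 5) (nat_lit 44) (nat_lit 4) (nat_lit 402) (nat_lit 387) (nat_lit 231)) (XT.lf (nat_lit 0) (nat_lit 3449028404702) (nat_lit 228) (nat_lit 7048964562649)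 (nat_lit 76) (nat_lit 204438869041) (nat_lit 39) (nat_lit 5) (nat_lit 42) (nat_lit 5) (nat_lit 40) (nat_lit 4) (nat_lit 403) (nat_lit 387) (nat_lit 230)))))) (XT.nd (nat_lit 312) (nat_lit 532) (nat_lit 0) (XT.nd (nat_lit 156) (nat_lit 228) (nat_lit 0) (XT.nd (nat_lit 78) (nat_lit 228) (nat_lit 0) (XT.lf (nat_lit 0) (nat_lit 4999635124254) (nat_lit 76) (nat_lit 4241989284030) (nat_lit 152) (nat_lit 2485163349418) (nat_lit 38) (nat_lit 5) (nat_lit 39) (nat_lit 5) (nat_lit 40) (nat_lit 4) (nat_lit 404) (nat_lit 387) (nat_lit 229)) (XT.lf (nat_lit 0) (nat_lit 3301292770102) (nat_lit 228) (nat_lit 6302703302496) (nat_lit 76) (nat_lit 3258794813388) (nat_lit 35) (nat_lit 5) (nat_lit 38) (nat_lit 5) (nat_lit 36) (nat_lit 4) (nat_lit 405) (nat_lit 387) (nat_lit 228))) (XT.nd (nat_lit 78) (nat_lit 152) (nat_lit 0) (XT.lf (nat_lit 0) (nat_lit 8319284354679) (nat_lit 76) (nat_lit 2011810173865) (nat_lit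 152) (nat_lit 3791133849278) (nat_lit 34) (nat_lit 5) (nat_lit 35) (nat_lit 5) (nat_lit 36) (nat_lit 4) (nat_lit 406) (nat_lit 387) (nat_lit 227)) (XT.lf (nat_lit 0) (nat_lit 3315813256724) (nat_lit 152) (nat_lit 5296990152890) (nat_lit 76) (nat_lit 6903237842342) (nat_lit 32) (nat_lit 5) (nat_lit 34) (nat_lit 5) (nat_lit 33) (nat_lit 4) (nat_lit 407) (nat_lit 387) (nat_lit 226)))) (XT.nd (nat_lit 156) (nat_lit 304) (nat_lit 0) (XT.nd (nat_lit 78) (nat_lit 152) (nat_lit 0) (XT.lf (nat_lit 0) (nat_lit 11809671117325) (nat_lit 152) (nat_lit 4738709681183) (nat_lit 0) (nat_lit 519039888486) (nat_lit 31) (nat_lit 5) (nat_lit 33) (nat_lit 4) (nat_lit 31) (nat_lit 4) (nat_lit 408) (nat_lit 387) (nat_lit 225)) (XT.lf (nat_lit 0) (nat_lit 3355877109627) (nat_lit 152) (nat_lit 4310406841029) (nat_lit 76) (nat_lit 11118686297100) (nat_lit 29) (nat_lit 5) (nat_lit 31) (nat_lit 5) (nat_lit 30) (nat_lit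 4) (nat_lit 409) (nat_lit 387) (nat_lit 224))) (XT.nd (nat_lit 78) (nat_lit 228) (nat_lit 0) (XT.lf (nat_lit 0) (nat_lit 13583874757793) (nat_lit 152) (nat_lit 3985074155253) (nat_lit 0) (nat_lit 3129586582568) (nat_lit 28) (nat_lit 5) (nat_lit 30) (nat_lit 4) (nat_lit 28) (nat_lit 4) (nat_lit 410) (nat_lit 387) (nat_lit 223)) (XT.nd (nat_lit 78) (nat_lit 76) (nat_lit 0) (XT.lf (nat_lit 0) (nat_lit 3142932723498) (nat_lit 152) (nat_lit 3916988110498) (nat_lit 76) (nat_lit 15769034635999) (nat_lit 26) (nat_lit 5) (nat_lit 28) (nat_lit 5) (nat_lit 27) (nat_lit 4) (nat_lit 411) (nat_lit 387) (nat_lit 222)) (XT.lf (nat_lit 0) (nat_lit 15297857094820) (nat_lit 152) (nat_lit 4285940263035) (nat_lit 0) (nat_lit 5617960636017) (nat_lit 25) (nat_lit 5) (nat_lit 27) (nat_lit 4) (nat_lit 25) (nat_lit 4) (nat_lit 412) (nat_lit 387) (nat_lit 221))))))))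
noncomputable def xc120 : XT := (XT.nd (nat_lit 1326) (nat_lit 988) (nat_lit 0) (XT.nd (nat_lit 624) (nat_lit 1748) (nat_lit 0) (XT.nd (nat_lit 312) (nat_lit 760) (nat_lit 0) (XT.nd (nat_lit 156) (nat_lit 456) (nat_lit 0) (XT.nd (nat_lit 78) (nat_lit 0) (nat_lit 0) (XT.lf (nat_lit 0) (nat_lit 1584060368060) (nat_lit 532) (nat_lit 40103806504) (nat_lit 532) (nat_lit 40103806504) (nat_lit 78) (nat_lit 3) (nat_lit 85) (nat_lit 3) (nat_lit 85) (nat_lit 5) (nat_lit 388) (nat_lit 388) (nat_lit 244)) (XT.lf (nat_lit 76) (nat_lit 3161015658310) (nat_lit 0) (nat_lit 320736645636) (nat_lit 532) (nat_lit 90342054336) (nat_lit 79) (nat_lit 5) (nat_lit 78) (nat_lit 3) (nat_lit 85) (nat_lit 5) (nat_lit 389) (nat_lit 388) (nat_lit 243))) (XT.nd (nat_lit 78) (nat_lit 0) (nat_lit 76) (XT.lf (nat_lit 0) (nat_lit 145437192782) (nat_lit 532) (nat_lit 719554601402) (nat_lit 608) (nat_lit 2974836936326) (nat_lit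 72) (nat_lit 5) (nat_lit 79) (nat_lit 5) (nat_lit 80) (nat_lit 5) (nat_lit 390) (nat_lit 388) (nat_lit 242)) (XT.lf (nat_lit 0) (nat_lit 574595588767) (nat_lit 532) (nat_lit 996291394485) (nat_lit 608) (nat_lit 2563579630007) (nat_lit 73) (nat_lit 5) (nat_lit 80) (nat_lit 5) (nat_lit 81) (nat_lit 5) (nat_lit 391) (nat_lit 388) (nat_lit 241)))) (XT.nd (nat_lit 156) (nat_lit 456) (nat_lit 0) (XT.nd (nat_lit 78) (nat_lit 456) (nat_lit 0) (XT.lf (nat_lit 0) (nat_lit 1242941112271) (nat_lit 532) (nat_lit 1227253123933) (nat_lit 76) (nat_lit 1989120872766) (nat_lit 74) (nat_lit 5) (nat_lit 81) (nat_lit 5) (nat_lit 75) (nat_lit 5) (nat_lit 392) (nat_lit 388) (nat_lit 240)) (XT.lf (nat_lit 0) (nat_lit 2198696901611) (nat_lit 532) (nat_lit 1398338114203) (nat_lit 76) (nat_lit 1220883188241) (nat_lit 68) (nat_lit 5) (nat_lit 75) (nat_lit 5) (nat_lit 69) (nat_lit 5) (nat_lit 393) (nat_lit 388) (nat_lit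 239))) (XT.nd (nat_lit 78) (nat_lit 228) (nat_lit 0) (XT.lf (nat_lit 0) (nat_lit 3498094431825) (nat_lit 304) (nat_lit 1492873623889) (nat_lit 76) (nat_lit 223321437890) (nat_lit 65) (nat_lit 5) (nat_lit 69) (nat_lit 5) (nat_lit 66) (nat_lit 5) (nat_lit 394) (nat_lit 388) (nat_lit 238)) (XT.lf (nat_lit 0) (nat_lit 4133167732899) (nat_lit 228) (nat_lit 1099890277554) (nat_lit 304) (nat_lit 417805952622) (nat_lit 62) (nat_lit 5) (nat_lit 65) (nat_lit 5) (nat_lit 66) (nat_lit 5) (nat_lit 395) (nat_lit 388) (nat_lit 237))))) (XT.nd (nat_lit 312) (nat_lit 912) (nat_lit 0) (XT.nd (nat_lit 156) (nat_lit 380) (nat_lit 0) (XT.nd (nat_lit 78) (nat_lit 228) (nat_lit 0) (XT.lf (nat_lit 0) (nat_lit 1266462871379) (nat_lit 228) (nat_lit 1469163012539) (nat_lit 76) (nat_lit 3395636616962) (nat_lit 59) (nat_lit 5) (nat_lit 62) (nat_lit 5) (nat_lit 60) (nat_lit 5) (nat_lit 396) (nat_lit 388) (nat_lit 236))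 (XT.lf (nat_lit 0) (nat_lit 3433802311768) (nat_lit 304) (nat_lit 1306988449320) (nat_lit 76) (nat_lit 1921648364650) (nat_lit 56) (nat_lit 5) (nat_lit 60) (nat_lit 5) (nat_lit 57) (nat_lit 5) (nat_lit 397) (nat_lit 388) (nat_lit 235))) (XT.nd (nat_lit 78) (nat_lit 228) (nat_lit 0) (XT.lf (nat_lit 0) (nat_lit 6197833198501) (nat_lit 228) (nat_lit 994005431279) (nat_lit 76) (nat_lit 59726372121) (nat_lit 54) (nat_lit 5) (nat_lit 57) (nat_lit 5) (nat_lit 55) (nat_lit 5) (nat_lit 398) (nat_lit 388) (nat_lit 234)) (XT.lf (nat_lit 0) (nat_lit 1730823801800) (nat_lit 228) (nat_lit 599879273670) (nat_lit 76) (nat_lit 5567106258302) (nat_lit 51) (nat_lit 5) (nat_lit 54) (nat_lit 5) (nat_lit 52) (nat_lit 5) (nat_lit 399) (nat_lit 388) (nat_lit 233)))) (XT.nd (nat_lit 156) (nat_lit 456) (nat_lit 0) (XT.nd (nat_lit 78) (nat_lit 304) (nat_lit 0) (XT.lf (nat_lit 0) (nat_lit 5195700415902) (nat_lit 228)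 (nat_lit 46547139861) (nat_lit 76) (nat_lit 3370550759105) (nat_lit 49) (nat_lit 5) (nat_lit 52) (nat_lit 5) (nat_lit 50) (nat_lit 5) (nat_lit 400) (nat_lit 388) (nat_lit 232)) (XT.lf (nat_lit 0) (nat_lit 127921310774) (nat_lit 152) (nat_lit 8642551035581) (nat_lit 76) (nat_lit 635460916281) (nat_lit 45) (nat_lit 5) (nat_lit 47) (nat_lit 5) (nat_lit 46) (nat_lit 5) (nat_lit 401) (nat_lit 388) (nat_lit 231))) (XT.nd (nat_lit 78) (nat_lit 304) (nat_lit 0) (XT.lf (nat_lit 0) (nat_lit 1666475719636) (nat_lit 152) (nat_lit 2786863803965) (nat_lit 228) (nat_lit 5821520349854) (nat_lit 43) (nat_lit 5) (nat_lit 45) (nat_lit 5) (nat_lit 46) (nat_lit 5) (nat_lit 402) (nat_lit 388) (nat_lit 230)) (XT.nd (nat_lit 78) (nat_lit 228) (nat_lit 0) (XT.lf (nat_lit 0) (nat_lit 2827675698103) (nat_lit 76) (nat_lit 7024522237357) (nat_lit 152) (nat_lit 1387957343068) (nat_lit 42) (nat_lit 5) (nat_lit 43) (nat_lit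 5) (nat_lit 44) (nat_lit 4) (nat_lit 403) (nat_lit 388) (nat_lit 229)) (XT.lf (nat_lit 0) (nat_lit 3966382670978) (nat_lit 228) (nat_lit 8106309237114) (nat_lit 76) (nat_lit 235104703313) (nat_lit 39) (nat_lit 5) (nat_lit 42) (nat_lit 5) (nat_lit 40) (nat_lit 4) (nat_lit 404) (nat_lit 388) (nat_lit 228))))))) (XT.nd (nat_lit 51870) (nat_lit 0) (nat_lit 2508) (XT.nd (nat_lit 312) (nat_lit 456) (nat_lit 0) (XT.nd (nat_lit 156) (nat_lit 228) (nat_lit 0) (XT.nd (nat_lit 78) (nat_lit 228) (nat_lit 0) (XT.lf (nat_lit 0) (nat_lit 5749580401984) (nat_lit 76) (nat_lit 4878287672605) (nat_lit 152) (nat_lit 2857937846363) (nat_lit 38) (nat_lit 5) (nat_lit 39) (nat_lit 5) (nat_lit 40) (nat_lit 4) (nat_lit 405) (nat_lit 388) (nat_lit 227)) (XT.lf (nat_lit 0) (nat_lit 3796486690434) (nat_lit 228) (nat_lit 7248108789011) (nat_lit 76) (nat_lit 3747614039053) (nat_lit 35) (nat_lit 5) (nat_lit 38) (nat_lit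 5) (nat_lit 36) (nat_lit 4) (nat_lit 406) (nat_lit 388) (nat_lit 226))) (XT.nd (nat_lit 78) (nat_lit 152) (nat_lit 0) (XT.lf (nat_lit 0) (nat_lit 9567177015990) (nat_lit 76) (nat_lit 2313581696218) (nat_lit 152) (nat_lit 4359803921936) (nat_lit 34) (nat_lit 5) (nat_lit 35) (nat_lit 5) (nat_lit 36) (nat_lit 4) (nat_lit 407) (nat_lit 388) (nat_lit 225)) (XT.lf (nat_lit 0) (nat_lit 3813185249412) (nat_lit 152) (nat_lit 6091538667941) (nat_lit 76) (nat_lit 7938723522062) (nat_lit 32) (nat_lit 5) (nat_lit 34) (nat_lit 5) (nat_lit 33) (nat_lit 4) (nat_lit 408) (nat_lit 388) (nat_lit 224)))) (XT.nd (nat_lit 156) (nat_lit 228) (nat_lit 0) (XT.nd (nat_lit 78) (nat_lit 152) (nat_lit 0) (XT.lf (nat_lit 0) (nat_lit 13581121788813) (nat_lit 152) (nat_lit 5449516125922) (nat_lit 0) (nat_lit 596895874996) (nat_lit 31) (nat_lit 5) (nat_lit 33) (nat_lit 4) (nat_lit 31) (nat_lit 4) (nat_lit 409) (nat_lit 388)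 (nat_lit 223)) (XT.lf (nat_lit 0) (nat_lit 3859258679710) (nat_lit 152) (nat_lit 4956967860183) (nat_lit 76) (nat_lit 12786489244735) (nat_lit 29) (nat_lit 5) (nat_lit 31) (nat_lit 5) (nat_lit 30) (nat_lit 4) (nat_lit 410) (nat_lit 388) (nat_lit 222))) (XT.nd (nat_lit 78) (nat_lit 152) (nat_lit 0) (XT.lf (nat_lit 0) (nat_lit 15621455974854) (nat_lit 152) (nat_lit 4582835271942) (nat_lit 0) (nat_lit 3599024572888) (nat_lit 28) (nat_lit 5) (nat_lit 30) (nat_lit 4) (nat_lit 28) (nat_lit 4) (nat_lit 411) (nat_lit 388) (nat_lit 221)) (XT.lf (nat_lit 0) (nat_lit 3614372635199) (nat_lit 152) (nat_lit 4504536320865) (nat_lit 76) (nat_lit 18134389834177) (nat_lit 26) (nat_lit 5) (nat_lit 28) (nat_lit 5) (nat_lit 27) (nat_lit 4) (nat_lit 412) (nat_lit 388) (nat_lit 220))))) (XT.nd (nat_lit 312) (nat_lit 988) (nat_lit 0) (XT.nd (nat_lit 156) (nat_lit 456) (nat_lit 0) (XT.nd (nat_lit 78) (nat_lit 0)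 (nat_lit 0) (XT.lf (nat_lit 0) (nat_lit 1821669432867) (nat_lit 532) (nat_lit 46119372294) (nat_lit 532) (nat_lit 46119372294) (nat_lit 78) (nat_lit 3) (nat_lit 85) (nat_lit 3) (nat_lit 85) (nat_lit 5) (nat_lit 389) (nat_lit 389) (nat_lit 242)) (XT.lf (nat_lit 76) (nat_lit 3635168016550) (nat_lit 0) (nat_lit 368847149911) (nat_lit 532) (nat_lit 103893344203) (nat_lit 79) (nat_lit 5) (nat_lit 78) (nat_lit 3) (nat_lit 85) (nat_lit 5) (nat_lit 390) (nat_lit 389) (nat_lit 241))) (XT.nd (nat_lit 78) (nat_lit 0) (nat_lit 76) (XT.lf (nat_lit 0) (nat_lit 167252786891) (nat_lit 532) (nat_lit 827487780709) (nat_lit 608) (nat_lit 3421062471265) (nat_lit 72) (nat_lit 5) (nat_lit 79) (nat_lit 5) (nat_lit 80) (nat_lit 5) (nat_lit 391) (nat_lit 389) (nat_lit 240)) (XT.lf (nat_lit 0) (nat_lit 660784940449) (nat_lit 532) (nat_lit 1145735092513) (nat_lit 608) (nat_lit 2948116571212) (nat_lit 73) (nat_lit 5)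 (nat_lit 80) (nat_lit 5) (nat_lit 81) (nat_lit 5) (nat_lit 392) (nat_lit 389) (nat_lit 239)))) (XT.nd (nat_lit 156) (nat_lit 684) (nat_lit 0) (XT.nd (nat_lit 78) (nat_lit 456) (nat_lit 0) (XT.lf (nat_lit 0) (nat_lit 1429382290941) (nat_lit 532) (nat_lit 1411341081328) (nat_lit 76) (nat_lit 2287489002097) (nat_lit 74) (nat_lit 5) (nat_lit 81) (nat_lit 5) (nat_lit 75) (nat_lit 5) (nat_lit 393) (nat_lit 389) (nat_lit 238)) (XT.lf (nat_lit 0) (nat_lit 2528501447378) (nat_lit 532) (nat_lit 1608088820233) (nat_lit 76) (nat_lit 1404015666206) (nat_lit 68) (nat_lit 5) (nat_lit 75) (nat_lit 5) (nat_lit 69) (nat_lit 5) (nat_lit 394) (nat_lit 389) (nat_lit 237))) (XT.nd (nat_lit 78) (nat_lit 456) (nat_lit 0) (XT.lf (nat_lit 0) (nat_lit 4022808606015) (nat_lit 304) (nat_lit 1716804656575) (nat_lit 76) (nat_lit 256819654299) (nat_lit 65) (nat_lit 5) (nat_lit 69) (nat_lit 5) (nat_lit 66) (nat_lit 5) (nat_lit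 395) (nat_lit 389) (nat_lit 236)) (XT.nd (nat_lit 78) (nat_lit 228) (nat_lit 0) (XT.lf (nat_lit 0) (nat_lit 4753142902809) (nat_lit 228) (nat_lit 1264873817640) (nat_lit 304) (nat_lit 480476836412) (nat_lit 62) (nat_lit 5) (nat_lit 65) (nat_lit 5) (nat_lit 66) (nat_lit 5) (nat_lit 396) (nat_lit 389) (nat_lit 235)) (XT.lf (nat_lit 0) (nat_lit 1456432309880) (nat_lit 228) (nat_lit 1689537454292) (nat_lit 76) (nat_lit 3904982111216) (nat_lit 59) (nat_lit 5) (nat_lit 62) (nat_lit 5) (nat_lit 60) (nat_lit 5) (nat_lit 397) (nat_lit 389) (nat_lit 234))))))))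
noncomputable def xc121 : XT := (XT.nd (nat_lit 52728) (nat_lit 0) (nat_lit 380) (XT.nd (nat_lit 624) (nat_lit 760) (nat_lit 0) (XT.nd (nat_lit 312) (nat_lit 760) (nat_lit 0) (XT.nd (nat_lit 156) (nat_lit 380) (nat_lit 0) (XT.nd (nat_lit 78) (nat_lit 152) (nat_lit 0) (XT.lf (nat_lit 0) (nat_lit 3948872665588) (nat_lit 304) (nat_lit 1503036706940) (nat_lit 76) (nat_lit 2209895621505) (nat_lit 56) (nat_lit 5) (nat_lit 60) (nat_lit 5) (nat_lit 57) (nat_lit 5) (nat_lit 398) (nat_lit 389) (nat_lit 233)) (XT.lf (nat_lit 0) (nat_lit 7127508184688) (nat_lit 228) (nat_lit 1143106236573) (nat_lit 76) (nat_lit 68685330411) (nat_lit 54) (nat_lit 5) (nat_lit 57) (nat_lit 5) (nat_lit 55) (nat_lit 5) (nat_lit 399) (nat_lit 389) (nat_lit 232))) (XT.nd (nat_lit 78) (nat_lit 152) (nat_lit 0) (XT.lf (nat_lit 0) (nat_lit 1990447378004) (nat_lit 228) (nat_lit 689861155804) (nat_lit 76) (nat_lit 6402172199553)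 (nat_lit 51) (nat_lit 5) (nat_lit 54) (nat_lit 5) (nat_lit 52) (nat_lit 5) (nat_lit 400) (nat_lit 389) (nat_lit 231)) (XT.lf (nat_lit 0) (nat_lit 5975055483711) (nat_lit 228) (nat_lit 53529202317) (nat_lit 76) (nat_lit 3876133375635) (nat_lit 49) (nat_lit 5) (nat_lit 52) (nat_lit 5) (nat_lit 50) (nat_lit 5) (nat_lit 401) (nat_lit 389) (nat_lit 230)))) (XT.nd (nat_lit 156) (nat_lit 304) (nat_lit 0) (XT.nd (nat_lit 78) (nat_lit 152) (nat_lit 0) (XT.lf (nat_lit 0) (nat_lit 147109512705) (nat_lit 152) (nat_lit 9938933682083) (nat_lit 76) (nat_lit 730780056817) (nat_lit 45) (nat_lit 5) (nat_lit 47) (nat_lit 5) (nat_lit 46) (nat_lit 5) (nat_lit 402) (nat_lit 389) (nat_lit 229)) (XT.lf (nat_lit 0) (nat_lit 1916447085668) (nat_lit 152) (nat_lit 3204893371290) (nat_lit 228) (nat_lit 6694748397130) (nat_lit 43) (nat_lit 5) (nat_lit 45) (nat_lit 5) (nat_lit 46) (nat_lit 5) (nat_lit 403) (nat_lit 389)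 (nat_lit 228))) (XT.nd (nat_lit 78) (nat_lit 228) (nat_lit 0) (XT.lf (nat_lit 0) (nat_lit 3251827060502) (nat_lit 76) (nat_lit 8078200569718) (nat_lit 152) (nat_lit 1596150939731) (nat_lit 42) (nat_lit 5) (nat_lit 43) (nat_lit 5) (nat_lit 44) (nat_lit 4) (nat_lit 404) (nat_lit 389) (nat_lit 227)) (XT.lf (nat_lit 0) (nat_lit 4561340075837) (nat_lit 228) (nat_lit 9322255615171) (nat_lit 76) (nat_lit 270370411770) (nat_lit 39) (nat_lit 5) (nat_lit 42) (nat_lit 5) (nat_lit 40) (nat_lit 4) (nat_lit 405) (nat_lit 389) (nat_lit 226))))) (XT.nd (nat_lit 312) (nat_lit 228) (nat_lit 0) (XT.nd (nat_lit 156) (nat_lit 228) (nat_lit 0) (XT.nd (nat_lit 78) (nat_lit 228) (nat_lit 0) (XT.lf (nat_lit 0) (nat_lit 6612017469156) (nat_lit 76) (nat_lit 5610030820450) (nat_lit 152) (nat_lit 3286628519182) (nat_lit 38) (nat_lit 5) (nat_lit 39) (nat_lit 5) (nat_lit 40) (nat_lit 4) (nat_lit 406) (nat_lit 389) (nat_lit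 225)) (XT.lf (nat_lit 0) (nat_lit 4365959697640) (nat_lit 228) (nat_lit 8335325100665) (nat_lit 76) (nat_lit 4309756147676) (nat_lit 35) (nat_lit 5) (nat_lit 38) (nat_lit 5) (nat_lit 36) (nat_lit 4) (nat_lit 407) (nat_lit 389) (nat_lit 224))) (XT.nd (nat_lit 78) (nat_lit 152) (nat_lit 0) (XT.lf (nat_lit 0) (nat_lit 11002253574520) (nat_lit 76) (nat_lit 2660618947834) (nat_lit 152) (nat_lit 5013774506647) (nat_lit 34) (nat_lit 5) (nat_lit 35) (nat_lit 5) (nat_lit 36) (nat_lit 4) (nat_lit 408) (nat_lit 389) (nat_lit 223)) (XT.lf (nat_lit 0) (nat_lit 4385163039984) (nat_lit 152) (nat_lit 7005269462172) (nat_lit 76) (nat_lit 9129532052918) (nat_lit 32) (nat_lit 5) (nat_lit 34) (nat_lit 5) (nat_lit 33) (nat_lit 4) (nat_lit 409) (nat_lit 389) (nat_lit 222)))) (XT.nd (nat_lit 51558) (nat_lit 0) (nat_lit 3268) (XT.nd (nat_lit 78) (nat_lit 152) (nat_lit 0) (XT.lf (nat_lit 0) (nat_lit 15618290060077)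 (nat_lit 152) (nat_lit 6266943539186) (nat_lit 0) (nat_lit 686430258693) (nat_lit 31) (nat_lit 5) (nat_lit 33) (nat_lit 4) (nat_lit 31) (nat_lit 4) (nat_lit 410) (nat_lit 389) (nat_lit 221)) (XT.lf (nat_lit 0) (nat_lit 4438147484418) (nat_lit 152) (nat_lit 5700513033917) (nat_lit 76) (nat_lit 14704462633767) (nat_lit 29) (nat_lit 5) (nat_lit 31) (nat_lit 5) (nat_lit 30) (nat_lit 4) (nat_lit 411) (nat_lit 389) (nat_lit 220))) (XT.nd (nat_lit 78) (nat_lit 456) (nat_lit 0) (XT.lf (nat_lit 0) (nat_lit 2094919855056) (nat_lit 532) (nat_lit 53037274217) (nat_lit 532) (nat_lit 53037274217) (nat_lit 78) (nat_lit 3) (nat_lit 85) (nat_lit 3) (nat_lit 85) (nat_lit 5) (nat_lit 390) (nat_lit 390) (nat_lit 240)) (XT.nd (nat_lit 78) (nat_lit 456) (nat_lit 0) (XT.lf (nat_lit 76) (nat_lit 4180443226210) (nat_lit 0) (nat_lit 424174228015) (nat_lit 532) (nat_lit 119477332010) (nat_lit 79) (nat_lit 5) (nat_lit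 78) (nat_lit 3) (nat_lit 85) (nat_lit 5) (nat_lit 391) (nat_lit 390) (nat_lit 239)) (XT.lf (nat_lit 0) (nat_lit 192340716413) (nat_lit 532) (nat_lit 951610939571) (nat_lit 608) (nat_lit 3934221837789) (nat_lit 72) (nat_lit 5) (nat_lit 79) (nat_lit 5) (nat_lit 80) (nat_lit 5) (nat_lit 392) (nat_lit 390) (nat_lit 238))))))) (XT.nd (nat_lit 624) (nat_lit 1520) (nat_lit 0) (XT.nd (nat_lit 312) (nat_lit 836) (nat_lit 0) (XT.nd (nat_lit 156) (nat_lit 608) (nat_lit 0) (XT.nd (nat_lit 78) (nat_lit 0) (nat_lit 76) (XT.lf (nat_lit 0) (nat_lit 759902691624) (nat_lit 532) (nat_lit 1317595347963) (nat_lit 608) (nat_lit 3390334054401) (nat_lit 73) (nat_lit 5) (nat_lit 80) (nat_lit 5) (nat_lit 81) (nat_lit 5) (nat_lit 393) (nat_lit 390) (nat_lit 237)) (XT.lf (nat_lit 0) (nat_lit 1643789643527) (nat_lit 532) (nat_lit 1623042235062) (nat_lit 76) (nat_lit 2630612351213) (nat_lit 74) (nat_lit 5) (nat_lit 81)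 (nat_lit 5) (nat_lit 75) (nat_lit 5) (nat_lit 394) (nat_lit 390) (nat_lit 236))) (XT.nd (nat_lit 78) (nat_lit 228) (nat_lit 0) (XT.lf (nat_lit 0) (nat_lit 2907776672444) (nat_lit 532) (nat_lit 1849302134875) (nat_lit 76) (nat_lit 1614618015933) (nat_lit 68) (nat_lit 5) (nat_lit 75) (nat_lit 5) (nat_lit 69) (nat_lit 5) (nat_lit 395) (nat_lit 390) (nat_lit 235)) (XT.lf (nat_lit 0) (nat_lit 4626229904036) (nat_lit 304) (nat_lit 1974325346821) (nat_lit 76) (nat_lit 295342602993) (nat_lit 65) (nat_lit 5) (nat_lit 69) (nat_lit 5) (nat_lit 66) (nat_lit 5) (nat_lit 396) (nat_lit 390) (nat_lit 234)))) (XT.nd (nat_lit 156) (nat_lit 380) (nat_lit 0) (XT.nd (nat_lit 78) (nat_lit 228) (nat_lit 0) (XT.lf (nat_lit 0) (nat_lit 5466114345773) (nat_lit 228) (nat_lit 1454604889115) (nat_lit 304) (nat_lit 552548354990) (nat_lit 62) (nat_lit 5) (nat_lit 65) (nat_lit 5) (nat_lit 66) (nat_lit 5) (nat_lit 397) (nat_lit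 390) (nat_lit 233)) (XT.lf (nat_lit 0) (nat_lit 1674897162255) (nat_lit 228) (nat_lit 1942968064776) (nat_lit 76) (nat_lit 4490729429191) (nat_lit 59) (nat_lit 5) (nat_lit 62) (nat_lit 5) (nat_lit 60) (nat_lit 5) (nat_lit 398) (nat_lit 390) (nat_lit 232))) (XT.nd (nat_lit 78) (nat_lit 152) (nat_lit 0) (XT.lf (nat_lit 0) (nat_lit 4541203570761) (nat_lit 304) (nat_lit 1728492205587) (nat_lit 76) (nat_lit 2541379966362) (nat_lit 56) (nat_lit 5) (nat_lit 60) (nat_lit 5) (nat_lit 57) (nat_lit 5) (nat_lit 399) (nat_lit 390) (nat_lit 231)) (XT.lf (nat_lit 0) (nat_lit 8196634417240) (nat_lit 228) (nat_lit 1314572164953) (nat_lit 76) (nat_lit 78988131841) (nat_lit 54) (nat_lit 5) (nat_lit 57) (nat_lit 5) (nat_lit 55) (nat_lit 5) (nat_lit 400) (nat_lit 390) (nat_lit 230))))) (XT.nd (nat_lit 312) (nat_lit 684) (nat_lit 0) (XT.nd (nat_lit 156) (nat_lit 456) (nat_lit 0) (XT.nd (nat_lit 78) (nat_lit 152)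 (nat_lit 0) (XT.lf (nat_lit 0) (nat_lit 2289014489192) (nat_lit 228) (nat_lit 793340322432) (nat_lit 76) (nat_lit 7362498031381) (nat_lit 51) (nat_lit 5) (nat_lit 54) (nat_lit 5) (nat_lit 52) (nat_lit 5) (nat_lit 401) (nat_lit 390) (nat_lit 229)) (XT.lf (nat_lit 0) (nat_lit 6871313810369) (nat_lit 228) (nat_lit 61558576219) (nat_lit 76) (nat_lit 4457553383996) (nat_lit 49) (nat_lit 5) (nat_lit 52) (nat_lit 5) (nat_lit 50) (nat_lit 5) (nat_lit 402) (nat_lit 390) (nat_lit 228))) (XT.nd (nat_lit 78) (nat_lit 152) (nat_lit 0) (XT.lf (nat_lit 0) (nat_lit 169175943630) (nat_lit 152) (nat_lit 11429773727716) (nat_lit 76) (nat_lit 840397067679) (nat_lit 45) (nat_lit 5) (nat_lit 47) (nat_lit 5) (nat_lit 46) (nat_lit 5) (nat_lit 403) (nat_lit 390) (nat_lit 227)) (XT.lf (nat_lit 0) (nat_lit 2203914154633) (nat_lit 152) (nat_lit 3685627374510) (nat_lit 228) (nat_lit 7698960652766) (nat_lit 43) (nat_lit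 5) (nat_lit 45) (nat_lit 5) (nat_lit 46) (nat_lit 5) (nat_lit 404) (nat_lit 390) (nat_lit 226)))) (XT.nd (nat_lit 156) (nat_lit 380) (nat_lit 0) (XT.nd (nat_lit 78) (nat_lit 228) (nat_lit 0) (XT.lf (nat_lit 0) (nat_lit 3739601125388) (nat_lit 76) (nat_lit 9289930652724) (nat_lit 152) (nat_lit 1835573577064) (nat_lit 42) (nat_lit 5) (nat_lit 43) (nat_lit 5) (nat_lit 44) (nat_lit 4) (nat_lit 405) (nat_lit 390) (nat_lit 225)) (XT.lf (nat_lit 0) (nat_lit 5245541090398) (nat_lit 228) (nat_lit 10720593951768) (nat_lit 76) (nat_lit 310925975774) (nat_lit 39) (nat_lit 5) (nat_lit 42) (nat_lit 5) (nat_lit 40) (nat_lit 4) (nat_lit 406) (nat_lit 390) (nat_lit 224))) (XT.nd (nat_lit 78) (nat_lit 304) (nat_lit 0) (XT.lf (nat_lit 0) (nat_lit 7603820094728) (nat_lit 76) (nat_lit 6451535441214) (nat_lit 152) (nat_lit 3779622793933) (nat_lit 38) (nat_lit 5) (nat_lit 39) (nat_lit 5) (nat_lit 40) (nat_lit 4)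 (nat_lit 407) (nat_lit 390) (nat_lit 223)) (XT.nd (nat_lit 78) (nat_lit 76) (nat_lit 0) (XT.lf (nat_lit 0) (nat_lit 5020853655040) (nat_lit 228) (nat_lit 9585623860699) (nat_lit 76) (nat_lit 4956219571919) (nat_lit 35) (nat_lit 5) (nat_lit 38) (nat_lit 5) (nat_lit 36) (nat_lit 4) (nat_lit 408) (nat_lit 390) (nat_lit 222)) (XT.lf (nat_lit 0) (nat_lit 12652591615334) (nat_lit 76) (nat_lit 3059711787879) (nat_lit 152) (nat_lit 5765840679937) (nat_lit 34) (nat_lit 5) (nat_lit 35) (nat_lit 5) (nat_lit 36) (nat_lit 4) (nat_lit 409) (nat_lit 390) (nat_lit 221))))))))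
noncomputable def xc122 : XT := (XT.nd (nat_lit 52806) (nat_lit 0) (nat_lit 76) (XT.nd (nat_lit 52104) (nat_lit 0) (nat_lit 912) (XT.nd (nat_lit 51792) (nat_lit 0) (nat_lit 2812) (XT.nd (nat_lit 51636) (nat_lit 0) (nat_lit 3572) (XT.nd (nat_lit 78) (nat_lit 76) (nat_lit 0) (XT.lf (nat_lit 0) (nat_lit 5042937498372) (nat_lit 152) (nat_lit 8056059876991) (nat_lit 76) (nat_lit 10498961862781) (nat_lit 32) (nat_lit 5) (nat_lit 34) (nat_lit 5) (nat_lit 33) (nat_lit 4) (nat_lit 410) (nat_lit 390) (nat_lit 220)) (XT.lf (nat_lit 0) (nat_lit 17961033571312) (nat_lit 152) (nat_lit 7206985065812) (nat_lit 0) (nat_lit 789394799347) (nat_lit 31) (nat_lit 5) (nat_lit 33) (nat_lit 4) (nat_lit 31) (nat_lit 4) (nat_lit 411) (nat_lit 390) (nat_lit 219))) (XT.nd (nat_lit 78) (nat_lit 0) (nat_lit 0) (XT.lf (nat_lit 0) (nat_lit 2409157838802) (nat_lit 532) (nat_lit 60992862385) (nat_lit 532) (nat_lit 60992862385)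 (nat_lit 78) (nat_lit 3) (nat_lit 85) (nat_lit 3) (nat_lit 85) (nat_lit 5) (nat_lit 391) (nat_lit 391) (nat_lit 238)) (XT.lf (nat_lit 76) (nat_lit 4807509715569) (nat_lit 0) (nat_lit 487800366466) (nat_lit 532) (nat_lit 137398921358) (nat_lit 79) (nat_lit 5) (nat_lit 78) (nat_lit 3) (nat_lit 85) (nat_lit 5) (nat_lit 392) (nat_lit 391) (nat_lit 237)))) (XT.nd (nat_lit 156) (nat_lit 304) (nat_lit 0) (XT.nd (nat_lit 78) (nat_lit 0) (nat_lit 76) (XT.lf (nat_lit 0) (nat_lit 221191832561) (nat_lit 532) (nat_lit 1094352574273) (nat_lit 608) (nat_lit 4524355110308) (nat_lit 72) (nat_lit 5) (nat_lit 79) (nat_lit 5) (nat_lit 80) (nat_lit 5) (nat_lit 393) (nat_lit 391) (nat_lit 236)) (XT.lf (nat_lit 0) (nat_lit 873888103010) (nat_lit 532) (nat_lit 1515234643786) (nat_lit 608) (nat_lit 3898884160676) (nat_lit 73) (nat_lit 5) (nat_lit 80) (nat_lit 5) (nat_lit 81) (nat_lit 5) (nat_lit 394) (nat_lit 391)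 (nat_lit 235))) (XT.nd (nat_lit 78) (nat_lit 456) (nat_lit 0) (XT.lf (nat_lit 0) (nat_lit 1890358096819) (nat_lit 532) (nat_lit 1866498563921) (nat_lit 76) (nat_lit 3025204202990) (nat_lit 74) (nat_lit 5) (nat_lit 81) (nat_lit 5) (nat_lit 75) (nat_lit 5) (nat_lit 395) (nat_lit 391) (nat_lit 234)) (XT.lf (nat_lit 0) (nat_lit 3343943179329) (nat_lit 532) (nat_lit 2126697448759) (nat_lit 76) (nat_lit 1856810718168) (nat_lit 68) (nat_lit 5) (nat_lit 75) (nat_lit 5) (nat_lit 69) (nat_lit 5) (nat_lit 396) (nat_lit 391) (nat_lit 233))))) (XT.nd (nat_lit 312) (nat_lit 988) (nat_lit 0) (XT.nd (nat_lit 156) (nat_lit 456) (nat_lit 0) (XT.nd (nat_lit 78) (nat_lit 228) (nat_lit 0) (XT.lf (nat_lit 0) (nat_lit 5320164395025) (nat_lit 304) (nat_lit 2270474142614) (nat_lit 76) (nat_lit 339643993857) (nat_lit 65) (nat_lit 5) (nat_lit 69) (nat_lit 5) (nat_lit 66) (nat_lit 5) (nat_lit 397) (nat_lit 391) (nat_lit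 232)) (XT.lf (nat_lit 0) (nat_lit 6286031503342) (nat_lit 228) (nat_lit 1672795621598) (nat_lit 304) (nat_lit 635430603033) (nat_lit 62) (nat_lit 5) (nat_lit 65) (nat_lit 5) (nat_lit 66) (nat_lit 5) (nat_lit 398) (nat_lit 391) (nat_lit 231))) (XT.nd (nat_lit 78) (nat_lit 228) (nat_lit 0) (XT.lf (nat_lit 0) (nat_lit 1926131741049) (nat_lit 228) (nat_lit 2234413268702) (nat_lit 76) (nat_lit 5164338844547) (nat_lit 59) (nat_lit 5) (nat_lit 62) (nat_lit 5) (nat_lit 60) (nat_lit 5) (nat_lit 399) (nat_lit 391) (nat_lit 230)) (XT.lf (nat_lit 0) (nat_lit 5222384110408) (nat_lit 304) (nat_lit 1987766030834) (nat_lit 76) (nat_lit 2922586962550) (nat_lit 56) (nat_lit 5) (nat_lit 60) (nat_lit 5) (nat_lit 57) (nat_lit 5) (nat_lit 400) (nat_lit 391) (nat_lit 229)))) (XT.nd (nat_lit 156) (nat_lit 608) (nat_lit 0) (XT.nd (nat_lit 78) (nat_lit 228) (nat_lit 0) (XT.lf (nat_lit 0) (nat_lit 9426129583492) (nat_lit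 228) (nat_lit 1511757984322) (nat_lit 76) (nat_lit 90836353030) (nat_lit 54) (nat_lit 5) (nat_lit 57) (nat_lit 5) (nat_lit 55) (nat_lit 5) (nat_lit 401) (nat_lit 391) (nat_lit 228)) (XT.lf (nat_lit 0) (nat_lit 2632366665964) (nat_lit 228) (nat_lit 912341365699) (nat_lit 76) (nat_lit 8466872737521) (nat_lit 51) (nat_lit 5) (nat_lit 54) (nat_lit 5) (nat_lit 52) (nat_lit 5) (nat_lit 402) (nat_lit 391) (nat_lit 227))) (XT.nd (nat_lit 78) (nat_lit 456) (nat_lit 0) (XT.lf (nat_lit 0) (nat_lit 7902010885026) (nat_lit 228) (nat_lit 70792357778) (nat_lit 76) (nat_lit 5126186393119) (nat_lit 49) (nat_lit 5) (nat_lit 52) (nat_lit 5) (nat_lit 50) (nat_lit 5) (nat_lit 403) (nat_lit 391) (nat_lit 226)) (XT.nd (nat_lit 78) (nat_lit 152) (nat_lit 0) (XT.lf (nat_lit 0) (nat_lit 194552338214) (nat_lit 152) (nat_lit 13144239781822) (nat_lit 76) (nat_lit 966456629599) (nat_lit 45) (nat_lit 5) (nat_lit 47) (nat_lit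 5) (nat_lit 46) (nat_lit 5) (nat_lit 404) (nat_lit 391) (nat_lit 225)) (XT.lf (nat_lit 0) (nat_lit 2534501282452) (nat_lit 152) (nat_lit 4238471478817) (nat_lit 228) (nat_lit 8853804747706) (nat_lit 43) (nat_lit 5) (nat_lit 45) (nat_lit 5) (nat_lit 46) (nat_lit 5) (nat_lit 405) (nat_lit 391) (nat_lit 224))))))) (XT.nd (nat_lit 52182) (nat_lit 0) (nat_lit 1672) (XT.nd (nat_lit 312) (nat_lit 228) (nat_lit 0) (XT.nd (nat_lit 156) (nat_lit 304) (nat_lit 0) (XT.nd (nat_lit 78) (nat_lit 228) (nat_lit 0) (XT.lf (nat_lit 0) (nat_lit 4300541298589) (nat_lit 76) (nat_lit 10683420248778) (nat_lit 152) (nat_lit 2110909610880) (nat_lit 42) (nat_lit 5) (nat_lit 43) (nat_lit 5) (nat_lit 44) (nat_lit 4) (nat_lit 406) (nat_lit 391) (nat_lit 223)) (XT.lf (nat_lit 0) (nat_lit 6032372256366) (nat_lit 228) (nat_lit 12328683040239) (nat_lit 76) (nat_lit 357564873833) (nat_lit 39) (nat_lit 5) (nat_lit 42) (nat_lit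 5) (nat_lit 40) (nat_lit 4) (nat_lit 407) (nat_lit 391) (nat_lit 222))) (XT.nd (nat_lit 78) (nat_lit 228) (nat_lit 0) (XT.lf (nat_lit 0) (nat_lit 8744393112868) (nat_lit 76) (nat_lit 7419265755654) (nat_lit 152) (nat_lit 4346566210659) (nat_lit 38) (nat_lit 5) (nat_lit 39) (nat_lit 5) (nat_lit 40) (nat_lit 4) (nat_lit 408) (nat_lit 391) (nat_lit 221)) (XT.lf (nat_lit 0) (nat_lit 5773981705378) (nat_lit 228) (nat_lit 11023467435974) (nat_lit 76) (nat_lit 5699652509288) (nat_lit 35) (nat_lit 5) (nat_lit 38) (nat_lit 5) (nat_lit 36) (nat_lit 4) (nat_lit 409) (nat_lit 391) (nat_lit 220)))) (XT.nd (nat_lit 51714) (nat_lit 0) (nat_lit 3496) (XT.nd (nat_lit 78) (nat_lit 152) (nat_lit 0) (XT.lf (nat_lit 0) (nat_lit 14550480361140) (nat_lit 76) (nat_lit 3518668554450) (nat_lit 152) (nat_lit 6630716779881) (nat_lit 34) (nat_lit 5) (nat_lit 35) (nat_lit 5) (nat_lit 36) (nat_lit 4) (nat_lit 410) (nat_lit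 391) (nat_lit 219)) (XT.lf (nat_lit 0) (nat_lit 5799378124934) (nat_lit 152) (nat_lit 9264468855132) (nat_lit 76) (nat_lit 12073806143654) (nat_lit 32) (nat_lit 5) (nat_lit 34) (nat_lit 5) (nat_lit 33) (nat_lit 4) (nat_lit 411) (nat_lit 391) (nat_lit 218))) (XT.nd (nat_lit 78) (nat_lit 0) (nat_lit 0) (XT.lf (nat_lit 0) (nat_lit 2770531518773) (nat_lit 532) (nat_lit 70141789501) (nat_lit 532) (nat_lit 70141789501) (nat_lit 78) (nat_lit 3) (nat_lit 85) (nat_lit 3) (nat_lit 85) (nat_lit 5) (nat_lit 392) (nat_lit 392) (nat_lit 236)) (XT.lf (nat_lit 76) (nat_lit 5528636177009) (nat_lit 0) (nat_lit 560970424647) (nat_lit 532) (nat_lit 158008751658) (nat_lit 79) (nat_lit 5) (nat_lit 78) (nat_lit 3) (nat_lit 85) (nat_lit 5) (nat_lit 393) (nat_lit 392) (nat_lit 235))))) (XT.nd (nat_lit 312) (nat_lit 1064) (nat_lit 0) (XT.nd (nat_lit 156) (nat_lit 304) (nat_lit 0) (XT.nd (nat_lit 78) (nat_lit 0) (nat_lit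 76) (XT.lf (nat_lit 0) (nat_lit 254370614013) (nat_lit 532) (nat_lit 1258505455700) (nat_lit 608) (nat_lit 5203008374472) (nat_lit 72) (nat_lit 5) (nat_lit 79) (nat_lit 5) (nat_lit 80) (nat_lit 5) (nat_lit 394) (nat_lit 392) (nat_lit 234)) (XT.lf (nat_lit 0) (nat_lit 1004971324241) (nat_lit 532) (nat_lit 1742519835535) (nat_lit 608) (nat_lit 4483716783353) (nat_lit 73) (nat_lit 5) (nat_lit 80) (nat_lit 5) (nat_lit 81) (nat_lit 5) (nat_lit 395) (nat_lit 392) (nat_lit 233))) (XT.nd (nat_lit 78) (nat_lit 456) (nat_lit 0) (XT.lf (nat_lit 0) (nat_lit 2173911816456) (nat_lit 532) (nat_lit 2146473343669) (nat_lit 76) (nat_lit 3478984832754) (nat_lit 74) (nat_lit 5) (nat_lit 81) (nat_lit 5) (nat_lit 75) (nat_lit 5) (nat_lit 396) (nat_lit 392) (nat_lit 232)) (XT.lf (nat_lit 0) (nat_lit 3845534660779) (nat_lit 532) (nat_lit 2445702061274) (nat_lit 76) (nat_lit 2135332325776) (nat_lit 68) (nat_lit 5)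 (nat_lit 75) (nat_lit 5) (nat_lit 69) (nat_lit 5) (nat_lit 397) (nat_lit 392) (nat_lit 231)))) (XT.nd (nat_lit 156) (nat_lit 608) (nat_lit 0) (XT.nd (nat_lit 78) (nat_lit 228) (nat_lit 0) (XT.lf (nat_lit 0) (nat_lit 6118189058350) (nat_lit 304) (nat_lit 2611045259294) (nat_lit 76) (nat_lit 390590593249) (nat_lit 65) (nat_lit 5) (nat_lit 69) (nat_lit 5) (nat_lit 66) (nat_lit 5) (nat_lit 398) (nat_lit 392) (nat_lit 230)) (XT.lf (nat_lit 0) (nat_lit 7228936233156) (nat_lit 228) (nat_lit 1923714964168) (nat_lit 304) (nat_lit 730745189552) (nat_lit 62) (nat_lit 5) (nat_lit 65) (nat_lit 5) (nat_lit 66) (nat_lit 5) (nat_lit 399) (nat_lit 392) (nat_lit 229))) (XT.nd (nat_lit 78) (nat_lit 380) (nat_lit 0) (XT.lf (nat_lit 0) (nat_lit 2215051505576) (nat_lit 228) (nat_lit 2569575254628) (nat_lit 76) (nat_lit 5938989671968) (nat_lit 59) (nat_lit 5) (nat_lit 62) (nat_lit 5) (nat_lit 60) (nat_lit 5) (nat_lit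 400) (nat_lit 392) (nat_lit 228)) (XT.nd (nat_lit 78) (nat_lit 152) (nat_lit 0) (XT.lf (nat_lit 0) (nat_lit 6005741730019) (nat_lit 304) (nat_lit 2285930931231) (nat_lit 76) (nat_lit 3360975007866) (nat_lit 56) (nat_lit 5) (nat_lit 60) (nat_lit 5) (nat_lit 57) (nat_lit 5) (nat_lit 401) (nat_lit 392) (nat_lit 227)) (XT.lf (nat_lit 0) (nat_lit 10840049023788) (nat_lit 228) (nat_lit 1738521677908) (nat_lit 76) (nat_lit 104461807053) (nat_lit 54) (nat_lit 5) (nat_lit 57) (nat_lit 5) (nat_lit 55) (nat_lit 5) (nat_lit 402) (nat_lit 392) (nat_lit 226))))))))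
noncomputable def xc123 : XT := (XT.nd (nat_lit 53040) (nat_lit 0) (nat_lit 228) (XT.nd (nat_lit 52338) (nat_lit 0) (nat_lit 1824) (XT.nd (nat_lit 312) (nat_lit 608) (nat_lit 0) (XT.nd (nat_lit 156) (nat_lit 456) (nat_lit 0) (XT.nd (nat_lit 78) (nat_lit 152) (nat_lit 0) (XT.lf (nat_lit 0) (nat_lit 3027221668425) (nat_lit 228) (nat_lit 1049192566700) (nat_lit 76) (nat_lit 9736903649232) (nat_lit 51) (nat_lit 5) (nat_lit 54) (nat_lit 5) (nat_lit 52) (nat_lit 5) (nat_lit 403) (nat_lit 392) (nat_lit 225)) (XT.lf (nat_lit 0) (nat_lit 9087312520125) (nat_lit 228) (nat_lit 81411207760) (nat_lit 76) (nat_lit 5895114353239) (nat_lit 49) (nat_lit 5) (nat_lit 52) (nat_lit 5) (nat_lit 50) (nat_lit 5) (nat_lit 404) (nat_lit 392) (nat_lit 224))) (XT.nd (nat_lit 78) (nat_lit 152) (nat_lit 0) (XT.lf (nat_lit 0) (nat_lit 223735191244) (nat_lit 152) (nat_lit 15115875745276) (nat_lit 76) (nat_lit 1111425125377)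 (nat_lit 45) (nat_lit 5) (nat_lit 47) (nat_lit 5) (nat_lit 46) (nat_lit 5) (nat_lit 405) (nat_lit 392) (nat_lit 223)) (XT.lf (nat_lit 0) (nat_lit 2914676478315) (nat_lit 152) (nat_lit 4874242199225) (nat_lit 228) (nat_lit 10181875457613) (nat_lit 43) (nat_lit 5) (nat_lit 45) (nat_lit 5) (nat_lit 46) (nat_lit 5) (nat_lit 406) (nat_lit 392) (nat_lit 222)))) (XT.nd (nat_lit 156) (nat_lit 304) (nat_lit 0) (XT.nd (nat_lit 78) (nat_lit 228) (nat_lit 0) (XT.lf (nat_lit 0) (nat_lit 4945622496700) (nat_lit 76) (nat_lit 12285933284693) (nat_lit 152) (nat_lit 2427546050438) (nat_lit 42) (nat_lit 5) (nat_lit 43) (nat_lit 5) (nat_lit 44) (nat_lit 4) (nat_lit 407) (nat_lit 392) (nat_lit 221)) (XT.lf (nat_lit 0) (nat_lit 6937228096642) (nat_lit 228) (nat_lit 14177985493028) (nat_lit 76) (nat_lit 411199606188) (nat_lit 39) (nat_lit 5) (nat_lit 42) (nat_lit 5) (nat_lit 40) (nat_lit 4) (nat_lit 408) (nat_lit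 392) (nat_lit 220))) (XT.nd (nat_lit 78) (nat_lit 228) (nat_lit 0) (XT.lf (nat_lit 0) (nat_lit 10056052082770) (nat_lit 76) (nat_lit 8532155617686) (nat_lit 152) (nat_lit 4998551140470) (nat_lit 38) (nat_lit 5) (nat_lit 39) (nat_lit 5) (nat_lit 40) (nat_lit 4) (nat_lit 409) (nat_lit 392) (nat_lit 219)) (XT.lf (nat_lit 0) (nat_lit 6640078962760) (nat_lit 228) (nat_lit 12676987548475) (nat_lit 76) (nat_lit 6554600386876) (nat_lit 35) (nat_lit 5) (nat_lit 38) (nat_lit 5) (nat_lit 36) (nat_lit 4) (nat_lit 410) (nat_lit 392) (nat_lit 218))))) (XT.nd (nat_lit 312) (nat_lit 988) (nat_lit 0) (XT.nd (nat_lit 156) (nat_lit 456) (nat_lit 0) (XT.nd (nat_lit 78) (nat_lit 0) (nat_lit 0) (XT.lf (nat_lit 0) (nat_lit 3186111249727) (nat_lit 532) (nat_lit 80663056232) (nat_lit 532) (nat_lit 80663056232) (nat_lit 78) (nat_lit 3) (nat_lit 85) (nat_lit 3) (nat_lit 85) (nat_lit 5) (nat_lit 393) (nat_lit 393) (nat_lit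 234)) (XT.lf (nat_lit 76) (nat_lit 6357931606663) (nat_lit 0) (nat_lit 645115990773) (nat_lit 532) (nat_lit 181710058430) (nat_lit 79) (nat_lit 5) (nat_lit 78) (nat_lit 3) (nat_lit 85) (nat_lit 5) (nat_lit 394) (nat_lit 393) (nat_lit 233))) (XT.nd (nat_lit 78) (nat_lit 0) (nat_lit 76) (XT.lf (nat_lit 0) (nat_lit 292526211082) (nat_lit 532) (nat_lit 1447281270490) (nat_lit 608) (nat_lit 5983459628842) (nat_lit 72) (nat_lit 5) (nat_lit 79) (nat_lit 5) (nat_lit 80) (nat_lit 5) (nat_lit 395) (nat_lit 393) (nat_lit 232)) (XT.lf (nat_lit 0) (nat_lit 1155717027247) (nat_lit 532) (nat_lit 2003897807222) (nat_lit 608) (nat_lit 5156274299778) (nat_lit 73) (nat_lit 5) (nat_lit 80) (nat_lit 5) (nat_lit 81) (nat_lit 5) (nat_lit 396) (nat_lit 393) (nat_lit 231)))) (XT.nd (nat_lit 156) (nat_lit 684) (nat_lit 0) (XT.nd (nat_lit 78) (nat_lit 456) (nat_lit 0) (XT.lf (nat_lit 0) (nat_lit 2499998592791) (nat_lit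 532) (nat_lit 2468444341560) (nat_lit 76) (nat_lit 4000832557149) (nat_lit 74) (nat_lit 5) (nat_lit 81) (nat_lit 5) (nat_lit 75) (nat_lit 5) (nat_lit 397) (nat_lit 393) (nat_lit 230)) (XT.lf (nat_lit 0) (nat_lit 4422364863337) (nat_lit 532) (nat_lit 2812557366836) (nat_lit 76) (nat_lit 2455632174554) (nat_lit 68) (nat_lit 5) (nat_lit 75) (nat_lit 5) (nat_lit 69) (nat_lit 5) (nat_lit 398) (nat_lit 393) (nat_lit 229))) (XT.nd (nat_lit 78) (nat_lit 456) (nat_lit 0) (XT.lf (nat_lit 0) (nat_lit 7035917420180) (nat_lit 304) (nat_lit 3002702044626) (nat_lit 76) (nat_lit 449179182474) (nat_lit 65) (nat_lit 5) (nat_lit 69) (nat_lit 5) (nat_lit 66) (nat_lit 5) (nat_lit 399) (nat_lit 393) (nat_lit 228)) (XT.nd (nat_lit 78) (nat_lit 228) (nat_lit 0) (XT.lf (nat_lit 0) (nat_lit 8313276671390) (nat_lit 228) (nat_lit 2212272208288) (nat_lit 304) (nat_lit 840356965008) (nat_lit 62) (nat_lit 5) (nat_lit 65)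 (nat_lit 5) (nat_lit 66) (nat_lit 5) (nat_lit 400) (nat_lit 393) (nat_lit 227)) (XT.lf (nat_lit 0) (nat_lit 2547309233960) (nat_lit 228) (nat_lit 2955011539511) (nat_lit 76) (nat_lit 6829838123323) (nat_lit 59) (nat_lit 5) (nat_lit 62) (nat_lit 5) (nat_lit 60) (nat_lit 5) (nat_lit 401) (nat_lit 393) (nat_lit 226))))))) (XT.nd (nat_lit 52494) (nat_lit 0) (nat_lit 1596) (XT.nd (nat_lit 312) (nat_lit 836) (nat_lit 0) (XT.nd (nat_lit 156) (nat_lit 380) (nat_lit 0) (XT.nd (nat_lit 78) (nat_lit 152) (nat_lit 0) (XT.lf (nat_lit 0) (nat_lit 6906602991829) (nat_lit 304) (nat_lit 2628820567719) (nat_lit 76) (nat_lit 3865121259751) (nat_lit 56) (nat_lit 5) (nat_lit 60) (nat_lit 5) (nat_lit 57) (nat_lit 5) (nat_lit 402) (nat_lit 393) (nat_lit 225)) (XT.lf (nat_lit 0) (nat_lit 12466056379453) (nat_lit 228) (nat_lit 1999299926522) (nat_lit 76) (nat_lit 120131078919) (nat_lit 54) (nat_lit 5) (nat_lit 57)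 (nat_lit 5) (nat_lit 55) (nat_lit 5) (nat_lit 403) (nat_lit 393) (nat_lit 224))) (XT.nd (nat_lit 78) (nat_lit 152) (nat_lit 0) (XT.lf (nat_lit 0) (nat_lit 3481304920628) (nat_lit 228) (nat_lit 1206571448790) (nat_lit 76) (nat_lit 11197439197436) (nat_lit 51) (nat_lit 5) (nat_lit 54) (nat_lit 5) (nat_lit 52) (nat_lit 5) (nat_lit 404) (nat_lit 393) (nat_lit 223)) (XT.lf (nat_lit 0) (nat_lit 10450409399917) (nat_lit 228) (nat_lit 93622886137) (nat_lit 76) (nat_lit 6779381507096) (nat_lit 49) (nat_lit 5) (nat_lit 52) (nat_lit 5) (nat_lit 50) (nat_lit 5) (nat_lit 405) (nat_lit 393) (nat_lit 222)))) (XT.nd (nat_lit 156) (nat_lit 380) (nat_lit 0) (XT.nd (nat_lit 78) (nat_lit 152) (nat_lit 0) (XT.lf (nat_lit 0) (nat_lit 257295471668) (nat_lit 152) (nat_lit 17383257104179) (nat_lit 76) (nat_lit 1278138895194) (nat_lit 45) (nat_lit 5) (nat_lit 47) (nat_lit 5) (nat_lit 46) (nat_lit 5) (nat_lit 406)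 (nat_lit 393) (nat_lit 221)) (XT.lf (nat_lit 0) (nat_lit 3351877952707) (nat_lit 152) (nat_lit 5605378528040) (nat_lit 228) (nat_lit 11709156774554) (nat_lit 43) (nat_lit 5) (nat_lit 45) (nat_lit 5) (nat_lit 46) (nat_lit 5) (nat_lit 407) (nat_lit 393) (nat_lit 220))) (XT.nd (nat_lit 78) (nat_lit 304) (nat_lit 0) (XT.lf (nat_lit 0) (nat_lit 5687465873717) (nat_lit 76) (nat_lit 14128823276337) (nat_lit 152) (nat_lit 2791677956436) (nat_lit 42) (nat_lit 5) (nat_lit 43) (nat_lit 5) (nat_lit 44) (nat_lit 4) (nat_lit 408) (nat_lit 393) (nat_lit 219)) (XT.nd (nat_lit 78) (nat_lit 76) (nat_lit 0) (XT.lf (nat_lit 0) (nat_lit 7977812312515) (nat_lit 228) (nat_lit 16304683314527) (nat_lit 76) (nat_lit 472879548084) (nat_lit 39) (nat_lit 5) (nat_lit 42) (nat_lit 5) (nat_lit 40) (nat_lit 4) (nat_lit 409) (nat_lit 393) (nat_lit 218)) (XT.lf (nat_lit 0) (nat_lit 11564459897433) (nat_lit 76) (nat_lit 9811978959343)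 (nat_lit 152) (nat_lit 5748333810189) (nat_lit 38) (nat_lit 5) (nat_lit 39) (nat_lit 5) (nat_lit 40) (nat_lit 4) (nat_lit 410) (nat_lit 393) (nat_lit 217)))))) (XT.nd (nat_lit 312) (nat_lit 988) (nat_lit 0) (XT.nd (nat_lit 156) (nat_lit 456) (nat_lit 0) (XT.nd (nat_lit 78) (nat_lit 0) (nat_lit 0) (XT.lf (nat_lit 0) (nat_lit 3664027939558) (nat_lit 532) (nat_lit 92762513385) (nat_lit 532) (nat_lit 92762513385) (nat_lit 78) (nat_lit 3) (nat_lit 85) (nat_lit 3) (nat_lit 85) (nat_lit 5) (nat_lit 394) (nat_lit 394) (nat_lit 232)) (XT.lf (nat_lit 76) (nat_lit 7311621350009) (nat_lit 0) (nat_lit 741883391225) (nat_lit 532) (nat_lit 208966562676) (nat_lit 79) (nat_lit 5) (nat_lit 78) (nat_lit 3) (nat_lit 85) (nat_lit 5) (nat_lit 395) (nat_lit 394) (nat_lit 231))) (XT.nd (nat_lit 78) (nat_lit 0) (nat_lit 76) (XT.lf (nat_lit 0) (nat_lit 336405146499) (nat_lit 532) (nat_lit 1664373458369) (nat_lit 608)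 (nat_lit 6880978571806) (nat_lit 72) (nat_lit 5) (nat_lit 79) (nat_lit 5) (nat_lit 80) (nat_lit 5) (nat_lit 396) (nat_lit 394) (nat_lit 230)) (XT.lf (nat_lit 0) (nat_lit 1329074584639) (nat_lit 532) (nat_lit 2304482475551) (nat_lit 608) (nat_lit 5929715443930) (nat_lit 73) (nat_lit 5) (nat_lit 80) (nat_lit 5) (nat_lit 81) (nat_lit 5) (nat_lit 397) (nat_lit 394) (nat_lit 229)))) (XT.nd (nat_lit 156) (nat_lit 684) (nat_lit 0) (XT.nd (nat_lit 78) (nat_lit 456) (nat_lit 0) (XT.lf (nat_lit 0) (nat_lit 2874998384634) (nat_lit 532) (nat_lit 2838710990027) (nat_lit 76) (nat_lit 4600957440330) (nat_lit 74) (nat_lit 5) (nat_lit 81) (nat_lit 5) (nat_lit 75) (nat_lit 5) (nat_lit 398) (nat_lit 394) (nat_lit 228)) (XT.lf (nat_lit 0) (nat_lit 5085719595439) (nat_lit 532) (nat_lit 3234440969118) (nat_lit 76) (nat_lit 2823977000670) (nat_lit 68) (nat_lit 5) (nat_lit 75) (nat_lit 5) (nat_lit 69) (nat_lit 5)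 (nat_lit 399) (nat_lit 394) (nat_lit 227))) (XT.nd (nat_lit 78) (nat_lit 456) (nat_lit 0) (XT.lf (nat_lit 0) (nat_lit 8091305035535) (nat_lit 304) (nat_lit 3453107348627) (nat_lit 76) (nat_lit 516556060024) (nat_lit 65) (nat_lit 5) (nat_lit 69) (nat_lit 5) (nat_lit 66) (nat_lit 5) (nat_lit 400) (nat_lit 394) (nat_lit 226)) (XT.nd (nat_lit 78) (nat_lit 228) (nat_lit 0) (XT.lf (nat_lit 0) (nat_lit 9560268174565) (nat_lit 228) (nat_lit 2544113039148) (nat_lit 304) (nat_lit 966410507509) (nat_lit 62) (nat_lit 5) (nat_lit 65) (nat_lit 5) (nat_lit 66) (nat_lit 5) (nat_lit 401) (nat_lit 394) (nat_lit 225)) (XT.lf (nat_lit 0) (nat_lit 2929405620981) (nat_lit 228) (nat_lit 3398263267935) (nat_lit 76) (nat_lit 7854313842244) (nat_lit 59) (nat_lit 5) (nat_lit 62) (nat_lit 5) (nat_lit 60) (nat_lit 5) (nat_lit 402) (nat_lit 394) (nat_lit 224))))))))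
noncomputable def xc124 : XT := (XT.nd (nat_lit 53196) (nat_lit 0) (nat_lit 228) (XT.nd (nat_lit 52494) (nat_lit 0) (nat_lit 1520) (XT.nd (nat_lit 312) (nat_lit 760) (nat_lit 0) (XT.nd (nat_lit 156) (nat_lit 380) (nat_lit 0) (XT.nd (nat_lit 78) (nat_lit 152) (nat_lit 0) (XT.lf (nat_lit 0) (nat_lit 7942593442347) (nat_lit 304) (nat_lit 3023143650460) (nat_lit 76) (nat_lit 4444889449247) (nat_lit 56) (nat_lit 5) (nat_lit 60) (nat_lit 5) (nat_lit 57) (nat_lit 5) (nat_lit 403) (nat_lit 394) (nat_lit 223)) (XT.lf (nat_lit 0) (nat_lit 14335964837956) (nat_lit 228) (nat_lit 2299194913177) (nat_lit 76) (nat_lit 138150741368) (nat_lit 54) (nat_lit 5) (nat_lit 57) (nat_lit 5) (nat_lit 55) (nat_lit 5) (nat_lit 404) (nat_lit 394) (nat_lit 222))) (XT.nd (nat_lit 78) (nat_lit 152) (nat_lit 0) (XT.lf (nat_lit 0) (nat_lit 4003500660190) (nat_lit 228) (nat_lit 1387557163904) (nat_lit 76) (nat_lit 12877055077671)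 (nat_lit 51) (nat_lit 5) (nat_lit 54) (nat_lit 5) (nat_lit 52) (nat_lit 5) (nat_lit 405) (nat_lit 394) (nat_lit 221)) (XT.lf (nat_lit 0) (nat_lit 12017970811245) (nat_lit 228) (nat_lit 107666316951) (nat_lit 76) (nat_lit 7796288733819) (nat_lit 49) (nat_lit 5) (nat_lit 52) (nat_lit 5) (nat_lit 50) (nat_lit 5) (nat_lit 406) (nat_lit 394) (nat_lit 220)))) (XT.nd (nat_lit 156) (nat_lit 304) (nat_lit 0) (XT.nd (nat_lit 78) (nat_lit 152) (nat_lit 0) (XT.lf (nat_lit 0) (nat_lit 295889793732) (nat_lit 152) (nat_lit 19990745667622) (nat_lit 76) (nat_lit 1469859730238) (nat_lit 45) (nat_lit 5) (nat_lit 47) (nat_lit 5) (nat_lit 46) (nat_lit 5) (nat_lit 407) (nat_lit 394) (nat_lit 219)) (XT.lf (nat_lit 0) (nat_lit 3854659647612) (nat_lit 152) (nat_lit 6446185306437) (nat_lit 228) (nat_lit 13465530289452) (nat_lit 43) (nat_lit 5) (nat_lit 45) (nat_lit 5) (nat_lit 46) (nat_lit 5) (nat_lit 408) (nat_lit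 394) (nat_lit 218))) (XT.nd (nat_lit 78) (nat_lit 228) (nat_lit 0) (XT.lf (nat_lit 0) (nat_lit 6540585756673) (nat_lit 76) (nat_lit 16248146766987) (nat_lit 152) (nat_lit 3210429648716) (nat_lit 42) (nat_lit 5) (nat_lit 43) (nat_lit 5) (nat_lit 44) (nat_lit 4) (nat_lit 409) (nat_lit 394) (nat_lit 217)) (XT.lf (nat_lit 0) (nat_lit 9174484160434) (nat_lit 228) (nat_lit 18750385809850) (nat_lit 76) (nat_lit 543811481029) (nat_lit 39) (nat_lit 5) (nat_lit 42) (nat_lit 5) (nat_lit 40) (nat_lit 4) (nat_lit 410) (nat_lit 394) (nat_lit 216))))) (XT.nd (nat_lit 312) (nat_lit 988) (nat_lit 0) (XT.nd (nat_lit 156) (nat_lit 456) (nat_lit 0) (XT.nd (nat_lit 78) (nat_lit 0) (nat_lit 0) (XT.lf (nat_lit 0) (nat_lit 4213632132286) (nat_lit 532) (nat_lit 106676889423) (nat_lit 532) (nat_lit 106676889423) (nat_lit 78) (nat_lit 3) (nat_lit 85) (nat_lit 3) (nat_lit 85) (nat_lit 5) (nat_lit 395) (nat_lit 395)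 (nat_lit 230)) (XT.lf (nat_lit 76) (nat_lit 8408364554285) (nat_lit 0) (nat_lit 853165901298) (nat_lit 532) (nat_lit 240311543660) (nat_lit 79) (nat_lit 5) (nat_lit 78) (nat_lit 3) (nat_lit 85) (nat_lit 5) (nat_lit 396) (nat_lit 395) (nat_lit 229))) (XT.nd (nat_lit 78) (nat_lit 0) (nat_lit 76) (XT.lf (nat_lit 0) (nat_lit 386865921314) (nat_lit 532) (nat_lit 1914029475086) (nat_lit 608) (nat_lit 7913125356548) (nat_lit 72) (nat_lit 5) (nat_lit 79) (nat_lit 5) (nat_lit 80) (nat_lit 5) (nat_lit 397) (nat_lit 395) (nat_lit 228)) (XT.lf (nat_lit 0) (nat_lit 1528435774833) (nat_lit 532) (nat_lit 2650154844801) (nat_lit 608) (nat_lit 6819172759903) (nat_lit 73) (nat_lit 5) (nat_lit 80) (nat_lit 5) (nat_lit 81) (nat_lit 5) (nat_lit 398) (nat_lit 395) (nat_lit 227)))) (XT.nd (nat_lit 156) (nat_lit 684) (nat_lit 0) (XT.nd (nat_lit 78) (nat_lit 456) (nat_lit 0) (XT.lf (nat_lit 0) (nat_lit 3306248144540)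 (nat_lit 532) (nat_lit 3264517636438) (nat_lit 76) (nat_lit 5291101056083) (nat_lit 74) (nat_lit 5) (nat_lit 81) (nat_lit 5) (nat_lit 75) (nat_lit 5) (nat_lit 399) (nat_lit 395) (nat_lit 226)) (XT.lf (nat_lit 0) (nat_lit 5848577536722) (nat_lit 532) (nat_lit 3719607112411) (nat_lit 76) (nat_lit 3247573550720) (nat_lit 68) (nat_lit 5) (nat_lit 75) (nat_lit 5) (nat_lit 69) (nat_lit 5) (nat_lit 400) (nat_lit 395) (nat_lit 225))) (XT.nd (nat_lit 78) (nat_lit 456) (nat_lit 0) (XT.lf (nat_lit 0) (nat_lit 9305000792625) (nat_lit 304) (nat_lit 3971073448884) (nat_lit 76) (nat_lit 594039469164) (nat_lit 65) (nat_lit 5) (nat_lit 69) (nat_lit 5) (nat_lit 66) (nat_lit 5) (nat_lit 401) (nat_lit 395) (nat_lit 224)) (XT.nd (nat_lit 78) (nat_lit 228) (nat_lit 0) (XT.lf (nat_lit 0) (nat_lit 10994308402614) (nat_lit 228) (nat_lit 2925729994731) (nat_lit 304) (nat_lit 1111372081934) (nat_lit 62) (nat_lit 5)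 (nat_lit 65) (nat_lit 5) (nat_lit 66) (nat_lit 5) (nat_lit 402) (nat_lit 395) (nat_lit 223)) (XT.lf (nat_lit 0) (nat_lit 3368816465585) (nat_lit 228) (nat_lit 3908002756232) (nat_lit 76) (nat_lit 9032460918900) (nat_lit 59) (nat_lit 5) (nat_lit 62) (nat_lit 5) (nat_lit 60) (nat_lit 5) (nat_lit 403) (nat_lit 395) (nat_lit 222))))))) (XT.nd (nat_lit 52572) (nat_lit 0) (nat_lit 1064) (XT.nd (nat_lit 312) (nat_lit 532) (nat_lit 0) (XT.nd (nat_lit 156) (nat_lit 380) (nat_lit 0) (XT.nd (nat_lit 78) (nat_lit 152) (nat_lit 0) (XT.lf (nat_lit 0) (nat_lit 9133982460017) (nat_lit 304) (nat_lit 3476615196202) (nat_lit 76) (nat_lit 5111622867038) (nat_lit 56) (nat_lit 5) (nat_lit 60) (nat_lit 5) (nat_lit 57) (nat_lit 5) (nat_lit 404) (nat_lit 395) (nat_lit 221)) (XT.lf (nat_lit 0) (nat_lit 16486359564848) (nat_lit 228) (nat_lit 2644074148397) (nat_lit 76) (nat_lit 158873353035) (nat_lit 54) (nat_lit 5)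 (nat_lit 57) (nat_lit 5) (nat_lit 55) (nat_lit 5) (nat_lit 405) (nat_lit 395) (nat_lit 220))) (XT.nd (nat_lit 78) (nat_lit 152) (nat_lit 0) (XT.lf (nat_lit 0) (nat_lit 4604025760327) (nat_lit 228) (nat_lit 1595690736824) (nat_lit 76) (nat_lit 14808613339790) (nat_lit 51) (nat_lit 5) (nat_lit 54) (nat_lit 5) (nat_lit 52) (nat_lit 5) (nat_lit 406) (nat_lit 395) (nat_lit 219)) (XT.lf (nat_lit 0) (nat_lit 13820666433946) (nat_lit 228) (nat_lit 123816262901) (nat_lit 76) (nat_lit 8965732044390) (nat_lit 49) (nat_lit 5) (nat_lit 52) (nat_lit 5) (nat_lit 50) (nat_lit 5) (nat_lit 407) (nat_lit 395) (nat_lit 218)))) (XT.nd (nat_lit 156) (nat_lit 76) (nat_lit 0) (XT.nd (nat_lit 78) (nat_lit 152) (nat_lit 0) (XT.lf (nat_lit 0) (nat_lit 340273263786) (nat_lit 152) (nat_lit 22989357516114) (nat_lit 76) (nat_lit 1690338690352) (nat_lit 45) (nat_lit 5) (nat_lit 47) (nat_lit 5) (nat_lit 46) (nat_lit 5) (nat_lit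 408) (nat_lit 395) (nat_lit 217)) (XT.lf (nat_lit 0) (nat_lit 4432858596265) (nat_lit 152) (nat_lit 7413113101792) (nat_lit 228) (nat_lit 15485359831897) (nat_lit 43) (nat_lit 5) (nat_lit 45) (nat_lit 5) (nat_lit 46) (nat_lit 5) (nat_lit 409) (nat_lit 395) (nat_lit 216))) (XT.nd (nat_lit 52026) (nat_lit 0) (nat_lit 2736) (XT.lf (nat_lit 0) (nat_lit 7521673621611) (nat_lit 76) (nat_lit 18685368781429) (nat_lit 152) (nat_lit 3691994095126) (nat_lit 42) (nat_lit 5) (nat_lit 43) (nat_lit 5) (nat_lit 44) (nat_lit 4) (nat_lit 410) (nat_lit 395) (nat_lit 215)) (XT.lf (nat_lit 0) (nat_lit 4845676953486) (nat_lit 532) (nat_lit 122678422104) (nat_lit 532) (nat_lit 122678422104) (nat_lit 78) (nat_lit 3) (nat_lit 85) (nat_lit 3) (nat_lit 85) (nat_lit 5) (nat_lit 396) (nat_lit 396) (nat_lit 228))))) (XT.nd (nat_lit 312) (nat_lit 1216) (nat_lit 0) (XT.nd (nat_lit 156) (nat_lit 0) (nat_lit 76) (XT.nd (nat_lit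 78) (nat_lit 456) (nat_lit 0) (XT.lf (nat_lit 76) (nat_lit 9669619238769) (nat_lit 0) (nat_lit 981140787543) (nat_lit 532) (nat_lit 276358272625) (nat_lit 79) (nat_lit 5) (nat_lit 78) (nat_lit 3) (nat_lit 85) (nat_lit 5) (nat_lit 397) (nat_lit 396) (nat_lit 227)) (XT.lf (nat_lit 0) (nat_lit 444895811658) (nat_lit 532) (nat_lit 2201133894808) (nat_lit 608) (nat_lit 9100094159251) (nat_lit 72) (nat_lit 5) (nat_lit 79) (nat_lit 5) (nat_lit 80) (nat_lit 5) (nat_lit 398) (nat_lit 396) (nat_lit 226))) (XT.nd (nat_lit 78) (nat_lit 0) (nat_lit 76) (XT.lf (nat_lit 0) (nat_lit 1757701142947) (nat_lit 532) (nat_lit 3047678069946) (nat_lit 608) (nat_lit 7842048673423) (nat_lit 73) (nat_lit 5) (nat_lit 80) (nat_lit 5) (nat_lit 81) (nat_lit 5) (nat_lit 399) (nat_lit 396) (nat_lit 225)) (XT.lf (nat_lit 0) (nat_lit 3802185367893) (nat_lit 532) (nat_lit 3754195280322) (nat_lit 76) (nat_lit 6084766214272)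 (nat_lit 74) (nat_lit 5) (nat_lit 81) (nat_lit 5) (nat_lit 75) (nat_lit 5) (nat_lit 400) (nat_lit 396) (nat_lit 224)))) (XT.nd (nat_lit 156) (nat_lit 684) (nat_lit 0) (XT.nd (nat_lit 78) (nat_lit 228) (nat_lit 0) (XT.lf (nat_lit 0) (nat_lit 6725864168718) (nat_lit 532) (nat_lit 4277548177704) (nat_lit 76) (nat_lit 3734709583290) (nat_lit 68) (nat_lit 5) (nat_lit 75) (nat_lit 5) (nat_lit 69) (nat_lit 5) (nat_lit 401) (nat_lit 396) (nat_lit 223)) (XT.lf (nat_lit 0) (nat_lit 10700750912849) (nat_lit 304) (nat_lit 4566734464676) (nat_lit 76) (nat_lit 683145389641) (nat_lit 65) (nat_lit 5) (nat_lit 69) (nat_lit 5) (nat_lit 66) (nat_lit 5) (nat_lit 402) (nat_lit 396) (nat_lit 222))) (XT.nd (nat_lit 78) (nat_lit 456) (nat_lit 0) (XT.lf (nat_lit 0) (nat_lit 12643454664416) (nat_lit 228) (nat_lit 3364589493723) (nat_lit 304) (nat_lit 1278077892938) (nat_lit 62) (nat_lit 5) (nat_lit 65) (nat_lit 5)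 (nat_lit 66) (nat_lit 5) (nat_lit 403) (nat_lit 396) (nat_lit 221)) (XT.nd (nat_lit 78) (nat_lit 228) (nat_lit 0) (XT.lf (nat_lit 0) (nat_lit 3874138936524) (nat_lit 228) (nat_lit 4494203168235) (nat_lit 76) (nat_lit 10387330056976) (nat_lit 59) (nat_lit 5) (nat_lit 62) (nat_lit 5) (nat_lit 60) (nat_lit 5) (nat_lit 404) (nat_lit 396) (nat_lit 220)) (XT.lf (nat_lit 0) (nat_lit 10504079830017) (nat_lit 304) (nat_lit 3998107474250) (nat_lit 76) (nat_lit 5878366297399) (nat_lit 56) (nat_lit 5) (nat_lit 60) (nat_lit 5) (nat_lit 57) (nat_lit 5) (nat_lit 405) (nat_lit 396) (nat_lit 219))))))))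
noncomputable def xc125 : XT := (XT.nd (nat_lit 53352) (nat_lit 0) (nat_lit 152) (XT.nd (nat_lit 52650) (nat_lit 0) (nat_lit 608) (XT.nd (nat_lit 312) (nat_lit 152) (nat_lit 0) (XT.nd (nat_lit 156) (nat_lit 456) (nat_lit 0) (XT.nd (nat_lit 78) (nat_lit 228) (nat_lit 0) (XT.lf (nat_lit 0) (nat_lit 18959313500481) (nat_lit 228) (nat_lit 3040685269329) (nat_lit 76) (nat_lit 182704356339) (nat_lit 54) (nat_lit 5) (nat_lit 57) (nat_lit 5) (nat_lit 55) (nat_lit 5) (nat_lit 406) (nat_lit 396) (nat_lit 218)) (XT.lf (nat_lit 0) (nat_lit 5294629625215) (nat_lit 228) (nat_lit 1835044346087) (nat_lit 76) (nat_lit 17029905341113) (nat_lit 51) (nat_lit 5) (nat_lit 54) (nat_lit 5) (nat_lit 52) (nat_lit 5) (nat_lit 407) (nat_lit 396) (nat_lit 217))) (XT.nd (nat_lit 78) (nat_lit 304) (nat_lit 0) (XT.lf (nat_lit 0) (nat_lit 15893766399804) (nat_lit 228) (nat_lit 142388701131) (nat_lit 76) (nat_lit 10310591851425)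 (nat_lit 49) (nat_lit 5) (nat_lit 52) (nat_lit 5) (nat_lit 50) (nat_lit 5) (nat_lit 408) (nat_lit 396) (nat_lit 216)) (XT.lf (nat_lit 0) (nat_lit 391314254105) (nat_lit 152) (nat_lit 26437761142283) (nat_lit 76) (nat_lit 1943889494342) (nat_lit 45) (nat_lit 5) (nat_lit 47) (nat_lit 5) (nat_lit 46) (nat_lit 5) (nat_lit 409) (nat_lit 396) (nat_lit 215)))) (XT.nd (nat_lit 52182) (nat_lit 0) (nat_lit 2204) (XT.nd (nat_lit 52104) (nat_lit 0) (nat_lit 2660) (XT.lf (nat_lit 0) (nat_lit 5097787386848) (nat_lit 152) (nat_lit 8525080066599) (nat_lit 228) (nat_lit 17808163805947) (nat_lit 43) (nat_lit 5) (nat_lit 45) (nat_lit 5) (nat_lit 46) (nat_lit 5) (nat_lit 410) (nat_lit 396) (nat_lit 214)) (XT.lf (nat_lit 0) (nat_lit 5572528497535) (nat_lit 532) (nat_lit 141080184865) (nat_lit 532) (nat_lit 141080184865) (nat_lit 78) (nat_lit 3) (nat_lit 85) (nat_lit 3) (nat_lit 85) (nat_lit 5) (nat_lit 397) (nat_lit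 397) (nat_lit 226))) (XT.nd (nat_lit 78) (nat_lit 456) (nat_lit 0) (XT.lf (nat_lit 76) (nat_lit 11120062125599) (nat_lit 0) (nat_lit 1128311906468) (nat_lit 532) (nat_lit 317812011566) (nat_lit 79) (nat_lit 5) (nat_lit 78) (nat_lit 3) (nat_lit 85) (nat_lit 5) (nat_lit 398) (nat_lit 397) (nat_lit 225)) (XT.lf (nat_lit 0) (nat_lit 511630185031) (nat_lit 532) (nat_lit 2531303977864) (nat_lit 608) (nat_lit 10465108282550) (nat_lit 72) (nat_lit 5) (nat_lit 79) (nat_lit 5) (nat_lit 80) (nat_lit 5) (nat_lit 399) (nat_lit 397) (nat_lit 224))))) (XT.nd (nat_lit 312) (nat_lit 1064) (nat_lit 0) (XT.nd (nat_lit 156) (nat_lit 608) (nat_lit 0) (XT.nd (nat_lit 78) (nat_lit 0) (nat_lit 76) (XT.lf (nat_lit 0) (nat_lit 2021356315818) (nat_lit 532) (nat_lit 3504829779247) (nat_lit 608) (nat_lit 9018355974084) (nat_lit 73) (nat_lit 5) (nat_lit 80) (nat_lit 5) (nat_lit 81) (nat_lit 5) (nat_lit 400) (nat_lit 397)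 (nat_lit 223)) (XT.lf (nat_lit 0) (nat_lit 4372513174341) (nat_lit 532) (nat_lit 4317324571174) (nat_lit 76) (nat_lit 6997481146243) (nat_lit 74) (nat_lit 5) (nat_lit 81) (nat_lit 5) (nat_lit 75) (nat_lit 5) (nat_lit 401) (nat_lit 397) (nat_lit 222))) (XT.nd (nat_lit 78) (nat_lit 228) (nat_lit 0) (XT.lf (nat_lit 0) (nat_lit 7734743795151) (nat_lit 532) (nat_lit 4919180403173) (nat_lit 76) (nat_lit 4294916020755) (nat_lit 68) (nat_lit 5) (nat_lit 75) (nat_lit 5) (nat_lit 69) (nat_lit 5) (nat_lit 402) (nat_lit 397) (nat_lit 221)) (XT.lf (nat_lit 0) (nat_lit 12305863550783) (nat_lit 304) (nat_lit 5251744633213) (nat_lit 76) (nat_lit 785617198165) (nat_lit 65) (nat_lit 5) (nat_lit 69) (nat_lit 5) (nat_lit 66) (nat_lit 5) (nat_lit 403) (nat_lit 397) (nat_lit 220)))) (XT.nd (nat_lit 156) (nat_lit 608) (nat_lit 0) (XT.nd (nat_lit 78) (nat_lit 228) (nat_lit 0) (XT.lf (nat_lit 0) (nat_lit 14539972865145)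 (nat_lit 228) (nat_lit 3869277917615) (nat_lit 304) (nat_lit 1469789575906) (nat_lit 62) (nat_lit 5) (nat_lit 65) (nat_lit 5) (nat_lit 66) (nat_lit 5) (nat_lit 404) (nat_lit 397) (nat_lit 219)) (XT.lf (nat_lit 0) (nat_lit 4455259777836) (nat_lit 228) (nat_lit 5168333642388) (nat_lit 76) (nat_lit 11945429565706) (nat_lit 59) (nat_lit 5) (nat_lit 62) (nat_lit 5) (nat_lit 60) (nat_lit 5) (nat_lit 405) (nat_lit 397) (nat_lit 218))) (XT.nd (nat_lit 78) (nat_lit 380) (nat_lit 0) (XT.lf (nat_lit 0) (nat_lit 12079691805274) (nat_lit 304) (nat_lit 4597823594343) (nat_lit 76) (nat_lit 6760121242239) (nat_lit 56) (nat_lit 5) (nat_lit 60) (nat_lit 5) (nat_lit 57) (nat_lit 5) (nat_lit 406) (nat_lit 397) (nat_lit 217)) (XT.nd (nat_lit 78) (nat_lit 228) (nat_lit 0) (XT.lf (nat_lit 0) (nat_lit 21803210526239) (nat_lit 228) (nat_lit 3496788058724) (nat_lit 76) (nat_lit 210110010055) (nat_lit 54) (nat_lit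 5) (nat_lit 57) (nat_lit 5) (nat_lit 55) (nat_lit 5) (nat_lit 407) (nat_lit 397) (nat_lit 216)) (XT.lf (nat_lit 0) (nat_lit 6088824069632) (nat_lit 228) (nat_lit 2110300997047) (nat_lit 76) (nat_lit 19584391142548) (nat_lit 51) (nat_lit 5) (nat_lit 54) (nat_lit 5) (nat_lit 52) (nat_lit 5) (nat_lit 408) (nat_lit 397) (nat_lit 215))))))) (XT.nd (nat_lit 52728) (nat_lit 0) (nat_lit 304) (XT.nd (nat_lit 52416) (nat_lit 0) (nat_lit 1748) (XT.nd (nat_lit 52260) (nat_lit 0) (nat_lit 2508) (XT.nd (nat_lit 78) (nat_lit 304) (nat_lit 0) (XT.lf (nat_lit 0) (nat_lit 18277831360354) (nat_lit 228) (nat_lit 163747005390) (nat_lit 76) (nat_lit 11857180629423) (nat_lit 49) (nat_lit 5) (nat_lit 52) (nat_lit 5) (nat_lit 50) (nat_lit 5) (nat_lit 409) (nat_lit 397) (nat_lit 214)) (XT.lf (nat_lit 0) (nat_lit 450011392788) (nat_lit 152) (nat_lit 30403425312682) (nat_lit 76) (nat_lit 2235472918824) (nat_lit 45)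 (nat_lit 5) (nat_lit 47) (nat_lit 5) (nat_lit 46) (nat_lit 5) (nat_lit 410) (nat_lit 397) (nat_lit 213))) (XT.nd (nat_lit 78) (nat_lit 0) (nat_lit 0) (XT.lf (nat_lit 0) (nat_lit 6408407772941) (nat_lit 532) (nat_lit 162242212176) (nat_lit 532) (nat_lit 162242212176) (nat_lit 78) (nat_lit 3) (nat_lit 85) (nat_lit 3) (nat_lit 85) (nat_lit 5) (nat_lit 398) (nat_lit 398) (nat_lit 224)) (XT.lf (nat_lit 76) (nat_lit 12788071445206) (nat_lit 0) (nat_lit 1297558693039) (nat_lit 532) (nat_lit 365483811823) (nat_lit 79) (nat_lit 5) (nat_lit 78) (nat_lit 3) (nat_lit 85) (nat_lit 5) (nat_lit 399) (nat_lit 398) (nat_lit 223)))) (XT.nd (nat_lit 156) (nat_lit 304) (nat_lit 0) (XT.nd (nat_lit 78) (nat_lit 0) (nat_lit 76) (XT.lf (nat_lit 0) (nat_lit 588374714013) (nat_lit 532) (nat_lit 2910999573663) (nat_lit 608) (nat_lit 12034874524488) (nat_lit 72) (nat_lit 5) (nat_lit 79) (nat_lit 5) (nat_lit 80) (nat_lit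 5) (nat_lit 400) (nat_lit 398) (nat_lit 222)) (XT.lf (nat_lit 0) (nat_lit 2324559764271) (nat_lit 532) (nat_lit 4030554245233) (nat_lit 608) (nat_lit 10371109369931) (nat_lit 73) (nat_lit 5) (nat_lit 80) (nat_lit 5) (nat_lit 81) (nat_lit 5) (nat_lit 401) (nat_lit 398) (nat_lit 221))) (XT.nd (nat_lit 78) (nat_lit 456) (nat_lit 0) (XT.lf (nat_lit 0) (nat_lit 5028390151449) (nat_lit 532) (nat_lit 4964923255945) (nat_lit 76) (nat_lit 8047103318052) (nat_lit 74) (nat_lit 5) (nat_lit 81) (nat_lit 5) (nat_lit 75) (nat_lit 5) (nat_lit 402) (nat_lit 398) (nat_lit 220)) (XT.lf (nat_lit 0) (nat_lit 8894955365274) (nat_lit 532) (nat_lit 5657057462752) (nat_lit 76) (nat_lit 4939153423846) (nat_lit 68) (nat_lit 5) (nat_lit 75) (nat_lit 5) (nat_lit 69) (nat_lit 5) (nat_lit 403) (nat_lit 398) (nat_lit 219))))) (XT.nd (nat_lit 312) (nat_lit 532) (nat_lit 0) (XT.nd (nat_lit 156) (nat_lit 456) (nat_lit 0) (XT.nd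 (nat_lit 78) (nat_lit 228) (nat_lit 0) (XT.lf (nat_lit 0) (nat_lit 14151743084161) (nat_lit 304) (nat_lit 6039506327315) (nat_lit 76) (nat_lit 903459777948) (nat_lit 65) (nat_lit 5) (nat_lit 69) (nat_lit 5) (nat_lit 66) (nat_lit 5) (nat_lit 404) (nat_lit 398) (nat_lit 218)) (XT.lf (nat_lit 0) (nat_lit 16720968795722) (nat_lit 228) (nat_lit 4449669605133) (nat_lit 304) (nat_lit 1690258011556) (nat_lit 62) (nat_lit 5) (nat_lit 65) (nat_lit 5) (nat_lit 66) (nat_lit 5) (nat_lit 405) (nat_lit 398) (nat_lit 217))) (XT.nd (nat_lit 78) (nat_lit 228) (nat_lit 0) (XT.lf (nat_lit 0) (nat_lit 5123548745141) (nat_lit 228) (nat_lit 5943583687928) (nat_lit 76) (nat_lit 13737244000700) (nat_lit 59) (nat_lit 5) (nat_lit 62) (nat_lit 5) (nat_lit 60) (nat_lit 5) (nat_lit 406) (nat_lit 398) (nat_lit 216)) (XT.lf (nat_lit 0) (nat_lit 13891645576635) (nat_lit 304) (nat_lit 5287497132704) (nat_lit 76) (nat_lit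 7774139428749) (nat_lit 56) (nat_lit 5) (nat_lit 60) (nat_lit 5) (nat_lit 57) (nat_lit 5) (nat_lit 407) (nat_lit 398) (nat_lit 215)))) (XT.nd (nat_lit 156) (nat_lit 152) (nat_lit 0) (XT.nd (nat_lit 78) (nat_lit 228) (nat_lit 0) (XT.lf (nat_lit 0) (nat_lit 25073692105693) (nat_lit 228) (nat_lit 4021306266773) (nat_lit 76) (nat_lit 241626511763) (nat_lit 54) (nat_lit 5) (nat_lit 57) (nat_lit 5) (nat_lit 55) (nat_lit 5) (nat_lit 408) (nat_lit 398) (nat_lit 214)) (XT.lf (nat_lit 0) (nat_lit 7002147680556) (nat_lit 228) (nat_lit 2426846145884) (nat_lit 76) (nat_lit 22522049814133) (nat_lit 51) (nat_lit 5) (nat_lit 54) (nat_lit 5) (nat_lit 52) (nat_lit 5) (nat_lit 409) (nat_lit 398) (nat_lit 213))) (XT.nd (nat_lit 52260) (nat_lit 0) (nat_lit 2204) (XT.lf (nat_lit 0) (nat_lit 21019506064846) (nat_lit 228) (nat_lit 188309055510) (nat_lit 76) (nat_lit 13635757724052) (nat_lit 49) (nat_lit 5) (nat_lit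 52) (nat_lit 5) (nat_lit 50) (nat_lit 5) (nat_lit 410) (nat_lit 398) (nat_lit 212)) (XT.nd (nat_lit 78) (nat_lit 0) (nat_lit 0) (XT.lf (nat_lit 0) (nat_lit 7369668939468) (nat_lit 532) (nat_lit 186578543686) (nat_lit 532) (nat_lit 186578543686) (nat_lit 78) (nat_lit 3) (nat_lit 85) (nat_lit 3) (nat_lit 85) (nat_lit 5) (nat_lit 399) (nat_lit 399) (nat_lit 222)) (XT.lf (nat_lit 76) (nat_lit 14706282162567) (nat_lit 0) (nat_lit 1492192497449) (nat_lit 532) (nat_lit 420306382480) (nat_lit 79) (nat_lit 5) (nat_lit 78) (nat_lit 3) (nat_lit 85) (nat_lit 5) (nat_lit 400) (nat_lit 399) (nat_lit 221))))))))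
noncomputable def xc126 : XT := (XT.nd (nat_lit 53586) (nat_lit 0) (nat_lit 228) (XT.nd (nat_lit 624) (nat_lit 380) (nat_lit 0) (XT.nd (nat_lit 312) (nat_lit 912) (nat_lit 0) (XT.nd (nat_lit 156) (nat_lit 304) (nat_lit 0) (XT.nd (nat_lit 78) (nat_lit 0) (nat_lit 76) (XT.lf (nat_lit 0) (nat_lit 676630922043) (nat_lit 532) (nat_lit 3347649509047) (nat_lit 608) (nat_lit 13840105702824) (nat_lit 72) (nat_lit 5) (nat_lit 79) (nat_lit 5) (nat_lit 80) (nat_lit 5) (nat_lit 401) (nat_lit 399) (nat_lit 220)) (XT.lf (nat_lit 0) (nat_lit 2673243729728) (nat_lit 532) (nat_lit 4635137381337) (nat_lit 608) (nat_lit 11926775775219) (nat_lit 73) (nat_lit 5) (nat_lit 80) (nat_lit 5) (nat_lit 81) (nat_lit 5) (nat_lit 402) (nat_lit 399) (nat_lit 219))) (XT.nd (nat_lit 78) (nat_lit 456) (nat_lit 0) (XT.lf (nat_lit 0) (nat_lit 5782648674889) (nat_lit 532) (nat_lit 5709661743653) (nat_lit 76) (nat_lit 9254168815663)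 (nat_lit 74) (nat_lit 5) (nat_lit 81) (nat_lit 5) (nat_lit 75) (nat_lit 5) (nat_lit 403) (nat_lit 399) (nat_lit 218)) (XT.lf (nat_lit 0) (nat_lit 10229198670708) (nat_lit 532) (nat_lit 6505616081487) (nat_lit 76) (nat_lit 5680026437407) (nat_lit 68) (nat_lit 5) (nat_lit 75) (nat_lit 5) (nat_lit 69) (nat_lit 5) (nat_lit 404) (nat_lit 399) (nat_lit 217)))) (XT.nd (nat_lit 156) (nat_lit 456) (nat_lit 0) (XT.nd (nat_lit 78) (nat_lit 228) (nat_lit 0) (XT.lf (nat_lit 0) (nat_lit 16274504547361) (nat_lit 304) (nat_lit 6945432275746) (nat_lit 76) (nat_lit 1038978744685) (nat_lit 65) (nat_lit 5) (nat_lit 69) (nat_lit 5) (nat_lit 66) (nat_lit 5) (nat_lit 405) (nat_lit 399) (nat_lit 216)) (XT.lf (nat_lit 0) (nat_lit 19229114115690) (nat_lit 228) (nat_lit 5117120045808) (nat_lit 304) (nat_lit 1943796712733) (nat_lit 62) (nat_lit 5) (nat_lit 65) (nat_lit 5) (nat_lit 66) (nat_lit 5) (nat_lit 406) (nat_lit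 399) (nat_lit 215))) (XT.nd (nat_lit 78) (nat_lit 228) (nat_lit 0) (XT.lf (nat_lit 0) (nat_lit 5892081057388) (nat_lit 228) (nat_lit 6835121240498) (nat_lit 76) (nat_lit 15797830600909) (nat_lit 59) (nat_lit 5) (nat_lit 62) (nat_lit 5) (nat_lit 60) (nat_lit 5) (nat_lit 407) (nat_lit 399) (nat_lit 214)) (XT.lf (nat_lit 0) (nat_lit 15975392413561) (nat_lit 304) (nat_lit 6080621702012) (nat_lit 76) (nat_lit 8940260343194) (nat_lit 56) (nat_lit 5) (nat_lit 60) (nat_lit 5) (nat_lit 57) (nat_lit 5) (nat_lit 408) (nat_lit 399) (nat_lit 213))))) (XT.nd (nat_lit 52572) (nat_lit 0) (nat_lit 1064) (XT.nd (nat_lit 52416) (nat_lit 0) (nat_lit 2052) (XT.nd (nat_lit 78) (nat_lit 228) (nat_lit 0) (XT.lf (nat_lit 0) (nat_lit 28834745921939) (nat_lit 228) (nat_lit 4624502206215) (nat_lit 76) (nat_lit 277870488678) (nat_lit 54) (nat_lit 5) (nat_lit 57) (nat_lit 5) (nat_lit 55) (nat_lit 5) (nat_lit 409) (nat_lit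 399) (nat_lit 212)) (XT.lf (nat_lit 0) (nat_lit 8052469833002) (nat_lit 228) (nat_lit 2790873067222) (nat_lit 76) (nat_lit 25900357286406) (nat_lit 51) (nat_lit 5) (nat_lit 54) (nat_lit 5) (nat_lit 52) (nat_lit 5) (nat_lit 410) (nat_lit 399) (nat_lit 211))) (XT.nd (nat_lit 78) (nat_lit 0) (nat_lit 0) (XT.lf (nat_lit 0) (nat_lit 8475119280832) (nat_lit 532) (nat_lit 214565324999) (nat_lit 532) (nat_lit 214565324999) (nat_lit 78) (nat_lit 3) (nat_lit 85) (nat_lit 3) (nat_lit 85) (nat_lit 5) (nat_lit 400) (nat_lit 400) (nat_lit 220)) (XT.lf (nat_lit 76) (nat_lit 16912224487391) (nat_lit 0) (nat_lit 1716021372409) (nat_lit 532) (nat_lit 483352339007) (nat_lit 79) (nat_lit 5) (nat_lit 78) (nat_lit 3) (nat_lit 85) (nat_lit 5) (nat_lit 401) (nat_lit 400) (nat_lit 219)))) (XT.nd (nat_lit 156) (nat_lit 532) (nat_lit 0) (XT.nd (nat_lit 78) (nat_lit 0) (nat_lit 76) (XT.lf (nat_lit 0) (nat_lit 778125561052)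 (nat_lit 532) (nat_lit 3849796934900) (nat_lit 608) (nat_lit 15916121557994) (nat_lit 72) (nat_lit 5) (nat_lit 79) (nat_lit 5) (nat_lit 80) (nat_lit 5) (nat_lit 402) (nat_lit 400) (nat_lit 218)) (XT.lf (nat_lit 0) (nat_lit 3074230289805) (nat_lit 532) (nat_lit 5330407988023) (nat_lit 608) (nat_lit 13715792141350) (nat_lit 73) (nat_lit 5) (nat_lit 80) (nat_lit 5) (nat_lit 81) (nat_lit 5) (nat_lit 403) (nat_lit 400) (nat_lit 217))) (XT.nd (nat_lit 78) (nat_lit 684) (nat_lit 0) (XT.lf (nat_lit 0) (nat_lit 6650045976669) (nat_lit 532) (nat_lit 6566111004684) (nat_lit 76) (nat_lit 10642294137939) (nat_lit 74) (nat_lit 5) (nat_lit 81) (nat_lit 5) (nat_lit 75) (nat_lit 5) (nat_lit 404) (nat_lit 400) (nat_lit 216)) (XT.nd (nat_lit 78) (nat_lit 228) (nat_lit 0) (XT.lf (nat_lit 0) (nat_lit 11763578471801) (nat_lit 532) (nat_lit 7481458493196) (nat_lit 76) (nat_lit 6532030403006) (nat_lit 68) (nat_lit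 5) (nat_lit 75) (nat_lit 5) (nat_lit 69) (nat_lit 5) (nat_lit 405) (nat_lit 400) (nat_lit 215)) (XT.lf (nat_lit 0) (nat_lit 18715680229900) (nat_lit 304) (nat_lit 7987247116605) (nat_lit 76) (nat_lit 1194825556421) (nat_lit 65) (nat_lit 5) (nat_lit 69) (nat_lit 5) (nat_lit 66) (nat_lit 5) (nat_lit 406) (nat_lit 400) (nat_lit 214))))))) (XT.nd (nat_lit 52962) (nat_lit 0) (nat_lit 152) (XT.nd (nat_lit 52650) (nat_lit 0) (nat_lit 1368) (XT.nd (nat_lit 156) (nat_lit 380) (nat_lit 0) (XT.nd (nat_lit 78) (nat_lit 228) (nat_lit 0) (XT.lf (nat_lit 0) (nat_lit 22113481233505) (nat_lit 228) (nat_lit 5884688052608) (nat_lit 304) (nat_lit 2235366219222) (nat_lit 62) (nat_lit 5) (nat_lit 65) (nat_lit 5) (nat_lit 66) (nat_lit 5) (nat_lit 407) (nat_lit 400) (nat_lit 213)) (XT.lf (nat_lit 0) (nat_lit 6775893216357) (nat_lit 228) (nat_lit 7860389426104) (nat_lit 76) (nat_lit 18167505191125) (nat_lit 59) (nat_lit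 5) (nat_lit 62) (nat_lit 5) (nat_lit 60) (nat_lit 5) (nat_lit 408) (nat_lit 400) (nat_lit 212))) (XT.nd (nat_lit 78) (nat_lit 152) (nat_lit 0) (XT.lf (nat_lit 0) (nat_lit 18371701275922) (nat_lit 304) (nat_lit 6992714956862) (nat_lit 76) (nat_lit 10281299394773) (nat_lit 56) (nat_lit 5) (nat_lit 60) (nat_lit 5) (nat_lit 57) (nat_lit 5) (nat_lit 409) (nat_lit 400) (nat_lit 211)) (XT.lf (nat_lit 0) (nat_lit 33159957810526) (nat_lit 228) (nat_lit 5318177536713) (nat_lit 76) (nat_lit 319551062094) (nat_lit 54) (nat_lit 5) (nat_lit 57) (nat_lit 5) (nat_lit 55) (nat_lit 5) (nat_lit 410) (nat_lit 400) (nat_lit 210)))) (XT.nd (nat_lit 156) (nat_lit 456) (nat_lit 0) (XT.nd (nat_lit 78) (nat_lit 0) (nat_lit 0) (XT.lf (nat_lit 0) (nat_lit 9746387173292) (nat_lit 532) (nat_lit 246750123568) (nat_lit 532) (nat_lit 246750123568) (nat_lit 78) (nat_lit 3) (nat_lit 85) (nat_lit 3) (nat_lit 85) (nat_lit 5)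 (nat_lit 401) (nat_lit 401) (nat_lit 218)) (XT.lf (nat_lit 76) (nat_lit 19449058160832) (nat_lit 0) (nat_lit 1973424578530) (nat_lit 532) (nat_lit 555855189220) (nat_lit 79) (nat_lit 5) (nat_lit 78) (nat_lit 3) (nat_lit 85) (nat_lit 5) (nat_lit 402) (nat_lit 401) (nat_lit 217))) (XT.nd (nat_lit 78) (nat_lit 0) (nat_lit 76) (XT.lf (nat_lit 0) (nat_lit 894844395740) (nat_lit 532) (nat_lit 4427266474754) (nat_lit 608) (nat_lit 18303539791500) (nat_lit 72) (nat_lit 5) (nat_lit 79) (nat_lit 5) (nat_lit 80) (nat_lit 5) (nat_lit 403) (nat_lit 401) (nat_lit 216)) (XT.lf (nat_lit 0) (nat_lit 3535364833743) (nat_lit 532) (nat_lit 6129969185837) (nat_lit 608) (nat_lit 15773160962437) (nat_lit 73) (nat_lit 5) (nat_lit 80) (nat_lit 5) (nat_lit 81) (nat_lit 5) (nat_lit 404) (nat_lit 401) (nat_lit 215))))) (XT.nd (nat_lit 312) (nat_lit 456) (nat_lit 0) (XT.nd (nat_lit 156) (nat_lit 456) (nat_lit 0) (XT.nd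 (nat_lit 78) (nat_lit 456) (nat_lit 0) (XT.lf (nat_lit 0) (nat_lit 7647552873582) (nat_lit 532) (nat_lit 7551027654995) (nat_lit 76) (nat_lit 12238638258575) (nat_lit 74) (nat_lit 5) (nat_lit 81) (nat_lit 5) (nat_lit 75) (nat_lit 5) (nat_lit 405) (nat_lit 401) (nat_lit 214)) (XT.lf (nat_lit 0) (nat_lit 13528115242939) (nat_lit 532) (nat_lit 8603677266789) (nat_lit 76) (nat_lit 7511834963447) (nat_lit 68) (nat_lit 5) (nat_lit 75) (nat_lit 5) (nat_lit 69) (nat_lit 5) (nat_lit 406) (nat_lit 401) (nat_lit 213))) (XT.nd (nat_lit 78) (nat_lit 228) (nat_lit 0) (XT.lf (nat_lit 0) (nat_lit 21523032264714) (nat_lit 304) (nat_lit 9185334183715) (nat_lit 76) (nat_lit 1374049389910) (nat_lit 65) (nat_lit 5) (nat_lit 69) (nat_lit 5) (nat_lit 66) (nat_lit 5) (nat_lit 407) (nat_lit 401) (nat_lit 212)) (XT.lf (nat_lit 0) (nat_lit 25430503418879) (nat_lit 228) (nat_lit 6767391260445) (nat_lit 304) (nat_lit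 2570671151788) (nat_lit 62) (nat_lit 5) (nat_lit 65) (nat_lit 5) (nat_lit 66) (nat_lit 5) (nat_lit 408) (nat_lit 401) (nat_lit 211)))) (XT.nd (nat_lit 52572) (nat_lit 0) (nat_lit 1216) (XT.nd (nat_lit 78) (nat_lit 228) (nat_lit 0) (XT.lf (nat_lit 0) (nat_lit 7792277199082) (nat_lit 228) (nat_lit 9039447839667) (nat_lit 76) (nat_lit 20892630969853) (nat_lit 59) (nat_lit 5) (nat_lit 62) (nat_lit 5) (nat_lit 60) (nat_lit 5) (nat_lit 409) (nat_lit 401) (nat_lit 210)) (XT.lf (nat_lit 0) (nat_lit 21127456467556) (nat_lit 304) (nat_lit 8041622200050) (nat_lit 76) (nat_lit 11823494304064) (nat_lit 56) (nat_lit 5) (nat_lit 60) (nat_lit 5) (nat_lit 57) (nat_lit 5) (nat_lit 410) (nat_lit 401) (nat_lit 209))) (XT.nd (nat_lit 78) (nat_lit 456) (nat_lit 0) (XT.lf (nat_lit 0) (nat_lit 11208345249540) (nat_lit 532) (nat_lit 283762641967) (nat_lit 532) (nat_lit 283762641967) (nat_lit 78) (nat_lit 3) (nat_lit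 85) (nat_lit 3) (nat_lit 85) (nat_lit 5) (nat_lit 402) (nat_lit 402) (nat_lit 216)) (XT.nd (nat_lit 78) (nat_lit 456) (nat_lit 0) (XT.lf (nat_lit 76) (nat_lit 22366416885207) (nat_lit 0) (nat_lit 2269438265506) (nat_lit 532) (nat_lit 639233467120) (nat_lit 79) (nat_lit 5) (nat_lit 78) (nat_lit 3) (nat_lit 85) (nat_lit 5) (nat_lit 403) (nat_lit 402) (nat_lit 215)) (XT.lf (nat_lit 0) (nat_lit 1029071055503) (nat_lit 532) (nat_lit 5091356445679) (nat_lit 608) (nat_lit 21049070760079) (nat_lit 72) (nat_lit 5) (nat_lit 79) (nat_lit 5) (nat_lit 80) (nat_lit 5) (nat_lit 404) (nat_lit 402) (nat_lit 214))))))))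
noncomputable def xc127 : XT := (XT.nd (nat_lit 106392) (nat_lit 0) (nat_lit 456) (XT.nd (nat_lit 53118) (nat_lit 0) (nat_lit 228) (XT.nd (nat_lit 312) (nat_lit 456) (nat_lit 0) (XT.nd (nat_lit 156) (nat_lit 608) (nat_lit 0) (XT.nd (nat_lit 78) (nat_lit 0) (nat_lit 76) (XT.lf (nat_lit 0) (nat_lit 4065669559157) (nat_lit 532) (nat_lit 7049464563419) (nat_lit 608) (nat_lit 18139135106715) (nat_lit 73) (nat_lit 5) (nat_lit 80) (nat_lit 5) (nat_lit 81) (nat_lit 5) (nat_lit 405) (nat_lit 402) (nat_lit 213)) (XT.lf (nat_lit 0) (nat_lit 8794685804932) (nat_lit 532) (nat_lit 8683681802949) (nat_lit 76) (nat_lit 14074433997319) (nat_lit 74) (nat_lit 5) (nat_lit 81) (nat_lit 5) (nat_lit 75) (nat_lit 5) (nat_lit 406) (nat_lit 402) (nat_lit 212))) (XT.nd (nat_lit 78) (nat_lit 228) (nat_lit 0) (XT.lf (nat_lit 0) (nat_lit 15557332529658) (nat_lit 532) (nat_lit 9894228856514) (nat_lit 76) (nat_lit 8638610207957)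 (nat_lit 68) (nat_lit 5) (nat_lit 75) (nat_lit 5) (nat_lit 69) (nat_lit 5) (nat_lit 407) (nat_lit 402) (nat_lit 211)) (XT.lf (nat_lit 0) (nat_lit 24751487104670) (nat_lit 304) (nat_lit 10563134310984) (nat_lit 76) (nat_lit 1580156798416) (nat_lit 65) (nat_lit 5) (nat_lit 69) (nat_lit 5) (nat_lit 66) (nat_lit 5) (nat_lit 408) (nat_lit 402) (nat_lit 210)))) (XT.nd (nat_lit 52650) (nat_lit 0) (nat_lit 1444) (XT.nd (nat_lit 78) (nat_lit 228) (nat_lit 0) (XT.lf (nat_lit 0) (nat_lit 29245078931974) (nat_lit 228) (nat_lit 7782499949471) (nat_lit 304) (nat_lit 2956271824316) (nat_lit 62) (nat_lit 5) (nat_lit 65) (nat_lit 5) (nat_lit 66) (nat_lit 5) (nat_lit 409) (nat_lit 402) (nat_lit 209)) (XT.lf (nat_lit 0) (nat_lit 8961118779151) (nat_lit 228) (nat_lit 10395365015350) (nat_lit 76) (nat_lit 24026525615376) (nat_lit 59) (nat_lit 5) (nat_lit 62) (nat_lit 5) (nat_lit 60) (nat_lit 5) (nat_lit 410)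 (nat_lit 402) (nat_lit 208))) (XT.nd (nat_lit 78) (nat_lit 0) (nat_lit 0) (XT.lf (nat_lit 0) (nat_lit 12889597037163) (nat_lit 532) (nat_lit 326327038158) (nat_lit 532) (nat_lit 326327038158) (nat_lit 78) (nat_lit 3) (nat_lit 85) (nat_lit 3) (nat_lit 85) (nat_lit 5) (nat_lit 403) (nat_lit 403) (nat_lit 214)) (XT.lf (nat_lit 76) (nat_lit 25721379418178) (nat_lit 0) (nat_lit 2609854005480) (nat_lit 532) (nat_lit 735118486822) (nat_lit 79) (nat_lit 5) (nat_lit 78) (nat_lit 3) (nat_lit 85) (nat_lit 5) (nat_lit 404) (nat_lit 403) (nat_lit 213))))) (XT.nd (nat_lit 312) (nat_lit 456) (nat_lit 0) (XT.nd (nat_lit 156) (nat_lit 304) (nat_lit 0) (XT.nd (nat_lit 78) (nat_lit 0) (nat_lit 76) (XT.lf (nat_lit 0) (nat_lit 1183431714132) (nat_lit 532) (nat_lit 5855059912313) (nat_lit 608) (nat_lit 24206431373982) (nat_lit 72) (nat_lit 5) (nat_lit 79) (nat_lit 5) (nat_lit 80) (nat_lit 5) (nat_lit 405) (nat_lit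 403) (nat_lit 212)) (XT.lf (nat_lit 0) (nat_lit 4675519993298) (nat_lit 532) (nat_lit 8106884247709) (nat_lit 608) (nat_lit 20860005372657) (nat_lit 73) (nat_lit 5) (nat_lit 80) (nat_lit 5) (nat_lit 81) (nat_lit 5) (nat_lit 406) (nat_lit 403) (nat_lit 211))) (XT.nd (nat_lit 78) (nat_lit 456) (nat_lit 0) (XT.lf (nat_lit 0) (nat_lit 10113888675908) (nat_lit 532) (nat_lit 9986234073168) (nat_lit 76) (nat_lit 16185599096885) (nat_lit 74) (nat_lit 5) (nat_lit 81) (nat_lit 5) (nat_lit 75) (nat_lit 5) (nat_lit 407) (nat_lit 403) (nat_lit 210)) (XT.lf (nat_lit 0) (nat_lit 17890932409317) (nat_lit 532) (nat_lit 11378363184769) (nat_lit 76) (nat_lit 9934401739145) (nat_lit 68) (nat_lit 5) (nat_lit 75) (nat_lit 5) (nat_lit 69) (nat_lit 5) (nat_lit 408) (nat_lit 403) (nat_lit 209)))) (XT.nd (nat_lit 52728) (nat_lit 0) (nat_lit 760) (XT.nd (nat_lit 78) (nat_lit 228) (nat_lit 0) (XT.lf (nat_lit 0) (nat_lit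 28464210170558) (nat_lit 304) (nat_lit 12147604457415) (nat_lit 76) (nat_lit 1817180318192) (nat_lit 65) (nat_lit 5) (nat_lit 69) (nat_lit 5) (nat_lit 66) (nat_lit 5) (nat_lit 409) (nat_lit 403) (nat_lit 208)) (XT.lf (nat_lit 0) (nat_lit 33631840771970) (nat_lit 228) (nat_lit 8949874941861) (nat_lit 304) (nat_lit 3399712597781) (nat_lit 62) (nat_lit 5) (nat_lit 65) (nat_lit 5) (nat_lit 66) (nat_lit 5) (nat_lit 410) (nat_lit 403) (nat_lit 207))) (XT.nd (nat_lit 78) (nat_lit 456) (nat_lit 0) (XT.lf (nat_lit 0) (nat_lit 14823036592882) (nat_lit 532) (nat_lit 375276093804) (nat_lit 532) (nat_lit 375276093804) (nat_lit 78) (nat_lit 3) (nat_lit 85) (nat_lit 3) (nat_lit 85) (nat_lit 5) (nat_lit 404) (nat_lit 404) (nat_lit 212)) (XT.nd (nat_lit 78) (nat_lit 456) (nat_lit 0) (XT.lf (nat_lit 76) (nat_lit 29579586331048) (nat_lit 0) (nat_lit 3001332106414) (nat_lit 532) (nat_lit 845386259570) (nat_lit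 79) (nat_lit 5) (nat_lit 78) (nat_lit 3) (nat_lit 85) (nat_lit 5) (nat_lit 405) (nat_lit 404) (nat_lit 211)) (XT.lf (nat_lit 0) (nat_lit 1360946471481) (nat_lit 532) (nat_lit 6733318898996) (nat_lit 608) (nat_lit 27837396079995) (nat_lit 72) (nat_lit 5) (nat_lit 79) (nat_lit 5) (nat_lit 80) (nat_lit 5) (nat_lit 406) (nat_lit 404) (nat_lit 210))))))) (XT.nd (nat_lit 106158) (nat_lit 0) (nat_lit 532) (XT.nd (nat_lit 52962) (nat_lit 0) (nat_lit 532) (XT.nd (nat_lit 156) (nat_lit 608) (nat_lit 0) (XT.nd (nat_lit 78) (nat_lit 0) (nat_lit 76) (XT.lf (nat_lit 0) (nat_lit 5376847992494) (nat_lit 532) (nat_lit 9322916884697) (nat_lit 608) (nat_lit 23989006178506) (nat_lit 73) (nat_lit 5) (nat_lit 80) (nat_lit 5) (nat_lit 81) (nat_lit 5) (nat_lit 407) (nat_lit 404) (nat_lit 209)) (XT.lf (nat_lit 0) (nat_lit 11630971977473) (nat_lit 532) (nat_lit 11484169183974) (nat_lit 76) (nat_lit 18613438961394)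 (nat_lit 74) (nat_lit 5) (nat_lit 81) (nat_lit 5) (nat_lit 75) (nat_lit 5) (nat_lit 408) (nat_lit 404) (nat_lit 208))) (XT.nd (nat_lit 78) (nat_lit 228) (nat_lit 0) (XT.lf (nat_lit 0) (nat_lit 20574572270873) (nat_lit 532) (nat_lit 13085117662317) (nat_lit 76) (nat_lit 11424562000013) (nat_lit 68) (nat_lit 5) (nat_lit 75) (nat_lit 5) (nat_lit 69) (nat_lit 5) (nat_lit 409) (nat_lit 404) (nat_lit 207)) (XT.lf (nat_lit 0) (nat_lit 32733841696284) (nat_lit 304) (nat_lit 13969745125862) (nat_lit 76) (nat_lit 2089757365932) (nat_lit 65) (nat_lit 5) (nat_lit 69) (nat_lit 5) (nat_lit 66) (nat_lit 5) (nat_lit 410) (nat_lit 404) (nat_lit 206)))) (XT.nd (nat_lit 156) (nat_lit 456) (nat_lit 0) (XT.nd (nat_lit 78) (nat_lit 0) (nat_lit 0) (XT.lf (nat_lit 0) (nat_lit 17046492081924) (nat_lit 532) (nat_lit 431567507815) (nat_lit 532) (nat_lit 431567507815) (nat_lit 78) (nat_lit 3) (nat_lit 85) (nat_lit 3)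 (nat_lit 85) (nat_lit 5) (nat_lit 405) (nat_lit 405) (nat_lit 210)) (XT.lf (nat_lit 76) (nat_lit 34016524280813) (nat_lit 0) (nat_lit 3451531922462) (nat_lit 532) (nat_lit 972194198297) (nat_lit 79) (nat_lit 5) (nat_lit 78) (nat_lit 3) (nat_lit 85) (nat_lit 5) (nat_lit 406) (nat_lit 405) (nat_lit 209))) (XT.nd (nat_lit 78) (nat_lit 0) (nat_lit 76) (XT.lf (nat_lit 0) (nat_lit 1565088442376) (nat_lit 532) (nat_lit 7743316733721) (nat_lit 608) (nat_lit 32013005491932) (nat_lit 72) (nat_lit 5) (nat_lit 79) (nat_lit 5) (nat_lit 80) (nat_lit 5) (nat_lit 407) (nat_lit 405) (nat_lit 208)) (XT.nd (nat_lit 78) (nat_lit 0) (nat_lit 76) (XT.lf (nat_lit 0) (nat_lit 6183375191521) (nat_lit 532) (nat_lit 10721354417274) (nat_lit 608) (nat_lit 27587357105244) (nat_lit 73) (nat_lit 5) (nat_lit 80) (nat_lit 5) (nat_lit 81) (nat_lit 5) (nat_lit 408) (nat_lit 405) (nat_lit 207)) (XT.lf (nat_lit 0) (nat_lit 13375617774229)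 (nat_lit 532) (nat_lit 13206794561443) (nat_lit 76) (nat_lit 21405454805585) (nat_lit 74) (nat_lit 5) (nat_lit 81) (nat_lit 5) (nat_lit 75) (nat_lit 5) (nat_lit 409) (nat_lit 405) (nat_lit 206)))))) (XT.nd (nat_lit 53196) (nat_lit 0) (nat_lit 0) (XT.nd (nat_lit 156) (nat_lit 456) (nat_lit 0) (XT.nd (nat_lit 78) (nat_lit 0) (nat_lit 0) (XT.lf (nat_lit 0) (nat_lit 19603465894296) (nat_lit 532) (nat_lit 496302633942) (nat_lit 532) (nat_lit 496302633942) (nat_lit 78) (nat_lit 3) (nat_lit 85) (nat_lit 3) (nat_lit 85) (nat_lit 5) (nat_lit 406) (nat_lit 406) (nat_lit 208)) (XT.lf (nat_lit 76) (nat_lit 39119002923018) (nat_lit 0) (nat_lit 3969261710895) (nat_lit 532) (nat_lit 1118023327883) (nat_lit 79) (nat_lit 5) (nat_lit 78) (nat_lit 3) (nat_lit 85) (nat_lit 5) (nat_lit 407) (nat_lit 406) (nat_lit 207))) (XT.nd (nat_lit 78) (nat_lit 0) (nat_lit 76) (XT.lf (nat_lit 0) (nat_lit 1799851708864) (nat_lit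 532) (nat_lit 8904814243684) (nat_lit 608) (nat_lit 36814956315675) (nat_lit 72) (nat_lit 5) (nat_lit 79) (nat_lit 5) (nat_lit 80) (nat_lit 5) (nat_lit 408) (nat_lit 406) (nat_lit 206)) (XT.lf (nat_lit 0) (nat_lit 7110881470365) (nat_lit 532) (nat_lit 12329557579769) (nat_lit 608) (nat_lit 31725460671002) (nat_lit 73) (nat_lit 5) (nat_lit 80) (nat_lit 5) (nat_lit 81) (nat_lit 5) (nat_lit 409) (nat_lit 406) (nat_lit 205)))) (XT.nd (nat_lit 156) (nat_lit 456) (nat_lit 0) (XT.nd (nat_lit 78) (nat_lit 0) (nat_lit 0) (XT.lf (nat_lit 0) (nat_lit 22543985778503) (nat_lit 532) (nat_lit 570748029000) (nat_lit 532) (nat_lit 570748029000) (nat_lit 78) (nat_lit 3) (nat_lit 85) (nat_lit 3) (nat_lit 85) (nat_lit 5) (nat_lit 407) (nat_lit 407) (nat_lit 206)) (XT.lf (nat_lit 76) (nat_lit 44986853361533) (nat_lit 0) (nat_lit 4564650967578) (nat_lit 532) (nat_lit 1285726826946) (nat_lit 79) (nat_lit 5) (nat_lit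 78) (nat_lit 3) (nat_lit 85) (nat_lit 5) (nat_lit 408) (nat_lit 407) (nat_lit 205))) (XT.nd (nat_lit 53118) (nat_lit 0) (nat_lit 456) (XT.lf (nat_lit 0) (nat_lit 2069829465293) (nat_lit 532) (nat_lit 10240536380166) (nat_lit 608) (nat_lit 42337199762989) (nat_lit 72) (nat_lit 5) (nat_lit 79) (nat_lit 5) (nat_lit 80) (nat_lit 5) (nat_lit 409) (nat_lit 407) (nat_lit 204)) (XT.nd (nat_lit 53118) (nat_lit 0) (nat_lit 0) (XT.lf (nat_lit 76) (nat_lit 51734881365809) (nat_lit 0) (nat_lit 5249348612752) (nat_lit 532) (nat_lit 1478585850898) (nat_lit 79) (nat_lit 5) (nat_lit 78) (nat_lit 3) (nat_lit 85) (nat_lit 5) (nat_lit 409) (nat_lit 408) (nat_lit 203)) (XT.lf (nat_lit 0) (nat_lit 29814421192161) (nat_lit 532) (nat_lit 754814268304) (nat_lit 532) (nat_lit 754814268304) (nat_lit 78) (nat_lit 3) (nat_lit 85) (nat_lit 3) (nat_lit 85) (nat_lit 5) (nat_lit 409) (nat_lit 409) (nat_lit 202))))))))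

set_option maxRecDepth 10000000 in
noncomputable def Tp : PT := (PT.nd (nat_lit 9149946) (PT.nd (nat_lit 8830926) pc0 pc1) (PT.nd (nat_lit 264108) pc2 pc3))

set_option maxRecDepth 10000000 in
noncomputable def Tx : XT := (XT.nd (nat_lit 16021122) (nat_lit 0) (nat_lit 76) XT.nil (XT.nd (nat_lit 5736120) (nat_lit 0) (nat_lit 0) (XT.nd (nat_lit 2493972) (nat_lit 0) (nat_lit 0) (XT.nd (nat_lit 1698060) (nat_lit 0) (nat_lit 0) (XT.nd (nat_lit 1168440) (nat_lit 0) (nat_lit 0) (XT.nd (nat_lit 847548) (nat_lit 0) (nat_lit 0) (XT.nd (nat_lit 582972) (nat_lit 0) (nat_lit 0) (XT.nd (nat_lit 371670) (nat_lit 0) (nat_lit 0) (XT.nd (nat_lit 265122) (nat_lit 0) (nat_lit 0) xc0 xc1) (XT.nd (nat_lit 105924) (nat_lit 0) (nat_lit 0) xc2 xc3)) (XT.nd (nat_lit 107328) (nat_lit 0) (nat_lit 0) (XT.nd (nat_lit 53742) (nat_lit 0) (nat_lit 0) xc4 xc5) (XT.nd (nat_lit 53430) (nat_lit 0) (nat_lit 0) xc6 xc7))) (XT.nd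 (nat_lit 161148) (nat_lit 0) (nat_lit 0) (XT.nd (nat_lit 105768) (nat_lit 0) (nat_lit 0) (XT.nd (nat_lit 52962) (nat_lit 0) (nat_lit 0) xc8 xc9) (XT.nd (nat_lit 2652) (nat_lit 0) (nat_lit 0) xc10 xc11)) (XT.nd (nat_lit 104832) (nat_lit 0) (nat_lit 0) (XT.nd (nat_lit 52494) (nat_lit 0) (nat_lit 0) xc12 xc13) (XT.nd (nat_lit 52182) (nat_lit 0) (nat_lit 0) xc14 xc15)))) (XT.nd (nat_lit 315276) (nat_lit 0) (nat_lit 0) (XT.nd (nat_lit 158340) (nat_lit 0) (nat_lit 0) (XT.nd (nat_lit 103896) (nat_lit 0) (nat_lit 0) (XT.nd (nat_lit 52026) (nat_lit 0) (nat_lit 0) xc16 xc17) (XT.nd (nat_lit 51714) (nat_lit 0) (nat_lit 0) xc18 xc19)) (XT.nd (nat_lit 54210) (nat_lit 0) (nat_lit 0) (XT.nd (nat_lit 51558) (nat_lit 0) (nat_lit 0) xc20 xc21) (XT.nd (nat_lit 51402) (nat_lit 0) (nat_lit 0) xc22 xc23))) (XT.nd (nat_lit 107406) (nat_lit 0) (nat_lit 0) (XT.nd (nat_lit 53742) (nat_lit 0) (nat_lit 0) (XT.nd (nat_lit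 2652) (nat_lit 0) (nat_lit 0) xc24 xc25) (XT.nd (nat_lit 2652) (nat_lit 0) (nat_lit 0) xc26 xc27)) (XT.nd (nat_lit 53508) (nat_lit 0) (nat_lit 0) (XT.nd (nat_lit 50856) (nat_lit 0) (nat_lit 152) xc28 xc29) (XT.nd (nat_lit 50700) (nat_lit 0) (nat_lit 0) xc30 xc31))))) (XT.nd (nat_lit 421746) (nat_lit 0) (nat_lit 0) (XT.nd (nat_lit 212004) (nat_lit 0) (nat_lit 0) (XT.nd (nat_lit 106314) (nat_lit 0) (nat_lit 0) (XT.nd (nat_lit 53196) (nat_lit 0) (nat_lit 0) (XT.nd (nat_lit 50544) (nat_lit 0) (nat_lit 0) xc32 xc33) (XT.nd (nat_lit 50388) (nat_lit 0) (nat_lit 0) xc34 xc35)) (XT.nd (nat_lit 52884) (nat_lit 0) (nat_lit 0) (XT.nd (nat_lit 50232) (nat_lit 0) (nat_lit 152) xc36 xc37) (XT.nd (nat_lit 50076) (nat_lit 0) (nat_lit 152) xc38 xc39))) (XT.nd (nat_lit 105066) (nat_lit 0) (nat_lit 0) (XT.nd (nat_lit 52572) (nat_lit 0) (nat_lit 0) (XT.nd (nat_lit 49920) (nat_lit 0) (nat_lit 380) xc40 xc41) (XT.nd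 (nat_lit 2652) (nat_lit 0) (nat_lit 0) xc42 xc43)) (XT.nd (nat_lit 52260) (nat_lit 0) (nat_lit 0) (XT.nd (nat_lit 2652) (nat_lit 0) (nat_lit 0) xc44 xc45) (XT.nd (nat_lit 2652) (nat_lit 152) (nat_lit 0) xc46 xc47)))) (XT.nd (nat_lit 162942) (nat_lit 0) (nat_lit 0) (XT.nd (nat_lit 57798) (nat_lit 0) (nat_lit 0) (XT.nd (nat_lit 52416) (nat_lit 0) (nat_lit 0) (XT.nd (nat_lit 2652) (nat_lit 228) (nat_lit 0) xc48 xc49) (XT.nd (nat_lit 2652) (nat_lit 684) (nat_lit 0) xc50 xc51)) (XT.nd (nat_lit 52494) (nat_lit 0) (nat_lit 0) (XT.nd (nat_lit 49842) (nat_lit 0) (nat_lit 0) xc52 xc53) (XT.nd (nat_lit 49920) (nat_lit 0) (nat_lit 152) xc54 xc55))) (XT.nd (nat_lit 105456) (nat_lit 0) (nat_lit 0) (XT.nd (nat_lit 52650) (nat_lit 0) (nat_lit 0) (XT.nd (nat_lit 49998) (nat_lit 0) (nat_lit 228) xc56 xc57) (XT.nd (nat_lit 50076) (nat_lit 0) (nat_lit 380) xc58 xc59)) (XT.nd (nat_lit 52806) (nat_lit 0) (nat_lit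 0) (XT.nd (nat_lit 50154) (nat_lit 0) (nat_lit 608) xc60 xc61) (XT.nd (nat_lit 50232) (nat_lit 0) (nat_lit 760) xc62 xc63)))))) (XT.nd (nat_lit 957060) (nat_lit 0) (nat_lit 228) (XT.nd (nat_lit 426504) (nat_lit 0) (nat_lit 0) (XT.nd (nat_lit 212472) (nat_lit 0) (nat_lit 0) (XT.nd (nat_lit 106080) (nat_lit 0) (nat_lit 0) (XT.nd (nat_lit 52962) (nat_lit 0) (nat_lit 0) (XT.nd (nat_lit 50310) (nat_lit 0) (nat_lit 988) xc64 xc65) (XT.nd (nat_lit 2652) (nat_lit 0) (nat_lit 0) xc66 xc67)) (XT.nd (nat_lit 53118) (nat_lit 0) (nat_lit 0) (XT.nd (nat_lit 2652) (nat_lit 0) (nat_lit 0) xc68 xc69) (XT.nd (nat_lit 2652) (nat_lit 0) (nat_lit 0) xc70 xc71))) (XT.nd (nat_lit 106860) (nat_lit 0) (nat_lit 0) (XT.nd (nat_lit 53352) (nat_lit 0) (nat_lit 0) (XT.nd (nat_lit 50700) (nat_lit 0) (nat_lit 912) xc72 xc73) (XT.nd (nat_lit 50778) (nat_lit 0) (nat_lit 608) xc74 xc75)) (XT.nd (nat_lit 53508) (nat_lit 0)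 (nat_lit 0) (XT.nd (nat_lit 50856) (nat_lit 0) (nat_lit 456) xc76 xc77) (XT.nd (nat_lit 50934) (nat_lit 0) (nat_lit 228) xc78 xc79)))) (XT.nd (nat_lit 264186) (nat_lit 0) (nat_lit 152) (XT.nd (nat_lit 156078) (nat_lit 0) (nat_lit 152) (XT.nd (nat_lit 53664) (nat_lit 0) (nat_lit 152) (XT.nd (nat_lit 51012) (nat_lit 0) (nat_lit 152) xc80 xc81) (XT.nd (nat_lit 51090) (nat_lit 0) (nat_lit 0) xc82 xc83)) (XT.nd (nat_lit 53976) (nat_lit 0) (nat_lit 0) (XT.nd (nat_lit 2652) (nat_lit 532) (nat_lit 0) xc84 xc85) (XT.nd (nat_lit 2652) (nat_lit 76) (nat_lit 0) xc86 xc87))) (XT.nd (nat_lit 108420) (nat_lit 0) (nat_lit 0) (XT.nd (nat_lit 54132) (nat_lit 0) (nat_lit 0) (XT.nd (nat_lit 51480) (nat_lit 0) (nat_lit 532) xc88 xc89) (XT.nd (nat_lit 51558) (nat_lit 0) (nat_lit 0) xc90 xc91)) (XT.nd (nat_lit 103350) (nat_lit 0) (nat_lit 0) (XT.nd (nat_lit 51636) (nat_lit 0) (nat_lit 0) xc92 xc93) (XT.nd (nat_lit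 2652) (nat_lit 76) (nat_lit 0) xc94 xc95))))) (XT.nd (nat_lit 689676) (nat_lit 0) (nat_lit 608) (XT.nd (nat_lit 318318) (nat_lit 0) (nat_lit 152) (XT.nd (nat_lit 158808) (nat_lit 0) (nat_lit 0) (XT.nd (nat_lit 103974) (nat_lit 0) (nat_lit 0) (XT.nd (nat_lit 51948) (nat_lit 0) (nat_lit 0) xc96 xc97) (XT.nd (nat_lit 2652) (nat_lit 760) (nat_lit 0) xc98 xc99)) (XT.nd (nat_lit 54834) (nat_lit 0) (nat_lit 152) (XT.nd (nat_lit 52182) (nat_lit 0) (nat_lit 228) xc100 xc101) (XT.nd (nat_lit 52260) (nat_lit 0) (nat_lit 0) xc102 xc103))) (XT.nd (nat_lit 160212) (nat_lit 0) (nat_lit 76) (XT.nd (nat_lit 104910) (nat_lit 0) (nat_lit 76) (XT.nd (nat_lit 52416) (nat_lit 0) (nat_lit 76) xc104 xc105) (XT.nd (nat_lit 2652) (nat_lit 456) (nat_lit 0) xc106 xc107)) (XT.nd (nat_lit 105378) (nat_lit 0) (nat_lit 152) (XT.nd (nat_lit 52650) (nat_lit 0) (nat_lit 152) xc108 xc109) (XT.nd (nat_lit 52806) (nat_lit 0)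 (nat_lit 76) xc110 xc111)))) (XT.nd (nat_lit 478218) (nat_lit 0) (nat_lit 1064) (XT.nd (nat_lit 212706) (nat_lit 0) (nat_lit 456) (XT.nd (nat_lit 106158) (nat_lit 0) (nat_lit 152) (XT.nd (nat_lit 53040) (nat_lit 0) (nat_lit 76) xc112 xc113) (XT.nd (nat_lit 53196) (nat_lit 0) (nat_lit 76) xc114 xc115)) (XT.nd (nat_lit 106938) (nat_lit 0) (nat_lit 228) (XT.nd (nat_lit 53430) (nat_lit 0) (nat_lit 76) xc116 xc117) (XT.nd (nat_lit 53586) (nat_lit 0) (nat_lit 152) xc118 xc119))) (XT.nd (nat_lit 319878) (nat_lit 0) (nat_lit 988) (XT.nd (nat_lit 107952) (nat_lit 0) (nat_lit 380) (XT.nd (nat_lit 53898) (nat_lit 0) (nat_lit 228) xc120 xc121) (XT.nd (nat_lit 105690) (nat_lit 0) (nat_lit 304) xc122 xc123)) (XT.nd (nat_lit 265434) (nat_lit 0) (nat_lit 912) (XT.nd (nat_lit 106470) (nat_lit 0) (nat_lit 304) xc124 xc125) (XT.nd (nat_lit 159666) (nat_lit 0) (nat_lit 608) xc126 xc127))))))) XT.nil))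

set_option maxRecDepth 10000000 in
noncomputable def Te : XT := XT.nil

set_option maxRecDepth 10000000 in
noncomputable def Tz : ZL := (ZL.cons (nat_lit 76) (nat_lit 6) (nat_lit 425507923030182178428) (ZL.cons (nat_lit 152) (nat_lit 3) (nat_lit 198033812626064514837) (ZL.cons (nat_lit 228) (nat_lit 6) (nat_lit 370514510360164928164) (ZL.cons (nat_lit 304) (nat_lit 6) (nat_lit 348348626106403619742) (ZL.cons (nat_lit 380) (nat_lit 3) (nat_lit 172495197269016366077) (ZL.cons (nat_lit 456) (nat_lit 6) (nat_lit 322857859214578115058) (ZL.cons (nat_lit 532) (nat_lit 6) (nat_lit 303683876524776964796) (ZL.cons (nat_lit 608) (nat_lit 3) (nat_lit 150381837580488096491) (ZL.cons (nat_lit 684) (nat_lit 6) (nat_lit 281633796431505641996) (ZL.cons (nat_lit 760) (nat_lit 6) (nat_lit 265093942790155081756) (ZL.cons (nat_lit 836) (nat_lit 3) (nat_lit 131277318628207640089) (ZL.cons (nat_lit 912) (nat_lit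 6) (nat_lit 246073111102601937482) (ZL.cons (nat_lit 988) (nat_lit 6) (nat_lit 231866753327925787634) (ZL.cons (nat_lit 1064) (nat_lit 3) (nat_lit 114829330779728197479) (ZL.cons (nat_lit 1140) (nat_lit 6) (nat_lit 215529441887048215310) (ZL.cons (nat_lit 1216) (nat_lit 6) (nat_lit 203409010830917238504) (ZL.cons (nat_lit 1292) (nat_lit 3) (nat_lit 100744465516124100696) (ZL.cons (nat_lit 1368) (nat_lit 6) (nat_lit 189470515116366615174) (ZL.cons (nat_lit 1444) (nat_lit 6) (nat_lit 179239051219310121276) (ZL.cons (nat_lit 1520) (nat_lit 3) (nat_lit 88784708305885914068) (ZL.cons (nat_lit 1596) (nat_lit 6) (nat_lit 167472867737695153290) (ZL.cons (nat_lit 1672) (nat_lit 6) (nat_lit 158983327320513351348) (ZL.cons (nat_lit 1748) (nat_lit 3) (nat_lit 78765735570022635179) (ZL.cons (nat_lit 1824) (nat_lit 6) (nat_lit 149220355840754279116) (ZL.cons (nat_lit 1900) (nat_lit 6) (nat_lit 142376913062227355818)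 (ZL.cons (nat_lit 1976) (nat_lit 3) (nat_lit 70557214713518860088) (ZL.cons (nat_lit 2052) (nat_lit 6) (nat_lit 136867249358797669366) (ZL.cons (nat_lit 2128) (nat_lit 6) (nat_lit 134506953866921394030) (ZL.cons (nat_lit 2204) (nat_lit 6) (nat_lit 129268652464663894298) (ZL.cons (nat_lit 2280) (nat_lit 3) (nat_lit 64085420303988627302) (ZL.cons (nat_lit 2356) (nat_lit 6) (nat_lit 125297036714568878594) (ZL.cons (nat_lit 2432) (nat_lit 6) (nat_lit 123244605852067769606) (ZL.cons (nat_lit 2508) (nat_lit 3) (nat_lit 60160248104228468906) (ZL.cons (nat_lit 2584) (nat_lit 6) (nat_lit 120866302723336155254) (ZL.cons (nat_lit 2660) (nat_lit 6) (nat_lit 122514401091091009652) (ZL.cons (nat_lit 2736) (nat_lit 6) (nat_lit 119631866745272970840) (ZL.cons (nat_lit 2812) (nat_lit 3) (nat_lit 59338623869729250773) (ZL.cons (nat_lit 2888) (nat_lit 6) (nat_lit 116088455254600033884) (ZL.cons (nat_lit 2964)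 (nat_lit 6) (nat_lit 117261939261590351380) (ZL.cons (nat_lit 3040) (nat_lit 6) (nat_lit 115477216772458952262) (ZL.cons (nat_lit 3116) (nat_lit 3) (nat_lit 56477113078714884825) (ZL.cons (nat_lit 3192) (nat_lit 6) (nat_lit 113581903649540869704) (ZL.cons (nat_lit 3268) (nat_lit 3) (nat_lit 56375900083111969940) (ZL.cons (nat_lit 3344) (nat_lit 6) (nat_lit 111402293558185074764) (ZL.cons (nat_lit 3420) (nat_lit 1) (nat_lit 18446744073709551617) ZL.nil)))))))))))))))))))))))))))))))))))))))))))))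

noncomputable def vl : XL := ⟨(nat_lit 0), (nat_lit 76), (nat_lit 42730157), (nat_lit 228), (nat_lit 206489425), (nat_lit 76), (nat_lit 42730157), (nat_lit 1), (nat_lit 5), (nat_lit 3), (nat_lit 4), (nat_lit 1), (nat_lit 4), (nat_lit 0), (nat_lit 0), (nat_lit 0)⟩

noncomputable def cp0 : Nat := (nat_lit 199153930117251671017960776310760143426912324343543321055537317953093523800666275820570328906997197949089703956056026021817339263021135663684200521536579812884545930758601970081399551692859287118364341033142807982292499784744854118341001145371869233429012966810673243892959654827401540729009469507183757373826745903562853291318649292798597090331677165664155809896325176965125384133898095063843763693150708448056202921620720294644832055973401506530448932723589837467110249839041125607897719192797953239064894279410813924052345242695675038305679675416374885887830230573982473720746149306101369104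56111287618763368917751241514217805362357546102675005668943027642132895351668348013566935217952191753194019333156696805384015713498951466215328977005694002286150490316639387349092767968392945081770372661821494524731289973293152962018567595416742285564777133769993486002160007936187998071285650783508148968069374841755759686000948984867997759504198884921028628926900226480883820692705267167558006869849371727820797909375956433126046676337942891511033102336)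

noncomputable def cp1 : Nat := (nat_lit 2132173423728460417231911678468698617865795710570406459087468816662825165784116439124793987971135601492767121477319692124766000836265670684801769423416673856489807049176045894317230192732250293162592756453211763175451820956899082102878112254523865899217194129926975870810808368858788156822378400487951421557146946940533981349169684932064551545655466024037612776297509462252681526161290554130960215345726833598499549299501220414824231589643287956346474912738015760845032963470714523909627700046611647658926039887062537578318813137488677177266714131451187000868830267903474408780331155196608126774854034382368314611690344569374787698374523039974204753518024505408487408377531088421185770897210972148861967522080269534773723698582499445589659427350613042270221025231812389284598268874592354477812669650887880602362388051854146370144855672249682716977549394127387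3610814695090871151009731546803134969824984663108316140181155239815293837537064024713586028857406668965489354804621115086820392576850667729109539910378963531814805439516244283930191330551266473244275378749533190104064843202416630438691015711100568840028439919490338470531856070988806195231349031656456945183030820018214096955609010776393751598721618615547064696233424018033331889524449041978958289501072925431146768671951450056067401781037250584159975573696130589543541265326823264766846696027827062414502022689137511551128153223209529394510886937157791211420846388484422637530394634677064221493971552449997498598906461693639887712434459819638926098823280468762236788877204797094220876471506493026573680902098939752107257471359911797910781745816291870853015654781125554866573764898839219889037598162453781607882451301072195220452439982336058846957630985180925672537777791599038886649962969252911805869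44394913207373113607441530695491123587838149286738941020404512092790803457861198105472622339699451033607496347524730612487320222569928359931095389762856870516448405632690165625624841255186393516275272782351914420942579587989293066499667752548176658735685997466020533713510932690705856573047583512934057135242866201237921167903051497009818794215669050078157089789431976335327117271468747064585953032496718965681451206020800200541632746373152086966180118060982631134296831117629931811018829711101759561570810185664387639433849971873850230196973106383017619940499292496329097012170914986811457536)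

noncomputable def rc0 : Nat := (nat_lit 2132173423728460417231911678468698617865795710570406459087468816662825165784116439124793987971135601492767121477319692124766000836265670684801769423416673856489807049176045894317230192732250293162592756453211763175451820956899082102878112254523865899217194129926975870810808368858788156822378400487951421557146946940533981349169684932064551545655466024037612776297509462252681526161290554130960215345726833598499549299501220414824231589643287956346474912738015760845032963470714523909627700046611647658926039887062537578318813137488677177266714131451187000868830267903474408780331155196608126774854034382368314611690344569374787698374523039974204753518024505408487408377531088421185770897210972148861967522080269534773723698582499445589659427350613042270221025231812389284598268874592354477812669650887880602362388051854146370144855672249682716977549394127387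3610814695090871151009731546803134969824984663108316140181155239815293837537064024713586028857406668965489354804621115086820392576850667729109539910378963531814805439516244283930191330551266473244275378749533190104064843202416630438691015711100568840028439919490338470531856070988806195231349031656456945183030820018214096955609010776393751598721618615547064696233424018033331889524449041978958289501072925431146768671951450056067401781037250584159975573696130589543541265326823264766846696027827062414502022689137511551128153223209529394510886937157791211420846388484422637530394634677064221493971552449997498598906461693639887712434459819638926098823280468762236788877204797094220876471506493026573680902098939752107257471359911797910781745816291870853015654781125554866573764898839219889037598162453781607882451301072195220452439982336058846957630985180925672537777791599038886649962969252911805869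44394913207373113607441530695491123587838149286738941020404512092790803457861198105472622339699451033607496347524730612487320222569928359931095389762856870516448405632690165625624841255186393516275272782351914420942579587989293066499667752548176658735685997466020533713510932690705856573047583512934057135242866201237921167903051497009818794215669050078157089789431976335327117271468747064585953032496718965681451206020800200541632746373152086966180118060982631134296831117629931811018829711101759561570810185664387639433849971873850230196973106383017619940499292496329097012170914986811457536)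

end Vale.Agent.Lib.P154.PChain.BD.S1
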