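import Vale.Agent.Lib.P154.PChain.BD.R1_0

set_option linter.all false

namespace Vale.Agent.Lib.P154.PChain.BD.S2

open Vale.Agent.Lib.P154.Chain

noncomputable def pc0 : PT := (PT.nd (nat_lit 10076118) (PT.nd (nat_lit 9888762) (PT.nd (nat_lit 9763962) (PT.nd (nat_lit 9763806) (PT.nd (nat_lit 9701484) (PT.nd (nat_lit 9701406) PT.nil (PT.lf (nat_lit 76) (nat_lit 6) (nat_lit 1) (nat_lit 3) (nat_lit 222) (nat_lit 155) (nat_lit 223))) (PT.lf (nat_lit 76) (nat_lit 6) (nat_lit 1) (nat_lit 1) (nat_lit 223) (nat_lit 155) (nat_lit 222))) (PT.nd (nat_lit 78) (PT.lf (nat_lit 152) (nat_lit 6) (nat_lit 2) (nat_lit 3) (nat_lit 221) (nat_lit 156) (nat_lit 223)) (PT.lf (nat_lit 228) (nat_lit 3) (nat_lit 3) (nat_lit 1) (nat_lit 222) (nat_lit 156) (nat_lit 222)))) (PT.nd (nat_lit 62400) (PT.nd (nat_lit 62322) (PT.lf (nat_lit 152) (nat_lit 6) (nat_lit 2) (nat_lit 1) (nat_lit 223) (nat_lit 156) (nat_lit 221))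 (PT.lf (nat_lit 304) (nat_lit 6) (nat_lit 4) (nat_lit 3) (nat_lit 221) (nat_lit 157) (nat_lit 222))) (PT.nd (nat_lit 62322) (PT.lf (nat_lit 304) (nat_lit 6) (nat_lit 4) (nat_lit 1) (nat_lit 222) (nat_lit 157) (nat_lit 221)) (PT.lf (nat_lit 380) (nat_lit 6) (nat_lit 5) (nat_lit 3) (nat_lit 220) (nat_lit 158) (nat_lit 222))))) (PT.nd (nat_lit 124800) (PT.nd (nat_lit 62400) (PT.nd (nat_lit 78) (PT.lf (nat_lit 456) (nat_lit 3) (nat_lit 6) (nat_lit 1) (nat_lit 221) (nat_lit 158) (nat_lit 221)) (PT.lf (nat_lit 380) (nat_lit 6) (nat_lit 5) (nat_lit 1) (nat_lit 222) (nat_lit 158) (nat_lit 220))) (PT.nd (nat_lit 78) (PT.lf (nat_lit 532) (nat_lit 6) (nat_lit 7) (nat_lit 3) (nat_lit 220) (nat_lit 159) (nat_lit 221)) (PT.lf (nat_lit 532) (nat_lit 6) (nat_lit 7) (nat_lit 1) (nat_lit 221) (nat_lit 159) (nat_lit 220)))) (PT.nd (nat_lit 156) (PT.nd (nat_lit 78) (PT.lf (nat_lit 608) (nat_lit 6) (nat_lit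 8) (nat_lit 3) (nat_lit 219) (nat_lit 160) (nat_lit 221)) (PT.lf (nat_lit 684) (nat_lit 3) (nat_lit 9) (nat_lit 1) (nat_lit 220) (nat_lit 160) (nat_lit 220))) (PT.nd (nat_lit 62322) (PT.lf (nat_lit 608) (nat_lit 6) (nat_lit 8) (nat_lit 1) (nat_lit 221) (nat_lit 160) (nat_lit 219)) (PT.lf (nat_lit 760) (nat_lit 6) (nat_lit 10) (nat_lit 3) (nat_lit 219) (nat_lit 161) (nat_lit 220)))))) (PT.nd (nat_lit 187356) (PT.nd (nat_lit 124800) (PT.nd (nat_lit 62400) (PT.nd (nat_lit 62322) (PT.lf (nat_lit 760) (nat_lit 6) (nat_lit 10) (nat_lit 1) (nat_lit 220) (nat_lit 161) (nat_lit 219)) (PT.lf (nat_lit 836) (nat_lit 6) (nat_lit 11) (nat_lit 3) (nat_lit 218) (nat_lit 162) (nat_lit 220))) (PT.nd (nat_lit 78) (PT.lf (nat_lit 912) (nat_lit 3) (nat_lit 12) (nat_lit 1) (nat_lit 219) (nat_lit 162) (nat_lit 219)) (PT.lf (nat_lit 836) (nat_lit 6) (nat_lit 11) (nat_lit 1) (nat_lit 220) (nat_lit 162) (nat_lit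 218)))) (PT.nd (nat_lit 62400) (PT.nd (nat_lit 78) (PT.lf (nat_lit 988) (nat_lit 6) (nat_lit 13) (nat_lit 3) (nat_lit 218) (nat_lit 163) (nat_lit 219)) (PT.lf (nat_lit 988) (nat_lit 6) (nat_lit 13) (nat_lit 1) (nat_lit 219) (nat_lit 163) (nat_lit 218))) (PT.nd (nat_lit 78) (PT.lf (nat_lit 1064) (nat_lit 6) (nat_lit 14) (nat_lit 3) (nat_lit 217) (nat_lit 164) (nat_lit 219)) (PT.lf (nat_lit 1140) (nat_lit 3) (nat_lit 15) (nat_lit 1) (nat_lit 218) (nat_lit 164) (nat_lit 218))))) (PT.nd (nat_lit 124800) (PT.nd (nat_lit 62400) (PT.nd (nat_lit 62322) (PT.lf (nat_lit 1064) (nat_lit 6) (nat_lit 14) (nat_lit 1) (nat_lit 219) (nat_lit 164) (nat_lit 217)) (PT.lf (nat_lit 1216) (nat_lit 6) (nat_lit 16) (nat_lit 3) (nat_lit 217) (nat_lit 165) (nat_lit 218))) (PT.nd (nat_lit 62322) (PT.lf (nat_lit 1216) (nat_lit 6) (nat_lit 16) (nat_lit 1) (nat_lit 218) (nat_lit 165) (nat_lit 217)) (PT.lf (nat_lit 1292)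 (nat_lit 6) (nat_lit 17) (nat_lit 3) (nat_lit 216) (nat_lit 166) (nat_lit 218)))) (PT.nd (nat_lit 62400) (PT.nd (nat_lit 78) (PT.lf (nat_lit 1368) (nat_lit 3) (nat_lit 18) (nat_lit 1) (nat_lit 217) (nat_lit 166) (nat_lit 217)) (PT.lf (nat_lit 1292) (nat_lit 6) (nat_lit 17) (nat_lit 1) (nat_lit 218) (nat_lit 166) (nat_lit 216))) (PT.nd (nat_lit 78) (PT.lf (nat_lit 1444) (nat_lit 6) (nat_lit 19) (nat_lit 3) (nat_lit 216) (nat_lit 167) (nat_lit 217)) (PT.nd (nat_lit 62322) (PT.lf (nat_lit 1444) (nat_lit 6) (nat_lit 19) (nat_lit 1) (nat_lit 217) (nat_lit 167) (nat_lit 216)) (PT.lf (nat_lit 1520) (nat_lit 6) (nat_lit 20) (nat_lit 3) (nat_lit 215) (nat_lit 168) (nat_lit 217))))))))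
noncomputable def pc1 : PT := (PT.nd (nat_lit 374712) (PT.nd (nat_lit 187356) (PT.nd (nat_lit 124800) (PT.nd (nat_lit 62400) (PT.nd (nat_lit 78) (PT.lf (nat_lit 1596) (nat_lit 3) (nat_lit 21) (nat_lit 1) (nat_lit 216) (nat_lit 168) (nat_lit 216)) (PT.lf (nat_lit 1520) (nat_lit 6) (nat_lit 20) (nat_lit 1) (nat_lit 217) (nat_lit 168) (nat_lit 215))) (PT.nd (nat_lit 78) (PT.lf (nat_lit 1672) (nat_lit 6) (nat_lit 22) (nat_lit 3) (nat_lit 215) (nat_lit 169) (nat_lit 216)) (PT.lf (nat_lit 1672) (nat_lit 6) (nat_lit 22) (nat_lit 1) (nat_lit 216) (nat_lit 169) (nat_lit 215)))) (PT.nd (nat_lit 156) (PT.nd (nat_lit 78) (PT.lf (nat_lit 1748) (nat_lit 6) (nat_lit 23) (nat_lit 3) (nat_lit 214) (nat_lit 170) (nat_lit 216)) (PT.lf (nat_lit 1824) (nat_lit 3) (nat_lit 24) (nat_lit 1) (nat_lit 215) (nat_lit 170) (nat_lit 215))) (PT.nd (nat_lit 62322) (PT.lf (nat_lit 1748) (nat_lit 6) (nat_lit 23) (nat_lit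 1) (nat_lit 216) (nat_lit 170) (nat_lit 214)) (PT.lf (nat_lit 1900) (nat_lit 6) (nat_lit 25) (nat_lit 3) (nat_lit 214) (nat_lit 171) (nat_lit 215))))) (PT.nd (nat_lit 124800) (PT.nd (nat_lit 62400) (PT.nd (nat_lit 62322) (PT.lf (nat_lit 1900) (nat_lit 6) (nat_lit 25) (nat_lit 1) (nat_lit 215) (nat_lit 171) (nat_lit 214)) (PT.lf (nat_lit 1976) (nat_lit 6) (nat_lit 26) (nat_lit 3) (nat_lit 213) (nat_lit 172) (nat_lit 215))) (PT.nd (nat_lit 78) (PT.lf (nat_lit 2052) (nat_lit 3) (nat_lit 27) (nat_lit 1) (nat_lit 214) (nat_lit 172) (nat_lit 214)) (PT.lf (nat_lit 1976) (nat_lit 6) (nat_lit 26) (nat_lit 1) (nat_lit 215) (nat_lit 172) (nat_lit 213)))) (PT.nd (nat_lit 62400) (PT.nd (nat_lit 78) (PT.lf (nat_lit 2128) (nat_lit 6) (nat_lit 28) (nat_lit 3) (nat_lit 213) (nat_lit 173) (nat_lit 214)) (PT.lf (nat_lit 2128) (nat_lit 6) (nat_lit 28) (nat_lit 1) (nat_lit 214) (nat_lit 173) (nat_lit 213)))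 (PT.nd (nat_lit 78) (PT.lf (nat_lit 2204) (nat_lit 6) (nat_lit 29) (nat_lit 3) (nat_lit 212) (nat_lit 174) (nat_lit 214)) (PT.lf (nat_lit 2280) (nat_lit 3) (nat_lit 30) (nat_lit 1) (nat_lit 213) (nat_lit 174) (nat_lit 213)))))) (PT.nd (nat_lit 249600) (PT.nd (nat_lit 124800) (PT.nd (nat_lit 62400) (PT.nd (nat_lit 62322) (PT.lf (nat_lit 2204) (nat_lit 6) (nat_lit 29) (nat_lit 1) (nat_lit 214) (nat_lit 174) (nat_lit 212)) (PT.lf (nat_lit 2356) (nat_lit 6) (nat_lit 31) (nat_lit 3) (nat_lit 212) (nat_lit 175) (nat_lit 213))) (PT.nd (nat_lit 62322) (PT.lf (nat_lit 2356) (nat_lit 6) (nat_lit 31) (nat_lit 1) (nat_lit 213) (nat_lit 175) (nat_lit 212)) (PT.lf (nat_lit 2432) (nat_lit 6) (nat_lit 32) (nat_lit 3) (nat_lit 211) (nat_lit 176) (nat_lit 213)))) (PT.nd (nat_lit 62400) (PT.nd (nat_lit 78) (PT.lf (nat_lit 2508) (nat_lit 3) (nat_lit 33) (nat_lit 1) (nat_lit 212) (nat_lit 176) (nat_lit 212))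 (PT.lf (nat_lit 2432) (nat_lit 6) (nat_lit 32) (nat_lit 1) (nat_lit 213) (nat_lit 176) (nat_lit 211))) (PT.nd (nat_lit 78) (PT.lf (nat_lit 2584) (nat_lit 6) (nat_lit 34) (nat_lit 3) (nat_lit 211) (nat_lit 177) (nat_lit 212)) (PT.lf (nat_lit 2584) (nat_lit 6) (nat_lit 34) (nat_lit 1) (nat_lit 212) (nat_lit 177) (nat_lit 211))))) (PT.nd (nat_lit 62478) (PT.nd (nat_lit 156) (PT.nd (nat_lit 78) (PT.lf (nat_lit 2660) (nat_lit 6) (nat_lit 35) (nat_lit 3) (nat_lit 210) (nat_lit 178) (nat_lit 212)) (PT.lf (nat_lit 2736) (nat_lit 3) (nat_lit 36) (nat_lit 1) (nat_lit 211) (nat_lit 178) (nat_lit 211))) (PT.nd (nat_lit 62244) (PT.lf (nat_lit 2660) (nat_lit 6) (nat_lit 35) (nat_lit 1) (nat_lit 212) (nat_lit 178) (nat_lit 210)) (PT.lf (nat_lit 2812) (nat_lit 6) (nat_lit 37) (nat_lit 3) (nat_lit 209) (nat_lit 179) (nat_lit 212)))) (PT.nd (nat_lit 156) (PT.nd (nat_lit 78) (PT.lf (nat_lit 2888) (nat_lit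 6) (nat_lit 38) (nat_lit 3) (nat_lit 210) (nat_lit 179) (nat_lit 211)) (PT.lf (nat_lit 2888) (nat_lit 6) (nat_lit 38) (nat_lit 1) (nat_lit 211) (nat_lit 179) (nat_lit 210))) (PT.nd (nat_lit 62244) (PT.lf (nat_lit 2812) (nat_lit 6) (nat_lit 37) (nat_lit 1) (nat_lit 212) (nat_lit 179) (nat_lit 209)) (PT.nd (nat_lit 78) (PT.lf (nat_lit 2964) (nat_lit 6) (nat_lit 39) (nat_lit 3) (nat_lit 209) (nat_lit 180) (nat_lit 211)) (PT.lf (nat_lit 3040) (nat_lit 3) (nat_lit 40) (nat_lit 1) (nat_lit 210) (nat_lit 180) (nat_lit 210))))))))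
noncomputable def pc2 : PT := (PT.nd (nat_lit 312078) (PT.nd (nat_lit 187122) (PT.nd (nat_lit 62478) (PT.nd (nat_lit 62322) (PT.nd (nat_lit 62244) (PT.lf (nat_lit 2964) (nat_lit 6) (nat_lit 39) (nat_lit 1) (nat_lit 211) (nat_lit 180) (nat_lit 209)) (PT.lf (nat_lit 3116) (nat_lit 6) (nat_lit 41) (nat_lit 3) (nat_lit 208) (nat_lit 181) (nat_lit 211))) (PT.nd (nat_lit 78) (PT.lf (nat_lit 3192) (nat_lit 6) (nat_lit 42) (nat_lit 3) (nat_lit 209) (nat_lit 181) (nat_lit 210)) (PT.lf (nat_lit 3192) (nat_lit 6) (nat_lit 42) (nat_lit 1) (nat_lit 210) (nat_lit 181) (nat_lit 209)))) (PT.nd (nat_lit 62322) (PT.nd (nat_lit 62244) (PT.lf (nat_lit 3116) (nat_lit 6) (nat_lit 41) (nat_lit 1) (nat_lit 211) (nat_lit 181) (nat_lit 208)) (PT.lf (nat_lit 3268) (nat_lit 6) (nat_lit 43) (nat_lit 3) (nat_lit 208) (nat_lit 182) (nat_lit 210))) (PT.nd (nat_lit 78) (PT.lf (nat_lit 3344) (nat_lit 3) (nat_lit 44) (nat_lit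 1) (nat_lit 209) (nat_lit 182) (nat_lit 209)) (PT.lf (nat_lit 3268) (nat_lit 6) (nat_lit 43) (nat_lit 1) (nat_lit 210) (nat_lit 182) (nat_lit 208))))) (PT.nd (nat_lit 62478) (PT.nd (nat_lit 156) (PT.nd (nat_lit 78) (PT.lf (nat_lit 3420) (nat_lit 6) (nat_lit 45) (nat_lit 3) (nat_lit 207) (nat_lit 183) (nat_lit 210)) (PT.lf (nat_lit 3496) (nat_lit 6) (nat_lit 46) (nat_lit 3) (nat_lit 208) (nat_lit 183) (nat_lit 209))) (PT.nd (nat_lit 78) (PT.lf (nat_lit 3496) (nat_lit 6) (nat_lit 46) (nat_lit 1) (nat_lit 209) (nat_lit 183) (nat_lit 208)) (PT.lf (nat_lit 3420) (nat_lit 6) (nat_lit 45) (nat_lit 1) (nat_lit 210) (nat_lit 183) (nat_lit 207)))) (PT.nd (nat_lit 156) (PT.nd (nat_lit 78) (PT.lf (nat_lit 3572) (nat_lit 6) (nat_lit 47) (nat_lit 3) (nat_lit 207) (nat_lit 184) (nat_lit 209)) (PT.lf (nat_lit 3648) (nat_lit 3) (nat_lit 48) (nat_lit 1) (nat_lit 208) (nat_lit 184) (nat_lit 208))) (PT.nd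 (nat_lit 62244) (PT.lf (nat_lit 3572) (nat_lit 6) (nat_lit 47) (nat_lit 1) (nat_lit 209) (nat_lit 184) (nat_lit 207)) (PT.lf (nat_lit 3724) (nat_lit 6) (nat_lit 49) (nat_lit 3) (nat_lit 206) (nat_lit 185) (nat_lit 209)))))) (PT.nd (nat_lit 124800) (PT.nd (nat_lit 62400) (PT.nd (nat_lit 156) (PT.nd (nat_lit 78) (PT.lf (nat_lit 3800) (nat_lit 6) (nat_lit 50) (nat_lit 3) (nat_lit 207) (nat_lit 185) (nat_lit 208)) (PT.lf (nat_lit 3800) (nat_lit 6) (nat_lit 50) (nat_lit 1) (nat_lit 208) (nat_lit 185) (nat_lit 207))) (PT.nd (nat_lit 62166) (PT.lf (nat_lit 3724) (nat_lit 6) (nat_lit 49) (nat_lit 1) (nat_lit 209) (nat_lit 185) (nat_lit 206)) (PT.lf (nat_lit 3876) (nat_lit 6) (nat_lit 51) (nat_lit 3) (nat_lit 205) (nat_lit 186) (nat_lit 209)))) (PT.nd (nat_lit 156) (PT.nd (nat_lit 78) (PT.lf (nat_lit 3952) (nat_lit 6) (nat_lit 52) (nat_lit 3) (nat_lit 206) (nat_lit 186) (nat_lit 208)) (PT.lf (nat_lit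 4028) (nat_lit 3) (nat_lit 53) (nat_lit 1) (nat_lit 207) (nat_lit 186) (nat_lit 207))) (PT.nd (nat_lit 78) (PT.lf (nat_lit 3952) (nat_lit 6) (nat_lit 52) (nat_lit 1) (nat_lit 208) (nat_lit 186) (nat_lit 206)) (PT.lf (nat_lit 3876) (nat_lit 6) (nat_lit 51) (nat_lit 1) (nat_lit 209) (nat_lit 186) (nat_lit 205))))) (PT.nd (nat_lit 62400) (PT.nd (nat_lit 156) (PT.nd (nat_lit 78) (PT.lf (nat_lit 4104) (nat_lit 6) (nat_lit 54) (nat_lit 3) (nat_lit 205) (nat_lit 187) (nat_lit 208)) (PT.lf (nat_lit 4180) (nat_lit 6) (nat_lit 55) (nat_lit 3) (nat_lit 206) (nat_lit 187) (nat_lit 207))) (PT.nd (nat_lit 78) (PT.lf (nat_lit 4180) (nat_lit 6) (nat_lit 55) (nat_lit 1) (nat_lit 207) (nat_lit 187) (nat_lit 206)) (PT.lf (nat_lit 4104) (nat_lit 6) (nat_lit 54) (nat_lit 1) (nat_lit 208) (nat_lit 187) (nat_lit 205)))) (PT.nd (nat_lit 156) (PT.nd (nat_lit 78) (PT.lf (nat_lit 4256) (nat_lit 6) (nat_lit 56) (nat_lit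 3) (nat_lit 204) (nat_lit 188) (nat_lit 208)) (PT.lf (nat_lit 4332) (nat_lit 6) (nat_lit 57) (nat_lit 3) (nat_lit 205) (nat_lit 188) (nat_lit 207))) (PT.nd (nat_lit 78) (PT.lf (nat_lit 4408) (nat_lit 3) (nat_lit 58) (nat_lit 1) (nat_lit 206) (nat_lit 188) (nat_lit 206)) (PT.nd (nat_lit 78) (PT.lf (nat_lit 4332) (nat_lit 6) (nat_lit 57) (nat_lit 1) (nat_lit 207) (nat_lit 188) (nat_lit 205)) (PT.lf (nat_lit 4256) (nat_lit 6) (nat_lit 56) (nat_lit 1) (nat_lit 208) (nat_lit 188) (nat_lit 204))))))))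
noncomputable def pc3 : PT := (PT.nd (nat_lit 187278) (PT.nd (nat_lit 62634) (PT.nd (nat_lit 312) (PT.nd (nat_lit 156) (PT.nd (nat_lit 78) (PT.lf (nat_lit 4484) (nat_lit 6) (nat_lit 59) (nat_lit 3) (nat_lit 203) (nat_lit 189) (nat_lit 208)) (PT.lf (nat_lit 4560) (nat_lit 6) (nat_lit 60) (nat_lit 3) (nat_lit 204) (nat_lit 189) (nat_lit 207))) (PT.nd (nat_lit 78) (PT.lf (nat_lit 4636) (nat_lit 6) (nat_lit 61) (nat_lit 3) (nat_lit 205) (nat_lit 189) (nat_lit 206)) (PT.lf (nat_lit 4636) (nat_lit 6) (nat_lit 61) (nat_lit 1) (nat_lit 206) (nat_lit 189) (nat_lit 205)))) (PT.nd (nat_lit 62166) (PT.nd (nat_lit 78) (PT.lf (nat_lit 4560) (nat_lit 6) (nat_lit 60) (nat_lit 1) (nat_lit 207) (nat_lit 189) (nat_lit 204)) (PT.lf (nat_lit 4484) (nat_lit 6) (nat_lit 59) (nat_lit 1) (nat_lit 208) (nat_lit 189) (nat_lit 203))) (PT.nd (nat_lit 78) (PT.lf (nat_lit 4712) (nat_lit 6) (nat_lit 62) (nat_lit 3) (nat_lit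 203) (nat_lit 190) (nat_lit 207)) (PT.lf (nat_lit 4788) (nat_lit 6) (nat_lit 63) (nat_lit 3) (nat_lit 204) (nat_lit 190) (nat_lit 206))))) (PT.nd (nat_lit 62322) (PT.nd (nat_lit 156) (PT.nd (nat_lit 78) (PT.lf (nat_lit 4864) (nat_lit 3) (nat_lit 64) (nat_lit 1) (nat_lit 205) (nat_lit 190) (nat_lit 205)) (PT.lf (nat_lit 4788) (nat_lit 6) (nat_lit 63) (nat_lit 1) (nat_lit 206) (nat_lit 190) (nat_lit 204))) (PT.nd (nat_lit 62088) (PT.lf (nat_lit 4712) (nat_lit 6) (nat_lit 62) (nat_lit 1) (nat_lit 207) (nat_lit 190) (nat_lit 203)) (PT.lf (nat_lit 4940) (nat_lit 6) (nat_lit 65) (nat_lit 3) (nat_lit 202) (nat_lit 191) (nat_lit 207)))) (PT.nd (nat_lit 156) (PT.nd (nat_lit 78) (PT.lf (nat_lit 5016) (nat_lit 6) (nat_lit 66) (nat_lit 3) (nat_lit 203) (nat_lit 191) (nat_lit 206)) (PT.lf (nat_lit 5092) (nat_lit 6) (nat_lit 67) (nat_lit 3) (nat_lit 204) (nat_lit 191) (nat_lit 205))) (PT.nd (nat_lit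 78) (PT.lf (nat_lit 5092) (nat_lit 6) (nat_lit 67) (nat_lit 1) (nat_lit 205) (nat_lit 191) (nat_lit 204)) (PT.nd (nat_lit 78) (PT.lf (nat_lit 5016) (nat_lit 6) (nat_lit 66) (nat_lit 1) (nat_lit 206) (nat_lit 191) (nat_lit 203)) (PT.lf (nat_lit 4940) (nat_lit 6) (nat_lit 65) (nat_lit 1) (nat_lit 207) (nat_lit 191) (nat_lit 202))))))) (PT.nd (nat_lit 62478) (PT.nd (nat_lit 312) (PT.nd (nat_lit 156) (PT.nd (nat_lit 78) (PT.lf (nat_lit 5168) (nat_lit 6) (nat_lit 68) (nat_lit 3) (nat_lit 201) (nat_lit 192) (nat_lit 207)) (PT.lf (nat_lit 5244) (nat_lit 6) (nat_lit 69) (nat_lit 3) (nat_lit 202) (nat_lit 192) (nat_lit 206))) (PT.nd (nat_lit 78) (PT.lf (nat_lit 5320) (nat_lit 6) (nat_lit 70) (nat_lit 3) (nat_lit 203) (nat_lit 192) (nat_lit 205)) (PT.lf (nat_lit 5396) (nat_lit 3) (nat_lit 71) (nat_lit 1) (nat_lit 204) (nat_lit 192) (nat_lit 204)))) (PT.nd (nat_lit 156) (PT.nd (nat_lit 78) (PT.lf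 (nat_lit 5320) (nat_lit 6) (nat_lit 70) (nat_lit 1) (nat_lit 205) (nat_lit 192) (nat_lit 203)) (PT.lf (nat_lit 5244) (nat_lit 6) (nat_lit 69) (nat_lit 1) (nat_lit 206) (nat_lit 192) (nat_lit 202))) (PT.nd (nat_lit 61932) (PT.lf (nat_lit 5168) (nat_lit 6) (nat_lit 68) (nat_lit 1) (nat_lit 207) (nat_lit 192) (nat_lit 201)) (PT.lf (nat_lit 5624) (nat_lit 6) (nat_lit 74) (nat_lit 3) (nat_lit 200) (nat_lit 193) (nat_lit 207))))) (PT.nd (nat_lit 312) (PT.nd (nat_lit 156) (PT.nd (nat_lit 78) (PT.lf (nat_lit 5700) (nat_lit 6) (nat_lit 75) (nat_lit 3) (nat_lit 201) (nat_lit 193) (nat_lit 206)) (PT.lf (nat_lit 5776) (nat_lit 6) (nat_lit 76) (nat_lit 3) (nat_lit 202) (nat_lit 193) (nat_lit 205))) (PT.nd (nat_lit 78) (PT.lf (nat_lit 5852) (nat_lit 6) (nat_lit 77) (nat_lit 3) (nat_lit 203) (nat_lit 193) (nat_lit 204)) (PT.lf (nat_lit 5852) (nat_lit 6) (nat_lit 77) (nat_lit 1) (nat_lit 204) (nat_lit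 193) (nat_lit 203)))) (PT.nd (nat_lit 156) (PT.nd (nat_lit 78) (PT.lf (nat_lit 5776) (nat_lit 6) (nat_lit 76) (nat_lit 1) (nat_lit 205) (nat_lit 193) (nat_lit 202)) (PT.lf (nat_lit 5700) (nat_lit 6) (nat_lit 75) (nat_lit 1) (nat_lit 206) (nat_lit 193) (nat_lit 201))) (PT.nd (nat_lit 61854) (PT.lf (nat_lit 5624) (nat_lit 6) (nat_lit 74) (nat_lit 1) (nat_lit 207) (nat_lit 193) (nat_lit 200)) (PT.nd (nat_lit 78) (PT.lf (nat_lit 5548) (nat_lit 6) (nat_lit 73) (nat_lit 3) (nat_lit 199) (nat_lit 194) (nat_lit 207)) (PT.lf (nat_lit 6156) (nat_lit 6) (nat_lit 81) (nat_lit 3) (nat_lit 200) (nat_lit 194) (nat_lit 206))))))))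
noncomputable def pc4 : PT := (PT.nd (nat_lit 62946) (PT.nd (nat_lit 62322) (PT.nd (nat_lit 312) (PT.nd (nat_lit 156) (PT.nd (nat_lit 78) (PT.lf (nat_lit 6232) (nat_lit 6) (nat_lit 82) (nat_lit 3) (nat_lit 201) (nat_lit 194) (nat_lit 205)) (PT.lf (nat_lit 6308) (nat_lit 6) (nat_lit 83) (nat_lit 3) (nat_lit 202) (nat_lit 194) (nat_lit 204))) (PT.nd (nat_lit 78) (PT.lf (nat_lit 6384) (nat_lit 3) (nat_lit 84) (nat_lit 1) (nat_lit 203) (nat_lit 194) (nat_lit 203)) (PT.lf (nat_lit 6308) (nat_lit 6) (nat_lit 83) (nat_lit 1) (nat_lit 204) (nat_lit 194) (nat_lit 202)))) (PT.nd (nat_lit 156) (PT.nd (nat_lit 78) (PT.lf (nat_lit 6232) (nat_lit 6) (nat_lit 82) (nat_lit 1) (nat_lit 205) (nat_lit 194) (nat_lit 201)) (PT.lf (nat_lit 6156) (nat_lit 6) (nat_lit 81) (nat_lit 1) (nat_lit 206) (nat_lit 194) (nat_lit 200))) (PT.nd (nat_lit 61776) (PT.lf (nat_lit 5548) (nat_lit 6) (nat_lit 73) (nat_lit 1) (nat_lit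 207) (nat_lit 194) (nat_lit 199)) (PT.lf (nat_lit 5472) (nat_lit 6) (nat_lit 72) (nat_lit 3) (nat_lit 198) (nat_lit 195) (nat_lit 207))))) (PT.nd (nat_lit 312) (PT.nd (nat_lit 156) (PT.nd (nat_lit 78) (PT.lf (nat_lit 6080) (nat_lit 6) (nat_lit 80) (nat_lit 3) (nat_lit 199) (nat_lit 195) (nat_lit 206)) (PT.lf (nat_lit 6612) (nat_lit 6) (nat_lit 87) (nat_lit 3) (nat_lit 200) (nat_lit 195) (nat_lit 205))) (PT.nd (nat_lit 78) (PT.lf (nat_lit 6688) (nat_lit 6) (nat_lit 88) (nat_lit 3) (nat_lit 201) (nat_lit 195) (nat_lit 204)) (PT.lf (nat_lit 6764) (nat_lit 6) (nat_lit 89) (nat_lit 3) (nat_lit 202) (nat_lit 195) (nat_lit 203)))) (PT.nd (nat_lit 156) (PT.nd (nat_lit 78) (PT.lf (nat_lit 6764) (nat_lit 6) (nat_lit 89) (nat_lit 1) (nat_lit 203) (nat_lit 195) (nat_lit 202)) (PT.lf (nat_lit 6688) (nat_lit 6) (nat_lit 88) (nat_lit 1) (nat_lit 204) (nat_lit 195) (nat_lit 201))) (PT.nd (nat_lit 78) (PT.lf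 (nat_lit 6612) (nat_lit 6) (nat_lit 87) (nat_lit 1) (nat_lit 205) (nat_lit 195) (nat_lit 200)) (PT.lf (nat_lit 6080) (nat_lit 6) (nat_lit 80) (nat_lit 1) (nat_lit 206) (nat_lit 195) (nat_lit 199)))))) (PT.nd (nat_lit 62322) (PT.nd (nat_lit 62010) (PT.nd (nat_lit 61854) (PT.nd (nat_lit 61776) (PT.lf (nat_lit 5472) (nat_lit 6) (nat_lit 72) (nat_lit 1) (nat_lit 207) (nat_lit 195) (nat_lit 198)) (PT.lf (nat_lit 6004) (nat_lit 6) (nat_lit 79) (nat_lit 3) (nat_lit 198) (nat_lit 196) (nat_lit 206))) (PT.nd (nat_lit 78) (PT.lf (nat_lit 6536) (nat_lit 6) (nat_lit 86) (nat_lit 3) (nat_lit 199) (nat_lit 196) (nat_lit 205)) (PT.lf (nat_lit 6992) (nat_lit 6) (nat_lit 92) (nat_lit 3) (nat_lit 200) (nat_lit 196) (nat_lit 204)))) (PT.nd (nat_lit 156) (PT.nd (nat_lit 78) (PT.lf (nat_lit 7068) (nat_lit 6) (nat_lit 93) (nat_lit 3) (nat_lit 201) (nat_lit 196) (nat_lit 203)) (PT.lf (nat_lit 7144) (nat_lit 3)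 (nat_lit 94) (nat_lit 1) (nat_lit 202) (nat_lit 196) (nat_lit 202))) (PT.nd (nat_lit 78) (PT.lf (nat_lit 7068) (nat_lit 6) (nat_lit 93) (nat_lit 1) (nat_lit 203) (nat_lit 196) (nat_lit 201)) (PT.lf (nat_lit 6992) (nat_lit 6) (nat_lit 92) (nat_lit 1) (nat_lit 204) (nat_lit 196) (nat_lit 200))))) (PT.nd (nat_lit 62010) (PT.nd (nat_lit 61854) (PT.nd (nat_lit 78) (PT.lf (nat_lit 6536) (nat_lit 6) (nat_lit 86) (nat_lit 1) (nat_lit 205) (nat_lit 196) (nat_lit 199)) (PT.lf (nat_lit 6004) (nat_lit 6) (nat_lit 79) (nat_lit 1) (nat_lit 206) (nat_lit 196) (nat_lit 198))) (PT.nd (nat_lit 78) (PT.lf (nat_lit 5928) (nat_lit 3) (nat_lit 78) (nat_lit 3) (nat_lit 197) (nat_lit 197) (nat_lit 206)) (PT.lf (nat_lit 6460) (nat_lit 6) (nat_lit 85) (nat_lit 3) (nat_lit 198) (nat_lit 197) (nat_lit 205)))) (PT.nd (nat_lit 156) (PT.nd (nat_lit 78) (PT.lf (nat_lit 6916) (nat_lit 6) (nat_lit 91) (nat_lit 3) (nat_lit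 199) (nat_lit 197) (nat_lit 204)) (PT.lf (nat_lit 7296) (nat_lit 6) (nat_lit 96) (nat_lit 3) (nat_lit 200) (nat_lit 197) (nat_lit 203))) (PT.nd (nat_lit 78) (PT.lf (nat_lit 7372) (nat_lit 6) (nat_lit 97) (nat_lit 3) (nat_lit 201) (nat_lit 197) (nat_lit 202)) (PT.nd (nat_lit 78) (PT.lf (nat_lit 7372) (nat_lit 6) (nat_lit 97) (nat_lit 1) (nat_lit 202) (nat_lit 197) (nat_lit 201)) (PT.lf (nat_lit 7296) (nat_lit 6) (nat_lit 96) (nat_lit 1) (nat_lit 203) (nat_lit 197) (nat_lit 200))))))))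
noncomputable def pc5 : PT := (PT.nd (nat_lit 124176) (PT.nd (nat_lit 62166) (PT.nd (nat_lit 61854) (PT.nd (nat_lit 156) (PT.nd (nat_lit 78) (PT.lf (nat_lit 6916) (nat_lit 6) (nat_lit 91) (nat_lit 1) (nat_lit 204) (nat_lit 197) (nat_lit 199)) (PT.lf (nat_lit 6460) (nat_lit 6) (nat_lit 85) (nat_lit 1) (nat_lit 205) (nat_lit 197) (nat_lit 198))) (PT.nd (nat_lit 61620) (PT.lf (nat_lit 5928) (nat_lit 3) (nat_lit 78) (nat_lit 0) (nat_lit 206) (nat_lit 197) (nat_lit 197)) (PT.lf (nat_lit 5472) (nat_lit 6) (nat_lit 72) (nat_lit 5) (nat_lit 195) (nat_lit 198) (nat_lit 207)))) (PT.nd (nat_lit 156) (PT.nd (nat_lit 78) (PT.lf (nat_lit 6004) (nat_lit 6) (nat_lit 79) (nat_lit 5) (nat_lit 196) (nat_lit 198) (nat_lit 206)) (PT.lf (nat_lit 6460) (nat_lit 6) (nat_lit 85) (nat_lit 5) (nat_lit 197) (nat_lit 198) (nat_lit 205))) (PT.nd (nat_lit 78) (PT.lf (nat_lit 6840) (nat_lit 3) (nat_lit 90) (nat_lit 3)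 (nat_lit 198) (nat_lit 198) (nat_lit 204)) (PT.lf (nat_lit 7220) (nat_lit 6) (nat_lit 95) (nat_lit 3) (nat_lit 199) (nat_lit 198) (nat_lit 203))))) (PT.nd (nat_lit 312) (PT.nd (nat_lit 156) (PT.nd (nat_lit 78) (PT.lf (nat_lit 7524) (nat_lit 6) (nat_lit 99) (nat_lit 3) (nat_lit 200) (nat_lit 198) (nat_lit 202)) (PT.lf (nat_lit 7600) (nat_lit 3) (nat_lit 100) (nat_lit 1) (nat_lit 201) (nat_lit 198) (nat_lit 201))) (PT.nd (nat_lit 78) (PT.lf (nat_lit 7524) (nat_lit 6) (nat_lit 99) (nat_lit 1) (nat_lit 202) (nat_lit 198) (nat_lit 200)) (PT.lf (nat_lit 7220) (nat_lit 6) (nat_lit 95) (nat_lit 1) (nat_lit 203) (nat_lit 198) (nat_lit 199)))) (PT.nd (nat_lit 156) (PT.nd (nat_lit 78) (PT.lf (nat_lit 6840) (nat_lit 3) (nat_lit 90) (nat_lit 0) (nat_lit 204) (nat_lit 198) (nat_lit 198)) (PT.lf (nat_lit 6460) (nat_lit 6) (nat_lit 85) (nat_lit 0) (nat_lit 205) (nat_lit 198) (nat_lit 197))) (PT.nd (nat_lit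 78) (PT.lf (nat_lit 6004) (nat_lit 6) (nat_lit 79) (nat_lit 0) (nat_lit 206) (nat_lit 198) (nat_lit 196)) (PT.lf (nat_lit 5472) (nat_lit 6) (nat_lit 72) (nat_lit 0) (nat_lit 207) (nat_lit 198) (nat_lit 195)))))) (PT.nd (nat_lit 624) (PT.nd (nat_lit 312) (PT.nd (nat_lit 156) (PT.nd (nat_lit 78) (PT.lf (nat_lit 5548) (nat_lit 6) (nat_lit 73) (nat_lit 5) (nat_lit 194) (nat_lit 199) (nat_lit 207)) (PT.lf (nat_lit 6080) (nat_lit 6) (nat_lit 80) (nat_lit 5) (nat_lit 195) (nat_lit 199) (nat_lit 206))) (PT.nd (nat_lit 78) (PT.lf (nat_lit 6536) (nat_lit 6) (nat_lit 86) (nat_lit 5) (nat_lit 196) (nat_lit 199) (nat_lit 205)) (PT.lf (nat_lit 6916) (nat_lit 6) (nat_lit 91) (nat_lit 5) (nat_lit 197) (nat_lit 199) (nat_lit 204)))) (PT.nd (nat_lit 156) (PT.nd (nat_lit 78) (PT.lf (nat_lit 7220) (nat_lit 6) (nat_lit 95) (nat_lit 5) (nat_lit 198) (nat_lit 199) (nat_lit 203)) (PT.lf (nat_lit 7448) (nat_lit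 3) (nat_lit 98) (nat_lit 3) (nat_lit 199) (nat_lit 199) (nat_lit 202))) (PT.nd (nat_lit 78) (PT.lf (nat_lit 7676) (nat_lit 6) (nat_lit 101) (nat_lit 3) (nat_lit 200) (nat_lit 199) (nat_lit 201)) (PT.lf (nat_lit 7676) (nat_lit 6) (nat_lit 101) (nat_lit 1) (nat_lit 201) (nat_lit 199) (nat_lit 200))))) (PT.nd (nat_lit 312) (PT.nd (nat_lit 156) (PT.nd (nat_lit 78) (PT.lf (nat_lit 7448) (nat_lit 3) (nat_lit 98) (nat_lit 0) (nat_lit 202) (nat_lit 199) (nat_lit 199)) (PT.lf (nat_lit 7220) (nat_lit 6) (nat_lit 95) (nat_lit 0) (nat_lit 203) (nat_lit 199) (nat_lit 198))) (PT.nd (nat_lit 78) (PT.lf (nat_lit 6916) (nat_lit 6) (nat_lit 91) (nat_lit 0) (nat_lit 204) (nat_lit 199) (nat_lit 197)) (PT.lf (nat_lit 6536) (nat_lit 6) (nat_lit 86) (nat_lit 0) (nat_lit 205) (nat_lit 199) (nat_lit 196)))) (PT.nd (nat_lit 61464) (PT.nd (nat_lit 78) (PT.lf (nat_lit 6080) (nat_lit 6) (nat_lit 80) (nat_lit 0) (nat_lit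 206) (nat_lit 199) (nat_lit 195)) (PT.lf (nat_lit 5548) (nat_lit 6) (nat_lit 73) (nat_lit 0) (nat_lit 207) (nat_lit 199) (nat_lit 194))) (PT.nd (nat_lit 78) (PT.lf (nat_lit 5624) (nat_lit 6) (nat_lit 74) (nat_lit 5) (nat_lit 193) (nat_lit 200) (nat_lit 207)) (PT.nd (nat_lit 78) (PT.lf (nat_lit 6156) (nat_lit 6) (nat_lit 81) (nat_lit 5) (nat_lit 194) (nat_lit 200) (nat_lit 206)) (PT.lf (nat_lit 6612) (nat_lit 6) (nat_lit 87) (nat_lit 5) (nat_lit 195) (nat_lit 200) (nat_lit 205))))))))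
noncomputable def pc6 : PT := (PT.nd (nat_lit 62478) (PT.nd (nat_lit 624) (PT.nd (nat_lit 312) (PT.nd (nat_lit 156) (PT.nd (nat_lit 78) (PT.lf (nat_lit 6992) (nat_lit 6) (nat_lit 92) (nat_lit 5) (nat_lit 196) (nat_lit 200) (nat_lit 204)) (PT.lf (nat_lit 7296) (nat_lit 6) (nat_lit 96) (nat_lit 5) (nat_lit 197) (nat_lit 200) (nat_lit 203))) (PT.nd (nat_lit 78) (PT.lf (nat_lit 7524) (nat_lit 6) (nat_lit 99) (nat_lit 5) (nat_lit 198) (nat_lit 200) (nat_lit 202)) (PT.lf (nat_lit 7676) (nat_lit 6) (nat_lit 101) (nat_lit 5) (nat_lit 199) (nat_lit 200) (nat_lit 201)))) (PT.nd (nat_lit 156) (PT.nd (nat_lit 78) (PT.lf (nat_lit 7752) (nat_lit 1) (nat_lit 102) (nat_lit 0) (nat_lit 200) (nat_lit 200) (nat_lit 200)) (PT.lf (nat_lit 7676) (nat_lit 6) (nat_lit 101) (nat_lit 0) (nat_lit 201) (nat_lit 200) (nat_lit 199))) (PT.nd (nat_lit 78) (PT.lf (nat_lit 7524) (nat_lit 6) (nat_lit 99) (nat_lit 0) (nat_lit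 202) (nat_lit 200) (nat_lit 198)) (PT.lf (nat_lit 7296) (nat_lit 6) (nat_lit 96) (nat_lit 0) (nat_lit 203) (nat_lit 200) (nat_lit 197))))) (PT.nd (nat_lit 61542) (PT.nd (nat_lit 156) (PT.nd (nat_lit 78) (PT.lf (nat_lit 6992) (nat_lit 6) (nat_lit 92) (nat_lit 0) (nat_lit 204) (nat_lit 200) (nat_lit 196)) (PT.lf (nat_lit 6612) (nat_lit 6) (nat_lit 87) (nat_lit 0) (nat_lit 205) (nat_lit 200) (nat_lit 195))) (PT.nd (nat_lit 78) (PT.lf (nat_lit 6156) (nat_lit 6) (nat_lit 81) (nat_lit 0) (nat_lit 206) (nat_lit 200) (nat_lit 194)) (PT.lf (nat_lit 5624) (nat_lit 6) (nat_lit 74) (nat_lit 0) (nat_lit 207) (nat_lit 200) (nat_lit 193)))) (PT.nd (nat_lit 156) (PT.nd (nat_lit 78) (PT.lf (nat_lit 5168) (nat_lit 6) (nat_lit 68) (nat_lit 5) (nat_lit 192) (nat_lit 201) (nat_lit 207)) (PT.lf (nat_lit 5700) (nat_lit 6) (nat_lit 75) (nat_lit 5) (nat_lit 193) (nat_lit 201) (nat_lit 206))) (PT.nd (nat_lit 78)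 (PT.lf (nat_lit 6232) (nat_lit 6) (nat_lit 82) (nat_lit 5) (nat_lit 194) (nat_lit 201) (nat_lit 205)) (PT.lf (nat_lit 6688) (nat_lit 6) (nat_lit 88) (nat_lit 5) (nat_lit 195) (nat_lit 201) (nat_lit 204)))))) (PT.nd (nat_lit 624) (PT.nd (nat_lit 312) (PT.nd (nat_lit 156) (PT.nd (nat_lit 78) (PT.lf (nat_lit 7068) (nat_lit 6) (nat_lit 93) (nat_lit 5) (nat_lit 196) (nat_lit 201) (nat_lit 203)) (PT.lf (nat_lit 7372) (nat_lit 6) (nat_lit 97) (nat_lit 5) (nat_lit 197) (nat_lit 201) (nat_lit 202))) (PT.nd (nat_lit 78) (PT.lf (nat_lit 7600) (nat_lit 3) (nat_lit 100) (nat_lit 4) (nat_lit 198) (nat_lit 201) (nat_lit 201)) (PT.lf (nat_lit 7676) (nat_lit 6) (nat_lit 101) (nat_lit 4) (nat_lit 199) (nat_lit 201) (nat_lit 200)))) (PT.nd (nat_lit 156) (PT.nd (nat_lit 78) (PT.lf (nat_lit 7676) (nat_lit 6) (nat_lit 101) (nat_lit 2) (nat_lit 200) (nat_lit 201) (nat_lit 199)) (PT.lf (nat_lit 7600) (nat_lit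 3) (nat_lit 100) (nat_lit 0) (nat_lit 201) (nat_lit 201) (nat_lit 198))) (PT.nd (nat_lit 78) (PT.lf (nat_lit 7372) (nat_lit 6) (nat_lit 97) (nat_lit 0) (nat_lit 202) (nat_lit 201) (nat_lit 197)) (PT.lf (nat_lit 7068) (nat_lit 6) (nat_lit 93) (nat_lit 0) (nat_lit 203) (nat_lit 201) (nat_lit 196))))) (PT.nd (nat_lit 61464) (PT.nd (nat_lit 156) (PT.nd (nat_lit 78) (PT.lf (nat_lit 6688) (nat_lit 6) (nat_lit 88) (nat_lit 0) (nat_lit 204) (nat_lit 201) (nat_lit 195)) (PT.lf (nat_lit 6232) (nat_lit 6) (nat_lit 82) (nat_lit 0) (nat_lit 205) (nat_lit 201) (nat_lit 194))) (PT.nd (nat_lit 78) (PT.lf (nat_lit 5700) (nat_lit 6) (nat_lit 75) (nat_lit 0) (nat_lit 206) (nat_lit 201) (nat_lit 193)) (PT.lf (nat_lit 5168) (nat_lit 6) (nat_lit 68) (nat_lit 0) (nat_lit 207) (nat_lit 201) (nat_lit 192)))) (PT.nd (nat_lit 156) (PT.nd (nat_lit 78) (PT.lf (nat_lit 4940) (nat_lit 6) (nat_lit 65) (nat_lit 5) (nat_lit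 191) (nat_lit 202) (nat_lit 207)) (PT.lf (nat_lit 5244) (nat_lit 6) (nat_lit 69) (nat_lit 5) (nat_lit 192) (nat_lit 202) (nat_lit 206))) (PT.nd (nat_lit 78) (PT.lf (nat_lit 5776) (nat_lit 6) (nat_lit 76) (nat_lit 5) (nat_lit 193) (nat_lit 202) (nat_lit 205)) (PT.nd (nat_lit 78) (PT.lf (nat_lit 6308) (nat_lit 6) (nat_lit 83) (nat_lit 5) (nat_lit 194) (nat_lit 202) (nat_lit 204)) (PT.lf (nat_lit 6764) (nat_lit 6) (nat_lit 89) (nat_lit 5) (nat_lit 195) (nat_lit 202) (nat_lit 203))))))))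
noncomputable def pc7 : PT := (PT.nd (nat_lit 62322) (PT.nd (nat_lit 624) (PT.nd (nat_lit 312) (PT.nd (nat_lit 156) (PT.nd (nat_lit 78) (PT.lf (nat_lit 7144) (nat_lit 3) (nat_lit 94) (nat_lit 4) (nat_lit 196) (nat_lit 202) (nat_lit 202)) (PT.lf (nat_lit 7372) (nat_lit 6) (nat_lit 97) (nat_lit 4) (nat_lit 197) (nat_lit 202) (nat_lit 201))) (PT.nd (nat_lit 78) (PT.lf (nat_lit 7524) (nat_lit 6) (nat_lit 99) (nat_lit 4) (nat_lit 198) (nat_lit 202) (nat_lit 200)) (PT.lf (nat_lit 7448) (nat_lit 3) (nat_lit 98) (nat_lit 2) (nat_lit 199) (nat_lit 202) (nat_lit 199)))) (PT.nd (nat_lit 156) (PT.nd (nat_lit 78) (PT.lf (nat_lit 7524) (nat_lit 6) (nat_lit 99) (nat_lit 2) (nat_lit 200) (nat_lit 202) (nat_lit 198)) (PT.lf (nat_lit 7372) (nat_lit 6) (nat_lit 97) (nat_lit 2) (nat_lit 201) (nat_lit 202) (nat_lit 197))) (PT.nd (nat_lit 78) (PT.lf (nat_lit 7144) (nat_lit 3) (nat_lit 94) (nat_lit 0) (nat_lit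 202) (nat_lit 202) (nat_lit 196)) (PT.lf (nat_lit 6764) (nat_lit 6) (nat_lit 89) (nat_lit 0) (nat_lit 203) (nat_lit 202) (nat_lit 195))))) (PT.nd (nat_lit 61308) (PT.nd (nat_lit 156) (PT.nd (nat_lit 78) (PT.lf (nat_lit 6308) (nat_lit 6) (nat_lit 83) (nat_lit 0) (nat_lit 204) (nat_lit 202) (nat_lit 194)) (PT.lf (nat_lit 5776) (nat_lit 6) (nat_lit 76) (nat_lit 0) (nat_lit 205) (nat_lit 202) (nat_lit 193))) (PT.nd (nat_lit 78) (PT.lf (nat_lit 5244) (nat_lit 6) (nat_lit 69) (nat_lit 0) (nat_lit 206) (nat_lit 202) (nat_lit 192)) (PT.lf (nat_lit 4940) (nat_lit 6) (nat_lit 65) (nat_lit 0) (nat_lit 207) (nat_lit 202) (nat_lit 191)))) (PT.nd (nat_lit 156) (PT.nd (nat_lit 78) (PT.lf (nat_lit 4484) (nat_lit 6) (nat_lit 59) (nat_lit 5) (nat_lit 189) (nat_lit 203) (nat_lit 208)) (PT.lf (nat_lit 4712) (nat_lit 6) (nat_lit 62) (nat_lit 5) (nat_lit 190) (nat_lit 203) (nat_lit 207))) (PT.nd (nat_lit 78)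 (PT.lf (nat_lit 5016) (nat_lit 6) (nat_lit 66) (nat_lit 5) (nat_lit 191) (nat_lit 203) (nat_lit 206)) (PT.nd (nat_lit 78) (PT.lf (nat_lit 5320) (nat_lit 6) (nat_lit 70) (nat_lit 5) (nat_lit 192) (nat_lit 203) (nat_lit 205)) (PT.lf (nat_lit 5852) (nat_lit 6) (nat_lit 77) (nat_lit 5) (nat_lit 193) (nat_lit 203) (nat_lit 204))))))) (PT.nd (nat_lit 624) (PT.nd (nat_lit 312) (PT.nd (nat_lit 156) (PT.nd (nat_lit 78) (PT.lf (nat_lit 6384) (nat_lit 3) (nat_lit 84) (nat_lit 4) (nat_lit 194) (nat_lit 203) (nat_lit 203)) (PT.lf (nat_lit 6764) (nat_lit 6) (nat_lit 89) (nat_lit 4) (nat_lit 195) (nat_lit 203) (nat_lit 202))) (PT.nd (nat_lit 78) (PT.lf (nat_lit 7068) (nat_lit 6) (nat_lit 93) (nat_lit 4) (nat_lit 196) (nat_lit 203) (nat_lit 201)) (PT.lf (nat_lit 7296) (nat_lit 6) (nat_lit 96) (nat_lit 4) (nat_lit 197) (nat_lit 203) (nat_lit 200)))) (PT.nd (nat_lit 156) (PT.nd (nat_lit 78) (PT.lf (nat_lit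 7220) (nat_lit 6) (nat_lit 95) (nat_lit 4) (nat_lit 198) (nat_lit 203) (nat_lit 199)) (PT.lf (nat_lit 7220) (nat_lit 6) (nat_lit 95) (nat_lit 2) (nat_lit 199) (nat_lit 203) (nat_lit 198))) (PT.nd (nat_lit 78) (PT.lf (nat_lit 7296) (nat_lit 6) (nat_lit 96) (nat_lit 2) (nat_lit 200) (nat_lit 203) (nat_lit 197)) (PT.lf (nat_lit 7068) (nat_lit 6) (nat_lit 93) (nat_lit 2) (nat_lit 201) (nat_lit 203) (nat_lit 196))))) (PT.nd (nat_lit 312) (PT.nd (nat_lit 156) (PT.nd (nat_lit 78) (PT.lf (nat_lit 6764) (nat_lit 6) (nat_lit 89) (nat_lit 2) (nat_lit 202) (nat_lit 203) (nat_lit 195)) (PT.lf (nat_lit 6384) (nat_lit 3) (nat_lit 84) (nat_lit 0) (nat_lit 203) (nat_lit 203) (nat_lit 194))) (PT.nd (nat_lit 78) (PT.lf (nat_lit 5852) (nat_lit 6) (nat_lit 77) (nat_lit 0) (nat_lit 204) (nat_lit 203) (nat_lit 193)) (PT.lf (nat_lit 5320) (nat_lit 6) (nat_lit 70) (nat_lit 0) (nat_lit 205) (nat_lit 203) (nat_lit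 192)))) (PT.nd (nat_lit 156) (PT.nd (nat_lit 78) (PT.lf (nat_lit 5016) (nat_lit 6) (nat_lit 66) (nat_lit 0) (nat_lit 206) (nat_lit 203) (nat_lit 191)) (PT.lf (nat_lit 4712) (nat_lit 6) (nat_lit 62) (nat_lit 0) (nat_lit 207) (nat_lit 203) (nat_lit 190))) (PT.nd (nat_lit 60918) (PT.lf (nat_lit 4484) (nat_lit 6) (nat_lit 59) (nat_lit 0) (nat_lit 208) (nat_lit 203) (nat_lit 189)) (PT.nd (nat_lit 78) (PT.lf (nat_lit 4256) (nat_lit 6) (nat_lit 56) (nat_lit 5) (nat_lit 188) (nat_lit 204) (nat_lit 208)) (PT.lf (nat_lit 4560) (nat_lit 6) (nat_lit 60) (nat_lit 5) (nat_lit 189) (nat_lit 204) (nat_lit 207))))))))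
noncomputable def pc8 : PT := (PT.nd (nat_lit 1248) (PT.nd (nat_lit 624) (PT.nd (nat_lit 312) (PT.nd (nat_lit 156) (PT.nd (nat_lit 78) (PT.lf (nat_lit 4788) (nat_lit 6) (nat_lit 63) (nat_lit 5) (nat_lit 190) (nat_lit 204) (nat_lit 206)) (PT.lf (nat_lit 5092) (nat_lit 6) (nat_lit 67) (nat_lit 5) (nat_lit 191) (nat_lit 204) (nat_lit 205))) (PT.nd (nat_lit 78) (PT.lf (nat_lit 5396) (nat_lit 3) (nat_lit 71) (nat_lit 4) (nat_lit 192) (nat_lit 204) (nat_lit 204)) (PT.lf (nat_lit 5852) (nat_lit 6) (nat_lit 77) (nat_lit 4) (nat_lit 193) (nat_lit 204) (nat_lit 203)))) (PT.nd (nat_lit 156) (PT.nd (nat_lit 78) (PT.lf (nat_lit 6308) (nat_lit 6) (nat_lit 83) (nat_lit 4) (nat_lit 194) (nat_lit 204) (nat_lit 202)) (PT.lf (nat_lit 6688) (nat_lit 6) (nat_lit 88) (nat_lit 4) (nat_lit 195) (nat_lit 204) (nat_lit 201))) (PT.nd (nat_lit 78) (PT.lf (nat_lit 6992) (nat_lit 6) (nat_lit 92) (nat_lit 4) (nat_lit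 196) (nat_lit 204) (nat_lit 200)) (PT.lf (nat_lit 6916) (nat_lit 6) (nat_lit 91) (nat_lit 4) (nat_lit 197) (nat_lit 204) (nat_lit 199))))) (PT.nd (nat_lit 312) (PT.nd (nat_lit 156) (PT.nd (nat_lit 78) (PT.lf (nat_lit 6840) (nat_lit 3) (nat_lit 90) (nat_lit 2) (nat_lit 198) (nat_lit 204) (nat_lit 198)) (PT.lf (nat_lit 6916) (nat_lit 6) (nat_lit 91) (nat_lit 2) (nat_lit 199) (nat_lit 204) (nat_lit 197))) (PT.nd (nat_lit 78) (PT.lf (nat_lit 6992) (nat_lit 6) (nat_lit 92) (nat_lit 2) (nat_lit 200) (nat_lit 204) (nat_lit 196)) (PT.lf (nat_lit 6688) (nat_lit 6) (nat_lit 88) (nat_lit 2) (nat_lit 201) (nat_lit 204) (nat_lit 195)))) (PT.nd (nat_lit 156) (PT.nd (nat_lit 78) (PT.lf (nat_lit 6308) (nat_lit 6) (nat_lit 83) (nat_lit 2) (nat_lit 202) (nat_lit 204) (nat_lit 194)) (PT.lf (nat_lit 5852) (nat_lit 6) (nat_lit 77) (nat_lit 2) (nat_lit 203) (nat_lit 204) (nat_lit 193))) (PT.nd (nat_lit 78) (PT.lf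 (nat_lit 5396) (nat_lit 3) (nat_lit 71) (nat_lit 0) (nat_lit 204) (nat_lit 204) (nat_lit 192)) (PT.lf (nat_lit 5092) (nat_lit 6) (nat_lit 67) (nat_lit 0) (nat_lit 205) (nat_lit 204) (nat_lit 191)))))) (PT.nd (nat_lit 61308) (PT.nd (nat_lit 60996) (PT.nd (nat_lit 156) (PT.nd (nat_lit 78) (PT.lf (nat_lit 4788) (nat_lit 6) (nat_lit 63) (nat_lit 0) (nat_lit 206) (nat_lit 204) (nat_lit 190)) (PT.lf (nat_lit 4560) (nat_lit 6) (nat_lit 60) (nat_lit 0) (nat_lit 207) (nat_lit 204) (nat_lit 189))) (PT.nd (nat_lit 60762) (PT.lf (nat_lit 4256) (nat_lit 6) (nat_lit 56) (nat_lit 0) (nat_lit 208) (nat_lit 204) (nat_lit 188)) (PT.lf (nat_lit 3876) (nat_lit 6) (nat_lit 51) (nat_lit 5) (nat_lit 186) (nat_lit 205) (nat_lit 209)))) (PT.nd (nat_lit 156) (PT.nd (nat_lit 78) (PT.lf (nat_lit 4104) (nat_lit 6) (nat_lit 54) (nat_lit 5) (nat_lit 187) (nat_lit 205) (nat_lit 208)) (PT.lf (nat_lit 4332) (nat_lit 6)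 (nat_lit 57) (nat_lit 5) (nat_lit 188) (nat_lit 205) (nat_lit 207))) (PT.nd (nat_lit 78) (PT.lf (nat_lit 4636) (nat_lit 6) (nat_lit 61) (nat_lit 5) (nat_lit 189) (nat_lit 205) (nat_lit 206)) (PT.lf (nat_lit 4864) (nat_lit 3) (nat_lit 64) (nat_lit 4) (nat_lit 190) (nat_lit 205) (nat_lit 205))))) (PT.nd (nat_lit 312) (PT.nd (nat_lit 156) (PT.nd (nat_lit 78) (PT.lf (nat_lit 5092) (nat_lit 6) (nat_lit 67) (nat_lit 4) (nat_lit 191) (nat_lit 205) (nat_lit 204)) (PT.lf (nat_lit 5320) (nat_lit 6) (nat_lit 70) (nat_lit 4) (nat_lit 192) (nat_lit 205) (nat_lit 203))) (PT.nd (nat_lit 78) (PT.lf (nat_lit 5776) (nat_lit 6) (nat_lit 76) (nat_lit 4) (nat_lit 193) (nat_lit 205) (nat_lit 202)) (PT.lf (nat_lit 6232) (nat_lit 6) (nat_lit 82) (nat_lit 4) (nat_lit 194) (nat_lit 205) (nat_lit 201)))) (PT.nd (nat_lit 156) (PT.nd (nat_lit 78) (PT.lf (nat_lit 6612) (nat_lit 6) (nat_lit 87) (nat_lit 4) (nat_lit 195)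 (nat_lit 205) (nat_lit 200)) (PT.lf (nat_lit 6536) (nat_lit 6) (nat_lit 86) (nat_lit 4) (nat_lit 196) (nat_lit 205) (nat_lit 199))) (PT.nd (nat_lit 78) (PT.lf (nat_lit 6460) (nat_lit 6) (nat_lit 85) (nat_lit 4) (nat_lit 197) (nat_lit 205) (nat_lit 198)) (PT.nd (nat_lit 78) (PT.lf (nat_lit 6460) (nat_lit 6) (nat_lit 85) (nat_lit 2) (nat_lit 198) (nat_lit 205) (nat_lit 197)) (PT.lf (nat_lit 6536) (nat_lit 6) (nat_lit 86) (nat_lit 2) (nat_lit 199) (nat_lit 205) (nat_lit 196))))))))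
noncomputable def pc9 : PT := (PT.nd (nat_lit 61776) (PT.nd (nat_lit 624) (PT.nd (nat_lit 312) (PT.nd (nat_lit 156) (PT.nd (nat_lit 78) (PT.lf (nat_lit 6612) (nat_lit 6) (nat_lit 87) (nat_lit 2) (nat_lit 200) (nat_lit 205) (nat_lit 195)) (PT.lf (nat_lit 6232) (nat_lit 6) (nat_lit 82) (nat_lit 2) (nat_lit 201) (nat_lit 205) (nat_lit 194))) (PT.nd (nat_lit 78) (PT.lf (nat_lit 5776) (nat_lit 6) (nat_lit 76) (nat_lit 2) (nat_lit 202) (nat_lit 205) (nat_lit 193)) (PT.lf (nat_lit 5320) (nat_lit 6) (nat_lit 70) (nat_lit 2) (nat_lit 203) (nat_lit 205) (nat_lit 192)))) (PT.nd (nat_lit 156) (PT.nd (nat_lit 78) (PT.lf (nat_lit 5092) (nat_lit 6) (nat_lit 67) (nat_lit 2) (nat_lit 204) (nat_lit 205) (nat_lit 191)) (PT.lf (nat_lit 4864) (nat_lit 3) (nat_lit 64) (nat_lit 0) (nat_lit 205) (nat_lit 205) (nat_lit 190))) (PT.nd (nat_lit 78) (PT.lf (nat_lit 4636) (nat_lit 6) (nat_lit 61) (nat_lit 0) (nat_lit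 206) (nat_lit 205) (nat_lit 189)) (PT.lf (nat_lit 4332) (nat_lit 6) (nat_lit 57) (nat_lit 0) (nat_lit 207) (nat_lit 205) (nat_lit 188))))) (PT.nd (nat_lit 60840) (PT.nd (nat_lit 60684) (PT.nd (nat_lit 78) (PT.lf (nat_lit 4104) (nat_lit 6) (nat_lit 54) (nat_lit 0) (nat_lit 208) (nat_lit 205) (nat_lit 187)) (PT.lf (nat_lit 3876) (nat_lit 6) (nat_lit 51) (nat_lit 0) (nat_lit 209) (nat_lit 205) (nat_lit 186))) (PT.nd (nat_lit 78) (PT.lf (nat_lit 3724) (nat_lit 6) (nat_lit 49) (nat_lit 5) (nat_lit 185) (nat_lit 206) (nat_lit 209)) (PT.lf (nat_lit 3952) (nat_lit 6) (nat_lit 52) (nat_lit 5) (nat_lit 186) (nat_lit 206) (nat_lit 208)))) (PT.nd (nat_lit 156) (PT.nd (nat_lit 78) (PT.lf (nat_lit 4180) (nat_lit 6) (nat_lit 55) (nat_lit 5) (nat_lit 187) (nat_lit 206) (nat_lit 207)) (PT.lf (nat_lit 4408) (nat_lit 3) (nat_lit 58) (nat_lit 4) (nat_lit 188) (nat_lit 206) (nat_lit 206))) (PT.nd (nat_lit 78)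 (PT.lf (nat_lit 4636) (nat_lit 6) (nat_lit 61) (nat_lit 4) (nat_lit 189) (nat_lit 206) (nat_lit 205)) (PT.lf (nat_lit 4788) (nat_lit 6) (nat_lit 63) (nat_lit 4) (nat_lit 190) (nat_lit 206) (nat_lit 204)))))) (PT.nd (nat_lit 624) (PT.nd (nat_lit 312) (PT.nd (nat_lit 156) (PT.nd (nat_lit 78) (PT.lf (nat_lit 5016) (nat_lit 6) (nat_lit 66) (nat_lit 4) (nat_lit 191) (nat_lit 206) (nat_lit 203)) (PT.lf (nat_lit 5244) (nat_lit 6) (nat_lit 69) (nat_lit 4) (nat_lit 192) (nat_lit 206) (nat_lit 202))) (PT.nd (nat_lit 78) (PT.lf (nat_lit 5700) (nat_lit 6) (nat_lit 75) (nat_lit 4) (nat_lit 193) (nat_lit 206) (nat_lit 201)) (PT.lf (nat_lit 6156) (nat_lit 6) (nat_lit 81) (nat_lit 4) (nat_lit 194) (nat_lit 206) (nat_lit 200)))) (PT.nd (nat_lit 156) (PT.nd (nat_lit 78) (PT.lf (nat_lit 6080) (nat_lit 6) (nat_lit 80) (nat_lit 4) (nat_lit 195) (nat_lit 206) (nat_lit 199)) (PT.lf (nat_lit 6004) (nat_lit 6)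 (nat_lit 79) (nat_lit 4) (nat_lit 196) (nat_lit 206) (nat_lit 198))) (PT.nd (nat_lit 78) (PT.lf (nat_lit 5928) (nat_lit 3) (nat_lit 78) (nat_lit 2) (nat_lit 197) (nat_lit 206) (nat_lit 197)) (PT.lf (nat_lit 6004) (nat_lit 6) (nat_lit 79) (nat_lit 2) (nat_lit 198) (nat_lit 206) (nat_lit 196))))) (PT.nd (nat_lit 312) (PT.nd (nat_lit 156) (PT.nd (nat_lit 78) (PT.lf (nat_lit 6080) (nat_lit 6) (nat_lit 80) (nat_lit 2) (nat_lit 199) (nat_lit 206) (nat_lit 195)) (PT.lf (nat_lit 6156) (nat_lit 6) (nat_lit 81) (nat_lit 2) (nat_lit 200) (nat_lit 206) (nat_lit 194))) (PT.nd (nat_lit 78) (PT.lf (nat_lit 5700) (nat_lit 6) (nat_lit 75) (nat_lit 2) (nat_lit 201) (nat_lit 206) (nat_lit 193)) (PT.lf (nat_lit 5244) (nat_lit 6) (nat_lit 69) (nat_lit 2) (nat_lit 202) (nat_lit 206) (nat_lit 192)))) (PT.nd (nat_lit 156) (PT.nd (nat_lit 78) (PT.lf (nat_lit 5016) (nat_lit 6) (nat_lit 66) (nat_lit 2) (nat_lit 203)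 (nat_lit 206) (nat_lit 191)) (PT.lf (nat_lit 4788) (nat_lit 6) (nat_lit 63) (nat_lit 2) (nat_lit 204) (nat_lit 206) (nat_lit 190))) (PT.nd (nat_lit 78) (PT.lf (nat_lit 4636) (nat_lit 6) (nat_lit 61) (nat_lit 2) (nat_lit 205) (nat_lit 206) (nat_lit 189)) (PT.nd (nat_lit 78) (PT.lf (nat_lit 4408) (nat_lit 3) (nat_lit 58) (nat_lit 0) (nat_lit 206) (nat_lit 206) (nat_lit 188)) (PT.lf (nat_lit 4180) (nat_lit 6) (nat_lit 55) (nat_lit 0) (nat_lit 207) (nat_lit 206) (nat_lit 187))))))))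
noncomputable def pc10 : PT := (PT.nd (nat_lit 61776) (PT.nd (nat_lit 60996) (PT.nd (nat_lit 60684) (PT.nd (nat_lit 60528) (PT.nd (nat_lit 78) (PT.lf (nat_lit 3952) (nat_lit 6) (nat_lit 52) (nat_lit 0) (nat_lit 208) (nat_lit 206) (nat_lit 186)) (PT.lf (nat_lit 3724) (nat_lit 6) (nat_lit 49) (nat_lit 0) (nat_lit 209) (nat_lit 206) (nat_lit 185))) (PT.nd (nat_lit 78) (PT.lf (nat_lit 3420) (nat_lit 6) (nat_lit 45) (nat_lit 5) (nat_lit 183) (nat_lit 207) (nat_lit 210)) (PT.lf (nat_lit 3572) (nat_lit 6) (nat_lit 47) (nat_lit 5) (nat_lit 184) (nat_lit 207) (nat_lit 209)))) (PT.nd (nat_lit 156) (PT.nd (nat_lit 78) (PT.lf (nat_lit 3800) (nat_lit 6) (nat_lit 50) (nat_lit 5) (nat_lit 185) (nat_lit 207) (nat_lit 208)) (PT.lf (nat_lit 4028) (nat_lit 3) (nat_lit 53) (nat_lit 4) (nat_lit 186) (nat_lit 207) (nat_lit 207))) (PT.nd (nat_lit 78) (PT.lf (nat_lit 4180) (nat_lit 6) (nat_lit 55) (nat_lit 4)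 (nat_lit 187) (nat_lit 207) (nat_lit 206)) (PT.lf (nat_lit 4332) (nat_lit 6) (nat_lit 57) (nat_lit 4) (nat_lit 188) (nat_lit 207) (nat_lit 205))))) (PT.nd (nat_lit 312) (PT.nd (nat_lit 156) (PT.nd (nat_lit 78) (PT.lf (nat_lit 4560) (nat_lit 6) (nat_lit 60) (nat_lit 4) (nat_lit 189) (nat_lit 207) (nat_lit 204)) (PT.lf (nat_lit 4712) (nat_lit 6) (nat_lit 62) (nat_lit 4) (nat_lit 190) (nat_lit 207) (nat_lit 203))) (PT.nd (nat_lit 78) (PT.lf (nat_lit 4940) (nat_lit 6) (nat_lit 65) (nat_lit 4) (nat_lit 191) (nat_lit 207) (nat_lit 202)) (PT.lf (nat_lit 5168) (nat_lit 6) (nat_lit 68) (nat_lit 4) (nat_lit 192) (nat_lit 207) (nat_lit 201)))) (PT.nd (nat_lit 156) (PT.nd (nat_lit 78) (PT.lf (nat_lit 5624) (nat_lit 6) (nat_lit 74) (nat_lit 4) (nat_lit 193) (nat_lit 207) (nat_lit 200)) (PT.lf (nat_lit 5548) (nat_lit 6) (nat_lit 73) (nat_lit 4) (nat_lit 194) (nat_lit 207) (nat_lit 199))) (PT.nd (nat_lit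 234) (PT.lf (nat_lit 5472) (nat_lit 6) (nat_lit 72) (nat_lit 4) (nat_lit 195) (nat_lit 207) (nat_lit 198)) (PT.lf (nat_lit 5472) (nat_lit 6) (nat_lit 72) (nat_lit 2) (nat_lit 198) (nat_lit 207) (nat_lit 195)))))) (PT.nd (nat_lit 624) (PT.nd (nat_lit 312) (PT.nd (nat_lit 156) (PT.nd (nat_lit 78) (PT.lf (nat_lit 5548) (nat_lit 6) (nat_lit 73) (nat_lit 2) (nat_lit 199) (nat_lit 207) (nat_lit 194)) (PT.lf (nat_lit 5624) (nat_lit 6) (nat_lit 74) (nat_lit 2) (nat_lit 200) (nat_lit 207) (nat_lit 193))) (PT.nd (nat_lit 78) (PT.lf (nat_lit 5168) (nat_lit 6) (nat_lit 68) (nat_lit 2) (nat_lit 201) (nat_lit 207) (nat_lit 192)) (PT.lf (nat_lit 4940) (nat_lit 6) (nat_lit 65) (nat_lit 2) (nat_lit 202) (nat_lit 207) (nat_lit 191)))) (PT.nd (nat_lit 156) (PT.nd (nat_lit 78) (PT.lf (nat_lit 4712) (nat_lit 6) (nat_lit 62) (nat_lit 2) (nat_lit 203) (nat_lit 207) (nat_lit 190)) (PT.lf (nat_lit 4560) (nat_lit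 6) (nat_lit 60) (nat_lit 2) (nat_lit 204) (nat_lit 207) (nat_lit 189))) (PT.nd (nat_lit 78) (PT.lf (nat_lit 4332) (nat_lit 6) (nat_lit 57) (nat_lit 2) (nat_lit 205) (nat_lit 207) (nat_lit 188)) (PT.lf (nat_lit 4180) (nat_lit 6) (nat_lit 55) (nat_lit 2) (nat_lit 206) (nat_lit 207) (nat_lit 187))))) (PT.nd (nat_lit 60450) (PT.nd (nat_lit 156) (PT.nd (nat_lit 78) (PT.lf (nat_lit 4028) (nat_lit 3) (nat_lit 53) (nat_lit 0) (nat_lit 207) (nat_lit 207) (nat_lit 186)) (PT.lf (nat_lit 3800) (nat_lit 6) (nat_lit 50) (nat_lit 0) (nat_lit 208) (nat_lit 207) (nat_lit 185))) (PT.nd (nat_lit 78) (PT.lf (nat_lit 3572) (nat_lit 6) (nat_lit 47) (nat_lit 0) (nat_lit 209) (nat_lit 207) (nat_lit 184)) (PT.lf (nat_lit 3420) (nat_lit 6) (nat_lit 45) (nat_lit 0) (nat_lit 210) (nat_lit 207) (nat_lit 183)))) (PT.nd (nat_lit 156) (PT.nd (nat_lit 78) (PT.lf (nat_lit 3116) (nat_lit 6) (nat_lit 41) (nat_lit 5) (nat_lit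 181) (nat_lit 208) (nat_lit 211)) (PT.lf (nat_lit 3268) (nat_lit 6) (nat_lit 43) (nat_lit 5) (nat_lit 182) (nat_lit 208) (nat_lit 210))) (PT.nd (nat_lit 78) (PT.lf (nat_lit 3496) (nat_lit 6) (nat_lit 46) (nat_lit 5) (nat_lit 183) (nat_lit 208) (nat_lit 209)) (PT.nd (nat_lit 78) (PT.lf (nat_lit 3648) (nat_lit 3) (nat_lit 48) (nat_lit 4) (nat_lit 184) (nat_lit 208) (nat_lit 208)) (PT.lf (nat_lit 3800) (nat_lit 6) (nat_lit 50) (nat_lit 4) (nat_lit 185) (nat_lit 208) (nat_lit 207))))))))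
noncomputable def pc11 : PT := (PT.nd (nat_lit 62244) (PT.nd (nat_lit 1638) (PT.nd (nat_lit 1326) (PT.nd (nat_lit 156) (PT.nd (nat_lit 78) (PT.lf (nat_lit 3952) (nat_lit 6) (nat_lit 52) (nat_lit 4) (nat_lit 186) (nat_lit 208) (nat_lit 206)) (PT.lf (nat_lit 4104) (nat_lit 6) (nat_lit 54) (nat_lit 4) (nat_lit 187) (nat_lit 208) (nat_lit 205))) (PT.nd (nat_lit 78) (PT.lf (nat_lit 4256) (nat_lit 6) (nat_lit 56) (nat_lit 4) (nat_lit 188) (nat_lit 208) (nat_lit 204)) (PT.lf (nat_lit 4484) (nat_lit 6) (nat_lit 59) (nat_lit 4) (nat_lit 189) (nat_lit 208) (nat_lit 203)))) (PT.nd (nat_lit 156) (PT.nd (nat_lit 78) (PT.lf (nat_lit 4484) (nat_lit 6) (nat_lit 59) (nat_lit 2) (nat_lit 203) (nat_lit 208) (nat_lit 189)) (PT.lf (nat_lit 4256) (nat_lit 6) (nat_lit 56) (nat_lit 2) (nat_lit 204) (nat_lit 208) (nat_lit 188))) (PT.nd (nat_lit 78) (PT.lf (nat_lit 4104) (nat_lit 6) (nat_lit 54) (nat_lit 2) (nat_lit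 205) (nat_lit 208) (nat_lit 187)) (PT.lf (nat_lit 3952) (nat_lit 6) (nat_lit 52) (nat_lit 2) (nat_lit 206) (nat_lit 208) (nat_lit 186))))) (PT.nd (nat_lit 312) (PT.nd (nat_lit 156) (PT.nd (nat_lit 78) (PT.lf (nat_lit 3800) (nat_lit 6) (nat_lit 50) (nat_lit 2) (nat_lit 207) (nat_lit 208) (nat_lit 185)) (PT.lf (nat_lit 3648) (nat_lit 3) (nat_lit 48) (nat_lit 0) (nat_lit 208) (nat_lit 208) (nat_lit 184))) (PT.nd (nat_lit 78) (PT.lf (nat_lit 3496) (nat_lit 6) (nat_lit 46) (nat_lit 0) (nat_lit 209) (nat_lit 208) (nat_lit 183)) (PT.lf (nat_lit 3268) (nat_lit 6) (nat_lit 43) (nat_lit 0) (nat_lit 210) (nat_lit 208) (nat_lit 182)))) (PT.nd (nat_lit 60060) (PT.nd (nat_lit 59982) (PT.lf (nat_lit 3116) (nat_lit 6) (nat_lit 41) (nat_lit 0) (nat_lit 211) (nat_lit 208) (nat_lit 181)) (PT.lf (nat_lit 2812) (nat_lit 6) (nat_lit 37) (nat_lit 5) (nat_lit 179) (nat_lit 209) (nat_lit 212))) (PT.nd (nat_lit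 78) (PT.lf (nat_lit 2964) (nat_lit 6) (nat_lit 39) (nat_lit 5) (nat_lit 180) (nat_lit 209) (nat_lit 211)) (PT.nd (nat_lit 78) (PT.lf (nat_lit 3192) (nat_lit 6) (nat_lit 42) (nat_lit 5) (nat_lit 181) (nat_lit 209) (nat_lit 210)) (PT.lf (nat_lit 3344) (nat_lit 3) (nat_lit 44) (nat_lit 4) (nat_lit 182) (nat_lit 209) (nat_lit 209))))))) (PT.nd (nat_lit 2028) (PT.nd (nat_lit 1716) (PT.nd (nat_lit 156) (PT.nd (nat_lit 78) (PT.lf (nat_lit 3496) (nat_lit 6) (nat_lit 46) (nat_lit 4) (nat_lit 183) (nat_lit 209) (nat_lit 208)) (PT.lf (nat_lit 3572) (nat_lit 6) (nat_lit 47) (nat_lit 4) (nat_lit 184) (nat_lit 209) (nat_lit 207))) (PT.nd (nat_lit 78) (PT.lf (nat_lit 3724) (nat_lit 6) (nat_lit 49) (nat_lit 4) (nat_lit 185) (nat_lit 209) (nat_lit 206)) (PT.lf (nat_lit 3876) (nat_lit 6) (nat_lit 51) (nat_lit 4) (nat_lit 186) (nat_lit 209) (nat_lit 205)))) (PT.nd (nat_lit 156) (PT.nd (nat_lit 78) (PT.lf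 (nat_lit 3876) (nat_lit 6) (nat_lit 51) (nat_lit 2) (nat_lit 205) (nat_lit 209) (nat_lit 186)) (PT.lf (nat_lit 3724) (nat_lit 6) (nat_lit 49) (nat_lit 2) (nat_lit 206) (nat_lit 209) (nat_lit 185))) (PT.nd (nat_lit 78) (PT.lf (nat_lit 3572) (nat_lit 6) (nat_lit 47) (nat_lit 2) (nat_lit 207) (nat_lit 209) (nat_lit 184)) (PT.lf (nat_lit 3496) (nat_lit 6) (nat_lit 46) (nat_lit 2) (nat_lit 208) (nat_lit 209) (nat_lit 183))))) (PT.nd (nat_lit 60060) (PT.nd (nat_lit 156) (PT.nd (nat_lit 78) (PT.lf (nat_lit 3344) (nat_lit 3) (nat_lit 44) (nat_lit 0) (nat_lit 209) (nat_lit 209) (nat_lit 182)) (PT.lf (nat_lit 3192) (nat_lit 6) (nat_lit 42) (nat_lit 0) (nat_lit 210) (nat_lit 209) (nat_lit 181))) (PT.nd (nat_lit 78) (PT.lf (nat_lit 2964) (nat_lit 6) (nat_lit 39) (nat_lit 0) (nat_lit 211) (nat_lit 209) (nat_lit 180)) (PT.lf (nat_lit 2812) (nat_lit 6) (nat_lit 37) (nat_lit 0) (nat_lit 212) (nat_lit 209)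 (nat_lit 179)))) (PT.nd (nat_lit 156) (PT.nd (nat_lit 78) (PT.lf (nat_lit 2660) (nat_lit 6) (nat_lit 35) (nat_lit 5) (nat_lit 178) (nat_lit 210) (nat_lit 212)) (PT.lf (nat_lit 2888) (nat_lit 6) (nat_lit 38) (nat_lit 5) (nat_lit 179) (nat_lit 210) (nat_lit 211))) (PT.nd (nat_lit 78) (PT.lf (nat_lit 3040) (nat_lit 3) (nat_lit 40) (nat_lit 4) (nat_lit 180) (nat_lit 210) (nat_lit 210)) (PT.nd (nat_lit 78) (PT.lf (nat_lit 3192) (nat_lit 6) (nat_lit 42) (nat_lit 4) (nat_lit 181) (nat_lit 210) (nat_lit 209)) (PT.lf (nat_lit 3268) (nat_lit 6) (nat_lit 43) (nat_lit 4) (nat_lit 182) (nat_lit 210) (nat_lit 208))))))))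
noncomputable def pc12 : PT := (PT.nd (nat_lit 64662) (PT.nd (nat_lit 62010) (PT.nd (nat_lit 2106) (PT.nd (nat_lit 1950) (PT.nd (nat_lit 1872) (PT.lf (nat_lit 3420) (nat_lit 6) (nat_lit 45) (nat_lit 4) (nat_lit 183) (nat_lit 210) (nat_lit 207)) (PT.lf (nat_lit 3420) (nat_lit 6) (nat_lit 45) (nat_lit 2) (nat_lit 207) (nat_lit 210) (nat_lit 183))) (PT.nd (nat_lit 78) (PT.lf (nat_lit 3268) (nat_lit 6) (nat_lit 43) (nat_lit 2) (nat_lit 208) (nat_lit 210) (nat_lit 182)) (PT.lf (nat_lit 3192) (nat_lit 6) (nat_lit 42) (nat_lit 2) (nat_lit 209) (nat_lit 210) (nat_lit 181)))) (PT.nd (nat_lit 156) (PT.nd (nat_lit 78) (PT.lf (nat_lit 3040) (nat_lit 3) (nat_lit 40) (nat_lit 0) (nat_lit 210) (nat_lit 210) (nat_lit 180)) (PT.lf (nat_lit 2888) (nat_lit 6) (nat_lit 38) (nat_lit 0) (nat_lit 211) (nat_lit 210) (nat_lit 179))) (PT.nd (nat_lit 59670) (PT.lf (nat_lit 2660) (nat_lit 6) (nat_lit 35) (nat_lit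 0) (nat_lit 212) (nat_lit 210) (nat_lit 178)) (PT.lf (nat_lit 2432) (nat_lit 6) (nat_lit 32) (nat_lit 5) (nat_lit 176) (nat_lit 211) (nat_lit 213))))) (PT.nd (nat_lit 312) (PT.nd (nat_lit 156) (PT.nd (nat_lit 78) (PT.lf (nat_lit 2584) (nat_lit 6) (nat_lit 34) (nat_lit 5) (nat_lit 177) (nat_lit 211) (nat_lit 212)) (PT.lf (nat_lit 2736) (nat_lit 3) (nat_lit 36) (nat_lit 4) (nat_lit 178) (nat_lit 211) (nat_lit 211))) (PT.nd (nat_lit 78) (PT.lf (nat_lit 2888) (nat_lit 6) (nat_lit 38) (nat_lit 4) (nat_lit 179) (nat_lit 211) (nat_lit 210)) (PT.lf (nat_lit 2964) (nat_lit 6) (nat_lit 39) (nat_lit 4) (nat_lit 180) (nat_lit 211) (nat_lit 209)))) (PT.nd (nat_lit 2184) (PT.nd (nat_lit 2106) (PT.lf (nat_lit 3116) (nat_lit 6) (nat_lit 41) (nat_lit 4) (nat_lit 181) (nat_lit 211) (nat_lit 208)) (PT.lf (nat_lit 3116) (nat_lit 6) (nat_lit 41) (nat_lit 2) (nat_lit 208) (nat_lit 211) (nat_lit 181))) (PT.nd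 (nat_lit 78) (PT.lf (nat_lit 2964) (nat_lit 6) (nat_lit 39) (nat_lit 2) (nat_lit 209) (nat_lit 211) (nat_lit 180)) (PT.lf (nat_lit 2888) (nat_lit 6) (nat_lit 38) (nat_lit 2) (nat_lit 210) (nat_lit 211) (nat_lit 179)))))) (PT.nd (nat_lit 59982) (PT.nd (nat_lit 59670) (PT.nd (nat_lit 156) (PT.nd (nat_lit 78) (PT.lf (nat_lit 2736) (nat_lit 3) (nat_lit 36) (nat_lit 0) (nat_lit 211) (nat_lit 211) (nat_lit 178)) (PT.lf (nat_lit 2584) (nat_lit 6) (nat_lit 34) (nat_lit 0) (nat_lit 212) (nat_lit 211) (nat_lit 177))) (PT.nd (nat_lit 59436) (PT.lf (nat_lit 2432) (nat_lit 6) (nat_lit 32) (nat_lit 0) (nat_lit 213) (nat_lit 211) (nat_lit 176)) (PT.lf (nat_lit 2204) (nat_lit 6) (nat_lit 29) (nat_lit 5) (nat_lit 174) (nat_lit 212) (nat_lit 214)))) (PT.nd (nat_lit 156) (PT.nd (nat_lit 78) (PT.lf (nat_lit 2356) (nat_lit 6) (nat_lit 31) (nat_lit 5) (nat_lit 175) (nat_lit 212) (nat_lit 213)) (PT.lf (nat_lit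 2508) (nat_lit 3) (nat_lit 33) (nat_lit 4) (nat_lit 176) (nat_lit 212) (nat_lit 212))) (PT.nd (nat_lit 78) (PT.lf (nat_lit 2584) (nat_lit 6) (nat_lit 34) (nat_lit 4) (nat_lit 177) (nat_lit 212) (nat_lit 211)) (PT.lf (nat_lit 2660) (nat_lit 6) (nat_lit 35) (nat_lit 4) (nat_lit 178) (nat_lit 212) (nat_lit 210))))) (PT.nd (nat_lit 2574) (PT.nd (nat_lit 2418) (PT.nd (nat_lit 2340) (PT.lf (nat_lit 2812) (nat_lit 6) (nat_lit 37) (nat_lit 4) (nat_lit 179) (nat_lit 212) (nat_lit 209)) (PT.lf (nat_lit 2812) (nat_lit 6) (nat_lit 37) (nat_lit 2) (nat_lit 209) (nat_lit 212) (nat_lit 179))) (PT.nd (nat_lit 78) (PT.lf (nat_lit 2660) (nat_lit 6) (nat_lit 35) (nat_lit 2) (nat_lit 210) (nat_lit 212) (nat_lit 178)) (PT.lf (nat_lit 2584) (nat_lit 6) (nat_lit 34) (nat_lit 2) (nat_lit 211) (nat_lit 212) (nat_lit 177)))) (PT.nd (nat_lit 156) (PT.nd (nat_lit 78) (PT.lf (nat_lit 2508) (nat_lit 3) (nat_lit 33)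 (nat_lit 0) (nat_lit 212) (nat_lit 212) (nat_lit 176)) (PT.lf (nat_lit 2356) (nat_lit 6) (nat_lit 31) (nat_lit 0) (nat_lit 213) (nat_lit 212) (nat_lit 175))) (PT.nd (nat_lit 59202) (PT.lf (nat_lit 2204) (nat_lit 6) (nat_lit 29) (nat_lit 0) (nat_lit 214) (nat_lit 212) (nat_lit 174)) (PT.nd (nat_lit 78) (PT.lf (nat_lit 1976) (nat_lit 6) (nat_lit 26) (nat_lit 5) (nat_lit 172) (nat_lit 213) (nat_lit 215)) (PT.lf (nat_lit 2128) (nat_lit 6) (nat_lit 28) (nat_lit 5) (nat_lit 173) (nat_lit 213) (nat_lit 214))))))))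
noncomputable def pc13 : PT := (PT.nd (nat_lit 65676) (PT.nd (nat_lit 62166) (PT.nd (nat_lit 2964) (PT.nd (nat_lit 156) (PT.nd (nat_lit 78) (PT.lf (nat_lit 2280) (nat_lit 3) (nat_lit 30) (nat_lit 4) (nat_lit 174) (nat_lit 213) (nat_lit 213)) (PT.lf (nat_lit 2356) (nat_lit 6) (nat_lit 31) (nat_lit 4) (nat_lit 175) (nat_lit 213) (nat_lit 212))) (PT.nd (nat_lit 2730) (PT.lf (nat_lit 2432) (nat_lit 6) (nat_lit 32) (nat_lit 4) (nat_lit 176) (nat_lit 213) (nat_lit 211)) (PT.lf (nat_lit 2432) (nat_lit 6) (nat_lit 32) (nat_lit 2) (nat_lit 211) (nat_lit 213) (nat_lit 176)))) (PT.nd (nat_lit 156) (PT.nd (nat_lit 78) (PT.lf (nat_lit 2356) (nat_lit 6) (nat_lit 31) (nat_lit 2) (nat_lit 212) (nat_lit 213) (nat_lit 175)) (PT.lf (nat_lit 2280) (nat_lit 3) (nat_lit 30) (nat_lit 0) (nat_lit 213) (nat_lit 213) (nat_lit 174))) (PT.nd (nat_lit 78) (PT.lf (nat_lit 2128) (nat_lit 6) (nat_lit 28) (nat_lit 0) (nat_lit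 214) (nat_lit 213) (nat_lit 173)) (PT.lf (nat_lit 1976) (nat_lit 6) (nat_lit 26) (nat_lit 0) (nat_lit 215) (nat_lit 213) (nat_lit 172))))) (PT.nd (nat_lit 312) (PT.nd (nat_lit 156) (PT.nd (nat_lit 78) (PT.lf (nat_lit 1748) (nat_lit 6) (nat_lit 23) (nat_lit 5) (nat_lit 170) (nat_lit 214) (nat_lit 216)) (PT.lf (nat_lit 1900) (nat_lit 6) (nat_lit 25) (nat_lit 5) (nat_lit 171) (nat_lit 214) (nat_lit 215))) (PT.nd (nat_lit 78) (PT.lf (nat_lit 2052) (nat_lit 3) (nat_lit 27) (nat_lit 4) (nat_lit 172) (nat_lit 214) (nat_lit 214)) (PT.lf (nat_lit 2128) (nat_lit 6) (nat_lit 28) (nat_lit 4) (nat_lit 173) (nat_lit 214) (nat_lit 213)))) (PT.nd (nat_lit 3042) (PT.nd (nat_lit 2964) (PT.lf (nat_lit 2204) (nat_lit 6) (nat_lit 29) (nat_lit 4) (nat_lit 174) (nat_lit 214) (nat_lit 212)) (PT.lf (nat_lit 2204) (nat_lit 6) (nat_lit 29) (nat_lit 2) (nat_lit 212) (nat_lit 214) (nat_lit 174))) (PT.nd (nat_lit 78)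 (PT.lf (nat_lit 2128) (nat_lit 6) (nat_lit 28) (nat_lit 2) (nat_lit 213) (nat_lit 214) (nat_lit 173)) (PT.lf (nat_lit 2052) (nat_lit 3) (nat_lit 27) (nat_lit 0) (nat_lit 214) (nat_lit 214) (nat_lit 172)))))) (PT.nd (nat_lit 62400) (PT.nd (nat_lit 58968) (PT.nd (nat_lit 58812) (PT.nd (nat_lit 78) (PT.lf (nat_lit 1900) (nat_lit 6) (nat_lit 25) (nat_lit 0) (nat_lit 215) (nat_lit 214) (nat_lit 171)) (PT.lf (nat_lit 1748) (nat_lit 6) (nat_lit 23) (nat_lit 0) (nat_lit 216) (nat_lit 214) (nat_lit 170))) (PT.nd (nat_lit 78) (PT.lf (nat_lit 1520) (nat_lit 6) (nat_lit 20) (nat_lit 5) (nat_lit 168) (nat_lit 215) (nat_lit 217)) (PT.lf (nat_lit 1672) (nat_lit 6) (nat_lit 22) (nat_lit 5) (nat_lit 169) (nat_lit 215) (nat_lit 216)))) (PT.nd (nat_lit 156) (PT.nd (nat_lit 78) (PT.lf (nat_lit 1824) (nat_lit 3) (nat_lit 24) (nat_lit 4) (nat_lit 170) (nat_lit 215) (nat_lit 215)) (PT.lf (nat_lit 1900) (nat_lit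 6) (nat_lit 25) (nat_lit 4) (nat_lit 171) (nat_lit 215) (nat_lit 214))) (PT.nd (nat_lit 3198) (PT.lf (nat_lit 1976) (nat_lit 6) (nat_lit 26) (nat_lit 4) (nat_lit 172) (nat_lit 215) (nat_lit 213)) (PT.lf (nat_lit 1976) (nat_lit 6) (nat_lit 26) (nat_lit 2) (nat_lit 213) (nat_lit 215) (nat_lit 172))))) (PT.nd (nat_lit 58734) (PT.nd (nat_lit 156) (PT.nd (nat_lit 78) (PT.lf (nat_lit 1900) (nat_lit 6) (nat_lit 25) (nat_lit 2) (nat_lit 214) (nat_lit 215) (nat_lit 171)) (PT.lf (nat_lit 1824) (nat_lit 3) (nat_lit 24) (nat_lit 0) (nat_lit 215) (nat_lit 215) (nat_lit 170))) (PT.nd (nat_lit 78) (PT.lf (nat_lit 1672) (nat_lit 6) (nat_lit 22) (nat_lit 0) (nat_lit 216) (nat_lit 215) (nat_lit 169)) (PT.lf (nat_lit 1520) (nat_lit 6) (nat_lit 20) (nat_lit 0) (nat_lit 217) (nat_lit 215) (nat_lit 168)))) (PT.nd (nat_lit 156) (PT.nd (nat_lit 78) (PT.lf (nat_lit 1292) (nat_lit 6) (nat_lit 17) (nat_lit 5) (nat_lit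 166) (nat_lit 216) (nat_lit 218)) (PT.lf (nat_lit 1444) (nat_lit 6) (nat_lit 19) (nat_lit 5) (nat_lit 167) (nat_lit 216) (nat_lit 217))) (PT.nd (nat_lit 78) (PT.lf (nat_lit 1596) (nat_lit 3) (nat_lit 21) (nat_lit 4) (nat_lit 168) (nat_lit 216) (nat_lit 216)) (PT.nd (nat_lit 78) (PT.lf (nat_lit 1672) (nat_lit 6) (nat_lit 22) (nat_lit 4) (nat_lit 169) (nat_lit 216) (nat_lit 215)) (PT.lf (nat_lit 1748) (nat_lit 6) (nat_lit 23) (nat_lit 4) (nat_lit 170) (nat_lit 216) (nat_lit 214))))))))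
noncomputable def pc14 : PT := (PT.nd (nat_lit 120978) (PT.nd (nat_lit 58812) (PT.nd (nat_lit 312) (PT.nd (nat_lit 156) (PT.nd (nat_lit 78) (PT.lf (nat_lit 1748) (nat_lit 6) (nat_lit 23) (nat_lit 2) (nat_lit 214) (nat_lit 216) (nat_lit 170)) (PT.lf (nat_lit 1672) (nat_lit 6) (nat_lit 22) (nat_lit 2) (nat_lit 215) (nat_lit 216) (nat_lit 169))) (PT.nd (nat_lit 78) (PT.lf (nat_lit 1596) (nat_lit 3) (nat_lit 21) (nat_lit 0) (nat_lit 216) (nat_lit 216) (nat_lit 168)) (PT.lf (nat_lit 1444) (nat_lit 6) (nat_lit 19) (nat_lit 0) (nat_lit 217) (nat_lit 216) (nat_lit 167)))) (PT.nd (nat_lit 58344) (PT.nd (nat_lit 58266) (PT.lf (nat_lit 1292) (nat_lit 6) (nat_lit 17) (nat_lit 0) (nat_lit 218) (nat_lit 216) (nat_lit 166)) (PT.lf (nat_lit 1064) (nat_lit 6) (nat_lit 14) (nat_lit 5) (nat_lit 164) (nat_lit 217) (nat_lit 219))) (PT.nd (nat_lit 78) (PT.lf (nat_lit 1216) (nat_lit 6) (nat_lit 16) (nat_lit 5)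 (nat_lit 165) (nat_lit 217) (nat_lit 218)) (PT.lf (nat_lit 1368) (nat_lit 3) (nat_lit 18) (nat_lit 4) (nat_lit 166) (nat_lit 217) (nat_lit 217))))) (PT.nd (nat_lit 3900) (PT.nd (nat_lit 3744) (PT.nd (nat_lit 78) (PT.lf (nat_lit 1444) (nat_lit 6) (nat_lit 19) (nat_lit 4) (nat_lit 167) (nat_lit 217) (nat_lit 216)) (PT.lf (nat_lit 1520) (nat_lit 6) (nat_lit 20) (nat_lit 4) (nat_lit 168) (nat_lit 217) (nat_lit 215))) (PT.nd (nat_lit 78) (PT.lf (nat_lit 1520) (nat_lit 6) (nat_lit 20) (nat_lit 2) (nat_lit 215) (nat_lit 217) (nat_lit 168)) (PT.lf (nat_lit 1444) (nat_lit 6) (nat_lit 19) (nat_lit 2) (nat_lit 216) (nat_lit 217) (nat_lit 167)))) (PT.nd (nat_lit 156) (PT.nd (nat_lit 78) (PT.lf (nat_lit 1368) (nat_lit 3) (nat_lit 18) (nat_lit 0) (nat_lit 217) (nat_lit 217) (nat_lit 166)) (PT.lf (nat_lit 1216) (nat_lit 6) (nat_lit 16) (nat_lit 0) (nat_lit 218) (nat_lit 217) (nat_lit 165))) (PT.nd (nat_lit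 58032) (PT.lf (nat_lit 1064) (nat_lit 6) (nat_lit 14) (nat_lit 0) (nat_lit 219) (nat_lit 217) (nat_lit 164)) (PT.lf (nat_lit 836) (nat_lit 6) (nat_lit 11) (nat_lit 5) (nat_lit 162) (nat_lit 218) (nat_lit 220)))))) (PT.nd (nat_lit 4446) (PT.nd (nat_lit 4134) (PT.nd (nat_lit 156) (PT.nd (nat_lit 78) (PT.lf (nat_lit 988) (nat_lit 6) (nat_lit 13) (nat_lit 5) (nat_lit 163) (nat_lit 218) (nat_lit 219)) (PT.lf (nat_lit 1140) (nat_lit 3) (nat_lit 15) (nat_lit 4) (nat_lit 164) (nat_lit 218) (nat_lit 218))) (PT.nd (nat_lit 78) (PT.lf (nat_lit 1216) (nat_lit 6) (nat_lit 16) (nat_lit 4) (nat_lit 165) (nat_lit 218) (nat_lit 217)) (PT.lf (nat_lit 1292) (nat_lit 6) (nat_lit 17) (nat_lit 4) (nat_lit 166) (nat_lit 218) (nat_lit 216)))) (PT.nd (nat_lit 156) (PT.nd (nat_lit 78) (PT.lf (nat_lit 1292) (nat_lit 6) (nat_lit 17) (nat_lit 2) (nat_lit 216) (nat_lit 218) (nat_lit 166)) (PT.lf (nat_lit 1216) (nat_lit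 6) (nat_lit 16) (nat_lit 2) (nat_lit 217) (nat_lit 218) (nat_lit 165))) (PT.nd (nat_lit 78) (PT.lf (nat_lit 1140) (nat_lit 3) (nat_lit 15) (nat_lit 0) (nat_lit 218) (nat_lit 218) (nat_lit 164)) (PT.lf (nat_lit 988) (nat_lit 6) (nat_lit 13) (nat_lit 0) (nat_lit 219) (nat_lit 218) (nat_lit 163))))) (PT.nd (nat_lit 58032) (PT.nd (nat_lit 57876) (PT.nd (nat_lit 57798) (PT.lf (nat_lit 836) (nat_lit 6) (nat_lit 11) (nat_lit 0) (nat_lit 220) (nat_lit 218) (nat_lit 162)) (PT.lf (nat_lit 608) (nat_lit 6) (nat_lit 8) (nat_lit 5) (nat_lit 160) (nat_lit 219) (nat_lit 221))) (PT.nd (nat_lit 78) (PT.lf (nat_lit 760) (nat_lit 6) (nat_lit 10) (nat_lit 5) (nat_lit 161) (nat_lit 219) (nat_lit 220)) (PT.lf (nat_lit 912) (nat_lit 3) (nat_lit 12) (nat_lit 4) (nat_lit 162) (nat_lit 219) (nat_lit 219)))) (PT.nd (nat_lit 4212) (PT.nd (nat_lit 78) (PT.lf (nat_lit 988) (nat_lit 6) (nat_lit 13) (nat_lit 4) (nat_lit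 163) (nat_lit 219) (nat_lit 218)) (PT.lf (nat_lit 1064) (nat_lit 6) (nat_lit 14) (nat_lit 4) (nat_lit 164) (nat_lit 219) (nat_lit 217))) (PT.nd (nat_lit 78) (PT.lf (nat_lit 1064) (nat_lit 6) (nat_lit 14) (nat_lit 2) (nat_lit 217) (nat_lit 219) (nat_lit 164)) (PT.nd (nat_lit 78) (PT.lf (nat_lit 988) (nat_lit 6) (nat_lit 13) (nat_lit 2) (nat_lit 218) (nat_lit 219) (nat_lit 163)) (PT.lf (nat_lit 912) (nat_lit 3) (nat_lit 12) (nat_lit 0) (nat_lit 219) (nat_lit 219) (nat_lit 162))))))))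
noncomputable def pc15 : PT := (PT.nd (nat_lit 124878) (PT.nd (nat_lit 62400) (PT.nd (nat_lit 57798) (PT.nd (nat_lit 57642) (PT.nd (nat_lit 78) (PT.lf (nat_lit 760) (nat_lit 6) (nat_lit 10) (nat_lit 0) (nat_lit 220) (nat_lit 219) (nat_lit 161)) (PT.lf (nat_lit 608) (nat_lit 6) (nat_lit 8) (nat_lit 0) (nat_lit 221) (nat_lit 219) (nat_lit 160))) (PT.nd (nat_lit 78) (PT.lf (nat_lit 380) (nat_lit 6) (nat_lit 5) (nat_lit 5) (nat_lit 158) (nat_lit 220) (nat_lit 222)) (PT.lf (nat_lit 532) (nat_lit 6) (nat_lit 7) (nat_lit 5) (nat_lit 159) (nat_lit 220) (nat_lit 221)))) (PT.nd (nat_lit 156) (PT.nd (nat_lit 78) (PT.lf (nat_lit 684) (nat_lit 3) (nat_lit 9) (nat_lit 4) (nat_lit 160) (nat_lit 220) (nat_lit 220)) (PT.lf (nat_lit 760) (nat_lit 6) (nat_lit 10) (nat_lit 4) (nat_lit 161) (nat_lit 220) (nat_lit 219))) (PT.nd (nat_lit 4368) (PT.lf (nat_lit 836) (nat_lit 6) (nat_lit 11) (nat_lit 4) (nat_lit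 162) (nat_lit 220) (nat_lit 218)) (PT.lf (nat_lit 836) (nat_lit 6) (nat_lit 11) (nat_lit 2) (nat_lit 218) (nat_lit 220) (nat_lit 162))))) (PT.nd (nat_lit 57564) (PT.nd (nat_lit 156) (PT.nd (nat_lit 78) (PT.lf (nat_lit 760) (nat_lit 6) (nat_lit 10) (nat_lit 2) (nat_lit 219) (nat_lit 220) (nat_lit 161)) (PT.lf (nat_lit 684) (nat_lit 3) (nat_lit 9) (nat_lit 0) (nat_lit 220) (nat_lit 220) (nat_lit 160))) (PT.nd (nat_lit 78) (PT.lf (nat_lit 532) (nat_lit 6) (nat_lit 7) (nat_lit 0) (nat_lit 221) (nat_lit 220) (nat_lit 159)) (PT.lf (nat_lit 380) (nat_lit 6) (nat_lit 5) (nat_lit 0) (nat_lit 222) (nat_lit 220) (nat_lit 158)))) (PT.nd (nat_lit 156) (PT.nd (nat_lit 78) (PT.lf (nat_lit 152) (nat_lit 6) (nat_lit 2) (nat_lit 5) (nat_lit 156) (nat_lit 221) (nat_lit 223)) (PT.lf (nat_lit 304) (nat_lit 6) (nat_lit 4) (nat_lit 5) (nat_lit 157) (nat_lit 221) (nat_lit 222))) (PT.nd (nat_lit 78) (PT.lf (nat_lit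 456) (nat_lit 3) (nat_lit 6) (nat_lit 4) (nat_lit 158) (nat_lit 221) (nat_lit 221)) (PT.nd (nat_lit 78) (PT.lf (nat_lit 532) (nat_lit 6) (nat_lit 7) (nat_lit 4) (nat_lit 159) (nat_lit 221) (nat_lit 220)) (PT.lf (nat_lit 608) (nat_lit 6) (nat_lit 8) (nat_lit 4) (nat_lit 160) (nat_lit 221) (nat_lit 219))))))) (PT.nd (nat_lit 57720) (PT.nd (nat_lit 312) (PT.nd (nat_lit 156) (PT.nd (nat_lit 78) (PT.lf (nat_lit 608) (nat_lit 6) (nat_lit 8) (nat_lit 2) (nat_lit 219) (nat_lit 221) (nat_lit 160)) (PT.lf (nat_lit 532) (nat_lit 6) (nat_lit 7) (nat_lit 2) (nat_lit 220) (nat_lit 221) (nat_lit 159))) (PT.nd (nat_lit 78) (PT.lf (nat_lit 456) (nat_lit 3) (nat_lit 6) (nat_lit 0) (nat_lit 221) (nat_lit 221) (nat_lit 158)) (PT.lf (nat_lit 304) (nat_lit 6) (nat_lit 4) (nat_lit 0) (nat_lit 222) (nat_lit 221) (nat_lit 157)))) (PT.nd (nat_lit 57252) (PT.nd (nat_lit 57174) (PT.lf (nat_lit 152) (nat_lit 6) (nat_lit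 2) (nat_lit 0) (nat_lit 223) (nat_lit 221) (nat_lit 156)) (PT.lf (nat_lit 76) (nat_lit 6) (nat_lit 1) (nat_lit 5) (nat_lit 155) (nat_lit 222) (nat_lit 223))) (PT.nd (nat_lit 78) (PT.lf (nat_lit 228) (nat_lit 3) (nat_lit 3) (nat_lit 4) (nat_lit 156) (nat_lit 222) (nat_lit 222)) (PT.lf (nat_lit 304) (nat_lit 6) (nat_lit 4) (nat_lit 4) (nat_lit 157) (nat_lit 222) (nat_lit 221))))) (PT.nd (nat_lit 5070) (PT.nd (nat_lit 4914) (PT.nd (nat_lit 4836) (PT.lf (nat_lit 380) (nat_lit 6) (nat_lit 5) (nat_lit 4) (nat_lit 158) (nat_lit 222) (nat_lit 220)) (PT.lf (nat_lit 380) (nat_lit 6) (nat_lit 5) (nat_lit 2) (nat_lit 220) (nat_lit 222) (nat_lit 158))) (PT.nd (nat_lit 78) (PT.lf (nat_lit 304) (nat_lit 6) (nat_lit 4) (nat_lit 2) (nat_lit 221) (nat_lit 222) (nat_lit 157)) (PT.lf (nat_lit 228) (nat_lit 3) (nat_lit 3) (nat_lit 0) (nat_lit 222) (nat_lit 222) (nat_lit 156)))) (PT.nd (nat_lit 57252) (PT.nd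 (nat_lit 57174) (PT.lf (nat_lit 76) (nat_lit 6) (nat_lit 1) (nat_lit 0) (nat_lit 223) (nat_lit 222) (nat_lit 155)) (PT.lf (nat_lit 76) (nat_lit 6) (nat_lit 1) (nat_lit 4) (nat_lit 155) (nat_lit 223) (nat_lit 222))) (PT.nd (nat_lit 5070) (PT.lf (nat_lit 152) (nat_lit 6) (nat_lit 2) (nat_lit 4) (nat_lit 156) (nat_lit 223) (nat_lit 221)) (PT.nd (nat_lit 78) (PT.lf (nat_lit 152) (nat_lit 6) (nat_lit 2) (nat_lit 2) (nat_lit 221) (nat_lit 223) (nat_lit 156)) (PT.lf (nat_lit 76) (nat_lit 6) (nat_lit 1) (nat_lit 2) (nat_lit 222) (nat_lit 223) (nat_lit 155))))))))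
noncomputable def xc0 : XT := (XT.nd (nat_lit 249834) (nat_lit 0) (nat_lit 0) (XT.nd (nat_lit 187122) (nat_lit 0) (nat_lit 0) (XT.nd (nat_lit 124722) (nat_lit 0) (nat_lit 0) (XT.nd (nat_lit 62400) (nat_lit 0) (nat_lit 0) (XT.nd (nat_lit 62322) (nat_lit 0) (nat_lit 0) (XT.lf (nat_lit 0) (nat_lit 1100659389353) (nat_lit 152) (nat_lit 5336675797102) (nat_lit 0) (nat_lit 1100659389353) (nat_lit 1) (nat_lit 5) (nat_lit 3) (nat_lit 4) (nat_lit 1) (nat_lit 4) (nat_lit 532) (nat_lit 334) (nat_lit 334)) (XT.lf (nat_lit 0) (nat_lit 943063298140) (nat_lit 152) (nat_lit 4576535170490) (nat_lit 0) (nat_lit 943063298140) (nat_lit 1) (nat_lit 5) (nat_lit 3) (nat_lit 4) (nat_lit 1) (nat_lit 4) (nat_lit 530) (nat_lit 335) (nat_lit 335))) (XT.nd (nat_lit 78) (nat_lit 0) (nat_lit 0) (XT.lf (nat_lit 0) (nat_lit 2037671068553) (nat_lit 152) (nat_lit 9883958264527) (nat_lit 0) (nat_lit 2037667414252) (nat_lit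 1) (nat_lit 5) (nat_lit 3) (nat_lit 4) (nat_lit 1) (nat_lit 4) (nat_lit 531) (nat_lit 335) (nat_lit 334)) (XT.nd (nat_lit 62166) (nat_lit 0) (nat_lit 0) (XT.lf (nat_lit 0) (nat_lit 2201307001896) (nat_lit 152) (nat_lit 10673383420359) (nat_lit 0) (nat_lit 2201299963984) (nat_lit 1) (nat_lit 5) (nat_lit 3) (nat_lit 4) (nat_lit 1) (nat_lit 4) (nat_lit 532) (nat_lit 335) (nat_lit 333)) (XT.lf (nat_lit 0) (nat_lit 807904073272) (nat_lit 152) (nat_lit 3924932769468) (nat_lit 0) (nat_lit 807904073272) (nat_lit 1) (nat_lit 5) (nat_lit 3) (nat_lit 4) (nat_lit 1) (nat_lit 4) (nat_lit 528) (nat_lit 336) (nat_lit 336))))) (XT.nd (nat_lit 234) (nat_lit 0) (nat_lit 0) (XT.nd (nat_lit 78) (nat_lit 0) (nat_lit 0) (XT.lf (nat_lit 0) (nat_lit 1745779490404) (nat_lit 152) (nat_lit 8476388462022) (nat_lit 0) (nat_lit 1745775543759) (nat_lit 1) (nat_lit 5) (nat_lit 3) (nat_lit 4) (nat_lit 1) (nat_lit 4) (nat_lit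 529) (nat_lit 336) (nat_lit 335)) (XT.nd (nat_lit 78) (nat_lit 0) (nat_lit 0) (XT.lf (nat_lit 0) (nat_lit 1886113877324) (nat_lit 152) (nat_lit 9153104713226) (nat_lit 0) (nat_lit 1886106276379) (nat_lit 1) (nat_lit 5) (nat_lit 3) (nat_lit 4) (nat_lit 1) (nat_lit 4) (nat_lit 530) (nat_lit 336) (nat_lit 334)) (XT.lf (nat_lit 0) (nat_lit 2037642918486) (nat_lit 152) (nat_lit 9884024462928) (nat_lit 0) (nat_lit 2037631933929) (nat_lit 1) (nat_lit 5) (nat_lit 3) (nat_lit 4) (nat_lit 1) (nat_lit 4) (nat_lit 531) (nat_lit 336) (nat_lit 333)))) (XT.nd (nat_lit 62010) (nat_lit 0) (nat_lit 0) (XT.lf (nat_lit 0) (nat_lit 2201264563763) (nat_lit 152) (nat_lit 10673479087420) (nat_lit 0) (nat_lit 2201250446232) (nat_lit 1) (nat_lit 5) (nat_lit 3) (nat_lit 4) (nat_lit 1) (nat_lit 4) (nat_lit 532) (nat_lit 336) (nat_lit 332)) (XT.nd (nat_lit 78) (nat_lit 0) (nat_lit 0) (XT.lf (nat_lit 0) (nat_lit 691977166693)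 (nat_lit 152) (nat_lit 3366392056097) (nat_lit 0) (nat_lit 691977166693) (nat_lit 1) (nat_lit 5) (nat_lit 3) (nat_lit 4) (nat_lit 1) (nat_lit 4) (nat_lit 526) (nat_lit 337) (nat_lit 337)) (XT.lf (nat_lit 0) (nat_lit 1495433907564) (nat_lit 152) (nat_lit 7269823215538) (nat_lit 0) (nat_lit 1495429645188) (nat_lit 1) (nat_lit 5) (nat_lit 3) (nat_lit 4) (nat_lit 1) (nat_lit 4) (nat_lit 527) (nat_lit 337) (nat_lit 336)))))) (XT.nd (nat_lit 62244) (nat_lit 0) (nat_lit 0) (XT.nd (nat_lit 234) (nat_lit 0) (nat_lit 0) (XT.nd (nat_lit 78) (nat_lit 0) (nat_lit 0) (XT.lf (nat_lit 0) (nat_lit 1615794410072) (nat_lit 152) (nat_lit 7849902660963) (nat_lit 0) (nat_lit 1615786201051) (nat_lit 1) (nat_lit 5) (nat_lit 3) (nat_lit 4) (nat_lit 1) (nat_lit 4) (nat_lit 528) (nat_lit 337) (nat_lit 335)) (XT.nd (nat_lit 78) (nat_lit 0) (nat_lit 0) (XT.lf (nat_lit 0) (nat_lit 1745749088332) (nat_lit 152) (nat_lit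 8476459956294) (nat_lit 0) (nat_lit 1745737225010) (nat_lit 1) (nat_lit 5) (nat_lit 3) (nat_lit 4) (nat_lit 1) (nat_lit 4) (nat_lit 529) (nat_lit 337) (nat_lit 334)) (XT.lf (nat_lit 0) (nat_lit 1886068044141) (nat_lit 152) (nat_lit 9153208033653) (nat_lit 0) (nat_lit 1886052797207) (nat_lit 1) (nat_lit 5) (nat_lit 3) (nat_lit 4) (nat_lit 1) (nat_lit 4) (nat_lit 530) (nat_lit 337) (nat_lit 333)))) (XT.nd (nat_lit 78) (nat_lit 0) (nat_lit 0) (XT.lf (nat_lit 0) (nat_lit 2037582797236) (nat_lit 152) (nat_lit 9884157252015) (nat_lit 0) (nat_lit 2037564417328) (nat_lit 1) (nat_lit 5) (nat_lit 3) (nat_lit 4) (nat_lit 1) (nat_lit 4) (nat_lit 531) (nat_lit 337) (nat_lit 332)) (XT.nd (nat_lit 61854) (nat_lit 0) (nat_lit 0) (XT.lf (nat_lit 0) (nat_lit 2201191212822) (nat_lit 152) (nat_lit 10673639162305) (nat_lit 0) (nat_lit 2201169932013) (nat_lit 1) (nat_lit 5) (nat_lit 3) (nat_lit 4) (nat_lit 1)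 (nat_lit 4) (nat_lit 532) (nat_lit 337) (nat_lit 331)) (XT.lf (nat_lit 0) (nat_lit 592534900693) (nat_lit 152) (nat_lit 2887645005865) (nat_lit 0) (nat_lit 592534900693) (nat_lit 1) (nat_lit 5) (nat_lit 3) (nat_lit 4) (nat_lit 1) (nat_lit 4) (nat_lit 524) (nat_lit 338) (nat_lit 338))))) (XT.nd (nat_lit 234) (nat_lit 0) (nat_lit 0) (XT.nd (nat_lit 78) (nat_lit 0) (nat_lit 0) (XT.lf (nat_lit 0) (nat_lit 1280699671205) (nat_lit 152) (nat_lit 6235602896987) (nat_lit 0) (nat_lit 1280695067838) (nat_lit 1) (nat_lit 5) (nat_lit 3) (nat_lit 4) (nat_lit 1) (nat_lit 4) (nat_lit 525) (nat_lit 338) (nat_lit 337)) (XT.nd (nat_lit 78) (nat_lit 0) (nat_lit 0) (XT.lf (nat_lit 0) (nat_lit 1383939497996) (nat_lit 152) (nat_lit 6732824203983) (nat_lit 0) (nat_lit 1383930632253) (nat_lit 1) (nat_lit 5) (nat_lit 3) (nat_lit 4) (nat_lit 1) (nat_lit 4) (nat_lit 526) (nat_lit 338) (nat_lit 336)) (XT.lf (nat_lit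 0) (nat_lit 1495401073326) (nat_lit 152) (nat_lit 7269900429352) (nat_lit 0) (nat_lit 1495388260938) (nat_lit 1) (nat_lit 5) (nat_lit 3) (nat_lit 4) (nat_lit 1) (nat_lit 4) (nat_lit 527) (nat_lit 338) (nat_lit 335)))) (XT.nd (nat_lit 78) (nat_lit 0) (nat_lit 0) (XT.lf (nat_lit 0) (nat_lit 1615744910234) (nat_lit 152) (nat_lit 7850014247024) (nat_lit 0) (nat_lit 1615728443545) (nat_lit 1) (nat_lit 5) (nat_lit 3) (nat_lit 4) (nat_lit 1) (nat_lit 4) (nat_lit 528) (nat_lit 338) (nat_lit 334)) (XT.nd (nat_lit 78) (nat_lit 0) (nat_lit 0) (XT.lf (nat_lit 0) (nat_lit 1745684157382) (nat_lit 152) (nat_lit 8476603368509) (nat_lit 0) (nat_lit 1745664307081) (nat_lit 1) (nat_lit 5) (nat_lit 3) (nat_lit 4) (nat_lit 1) (nat_lit 4) (nat_lit 529) (nat_lit 338) (nat_lit 333)) (XT.lf (nat_lit 0) (nat_lit 1885988825124) (nat_lit 152) (nat_lit 9153380914529) (nat_lit 0) (nat_lit 1885965841850) (nat_lit 1)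 (nat_lit 5) (nat_lit 3) (nat_lit 4) (nat_lit 1) (nat_lit 4) (nat_lit 530) (nat_lit 338) (nat_lit 332))))))) (XT.nd (nat_lit 62478) (nat_lit 0) (nat_lit 0) (XT.nd (nat_lit 62010) (nat_lit 0) (nat_lit 0) (XT.nd (nat_lit 61776) (nat_lit 0) (nat_lit 0) (XT.nd (nat_lit 78) (nat_lit 0) (nat_lit 0) (XT.lf (nat_lit 0) (nat_lit 2037490348529) (nat_lit 152) (nat_lit 9884357418688) (nat_lit 0) (nat_lit 2037464464353) (nat_lit 1) (nat_lit 5) (nat_lit 3) (nat_lit 4) (nat_lit 1) (nat_lit 4) (nat_lit 531) (nat_lit 338) (nat_lit 331)) (XT.lf (nat_lit 0) (nat_lit 2201086514401) (nat_lit 152) (nat_lit 10673864593605) (nat_lit 0) (nat_lit 2201057944205) (nat_lit 1) (nat_lit 5) (nat_lit 3) (nat_lit 4) (nat_lit 1) (nat_lit 4) (nat_lit 532) (nat_lit 338) (nat_lit 330))) (XT.nd (nat_lit 78) (nat_lit 0) (nat_lit 0) (XT.lf (nat_lit 0) (nat_lit 507221266706) (nat_lit 152) (nat_lit 2477317087542) (nat_lit 0) (nat_lit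 507221266706) (nat_lit 1) (nat_lit 5) (nat_lit 3) (nat_lit 4) (nat_lit 1) (nat_lit 4) (nat_lit 522) (nat_lit 339) (nat_lit 339)) (XT.nd (nat_lit 78) (nat_lit 0) (nat_lit 0) (XT.lf (nat_lit 0) (nat_lit 1096488164651) (nat_lit 152) (nat_lit 5349157768155) (nat_lit 0) (nat_lit 1096483193015) (nat_lit 1) (nat_lit 5) (nat_lit 3) (nat_lit 4) (nat_lit 1) (nat_lit 4) (nat_lit 523) (nat_lit 339) (nat_lit 338)) (XT.lf (nat_lit 0) (nat_lit 1185053779165) (nat_lit 152) (nat_lit 5775333310863) (nat_lit 0) (nat_lit 1185044204163) (nat_lit 1) (nat_lit 5) (nat_lit 3) (nat_lit 4) (nat_lit 1) (nat_lit 4) (nat_lit 524) (nat_lit 339) (nat_lit 337))))) (XT.nd (nat_lit 234) (nat_lit 0) (nat_lit 0) (XT.nd (nat_lit 78) (nat_lit 0) (nat_lit 0) (XT.lf (nat_lit 0) (nat_lit 1280664210228) (nat_lit 152) (nat_lit 6235686287906) (nat_lit 0) (nat_lit 1280650372849) (nat_lit 1) (nat_lit 5) (nat_lit 3) (nat_lit 4) (nat_lit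 1) (nat_lit 4) (nat_lit 525) (nat_lit 339) (nat_lit 336)) (XT.nd (nat_lit 78) (nat_lit 0) (nat_lit 0) (XT.lf (nat_lit 0) (nat_lit 1383886038171) (nat_lit 152) (nat_lit 6732944716928) (nat_lit 0) (nat_lit 1383868254147) (nat_lit 1) (nat_lit 5) (nat_lit 3) (nat_lit 4) (nat_lit 1) (nat_lit 4) (nat_lit 526) (nat_lit 339) (nat_lit 335)) (XT.lf (nat_lit 0) (nat_lit 1495330947900) (nat_lit 152) (nat_lit 7270055314544) (nat_lit 0) (nat_lit 1495309509576) (nat_lit 1) (nat_lit 5) (nat_lit 3) (nat_lit 4) (nat_lit 1) (nat_lit 4) (nat_lit 527) (nat_lit 339) (nat_lit 334)))) (XT.nd (nat_lit 78) (nat_lit 0) (nat_lit 0) (XT.lf (nat_lit 0) (nat_lit 1615659353696) (nat_lit 152) (nat_lit 7850200958369) (nat_lit 0) (nat_lit 1615634531760) (nat_lit 1) (nat_lit 5) (nat_lit 3) (nat_lit 4) (nat_lit 1) (nat_lit 4) (nat_lit 528) (nat_lit 339) (nat_lit 333)) (XT.nd (nat_lit 78) (nat_lit 0) (nat_lit 0) (XT.lf (nat_lit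 0) (nat_lit 1745584312778) (nat_lit 152) (nat_lit 8476819548516) (nat_lit 0) (nat_lit 1745556357868) (nat_lit 1) (nat_lit 5) (nat_lit 3) (nat_lit 4) (nat_lit 1) (nat_lit 4) (nat_lit 529) (nat_lit 339) (nat_lit 332)) (XT.lf (nat_lit 0) (nat_lit 1885875750830) (nat_lit 152) (nat_lit 9153624380333) (nat_lit 0) (nat_lit 1885844895017) (nat_lit 1) (nat_lit 5) (nat_lit 3) (nat_lit 4) (nat_lit 1) (nat_lit 4) (nat_lit 530) (nat_lit 339) (nat_lit 331)))))) (XT.nd (nat_lit 61932) (nat_lit 0) (nat_lit 0) (XT.nd (nat_lit 61698) (nat_lit 0) (nat_lit 0) (XT.nd (nat_lit 78) (nat_lit 0) (nat_lit 0) (XT.lf (nat_lit 0) (nat_lit 2037365024521) (nat_lit 152) (nat_lit 9884626149120) (nat_lit 0) (nat_lit 2037331482688) (nat_lit 1) (nat_lit 5) (nat_lit 3) (nat_lit 4) (nat_lit 1) (nat_lit 4) (nat_lit 531) (nat_lit 339) (nat_lit 330)) (XT.nd (nat_lit 61542) (nat_lit 0) (nat_lit 0) (XT.lf (nat_lit 0) (nat_lit 2200949848065)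 (nat_lit 152) (nat_lit 10674156717210) (nat_lit 0) (nat_lit 2200913819177) (nat_lit 1) (nat_lit 5) (nat_lit 3) (nat_lit 4) (nat_lit 1) (nat_lit 4) (nat_lit 532) (nat_lit 339) (nat_lit 329)) (XT.lf (nat_lit 0) (nat_lit 434016023905) (nat_lit 152) (nat_lit 2125657188091) (nat_lit 0) (nat_lit 434016023905) (nat_lit 1) (nat_lit 5) (nat_lit 3) (nat_lit 4) (nat_lit 1) (nat_lit 4) (nat_lit 520) (nat_lit 340) (nat_lit 340)))) (XT.nd (nat_lit 78) (nat_lit 0) (nat_lit 0) (XT.lf (nat_lit 0) (nat_lit 938436058485) (nat_lit 152) (nat_lit 4589424614066) (nat_lit 0) (nat_lit 938430689119) (nat_lit 1) (nat_lit 5) (nat_lit 3) (nat_lit 4) (nat_lit 1) (nat_lit 4) (nat_lit 521) (nat_lit 340) (nat_lit 339)) (XT.nd (nat_lit 78) (nat_lit 0) (nat_lit 0) (XT.lf (nat_lit 0) (nat_lit 1014425229414) (nat_lit 152) (nat_lit 4954680938147) (nat_lit 0) (nat_lit 1014414888411) (nat_lit 1) (nat_lit 5) (nat_lit 3) (nat_lit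 4) (nat_lit 1) (nat_lit 4) (nat_lit 522) (nat_lit 340) (nat_lit 338)) (XT.lf (nat_lit 0) (nat_lit 1096449866795) (nat_lit 152) (nat_lit 5349247830348) (nat_lit 0) (nat_lit 1096434922426) (nat_lit 1) (nat_lit 5) (nat_lit 3) (nat_lit 4) (nat_lit 1) (nat_lit 4) (nat_lit 523) (nat_lit 340) (nat_lit 337))))) (XT.nd (nat_lit 234) (nat_lit 0) (nat_lit 0) (XT.nd (nat_lit 78) (nat_lit 0) (nat_lit 0) (XT.lf (nat_lit 0) (nat_lit 1184996042553) (nat_lit 152) (nat_lit 5775463464844) (nat_lit 0) (nat_lit 1184976835808) (nat_lit 1) (nat_lit 5) (nat_lit 3) (nat_lit 4) (nat_lit 1) (nat_lit 4) (nat_lit 524) (nat_lit 340) (nat_lit 336)) (XT.nd (nat_lit 78) (nat_lit 0) (nat_lit 0) (XT.lf (nat_lit 0) (nat_lit 1280588474768) (nat_lit 152) (nat_lit 6235853563914) (nat_lit 0) (nat_lit 1280565321377) (nat_lit 1) (nat_lit 5) (nat_lit 3) (nat_lit 4) (nat_lit 1) (nat_lit 4) (nat_lit 525) (nat_lit 340) (nat_lit 335))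 (XT.lf (nat_lit 0) (nat_lit 1383793637110) (nat_lit 152) (nat_lit 6733146365182) (nat_lit 0) (nat_lit 1383766829419) (nat_lit 1) (nat_lit 5) (nat_lit 3) (nat_lit 4) (nat_lit 1) (nat_lit 4) (nat_lit 526) (nat_lit 340) (nat_lit 334)))) (XT.nd (nat_lit 78) (nat_lit 0) (nat_lit 0) (XT.lf (nat_lit 0) (nat_lit 1495223115728) (nat_lit 152) (nat_lit 7270288788951) (nat_lit 0) (nat_lit 1495192924425) (nat_lit 1) (nat_lit 5) (nat_lit 3) (nat_lit 4) (nat_lit 1) (nat_lit 4) (nat_lit 527) (nat_lit 340) (nat_lit 333)) (XT.nd (nat_lit 78) (nat_lit 0) (nat_lit 0) (XT.lf (nat_lit 0) (nat_lit 1615537233458) (nat_lit 152) (nat_lit 7850463901438) (nat_lit 0) (nat_lit 1615503909181) (nat_lit 1) (nat_lit 5) (nat_lit 3) (nat_lit 4) (nat_lit 1) (nat_lit 4) (nat_lit 528) (nat_lit 340) (nat_lit 332)) (XT.lf (nat_lit 0) (nat_lit 1745448962849) (nat_lit 152) (nat_lit 8477109777382) (nat_lit 0) (nat_lit 1745412737670)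 (nat_lit 1) (nat_lit 5) (nat_lit 3) (nat_lit 4) (nat_lit 1) (nat_lit 4) (nat_lit 529) (nat_lit 340) (nat_lit 331))))))))
noncomputable def xc1 : XT := (XT.nd (nat_lit 124254) (nat_lit 0) (nat_lit 0) (XT.nd (nat_lit 62166) (nat_lit 0) (nat_lit 0) (XT.nd (nat_lit 61698) (nat_lit 0) (nat_lit 0) (XT.nd (nat_lit 156) (nat_lit 0) (nat_lit 0) (XT.nd (nat_lit 78) (nat_lit 0) (nat_lit 0) (XT.lf (nat_lit 0) (nat_lit 1885728151187) (nat_lit 152) (nat_lit 9153939873826) (nat_lit 0) (nat_lit 1885689239988) (nat_lit 1) (nat_lit 5) (nat_lit 3) (nat_lit 4) (nat_lit 1) (nat_lit 4) (nat_lit 530) (nat_lit 340) (nat_lit 330)) (XT.lf (nat_lit 0) (nat_lit 2037206082550) (nat_lit 152) (nat_lit 9884965035786) (nat_lit 0) (nat_lit 2037164684295) (nat_lit 1) (nat_lit 5) (nat_lit 3) (nat_lit 4) (nat_lit 1) (nat_lit 4) (nat_lit 531) (nat_lit 340) (nat_lit 329))) (XT.nd (nat_lit 61386) (nat_lit 0) (nat_lit 0) (XT.lf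 (nat_lit 0) (nat_lit 2200780403940) (nat_lit 152) (nat_lit 10674517264222) (nat_lit 0) (nat_lit 2200736702855) (nat_lit 1) (nat_lit 5) (nat_lit 3) (nat_lit 4) (nat_lit 1) (nat_lit 4) (nat_lit 532) (nat_lit 340) (nat_lit 328)) (XT.nd (nat_lit 78) (nat_lit 0) (nat_lit 0) (XT.lf (nat_lit 0) (nat_lit 371186770720) (nat_lit 152) (nat_lit 1824306071048) (nat_lit 0) (nat_lit 371186770720) (nat_lit 1) (nat_lit 5) (nat_lit 3) (nat_lit 4) (nat_lit 1) (nat_lit 4) (nat_lit 518) (nat_lit 341) (nat_lit 341)) (XT.lf (nat_lit 0) (nat_lit 802801787354) (nat_lit 152) (nat_lit 3938346608276) (nat_lit 0) (nat_lit 802795988438) (nat_lit 1) (nat_lit 5) (nat_lit 3) (nat_lit 4) (nat_lit 1) (nat_lit 4) (nat_lit 519) (nat_lit 341) (nat_lit 340))))) (XT.nd (nat_lit 234) (nat_lit 0) (nat_lit 0) (XT.nd (nat_lit 78) (nat_lit 0) (nat_lit 0) (XT.lf (nat_lit 0) (nat_lit 868013359492) (nat_lit 152) (nat_lit 4251364880290)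 (nat_lit 0) (nat_lit 868002191209) (nat_lit 1) (nat_lit 5) (nat_lit 3) (nat_lit 4) (nat_lit 1) (nat_lit 4) (nat_lit 520) (nat_lit 341) (nat_lit 339)) (XT.nd (nat_lit 78) (nat_lit 0) (nat_lit 0) (XT.lf (nat_lit 0) (nat_lit 938394696802) (nat_lit 152) (nat_lit 4589521881234) (nat_lit 0) (nat_lit 938378556883) (nat_lit 1) (nat_lit 5) (nat_lit 3) (nat_lit 4) (nat_lit 1) (nat_lit 4) (nat_lit 521) (nat_lit 341) (nat_lit 338)) (XT.lf (nat_lit 0) (nat_lit 1014362873874) (nat_lit 152) (nat_lit 4954821504446) (nat_lit 0) (nat_lit 1014342130588) (nat_lit 1) (nat_lit 5) (nat_lit 3) (nat_lit 4) (nat_lit 1) (nat_lit 4) (nat_lit 522) (nat_lit 341) (nat_lit 337)))) (XT.nd (nat_lit 78) (nat_lit 0) (nat_lit 0) (XT.lf (nat_lit 0) (nat_lit 1096368072498) (nat_lit 152) (nat_lit 5349428488435) (nat_lit 0) (nat_lit 1096343066836) (nat_lit 1) (nat_lit 5) (nat_lit 3) (nat_lit 4) (nat_lit 1) (nat_lit 4) (nat_lit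 523) (nat_lit 341) (nat_lit 336)) (XT.nd (nat_lit 78) (nat_lit 0) (nat_lit 0) (XT.lf (nat_lit 0) (nat_lit 1184896249408) (nat_lit 152) (nat_lit 5775681244957) (nat_lit 0) (nat_lit 1184867297101) (nat_lit 1) (nat_lit 5) (nat_lit 3) (nat_lit 4) (nat_lit 1) (nat_lit 4) (nat_lit 524) (nat_lit 341) (nat_lit 335)) (XT.lf (nat_lit 0) (nat_lit 1280472016022) (nat_lit 152) (nat_lit 6236105716274) (nat_lit 0) (nat_lit 1280439409414) (nat_lit 1) (nat_lit 5) (nat_lit 3) (nat_lit 4) (nat_lit 1) (nat_lit 4) (nat_lit 525) (nat_lit 341) (nat_lit 334)))))) (XT.nd (nat_lit 468) (nat_lit 0) (nat_lit 0) (XT.nd (nat_lit 234) (nat_lit 0) (nat_lit 0) (XT.nd (nat_lit 78) (nat_lit 0) (nat_lit 0) (XT.lf (nat_lit 0) (nat_lit 1383661747253) (nat_lit 152) (nat_lit 6733430343696) (nat_lit 0) (nat_lit 1383625757033) (nat_lit 1) (nat_lit 5) (nat_lit 3) (nat_lit 4) (nat_lit 1) (nat_lit 4) (nat_lit 526) (nat_lit 341) (nat_lit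 333)) (XT.nd (nat_lit 78) (nat_lit 0) (nat_lit 0) (XT.lf (nat_lit 0) (nat_lit 1495076937805) (nat_lit 152) (nat_lit 7270602236127) (nat_lit 0) (nat_lit 1495037814611) (nat_lit 1) (nat_lit 5) (nat_lit 3) (nat_lit 4) (nat_lit 1) (nat_lit 4) (nat_lit 527) (nat_lit 341) (nat_lit 332)) (XT.lf (nat_lit 0) (nat_lit 1615377825844) (nat_lit 152) (nat_lit 7850804634411) (nat_lit 0) (nat_lit 1615335801748) (nat_lit 1) (nat_lit 5) (nat_lit 3) (nat_lit 4) (nat_lit 1) (nat_lit 4) (nat_lit 528) (nat_lit 341) (nat_lit 331)))) (XT.nd (nat_lit 78) (nat_lit 0) (nat_lit 0) (XT.lf (nat_lit 0) (nat_lit 1745277305521) (nat_lit 152) (nat_lit 8477475774982) (nat_lit 0) (nat_lit 1745232595406) (nat_lit 1) (nat_lit 5) (nat_lit 3) (nat_lit 4) (nat_lit 1) (nat_lit 4) (nat_lit 529) (nat_lit 341) (nat_lit 330)) (XT.nd (nat_lit 78) (nat_lit 0) (nat_lit 0) (XT.lf (nat_lit 0) (nat_lit 1885545151531) (nat_lit 152) (nat_lit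 9154329264600) (nat_lit 0) (nat_lit 1885497954360) (nat_lit 1) (nat_lit 5) (nat_lit 3) (nat_lit 4) (nat_lit 1) (nat_lit 4) (nat_lit 530) (nat_lit 341) (nat_lit 329)) (XT.lf (nat_lit 0) (nat_lit 2037012580739) (nat_lit 152) (nat_lit 9885376086905) (nat_lit 0) (nat_lit 2036963080739) (nat_lit 1) (nat_lit 5) (nat_lit 3) (nat_lit 4) (nat_lit 1) (nat_lit 4) (nat_lit 531) (nat_lit 341) (nat_lit 328))))) (XT.nd (nat_lit 61386) (nat_lit 0) (nat_lit 0) (XT.nd (nat_lit 61230) (nat_lit 0) (nat_lit 0) (XT.lf (nat_lit 0) (nat_lit 2200577177911) (nat_lit 152) (nat_lit 10674948371217) (nat_lit 0) (nat_lit 2200525545661) (nat_lit 1) (nat_lit 5) (nat_lit 3) (nat_lit 4) (nat_lit 1) (nat_lit 4) (nat_lit 532) (nat_lit 341) (nat_lit 327)) (XT.nd (nat_lit 78) (nat_lit 0) (nat_lit 0) (XT.lf (nat_lit 0) (nat_lit 317247851698) (nat_lit 152) (nat_lit 1566097871469) (nat_lit 0) (nat_lit 317247851698) (nat_lit 1)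 (nat_lit 5) (nat_lit 3) (nat_lit 4) (nat_lit 1) (nat_lit 4) (nat_lit 516) (nat_lit 342) (nat_lit 342)) (XT.lf (nat_lit 0) (nat_lit 686376791273) (nat_lit 152) (nat_lit 3380444536770) (nat_lit 0) (nat_lit 686370528444) (nat_lit 1) (nat_lit 5) (nat_lit 3) (nat_lit 4) (nat_lit 1) (nat_lit 4) (nat_lit 517) (nat_lit 342) (nat_lit 341)))) (XT.nd (nat_lit 78) (nat_lit 0) (nat_lit 0) (XT.lf (nat_lit 0) (nat_lit 742353358057) (nat_lit 152) (nat_lit 3648666686532) (nat_lit 0) (nat_lit 742341296311) (nat_lit 1) (nat_lit 5) (nat_lit 3) (nat_lit 4) (nat_lit 1) (nat_lit 4) (nat_lit 518) (nat_lit 342) (nat_lit 340)) (XT.nd (nat_lit 78) (nat_lit 0) (nat_lit 0) (XT.lf (nat_lit 0) (nat_lit 802757116735) (nat_lit 152) (nat_lit 3938451656817) (nat_lit 0) (nat_lit 802739685623) (nat_lit 1) (nat_lit 5) (nat_lit 3) (nat_lit 4) (nat_lit 1) (nat_lit 4) (nat_lit 519) (nat_lit 342) (nat_lit 339)) (XT.lf (nat_lit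 0) (nat_lit 867946015508) (nat_lit 152) (nat_lit 4251516691894) (nat_lit 0) (nat_lit 867923612760) (nat_lit 1) (nat_lit 5) (nat_lit 3) (nat_lit 4) (nat_lit 1) (nat_lit 4) (nat_lit 520) (nat_lit 342) (nat_lit 338))))))) (XT.nd (nat_lit 61932) (nat_lit 0) (nat_lit 0) (XT.nd (nat_lit 468) (nat_lit 0) (nat_lit 0) (XT.nd (nat_lit 234) (nat_lit 0) (nat_lit 0) (XT.nd (nat_lit 78) (nat_lit 0) (nat_lit 0) (XT.lf (nat_lit 0) (nat_lit 938306358961) (nat_lit 152) (nat_lit 4589716991969) (nat_lit 0) (nat_lit 938279352846) (nat_lit 1) (nat_lit 5) (nat_lit 3) (nat_lit 4) (nat_lit 1) (nat_lit 4) (nat_lit 521) (nat_lit 342) (nat_lit 337)) (XT.nd (nat_lit 78) (nat_lit 0) (nat_lit 0) (XT.lf (nat_lit 0) (nat_lit 1014255097277) (nat_lit 152) (nat_lit 4955056706969) (nat_lit 0) (nat_lit 1014223828785) (nat_lit 1) (nat_lit 5) (nat_lit 3) (nat_lit 4) (nat_lit 1) (nat_lit 4) (nat_lit 522) (nat_lit 342) (nat_lit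 336)) (XT.lf (nat_lit 0) (nat_lit 1096242297053) (nat_lit 152) (nat_lit 5349700812984) (nat_lit 0) (nat_lit 1096207081917) (nat_lit 1) (nat_lit 5) (nat_lit 3) (nat_lit 4) (nat_lit 1) (nat_lit 4) (nat_lit 523) (nat_lit 342) (nat_lit 335)))) (XT.nd (nat_lit 78) (nat_lit 0) (nat_lit 0) (XT.lf (nat_lit 0) (nat_lit 1184753808362) (nat_lit 152) (nat_lit 5775987941753) (nat_lit 0) (nat_lit 1184714938925) (nat_lit 1) (nat_lit 5) (nat_lit 3) (nat_lit 4) (nat_lit 1) (nat_lit 4) (nat_lit 524) (nat_lit 342) (nat_lit 334)) (XT.nd (nat_lit 78) (nat_lit 0) (nat_lit 0) (XT.lf (nat_lit 0) (nat_lit 1280314143865) (nat_lit 152) (nat_lit 6236444239223) (nat_lit 0) (nat_lit 1280271890816) (nat_lit 1) (nat_lit 5) (nat_lit 3) (nat_lit 4) (nat_lit 1) (nat_lit 4) (nat_lit 525) (nat_lit 342) (nat_lit 333)) (XT.lf (nat_lit 0) (nat_lit 1383489587030) (nat_lit 152) (nat_lit 6733798335306) (nat_lit 0) (nat_lit 1383444201007)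 (nat_lit 1) (nat_lit 5) (nat_lit 3) (nat_lit 4) (nat_lit 1) (nat_lit 4) (nat_lit 526) (nat_lit 342) (nat_lit 332))))) (XT.nd (nat_lit 234) (nat_lit 0) (nat_lit 0) (XT.nd (nat_lit 78) (nat_lit 0) (nat_lit 0) (XT.lf (nat_lit 0) (nat_lit 1494891547891) (nat_lit 152) (nat_lit 7270997513535) (nat_lit 0) (nat_lit 1494843260966) (nat_lit 1) (nat_lit 5) (nat_lit 3) (nat_lit 4) (nat_lit 1) (nat_lit 4) (nat_lit 527) (nat_lit 342) (nat_lit 331)) (XT.nd (nat_lit 78) (nat_lit 0) (nat_lit 0) (XT.lf (nat_lit 0) (nat_lit 1615180186216) (nat_lit 152) (nat_lit 7851225176446) (nat_lit 0) (nat_lit 1615129213271) (nat_lit 1) (nat_lit 5) (nat_lit 3) (nat_lit 4) (nat_lit 1) (nat_lit 4) (nat_lit 528) (nat_lit 342) (nat_lit 330)) (XT.lf (nat_lit 0) (nat_lit 1745068323565) (nat_lit 152) (nat_lit 8477919710190) (nat_lit 0) (nat_lit 1745014863565) (nat_lit 1) (nat_lit 5) (nat_lit 3) (nat_lit 4) (nat_lit 1) (nat_lit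 4) (nat_lit 529) (nat_lit 342) (nat_lit 329)))) (XT.nd (nat_lit 78) (nat_lit 0) (nat_lit 0) (XT.lf (nat_lit 0) (nat_lit 1885325667420) (nat_lit 152) (nat_lit 9154794860154) (nat_lit 0) (nat_lit 1885269904590) (nat_lit 1) (nat_lit 5) (nat_lit 3) (nat_lit 4) (nat_lit 1) (nat_lit 4) (nat_lit 530) (nat_lit 342) (nat_lit 328)) (XT.nd (nat_lit 78) (nat_lit 0) (nat_lit 0) (XT.lf (nat_lit 0) (nat_lit 2036783372411) (nat_lit 152) (nat_lit 9885861738335) (nat_lit 0) (nat_lit 2036725477331) (nat_lit 1) (nat_lit 5) (nat_lit 3) (nat_lit 4) (nat_lit 1) (nat_lit 4) (nat_lit 531) (nat_lit 342) (nat_lit 327)) (XT.lf (nat_lit 0) (nat_lit 2200338965677) (nat_lit 152) (nat_lit 10675452592902) (nat_lit 0) (nat_lit 2200279096293) (nat_lit 1) (nat_lit 5) (nat_lit 3) (nat_lit 4) (nat_lit 1) (nat_lit 4) (nat_lit 532) (nat_lit 342) (nat_lit 326)))))) (XT.nd (nat_lit 468) (nat_lit 0) (nat_lit 0) (XT.nd (nat_lit 234)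 (nat_lit 0) (nat_lit 0) (XT.nd (nat_lit 78) (nat_lit 0) (nat_lit 0) (XT.lf (nat_lit 0) (nat_lit 270925124381) (nat_lit 152) (nat_lit 1344889914782) (nat_lit 0) (nat_lit 270925124381) (nat_lit 1) (nat_lit 5) (nat_lit 3) (nat_lit 4) (nat_lit 1) (nat_lit 4) (nat_lit 514) (nat_lit 343) (nat_lit 343)) (XT.nd (nat_lit 78) (nat_lit 0) (nat_lit 0) (XT.lf (nat_lit 0) (nat_lit 586409414797) (nat_lit 152) (nat_lit 2902449201077) (nat_lit 0) (nat_lit 586402650941) (nat_lit 1) (nat_lit 5) (nat_lit 3) (nat_lit 4) (nat_lit 1) (nat_lit 4) (nat_lit 515) (nat_lit 343) (nat_lit 342)) (XT.lf (nat_lit 0) (nat_lit 634473905341) (nat_lit 152) (nat_lit 3132254650929) (nat_lit 0) (nat_lit 634460878656) (nat_lit 1) (nat_lit 5) (nat_lit 3) (nat_lit 4) (nat_lit 1) (nat_lit 4) (nat_lit 516) (nat_lit 343) (nat_lit 341)))) (XT.nd (nat_lit 78) (nat_lit 0) (nat_lit 0) (XT.lf (nat_lit 0) (nat_lit 686328547005) (nat_lit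 152) (nat_lit 3380557989195) (nat_lit 0) (nat_lit 686309721404) (nat_lit 1) (nat_lit 5) (nat_lit 3) (nat_lit 4) (nat_lit 1) (nat_lit 4) (nat_lit 517) (nat_lit 343) (nat_lit 340)) (XT.nd (nat_lit 78) (nat_lit 0) (nat_lit 0) (XT.lf (nat_lit 0) (nat_lit 742280626554) (nat_lit 152) (nat_lit 3648830643064) (nat_lit 0) (nat_lit 742256431586) (nat_lit 1) (nat_lit 5) (nat_lit 3) (nat_lit 4) (nat_lit 1) (nat_lit 4) (nat_lit 518) (nat_lit 343) (nat_lit 339)) (XT.lf (nat_lit 0) (nat_lit 802661711868) (nat_lit 152) (nat_lit 3938662376411) (nat_lit 0) (nat_lit 802632545263) (nat_lit 1) (nat_lit 5) (nat_lit 3) (nat_lit 4) (nat_lit 1) (nat_lit 4) (nat_lit 519) (nat_lit 343) (nat_lit 338))))) (XT.nd (nat_lit 234) (nat_lit 0) (nat_lit 0) (XT.nd (nat_lit 78) (nat_lit 0) (nat_lit 0) (XT.lf (nat_lit 0) (nat_lit 867829616784) (nat_lit 152) (nat_lit 4251770710618) (nat_lit 0) (nat_lit 867795846813) (nat_lit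 1) (nat_lit 5) (nat_lit 3) (nat_lit 4) (nat_lit 1) (nat_lit 4) (nat_lit 520) (nat_lit 343) (nat_lit 337)) (XT.nd (nat_lit 78) (nat_lit 0) (nat_lit 0) (XT.lf (nat_lit 0) (nat_lit 938170521480) (nat_lit 152) (nat_lit 4590011102482) (nat_lit 0) (nat_lit 938132489133) (nat_lit 1) (nat_lit 5) (nat_lit 3) (nat_lit 4) (nat_lit 1) (nat_lit 4) (nat_lit 521) (nat_lit 343) (nat_lit 336)) (XT.lf (nat_lit 0) (nat_lit 1014101260947) (nat_lit 152) (nat_lit 4955387939508) (nat_lit 0) (nat_lit 1014059281955) (nat_lit 1) (nat_lit 5) (nat_lit 3) (nat_lit 4) (nat_lit 1) (nat_lit 4) (nat_lit 522) (nat_lit 343) (nat_lit 335)))) (XT.nd (nat_lit 78) (nat_lit 0) (nat_lit 0) (XT.lf (nat_lit 0) (nat_lit 1096071795123) (nat_lit 152) (nat_lit 5350066417770) (nat_lit 0) (nat_lit 1096026161830) (nat_lit 1) (nat_lit 5) (nat_lit 3) (nat_lit 4) (nat_lit 1) (nat_lit 4) (nat_lit 523) (nat_lit 343) (nat_lit 334)) (XT.nd (nat_lit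 78) (nat_lit 0) (nat_lit 0) (XT.lf (nat_lit 0) (nat_lit 1184567875321) (nat_lit 152) (nat_lit 5776385372692) (nat_lit 0) (nat_lit 1184518858416) (nat_lit 1) (nat_lit 5) (nat_lit 3) (nat_lit 4) (nat_lit 1) (nat_lit 4) (nat_lit 524) (nat_lit 343) (nat_lit 333)) (XT.lf (nat_lit 0) (nat_lit 1280113922757) (nat_lit 152) (nat_lit 6236871138824) (nat_lit 0) (nat_lit 1280061772878) (nat_lit 1) (nat_lit 5) (nat_lit 3) (nat_lit 4) (nat_lit 1) (nat_lit 4) (nat_lit 525) (nat_lit 343) (nat_lit 332))))))))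
noncomputable def xc2 : XT := (XT.nd (nat_lit 62634) (nat_lit 0) (nat_lit 0) (XT.nd (nat_lit 61698) (nat_lit 0) (nat_lit 0) (XT.nd (nat_lit 390) (nat_lit 0) (nat_lit 0) (XT.nd (nat_lit 156) (nat_lit 0) (nat_lit 0) (XT.nd (nat_lit 78) (nat_lit 0) (nat_lit 0) (XT.lf (nat_lit 0) (nat_lit 1383276136231) (nat_lit 152) (nat_lit 6734252520704) (nat_lit 0) (nat_lit 1383221085451) (nat_lit 1) (nat_lit 5) (nat_lit 3) (nat_lit 4) (nat_lit 1) (nat_lit 4) (nat_lit 526) (nat_lit 343) (nat_lit 331)) (XT.lf (nat_lit 0) (nat_lit 1494665847378) (nat_lit 152) (nat_lit 7271476963560) (nat_lit 0) (nat_lit 1494608110577) (nat_lit 1) (nat_lit 5) (nat_lit 3) (nat_lit 4) (nat_lit 1) (nat_lit 4) (nat_lit 527) (nat_lit 343) (nat_lit 330))) (XT.nd (nat_lit 78) (nat_lit 0) (nat_lit 0) (XT.lf (nat_lit 0) (nat_lit 1614943143376) (nat_lit 152) (nat_lit 7851728019644) (nat_lit 0) (nat_lit 1614882919519) (nat_lit 1) (nat_lit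 5) (nat_lit 3) (nat_lit 4) (nat_lit 1) (nat_lit 4) (nat_lit 528) (nat_lit 343) (nat_lit 329)) (XT.nd (nat_lit 78) (nat_lit 0) (nat_lit 0) (XT.lf (nat_lit 0) (nat_lit 1744820778570) (nat_lit 152) (nat_lit 8478444213734) (nat_lit 0) (nat_lit 1744758251884) (nat_lit 1) (nat_lit 5) (nat_lit 3) (nat_lit 4) (nat_lit 1) (nat_lit 4) (nat_lit 529) (nat_lit 343) (nat_lit 328)) (XT.lf (nat_lit 0) (nat_lit 1885068398207) (nat_lit 152) (nat_lit 9155339419573) (nat_lit 0) (nat_lit 1885003739272) (nat_lit 1) (nat_lit 5) (nat_lit 3) (nat_lit 4) (nat_lit 1) (nat_lit 4) (nat_lit 530) (nat_lit 343) (nat_lit 327))))) (XT.nd (nat_lit 61074) (nat_lit 0) (nat_lit 0) (XT.nd (nat_lit 78) (nat_lit 0) (nat_lit 0) (XT.lf (nat_lit 0) (nat_lit 2036517099292) (nat_lit 152) (nat_lit 9886424868010) (nat_lit 0) (nat_lit 2036450466052) (nat_lit 1) (nat_lit 5) (nat_lit 3) (nat_lit 4) (nat_lit 1) (nat_lit 4) (nat_lit 531)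 (nat_lit 343) (nat_lit 326)) (XT.nd (nat_lit 60918) (nat_lit 0) (nat_lit 0) (XT.lf (nat_lit 0) (nat_lit 2200064355610) (nat_lit 152) (nat_lit 10676032917257) (nat_lit 0) (nat_lit 2199995894309) (nat_lit 1) (nat_lit 5) (nat_lit 3) (nat_lit 4) (nat_lit 1) (nat_lit 4) (nat_lit 532) (nat_lit 343) (nat_lit 325)) (XT.lf (nat_lit 0) (nat_lit 231125750027) (nat_lit 152) (nat_lit 1155416819209) (nat_lit 0) (nat_lit 231125750027) (nat_lit 1) (nat_lit 5) (nat_lit 3) (nat_lit 4) (nat_lit 1) (nat_lit 4) (nat_lit 512) (nat_lit 344) (nat_lit 344)))) (XT.nd (nat_lit 78) (nat_lit 0) (nat_lit 0) (XT.lf (nat_lit 0) (nat_lit 500539657883) (nat_lit 152) (nat_lit 2492986273450) (nat_lit 0) (nat_lit 500532352919) (nat_lit 1) (nat_lit 5) (nat_lit 3) (nat_lit 4) (nat_lit 1) (nat_lit 4) (nat_lit 513) (nat_lit 344) (nat_lit 343)) (XT.nd (nat_lit 78) (nat_lit 0) (nat_lit 0) (XT.lf (nat_lit 0) (nat_lit 541826706863)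 (nat_lit 152) (nat_lit 2689843450194) (nat_lit 0) (nat_lit 541812638043) (nat_lit 1) (nat_lit 5) (nat_lit 3) (nat_lit 4) (nat_lit 1) (nat_lit 4) (nat_lit 514) (nat_lit 344) (nat_lit 342)) (XT.lf (nat_lit 0) (nat_lit 586357310987) (nat_lit 152) (nat_lit 2902571729696) (nat_lit 0) (nat_lit 586336979338) (nat_lit 1) (nat_lit 5) (nat_lit 3) (nat_lit 4) (nat_lit 1) (nat_lit 4) (nat_lit 515) (nat_lit 344) (nat_lit 341)))))) (XT.nd (nat_lit 468) (nat_lit 0) (nat_lit 0) (XT.nd (nat_lit 234) (nat_lit 0) (nat_lit 0) (XT.nd (nat_lit 78) (nat_lit 0) (nat_lit 0) (XT.lf (nat_lit 0) (nat_lit 634395355318) (nat_lit 152) (nat_lit 3132431723984) (nat_lit 0) (nat_lit 634369224753) (nat_lit 1) (nat_lit 5) (nat_lit 3) (nat_lit 4) (nat_lit 1) (nat_lit 4) (nat_lit 516) (nat_lit 344) (nat_lit 340)) (XT.nd (nat_lit 78) (nat_lit 0) (nat_lit 0) (XT.lf (nat_lit 0) (nat_lit 686225509748) (nat_lit 152) (nat_lit 3380785566356)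 (nat_lit 0) (nat_lit 686194009815) (nat_lit 1) (nat_lit 5) (nat_lit 3) (nat_lit 4) (nat_lit 1) (nat_lit 4) (nat_lit 517) (nat_lit 344) (nat_lit 339)) (XT.lf (nat_lit 0) (nat_lit 742154915932) (nat_lit 152) (nat_lit 3649104983287) (nat_lit 0) (nat_lit 742118444363) (nat_lit 1) (nat_lit 5) (nat_lit 3) (nat_lit 4) (nat_lit 1) (nat_lit 4) (nat_lit 518) (nat_lit 344) (nat_lit 338)))) (XT.nd (nat_lit 78) (nat_lit 0) (nat_lit 0) (XT.lf (nat_lit 0) (nat_lit 802515007388) (nat_lit 152) (nat_lit 3938980015765) (nat_lit 0) (nat_lit 802473932453) (nat_lit 1) (nat_lit 5) (nat_lit 3) (nat_lit 4) (nat_lit 1) (nat_lit 4) (nat_lit 519) (nat_lit 344) (nat_lit 337)) (XT.nd (nat_lit 78) (nat_lit 0) (nat_lit 0) (XT.lf (nat_lit 0) (nat_lit 867663473548) (nat_lit 152) (nat_lit 4252128441760) (nat_lit 0) (nat_lit 867618136236) (nat_lit 1) (nat_lit 5) (nat_lit 3) (nat_lit 4) (nat_lit 1) (nat_lit 4) (nat_lit 520)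 (nat_lit 344) (nat_lit 336)) (XT.lf (nat_lit 0) (nat_lit 937986379396) (nat_lit 152) (nat_lit 4590405955650) (nat_lit 0) (nat_lit 937937095439) (nat_lit 1) (nat_lit 5) (nat_lit 3) (nat_lit 4) (nat_lit 1) (nat_lit 4) (nat_lit 521) (nat_lit 344) (nat_lit 335))))) (XT.nd (nat_lit 234) (nat_lit 0) (nat_lit 0) (XT.nd (nat_lit 78) (nat_lit 0) (nat_lit 0) (XT.lf (nat_lit 0) (nat_lit 1013900453263) (nat_lit 152) (nat_lit 4955817164923) (nat_lit 0) (nat_lit 1013847515005) (nat_lit 1) (nat_lit 5) (nat_lit 3) (nat_lit 4) (nat_lit 1) (nat_lit 4) (nat_lit 522) (nat_lit 344) (nat_lit 334)) (XT.nd (nat_lit 78) (nat_lit 0) (nat_lit 0) (XT.lf (nat_lit 0) (nat_lit 1095855556327) (nat_lit 152) (nat_lit 5350527469338) (nat_lit 0) (nat_lit 1095799234458) (nat_lit 1) (nat_lit 5) (nat_lit 3) (nat_lit 4) (nat_lit 1) (nat_lit 4) (nat_lit 523) (nat_lit 344) (nat_lit 333)) (XT.lf (nat_lit 0) (nat_lit 1184337348459)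 (nat_lit 152) (nat_lit 5776875892922) (nat_lit 0) (nat_lit 1184277893616) (nat_lit 1) (nat_lit 5) (nat_lit 3) (nat_lit 4) (nat_lit 1) (nat_lit 4) (nat_lit 524) (nat_lit 344) (nat_lit 332)))) (XT.nd (nat_lit 78) (nat_lit 0) (nat_lit 0) (XT.lf (nat_lit 0) (nat_lit 1279870166204) (nat_lit 152) (nat_lit 6237388944851) (nat_lit 0) (nat_lit 1279807810459) (nat_lit 1) (nat_lit 5) (nat_lit 3) (nat_lit 4) (nat_lit 1) (nat_lit 4) (nat_lit 525) (nat_lit 344) (nat_lit 331)) (XT.nd (nat_lit 78) (nat_lit 0) (nat_lit 0) (XT.lf (nat_lit 0) (nat_lit 1383020129964) (nat_lit 152) (nat_lit 6734795591358) (nat_lit 0) (nat_lit 1382955088199) (nat_lit 1) (nat_lit 5) (nat_lit 3) (nat_lit 4) (nat_lit 1) (nat_lit 4) (nat_lit 526) (nat_lit 344) (nat_lit 330)) (XT.lf (nat_lit 0) (nat_lit 1494398498784) (nat_lit 152) (nat_lit 7272043427387) (nat_lit 0) (nat_lit 1494330969963) (nat_lit 1) (nat_lit 5) (nat_lit 3) (nat_lit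 4) (nat_lit 1) (nat_lit 4) (nat_lit 527) (nat_lit 344) (nat_lit 329))))))) (XT.nd (nat_lit 61620) (nat_lit 0) (nat_lit 0) (XT.nd (nat_lit 61152) (nat_lit 0) (nat_lit 0) (XT.nd (nat_lit 234) (nat_lit 0) (nat_lit 0) (XT.nd (nat_lit 78) (nat_lit 0) (nat_lit 0) (XT.lf (nat_lit 0) (nat_lit 1614665292626) (nat_lit 152) (nat_lit 7852316143817) (nat_lit 0) (nat_lit 1614595460976) (nat_lit 1) (nat_lit 5) (nat_lit 3) (nat_lit 4) (nat_lit 1) (nat_lit 4) (nat_lit 528) (nat_lit 344) (nat_lit 328)) (XT.nd (nat_lit 78) (nat_lit 0) (nat_lit 0) (XT.lf (nat_lit 0) (nat_lit 1744533203603) (nat_lit 152) (nat_lit 8479052393783) (nat_lit 0) (nat_lit 1744461239703) (nat_lit 1) (nat_lit 5) (nat_lit 3) (nat_lit 4) (nat_lit 1) (nat_lit 4) (nat_lit 529) (nat_lit 344) (nat_lit 327)) (XT.lf (nat_lit 0) (nat_lit 1884771819335) (nat_lit 152) (nat_lit 9155966169877) (nat_lit 0) (nat_lit 1884697881130) (nat_lit 1) (nat_lit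 5) (nat_lit 3) (nat_lit 4) (nat_lit 1) (nat_lit 4) (nat_lit 530) (nat_lit 344) (nat_lit 326)))) (XT.nd (nat_lit 78) (nat_lit 0) (nat_lit 0) (XT.lf (nat_lit 0) (nat_lit 2036212183470) (nat_lit 152) (nat_lit 9887068812995) (nat_lit 0) (nat_lit 2036136417205) (nat_lit 1) (nat_lit 5) (nat_lit 3) (nat_lit 4) (nat_lit 1) (nat_lit 4) (nat_lit 531) (nat_lit 344) (nat_lit 325)) (XT.nd (nat_lit 60762) (nat_lit 0) (nat_lit 0) (XT.lf (nat_lit 0) (nat_lit 2199751720390) (nat_lit 152) (nat_lit 10676692783243) (nat_lit 0) (nat_lit 2199674261477) (nat_lit 1) (nat_lit 5) (nat_lit 3) (nat_lit 4) (nat_lit 1) (nat_lit 4) (nat_lit 532) (nat_lit 344) (nat_lit 324)) (XT.lf (nat_lit 0) (nat_lit 196912291249) (nat_lit 152) (nat_lit 993165417870) (nat_lit 0) (nat_lit 196912291249) (nat_lit 1) (nat_lit 5) (nat_lit 3) (nat_lit 4) (nat_lit 1) (nat_lit 4) (nat_lit 510) (nat_lit 345) (nat_lit 345))))) (XT.nd (nat_lit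 234) (nat_lit 0) (nat_lit 0) (XT.nd (nat_lit 78) (nat_lit 0) (nat_lit 0) (XT.lf (nat_lit 0) (nat_lit 426743229949) (nat_lit 152) (nat_lit 2142306122075) (nat_lit 0) (nat_lit 426735340588) (nat_lit 1) (nat_lit 5) (nat_lit 3) (nat_lit 4) (nat_lit 1) (nat_lit 4) (nat_lit 511) (nat_lit 345) (nat_lit 344)) (XT.nd (nat_lit 78) (nat_lit 0) (nat_lit 0) (XT.lf (nat_lit 0) (nat_lit 462226074803) (nat_lit 152) (nat_lit 2310902348697) (nat_lit 0) (nat_lit 462210880477) (nat_lit 1) (nat_lit 5) (nat_lit 3) (nat_lit 4) (nat_lit 1) (nat_lit 4) (nat_lit 512) (nat_lit 345) (nat_lit 343)) (XT.lf (nat_lit 0) (nat_lit 500483385769) (nat_lit 152) (nat_lit 2493118604359) (nat_lit 0) (nat_lit 500461427587) (nat_lit 1) (nat_lit 5) (nat_lit 3) (nat_lit 4) (nat_lit 1) (nat_lit 4) (nat_lit 513) (nat_lit 345) (nat_lit 342)))) (XT.nd (nat_lit 78) (nat_lit 0) (nat_lit 0) (XT.lf (nat_lit 0) (nat_lit 541741872838) (nat_lit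 152) (nat_lit 2690034689093) (nat_lit 0) (nat_lit 541713651827) (nat_lit 1) (nat_lit 5) (nat_lit 3) (nat_lit 4) (nat_lit 1) (nat_lit 4) (nat_lit 514) (nat_lit 345) (nat_lit 341)) (XT.nd (nat_lit 78) (nat_lit 0) (nat_lit 0) (XT.lf (nat_lit 0) (nat_lit 586246030750) (nat_lit 152) (nat_lit 2902817513030) (nat_lit 0) (nat_lit 586212010822) (nat_lit 1) (nat_lit 5) (nat_lit 3) (nat_lit 4) (nat_lit 1) (nat_lit 4) (nat_lit 515) (nat_lit 345) (nat_lit 340)) (XT.lf (nat_lit 0) (nat_lit 634259587846) (nat_lit 152) (nat_lit 3132728011424) (nat_lit 0) (nat_lit 634220198552) (nat_lit 1) (nat_lit 5) (nat_lit 3) (nat_lit 4) (nat_lit 1) (nat_lit 4) (nat_lit 516) (nat_lit 345) (nat_lit 339)))))) (XT.nd (nat_lit 468) (nat_lit 0) (nat_lit 0) (XT.nd (nat_lit 234) (nat_lit 0) (nat_lit 0) (XT.nd (nat_lit 78) (nat_lit 0) (nat_lit 0) (XT.lf (nat_lit 0) (nat_lit 686067068910) (nat_lit 152) (nat_lit 3381128616858)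 (nat_lit 0) (nat_lit 686022707980) (nat_lit 1) (nat_lit 5) (nat_lit 3) (nat_lit 4) (nat_lit 1) (nat_lit 4) (nat_lit 517) (nat_lit 345) (nat_lit 338)) (XT.nd (nat_lit 78) (nat_lit 0) (nat_lit 0) (XT.lf (nat_lit 0) (nat_lit 741975481237) (nat_lit 152) (nat_lit 3649491332920) (nat_lit 0) (nat_lit 741926516941) (nat_lit 1) (nat_lit 5) (nat_lit 3) (nat_lit 4) (nat_lit 1) (nat_lit 4) (nat_lit 518) (nat_lit 345) (nat_lit 337)) (XT.lf (nat_lit 0) (nat_lit 802316133937) (nat_lit 152) (nat_lit 3939406457186) (nat_lit 0) (nat_lit 802262907264) (nat_lit 1) (nat_lit 5) (nat_lit 3) (nat_lit 4) (nat_lit 1) (nat_lit 4) (nat_lit 519) (nat_lit 345) (nat_lit 336)))) (XT.nd (nat_lit 78) (nat_lit 0) (nat_lit 0) (XT.lf (nat_lit 0) (nat_lit 867446601248) (nat_lit 152) (nat_lit 4252592005208) (nat_lit 0) (nat_lit 867389427931) (nat_lit 1) (nat_lit 5) (nat_lit 3) (nat_lit 4) (nat_lit 1) (nat_lit 4) (nat_lit 520)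 (nat_lit 345) (nat_lit 335)) (XT.nd (nat_lit 78) (nat_lit 0) (nat_lit 0) (XT.lf (nat_lit 0) (nat_lit 937752841496) (nat_lit 152) (nat_lit 4590903891344) (nat_lit 0) (nat_lit 937692013877) (nat_lit 1) (nat_lit 5) (nat_lit 3) (nat_lit 4) (nat_lit 1) (nat_lit 4) (nat_lit 521) (nat_lit 345) (nat_lit 334)) (XT.lf (nat_lit 0) (nat_lit 1013651484251) (nat_lit 152) (nat_lit 4956346926771) (nat_lit 0) (nat_lit 1013587273021) (nat_lit 1) (nat_lit 5) (nat_lit 3) (nat_lit 4) (nat_lit 1) (nat_lit 4) (nat_lit 522) (nat_lit 345) (nat_lit 333))))) (XT.nd (nat_lit 234) (nat_lit 0) (nat_lit 0) (XT.nd (nat_lit 78) (nat_lit 0) (nat_lit 0) (XT.lf (nat_lit 0) (nat_lit 1095592299249) (nat_lit 152) (nat_lit 5351086699847) (nat_lit 0) (nat_lit 1095524955045) (nat_lit 1) (nat_lit 5) (nat_lit 3) (nat_lit 4) (nat_lit 1) (nat_lit 4) (nat_lit 523) (nat_lit 345) (nat_lit 332)) (XT.nd (nat_lit 78) (nat_lit 0) (nat_lit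 0) (XT.lf (nat_lit 0) (nat_lit 1184060861690) (nat_lit 152) (nat_lit 5777462409228) (nat_lit 0) (nat_lit 1183990616584) (nat_lit 1) (nat_lit 5) (nat_lit 3) (nat_lit 4) (nat_lit 1) (nat_lit 4) (nat_lit 524) (nat_lit 345) (nat_lit 331)) (XT.lf (nat_lit 0) (nat_lit 1279581429722) (nat_lit 152) (nat_lit 6238000725784) (nat_lit 0) (nat_lit 1279508498595) (nat_lit 1) (nat_lit 5) (nat_lit 3) (nat_lit 4) (nat_lit 1) (nat_lit 4) (nat_lit 525) (nat_lit 345) (nat_lit 330)))) (XT.nd (nat_lit 78) (nat_lit 0) (nat_lit 0) (XT.lf (nat_lit 0) (nat_lit 1382720051154) (nat_lit 152) (nat_lit 6735430765465) (nat_lit 0) (nat_lit 1382644632972) (nat_lit 1) (nat_lit 5) (nat_lit 3) (nat_lit 4) (nat_lit 1) (nat_lit 4) (nat_lit 526) (nat_lit 345) (nat_lit 329)) (XT.nd (nat_lit 78) (nat_lit 0) (nat_lit 0) (XT.lf (nat_lit 0) (nat_lit 1494087917819) (nat_lit 152) (nat_lit 7272700261840) (nat_lit 0) (nat_lit 1494010196807)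 (nat_lit 1) (nat_lit 5) (nat_lit 3) (nat_lit 4) (nat_lit 1) (nat_lit 4) (nat_lit 527) (nat_lit 345) (nat_lit 328)) (XT.lf (nat_lit 0) (nat_lit 1614344987443) (nat_lit 152) (nat_lit 7852993034146) (nat_lit 0) (nat_lit 1614265134182) (nat_lit 1) (nat_lit 5) (nat_lit 3) (nat_lit 4) (nat_lit 1) (nat_lit 4) (nat_lit 528) (nat_lit 345) (nat_lit 327))))))))
noncomputable def xc3 : XT := (XT.nd (nat_lit 62322) (nat_lit 0) (nat_lit 0) (XT.nd (nat_lit 61386) (nat_lit 0) (nat_lit 0) (XT.nd (nat_lit 60918) (nat_lit 0) (nat_lit 0) (XT.nd (nat_lit 156) (nat_lit 0) (nat_lit 0) (XT.nd (nat_lit 78) (nat_lit 0) (nat_lit 0) (XT.lf (nat_lit 0) (nat_lit 1744203894515) (nat_lit 152) (nat_lit 8479747854367) (nat_lit 0) (nat_lit 1744122066949) (nat_lit 1) (nat_lit 5) (nat_lit 3) (nat_lit 4) (nat_lit 1) (nat_lit 4) (nat_lit 529) (nat_lit 345) (nat_lit 326)) (XT.lf (nat_lit 0) (nat_lit 1884434173297) (nat_lit 152)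 (nat_lit 9156678825142) (nat_lit 0) (nat_lit 1884350517671) (nat_lit 1) (nat_lit 5) (nat_lit 3) (nat_lit 4) (nat_lit 1) (nat_lit 4) (nat_lit 530) (nat_lit 345) (nat_lit 325))) (XT.nd (nat_lit 78) (nat_lit 0) (nat_lit 0) (XT.lf (nat_lit 0) (nat_lit 2035866818035) (nat_lit 152) (nat_lit 9887797389260) (nat_lit 0) (nat_lit 2035781469761) (nat_lit 1) (nat_lit 5) (nat_lit 3) (nat_lit 4) (nat_lit 1) (nat_lit 4) (nat_lit 531) (nat_lit 345) (nat_lit 324)) (XT.nd (nat_lit 60606) (nat_lit 0) (nat_lit 0) (XT.lf (nat_lit 0) (nat_lit 2199399207364) (nat_lit 152) (nat_lit 10677436101175) (nat_lit 0) (nat_lit 2199312291823) (nat_lit 1) (nat_lit 5) (nat_lit 3) (nat_lit 4) (nat_lit 1) (nat_lit 4) (nat_lit 532) (nat_lit 345) (nat_lit 323)) (XT.lf (nat_lit 0) (nat_lit 167480501933) (nat_lit 152) (nat_lit 854267530864) (nat_lit 0) (nat_lit 167480501933) (nat_lit 1) (nat_lit 5) (nat_lit 3) (nat_lit 4) (nat_lit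 1) (nat_lit 4) (nat_lit 508) (nat_lit 346) (nat_lit 346))))) (XT.nd (nat_lit 234) (nat_lit 0) (nat_lit 0) (XT.nd (nat_lit 78) (nat_lit 0) (nat_lit 0) (XT.lf (nat_lit 0) (nat_lit 363283579494) (nat_lit 152) (nat_lit 1842052191700) (nat_lit 0) (nat_lit 363275058984) (nat_lit 1) (nat_lit 5) (nat_lit 3) (nat_lit 4) (nat_lit 1) (nat_lit 4) (nat_lit 509) (nat_lit 346) (nat_lit 345)) (XT.nd (nat_lit 78) (nat_lit 0) (nat_lit 0) (XT.lf (nat_lit 0) (nat_lit 393797123228) (nat_lit 152) (nat_lit 1986405042842) (nat_lit 0) (nat_lit 393780713356) (nat_lit 1) (nat_lit 5) (nat_lit 3) (nat_lit 4) (nat_lit 1) (nat_lit 4) (nat_lit 510) (nat_lit 346) (nat_lit 344)) (XT.lf (nat_lit 0) (nat_lit 426682456066) (nat_lit 152) (nat_lit 2142449039456) (nat_lit 0) (nat_lit 426658741230) (nat_lit 1) (nat_lit 5) (nat_lit 3) (nat_lit 4) (nat_lit 1) (nat_lit 4) (nat_lit 511) (nat_lit 346) (nat_lit 343)))) (XT.nd (nat_lit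 78) (nat_lit 0) (nat_lit 0) (XT.lf (nat_lit 0) (nat_lit 462134454056) (nat_lit 152) (nat_lit 2311108886708) (nat_lit 0) (nat_lit 462103975364) (nat_lit 1) (nat_lit 5) (nat_lit 3) (nat_lit 4) (nat_lit 1) (nat_lit 4) (nat_lit 512) (nat_lit 346) (nat_lit 342)) (XT.nd (nat_lit 78) (nat_lit 0) (nat_lit 0) (XT.lf (nat_lit 0) (nat_lit 500363203112) (nat_lit 152) (nat_lit 2493384050360) (nat_lit 0) (nat_lit 500326461590) (nat_lit 1) (nat_lit 5) (nat_lit 3) (nat_lit 4) (nat_lit 1) (nat_lit 4) (nat_lit 513) (nat_lit 346) (nat_lit 341)) (XT.lf (nat_lit 0) (nat_lit 541595243968) (nat_lit 152) (nat_lit 2690354679528) (nat_lit 0) (nat_lit 541552703531) (nat_lit 1) (nat_lit 5) (nat_lit 3) (nat_lit 4) (nat_lit 1) (nat_lit 4) (nat_lit 514) (nat_lit 346) (nat_lit 340)))))) (XT.nd (nat_lit 468) (nat_lit 0) (nat_lit 0) (XT.nd (nat_lit 234) (nat_lit 0) (nat_lit 0) (XT.nd (nat_lit 78) (nat_lit 0) (nat_lit 0)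 (XT.lf (nat_lit 0) (nat_lit 586074914645) (nat_lit 152) (nat_lit 2903188007572) (nat_lit 0) (nat_lit 586027004840) (nat_lit 1) (nat_lit 5) (nat_lit 3) (nat_lit 4) (nat_lit 1) (nat_lit 4) (nat_lit 515) (nat_lit 346) (nat_lit 339)) (XT.nd (nat_lit 78) (nat_lit 0) (nat_lit 0) (XT.lf (nat_lit 0) (nat_lit 634065798376) (nat_lit 152) (nat_lit 3133145269028) (nat_lit 0) (nat_lit 634012916935) (nat_lit 1) (nat_lit 5) (nat_lit 3) (nat_lit 4) (nat_lit 1) (nat_lit 4) (nat_lit 516) (nat_lit 346) (nat_lit 338)) (XT.lf (nat_lit 0) (nat_lit 685852285583) (nat_lit 152) (nat_lit 3381589173594) (nat_lit 0) (nat_lit 685794800776) (nat_lit 1) (nat_lit 5) (nat_lit 3) (nat_lit 4) (nat_lit 1) (nat_lit 4) (nat_lit 517) (nat_lit 346) (nat_lit 337)))) (XT.nd (nat_lit 78) (nat_lit 0) (nat_lit 0) (XT.lf (nat_lit 0) (nat_lit 741741259154) (nat_lit 152) (nat_lit 3649991981444) (nat_lit 0) (nat_lit 741679511970) (nat_lit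 1) (nat_lit 5) (nat_lit 3) (nat_lit 4) (nat_lit 1) (nat_lit 4) (nat_lit 518) (nat_lit 346) (nat_lit 336)) (XT.nd (nat_lit 78) (nat_lit 0) (nat_lit 0) (XT.lf (nat_lit 0) (nat_lit 802063913005) (nat_lit 152) (nat_lit 3939944227736) (nat_lit 0) (nat_lit 801998219177) (nat_lit 1) (nat_lit 5) (nat_lit 3) (nat_lit 4) (nat_lit 1) (nat_lit 4) (nat_lit 519) (nat_lit 346) (nat_lit 335)) (XT.lf (nat_lit 0) (nat_lit 867177714716) (nat_lit 152) (nat_lit 4253164148004) (nat_lit 0) (nat_lit 867108366587) (nat_lit 1) (nat_lit 5) (nat_lit 3) (nat_lit 4) (nat_lit 1) (nat_lit 4) (nat_lit 520) (nat_lit 346) (nat_lit 334))))) (XT.nd (nat_lit 234) (nat_lit 0) (nat_lit 0) (XT.nd (nat_lit 78) (nat_lit 0) (nat_lit 0) (XT.lf (nat_lit 0) (nat_lit 937468523852) (nat_lit 152) (nat_lit 4591507860294) (nat_lit 0) (nat_lit 937395792111) (nat_lit 1) (nat_lit 5) (nat_lit 3) (nat_lit 4) (nat_lit 1) (nat_lit 4) (nat_lit 521)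 (nat_lit 346) (nat_lit 333)) (XT.nd (nat_lit 78) (nat_lit 0) (nat_lit 0) (XT.lf (nat_lit 0) (nat_lit 1013352878541) (nat_lit 152) (nat_lit 4956980364382) (nat_lit 0) (nat_lit 1013277013827) (nat_lit 1) (nat_lit 5) (nat_lit 3) (nat_lit 4) (nat_lit 1) (nat_lit 4) (nat_lit 522) (nat_lit 346) (nat_lit 332)) (XT.lf (nat_lit 0) (nat_lit 1095280463849) (nat_lit 152) (nat_lit 5351747423256) (nat_lit 0) (nat_lit 1095201698232) (nat_lit 1) (nat_lit 5) (nat_lit 3) (nat_lit 4) (nat_lit 1) (nat_lit 4) (nat_lit 523) (nat_lit 346) (nat_lit 331)))) (XT.nd (nat_lit 78) (nat_lit 0) (nat_lit 0) (XT.lf (nat_lit 0) (nat_lit 1183736776576) (nat_lit 152) (nat_lit 5778148397264) (nat_lit 0) (nat_lit 1183655324939) (nat_lit 1) (nat_lit 5) (nat_lit 3) (nat_lit 4) (nat_lit 1) (nat_lit 4) (nat_lit 524) (nat_lit 346) (nat_lit 330)) (XT.nd (nat_lit 78) (nat_lit 0) (nat_lit 0) (XT.lf (nat_lit 0) (nat_lit 1279246002280)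 (nat_lit 152) (nat_lit 6238710106993) (nat_lit 0) (nat_lit 1279162063587) (nat_lit 1) (nat_lit 5) (nat_lit 3) (nat_lit 4) (nat_lit 1) (nat_lit 4) (nat_lit 525) (nat_lit 346) (nat_lit 329)) (XT.lf (nat_lit 0) (nat_lit 1382374121557) (nat_lit 152) (nat_lit 6736161807020) (nat_lit 0) (nat_lit 1382287880035) (nat_lit 1) (nat_lit 5) (nat_lit 3) (nat_lit 4) (nat_lit 1) (nat_lit 4) (nat_lit 526) (nat_lit 346) (nat_lit 328))))))) (XT.nd (nat_lit 61308) (nat_lit 0) (nat_lit 0) (XT.nd (nat_lit 60840) (nat_lit 0) (nat_lit 0) (XT.nd (nat_lit 234) (nat_lit 0) (nat_lit 0) (XT.nd (nat_lit 78) (nat_lit 0) (nat_lit 0) (XT.lf (nat_lit 0) (nat_lit 1493732264004) (nat_lit 152) (nat_lit 7273451359270) (nat_lit 0) (nat_lit 1493643890232) (nat_lit 1) (nat_lit 5) (nat_lit 3) (nat_lit 4) (nat_lit 1) (nat_lit 4) (nat_lit 527) (nat_lit 346) (nat_lit 327)) (XT.nd (nat_lit 78) (nat_lit 0) (nat_lit 0) (XT.lf (nat_lit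 0) (nat_lit 1613980329723) (nat_lit 152) (nat_lit 7853762701831) (nat_lit 0) (nat_lit 1613889981646) (nat_lit 1) (nat_lit 5) (nat_lit 3) (nat_lit 4) (nat_lit 1) (nat_lit 4) (nat_lit 528) (nat_lit 346) (nat_lit 326)) (XT.lf (nat_lit 0) (nat_lit 1743830899845) (nat_lit 152) (nat_lit 8480534716733) (nat_lit 0) (nat_lit 1743738723708) (nat_lit 1) (nat_lit 5) (nat_lit 3) (nat_lit 4) (nat_lit 1) (nat_lit 4) (nat_lit 529) (nat_lit 346) (nat_lit 325)))) (XT.nd (nat_lit 78) (nat_lit 0) (nat_lit 0) (XT.lf (nat_lit 0) (nat_lit 1884053459230) (nat_lit 152) (nat_lit 9157481608508) (nat_lit 0) (nat_lit 1883959590445) (nat_lit 1) (nat_lit 5) (nat_lit 3) (nat_lit 4) (nat_lit 1) (nat_lit 4) (nat_lit 530) (nat_lit 346) (nat_lit 324)) (XT.nd (nat_lit 78) (nat_lit 0) (nat_lit 0) (XT.lf (nat_lit 0) (nat_lit 2035478956377) (nat_lit 152) (nat_lit 9888614914294) (nat_lit 0) (nat_lit 2035383520325) (nat_lit 1)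 (nat_lit 5) (nat_lit 3) (nat_lit 4) (nat_lit 1) (nat_lit 4) (nat_lit 531) (nat_lit 346) (nat_lit 323)) (XT.lf (nat_lit 0) (nat_lit 2199004727567) (nat_lit 152) (nat_lit 10678267275901) (nat_lit 0) (nat_lit 2198907840342) (nat_lit 1) (nat_lit 5) (nat_lit 3) (nat_lit 4) (nat_lit 1) (nat_lit 4) (nat_lit 532) (nat_lit 346) (nat_lit 322))))) (XT.nd (nat_lit 234) (nat_lit 0) (nat_lit 0) (XT.nd (nat_lit 78) (nat_lit 0) (nat_lit 0) (XT.lf (nat_lit 0) (nat_lit 142140282437) (nat_lit 152) (nat_lit 735408041327) (nat_lit 0) (nat_lit 142140282437) (nat_lit 1) (nat_lit 5) (nat_lit 3) (nat_lit 4) (nat_lit 1) (nat_lit 4) (nat_lit 506) (nat_lit 347) (nat_lit 347)) (XT.nd (nat_lit 78) (nat_lit 0) (nat_lit 0) (XT.lf (nat_lit 0) (nat_lit 308670761009) (nat_lit 152) (nat_lit 1585062440304) (nat_lit 0) (nat_lit 308661558858) (nat_lit 1) (nat_lit 5) (nat_lit 3) (nat_lit 4) (nat_lit 1) (nat_lit 4) (nat_lit 507)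 (nat_lit 347) (nat_lit 346)) (XT.lf (nat_lit 0) (nat_lit 334931347853) (nat_lit 152) (nat_lit 1708615205398) (nat_lit 0) (nat_lit 334913625192) (nat_lit 1) (nat_lit 5) (nat_lit 3) (nat_lit 4) (nat_lit 1) (nat_lit 4) (nat_lit 508) (nat_lit 347) (nat_lit 345)))) (XT.nd (nat_lit 78) (nat_lit 0) (nat_lit 0) (XT.lf (nat_lit 0) (nat_lit 363217943700) (nat_lit 152) (nat_lit 1842206542472) (nat_lit 0) (nat_lit 363192331677) (nat_lit 1) (nat_lit 5) (nat_lit 3) (nat_lit 4) (nat_lit 1) (nat_lit 4) (nat_lit 509) (nat_lit 347) (nat_lit 344)) (XT.nd (nat_lit 78) (nat_lit 0) (nat_lit 0) (XT.lf (nat_lit 0) (nat_lit 393698172821) (nat_lit 152) (nat_lit 1986628103893) (nat_lit 0) (nat_lit 393665255834) (nat_lit 1) (nat_lit 5) (nat_lit 3) (nat_lit 4) (nat_lit 1) (nat_lit 4) (nat_lit 510) (nat_lit 347) (nat_lit 343)) (XT.lf (nat_lit 0) (nat_lit 426552658797) (nat_lit 152) (nat_lit 2142735721137) (nat_lit 0)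 (nat_lit 426512977954) (nat_lit 1) (nat_lit 5) (nat_lit 3) (nat_lit 4) (nat_lit 1) (nat_lit 4) (nat_lit 511) (nat_lit 347) (nat_lit 342)))))) (XT.nd (nat_lit 468) (nat_lit 0) (nat_lit 0) (XT.nd (nat_lit 234) (nat_lit 0) (nat_lit 0) (XT.nd (nat_lit 78) (nat_lit 0) (nat_lit 0) (XT.lf (nat_lit 0) (nat_lit 461976094876) (nat_lit 152) (nat_lit 2311454476379) (nat_lit 0) (nat_lit 461930151204) (nat_lit 1) (nat_lit 5) (nat_lit 3) (nat_lit 4) (nat_lit 1) (nat_lit 4) (nat_lit 512) (nat_lit 347) (nat_lit 341)) (XT.nd (nat_lit 78) (nat_lit 0) (nat_lit 0) (XT.lf (nat_lit 0) (nat_lit 500178397718) (nat_lit 152) (nat_lit 2493784184465) (nat_lit 0) (nat_lit 500126655130) (nat_lit 1) (nat_lit 5) (nat_lit 3) (nat_lit 4) (nat_lit 1) (nat_lit 4) (nat_lit 513) (nat_lit 347) (nat_lit 340)) (XT.lf (nat_lit 0) (nat_lit 541385951340) (nat_lit 152) (nat_lit 2690805317741) (nat_lit 0) (nat_lit 541328839385) (nat_lit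 1) (nat_lit 5) (nat_lit 3) (nat_lit 4) (nat_lit 1) (nat_lit 4) (nat_lit 514) (nat_lit 347) (nat_lit 339)))) (XT.nd (nat_lit 78) (nat_lit 0) (nat_lit 0) (XT.lf (nat_lit 0) (nat_lit 585842948651) (nat_lit 152) (nat_lit 2903685408847) (nat_lit 0) (nat_lit 585780865060) (nat_lit 1) (nat_lit 5) (nat_lit 3) (nat_lit 4) (nat_lit 1) (nat_lit 4) (nat_lit 515) (nat_lit 347) (nat_lit 338)) (XT.nd (nat_lit 78) (nat_lit 0) (nat_lit 0) (XT.lf (nat_lit 0) (nat_lit 633812838526) (nat_lit 152) (nat_lit 3133685969434) (nat_lit 0) (nat_lit 633746151568) (nat_lit 1) (nat_lit 5) (nat_lit 3) (nat_lit 4) (nat_lit 1) (nat_lit 4) (nat_lit 516) (nat_lit 347) (nat_lit 337)) (XT.lf (nat_lit 0) (nat_lit 685579886977) (nat_lit 152) (nat_lit 3382169965787) (nat_lit 0) (nat_lit 685508937642) (nat_lit 1) (nat_lit 5) (nat_lit 3) (nat_lit 4) (nat_lit 1) (nat_lit 4) (nat_lit 517) (nat_lit 347) (nat_lit 336))))) (XT.nd (nat_lit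 234) (nat_lit 0) (nat_lit 0) (XT.nd (nat_lit 78) (nat_lit 0) (nat_lit 0) (XT.lf (nat_lit 0) (nat_lit 741450861699) (nat_lit 152) (nat_lit 3650609895663) (nat_lit 0) (nat_lit 741375965720) (nat_lit 1) (nat_lit 5) (nat_lit 3) (nat_lit 4) (nat_lit 1) (nat_lit 4) (nat_lit 518) (nat_lit 347) (nat_lit 335)) (XT.nd (nat_lit 78) (nat_lit 0) (nat_lit 0) (XT.lf (nat_lit 0) (nat_lit 801756849950) (nat_lit 152) (nat_lit 3940596514202) (nat_lit 0) (nat_lit 801678299670) (nat_lit 1) (nat_lit 5) (nat_lit 3) (nat_lit 4) (nat_lit 1) (nat_lit 4) (nat_lit 519) (nat_lit 347) (nat_lit 334)) (XT.lf (nat_lit 0) (nat_lit 866855220550) (nat_lit 152) (nat_lit 4253848260624) (nat_lit 0) (nat_lit 866773286658) (nat_lit 1) (nat_lit 5) (nat_lit 3) (nat_lit 4) (nat_lit 1) (nat_lit 4) (nat_lit 520) (nat_lit 347) (nat_lit 333)))) (XT.nd (nat_lit 78) (nat_lit 0) (nat_lit 0) (XT.lf (nat_lit 0) (nat_lit 937131741619) (nat_lit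 152) (nat_lit 4592221441575) (nat_lit 0) (nat_lit 937046674754) (nat_lit 1) (nat_lit 5) (nat_lit 3) (nat_lit 4) (nat_lit 1) (nat_lit 4) (nat_lit 521) (nat_lit 347) (nat_lit 332)) (XT.nd (nat_lit 78) (nat_lit 0) (nat_lit 0) (XT.lf (nat_lit 0) (nat_lit 1013002866618) (nat_lit 152) (nat_lit 4957721231460) (nat_lit 0) (nat_lit 1012914898850) (nat_lit 1) (nat_lit 5) (nat_lit 3) (nat_lit 4) (nat_lit 1) (nat_lit 4) (nat_lit 522) (nat_lit 347) (nat_lit 331)) (XT.lf (nat_lit 0) (nat_lit 1094918202211) (nat_lit 152) (nat_lit 5352513554961) (nat_lit 0) (nat_lit 1094827548423) (nat_lit 1) (nat_lit 5) (nat_lit 3) (nat_lit 4) (nat_lit 1) (nat_lit 4) (nat_lit 523) (nat_lit 347) (nat_lit 330))))))))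
noncomputable def xc4 : XT := (XT.nd (nat_lit 62010) (nat_lit 0) (nat_lit 0) (XT.nd (nat_lit 61074) (nat_lit 0) (nat_lit 0) (XT.nd (nat_lit 390) (nat_lit 0) (nat_lit 0) (XT.nd (nat_lit 156) (nat_lit 0) (nat_lit 0) (XT.nd (nat_lit 78) (nat_lit 0) (nat_lit 0) (XT.lf (nat_lit 0) (nat_lit 1183363172611) (nat_lit 152) (nat_lit 5778937922143) (nat_lit 0) (nat_lit 1183270031767) (nat_lit 1) (nat_lit 5) (nat_lit 3) (nat_lit 4) (nat_lit 1) (nat_lit 4) (nat_lit 524) (nat_lit 347) (nat_lit 329)) (XT.lf (nat_lit 0) (nat_lit 1278861896159) (nat_lit 152) (nat_lit 6239521292218) (nat_lit 0) (nat_lit 1278766452486) (nat_lit 1) (nat_lit 5) (nat_lit 3) (nat_lit 4) (nat_lit 1) (nat_lit 4) (nat_lit 525) (nat_lit 347) (nat_lit 328))) (XT.nd (nat_lit 78) (nat_lit 0) (nat_lit 0) (XT.lf (nat_lit 0) (nat_lit 1381980291219) (nat_lit 152) (nat_lit 6736993048120) (nat_lit 0) (nat_lit 1381882715296) (nat_lit 1) (nat_lit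 5) (nat_lit 3) (nat_lit 4) (nat_lit 1) (nat_lit 4) (nat_lit 526) (nat_lit 347) (nat_lit 327)) (XT.nd (nat_lit 78) (nat_lit 0) (nat_lit 0) (XT.lf (nat_lit 0) (nat_lit 1493329429760) (nat_lit 152) (nat_lit 7274301170626) (nat_lit 0) (nat_lit 1493229879533) (nat_lit 1) (nat_lit 5) (nat_lit 3) (nat_lit 4) (nat_lit 1) (nat_lit 4) (nat_lit 527) (nat_lit 347) (nat_lit 326)) (XT.lf (nat_lit 0) (nat_lit 1613569158530) (nat_lit 152) (nat_lit 7854629707867) (nat_lit 0) (nat_lit 1613467780242) (nat_lit 1) (nat_lit 5) (nat_lit 3) (nat_lit 4) (nat_lit 1) (nat_lit 4) (nat_lit 528) (nat_lit 347) (nat_lit 325))))) (XT.nd (nat_lit 234) (nat_lit 0) (nat_lit 0) (XT.nd (nat_lit 78) (nat_lit 0) (nat_lit 0) (XT.lf (nat_lit 0) (nat_lit 1743412009254) (nat_lit 152) (nat_lit 8481417643770) (nat_lit 0) (nat_lit 1743308938318) (nat_lit 1) (nat_lit 5) (nat_lit 3) (nat_lit 4) (nat_lit 1) (nat_lit 4) (nat_lit 529) (nat_lit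 347) (nat_lit 324)) (XT.nd (nat_lit 78) (nat_lit 0) (nat_lit 0) (XT.lf (nat_lit 0) (nat_lit 1883627421049) (nat_lit 152) (nat_lit 9158379277213) (nat_lit 0) (nat_lit 1883522782846) (nat_lit 1) (nat_lit 5) (nat_lit 3) (nat_lit 4) (nat_lit 1) (nat_lit 4) (nat_lit 530) (nat_lit 347) (nat_lit 323)) (XT.lf (nat_lit 0) (nat_lit 2035046300057) (nat_lit 152) (nat_lit 9889526232690) (nat_lit 0) (nat_lit 2034940210681) (nat_lit 1) (nat_lit 5) (nat_lit 3) (nat_lit 4) (nat_lit 1) (nat_lit 4) (nat_lit 531) (nat_lit 347) (nat_lit 322)))) (XT.nd (nat_lit 60294) (nat_lit 0) (nat_lit 0) (XT.lf (nat_lit 0) (nat_lit 2198565943341) (nat_lit 152) (nat_lit 10679191232901) (nat_lit 0) (nat_lit 2198458510286) (nat_lit 1) (nat_lit 5) (nat_lit 3) (nat_lit 4) (nat_lit 1) (nat_lit 4) (nat_lit 532) (nat_lit 347) (nat_lit 321)) (XT.nd (nat_lit 78) (nat_lit 0) (nat_lit 0) (XT.lf (nat_lit 0) (nat_lit 120299348267) (nat_lit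 152) (nat_lit 633746092722) (nat_lit 0) (nat_lit 120299348267) (nat_lit 1) (nat_lit 5) (nat_lit 3) (nat_lit 4) (nat_lit 1) (nat_lit 4) (nat_lit 504) (nat_lit 348) (nat_lit 348)) (XT.lf (nat_lit 0) (nat_lit 261626163278) (nat_lit 152) (nat_lit 1365199116999) (nat_lit 0) (nat_lit 261616224954) (nat_lit 1) (nat_lit 5) (nat_lit 3) (nat_lit 4) (nat_lit 1) (nat_lit 4) (nat_lit 505) (nat_lit 348) (nat_lit 347)))))) (XT.nd (nat_lit 468) (nat_lit 0) (nat_lit 0) (XT.nd (nat_lit 234) (nat_lit 0) (nat_lit 0) (XT.nd (nat_lit 78) (nat_lit 0) (nat_lit 0) (XT.lf (nat_lit 0) (nat_lit 284248536381) (nat_lit 152) (nat_lit 1470902637819) (nat_lit 0) (nat_lit 284229395906) (nat_lit 1) (nat_lit 5) (nat_lit 3) (nat_lit 4) (nat_lit 1) (nat_lit 4) (nat_lit 506) (nat_lit 348) (nat_lit 346)) (XT.nd (nat_lit 78) (nat_lit 0) (nat_lit 0) (XT.lf (nat_lit 0) (nat_lit 308599874351) (nat_lit 152) (nat_lit 1585229139138)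 (nat_lit 0) (nat_lit 308572213367) (nat_lit 1) (nat_lit 5) (nat_lit 3) (nat_lit 4) (nat_lit 1) (nat_lit 4) (nat_lit 507) (nat_lit 348) (nat_lit 345)) (XT.lf (nat_lit 0) (nat_lit 334824481415) (nat_lit 152) (nat_lit 1708856111334) (nat_lit 0) (nat_lit 334788931069) (nat_lit 1) (nat_lit 5) (nat_lit 3) (nat_lit 4) (nat_lit 1) (nat_lit 4) (nat_lit 508) (nat_lit 348) (nat_lit 344)))) (XT.nd (nat_lit 78) (nat_lit 0) (nat_lit 0) (XT.lf (nat_lit 0) (nat_lit 363077762649) (nat_lit 152) (nat_lit 1842516158687) (nat_lit 0) (nat_lit 363034907339) (nat_lit 1) (nat_lit 5) (nat_lit 3) (nat_lit 4) (nat_lit 1) (nat_lit 4) (nat_lit 509) (nat_lit 348) (nat_lit 343)) (XT.nd (nat_lit 78) (nat_lit 0) (nat_lit 0) (XT.lf (nat_lit 0) (nat_lit 393527144907) (nat_lit 152) (nat_lit 1987001340737) (nat_lit 0) (nat_lit 393477525741) (nat_lit 1) (nat_lit 5) (nat_lit 3) (nat_lit 4) (nat_lit 1) (nat_lit 4) (nat_lit 510)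 (nat_lit 348) (nat_lit 342)) (XT.lf (nat_lit 0) (nat_lit 426353068972) (nat_lit 152) (nat_lit 2143167865971) (nat_lit 0) (nat_lit 426297186976) (nat_lit 1) (nat_lit 5) (nat_lit 3) (nat_lit 4) (nat_lit 1) (nat_lit 4) (nat_lit 511) (nat_lit 348) (nat_lit 341))))) (XT.nd (nat_lit 234) (nat_lit 0) (nat_lit 0) (XT.nd (nat_lit 78) (nat_lit 0) (nat_lit 0) (XT.lf (nat_lit 0) (nat_lit 461750058838) (nat_lit 152) (nat_lit 2311941165648) (nat_lit 0) (nat_lit 461688377926) (nat_lit 1) (nat_lit 5) (nat_lit 3) (nat_lit 4) (nat_lit 1) (nat_lit 4) (nat_lit 512) (nat_lit 348) (nat_lit 340)) (XT.nd (nat_lit 78) (nat_lit 0) (nat_lit 0) (XT.lf (nat_lit 0) (nat_lit 499927874446) (nat_lit 152) (nat_lit 2494321377841) (nat_lit 0) (nat_lit 499860824167) (nat_lit 1) (nat_lit 5) (nat_lit 3) (nat_lit 4) (nat_lit 1) (nat_lit 4) (nat_lit 513) (nat_lit 348) (nat_lit 339)) (XT.lf (nat_lit 0) (nat_lit 541112754702) (nat_lit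 152) (nat_lit 2691389274179) (nat_lit 0) (nat_lit 541040732788) (nat_lit 1) (nat_lit 5) (nat_lit 3) (nat_lit 4) (nat_lit 1) (nat_lit 4) (nat_lit 514) (nat_lit 348) (nat_lit 338)))) (XT.nd (nat_lit 78) (nat_lit 0) (nat_lit 0) (XT.lf (nat_lit 0) (nat_lit 585548758157) (nat_lit 152) (nat_lit 2904312664416) (nat_lit 0) (nat_lit 585472132875) (nat_lit 1) (nat_lit 5) (nat_lit 3) (nat_lit 4) (nat_lit 1) (nat_lit 4) (nat_lit 515) (nat_lit 348) (nat_lit 337)) (XT.nd (nat_lit 78) (nat_lit 0) (nat_lit 0) (XT.lf (nat_lit 0) (nat_lit 633499209274) (nat_lit 152) (nat_lit 3134353316791) (nat_lit 0) (nat_lit 633418321617) (nat_lit 1) (nat_lit 5) (nat_lit 3) (nat_lit 4) (nat_lit 1) (nat_lit 4) (nat_lit 516) (nat_lit 348) (nat_lit 336)) (XT.lf (nat_lit 0) (nat_lit 685248258877) (nat_lit 152) (nat_lit 3382874435170) (nat_lit 0) (nat_lit 685163424575) (nat_lit 1) (nat_lit 5) (nat_lit 3) (nat_lit 4) (nat_lit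 1) (nat_lit 4) (nat_lit 517) (nat_lit 348) (nat_lit 335))))))) (XT.nd (nat_lit 858) (nat_lit 0) (nat_lit 0) (XT.nd (nat_lit 390) (nat_lit 0) (nat_lit 0) (XT.nd (nat_lit 156) (nat_lit 0) (nat_lit 0) (XT.nd (nat_lit 78) (nat_lit 0) (nat_lit 0) (XT.lf (nat_lit 0) (nat_lit 741102567999) (nat_lit 152) (nat_lit 3651348737293) (nat_lit 0) (nat_lit 741014079396) (nat_lit 1) (nat_lit 5) (nat_lit 3) (nat_lit 4) (nat_lit 1) (nat_lit 4) (nat_lit 518) (nat_lit 348) (nat_lit 334)) (XT.lf (nat_lit 0) (nat_lit 801393125139) (nat_lit 152) (nat_lit 3941367181985) (nat_lit 0) (nat_lit 801301252924) (nat_lit 1) (nat_lit 5) (nat_lit 3) (nat_lit 4) (nat_lit 1) (nat_lit 4) (nat_lit 519) (nat_lit 348) (nat_lit 333))) (XT.nd (nat_lit 78) (nat_lit 0) (nat_lit 0) (XT.lf (nat_lit 0) (nat_lit 866477207672) (nat_lit 152) (nat_lit 4254648397069) (nat_lit 0) (nat_lit 866382202483) (nat_lit 1) (nat_lit 5) (nat_lit 3) (nat_lit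 4) (nat_lit 1) (nat_lit 4) (nat_lit 520) (nat_lit 348) (nat_lit 332)) (XT.nd (nat_lit 78) (nat_lit 0) (nat_lit 0) (XT.lf (nat_lit 0) (nat_lit 936740499051) (nat_lit 152) (nat_lit 4593048863817) (nat_lit 0) (nat_lit 936642592960) (nat_lit 1) (nat_lit 5) (nat_lit 3) (nat_lit 4) (nat_lit 1) (nat_lit 4) (nat_lit 521) (nat_lit 348) (nat_lit 331)) (XT.lf (nat_lit 0) (nat_lit 1012599374335) (nat_lit 152) (nat_lit 4958573918330) (nat_lit 0) (nat_lit 1012498782224) (nat_lit 1) (nat_lit 5) (nat_lit 3) (nat_lit 4) (nat_lit 1) (nat_lit 4) (nat_lit 522) (nat_lit 348) (nat_lit 330))))) (XT.nd (nat_lit 234) (nat_lit 0) (nat_lit 0) (XT.nd (nat_lit 78) (nat_lit 0) (nat_lit 0) (XT.lf (nat_lit 0) (nat_lit 1094503367601) (nat_lit 152) (nat_lit 5353389635004) (nat_lit 0) (nat_lit 1094400288434) (nat_lit 1) (nat_lit 5) (nat_lit 3) (nat_lit 4) (nat_lit 1) (nat_lit 4) (nat_lit 523) (nat_lit 348) (nat_lit 329))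 (XT.nd (nat_lit 78) (nat_lit 0) (nat_lit 0) (XT.lf (nat_lit 0) (nat_lit 1182937835845) (nat_lit 152) (nat_lit 5779835662531) (nat_lit 0) (nat_lit 1182832453849) (nat_lit 1) (nat_lit 5) (nat_lit 3) (nat_lit 4) (nat_lit 1) (nat_lit 4) (nat_lit 524) (nat_lit 348) (nat_lit 328)) (XT.lf (nat_lit 0) (nat_lit 1278426835176) (nat_lit 152) (nat_lit 6240439088482) (nat_lit 0) (nat_lit 1278319320931) (nat_lit 1) (nat_lit 5) (nat_lit 3) (nat_lit 4) (nat_lit 1) (nat_lit 4) (nat_lit 525) (nat_lit 348) (nat_lit 327)))) (XT.nd (nat_lit 78) (nat_lit 0) (nat_lit 0) (XT.lf (nat_lit 0) (nat_lit 1381536226331) (nat_lit 152) (nat_lit 6737929414640) (nat_lit 0) (nat_lit 1381426737780) (nat_lit 1) (nat_lit 5) (nat_lit 3) (nat_lit 4) (nat_lit 1) (nat_lit 4) (nat_lit 526) (nat_lit 348) (nat_lit 326)) (XT.nd (nat_lit 78) (nat_lit 0) (nat_lit 0) (XT.lf (nat_lit 0) (nat_lit 1492877027922) (nat_lit 152) (nat_lit 7275254731826)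 (nat_lit 0) (nat_lit 1492765711312) (nat_lit 1) (nat_lit 5) (nat_lit 3) (nat_lit 4) (nat_lit 1) (nat_lit 4) (nat_lit 527) (nat_lit 348) (nat_lit 325)) (XT.lf (nat_lit 0) (nat_lit 1613109037295) (nat_lit 152) (nat_lit 7855599190068) (nat_lit 0) (nat_lit 1612996028035) (nat_lit 1) (nat_lit 5) (nat_lit 3) (nat_lit 4) (nat_lit 1) (nat_lit 4) (nat_lit 528) (nat_lit 348) (nat_lit 324)))))) (XT.nd (nat_lit 60528) (nat_lit 0) (nat_lit 0) (XT.nd (nat_lit 234) (nat_lit 0) (nat_lit 0) (XT.nd (nat_lit 78) (nat_lit 0) (nat_lit 0) (XT.lf (nat_lit 0) (nat_lit 1742944740429) (nat_lit 152) (nat_lit 8482401867638) (nat_lit 0) (nat_lit 1742830163903) (nat_lit 1) (nat_lit 5) (nat_lit 3) (nat_lit 4) (nat_lit 1) (nat_lit 4) (nat_lit 529) (nat_lit 348) (nat_lit 323)) (XT.nd (nat_lit 78) (nat_lit 0) (nat_lit 0) (XT.lf (nat_lit 0) (nat_lit 1883153534084) (nat_lit 152) (nat_lit 9159377150772) (nat_lit 0) (nat_lit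 1883037506385) (nat_lit 1) (nat_lit 5) (nat_lit 3) (nat_lit 4) (nat_lit 1) (nat_lit 4) (nat_lit 530) (nat_lit 348) (nat_lit 322)) (XT.lf (nat_lit 0) (nat_lit 2034566285186) (nat_lit 152) (nat_lit 9890536744853) (nat_lit 0) (nat_lit 2034448913808) (nat_lit 1) (nat_lit 5) (nat_lit 3) (nat_lit 4) (nat_lit 1) (nat_lit 4) (nat_lit 531) (nat_lit 348) (nat_lit 321)))) (XT.nd (nat_lit 60138) (nat_lit 0) (nat_lit 0) (XT.lf (nat_lit 0) (nat_lit 2198080254482) (nat_lit 152) (nat_lit 10680213447475) (nat_lit 0) (nat_lit 2197961638956) (nat_lit 1) (nat_lit 5) (nat_lit 3) (nat_lit 4) (nat_lit 1) (nat_lit 4) (nat_lit 532) (nat_lit 348) (nat_lit 320)) (XT.nd (nat_lit 78) (nat_lit 0) (nat_lit 0) (XT.lf (nat_lit 0) (nat_lit 101449224828) (nat_lit 152) (nat_lit 546847536046) (nat_lit 0) (nat_lit 101449224828) (nat_lit 1) (nat_lit 5) (nat_lit 3) (nat_lit 4) (nat_lit 1) (nat_lit 4) (nat_lit 502) (nat_lit 349)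 (nat_lit 349)) (XT.lf (nat_lit 0) (nat_lit 221052262331) (nat_lit 152) (nat_lit 1177202839116) (nat_lit 0) (nat_lit 221041528942) (nat_lit 1) (nat_lit 5) (nat_lit 3) (nat_lit 4) (nat_lit 1) (nat_lit 4) (nat_lit 503) (nat_lit 349) (nat_lit 348))))) (XT.nd (nat_lit 234) (nat_lit 0) (nat_lit 0) (XT.nd (nat_lit 78) (nat_lit 0) (nat_lit 0) (XT.lf (nat_lit 0) (nat_lit 240564105762) (nat_lit 152) (nat_lit 1267585665021) (nat_lit 0) (nat_lit 240543434049) (nat_lit 1) (nat_lit 5) (nat_lit 3) (nat_lit 4) (nat_lit 1) (nat_lit 4) (nat_lit 504) (nat_lit 349) (nat_lit 347)) (XT.nd (nat_lit 78) (nat_lit 0) (nat_lit 0) (XT.lf (nat_lit 0) (nat_lit 261549605688) (nat_lit 152) (nat_lit 1365379151740) (nat_lit 0) (nat_lit 261519731824) (nat_lit 1) (nat_lit 5) (nat_lit 3) (nat_lit 4) (nat_lit 1) (nat_lit 4) (nat_lit 505) (nat_lit 349) (nat_lit 346)) (XT.lf (nat_lit 0) (nat_lit 284133120627) (nat_lit 152) (nat_lit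 1471162816229) (nat_lit 0) (nat_lit 284094726253) (nat_lit 1) (nat_lit 5) (nat_lit 3) (nat_lit 4) (nat_lit 1) (nat_lit 4) (nat_lit 506) (nat_lit 349) (nat_lit 345)))) (XT.nd (nat_lit 78) (nat_lit 0) (nat_lit 0) (XT.lf (nat_lit 0) (nat_lit 308448478816) (nat_lit 152) (nat_lit 1585563524650) (nat_lit 0) (nat_lit 308402195081) (nat_lit 1) (nat_lit 5) (nat_lit 3) (nat_lit 4) (nat_lit 1) (nat_lit 4) (nat_lit 507) (nat_lit 349) (nat_lit 344)) (XT.nd (nat_lit 78) (nat_lit 0) (nat_lit 0) (XT.lf (nat_lit 0) (nat_lit 334639771267) (nat_lit 152) (nat_lit 1709259207126) (nat_lit 0) (nat_lit 334586182568) (nat_lit 1) (nat_lit 5) (nat_lit 3) (nat_lit 4) (nat_lit 1) (nat_lit 4) (nat_lit 508) (nat_lit 349) (nat_lit 343)) (XT.lf (nat_lit 0) (nat_lit 362862205639) (nat_lit 152) (nat_lit 1842982875108) (nat_lit 0) (nat_lit 362801853083) (nat_lit 1) (nat_lit 5) (nat_lit 3) (nat_lit 4) (nat_lit 1) (nat_lit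 4) (nat_lit 509) (nat_lit 349) (nat_lit 342))))))))
noncomputable def xc5 : XT := (XT.nd (nat_lit 61698) (nat_lit 0) (nat_lit 0) (XT.nd (nat_lit 858) (nat_lit 0) (nat_lit 0) (XT.nd (nat_lit 390) (nat_lit 0) (nat_lit 0) (XT.nd (nat_lit 156) (nat_lit 0) (nat_lit 0) (XT.nd (nat_lit 78) (nat_lit 0) (nat_lit 0) (XT.lf (nat_lit 0) (nat_lit 393283025986) (nat_lit 152) (nat_lit 1987526965148) (nat_lit 0) (nat_lit 393216410601) (nat_lit 1) (nat_lit 5) (nat_lit 3) (nat_lit 4) (nat_lit 1) (nat_lit 4) (nat_lit 510) (nat_lit 349) (nat_lit 341)) (XT.lf (nat_lit 0) (nat_lit 426082503837) (nat_lit 152) (nat_lit 2143748034817) (nat_lit 0) (nat_lit 426010089537) (nat_lit 1) (nat_lit 5) (nat_lit 3) (nat_lit 4) (nat_lit 1) (nat_lit 4) (nat_lit 511) (nat_lit 349) (nat_lit 340))) (XT.nd (nat_lit 78) (nat_lit 0) (nat_lit 0) (XT.lf (nat_lit 0) (nat_lit 461455006469) (nat_lit 152) (nat_lit 2312571838601) (nat_lit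 0) (nat_lit 461377222801) (nat_lit 1) (nat_lit 5) (nat_lit 3) (nat_lit 4) (nat_lit 1) (nat_lit 4) (nat_lit 512) (nat_lit 349) (nat_lit 339)) (XT.nd (nat_lit 78) (nat_lit 0) (nat_lit 0) (XT.lf (nat_lit 0) (nat_lit 499610148711) (nat_lit 152) (nat_lit 2494998813856) (nat_lit 0) (nat_lit 499527393408) (nat_lit 1) (nat_lit 5) (nat_lit 3) (nat_lit 4) (nat_lit 1) (nat_lit 4) (nat_lit 513) (nat_lit 349) (nat_lit 338)) (XT.lf (nat_lit 0) (nat_lit 540774035111) (nat_lit 152) (nat_lit 2692110009324) (nat_lit 0) (nat_lit 540686676441) (nat_lit 1) (nat_lit 5) (nat_lit 3) (nat_lit 4) (nat_lit 1) (nat_lit 4) (nat_lit 514) (nat_lit 349) (nat_lit 337))))) (XT.nd (nat_lit 234) (nat_lit 0) (nat_lit 0) (XT.nd (nat_lit 78) (nat_lit 0) (nat_lit 0) (XT.lf (nat_lit 0) (nat_lit 585190599809) (nat_lit 152) (nat_lit 2905073491349) (nat_lit 0) (nat_lit 585098978762) (nat_lit 1) (nat_lit 5) (nat_lit 3) (nat_lit 4)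 (nat_lit 1) (nat_lit 4) (nat_lit 515) (nat_lit 349) (nat_lit 336)) (XT.nd (nat_lit 78) (nat_lit 0) (nat_lit 0) (XT.lf (nat_lit 0) (nat_lit 633123052078) (nat_lit 152) (nat_lit 3135151265751) (nat_lit 0) (nat_lit 633027484387) (nat_lit 1) (nat_lit 5) (nat_lit 3) (nat_lit 4) (nat_lit 1) (nat_lit 4) (nat_lit 516) (nat_lit 349) (nat_lit 335)) (XT.lf (nat_lit 0) (nat_lit 684855436081) (nat_lit 152) (nat_lit 3383706756377) (nat_lit 0) (nat_lit 684756214088) (nat_lit 1) (nat_lit 5) (nat_lit 3) (nat_lit 4) (nat_lit 1) (nat_lit 4) (nat_lit 517) (nat_lit 349) (nat_lit 334)))) (XT.nd (nat_lit 78) (nat_lit 0) (nat_lit 0) (XT.lf (nat_lit 0) (nat_lit 740694314091) (nat_lit 152) (nat_lit 3652212884653) (nat_lit 0) (nat_lit 740591708487) (nat_lit 1) (nat_lit 5) (nat_lit 3) (nat_lit 4) (nat_lit 1) (nat_lit 4) (nat_lit 518) (nat_lit 349) (nat_lit 333)) (XT.nd (nat_lit 78) (nat_lit 0) (nat_lit 0) (XT.lf (nat_lit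 0) (nat_lit 800970583165) (nat_lit 152) (nat_lit 3942260798007) (nat_lit 0) (nat_lit 800864844586) (nat_lit 1) (nat_lit 5) (nat_lit 3) (nat_lit 4) (nat_lit 1) (nat_lit 4) (nat_lit 519) (nat_lit 349) (nat_lit 332)) (XT.lf (nat_lit 0) (nat_lit 866041436007) (nat_lit 152) (nat_lit 4255569298888) (nat_lit 0) (nat_lit 865932796527) (nat_lit 1) (nat_lit 5) (nat_lit 3) (nat_lit 4) (nat_lit 1) (nat_lit 4) (nat_lit 520) (nat_lit 349) (nat_lit 331)))))) (XT.nd (nat_lit 468) (nat_lit 0) (nat_lit 0) (XT.nd (nat_lit 234) (nat_lit 0) (nat_lit 0) (XT.nd (nat_lit 78) (nat_lit 0) (nat_lit 0) (XT.lf (nat_lit 0) (nat_lit 936292477672) (nat_lit 152) (nat_lit 4593995030263) (nat_lit 0) (nat_lit 936181152172) (nat_lit 1) (nat_lit 5) (nat_lit 3) (nat_lit 4) (nat_lit 1) (nat_lit 4) (nat_lit 521) (nat_lit 349) (nat_lit 330)) (XT.nd (nat_lit 78) (nat_lit 0) (nat_lit 0) (XT.lf (nat_lit 0) (nat_lit 1012140010629)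 (nat_lit 152) (nat_lit 4959543477949) (nat_lit 0) (nat_lit 1012026198073) (nat_lit 1) (nat_lit 5) (nat_lit 3) (nat_lit 4) (nat_lit 1) (nat_lit 4) (nat_lit 522) (nat_lit 349) (nat_lit 329)) (XT.lf (nat_lit 0) (nat_lit 1094033501740) (nat_lit 152) (nat_lit 5354380854969) (nat_lit 0) (nat_lit 1093917386354) (nat_lit 1) (nat_lit 5) (nat_lit 3) (nat_lit 4) (nat_lit 1) (nat_lit 4) (nat_lit 523) (nat_lit 349) (nat_lit 328)))) (XT.nd (nat_lit 78) (nat_lit 0) (nat_lit 0) (XT.lf (nat_lit 0) (nat_lit 1182458245766) (nat_lit 152) (nat_lit 5780846938372) (nat_lit 0) (nat_lit 1182339998131) (nat_lit 1) (nat_lit 5) (nat_lit 3) (nat_lit 4) (nat_lit 1) (nat_lit 4) (nat_lit 524) (nat_lit 349) (nat_lit 327)) (XT.nd (nat_lit 78) (nat_lit 0) (nat_lit 0) (XT.lf (nat_lit 0) (nat_lit 1277938241192) (nat_lit 152) (nat_lit 6241468934578) (nat_lit 0) (nat_lit 1277818019252) (nat_lit 1) (nat_lit 5) (nat_lit 3) (nat_lit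 4) (nat_lit 1) (nat_lit 4) (nat_lit 525) (nat_lit 349) (nat_lit 326)) (XT.lf (nat_lit 0) (nat_lit 1381039295397) (nat_lit 152) (nat_lit 6738976455416) (nat_lit 0) (nat_lit 1380917245397) (nat_lit 1) (nat_lit 5) (nat_lit 3) (nat_lit 4) (nat_lit 1) (nat_lit 4) (nat_lit 526) (nat_lit 349) (nat_lit 325))))) (XT.nd (nat_lit 234) (nat_lit 0) (nat_lit 0) (XT.nd (nat_lit 78) (nat_lit 0) (nat_lit 0) (XT.lf (nat_lit 0) (nat_lit 1492372377591) (nat_lit 152) (nat_lit 7276317693603) (nat_lit 0) (nat_lit 1492248634942) (nat_lit 1) (nat_lit 5) (nat_lit 3) (nat_lit 4) (nat_lit 1) (nat_lit 4) (nat_lit 527) (nat_lit 349) (nat_lit 324)) (XT.nd (nat_lit 78) (nat_lit 0) (nat_lit 0) (XT.lf (nat_lit 0) (nat_lit 1612597239373) (nat_lit 152) (nat_lit 7856676893513) (nat_lit 0) (nat_lit 1612471929457) (nat_lit 1) (nat_lit 5) (nat_lit 3) (nat_lit 4) (nat_lit 1) (nat_lit 4) (nat_lit 528) (nat_lit 349) (nat_lit 323))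 (XT.lf (nat_lit 0) (nat_lit 1742426324368) (nat_lit 152) (nat_lit 8483493220774) (nat_lit 0) (nat_lit 1742299563279) (nat_lit 1) (nat_lit 5) (nat_lit 3) (nat_lit 4) (nat_lit 1) (nat_lit 4) (nat_lit 529) (nat_lit 349) (nat_lit 322)))) (XT.nd (nat_lit 78) (nat_lit 0) (nat_lit 0) (XT.lf (nat_lit 0) (nat_lit 1882628990116) (nat_lit 152) (nat_lit 9160481142513) (nat_lit 0) (nat_lit 1882500885349) (nat_lit 1) (nat_lit 5) (nat_lit 3) (nat_lit 4) (nat_lit 1) (nat_lit 4) (nat_lit 530) (nat_lit 349) (nat_lit 321)) (XT.nd (nat_lit 78) (nat_lit 0) (nat_lit 0) (XT.lf (nat_lit 0) (nat_lit 2034036067230) (nat_lit 152) (nat_lit 9891652439004) (nat_lit 0) (nat_lit 2033906718316) (nat_lit 1) (nat_lit 5) (nat_lit 3) (nat_lit 4) (nat_lit 1) (nat_lit 4) (nat_lit 531) (nat_lit 349) (nat_lit 320)) (XT.lf (nat_lit 0) (nat_lit 2197544782834) (nat_lit 152) (nat_lit 10681339977192) (nat_lit 0) (nat_lit 2197414281931)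 (nat_lit 1) (nat_lit 5) (nat_lit 3) (nat_lit 4) (nat_lit 1) (nat_lit 4) (nat_lit 532) (nat_lit 349) (nat_lit 319))))))) (XT.nd (nat_lit 936) (nat_lit 0) (nat_lit 0) (XT.nd (nat_lit 468) (nat_lit 0) (nat_lit 0) (XT.nd (nat_lit 234) (nat_lit 0) (nat_lit 0) (XT.nd (nat_lit 78) (nat_lit 0) (nat_lit 0) (XT.lf (nat_lit 0) (nat_lit 85153236117) (nat_lit 152) (nat_lit 472627022662) (nat_lit 0) (nat_lit 85153236117) (nat_lit 1) (nat_lit 5) (nat_lit 3) (nat_lit 4) (nat_lit 1) (nat_lit 4) (nat_lit 500) (nat_lit 350) (nat_lit 350)) (XT.nd (nat_lit 78) (nat_lit 0) (nat_lit 0) (XT.lf (nat_lit 0) (nat_lit 186006681650) (nat_lit 152) (nat_lit 1016567503107) (nat_lit 0) (nat_lit 185995089590) (nat_lit 1) (nat_lit 5) (nat_lit 3) (nat_lit 4) (nat_lit 1) (nat_lit 4) (nat_lit 501) (nat_lit 350) (nat_lit 349)) (XT.lf (nat_lit 0) (nat_lit 202861091622) (nat_lit 152) (nat_lit 1093796030034) (nat_lit 0) (nat_lit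 202838766173) (nat_lit 1) (nat_lit 5) (nat_lit 3) (nat_lit 4) (nat_lit 1) (nat_lit 4) (nat_lit 502) (nat_lit 350) (nat_lit 348)))) (XT.nd (nat_lit 78) (nat_lit 0) (nat_lit 0) (XT.lf (nat_lit 0) (nat_lit 220969580134) (nat_lit 152) (nat_lit 1177397276635) (nat_lit 0) (nat_lit 220937316361) (nat_lit 1) (nat_lit 5) (nat_lit 3) (nat_lit 4) (nat_lit 1) (nat_lit 4) (nat_lit 503) (nat_lit 350) (nat_lit 347)) (XT.nd (nat_lit 78) (nat_lit 0) (nat_lit 0) (XT.lf (nat_lit 0) (nat_lit 240439456748) (nat_lit 152) (nat_lit 1267866657704) (nat_lit 0) (nat_lit 240397990824) (nat_lit 1) (nat_lit 5) (nat_lit 3) (nat_lit 4) (nat_lit 1) (nat_lit 4) (nat_lit 504) (nat_lit 350) (nat_lit 346)) (XT.lf (nat_lit 0) (nat_lit 261386098510) (nat_lit 152) (nat_lit 1365740288093) (nat_lit 0) (nat_lit 261336112076) (nat_lit 1) (nat_lit 5) (nat_lit 3) (nat_lit 4) (nat_lit 1) (nat_lit 4) (nat_lit 505) (nat_lit 350) (nat_lit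 345))))) (XT.nd (nat_lit 234) (nat_lit 0) (nat_lit 0) (XT.nd (nat_lit 78) (nat_lit 0) (nat_lit 0) (XT.lf (nat_lit 0) (nat_lit 283933633668) (nat_lit 152) (nat_lit 1471598159684) (nat_lit 0) (nat_lit 283875757872) (nat_lit 1) (nat_lit 5) (nat_lit 3) (nat_lit 4) (nat_lit 1) (nat_lit 4) (nat_lit 506) (nat_lit 350) (nat_lit 344)) (XT.nd (nat_lit 78) (nat_lit 0) (nat_lit 0) (XT.lf (nat_lit 0) (nat_lit 308215677245) (nat_lit 152) (nat_lit 1586067578385) (nat_lit 0) (nat_lit 308150496485) (nat_lit 1) (nat_lit 5) (nat_lit 3) (nat_lit 4) (nat_lit 1) (nat_lit 4) (nat_lit 507) (nat_lit 350) (nat_lit 343)) (XT.lf (nat_lit 0) (nat_lit 334376122832) (nat_lit 152) (nat_lit 1709826881489) (nat_lit 0) (nat_lit 334304178217) (nat_lit 1) (nat_lit 5) (nat_lit 3) (nat_lit 4) (nat_lit 1) (nat_lit 4) (nat_lit 508) (nat_lit 350) (nat_lit 342)))) (XT.nd (nat_lit 78) (nat_lit 0) (nat_lit 0) (XT.lf (nat_lit 0) (nat_lit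 362569995293) (nat_lit 152) (nat_lit 1843609457462) (nat_lit 0) (nat_lit 362491787848) (nat_lit 1) (nat_lit 5) (nat_lit 3) (nat_lit 4) (nat_lit 1) (nat_lit 4) (nat_lit 509) (nat_lit 350) (nat_lit 341)) (XT.nd (nat_lit 78) (nat_lit 0) (nat_lit 0) (XT.lf (nat_lit 0) (nat_lit 392964369427) (nat_lit 152) (nat_lit 1988208091937) (nat_lit 0) (nat_lit 392880363066) (nat_lit 1) (nat_lit 5) (nat_lit 3) (nat_lit 4) (nat_lit 1) (nat_lit 4) (nat_lit 510) (nat_lit 350) (nat_lit 340)) (XT.lf (nat_lit 0) (nat_lit 425739360044) (nat_lit 152) (nat_lit 2144479665713) (nat_lit 0) (nat_lit 425649984316) (nat_lit 1) (nat_lit 5) (nat_lit 3) (nat_lit 4) (nat_lit 1) (nat_lit 4) (nat_lit 511) (nat_lit 350) (nat_lit 339)))))) (XT.nd (nat_lit 468) (nat_lit 0) (nat_lit 0) (XT.nd (nat_lit 234) (nat_lit 0) (nat_lit 0) (XT.nd (nat_lit 78) (nat_lit 0) (nat_lit 0) (XT.lf (nat_lit 0) (nat_lit 461089189311) (nat_lit 152)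 (nat_lit 2313350232558) (nat_lit 0) (nat_lit 460994841947) (nat_lit 1) (nat_lit 5) (nat_lit 3) (nat_lit 4) (nat_lit 1) (nat_lit 4) (nat_lit 512) (nat_lit 350) (nat_lit 338)) (XT.nd (nat_lit 78) (nat_lit 0) (nat_lit 0) (XT.lf (nat_lit 0) (nat_lit 499223337696) (nat_lit 152) (nat_lit 2495820506945) (nat_lit 0) (nat_lit 499124386966) (nat_lit 1) (nat_lit 5) (nat_lit 3) (nat_lit 4) (nat_lit 1) (nat_lit 4) (nat_lit 513) (nat_lit 350) (nat_lit 337)) (XT.lf (nat_lit 0) (nat_lit 540367785339) (nat_lit 152) (nat_lit 2692971794201) (nat_lit 0) (nat_lit 540264572232) (nat_lit 1) (nat_lit 5) (nat_lit 3) (nat_lit 4) (nat_lit 1) (nat_lit 4) (nat_lit 514) (nat_lit 350) (nat_lit 336)))) (XT.nd (nat_lit 78) (nat_lit 0) (nat_lit 0) (XT.lf (nat_lit 0) (nat_lit 584766351189) (nat_lit 152) (nat_lit 2905972398252) (nat_lit 0) (nat_lit 584659191437) (nat_lit 1) (nat_lit 5) (nat_lit 3) (nat_lit 4) (nat_lit 1)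 (nat_lit 4) (nat_lit 515) (nat_lit 350) (nat_lit 335)) (XT.nd (nat_lit 78) (nat_lit 0) (nat_lit 0) (XT.lf (nat_lit 0) (nat_lit 632682137858) (nat_lit 152) (nat_lit 3136084544900) (nat_lit 0) (nat_lit 632571323805) (nat_lit 1) (nat_lit 5) (nat_lit 3) (nat_lit 4) (nat_lit 1) (nat_lit 4) (nat_lit 516) (nat_lit 350) (nat_lit 334)) (XT.lf (nat_lit 0) (nat_lit 684399090749) (nat_lit 152) (nat_lit 3384671861680) (nat_lit 0) (nat_lit 684284893084) (nat_lit 1) (nat_lit 5) (nat_lit 3) (nat_lit 4) (nat_lit 1) (nat_lit 4) (nat_lit 517) (nat_lit 350) (nat_lit 333))))) (XT.nd (nat_lit 234) (nat_lit 0) (nat_lit 0) (XT.nd (nat_lit 78) (nat_lit 0) (nat_lit 0) (XT.lf (nat_lit 0) (nat_lit 740223680693) (nat_lit 152) (nat_lit 3653207458618) (nat_lit 0) (nat_lit 740106350054) (nat_lit 1) (nat_lit 5) (nat_lit 3) (nat_lit 4) (nat_lit 1) (nat_lit 4) (nat_lit 518) (nat_lit 350) (nat_lit 332)) (XT.nd (nat_lit 78)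 (nat_lit 0) (nat_lit 0) (XT.lf (nat_lit 0) (nat_lit 800486720076) (nat_lit 152) (nat_lit 3943282657769) (nat_lit 0) (nat_lit 800366488535) (nat_lit 1) (nat_lit 5) (nat_lit 3) (nat_lit 4) (nat_lit 1) (nat_lit 4) (nat_lit 519) (nat_lit 350) (nat_lit 331)) (XT.lf (nat_lit 0) (nat_lit 865545323204) (nat_lit 152) (nat_lit 4256616423276) (nat_lit 0) (nat_lit 865422405644) (nat_lit 1) (nat_lit 5) (nat_lit 3) (nat_lit 4) (nat_lit 1) (nat_lit 4) (nat_lit 520) (nat_lit 350) (nat_lit 330)))) (XT.nd (nat_lit 78) (nat_lit 0) (nat_lit 0) (XT.lf (nat_lit 0) (nat_lit 935785022542) (nat_lit 152) (nat_lit 4595065547825) (nat_lit 0) (nat_lit 935659617925) (nat_lit 1) (nat_lit 5) (nat_lit 3) (nat_lit 4) (nat_lit 1) (nat_lit 4) (nat_lit 521) (nat_lit 350) (nat_lit 329)) (XT.nd (nat_lit 78) (nat_lit 0) (nat_lit 0) (XT.lf (nat_lit 0) (nat_lit 1011622053343) (nat_lit 152) (nat_lit 4960635655857) (nat_lit 0) (nat_lit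 1011494345898) (nat_lit 1) (nat_lit 5) (nat_lit 3) (nat_lit 4) (nat_lit 1) (nat_lit 4) (nat_lit 522) (nat_lit 350) (nat_lit 328)) (XT.lf (nat_lit 0) (nat_lit 1093505820236) (nat_lit 152) (nat_lit 5355493088753) (nat_lit 0) (nat_lit 1093375980541) (nat_lit 1) (nat_lit 5) (nat_lit 3) (nat_lit 4) (nat_lit 1) (nat_lit 4) (nat_lit 523) (nat_lit 350) (nat_lit 327))))))))
noncomputable def xc6 : XT := (XT.nd (nat_lit 61542) (nat_lit 0) (nat_lit 0) (XT.nd (nat_lit 60606) (nat_lit 0) (nat_lit 0) (XT.nd (nat_lit 390) (nat_lit 0) (nat_lit 0) (XT.nd (nat_lit 156) (nat_lit 0) (nat_lit 0) (XT.nd (nat_lit 78) (nat_lit 0) (nat_lit 0) (XT.lf (nat_lit 0) (nat_lit 1181921560357) (nat_lit 152) (nat_lit 5781977742411) (nat_lit 0) (nat_lit 1181789746357) (nat_lit 1) (nat_lit 5) (nat_lit 3) (nat_lit 4) (nat_lit 1) (nat_lit 4) (nat_lit 524) (nat_lit 350) (nat_lit 326)) (XT.lf (nat_lit 0) (nat_lit 1277393218834)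 (nat_lit 152) (nat_lit 6242616933297) (nat_lit 0) (nat_lit 1277259576773) (nat_lit 1) (nat_lit 5) (nat_lit 3) (nat_lit 4) (nat_lit 1) (nat_lit 4) (nat_lit 525) (nat_lit 350) (nat_lit 325))) (XT.nd (nat_lit 78) (nat_lit 0) (nat_lit 0) (XT.lf (nat_lit 0) (nat_lit 1380486553641) (nat_lit 152) (nat_lit 6740140375136) (nat_lit 0) (nat_lit 1380351218932) (nat_lit 1) (nat_lit 5) (nat_lit 3) (nat_lit 4) (nat_lit 1) (nat_lit 4) (nat_lit 526) (nat_lit 350) (nat_lit 324)) (XT.nd (nat_lit 78) (nat_lit 0) (nat_lit 0) (XT.lf (nat_lit 0) (nat_lit 1491812488245) (nat_lit 152) (nat_lit 7277496354990) (nat_lit 0) (nat_lit 1491675586269) (nat_lit 1) (nat_lit 5) (nat_lit 3) (nat_lit 4) (nat_lit 1) (nat_lit 4) (nat_lit 527) (nat_lit 350) (nat_lit 323)) (XT.lf (nat_lit 0) (nat_lit 1612030731888) (nat_lit 152) (nat_lit 7857869204592) (nat_lit 0) (nat_lit 1611892378739) (nat_lit 1) (nat_lit 5) (nat_lit 3) (nat_lit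 4) (nat_lit 1) (nat_lit 4) (nat_lit 528) (nat_lit 350) (nat_lit 322))))) (XT.nd (nat_lit 234) (nat_lit 0) (nat_lit 0) (XT.nd (nat_lit 78) (nat_lit 0) (nat_lit 0) (XT.lf (nat_lit 0) (nat_lit 1741853688976) (nat_lit 152) (nat_lit 8484698170457) (nat_lit 0) (nat_lit 1741713992148) (nat_lit 1) (nat_lit 5) (nat_lit 3) (nat_lit 4) (nat_lit 1) (nat_lit 4) (nat_lit 529) (nat_lit 350) (nat_lit 321)) (XT.nd (nat_lit 78) (nat_lit 0) (nat_lit 0) (XT.lf (nat_lit 0) (nat_lit 1882050680737) (nat_lit 152) (nat_lit 9161697794606) (nat_lit 0) (nat_lit 1881909739762) (nat_lit 1) (nat_lit 5) (nat_lit 3) (nat_lit 4) (nat_lit 1) (nat_lit 4) (nat_lit 530) (nat_lit 350) (nat_lit 320)) (XT.lf (nat_lit 0) (nat_lit 2033452504159) (nat_lit 152) (nat_lit 9892879926664) (nat_lit 0) (nat_lit 2033310411196) (nat_lit 1) (nat_lit 5) (nat_lit 3) (nat_lit 4) (nat_lit 1) (nat_lit 4) (nat_lit 531) (nat_lit 350) (nat_lit 319))))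 (XT.nd (nat_lit 59826) (nat_lit 0) (nat_lit 0) (XT.lf (nat_lit 0) (nat_lit 2196956355232) (nat_lit 152) (nat_lit 10682577497782) (nat_lit 0) (nat_lit 2196813195614) (nat_lit 1) (nat_lit 5) (nat_lit 3) (nat_lit 4) (nat_lit 1) (nat_lit 4) (nat_lit 532) (nat_lit 350) (nat_lit 318)) (XT.nd (nat_lit 78) (nat_lit 0) (nat_lit 0) (XT.lf (nat_lit 0) (nat_lit 71036202570) (nat_lit 152) (nat_lit 409298367373) (nat_lit 0) (nat_lit 71036202570) (nat_lit 1) (nat_lit 5) (nat_lit 3) (nat_lit 4) (nat_lit 1) (nat_lit 4) (nat_lit 498) (nat_lit 351) (nat_lit 351)) (XT.lf (nat_lit 0) (nat_lit 155679944520) (nat_lit 152) (nat_lit 879433058416) (nat_lit 0) (nat_lit 155667425095) (nat_lit 1) (nat_lit 5) (nat_lit 3) (nat_lit 4) (nat_lit 1) (nat_lit 4) (nat_lit 499) (nat_lit 351) (nat_lit 350)))))) (XT.nd (nat_lit 468) (nat_lit 0) (nat_lit 0) (XT.nd (nat_lit 234) (nat_lit 0) (nat_lit 0) (XT.nd (nat_lit 78) (nat_lit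 0) (nat_lit 0) (XT.lf (nat_lit 0) (nat_lit 170266125556) (nat_lit 152) (nat_lit 945363079902) (nat_lit 0) (nat_lit 170242014071) (nat_lit 1) (nat_lit 5) (nat_lit 3) (nat_lit 4) (nat_lit 1) (nat_lit 4) (nat_lit 500) (nat_lit 351) (nat_lit 349)) (XT.nd (nat_lit 78) (nat_lit 0) (nat_lit 0) (XT.lf (nat_lit 0) (nat_lit 185917384877) (nat_lit 152) (nat_lit 1016777495629) (nat_lit 0) (nat_lit 185882540003) (nat_lit 1) (nat_lit 5) (nat_lit 3) (nat_lit 4) (nat_lit 1) (nat_lit 4) (nat_lit 501) (nat_lit 351) (nat_lit 348)) (XT.lf (nat_lit 0) (nat_lit 202726470687) (nat_lit 152) (nat_lit 1094099502132) (nat_lit 0) (nat_lit 202681687489) (nat_lit 1) (nat_lit 5) (nat_lit 3) (nat_lit 4) (nat_lit 1) (nat_lit 4) (nat_lit 502) (nat_lit 351) (nat_lit 347)))) (XT.nd (nat_lit 78) (nat_lit 0) (nat_lit 0) (XT.lf (nat_lit 0) (nat_lit 220792992382) (nat_lit 152) (nat_lit 1177787303897) (nat_lit 0) (nat_lit 220739007033)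 (nat_lit 1) (nat_lit 5) (nat_lit 3) (nat_lit 4) (nat_lit 1) (nat_lit 4) (nat_lit 503) (nat_lit 351) (nat_lit 346)) (XT.nd (nat_lit 78) (nat_lit 0) (nat_lit 0) (XT.lf (nat_lit 0) (nat_lit 240224010832) (nat_lit 152) (nat_lit 1268336828636) (nat_lit 0) (nat_lit 240161504973) (nat_lit 1) (nat_lit 5) (nat_lit 3) (nat_lit 4) (nat_lit 1) (nat_lit 4) (nat_lit 504) (nat_lit 351) (nat_lit 345)) (XT.lf (nat_lit 0) (nat_lit 261134672812) (nat_lit 152) (nat_lit 1366284666126) (nat_lit 0) (nat_lit 261064277592) (nat_lit 1) (nat_lit 5) (nat_lit 3) (nat_lit 4) (nat_lit 1) (nat_lit 4) (nat_lit 505) (nat_lit 351) (nat_lit 344))))) (XT.nd (nat_lit 234) (nat_lit 0) (nat_lit 0) (XT.nd (nat_lit 78) (nat_lit 0) (nat_lit 0) (XT.lf (nat_lit 0) (nat_lit 283648893358) (nat_lit 152) (nat_lit 1472211247997) (nat_lit 0) (nat_lit 283571193173) (nat_lit 1) (nat_lit 5) (nat_lit 3) (nat_lit 4) (nat_lit 1) (nat_lit 4) (nat_lit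 506) (nat_lit 351) (nat_lit 343)) (XT.nd (nat_lit 78) (nat_lit 0) (nat_lit 0) (XT.lf (nat_lit 0) (nat_lit 307900090072) (nat_lit 152) (nat_lit 1586744287327) (nat_lit 0) (nat_lit 307815626031) (nat_lit 1) (nat_lit 5) (nat_lit 3) (nat_lit 4) (nat_lit 1) (nat_lit 4) (nat_lit 507) (nat_lit 351) (nat_lit 342)) (XT.lf (nat_lit 0) (nat_lit 334031973749) (nat_lit 152) (nat_lit 1710562498422) (nat_lit 0) (nat_lit 333941246879) (nat_lit 1) (nat_lit 5) (nat_lit 3) (nat_lit 4) (nat_lit 1) (nat_lit 4) (nat_lit 508) (nat_lit 351) (nat_lit 341)))) (XT.nd (nat_lit 78) (nat_lit 0) (nat_lit 0) (XT.lf (nat_lit 0) (nat_lit 362199399997) (nat_lit 152) (nat_lit 1844399618829) (nat_lit 0) (nat_lit 362102874211) (nat_lit 1) (nat_lit 5) (nat_lit 3) (nat_lit 4) (nat_lit 1) (nat_lit 4) (nat_lit 509) (nat_lit 351) (nat_lit 340)) (XT.nd (nat_lit 78) (nat_lit 0) (nat_lit 0) (XT.lf (nat_lit 0) (nat_lit 392569286896)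 (nat_lit 152) (nat_lit 1989048757411) (nat_lit 0) (nat_lit 392467391743) (nat_lit 1) (nat_lit 5) (nat_lit 3) (nat_lit 4) (nat_lit 1) (nat_lit 4) (nat_lit 510) (nat_lit 351) (nat_lit 339)) (XT.lf (nat_lit 0) (nat_lit 425321604148) (nat_lit 152) (nat_lit 2145367094248) (nat_lit 0) (nat_lit 425214737359) (nat_lit 1) (nat_lit 5) (nat_lit 3) (nat_lit 4) (nat_lit 1) (nat_lit 4) (nat_lit 511) (nat_lit 351) (nat_lit 338))))))) (XT.nd (nat_lit 936) (nat_lit 0) (nat_lit 0) (XT.nd (nat_lit 468) (nat_lit 0) (nat_lit 0) (XT.nd (nat_lit 234) (nat_lit 0) (nat_lit 0) (XT.nd (nat_lit 78) (nat_lit 0) (nat_lit 0) (XT.lf (nat_lit 0) (nat_lit 460650439557) (nat_lit 152) (nat_lit 2314280960225) (nat_lit 0) (nat_lit 460538969402) (nat_lit 1) (nat_lit 5) (nat_lit 3) (nat_lit 4) (nat_lit 1) (nat_lit 4) (nat_lit 512) (nat_lit 351) (nat_lit 337)) (XT.nd (nat_lit 78) (nat_lit 0) (nat_lit 0) (XT.lf (nat_lit 0) (nat_lit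 498765149186) (nat_lit 152) (nat_lit 2496791326400) (nat_lit 0) (nat_lit 498649416654) (nat_lit 1) (nat_lit 5) (nat_lit 3) (nat_lit 4) (nat_lit 1) (nat_lit 4) (nat_lit 513) (nat_lit 351) (nat_lit 336)) (XT.lf (nat_lit 0) (nat_lit 539891597981) (nat_lit 152) (nat_lit 2693979735682) (nat_lit 0) (nat_lit 539771918804) (nat_lit 1) (nat_lit 5) (nat_lit 3) (nat_lit 4) (nat_lit 1) (nat_lit 4) (nat_lit 514) (nat_lit 351) (nat_lit 335)))) (XT.nd (nat_lit 78) (nat_lit 0) (nat_lit 0) (XT.lf (nat_lit 0) (nat_lit 584273498230) (nat_lit 152) (nat_lit 2907014711980) (nat_lit 0) (nat_lit 584150164753) (nat_lit 1) (nat_lit 5) (nat_lit 3) (nat_lit 4) (nat_lit 1) (nat_lit 4) (nat_lit 515) (nat_lit 351) (nat_lit 334)) (XT.nd (nat_lit 78) (nat_lit 0) (nat_lit 0) (XT.lf (nat_lit 0) (nat_lit 632173853788) (nat_lit 152) (nat_lit 3137158684782) (nat_lit 0) (nat_lit 632047136698) (nat_lit 1) (nat_lit 5) (nat_lit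 3) (nat_lit 4) (nat_lit 1) (nat_lit 4) (nat_lit 516) (nat_lit 351) (nat_lit 333)) (XT.lf (nat_lit 0) (nat_lit 683876518612) (nat_lit 152) (nat_lit 3385775470223) (nat_lit 0) (nat_lit 683746668549) (nat_lit 1) (nat_lit 5) (nat_lit 3) (nat_lit 4) (nat_lit 1) (nat_lit 4) (nat_lit 517) (nat_lit 351) (nat_lit 332))))) (XT.nd (nat_lit 234) (nat_lit 0) (nat_lit 0) (XT.nd (nat_lit 78) (nat_lit 0) (nat_lit 0) (XT.lf (nat_lit 0) (nat_lit 739687878866) (nat_lit 152) (nat_lit 3654338352958) (nat_lit 0) (nat_lit 739555127901) (nat_lit 1) (nat_lit 5) (nat_lit 3) (nat_lit 4) (nat_lit 1) (nat_lit 4) (nat_lit 518) (nat_lit 351) (nat_lit 331)) (XT.nd (nat_lit 78) (nat_lit 0) (nat_lit 0) (XT.lf (nat_lit 0) (nat_lit 799938668535) (nat_lit 152) (nat_lit 3944438816736) (nat_lit 0) (nat_lit 799803231549) (nat_lit 1) (nat_lit 5) (nat_lit 3) (nat_lit 4) (nat_lit 1) (nat_lit 4) (nat_lit 519) (nat_lit 351) (nat_lit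 330)) (XT.lf (nat_lit 0) (nat_lit 864985929336) (nat_lit 152) (nat_lit 4257795975417) (nat_lit 0) (nat_lit 864848005294) (nat_lit 1) (nat_lit 5) (nat_lit 3) (nat_lit 4) (nat_lit 1) (nat_lit 4) (nat_lit 520) (nat_lit 351) (nat_lit 329)))) (XT.nd (nat_lit 78) (nat_lit 0) (nat_lit 0) (XT.lf (nat_lit 0) (nat_lit 935215126518) (nat_lit 152) (nat_lit 4596266760312) (nat_lit 0) (nat_lit 935074899647) (nat_lit 1) (nat_lit 5) (nat_lit 3) (nat_lit 4) (nat_lit 1) (nat_lit 4) (nat_lit 521) (nat_lit 351) (nat_lit 328)) (XT.nd (nat_lit 78) (nat_lit 0) (nat_lit 0) (XT.lf (nat_lit 0) (nat_lit 1011042433102) (nat_lit 152) (nat_lit 4961856924219) (nat_lit 0) (nat_lit 1010900073982) (nat_lit 1) (nat_lit 5) (nat_lit 3) (nat_lit 4) (nat_lit 1) (nat_lit 4) (nat_lit 522) (nat_lit 351) (nat_lit 327)) (XT.lf (nat_lit 0) (nat_lit 1092917196089) (nat_lit 152) (nat_lit 5356732927370) (nat_lit 0) (nat_lit 1092772862664)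 (nat_lit 1) (nat_lit 5) (nat_lit 3) (nat_lit 4) (nat_lit 1) (nat_lit 4) (nat_lit 523) (nat_lit 351) (nat_lit 326)))))) (XT.nd (nat_lit 468) (nat_lit 0) (nat_lit 0) (XT.nd (nat_lit 234) (nat_lit 0) (nat_lit 0) (XT.nd (nat_lit 78) (nat_lit 0) (nat_lit 0) (XT.lf (nat_lit 0) (nat_lit 1181324599261) (nat_lit 152) (nat_lit 5783234775708) (nat_lit 0) (nat_lit 1181178437776) (nat_lit 1) (nat_lit 5) (nat_lit 3) (nat_lit 4) (nat_lit 1) (nat_lit 4) (nat_lit 524) (nat_lit 351) (nat_lit 325)) (XT.nd (nat_lit 78) (nat_lit 0) (nat_lit 0) (XT.lf (nat_lit 0) (nat_lit 1276788538340) (nat_lit 152) (nat_lit 6243889887596) (nat_lit 0) (nat_lit 1276640684206) (nat_lit 1) (nat_lit 5) (nat_lit 3) (nat_lit 4) (nat_lit 1) (nat_lit 4) (nat_lit 525) (nat_lit 351) (nat_lit 324)) (XT.lf (nat_lit 0) (nat_lit 1379874725557) (nat_lit 152) (nat_lit 6741428071102) (nat_lit 0) (nat_lit 1379725304156) (nat_lit 1) (nat_lit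 5) (nat_lit 3) (nat_lit 4) (nat_lit 1) (nat_lit 4) (nat_lit 526) (nat_lit 351) (nat_lit 323)))) (XT.nd (nat_lit 78) (nat_lit 0) (nat_lit 0) (XT.lf (nat_lit 0) (nat_lit 1491194042021) (nat_lit 152) (nat_lit 7278797700648) (nat_lit 0) (nat_lit 1491043169448) (nat_lit 1) (nat_lit 5) (nat_lit 3) (nat_lit 4) (nat_lit 1) (nat_lit 4) (nat_lit 527) (nat_lit 351) (nat_lit 322)) (XT.nd (nat_lit 78) (nat_lit 0) (nat_lit 0) (XT.lf (nat_lit 0) (nat_lit 1611406157758) (nat_lit 152) (nat_lit 7859183188853) (nat_lit 0) (nat_lit 1611253941505) (nat_lit 1) (nat_lit 5) (nat_lit 3) (nat_lit 4) (nat_lit 1) (nat_lit 4) (nat_lit 528) (nat_lit 351) (nat_lit 321)) (XT.lf (nat_lit 0) (nat_lit 1741223440858) (nat_lit 152) (nat_lit 8486023857129) (nat_lit 0) (nat_lit 1741069980458) (nat_lit 1) (nat_lit 5) (nat_lit 3) (nat_lit 4) (nat_lit 1) (nat_lit 4) (nat_lit 529) (nat_lit 351) (nat_lit 320))))) (XT.nd (nat_lit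 59826) (nat_lit 0) (nat_lit 0) (XT.nd (nat_lit 78) (nat_lit 0) (nat_lit 0) (XT.lf (nat_lit 0) (nat_lit 1881415178927) (nat_lit 152) (nat_lit 9163034316844) (nat_lit 0) (nat_lit 1881260566539) (nat_lit 1) (nat_lit 5) (nat_lit 3) (nat_lit 4) (nat_lit 1) (nat_lit 4) (nat_lit 530) (nat_lit 351) (nat_lit 319)) (XT.nd (nat_lit 78) (nat_lit 0) (nat_lit 0) (XT.lf (nat_lit 0) (nat_lit 2032812137819) (nat_lit 152) (nat_lit 9894226481832) (nat_lit 0) (nat_lit 2032656458775) (nat_lit 1) (nat_lit 5) (nat_lit 3) (nat_lit 4) (nat_lit 1) (nat_lit 4) (nat_lit 531) (nat_lit 351) (nat_lit 318)) (XT.lf (nat_lit 0) (nat_lit 2196311484698) (nat_lit 152) (nat_lit 10683933342702) (nat_lit 0) (nat_lit 2196154818010) (nat_lit 1) (nat_lit 5) (nat_lit 3) (nat_lit 4) (nat_lit 1) (nat_lit 4) (nat_lit 532) (nat_lit 351) (nat_lit 317)))) (XT.nd (nat_lit 78) (nat_lit 0) (nat_lit 0) (XT.lf (nat_lit 0) (nat_lit 58775603888)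 (nat_lit 152) (nat_lit 355332002622) (nat_lit 0) (nat_lit 58775603888) (nat_lit 1) (nat_lit 5) (nat_lit 3) (nat_lit 4) (nat_lit 1) (nat_lit 4) (nat_lit 496) (nat_lit 352) (nat_lit 352)) (XT.nd (nat_lit 78) (nat_lit 0) (nat_lit 0) (XT.lf (nat_lit 0) (nat_lit 129376391125) (nat_lit 152) (nat_lit 762493597346) (nat_lit 0) (nat_lit 129362870146) (nat_lit 1) (nat_lit 5) (nat_lit 3) (nat_lit 4) (nat_lit 1) (nat_lit 4) (nat_lit 497) (nat_lit 352) (nat_lit 351)) (XT.lf (nat_lit 0) (nat_lit 142028830728) (nat_lit 152) (nat_lit 818714492091) (nat_lit 0) (nat_lit 142002790324) (nat_lit 1) (nat_lit 5) (nat_lit 3) (nat_lit 4) (nat_lit 1) (nat_lit 4) (nat_lit 498) (nat_lit 352) (nat_lit 350))))))))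
noncomputable def xc7 : XT := (XT.nd (nat_lit 1794) (nat_lit 0) (nat_lit 0) (XT.nd (nat_lit 858) (nat_lit 0) (nat_lit 0) (XT.nd (nat_lit 390) (nat_lit 0) (nat_lit 0) (XT.nd (nat_lit 156) (nat_lit 0) (nat_lit 0) (XT.nd (nat_lit 78) (nat_lit 0) (nat_lit 0) (XT.lf (nat_lit 0) (nat_lit 155583504005) (nat_lit 152) (nat_lit 879659850339) (nat_lit 0) (nat_lit 155545871540) (nat_lit 1) (nat_lit 5) (nat_lit 3) (nat_lit 4) (nat_lit 1) (nat_lit 4) (nat_lit 499) (nat_lit 352) (nat_lit 349)) (XT.lf (nat_lit 0) (nat_lit 170120734946) (nat_lit 152) (nat_lit 945690829768) (nat_lit 0) (nat_lit 170072369092) (nat_lit 1) (nat_lit 5) (nat_lit 3) (nat_lit 4) (nat_lit 1) (nat_lit 4) (nat_lit 500) (nat_lit 352) (nat_lit 348))) (XT.nd (nat_lit 78) (nat_lit 0) (nat_lit 0) (XT.lf (nat_lit 0) (nat_lit 185726670105) (nat_lit 152) (nat_lit 1017198725071) (nat_lit 0) (nat_lit 185668365928) (nat_lit 1) (nat_lit 5) (nat_lit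 3) (nat_lit 4) (nat_lit 1) (nat_lit 4) (nat_lit 501) (nat_lit 352) (nat_lit 347)) (XT.nd (nat_lit 78) (nat_lit 0) (nat_lit 0) (XT.lf (nat_lit 0) (nat_lit 202493789097) (nat_lit 152) (nat_lit 1094607286738) (nat_lit 0) (nat_lit 202426282770) (nat_lit 1) (nat_lit 5) (nat_lit 3) (nat_lit 4) (nat_lit 1) (nat_lit 4) (nat_lit 502) (nat_lit 352) (nat_lit 346)) (XT.lf (nat_lit 0) (nat_lit 220521452629) (nat_lit 152) (nat_lit 1178375232173) (nat_lit 0) (nat_lit 220445425790) (nat_lit 1) (nat_lit 5) (nat_lit 3) (nat_lit 4) (nat_lit 1) (nat_lit 4) (nat_lit 503) (nat_lit 352) (nat_lit 345))))) (XT.nd (nat_lit 234) (nat_lit 0) (nat_lit 0) (XT.nd (nat_lit 78) (nat_lit 0) (nat_lit 0) (XT.lf (nat_lit 0) (nat_lit 239916491297) (nat_lit 152) (nat_lit 1268998964014) (nat_lit 0) (nat_lit 239832575098) (nat_lit 1) (nat_lit 5) (nat_lit 3) (nat_lit 4) (nat_lit 1) (nat_lit 4) (nat_lit 504) (nat_lit 352) (nat_lit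 344)) (XT.nd (nat_lit 78) (nat_lit 0) (nat_lit 0) (XT.lf (nat_lit 0) (nat_lit 260793838666) (nat_lit 152) (nat_lit 1367015511784) (nat_lit 0) (nat_lit 260702617502) (nat_lit 1) (nat_lit 5) (nat_lit 3) (nat_lit 4) (nat_lit 1) (nat_lit 4) (nat_lit 505) (nat_lit 352) (nat_lit 343)) (XT.lf (nat_lit 0) (nat_lit 283277212348) (nat_lit 152) (nat_lit 1473005714284) (nat_lit 0) (nat_lit 283179227329) (nat_lit 1) (nat_lit 5) (nat_lit 3) (nat_lit 4) (nat_lit 1) (nat_lit 4) (nat_lit 506) (nat_lit 352) (nat_lit 342)))) (XT.nd (nat_lit 78) (nat_lit 0) (nat_lit 0) (XT.lf (nat_lit 0) (nat_lit 307499847151) (nat_lit 152) (nat_lit 1587597661603) (nat_lit 0) (nat_lit 307395599302) (nat_lit 1) (nat_lit 5) (nat_lit 3) (nat_lit 4) (nat_lit 1) (nat_lit 4) (nat_lit 507) (nat_lit 352) (nat_lit 341)) (XT.nd (nat_lit 78) (nat_lit 0) (nat_lit 0) (XT.lf (nat_lit 0) (nat_lit 333605284615) (nat_lit 152) (nat_lit 1711470417133)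 (nat_lit 0) (nat_lit 333495237850) (nat_lit 1) (nat_lit 5) (nat_lit 3) (nat_lit 4) (nat_lit 1) (nat_lit 4) (nat_lit 508) (nat_lit 352) (nat_lit 340)) (XT.lf (nat_lit 0) (nat_lit 361748223628) (nat_lit 152) (nat_lit 1845358041648) (nat_lit 0) (nat_lit 361632807496) (nat_lit 1) (nat_lit 5) (nat_lit 3) (nat_lit 4) (nat_lit 1) (nat_lit 4) (nat_lit 509) (nat_lit 352) (nat_lit 339)))))) (XT.nd (nat_lit 468) (nat_lit 0) (nat_lit 0) (XT.nd (nat_lit 234) (nat_lit 0) (nat_lit 0) (XT.nd (nat_lit 78) (nat_lit 0) (nat_lit 0) (XT.lf (nat_lit 0) (nat_lit 392095437163) (nat_lit 152) (nat_lit 1990053943292) (nat_lit 0) (nat_lit 391975049395) (nat_lit 1) (nat_lit 5) (nat_lit 3) (nat_lit 4) (nat_lit 1) (nat_lit 4) (nat_lit 510) (nat_lit 352) (nat_lit 338)) (XT.nd (nat_lit 78) (nat_lit 0) (nat_lit 0) (XT.lf (nat_lit 0) (nat_lit 424826760557) (nat_lit 152) (nat_lit 2146415579260) (nat_lit 0) (nat_lit 424701769423)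 (nat_lit 1) (nat_lit 5) (nat_lit 3) (nat_lit 4) (nat_lit 1) (nat_lit 4) (nat_lit 511) (nat_lit 352) (nat_lit 337)) (XT.lf (nat_lit 0) (nat_lit 460136157210) (nat_lit 152) (nat_lit 2315369537025) (nat_lit 0) (nat_lit 460006903699) (nat_lit 1) (nat_lit 5) (nat_lit 3) (nat_lit 4) (nat_lit 1) (nat_lit 4) (nat_lit 512) (nat_lit 352) (nat_lit 336)))) (XT.nd (nat_lit 78) (nat_lit 0) (nat_lit 0) (XT.lf (nat_lit 0) (nat_lit 498232867991) (nat_lit 152) (nat_lit 2497917025225) (nat_lit 0) (nat_lit 498099667835) (nat_lit 1) (nat_lit 5) (nat_lit 3) (nat_lit 4) (nat_lit 1) (nat_lit 4) (nat_lit 513) (nat_lit 352) (nat_lit 335)) (XT.nd (nat_lit 78) (nat_lit 0) (nat_lit 0) (XT.lf (nat_lit 0) (nat_lit 539342651185) (nat_lit 152) (nat_lit 2695139806754) (nat_lit 0) (nat_lit 539205796729) (nat_lit 1) (nat_lit 5) (nat_lit 3) (nat_lit 4) (nat_lit 1) (nat_lit 4) (nat_lit 514) (nat_lit 352) (nat_lit 334)) (XT.lf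 (nat_lit 0) (nat_lit 583709120323) (nat_lit 152) (nat_lit 2908206609206) (nat_lit 0) (nat_lit 583568882255) (nat_lit 1) (nat_lit 5) (nat_lit 3) (nat_lit 4) (nat_lit 1) (nat_lit 4) (nat_lit 515) (nat_lit 352) (nat_lit 333))))) (XT.nd (nat_lit 234) (nat_lit 0) (nat_lit 0) (XT.nd (nat_lit 78) (nat_lit 0) (nat_lit 0) (XT.lf (nat_lit 0) (nat_lit 631595187815) (nat_lit 152) (nat_lit 3138380050669) (nat_lit 0) (nat_lit 631451816772) (nat_lit 1) (nat_lit 5) (nat_lit 3) (nat_lit 4) (nat_lit 1) (nat_lit 4) (nat_lit 516) (nat_lit 352) (nat_lit 332)) (XT.nd (nat_lit 78) (nat_lit 0) (nat_lit 0) (XT.lf (nat_lit 0) (nat_lit 683284622948) (nat_lit 152) (nat_lit 3387024121907) (nat_lit 0) (nat_lit 683138351004) (nat_lit 1) (nat_lit 5) (nat_lit 3) (nat_lit 4) (nat_lit 1) (nat_lit 4) (nat_lit 517) (nat_lit 352) (nat_lit 331)) (XT.lf (nat_lit 0) (nat_lit 739083733488) (nat_lit 152) (nat_lit 3655612269269)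 (nat_lit 0) (nat_lit 738934775523) (nat_lit 1) (nat_lit 5) (nat_lit 3) (nat_lit 4) (nat_lit 1) (nat_lit 4) (nat_lit 518) (nat_lit 352) (nat_lit 330)))) (XT.nd (nat_lit 78) (nat_lit 0) (nat_lit 0) (XT.lf (nat_lit 0) (nat_lit 799323180829) (nat_lit 152) (nat_lit 3945736126221) (nat_lit 0) (nat_lit 799171735809) (nat_lit 1) (nat_lit 5) (nat_lit 3) (nat_lit 4) (nat_lit 1) (nat_lit 4) (nat_lit 519) (nat_lit 352) (nat_lit 329)) (XT.nd (nat_lit 78) (nat_lit 0) (nat_lit 0) (XT.lf (nat_lit 0) (nat_lit 864359939475) (nat_lit 152) (nat_lit 4259114945248) (nat_lit 0) (nat_lit 864206191625) (nat_lit 1) (nat_lit 5) (nat_lit 3) (nat_lit 4) (nat_lit 1) (nat_lit 4) (nat_lit 520) (nat_lit 352) (nat_lit 328)) (XT.lf (nat_lit 0) (nat_lit 934579412439) (nat_lit 152) (nat_lit 4597605786018) (nat_lit 0) (nat_lit 934423532340) (nat_lit 1) (nat_lit 5) (nat_lit 3) (nat_lit 4) (nat_lit 1) (nat_lit 4) (nat_lit 521)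 (nat_lit 352) (nat_lit 327))))))) (XT.nd (nat_lit 60372) (nat_lit 0) (nat_lit 0) (XT.nd (nat_lit 468) (nat_lit 0) (nat_lit 0) (XT.nd (nat_lit 234) (nat_lit 0) (nat_lit 0) (XT.nd (nat_lit 78) (nat_lit 0) (nat_lit 0) (XT.lf (nat_lit 0) (nat_lit 1010397715118) (nat_lit 152) (nat_lit 4963214520180) (nat_lit 0) (nat_lit 1010239860714) (nat_lit 1) (nat_lit 5) (nat_lit 3) (nat_lit 4) (nat_lit 1) (nat_lit 4) (nat_lit 522) (nat_lit 352) (nat_lit 326)) (XT.nd (nat_lit 78) (nat_lit 0) (nat_lit 0) (XT.lf (nat_lit 0) (nat_lit 1092264141156) (nat_lit 152) (nat_lit 5358107718012) (nat_lit 0) (nat_lit 1092104458692) (nat_lit 1) (nat_lit 5) (nat_lit 3) (nat_lit 4) (nat_lit 1) (nat_lit 4) (nat_lit 523) (nat_lit 352) (nat_lit 325)) (XT.lf (nat_lit 0) (nat_lit 1180663824930) (nat_lit 152) (nat_lit 5784625487351) (nat_lit 0) (nat_lit 1180502449818) (nat_lit 1) (nat_lit 5) (nat_lit 3) (nat_lit 4) (nat_lit 1)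 (nat_lit 4) (nat_lit 524) (nat_lit 352) (nat_lit 324)))) (XT.nd (nat_lit 78) (nat_lit 0) (nat_lit 0) (XT.lf (nat_lit 0) (nat_lit 1276120616419) (nat_lit 152) (nat_lit 6245295340906) (nat_lit 0) (nat_lit 1275957674039) (nat_lit 1) (nat_lit 5) (nat_lit 3) (nat_lit 4) (nat_lit 1) (nat_lit 4) (nat_lit 525) (nat_lit 352) (nat_lit 323)) (XT.nd (nat_lit 78) (nat_lit 0) (nat_lit 0) (XT.lf (nat_lit 0) (nat_lit 1379200185496) (nat_lit 152) (nat_lit 6742847174104) (nat_lit 0) (nat_lit 1379035791944) (nat_lit 1) (nat_lit 5) (nat_lit 3) (nat_lit 4) (nat_lit 1) (nat_lit 4) (nat_lit 526) (nat_lit 352) (nat_lit 322)) (XT.lf (nat_lit 0) (nat_lit 1490513374054) (nat_lit 152) (nat_lit 7280229442254) (nat_lit 0) (nat_lit 1490347636823) (nat_lit 1) (nat_lit 5) (nat_lit 3) (nat_lit 4) (nat_lit 1) (nat_lit 4) (nat_lit 527) (nat_lit 352) (nat_lit 321))))) (XT.nd (nat_lit 234) (nat_lit 0) (nat_lit 0) (XT.nd (nat_lit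 78) (nat_lit 0) (nat_lit 0) (XT.lf (nat_lit 0) (nat_lit 1610719815803) (nat_lit 152) (nat_lit 7860626632870) (nat_lit 0) (nat_lit 1610552834424) (nat_lit 1) (nat_lit 5) (nat_lit 3) (nat_lit 4) (nat_lit 1) (nat_lit 4) (nat_lit 528) (nat_lit 352) (nat_lit 320)) (XT.nd (nat_lit 78) (nat_lit 0) (nat_lit 0) (XT.lf (nat_lit 0) (nat_lit 1740531845211) (nat_lit 152) (nat_lit 8487478136712) (nat_lit 0) (nat_lit 1740363711844) (nat_lit 1) (nat_lit 5) (nat_lit 3) (nat_lit 4) (nat_lit 1) (nat_lit 4) (nat_lit 529) (nat_lit 352) (nat_lit 319)) (XT.lf (nat_lit 0) (nat_lit 1880718718750) (nat_lit 152) (nat_lit 9164498629357) (nat_lit 0) (nat_lit 1880549518727) (nat_lit 1) (nat_lit 5) (nat_lit 3) (nat_lit 4) (nat_lit 1) (nat_lit 4) (nat_lit 530) (nat_lit 352) (nat_lit 318)))) (XT.nd (nat_lit 78) (nat_lit 0) (nat_lit 0) (XT.lf (nat_lit 0) (nat_lit 2032111173447) (nat_lit 152) (nat_lit 9895700084097) (nat_lit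 0) (nat_lit 2031940985781) (nat_lit 1) (nat_lit 5) (nat_lit 3) (nat_lit 4) (nat_lit 1) (nat_lit 4) (nat_lit 531) (nat_lit 352) (nat_lit 317)) (XT.nd (nat_lit 59514) (nat_lit 0) (nat_lit 0) (XT.lf (nat_lit 0) (nat_lit 2195606349776) (nat_lit 152) (nat_lit 10685415546588) (nat_lit 0) (nat_lit 2195435247625) (nat_lit 1) (nat_lit 5) (nat_lit 3) (nat_lit 4) (nat_lit 1) (nat_lit 4) (nat_lit 532) (nat_lit 352) (nat_lit 316)) (XT.lf (nat_lit 0) (nat_lit 48093997460) (nat_lit 152) (nat_lit 309418512986) (nat_lit 0) (nat_lit 48093997460) (nat_lit 1) (nat_lit 5) (nat_lit 3) (nat_lit 4) (nat_lit 1) (nat_lit 4) (nat_lit 494) (nat_lit 353) (nat_lit 353)))))) (XT.nd (nat_lit 468) (nat_lit 0) (nat_lit 0) (XT.nd (nat_lit 234) (nat_lit 0) (nat_lit 0) (XT.nd (nat_lit 78) (nat_lit 0) (nat_lit 0) (XT.lf (nat_lit 0) (nat_lit 106497808179) (nat_lit 152) (nat_lit 662918577466) (nat_lit 0) (nat_lit 106483205522)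 (nat_lit 1) (nat_lit 5) (nat_lit 3) (nat_lit 4) (nat_lit 1) (nat_lit 4) (nat_lit 495) (nat_lit 353) (nat_lit 352)) (XT.nd (nat_lit 78) (nat_lit 0) (nat_lit 0) (XT.lf (nat_lit 0) (nat_lit 117504147411) (nat_lit 152) (nat_lit 710791183177) (nat_lit 0) (nat_lit 117476023775) (nat_lit 1) (nat_lit 5) (nat_lit 3) (nat_lit 4) (nat_lit 1) (nat_lit 4) (nat_lit 496) (nat_lit 353) (nat_lit 351)) (XT.lf (nat_lit 0) (nat_lit 129272235369) (nat_lit 152) (nat_lit 762738532623) (nat_lit 0) (nat_lit 129231592307) (nat_lit 1) (nat_lit 5) (nat_lit 3) (nat_lit 4) (nat_lit 1) (nat_lit 4) (nat_lit 497) (nat_lit 353) (nat_lit 350)))) (XT.nd (nat_lit 78) (nat_lit 0) (nat_lit 0) (XT.lf (nat_lit 0) (nat_lit 141871808869) (nat_lit 152) (nat_lit 819068461946) (nat_lit 0) (nat_lit 141819573747) (nat_lit 1) (nat_lit 5) (nat_lit 3) (nat_lit 4) (nat_lit 1) (nat_lit 4) (nat_lit 498) (nat_lit 353) (nat_lit 349)) (XT.nd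 (nat_lit 78) (nat_lit 0) (nat_lit 0) (XT.lf (nat_lit 0) (nat_lit 155377532050) (nat_lit 152) (nat_lit 880114778137) (nat_lit 0) (nat_lit 155314563540) (nat_lit 1) (nat_lit 5) (nat_lit 3) (nat_lit 4) (nat_lit 1) (nat_lit 4) (nat_lit 499) (nat_lit 353) (nat_lit 348)) (XT.lf (nat_lit 0) (nat_lit 169869438829) (nat_lit 152) (nat_lit 946239237143) (nat_lit 0) (nat_lit 169796531995) (nat_lit 1) (nat_lit 5) (nat_lit 3) (nat_lit 4) (nat_lit 1) (nat_lit 4) (nat_lit 500) (nat_lit 353) (nat_lit 347))))) (XT.nd (nat_lit 234) (nat_lit 0) (nat_lit 0) (XT.nd (nat_lit 78) (nat_lit 0) (nat_lit 0) (XT.lf (nat_lit 0) (nat_lit 185433407171) (nat_lit 152) (nat_lit 1017833687609) (nat_lit 0) (nat_lit 185351298186) (nat_lit 1) (nat_lit 5) (nat_lit 3) (nat_lit 4) (nat_lit 1) (nat_lit 4) (nat_lit 501) (nat_lit 353) (nat_lit 346)) (XT.nd (nat_lit 78) (nat_lit 0) (nat_lit 0) (XT.lf (nat_lit 0) (nat_lit 202161668000)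 (nat_lit 152) (nat_lit 1095322392947) (nat_lit 0) (nat_lit 202071038505) (nat_lit 1) (nat_lit 5) (nat_lit 3) (nat_lit 4) (nat_lit 1) (nat_lit 4) (nat_lit 502) (nat_lit 353) (nat_lit 345)) (XT.lf (nat_lit 0) (nat_lit 220153351750) (nat_lit 152) (nat_lit 1179164545483) (nat_lit 0) (nat_lit 220054832893) (nat_lit 1) (nat_lit 5) (nat_lit 3) (nat_lit 4) (nat_lit 1) (nat_lit 4) (nat_lit 503) (nat_lit 353) (nat_lit 344)))) (XT.nd (nat_lit 78) (nat_lit 0) (nat_lit 0) (XT.lf (nat_lit 0) (nat_lit 239515075806) (nat_lit 152) (nat_lit 1269856987604) (nat_lit 0) (nat_lit 239409251985) (nat_lit 1) (nat_lit 5) (nat_lit 3) (nat_lit 4) (nat_lit 1) (nat_lit 4) (nat_lit 504) (nat_lit 353) (nat_lit 343)) (XT.nd (nat_lit 78) (nat_lit 0) (nat_lit 0) (XT.lf (nat_lit 0) (nat_lit 260361576312) (nat_lit 152) (nat_lit 1367937156003) (nat_lit 0) (nat_lit 260248988635) (nat_lit 1) (nat_lit 5) (nat_lit 3) (nat_lit 4)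 (nat_lit 1) (nat_lit 4) (nat_lit 505) (nat_lit 353) (nat_lit 342)) (XT.lf (nat_lit 0) (nat_lit 282816388084) (nat_lit 152) (nat_lit 1473986266493) (nat_lit 0) (nat_lit 282697537577) (nat_lit 1) (nat_lit 5) (nat_lit 3) (nat_lit 4) (nat_lit 1) (nat_lit 4) (nat_lit 506) (nat_lit 353) (nat_lit 341))))))))
noncomputable def xc8 : XT := (XT.nd (nat_lit 1794) (nat_lit 0) (nat_lit 0) (XT.nd (nat_lit 858) (nat_lit 0) (nat_lit 0) (XT.nd (nat_lit 390) (nat_lit 0) (nat_lit 0) (XT.nd (nat_lit 156) (nat_lit 0) (nat_lit 0) (XT.nd (nat_lit 78) (nat_lit 0) (nat_lit 0) (XT.lf (nat_lit 0) (nat_lit 307012576674) (nat_lit 152) (nat_lit 1588632758247) (nat_lit 0) (nat_lit 306887927251) (nat_lit 1) (nat_lit 5) (nat_lit 3) (nat_lit 4) (nat_lit 1) (nat_lit 4) (nat_lit 507) (nat_lit 353) (nat_lit 340)) (XT.lf (nat_lit 0) (nat_lit 333093526903) (nat_lit 152) (nat_lit 1712556017884) (nat_lit 0) (nat_lit 332963508114)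 (nat_lit 1) (nat_lit 5) (nat_lit 3) (nat_lit 4) (nat_lit 1) (nat_lit 4) (nat_lit 508) (nat_lit 353) (nat_lit 339))) (XT.nd (nat_lit 78) (nat_lit 0) (nat_lit 0) (XT.lf (nat_lit 0) (nat_lit 361213792551) (nat_lit 152) (nat_lit 1846490405460) (nat_lit 0) (nat_lit 361078802125) (nat_lit 1) (nat_lit 5) (nat_lit 3) (nat_lit 4) (nat_lit 1) (nat_lit 4) (nat_lit 509) (nat_lit 353) (nat_lit 338)) (XT.nd (nat_lit 78) (nat_lit 0) (nat_lit 0) (XT.lf (nat_lit 0) (nat_lit 391540012228) (nat_lit 152) (nat_lit 1991229606235) (nat_lit 0) (nat_lit 391400418436) (nat_lit 1) (nat_lit 5) (nat_lit 3) (nat_lit 4) (nat_lit 1) (nat_lit 4) (nat_lit 510) (nat_lit 353) (nat_lit 337)) (XT.lf (nat_lit 0) (nat_lit 424251896866) (nat_lit 152) (nat_lit 2147631333992) (nat_lit 0) (nat_lit 424108040698) (nat_lit 1) (nat_lit 5) (nat_lit 3) (nat_lit 4) (nat_lit 1) (nat_lit 4) (nat_lit 511) (nat_lit 353) (nat_lit 336))))) (XT.nd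 (nat_lit 234) (nat_lit 0) (nat_lit 0) (XT.nd (nat_lit 78) (nat_lit 0) (nat_lit 0) (XT.lf (nat_lit 0) (nat_lit 459543294671) (nat_lit 152) (nat_lit 2316622413783) (nat_lit 0) (nat_lit 459395491858) (nat_lit 1) (nat_lit 5) (nat_lit 3) (nat_lit 4) (nat_lit 1) (nat_lit 4) (nat_lit 512) (nat_lit 353) (nat_lit 335)) (XT.nd (nat_lit 78) (nat_lit 0) (nat_lit 0) (XT.lf (nat_lit 0) (nat_lit 497623339851) (nat_lit 152) (nat_lit 2499204274229) (nat_lit 0) (nat_lit 497471882737) (nat_lit 1) (nat_lit 5) (nat_lit 3) (nat_lit 4) (nat_lit 1) (nat_lit 4) (nat_lit 513) (nat_lit 353) (nat_lit 334)) (XT.lf (nat_lit 0) (nat_lit 538717691934) (nat_lit 152) (nat_lit 2696458881912) (nat_lit 0) (nat_lit 538562851208) (nat_lit 1) (nat_lit 5) (nat_lit 3) (nat_lit 4) (nat_lit 1) (nat_lit 4) (nat_lit 514) (nat_lit 353) (nat_lit 333)))) (XT.nd (nat_lit 78) (nat_lit 0) (nat_lit 0) (XT.lf (nat_lit 0) (nat_lit 583069873006)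 (nat_lit 152) (nat_lit 2909555153025) (nat_lit 0) (nat_lit 582911899306) (nat_lit 1) (nat_lit 5) (nat_lit 3) (nat_lit 4) (nat_lit 1) (nat_lit 4) (nat_lit 515) (nat_lit 353) (nat_lit 332)) (XT.nd (nat_lit 78) (nat_lit 0) (nat_lit 0) (XT.lf (nat_lit 0) (nat_lit 630942710807) (nat_lit 152) (nat_lit 3139755880285) (nat_lit 0) (nat_lit 630781836205) (nat_lit 1) (nat_lit 5) (nat_lit 3) (nat_lit 4) (nat_lit 1) (nat_lit 4) (nat_lit 516) (nat_lit 353) (nat_lit 331)) (XT.lf (nat_lit 0) (nat_lit 682619896226) (nat_lit 152) (nat_lit 3388425216151) (nat_lit 0) (nat_lit 682456335604) (nat_lit 1) (nat_lit 5) (nat_lit 3) (nat_lit 4) (nat_lit 1) (nat_lit 4) (nat_lit 517) (nat_lit 353) (nat_lit 330)))))) (XT.nd (nat_lit 468) (nat_lit 0) (nat_lit 0) (XT.nd (nat_lit 234) (nat_lit 0) (nat_lit 0) (XT.nd (nat_lit 78) (nat_lit 0) (nat_lit 0) (XT.lf (nat_lit 0) (nat_lit 738407664438) (nat_lit 152) (nat_lit 3657036756687)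 (nat_lit 0) (nat_lit 738241616761) (nat_lit 1) (nat_lit 5) (nat_lit 3) (nat_lit 4) (nat_lit 1) (nat_lit 4) (nat_lit 518) (nat_lit 353) (nat_lit 329)) (XT.nd (nat_lit 78) (nat_lit 0) (nat_lit 0) (XT.lf (nat_lit 0) (nat_lit 798636609624) (nat_lit 152) (nat_lit 3947182273984) (nat_lit 0) (nat_lit 798468259117) (nat_lit 1) (nat_lit 5) (nat_lit 3) (nat_lit 4) (nat_lit 1) (nat_lit 4) (nat_lit 519) (nat_lit 353) (nat_lit 328)) (XT.lf (nat_lit 0) (nat_lit 863663644052) (nat_lit 152) (nat_lit 4260581148886) (nat_lit 0) (nat_lit 863493161296) (nat_lit 1) (nat_lit 5) (nat_lit 3) (nat_lit 4) (nat_lit 1) (nat_lit 4) (nat_lit 520) (nat_lit 353) (nat_lit 327)))) (XT.nd (nat_lit 78) (nat_lit 0) (nat_lit 0) (XT.lf (nat_lit 0) (nat_lit 933874113112) (nat_lit 152) (nat_lit 4599090559912) (nat_lit 0) (nat_lit 933701656050) (nat_lit 1) (nat_lit 5) (nat_lit 3) (nat_lit 4) (nat_lit 1) (nat_lit 4) (nat_lit 521)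 (nat_lit 353) (nat_lit 326)) (XT.nd (nat_lit 78) (nat_lit 0) (nat_lit 0) (XT.lf (nat_lit 0) (nat_lit 1009684078841) (nat_lit 152) (nat_lit 4964716488755) (nat_lit 0) (nat_lit 1009509793719) (nat_lit 1) (nat_lit 5) (nat_lit 3) (nat_lit 4) (nat_lit 1) (nat_lit 4) (nat_lit 522) (nat_lit 353) (nat_lit 325)) (XT.lf (nat_lit 0) (nat_lit 1091542785481) (nat_lit 152) (nat_lit 5359625607587) (nat_lit 0) (nat_lit 1091366807711) (nat_lit 1) (nat_lit 5) (nat_lit 3) (nat_lit 4) (nat_lit 1) (nat_lit 4) (nat_lit 523) (nat_lit 353) (nat_lit 324))))) (XT.nd (nat_lit 234) (nat_lit 0) (nat_lit 0) (XT.nd (nat_lit 78) (nat_lit 0) (nat_lit 0) (XT.lf (nat_lit 0) (nat_lit 1179935321665) (nat_lit 152) (nat_lit 5786158118594) (nat_lit 0) (nat_lit 1179757776628) (nat_lit 1) (nat_lit 5) (nat_lit 3) (nat_lit 4) (nat_lit 1) (nat_lit 4) (nat_lit 524) (nat_lit 353) (nat_lit 323)) (XT.nd (nat_lit 78) (nat_lit 0) (nat_lit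 0) (XT.lf (nat_lit 0) (nat_lit 1275385495014) (nat_lit 152) (nat_lit 6246841621840) (nat_lit 0) (nat_lit 1275206498804) (nat_lit 1) (nat_lit 5) (nat_lit 3) (nat_lit 4) (nat_lit 1) (nat_lit 4) (nat_lit 525) (nat_lit 353) (nat_lit 322)) (XT.lf (nat_lit 0) (nat_lit 1378458936185) (nat_lit 152) (nat_lit 6744406093642) (nat_lit 0) (nat_lit 1378278596296) (nat_lit 1) (nat_lit 5) (nat_lit 3) (nat_lit 4) (nat_lit 1) (nat_lit 4) (nat_lit 526) (nat_lit 353) (nat_lit 321)))) (XT.nd (nat_lit 78) (nat_lit 0) (nat_lit 0) (XT.lf (nat_lit 0) (nat_lit 1489766450756) (nat_lit 152) (nat_lit 7281800064203) (nat_lit 0) (nat_lit 1489584866720) (nat_lit 1) (nat_lit 5) (nat_lit 3) (nat_lit 4) (nat_lit 1) (nat_lit 4) (nat_lit 527) (nat_lit 353) (nat_lit 320)) (XT.nd (nat_lit 78) (nat_lit 0) (nat_lit 0) (XT.lf (nat_lit 0) (nat_lit 1609967638812) (nat_lit 152) (nat_lit 7862208090384) (nat_lit 0) (nat_lit 1609784902788)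 (nat_lit 1) (nat_lit 5) (nat_lit 3) (nat_lit 4) (nat_lit 1) (nat_lit 4) (nat_lit 528) (nat_lit 353) (nat_lit 319)) (XT.lf (nat_lit 0) (nat_lit 1739774803690) (nat_lit 152) (nat_lit 8489069627157) (nat_lit 0) (nat_lit 1739591001010) (nat_lit 1) (nat_lit 5) (nat_lit 3) (nat_lit 4) (nat_lit 1) (nat_lit 4) (nat_lit 529) (nat_lit 353) (nat_lit 318))))))) (XT.nd (nat_lit 60138) (nat_lit 0) (nat_lit 0) (XT.nd (nat_lit 59670) (nat_lit 0) (nat_lit 0) (XT.nd (nat_lit 156) (nat_lit 0) (nat_lit 0) (XT.nd (nat_lit 78) (nat_lit 0) (nat_lit 0) (XT.lf (nat_lit 0) (nat_lit 1879957173034) (nat_lit 152) (nat_lit 9166099409554) (nat_lit 0) (nat_lit 1879772382711) (nat_lit 1) (nat_lit 5) (nat_lit 3) (nat_lit 4) (nat_lit 1) (nat_lit 4) (nat_lit 530) (nat_lit 353) (nat_lit 317)) (XT.lf (nat_lit 0) (nat_lit 2031345457182) (nat_lit 152) (nat_lit 9897309465914) (nat_lit 0) (nat_lit 2031159752373) (nat_lit 1) (nat_lit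 5) (nat_lit 3) (nat_lit 4) (nat_lit 1) (nat_lit 4) (nat_lit 531) (nat_lit 353) (nat_lit 316))) (XT.nd (nat_lit 59358) (nat_lit 0) (nat_lit 0) (XT.lf (nat_lit 0) (nat_lit 2194836771890) (nat_lit 152) (nat_lit 10687032892869) (nat_lit 0) (nat_lit 2194650220335) (nat_lit 1) (nat_lit 5) (nat_lit 3) (nat_lit 4) (nat_lit 1) (nat_lit 4) (nat_lit 532) (nat_lit 353) (nat_lit 315)) (XT.nd (nat_lit 78) (nat_lit 0) (nat_lit 0) (XT.lf (nat_lit 0) (nat_lit 38752512852) (nat_lit 152) (nat_lit 270437383389) (nat_lit 0) (nat_lit 38752512852) (nat_lit 1) (nat_lit 5) (nat_lit 3) (nat_lit 4) (nat_lit 1) (nat_lit 4) (nat_lit 492) (nat_lit 354) (nat_lit 354)) (XT.lf (nat_lit 0) (nat_lit 86529383317) (nat_lit 152) (nat_lit 578285304689) (nat_lit 0) (nat_lit 86513612448) (nat_lit 1) (nat_lit 5) (nat_lit 3) (nat_lit 4) (nat_lit 1) (nat_lit 4) (nat_lit 493) (nat_lit 354) (nat_lit 353))))) (XT.nd (nat_lit 234) (nat_lit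 0) (nat_lit 0) (XT.nd (nat_lit 78) (nat_lit 0) (nat_lit 0) (XT.lf (nat_lit 0) (nat_lit 96137169727) (nat_lit 152) (nat_lit 618974378139) (nat_lit 0) (nat_lit 96106796200) (nat_lit 1) (nat_lit 5) (nat_lit 3) (nat_lit 4) (nat_lit 1) (nat_lit 4) (nat_lit 494) (nat_lit 354) (nat_lit 352)) (XT.nd (nat_lit 78) (nat_lit 0) (nat_lit 0) (XT.lf (nat_lit 0) (nat_lit 106385319963) (nat_lit 152) (nat_lit 663183107565) (nat_lit 0) (nat_lit 106341425456) (nat_lit 1) (nat_lit 5) (nat_lit 3) (nat_lit 4) (nat_lit 1) (nat_lit 4) (nat_lit 495) (nat_lit 354) (nat_lit 351)) (XT.lf (nat_lit 0) (nat_lit 117334563804) (nat_lit 152) (nat_lit 711173470621) (nat_lit 0) (nat_lit 117278149872) (nat_lit 1) (nat_lit 5) (nat_lit 3) (nat_lit 4) (nat_lit 1) (nat_lit 4) (nat_lit 496) (nat_lit 354) (nat_lit 350)))) (XT.nd (nat_lit 78) (nat_lit 0) (nat_lit 0) (XT.lf (nat_lit 0) (nat_lit 129049785658) (nat_lit 152) (nat_lit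 763229854644) (nat_lit 0) (nat_lit 128981779667) (nat_lit 1) (nat_lit 5) (nat_lit 3) (nat_lit 4) (nat_lit 1) (nat_lit 4) (nat_lit 497) (nat_lit 354) (nat_lit 349)) (XT.nd (nat_lit 78) (nat_lit 0) (nat_lit 0) (XT.lf (nat_lit 0) (nat_lit 141600409063) (nat_lit 152) (nat_lit 819660741911) (nat_lit 0) (nat_lit 141521669682) (nat_lit 1) (nat_lit 5) (nat_lit 3) (nat_lit 4) (nat_lit 1) (nat_lit 4) (nat_lit 498) (nat_lit 354) (nat_lit 348)) (XT.lf (nat_lit 0) (nat_lit 155060808082) (nat_lit 152) (nat_lit 880800537678) (nat_lit 0) (nat_lit 154972130379) (nat_lit 1) (nat_lit 5) (nat_lit 3) (nat_lit 4) (nat_lit 1) (nat_lit 4) (nat_lit 499) (nat_lit 354) (nat_lit 347)))))) (XT.nd (nat_lit 468) (nat_lit 0) (nat_lit 0) (XT.nd (nat_lit 234) (nat_lit 0) (nat_lit 0) (XT.nd (nat_lit 78) (nat_lit 0) (nat_lit 0) (XT.lf (nat_lit 0) (nat_lit 169510748044) (nat_lit 152) (nat_lit 947011551848) (nat_lit 0) (nat_lit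 169412868189) (nat_lit 1) (nat_lit 5) (nat_lit 3) (nat_lit 4) (nat_lit 1) (nat_lit 4) (nat_lit 500) (nat_lit 354) (nat_lit 346)) (XT.nd (nat_lit 78) (nat_lit 0) (nat_lit 0) (XT.lf (nat_lit 0) (nat_lit 185035858223) (nat_lit 152) (nat_lit 1018686145984) (nat_lit 0) (nat_lit 184929457857) (nat_lit 1) (nat_lit 5) (nat_lit 3) (nat_lit 4) (nat_lit 1) (nat_lit 4) (nat_lit 501) (nat_lit 354) (nat_lit 345)) (XT.lf (nat_lit 0) (nat_lit 201728139270) (nat_lit 152) (nat_lit 1096249058423) (nat_lit 0) (nat_lit 201613849543) (nat_lit 1) (nat_lit 5) (nat_lit 3) (nat_lit 4) (nat_lit 1) (nat_lit 4) (nat_lit 502) (nat_lit 354) (nat_lit 344)))) (XT.nd (nat_lit 78) (nat_lit 0) (nat_lit 0) (XT.lf (nat_lit 0) (nat_lit 219686508408) (nat_lit 152) (nat_lit 1180159921239) (nat_lit 0) (nat_lit 219564913717) (nat_lit 1) (nat_lit 5) (nat_lit 3) (nat_lit 4) (nat_lit 1) (nat_lit 4) (nat_lit 503) (nat_lit 354) (nat_lit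 343)) (XT.nd (nat_lit 78) (nat_lit 0) (nat_lit 0) (XT.lf (nat_lit 0) (nat_lit 239017385601) (nat_lit 152) (nat_lit 1270915983989) (nat_lit 0) (nat_lit 238889027054) (nat_lit 1) (nat_lit 5) (nat_lit 3) (nat_lit 4) (nat_lit 1) (nat_lit 4) (nat_lit 504) (nat_lit 354) (nat_lit 342)) (XT.lf (nat_lit 0) (nat_lit 259835324196) (nat_lit 152) (nat_lit 1369055060378) (nat_lit 0) (nat_lit 259700702819) (nat_lit 1) (nat_lit 5) (nat_lit 3) (nat_lit 4) (nat_lit 1) (nat_lit 4) (nat_lit 505) (nat_lit 354) (nat_lit 341))))) (XT.nd (nat_lit 234) (nat_lit 0) (nat_lit 0) (XT.nd (nat_lit 78) (nat_lit 0) (nat_lit 0) (XT.lf (nat_lit 0) (nat_lit 282263689754) (nat_lit 152) (nat_lit 1475158715304) (nat_lit 0) (nat_lit 282123269462) (nat_lit 1) (nat_lit 5) (nat_lit 3) (nat_lit 4) (nat_lit 1) (nat_lit 4) (nat_lit 506) (nat_lit 354) (nat_lit 340)) (XT.nd (nat_lit 78) (nat_lit 0) (nat_lit 0) (XT.lf (nat_lit 0) (nat_lit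 306435391110) (nat_lit 152) (nat_lit 1589855711165) (nat_lit 0) (nat_lit 306289601451) (nat_lit 1) (nat_lit 5) (nat_lit 3) (nat_lit 4) (nat_lit 1) (nat_lit 4) (nat_lit 507) (nat_lit 354) (nat_lit 339)) (XT.lf (nat_lit 0) (nat_lit 332493667974) (nat_lit 152) (nat_lit 1713825733863) (nat_lit 0) (nat_lit 332342906679) (nat_lit 1) (nat_lit 5) (nat_lit 3) (nat_lit 4) (nat_lit 1) (nat_lit 4) (nat_lit 508) (nat_lit 354) (nat_lit 338)))) (XT.nd (nat_lit 78) (nat_lit 0) (nat_lit 0) (XT.lf (nat_lit 0) (nat_lit 360592939765) (nat_lit 152) (nat_lit 1847803420570) (nat_lit 0) (nat_lit 360437575103) (nat_lit 1) (nat_lit 5) (nat_lit 3) (nat_lit 4) (nat_lit 1) (nat_lit 4) (nat_lit 509) (nat_lit 354) (nat_lit 337)) (XT.nd (nat_lit 78) (nat_lit 0) (nat_lit 0) (XT.lf (nat_lit 0) (nat_lit 390899720686) (nat_lit 152) (nat_lit 1992582713134) (nat_lit 0) (nat_lit 390740093647) (nat_lit 1) (nat_lit 5) (nat_lit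 3) (nat_lit 4) (nat_lit 1) (nat_lit 4) (nat_lit 510) (nat_lit 354) (nat_lit 336)) (XT.lf (nat_lit 0) (nat_lit 423593606476) (nat_lit 152) (nat_lit 2149021562916) (nat_lit 0) (nat_lit 423430032792) (nat_lit 1) (nat_lit 5) (nat_lit 3) (nat_lit 4) (nat_lit 1) (nat_lit 4) (nat_lit 511) (nat_lit 354) (nat_lit 335))))))))
noncomputable def xc9 : XT := (XT.nd (nat_lit 60918) (nat_lit 0) (nat_lit 0) (XT.nd (nat_lit 858) (nat_lit 0) (nat_lit 0) (XT.nd (nat_lit 390) (nat_lit 0) (nat_lit 0) (XT.nd (nat_lit 156) (nat_lit 0) (nat_lit 0) (XT.nd (nat_lit 78) (nat_lit 0) (nat_lit 0) (XT.lf (nat_lit 0) (nat_lit 458868338680) (nat_lit 152) (nat_lit 2318047014953) (nat_lit 0) (nat_lit 458701110696) (nat_lit 1) (nat_lit 5) (nat_lit 3) (nat_lit 4) (nat_lit 1) (nat_lit 4) (nat_lit 512) (nat_lit 354) (nat_lit 334)) (XT.lf (nat_lit 0) (nat_lit 496932952749) (nat_lit 152) (nat_lit 2500660701554) (nat_lit 0) (nat_lit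 496762341153) (nat_lit 1) (nat_lit 5) (nat_lit 3) (nat_lit 4) (nat_lit 1) (nat_lit 4) (nat_lit 513) (nat_lit 354) (nat_lit 333))) (XT.nd (nat_lit 78) (nat_lit 0) (nat_lit 0) (XT.lf (nat_lit 0) (nat_lit 538013016765) (nat_lit 152) (nat_lit 2697944777898) (nat_lit 0) (nat_lit 537839272196) (nat_lit 1) (nat_lit 5) (nat_lit 3) (nat_lit 4) (nat_lit 1) (nat_lit 4) (nat_lit 514) (nat_lit 354) (nat_lit 332)) (XT.nd (nat_lit 78) (nat_lit 0) (nat_lit 0) (XT.lf (nat_lit 0) (nat_lit 582351968146) (nat_lit 152) (nat_lit 2911068334809) (nat_lit 0) (nat_lit 582175322675) (nat_lit 1) (nat_lit 5) (nat_lit 3) (nat_lit 4) (nat_lit 1) (nat_lit 4) (nat_lit 515) (nat_lit 354) (nat_lit 331)) (XT.lf (nat_lit 0) (nat_lit 630212556233) (nat_lit 152) (nat_lit 3141294326696) (nat_lit 0) (nat_lit 630033224741) (nat_lit 1) (nat_lit 5) (nat_lit 3) (nat_lit 4) (nat_lit 1) (nat_lit 4) (nat_lit 516) (nat_lit 354) (nat_lit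 330))))) (XT.nd (nat_lit 234) (nat_lit 0) (nat_lit 0) (XT.nd (nat_lit 78) (nat_lit 0) (nat_lit 0) (XT.lf (nat_lit 0) (nat_lit 681878399325) (nat_lit 152) (nat_lit 3389987055735) (nat_lit 0) (nat_lit 681696580777) (nat_lit 1) (nat_lit 5) (nat_lit 3) (nat_lit 4) (nat_lit 1) (nat_lit 4) (nat_lit 517) (nat_lit 354) (nat_lit 329)) (XT.nd (nat_lit 78) (nat_lit 0) (nat_lit 0) (XT.lf (nat_lit 0) (nat_lit 737655665382) (nat_lit 152) (nat_lit 3658620256616) (nat_lit 0) (nat_lit 737471544005) (nat_lit 1) (nat_lit 5) (nat_lit 3) (nat_lit 4) (nat_lit 1) (nat_lit 4) (nat_lit 518) (nat_lit 354) (nat_lit 328)) (XT.lf (nat_lit 0) (nat_lit 797874886350) (nat_lit 152) (nat_lit 3948785829789) (nat_lit 0) (nat_lit 797688632724) (nat_lit 1) (nat_lit 5) (nat_lit 3) (nat_lit 4) (nat_lit 1) (nat_lit 4) (nat_lit 519) (nat_lit 354) (nat_lit 327)))) (XT.nd (nat_lit 78) (nat_lit 0) (nat_lit 0) (XT.lf (nat_lit 0) (nat_lit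 862892916873) (nat_lit 152) (nat_lit 4262203274947) (nat_lit 0) (nat_lit 862704688941) (nat_lit 1) (nat_lit 5) (nat_lit 3) (nat_lit 4) (nat_lit 1) (nat_lit 4) (nat_lit 520) (nat_lit 354) (nat_lit 326)) (XT.nd (nat_lit 78) (nat_lit 0) (nat_lit 0) (XT.lf (nat_lit 0) (nat_lit 933095048983) (nat_lit 152) (nat_lit 4600729880653) (nat_lit 0) (nat_lit 932904992991) (nat_lit 1) (nat_lit 5) (nat_lit 3) (nat_lit 4) (nat_lit 1) (nat_lit 4) (nat_lit 521) (nat_lit 354) (nat_lit 325)) (XT.lf (nat_lit 0) (nat_lit 1008897295314) (nat_lit 152) (nat_lit 4966371730497) (nat_lit 0) (nat_lit 1008705546674) (nat_lit 1) (nat_lit 5) (nat_lit 3) (nat_lit 4) (nat_lit 1) (nat_lit 4) (nat_lit 522) (nat_lit 354) (nat_lit 324)))))) (XT.nd (nat_lit 468) (nat_lit 0) (nat_lit 0) (XT.nd (nat_lit 234) (nat_lit 0) (nat_lit 0) (XT.nd (nat_lit 78) (nat_lit 0) (nat_lit 0) (XT.lf (nat_lit 0) (nat_lit 1090748854365) (nat_lit 152)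 (nat_lit 5361295590996) (nat_lit 0) (nat_lit 1090555538457) (nat_lit 1) (nat_lit 5) (nat_lit 3) (nat_lit 4) (nat_lit 1) (nat_lit 4) (nat_lit 523) (nat_lit 354) (nat_lit 323)) (XT.nd (nat_lit 78) (nat_lit 0) (nat_lit 0) (XT.lf (nat_lit 0) (nat_lit 1179134772409) (nat_lit 152) (nat_lit 5787841751695) (nat_lit 0) (nat_lit 1178940005329) (nat_lit 1) (nat_lit 5) (nat_lit 3) (nat_lit 4) (nat_lit 1) (nat_lit 4) (nat_lit 524) (nat_lit 354) (nat_lit 322)) (XT.lf (nat_lit 0) (nat_lit 1274578817852) (nat_lit 152) (nat_lit 6248537893545) (nat_lit 0) (nat_lit 1274382707093) (nat_lit 1) (nat_lit 5) (nat_lit 3) (nat_lit 4) (nat_lit 1) (nat_lit 4) (nat_lit 525) (nat_lit 354) (nat_lit 321)))) (XT.nd (nat_lit 78) (nat_lit 0) (nat_lit 0) (XT.lf (nat_lit 0) (nat_lit 1377646585035) (nat_lit 152) (nat_lit 6746114067758) (nat_lit 0) (nat_lit 1377449230129) (nat_lit 1) (nat_lit 5) (nat_lit 3) (nat_lit 4) (nat_lit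 1) (nat_lit 4) (nat_lit 526) (nat_lit 354) (nat_lit 320)) (XT.nd (nat_lit 78) (nat_lit 0) (nat_lit 0) (XT.lf (nat_lit 0) (nat_lit 1488948845913) (nat_lit 152) (nat_lit 7283518873884) (nat_lit 0) (nat_lit 1488750339019) (nat_lit 1) (nat_lit 5) (nat_lit 3) (nat_lit 4) (nat_lit 1) (nat_lit 4) (nat_lit 527) (nat_lit 354) (nat_lit 319)) (XT.lf (nat_lit 0) (nat_lit 1609145169439) (nat_lit 152) (nat_lit 7863936932997) (nat_lit 0) (nat_lit 1608945595890) (nat_lit 1) (nat_lit 5) (nat_lit 3) (nat_lit 4) (nat_lit 1) (nat_lit 4) (nat_lit 528) (nat_lit 354) (nat_lit 318))))) (XT.nd (nat_lit 234) (nat_lit 0) (nat_lit 0) (XT.nd (nat_lit 78) (nat_lit 0) (nat_lit 0) (XT.lf (nat_lit 0) (nat_lit 1738947830123) (nat_lit 152) (nat_lit 8490807759520) (nat_lit 0) (nat_lit 1738747268930) (nat_lit 1) (nat_lit 5) (nat_lit 3) (nat_lit 4) (nat_lit 1) (nat_lit 4) (nat_lit 529) (nat_lit 354) (nat_lit 317)) (XT.nd (nat_lit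 78) (nat_lit 0) (nat_lit 0) (XT.lf (nat_lit 0) (nat_lit 1879126028917) (nat_lit 152) (nat_lit 9167846143538) (nat_lit 0) (nat_lit 1878924553238) (nat_lit 1) (nat_lit 5) (nat_lit 3) (nat_lit 4) (nat_lit 1) (nat_lit 4) (nat_lit 530) (nat_lit 354) (nat_lit 316)) (XT.lf (nat_lit 0) (nat_lit 2030510451444) (nat_lit 152) (nat_lit 9899064164363) (nat_lit 0) (nat_lit 2030308129019) (nat_lit 1) (nat_lit 5) (nat_lit 3) (nat_lit 4) (nat_lit 1) (nat_lit 4) (nat_lit 531) (nat_lit 354) (nat_lit 315)))) (XT.nd (nat_lit 59202) (nat_lit 0) (nat_lit 0) (XT.lf (nat_lit 0) (nat_lit 2193998190577) (nat_lit 152) (nat_lit 10688794965822) (nat_lit 0) (nat_lit 2193795084129) (nat_lit 1) (nat_lit 5) (nat_lit 3) (nat_lit 4) (nat_lit 1) (nat_lit 4) (nat_lit 532) (nat_lit 354) (nat_lit 314)) (XT.nd (nat_lit 78) (nat_lit 0) (nat_lit 0) (XT.lf (nat_lit 0) (nat_lit 30545268402) (nat_lit 152) (nat_lit 237430218164) (nat_lit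 0) (nat_lit 30545268402) (nat_lit 1) (nat_lit 5) (nat_lit 3) (nat_lit 4) (nat_lit 1) (nat_lit 4) (nat_lit 490) (nat_lit 355) (nat_lit 355)) (XT.lf (nat_lit 0) (nat_lit 69027651750) (nat_lit 152) (nat_lit 506521072330) (nat_lit 0) (nat_lit 69010619211) (nat_lit 1) (nat_lit 5) (nat_lit 3) (nat_lit 4) (nat_lit 1) (nat_lit 4) (nat_lit 491) (nat_lit 355) (nat_lit 354))))))) (XT.nd (nat_lit 936) (nat_lit 0) (nat_lit 0) (XT.nd (nat_lit 468) (nat_lit 0) (nat_lit 0) (XT.nd (nat_lit 234) (nat_lit 0) (nat_lit 0) (XT.nd (nat_lit 78) (nat_lit 0) (nat_lit 0) (XT.lf (nat_lit 0) (nat_lit 77450134494) (nat_lit 152) (nat_lit 541023107118) (nat_lit 0) (nat_lit 77417331084) (nat_lit 1) (nat_lit 5) (nat_lit 3) (nat_lit 4) (nat_lit 1) (nat_lit 4) (nat_lit 492) (nat_lit 355) (nat_lit 353)) (XT.nd (nat_lit 78) (nat_lit 0) (nat_lit 0) (XT.lf (nat_lit 0) (nat_lit 86407896044) (nat_lit 152) (nat_lit 578570997195)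 (nat_lit 0) (nat_lit 86360489977) (nat_lit 1) (nat_lit 5) (nat_lit 3) (nat_lit 4) (nat_lit 1) (nat_lit 4) (nat_lit 493) (nat_lit 355) (nat_lit 352)) (XT.lf (nat_lit 0) (nat_lit 95954019431) (nat_lit 152) (nat_lit 619387248578) (nat_lit 0) (nat_lit 95893092385) (nat_lit 1) (nat_lit 5) (nat_lit 3) (nat_lit 4) (nat_lit 1) (nat_lit 4) (nat_lit 494) (nat_lit 355) (nat_lit 351)))) (XT.nd (nat_lit 78) (nat_lit 0) (nat_lit 0) (XT.lf (nat_lit 0) (nat_lit 106145074275) (nat_lit 152) (nat_lit 663713735348) (nat_lit 0) (nat_lit 106071627804) (nat_lit 1) (nat_lit 5) (nat_lit 3) (nat_lit 4) (nat_lit 1) (nat_lit 4) (nat_lit 495) (nat_lit 355) (nat_lit 350)) (XT.nd (nat_lit 78) (nat_lit 0) (nat_lit 0) (XT.lf (nat_lit 0) (nat_lit 117041452014) (nat_lit 152) (nat_lit 711813132982) (nat_lit 0) (nat_lit 116956413482) (nat_lit 1) (nat_lit 5) (nat_lit 3) (nat_lit 4) (nat_lit 1) (nat_lit 4) (nat_lit 496) (nat_lit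 355) (nat_lit 349)) (XT.lf (nat_lit 0) (nat_lit 128707723773) (nat_lit 152) (nat_lit 763970474949) (nat_lit 0) (nat_lit 128611951852) (nat_lit 1) (nat_lit 5) (nat_lit 3) (nat_lit 4) (nat_lit 1) (nat_lit 4) (nat_lit 497) (nat_lit 355) (nat_lit 348))))) (XT.nd (nat_lit 234) (nat_lit 0) (nat_lit 0) (XT.nd (nat_lit 78) (nat_lit 0) (nat_lit 0) (XT.lf (nat_lit 0) (nat_lit 141213023015) (nat_lit 152) (nat_lit 820494841792) (nat_lit 0) (nat_lit 141107312772) (nat_lit 1) (nat_lit 5) (nat_lit 3) (nat_lit 4) (nat_lit 1) (nat_lit 4) (nat_lit 498) (nat_lit 355) (nat_lit 347)) (XT.nd (nat_lit 78) (nat_lit 0) (nat_lit 0) (XT.lf (nat_lit 0) (nat_lit 154631455218) (nat_lit 152) (nat_lit 881721192723) (nat_lit 0) (nat_lit 154516542823) (nat_lit 1) (nat_lit 5) (nat_lit 3) (nat_lit 4) (nat_lit 1) (nat_lit 4) (nat_lit 499) (nat_lit 355) (nat_lit 346)) (XT.lf (nat_lit 0) (nat_lit 169042537016) (nat_lit 152)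 (nat_lit 948012350563) (nat_lit 0) (nat_lit 168919104111) (nat_lit 1) (nat_lit 5) (nat_lit 3) (nat_lit 4) (nat_lit 1) (nat_lit 4) (nat_lit 500) (nat_lit 355) (nat_lit 345)))) (XT.nd (nat_lit 78) (nat_lit 0) (nat_lit 0) (XT.lf (nat_lit 0) (nat_lit 184531667413) (nat_lit 152) (nat_lit 1019761151801) (nat_lit 0) (nat_lit 184400345147) (nat_lit 1) (nat_lit 5) (nat_lit 3) (nat_lit 4) (nat_lit 1) (nat_lit 4) (nat_lit 501) (nat_lit 355) (nat_lit 344)) (XT.nd (nat_lit 78) (nat_lit 0) (nat_lit 0) (XT.lf (nat_lit 0) (nat_lit 201190633848) (nat_lit 152) (nat_lit 1097392774520) (nat_lit 0) (nat_lit 201052006618) (nat_lit 1) (nat_lit 5) (nat_lit 3) (nat_lit 4) (nat_lit 1) (nat_lit 4) (nat_lit 502) (nat_lit 355) (nat_lit 343)) (XT.lf (nat_lit 0) (nat_lit 219118156123) (nat_lit 152) (nat_lit 1181367257965) (nat_lit 0) (nat_lit 218972765036) (nat_lit 1) (nat_lit 5) (nat_lit 3) (nat_lit 4) (nat_lit 1) (nat_lit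 4) (nat_lit 503) (nat_lit 355) (nat_lit 342)))))) (XT.nd (nat_lit 468) (nat_lit 0) (nat_lit 0) (XT.nd (nat_lit 234) (nat_lit 0) (nat_lit 0) (XT.nd (nat_lit 78) (nat_lit 0) (nat_lit 0) (XT.lf (nat_lit 0) (nat_lit 238420471405) (nat_lit 152) (nat_lit 1272182228705) (nat_lit 0) (nat_lit 238268817489) (nat_lit 1) (nat_lit 5) (nat_lit 3) (nat_lit 4) (nat_lit 1) (nat_lit 4) (nat_lit 504) (nat_lit 355) (nat_lit 341)) (XT.nd (nat_lit 78) (nat_lit 0) (nat_lit 0) (XT.lf (nat_lit 0) (nat_lit 259211963787) (nat_lit 152) (nat_lit 1370375849529) (nat_lit 0) (nat_lit 259054510955) (nat_lit 1) (nat_lit 5) (nat_lit 3) (nat_lit 4) (nat_lit 1) (nat_lit 4) (nat_lit 505) (nat_lit 355) (nat_lit 340)) (XT.lf (nat_lit 0) (nat_lit 281615842111) (nat_lit 152) (nat_lit 1476530008561) (nat_lit 0) (nat_lit 281453019912) (nat_lit 1) (nat_lit 5) (nat_lit 3) (nat_lit 4) (nat_lit 1) (nat_lit 4) (nat_lit 506) (nat_lit 355)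 (nat_lit 339)))) (XT.nd (nat_lit 78) (nat_lit 0) (nat_lit 0) (XT.lf (nat_lit 0) (nat_lit 305764870101) (nat_lit 152) (nat_lit 1591273767484) (nat_lit 0) (nat_lit 305597076266) (nat_lit 1) (nat_lit 5) (nat_lit 3) (nat_lit 4) (nat_lit 1) (nat_lit 4) (nat_lit 507) (nat_lit 355) (nat_lit 338)) (XT.nd (nat_lit 78) (nat_lit 0) (nat_lit 0) (XT.lf (nat_lit 0) (nat_lit 331802153108) (nat_lit 152) (nat_lit 1715287089314) (nat_lit 0) (nat_lit 331629755907) (nat_lit 1) (nat_lit 5) (nat_lit 3) (nat_lit 4) (nat_lit 1) (nat_lit 4) (nat_lit 508) (nat_lit 355) (nat_lit 337)) (XT.lf (nat_lit 0) (nat_lit 359881986143) (nat_lit 152) (nat_lit 1849304867809) (nat_lit 0) (nat_lit 359705326565) (nat_lit 1) (nat_lit 5) (nat_lit 3) (nat_lit 4) (nat_lit 1) (nat_lit 4) (nat_lit 509) (nat_lit 355) (nat_lit 336))))) (XT.nd (nat_lit 234) (nat_lit 0) (nat_lit 0) (XT.nd (nat_lit 78) (nat_lit 0) (nat_lit 0) (XT.lf (nat_lit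 0) (nat_lit 390170768215) (nat_lit 152) (nat_lit 1994121282398) (nat_lit 0) (nat_lit 389990161992) (nat_lit 1) (nat_lit 5) (nat_lit 3) (nat_lit 4) (nat_lit 1) (nat_lit 4) (nat_lit 510) (nat_lit 355) (nat_lit 335)) (XT.nd (nat_lit 78) (nat_lit 0) (nat_lit 0) (XT.lf (nat_lit 0) (nat_lit 422847988405) (nat_lit 152) (nat_lit 2150594504427) (nat_lit 0) (nat_lit 422663727881) (nat_lit 1) (nat_lit 5) (nat_lit 3) (nat_lit 4) (nat_lit 1) (nat_lit 4) (nat_lit 511) (nat_lit 355) (nat_lit 334)) (XT.lf (nat_lit 0) (nat_lit 458107289498) (nat_lit 152) (nat_lit 2319651782618) (nat_lit 0) (nat_lit 457919645362) (nat_lit 1) (nat_lit 5) (nat_lit 3) (nat_lit 4) (nat_lit 1) (nat_lit 4) (nat_lit 512) (nat_lit 355) (nat_lit 333)))) (XT.nd (nat_lit 78) (nat_lit 0) (nat_lit 0) (XT.lf (nat_lit 0) (nat_lit 496157615500) (nat_lit 152) (nat_lit 2502294937880) (nat_lit 0) (nat_lit 495966838391) (nat_lit 1) (nat_lit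 5) (nat_lit 3) (nat_lit 4) (nat_lit 1) (nat_lit 4) (nat_lit 513) (nat_lit 355) (nat_lit 332)) (XT.nd (nat_lit 78) (nat_lit 0) (nat_lit 0) (XT.lf (nat_lit 0) (nat_lit 537224449826) (nat_lit 152) (nat_lit 2699606300022) (nat_lit 0) (nat_lit 537030771815) (nat_lit 1) (nat_lit 5) (nat_lit 3) (nat_lit 4) (nat_lit 1) (nat_lit 4) (nat_lit 514) (nat_lit 355) (nat_lit 331)) (XT.lf (nat_lit 0) (nat_lit 581551151493) (nat_lit 152) (nat_lit 2912755121559) (nat_lit 0) (nat_lit 581354787462) (nat_lit 1) (nat_lit 5) (nat_lit 3) (nat_lit 4) (nat_lit 1) (nat_lit 4) (nat_lit 515) (nat_lit 355) (nat_lit 330))))))))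
noncomputable def xc10 : XT := (XT.nd (nat_lit 60762) (nat_lit 0) (nat_lit 0) (XT.nd (nat_lit 858) (nat_lit 0) (nat_lit 0) (XT.nd (nat_lit 390) (nat_lit 0) (nat_lit 0) (XT.nd (nat_lit 156) (nat_lit 0) (nat_lit 0) (XT.nd (nat_lit 78) (nat_lit 0) (nat_lit 0) (XT.lf (nat_lit 0) (nat_lit 629400397252) (nat_lit 152) (nat_lit 3143004506620) (nat_lit 0) (nat_lit 629201546165) (nat_lit 1) (nat_lit 5) (nat_lit 3) (nat_lit 4) (nat_lit 1) (nat_lit 4) (nat_lit 516) (nat_lit 355) (nat_lit 329)) (XT.lf (nat_lit 0) (nat_lit 681055738189) (nat_lit 152) (nat_lit 3391718896005) (nat_lit 0) (nat_lit 680854584272) (nat_lit 1) (nat_lit 5) (nat_lit 3) (nat_lit 4) (nat_lit 1) (nat_lit 4) (nat_lit 517) (nat_lit 355) (nat_lit 328))) (XT.nd (nat_lit 78) (nat_lit 0) (nat_lit 0) (XT.lf (nat_lit 0) (nat_lit 736823280028) (nat_lit 152) (nat_lit 3660372152761) (nat_lit 0) (nat_lit 736619993862) (nat_lit 1) (nat_lit 5)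 (nat_lit 3) (nat_lit 4) (nat_lit 1) (nat_lit 4) (nat_lit 518) (nat_lit 355) (nat_lit 327)) (XT.nd (nat_lit 78) (nat_lit 0) (nat_lit 0) (XT.lf (nat_lit 0) (nat_lit 797033497091) (nat_lit 152) (nat_lit 3950556296190) (nat_lit 0) (nat_lit 796828236620) (nat_lit 1) (nat_lit 5) (nat_lit 3) (nat_lit 4) (nat_lit 1) (nat_lit 4) (nat_lit 519) (nat_lit 355) (nat_lit 326)) (XT.lf (nat_lit 0) (nat_lit 862043190664) (nat_lit 152) (nat_lit 4263990936028) (nat_lit 0) (nat_lit 861836102133) (nat_lit 1) (nat_lit 5) (nat_lit 3) (nat_lit 4) (nat_lit 1) (nat_lit 4) (nat_lit 520) (nat_lit 355) (nat_lit 325))))) (XT.nd (nat_lit 234) (nat_lit 0) (nat_lit 0) (XT.nd (nat_lit 78) (nat_lit 0) (nat_lit 0) (XT.lf (nat_lit 0) (nat_lit 932237603377) (nat_lit 152) (nat_lit 4602533462735) (nat_lit 0) (nat_lit 932028822197) (nat_lit 1) (nat_lit 5) (nat_lit 3) (nat_lit 4) (nat_lit 1) (nat_lit 4) (nat_lit 521) (nat_lit 355)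 (nat_lit 324)) (XT.nd (nat_lit 78) (nat_lit 0) (nat_lit 0) (XT.lf (nat_lit 0) (nat_lit 1008032702118) (nat_lit 152) (nat_lit 4968190054246) (nat_lit 0) (nat_lit 1007822353671) (nat_lit 1) (nat_lit 5) (nat_lit 3) (nat_lit 4) (nat_lit 1) (nat_lit 4) (nat_lit 522) (nat_lit 355) (nat_lit 323)) (XT.lf (nat_lit 0) (nat_lit 1089877643029) (nat_lit 152) (nat_lit 5363127564437) (nat_lit 0) (nat_lit 1089665843409) (nat_lit 1) (nat_lit 5) (nat_lit 3) (nat_lit 4) (nat_lit 1) (nat_lit 4) (nat_lit 523) (nat_lit 355) (nat_lit 322)))) (XT.nd (nat_lit 78) (nat_lit 0) (nat_lit 0) (XT.lf (nat_lit 0) (nat_lit 1178257433167) (nat_lit 152) (nat_lit 5789686363740) (nat_lit 0) (nat_lit 1178044289868) (nat_lit 1) (nat_lit 5) (nat_lit 3) (nat_lit 4) (nat_lit 1) (nat_lit 4) (nat_lit 524) (nat_lit 355) (nat_lit 321)) (XT.nd (nat_lit 78) (nat_lit 0) (nat_lit 0) (XT.lf (nat_lit 0) (nat_lit 1273695804621) (nat_lit 152)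 (nat_lit 6250394208001) (nat_lit 0) (nat_lit 1273481417176) (nat_lit 1) (nat_lit 5) (nat_lit 3) (nat_lit 4) (nat_lit 1) (nat_lit 4) (nat_lit 525) (nat_lit 355) (nat_lit 320)) (XT.lf (nat_lit 0) (nat_lit 1376758318113) (nat_lit 152) (nat_lit 6747981217779) (nat_lit 0) (nat_lit 1376542778679) (nat_lit 1) (nat_lit 5) (nat_lit 3) (nat_lit 4) (nat_lit 1) (nat_lit 4) (nat_lit 526) (nat_lit 355) (nat_lit 319)))))) (XT.nd (nat_lit 59436) (nat_lit 0) (nat_lit 0) (XT.nd (nat_lit 234) (nat_lit 0) (nat_lit 0) (XT.nd (nat_lit 78) (nat_lit 0) (nat_lit 0) (XT.lf (nat_lit 0) (nat_lit 1488055714461) (nat_lit 152) (nat_lit 7285396056836) (nat_lit 0) (nat_lit 1487839108372) (nat_lit 1) (nat_lit 5) (nat_lit 3) (nat_lit 4) (nat_lit 1) (nat_lit 4) (nat_lit 527) (nat_lit 355) (nat_lit 318)) (XT.nd (nat_lit 78) (nat_lit 0) (nat_lit 0) (XT.lf (nat_lit 0) (nat_lit 1608247533793) (nat_lit 152) (nat_lit 7865823405700)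 (nat_lit 0) (nat_lit 1608029940059) (nat_lit 1) (nat_lit 5) (nat_lit 3) (nat_lit 4) (nat_lit 1) (nat_lit 4) (nat_lit 528) (nat_lit 355) (nat_lit 317)) (XT.lf (nat_lit 0) (nat_lit 1738046023926) (nat_lit 152) (nat_lit 8492702833845) (nat_lit 0) (nat_lit 1737827515708) (nat_lit 1) (nat_lit 5) (nat_lit 3) (nat_lit 4) (nat_lit 1) (nat_lit 4) (nat_lit 529) (nat_lit 355) (nat_lit 316)))) (XT.nd (nat_lit 78) (nat_lit 0) (nat_lit 0) (XT.lf (nat_lit 0) (nat_lit 1878220361100) (nat_lit 152) (nat_lit 9169749182327) (nat_lit 0) (nat_lit 1878001006136) (nat_lit 1) (nat_lit 5) (nat_lit 3) (nat_lit 4) (nat_lit 1) (nat_lit 4) (nat_lit 530) (nat_lit 355) (nat_lit 315)) (XT.nd (nat_lit 78) (nat_lit 0) (nat_lit 0) (XT.lf (nat_lit 0) (nat_lit 2029601208052) (nat_lit 152) (nat_lit 9900974577655) (nat_lit 0) (nat_lit 2029381069064) (nat_lit 1) (nat_lit 5) (nat_lit 3) (nat_lit 4) (nat_lit 1) (nat_lit 4) (nat_lit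 531) (nat_lit 355) (nat_lit 314)) (XT.lf (nat_lit 0) (nat_lit 2193085636468) (nat_lit 152) (nat_lit 10690712207358) (nat_lit 0) (nat_lit 2192864771532) (nat_lit 1) (nat_lit 5) (nat_lit 3) (nat_lit 4) (nat_lit 1) (nat_lit 4) (nat_lit 532) (nat_lit 355) (nat_lit 313))))) (XT.nd (nat_lit 234) (nat_lit 0) (nat_lit 0) (XT.nd (nat_lit 78) (nat_lit 0) (nat_lit 0) (XT.lf (nat_lit 0) (nat_lit 23294577907) (nat_lit 152) (nat_lit 209577794143) (nat_lit 0) (nat_lit 23294577907) (nat_lit 1) (nat_lit 5) (nat_lit 3) (nat_lit 4) (nat_lit 1) (nat_lit 4) (nat_lit 488) (nat_lit 356) (nat_lit 356)) (XT.nd (nat_lit 78) (nat_lit 0) (nat_lit 0) (XT.lf (nat_lit 0) (nat_lit 53610150042) (nat_lit 152) (nat_lit 445853580532) (nat_lit 0) (nat_lit 53591754899) (nat_lit 1) (nat_lit 5) (nat_lit 3) (nat_lit 4) (nat_lit 1) (nat_lit 4) (nat_lit 489) (nat_lit 356) (nat_lit 355)) (XT.lf (nat_lit 0) (nat_lit 61031254297) (nat_lit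 152) (nat_lit 475020643896) (nat_lit 0) (nat_lit 60995826615) (nat_lit 1) (nat_lit 5) (nat_lit 3) (nat_lit 4) (nat_lit 1) (nat_lit 4) (nat_lit 490) (nat_lit 356) (nat_lit 354)))) (XT.nd (nat_lit 78) (nat_lit 0) (nat_lit 0) (XT.lf (nat_lit 0) (nat_lit 68896445495) (nat_lit 152) (nat_lit 506829620237) (nat_lit 0) (nat_lit 68845246942) (nat_lit 1) (nat_lit 5) (nat_lit 3) (nat_lit 4) (nat_lit 1) (nat_lit 4) (nat_lit 491) (nat_lit 356) (nat_lit 353)) (XT.nd (nat_lit 78) (nat_lit 0) (nat_lit 0) (XT.lf (nat_lit 0) (nat_lit 77252332174) (nat_lit 152) (nat_lit 541469007192) (nat_lit 0) (nat_lit 77186530964) (nat_lit 1) (nat_lit 5) (nat_lit 3) (nat_lit 4) (nat_lit 1) (nat_lit 4) (nat_lit 492) (nat_lit 356) (nat_lit 352)) (XT.lf (nat_lit 0) (nat_lit 86148430701) (nat_lit 152) (nat_lit 579144075201) (nat_lit 0) (nat_lit 86069108513) (nat_lit 1) (nat_lit 5) (nat_lit 3) (nat_lit 4) (nat_lit 1) (nat_lit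 4) (nat_lit 493) (nat_lit 356) (nat_lit 351))))))) (XT.nd (nat_lit 936) (nat_lit 0) (nat_lit 0) (XT.nd (nat_lit 468) (nat_lit 0) (nat_lit 0) (XT.nd (nat_lit 234) (nat_lit 0) (nat_lit 0) (XT.nd (nat_lit 78) (nat_lit 0) (nat_lit 0) (XT.lf (nat_lit 0) (nat_lit 95637458697) (nat_lit 152) (nat_lit 620078083929) (nat_lit 0) (nat_lit 95545617084) (nat_lit 1) (nat_lit 5) (nat_lit 3) (nat_lit 4) (nat_lit 1) (nat_lit 4) (nat_lit 494) (nat_lit 356) (nat_lit 350)) (XT.nd (nat_lit 78) (nat_lit 0) (nat_lit 0) (XT.lf (nat_lit 0) (nat_lit 105775647439) (nat_lit 152) (nat_lit 664513605277) (nat_lit 0) (nat_lit 105672213765) (nat_lit 1) (nat_lit 5) (nat_lit 3) (nat_lit 4) (nat_lit 1) (nat_lit 4) (nat_lit 495) (nat_lit 356) (nat_lit 349)) (XT.lf (nat_lit 0) (nat_lit 116623075082) (nat_lit 152) (nat_lit 712713960854) (nat_lit 0) (nat_lit 116508908019) (nat_lit 1) (nat_lit 5) (nat_lit 3) (nat_lit 4) (nat_lit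 1) (nat_lit 4) (nat_lit 496) (nat_lit 356) (nat_lit 348)))) (XT.nd (nat_lit 78) (nat_lit 0) (nat_lit 0) (XT.lf (nat_lit 0) (nat_lit 128244022679) (nat_lit 152) (nat_lit 764964782397) (nat_lit 0) (nat_lit 128119917293) (nat_lit 1) (nat_lit 5) (nat_lit 3) (nat_lit 4) (nat_lit 1) (nat_lit 4) (nat_lit 497) (nat_lit 356) (nat_lit 347)) (XT.nd (nat_lit 78) (nat_lit 0) (nat_lit 0) (XT.lf (nat_lit 0) (nat_lit 140707355105) (nat_lit 152) (nat_lit 821575704404) (nat_lit 0) (nat_lit 140574047567) (nat_lit 1) (nat_lit 5) (nat_lit 3) (nat_lit 4) (nat_lit 1) (nat_lit 4) (nat_lit 498) (nat_lit 356) (nat_lit 346)) (XT.lf (nat_lit 0) (nat_lit 154086929143) (nat_lit 152) (nat_lit 882882199006) (nat_lit 0) (nat_lit 153945101096) (nat_lit 1) (nat_lit 5) (nat_lit 3) (nat_lit 4) (nat_lit 1) (nat_lit 4) (nat_lit 499) (nat_lit 356) (nat_lit 345))))) (XT.nd (nat_lit 234) (nat_lit 0) (nat_lit 0) (XT.nd (nat_lit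 78) (nat_lit 0) (nat_lit 0) (XT.lf (nat_lit 0) (nat_lit 168462031160) (nat_lit 152) (nat_lit 949247563947) (nat_lit 0) (nat_lit 168312313751) (nat_lit 1) (nat_lit 5) (nat_lit 3) (nat_lit 4) (nat_lit 1) (nat_lit 4) (nat_lit 500) (nat_lit 356) (nat_lit 344)) (XT.nd (nat_lit 78) (nat_lit 0) (nat_lit 0) (XT.lf (nat_lit 0) (nat_lit 183917846945) (nat_lit 152) (nat_lit 1021065075465) (nat_lit 0) (nat_lit 183760824572) (nat_lit 1) (nat_lit 5) (nat_lit 3) (nat_lit 4) (nat_lit 1) (nat_lit 4) (nat_lit 501) (nat_lit 356) (nat_lit 343)) (XT.lf (nat_lit 0) (nat_lit 200545966517) (nat_lit 152) (nat_lit 1098760318813) (nat_lit 0) (nat_lit 200382180288) (nat_lit 1) (nat_lit 5) (nat_lit 3) (nat_lit 4) (nat_lit 1) (nat_lit 4) (nat_lit 502) (nat_lit 356) (nat_lit 342)))) (XT.nd (nat_lit 78) (nat_lit 0) (nat_lit 0) (XT.lf (nat_lit 0) (nat_lit 218444926881) (nat_lit 152) (nat_lit 1182793710248) (nat_lit 0)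 (nat_lit 218274877822) (nat_lit 1) (nat_lit 5) (nat_lit 3) (nat_lit 4) (nat_lit 1) (nat_lit 4) (nat_lit 503) (nat_lit 356) (nat_lit 341)) (XT.nd (nat_lit 78) (nat_lit 0) (nat_lit 0) (XT.lf (nat_lit 0) (nat_lit 237720795950) (nat_lit 152) (nat_lit 1273663225423) (nat_lit 0) (nat_lit 237544947975) (nat_lit 1) (nat_lit 5) (nat_lit 3) (nat_lit 4) (nat_lit 1) (nat_lit 4) (nat_lit 504) (nat_lit 356) (nat_lit 340)) (XT.lf (nat_lit 0) (nat_lit 258487801097) (nat_lit 152) (nat_lit 1371907350354) (nat_lit 0) (nat_lit 258306583755) (nat_lit 1) (nat_lit 5) (nat_lit 3) (nat_lit 4) (nat_lit 1) (nat_lit 4) (nat_lit 505) (nat_lit 356) (nat_lit 339)))))) (XT.nd (nat_lit 468) (nat_lit 0) (nat_lit 0) (XT.nd (nat_lit 234) (nat_lit 0) (nat_lit 0) (XT.nd (nat_lit 78) (nat_lit 0) (nat_lit 0) (XT.lf (nat_lit 0) (nat_lit 280869006056) (nat_lit 152) (nat_lit 1478108272447) (nat_lit 0) (nat_lit 280682817078) (nat_lit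 1) (nat_lit 5) (nat_lit 3) (nat_lit 4) (nat_lit 1) (nat_lit 4) (nat_lit 506) (nat_lit 356) (nat_lit 338)) (XT.nd (nat_lit 78) (nat_lit 0) (nat_lit 0) (XT.lf (nat_lit 0) (nat_lit 304997040189) (nat_lit 152) (nat_lit 1592895330501) (nat_lit 0) (nat_lit 304806247845) (nat_lit 1) (nat_lit 5) (nat_lit 3) (nat_lit 4) (nat_lit 1) (nat_lit 4) (nat_lit 507) (nat_lit 356) (nat_lit 337)) (XT.lf (nat_lit 0) (nat_lit 331014884440) (nat_lit 152) (nat_lit 1716948744119) (nat_lit 0) (nat_lit 330819829719) (nat_lit 1) (nat_lit 5) (nat_lit 3) (nat_lit 4) (nat_lit 1) (nat_lit 4) (nat_lit 508) (nat_lit 356) (nat_lit 336)))) (XT.nd (nat_lit 78) (nat_lit 0) (nat_lit 0) (XT.lf (nat_lit 0) (nat_lit 359076718626) (nat_lit 152) (nat_lit 1851003644641) (nat_lit 0) (nat_lit 358877717260) (nat_lit 1) (nat_lit 5) (nat_lit 3) (nat_lit 4) (nat_lit 1) (nat_lit 4) (nat_lit 509) (nat_lit 356) (nat_lit 335)) (XT.nd (nat_lit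 78) (nat_lit 0) (nat_lit 0) (XT.lf (nat_lit 0) (nat_lit 389348835098) (nat_lit 152) (nat_lit 1995854431476) (nat_lit 0) (nat_lit 389146179432) (nat_lit 1) (nat_lit 5) (nat_lit 3) (nat_lit 4) (nat_lit 1) (nat_lit 4) (nat_lit 510) (nat_lit 356) (nat_lit 334)) (XT.lf (nat_lit 0) (nat_lit 422010624176) (nat_lit 152) (nat_lit 2152359479659) (nat_lit 0) (nat_lit 421804584898) (nat_lit 1) (nat_lit 5) (nat_lit 3) (nat_lit 4) (nat_lit 1) (nat_lit 4) (nat_lit 511) (nat_lit 356) (nat_lit 333))))) (XT.nd (nat_lit 234) (nat_lit 0) (nat_lit 0) (XT.nd (nat_lit 78) (nat_lit 0) (nat_lit 0) (XT.lf (nat_lit 0) (nat_lit 457255637203) (nat_lit 152) (nat_lit 2321446226512) (nat_lit 0) (nat_lit 457046464951) (nat_lit 1) (nat_lit 5) (nat_lit 3) (nat_lit 4) (nat_lit 1) (nat_lit 4) (nat_lit 512) (nat_lit 356) (nat_lit 332)) (XT.nd (nat_lit 78) (nat_lit 0) (nat_lit 0) (XT.lf (nat_lit 0) (nat_lit 495292733515) (nat_lit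 152) (nat_lit 2504116667571) (nat_lit 0) (nat_lit 495080660361) (nat_lit 1) (nat_lit 5) (nat_lit 3) (nat_lit 4) (nat_lit 1) (nat_lit 4) (nat_lit 513) (nat_lit 356) (nat_lit 331)) (XT.lf (nat_lit 0) (nat_lit 536347318127) (nat_lit 152) (nat_lit 2701453294340) (nat_lit 0) (nat_lit 536132558952) (nat_lit 1) (nat_lit 5) (nat_lit 3) (nat_lit 4) (nat_lit 1) (nat_lit 4) (nat_lit 514) (nat_lit 356) (nat_lit 330)))) (XT.nd (nat_lit 78) (nat_lit 0) (nat_lit 0) (XT.lf (nat_lit 0) (nat_lit 580662677466) (nat_lit 152) (nat_lit 2914625509050) (nat_lit 0) (nat_lit 580445431236) (nat_lit 1) (nat_lit 5) (nat_lit 3) (nat_lit 4) (nat_lit 1) (nat_lit 4) (nat_lit 515) (nat_lit 356) (nat_lit 329)) (XT.nd (nat_lit 78) (nat_lit 0) (nat_lit 0) (XT.lf (nat_lit 0) (nat_lit 628501421070) (nat_lit 152) (nat_lit 3144896554457) (nat_lit 0) (nat_lit 628281872011) (nat_lit 1) (nat_lit 5) (nat_lit 3) (nat_lit 4) (nat_lit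 1) (nat_lit 4) (nat_lit 516) (nat_lit 356) (nat_lit 328)) (XT.lf (nat_lit 0) (nat_lit 680147037789) (nat_lit 152) (nat_lit 3393630999717) (nat_lit 0) (nat_lit 679925356480) (nat_lit 1) (nat_lit 5) (nat_lit 3) (nat_lit 4) (nat_lit 1) (nat_lit 4) (nat_lit 517) (nat_lit 356) (nat_lit 327))))))))
noncomputable def xc11 : XT := (XT.nd (nat_lit 60606) (nat_lit 0) (nat_lit 0) (XT.nd (nat_lit 858) (nat_lit 0) (nat_lit 0) (XT.nd (nat_lit 390) (nat_lit 0) (nat_lit 0) (XT.nd (nat_lit 156) (nat_lit 0) (nat_lit 0) (XT.nd (nat_lit 78) (nat_lit 0) (nat_lit 0) (XT.lf (nat_lit 0) (nat_lit 735905575723) (nat_lit 152) (nat_lit 3662302826729) (nat_lit 0) (nat_lit 735681920109) (nat_lit 1) (nat_lit 5) (nat_lit 3) (nat_lit 4) (nat_lit 1) (nat_lit 4) (nat_lit 518) (nat_lit 356) (nat_lit 326)) (XT.lf (nat_lit 0) (nat_lit 796107455836) (nat_lit 152) (nat_lit 3952504164838) (nat_lit 0) (nat_lit 795881972162) (nat_lit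 1) (nat_lit 5) (nat_lit 3) (nat_lit 4) (nat_lit 1) (nat_lit 4) (nat_lit 519) (nat_lit 356) (nat_lit 325))) (XT.nd (nat_lit 78) (nat_lit 0) (nat_lit 0) (XT.lf (nat_lit 0) (nat_lit 861109430012) (nat_lit 152) (nat_lit 4265954725677) (nat_lit 0) (nat_lit 860882253690) (nat_lit 1) (nat_lit 5) (nat_lit 3) (nat_lit 4) (nat_lit 1) (nat_lit 4) (nat_lit 520) (nat_lit 356) (nat_lit 324)) (XT.nd (nat_lit 78) (nat_lit 0) (nat_lit 0) (XT.lf (nat_lit 0) (nat_lit 931296695134) (nat_lit 152) (nat_lit 4604511994051) (nat_lit 0) (nat_lit 931067951545) (nat_lit 1) (nat_lit 5) (nat_lit 3) (nat_lit 4) (nat_lit 1) (nat_lit 4) (nat_lit 521) (nat_lit 356) (nat_lit 323)) (XT.lf (nat_lit 0) (nat_lit 1007085175736) (nat_lit 152) (nat_lit 4970182235254) (nat_lit 0) (nat_lit 1006854980974) (nat_lit 1) (nat_lit 5) (nat_lit 3) (nat_lit 4) (nat_lit 1) (nat_lit 4) (nat_lit 522) (nat_lit 356) (nat_lit 322))))) (XT.nd (nat_lit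 234) (nat_lit 0) (nat_lit 0) (XT.nd (nat_lit 78) (nat_lit 0) (nat_lit 0) (XT.lf (nat_lit 0) (nat_lit 1088923988740) (nat_lit 152) (nat_lit 5365132384049) (nat_lit 0) (nat_lit 1088692450299) (nat_lit 1) (nat_lit 5) (nat_lit 3) (nat_lit 4) (nat_lit 1) (nat_lit 4) (nat_lit 523) (nat_lit 356) (nat_lit 321)) (XT.nd (nat_lit 78) (nat_lit 0) (nat_lit 0) (XT.lf (nat_lit 0) (nat_lit 1177298104891) (nat_lit 152) (nat_lit 5791702885762) (nat_lit 0) (nat_lit 1177065322302) (nat_lit 1) (nat_lit 5) (nat_lit 3) (nat_lit 4) (nat_lit 1) (nat_lit 4) (nat_lit 524) (nat_lit 356) (nat_lit 320)) (XT.lf (nat_lit 0) (nat_lit 1272731222653) (nat_lit 152) (nat_lit 6252421565589) (nat_lit 0) (nat_lit 1272497288077) (nat_lit 1) (nat_lit 5) (nat_lit 3) (nat_lit 4) (nat_lit 1) (nat_lit 4) (nat_lit 525) (nat_lit 356) (nat_lit 319)))) (XT.nd (nat_lit 78) (nat_lit 0) (nat_lit 0) (XT.lf (nat_lit 0) (nat_lit 1375788871614)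 (nat_lit 152) (nat_lit 6750018608298) (nat_lit 0) (nat_lit 1375553870382) (nat_lit 1) (nat_lit 5) (nat_lit 3) (nat_lit 4) (nat_lit 1) (nat_lit 4) (nat_lit 526) (nat_lit 356) (nat_lit 318)) (XT.nd (nat_lit 78) (nat_lit 0) (nat_lit 0) (XT.lf (nat_lit 0) (nat_lit 1487081763768) (nat_lit 152) (nat_lit 7287442737106) (nat_lit 0) (nat_lit 1486845774892) (nat_lit 1) (nat_lit 5) (nat_lit 3) (nat_lit 4) (nat_lit 1) (nat_lit 4) (nat_lit 527) (nat_lit 356) (nat_lit 317)) (XT.lf (nat_lit 0) (nat_lit 1607269412550) (nat_lit 152) (nat_lit 7867878687591) (nat_lit 0) (nat_lit 1607032509188) (nat_lit 1) (nat_lit 5) (nat_lit 3) (nat_lit 4) (nat_lit 1) (nat_lit 4) (nat_lit 528) (nat_lit 356) (nat_lit 316)))))) (XT.nd (nat_lit 59280) (nat_lit 0) (nat_lit 0) (XT.nd (nat_lit 234) (nat_lit 0) (nat_lit 0) (XT.nd (nat_lit 78) (nat_lit 0) (nat_lit 0) (XT.lf (nat_lit 0) (nat_lit 1737064041063) (nat_lit 152) (nat_lit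 8494766080200) (nat_lit 0) (nat_lit 1736826290956) (nat_lit 1) (nat_lit 5) (nat_lit 3) (nat_lit 4) (nat_lit 1) (nat_lit 4) (nat_lit 529) (nat_lit 356) (nat_lit 315)) (XT.nd (nat_lit 78) (nat_lit 0) (nat_lit 0) (XT.lf (nat_lit 0) (nat_lit 1877234802661) (nat_lit 152) (nat_lit 9171819803186) (nat_lit 0) (nat_lit 1876996268531) (nat_lit 1) (nat_lit 5) (nat_lit 3) (nat_lit 4) (nat_lit 1) (nat_lit 4) (nat_lit 530) (nat_lit 356) (nat_lit 314)) (XT.lf (nat_lit 0) (nat_lit 2028612338896) (nat_lit 152) (nat_lit 9903052026759) (nat_lit 0) (nat_lit 2028373078818) (nat_lit 1) (nat_lit 5) (nat_lit 3) (nat_lit 4) (nat_lit 1) (nat_lit 4) (nat_lit 531) (nat_lit 356) (nat_lit 313)))) (XT.nd (nat_lit 58890) (nat_lit 0) (nat_lit 0) (XT.lf (nat_lit 0) (nat_lit 2192093701833) (nat_lit 152) (nat_lit 10692795978911) (nat_lit 0) (nat_lit 2191853769581) (nat_lit 1) (nat_lit 5) (nat_lit 3) (nat_lit 4) (nat_lit 1)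 (nat_lit 4) (nat_lit 532) (nat_lit 356) (nat_lit 312)) (XT.nd (nat_lit 78) (nat_lit 0) (nat_lit 0) (XT.lf (nat_lit 0) (nat_lit 16846834154) (nat_lit 152) (nat_lit 186180401871) (nat_lit 0) (nat_lit 16846834154) (nat_lit 1) (nat_lit 5) (nat_lit 3) (nat_lit 4) (nat_lit 1) (nat_lit 4) (nat_lit 486) (nat_lit 357) (nat_lit 357)) (XT.lf (nat_lit 0) (nat_lit 39946532477) (nat_lit 152) (nat_lit 394768456837) (nat_lit 0) (nat_lit 39926665723) (nat_lit 1) (nat_lit 5) (nat_lit 3) (nat_lit 4) (nat_lit 1) (nat_lit 4) (nat_lit 487) (nat_lit 357) (nat_lit 356))))) (XT.nd (nat_lit 234) (nat_lit 0) (nat_lit 0) (XT.nd (nat_lit 78) (nat_lit 0) (nat_lit 0) (XT.lf (nat_lit 0) (nat_lit 46525130708) (nat_lit 152) (nat_lit 419328612460) (nat_lit 0) (nat_lit 46486868811) (nat_lit 1) (nat_lit 5) (nat_lit 3) (nat_lit 4) (nat_lit 1) (nat_lit 4) (nat_lit 488) (nat_lit 357) (nat_lit 355)) (XT.nd (nat_lit 78) (nat_lit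 0) (nat_lit 0) (XT.lf (nat_lit 0) (nat_lit 53468447286) (nat_lit 152) (nat_lit 446186812272) (nat_lit 0) (nat_lit 53413152849) (nat_lit 1) (nat_lit 5) (nat_lit 3) (nat_lit 4) (nat_lit 1) (nat_lit 4) (nat_lit 489) (nat_lit 357) (nat_lit 354)) (XT.lf (nat_lit 0) (nat_lit 60817627792) (nat_lit 152) (nat_lit 475502215976) (nat_lit 0) (nat_lit 60746562485) (nat_lit 1) (nat_lit 5) (nat_lit 3) (nat_lit 4) (nat_lit 1) (nat_lit 4) (nat_lit 490) (nat_lit 357) (nat_lit 353)))) (XT.nd (nat_lit 78) (nat_lit 0) (nat_lit 0) (XT.lf (nat_lit 0) (nat_lit 68616222925) (nat_lit 152) (nat_lit 507448544483) (nat_lit 0) (nat_lit 68530554961) (nat_lit 1) (nat_lit 5) (nat_lit 3) (nat_lit 4) (nat_lit 1) (nat_lit 4) (nat_lit 491) (nat_lit 357) (nat_lit 352)) (XT.nd (nat_lit 78) (nat_lit 0) (nat_lit 0) (XT.lf (nat_lit 0) (nat_lit 76910446582) (nat_lit 152) (nat_lit 542215109370) (nat_lit 0) (nat_lit 76811257639) (nat_lit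 1) (nat_lit 5) (nat_lit 3) (nat_lit 4) (nat_lit 1) (nat_lit 4) (nat_lit 492) (nat_lit 357) (nat_lit 351)) (XT.lf (nat_lit 0) (nat_lit 85749449718) (nat_lit 152) (nat_lit 580007934725) (nat_lit 0) (nat_lit 85637741350) (nat_lit 1) (nat_lit 5) (nat_lit 3) (nat_lit 4) (nat_lit 1) (nat_lit 4) (nat_lit 493) (nat_lit 357) (nat_lit 350))))))) (XT.nd (nat_lit 936) (nat_lit 0) (nat_lit 0) (XT.nd (nat_lit 468) (nat_lit 0) (nat_lit 0) (XT.nd (nat_lit 234) (nat_lit 0) (nat_lit 0) (XT.nd (nat_lit 78) (nat_lit 0) (nat_lit 0) (XT.lf (nat_lit 0) (nat_lit 95185611611) (nat_lit 152) (nat_lit 621050978030) (nat_lit 0) (nat_lit 95062311183) (nat_lit 1) (nat_lit 5) (nat_lit 3) (nat_lit 4) (nat_lit 1) (nat_lit 4) (nat_lit 494) (nat_lit 357) (nat_lit 349)) (XT.nd (nat_lit 78) (nat_lit 0) (nat_lit 0) (XT.lf (nat_lit 0) (nat_lit 105274850258) (nat_lit 152) (nat_lit 665587457321) (nat_lit 0) (nat_lit 105140816441)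 (nat_lit 1) (nat_lit 5) (nat_lit 3) (nat_lit 4) (nat_lit 1) (nat_lit 4) (nat_lit 495) (nat_lit 357) (nat_lit 348)) (XT.lf (nat_lit 0) (nat_lit 116076953738) (nat_lit 152) (nat_lit 713881292475) (nat_lit 0) (nat_lit 115932981598) (nat_lit 1) (nat_lit 5) (nat_lit 3) (nat_lit 4) (nat_lit 1) (nat_lit 4) (nat_lit 496) (nat_lit 357) (nat_lit 347)))) (XT.nd (nat_lit 78) (nat_lit 0) (nat_lit 0) (XT.lf (nat_lit 0) (nat_lit 127655934519) (nat_lit 152) (nat_lit 766218669182) (nat_lit 0) (nat_lit 127502760227) (nat_lit 1) (nat_lit 5) (nat_lit 3) (nat_lit 4) (nat_lit 1) (nat_lit 4) (nat_lit 497) (nat_lit 357) (nat_lit 346)) (XT.nd (nat_lit 78) (nat_lit 0) (nat_lit 0) (XT.lf (nat_lit 0) (nat_lit 140080408780) (nat_lit 152) (nat_lit 822909734859) (nat_lit 0) (nat_lit 139918713978) (nat_lit 1) (nat_lit 5) (nat_lit 3) (nat_lit 4) (nat_lit 1) (nat_lit 4) (nat_lit 498) (nat_lit 357) (nat_lit 345)) (XT.lf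 (nat_lit 0) (nat_lit 153424003038) (nat_lit 152) (nat_lit 884290436562) (nat_lit 0) (nat_lit 153254418875) (nat_lit 1) (nat_lit 5) (nat_lit 3) (nat_lit 4) (nat_lit 1) (nat_lit 4) (nat_lit 499) (nat_lit 357) (nat_lit 344))))) (XT.nd (nat_lit 234) (nat_lit 0) (nat_lit 0) (XT.nd (nat_lit 78) (nat_lit 0) (nat_lit 0) (XT.lf (nat_lit 0) (nat_lit 167765790442) (nat_lit 152) (nat_lit 950724511783) (nat_lit 0) (nat_lit 167588901315) (nat_lit 1) (nat_lit 5) (nat_lit 3) (nat_lit 4) (nat_lit 1) (nat_lit 4) (nat_lit 500) (nat_lit 357) (nat_lit 343)) (XT.nd (nat_lit 78) (nat_lit 0) (nat_lit 0) (XT.lf (nat_lit 0) (nat_lit 183190759364) (nat_lit 152) (nat_lit 1022605643930) (nat_lit 0) (nat_lit 183007106381) (nat_lit 1) (nat_lit 5) (nat_lit 3) (nat_lit 4) (nat_lit 1) (nat_lit 4) (nat_lit 501) (nat_lit 357) (nat_lit 342)) (XT.lf (nat_lit 0) (nat_lit 199790317025) (nat_lit 152) (nat_lit 1100359795268) (nat_lit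 0) (nat_lit 199600401213) (nat_lit 1) (nat_lit 5) (nat_lit 3) (nat_lit 4) (nat_lit 1) (nat_lit 4) (nat_lit 502) (nat_lit 357) (nat_lit 341)))) (XT.nd (nat_lit 78) (nat_lit 0) (nat_lit 0) (XT.lf (nat_lit 0) (nat_lit 217662831176) (nat_lit 152) (nat_lit 1184447731138) (nat_lit 0) (nat_lit 217467116447) (nat_lit 1) (nat_lit 5) (nat_lit 3) (nat_lit 4) (nat_lit 1) (nat_lit 4) (nat_lit 503) (nat_lit 357) (nat_lit 340)) (XT.nd (nat_lit 78) (nat_lit 0) (nat_lit 0) (XT.lf (nat_lit 0) (nat_lit 236914213011) (nat_lit 152) (nat_lit 1275367750420) (nat_lit 0) (nat_lit 236713128915) (nat_lit 1) (nat_lit 5) (nat_lit 3) (nat_lit 4) (nat_lit 1) (nat_lit 4) (nat_lit 504) (nat_lit 357) (nat_lit 339)) (XT.lf (nat_lit 0) (nat_lit 257658544792) (nat_lit 152) (nat_lit 1373658638413) (nat_lit 0) (nat_lit 257452489061) (nat_lit 1) (nat_lit 5) (nat_lit 3) (nat_lit 4) (nat_lit 1) (nat_lit 4) (nat_lit 505) (nat_lit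 357) (nat_lit 338)))))) (XT.nd (nat_lit 468) (nat_lit 0) (nat_lit 0) (XT.nd (nat_lit 234) (nat_lit 0) (nat_lit 0) (XT.nd (nat_lit 78) (nat_lit 0) (nat_lit 0) (XT.lf (nat_lit 0) (nat_lit 280018755894) (nat_lit 152) (nat_lit 1479902859637) (nat_lit 0) (nat_lit 279808096796) (nat_lit 1) (nat_lit 5) (nat_lit 3) (nat_lit 4) (nat_lit 1) (nat_lit 4) (nat_lit 506) (nat_lit 357) (nat_lit 337)) (XT.nd (nat_lit 78) (nat_lit 0) (nat_lit 0) (XT.lf (nat_lit 0) (nat_lit 304127351271) (nat_lit 152) (nat_lit 1594730009480) (nat_lit 0) (nat_lit 303912429796) (nat_lit 1) (nat_lit 5) (nat_lit 3) (nat_lit 4) (nat_lit 1) (nat_lit 4) (nat_lit 507) (nat_lit 357) (nat_lit 336)) (XT.lf (nat_lit 0) (nat_lit 330127196673) (nat_lit 152) (nat_lit 1718820545124) (nat_lit 0) (nat_lit 329908328554) (nat_lit 1) (nat_lit 5) (nat_lit 3) (nat_lit 4) (nat_lit 1) (nat_lit 4) (nat_lit 508) (nat_lit 357) (nat_lit 335)))) (XT.nd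 (nat_lit 78) (nat_lit 0) (nat_lit 0) (XT.lf (nat_lit 0) (nat_lit 358172365259) (nat_lit 152) (nat_lit 1852909817891) (nat_lit 0) (nat_lit 357949842839) (nat_lit 1) (nat_lit 5) (nat_lit 3) (nat_lit 4) (nat_lit 1) (nat_lit 4) (nat_lit 509) (nat_lit 357) (nat_lit 334)) (XT.nd (nat_lit 78) (nat_lit 0) (nat_lit 0) (XT.lf (nat_lit 0) (nat_lit 388429050620) (nat_lit 152) (nat_lit 1997792430881) (nat_lit 0) (nat_lit 388203144588) (nat_lit 1) (nat_lit 5) (nat_lit 3) (nat_lit 4) (nat_lit 1) (nat_lit 4) (nat_lit 510) (nat_lit 357) (nat_lit 333)) (XT.lf (nat_lit 0) (nat_lit 421076551632) (nat_lit 152) (nat_lit 2154326947725) (nat_lit 0) (nat_lit 420847512626) (nat_lit 1) (nat_lit 5) (nat_lit 3) (nat_lit 4) (nat_lit 1) (nat_lit 4) (nat_lit 511) (nat_lit 357) (nat_lit 332))))) (XT.nd (nat_lit 234) (nat_lit 0) (nat_lit 0) (XT.nd (nat_lit 78) (nat_lit 0) (nat_lit 0) (XT.lf (nat_lit 0) (nat_lit 456308334968)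 (nat_lit 152) (nat_lit 2323440980375) (nat_lit 0) (nat_lit 456076395060) (nat_lit 1) (nat_lit 5) (nat_lit 3) (nat_lit 4) (nat_lit 1) (nat_lit 4) (nat_lit 512) (nat_lit 357) (nat_lit 331)) (XT.nd (nat_lit 78) (nat_lit 0) (nat_lit 0) (XT.lf (nat_lit 0) (nat_lit 494333181566) (nat_lit 152) (nat_lit 2506136686062) (nat_lit 0) (nat_lit 494098555637) (nat_lit 1) (nat_lit 5) (nat_lit 3) (nat_lit 4) (nat_lit 1) (nat_lit 4) (nat_lit 513) (nat_lit 357) (nat_lit 330)) (XT.lf (nat_lit 0) (nat_lit 535376423850) (nat_lit 152) (nat_lit 2703496706004) (nat_lit 0) (nat_lit 535139310866) (nat_lit 1) (nat_lit 5) (nat_lit 3) (nat_lit 4) (nat_lit 1) (nat_lit 4) (nat_lit 514) (nat_lit 357) (nat_lit 329)))) (XT.nd (nat_lit 78) (nat_lit 0) (nat_lit 0) (XT.lf (nat_lit 0) (nat_lit 579681281034) (nat_lit 152) (nat_lit 2916690581060) (nat_lit 0) (nat_lit 579441865221) (nat_lit 1) (nat_lit 5) (nat_lit 3) (nat_lit 4)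 (nat_lit 1) (nat_lit 4) (nat_lit 515) (nat_lit 357) (nat_lit 328)) (XT.nd (nat_lit 78) (nat_lit 0) (nat_lit 0) (XT.lf (nat_lit 0) (nat_lit 627510300420) (nat_lit 152) (nat_lit 3146981682342) (nat_lit 0) (nat_lit 627268752357) (nat_lit 1) (nat_lit 5) (nat_lit 3) (nat_lit 4) (nat_lit 1) (nat_lit 4) (nat_lit 516) (nat_lit 357) (nat_lit 327)) (XT.lf (nat_lit 0) (nat_lit 679146913234) (nat_lit 152) (nat_lit 3395734697857) (nat_lit 0) (nat_lit 678903390866) (nat_lit 1) (nat_lit 5) (nat_lit 3) (nat_lit 4) (nat_lit 1) (nat_lit 4) (nat_lit 517) (nat_lit 357) (nat_lit 326))))))))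
noncomputable def xc12 : XT := (XT.nd (nat_lit 60450) (nat_lit 0) (nat_lit 0) (XT.nd (nat_lit 858) (nat_lit 0) (nat_lit 0) (XT.nd (nat_lit 390) (nat_lit 0) (nat_lit 0) (XT.nd (nat_lit 156) (nat_lit 0) (nat_lit 0) (XT.nd (nat_lit 78) (nat_lit 0) (nat_lit 0) (XT.lf (nat_lit 0) (nat_lit 734897114218) (nat_lit 152) (nat_lit 3664423719550) (nat_lit 0) (nat_lit 734651763790) (nat_lit 1) (nat_lit 5) (nat_lit 3) (nat_lit 4) (nat_lit 1) (nat_lit 4) (nat_lit 518) (nat_lit 357) (nat_lit 325)) (XT.lf (nat_lit 0) (nat_lit 795091274934) (nat_lit 152) (nat_lit 3954640978660) (nat_lit 0) (nat_lit 794844231858) (nat_lit 1) (nat_lit 5) (nat_lit 3) (nat_lit 4) (nat_lit 1) (nat_lit 4) (nat_lit 519) (nat_lit 357) (nat_lit 324))) (XT.nd (nat_lit 78) (nat_lit 0) (nat_lit 0) (XT.lf (nat_lit 0) (nat_lit 860086101520) (nat_lit 152) (nat_lit 4268106281166) (nat_lit 0) (nat_lit 859837491176) (nat_lit 1) (nat_lit 5)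 (nat_lit 3) (nat_lit 4) (nat_lit 1) (nat_lit 4) (nat_lit 520) (nat_lit 357) (nat_lit 323)) (XT.nd (nat_lit 78) (nat_lit 0) (nat_lit 0) (XT.lf (nat_lit 0) (nat_lit 930266748502) (nat_lit 152) (nat_lit 4606677199232) (nat_lit 0) (nat_lit 930016686986) (nat_lit 1) (nat_lit 5) (nat_lit 3) (nat_lit 4) (nat_lit 1) (nat_lit 4) (nat_lit 521) (nat_lit 357) (nat_lit 322)) (XT.lf (nat_lit 0) (nat_lit 1006049101198) (nat_lit 152) (nat_lit 4972360079039) (nat_lit 0) (nat_lit 1005797696002) (nat_lit 1) (nat_lit 5) (nat_lit 3) (nat_lit 4) (nat_lit 1) (nat_lit 4) (nat_lit 522) (nat_lit 357) (nat_lit 321))))) (XT.nd (nat_lit 234) (nat_lit 0) (nat_lit 0) (XT.nd (nat_lit 78) (nat_lit 0) (nat_lit 0) (XT.lf (nat_lit 0) (nat_lit 1087882240214) (nat_lit 152) (nat_lit 5367321930245) (nat_lit 0) (nat_lit 1087629590872) (nat_lit 1) (nat_lit 5) (nat_lit 3) (nat_lit 4) (nat_lit 1) (nat_lit 4) (nat_lit 523) (nat_lit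 357) (nat_lit 320)) (XT.nd (nat_lit 78) (nat_lit 0) (nat_lit 0) (XT.lf (nat_lit 0) (nat_lit 1176251102672) (nat_lit 152) (nat_lit 5793903267523) (nat_lit 0) (nat_lit 1175997301342) (nat_lit 1) (nat_lit 5) (nat_lit 3) (nat_lit 4) (nat_lit 1) (nat_lit 4) (nat_lit 524) (nat_lit 357) (nat_lit 319)) (XT.lf (nat_lit 0) (nat_lit 1271679355905) (nat_lit 152) (nat_lit 6254631980281) (nat_lit 0) (nat_lit 1271424487919) (nat_lit 1) (nat_lit 5) (nat_lit 3) (nat_lit 4) (nat_lit 1) (nat_lit 4) (nat_lit 525) (nat_lit 357) (nat_lit 318)))) (XT.nd (nat_lit 78) (nat_lit 0) (nat_lit 0) (XT.lf (nat_lit 0) (nat_lit 1374732500672) (nat_lit 152) (nat_lit 6752238312741) (nat_lit 0) (nat_lit 1374476645042) (nat_lit 1) (nat_lit 5) (nat_lit 3) (nat_lit 4) (nat_lit 1) (nat_lit 4) (nat_lit 526) (nat_lit 357) (nat_lit 317)) (XT.nd (nat_lit 78) (nat_lit 0) (nat_lit 0) (XT.lf (nat_lit 0) (nat_lit 1486021222275) (nat_lit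 152) (nat_lit 7289671043171) (nat_lit 0) (nat_lit 1485764452160) (nat_lit 1) (nat_lit 5) (nat_lit 3) (nat_lit 4) (nat_lit 1) (nat_lit 4) (nat_lit 527) (nat_lit 357) (nat_lit 316)) (XT.lf (nat_lit 0) (nat_lit 1606205009436) (nat_lit 152) (nat_lit 7870114958120) (nat_lit 0) (nat_lit 1605947392575) (nat_lit 1) (nat_lit 5) (nat_lit 3) (nat_lit 4) (nat_lit 1) (nat_lit 4) (nat_lit 528) (nat_lit 357) (nat_lit 315)))))) (XT.nd (nat_lit 59124) (nat_lit 0) (nat_lit 0) (XT.nd (nat_lit 234) (nat_lit 0) (nat_lit 0) (XT.nd (nat_lit 78) (nat_lit 0) (nat_lit 0) (XT.lf (nat_lit 0) (nat_lit 1735996062375) (nat_lit 152) (nat_lit 8497009725233) (nat_lit 0) (nat_lit 1735737661490) (nat_lit 1) (nat_lit 5) (nat_lit 3) (nat_lit 4) (nat_lit 1) (nat_lit 4) (nat_lit 529) (nat_lit 357) (nat_lit 314)) (XT.nd (nat_lit 78) (nat_lit 0) (nat_lit 0) (XT.lf (nat_lit 0) (nat_lit 1876163513256) (nat_lit 152) (nat_lit 9174070276463)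 (nat_lit 0) (nat_lit 1875904386424) (nat_lit 1) (nat_lit 5) (nat_lit 3) (nat_lit 4) (nat_lit 1) (nat_lit 4) (nat_lit 530) (nat_lit 357) (nat_lit 313)) (XT.lf (nat_lit 0) (nat_lit 2027537984012) (nat_lit 152) (nat_lit 9905308822484) (nat_lit 0) (nat_lit 2027278185005) (nat_lit 1) (nat_lit 5) (nat_lit 3) (nat_lit 4) (nat_lit 1) (nat_lit 4) (nat_lit 531) (nat_lit 357) (nat_lit 312)))) (XT.nd (nat_lit 58734) (nat_lit 0) (nat_lit 0) (XT.lf (nat_lit 0) (nat_lit 2191016508542) (nat_lit 152) (nat_lit 10695058628755) (nat_lit 0) (nat_lit 2190756087153) (nat_lit 1) (nat_lit 5) (nat_lit 3) (nat_lit 4) (nat_lit 1) (nat_lit 4) (nat_lit 532) (nat_lit 357) (nat_lit 311)) (XT.nd (nat_lit 78) (nat_lit 0) (nat_lit 0) (XT.lf (nat_lit 0) (nat_lit 11068972189) (nat_lit 152) (nat_lit 166641007028) (nat_lit 0) (nat_lit 11068972189) (nat_lit 1) (nat_lit 5) (nat_lit 3) (nat_lit 4) (nat_lit 1) (nat_lit 4) (nat_lit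 484) (nat_lit 358) (nat_lit 358)) (XT.lf (nat_lit 0) (nat_lit 27750940288) (nat_lit 152) (nat_lit 351972867080) (nat_lit 0) (nat_lit 27729484194) (nat_lit 1) (nat_lit 5) (nat_lit 3) (nat_lit 4) (nat_lit 1) (nat_lit 4) (nat_lit 485) (nat_lit 358) (nat_lit 357))))) (XT.nd (nat_lit 234) (nat_lit 0) (nat_lit 0) (XT.nd (nat_lit 78) (nat_lit 0) (nat_lit 0) (XT.lf (nat_lit 0) (nat_lit 33624521194) (nat_lit 152) (nat_lit 372547669848) (nat_lit 0) (nat_lit 33583198345) (nat_lit 1) (nat_lit 5) (nat_lit 3) (nat_lit 4) (nat_lit 1) (nat_lit 4) (nat_lit 486) (nat_lit 358) (nat_lit 356)) (XT.nd (nat_lit 78) (nat_lit 0) (nat_lit 0) (XT.lf (nat_lit 0) (nat_lit 39793493501) (nat_lit 152) (nat_lit 395128347116) (nat_lit 0) (nat_lit 39733775509) (nat_lit 1) (nat_lit 5) (nat_lit 3) (nat_lit 4) (nat_lit 1) (nat_lit 4) (nat_lit 487) (nat_lit 358) (nat_lit 355)) (XT.lf (nat_lit 0) (nat_lit 46294414082) (nat_lit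 152) (nat_lit 419848710306) (nat_lit 0) (nat_lit 46217663551) (nat_lit 1) (nat_lit 5) (nat_lit 3) (nat_lit 4) (nat_lit 1) (nat_lit 4) (nat_lit 488) (nat_lit 358) (nat_lit 354)))) (XT.nd (nat_lit 78) (nat_lit 0) (nat_lit 0) (XT.lf (nat_lit 0) (nat_lit 53165806911) (nat_lit 152) (nat_lit 446855250458) (nat_lit 0) (nat_lit 53073285510) (nat_lit 1) (nat_lit 5) (nat_lit 3) (nat_lit 4) (nat_lit 1) (nat_lit 4) (nat_lit 489) (nat_lit 358) (nat_lit 353)) (XT.nd (nat_lit 78) (nat_lit 0) (nat_lit 0) (XT.lf (nat_lit 0) (nat_lit 60448391352) (nat_lit 152) (nat_lit 476308006329) (nat_lit 0) (nat_lit 60341267294) (nat_lit 1) (nat_lit 5) (nat_lit 3) (nat_lit 4) (nat_lit 1) (nat_lit 4) (nat_lit 490) (nat_lit 358) (nat_lit 352)) (XT.lf (nat_lit 0) (nat_lit 68185323463) (nat_lit 152) (nat_lit 508381512769) (nat_lit 0) (nat_lit 68064678426) (nat_lit 1) (nat_lit 5) (nat_lit 3) (nat_lit 4) (nat_lit 1) (nat_lit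 4) (nat_lit 491) (nat_lit 358) (nat_lit 351))))))) (XT.nd (nat_lit 858) (nat_lit 0) (nat_lit 0) (XT.nd (nat_lit 390) (nat_lit 0) (nat_lit 0) (XT.nd (nat_lit 156) (nat_lit 0) (nat_lit 0) (XT.nd (nat_lit 78) (nat_lit 0) (nat_lit 0) (XT.lf (nat_lit 0) (nat_lit 76422451729) (nat_lit 152) (nat_lit 543265835000) (nat_lit 0) (nat_lit 76289287267) (nat_lit 1) (nat_lit 5) (nat_lit 3) (nat_lit 4) (nat_lit 1) (nat_lit 4) (nat_lit 492) (nat_lit 358) (nat_lit 350)) (XT.lf (nat_lit 0) (nat_lit 85208588762) (nat_lit 152) (nat_lit 581167694933) (nat_lit 0) (nat_lit 85063832240) (nat_lit 1) (nat_lit 5) (nat_lit 3) (nat_lit 4) (nat_lit 1) (nat_lit 4) (nat_lit 493) (nat_lit 358) (nat_lit 349))) (XT.nd (nat_lit 78) (nat_lit 0) (nat_lit 0) (XT.lf (nat_lit 0) (nat_lit 94595800560) (nat_lit 152) (nat_lit 622311696181) (nat_lit 0) (nat_lit 94440310649) (nat_lit 1) (nat_lit 5) (nat_lit 3) (nat_lit 4) (nat_lit 1)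 (nat_lit 4) (nat_lit 494) (nat_lit 358) (nat_lit 348)) (XT.nd (nat_lit 78) (nat_lit 0) (nat_lit 0) (XT.lf (nat_lit 0) (nat_lit 104639715044) (nat_lit 152) (nat_lit 666941655049) (nat_lit 0) (nat_lit 104474286810) (nat_lit 1) (nat_lit 5) (nat_lit 3) (nat_lit 4) (nat_lit 1) (nat_lit 4) (nat_lit 495) (nat_lit 358) (nat_lit 347)) (XT.lf (nat_lit 0) (nat_lit 115399851708) (nat_lit 152) (nat_lit 715322045367) (nat_lit 0) (nat_lit 115225221322) (nat_lit 1) (nat_lit 5) (nat_lit 3) (nat_lit 4) (nat_lit 1) (nat_lit 4) (nat_lit 496) (nat_lit 358) (nat_lit 346))))) (XT.nd (nat_lit 234) (nat_lit 0) (nat_lit 0) (XT.nd (nat_lit 78) (nat_lit 0) (nat_lit 0) (XT.lf (nat_lit 0) (nat_lit 126939974325) (nat_lit 152) (nat_lit 767739565743) (nat_lit 0) (nat_lit 126756823428) (nat_lit 1) (nat_lit 5) (nat_lit 3) (nat_lit 4) (nat_lit 1) (nat_lit 4) (nat_lit 497) (nat_lit 358) (nat_lit 345)) (XT.nd (nat_lit 78) (nat_lit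 0) (nat_lit 0) (XT.lf (nat_lit 0) (nat_lit 139328468805) (nat_lit 152) (nat_lit 824504838522) (nat_lit 0) (nat_lit 139137428547) (nat_lit 1) (nat_lit 5) (nat_lit 3) (nat_lit 4) (nat_lit 1) (nat_lit 4) (nat_lit 498) (nat_lit 358) (nat_lit 344)) (XT.lf (nat_lit 0) (nat_lit 152638748450) (nat_lit 152) (nat_lit 885954250505) (nat_lit 0) (nat_lit 152440403228) (nat_lit 1) (nat_lit 5) (nat_lit 3) (nat_lit 4) (nat_lit 1) (nat_lit 4) (nat_lit 499) (nat_lit 358) (nat_lit 343)))) (XT.nd (nat_lit 78) (nat_lit 0) (nat_lit 0) (XT.lf (nat_lit 0) (nat_lit 166949688992) (nat_lit 152) (nat_lit 952451946355) (nat_lit 0) (nat_lit 166744579914) (nat_lit 1) (nat_lit 5) (nat_lit 3) (nat_lit 4) (nat_lit 1) (nat_lit 4) (nat_lit 500) (nat_lit 358) (nat_lit 342)) (XT.nd (nat_lit 78) (nat_lit 0) (nat_lit 0) (XT.lf (nat_lit 0) (nat_lit 182346096003) (nat_lit 152) (nat_lit 1024391986492) (nat_lit 0) (nat_lit 182134724095)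 (nat_lit 1) (nat_lit 5) (nat_lit 3) (nat_lit 4) (nat_lit 1) (nat_lit 4) (nat_lit 501) (nat_lit 358) (nat_lit 341)) (XT.lf (nat_lit 0) (nat_lit 198919207451) (nat_lit 152) (nat_lit 1102200682265) (nat_lit 0) (nat_lit 198702036627) (nat_lit 1) (nat_lit 5) (nat_lit 3) (nat_lit 4) (nat_lit 1) (nat_lit 4) (nat_lit 502) (nat_lit 358) (nat_lit 340)))))) (XT.nd (nat_lit 468) (nat_lit 0) (nat_lit 0) (XT.nd (nat_lit 234) (nat_lit 0) (nat_lit 0) (XT.nd (nat_lit 78) (nat_lit 0) (nat_lit 0) (XT.lf (nat_lit 0) (nat_lit 216767234367) (nat_lit 152) (nat_lit 1186339122242) (nat_lit 0) (nat_lit 216544694177) (nat_lit 1) (nat_lit 5) (nat_lit 3) (nat_lit 4) (nat_lit 1) (nat_lit 4) (nat_lit 503) (nat_lit 358) (nat_lit 339)) (XT.nd (nat_lit 78) (nat_lit 0) (nat_lit 0) (XT.lf (nat_lit 0) (nat_lit 235995942836) (nat_lit 152) (nat_lit 1277305904585) (nat_lit 0) (nat_lit 235768431010) (nat_lit 1) (nat_lit 5) (nat_lit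 3) (nat_lit 4) (nat_lit 1) (nat_lit 4) (nat_lit 504) (nat_lit 358) (nat_lit 338)) (XT.lf (nat_lit 0) (nat_lit 256719280761) (nat_lit 152) (nat_lit 1375640091709) (nat_lit 0) (nat_lit 256487165568) (nat_lit 1) (nat_lit 5) (nat_lit 3) (nat_lit 4) (nat_lit 1) (nat_lit 4) (nat_lit 505) (nat_lit 358) (nat_lit 337)))) (XT.nd (nat_lit 78) (nat_lit 0) (nat_lit 0) (XT.lf (nat_lit 0) (nat_lit 279060053106) (nat_lit 152) (nat_lit 1481924404722) (nat_lit 0) (nat_lit 278823675537) (nat_lit 1) (nat_lit 5) (nat_lit 3) (nat_lit 4) (nat_lit 1) (nat_lit 4) (nat_lit 506) (nat_lit 358) (nat_lit 336)) (XT.nd (nat_lit 78) (nat_lit 0) (nat_lit 0) (XT.lf (nat_lit 0) (nat_lit 303150649635) (nat_lit 152) (nat_lit 1596788676591) (nat_lit 0) (nat_lit 302910325421) (nat_lit 1) (nat_lit 5) (nat_lit 3) (nat_lit 4) (nat_lit 1) (nat_lit 4) (nat_lit 507) (nat_lit 358) (nat_lit 335)) (XT.lf (nat_lit 0) (nat_lit 329133829437)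 (nat_lit 152) (nat_lit 1720913584481) (nat_lit 0) (nat_lit 328889850922) (nat_lit 1) (nat_lit 5) (nat_lit 3) (nat_lit 4) (nat_lit 1) (nat_lit 4) (nat_lit 508) (nat_lit 358) (nat_lit 334))))) (XT.nd (nat_lit 234) (nat_lit 0) (nat_lit 0) (XT.nd (nat_lit 78) (nat_lit 0) (nat_lit 0) (XT.lf (nat_lit 0) (nat_lit 357163566911) (nat_lit 152) (nat_lit 1855034683403) (nat_lit 0) (nat_lit 356916204785) (nat_lit 1) (nat_lit 5) (nat_lit 3) (nat_lit 4) (nat_lit 1) (nat_lit 4) (nat_lit 509) (nat_lit 358) (nat_lit 333)) (XT.nd (nat_lit 78) (nat_lit 0) (nat_lit 0) (XT.lf (nat_lit 0) (nat_lit 387405964206) (nat_lit 152) (nat_lit 1999946765053) (nat_lit 0) (nat_lit 387155469105) (nat_lit 1) (nat_lit 5) (nat_lit 3) (nat_lit 4) (nat_lit 1) (nat_lit 4) (nat_lit 510) (nat_lit 358) (nat_lit 332)) (XT.lf (nat_lit 0) (nat_lit 420040235527) (nat_lit 152) (nat_lit 2156508567695) (nat_lit 0) (nat_lit 419786839524)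 (nat_lit 1) (nat_lit 5) (nat_lit 3) (nat_lit 4) (nat_lit 1) (nat_lit 4) (nat_lit 511) (nat_lit 358) (nat_lit 331)))) (XT.nd (nat_lit 78) (nat_lit 0) (nat_lit 0) (XT.lf (nat_lit 0) (nat_lit 455259769149) (nat_lit 152) (nat_lit 2325647864972) (nat_lit 0) (nat_lit 455003687126) (nat_lit 1) (nat_lit 5) (nat_lit 3) (nat_lit 4) (nat_lit 1) (nat_lit 4) (nat_lit 512) (nat_lit 358) (nat_lit 330)) (XT.nd (nat_lit 78) (nat_lit 0) (nat_lit 0) (XT.lf (nat_lit 0) (nat_lit 493273273419) (nat_lit 152) (nat_lit 2508366963832) (nat_lit 0) (nat_lit 493014704341) (nat_lit 1) (nat_lit 5) (nat_lit 3) (nat_lit 4) (nat_lit 1) (nat_lit 4) (nat_lit 513) (nat_lit 358) (nat_lit 329)) (XT.lf (nat_lit 0) (nat_lit 534306013548) (nat_lit 152) (nat_lit 2705748644119) (nat_lit 0) (nat_lit 534045141640) (nat_lit 1) (nat_lit 5) (nat_lit 3) (nat_lit 4) (nat_lit 1) (nat_lit 4) (nat_lit 514) (nat_lit 358) (nat_lit 328))))))))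
noncomputable def xc13 : XT := (XT.nd (nat_lit 60294) (nat_lit 0) (nat_lit 0) (XT.nd (nat_lit 858) (nat_lit 0) (nat_lit 0) (XT.nd (nat_lit 390) (nat_lit 0) (nat_lit 0) (XT.nd (nat_lit 156) (nat_lit 0) (nat_lit 0) (XT.nd (nat_lit 78) (nat_lit 0) (nat_lit 0) (XT.lf (nat_lit 0) (nat_lit 578601146515) (nat_lit 152) (nat_lit 2918962575051) (nat_lit 0) (nat_lit 578338142357) (nat_lit 1) (nat_lit 5) (nat_lit 3) (nat_lit 4) (nat_lit 1) (nat_lit 4) (nat_lit 515) (nat_lit 358) (nat_lit 327)) (XT.lf (nat_lit 0) (nat_lit 626421161995) (nat_lit 152) (nat_lit 3149272246589) (nat_lit 0) (nat_lit 626156183533) (nat_lit 1) (nat_lit 5) (nat_lit 3) (nat_lit 4) (nat_lit 1) (nat_lit 4) (nat_lit 516) (nat_lit 358) (nat_lit 326))) (XT.nd (nat_lit 78) (nat_lit 0) (nat_lit 0) (XT.lf (nat_lit 0) (nat_lit 678049437860) (nat_lit 152) (nat_lit 3398042456785) (nat_lit 0) (nat_lit 677782631337) (nat_lit 1) (nat_lit 5)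 (nat_lit 3) (nat_lit 4) (nat_lit 1) (nat_lit 4) (nat_lit 517) (nat_lit 358) (nat_lit 325)) (XT.nd (nat_lit 78) (nat_lit 0) (nat_lit 0) (XT.lf (nat_lit 0) (nat_lit 733791919447) (nat_lit 152) (nat_lit 3666747399478) (nat_lit 0) (nat_lit 733523420276) (nat_lit 1) (nat_lit 5) (nat_lit 3) (nat_lit 4) (nat_lit 1) (nat_lit 4) (nat_lit 518) (nat_lit 358) (nat_lit 324)) (XT.lf (nat_lit 0) (nat_lit 793978932572) (nat_lit 152) (nat_lit 3956979400255) (nat_lit 0) (nat_lit 793708866134) (nat_lit 1) (nat_lit 5) (nat_lit 3) (nat_lit 4) (nat_lit 1) (nat_lit 4) (nat_lit 519) (nat_lit 358) (nat_lit 323))))) (XT.nd (nat_lit 234) (nat_lit 0) (nat_lit 0) (XT.nd (nat_lit 78) (nat_lit 0) (nat_lit 0) (XT.lf (nat_lit 0) (nat_lit 858967141019) (nat_lit 152) (nat_lit 4270458352453) (nat_lit 0) (nat_lit 858695623407) (nat_lit 1) (nat_lit 5) (nat_lit 3) (nat_lit 4) (nat_lit 1) (nat_lit 4) (nat_lit 520) (nat_lit 358)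 (nat_lit 322)) (XT.nd (nat_lit 78) (nat_lit 0) (nat_lit 0) (XT.lf (nat_lit 0) (nat_lit 929141660094) (nat_lit 152) (nat_lit 4609041909123) (nat_lit 0) (nat_lit 928868798805) (nat_lit 1) (nat_lit 5) (nat_lit 3) (nat_lit 4) (nat_lit 1) (nat_lit 4) (nat_lit 521) (nat_lit 358) (nat_lit 321)) (XT.lf (nat_lit 0) (nat_lit 1004918338802) (nat_lit 152) (nat_lit 4974736491341) (nat_lit 0) (nat_lit 1004644233365) (nat_lit 1) (nat_lit 5) (nat_lit 3) (nat_lit 4) (nat_lit 1) (nat_lit 4) (nat_lit 522) (nat_lit 358) (nat_lit 320)))) (XT.nd (nat_lit 78) (nat_lit 0) (nat_lit 0) (XT.lf (nat_lit 0) (nat_lit 1086746224127) (nat_lit 152) (nat_lit 5369709178112) (nat_lit 0) (nat_lit 1086470966702) (nat_lit 1) (nat_lit 5) (nat_lit 3) (nat_lit 4) (nat_lit 1) (nat_lit 4) (nat_lit 523) (nat_lit 358) (nat_lit 319)) (XT.nd (nat_lit 78) (nat_lit 0) (nat_lit 0) (XT.lf (nat_lit 0) (nat_lit 1175110222055) (nat_lit 152)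 (nat_lit 5796300548322) (nat_lit 0) (nat_lit 1174833897974) (nat_lit 1) (nat_lit 5) (nat_lit 3) (nat_lit 4) (nat_lit 1) (nat_lit 4) (nat_lit 524) (nat_lit 358) (nat_lit 318)) (XT.lf (nat_lit 0) (nat_lit 1270533971093) (nat_lit 152) (nat_lit 6257038550830) (nat_lit 0) (nat_lit 1270256659368) (nat_lit 1) (nat_lit 5) (nat_lit 3) (nat_lit 4) (nat_lit 1) (nat_lit 4) (nat_lit 525) (nat_lit 358) (nat_lit 317)))))) (XT.nd (nat_lit 468) (nat_lit 0) (nat_lit 0) (XT.nd (nat_lit 234) (nat_lit 0) (nat_lit 0) (XT.nd (nat_lit 78) (nat_lit 0) (nat_lit 0) (XT.lf (nat_lit 0) (nat_lit 1373582945309) (nat_lit 152) (nat_lit 6754653484912) (nat_lit 0) (nat_lit 1373304719100) (nat_lit 1) (nat_lit 5) (nat_lit 3) (nat_lit 4) (nat_lit 1) (nat_lit 4) (nat_lit 526) (nat_lit 358) (nat_lit 316)) (XT.nd (nat_lit 78) (nat_lit 0) (nat_lit 0) (XT.lf (nat_lit 0) (nat_lit 1484867805292) (nat_lit 152) (nat_lit 7292094179805)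 (nat_lit 0) (nat_lit 1484588732337) (nat_lit 1) (nat_lit 5) (nat_lit 3) (nat_lit 4) (nat_lit 1) (nat_lit 4) (nat_lit 527) (nat_lit 358) (nat_lit 315)) (XT.lf (nat_lit 0) (nat_lit 1605048016878) (nat_lit 152) (nat_lit 7872545469258) (nat_lit 0) (nat_lit 1604768159899) (nat_lit 1) (nat_lit 5) (nat_lit 3) (nat_lit 4) (nat_lit 1) (nat_lit 4) (nat_lit 528) (nat_lit 358) (nat_lit 314)))) (XT.nd (nat_lit 78) (nat_lit 0) (nat_lit 0) (XT.lf (nat_lit 0) (nat_lit 1734835759099) (nat_lit 152) (nat_lit 8499447064616) (nat_lit 0) (nat_lit 1734555176173) (nat_lit 1) (nat_lit 5) (nat_lit 3) (nat_lit 4) (nat_lit 1) (nat_lit 4) (nat_lit 529) (nat_lit 358) (nat_lit 313)) (XT.nd (nat_lit 78) (nat_lit 0) (nat_lit 0) (XT.lf (nat_lit 0) (nat_lit 1875000144502) (nat_lit 152) (nat_lit 9176513938294) (nat_lit 0) (nat_lit 1874718889401) (nat_lit 1) (nat_lit 5) (nat_lit 3) (nat_lit 4) (nat_lit 1) (nat_lit 4) (nat_lit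 530) (nat_lit 358) (nat_lit 312)) (XT.lf (nat_lit 0) (nat_lit 2026371776851) (nat_lit 152) (nat_lit 9907758338435) (nat_lit 0) (nat_lit 2026089899367) (nat_lit 1) (nat_lit 5) (nat_lit 3) (nat_lit 4) (nat_lit 1) (nat_lit 4) (nat_lit 531) (nat_lit 358) (nat_lit 311))))) (XT.nd (nat_lit 58734) (nat_lit 0) (nat_lit 0) (XT.nd (nat_lit 58578) (nat_lit 0) (nat_lit 0) (XT.lf (nat_lit 0) (nat_lit 2189847673228) (nat_lit 152) (nat_lit 10697513565186) (nat_lit 0) (nat_lit 2189565219463) (nat_lit 1) (nat_lit 5) (nat_lit 3) (nat_lit 4) (nat_lit 1) (nat_lit 4) (nat_lit 532) (nat_lit 358) (nat_lit 310)) (XT.nd (nat_lit 78) (nat_lit 0) (nat_lit 0) (XT.lf (nat_lit 0) (nat_lit 5845429009) (nat_lit 152) (nat_lit 150450830978) (nat_lit 0) (nat_lit 5845429009) (nat_lit 1) (nat_lit 5) (nat_lit 3) (nat_lit 4) (nat_lit 1) (nat_lit 4) (nat_lit 482) (nat_lit 359) (nat_lit 359)) (XT.lf (nat_lit 0) (nat_lit 16775443848)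 (nat_lit 152) (nat_lit 316364350164) (nat_lit 0) (nat_lit 16752271266) (nat_lit 1) (nat_lit 5) (nat_lit 3) (nat_lit 4) (nat_lit 1) (nat_lit 4) (nat_lit 483) (nat_lit 359) (nat_lit 358)))) (XT.nd (nat_lit 78) (nat_lit 0) (nat_lit 0) (XT.lf (nat_lit 0) (nat_lit 22063265494) (nat_lit 152) (nat_lit 333483829451) (nat_lit 0) (nat_lit 22018636817) (nat_lit 1) (nat_lit 5) (nat_lit 3) (nat_lit 4) (nat_lit 1) (nat_lit 4) (nat_lit 484) (nat_lit 359) (nat_lit 357)) (XT.nd (nat_lit 78) (nat_lit 0) (nat_lit 0) (XT.lf (nat_lit 0) (nat_lit 27585658193) (nat_lit 152) (nat_lit 352361548582) (nat_lit 0) (nat_lit 27521162763) (nat_lit 1) (nat_lit 5) (nat_lit 3) (nat_lit 4) (nat_lit 1) (nat_lit 4) (nat_lit 485) (nat_lit 359) (nat_lit 356)) (XT.lf (nat_lit 0) (nat_lit 33375347238) (nat_lit 152) (nat_lit 373109375522) (nat_lit 0) (nat_lit 33292456664) (nat_lit 1) (nat_lit 5) (nat_lit 3) (nat_lit 4) (nat_lit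 1) (nat_lit 4) (nat_lit 486) (nat_lit 359) (nat_lit 355))))))) (XT.nd (nat_lit 936) (nat_lit 0) (nat_lit 0) (XT.nd (nat_lit 468) (nat_lit 0) (nat_lit 0) (XT.nd (nat_lit 234) (nat_lit 0) (nat_lit 0) (XT.nd (nat_lit 78) (nat_lit 0) (nat_lit 0) (XT.lf (nat_lit 0) (nat_lit 39466641895) (nat_lit 152) (nat_lit 395850260358) (nat_lit 0) (nat_lit 39366718782) (nat_lit 1) (nat_lit 5) (nat_lit 3) (nat_lit 4) (nat_lit 1) (nat_lit 4) (nat_lit 487) (nat_lit 359) (nat_lit 354)) (XT.nd (nat_lit 78) (nat_lit 0) (nat_lit 0) (XT.lf (nat_lit 0) (nat_lit 45895638727) (nat_lit 152) (nat_lit 420718963887) (nat_lit 0) (nat_lit 45779944744) (nat_lit 1) (nat_lit 5) (nat_lit 3) (nat_lit 4) (nat_lit 1) (nat_lit 4) (nat_lit 488) (nat_lit 359) (nat_lit 353)) (XT.lf (nat_lit 0) (nat_lit 52700435492) (nat_lit 152) (nat_lit 447862856206) (nat_lit 0) (nat_lit 52570138852) (nat_lit 1) (nat_lit 5) (nat_lit 3) (nat_lit 4)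 (nat_lit 1) (nat_lit 4) (nat_lit 489) (nat_lit 359) (nat_lit 352)))) (XT.nd (nat_lit 78) (nat_lit 0) (nat_lit 0) (XT.lf (nat_lit 0) (nat_lit 59921356911) (nat_lit 152) (nat_lit 477442790009) (nat_lit 0) (nat_lit 59777539292) (nat_lit 1) (nat_lit 5) (nat_lit 3) (nat_lit 4) (nat_lit 1) (nat_lit 4) (nat_lit 490) (nat_lit 359) (nat_lit 351)) (XT.nd (nat_lit 78) (nat_lit 0) (nat_lit 0) (XT.lf (nat_lit 0) (nat_lit 67601193631) (nat_lit 152) (nat_lit 509634053793) (nat_lit 0) (nat_lit 67444856586) (nat_lit 1) (nat_lit 5) (nat_lit 3) (nat_lit 4) (nat_lit 1) (nat_lit 4) (nat_lit 491) (nat_lit 359) (nat_lit 350)) (XT.lf (nat_lit 0) (nat_lit 75785455794) (nat_lit 152) (nat_lit 544627410603) (nat_lit 0) (nat_lit 75617526689) (nat_lit 1) (nat_lit 5) (nat_lit 3) (nat_lit 4) (nat_lit 1) (nat_lit 4) (nat_lit 492) (nat_lit 359) (nat_lit 349))))) (XT.nd (nat_lit 234) (nat_lit 0) (nat_lit 0) (XT.nd (nat_lit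 78) (nat_lit 0) (nat_lit 0) (XT.lf (nat_lit 0) (nat_lit 84522642732) (nat_lit 152) (nat_lit 582630228478) (nat_lit 0) (nat_lit 84343980238) (nat_lit 1) (nat_lit 5) (nat_lit 3) (nat_lit 4) (nat_lit 1) (nat_lit 4) (nat_lit 493) (nat_lit 359) (nat_lit 348)) (XT.nd (nat_lit 78) (nat_lit 0) (nat_lit 0) (XT.lf (nat_lit 0) (nat_lit 93864530368) (nat_lit 152) (nat_lit 623867709304) (nat_lit 0) (nat_lit 93675929551) (nat_lit 1) (nat_lit 5) (nat_lit 3) (nat_lit 4) (nat_lit 1) (nat_lit 4) (nat_lit 494) (nat_lit 359) (nat_lit 347)) (XT.lf (nat_lit 0) (nat_lit 103866478035) (nat_lit 152) (nat_lit 668584223335) (nat_lit 0) (nat_lit 103668675067) (nat_lit 1) (nat_lit 5) (nat_lit 3) (nat_lit 4) (nat_lit 1) (nat_lit 4) (nat_lit 495) (nat_lit 359) (nat_lit 346)))) (XT.nd (nat_lit 78) (nat_lit 0) (nat_lit 0) (XT.lf (nat_lit 0) (nat_lit 114587756535) (nat_lit 152) (nat_lit 717044757323) (nat_lit 0) (nat_lit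 114381433057) (nat_lit 1) (nat_lit 5) (nat_lit 3) (nat_lit 4) (nat_lit 1) (nat_lit 4) (nat_lit 496) (nat_lit 359) (nat_lit 345)) (XT.nd (nat_lit 78) (nat_lit 0) (nat_lit 0) (XT.lf (nat_lit 0) (nat_lit 126091899370) (nat_lit 152) (nat_lit 769536484802) (nat_lit 0) (nat_lit 125877686530) (nat_lit 1) (nat_lit 5) (nat_lit 3) (nat_lit 4) (nat_lit 1) (nat_lit 4) (nat_lit 497) (nat_lit 359) (nat_lit 344)) (XT.lf (nat_lit 0) (nat_lit 138447079238) (nat_lit 152) (nat_lit 826370467860) (nat_lit 0) (nat_lit 138225561434) (nat_lit 1) (nat_lit 5) (nat_lit 3) (nat_lit 4) (nat_lit 1) (nat_lit 4) (nat_lit 498) (nat_lit 359) (nat_lit 343)))))) (XT.nd (nat_lit 468) (nat_lit 0) (nat_lit 0) (XT.nd (nat_lit 234) (nat_lit 0) (nat_lit 0) (XT.nd (nat_lit 78) (nat_lit 0) (nat_lit 0) (XT.lf (nat_lit 0) (nat_lit 151726512020) (nat_lit 152) (nat_lit 887883500472) (nat_lit 0) (nat_lit 151498230360) (nat_lit 1) (nat_lit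 5) (nat_lit 3) (nat_lit 4) (nat_lit 1) (nat_lit 4) (nat_lit 499) (nat_lit 359) (nat_lit 342)) (XT.nd (nat_lit 78) (nat_lit 0) (nat_lit 0) (XT.lf (nat_lit 0) (nat_lit 166008890651) (nat_lit 152) (nat_lit 954440104312) (nat_lit 0) (nat_lit 165774346162) (nat_lit 1) (nat_lit 5) (nat_lit 3) (nat_lit 4) (nat_lit 1) (nat_lit 4) (nat_lit 500) (nat_lit 359) (nat_lit 341)) (XT.lf (nat_lit 0) (nat_lit 181378851449) (nat_lit 152) (nat_lit 1026434688884) (nat_lit 0) (nat_lit 181138508043) (nat_lit 1) (nat_lit 5) (nat_lit 3) (nat_lit 4) (nat_lit 1) (nat_lit 4) (nat_lit 501) (nat_lit 359) (nat_lit 340)))) (XT.nd (nat_lit 78) (nat_lit 0) (nat_lit 0) (XT.lf (nat_lit 0) (nat_lit 197927475662) (nat_lit 152) (nat_lit 1104293888764) (nat_lit 0) (nat_lit 197681762890) (nat_lit 1) (nat_lit 5) (nat_lit 3) (nat_lit 4) (nat_lit 1) (nat_lit 4) (nat_lit 502) (nat_lit 359) (nat_lit 339)) (XT.nd (nat_lit 78) (nat_lit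 0) (nat_lit 0) (XT.lf (nat_lit 0) (nat_lit 215752829213) (nat_lit 152) (nat_lit 1188479091802) (nat_lit 0) (nat_lit 215502144805) (nat_lit 1) (nat_lit 5) (nat_lit 3) (nat_lit 4) (nat_lit 1) (nat_lit 4) (nat_lit 503) (nat_lit 359) (nat_lit 338)) (XT.lf (nat_lit 0) (nat_lit 234960543825) (nat_lit 152) (nat_lit 1279489173277) (nat_lit 0) (nat_lit 234705256051) (nat_lit 1) (nat_lit 5) (nat_lit 3) (nat_lit 4) (nat_lit 1) (nat_lit 4) (nat_lit 504) (nat_lit 359) (nat_lit 337))))) (XT.nd (nat_lit 234) (nat_lit 0) (nat_lit 0) (XT.nd (nat_lit 78) (nat_lit 0) (nat_lit 0) (XT.lf (nat_lit 0) (nat_lit 255664442994) (nat_lit 152) (nat_lit 1377863452189) (nat_lit 0) (nat_lit 255404892843) (nat_lit 1) (nat_lit 5) (nat_lit 3) (nat_lit 4) (nat_lit 1) (nat_lit 4) (nat_lit 505) (nat_lit 359) (nat_lit 336)) (XT.nd (nat_lit 78) (nat_lit 0) (nat_lit 0) (XT.lf (nat_lit 0) (nat_lit 277987216491) (nat_lit 152) (nat_lit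 1484184887228) (nat_lit 0) (nat_lit 277723719695) (nat_lit 1) (nat_lit 5) (nat_lit 3) (nat_lit 4) (nat_lit 1) (nat_lit 4) (nat_lit 506) (nat_lit 359) (nat_lit 335)) (XT.lf (nat_lit 0) (nat_lit 302061147419) (nat_lit 152) (nat_lit 1599083531343) (nat_lit 0) (nat_lit 301793996322) (nat_lit 1) (nat_lit 5) (nat_lit 3) (nat_lit 4) (nat_lit 1) (nat_lit 4) (nat_lit 507) (nat_lit 359) (nat_lit 334)))) (XT.nd (nat_lit 78) (nat_lit 0) (nat_lit 0) (XT.lf (nat_lit 0) (nat_lit 328028896110) (nat_lit 152) (nat_lit 1723240265387) (nat_lit 0) (nat_lit 327758361401) (nat_lit 1) (nat_lit 5) (nat_lit 3) (nat_lit 4) (nat_lit 1) (nat_lit 4) (nat_lit 508) (nat_lit 359) (nat_lit 333)) (XT.nd (nat_lit 78) (nat_lit 0) (nat_lit 0) (XT.lf (nat_lit 0) (nat_lit 356044345518) (nat_lit 152) (nat_lit 1857390832970) (nat_lit 0) (nat_lit 355770677835) (nat_lit 1) (nat_lit 5) (nat_lit 3) (nat_lit 4) (nat_lit 1) (nat_lit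 4) (nat_lit 509) (nat_lit 359) (nat_lit 332)) (XT.lf (nat_lit 0) (nat_lit 386273513121) (nat_lit 152) (nat_lit 2002330200418) (nat_lit 0) (nat_lit 385996944537) (nat_lit 1) (nat_lit 5) (nat_lit 3) (nat_lit 4) (nat_lit 1) (nat_lit 4) (nat_lit 510) (nat_lit 359) (nat_lit 331))))))))
noncomputable def xc14 : XT := (XT.nd (nat_lit 60138) (nat_lit 0) (nat_lit 0) (XT.nd (nat_lit 858) (nat_lit 0) (nat_lit 0) (XT.nd (nat_lit 390) (nat_lit 0) (nat_lit 0) (XT.nd (nat_lit 156) (nat_lit 0) (nat_lit 0) (XT.nd (nat_lit 78) (nat_lit 0) (nat_lit 0) (XT.lf (nat_lit 0) (nat_lit 418895534729) (nat_lit 152) (nat_lit 2158917267687) (nat_lit 0) (nat_lit 418616280124) (nat_lit 1) (nat_lit 5) (nat_lit 3) (nat_lit 4) (nat_lit 1) (nat_lit 4) (nat_lit 511) (nat_lit 359) (nat_lit 330)) (XT.lf (nat_lit 0) (nat_lit 454103726023) (nat_lit 152) (nat_lit 2328079958137) (nat_lit 0) (nat_lit 453821984363) (nat_lit 1) (nat_lit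 5) (nat_lit 3) (nat_lit 4) (nat_lit 1) (nat_lit 4) (nat_lit 512) (nat_lit 359) (nat_lit 329))) (XT.nd (nat_lit 78) (nat_lit 0) (nat_lit 0) (XT.lf (nat_lit 0) (nat_lit 492106728138) (nat_lit 152) (nat_lit 2510820717343) (nat_lit 0) (nat_lit 491822683648) (nat_lit 1) (nat_lit 5) (nat_lit 3) (nat_lit 4) (nat_lit 1) (nat_lit 4) (nat_lit 513) (nat_lit 359) (nat_lit 328)) (XT.nd (nat_lit 78) (nat_lit 0) (nat_lit 0) (XT.lf (nat_lit 0) (nat_lit 533129744049) (nat_lit 152) (nat_lit 2708222453506) (nat_lit 0) (nat_lit 532843567310) (nat_lit 1) (nat_lit 5) (nat_lit 3) (nat_lit 4) (nat_lit 1) (nat_lit 4) (nat_lit 514) (nat_lit 359) (nat_lit 327)) (XT.lf (nat_lit 0) (nat_lit 577415873111) (nat_lit 152) (nat_lit 2921454954693) (nat_lit 0) (nat_lit 577127722066) (nat_lit 1) (nat_lit 5) (nat_lit 3) (nat_lit 4) (nat_lit 1) (nat_lit 4) (nat_lit 515) (nat_lit 359) (nat_lit 326))))) (XT.nd (nat_lit 234) (nat_lit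 0) (nat_lit 0) (XT.nd (nat_lit 78) (nat_lit 0) (nat_lit 0) (XT.lf (nat_lit 0) (nat_lit 625227551642) (nat_lit 152) (nat_lit 3151781820911) (nat_lit 0) (nat_lit 624937572537) (nat_lit 1) (nat_lit 5) (nat_lit 3) (nat_lit 4) (nat_lit 1) (nat_lit 4) (nat_lit 516) (nat_lit 359) (nat_lit 325)) (XT.nd (nat_lit 78) (nat_lit 0) (nat_lit 0) (XT.lf (nat_lit 0) (nat_lit 676848108109) (nat_lit 152) (nat_lit 3400567952108) (nat_lit 0) (nat_lit 676556436356) (nat_lit 1) (nat_lit 5) (nat_lit 3) (nat_lit 4) (nat_lit 1) (nat_lit 4) (nat_lit 517) (nat_lit 359) (nat_lit 324)) (XT.lf (nat_lit 0) (nat_lit 732583442105) (nat_lit 152) (nat_lit 3669287636469) (nat_lit 0) (nat_lit 732290203085) (nat_lit 1) (nat_lit 5) (nat_lit 3) (nat_lit 4) (nat_lit 1) (nat_lit 4) (nat_lit 518) (nat_lit 359) (nat_lit 323)))) (XT.nd (nat_lit 78) (nat_lit 0) (nat_lit 0) (XT.lf (nat_lit 0) (nat_lit 792763837092) (nat_lit 152) (nat_lit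 3959533286937) (nat_lit 0) (nat_lit 792469146899) (nat_lit 1) (nat_lit 5) (nat_lit 3) (nat_lit 4) (nat_lit 1) (nat_lit 4) (nat_lit 519) (nat_lit 359) (nat_lit 322)) (XT.nd (nat_lit 78) (nat_lit 0) (nat_lit 0) (XT.lf (nat_lit 0) (nat_lit 857745917631) (nat_lit 152) (nat_lit 4273024877739) (nat_lit 0) (nat_lit 857449883759) (nat_lit 1) (nat_lit 5) (nat_lit 3) (nat_lit 4) (nat_lit 1) (nat_lit 4) (nat_lit 520) (nat_lit 359) (nat_lit 321)) (XT.lf (nat_lit 0) (nat_lit 927914762720) (nat_lit 152) (nat_lit 4611620136820) (nat_lit 0) (nat_lit 927617484701) (nat_lit 1) (nat_lit 5) (nat_lit 3) (nat_lit 4) (nat_lit 1) (nat_lit 4) (nat_lit 521) (nat_lit 359) (nat_lit 320)))))) (XT.nd (nat_lit 468) (nat_lit 0) (nat_lit 0) (XT.nd (nat_lit 234) (nat_lit 0) (nat_lit 0) (XT.nd (nat_lit 78) (nat_lit 0) (nat_lit 0) (XT.lf (nat_lit 0) (nat_lit 1003686187735) (nat_lit 152) (nat_lit 4977325554603) (nat_lit 0)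 (nat_lit 1003387757728) (nat_lit 1) (nat_lit 5) (nat_lit 3) (nat_lit 4) (nat_lit 1) (nat_lit 4) (nat_lit 522) (nat_lit 359) (nat_lit 319)) (XT.nd (nat_lit 78) (nat_lit 0) (nat_lit 0) (XT.lf (nat_lit 0) (nat_lit 1085509208529) (nat_lit 152) (nat_lit 5372308274305) (nat_lit 0) (nat_lit 1085209711867) (nat_lit 1) (nat_lit 5) (nat_lit 3) (nat_lit 4) (nat_lit 1) (nat_lit 4) (nat_lit 523) (nat_lit 359) (nat_lit 318)) (XT.lf (nat_lit 0) (nat_lit 1173868702263) (nat_lit 152) (nat_lit 5798908934266) (nat_lit 0) (nat_lit 1173568217957) (nat_lit 1) (nat_lit 5) (nat_lit 3) (nat_lit 4) (nat_lit 1) (nat_lit 4) (nat_lit 524) (nat_lit 359) (nat_lit 317)))) (XT.nd (nat_lit 78) (nat_lit 0) (nat_lit 0) (XT.lf (nat_lit 0) (nat_lit 1269288280751) (nat_lit 152) (nat_lit 6259655538396) (nat_lit 0) (nat_lit 1268986881959) (nat_lit 1) (nat_lit 5) (nat_lit 3) (nat_lit 4) (nat_lit 1) (nat_lit 4) (nat_lit 525) (nat_lit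 359) (nat_lit 316)) (XT.nd (nat_lit 78) (nat_lit 0) (nat_lit 0) (XT.lf (nat_lit 0) (nat_lit 1372333393347) (nat_lit 152) (nat_lit 6757278436942) (nat_lit 0) (nat_lit 1372031147810) (nat_lit 1) (nat_lit 5) (nat_lit 3) (nat_lit 4) (nat_lit 1) (nat_lit 4) (nat_lit 526) (nat_lit 359) (nat_lit 315)) (XT.lf (nat_lit 0) (nat_lit 1483614677755) (nat_lit 152) (nat_lit 7294726506339) (nat_lit 0) (nat_lit 1483311648194) (nat_lit 1) (nat_lit 5) (nat_lit 3) (nat_lit 4) (nat_lit 1) (nat_lit 4) (nat_lit 527) (nat_lit 359) (nat_lit 314))))) (XT.nd (nat_lit 234) (nat_lit 0) (nat_lit 0) (XT.nd (nat_lit 78) (nat_lit 0) (nat_lit 0) (XT.lf (nat_lit 0) (nat_lit 1603791578624) (nat_lit 152) (nat_lit 7875184624036) (nat_lit 0) (nat_lit 1603487823115) (nat_lit 1) (nat_lit 5) (nat_lit 3) (nat_lit 4) (nat_lit 1) (nat_lit 4) (nat_lit 528) (nat_lit 359) (nat_lit 313)) (XT.nd (nat_lit 78) (nat_lit 0) (nat_lit 0) (XT.lf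 (nat_lit 0) (nat_lit 1733576255366) (nat_lit 152) (nat_lit 8502092541842) (nat_lit 0) (nat_lit 1733271827683) (nat_lit 1) (nat_lit 5) (nat_lit 3) (nat_lit 4) (nat_lit 1) (nat_lit 4) (nat_lit 529) (nat_lit 359) (nat_lit 312)) (XT.lf (nat_lit 0) (nat_lit 1873737802362) (nat_lit 152) (nat_lit 9179165269640) (nat_lit 0) (nat_lit 1873432752296) (nat_lit 1) (nat_lit 5) (nat_lit 3) (nat_lit 4) (nat_lit 1) (nat_lit 4) (nat_lit 530) (nat_lit 359) (nat_lit 311)))) (XT.nd (nat_lit 78) (nat_lit 0) (nat_lit 0) (XT.lf (nat_lit 0) (nat_lit 2025106806557) (nat_lit 152) (nat_lit 9910415090260) (nat_lit 0) (nat_lit 2024801180210) (nat_lit 1) (nat_lit 5) (nat_lit 3) (nat_lit 4) (nat_lit 1) (nat_lit 4) (nat_lit 531) (nat_lit 359) (nat_lit 310)) (XT.nd (nat_lit 58422) (nat_lit 0) (nat_lit 0) (XT.lf (nat_lit 0) (nat_lit 2188580269458) (nat_lit 152) (nat_lit 10700175335975) (nat_lit 0) (nat_lit 2188274109517)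 (nat_lit 1) (nat_lit 5) (nat_lit 3) (nat_lit 4) (nat_lit 1) (nat_lit 4) (nat_lit 532) (nat_lit 359) (nat_lit 309)) (XT.lf (nat_lit 0) (nat_lit 1075528218) (nat_lit 152) (nat_lit 137177006670) (nat_lit 0) (nat_lit 1075528218) (nat_lit 1) (nat_lit 5) (nat_lit 3) (nat_lit 4) (nat_lit 1) (nat_lit 4) (nat_lit 480) (nat_lit 360) (nat_lit 360))))))) (XT.nd (nat_lit 936) (nat_lit 0) (nat_lit 0) (XT.nd (nat_lit 468) (nat_lit 0) (nat_lit 0) (XT.nd (nat_lit 234) (nat_lit 0) (nat_lit 0) (XT.nd (nat_lit 78) (nat_lit 0) (nat_lit 0) (XT.lf (nat_lit 0) (nat_lit 6804403514) (nat_lit 152) (nat_lit 287004134080) (nat_lit 0) (nat_lit 6779377125) (nat_lit 1) (nat_lit 5) (nat_lit 3) (nat_lit 4) (nat_lit 1) (nat_lit 4) (nat_lit 481) (nat_lit 360) (nat_lit 359)) (XT.nd (nat_lit 78) (nat_lit 0) (nat_lit 0) (XT.lf (nat_lit 0) (nat_lit 11610204823) (nat_lit 152) (nat_lit 301119622582) (nat_lit 0) (nat_lit 11562005852)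 (nat_lit 1) (nat_lit 5) (nat_lit 3) (nat_lit 4) (nat_lit 1) (nat_lit 4) (nat_lit 482) (nat_lit 360) (nat_lit 358)) (XT.lf (nat_lit 0) (nat_lit 16596939186) (nat_lit 152) (nat_lit 316784126186) (nat_lit 0) (nat_lit 16527284121) (nat_lit 1) (nat_lit 5) (nat_lit 3) (nat_lit 4) (nat_lit 1) (nat_lit 4) (nat_lit 483) (nat_lit 360) (nat_lit 357)))) (XT.nd (nat_lit 78) (nat_lit 0) (nat_lit 0) (XT.lf (nat_lit 0) (nat_lit 21794157621) (nat_lit 152) (nat_lit 334090471579) (nat_lit 0) (nat_lit 21704635802) (nat_lit 1) (nat_lit 5) (nat_lit 3) (nat_lit 4) (nat_lit 1) (nat_lit 4) (nat_lit 484) (nat_lit 360) (nat_lit 356)) (XT.nd (nat_lit 78) (nat_lit 0) (nat_lit 0) (XT.lf (nat_lit 0) (nat_lit 27232658460) (nat_lit 152) (nat_lit 353141214882) (nat_lit 0) (nat_lit 27124741498) (nat_lit 1) (nat_lit 5) (nat_lit 3) (nat_lit 4) (nat_lit 1) (nat_lit 4) (nat_lit 485) (nat_lit 360) (nat_lit 355)) (XT.lf (nat_lit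 0) (nat_lit 32944669855) (nat_lit 152) (nat_lit 374049249390) (nat_lit 0) (nat_lit 32819720353) (nat_lit 1) (nat_lit 5) (nat_lit 3) (nat_lit 4) (nat_lit 1) (nat_lit 4) (nat_lit 486) (nat_lit 360) (nat_lit 354))))) (XT.nd (nat_lit 234) (nat_lit 0) (nat_lit 0) (XT.nd (nat_lit 78) (nat_lit 0) (nat_lit 0) (XT.lf (nat_lit 0) (nat_lit 38964040763) (nat_lit 152) (nat_lit 396938474565) (nat_lit 0) (nat_lit 38823320392) (nat_lit 1) (nat_lit 5) (nat_lit 3) (nat_lit 4) (nat_lit 1) (nat_lit 4) (nat_lit 487) (nat_lit 360) (nat_lit 353)) (XT.nd (nat_lit 78) (nat_lit 0) (nat_lit 0) (XT.lf (nat_lit 0) (nat_lit 45326441531) (nat_lit 152) (nat_lit 421944530262) (nat_lit 0) (nat_lit 45171118502) (nat_lit 1) (nat_lit 5) (nat_lit 3) (nat_lit 4) (nat_lit 1) (nat_lit 4) (nat_lit 488) (nat_lit 360) (nat_lit 352)) (XT.lf (nat_lit 0) (nat_lit 52069575273) (nat_lit 152) (nat_lit 449215600513) (nat_lit 0) (nat_lit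 51900731265) (nat_lit 1) (nat_lit 5) (nat_lit 3) (nat_lit 4) (nat_lit 1) (nat_lit 4) (nat_lit 489) (nat_lit 360) (nat_lit 351)))) (XT.nd (nat_lit 78) (nat_lit 0) (nat_lit 0) (XT.lf (nat_lit 0) (nat_lit 59233401301) (nat_lit 152) (nat_lit 478913291660) (nat_lit 0) (nat_lit 59052037868) (nat_lit 1) (nat_lit 5) (nat_lit 3) (nat_lit 4) (nat_lit 1) (nat_lit 4) (nat_lit 490) (nat_lit 360) (nat_lit 350)) (XT.nd (nat_lit 78) (nat_lit 0) (nat_lit 0) (XT.lf (nat_lit 0) (nat_lit 66860371918) (nat_lit 152) (nat_lit 511213590023) (nat_lit 0) (nat_lit 66667416425) (nat_lit 1) (nat_lit 5) (nat_lit 3) (nat_lit 4) (nat_lit 1) (nat_lit 4) (nat_lit 491) (nat_lit 360) (nat_lit 349)) (XT.lf (nat_lit 0) (nat_lit 74995683986) (nat_lit 152) (nat_lit 546307904775) (nat_lit 0) (nat_lit 74791995104) (nat_lit 1) (nat_lit 5) (nat_lit 3) (nat_lit 4) (nat_lit 1) (nat_lit 4) (nat_lit 492) (nat_lit 360) (nat_lit 348))))))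 (XT.nd (nat_lit 468) (nat_lit 0) (nat_lit 0) (XT.nd (nat_lit 234) (nat_lit 0) (nat_lit 0) (XT.nd (nat_lit 78) (nat_lit 0) (nat_lit 0) (XT.lf (nat_lit 0) (nat_lit 83687546762) (nat_lit 152) (nat_lit 584404202227) (nat_lit 0) (nat_lit 83473919556) (nat_lit 1) (nat_lit 5) (nat_lit 3) (nat_lit 4) (nat_lit 1) (nat_lit 4) (nat_lit 493) (nat_lit 360) (nat_lit 347)) (XT.nd (nat_lit 78) (nat_lit 0) (nat_lit 0) (XT.lf (nat_lit 0) (nat_lit 92987467580) (nat_lit 152) (nat_lit 625728238216) (nat_lit 0) (nat_lit 92764638224) (nat_lit 1) (nat_lit 5) (nat_lit 3) (nat_lit 4) (nat_lit 1) (nat_lit 4) (nat_lit 494) (nat_lit 360) (nat_lit 346)) (XT.lf (nat_lit 0) (nat_lit 102950557084) (nat_lit 152) (nat_lit 670524895918) (nat_lit 0) (nat_lit 102719207217) (nat_lit 1) (nat_lit 5) (nat_lit 3) (nat_lit 4) (nat_lit 1) (nat_lit 4) (nat_lit 495) (nat_lit 360) (nat_lit 345)))) (XT.nd (nat_lit 78) (nat_lit 0) (nat_lit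 0) (XT.lf (nat_lit 0) (nat_lit 113635855803) (nat_lit 152) (nat_lit 719059637007) (nat_lit 0) (nat_lit 113396616575) (nat_lit 1) (nat_lit 5) (nat_lit 3) (nat_lit 4) (nat_lit 1) (nat_lit 4) (nat_lit 496) (nat_lit 360) (nat_lit 344)) (XT.nd (nat_lit 78) (nat_lit 0) (nat_lit 0) (XT.lf (nat_lit 0) (nat_lit 125106684025) (nat_lit 152) (nat_lit 771620074766) (nat_lit 0) (nat_lit 124860139833) (nat_lit 1) (nat_lit 5) (nat_lit 3) (nat_lit 4) (nat_lit 1) (nat_lit 4) (nat_lit 497) (nat_lit 360) (nat_lit 343)) (XT.lf (nat_lit 0) (nat_lit 137431017030) (nat_lit 152) (nat_lit 828517678453) (nat_lit 0) (nat_lit 137177708982) (nat_lit 1) (nat_lit 5) (nat_lit 3) (nat_lit 4) (nat_lit 1) (nat_lit 4) (nat_lit 498) (nat_lit 360) (nat_lit 342))))) (XT.nd (nat_lit 234) (nat_lit 0) (nat_lit 0) (XT.nd (nat_lit 78) (nat_lit 0) (nat_lit 0) (XT.lf (nat_lit 0) (nat_lit 150681887902) (nat_lit 152) (nat_lit 890089619055)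 (nat_lit 0) (nat_lit 150422317024) (nat_lit 1) (nat_lit 5) (nat_lit 3) (nat_lit 4) (nat_lit 1) (nat_lit 4) (nat_lit 499) (nat_lit 360) (nat_lit 341)) (XT.nd (nat_lit 78) (nat_lit 0) (nat_lit 0) (XT.lf (nat_lit 0) (nat_lit 164937820320) (nat_lit 152) (nat_lit 956700767330) (nat_lit 0) (nat_lit 164672450526) (nat_lit 1) (nat_lit 5) (nat_lit 3) (nat_lit 4) (nat_lit 1) (nat_lit 4) (nat_lit 500) (nat_lit 360) (nat_lit 340)) (XT.lf (nat_lit 0) (nat_lit 180283293883) (nat_lit 152) (nat_lit 1028745856009) (nat_lit 0) (nat_lit 180012554722) (nat_lit 1) (nat_lit 5) (nat_lit 3) (nat_lit 4) (nat_lit 1) (nat_lit 4) (nat_lit 501) (nat_lit 360) (nat_lit 339)))) (XT.nd (nat_lit 78) (nat_lit 0) (nat_lit 0) (XT.lf (nat_lit 0) (nat_lit 196809244731) (nat_lit 152) (nat_lit 1106651818951) (nat_lit 0) (nat_lit 196533533934) (nat_lit 1) (nat_lit 5) (nat_lit 3) (nat_lit 4) (nat_lit 1) (nat_lit 4) (nat_lit 502)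 (nat_lit 360) (nat_lit 338)) (XT.nd (nat_lit 78) (nat_lit 0) (nat_lit 0) (XT.lf (nat_lit 0) (nat_lit 214613604425) (nat_lit 152) (nat_lit 1190880321120) (nat_lit 0) (nat_lit 214333290261) (nat_lit 1) (nat_lit 5) (nat_lit 3) (nat_lit 4) (nat_lit 1) (nat_lit 4) (nat_lit 503) (nat_lit 360) (nat_lit 337)) (XT.lf (nat_lit 0) (nat_lit 233801880281) (nat_lit 152) (nat_lit 1281930494383) (nat_lit 0) (nat_lit 233517303741) (nat_lit 1) (nat_lit 5) (nat_lit 3) (nat_lit 4) (nat_lit 1) (nat_lit 4) (nat_lit 504) (nat_lit 360) (nat_lit 336))))))))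
noncomputable def xc15 : XT := (XT.nd (nat_lit 1794) (nat_lit 0) (nat_lit 0) (XT.nd (nat_lit 858) (nat_lit 0) (nat_lit 0) (XT.nd (nat_lit 390) (nat_lit 0) (nat_lit 0) (XT.nd (nat_lit 156) (nat_lit 0) (nat_lit 0) (XT.nd (nat_lit 78) (nat_lit 0) (nat_lit 0) (XT.lf (nat_lit 0) (nat_lit 254487780601) (nat_lit 152) (nat_lit 1380341895321) (nat_lit 0) (nat_lit 254199257416) (nat_lit 1) (nat_lit 5) (nat_lit 3) (nat_lit 4) (nat_lit 1) (nat_lit 4) (nat_lit 505) (nat_lit 360) (nat_lit 335)) (XT.lf (nat_lit 0) (nat_lit 276793888498) (nat_lit 152) (nat_lit 1486697702607) (nat_lit 0) (nat_lit 276501711012) (nat_lit 1) (nat_lit 5) (nat_lit 3) (nat_lit 4) (nat_lit 1) (nat_lit 4) (nat_lit 506) (nat_lit 360) (nat_lit 334))) (XT.nd (nat_lit 78) (nat_lit 0) (nat_lit 0) (XT.lf (nat_lit 0) (nat_lit 300852388314) (nat_lit 152) (nat_lit 1601628172875) (nat_lit 0) (nat_lit 300556827217) (nat_lit 1) (nat_lit 5)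 (nat_lit 3) (nat_lit 4) (nat_lit 1) (nat_lit 4) (nat_lit 507) (nat_lit 360) (nat_lit 333)) (XT.nd (nat_lit 78) (nat_lit 0) (nat_lit 0) (XT.lf (nat_lit 0) (nat_lit 326805848939) (nat_lit 152) (nat_lit 1725814375581) (nat_lit 0) (nat_lit 326507154867) (nat_lit 1) (nat_lit 5) (nat_lit 3) (nat_lit 4) (nat_lit 1) (nat_lit 4) (nat_lit 508) (nat_lit 360) (nat_lit 332)) (XT.lf (nat_lit 0) (nat_lit 354808068656) (nat_lit 152) (nat_lit 1859992228961) (nat_lit 0) (nat_lit 354506473683) (nat_lit 1) (nat_lit 5) (nat_lit 3) (nat_lit 4) (nat_lit 1) (nat_lit 4) (nat_lit 509) (nat_lit 360) (nat_lit 331))))) (XT.nd (nat_lit 234) (nat_lit 0) (nat_lit 0) (XT.nd (nat_lit 78) (nat_lit 0) (nat_lit 0) (XT.lf (nat_lit 0) (nat_lit 385024986546) (nat_lit 152) (nat_lit 2004956861036) (nat_lit 0) (nat_lit 384720705552) (nat_lit 1) (nat_lit 5) (nat_lit 3) (nat_lit 4) (nat_lit 1) (nat_lit 4) (nat_lit 510) (nat_lit 360)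 (nat_lit 330)) (XT.nd (nat_lit 78) (nat_lit 0) (nat_lit 0) (XT.lf (nat_lit 0) (nat_lit 417635665825) (nat_lit 152) (nat_lit 2161567321478) (nat_lit 0) (nat_lit 417328897776) (nat_lit 1) (nat_lit 5) (nat_lit 3) (nat_lit 4) (nat_lit 1) (nat_lit 4) (nat_lit 511) (nat_lit 360) (nat_lit 329)) (XT.lf (nat_lit 0) (nat_lit 452833354964) (nat_lit 152) (nat_lit 2330751672274) (nat_lit 0) (nat_lit 452524284086) (nat_lit 1) (nat_lit 5) (nat_lit 3) (nat_lit 4) (nat_lit 1) (nat_lit 4) (nat_lit 512) (nat_lit 360) (nat_lit 328)))) (XT.nd (nat_lit 78) (nat_lit 0) (nat_lit 0) (XT.lf (nat_lit 0) (nat_lit 490826632862) (nat_lit 152) (nat_lit 2513512487356) (nat_lit 0) (nat_lit 490515429734) (nat_lit 1) (nat_lit 5) (nat_lit 3) (nat_lit 4) (nat_lit 1) (nat_lit 4) (nat_lit 513) (nat_lit 360) (nat_lit 327)) (XT.nd (nat_lit 78) (nat_lit 0) (nat_lit 0) (XT.lf (nat_lit 0) (nat_lit 531840644868) (nat_lit 152) (nat_lit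 2710932793774) (nat_lit 0) (nat_lit 531527467435) (nat_lit 1) (nat_lit 5) (nat_lit 3) (nat_lit 4) (nat_lit 1) (nat_lit 4) (nat_lit 514) (nat_lit 360) (nat_lit 326)) (XT.lf (nat_lit 0) (nat_lit 576118436980) (nat_lit 152) (nat_lit 2924182489642) (nat_lit 0) (nat_lit 575803431486) (nat_lit 1) (nat_lit 5) (nat_lit 3) (nat_lit 4) (nat_lit 1) (nat_lit 4) (nat_lit 515) (nat_lit 360) (nat_lit 325)))))) (XT.nd (nat_lit 468) (nat_lit 0) (nat_lit 0) (XT.nd (nat_lit 234) (nat_lit 0) (nat_lit 0) (XT.nd (nat_lit 78) (nat_lit 0) (nat_lit 0) (XT.lf (nat_lit 0) (nat_lit 623922396113) (nat_lit 152) (nat_lit 3154525276861) (nat_lit 0) (nat_lit 623605697972) (nat_lit 1) (nat_lit 5) (nat_lit 3) (nat_lit 4) (nat_lit 1) (nat_lit 4) (nat_lit 516) (nat_lit 360) (nat_lit 324)) (XT.nd (nat_lit 78) (nat_lit 0) (nat_lit 0) (XT.lf (nat_lit 0) (nat_lit 675535804990) (nat_lit 152) (nat_lit 3403326149725) (nat_lit 0)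 (nat_lit 675217539581) (nat_lit 1) (nat_lit 5) (nat_lit 3) (nat_lit 4) (nat_lit 1) (nat_lit 4) (nat_lit 517) (nat_lit 360) (nat_lit 323)) (XT.lf (nat_lit 0) (nat_lit 731264520847) (nat_lit 152) (nat_lit 3672059483777) (nat_lit 0) (nat_lit 730944804265) (nat_lit 1) (nat_lit 5) (nat_lit 3) (nat_lit 4) (nat_lit 1) (nat_lit 4) (nat_lit 518) (nat_lit 360) (nat_lit 322)))) (XT.nd (nat_lit 78) (nat_lit 0) (nat_lit 0) (XT.lf (nat_lit 0) (nat_lit 791438787927) (nat_lit 152) (nat_lit 3962317772850) (nat_lit 0) (nat_lit 791117727666) (nat_lit 1) (nat_lit 5) (nat_lit 3) (nat_lit 4) (nat_lit 1) (nat_lit 4) (nat_lit 519) (nat_lit 360) (nat_lit 321)) (XT.nd (nat_lit 78) (nat_lit 0) (nat_lit 0) (XT.lf (nat_lit 0) (nat_lit 856415194479) (nat_lit 152) (nat_lit 4275821066063) (nat_lit 0) (nat_lit 856092890071) (nat_lit 1) (nat_lit 5) (nat_lit 3) (nat_lit 4) (nat_lit 1) (nat_lit 4) (nat_lit 520) (nat_lit 360)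 (nat_lit 320)) (XT.lf (nat_lit 0) (nat_lit 926578785875) (nat_lit 152) (nat_lit 4614427160709) (nat_lit 0) (nat_lit 926255329479) (nat_lit 1) (nat_lit 5) (nat_lit 3) (nat_lit 4) (nat_lit 1) (nat_lit 4) (nat_lit 521) (nat_lit 360) (nat_lit 319))))) (XT.nd (nat_lit 234) (nat_lit 0) (nat_lit 0) (XT.nd (nat_lit 78) (nat_lit 0) (nat_lit 0) (XT.lf (nat_lit 0) (nat_lit 1002345346360) (nat_lit 152) (nat_lit 4980142611423) (nat_lit 0) (nat_lit 1002020823309) (nat_lit 1) (nat_lit 5) (nat_lit 3) (nat_lit 4) (nat_lit 1) (nat_lit 4) (nat_lit 522) (nat_lit 360) (nat_lit 318)) (XT.nd (nat_lit 78) (nat_lit 0) (nat_lit 0) (XT.lf (nat_lit 0) (nat_lit 1084163862960) (nat_lit 152) (nat_lit 5375134620876) (nat_lit 0) (nat_lit 1083838352265) (nat_lit 1) (nat_lit 5) (nat_lit 3) (nat_lit 4) (nat_lit 1) (nat_lit 4) (nat_lit 523) (nat_lit 360) (nat_lit 317)) (XT.lf (nat_lit 0) (nat_lit 1172519186144) (nat_lit 152)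 (nat_lit 5801743882458) (nat_lit 0) (nat_lit 1172192760963) (nat_lit 1) (nat_lit 5) (nat_lit 3) (nat_lit 4) (nat_lit 1) (nat_lit 4) (nat_lit 524) (nat_lit 360) (nat_lit 316)))) (XT.nd (nat_lit 78) (nat_lit 0) (nat_lit 0) (XT.lf (nat_lit 0) (nat_lit 1267934903011) (nat_lit 152) (nat_lit 6262498451052) (nat_lit 0) (nat_lit 1267607631085) (nat_lit 1) (nat_lit 5) (nat_lit 3) (nat_lit 4) (nat_lit 1) (nat_lit 4) (nat_lit 525) (nat_lit 360) (nat_lit 315)) (XT.nd (nat_lit 78) (nat_lit 0) (nat_lit 0) (XT.lf (nat_lit 0) (nat_lit 1370976440032) (nat_lit 152) (nat_lit 6760128724102) (nat_lit 0) (nat_lit 1370648384083) (nat_lit 1) (nat_lit 5) (nat_lit 3) (nat_lit 4) (nat_lit 1) (nat_lit 4) (nat_lit 526) (nat_lit 360) (nat_lit 314)) (XT.lf (nat_lit 0) (nat_lit 1482254413723) (nat_lit 152) (nat_lit 7297583621743) (nat_lit 0) (nat_lit 1481925631826) (nat_lit 1) (nat_lit 5) (nat_lit 3) (nat_lit 4) (nat_lit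 1) (nat_lit 4) (nat_lit 527) (nat_lit 360) (nat_lit 313))))))) (XT.nd (nat_lit 59124) (nat_lit 0) (nat_lit 0) (XT.nd (nat_lit 58656) (nat_lit 0) (nat_lit 0) (XT.nd (nat_lit 234) (nat_lit 0) (nat_lit 0) (XT.nd (nat_lit 78) (nat_lit 0) (nat_lit 0) (XT.lf (nat_lit 0) (nat_lit 1602428249113) (nat_lit 152) (nat_lit 7878048061889) (nat_lit 0) (nat_lit 1602098795041) (nat_lit 1) (nat_lit 5) (nat_lit 3) (nat_lit 4) (nat_lit 1) (nat_lit 4) (nat_lit 528) (nat_lit 360) (nat_lit 312)) (XT.nd (nat_lit 78) (nat_lit 0) (nat_lit 0) (XT.lf (nat_lit 0) (nat_lit 1732210087448) (nat_lit 152) (nat_lit 8504961833814) (nat_lit 0) (nat_lit 1731880010994) (nat_lit 1) (nat_lit 5) (nat_lit 3) (nat_lit 4) (nat_lit 1) (nat_lit 4) (nat_lit 529) (nat_lit 360) (nat_lit 311)) (XT.lf (nat_lit 0) (nat_lit 1872369006290) (nat_lit 152) (nat_lit 9182039982092) (nat_lit 0) (nat_lit 1872038353555) (nat_lit 1) (nat_lit 5) (nat_lit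 3) (nat_lit 4) (nat_lit 1) (nat_lit 4) (nat_lit 530) (nat_lit 360) (nat_lit 310)))) (XT.nd (nat_lit 78) (nat_lit 0) (nat_lit 0) (XT.lf (nat_lit 0) (nat_lit 2023735577009) (nat_lit 152) (nat_lit 9913294821676) (nat_lit 0) (nat_lit 2023404390680) (nat_lit 1) (nat_lit 5) (nat_lit 3) (nat_lit 4) (nat_lit 1) (nat_lit 4) (nat_lit 531) (nat_lit 360) (nat_lit 309)) (XT.nd (nat_lit 58266) (nat_lit 0) (nat_lit 152) (XT.lf (nat_lit 0) (nat_lit 2187206786691) (nat_lit 152) (nat_lit 10703059714579) (nat_lit 0) (nat_lit 2186875106294) (nat_lit 1) (nat_lit 5) (nat_lit 3) (nat_lit 4) (nat_lit 1) (nat_lit 4) (nat_lit 532) (nat_lit 360) (nat_lit 308)) (XT.lf (nat_lit 0) (nat_lit 113279505425) (nat_lit 76) (nat_lit 3244498997) (nat_lit 76) (nat_lit 3244498997) (nat_lit 3) (nat_lit 4) (nat_lit 4) (nat_lit 5) (nat_lit 4) (nat_lit 4) (nat_lit 478) (nat_lit 361) (nat_lit 361))))) (XT.nd (nat_lit 234) (nat_lit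 0) (nat_lit 0) (XT.nd (nat_lit 78) (nat_lit 152) (nat_lit 0) (XT.lf (nat_lit 0) (nat_lit 253739956213) (nat_lit 76) (nat_lit 2318647433) (nat_lit 76) (nat_lit 2289456653) (nat_lit 3) (nat_lit 4) (nat_lit 4) (nat_lit 5) (nat_lit 4) (nat_lit 4) (nat_lit 479) (nat_lit 361) (nat_lit 360)) (XT.nd (nat_lit 78) (nat_lit 0) (nat_lit 0) (XT.lf (nat_lit 0) (nat_lit 2063950984) (nat_lit 152) (nat_lit 274589410817) (nat_lit 0) (nat_lit 2011896096) (nat_lit 1) (nat_lit 5) (nat_lit 3) (nat_lit 4) (nat_lit 1) (nat_lit 4) (nat_lit 480) (nat_lit 361) (nat_lit 359)) (XT.lf (nat_lit 0) (nat_lit 6611618478) (nat_lit 152) (nat_lit 287457492183) (nat_lit 0) (nat_lit 6536391008) (nat_lit 1) (nat_lit 5) (nat_lit 3) (nat_lit 4) (nat_lit 1) (nat_lit 4) (nat_lit 481) (nat_lit 361) (nat_lit 358)))) (XT.nd (nat_lit 78) (nat_lit 0) (nat_lit 0) (XT.lf (nat_lit 0) (nat_lit 11319568321) (nat_lit 152) (nat_lit 301774796080)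 (nat_lit 0) (nat_lit 11222884756) (nat_lit 1) (nat_lit 5) (nat_lit 3) (nat_lit 4) (nat_lit 1) (nat_lit 4) (nat_lit 482) (nat_lit 361) (nat_lit 357)) (XT.nd (nat_lit 78) (nat_lit 0) (nat_lit 0) (XT.lf (nat_lit 0) (nat_lit 16215699474) (nat_lit 152) (nat_lit 317626165790) (nat_lit 0) (nat_lit 16099149155) (nat_lit 1) (nat_lit 5) (nat_lit 3) (nat_lit 4) (nat_lit 1) (nat_lit 4) (nat_lit 483) (nat_lit 361) (nat_lit 356)) (XT.lf (nat_lit 0) (nat_lit 21329026047) (nat_lit 152) (nat_lit 335105535356) (nat_lit 0) (nat_lit 21194080586) (nat_lit 1) (nat_lit 5) (nat_lit 3) (nat_lit 4) (nat_lit 1) (nat_lit 4) (nat_lit 484) (nat_lit 361) (nat_lit 355)))))) (XT.nd (nat_lit 468) (nat_lit 0) (nat_lit 0) (XT.nd (nat_lit 234) (nat_lit 0) (nat_lit 0) (XT.nd (nat_lit 78) (nat_lit 0) (nat_lit 0) (XT.lf (nat_lit 0) (nat_lit 26689849237) (nat_lit 152) (nat_lit 354316486227) (nat_lit 0) (nat_lit 26537871236) (nat_lit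 1) (nat_lit 5) (nat_lit 3) (nat_lit 4) (nat_lit 1) (nat_lit 4) (nat_lit 485) (nat_lit 361) (nat_lit 354)) (XT.nd (nat_lit 78) (nat_lit 0) (nat_lit 0) (XT.lf (nat_lit 0) (nat_lit 32329936883) (nat_lit 152) (nat_lit 375372861074) (nat_lit 0) (nat_lit 32162188012) (nat_lit 1) (nat_lit 5) (nat_lit 3) (nat_lit 4) (nat_lit 1) (nat_lit 4) (nat_lit 486) (nat_lit 361) (nat_lit 353)) (XT.lf (nat_lit 0) (nat_lit 38282711727) (nat_lit 152) (nat_lit 398399438417) (nat_lit 0) (nat_lit 38100360198) (nat_lit 1) (nat_lit 5) (nat_lit 3) (nat_lit 4) (nat_lit 1) (nat_lit 4) (nat_lit 487) (nat_lit 361) (nat_lit 352)))) (XT.nd (nat_lit 78) (nat_lit 0) (nat_lit 0) (XT.lf (nat_lit 0) (nat_lit 44583449472) (nat_lit 152) (nat_lit 423532672045) (nat_lit 0) (nat_lit 44387576964) (nat_lit 1) (nat_lit 5) (nat_lit 3) (nat_lit 4) (nat_lit 1) (nat_lit 4) (nat_lit 488) (nat_lit 361) (nat_lit 351)) (XT.nd (nat_lit 78) (nat_lit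 0) (nat_lit 0) (XT.lf (nat_lit 0) (nat_lit 51269487823) (nat_lit 152) (nat_lit 450921499641) (nat_lit 0) (nat_lit 51061095891) (nat_lit 1) (nat_lit 5) (nat_lit 3) (nat_lit 4) (nat_lit 1) (nat_lit 4) (nat_lit 489) (nat_lit 361) (nat_lit 350)) (XT.lf (nat_lit 0) (nat_lit 58380447749) (nat_lit 152) (nat_lit 480728225366) (nat_lit 0) (nat_lit 58160463756) (nat_lit 1) (nat_lit 5) (nat_lit 3) (nat_lit 4) (nat_lit 1) (nat_lit 4) (nat_lit 490) (nat_lit 361) (nat_lit 349))))) (XT.nd (nat_lit 234) (nat_lit 0) (nat_lit 0) (XT.nd (nat_lit 78) (nat_lit 0) (nat_lit 0) (XT.lf (nat_lit 0) (nat_lit 65958468270) (nat_lit 152) (nat_lit 513129481672) (nat_lit 0) (nat_lit 65727750888) (nat_lit 1) (nat_lit 5) (nat_lit 3) (nat_lit 4) (nat_lit 1) (nat_lit 4) (nat_lit 491) (nat_lit 361) (nat_lit 348)) (XT.nd (nat_lit 78) (nat_lit 0) (nat_lit 0) (XT.lf (nat_lit 0) (nat_lit 74048456176) (nat_lit 152) (nat_lit 548317276001)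 (nat_lit 0) (nat_lit 73807800471) (nat_lit 1) (nat_lit 5) (nat_lit 3) (nat_lit 4) (nat_lit 1) (nat_lit 4) (nat_lit 492) (nat_lit 361) (nat_lit 347)) (XT.lf (nat_lit 0) (nat_lit 82698352135) (nat_lit 152) (nat_lit 586500128617) (nat_lit 0) (nat_lit 82448494279) (nat_lit 1) (nat_lit 5) (nat_lit 3) (nat_lit 4) (nat_lit 1) (nat_lit 4) (nat_lit 493) (nat_lit 361) (nat_lit 346)))) (XT.nd (nat_lit 78) (nat_lit 0) (nat_lit 0) (XT.lf (nat_lit 0) (nat_lit 91959414790) (nat_lit 152) (nat_lit 627904308276) (nat_lit 0) (nat_lit 91701036423) (nat_lit 1) (nat_lit 5) (nat_lit 3) (nat_lit 4) (nat_lit 1) (nat_lit 4) (nat_lit 494) (nat_lit 361) (nat_lit 345)) (XT.nd (nat_lit 78) (nat_lit 0) (nat_lit 0) (XT.lf (nat_lit 0) (nat_lit 101886524512) (nat_lit 152) (nat_lit 672775173079) (nat_lit 0) (nat_lit 101620256784) (nat_lit 1) (nat_lit 5) (nat_lit 3) (nat_lit 4) (nat_lit 1) (nat_lit 4) (nat_lit 495) (nat_lit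 361) (nat_lit 344)) (XT.lf (nat_lit 0) (nat_lit 112538508618) (nat_lit 152) (nat_lit 721378624448) (nat_lit 0) (nat_lit 112264935926) (nat_lit 1) (nat_lit 5) (nat_lit 3) (nat_lit 4) (nat_lit 1) (nat_lit 4) (nat_lit 496) (nat_lit 361) (nat_lit 343))))))))
noncomputable def xc16 : XT := (XT.nd (nat_lit 1794) (nat_lit 0) (nat_lit 0) (XT.nd (nat_lit 858) (nat_lit 0) (nat_lit 0) (XT.nd (nat_lit 390) (nat_lit 0) (nat_lit 0) (XT.nd (nat_lit 156) (nat_lit 0) (nat_lit 0) (XT.nd (nat_lit 78) (nat_lit 0) (nat_lit 0) (XT.lf (nat_lit 0) (nat_lit 123978489978) (nat_lit 152) (nat_lit 774002682836) (nat_lit 0) (nat_lit 123698153430) (nat_lit 1) (nat_lit 5) (nat_lit 3) (nat_lit 4) (nat_lit 1) (nat_lit 4) (nat_lit 497) (nat_lit 361) (nat_lit 342)) (XT.lf (nat_lit 0) (nat_lit 136274261072) (nat_lit 152) (nat_lit 830959194513) (nat_lit 0) (nat_lit 135987661695) (nat_lit 1) (nat_lit 5) (nat_lit 3) (nat_lit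 4) (nat_lit 1) (nat_lit 4) (nat_lit 498) (nat_lit 361) (nat_lit 341))) (XT.nd (nat_lit 78) (nat_lit 0) (nat_lit 0) (XT.lf (nat_lit 0) (nat_lit 149498685731) (nat_lit 152) (nat_lit 892585679550) (nat_lit 0) (nat_lit 149206287437) (nat_lit 1) (nat_lit 5) (nat_lit 3) (nat_lit 4) (nat_lit 1) (nat_lit 4) (nat_lit 499) (nat_lit 361) (nat_lit 340)) (XT.nd (nat_lit 78) (nat_lit 0) (nat_lit 0) (XT.lf (nat_lit 0) (nat_lit 163730130914) (nat_lit 152) (nat_lit 959247331932) (nat_lit 0) (nat_lit 163432363253) (nat_lit 1) (nat_lit 5) (nat_lit 3) (nat_lit 4) (nat_lit 1) (nat_lit 4) (nat_lit 500) (nat_lit 361) (nat_lit 339)) (XT.lf (nat_lit 0) (nat_lit 179052931111) (nat_lit 152) (nat_lit 1031339183672) (nat_lit 0) (nat_lit 178750191815) (nat_lit 1) (nat_lit 5) (nat_lit 3) (nat_lit 4) (nat_lit 1) (nat_lit 4) (nat_lit 501) (nat_lit 361) (nat_lit 338))))) (XT.nd (nat_lit 234) (nat_lit 0) (nat_lit 0) (XT.nd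 (nat_lit 78) (nat_lit 0) (nat_lit 0) (XT.lf (nat_lit 0) (nat_lit 195557888103) (nat_lit 152) (nat_lit 1109288445745) (nat_lit 0) (nat_lit 195250545440) (nat_lit 1) (nat_lit 5) (nat_lit 3) (nat_lit 4) (nat_lit 1) (nat_lit 4) (nat_lit 502) (nat_lit 361) (nat_lit 337)) (XT.nd (nat_lit 78) (nat_lit 0) (nat_lit 0) (XT.lf (nat_lit 0) (nat_lit 213342809040) (nat_lit 152) (nat_lit 1193557039703) (nat_lit 0) (nat_lit 213031204001) (nat_lit 1) (nat_lit 5) (nat_lit 3) (nat_lit 4) (nat_lit 1) (nat_lit 4) (nat_lit 503) (nat_lit 361) (nat_lit 336)) (XT.lf (nat_lit 0) (nat_lit 232513086048) (nat_lit 152) (nat_lit 1284644334992) (nat_lit 0) (nat_lit 232197534364) (nat_lit 1) (nat_lit 5) (nat_lit 3) (nat_lit 4) (nat_lit 1) (nat_lit 4) (nat_lit 504) (nat_lit 361) (nat_lit 335)))) (XT.nd (nat_lit 78) (nat_lit 0) (nat_lit 0) (XT.lf (nat_lit 0) (nat_lit 253182320768) (nat_lit 152) (nat_lit 1383090108176) (nat_lit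 0) (nat_lit 252863114782) (nat_lit 1) (nat_lit 5) (nat_lit 3) (nat_lit 4) (nat_lit 1) (nat_lit 4) (nat_lit 505) (nat_lit 361) (nat_lit 334)) (XT.nd (nat_lit 78) (nat_lit 0) (nat_lit 0) (XT.lf (nat_lit 0) (nat_lit 275472997553) (nat_lit 152) (nat_lit 1489477741616) (nat_lit 0) (nat_lit 275150407956) (nat_lit 1) (nat_lit 5) (nat_lit 3) (nat_lit 4) (nat_lit 1) (nat_lit 4) (nat_lit 506) (nat_lit 361) (nat_lit 333)) (XT.lf (nat_lit 0) (nat_lit 299517209303) (nat_lit 152) (nat_lit 1604437680546) (nat_lit 0) (nat_lit 299191486732) (nat_lit 1) (nat_lit 5) (nat_lit 3) (nat_lit 4) (nat_lit 1) (nat_lit 4) (nat_lit 507) (nat_lit 361) (nat_lit 332)))))) (XT.nd (nat_lit 468) (nat_lit 0) (nat_lit 0) (XT.nd (nat_lit 234) (nat_lit 0) (nat_lit 0) (XT.nd (nat_lit 78) (nat_lit 0) (nat_lit 0) (XT.lf (nat_lit 0) (nat_lit 325457440237) (nat_lit 152) (nat_lit 1728651169049) (nat_lit 0) (nat_lit 325128816764) (nat_lit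 1) (nat_lit 5) (nat_lit 3) (nat_lit 4) (nat_lit 1) (nat_lit 4) (nat_lit 508) (nat_lit 361) (nat_lit 331)) (XT.nd (nat_lit 78) (nat_lit 0) (nat_lit 0) (XT.lf (nat_lit 0) (nat_lit 353447410240) (nat_lit 152) (nat_lit 1862854287056) (nat_lit 0) (nat_lit 353116100747) (nat_lit 1) (nat_lit 5) (nat_lit 3) (nat_lit 4) (nat_lit 1) (nat_lit 4) (nat_lit 509) (nat_lit 361) (nat_lit 330)) (XT.lf (nat_lit 0) (nat_lit 383652985802) (nat_lit 152) (nat_lit 2007842312305) (nat_lit 0) (nat_lit 383319189254) (nat_lit 1) (nat_lit 5) (nat_lit 3) (nat_lit 4) (nat_lit 1) (nat_lit 4) (nat_lit 510) (nat_lit 361) (nat_lit 329)))) (XT.nd (nat_lit 78) (nat_lit 0) (nat_lit 0) (XT.lf (nat_lit 0) (nat_lit 416253162927) (nat_lit 152) (nat_lit 2164474433092) (nat_lit 0) (nat_lit 415917063549) (nat_lit 1) (nat_lit 5) (nat_lit 3) (nat_lit 4) (nat_lit 1) (nat_lit 4) (nat_lit 511) (nat_lit 361) (nat_lit 328)) (XT.nd (nat_lit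 78) (nat_lit 0) (nat_lit 0) (XT.lf (nat_lit 0) (nat_lit 451441127848) (nat_lit 152) (nat_lit 2333678839764) (nat_lit 0) (nat_lit 451102896221) (nat_lit 1) (nat_lit 5) (nat_lit 3) (nat_lit 4) (nat_lit 1) (nat_lit 4) (nat_lit 512) (nat_lit 361) (nat_lit 327)) (XT.lf (nat_lit 0) (nat_lit 489425401840) (nat_lit 152) (nat_lit 2516458225100) (nat_lit 0) (nat_lit 489085195908) (nat_lit 1) (nat_lit 5) (nat_lit 3) (nat_lit 4) (nat_lit 1) (nat_lit 4) (nat_lit 513) (nat_lit 361) (nat_lit 326))))) (XT.nd (nat_lit 234) (nat_lit 0) (nat_lit 0) (XT.nd (nat_lit 78) (nat_lit 0) (nat_lit 0) (XT.lf (nat_lit 0) (nat_lit 530431076897) (nat_lit 152) (nat_lit 2713895726200) (nat_lit 0) (nat_lit 530089042904) (nat_lit 1) (nat_lit 5) (nat_lit 3) (nat_lit 4) (nat_lit 1) (nat_lit 4) (nat_lit 514) (nat_lit 361) (nat_lit 325)) (XT.nd (nat_lit 78) (nat_lit 0) (nat_lit 0) (XT.lf (nat_lit 0) (nat_lit 574701149611) (nat_lit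 152) (nat_lit 2927161343068) (nat_lit 0) (nat_lit 574357422970) (nat_lit 1) (nat_lit 5) (nat_lit 3) (nat_lit 4) (nat_lit 1) (nat_lit 4) (nat_lit 515) (nat_lit 361) (nat_lit 324)) (XT.lf (nat_lit 0) (nat_lit 622497961154) (nat_lit 152) (nat_lit 3157518871954) (nat_lit 0) (nat_lit 622152667246) (nat_lit 1) (nat_lit 5) (nat_lit 3) (nat_lit 4) (nat_lit 1) (nat_lit 4) (nat_lit 516) (nat_lit 361) (nat_lit 323)))) (XT.nd (nat_lit 78) (nat_lit 0) (nat_lit 0) (XT.lf (nat_lit 0) (nat_lit 674104751892) (nat_lit 152) (nat_lit 3406333394510) (nat_lit 0) (nat_lit 673758006811) (nat_lit 1) (nat_lit 5) (nat_lit 3) (nat_lit 4) (nat_lit 1) (nat_lit 4) (nat_lit 517) (nat_lit 361) (nat_lit 322)) (XT.nd (nat_lit 78) (nat_lit 0) (nat_lit 0) (XT.lf (nat_lit 0) (nat_lit 729827339842) (nat_lit 152) (nat_lit 3675079367167) (nat_lit 0) (nat_lit 729479251082) (nat_lit 1) (nat_lit 5) (nat_lit 3) (nat_lit 4) (nat_lit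 1) (nat_lit 4) (nat_lit 518) (nat_lit 361) (nat_lit 321)) (XT.lf (nat_lit 0) (nat_lit 789995932934) (nat_lit 152) (nat_lit 3965349358650) (nat_lit 0) (nat_lit 789646600027) (nat_lit 1) (nat_lit 5) (nat_lit 3) (nat_lit 4) (nat_lit 1) (nat_lit 4) (nat_lit 519) (nat_lit 361) (nat_lit 320))))))) (XT.nd (nat_lit 858) (nat_lit 0) (nat_lit 0) (XT.nd (nat_lit 390) (nat_lit 0) (nat_lit 0) (XT.nd (nat_lit 156) (nat_lit 0) (nat_lit 0) (XT.nd (nat_lit 78) (nat_lit 0) (nat_lit 0) (XT.lf (nat_lit 0) (nat_lit 854967085794) (nat_lit 152) (nat_lit 4278863487428) (nat_lit 0) (nat_lit 854616600899) (nat_lit 1) (nat_lit 5) (nat_lit 3) (nat_lit 4) (nat_lit 1) (nat_lit 4) (nat_lit 520) (nat_lit 361) (nat_lit 319)) (XT.lf (nat_lit 0) (nat_lit 925125812660) (nat_lit 152) (nat_lit 4617479615005) (nat_lit 0) (nat_lit 924774261109) (nat_lit 1) (nat_lit 5) (nat_lit 3) (nat_lit 4) (nat_lit 1) (nat_lit 4) (nat_lit 521)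 (nat_lit 361) (nat_lit 318))) (XT.nd (nat_lit 78) (nat_lit 0) (nat_lit 0) (XT.lf (nat_lit 0) (nat_lit 1000887868951) (nat_lit 152) (nat_lit 4983204355470) (nat_lit 0) (nat_lit 1000535329756) (nat_lit 1) (nat_lit 5) (nat_lit 3) (nat_lit 4) (nat_lit 1) (nat_lit 4) (nat_lit 522) (nat_lit 361) (nat_lit 317)) (XT.nd (nat_lit 78) (nat_lit 0) (nat_lit 0) (XT.lf (nat_lit 0) (nat_lit 1082702215001) (nat_lit 152) (nat_lit 5378204966545) (nat_lit 0) (nat_lit 1082348761321) (nat_lit 1) (nat_lit 5) (nat_lit 3) (nat_lit 4) (nat_lit 1) (nat_lit 4) (nat_lit 523) (nat_lit 361) (nat_lit 316)) (XT.lf (nat_lit 0) (nat_lit 1171053676564) (nat_lit 152) (nat_lit 5804822192591) (nat_lit 0) (nat_lit 1170699376138) (nat_lit 1) (nat_lit 5) (nat_lit 3) (nat_lit 4) (nat_lit 1) (nat_lit 4) (nat_lit 524) (nat_lit 361) (nat_lit 315))))) (XT.nd (nat_lit 234) (nat_lit 0) (nat_lit 0) (XT.nd (nat_lit 78) (nat_lit 0) (nat_lit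 0) (XT.lf (nat_lit 0) (nat_lit 1266465817856) (nat_lit 152) (nat_lit 6265584135689) (nat_lit 0) (nat_lit 1266110733407) (nat_lit 1) (nat_lit 5) (nat_lit 3) (nat_lit 4) (nat_lit 1) (nat_lit 4) (nat_lit 525) (nat_lit 361) (nat_lit 314)) (XT.nd (nat_lit 78) (nat_lit 0) (nat_lit 0) (XT.lf (nat_lit 0) (nat_lit 1369504044160) (nat_lit 152) (nat_lit 6763221236983) (nat_lit 0) (nat_lit 1369148233763) (nat_lit 1) (nat_lit 5) (nat_lit 3) (nat_lit 4) (nat_lit 1) (nat_lit 4) (nat_lit 526) (nat_lit 361) (nat_lit 313)) (XT.lf (nat_lit 0) (nat_lit 1480778952372) (nat_lit 152) (nat_lit 7300682457073) (nat_lit 0) (nat_lit 1480422469801) (nat_lit 1) (nat_lit 5) (nat_lit 3) (nat_lit 4) (nat_lit 1) (nat_lit 4) (nat_lit 527) (nat_lit 361) (nat_lit 312)))) (XT.nd (nat_lit 78) (nat_lit 0) (nat_lit 0) (XT.lf (nat_lit 0) (nat_lit 1600949949355) (nat_lit 152) (nat_lit 7881152751338) (nat_lit 0) (nat_lit 1600592844401)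 (nat_lit 1) (nat_lit 5) (nat_lit 3) (nat_lit 4) (nat_lit 1) (nat_lit 4) (nat_lit 528) (nat_lit 361) (nat_lit 311)) (XT.nd (nat_lit 78) (nat_lit 0) (nat_lit 0) (XT.lf (nat_lit 0) (nat_lit 1730729159537) (nat_lit 152) (nat_lit 8508071943743) (nat_lit 0) (nat_lit 1730371478302) (nat_lit 1) (nat_lit 5) (nat_lit 3) (nat_lit 4) (nat_lit 1) (nat_lit 4) (nat_lit 529) (nat_lit 361) (nat_lit 310)) (XT.lf (nat_lit 0) (nat_lit 1870885644903) (nat_lit 152) (nat_lit 9185155110984) (nat_lit 0) (nat_lit 1870527430074) (nat_lit 1) (nat_lit 5) (nat_lit 3) (nat_lit 4) (nat_lit 1) (nat_lit 4) (nat_lit 530) (nat_lit 361) (nat_lit 309)))))) (XT.nd (nat_lit 58500) (nat_lit 0) (nat_lit 0) (XT.nd (nat_lit 58266) (nat_lit 0) (nat_lit 152) (XT.nd (nat_lit 78) (nat_lit 0) (nat_lit 0) (XT.lf (nat_lit 0) (nat_lit 2022249962403) (nat_lit 152) (nat_lit 9916414597757) (nat_lit 0) (nat_lit 2021891253507) (nat_lit 1) (nat_lit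 5) (nat_lit 3) (nat_lit 4) (nat_lit 1) (nat_lit 4) (nat_lit 531) (nat_lit 361) (nat_lit 308)) (XT.nd (nat_lit 58110) (nat_lit 0) (nat_lit 152) (XT.lf (nat_lit 0) (nat_lit 2185719085771) (nat_lit 152) (nat_lit 10706183793611) (nat_lit 0) (nat_lit 2185359919405) (nat_lit 1) (nat_lit 5) (nat_lit 3) (nat_lit 4) (nat_lit 1) (nat_lit 4) (nat_lit 532) (nat_lit 361) (nat_lit 307)) (XT.lf (nat_lit 0) (nat_lit 88504252990) (nat_lit 76) (nat_lit 7256341689) (nat_lit 76) (nat_lit 7256341689) (nat_lit 3) (nat_lit 4) (nat_lit 4) (nat_lit 5) (nat_lit 4) (nat_lit 4) (nat_lit 476) (nat_lit 362) (nat_lit 362)))) (XT.nd (nat_lit 78) (nat_lit 0) (nat_lit 0) (XT.lf (nat_lit 0) (nat_lit 200949908912) (nat_lit 76) (nat_lit 10609070016) (nat_lit 76) (nat_lit 10577543974) (nat_lit 3) (nat_lit 4) (nat_lit 4) (nat_lit 5) (nat_lit 4) (nat_lit 4) (nat_lit 477) (nat_lit 362) (nat_lit 361)) (XT.nd (nat_lit 78) (nat_lit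 0) (nat_lit 0) (XT.lf (nat_lit 0) (nat_lit 226329739345) (nat_lit 76) (nat_lit 6638446679) (nat_lit 76) (nat_lit 6577729857) (nat_lit 3) (nat_lit 4) (nat_lit 4) (nat_lit 5) (nat_lit 4) (nat_lit 4) (nat_lit 478) (nat_lit 362) (nat_lit 360)) (XT.lf (nat_lit 0) (nat_lit 253298396275) (nat_lit 76) (nat_lit 2577283748) (nat_lit 76) (nat_lit 2489538427) (nat_lit 3) (nat_lit 4) (nat_lit 4) (nat_lit 5) (nat_lit 4) (nat_lit 4) (nat_lit 479) (nat_lit 362) (nat_lit 359))))) (XT.nd (nat_lit 234) (nat_lit 0) (nat_lit 0) (XT.nd (nat_lit 78) (nat_lit 0) (nat_lit 0) (XT.lf (nat_lit 0) (nat_lit 1750063562) (nat_lit 152) (nat_lit 275296998195) (nat_lit 0) (nat_lit 1645645312) (nat_lit 1) (nat_lit 5) (nat_lit 3) (nat_lit 4) (nat_lit 1) (nat_lit 4) (nat_lit 480) (nat_lit 362) (nat_lit 358)) (XT.nd (nat_lit 78) (nat_lit 0) (nat_lit 0) (XT.lf (nat_lit 0) (nat_lit 6199879589) (nat_lit 152) (nat_lit 288366894956)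 (nat_lit 0) (nat_lit 6074005245) (nat_lit 1) (nat_lit 5) (nat_lit 3) (nat_lit 4) (nat_lit 1) (nat_lit 4) (nat_lit 481) (nat_lit 362) (nat_lit 357)) (XT.lf (nat_lit 0) (nat_lit 10817226221) (nat_lit 152) (nat_lit 302871064960) (nat_lit 0) (nat_lit 10671485123) (nat_lit 1) (nat_lit 5) (nat_lit 3) (nat_lit 4) (nat_lit 1) (nat_lit 4) (nat_lit 482) (nat_lit 362) (nat_lit 356)))) (XT.nd (nat_lit 78) (nat_lit 0) (nat_lit 0) (XT.lf (nat_lit 0) (nat_lit 15629465513) (nat_lit 152) (nat_lit 318895458842) (nat_lit 0) (nat_lit 15465329272) (nat_lit 1) (nat_lit 5) (nat_lit 3) (nat_lit 4) (nat_lit 1) (nat_lit 4) (nat_lit 483) (nat_lit 362) (nat_lit 355)) (XT.nd (nat_lit 78) (nat_lit 0) (nat_lit 0) (XT.lf (nat_lit 0) (nat_lit 20665114437) (nat_lit 152) (nat_lit 336535035975) (nat_lit 0) (nat_lit 20483945657) (nat_lit 1) (nat_lit 5) (nat_lit 3) (nat_lit 4) (nat_lit 1) (nat_lit 4) (nat_lit 484) (nat_lit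 362) (nat_lit 354)) (XT.lf (nat_lit 0) (nat_lit 25954013877) (nat_lit 152) (nat_lit 355894327186) (nat_lit 0) (nat_lit 25757074227) (nat_lit 1) (nat_lit 5) (nat_lit 3) (nat_lit 4) (nat_lit 1) (nat_lit 4) (nat_lit 485) (nat_lit 362) (nat_lit 353))))))))
noncomputable def xc17 : XT := (XT.nd (nat_lit 1794) (nat_lit 0) (nat_lit 0) (XT.nd (nat_lit 858) (nat_lit 0) (nat_lit 0) (XT.nd (nat_lit 390) (nat_lit 0) (nat_lit 0) (XT.nd (nat_lit 156) (nat_lit 0) (nat_lit 0) (XT.nd (nat_lit 78) (nat_lit 0) (nat_lit 0) (XT.lf (nat_lit 0) (nat_lit 31527505459) (nat_lit 152) (nat_lit 377088054200) (nat_lit 0) (nat_lit 31315963151) (nat_lit 1) (nat_lit 5) (nat_lit 3) (nat_lit 4) (nat_lit 1) (nat_lit 4) (nat_lit 486) (nat_lit 362) (nat_lit 352)) (XT.lf (nat_lit 0) (nat_lit 37418617281) (nat_lit 152) (nat_lit 400241809475) (nat_lit 0) (nat_lit 37193553994) (nat_lit 1) (nat_lit 5) (nat_lit 3) (nat_lit 4) (nat_lit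 1) (nat_lit 4) (nat_lit 487) (nat_lit 362) (nat_lit 351))) (XT.nd (nat_lit 78) (nat_lit 0) (nat_lit 0) (XT.lf (nat_lit 0) (nat_lit 43662259635) (nat_lit 152) (nat_lit 425492800448) (nat_lit 0) (nat_lit 43424676923) (nat_lit 1) (nat_lit 5) (nat_lit 3) (nat_lit 4) (nat_lit 1) (nat_lit 4) (nat_lit 488) (nat_lit 362) (nat_lit 350)) (XT.nd (nat_lit 78) (nat_lit 0) (nat_lit 0) (XT.lf (nat_lit 0) (nat_lit 50295431883) (nat_lit 152) (nat_lit 452990662621) (nat_lit 0) (nat_lit 50046257111) (nat_lit 1) (nat_lit 5) (nat_lit 3) (nat_lit 4) (nat_lit 1) (nat_lit 4) (nat_lit 489) (nat_lit 362) (nat_lit 349)) (XT.lf (nat_lit 0) (nat_lit 57357441714) (nat_lit 152) (nat_lit 482898346290) (nat_lit 0) (nat_lit 57097533552) (nat_lit 1) (nat_lit 5) (nat_lit 3) (nat_lit 4) (nat_lit 1) (nat_lit 4) (nat_lit 490) (nat_lit 362) (nat_lit 348))))) (XT.nd (nat_lit 234) (nat_lit 0) (nat_lit 0) (XT.nd (nat_lit 78) (nat_lit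 0) (nat_lit 0) (XT.lf (nat_lit 0) (nat_lit 64890138073) (nat_lit 152) (nat_lit 515393082172) (nat_lit 0) (nat_lit 64620291588) (nat_lit 1) (nat_lit 5) (nat_lit 3) (nat_lit 4) (nat_lit 1) (nat_lit 4) (nat_lit 491) (nat_lit 362) (nat_lit 347)) (XT.nd (nat_lit 78) (nat_lit 0) (nat_lit 0) (XT.lf (nat_lit 0) (nat_lit 72938159162) (nat_lit 152) (nat_lit 550667431665) (nat_lit 0) (nat_lit 72659110526) (nat_lit 1) (nat_lit 5) (nat_lit 3) (nat_lit 4) (nat_lit 1) (nat_lit 4) (nat_lit 492) (nat_lit 362) (nat_lit 346)) (XT.lf (nat_lit 0) (nat_lit 81549196957) (nat_lit 152) (nat_lit 588930427951) (nat_lit 0) (nat_lit 81261627811) (nat_lit 1) (nat_lit 5) (nat_lit 3) (nat_lit 4) (nat_lit 1) (nat_lit 4) (nat_lit 493) (nat_lit 362) (nat_lit 345)))) (XT.nd (nat_lit 78) (nat_lit 0) (nat_lit 0) (XT.lf (nat_lit 0) (nat_lit 90774279830) (nat_lit 152) (nat_lit 630408814712) (nat_lit 0) (nat_lit 90478821323) (nat_lit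 1) (nat_lit 5) (nat_lit 3) (nat_lit 4) (nat_lit 1) (nat_lit 4) (nat_lit 494) (nat_lit 362) (nat_lit 344)) (XT.nd (nat_lit 78) (nat_lit 0) (nat_lit 0) (XT.lf (nat_lit 0) (nat_lit 100668074940) (nat_lit 152) (nat_lit 675348389795) (nat_lit 0) (nat_lit 100365311469) (nat_lit 1) (nat_lit 5) (nat_lit 3) (nat_lit 4) (nat_lit 1) (nat_lit 4) (nat_lit 495) (nat_lit 362) (nat_lit 343)) (XT.lf (nat_lit 0) (nat_lit 111289212184) (nat_lit 152) (nat_lit 724015461793) (nat_lit 0) (nat_lit 110979684856) (nat_lit 1) (nat_lit 5) (nat_lit 3) (nat_lit 4) (nat_lit 1) (nat_lit 4) (nat_lit 496) (nat_lit 362) (nat_lit 342)))))) (XT.nd (nat_lit 468) (nat_lit 0) (nat_lit 0) (XT.nd (nat_lit 234) (nat_lit 0) (nat_lit 0) (XT.nd (nat_lit 78) (nat_lit 0) (nat_lit 0) (XT.lf (nat_lit 0) (nat_lit 122700631633) (nat_lit 152) (nat_lit 776698428170) (nat_lit 0) (nat_lit 122384841476) (nat_lit 1) (nat_lit 5) (nat_lit 3) (nat_lit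 4) (nat_lit 1) (nat_lit 4) (nat_lit 497) (nat_lit 362) (nat_lit 341)) (XT.nd (nat_lit 78) (nat_lit 0) (nat_lit 0) (XT.lf (nat_lit 0) (nat_lit 134969956514) (nat_lit 152) (nat_lit 833709484283) (nat_lit 0) (nat_lit 134648367441) (nat_lit 1) (nat_lit 5) (nat_lit 3) (nat_lit 4) (nat_lit 1) (nat_lit 4) (nat_lit 498) (nat_lit 362) (nat_lit 340)) (XT.lf (nat_lit 0) (nat_lit 148169893937) (nat_lit 152) (nat_lit 895386473427) (nat_lit 0) (nat_lit 147842935497) (nat_lit 1) (nat_lit 5) (nat_lit 3) (nat_lit 4) (nat_lit 1) (nat_lit 4) (nat_lit 499) (nat_lit 362) (nat_lit 339)))) (XT.nd (nat_lit 78) (nat_lit 0) (nat_lit 0) (XT.lf (nat_lit 0) (nat_lit 162378665755) (nat_lit 152) (nat_lit 962094888870) (nat_lit 0) (nat_lit 162046735679) (nat_lit 1) (nat_lit 5) (nat_lit 3) (nat_lit 4) (nat_lit 1) (nat_lit 4) (nat_lit 500) (nat_lit 362) (nat_lit 338)) (XT.nd (nat_lit 78) (nat_lit 0) (nat_lit 0) (XT.lf (nat_lit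 0) (nat_lit 177680472096) (nat_lit 152) (nat_lit 1034230039742) (nat_lit 0) (nat_lit 177343938653) (nat_lit 1) (nat_lit 5) (nat_lit 3) (nat_lit 4) (nat_lit 1) (nat_lit 4) (nat_lit 501) (nat_lit 362) (nat_lit 337)) (XT.lf (nat_lit 0) (nat_lit 194165990331) (nat_lit 152) (nat_lit 1112219393603) (nat_lit 0) (nat_lit 193825194512) (nat_lit 1) (nat_lit 5) (nat_lit 3) (nat_lit 4) (nat_lit 1) (nat_lit 4) (nat_lit 502) (nat_lit 362) (nat_lit 336))))) (XT.nd (nat_lit 234) (nat_lit 0) (nat_lit 0) (XT.nd (nat_lit 78) (nat_lit 0) (nat_lit 0) (XT.lf (nat_lit 0) (nat_lit 211932912420) (nat_lit 152) (nat_lit 1196525109587) (nat_lit 0) (nat_lit 211588169956) (nat_lit 1) (nat_lit 5) (nat_lit 3) (nat_lit 4) (nat_lit 1) (nat_lit 4) (nat_lit 503) (nat_lit 362) (nat_lit 335)) (XT.nd (nat_lit 78) (nat_lit 0) (nat_lit 0) (XT.lf (nat_lit 0) (nat_lit 231086523828) (nat_lit 152) (nat_lit 1287646777122) (nat_lit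 0) (nat_lit 230738127063) (nat_lit 1) (nat_lit 5) (nat_lit 3) (nat_lit 4) (nat_lit 1) (nat_lit 4) (nat_lit 504) (nat_lit 362) (nat_lit 334)) (XT.lf (nat_lit 0) (nat_lit 251740327436) (nat_lit 152) (nat_lit 1386124376461) (nat_lit 0) (nat_lit 251388547059) (nat_lit 1) (nat_lit 5) (nat_lit 3) (nat_lit 4) (nat_lit 1) (nat_lit 4) (nat_lit 505) (nat_lit 362) (nat_lit 333)))) (XT.nd (nat_lit 78) (nat_lit 0) (nat_lit 0) (XT.lf (nat_lit 0) (nat_lit 274016716155) (nat_lit 152) (nat_lit 1492541478561) (nat_lit 0) (nat_lit 273661802804) (nat_lit 1) (nat_lit 5) (nat_lit 3) (nat_lit 4) (nat_lit 1) (nat_lit 4) (nat_lit 506) (nat_lit 362) (nat_lit 332)) (XT.nd (nat_lit 78) (nat_lit 0) (nat_lit 0) (XT.lf (nat_lit 0) (nat_lit 298047698214) (nat_lit 152) (nat_lit 1607528703288) (nat_lit 0) (nat_lit 297689883962) (nat_lit 1) (nat_lit 5) (nat_lit 3) (nat_lit 4) (nat_lit 1) (nat_lit 4) (nat_lit 507) (nat_lit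 362) (nat_lit 331)) (XT.lf (nat_lit 0) (nat_lit 323975679434) (nat_lit 152) (nat_lit 1731767456418) (nat_lit 0) (nat_lit 323615179161) (nat_lit 1) (nat_lit 5) (nat_lit 3) (nat_lit 4) (nat_lit 1) (nat_lit 4) (nat_lit 508) (nat_lit 362) (nat_lit 330))))))) (XT.nd (nat_lit 936) (nat_lit 0) (nat_lit 0) (XT.nd (nat_lit 468) (nat_lit 0) (nat_lit 0) (XT.nd (nat_lit 234) (nat_lit 0) (nat_lit 0) (XT.nd (nat_lit 78) (nat_lit 0) (nat_lit 0) (XT.lf (nat_lit 0) (nat_lit 351954307110) (nat_lit 152) (nat_lit 1865993967599) (nat_lit 0) (nat_lit 351591319781) (nat_lit 1) (nat_lit 5) (nat_lit 3) (nat_lit 4) (nat_lit 1) (nat_lit 4) (nat_lit 509) (nat_lit 362) (nat_lit 329)) (XT.nd (nat_lit 78) (nat_lit 0) (nat_lit 0) (XT.lf (nat_lit 0) (nat_lit 382149380517) (nat_lit 152) (nat_lit 2011003653194) (nat_lit 0) (nat_lit 381784090359) (nat_lit 1) (nat_lit 5) (nat_lit 3) (nat_lit 4) (nat_lit 1) (nat_lit 4) (nat_lit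 510) (nat_lit 362) (nat_lit 328)) (XT.lf (nat_lit 0) (nat_lit 414739833423) (nat_lit 152) (nat_lit 2167655829857) (nat_lit 0) (nat_lit 414372411016) (nat_lit 1) (nat_lit 5) (nat_lit 3) (nat_lit 4) (nat_lit 1) (nat_lit 4) (nat_lit 511) (nat_lit 362) (nat_lit 327)))) (XT.nd (nat_lit 78) (nat_lit 0) (nat_lit 0) (XT.lf (nat_lit 0) (nat_lit 449918794439) (nat_lit 152) (nat_lit 2336878806784) (nat_lit 0) (nat_lit 449549397727) (nat_lit 1) (nat_lit 5) (nat_lit 3) (nat_lit 4) (nat_lit 1) (nat_lit 4) (nat_lit 512) (nat_lit 362) (nat_lit 326)) (XT.nd (nat_lit 78) (nat_lit 0) (nat_lit 0) (XT.lf (nat_lit 0) (nat_lit 487894731482) (nat_lit 152) (nat_lit 2519675386801) (nat_lit 0) (nat_lit 487523506710) (nat_lit 1) (nat_lit 5) (nat_lit 3) (nat_lit 4) (nat_lit 1) (nat_lit 4) (nat_lit 513) (nat_lit 362) (nat_lit 325)) (XT.lf (nat_lit 0) (nat_lit 528892687141) (nat_lit 152) (nat_lit 2717128808901) (nat_lit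 0) (nat_lit 528519769720) (nat_lit 1) (nat_lit 5) (nat_lit 3) (nat_lit 4) (nat_lit 1) (nat_lit 4) (nat_lit 514) (nat_lit 362) (nat_lit 324))))) (XT.nd (nat_lit 234) (nat_lit 0) (nat_lit 0) (XT.nd (nat_lit 78) (nat_lit 0) (nat_lit 0) (XT.lf (nat_lit 0) (nat_lit 573155612265) (nat_lit 152) (nat_lit 2930409167436) (nat_lit 0) (nat_lit 572781127577) (nat_lit 1) (nat_lit 5) (nat_lit 3) (nat_lit 4) (nat_lit 1) (nat_lit 4) (nat_lit 515) (nat_lit 362) (nat_lit 323)) (XT.nd (nat_lit 78) (nat_lit 0) (nat_lit 0) (XT.lf (nat_lit 0) (nat_lit 620945805669) (nat_lit 152) (nat_lit 3160780346014) (nat_lit 0) (nat_lit 620569869808) (nat_lit 1) (nat_lit 5) (nat_lit 3) (nat_lit 4) (nat_lit 1) (nat_lit 4) (nat_lit 516) (nat_lit 362) (nat_lit 322)) (XT.lf (nat_lit 0) (nat_lit 672546468500) (nat_lit 152) (nat_lit 3409607507174) (nat_lit 0) (nat_lit 672169188960) (nat_lit 1) (nat_lit 5) (nat_lit 3) (nat_lit 4)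 (nat_lit 1) (nat_lit 4) (nat_lit 517) (nat_lit 362) (nat_lit 321)))) (XT.nd (nat_lit 78) (nat_lit 0) (nat_lit 0) (XT.lf (nat_lit 0) (nat_lit 728263382463) (nat_lit 152) (nat_lit 3678365182241) (nat_lit 0) (nat_lit 727884858776) (nat_lit 1) (nat_lit 5) (nat_lit 3) (nat_lit 4) (nat_lit 1) (nat_lit 4) (nat_lit 518) (nat_lit 362) (nat_lit 320)) (XT.nd (nat_lit 78) (nat_lit 0) (nat_lit 0) (XT.lf (nat_lit 0) (nat_lit 788426721863) (nat_lit 152) (nat_lit 3968646009290) (nat_lit 0) (nat_lit 788047046188) (nat_lit 1) (nat_lit 5) (nat_lit 3) (nat_lit 4) (nat_lit 1) (nat_lit 4) (nat_lit 519) (nat_lit 362) (nat_lit 319)) (XT.lf (nat_lit 0) (nat_lit 853393010192) (nat_lit 152) (nat_lit 4282170170999) (nat_lit 0) (nat_lit 853012267862) (nat_lit 1) (nat_lit 5) (nat_lit 3) (nat_lit 4) (nat_lit 1) (nat_lit 4) (nat_lit 520) (nat_lit 362) (nat_lit 318)))))) (XT.nd (nat_lit 468) (nat_lit 0) (nat_lit 0) (XT.nd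 (nat_lit 234) (nat_lit 0) (nat_lit 0) (XT.nd (nat_lit 78) (nat_lit 0) (nat_lit 0) (XT.lf (nat_lit 0) (nat_lit 923547232864) (nat_lit 152) (nat_lit 4620795588327) (nat_lit 0) (nat_lit 923165502890) (nat_lit 1) (nat_lit 5) (nat_lit 3) (nat_lit 4) (nat_lit 1) (nat_lit 4) (nat_lit 521) (nat_lit 362) (nat_lit 317)) (XT.nd (nat_lit 78) (nat_lit 0) (nat_lit 0) (XT.lf (nat_lit 0) (nat_lit 999305118605) (nat_lit 152) (nat_lit 4986528930414) (nat_lit 0) (nat_lit 998922474145) (nat_lit 1) (nat_lit 5) (nat_lit 3) (nat_lit 4) (nat_lit 1) (nat_lit 4) (nat_lit 522) (nat_lit 362) (nat_lit 316)) (XT.lf (nat_lit 0) (nat_lit 1081115603034) (nat_lit 152) (nat_lit 5381537505953) (nat_lit 0) (nat_lit 1080732111829) (nat_lit 1) (nat_lit 5) (nat_lit 3) (nat_lit 4) (nat_lit 1) (nat_lit 4) (nat_lit 523) (nat_lit 362) (nat_lit 315)))) (XT.nd (nat_lit 78) (nat_lit 0) (nat_lit 0) (XT.lf (nat_lit 0) (nat_lit 1169463489022)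 (nat_lit 152) (nat_lit 5808162106503) (nat_lit 0) (nat_lit 1169079213793) (nat_lit 1) (nat_lit 5) (nat_lit 3) (nat_lit 4) (nat_lit 1) (nat_lit 4) (nat_lit 524) (nat_lit 362) (nat_lit 314)) (XT.nd (nat_lit 78) (nat_lit 0) (nat_lit 0) (XT.lf (nat_lit 0) (nat_lit 1264872319597) (nat_lit 152) (nat_lit 6268930877845) (nat_lit 0) (nat_lit 1264487318420) (nat_lit 1) (nat_lit 5) (nat_lit 3) (nat_lit 4) (nat_lit 1) (nat_lit 4) (nat_lit 525) (nat_lit 362) (nat_lit 313)) (XT.lf (nat_lit 0) (nat_lit 1367907480422) (nat_lit 152) (nat_lit 6766574301587) (nat_lit 0) (nat_lit 1367521807071) (nat_lit 1) (nat_lit 5) (nat_lit 3) (nat_lit 4) (nat_lit 1) (nat_lit 4) (nat_lit 526) (nat_lit 362) (nat_lit 312))))) (XT.nd (nat_lit 234) (nat_lit 0) (nat_lit 0) (XT.nd (nat_lit 78) (nat_lit 0) (nat_lit 0) (XT.lf (nat_lit 0) (nat_lit 1479179550228) (nat_lit 152) (nat_lit 7304041375796) (nat_lit 0) (nat_lit 1478793254494)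 (nat_lit 1) (nat_lit 5) (nat_lit 3) (nat_lit 4) (nat_lit 1) (nat_lit 4) (nat_lit 527) (nat_lit 362) (nat_lit 311)) (XT.nd (nat_lit 78) (nat_lit 0) (nat_lit 0) (XT.lf (nat_lit 0) (nat_lit 1599347919057) (nat_lit 152) (nat_lit 7884517090541) (nat_lit 0) (nat_lit 1598961047042) (nat_lit 1) (nat_lit 5) (nat_lit 3) (nat_lit 4) (nat_lit 1) (nat_lit 4) (nat_lit 528) (nat_lit 362) (nat_lit 310)) (XT.lf (nat_lit 0) (nat_lit 1729124695762) (nat_lit 152) (nat_lit 8511441301910) (nat_lit 0) (nat_lit 1728737290154) (nat_lit 1) (nat_lit 5) (nat_lit 3) (nat_lit 4) (nat_lit 1) (nat_lit 4) (nat_lit 529) (nat_lit 362) (nat_lit 309)))) (XT.nd (nat_lit 78) (nat_lit 0) (nat_lit 0) (XT.lf (nat_lit 0) (nat_lit 1869278927909) (nat_lit 152) (nat_lit 9188529116340) (nat_lit 0) (nat_lit 1868891028233) (nat_lit 1) (nat_lit 5) (nat_lit 3) (nat_lit 4) (nat_lit 1) (nat_lit 4) (nat_lit 530) (nat_lit 362) (nat_lit 308))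 (XT.nd (nat_lit 78) (nat_lit 0) (nat_lit 0) (XT.lf (nat_lit 0) (nat_lit 2020641159096) (nat_lit 152) (nat_lit 9919792906064) (nat_lit 0) (nat_lit 2020252801950) (nat_lit 1) (nat_lit 5) (nat_lit 3) (nat_lit 4) (nat_lit 1) (nat_lit 4) (nat_lit 531) (nat_lit 362) (nat_lit 307)) (XT.lf (nat_lit 0) (nat_lit 2184108350693) (nat_lit 152) (nat_lit 10709566086134) (nat_lit 0) (nat_lit 2183719569963) (nat_lit 1) (nat_lit 5) (nat_lit 3) (nat_lit 4) (nat_lit 1) (nat_lit 4) (nat_lit 532) (nat_lit 362) (nat_lit 306))))))))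
noncomputable def xc18 : XT := (XT.nd (nat_lit 1794) (nat_lit 0) (nat_lit 0) (XT.nd (nat_lit 858) (nat_lit 0) (nat_lit 0) (XT.nd (nat_lit 390) (nat_lit 152) (nat_lit 0) (XT.nd (nat_lit 156) (nat_lit 0) (nat_lit 0) (XT.nd (nat_lit 78) (nat_lit 0) (nat_lit 0) (XT.lf (nat_lit 0) (nat_lit 66574294130) (nat_lit 76) (nat_lit 11053826710) (nat_lit 76) (nat_lit 11053826710) (nat_lit 3) (nat_lit 4) (nat_lit 4) (nat_lit 5) (nat_lit 4) (nat_lit 4) (nat_lit 474) (nat_lit 363) (nat_lit 363)) (XT.lf (nat_lit 0) (nat_lit 154363655570) (nat_lit 76) (nat_lit 18406467418) (nat_lit 76) (nat_lit 18372419293) (nat_lit 3) (nat_lit 4) (nat_lit 4) (nat_lit 5) (nat_lit 4) (nat_lit 4) (nat_lit 475) (nat_lit 363) (nat_lit 362))) (XT.nd (nat_lit 78) (nat_lit 0) (nat_lit 0) (XT.lf (nat_lit 0) (nat_lit 176760892754) (nat_lit 76) (nat_lit 14674087958) (nat_lit 76) (nat_lit 14608513791) (nat_lit 3) (nat_lit 4) (nat_lit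 4) (nat_lit 5) (nat_lit 4) (nat_lit 4) (nat_lit 476) (nat_lit 363) (nat_lit 361)) (XT.nd (nat_lit 78) (nat_lit 0) (nat_lit 0) (XT.lf (nat_lit 0) (nat_lit 200473024179) (nat_lit 76) (nat_lit 10888397237) (nat_lit 76) (nat_lit 10793632290) (nat_lit 3) (nat_lit 4) (nat_lit 4) (nat_lit 5) (nat_lit 4) (nat_lit 4) (nat_lit 477) (nat_lit 363) (nat_lit 360)) (XT.lf (nat_lit 0) (nat_lit 225640566181) (nat_lit 76) (nat_lit 7026961531) (nat_lit 76) (nat_lit 6905168085) (nat_lit 3) (nat_lit 4) (nat_lit 4) (nat_lit 5) (nat_lit 4) (nat_lit 4) (nat_lit 478) (nat_lit 363) (nat_lit 359))))) (XT.nd (nat_lit 234) (nat_lit 0) (nat_lit 0) (XT.nd (nat_lit 78) (nat_lit 152) (nat_lit 0) (XT.lf (nat_lit 0) (nat_lit 252412659748) (nat_lit 76) (nat_lit 3066898259) (nat_lit 76) (nat_lit 2920078424) (nat_lit 3) (nat_lit 4) (nat_lit 4) (nat_lit 5) (nat_lit 4) (nat_lit 4) (nat_lit 479) (nat_lit 363) (nat_lit 358)) (XT.nd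 (nat_lit 78) (nat_lit 0) (nat_lit 0) (XT.lf (nat_lit 0) (nat_lit 1207534094) (nat_lit 152) (nat_lit 276480968585) (nat_lit 0) (nat_lit 1050133708) (nat_lit 1) (nat_lit 5) (nat_lit 3) (nat_lit 4) (nat_lit 1) (nat_lit 4) (nat_lit 480) (nat_lit 363) (nat_lit 357)) (XT.lf (nat_lit 0) (nat_lit 5566746911) (nat_lit 152) (nat_lit 289737731452) (nat_lit 0) (nat_lit 5389479771) (nat_lit 1) (nat_lit 5) (nat_lit 3) (nat_lit 4) (nat_lit 1) (nat_lit 4) (nat_lit 481) (nat_lit 363) (nat_lit 356)))) (XT.nd (nat_lit 78) (nat_lit 0) (nat_lit 0) (XT.lf (nat_lit 0) (nat_lit 10100201682) (nat_lit 152) (nat_lit 304414925628) (nat_lit 0) (nat_lit 9904539399) (nat_lit 1) (nat_lit 5) (nat_lit 3) (nat_lit 4) (nat_lit 1) (nat_lit 4) (nat_lit 482) (nat_lit 363) (nat_lit 355)) (XT.nd (nat_lit 78) (nat_lit 0) (nat_lit 0) (XT.lf (nat_lit 0) (nat_lit 14834763325) (nat_lit 152) (nat_lit 320599527078) (nat_lit 0) (nat_lit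 14622068502) (nat_lit 1) (nat_lit 5) (nat_lit 3) (nat_lit 4) (nat_lit 1) (nat_lit 4) (nat_lit 483) (nat_lit 363) (nat_lit 354)) (XT.lf (nat_lit 0) (nat_lit 19798488500) (nat_lit 152) (nat_lit 338387444551) (nat_lit 0) (nat_lit 19570022807) (nat_lit 1) (nat_lit 5) (nat_lit 3) (nat_lit 4) (nat_lit 1) (nat_lit 4) (nat_lit 484) (nat_lit 363) (nat_lit 353)))))) (XT.nd (nat_lit 468) (nat_lit 0) (nat_lit 0) (XT.nd (nat_lit 234) (nat_lit 0) (nat_lit 0) (XT.nd (nat_lit 78) (nat_lit 0) (nat_lit 0) (XT.lf (nat_lit 0) (nat_lit 25020791876) (nat_lit 152) (nat_lit 357884087928) (nat_lit 0) (nat_lit 24777723526) (nat_lit 1) (nat_lit 5) (nat_lit 3) (nat_lit 4) (nat_lit 1) (nat_lit 4) (nat_lit 485) (nat_lit 363) (nat_lit 352)) (XT.nd (nat_lit 78) (nat_lit 0) (nat_lit 0) (XT.lf (nat_lit 0) (nat_lit 30532620435) (nat_lit 152) (nat_lit 379204992875) (nat_lit 0) (nat_lit 30276031106) (nat_lit 1) (nat_lit 5)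 (nat_lit 3) (nat_lit 4) (nat_lit 1) (nat_lit 4) (nat_lit 486) (nat_lit 363) (nat_lit 351)) (XT.lf (nat_lit 0) (nat_lit 36366636866) (nat_lit 152) (nat_lit 402476505494) (nat_lit 0) (nat_lit 36097528112) (nat_lit 1) (nat_lit 5) (nat_lit 3) (nat_lit 4) (nat_lit 1) (nat_lit 4) (nat_lit 487) (nat_lit 363) (nat_lit 350)))) (XT.nd (nat_lit 78) (nat_lit 0) (nat_lit 0) (XT.lf (nat_lit 0) (nat_lit 42557413117) (nat_lit 152) (nat_lit 427836531045) (nat_lit 0) (nat_lit 42276712303) (nat_lit 1) (nat_lit 5) (nat_lit 3) (nat_lit 4) (nat_lit 1) (nat_lit 4) (nat_lit 488) (nat_lit 363) (nat_lit 349)) (XT.nd (nat_lit 78) (nat_lit 0) (nat_lit 0) (XT.lf (nat_lit 0) (nat_lit 49141635271) (nat_lit 152) (nat_lit 455435351162) (nat_lit 0) (nat_lit 48850201067) (nat_lit 1) (nat_lit 5) (nat_lit 3) (nat_lit 4) (nat_lit 1) (nat_lit 4) (nat_lit 489) (nat_lit 363) (nat_lit 348)) (XT.lf (nat_lit 0) (nat_lit 56158320939)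 (nat_lit 152) (nat_lit 485436514407) (nat_lit 0) (nat_lit 55856948412) (nat_lit 1) (nat_lit 5) (nat_lit 3) (nat_lit 4) (nat_lit 1) (nat_lit 4) (nat_lit 490) (nat_lit 363) (nat_lit 347))))) (XT.nd (nat_lit 234) (nat_lit 0) (nat_lit 0) (XT.nd (nat_lit 78) (nat_lit 0) (nat_lit 0) (XT.lf (nat_lit 0) (nat_lit 63649050481) (nat_lit 152) (nat_lit 518017805453) (nat_lit 0) (nat_lit 63338475803) (nat_lit 1) (nat_lit 5) (nat_lit 3) (nat_lit 4) (nat_lit 1) (nat_lit 4) (nat_lit 491) (nat_lit 363) (nat_lit 346)) (XT.nd (nat_lit 78) (nat_lit 0) (nat_lit 0) (XT.lf (nat_lit 0) (nat_lit 71658213406) (nat_lit 152) (nat_lit 553372298616) (nat_lit 0) (nat_lit 71339118218) (nat_lit 1) (nat_lit 5) (nat_lit 3) (nat_lit 4) (nat_lit 1) (nat_lit 4) (nat_lit 492) (nat_lit 363) (nat_lit 345)) (XT.lf (nat_lit 0) (nat_lit 80233271420) (nat_lit 152) (nat_lit 591709502004) (nat_lit 0) (nat_lit 79906286870) (nat_lit 1)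 (nat_lit 5) (nat_lit 3) (nat_lit 4) (nat_lit 1) (nat_lit 4) (nat_lit 493) (nat_lit 363) (nat_lit 344)))) (XT.nd (nat_lit 78) (nat_lit 0) (nat_lit 0) (XT.lf (nat_lit 0) (nat_lit 89425039681) (nat_lit 152) (nat_lit 633256599044) (nat_lit 0) (nat_lit 89090750167) (nat_lit 1) (nat_lit 5) (nat_lit 3) (nat_lit 4) (nat_lit 1) (nat_lit 4) (nat_lit 494) (nat_lit 363) (nat_lit 343)) (XT.nd (nat_lit 78) (nat_lit 0) (nat_lit 0) (XT.lf (nat_lit 0) (nat_lit 99287987928) (nat_lit 152) (nat_lit 678259794756) (nat_lit 0) (nat_lit 98946934558) (nat_lit 1) (nat_lit 5) (nat_lit 3) (nat_lit 4) (nat_lit 1) (nat_lit 4) (nat_lit 495) (nat_lit 363) (nat_lit 342)) (XT.lf (nat_lit 0) (nat_lit 109880563260) (nat_lit 152) (nat_lit 726985774744) (nat_lit 0) (nat_lit 109533247061) (nat_lit 1) (nat_lit 5) (nat_lit 3) (nat_lit 4) (nat_lit 1) (nat_lit 4) (nat_lit 496) (nat_lit 363) (nat_lit 341))))))) (XT.nd (nat_lit 936)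 (nat_lit 0) (nat_lit 0) (XT.nd (nat_lit 468) (nat_lit 0) (nat_lit 0) (XT.nd (nat_lit 234) (nat_lit 0) (nat_lit 0) (XT.nd (nat_lit 78) (nat_lit 0) (nat_lit 0) (XT.lf (nat_lit 0) (nat_lit 121265536496) (nat_lit 152) (nat_lit 779723285557) (nat_lit 0) (nat_lit 120912421381) (nat_lit 1) (nat_lit 5) (nat_lit 3) (nat_lit 4) (nat_lit 1) (nat_lit 4) (nat_lit 497) (nat_lit 363) (nat_lit 340)) (XT.nd (nat_lit 78) (nat_lit 0) (nat_lit 0) (XT.lf (nat_lit 0) (nat_lit 133510374143) (nat_lit 152) (nat_lit 836784845776) (nat_lit 0) (nat_lit 133151889661) (nat_lit 1) (nat_lit 5) (nat_lit 3) (nat_lit 4) (nat_lit 1) (nat_lit 4) (nat_lit 498) (nat_lit 363) (nat_lit 339)) (XT.lf (nat_lit 0) (nat_lit 146687638201) (nat_lit 152) (nat_lit 898508597982) (nat_lit 0) (nat_lit 146324182083) (nat_lit 1) (nat_lit 5) (nat_lit 3) (nat_lit 4) (nat_lit 1) (nat_lit 4) (nat_lit 499) (nat_lit 363) (nat_lit 338)))) (XT.nd (nat_lit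 78) (nat_lit 0) (nat_lit 0) (XT.lf (nat_lit 0) (nat_lit 160875416162) (nat_lit 152) (nat_lit 965260312556) (nat_lit 0) (nat_lit 160507356677) (nat_lit 1) (nat_lit 5) (nat_lit 3) (nat_lit 4) (nat_lit 1) (nat_lit 4) (nat_lit 500) (nat_lit 363) (nat_lit 337)) (XT.nd (nat_lit 78) (nat_lit 0) (nat_lit 0) (XT.lf (nat_lit 0) (nat_lit 176157783746) (nat_lit 152) (nat_lit 1037435555216) (nat_lit 0) (nat_lit 175785461885) (nat_lit 1) (nat_lit 5) (nat_lit 3) (nat_lit 4) (nat_lit 1) (nat_lit 4) (nat_lit 501) (nat_lit 363) (nat_lit 336)) (XT.lf (nat_lit 0) (nat_lit 192625303133) (nat_lit 152) (nat_lit 1115462031103) (nat_lit 0) (nat_lit 192249034627) (nat_lit 1) (nat_lit 5) (nat_lit 3) (nat_lit 4) (nat_lit 1) (nat_lit 4) (nat_lit 502) (nat_lit 363) (nat_lit 335))))) (XT.nd (nat_lit 234) (nat_lit 0) (nat_lit 0) (XT.nd (nat_lit 78) (nat_lit 0) (nat_lit 0) (XT.lf (nat_lit 0) (nat_lit 210375559622) (nat_lit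 152) (nat_lit 1199802119334) (nat_lit 0) (nat_lit 209995636815) (nat_lit 1) (nat_lit 5) (nat_lit 3) (nat_lit 4) (nat_lit 1) (nat_lit 4) (nat_lit 503) (nat_lit 363) (nat_lit 334)) (XT.nd (nat_lit 78) (nat_lit 0) (nat_lit 0) (XT.lf (nat_lit 0) (nat_lit 229513739918) (nat_lit 152) (nat_lit 1290955613023) (nat_lit 0) (nat_lit 229130433499) (nat_lit 1) (nat_lit 5) (nat_lit 3) (nat_lit 4) (nat_lit 1) (nat_lit 4) (nat_lit 504) (nat_lit 363) (nat_lit 333)) (XT.lf (nat_lit 0) (nat_lit 250153255460) (nat_lit 152) (nat_lit 1389462681023) (nat_lit 0) (nat_lit 249766816067) (nat_lit 1) (nat_lit 5) (nat_lit 3) (nat_lit 4) (nat_lit 1) (nat_lit 4) (nat_lit 505) (nat_lit 363) (nat_lit 332)))) (XT.nd (nat_lit 78) (nat_lit 0) (nat_lit 0) (XT.lf (nat_lit 0) (nat_lit 272416414488) (nat_lit 152) (nat_lit 1495907068921) (nat_lit 0) (nat_lit 272027074193) (nat_lit 1) (nat_lit 5) (nat_lit 3) (nat_lit 4) (nat_lit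 1) (nat_lit 4) (nat_lit 506) (nat_lit 363) (nat_lit 331)) (XT.nd (nat_lit 78) (nat_lit 0) (nat_lit 0) (XT.lf (nat_lit 0) (nat_lit 296435146834) (nat_lit 152) (nat_lit 1610919558275) (nat_lit 0) (nat_lit 296043120519) (nat_lit 1) (nat_lit 5) (nat_lit 3) (nat_lit 4) (nat_lit 1) (nat_lit 4) (nat_lit 507) (nat_lit 363) (nat_lit 330)) (XT.lf (nat_lit 0) (nat_lit 322351785726) (nat_lit 152) (nat_lit 1735181704578) (nat_lit 0) (nat_lit 321957272355) (nat_lit 1) (nat_lit 5) (nat_lit 3) (nat_lit 4) (nat_lit 1) (nat_lit 4) (nat_lit 508) (nat_lit 363) (nat_lit 329)))))) (XT.nd (nat_lit 468) (nat_lit 0) (nat_lit 0) (XT.nd (nat_lit 234) (nat_lit 0) (nat_lit 0) (XT.nd (nat_lit 78) (nat_lit 0) (nat_lit 0) (XT.lf (nat_lit 0) (nat_lit 350319911246) (nat_lit 152) (nat_lit 1869429876105) (nat_lit 0) (nat_lit 349923095046) (nat_lit 1) (nat_lit 5) (nat_lit 3) (nat_lit 4) (nat_lit 1) (nat_lit 4) (nat_lit 509)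 (nat_lit 363) (nat_lit 328)) (XT.nd (nat_lit 78) (nat_lit 0) (nat_lit 0) (XT.lf (nat_lit 0) (nat_lit 380505260435) (nat_lit 152) (nat_lit 2014459617575) (nat_lit 0) (nat_lit 380106311986) (nat_lit 1) (nat_lit 5) (nat_lit 3) (nat_lit 4) (nat_lit 1) (nat_lit 4) (nat_lit 510) (nat_lit 363) (nat_lit 327)) (XT.lf (nat_lit 0) (nat_lit 413086709437) (nat_lit 152) (nat_lit 2171130364493) (nat_lit 0) (nat_lit 412685786682) (nat_lit 1) (nat_lit 5) (nat_lit 3) (nat_lit 4) (nat_lit 1) (nat_lit 4) (nat_lit 511) (nat_lit 363) (nat_lit 326)))) (XT.nd (nat_lit 78) (nat_lit 0) (nat_lit 0) (XT.lf (nat_lit 0) (nat_lit 448257333503) (nat_lit 152) (nat_lit 2340370536101) (nat_lit 0) (nat_lit 447854582689) (nat_lit 1) (nat_lit 5) (nat_lit 3) (nat_lit 4) (nat_lit 1) (nat_lit 4) (nat_lit 512) (nat_lit 363) (nat_lit 325)) (XT.nd (nat_lit 78) (nat_lit 0) (nat_lit 0) (XT.lf (nat_lit 0) (nat_lit 486225551148) (nat_lit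 152) (nat_lit 2523183037119) (nat_lit 0) (nat_lit 485821107686) (nat_lit 1) (nat_lit 5) (nat_lit 3) (nat_lit 4) (nat_lit 1) (nat_lit 4) (nat_lit 513) (nat_lit 363) (nat_lit 324)) (XT.lf (nat_lit 0) (nat_lit 527216359217) (nat_lit 152) (nat_lit 2720651200886) (nat_lit 0) (nat_lit 526810348487) (nat_lit 1) (nat_lit 5) (nat_lit 3) (nat_lit 4) (nat_lit 1) (nat_lit 4) (nat_lit 514) (nat_lit 363) (nat_lit 323))))) (XT.nd (nat_lit 234) (nat_lit 0) (nat_lit 0) (XT.nd (nat_lit 78) (nat_lit 0) (nat_lit 0) (XT.lf (nat_lit 0) (nat_lit 571472666202) (nat_lit 152) (nat_lit 2933945209114) (nat_lit 0) (nat_lit 571065204299) (nat_lit 1) (nat_lit 5) (nat_lit 3) (nat_lit 4) (nat_lit 1) (nat_lit 4) (nat_lit 515) (nat_lit 363) (nat_lit 322)) (XT.nd (nat_lit 78) (nat_lit 0) (nat_lit 0) (XT.lf (nat_lit 0) (nat_lit 619256731699) (nat_lit 152) (nat_lit 3164329026295) (nat_lit 0) (nat_lit 618847926118) (nat_lit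 1) (nat_lit 5) (nat_lit 3) (nat_lit 4) (nat_lit 1) (nat_lit 4) (nat_lit 516) (nat_lit 363) (nat_lit 321)) (XT.lf (nat_lit 0) (nat_lit 670851720542) (nat_lit 152) (nat_lit 3413167889866) (nat_lit 0) (nat_lit 670441670814) (nat_lit 1) (nat_lit 5) (nat_lit 3) (nat_lit 4) (nat_lit 1) (nat_lit 4) (nat_lit 517) (nat_lit 363) (nat_lit 320)))) (XT.nd (nat_lit 78) (nat_lit 0) (nat_lit 0) (XT.lf (nat_lit 0) (nat_lit 726563380813) (nat_lit 152) (nat_lit 3681936400498) (nat_lit 0) (nat_lit 726152179096) (nat_lit 1) (nat_lit 5) (nat_lit 3) (nat_lit 4) (nat_lit 1) (nat_lit 4) (nat_lit 518) (nat_lit 363) (nat_lit 319)) (XT.nd (nat_lit 78) (nat_lit 0) (nat_lit 0) (XT.lf (nat_lit 0) (nat_lit 786721855683) (nat_lit 152) (nat_lit 3972227260478) (nat_lit 0) (nat_lit 786309587310) (nat_lit 1) (nat_lit 5) (nat_lit 3) (nat_lit 4) (nat_lit 1) (nat_lit 4) (nat_lit 519) (nat_lit 363) (nat_lit 318)) (XT.lf (nat_lit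 0) (nat_lit 851683639818) (nat_lit 152) (nat_lit 4285760711938) (nat_lit 0) (nat_lit 851270383802) (nat_lit 1) (nat_lit 5) (nat_lit 3) (nat_lit 4) (nat_lit 1) (nat_lit 4) (nat_lit 520) (nat_lit 363) (nat_lit 317))))))))
noncomputable def xc19 : XT := (XT.nd (nat_lit 59514) (nat_lit 0) (nat_lit 0) (XT.nd (nat_lit 858) (nat_lit 0) (nat_lit 0) (XT.nd (nat_lit 390) (nat_lit 0) (nat_lit 0) (XT.nd (nat_lit 156) (nat_lit 0) (nat_lit 0) (XT.nd (nat_lit 78) (nat_lit 0) (nat_lit 0) (XT.lf (nat_lit 0) (nat_lit 921833691940) (nat_lit 152) (nat_lit 4624394730888) (nat_lit 0) (nat_lit 921419521438) (nat_lit 1) (nat_lit 5) (nat_lit 3) (nat_lit 4) (nat_lit 1) (nat_lit 4) (nat_lit 521) (nat_lit 363) (nat_lit 316)) (XT.lf (nat_lit 0) (nat_lit 997587716060) (nat_lit 152) (nat_lit 4990136037438) (nat_lit 0) (nat_lit 997172698812) (nat_lit 1) (nat_lit 5) (nat_lit 3) (nat_lit 4) (nat_lit 1) (nat_lit 4) (nat_lit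 522) (nat_lit 363) (nat_lit 315))) (XT.nd (nat_lit 78) (nat_lit 0) (nat_lit 0) (XT.lf (nat_lit 0) (nat_lit 1079394624914) (nat_lit 152) (nat_lit 5385151987481) (nat_lit 0) (nat_lit 1078978823643) (nat_lit 1) (nat_lit 5) (nat_lit 3) (nat_lit 4) (nat_lit 1) (nat_lit 4) (nat_lit 523) (nat_lit 363) (nat_lit 314)) (XT.nd (nat_lit 78) (nat_lit 0) (nat_lit 0) (XT.lf (nat_lit 0) (nat_lit 1167739200185) (nat_lit 152) (nat_lit 5811783416276) (nat_lit 0) (nat_lit 1167322672966) (nat_lit 1) (nat_lit 5) (nat_lit 3) (nat_lit 4) (nat_lit 1) (nat_lit 4) (nat_lit 524) (nat_lit 363) (nat_lit 313)) (XT.lf (nat_lit 0) (nat_lit 1263144965281) (nat_lit 152) (nat_lit 6272558510066) (nat_lit 0) (nat_lit 1262727765888) (nat_lit 1) (nat_lit 5) (nat_lit 3) (nat_lit 4) (nat_lit 1) (nat_lit 4) (nat_lit 525) (nat_lit 363) (nat_lit 312))))) (XT.nd (nat_lit 234) (nat_lit 0) (nat_lit 0) (XT.nd (nat_lit 78) (nat_lit 0)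 (nat_lit 0) (XT.lf (nat_lit 0) (nat_lit 1366177287700) (nat_lit 152) (nat_lit 6770207787927) (nat_lit 0) (nat_lit 1365759465924) (nat_lit 1) (nat_lit 5) (nat_lit 3) (nat_lit 4) (nat_lit 1) (nat_lit 4) (nat_lit 526) (nat_lit 363) (nat_lit 311)) (XT.nd (nat_lit 78) (nat_lit 0) (nat_lit 0) (XT.lf (nat_lit 0) (nat_lit 1477446729351) (nat_lit 152) (nat_lit 7307680282617) (nat_lit 0) (nat_lit 1477028331294) (nat_lit 1) (nat_lit 5) (nat_lit 3) (nat_lit 4) (nat_lit 1) (nat_lit 4) (nat_lit 527) (nat_lit 363) (nat_lit 310)) (XT.lf (nat_lit 0) (nat_lit 1597612664704) (nat_lit 152) (nat_lit 7888161016325) (nat_lit 0) (nat_lit 1597193733054) (nat_lit 1) (nat_lit 5) (nat_lit 3) (nat_lit 4) (nat_lit 1) (nat_lit 4) (nat_lit 528) (nat_lit 363) (nat_lit 309)))) (XT.nd (nat_lit 78) (nat_lit 0) (nat_lit 0) (XT.lf (nat_lit 0) (nat_lit 1727387188191) (nat_lit 152) (nat_lit 8515089874882) (nat_lit 0) (nat_lit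 1726967762473) (nat_lit 1) (nat_lit 5) (nat_lit 3) (nat_lit 4) (nat_lit 1) (nat_lit 4) (nat_lit 529) (nat_lit 363) (nat_lit 308)) (XT.nd (nat_lit 78) (nat_lit 0) (nat_lit 0) (XT.lf (nat_lit 0) (nat_lit 1867539334025) (nat_lit 152) (nat_lit 9192181992264) (nat_lit 0) (nat_lit 1867119450836) (nat_lit 1) (nat_lit 5) (nat_lit 3) (nat_lit 4) (nat_lit 1) (nat_lit 4) (nat_lit 530) (nat_lit 363) (nat_lit 307)) (XT.lf (nat_lit 0) (nat_lit 2018899633440) (nat_lit 152) (nat_lit 9923449766204) (nat_lit 0) (nat_lit 2018479326668) (nat_lit 1) (nat_lit 5) (nat_lit 3) (nat_lit 4) (nat_lit 1) (nat_lit 4) (nat_lit 531) (nat_lit 363) (nat_lit 306)))))) (XT.nd (nat_lit 58188) (nat_lit 0) (nat_lit 0) (XT.nd (nat_lit 57954) (nat_lit 0) (nat_lit 152) (XT.nd (nat_lit 57798) (nat_lit 0) (nat_lit 152) (XT.lf (nat_lit 0) (nat_lit 2182365036359) (nat_lit 152) (nat_lit 10713226635361) (nat_lit 0) (nat_lit 2181944337380)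 (nat_lit 1) (nat_lit 5) (nat_lit 3) (nat_lit 4) (nat_lit 1) (nat_lit 4) (nat_lit 532) (nat_lit 363) (nat_lit 305)) (XT.nd (nat_lit 78) (nat_lit 0) (nat_lit 0) (XT.lf (nat_lit 0) (nat_lit 47028582054) (nat_lit 76) (nat_lit 14696172701) (nat_lit 76) (nat_lit 14696172701) (nat_lit 3) (nat_lit 4) (nat_lit 4) (nat_lit 5) (nat_lit 4) (nat_lit 4) (nat_lit 472) (nat_lit 364) (nat_lit 364)) (XT.lf (nat_lit 0) (nat_lit 112989971906) (nat_lit 76) (nat_lit 25836350896) (nat_lit 76) (nat_lit 25799578921) (nat_lit 3) (nat_lit 4) (nat_lit 4) (nat_lit 5) (nat_lit 4) (nat_lit 4) (nat_lit 473) (nat_lit 364) (nat_lit 363)))) (XT.nd (nat_lit 78) (nat_lit 0) (nat_lit 0) (XT.lf (nat_lit 0) (nat_lit 132881165975) (nat_lit 76) (nat_lit 22281970366) (nat_lit 76) (nat_lit 22211150265) (nat_lit 3) (nat_lit 4) (nat_lit 4) (nat_lit 5) (nat_lit 4) (nat_lit 4) (nat_lit 474) (nat_lit 364) (nat_lit 362)) (XT.nd (nat_lit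 78) (nat_lit 0) (nat_lit 0) (XT.lf (nat_lit 0) (nat_lit 153848620059) (nat_lit 76) (nat_lit 18708140817) (nat_lit 76) (nat_lit 18605794674) (nat_lit 3) (nat_lit 4) (nat_lit 4) (nat_lit 5) (nat_lit 4) (nat_lit 4) (nat_lit 475) (nat_lit 364) (nat_lit 361)) (XT.lf (nat_lit 0) (nat_lit 176016585736) (nat_lit 76) (nat_lit 15093683999) (nat_lit 76) (nat_lit 14962147076) (nat_lit 3) (nat_lit 4) (nat_lit 4) (nat_lit 5) (nat_lit 4) (nat_lit 4) (nat_lit 476) (nat_lit 364) (nat_lit 360))))) (XT.nd (nat_lit 234) (nat_lit 152) (nat_lit 0) (XT.nd (nat_lit 78) (nat_lit 0) (nat_lit 0) (XT.lf (nat_lit 0) (nat_lit 199516428730) (nat_lit 76) (nat_lit 11417180909) (nat_lit 76) (nat_lit 11258615487) (nat_lit 3) (nat_lit 4) (nat_lit 4) (nat_lit 5) (nat_lit 4) (nat_lit 4) (nat_lit 477) (nat_lit 364) (nat_lit 359)) (XT.nd (nat_lit 78) (nat_lit 0) (nat_lit 0) (XT.lf (nat_lit 0) (nat_lit 224487407369) (nat_lit 76)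 (nat_lit 7656844862) (nat_lit 76) (nat_lit 7473253051) (nat_lit 3) (nat_lit 4) (nat_lit 4) (nat_lit 5) (nat_lit 4) (nat_lit 4) (nat_lit 478) (nat_lit 364) (nat_lit 358)) (XT.lf (nat_lit 0) (nat_lit 251077497823) (nat_lit 76) (nat_lit 3790392385) (nat_lit 76) (nat_lit 3583627993) (nat_lit 3) (nat_lit 4) (nat_lit 4) (nat_lit 5) (nat_lit 4) (nat_lit 4) (nat_lit 479) (nat_lit 364) (nat_lit 357)))) (XT.nd (nat_lit 78) (nat_lit 0) (nat_lit 0) (XT.lf (nat_lit 0) (nat_lit 433147592) (nat_lit 152) (nat_lit 278148338107) (nat_lit 0) (nat_lit 221832327) (nat_lit 1) (nat_lit 5) (nat_lit 3) (nat_lit 4) (nat_lit 1) (nat_lit 4) (nat_lit 480) (nat_lit 364) (nat_lit 356)) (XT.nd (nat_lit 78) (nat_lit 0) (nat_lit 0) (XT.lf (nat_lit 0) (nat_lit 4708468548) (nat_lit 152) (nat_lit 291578125147) (nat_lit 0) (nat_lit 4478758140) (nat_lit 1) (nat_lit 5) (nat_lit 3) (nat_lit 4) (nat_lit 1) (nat_lit 4) (nat_lit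 481) (nat_lit 364) (nat_lit 355)) (XT.lf (nat_lit 0) (nat_lit 9164245670) (nat_lit 152) (nat_lit 306415526890) (nat_lit 0) (nat_lit 8917502722) (nat_lit 1) (nat_lit 5) (nat_lit 3) (nat_lit 4) (nat_lit 1) (nat_lit 4) (nat_lit 482) (nat_lit 364) (nat_lit 354))))))) (XT.nd (nat_lit 936) (nat_lit 0) (nat_lit 0) (XT.nd (nat_lit 468) (nat_lit 0) (nat_lit 0) (XT.nd (nat_lit 234) (nat_lit 0) (nat_lit 0) (XT.nd (nat_lit 78) (nat_lit 0) (nat_lit 0) (XT.lf (nat_lit 0) (nat_lit 13826883563) (nat_lit 152) (nat_lit 322748468680) (nat_lit 0) (nat_lit 13564369745) (nat_lit 1) (nat_lit 5) (nat_lit 3) (nat_lit 4) (nat_lit 1) (nat_lit 4) (nat_lit 483) (nat_lit 364) (nat_lit 353)) (XT.nd (nat_lit 78) (nat_lit 0) (nat_lit 0) (XT.lf (nat_lit 0) (nat_lit 18724012674) (nat_lit 152) (nat_lit 340673738320) (nat_lit 0) (nat_lit 18446896199) (nat_lit 1) (nat_lit 5) (nat_lit 3) (nat_lit 4) (nat_lit 1) (nat_lit 4) (nat_lit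 484) (nat_lit 364) (nat_lit 352)) (XT.lf (nat_lit 0) (nat_lit 23884653028) (nat_lit 152) (nat_lit 360297559629) (nat_lit 0) (nat_lit 23594015573) (nat_lit 1) (nat_lit 5) (nat_lit 3) (nat_lit 4) (nat_lit 1) (nat_lit 4) (nat_lit 485) (nat_lit 364) (nat_lit 351)))) (XT.nd (nat_lit 78) (nat_lit 0) (nat_lit 0) (XT.lf (nat_lit 0) (nat_lit 29339386196) (nat_lit 152) (nat_lit 381736221920) (nat_lit 0) (nat_lit 29036229317) (nat_lit 1) (nat_lit 5) (nat_lit 3) (nat_lit 4) (nat_lit 1) (nat_lit 4) (nat_lit 486) (nat_lit 364) (nat_lit 350)) (XT.nd (nat_lit 78) (nat_lit 0) (nat_lit 0) (XT.lf (nat_lit 0) (nat_lit 35120536524) (nat_lit 152) (nat_lit 405116769118) (nat_lit 0) (nat_lit 34805787584) (nat_lit 1) (nat_lit 5) (nat_lit 3) (nat_lit 4) (nat_lit 1) (nat_lit 4) (nat_lit 487) (nat_lit 364) (nat_lit 349)) (XT.lf (nat_lit 0) (nat_lit 41262362680) (nat_lit 152) (nat_lit 430577752612) (nat_lit 0) (nat_lit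 40936880351) (nat_lit 1) (nat_lit 5) (nat_lit 3) (nat_lit 4) (nat_lit 1) (nat_lit 4) (nat_lit 488) (nat_lit 364) (nat_lit 348))))) (XT.nd (nat_lit 234) (nat_lit 0) (nat_lit 0) (XT.nd (nat_lit 78) (nat_lit 0) (nat_lit 0) (XT.lf (nat_lit 0) (nat_lit 47801260671) (nat_lit 152) (nat_lit 458270052305) (nat_lit 0) (nat_lit 47465840019) (nat_lit 1) (nat_lit 5) (nat_lit 3) (nat_lit 4) (nat_lit 1) (nat_lit 4) (nat_lit 489) (nat_lit 364) (nat_lit 347)) (XT.nd (nat_lit 78) (nat_lit 0) (nat_lit 0) (XT.lf (nat_lit 0) (nat_lit 54775979522) (nat_lit 152) (nat_lit 488357770714) (nat_lit 0) (nat_lit 54431356719) (nat_lit 1) (nat_lit 5) (nat_lit 3) (nat_lit 4) (nat_lit 1) (nat_lit 4) (nat_lit 490) (nat_lit 364) (nat_lit 346)) (XT.lf (nat_lit 0) (nat_lit 62227850901) (nat_lit 152) (nat_lit 521019205430) (nat_lit 0) (nat_lit 61874707587) (nat_lit 1) (nat_lit 5) (nat_lit 3) (nat_lit 4) (nat_lit 1) (nat_lit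 4) (nat_lit 491) (nat_lit 364) (nat_lit 345)))) (XT.nd (nat_lit 78) (nat_lit 0) (nat_lit 0) (XT.lf (nat_lit 0) (nat_lit 70201034044) (nat_lit 152) (nat_lit 556447905695) (nat_lit 0) (nat_lit 69840001369) (nat_lit 1) (nat_lit 5) (nat_lit 3) (nat_lit 4) (nat_lit 1) (nat_lit 4) (nat_lit 492) (nat_lit 364) (nat_lit 344)) (XT.nd (nat_lit 78) (nat_lit 0) (nat_lit 0) (XT.lf (nat_lit 0) (nat_lit 78742777446) (nat_lit 152) (nat_lit 594853819362) (nat_lit 0) (nat_lit 78374439807) (nat_lit 1) (nat_lit 5) (nat_lit 3) (nat_lit 4) (nat_lit 1) (nat_lit 4) (nat_lit 493) (nat_lit 364) (nat_lit 343)) (XT.lf (nat_lit 0) (nat_lit 87903698844) (nat_lit 152) (nat_lit 636464537032) (nat_lit 0) (nat_lit 87528597349) (nat_lit 1) (nat_lit 5) (nat_lit 3) (nat_lit 4) (nat_lit 1) (nat_lit 4) (nat_lit 494) (nat_lit 364) (nat_lit 342)))))) (XT.nd (nat_lit 468) (nat_lit 0) (nat_lit 0) (XT.nd (nat_lit 234) (nat_lit 0)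 (nat_lit 0) (XT.nd (nat_lit 78) (nat_lit 0) (nat_lit 0) (XT.lf (nat_lit 0) (nat_lit 97738085180) (nat_lit 152) (nat_lit 681526640734) (nat_lit 0) (nat_lit 97356720856) (nat_lit 1) (nat_lit 5) (nat_lit 3) (nat_lit 4) (nat_lit 1) (nat_lit 4) (nat_lit 495) (nat_lit 364) (nat_lit 341)) (XT.nd (nat_lit 78) (nat_lit 0) (nat_lit 0) (XT.lf (nat_lit 0) (nat_lit 108304214300) (nat_lit 152) (nat_lit 730307165157) (nat_lit 0) (nat_lit 107917051059) (nat_lit 1) (nat_lit 5) (nat_lit 3) (nat_lit 4) (nat_lit 1) (nat_lit 4) (nat_lit 496) (nat_lit 364) (nat_lit 340)) (XT.lf (nat_lit 0) (nat_lit 119664700301) (nat_lit 152) (nat_lit 783095180077) (nat_lit 0) (nat_lit 119272167693) (nat_lit 1) (nat_lit 5) (nat_lit 3) (nat_lit 4) (nat_lit 1) (nat_lit 4) (nat_lit 497) (nat_lit 364) (nat_lit 339)))) (XT.nd (nat_lit 78) (nat_lit 0) (nat_lit 0) (XT.lf (nat_lit 0) (nat_lit 131886864582) (nat_lit 152) (nat_lit 840203503358)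 (nat_lit 0) (nat_lit 131489360339) (nat_lit 1) (nat_lit 5) (nat_lit 3) (nat_lit 4) (nat_lit 1) (nat_lit 4) (nat_lit 498) (nat_lit 364) (nat_lit 338)) (XT.nd (nat_lit 78) (nat_lit 0) (nat_lit 0) (XT.lf (nat_lit 0) (nat_lit 145043134783) (nat_lit 152) (nat_lit 901970554694) (nat_lit 0) (nat_lit 144641027173) (nat_lit 1) (nat_lit 5) (nat_lit 3) (nat_lit 4) (nat_lit 1) (nat_lit 4) (nat_lit 499) (nat_lit 364) (nat_lit 337)) (XT.lf (nat_lit 0) (nat_lit 159211473988) (nat_lit 152) (nat_lit 968762361057) (nat_lit 0) (nat_lit 158805104002) (nat_lit 1) (nat_lit 5) (nat_lit 3) (nat_lit 4) (nat_lit 1) (nat_lit 4) (nat_lit 500) (nat_lit 364) (nat_lit 336))))) (XT.nd (nat_lit 234) (nat_lit 0) (nat_lit 0) (XT.nd (nat_lit 78) (nat_lit 0) (nat_lit 0) (XT.lf (nat_lit 0) (nat_lit 174475842724) (nat_lit 152) (nat_lit 1040974725743) (nat_lit 0) (nat_lit 174065526093) (nat_lit 1) (nat_lit 5) (nat_lit 3) (nat_lit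 4) (nat_lit 1) (nat_lit 4) (nat_lit 501) (nat_lit 364) (nat_lit 335)) (XT.nd (nat_lit 78) (nat_lit 0) (nat_lit 0) (XT.lf (nat_lit 0) (nat_lit 190926696510) (nat_lit 152) (nat_lit 1119035573876) (nat_lit 0) (nat_lit 190512725578) (nat_lit 1) (nat_lit 5) (nat_lit 3) (nat_lit 4) (nat_lit 1) (nat_lit 4) (nat_lit 502) (nat_lit 364) (nat_lit 334)) (XT.lf (nat_lit 0) (nat_lit 208661521888) (nat_lit 152) (nat_lit 1203407488261) (nat_lit 0) (nat_lit 208244167344) (nat_lit 1) (nat_lit 5) (nat_lit 3) (nat_lit 4) (nat_lit 1) (nat_lit 4) (nat_lit 503) (nat_lit 364) (nat_lit 333)))) (XT.nd (nat_lit 78) (nat_lit 0) (nat_lit 0) (XT.lf (nat_lit 0) (nat_lit 227785414117) (nat_lit 152) (nat_lit 1294590450611) (nat_lit 0) (nat_lit 227364926599) (nat_lit 1) (nat_lit 5) (nat_lit 3) (nat_lit 4) (nat_lit 1) (nat_lit 4) (nat_lit 504) (nat_lit 364) (nat_lit 332)) (XT.nd (nat_lit 78) (nat_lit 0) (nat_lit 0) (XT.lf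 (nat_lit 0) (nat_lit 248411699968) (nat_lit 152) (nat_lit 1393124804408) (nat_lit 0) (nat_lit 247988311549) (nat_lit 1) (nat_lit 5) (nat_lit 3) (nat_lit 4) (nat_lit 1) (nat_lit 4) (nat_lit 505) (nat_lit 364) (nat_lit 331)) (XT.lf (nat_lit 0) (nat_lit 270662609283) (nat_lit 152) (nat_lit 1499594456933) (nat_lit 0) (nat_lit 270236534843) (nat_lit 1) (nat_lit 5) (nat_lit 3) (nat_lit 4) (nat_lit 1) (nat_lit 4) (nat_lit 506) (nat_lit 364) (nat_lit 330))))))))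
noncomputable def xc20 : XT := (XT.nd (nat_lit 1794) (nat_lit 0) (nat_lit 0) (XT.nd (nat_lit 858) (nat_lit 0) (nat_lit 0) (XT.nd (nat_lit 390) (nat_lit 0) (nat_lit 0) (XT.nd (nat_lit 156) (nat_lit 0) (nat_lit 0) (XT.nd (nat_lit 78) (nat_lit 0) (nat_lit 0) (XT.lf (nat_lit 0) (nat_lit 294669999301) (nat_lit 152) (nat_lit 1614630339461) (nat_lit 0) (nat_lit 294241437805) (nat_lit 1) (nat_lit 5) (nat_lit 3) (nat_lit 4) (nat_lit 1) (nat_lit 4) (nat_lit 507) (nat_lit 364) (nat_lit 329)) (XT.lf (nat_lit 0) (nat_lit 320576136038) (nat_lit 152) (nat_lit 1738914146110) (nat_lit 0) (nat_lit 320145271713) (nat_lit 1) (nat_lit 5) (nat_lit 3) (nat_lit 4) (nat_lit 1) (nat_lit 4) (nat_lit 508) (nat_lit 364) (nat_lit 328))) (XT.nd (nat_lit 78) (nat_lit 0) (nat_lit 0) (XT.lf (nat_lit 0) (nat_lit 348534537340) (nat_lit 152) (nat_lit 1873182373512) (nat_lit 0) (nat_lit 348101540766) (nat_lit 1) (nat_lit 5)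 (nat_lit 3) (nat_lit 4) (nat_lit 1) (nat_lit 4) (nat_lit 509) (nat_lit 364) (nat_lit 327)) (XT.nd (nat_lit 78) (nat_lit 0) (nat_lit 0) (XT.lf (nat_lit 0) (nat_lit 378710882624) (nat_lit 152) (nat_lit 2018230685237) (nat_lit 0) (nat_lit 378275911745) (nat_lit 1) (nat_lit 5) (nat_lit 3) (nat_lit 4) (nat_lit 1) (nat_lit 4) (nat_lit 510) (nat_lit 364) (nat_lit 326)) (XT.lf (nat_lit 0) (nat_lit 411283994676) (nat_lit 152) (nat_lit 2174918626836) (nat_lit 0) (nat_lit 410847195737) (nat_lit 1) (nat_lit 5) (nat_lit 3) (nat_lit 4) (nat_lit 1) (nat_lit 4) (nat_lit 511) (nat_lit 364) (nat_lit 325))))) (XT.nd (nat_lit 234) (nat_lit 0) (nat_lit 0) (XT.nd (nat_lit 78) (nat_lit 0) (nat_lit 0) (XT.lf (nat_lit 0) (nat_lit 446446899345) (nat_lit 152) (nat_lit 2344174719445) (nat_lit 0) (nat_lit 446008407757) (nat_lit 1) (nat_lit 5) (nat_lit 3) (nat_lit 4) (nat_lit 1) (nat_lit 4) (nat_lit 512) (nat_lit 364)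 (nat_lit 324)) (XT.nd (nat_lit 78) (nat_lit 0) (nat_lit 0) (XT.lf (nat_lit 0) (nat_lit 484407969400) (nat_lit 152) (nat_lit 2527001962130) (nat_lit 0) (nat_lit 483967910545) (nat_lit 1) (nat_lit 5) (nat_lit 3) (nat_lit 4) (nat_lit 1) (nat_lit 4) (nat_lit 513) (nat_lit 364) (nat_lit 323)) (XT.lf (nat_lit 0) (nat_lit 525392159330) (nat_lit 152) (nat_lit 2724483775589) (nat_lit 0) (nat_lit 524950649301) (nat_lit 1) (nat_lit 5) (nat_lit 3) (nat_lit 4) (nat_lit 1) (nat_lit 4) (nat_lit 514) (nat_lit 364) (nat_lit 322)))) (XT.nd (nat_lit 78) (nat_lit 0) (nat_lit 0) (XT.lf (nat_lit 0) (nat_lit 569642338408) (nat_lit 152) (nat_lit 2937790422420) (nat_lit 0) (nat_lit 569199484701) (nat_lit 1) (nat_lit 5) (nat_lit 3) (nat_lit 4) (nat_lit 1) (nat_lit 4) (nat_lit 515) (nat_lit 364) (nat_lit 321)) (XT.nd (nat_lit 78) (nat_lit 0) (nat_lit 0) (XT.lf (nat_lit 0) (nat_lit 617420729917) (nat_lit 152) (nat_lit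 3168185942013) (nat_lit 0) (nat_lit 616976632063) (nat_lit 1) (nat_lit 5) (nat_lit 3) (nat_lit 4) (nat_lit 1) (nat_lit 4) (nat_lit 516) (nat_lit 364) (nat_lit 320)) (XT.lf (nat_lit 0) (nat_lit 669010465068) (nat_lit 152) (nat_lit 3417035641149) (nat_lit 0) (nat_lit 668565215226) (nat_lit 1) (nat_lit 5) (nat_lit 3) (nat_lit 4) (nat_lit 1) (nat_lit 4) (nat_lit 517) (nat_lit 364) (nat_lit 319)))))) (XT.nd (nat_lit 468) (nat_lit 0) (nat_lit 0) (XT.nd (nat_lit 234) (nat_lit 0) (nat_lit 0) (XT.nd (nat_lit 78) (nat_lit 0) (nat_lit 0) (XT.lf (nat_lit 0) (nat_lit 724717260809) (nat_lit 152) (nat_lit 3685814184713) (nat_lit 0) (nat_lit 724270944311) (nat_lit 1) (nat_lit 5) (nat_lit 3) (nat_lit 4) (nat_lit 1) (nat_lit 4) (nat_lit 518) (nat_lit 364) (nat_lit 318)) (XT.nd (nat_lit 78) (nat_lit 0) (nat_lit 0) (XT.lf (nat_lit 0) (nat_lit 784871231484) (nat_lit 152) (nat_lit 3976114334443) (nat_lit 0)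 (nat_lit 784423927343) (nat_lit 1) (nat_lit 5) (nat_lit 3) (nat_lit 4) (nat_lit 1) (nat_lit 4) (nat_lit 519) (nat_lit 364) (nat_lit 317)) (XT.lf (nat_lit 0) (nat_lit 849828845069) (nat_lit 152) (nat_lit 4289656387525) (nat_lit 0) (nat_lit 849380626442) (nat_lit 1) (nat_lit 5) (nat_lit 3) (nat_lit 4) (nat_lit 1) (nat_lit 4) (nat_lit 520) (nat_lit 364) (nat_lit 316)))) (XT.nd (nat_lit 78) (nat_lit 0) (nat_lit 0) (XT.lf (nat_lit 0) (nat_lit 919975035570) (nat_lit 152) (nat_lit 4628298370938) (nat_lit 0) (nat_lit 919525970198) (nat_lit 1) (nat_lit 5) (nat_lit 3) (nat_lit 4) (nat_lit 1) (nat_lit 4) (nat_lit 521) (nat_lit 364) (nat_lit 315)) (XT.nd (nat_lit 78) (nat_lit 0) (nat_lit 0) (XT.lf (nat_lit 0) (nat_lit 995725484116) (nat_lit 152) (nat_lit 4994047051993) (nat_lit 0) (nat_lit 995275634719) (nat_lit 1) (nat_lit 5) (nat_lit 3) (nat_lit 4) (nat_lit 1) (nat_lit 4) (nat_lit 522) (nat_lit 364)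 (nat_lit 314)) (XT.lf (nat_lit 0) (nat_lit 1077529082253) (nat_lit 152) (nat_lit 5389069830280) (nat_lit 0) (nat_lit 1077078506909) (nat_lit 1) (nat_lit 5) (nat_lit 3) (nat_lit 4) (nat_lit 1) (nat_lit 4) (nat_lit 523) (nat_lit 364) (nat_lit 313))))) (XT.nd (nat_lit 234) (nat_lit 0) (nat_lit 0) (XT.nd (nat_lit 78) (nat_lit 0) (nat_lit 0) (XT.lf (nat_lit 0) (nat_lit 1165870592045) (nat_lit 152) (nat_lit 5815707581523) (nat_lit 0) (nat_lit 1165419344527) (nat_lit 1) (nat_lit 5) (nat_lit 3) (nat_lit 4) (nat_lit 1) (nat_lit 4) (nat_lit 524) (nat_lit 364) (nat_lit 312)) (XT.nd (nat_lit 78) (nat_lit 0) (nat_lit 0) (XT.lf (nat_lit 0) (nat_lit 1261273518734) (nat_lit 152) (nat_lit 6276488529432) (nat_lit 0) (nat_lit 1260821648833) (nat_lit 1) (nat_lit 5) (nat_lit 3) (nat_lit 4) (nat_lit 1) (nat_lit 4) (nat_lit 525) (nat_lit 364) (nat_lit 311)) (XT.lf (nat_lit 0) (nat_lit 1364303212999) (nat_lit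 152) (nat_lit 6774143227774) (nat_lit 0) (nat_lit 1363850766816) (nat_lit 1) (nat_lit 5) (nat_lit 3) (nat_lit 4) (nat_lit 1) (nat_lit 4) (nat_lit 526) (nat_lit 364) (nat_lit 310)))) (XT.nd (nat_lit 78) (nat_lit 0) (nat_lit 0) (XT.lf (nat_lit 0) (nat_lit 1475570221174) (nat_lit 152) (nat_lit 7311620741427) (nat_lit 0) (nat_lit 1475117241398) (nat_lit 1) (nat_lit 5) (nat_lit 3) (nat_lit 4) (nat_lit 1) (nat_lit 4) (nat_lit 527) (nat_lit 364) (nat_lit 309)) (XT.nd (nat_lit 78) (nat_lit 0) (nat_lit 0) (XT.lf (nat_lit 0) (nat_lit 1595733903309) (nat_lit 152) (nat_lit 7892106122323) (nat_lit 0) (nat_lit 1595280429465) (nat_lit 1) (nat_lit 5) (nat_lit 3) (nat_lit 4) (nat_lit 1) (nat_lit 4) (nat_lit 528) (nat_lit 364) (nat_lit 308)) (XT.lf (nat_lit 0) (nat_lit 1725506340482) (nat_lit 152) (nat_lit 8519039283832) (nat_lit 0) (nat_lit 1725052409168) (nat_lit 1) (nat_lit 5) (nat_lit 3) (nat_lit 4)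 (nat_lit 1) (nat_lit 4) (nat_lit 529) (nat_lit 364) (nat_lit 307))))))) (XT.nd (nat_lit 58422) (nat_lit 0) (nat_lit 0) (XT.nd (nat_lit 57954) (nat_lit 0) (nat_lit 152) (XT.nd (nat_lit 156) (nat_lit 0) (nat_lit 0) (XT.nd (nat_lit 78) (nat_lit 0) (nat_lit 0) (XT.lf (nat_lit 0) (nat_lit 1865656554544) (nat_lit 152) (nat_lit 9196135385429) (nat_lit 0) (nat_lit 1865202199646) (nat_lit 1) (nat_lit 5) (nat_lit 3) (nat_lit 4) (nat_lit 1) (nat_lit 4) (nat_lit 530) (nat_lit 364) (nat_lit 306)) (XT.lf (nat_lit 0) (nat_lit 2017015065281) (nat_lit 152) (nat_lit 9927406848457) (nat_lit 0) (nat_lit 2016560318177) (nat_lit 1) (nat_lit 5) (nat_lit 3) (nat_lit 4) (nat_lit 1) (nat_lit 4) (nat_lit 531) (nat_lit 364) (nat_lit 305))) (XT.nd (nat_lit 57642) (nat_lit 0) (nat_lit 152) (XT.lf (nat_lit 0) (nat_lit 2180478812018) (nat_lit 152) (nat_lit 10717187133437) (nat_lit 0) (nat_lit 2180023701759) (nat_lit 1)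 (nat_lit 5) (nat_lit 3) (nat_lit 4) (nat_lit 1) (nat_lit 4) (nat_lit 532) (nat_lit 364) (nat_lit 304)) (XT.nd (nat_lit 78) (nat_lit 0) (nat_lit 0) (XT.lf (nat_lit 0) (nat_lit 29467432742) (nat_lit 76) (nat_lit 18236441152) (nat_lit 76) (nat_lit 18236441152) (nat_lit 3) (nat_lit 4) (nat_lit 4) (nat_lit 5) (nat_lit 4) (nat_lit 4) (nat_lit 470) (nat_lit 365) (nat_lit 365)) (XT.lf (nat_lit 0) (nat_lit 75970548165) (nat_lit 76) (nat_lit 33010740179) (nat_lit 76) (nat_lit 32971026445) (nat_lit 3) (nat_lit 4) (nat_lit 4) (nat_lit 5) (nat_lit 4) (nat_lit 4) (nat_lit 471) (nat_lit 365) (nat_lit 364))))) (XT.nd (nat_lit 234) (nat_lit 0) (nat_lit 0) (XT.nd (nat_lit 78) (nat_lit 0) (nat_lit 0) (XT.lf (nat_lit 0) (nat_lit 93768348041) (nat_lit 76) (nat_lit 29580607703) (nat_lit 76) (nat_lit 29504121994) (nat_lit 3) (nat_lit 4) (nat_lit 4) (nat_lit 5) (nat_lit 4) (nat_lit 4) (nat_lit 472) (nat_lit 365)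 (nat_lit 363)) (XT.nd (nat_lit 78) (nat_lit 0) (nat_lit 0) (XT.lf (nat_lit 0) (nat_lit 112433733554) (nat_lit 76) (nat_lit 26162158166) (nat_lit 76) (nat_lit 26051624332) (nat_lit 3) (nat_lit 4) (nat_lit 4) (nat_lit 5) (nat_lit 4) (nat_lit 4) (nat_lit 473) (nat_lit 365) (nat_lit 362)) (XT.lf (nat_lit 0) (nat_lit 132077314396) (nat_lit 76) (nat_lit 22735134090) (nat_lit 76) (nat_lit 22593074213) (nat_lit 3) (nat_lit 4) (nat_lit 4) (nat_lit 5) (nat_lit 4) (nat_lit 4) (nat_lit 474) (nat_lit 365) (nat_lit 361)))) (XT.nd (nat_lit 78) (nat_lit 0) (nat_lit 0) (XT.lf (nat_lit 0) (nat_lit 152815496974) (nat_lit 76) (nat_lit 19279227182) (nat_lit 76) (nat_lit 19107976526) (nat_lit 3) (nat_lit 4) (nat_lit 4) (nat_lit 5) (nat_lit 4) (nat_lit 4) (nat_lit 475) (nat_lit 365) (nat_lit 360)) (XT.nd (nat_lit 78) (nat_lit 0) (nat_lit 0) (XT.lf (nat_lit 0) (nat_lit 174771174219) (nat_lit 76) (nat_lit 15773957996)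 (nat_lit 76) (nat_lit 15575678840) (nat_lit 3) (nat_lit 4) (nat_lit 4) (nat_lit 5) (nat_lit 4) (nat_lit 4) (nat_lit 476) (nat_lit 365) (nat_lit 359)) (XT.lf (nat_lit 0) (nat_lit 198074453851) (nat_lit 76) (nat_lit 12198554565) (nat_lit 76) (nat_lit 11975249021) (nat_lit 3) (nat_lit 4) (nat_lit 4) (nat_lit 5) (nat_lit 4) (nat_lit 4) (nat_lit 477) (nat_lit 365) (nat_lit 358)))))) (XT.nd (nat_lit 468) (nat_lit 0) (nat_lit 0) (XT.nd (nat_lit 234) (nat_lit 152) (nat_lit 0) (XT.nd (nat_lit 78) (nat_lit 0) (nat_lit 0) (XT.lf (nat_lit 0) (nat_lit 222863429376) (nat_lit 76) (nat_lit 8531829313) (nat_lit 76) (nat_lit 8285351187) (nat_lit 3) (nat_lit 4) (nat_lit 4) (nat_lit 5) (nat_lit 4) (nat_lit 4) (nat_lit 478) (nat_lit 365) (nat_lit 357)) (XT.nd (nat_lit 78) (nat_lit 0) (nat_lit 0) (XT.lf (nat_lit 0) (nat_lit 249284998428) (nat_lit 76) (nat_lit 4752053499) (nat_lit 76) (nat_lit 4484119278) (nat_lit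 3) (nat_lit 4) (nat_lit 4) (nat_lit 5) (nat_lit 4) (nat_lit 4) (nat_lit 479) (nat_lit 365) (nat_lit 356)) (XT.lf (nat_lit 0) (nat_lit 277495733269) (nat_lit 76) (nat_lit 836828450) (nat_lit 76) (nat_lit 549027475) (nat_lit 3) (nat_lit 4) (nat_lit 4) (nat_lit 5) (nat_lit 4) (nat_lit 4) (nat_lit 480) (nat_lit 365) (nat_lit 355)))) (XT.nd (nat_lit 78) (nat_lit 0) (nat_lit 0) (XT.lf (nat_lit 0) (nat_lit 3619958406) (nat_lit 152) (nat_lit 293898982077) (nat_lit 0) (nat_lit 3336443482) (nat_lit 1) (nat_lit 5) (nat_lit 3) (nat_lit 4) (nat_lit 1) (nat_lit 4) (nat_lit 481) (nat_lit 365) (nat_lit 354)) (XT.nd (nat_lit 78) (nat_lit 0) (nat_lit 0) (XT.lf (nat_lit 0) (nat_lit 8003811778) (nat_lit 152) (nat_lit 308884724161) (nat_lit 0) (nat_lit 7704525985) (nat_lit 1) (nat_lit 5) (nat_lit 3) (nat_lit 4) (nat_lit 1) (nat_lit 4) (nat_lit 482) (nat_lit 365) (nat_lit 353)) (XT.lf (nat_lit 0) (nat_lit 12599853607)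 (nat_lit 152) (nat_lit 325355018117) (nat_lit 0) (nat_lit 12285965157) (nat_lit 1) (nat_lit 5) (nat_lit 3) (nat_lit 4) (nat_lit 1) (nat_lit 4) (nat_lit 483) (nat_lit 365) (nat_lit 352))))) (XT.nd (nat_lit 234) (nat_lit 0) (nat_lit 0) (XT.nd (nat_lit 78) (nat_lit 0) (nat_lit 0) (XT.lf (nat_lit 0) (nat_lit 17435319696) (nat_lit 152) (nat_lit 343407465689) (nat_lit 0) (nat_lit 17107910266) (nat_lit 1) (nat_lit 5) (nat_lit 3) (nat_lit 4) (nat_lit 1) (nat_lit 4) (nat_lit 484) (nat_lit 365) (nat_lit 351)) (XT.nd (nat_lit 78) (nat_lit 0) (nat_lit 0) (XT.lf (nat_lit 0) (nat_lit 22538864659) (nat_lit 152) (nat_lit 363149044343) (nat_lit 0) (nat_lit 22198935804) (nat_lit 1) (nat_lit 5) (nat_lit 3) (nat_lit 4) (nat_lit 1) (nat_lit 4) (nat_lit 485) (nat_lit 365) (nat_lit 350)) (XT.lf (nat_lit 0) (nat_lit 27940731724) (nat_lit 152) (nat_lit 384696741212) (nat_lit 0) (nat_lit 27589210809) (nat_lit 1)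 (nat_lit 5) (nat_lit 3) (nat_lit 4) (nat_lit 1) (nat_lit 4) (nat_lit 486) (nat_lit 365) (nat_lit 349)))) (XT.nd (nat_lit 78) (nat_lit 0) (nat_lit 0) (XT.lf (nat_lit 0) (nat_lit 33672931957) (nat_lit 152) (nat_lit 408178246353) (nat_lit 0) (nat_lit 33310677652) (nat_lit 1) (nat_lit 5) (nat_lit 3) (nat_lit 4) (nat_lit 1) (nat_lit 4) (nat_lit 487) (nat_lit 365) (nat_lit 348)) (XT.nd (nat_lit 78) (nat_lit 0) (nat_lit 0) (XT.lf (nat_lit 0) (nat_lit 39769433950) (nat_lit 152) (nat_lit 433732709424) (nat_lit 0) (nat_lit 39397241323) (nat_lit 1) (nat_lit 5) (nat_lit 3) (nat_lit 4) (nat_lit 1) (nat_lit 4) (nat_lit 488) (nat_lit 365) (nat_lit 347)) (XT.lf (nat_lit 0) (nat_lit 46266365124) (nat_lit 152) (nat_lit 461511564280) (nat_lit 0) (nat_lit 45884970346) (nat_lit 1) (nat_lit 5) (nat_lit 3) (nat_lit 4) (nat_lit 1) (nat_lit 4) (nat_lit 489) (nat_lit 365) (nat_lit 346))))))))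
noncomputable def xc21 : XT := (XT.nd (nat_lit 1794) (nat_lit 0) (nat_lit 0) (XT.nd (nat_lit 858) (nat_lit 0) (nat_lit 0) (XT.nd (nat_lit 390) (nat_lit 0) (nat_lit 0) (XT.nd (nat_lit 156) (nat_lit 0) (nat_lit 0) (XT.nd (nat_lit 78) (nat_lit 0) (nat_lit 0) (XT.lf (nat_lit 0) (nat_lit 53202225812) (nat_lit 152) (nat_lit 491679426360) (nat_lit 0) (nat_lit 52812310523) (nat_lit 1) (nat_lit 5) (nat_lit 3) (nat_lit 4) (nat_lit 1) (nat_lit 4) (nat_lit 490) (nat_lit 365) (nat_lit 345)) (XT.lf (nat_lit 0) (nat_lit 60618117409) (nat_lit 152) (nat_lit 524415068177) (nat_lit 0) (nat_lit 60220312759) (nat_lit 1) (nat_lit 5) (nat_lit 3) (nat_lit 4) (nat_lit 1) (nat_lit 4) (nat_lit 491) (nat_lit 365) (nat_lit 344))) (XT.nd (nat_lit 78) (nat_lit 0) (nat_lit 0) (XT.lf (nat_lit 0) (nat_lit 68557985940) (nat_lit 152) (nat_lit 559912478721) (nat_lit 0) (nat_lit 68152876326) (nat_lit 1) (nat_lit 5) (nat_lit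 3) (nat_lit 4) (nat_lit 1) (nat_lit 4) (nat_lit 492) (nat_lit 365) (nat_lit 343)) (XT.nd (nat_lit 78) (nat_lit 0) (nat_lit 0) (XT.lf (nat_lit 0) (nat_lit 77068882479) (nat_lit 152) (nat_lit 598382013018) (nat_lit 0) (nat_lit 76657009008) (nat_lit 1) (nat_lit 5) (nat_lit 3) (nat_lit 4) (nat_lit 1) (nat_lit 4) (nat_lit 493) (nat_lit 365) (nat_lit 342)) (XT.lf (nat_lit 0) (nat_lit 86201241966) (nat_lit 152) (nat_lit 640051638677) (nat_lit 0) (nat_lit 85783105666) (nat_lit 1) (nat_lit 5) (nat_lit 3) (nat_lit 4) (nat_lit 1) (nat_lit 4) (nat_lit 494) (nat_lit 365) (nat_lit 341))))) (XT.nd (nat_lit 234) (nat_lit 0) (nat_lit 0) (XT.nd (nat_lit 78) (nat_lit 0) (nat_lit 0) (XT.lf (nat_lit 0) (nat_lit 96009182089) (nat_lit 152) (nat_lit 685168286815) (nat_lit 0) (nat_lit 95585246873) (nat_lit 1) (nat_lit 5) (nat_lit 3) (nat_lit 4) (nat_lit 1) (nat_lit 4) (nat_lit 495) (nat_lit 365) (nat_lit 340))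 (XT.nd (nat_lit 78) (nat_lit 0) (nat_lit 0) (XT.lf (nat_lit 0) (nat_lit 106550823974) (nat_lit 152) (nat_lit 733999315345) (nat_lit 0) (nat_lit 106121519391) (nat_lit 1) (nat_lit 5) (nat_lit 3) (nat_lit 4) (nat_lit 1) (nat_lit 4) (nat_lit 496) (nat_lit 365) (nat_lit 339)) (XT.lf (nat_lit 0) (nat_lit 117888636610) (nat_lit 152) (nat_lit 786834093326) (nat_lit 0) (nat_lit 117454360391) (nat_lit 1) (nat_lit 5) (nat_lit 3) (nat_lit 4) (nat_lit 1) (nat_lit 4) (nat_lit 497) (nat_lit 365) (nat_lit 338)))) (XT.nd (nat_lit 78) (nat_lit 0) (nat_lit 0) (XT.lf (nat_lit 0) (nat_lit 130089807034) (nat_lit 152) (nat_lit 843985715738) (nat_lit 0) (nat_lit 129650927449) (nat_lit 1) (nat_lit 5) (nat_lit 3) (nat_lit 4) (nat_lit 1) (nat_lit 4) (nat_lit 498) (nat_lit 365) (nat_lit 337)) (XT.nd (nat_lit 78) (nat_lit 0) (nat_lit 0) (XT.lf (nat_lit 0) (nat_lit 143226638479) (nat_lit 152) (nat_lit 905792858863)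 (nat_lit 0) (nat_lit 142783496518) (nat_lit 1) (nat_lit 5) (nat_lit 3) (nat_lit 4) (nat_lit 1) (nat_lit 4) (nat_lit 499) (nat_lit 365) (nat_lit 336)) (XT.lf (nat_lit 0) (nat_lit 157376978835) (nat_lit 152) (nat_lit 972621787252) (nat_lit 0) (nat_lit 156929890229) (nat_lit 1) (nat_lit 5) (nat_lit 3) (nat_lit 4) (nat_lit 1) (nat_lit 4) (nat_lit 500) (nat_lit 365) (nat_lit 335)))))) (XT.nd (nat_lit 468) (nat_lit 0) (nat_lit 0) (XT.nd (nat_lit 234) (nat_lit 0) (nat_lit 0) (XT.nd (nat_lit 78) (nat_lit 0) (nat_lit 0) (XT.lf (nat_lit 0) (nat_lit 172624681971) (nat_lit 152) (nat_lit 1044868524184) (nat_lit 0) (nat_lit 172173939064) (nat_lit 1) (nat_lit 5) (nat_lit 3) (nat_lit 4) (nat_lit 1) (nat_lit 4) (nat_lit 501) (nat_lit 365) (nat_lit 334)) (XT.nd (nat_lit 78) (nat_lit 0) (nat_lit 0) (XT.lf (nat_lit 0) (nat_lit 189060104646) (nat_lit 152) (nat_lit 1122961198471) (nat_lit 0) (nat_lit 188605978127)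 (nat_lit 1) (nat_lit 5) (nat_lit 3) (nat_lit 4) (nat_lit 1) (nat_lit 4) (nat_lit 502) (nat_lit 365) (nat_lit 333)) (XT.lf (nat_lit 0) (nat_lit 206780641957) (nat_lit 152) (nat_lit 1207362581517) (nat_lit 0) (nat_lit 206323382464) (nat_lit 1) (nat_lit 5) (nat_lit 3) (nat_lit 4) (nat_lit 1) (nat_lit 4) (nat_lit 503) (nat_lit 365) (nat_lit 332)))) (XT.nd (nat_lit 78) (nat_lit 0) (nat_lit 0) (XT.lf (nat_lit 0) (nat_lit 225891304496) (nat_lit 152) (nat_lit 1298572829665) (nat_lit 0) (nat_lit 225431144101) (nat_lit 1) (nat_lit 5) (nat_lit 3) (nat_lit 4) (nat_lit 1) (nat_lit 4) (nat_lit 504) (nat_lit 365) (nat_lit 331)) (XT.nd (nat_lit 78) (nat_lit 0) (nat_lit 0) (XT.lf (nat_lit 0) (nat_lit 246505340633) (nat_lit 152) (nat_lit 1397132448089) (nat_lit 0) (nat_lit 246042494218) (nat_lit 1) (nat_lit 5) (nat_lit 3) (nat_lit 4) (nat_lit 1) (nat_lit 4) (nat_lit 505) (nat_lit 365) (nat_lit 330)) (XT.lf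 (nat_lit 0) (nat_lit 268744907620) (nat_lit 152) (nat_lit 1503625493787) (nat_lit 0) (nat_lit 268279574149) (nat_lit 1) (nat_lit 5) (nat_lit 3) (nat_lit 4) (nat_lit 1) (nat_lit 4) (nat_lit 506) (nat_lit 365) (nat_lit 329))))) (XT.nd (nat_lit 234) (nat_lit 0) (nat_lit 0) (XT.nd (nat_lit 78) (nat_lit 0) (nat_lit 0) (XT.lf (nat_lit 0) (nat_lit 292741795483) (nat_lit 152) (nat_lit 1618683036661) (nat_lit 0) (nat_lit 292274159182) (nat_lit 1) (nat_lit 5) (nat_lit 3) (nat_lit 4) (nat_lit 1) (nat_lit 4) (nat_lit 507) (nat_lit 365) (nat_lit 328)) (XT.nd (nat_lit 78) (nat_lit 0) (nat_lit 0) (XT.lf (nat_lit 0) (nat_lit 318638208002) (nat_lit 152) (nat_lit 1742986899185) (nat_lit 0) (nat_lit 318168439452) (nat_lit 1) (nat_lit 5) (nat_lit 3) (nat_lit 4) (nat_lit 1) (nat_lit 4) (nat_lit 508) (nat_lit 365) (nat_lit 327)) (XT.lf (nat_lit 0) (nat_lit 346587605399) (nat_lit 152) (nat_lit 1877273696843)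 (nat_lit 0) (nat_lit 346115862544) (nat_lit 1) (nat_lit 5) (nat_lit 3) (nat_lit 4) (nat_lit 1) (nat_lit 4) (nat_lit 509) (nat_lit 365) (nat_lit 326)))) (XT.nd (nat_lit 78) (nat_lit 0) (nat_lit 0) (XT.lf (nat_lit 0) (nat_lit 376755613734) (nat_lit 152) (nat_lit 2022339203249) (nat_lit 0) (nat_lit 376282042819) (nat_lit 1) (nat_lit 5) (nat_lit 3) (nat_lit 4) (nat_lit 1) (nat_lit 4) (nat_lit 510) (nat_lit 365) (nat_lit 325)) (XT.nd (nat_lit 78) (nat_lit 0) (nat_lit 0) (XT.lf (nat_lit 0) (nat_lit 409321006388) (nat_lit 152) (nat_lit 2179043065848) (nat_lit 0) (nat_lit 408845742825) (nat_lit 1) (nat_lit 5) (nat_lit 3) (nat_lit 4) (nat_lit 1) (nat_lit 4) (nat_lit 511) (nat_lit 365) (nat_lit 324)) (XT.lf (nat_lit 0) (nat_lit 444476763467) (nat_lit 152) (nat_lit 2348313900124) (nat_lit 0) (nat_lit 443999932636) (nat_lit 1) (nat_lit 5) (nat_lit 3) (nat_lit 4) (nat_lit 1) (nat_lit 4) (nat_lit 512)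 (nat_lit 365) (nat_lit 323))))))) (XT.nd (nat_lit 936) (nat_lit 0) (nat_lit 0) (XT.nd (nat_lit 468) (nat_lit 0) (nat_lit 0) (XT.nd (nat_lit 234) (nat_lit 0) (nat_lit 0) (XT.nd (nat_lit 78) (nat_lit 0) (nat_lit 0) (XT.lf (nat_lit 0) (nat_lit 482431215382) (nat_lit 152) (nat_lit 2531154792501) (nat_lit 0) (nat_lit 481952933379) (nat_lit 1) (nat_lit 5) (nat_lit 3) (nat_lit 4) (nat_lit 1) (nat_lit 4) (nat_lit 513) (nat_lit 365) (nat_lit 322)) (XT.nd (nat_lit 78) (nat_lit 0) (nat_lit 0) (XT.lf (nat_lit 0) (nat_lit 523409277405) (nat_lit 152) (nat_lit 2728649244564) (nat_lit 0) (nat_lit 522929651723) (nat_lit 1) (nat_lit 5) (nat_lit 3) (nat_lit 4) (nat_lit 1) (nat_lit 4) (nat_lit 514) (nat_lit 365) (nat_lit 321)) (XT.lf (nat_lit 0) (nat_lit 567653782496) (nat_lit 152) (nat_lit 2941967593806) (nat_lit 0) (nat_lit 567172912666) (nat_lit 1) (nat_lit 5) (nat_lit 3) (nat_lit 4) (nat_lit 1) (nat_lit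 4) (nat_lit 515) (nat_lit 365) (nat_lit 320)))) (XT.nd (nat_lit 78) (nat_lit 0) (nat_lit 0) (XT.lf (nat_lit 0) (nat_lit 615426920313) (nat_lit 152) (nat_lit 3172373948964) (nat_lit 0) (nat_lit 614944898496) (nat_lit 1) (nat_lit 5) (nat_lit 3) (nat_lit 4) (nat_lit 1) (nat_lit 4) (nat_lit 516) (nat_lit 365) (nat_lit 319)) (XT.nd (nat_lit 78) (nat_lit 0) (nat_lit 0) (XT.lf (nat_lit 0) (nat_lit 667011790934) (nat_lit 152) (nat_lit 3421233681031) (nat_lit 0) (nat_lit 666528702461) (nat_lit 1) (nat_lit 5) (nat_lit 3) (nat_lit 4) (nat_lit 1) (nat_lit 4) (nat_lit 517) (nat_lit 365) (nat_lit 318)) (XT.lf (nat_lit 0) (nat_lit 722714082480) (nat_lit 152) (nat_lit 3690021514346) (nat_lit 0) (nat_lit 722230006363) (nat_lit 1) (nat_lit 5) (nat_lit 3) (nat_lit 4) (nat_lit 1) (nat_lit 4) (nat_lit 518) (nat_lit 365) (nat_lit 317))))) (XT.nd (nat_lit 234) (nat_lit 0) (nat_lit 0) (XT.nd (nat_lit 78) (nat_lit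 0) (nat_lit 0) (XT.lf (nat_lit 0) (nat_lit 782863882606) (nat_lit 152) (nat_lit 3980330265698) (nat_lit 0) (nat_lit 782378892003) (nat_lit 1) (nat_lit 5) (nat_lit 3) (nat_lit 4) (nat_lit 1) (nat_lit 4) (nat_lit 519) (nat_lit 365) (nat_lit 316)) (XT.nd (nat_lit 78) (nat_lit 0) (nat_lit 0) (XT.lf (nat_lit 0) (nat_lit 847817634570) (nat_lit 152) (nat_lit 4293880283244) (nat_lit 0) (nat_lit 847331797222) (nat_lit 1) (nat_lit 5) (nat_lit 3) (nat_lit 4) (nat_lit 1) (nat_lit 4) (nat_lit 520) (nat_lit 365) (nat_lit 315)) (XT.lf (nat_lit 0) (nat_lit 917960249496) (nat_lit 152) (nat_lit 4632529641161) (nat_lit 0) (nat_lit 917473628124) (nat_lit 1) (nat_lit 5) (nat_lit 3) (nat_lit 4) (nat_lit 1) (nat_lit 4) (nat_lit 521) (nat_lit 365) (nat_lit 314)))) (XT.nd (nat_lit 78) (nat_lit 0) (nat_lit 0) (XT.lf (nat_lit 0) (nat_lit 993707387324) (nat_lit 152) (nat_lit 4998285150460) (nat_lit 0) (nat_lit 993220040005)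 (nat_lit 1) (nat_lit 5) (nat_lit 3) (nat_lit 4) (nat_lit 1) (nat_lit 4) (nat_lit 522) (nat_lit 365) (nat_lit 313)) (XT.nd (nat_lit 78) (nat_lit 0) (nat_lit 0) (XT.lf (nat_lit 0) (nat_lit 1075507919982) (nat_lit 152) (nat_lit 5393314251195) (nat_lit 0) (nat_lit 1075019900489) (nat_lit 1) (nat_lit 5) (nat_lit 3) (nat_lit 4) (nat_lit 1) (nat_lit 4) (nat_lit 523) (nat_lit 365) (nat_lit 312)) (XT.lf (nat_lit 0) (nat_lit 1163846591368) (nat_lit 152) (nat_lit 5819957856557) (nat_lit 0) (nat_lit 1163357949491) (nat_lit 1) (nat_lit 5) (nat_lit 3) (nat_lit 4) (nat_lit 1) (nat_lit 4) (nat_lit 524) (nat_lit 365) (nat_lit 311)))))) (XT.nd (nat_lit 468) (nat_lit 0) (nat_lit 0) (XT.nd (nat_lit 234) (nat_lit 0) (nat_lit 0) (XT.nd (nat_lit 78) (nat_lit 0) (nat_lit 0) (XT.lf (nat_lit 0) (nat_lit 1259246889903) (nat_lit 152) (nat_lit 6280744224947) (nat_lit 0) (nat_lit 1258757671746) (nat_lit 1) (nat_lit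 5) (nat_lit 3) (nat_lit 4) (nat_lit 1) (nat_lit 4) (nat_lit 525) (nat_lit 365) (nat_lit 310)) (XT.nd (nat_lit 78) (nat_lit 0) (nat_lit 0) (XT.lf (nat_lit 0) (nat_lit 1362274150691) (nat_lit 152) (nat_lit 6778403942252) (nat_lit 0) (nat_lit 1361784398940) (nat_lit 1) (nat_lit 5) (nat_lit 3) (nat_lit 4) (nat_lit 1) (nat_lit 4) (nat_lit 526) (nat_lit 365) (nat_lit 309)) (XT.lf (nat_lit 0) (nat_lit 1473538905648) (nat_lit 152) (nat_lit 7315886103093) (nat_lit 0) (nat_lit 1473048659829) (nat_lit 1) (nat_lit 5) (nat_lit 3) (nat_lit 4) (nat_lit 1) (nat_lit 4) (nat_lit 527) (nat_lit 365) (nat_lit 308)))) (XT.nd (nat_lit 78) (nat_lit 0) (nat_lit 0) (XT.lf (nat_lit 0) (nat_lit 1593700501469) (nat_lit 152) (nat_lit 7896375786942) (nat_lit 0) (nat_lit 1593209798180) (nat_lit 1) (nat_lit 5) (nat_lit 3) (nat_lit 4) (nat_lit 1) (nat_lit 4) (nat_lit 528) (nat_lit 365) (nat_lit 307)) (XT.nd (nat_lit 78)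 (nat_lit 0) (nat_lit 0) (XT.lf (nat_lit 0) (nat_lit 1723471006871) (nat_lit 152) (nat_lit 8523312932666) (nat_lit 0) (nat_lit 1722979879998) (nat_lit 1) (nat_lit 5) (nat_lit 3) (nat_lit 4) (nat_lit 1) (nat_lit 4) (nat_lit 529) (nat_lit 365) (nat_lit 306)) (XT.lf (nat_lit 0) (nat_lit 1863619432255) (nat_lit 152) (nat_lit 9200412723351) (nat_lit 0) (nat_lit 1863127913175) (nat_lit 1) (nat_lit 5) (nat_lit 3) (nat_lit 4) (nat_lit 1) (nat_lit 4) (nat_lit 530) (nat_lit 365) (nat_lit 305))))) (XT.nd (nat_lit 57642) (nat_lit 0) (nat_lit 152) (XT.nd (nat_lit 78) (nat_lit 0) (nat_lit 0) (XT.lf (nat_lit 0) (nat_lit 2014976286810) (nat_lit 152) (nat_lit 9931687602201) (nat_lit 0) (nat_lit 2014484404575) (nat_lit 1) (nat_lit 5) (nat_lit 3) (nat_lit 4) (nat_lit 1) (nat_lit 4) (nat_lit 531) (nat_lit 365) (nat_lit 304)) (XT.nd (nat_lit 57486) (nat_lit 0) (nat_lit 152) (XT.lf (nat_lit 0) (nat_lit 2178438500043)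 (nat_lit 152) (nat_lit 10721471049979) (nat_lit 0) (nat_lit 2177946281555) (nat_lit 1) (nat_lit 5) (nat_lit 3) (nat_lit 4) (nat_lit 1) (nat_lit 4) (nat_lit 532) (nat_lit 365) (nat_lit 303)) (XT.lf (nat_lit 0) (nat_lit 13543418002) (nat_lit 76) (nat_lit 21722598072) (nat_lit 76) (nat_lit 21722598072) (nat_lit 3) (nat_lit 4) (nat_lit 4) (nat_lit 5) (nat_lit 4) (nat_lit 4) (nat_lit 468) (nat_lit 366) (nat_lit 366)))) (XT.nd (nat_lit 78) (nat_lit 0) (nat_lit 0) (XT.lf (nat_lit 0) (nat_lit 42560347803) (nat_lit 76) (nat_lit 40030441309) (nat_lit 76) (nat_lit 39987550477) (nat_lit 3) (nat_lit 4) (nat_lit 4) (nat_lit 5) (nat_lit 4) (nat_lit 4) (nat_lit 469) (nat_lit 366) (nat_lit 365)) (XT.nd (nat_lit 78) (nat_lit 0) (nat_lit 0) (XT.lf (nat_lit 0) (nat_lit 58622944131) (nat_lit 76) (nat_lit 36676205589) (nat_lit 76) (nat_lit 36593601023) (nat_lit 3) (nat_lit 4) (nat_lit 4) (nat_lit 5) (nat_lit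 4) (nat_lit 4) (nat_lit 470) (nat_lit 366) (nat_lit 364)) (XT.lf (nat_lit 0) (nat_lit 75369810745) (nat_lit 76) (nat_lit 33362612030) (nat_lit 76) (nat_lit 33243235490) (nat_lit 3) (nat_lit 4) (nat_lit 4) (nat_lit 5) (nat_lit 4) (nat_lit 4) (nat_lit 471) (nat_lit 366) (nat_lit 363))))))))
noncomputable def xc22 : XT := (XT.nd (nat_lit 1794) (nat_lit 0) (nat_lit 0) (XT.nd (nat_lit 858) (nat_lit 0) (nat_lit 0) (XT.nd (nat_lit 390) (nat_lit 152) (nat_lit 0) (XT.nd (nat_lit 156) (nat_lit 0) (nat_lit 0) (XT.nd (nat_lit 78) (nat_lit 0) (nat_lit 0) (XT.lf (nat_lit 0) (nat_lit 92900188335) (nat_lit 76) (nat_lit 30070024525) (nat_lit 76) (nat_lit 29916599858) (nat_lit 3) (nat_lit 4) (nat_lit 4) (nat_lit 5) (nat_lit 4) (nat_lit 4) (nat_lit 472) (nat_lit 366) (nat_lit 362)) (XT.lf (nat_lit 0) (nat_lit 111317960622) (nat_lit 76) (nat_lit 26778931441) (nat_lit 76) (nat_lit 26593980733) (nat_lit 3) (nat_lit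 4) (nat_lit 4) (nat_lit 5) (nat_lit 4) (nat_lit 4) (nat_lit 473) (nat_lit 366) (nat_lit 361))) (XT.nd (nat_lit 78) (nat_lit 0) (nat_lit 0) (XT.lf (nat_lit 0) (nat_lit 130732269958) (nat_lit 76) (nat_lit 23469830007) (nat_lit 76) (nat_lit 23255688519) (nat_lit 3) (nat_lit 4) (nat_lit 4) (nat_lit 5) (nat_lit 4) (nat_lit 4) (nat_lit 474) (nat_lit 366) (nat_lit 360)) (XT.nd (nat_lit 78) (nat_lit 0) (nat_lit 0) (XT.lf (nat_lit 0) (nat_lit 151258164104) (nat_lit 76) (nat_lit 20123110731) (nat_lit 76) (nat_lit 19881940743) (nat_lit 3) (nat_lit 4) (nat_lit 4) (nat_lit 5) (nat_lit 4) (nat_lit 4) (nat_lit 475) (nat_lit 366) (nat_lit 359)) (XT.lf (nat_lit 0) (nat_lit 173017277987) (nat_lit 76) (nat_lit 16718941203) (nat_lit 76) (nat_lit 16452744827) (nat_lit 3) (nat_lit 4) (nat_lit 4) (nat_lit 5) (nat_lit 4) (nat_lit 4) (nat_lit 476) (nat_lit 366) (nat_lit 358))))) (XT.nd (nat_lit 234) (nat_lit 152)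 (nat_lit 0) (XT.nd (nat_lit 78) (nat_lit 0) (nat_lit 0) (XT.lf (nat_lit 0) (nat_lit 196138554505) (nat_lit 76) (nat_lit 13237148567) (nat_lit 76) (nat_lit 12947779609) (nat_lit 3) (nat_lit 4) (nat_lit 4) (nat_lit 5) (nat_lit 4) (nat_lit 4) (nat_lit 477) (nat_lit 366) (nat_lit 357)) (XT.nd (nat_lit 78) (nat_lit 0) (nat_lit 0) (XT.lf (nat_lit 0) (nat_lit 220759008629) (nat_lit 76) (nat_lit 9657099978) (nat_lit 76) (nat_lit 9346274925) (nat_lit 3) (nat_lit 4) (nat_lit 4) (nat_lit 5) (nat_lit 4) (nat_lit 4) (nat_lit 478) (nat_lit 366) (nat_lit 356)) (XT.lf (nat_lit 0) (nat_lit 247024539346) (nat_lit 76) (nat_lit 5957580332) (nat_lit 76) (nat_lit 5626888525) (nat_lit 3) (nat_lit 4) (nat_lit 4) (nat_lit 5) (nat_lit 4) (nat_lit 4) (nat_lit 479) (nat_lit 366) (nat_lit 355)))) (XT.nd (nat_lit 78) (nat_lit 152) (nat_lit 0) (XT.lf (nat_lit 0) (nat_lit 275090794247) (nat_lit 76) (nat_lit 2116666551)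 (nat_lit 76) (nat_lit 1767579601) (nat_lit 3) (nat_lit 4) (nat_lit 4) (nat_lit 5) (nat_lit 4) (nat_lit 4) (nat_lit 480) (nat_lit 366) (nat_lit 354)) (XT.nd (nat_lit 78) (nat_lit 0) (nat_lit 0) (XT.lf (nat_lit 0) (nat_lit 2294766053) (nat_lit 152) (nat_lit 296714055469) (nat_lit 0) (nat_lit 1955766527) (nat_lit 1) (nat_lit 5) (nat_lit 3) (nat_lit 4) (nat_lit 1) (nat_lit 4) (nat_lit 481) (nat_lit 366) (nat_lit 353)) (XT.lf (nat_lit 0) (nat_lit 6612023362) (nat_lit 152) (nat_lit 311837149719) (nat_lit 0) (nat_lit 6258421178) (nat_lit 1) (nat_lit 5) (nat_lit 3) (nat_lit 4) (nat_lit 1) (nat_lit 4) (nat_lit 482) (nat_lit 366) (nat_lit 352)))))) (XT.nd (nat_lit 468) (nat_lit 0) (nat_lit 0) (XT.nd (nat_lit 234) (nat_lit 0) (nat_lit 0) (XT.nd (nat_lit 78) (nat_lit 0) (nat_lit 0) (XT.lf (nat_lit 0) (nat_lit 11146402169) (nat_lit 152) (nat_lit 328434621608) (nat_lit 0) (nat_lit 10779279005) (nat_lit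 1) (nat_lit 5) (nat_lit 3) (nat_lit 4) (nat_lit 1) (nat_lit 4) (nat_lit 483) (nat_lit 366) (nat_lit 351)) (XT.nd (nat_lit 78) (nat_lit 0) (nat_lit 0) (XT.lf (nat_lit 0) (nat_lit 15924772866) (nat_lit 152) (nat_lit 346604826524) (nat_lit 0) (nat_lit 15545130278) (nat_lit 1) (nat_lit 5) (nat_lit 3) (nat_lit 4) (nat_lit 1) (nat_lit 4) (nat_lit 484) (nat_lit 366) (nat_lit 350)) (XT.lf (nat_lit 0) (nat_lit 20975451726) (nat_lit 152) (nat_lit 366455439757) (nat_lit 0) (nat_lit 20584217077) (nat_lit 1) (nat_lit 5) (nat_lit 3) (nat_lit 4) (nat_lit 1) (nat_lit 4) (nat_lit 485) (nat_lit 366) (nat_lit 349)))) (XT.nd (nat_lit 78) (nat_lit 0) (nat_lit 0) (XT.lf (nat_lit 0) (nat_lit 26328368696) (nat_lit 152) (nat_lit 388104094569) (nat_lit 0) (nat_lit 25926400658) (nat_lit 1) (nat_lit 5) (nat_lit 3) (nat_lit 4) (nat_lit 1) (nat_lit 4) (nat_lit 486) (nat_lit 366) (nat_lit 348)) (XT.nd (nat_lit 78) (nat_lit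 0) (nat_lit 0) (XT.lf (nat_lit 0) (nat_lit 32015244766) (nat_lit 152) (nat_lit 411679079286) (nat_lit 0) (nat_lit 31603338405) (nat_lit 1) (nat_lit 5) (nat_lit 3) (nat_lit 4) (nat_lit 1) (nat_lit 4) (nat_lit 487) (nat_lit 366) (nat_lit 347)) (XT.lf (nat_lit 0) (nat_lit 38069779943) (nat_lit 152) (nat_lit 437320097520) (nat_lit 0) (nat_lit 37648671431) (nat_lit 1) (nat_lit 5) (nat_lit 3) (nat_lit 4) (nat_lit 1) (nat_lit 4) (nat_lit 488) (nat_lit 366) (nat_lit 346))))) (XT.nd (nat_lit 234) (nat_lit 0) (nat_lit 0) (XT.nd (nat_lit 78) (nat_lit 0) (nat_lit 0) (XT.lf (nat_lit 0) (nat_lit 44527852953) (nat_lit 152) (nat_lit 465179096047) (nat_lit 0) (nat_lit 44098223931) (nat_lit 1) (nat_lit 5) (nat_lit 3) (nat_lit 4) (nat_lit 1) (nat_lit 4) (nat_lit 489) (nat_lit 366) (nat_lit 345)) (XT.nd (nat_lit 78) (nat_lit 0) (nat_lit 0) (XT.lf (nat_lit 0) (nat_lit 51427733859) (nat_lit 152) (nat_lit 495421165228)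 (nat_lit 0) (nat_lit 50990215476) (nat_lit 1) (nat_lit 5) (nat_lit 3) (nat_lit 4) (nat_lit 1) (nat_lit 4) (nat_lit 490) (nat_lit 366) (nat_lit 344)) (XT.lf (nat_lit 0) (nat_lit 58810310844) (nat_lit 152) (nat_lit 528225517325) (nat_lit 0) (nat_lit 58365487496) (nat_lit 1) (nat_lit 5) (nat_lit 3) (nat_lit 4) (nat_lit 1) (nat_lit 4) (nat_lit 491) (nat_lit 366) (nat_lit 343)))) (XT.nd (nat_lit 78) (nat_lit 0) (nat_lit 0) (XT.lf (nat_lit 0) (nat_lit 66719332512) (nat_lit 152) (nat_lit 563786548499) (nat_lit 0) (nat_lit 66267745309) (nat_lit 1) (nat_lit 5) (nat_lit 3) (nat_lit 4) (nat_lit 1) (nat_lit 4) (nat_lit 492) (nat_lit 366) (nat_lit 342)) (XT.nd (nat_lit 78) (nat_lit 0) (nat_lit 0) (XT.lf (nat_lit 0) (nat_lit 75201667140) (nat_lit 152) (nat_lit 602314990785) (nat_lit 0) (nat_lit 74743817107) (nat_lit 1) (nat_lit 5) (nat_lit 3) (nat_lit 4) (nat_lit 1) (nat_lit 4) (nat_lit 493) (nat_lit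 366) (nat_lit 341)) (XT.lf (nat_lit 0) (nat_lit 84307580415) (nat_lit 152) (nat_lit 644039160880) (nat_lit 0) (nat_lit 83843931465) (nat_lit 1) (nat_lit 5) (nat_lit 3) (nat_lit 4) (nat_lit 1) (nat_lit 4) (nat_lit 494) (nat_lit 366) (nat_lit 340))))))) (XT.nd (nat_lit 936) (nat_lit 0) (nat_lit 0) (XT.nd (nat_lit 468) (nat_lit 0) (nat_lit 0) (XT.nd (nat_lit 234) (nat_lit 0) (nat_lit 0) (XT.nd (nat_lit 78) (nat_lit 0) (nat_lit 0) (XT.lf (nat_lit 0) (nat_lit 94091033303) (nat_lit 152) (nat_lit 689206313124) (nat_lit 0) (nat_lit 93622014987) (nat_lit 1) (nat_lit 5) (nat_lit 3) (nat_lit 4) (nat_lit 1) (nat_lit 4) (nat_lit 495) (nat_lit 366) (nat_lit 339)) (XT.nd (nat_lit 78) (nat_lit 0) (nat_lit 0) (XT.lf (nat_lit 0) (nat_lit 104610001822) (nat_lit 152) (nat_lit 738084104716) (nat_lit 0) (nat_lit 104136011870) (nat_lit 1) (nat_lit 5) (nat_lit 3) (nat_lit 4) (nat_lit 1) (nat_lit 4) (nat_lit 496)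 (nat_lit 366) (nat_lit 338)) (XT.lf (nat_lit 0) (nat_lit 115926820601) (nat_lit 152) (nat_lit 790962181828) (nat_lit 0) (nat_lit 115448227283) (nat_lit 1) (nat_lit 5) (nat_lit 3) (nat_lit 4) (nat_lit 1) (nat_lit 4) (nat_lit 497) (nat_lit 366) (nat_lit 337)))) (XT.nd (nat_lit 78) (nat_lit 0) (nat_lit 0) (XT.lf (nat_lit 0) (nat_lit 128108552269) (nat_lit 152) (nat_lit 848153896029) (nat_lit 0) (nat_lit 127625696574) (nat_lit 1) (nat_lit 5) (nat_lit 3) (nat_lit 4) (nat_lit 1) (nat_lit 4) (nat_lit 498) (nat_lit 366) (nat_lit 336)) (XT.nd (nat_lit 78) (nat_lit 0) (nat_lit 0) (XT.lf (nat_lit 0) (nat_lit 141227384866) (nat_lit 152) (nat_lit 909998161179) (nat_lit 0) (nat_lit 140740582526) (nat_lit 1) (nat_lit 5) (nat_lit 3) (nat_lit 4) (nat_lit 1) (nat_lit 4) (nat_lit 499) (nat_lit 366) (nat_lit 335)) (XT.lf (nat_lit 0) (nat_lit 155361059622) (nat_lit 152) (nat_lit 976861461814) (nat_lit 0) (nat_lit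 154870602981) (nat_lit 1) (nat_lit 5) (nat_lit 3) (nat_lit 4) (nat_lit 1) (nat_lit 4) (nat_lit 500) (nat_lit 366) (nat_lit 334))))) (XT.nd (nat_lit 234) (nat_lit 0) (nat_lit 0) (XT.nd (nat_lit 78) (nat_lit 0) (nat_lit 0) (XT.lf (nat_lit 0) (nat_lit 170593331646) (nat_lit 152) (nat_lit 1049140024901) (nat_lit 0) (nat_lit 170099491393) (nat_lit 1) (nat_lit 5) (nat_lit 3) (nat_lit 4) (nat_lit 1) (nat_lit 4) (nat_lit 501) (nat_lit 366) (nat_lit 333)) (XT.nd (nat_lit 78) (nat_lit 0) (nat_lit 0) (XT.lf (nat_lit 0) (nat_lit 187014466255) (nat_lit 152) (nat_lit 1127262167849) (nat_lit 0) (nat_lit 186517493028) (nat_lit 1) (nat_lit 5) (nat_lit 3) (nat_lit 4) (nat_lit 1) (nat_lit 4) (nat_lit 502) (nat_lit 366) (nat_lit 332)) (XT.lf (nat_lit 0) (nat_lit 204721773875) (nat_lit 152) (nat_lit 1211690836692) (nat_lit 0) (nat_lit 204221899746) (nat_lit 1) (nat_lit 5) (nat_lit 3) (nat_lit 4) (nat_lit 1)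 (nat_lit 4) (nat_lit 503) (nat_lit 366) (nat_lit 331)))) (XT.nd (nat_lit 78) (nat_lit 0) (nat_lit 0) (XT.lf (nat_lit 0) (nat_lit 223820186700) (nat_lit 152) (nat_lit 1302926349467) (nat_lit 0) (nat_lit 223317626551) (nat_lit 1) (nat_lit 5) (nat_lit 3) (nat_lit 4) (nat_lit 1) (nat_lit 4) (nat_lit 504) (nat_lit 366) (nat_lit 330)) (XT.nd (nat_lit 78) (nat_lit 0) (nat_lit 0) (XT.lf (nat_lit 0) (nat_lit 244422880510) (nat_lit 152) (nat_lit 1401509361065) (nat_lit 0) (nat_lit 243917833305) (nat_lit 1) (nat_lit 5) (nat_lit 3) (nat_lit 4) (nat_lit 1) (nat_lit 4) (nat_lit 505) (nat_lit 366) (nat_lit 329)) (XT.lf (nat_lit 0) (nat_lit 266651945341) (nat_lit 152) (nat_lit 1508024067109) (nat_lit 0) (nat_lit 266144595307) (nat_lit 1) (nat_lit 5) (nat_lit 3) (nat_lit 4) (nat_lit 1) (nat_lit 4) (nat_lit 506) (nat_lit 366) (nat_lit 328)))))) (XT.nd (nat_lit 468) (nat_lit 0) (nat_lit 0) (XT.nd (nat_lit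 234) (nat_lit 0) (nat_lit 0) (XT.nd (nat_lit 78) (nat_lit 0) (nat_lit 0) (XT.lf (nat_lit 0) (nat_lit 290639108986) (nat_lit 152) (nat_lit 1623101665858) (nat_lit 0) (nat_lit 290129626703) (nat_lit 1) (nat_lit 5) (nat_lit 3) (nat_lit 4) (nat_lit 1) (nat_lit 4) (nat_lit 507) (nat_lit 366) (nat_lit 327)) (XT.nd (nat_lit 78) (nat_lit 0) (nat_lit 0) (XT.lf (nat_lit 0) (nat_lit 316526517600) (nat_lit 152) (nat_lit 1747424098638) (nat_lit 0) (nat_lit 316015061012) (nat_lit 1) (nat_lit 5) (nat_lit 3) (nat_lit 4) (nat_lit 1) (nat_lit 4) (nat_lit 508) (nat_lit 366) (nat_lit 326)) (XT.lf (nat_lit 0) (nat_lit 344467578048) (nat_lit 152) (nat_lit 1881728090976) (nat_lit 0) (nat_lit 343954293399) (nat_lit 1) (nat_lit 5) (nat_lit 3) (nat_lit 4) (nat_lit 1) (nat_lit 4) (nat_lit 509) (nat_lit 366) (nat_lit 325)))) (XT.nd (nat_lit 78) (nat_lit 0) (nat_lit 0) (XT.lf (nat_lit 0) (nat_lit 374627866985) (nat_lit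 152) (nat_lit 2026809518382) (nat_lit 0) (nat_lit 374112889688) (nat_lit 1) (nat_lit 5) (nat_lit 3) (nat_lit 4) (nat_lit 1) (nat_lit 4) (nat_lit 510) (nat_lit 366) (nat_lit 324)) (XT.nd (nat_lit 78) (nat_lit 0) (nat_lit 0) (XT.lf (nat_lit 0) (nat_lit 407186112049) (nat_lit 152) (nat_lit 2183528122649) (nat_lit 0) (nat_lit 406669567485) (nat_lit 1) (nat_lit 5) (nat_lit 3) (nat_lit 4) (nat_lit 1) (nat_lit 4) (nat_lit 511) (nat_lit 366) (nat_lit 323)) (XT.lf (nat_lit 0) (nat_lit 442335250989) (nat_lit 152) (nat_lit 2352812606617) (nat_lit 0) (nat_lit 441817255252) (nat_lit 1) (nat_lit 5) (nat_lit 3) (nat_lit 4) (nat_lit 1) (nat_lit 4) (nat_lit 512) (nat_lit 366) (nat_lit 322))))) (XT.nd (nat_lit 234) (nat_lit 0) (nat_lit 0) (XT.nd (nat_lit 78) (nat_lit 0) (nat_lit 0) (XT.lf (nat_lit 0) (nat_lit 480283574997) (nat_lit 152) (nat_lit 2535666137598) (nat_lit 0) (nat_lit 479764235581) (nat_lit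 1) (nat_lit 5) (nat_lit 3) (nat_lit 4) (nat_lit 1) (nat_lit 4) (nat_lit 513) (nat_lit 366) (nat_lit 321)) (XT.nd (nat_lit 78) (nat_lit 0) (nat_lit 0) (XT.lf (nat_lit 0) (nat_lit 521255963033) (nat_lit 152) (nat_lit 2733172292071) (nat_lit 0) (nat_lit 520735379470) (nat_lit 1) (nat_lit 5) (nat_lit 3) (nat_lit 4) (nat_lit 1) (nat_lit 4) (nat_lit 514) (nat_lit 366) (nat_lit 320)) (XT.lf (nat_lit 0) (nat_lit 565495214431) (nat_lit 152) (nat_lit 2946501476879) (nat_lit 0) (nat_lit 564973478880) (nat_lit 1) (nat_lit 5) (nat_lit 3) (nat_lit 4) (nat_lit 1) (nat_lit 4) (nat_lit 515) (nat_lit 366) (nat_lit 319)))) (XT.nd (nat_lit 78) (nat_lit 0) (nat_lit 0) (XT.lf (nat_lit 0) (nat_lit 613263487718) (nat_lit 152) (nat_lit 3176917864968) (nat_lit 0) (nat_lit 612740685512) (nat_lit 1) (nat_lit 5) (nat_lit 3) (nat_lit 4) (nat_lit 1) (nat_lit 4) (nat_lit 516) (nat_lit 366) (nat_lit 318)) (XT.nd (nat_lit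 78) (nat_lit 0) (nat_lit 0) (XT.lf (nat_lit 0) (nat_lit 664843854145) (nat_lit 152) (nat_lit 3425786886786) (nat_lit 0) (nat_lit 664320064294) (nat_lit 1) (nat_lit 5) (nat_lit 3) (nat_lit 4) (nat_lit 1) (nat_lit 4) (nat_lit 517) (nat_lit 366) (nat_lit 317)) (XT.lf (nat_lit 0) (nat_lit 720541975141) (nat_lit 152) (nat_lit 3694583321722) (nat_lit 0) (nat_lit 720017270805) (nat_lit 1) (nat_lit 5) (nat_lit 3) (nat_lit 4) (nat_lit 1) (nat_lit 4) (nat_lit 518) (nat_lit 366) (nat_lit 316))))))))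
noncomputable def xc23 : XT := (XT.nd (nat_lit 59046) (nat_lit 0) (nat_lit 0) (XT.nd (nat_lit 858) (nat_lit 0) (nat_lit 0) (XT.nd (nat_lit 390) (nat_lit 0) (nat_lit 0) (XT.nd (nat_lit 156) (nat_lit 0) (nat_lit 0) (XT.nd (nat_lit 78) (nat_lit 0) (nat_lit 0) (XT.lf (nat_lit 0) (nat_lit 780687913645) (nat_lit 152) (nat_lit 3984900037539) (nat_lit 0) (nat_lit 780162362564) (nat_lit 1) (nat_lit 5) (nat_lit 3) (nat_lit 4) (nat_lit 1) (nat_lit 4) (nat_lit 519) (nat_lit 366) (nat_lit 315)) (XT.lf (nat_lit 0) (nat_lit 845638090035) (nat_lit 152) (nat_lit 4298457429588) (nat_lit 0) (nat_lit 845111754930) (nat_lit 1) (nat_lit 5) (nat_lit 3) (nat_lit 4) (nat_lit 1) (nat_lit 4) (nat_lit 520) (nat_lit 366) (nat_lit 314))) (XT.nd (nat_lit 78) (nat_lit 0) (nat_lit 0) (XT.lf (nat_lit 0) (nat_lit 915777394244) (nat_lit 152) (nat_lit 4637113615750) (nat_lit 0) (nat_lit 915250333191) (nat_lit 1) (nat_lit 5)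 (nat_lit 3) (nat_lit 4) (nat_lit 1) (nat_lit 4) (nat_lit 521) (nat_lit 366) (nat_lit 313)) (XT.nd (nat_lit 78) (nat_lit 0) (nat_lit 0) (XT.lf (nat_lit 0) (nat_lit 991521466593) (nat_lit 152) (nat_lit 5002875447497) (nat_lit 0) (nat_lit 990993733366) (nat_lit 1) (nat_lit 5) (nat_lit 3) (nat_lit 4) (nat_lit 1) (nat_lit 4) (nat_lit 522) (nat_lit 366) (nat_lit 312)) (XT.lf (nat_lit 0) (nat_lit 1073319160845) (nat_lit 152) (nat_lit 5397910402351) (nat_lit 0) (nat_lit 1072790805234) (nat_lit 1) (nat_lit 5) (nat_lit 3) (nat_lit 4) (nat_lit 1) (nat_lit 4) (nat_lit 523) (nat_lit 366) (nat_lit 311))))) (XT.nd (nat_lit 234) (nat_lit 0) (nat_lit 0) (XT.nd (nat_lit 78) (nat_lit 0) (nat_lit 0) (XT.lf (nat_lit 0) (nat_lit 1161655204076) (nat_lit 152) (nat_lit 5824559428193) (nat_lit 0) (nat_lit 1161126272185) (nat_lit 1) (nat_lit 5) (nat_lit 3) (nat_lit 4) (nat_lit 1) (nat_lit 4) (nat_lit 524) (nat_lit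 366) (nat_lit 310)) (XT.nd (nat_lit 78) (nat_lit 0) (nat_lit 0) (XT.lf (nat_lit 0) (nat_lit 1257053069135) (nat_lit 152) (nat_lit 6285350815547) (nat_lit 0) (nat_lit 1256523603651) (nat_lit 1) (nat_lit 5) (nat_lit 3) (nat_lit 4) (nat_lit 1) (nat_lit 4) (nat_lit 525) (nat_lit 366) (nat_lit 309)) (XT.lf (nat_lit 0) (nat_lit 1360078076705) (nat_lit 152) (nat_lit 6783015180040) (nat_lit 0) (nat_lit 1359548117153) (nat_lit 1) (nat_lit 5) (nat_lit 3) (nat_lit 4) (nat_lit 1) (nat_lit 4) (nat_lit 526) (nat_lit 366) (nat_lit 308)))) (XT.nd (nat_lit 78) (nat_lit 0) (nat_lit 0) (XT.lf (nat_lit 0) (nat_lit 1471340745348) (nat_lit 152) (nat_lit 7320501643833) (nat_lit 0) (nat_lit 1470810328326) (nat_lit 1) (nat_lit 5) (nat_lit 3) (nat_lit 4) (nat_lit 1) (nat_lit 4) (nat_lit 527) (nat_lit 366) (nat_lit 307)) (XT.nd (nat_lit 78) (nat_lit 0) (nat_lit 0) (XT.lf (nat_lit 0) (nat_lit 1591500409398) (nat_lit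 152) (nat_lit 7900995311897) (nat_lit 0) (nat_lit 1590969568791) (nat_lit 1) (nat_lit 5) (nat_lit 3) (nat_lit 4) (nat_lit 1) (nat_lit 4) (nat_lit 528) (nat_lit 366) (nat_lit 306)) (XT.lf (nat_lit 0) (nat_lit 1721269126122) (nat_lit 152) (nat_lit 8527936146709) (nat_lit 0) (nat_lit 1720737893308) (nat_lit 1) (nat_lit 5) (nat_lit 3) (nat_lit 4) (nat_lit 1) (nat_lit 4) (nat_lit 529) (nat_lit 366) (nat_lit 305)))))) (XT.nd (nat_lit 57720) (nat_lit 0) (nat_lit 152) (XT.nd (nat_lit 57486) (nat_lit 0) (nat_lit 152) (XT.nd (nat_lit 78) (nat_lit 0) (nat_lit 0) (XT.lf (nat_lit 0) (nat_lit 1861415895323) (nat_lit 152) (nat_lit 9205039353216) (nat_lit 0) (nat_lit 1860884299355) (nat_lit 1) (nat_lit 5) (nat_lit 3) (nat_lit 4) (nat_lit 1) (nat_lit 4) (nat_lit 530) (nat_lit 366) (nat_lit 304)) (XT.nd (nat_lit 78) (nat_lit 0) (nat_lit 0) (XT.lf (nat_lit 0) (nat_lit 2012771216375) (nat_lit 152) (nat_lit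 9936317394864) (nat_lit 0) (nat_lit 2012239284153) (nat_lit 1) (nat_lit 5) (nat_lit 3) (nat_lit 4) (nat_lit 1) (nat_lit 4) (nat_lit 531) (nat_lit 366) (nat_lit 303)) (XT.lf (nat_lit 0) (nat_lit 2176232009699) (nat_lit 152) (nat_lit 10726103771159) (nat_lit 0) (nat_lit 2175699766130) (nat_lit 1) (nat_lit 5) (nat_lit 3) (nat_lit 4) (nat_lit 1) (nat_lit 4) (nat_lit 532) (nat_lit 366) (nat_lit 302)))) (XT.nd (nat_lit 78) (nat_lit 76) (nat_lit 0) (XT.lf (nat_lit 0) (nat_lit 24177136012) (nat_lit 152) (nat_lit 994121798) (nat_lit 0) (nat_lit 24177136012) (nat_lit 4) (nat_lit 5) (nat_lit 6) (nat_lit 4) (nat_lit 4) (nat_lit 4) (nat_lit 466) (nat_lit 367) (nat_lit 367)) (XT.nd (nat_lit 78) (nat_lit 0) (nat_lit 0) (XT.lf (nat_lit 0) (nat_lit 12110713850) (nat_lit 76) (nat_lit 46987027776) (nat_lit 76) (nat_lit 46940705678) (nat_lit 3) (nat_lit 4) (nat_lit 4) (nat_lit 5) (nat_lit 4) (nat_lit 4) (nat_lit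 467) (nat_lit 367) (nat_lit 366)) (XT.lf (nat_lit 0) (nat_lit 26749960943) (nat_lit 76) (nat_lit 43664785291) (nat_lit 76) (nat_lit 43575572361) (nat_lit 3) (nat_lit 4) (nat_lit 4) (nat_lit 5) (nat_lit 4) (nat_lit 4) (nat_lit 468) (nat_lit 367) (nat_lit 365))))) (XT.nd (nat_lit 234) (nat_lit 0) (nat_lit 0) (XT.nd (nat_lit 78) (nat_lit 0) (nat_lit 0) (XT.lf (nat_lit 0) (nat_lit 41911551388) (nat_lit 76) (nat_lit 40410462909) (nat_lit 76) (nat_lit 40281536245) (nat_lit 3) (nat_lit 4) (nat_lit 4) (nat_lit 5) (nat_lit 4) (nat_lit 4) (nat_lit 469) (nat_lit 367) (nat_lit 364)) (XT.nd (nat_lit 78) (nat_lit 0) (nat_lit 0) (XT.lf (nat_lit 0) (nat_lit 57685331649) (nat_lit 76) (nat_lit 37204775756) (nat_lit 76) (nat_lit 37039077116) (nat_lit 3) (nat_lit 4) (nat_lit 4) (nat_lit 5) (nat_lit 4) (nat_lit 4) (nat_lit 470) (nat_lit 367) (nat_lit 363)) (XT.lf (nat_lit 0) (nat_lit 74164775978) (nat_lit 76)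 (nat_lit 34028727167) (nat_lit 76) (nat_lit 33828980402) (nat_lit 3) (nat_lit 4) (nat_lit 4) (nat_lit 5) (nat_lit 4) (nat_lit 4) (nat_lit 471) (nat_lit 367) (nat_lit 362)))) (XT.nd (nat_lit 78) (nat_lit 0) (nat_lit 0) (XT.lf (nat_lit 0) (nat_lit 91447540342) (nat_lit 76) (nat_lit 30863496115) (nat_lit 76) (nat_lit 30632223308) (nat_lit 3) (nat_lit 4) (nat_lit 4) (nat_lit 5) (nat_lit 4) (nat_lit 4) (nat_lit 472) (nat_lit 367) (nat_lit 361)) (XT.nd (nat_lit 78) (nat_lit 0) (nat_lit 0) (XT.lf (nat_lit 0) (nat_lit 109636041122) (nat_lit 76) (nat_lit 27690325674) (nat_lit 76) (nat_lit 27429862087) (nat_lit 3) (nat_lit 4) (nat_lit 4) (nat_lit 5) (nat_lit 4) (nat_lit 4) (nat_lit 473) (nat_lit 367) (nat_lit 360)) (XT.lf (nat_lit 0) (nat_lit 128838062027) (nat_lit 76) (nat_lit 24490411870) (nat_lit 76) (nat_lit 24202919784) (nat_lit 3) (nat_lit 4) (nat_lit 4) (nat_lit 5) (nat_lit 4) (nat_lit 4)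 (nat_lit 474) (nat_lit 367) (nat_lit 359))))))) (XT.nd (nat_lit 936) (nat_lit 0) (nat_lit 0) (XT.nd (nat_lit 468) (nat_lit 152) (nat_lit 0) (XT.nd (nat_lit 234) (nat_lit 0) (nat_lit 0) (XT.nd (nat_lit 78) (nat_lit 0) (nat_lit 0) (XT.lf (nat_lit 0) (nat_lit 149167392810) (nat_lit 76) (nat_lit 21244792253) (nat_lit 76) (nat_lit 20932273778) (nat_lit 3) (nat_lit 4) (nat_lit 4) (nat_lit 5) (nat_lit 4) (nat_lit 4) (nat_lit 475) (nat_lit 367) (nat_lit 358)) (XT.nd (nat_lit 78) (nat_lit 0) (nat_lit 0) (XT.lf (nat_lit 0) (nat_lit 170744503580) (nat_lit 76) (nat_lit 17934233521) (nat_lit 76) (nat_lit 17598542464) (nat_lit 3) (nat_lit 4) (nat_lit 4) (nat_lit 5) (nat_lit 4) (nat_lit 4) (nat_lit 476) (nat_lit 367) (nat_lit 357)) (XT.lf (nat_lit 0) (nat_lit 193697258696) (nat_lit 76) (nat_lit 14539117547) (nat_lit 76) (nat_lit 14181970396) (nat_lit 3) (nat_lit 4) (nat_lit 4) (nat_lit 5) (nat_lit 4)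 (nat_lit 4) (nat_lit 477) (nat_lit 367) (nat_lit 356)))) (XT.nd (nat_lit 78) (nat_lit 0) (nat_lit 0) (XT.lf (nat_lit 0) (nat_lit 218161674485) (nat_lit 76) (nat_lit 11039325126) (nat_lit 76) (nat_lit 10662311221) (nat_lit 3) (nat_lit 4) (nat_lit 4) (nat_lit 5) (nat_lit 4) (nat_lit 4) (nat_lit 478) (nat_lit 367) (nat_lit 355)) (XT.nd (nat_lit 78) (nat_lit 0) (nat_lit 0) (XT.lf (nat_lit 0) (nat_lit 244282725264) (nat_lit 76) (nat_lit 7414116748) (nat_lit 76) (nat_lit 7018707700) (nat_lit 3) (nat_lit 4) (nat_lit 4) (nat_lit 5) (nat_lit 4) (nat_lit 4) (nat_lit 479) (nat_lit 367) (nat_lit 354)) (XT.lf (nat_lit 0) (nat_lit 272215202443) (nat_lit 76) (nat_lit 3642009696) (nat_lit 76) (nat_lit 3229568108) (nat_lit 3) (nat_lit 4) (nat_lit 4) (nat_lit 5) (nat_lit 4) (nat_lit 4) (nat_lit 480) (nat_lit 367) (nat_lit 353))))) (XT.nd (nat_lit 234) (nat_lit 0) (nat_lit 0) (XT.nd (nat_lit 78) (nat_lit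 0) (nat_lit 0) (XT.lf (nat_lit 0) (nat_lit 725038499) (nat_lit 152) (nat_lit 300040027239) (nat_lit 0) (nat_lit 328545483) (nat_lit 1) (nat_lit 5) (nat_lit 3) (nat_lit 4) (nat_lit 1) (nat_lit 4) (nat_lit 481) (nat_lit 367) (nat_lit 352)) (XT.nd (nat_lit 78) (nat_lit 0) (nat_lit 0) (XT.lf (nat_lit 0) (nat_lit 4980632786) (nat_lit 152) (nat_lit 315290299421) (nat_lit 0) (nat_lit 4570618790) (nat_lit 1) (nat_lit 5) (nat_lit 3) (nat_lit 4) (nat_lit 1) (nat_lit 4) (nat_lit 482) (nat_lit 367) (nat_lit 351)) (XT.lf (nat_lit 0) (nat_lit 9457916201) (nat_lit 152) (nat_lit 332005528654) (nat_lit 0) (nat_lit 9035382781) (nat_lit 1) (nat_lit 5) (nat_lit 3) (nat_lit 4) (nat_lit 1) (nat_lit 4) (nat_lit 483) (nat_lit 367) (nat_lit 350)))) (XT.nd (nat_lit 78) (nat_lit 0) (nat_lit 0) (XT.lf (nat_lit 0) (nat_lit 14183420796) (nat_lit 152) (nat_lit 350284768149) (nat_lit 0) (nat_lit 13749295315) (nat_lit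 1) (nat_lit 5) (nat_lit 3) (nat_lit 4) (nat_lit 1) (nat_lit 4) (nat_lit 484) (nat_lit 367) (nat_lit 349)) (XT.nd (nat_lit 78) (nat_lit 0) (nat_lit 0) (XT.lf (nat_lit 0) (nat_lit 19185149560) (nat_lit 152) (nat_lit 370236339325) (nat_lit 0) (nat_lit 18740290690) (nat_lit 1) (nat_lit 5) (nat_lit 3) (nat_lit 4) (nat_lit 1) (nat_lit 4) (nat_lit 485) (nat_lit 367) (nat_lit 348)) (XT.lf (nat_lit 0) (nat_lit 24492742368) (nat_lit 152) (nat_lit 391978473714) (nat_lit 0) (nat_lit 24037945175) (nat_lit 1) (nat_lit 5) (nat_lit 3) (nat_lit 4) (nat_lit 1) (nat_lit 4) (nat_lit 486) (nat_lit 367) (nat_lit 347)))))) (XT.nd (nat_lit 468) (nat_lit 0) (nat_lit 0) (XT.nd (nat_lit 234) (nat_lit 0) (nat_lit 0) (XT.nd (nat_lit 78) (nat_lit 0) (nat_lit 0) (XT.lf (nat_lit 0) (nat_lit 30137651622) (nat_lit 152) (nat_lit 415640013594) (nat_lit 0) (nat_lit 29673652277) (nat_lit 1) (nat_lit 5) (nat_lit 3) (nat_lit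 4) (nat_lit 1) (nat_lit 4) (nat_lit 487) (nat_lit 367) (nat_lit 346)) (XT.nd (nat_lit 78) (nat_lit 0) (nat_lit 0) (XT.lf (nat_lit 0) (nat_lit 36153328635) (nat_lit 152) (nat_lit 441361175499) (nat_lit 0) (nat_lit 35680808780) (nat_lit 1) (nat_lit 5) (nat_lit 3) (nat_lit 4) (nat_lit 1) (nat_lit 4) (nat_lit 488) (nat_lit 367) (nat_lit 345)) (XT.lf (nat_lit 0) (nat_lit 42575421864) (nat_lit 152) (nat_lit 469294381128) (nat_lit 0) (nat_lit 42095012648) (nat_lit 1) (nat_lit 5) (nat_lit 3) (nat_lit 4) (nat_lit 1) (nat_lit 4) (nat_lit 489) (nat_lit 367) (nat_lit 344)))) (XT.nd (nat_lit 78) (nat_lit 0) (nat_lit 0) (XT.lf (nat_lit 0) (nat_lit 49441988157) (nat_lit 152) (nat_lit 499605160588) (nat_lit 0) (nat_lit 48954273977) (nat_lit 1) (nat_lit 5) (nat_lit 3) (nat_lit 4) (nat_lit 1) (nat_lit 4) (nat_lit 490) (nat_lit 367) (nat_lit 343)) (XT.nd (nat_lit 78) (nat_lit 0) (nat_lit 0) (XT.lf (nat_lit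 0) (nat_lit 56793718279) (nat_lit 152) (nat_lit 532473133314) (nat_lit 0) (nat_lit 56299240243) (nat_lit 1) (nat_lit 5) (nat_lit 3) (nat_lit 4) (nat_lit 1) (nat_lit 4) (nat_lit 491) (nat_lit 367) (nat_lit 342)) (XT.lf (nat_lit 0) (nat_lit 64674178037) (nat_lit 152) (nat_lit 568093072478) (nat_lit 0) (nat_lit 64173437171) (nat_lit 1) (nat_lit 5) (nat_lit 3) (nat_lit 4) (nat_lit 1) (nat_lit 4) (nat_lit 492) (nat_lit 367) (nat_lit 341))))) (XT.nd (nat_lit 234) (nat_lit 0) (nat_lit 0) (XT.nd (nat_lit 78) (nat_lit 0) (nat_lit 0) (XT.lf (nat_lit 0) (nat_lit 73130066451) (nat_lit 152) (nat_lit 606676059200) (nat_lit 0) (nat_lit 72623526670) (nat_lit 1) (nat_lit 5) (nat_lit 3) (nat_lit 4) (nat_lit 1) (nat_lit 4) (nat_lit 493) (nat_lit 367) (nat_lit 340)) (XT.nd (nat_lit 78) (nat_lit 0) (nat_lit 0) (XT.lf (nat_lit 0) (nat_lit 82211492491) (nat_lit 152) (nat_lit 648450733401) (nat_lit 0) (nat_lit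 81699583343) (nat_lit 1) (nat_lit 5) (nat_lit 3) (nat_lit 4) (nat_lit 1) (nat_lit 4) (nat_lit 494) (nat_lit 367) (nat_lit 339)) (XT.lf (nat_lit 0) (nat_lit 91972272014) (nat_lit 152) (nat_lit 693664648706) (nat_lit 0) (nat_lit 91455391230) (nat_lit 1) (nat_lit 5) (nat_lit 3) (nat_lit 4) (nat_lit 1) (nat_lit 4) (nat_lit 495) (nat_lit 367) (nat_lit 338)))) (XT.nd (nat_lit 78) (nat_lit 0) (nat_lit 0) (XT.lf (nat_lit 0) (nat_lit 102470246677) (nat_lit 152) (nat_lit 742585739430) (nat_lit 0) (nat_lit 101948762526) (nat_lit 1) (nat_lit 5) (nat_lit 3) (nat_lit 4) (nat_lit 1) (nat_lit 4) (nat_lit 496) (nat_lit 367) (nat_lit 337)) (XT.nd (nat_lit 78) (nat_lit 0) (nat_lit 0) (XT.lf (nat_lit 0) (nat_lit 113767626699) (nat_lit 152) (nat_lit 795503908330) (nat_lit 0) (nat_lit 113241880172) (nat_lit 1) (nat_lit 5) (nat_lit 3) (nat_lit 4) (nat_lit 1) (nat_lit 4) (nat_lit 497) (nat_lit 367) (nat_lit 336))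 (XT.lf (nat_lit 0) (nat_lit 125931359519) (nat_lit 152) (nat_lit 852732744556) (nat_lit 0) (nat_lit 125401666347) (nat_lit 1) (nat_lit 5) (nat_lit 3) (nat_lit 4) (nat_lit 1) (nat_lit 4) (nat_lit 498) (nat_lit 367) (nat_lit 335))))))))
noncomputable def xc24 : XT := (XT.nd (nat_lit 1794) (nat_lit 0) (nat_lit 0) (XT.nd (nat_lit 858) (nat_lit 0) (nat_lit 0) (XT.nd (nat_lit 390) (nat_lit 0) (nat_lit 0) (XT.nd (nat_lit 156) (nat_lit 0) (nat_lit 0) (XT.nd (nat_lit 78) (nat_lit 0) (nat_lit 0) (XT.lf (nat_lit 0) (nat_lit 139033526515) (nat_lit 152) (nat_lit 914611381953) (nat_lit 0) (nat_lit 138500179042) (nat_lit 1) (nat_lit 5) (nat_lit 3) (nat_lit 4) (nat_lit 1) (nat_lit 4) (nat_lit 499) (nat_lit 367) (nat_lit 334)) (XT.lf (nat_lit 0) (nat_lit 153151770159) (nat_lit 152) (nat_lit 981506508743) (nat_lit 0) (nat_lit 152615039074) (nat_lit 1) (nat_lit 5) (nat_lit 3) (nat_lit 4) (nat_lit 1) (nat_lit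 4) (nat_lit 500) (nat_lit 367) (nat_lit 333))) (XT.nd (nat_lit 78) (nat_lit 0) (nat_lit 0) (XT.lf (nat_lit 0) (nat_lit 168369754117) (nat_lit 152) (nat_lit 1053814540490) (nat_lit 0) (nat_lit 167829890059) (nat_lit 1) (nat_lit 5) (nat_lit 3) (nat_lit 4) (nat_lit 1) (nat_lit 4) (nat_lit 501) (nat_lit 367) (nat_lit 332)) (XT.nd (nat_lit 78) (nat_lit 0) (nat_lit 0) (XT.lf (nat_lit 0) (nat_lit 184777659035) (nat_lit 152) (nat_lit 1131963969236) (nat_lit 0) (nat_lit 184234894074) (nat_lit 1) (nat_lit 5) (nat_lit 3) (nat_lit 4) (nat_lit 1) (nat_lit 4) (nat_lit 502) (nat_lit 367) (nat_lit 331)) (XT.lf (nat_lit 0) (nat_lit 202472716941) (nat_lit 152) (nat_lit 1216417902706) (nat_lit 0) (nat_lit 201927265961) (nat_lit 1) (nat_lit 5) (nat_lit 3) (nat_lit 4) (nat_lit 1) (nat_lit 4) (nat_lit 503) (nat_lit 367) (nat_lit 330))))) (XT.nd (nat_lit 234) (nat_lit 0) (nat_lit 0) (XT.nd (nat_lit 78) (nat_lit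 0) (nat_lit 0) (XT.lf (nat_lit 0) (nat_lit 221559787439) (nat_lit 152) (nat_lit 1307676808655) (nat_lit 0) (nat_lit 221011849402) (nat_lit 1) (nat_lit 5) (nat_lit 3) (nat_lit 4) (nat_lit 1) (nat_lit 4) (nat_lit 504) (nat_lit 367) (nat_lit 329)) (XT.nd (nat_lit 78) (nat_lit 0) (nat_lit 0) (XT.lf (nat_lit 0) (nat_lit 242151979093) (nat_lit 152) (nat_lit 1406281480598) (nat_lit 0) (nat_lit 241601738227) (nat_lit 1) (nat_lit 5) (nat_lit 3) (nat_lit 4) (nat_lit 1) (nat_lit 4) (nat_lit 505) (nat_lit 367) (nat_lit 328)) (XT.lf (nat_lit 0) (nat_lit 264371319707) (nat_lit 152) (nat_lit 1512816242517) (nat_lit 0) (nat_lit 263818946592) (nat_lit 1) (nat_lit 5) (nat_lit 3) (nat_lit 4) (nat_lit 1) (nat_lit 4) (nat_lit 506) (nat_lit 367) (nat_lit 327)))) (XT.nd (nat_lit 78) (nat_lit 0) (nat_lit 0) (XT.lf (nat_lit 0) (nat_lit 288349479447) (nat_lit 152) (nat_lit 1627912411522) (nat_lit 0) (nat_lit 287795132027)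 (nat_lit 1) (nat_lit 5) (nat_lit 3) (nat_lit 4) (nat_lit 1) (nat_lit 4) (nat_lit 507) (nat_lit 367) (nat_lit 326)) (XT.nd (nat_lit 78) (nat_lit 0) (nat_lit 0) (XT.lf (nat_lit 0) (nat_lit 314228551111) (nat_lit 152) (nat_lit 1752252038982) (nat_lit 0) (nat_lit 313672375631) (nat_lit 1) (nat_lit 5) (nat_lit 3) (nat_lit 4) (nat_lit 1) (nat_lit 4) (nat_lit 508) (nat_lit 367) (nat_lit 325)) (XT.lf (nat_lit 0) (nat_lit 342161892162) (nat_lit 152) (nat_lit 1886571952321) (nat_lit 0) (nat_lit 341604024033) (nat_lit 1) (nat_lit 5) (nat_lit 3) (nat_lit 4) (nat_lit 1) (nat_lit 4) (nat_lit 509) (nat_lit 367) (nat_lit 324)))))) (XT.nd (nat_lit 468) (nat_lit 0) (nat_lit 0) (XT.nd (nat_lit 234) (nat_lit 0) (nat_lit 0) (XT.nd (nat_lit 78) (nat_lit 0) (nat_lit 0) (XT.lf (nat_lit 0) (nat_lit 372315033508) (nat_lit 152) (nat_lit 2031668121395) (nat_lit 0) (nat_lit 371755598112) (nat_lit 1) (nat_lit 5) (nat_lit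 3) (nat_lit 4) (nat_lit 1) (nat_lit 4) (nat_lit 510) (nat_lit 367) (nat_lit 323)) (XT.nd (nat_lit 78) (nat_lit 0) (nat_lit 0) (XT.lf (nat_lit 0) (nat_lit 404866660433) (nat_lit 152) (nat_lit 2188400375354) (nat_lit 0) (nat_lit 404305773864) (nat_lit 1) (nat_lit 5) (nat_lit 3) (nat_lit 4) (nat_lit 1) (nat_lit 4) (nat_lit 511) (nat_lit 367) (nat_lit 322)) (XT.lf (nat_lit 0) (nat_lit 440009671466) (nat_lit 152) (nat_lit 2357697497925) (nat_lit 0) (nat_lit 439447441218) (nat_lit 1) (nat_lit 5) (nat_lit 3) (nat_lit 4) (nat_lit 1) (nat_lit 4) (nat_lit 512) (nat_lit 367) (nat_lit 321)))) (XT.nd (nat_lit 78) (nat_lit 0) (nat_lit 0) (XT.lf (nat_lit 0) (nat_lit 477952321487) (nat_lit 152) (nat_lit 2540562731317) (nat_lit 0) (nat_lit 477388847092) (nat_lit 1) (nat_lit 5) (nat_lit 3) (nat_lit 4) (nat_lit 1) (nat_lit 4) (nat_lit 513) (nat_lit 367) (nat_lit 320)) (XT.nd (nat_lit 78) (nat_lit 0) (nat_lit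 0) (XT.lf (nat_lit 0) (nat_lit 518919455830) (nat_lit 152) (nat_lit 2738079721356) (nat_lit 0) (nat_lit 518354829447) (nat_lit 1) (nat_lit 5) (nat_lit 3) (nat_lit 4) (nat_lit 1) (nat_lit 4) (nat_lit 514) (nat_lit 367) (nat_lit 319)) (XT.lf (nat_lit 0) (nat_lit 563153842698) (nat_lit 152) (nat_lit 2951418939095) (nat_lit 0) (nat_lit 562588149660) (nat_lit 1) (nat_lit 5) (nat_lit 3) (nat_lit 4) (nat_lit 1) (nat_lit 4) (nat_lit 515) (nat_lit 367) (nat_lit 318))))) (XT.nd (nat_lit 234) (nat_lit 0) (nat_lit 0) (XT.nd (nat_lit 78) (nat_lit 0) (nat_lit 0) (XT.lf (nat_lit 0) (nat_lit 610917611792) (nat_lit 152) (nat_lit 3181844616935) (nat_lit 0) (nat_lit 610350931109) (nat_lit 1) (nat_lit 5) (nat_lit 3) (nat_lit 4) (nat_lit 1) (nat_lit 4) (nat_lit 516) (nat_lit 367) (nat_lit 317)) (XT.nd (nat_lit 78) (nat_lit 0) (nat_lit 0) (XT.lf (nat_lit 0) (nat_lit 662493807668) (nat_lit 152) (nat_lit 3430722240374)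 (nat_lit 0) (nat_lit 661926212500) (nat_lit 1) (nat_lit 5) (nat_lit 3) (nat_lit 4) (nat_lit 1) (nat_lit 4) (nat_lit 517) (nat_lit 367) (nat_lit 316)) (XT.lf (nat_lit 0) (nat_lit 718188067043) (nat_lit 152) (nat_lit 3699526639774) (nat_lit 0) (nat_lit 717619625129) (nat_lit 1) (nat_lit 5) (nat_lit 3) (nat_lit 4) (nat_lit 1) (nat_lit 4) (nat_lit 518) (nat_lit 367) (nat_lit 315)))) (XT.nd (nat_lit 78) (nat_lit 0) (nat_lit 0) (XT.lf (nat_lit 0) (nat_lit 778330429973) (nat_lit 152) (nat_lit 3989850730094) (nat_lit 0) (nat_lit 777761204036) (nat_lit 1) (nat_lit 5) (nat_lit 3) (nat_lit 4) (nat_lit 1) (nat_lit 4) (nat_lit 519) (nat_lit 367) (nat_lit 314)) (XT.nd (nat_lit 78) (nat_lit 0) (nat_lit 0) (XT.lf (nat_lit 0) (nat_lit 843277295645) (nat_lit 152) (nat_lit 4303414950388) (nat_lit 0) (nat_lit 842707343760) (nat_lit 1) (nat_lit 5) (nat_lit 3) (nat_lit 4) (nat_lit 1) (nat_lit 4) (nat_lit 520)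 (nat_lit 367) (nat_lit 313)) (XT.lf (nat_lit 0) (nat_lit 913413534375) (nat_lit 152) (nat_lit 4642077458998) (nat_lit 0) (nat_lit 912842910316) (nat_lit 1) (nat_lit 5) (nat_lit 3) (nat_lit 4) (nat_lit 1) (nat_lit 4) (nat_lit 521) (nat_lit 367) (nat_lit 312))))))) (XT.nd (nat_lit 57954) (nat_lit 0) (nat_lit 152) (XT.nd (nat_lit 390) (nat_lit 0) (nat_lit 0) (XT.nd (nat_lit 156) (nat_lit 0) (nat_lit 0) (XT.nd (nat_lit 78) (nat_lit 0) (nat_lit 0) (XT.lf (nat_lit 0) (nat_lit 989154768318) (nat_lit 152) (nat_lit 5007845144864) (nat_lit 0) (nat_lit 988583521875) (nat_lit 1) (nat_lit 5) (nat_lit 3) (nat_lit 4) (nat_lit 1) (nat_lit 4) (nat_lit 522) (nat_lit 367) (nat_lit 311)) (XT.lf (nat_lit 0) (nat_lit 1070949834415) (nat_lit 152) (nat_lit 5402885520199) (nat_lit 0) (nat_lit 1070378011692) (nat_lit 1) (nat_lit 5) (nat_lit 3) (nat_lit 4) (nat_lit 1) (nat_lit 4) (nat_lit 523) (nat_lit 367) (nat_lit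 310))) (XT.nd (nat_lit 78) (nat_lit 0) (nat_lit 0) (XT.lf (nat_lit 0) (nat_lit 1159283444171) (nat_lit 152) (nat_lit 5829539565005) (nat_lit 0) (nat_lit 1158711087854) (nat_lit 1) (nat_lit 5) (nat_lit 3) (nat_lit 4) (nat_lit 1) (nat_lit 4) (nat_lit 524) (nat_lit 367) (nat_lit 309)) (XT.nd (nat_lit 78) (nat_lit 0) (nat_lit 0) (XT.lf (nat_lit 0) (nat_lit 1254679056011) (nat_lit 152) (nat_lit 6290335599546) (nat_lit 0) (nat_lit 1254106205627) (nat_lit 1) (nat_lit 5) (nat_lit 3) (nat_lit 4) (nat_lit 1) (nat_lit 4) (nat_lit 525) (nat_lit 367) (nat_lit 308)) (XT.lf (nat_lit 0) (nat_lit 1357701977268) (nat_lit 152) (nat_lit 6788004266992) (nat_lit 0) (nat_lit 1357128669413) (nat_lit 1) (nat_lit 5) (nat_lit 3) (nat_lit 4) (nat_lit 1) (nat_lit 4) (nat_lit 526) (nat_lit 367) (nat_lit 307))))) (XT.nd (nat_lit 234) (nat_lit 0) (nat_lit 0) (XT.nd (nat_lit 78) (nat_lit 0) (nat_lit 0) (XT.lf (nat_lit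 0) (nat_lit 1468962714139) (nat_lit 152) (nat_lit 7325494715000) (nat_lit 0) (nat_lit 1468388982701) (nat_lit 1) (nat_lit 5) (nat_lit 3) (nat_lit 4) (nat_lit 1) (nat_lit 4) (nat_lit 527) (nat_lit 367) (nat_lit 306)) (XT.nd (nat_lit 78) (nat_lit 0) (nat_lit 0) (XT.lf (nat_lit 0) (nat_lit 1589120589511) (nat_lit 152) (nat_lit 7905992072152) (nat_lit 0) (nat_lit 1588546465866) (nat_lit 1) (nat_lit 5) (nat_lit 3) (nat_lit 4) (nat_lit 1) (nat_lit 4) (nat_lit 528) (nat_lit 367) (nat_lit 305)) (XT.lf (nat_lit 0) (nat_lit 1718887650052) (nat_lit 152) (nat_lit 8532936322786) (nat_lit 0) (nat_lit 1718313163252) (nat_lit 1) (nat_lit 5) (nat_lit 3) (nat_lit 4) (nat_lit 1) (nat_lit 4) (nat_lit 529) (nat_lit 367) (nat_lit 304)))) (XT.nd (nat_lit 78) (nat_lit 0) (nat_lit 0) (XT.lf (nat_lit 0) (nat_lit 1859032885751) (nat_lit 152) (nat_lit 9210042692091) (nat_lit 0) (nat_lit 1858458062697) (nat_lit 1)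 (nat_lit 5) (nat_lit 3) (nat_lit 4) (nat_lit 1) (nat_lit 4) (nat_lit 530) (nat_lit 367) (nat_lit 303)) (XT.nd (nat_lit 78) (nat_lit 0) (nat_lit 0) (XT.lf (nat_lit 0) (nat_lit 2010386786893) (nat_lit 152) (nat_lit 9941323662256) (nat_lit 0) (nat_lit 2009811652492) (nat_lit 1) (nat_lit 5) (nat_lit 3) (nat_lit 4) (nat_lit 1) (nat_lit 4) (nat_lit 531) (nat_lit 367) (nat_lit 302)) (XT.lf (nat_lit 0) (nat_lit 2173846265485) (nat_lit 152) (nat_lit 10731112750141) (nat_lit 0) (nat_lit 2173270842800) (nat_lit 1) (nat_lit 5) (nat_lit 3) (nat_lit 4) (nat_lit 1) (nat_lit 4) (nat_lit 532) (nat_lit 367) (nat_lit 301)))))) (XT.nd (nat_lit 468) (nat_lit 0) (nat_lit 0) (XT.nd (nat_lit 234) (nat_lit 76) (nat_lit 0) (XT.nd (nat_lit 78) (nat_lit 0) (nat_lit 0) (XT.lf (nat_lit 0) (nat_lit 14487177730) (nat_lit 152) (nat_lit 13838840922) (nat_lit 0) (nat_lit 14487177730) (nat_lit 4) (nat_lit 5) (nat_lit 6) (nat_lit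 4) (nat_lit 4) (nat_lit 4) (nat_lit 464) (nat_lit 368) (nat_lit 368)) (XT.nd (nat_lit 78) (nat_lit 0) (nat_lit 0) (XT.lf (nat_lit 0) (nat_lit 38402877968) (nat_lit 152) (nat_lit 15147531212) (nat_lit 0) (nat_lit 38352850101) (nat_lit 4) (nat_lit 5) (nat_lit 6) (nat_lit 4) (nat_lit 4) (nat_lit 4) (nat_lit 465) (nat_lit 368) (nat_lit 367)) (XT.lf (nat_lit 0) (nat_lit 48236353240) (nat_lit 152) (nat_lit 2333868660) (nat_lit 0) (nat_lit 48140003275) (nat_lit 4) (nat_lit 5) (nat_lit 6) (nat_lit 4) (nat_lit 4) (nat_lit 4) (nat_lit 466) (nat_lit 368) (nat_lit 366)))) (XT.nd (nat_lit 78) (nat_lit 0) (nat_lit 0) (XT.lf (nat_lit 0) (nat_lit 11410013723) (nat_lit 76) (nat_lit 47397451104) (nat_lit 76) (nat_lit 47258210307) (nat_lit 3) (nat_lit 4) (nat_lit 4) (nat_lit 5) (nat_lit 4) (nat_lit 4) (nat_lit 467) (nat_lit 368) (nat_lit 365)) (XT.nd (nat_lit 78) (nat_lit 0) (nat_lit 0) (XT.lf (nat_lit 0)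 (nat_lit 25737339462) (nat_lit 76) (nat_lit 44235641072) (nat_lit 76) (nat_lit 44056686541) (nat_lit 3) (nat_lit 4) (nat_lit 4) (nat_lit 5) (nat_lit 4) (nat_lit 4) (nat_lit 468) (nat_lit 368) (nat_lit 364)) (XT.lf (nat_lit 0) (nat_lit 40610113840) (nat_lit 76) (nat_lit 41129867257) (nat_lit 76) (nat_lit 40914140751) (nat_lit 3) (nat_lit 4) (nat_lit 4) (nat_lit 5) (nat_lit 4) (nat_lit 4) (nat_lit 469) (nat_lit 368) (nat_lit 363))))) (XT.nd (nat_lit 234) (nat_lit 0) (nat_lit 0) (XT.nd (nat_lit 78) (nat_lit 0) (nat_lit 0) (XT.lf (nat_lit 0) (nat_lit 56116471816) (nat_lit 76) (nat_lit 38061725073) (nat_lit 76) (nat_lit 37811950442) (nat_lit 3) (nat_lit 4) (nat_lit 4) (nat_lit 5) (nat_lit 4) (nat_lit 4) (nat_lit 470) (nat_lit 368) (nat_lit 362)) (XT.nd (nat_lit 78) (nat_lit 0) (nat_lit 0) (XT.lf (nat_lit 0) (nat_lit 72348302919) (nat_lit 76) (nat_lit 35013032938) (nat_lit 76) (nat_lit 34731732265)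 (nat_lit 3) (nat_lit 4) (nat_lit 4) (nat_lit 5) (nat_lit 4) (nat_lit 4) (nat_lit 471) (nat_lit 368) (nat_lit 361)) (XT.lf (nat_lit 0) (nat_lit 89401795777) (nat_lit 76) (nat_lit 31965724528) (nat_lit 76) (nat_lit 31655233075) (nat_lit 3) (nat_lit 4) (nat_lit 4) (nat_lit 5) (nat_lit 4) (nat_lit 4) (nat_lit 472) (nat_lit 368) (nat_lit 360)))) (XT.nd (nat_lit 78) (nat_lit 0) (nat_lit 0) (XT.lf (nat_lit 0) (nat_lit 107378008125) (nat_lit 76) (nat_lit 28901741718) (nat_lit 76) (nat_lit 28564221765) (nat_lit 3) (nat_lit 4) (nat_lit 4) (nat_lit 5) (nat_lit 4) (nat_lit 4) (nat_lit 473) (nat_lit 368) (nat_lit 359)) (XT.nd (nat_lit 78) (nat_lit 0) (nat_lit 0) (XT.lf (nat_lit 0) (nat_lit 126383465668) (nat_lit 76) (nat_lit 25802927574) (nat_lit 76) (nat_lit 25440381232) (nat_lit 3) (nat_lit 4) (nat_lit 4) (nat_lit 5) (nat_lit 4) (nat_lit 4) (nat_lit 474) (nat_lit 368) (nat_lit 358)) (XT.lf (nat_lit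 0) (nat_lit 146530793337) (nat_lit 76) (nat_lit 22650918752) (nat_lit 76) (nat_lit 22265199828) (nat_lit 3) (nat_lit 4) (nat_lit 4) (nat_lit 5) (nat_lit 4) (nat_lit 4) (nat_lit 475) (nat_lit 368) (nat_lit 357))))))))
noncomputable def xc25 : XT := (XT.nd (nat_lit 1794) (nat_lit 0) (nat_lit 0) (XT.nd (nat_lit 858) (nat_lit 0) (nat_lit 0) (XT.nd (nat_lit 390) (nat_lit 152) (nat_lit 0) (XT.nd (nat_lit 156) (nat_lit 0) (nat_lit 0) (XT.nd (nat_lit 78) (nat_lit 0) (nat_lit 0) (XT.lf (nat_lit 0) (nat_lit 167939382705) (nat_lit 76) (nat_lit 19427036681) (nat_lit 76) (nat_lit 19019861664) (nat_lit 3) (nat_lit 4) (nat_lit 4) (nat_lit 5) (nat_lit 4) (nat_lit 4) (nat_lit 476) (nat_lit 368) (nat_lit 356)) (XT.lf (nat_lit 0) (nat_lit 190736099487) (nat_lit 76) (nat_lit 16112176876) (nat_lit 76) (nat_lit 15685135104) (nat_lit 3) (nat_lit 4) (nat_lit 4) (nat_lit 5) (nat_lit 4) (nat_lit 4) (nat_lit 477)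 (nat_lit 368) (nat_lit 355))) (XT.nd (nat_lit 78) (nat_lit 0) (nat_lit 0) (XT.lf (nat_lit 0) (nat_lit 215056035336) (nat_lit 76) (nat_lit 12686695723) (nat_lit 76) (nat_lit 12241258808) (nat_lit 3) (nat_lit 4) (nat_lit 4) (nat_lit 5) (nat_lit 4) (nat_lit 4) (nat_lit 478) (nat_lit 368) (nat_lit 354)) (XT.nd (nat_lit 78) (nat_lit 0) (nat_lit 0) (XT.lf (nat_lit 0) (nat_lit 241043308393) (nat_lit 76) (nat_lit 9130294074) (nat_lit 76) (nat_lit 8667824619) (nat_lit 3) (nat_lit 4) (nat_lit 4) (nat_lit 5) (nat_lit 4) (nat_lit 4) (nat_lit 479) (nat_lit 368) (nat_lit 353)) (XT.lf (nat_lit 0) (nat_lit 268851917311) (nat_lit 76) (nat_lit 5421896956) (nat_lit 76) (nat_lit 4943656632) (nat_lit 3) (nat_lit 4) (nat_lit 4) (nat_lit 5) (nat_lit 4) (nat_lit 4) (nat_lit 480) (nat_lit 368) (nat_lit 352))))) (XT.nd (nat_lit 234) (nat_lit 0) (nat_lit 0) (XT.nd (nat_lit 78) (nat_lit 152) (nat_lit 0) (XT.lf (nat_lit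 0) (nat_lit 298646653848) (nat_lit 76) (nat_lit 1539528682) (nat_lit 76) (nat_lit 1046685701) (nat_lit 3) (nat_lit 4) (nat_lit 4) (nat_lit 5) (nat_lit 4) (nat_lit 4) (nat_lit 481) (nat_lit 368) (nat_lit 351)) (XT.nd (nat_lit 78) (nat_lit 0) (nat_lit 0) (XT.lf (nat_lit 0) (nat_lit 3099972550) (nat_lit 152) (nat_lit 319264636376) (nat_lit 0) (nat_lit 2631117030) (nat_lit 1) (nat_lit 5) (nat_lit 3) (nat_lit 4) (nat_lit 1) (nat_lit 4) (nat_lit 482) (nat_lit 368) (nat_lit 350)) (XT.lf (nat_lit 0) (nat_lit 7524389862) (nat_lit 152) (nat_lit 336088900188) (nat_lit 0) (nat_lit 7043942283) (nat_lit 1) (nat_lit 5) (nat_lit 3) (nat_lit 4) (nat_lit 1) (nat_lit 4) (nat_lit 483) (nat_lit 368) (nat_lit 349)))) (XT.nd (nat_lit 78) (nat_lit 0) (nat_lit 0) (XT.lf (nat_lit 0) (nat_lit 12200944362) (nat_lit 152) (nat_lit 354469097625) (nat_lit 0) (nat_lit 11709763393) (nat_lit 1) (nat_lit 5) (nat_lit 3) (nat_lit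 4) (nat_lit 1) (nat_lit 4) (nat_lit 484) (nat_lit 368) (nat_lit 348)) (XT.nd (nat_lit 78) (nat_lit 0) (nat_lit 0) (XT.lf (nat_lit 0) (nat_lit 17157348964) (nat_lit 152) (nat_lit 374514148377) (nat_lit 0) (nat_lit 16656229672) (nat_lit 1) (nat_lit 5) (nat_lit 3) (nat_lit 4) (nat_lit 1) (nat_lit 4) (nat_lit 485) (nat_lit 368) (nat_lit 347)) (XT.lf (nat_lit 0) (nat_lit 22422974955) (nat_lit 152) (nat_lit 396342837930) (nat_lit 0) (nat_lit 21912653512) (nat_lit 1) (nat_lit 5) (nat_lit 3) (nat_lit 4) (nat_lit 1) (nat_lit 4) (nat_lit 486) (nat_lit 368) (nat_lit 346)))))) (XT.nd (nat_lit 468) (nat_lit 0) (nat_lit 0) (XT.nd (nat_lit 234) (nat_lit 0) (nat_lit 0) (XT.nd (nat_lit 78) (nat_lit 0) (nat_lit 0) (XT.lf (nat_lit 0) (nat_lit 28029026045) (nat_lit 152) (nat_lit 420084521481) (nat_lit 0) (nat_lit 27510184092) (nat_lit 1) (nat_lit 5) (nat_lit 3) (nat_lit 4) (nat_lit 1) (nat_lit 4) (nat_lit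 487) (nat_lit 368) (nat_lit 345)) (XT.nd (nat_lit 78) (nat_lit 0) (nat_lit 0) (XT.lf (nat_lit 0) (nat_lit 34008723276) (nat_lit 152) (nat_lit 445879890487) (nat_lit 0) (nat_lit 33481991962) (nat_lit 1) (nat_lit 5) (nat_lit 3) (nat_lit 4) (nat_lit 1) (nat_lit 4) (nat_lit 488) (nat_lit 368) (nat_lit 344)) (XT.lf (nat_lit 0) (nat_lit 40397501893) (nat_lit 152) (nat_lit 473881806396) (nat_lit 0) (nat_lit 39863465614) (nat_lit 1) (nat_lit 5) (nat_lit 3) (nat_lit 4) (nat_lit 1) (nat_lit 4) (nat_lit 489) (nat_lit 368) (nat_lit 343)))) (XT.nd (nat_lit 78) (nat_lit 0) (nat_lit 0) (XT.lf (nat_lit 0) (nat_lit 47233221323) (nat_lit 152) (nat_lit 504256206485) (nat_lit 0) (nat_lit 46692421189) (nat_lit 1) (nat_lit 5) (nat_lit 3) (nat_lit 4) (nat_lit 1) (nat_lit 4) (nat_lit 490) (nat_lit 368) (nat_lit 342)) (XT.nd (nat_lit 78) (nat_lit 0) (nat_lit 0) (XT.lf (nat_lit 0) (nat_lit 54556389535) (nat_lit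 152) (nat_lit 537183087202) (nat_lit 0) (nat_lit 54009326571) (nat_lit 1) (nat_lit 5) (nat_lit 3) (nat_lit 4) (nat_lit 1) (nat_lit 4) (nat_lit 491) (nat_lit 368) (nat_lit 341)) (XT.lf (nat_lit 0) (nat_lit 62410403079) (nat_lit 152) (nat_lit 572857570800) (nat_lit 0) (nat_lit 61857541199) (nat_lit 1) (nat_lit 5) (nat_lit 3) (nat_lit 4) (nat_lit 1) (nat_lit 4) (nat_lit 492) (nat_lit 368) (nat_lit 340))))) (XT.nd (nat_lit 234) (nat_lit 0) (nat_lit 0) (XT.nd (nat_lit 78) (nat_lit 0) (nat_lit 0) (XT.lf (nat_lit 0) (nat_lit 70841804259) (nat_lit 152) (nat_lit 611491061628) (nat_lit 0) (nat_lit 70283573012) (nat_lit 1) (nat_lit 5) (nat_lit 3) (nat_lit 4) (nat_lit 1) (nat_lit 4) (nat_lit 493) (nat_lit 368) (nat_lit 339)) (XT.nd (nat_lit 78) (nat_lit 0) (nat_lit 0) (XT.lf (nat_lit 0) (nat_lit 79900556933) (nat_lit 152) (nat_lit 653312498891) (nat_lit 0) (nat_lit 79337354050) (nat_lit 1) (nat_lit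 5) (nat_lit 3) (nat_lit 4) (nat_lit 1) (nat_lit 4) (nat_lit 494) (nat_lit 368) (nat_lit 338)) (XT.lf (nat_lit 0) (nat_lit 89640342600) (nat_lit 152) (nat_lit 698569713328) (nat_lit 0) (nat_lit 89072536350) (nat_lit 1) (nat_lit 5) (nat_lit 3) (nat_lit 4) (nat_lit 1) (nat_lit 4) (nat_lit 495) (nat_lit 368) (nat_lit 337)))) (XT.nd (nat_lit 78) (nat_lit 0) (nat_lit 0) (XT.lf (nat_lit 0) (nat_lit 100118878506) (nat_lit 152) (nat_lit 747530895840) (nat_lit 0) (nat_lit 99546809880) (nat_lit 1) (nat_lit 5) (nat_lit 3) (nat_lit 4) (nat_lit 1) (nat_lit 4) (nat_lit 496) (nat_lit 368) (nat_lit 336)) (XT.nd (nat_lit 78) (nat_lit 0) (nat_lit 0) (XT.lf (nat_lit 0) (nat_lit 111398259680) (nat_lit 152) (nat_lit 800486186766) (nat_lit 0) (nat_lit 110822244409) (nat_lit 1) (nat_lit 5) (nat_lit 3) (nat_lit 4) (nat_lit 1) (nat_lit 4) (nat_lit 497) (nat_lit 368) (nat_lit 335)) (XT.lf (nat_lit 0) (nat_lit 123545326899)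 (nat_lit 152) (nat_lit 857749395239) (nat_lit 0) (nat_lit 122965657328) (nat_lit 1) (nat_lit 5) (nat_lit 3) (nat_lit 4) (nat_lit 1) (nat_lit 4) (nat_lit 498) (nat_lit 368) (nat_lit 334))))))) (XT.nd (nat_lit 936) (nat_lit 0) (nat_lit 0) (XT.nd (nat_lit 468) (nat_lit 0) (nat_lit 0) (XT.nd (nat_lit 234) (nat_lit 0) (nat_lit 0) (XT.nd (nat_lit 78) (nat_lit 0) (nat_lit 0) (XT.lf (nat_lit 0) (nat_lit 136632062784) (nat_lit 152) (nat_lit 919659858790) (nat_lit 0) (nat_lit 136049009601) (nat_lit 1) (nat_lit 5) (nat_lit 3) (nat_lit 4) (nat_lit 1) (nat_lit 4) (nat_lit 499) (nat_lit 368) (nat_lit 333)) (XT.nd (nat_lit 78) (nat_lit 0) (nat_lit 0) (XT.lf (nat_lit 0) (nat_lit 150736018362) (nat_lit 152) (nat_lit 986584454240) (nat_lit 0) (nat_lit 150149832205) (nat_lit 1) (nat_lit 5) (nat_lit 3) (nat_lit 4) (nat_lit 1) (nat_lit 4) (nat_lit 500) (nat_lit 368) (nat_lit 332)) (XT.lf (nat_lit 0) (nat_lit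 165940772629) (nat_lit 152) (nat_lit 1058919771785) (nat_lit 0) (nat_lit 165351685570) (nat_lit 1) (nat_lit 5) (nat_lit 3) (nat_lit 4) (nat_lit 1) (nat_lit 4) (nat_lit 501) (nat_lit 368) (nat_lit 331)))) (XT.nd (nat_lit 78) (nat_lit 0) (nat_lit 0) (XT.lf (nat_lit 0) (nat_lit 182336427833) (nat_lit 152) (nat_lit 1137094465158) (nat_lit 0) (nat_lit 181744654754) (nat_lit 1) (nat_lit 5) (nat_lit 3) (nat_lit 4) (nat_lit 1) (nat_lit 4) (nat_lit 502) (nat_lit 368) (nat_lit 330)) (XT.nd (nat_lit 78) (nat_lit 0) (nat_lit 0) (XT.lf (nat_lit 0) (nat_lit 200020143412) (nat_lit 152) (nat_lit 1221571791802) (nat_lit 0) (nat_lit 199425883277) (nat_lit 1) (nat_lit 5) (nat_lit 3) (nat_lit 4) (nat_lit 1) (nat_lit 4) (nat_lit 503) (nat_lit 368) (nat_lit 329)) (XT.lf (nat_lit 0) (nat_lit 219096711754) (nat_lit 152) (nat_lit 1312852358096) (nat_lit 0) (nat_lit 218500148790) (nat_lit 1) (nat_lit 5) (nat_lit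 3) (nat_lit 4) (nat_lit 1) (nat_lit 4) (nat_lit 504) (nat_lit 368) (nat_lit 328))))) (XT.nd (nat_lit 234) (nat_lit 0) (nat_lit 0) (XT.nd (nat_lit 78) (nat_lit 0) (nat_lit 0) (XT.lf (nat_lit 0) (nat_lit 239679179191) (nat_lit 152) (nat_lit 1411477085914) (nat_lit 0) (nat_lit 239080483977) (nat_lit 1) (nat_lit 5) (nat_lit 3) (nat_lit 4) (nat_lit 1) (nat_lit 4) (nat_lit 505) (nat_lit 368) (nat_lit 327)) (XT.nd (nat_lit 78) (nat_lit 0) (nat_lit 0) (XT.lf (nat_lit 0) (nat_lit 261889515899) (nat_lit 152) (nat_lit 1518030418089) (nat_lit 0) (nat_lit 261288846380) (nat_lit 1) (nat_lit 5) (nat_lit 3) (nat_lit 4) (nat_lit 1) (nat_lit 4) (nat_lit 506) (nat_lit 368) (nat_lit 326)) (XT.lf (nat_lit 0) (nat_lit 285859338690) (nat_lit 152) (nat_lit 1633143781774) (nat_lit 0) (nat_lit 285256841110) (nat_lit 1) (nat_lit 5) (nat_lit 3) (nat_lit 4) (nat_lit 1) (nat_lit 4) (nat_lit 507) (nat_lit 368) (nat_lit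 325)))) (XT.nd (nat_lit 78) (nat_lit 0) (nat_lit 0) (XT.lf (nat_lit 0) (nat_lit 311730690957) (nat_lit 152) (nat_lit 1757499330236) (nat_lit 0) (nat_lit 311126500729) (nat_lit 1) (nat_lit 5) (nat_lit 3) (nat_lit 4) (nat_lit 1) (nat_lit 4) (nat_lit 508) (nat_lit 368) (nat_lit 324)) (XT.nd (nat_lit 78) (nat_lit 0) (nat_lit 0) (XT.lf (nat_lit 0) (nat_lit 339656884417) (nat_lit 152) (nat_lit 1891833985242) (nat_lit 0) (nat_lit 339051126922) (nat_lit 1) (nat_lit 5) (nat_lit 3) (nat_lit 4) (nat_lit 1) (nat_lit 4) (nat_lit 509) (nat_lit 368) (nat_lit 323)) (XT.lf (nat_lit 0) (nat_lit 369803407624) (nat_lit 152) (nat_lit 2036943804007) (nat_lit 0) (nat_lit 369196198956) (nat_lit 1) (nat_lit 5) (nat_lit 3) (nat_lit 4) (nat_lit 1) (nat_lit 4) (nat_lit 510) (nat_lit 368) (nat_lit 322)))))) (XT.nd (nat_lit 468) (nat_lit 0) (nat_lit 0) (XT.nd (nat_lit 234) (nat_lit 0) (nat_lit 0) (XT.nd (nat_lit 78)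 (nat_lit 0) (nat_lit 0) (XT.lf (nat_lit 0) (nat_lit 402348906642) (nat_lit 152) (nat_lit 2193688696570) (nat_lit 0) (nat_lit 401740354296) (nat_lit 1) (nat_lit 5) (nat_lit 3) (nat_lit 4) (nat_lit 1) (nat_lit 4) (nat_lit 511) (nat_lit 368) (nat_lit 321)) (XT.nd (nat_lit 78) (nat_lit 0) (nat_lit 0) (XT.lf (nat_lit 0) (nat_lit 437486243687) (nat_lit 152) (nat_lit 2362997521552) (nat_lit 0) (nat_lit 436876447194) (nat_lit 1) (nat_lit 5) (nat_lit 3) (nat_lit 4) (nat_lit 1) (nat_lit 4) (nat_lit 512) (nat_lit 368) (nat_lit 320)) (XT.lf (nat_lit 0) (nat_lit 475423640016) (nat_lit 152) (nat_lit 2545873590509) (nat_lit 0) (nat_lit 474812691535) (nat_lit 1) (nat_lit 5) (nat_lit 3) (nat_lit 4) (nat_lit 1) (nat_lit 4) (nat_lit 513) (nat_lit 368) (nat_lit 319)))) (XT.nd (nat_lit 78) (nat_lit 0) (nat_lit 0) (XT.lf (nat_lit 0) (nat_lit 516385909829) (nat_lit 152) (nat_lit 2743400613479) (nat_lit 0) (nat_lit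 515773894692) (nat_lit 1) (nat_lit 5) (nat_lit 3) (nat_lit 4) (nat_lit 1) (nat_lit 4) (nat_lit 514) (nat_lit 368) (nat_lit 318)) (XT.nd (nat_lit 78) (nat_lit 0) (nat_lit 0) (XT.lf (nat_lit 0) (nat_lit 560615792503) (nat_lit 152) (nat_lit 2956749120969) (nat_lit 0) (nat_lit 560002789722) (nat_lit 1) (nat_lit 5) (nat_lit 3) (nat_lit 4) (nat_lit 1) (nat_lit 4) (nat_lit 515) (nat_lit 368) (nat_lit 317)) (XT.lf (nat_lit 0) (nat_lit 608375391046) (nat_lit 152) (nat_lit 3187183400431) (nat_lit 0) (nat_lit 607761473779) (nat_lit 1) (nat_lit 5) (nat_lit 3) (nat_lit 4) (nat_lit 1) (nat_lit 4) (nat_lit 516) (nat_lit 368) (nat_lit 316))))) (XT.nd (nat_lit 234) (nat_lit 0) (nat_lit 0) (XT.nd (nat_lit 78) (nat_lit 0) (nat_lit 0) (XT.lf (nat_lit 0) (nat_lit 659947725302) (nat_lit 152) (nat_lit 3436068988334) (nat_lit 0) (nat_lit 659332961289) (nat_lit 1) (nat_lit 5) (nat_lit 3) (nat_lit 4) (nat_lit 1)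 (nat_lit 4) (nat_lit 517) (nat_lit 368) (nat_lit 315)) (XT.nd (nat_lit 78) (nat_lit 0) (nat_lit 0) (XT.lf (nat_lit 0) (nat_lit 715638409102) (nat_lit 152) (nat_lit 3704880762238) (nat_lit 0) (nat_lit 715022861066) (nat_lit 1) (nat_lit 5) (nat_lit 3) (nat_lit 4) (nat_lit 1) (nat_lit 4) (nat_lit 518) (nat_lit 368) (nat_lit 314)) (XT.lf (nat_lit 0) (nat_lit 775777461315) (nat_lit 152) (nat_lit 3995211680803) (nat_lit 0) (nat_lit 775161187331) (nat_lit 1) (nat_lit 5) (nat_lit 3) (nat_lit 4) (nat_lit 1) (nat_lit 4) (nat_lit 519) (nat_lit 368) (nat_lit 313)))) (XT.nd (nat_lit 78) (nat_lit 0) (nat_lit 0) (XT.lf (nat_lit 0) (nat_lit 840721261508) (nat_lit 152) (nat_lit 4308782223545) (nat_lit 0) (nat_lit 840104315350) (nat_lit 1) (nat_lit 5) (nat_lit 3) (nat_lit 4) (nat_lit 1) (nat_lit 4) (nat_lit 520) (nat_lit 368) (nat_lit 312)) (XT.nd (nat_lit 78) (nat_lit 0) (nat_lit 0) (XT.lf (nat_lit 0) (nat_lit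 910854661831) (nat_lit 152) (nat_lit 4647450586274) (nat_lit 0) (nat_lit 910237093290) (nat_lit 1) (nat_lit 5) (nat_lit 3) (nat_lit 4) (nat_lit 1) (nat_lit 4) (nat_lit 521) (nat_lit 368) (nat_lit 311)) (XT.lf (nat_lit 0) (nat_lit 986593267620) (nat_lit 152) (nat_lit 5013223692620) (nat_lit 0) (nat_lit 985975122798) (nat_lit 1) (nat_lit 5) (nat_lit 3) (nat_lit 4) (nat_lit 1) (nat_lit 4) (nat_lit 522) (nat_lit 368) (nat_lit 310))))))))
noncomputable def xc26 : XT := (XT.nd (nat_lit 58812) (nat_lit 0) (nat_lit 0) (XT.nd (nat_lit 57876) (nat_lit 0) (nat_lit 152) (XT.nd (nat_lit 390) (nat_lit 0) (nat_lit 0) (XT.nd (nat_lit 156) (nat_lit 0) (nat_lit 0) (XT.nd (nat_lit 78) (nat_lit 0) (nat_lit 0) (XT.lf (nat_lit 0) (nat_lit 1068385900242) (nat_lit 152) (nat_lit 5408269086919) (nat_lit 0) (nat_lit 1067767221826) (nat_lit 1) (nat_lit 5) (nat_lit 3) (nat_lit 4) (nat_lit 1) (nat_lit 4) (nat_lit 523)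 (nat_lit 368) (nat_lit 309)) (XT.lf (nat_lit 0) (nat_lit 1156717256778) (nat_lit 152) (nat_lit 5834927778912) (nat_lit 0) (nat_lit 1156098084295) (nat_lit 1) (nat_lit 5) (nat_lit 3) (nat_lit 4) (nat_lit 1) (nat_lit 4) (nat_lit 524) (nat_lit 368) (nat_lit 308))) (XT.nd (nat_lit 78) (nat_lit 0) (nat_lit 0) (XT.lf (nat_lit 0) (nat_lit 1252110782306) (nat_lit 152) (nat_lit 6295728116406) (nat_lit 0) (nat_lit 1251491152352) (nat_lit 1) (nat_lit 5) (nat_lit 3) (nat_lit 4) (nat_lit 1) (nat_lit 4) (nat_lit 525) (nat_lit 368) (nat_lit 307)) (XT.nd (nat_lit 78) (nat_lit 0) (nat_lit 0) (XT.lf (nat_lit 0) (nat_lit 1355131771790) (nat_lit 152) (nat_lit 6793400768067) (nat_lit 0) (nat_lit 1354511718253) (nat_lit 1) (nat_lit 5) (nat_lit 3) (nat_lit 4) (nat_lit 1) (nat_lit 4) (nat_lit 526) (nat_lit 368) (nat_lit 306)) (XT.lf (nat_lit 0) (nat_lit 1466390719984) (nat_lit 152) (nat_lit 7330894905163) (nat_lit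 0) (nat_lit 1465770274240) (nat_lit 1) (nat_lit 5) (nat_lit 3) (nat_lit 4) (nat_lit 1) (nat_lit 4) (nat_lit 527) (nat_lit 368) (nat_lit 305))))) (XT.nd (nat_lit 234) (nat_lit 0) (nat_lit 0) (XT.nd (nat_lit 78) (nat_lit 0) (nat_lit 0) (XT.lf (nat_lit 0) (nat_lit 1586546939173) (nat_lit 152) (nat_lit 7911395678137) (nat_lit 0) (nat_lit 1585926130274) (nat_lit 1) (nat_lit 5) (nat_lit 3) (nat_lit 4) (nat_lit 1) (nat_lit 4) (nat_lit 528) (nat_lit 368) (nat_lit 304)) (XT.nd (nat_lit 78) (nat_lit 0) (nat_lit 0) (XT.lf (nat_lit 0) (nat_lit 1716312466211) (nat_lit 152) (nat_lit 8538343091569) (nat_lit 0) (nat_lit 1715691321058) (nat_lit 1) (nat_lit 5) (nat_lit 3) (nat_lit 4) (nat_lit 1) (nat_lit 4) (nat_lit 529) (nat_lit 368) (nat_lit 303)) (XT.lf (nat_lit 0) (nat_lit 1856456282000) (nat_lit 152) (nat_lit 9215452389392) (nat_lit 0) (nat_lit 1855834825501) (nat_lit 1) (nat_lit 5) (nat_lit 3) (nat_lit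 4) (nat_lit 1) (nat_lit 4) (nat_lit 530) (nat_lit 368) (nat_lit 302)))) (XT.nd (nat_lit 57096) (nat_lit 0) (nat_lit 228) (XT.lf (nat_lit 0) (nat_lit 2007808868411) (nat_lit 152) (nat_lit 9946736071146) (nat_lit 0) (nat_lit 2007187123627) (nat_lit 1) (nat_lit 5) (nat_lit 3) (nat_lit 4) (nat_lit 1) (nat_lit 4) (nat_lit 531) (nat_lit 368) (nat_lit 301)) (XT.nd (nat_lit 78) (nat_lit 0) (nat_lit 0) (XT.lf (nat_lit 0) (nat_lit 5680334764) (nat_lit 152) (nat_lit 25890040599) (nat_lit 0) (nat_lit 5680334764) (nat_lit 4) (nat_lit 5) (nat_lit 6) (nat_lit 4) (nat_lit 4) (nat_lit 4) (nat_lit 462) (nat_lit 369) (nat_lit 369)) (XT.lf (nat_lit 0) (nat_lit 19948943088) (nat_lit 152) (nat_lit 39998573300) (nat_lit 0) (nat_lit 19894912992) (nat_lit 4) (nat_lit 5) (nat_lit 6) (nat_lit 4) (nat_lit 4) (nat_lit 4) (nat_lit 463) (nat_lit 369) (nat_lit 368)))))) (XT.nd (nat_lit 468) (nat_lit 0) (nat_lit 0) (XT.nd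 (nat_lit 234) (nat_lit 76) (nat_lit 0) (XT.nd (nat_lit 78) (nat_lit 0) (nat_lit 0) (XT.lf (nat_lit 0) (nat_lit 28847003172) (nat_lit 152) (nat_lit 28050956912) (nat_lit 0) (nat_lit 28742945210) (nat_lit 4) (nat_lit 5) (nat_lit 6) (nat_lit 4) (nat_lit 4) (nat_lit 4) (nat_lit 464) (nat_lit 369) (nat_lit 367)) (XT.nd (nat_lit 78) (nat_lit 0) (nat_lit 0) (XT.lf (nat_lit 0) (nat_lit 38107579028) (nat_lit 152) (nat_lit 15866431343) (nat_lit 0) (nat_lit 37957198967) (nat_lit 4) (nat_lit 5) (nat_lit 6) (nat_lit 4) (nat_lit 4) (nat_lit 4) (nat_lit 465) (nat_lit 369) (nat_lit 366)) (XT.lf (nat_lit 0) (nat_lit 47785548141) (nat_lit 152) (nat_lit 3372791997) (nat_lit 0) (nat_lit 47592277248) (nat_lit 4) (nat_lit 5) (nat_lit 6) (nat_lit 4) (nat_lit 4) (nat_lit 4) (nat_lit 466) (nat_lit 369) (nat_lit 365)))) (XT.nd (nat_lit 78) (nat_lit 0) (nat_lit 0) (XT.lf (nat_lit 0) (nat_lit 10004461171) (nat_lit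 76) (nat_lit 48174407800) (nat_lit 76) (nat_lit 47941423173) (nat_lit 3) (nat_lit 4) (nat_lit 4) (nat_lit 5) (nat_lit 4) (nat_lit 4) (nat_lit 467) (nat_lit 369) (nat_lit 364)) (XT.nd (nat_lit 78) (nat_lit 0) (nat_lit 0) (XT.lf (nat_lit 0) (nat_lit 24042970843) (nat_lit 76) (nat_lit 45161146335) (nat_lit 76) (nat_lit 44891389733) (nat_lit 3) (nat_lit 4) (nat_lit 4) (nat_lit 5) (nat_lit 4) (nat_lit 4) (nat_lit 468) (nat_lit 369) (nat_lit 363)) (XT.lf (nat_lit 0) (nat_lit 38648322936) (nat_lit 76) (nat_lit 42192917489) (nat_lit 76) (nat_lit 41889112762) (nat_lit 3) (nat_lit 4) (nat_lit 4) (nat_lit 5) (nat_lit 4) (nat_lit 4) (nat_lit 469) (nat_lit 369) (nat_lit 362))))) (XT.nd (nat_lit 234) (nat_lit 0) (nat_lit 0) (XT.nd (nat_lit 78) (nat_lit 0) (nat_lit 0) (XT.lf (nat_lit 0) (nat_lit 53907067686) (nat_lit 76) (nat_lit 39252131759) (nat_lit 76) (nat_lit 38916800990) (nat_lit 3) (nat_lit 4)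 (nat_lit 4) (nat_lit 5) (nat_lit 4) (nat_lit 4) (nat_lit 470) (nat_lit 369) (nat_lit 361)) (XT.nd (nat_lit 78) (nat_lit 0) (nat_lit 0) (XT.lf (nat_lit 0) (nat_lit 69909627282) (nat_lit 76) (nat_lit 36321362266) (nat_lit 76) (nat_lit 35956840717) (nat_lit 3) (nat_lit 4) (nat_lit 4) (nat_lit 5) (nat_lit 4) (nat_lit 4) (nat_lit 471) (nat_lit 369) (nat_lit 360)) (XT.lf (nat_lit 0) (nat_lit 86750831708) (nat_lit 76) (nat_lit 33383241487) (nat_lit 76) (nat_lit 32991691439) (nat_lit 3) (nat_lit 4) (nat_lit 4) (nat_lit 5) (nat_lit 4) (nat_lit 4) (nat_lit 472) (nat_lit 369) (nat_lit 359)))) (XT.nd (nat_lit 78) (nat_lit 0) (nat_lit 0) (XT.lf (nat_lit 0) (nat_lit 104530480694) (nat_lit 76) (nat_lit 30420358336) (nat_lit 76) (nat_lit 30003781899) (nat_lit 3) (nat_lit 4) (nat_lit 4) (nat_lit 5) (nat_lit 4) (nat_lit 4) (nat_lit 473) (nat_lit 369) (nat_lit 358)) (XT.nd (nat_lit 78) (nat_lit 0) (nat_lit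 0) (XT.lf (nat_lit 0) (nat_lit 123353935123) (nat_lit 76) (nat_lit 27415154987) (nat_lit 76) (nat_lit 26975405968) (nat_lit 3) (nat_lit 4) (nat_lit 4) (nat_lit 5) (nat_lit 4) (nat_lit 4) (nat_lit 474) (nat_lit 369) (nat_lit 357)) (XT.lf (nat_lit 0) (nat_lit 143332741391) (nat_lit 76) (nat_lit 24349822827) (nat_lit 76) (nat_lit 23888617714) (nat_lit 3) (nat_lit 4) (nat_lit 4) (nat_lit 5) (nat_lit 4) (nat_lit 4) (nat_lit 475) (nat_lit 369) (nat_lit 356))))))) (XT.nd (nat_lit 936) (nat_lit 0) (nat_lit 0) (XT.nd (nat_lit 468) (nat_lit 152) (nat_lit 0) (XT.nd (nat_lit 234) (nat_lit 0) (nat_lit 0) (XT.nd (nat_lit 78) (nat_lit 0) (nat_lit 0) (XT.lf (nat_lit 0) (nat_lit 164585292424) (nat_lit 76) (nat_lit 21206196926) (nat_lit 76) (nat_lit 20725125058) (nat_lit 3) (nat_lit 4) (nat_lit 4) (nat_lit 5) (nat_lit 4) (nat_lit 4) (nat_lit 476) (nat_lit 369) (nat_lit 355)) (XT.nd (nat_lit 78) (nat_lit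 0) (nat_lit 0) (XT.lf (nat_lit 0) (nat_lit 187237529266) (nat_lit 76) (nat_lit 17965648388) (nat_lit 76) (nat_lit 17466181378) (nat_lit 3) (nat_lit 4) (nat_lit 4) (nat_lit 5) (nat_lit 4) (nat_lit 4) (nat_lit 477) (nat_lit 369) (nat_lit 354)) (XT.lf (nat_lit 0) (nat_lit 211423687394) (nat_lit 76) (nat_lit 14608973964) (nat_lit 76) (nat_lit 14092474414) (nat_lit 3) (nat_lit 4) (nat_lit 4) (nat_lit 5) (nat_lit 4) (nat_lit 4) (nat_lit 478) (nat_lit 369) (nat_lit 353)))) (XT.nd (nat_lit 78) (nat_lit 0) (nat_lit 0) (XT.lf (nat_lit 0) (nat_lit 237287092190) (nat_lit 76) (nat_lit 11116282249) (nat_lit 76) (nat_lit 10584011829) (nat_lit 3) (nat_lit 4) (nat_lit 4) (nat_lit 5) (nat_lit 4) (nat_lit 4) (nat_lit 479) (nat_lit 369) (nat_lit 352)) (XT.nd (nat_lit 78) (nat_lit 0) (nat_lit 0) (XT.lf (nat_lit 0) (nat_lit 264981008274) (nat_lit 76) (nat_lit 7466875811) (nat_lit 76) (nat_lit 6920002733) (nat_lit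 3) (nat_lit 4) (nat_lit 4) (nat_lit 5) (nat_lit 4) (nat_lit 4) (nat_lit 480) (nat_lit 369) (nat_lit 351)) (XT.lf (nat_lit 0) (nat_lit 294669547743) (nat_lit 76) (nat_lit 3639128537) (nat_lit 76) (nat_lit 3078734481) (nat_lit 3) (nat_lit 4) (nat_lit 4) (nat_lit 5) (nat_lit 4) (nat_lit 4) (nat_lit 481) (nat_lit 369) (nat_lit 350))))) (XT.nd (nat_lit 234) (nat_lit 0) (nat_lit 0) (XT.nd (nat_lit 78) (nat_lit 0) (nat_lit 0) (XT.lf (nat_lit 0) (nat_lit 958898001) (nat_lit 152) (nat_lit 323783712211) (nat_lit 0) (nat_lit 428422555) (nat_lit 1) (nat_lit 5) (nat_lit 3) (nat_lit 4) (nat_lit 1) (nat_lit 4) (nat_lit 482) (nat_lit 369) (nat_lit 349)) (XT.nd (nat_lit 78) (nat_lit 0) (nat_lit 0) (XT.lf (nat_lit 0) (nat_lit 5334365218) (nat_lit 152) (nat_lit 340708933965) (nat_lit 0) (nat_lit 4793156383) (nat_lit 1) (nat_lit 5) (nat_lit 3) (nat_lit 4) (nat_lit 1) (nat_lit 4) (nat_lit 483) (nat_lit 369)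 (nat_lit 348)) (XT.lf (nat_lit 0) (nat_lit 9965595556) (nat_lit 152) (nat_lit 359182610979) (nat_lit 0) (nat_lit 9414448397) (nat_lit 1) (nat_lit 5) (nat_lit 3) (nat_lit 4) (nat_lit 1) (nat_lit 4) (nat_lit 484) (nat_lit 369) (nat_lit 347)))) (XT.nd (nat_lit 78) (nat_lit 0) (nat_lit 0) (XT.lf (nat_lit 0) (nat_lit 14880033341) (nat_lit 152) (nat_lit 379314216895) (nat_lit 0) (nat_lit 14319684031) (nat_lit 1) (nat_lit 5) (nat_lit 3) (nat_lit 4) (nat_lit 1) (nat_lit 4) (nat_lit 485) (nat_lit 369) (nat_lit 346)) (XT.nd (nat_lit 78) (nat_lit 0) (nat_lit 0) (XT.lf (nat_lit 0) (nat_lit 20106801168) (nat_lit 152) (nat_lit 401223050118) (nat_lit 0) (nat_lit 19537931348) (nat_lit 1) (nat_lit 5) (nat_lit 3) (nat_lit 4) (nat_lit 1) (nat_lit 4) (nat_lit 486) (nat_lit 369) (nat_lit 345)) (XT.lf (nat_lit 0) (nat_lit 25676872476) (nat_lit 152) (nat_lit 425038940770) (nat_lit 0) (nat_lit 25100113295) (nat_lit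 1) (nat_lit 5) (nat_lit 3) (nat_lit 4) (nat_lit 1) (nat_lit 4) (nat_lit 487) (nat_lit 369) (nat_lit 344)))))) (XT.nd (nat_lit 468) (nat_lit 0) (nat_lit 0) (XT.nd (nat_lit 234) (nat_lit 0) (nat_lit 0) (XT.nd (nat_lit 78) (nat_lit 0) (nat_lit 0) (XT.lf (nat_lit 0) (nat_lit 31623255096) (nat_lit 152) (nat_lit 450903020056) (nat_lit 0) (nat_lit 31039190950) (nat_lit 1) (nat_lit 5) (nat_lit 3) (nat_lit 4) (nat_lit 1) (nat_lit 4) (nat_lit 488) (nat_lit 369) (nat_lit 343)) (XT.nd (nat_lit 78) (nat_lit 0) (nat_lit 0) (XT.lf (nat_lit 0) (nat_lit 37981186849) (nat_lit 152) (nat_lit 478968556594) (nat_lit 0) (nat_lit 37390358848) (nat_lit 1) (nat_lit 5) (nat_lit 3) (nat_lit 4) (nat_lit 1) (nat_lit 4) (nat_lit 489) (nat_lit 369) (nat_lit 342)) (XT.lf (nat_lit 0) (nat_lit 44788344369) (nat_lit 152) (nat_lit 509401864673) (nat_lit 0) (nat_lit 44191253539) (nat_lit 1) (nat_lit 5) (nat_lit 3) (nat_lit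 4) (nat_lit 1) (nat_lit 4) (nat_lit 490) (nat_lit 369) (nat_lit 341)))) (XT.nd (nat_lit 78) (nat_lit 0) (nat_lit 0) (XT.lf (nat_lit 0) (nat_lit 52085066367) (nat_lit 152) (nat_lit 542383289825) (nat_lit 0) (nat_lit 51482176620) (nat_lit 1) (nat_lit 5) (nat_lit 3) (nat_lit 4) (nat_lit 1) (nat_lit 4) (nat_lit 491) (nat_lit 369) (nat_lit 340)) (XT.nd (nat_lit 78) (nat_lit 0) (nat_lit 0) (XT.lf (nat_lit 0) (nat_lit 59914592677) (nat_lit 152) (nat_lit 578108277530) (nat_lit 0) (nat_lit 59306333563) (nat_lit 1) (nat_lit 5) (nat_lit 3) (nat_lit 4) (nat_lit 1) (nat_lit 4) (nat_lit 492) (nat_lit 369) (nat_lit 339)) (XT.lf (nat_lit 0) (nat_lit 68323320491) (nat_lit 152) (nat_lit 616788531420) (nat_lit 0) (nat_lit 67710089742) (nat_lit 1) (nat_lit 5) (nat_lit 3) (nat_lit 4) (nat_lit 1) (nat_lit 4) (nat_lit 493) (nat_lit 369) (nat_lit 338))))) (XT.nd (nat_lit 234) (nat_lit 0) (nat_lit 0) (XT.nd (nat_lit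 78) (nat_lit 0) (nat_lit 0) (XT.lf (nat_lit 0) (nat_lit 77361079309) (nat_lit 152) (nat_lit 658653267814) (nat_lit 0) (nat_lit 76743245193) (nat_lit 1) (nat_lit 5) (nat_lit 3) (nat_lit 4) (nat_lit 1) (nat_lit 4) (nat_lit 494) (nat_lit 369) (nat_lit 337)) (XT.nd (nat_lit 78) (nat_lit 0) (nat_lit 0) (XT.lf (nat_lit 0) (nat_lit 87081426219) (nat_lit 152) (nat_lit 703950574039) (nat_lit 0) (nat_lit 86459329726) (nat_lit 1) (nat_lit 5) (nat_lit 3) (nat_lit 4) (nat_lit 1) (nat_lit 4) (nat_lit 495) (nat_lit 369) (nat_lit 336)) (XT.lf (nat_lit 0) (nat_lit 97541963277) (nat_lit 152) (nat_lit 752948878577) (nat_lit 0) (nat_lit 96915920139) (nat_lit 1) (nat_lit 5) (nat_lit 3) (nat_lit 4) (nat_lit 1) (nat_lit 4) (nat_lit 496) (nat_lit 369) (nat_lit 335)))) (XT.nd (nat_lit 78) (nat_lit 0) (nat_lit 0) (XT.lf (nat_lit 0) (nat_lit 108804678851) (nat_lit 152) (nat_lit 805938541749) (nat_lit 0) (nat_lit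 108174981412) (nat_lit 1) (nat_lit 5) (nat_lit 3) (nat_lit 4) (nat_lit 1) (nat_lit 4) (nat_lit 497) (nat_lit 369) (nat_lit 334)) (XT.nd (nat_lit 78) (nat_lit 0) (nat_lit 0) (XT.lf (nat_lit 0) (nat_lit 120936314958) (nat_lit 152) (nat_lit 863233576376) (nat_lit 0) (nat_lit 120303233908) (nat_lit 1) (nat_lit 5) (nat_lit 3) (nat_lit 4) (nat_lit 1) (nat_lit 4) (nat_lit 498) (nat_lit 369) (nat_lit 333)) (XT.lf (nat_lit 0) (nat_lit 134008762777) (nat_lit 152) (nat_lit 925173508589) (nat_lit 0) (nat_lit 133372548753) (nat_lit 1) (nat_lit 5) (nat_lit 3) (nat_lit 4) (nat_lit 1) (nat_lit 4) (nat_lit 499) (nat_lit 369) (nat_lit 332))))))))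
noncomputable def xc27 : XT := (XT.nd (nat_lit 1794) (nat_lit 0) (nat_lit 0) (XT.nd (nat_lit 858) (nat_lit 0) (nat_lit 0) (XT.nd (nat_lit 390) (nat_lit 0) (nat_lit 0) (XT.nd (nat_lit 156) (nat_lit 0) (nat_lit 0) (XT.nd (nat_lit 78) (nat_lit 0) (nat_lit 0) (XT.lf (nat_lit 0) (nat_lit 148099488664) (nat_lit 152) (nat_lit 992125389836) (nat_lit 0) (nat_lit 147460373738) (nat_lit 1) (nat_lit 5) (nat_lit 3) (nat_lit 4) (nat_lit 1) (nat_lit 4) (nat_lit 500) (nat_lit 369) (nat_lit 331)) (XT.lf (nat_lit 0) (nat_lit 163291993218) (nat_lit 152) (nat_lit 1064485972009) (nat_lit 0) (nat_lit 162650192271) (nat_lit 1) (nat_lit 5) (nat_lit 3) (nat_lit 4) (nat_lit 1) (nat_lit 4) (nat_lit 501) (nat_lit 369) (nat_lit 330))) (XT.nd (nat_lit 78) (nat_lit 0) (nat_lit 0) (XT.lf (nat_lit 0) (nat_lit 179676306094) (nat_lit 152) (nat_lit 1142684058555) (nat_lit 0) (nat_lit 179032018092) (nat_lit 1) (nat_lit 5)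 (nat_lit 3) (nat_lit 4) (nat_lit 1) (nat_lit 4) (nat_lit 502) (nat_lit 369) (nat_lit 329)) (XT.nd (nat_lit 78) (nat_lit 0) (nat_lit 0) (XT.lf (nat_lit 0) (nat_lit 197349519517) (nat_lit 152) (nat_lit 1227183045544) (nat_lit 0) (nat_lit 196702928686) (nat_lit 1) (nat_lit 5) (nat_lit 3) (nat_lit 4) (nat_lit 1) (nat_lit 4) (nat_lit 503) (nat_lit 369) (nat_lit 328)) (XT.lf (nat_lit 0) (nat_lit 216416363642) (nat_lit 152) (nat_lit 1318483667714) (nat_lit 0) (nat_lit 215767640561) (nat_lit 1) (nat_lit 5) (nat_lit 3) (nat_lit 4) (nat_lit 1) (nat_lit 4) (nat_lit 504) (nat_lit 369) (nat_lit 327))))) (XT.nd (nat_lit 234) (nat_lit 0) (nat_lit 0) (XT.nd (nat_lit 78) (nat_lit 0) (nat_lit 0) (XT.lf (nat_lit 0) (nat_lit 236989827173) (nat_lit 152) (nat_lit 1417126965787) (nat_lit 0) (nat_lit 236339129787) (nat_lit 1) (nat_lit 5) (nat_lit 3) (nat_lit 4) (nat_lit 1) (nat_lit 4) (nat_lit 505) (nat_lit 369)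 (nat_lit 326)) (XT.nd (nat_lit 78) (nat_lit 0) (nat_lit 0) (XT.lf (nat_lit 0) (nat_lit 259191826932) (nat_lit 152) (nat_lit 1523697492643) (nat_lit 0) (nat_lit 258539301486) (nat_lit 1) (nat_lit 5) (nat_lit 3) (nat_lit 4) (nat_lit 1) (nat_lit 4) (nat_lit 506) (nat_lit 369) (nat_lit 325)) (XT.lf (nat_lit 0) (nat_lit 283153930325) (nat_lit 152) (nat_lit 1638826777329) (nat_lit 0) (nat_lit 282499712231) (nat_lit 1) (nat_lit 5) (nat_lit 3) (nat_lit 4) (nat_lit 1) (nat_lit 4) (nat_lit 507) (nat_lit 369) (nat_lit 324)))) (XT.nd (nat_lit 78) (nat_lit 0) (nat_lit 0) (XT.lf (nat_lit 0) (nat_lit 309018135002) (nat_lit 152) (nat_lit 1763197067457) (nat_lit 0) (nat_lit 308362349640) (nat_lit 1) (nat_lit 5) (nat_lit 3) (nat_lit 4) (nat_lit 1) (nat_lit 4) (nat_lit 508) (nat_lit 369) (nat_lit 323)) (XT.nd (nat_lit 78) (nat_lit 0) (nat_lit 0) (XT.lf (nat_lit 0) (nat_lit 336937710323) (nat_lit 152) (nat_lit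 1897545372155) (nat_lit 0) (nat_lit 336280473788) (nat_lit 1) (nat_lit 5) (nat_lit 3) (nat_lit 4) (nat_lit 1) (nat_lit 4) (nat_lit 509) (nat_lit 369) (nat_lit 322)) (XT.lf (nat_lit 0) (nat_lit 367078105623) (nat_lit 152) (nat_lit 2042667829525) (nat_lit 0) (nat_lit 366419525410) (nat_lit 1) (nat_lit 5) (nat_lit 3) (nat_lit 4) (nat_lit 1) (nat_lit 4) (nat_lit 510) (nat_lit 369) (nat_lit 321)))))) (XT.nd (nat_lit 468) (nat_lit 0) (nat_lit 0) (XT.nd (nat_lit 234) (nat_lit 0) (nat_lit 0) (XT.nd (nat_lit 78) (nat_lit 0) (nat_lit 0) (XT.lf (nat_lit 0) (nat_lit 399617930654) (nat_lit 152) (nat_lit 2199424424498) (nat_lit 0) (nat_lit 398958106293) (nat_lit 1) (nat_lit 5) (nat_lit 3) (nat_lit 4) (nat_lit 1) (nat_lit 4) (nat_lit 511) (nat_lit 369) (nat_lit 320)) (XT.nd (nat_lit 78) (nat_lit 0) (nat_lit 0) (XT.lf (nat_lit 0) (nat_lit 434750014007) (nat_lit 152) (nat_lit 2368744085046) (nat_lit 0)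 (nat_lit 434089037658) (nat_lit 1) (nat_lit 5) (nat_lit 3) (nat_lit 4) (nat_lit 1) (nat_lit 4) (nat_lit 512) (nat_lit 369) (nat_lit 319)) (XT.lf (nat_lit 0) (nat_lit 472682545806) (nat_lit 152) (nat_lit 2551630186934) (nat_lit 0) (nat_lit 472020502802) (nat_lit 1) (nat_lit 5) (nat_lit 3) (nat_lit 4) (nat_lit 1) (nat_lit 4) (nat_lit 513) (nat_lit 369) (nat_lit 318)))) (XT.nd (nat_lit 78) (nat_lit 0) (nat_lit 0) (XT.lf (nat_lit 0) (nat_lit 513640311424) (nat_lit 152) (nat_lit 2749166499655) (nat_lit 0) (nat_lit 512977280776) (nat_lit 1) (nat_lit 5) (nat_lit 3) (nat_lit 4) (nat_lit 1) (nat_lit 4) (nat_lit 514) (nat_lit 369) (nat_lit 317)) (XT.nd (nat_lit 78) (nat_lit 0) (nat_lit 0) (XT.lf (nat_lit 0) (nat_lit 557866023548) (nat_lit 152) (nat_lit 2962523608766) (nat_lit 0) (nat_lit 557202078414) (nat_lit 1) (nat_lit 5) (nat_lit 3) (nat_lit 4) (nat_lit 1) (nat_lit 4) (nat_lit 515) (nat_lit 369)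 (nat_lit 316)) (XT.lf (nat_lit 0) (nat_lit 605621760470) (nat_lit 152) (nat_lit 3192965852692) (nat_lit 0) (nat_lit 604956968591) (nat_lit 1) (nat_lit 5) (nat_lit 3) (nat_lit 4) (nat_lit 1) (nat_lit 4) (nat_lit 516) (nat_lit 369) (nat_lit 315))))) (XT.nd (nat_lit 234) (nat_lit 0) (nat_lit 0) (XT.nd (nat_lit 78) (nat_lit 0) (nat_lit 0) (XT.lf (nat_lit 0) (nat_lit 657190519151) (nat_lit 152) (nat_lit 3441858815099) (nat_lit 0) (nat_lit 656524943248) (nat_lit 1) (nat_lit 5) (nat_lit 3) (nat_lit 4) (nat_lit 1) (nat_lit 4) (nat_lit 517) (nat_lit 369) (nat_lit 314)) (XT.nd (nat_lit 78) (nat_lit 0) (nat_lit 0) (XT.lf (nat_lit 0) (nat_lit 712877892234) (nat_lit 152) (nat_lit 3710677417247) (nat_lit 0) (nat_lit 712211590384) (nat_lit 1) (nat_lit 5) (nat_lit 3) (nat_lit 4) (nat_lit 1) (nat_lit 4) (nat_lit 518) (nat_lit 369) (nat_lit 313)) (XT.lf (nat_lit 0) (nat_lit 773013878968) (nat_lit 152) (nat_lit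 4001014658260) (nat_lit 0) (nat_lit 772346904943) (nat_lit 1) (nat_lit 5) (nat_lit 3) (nat_lit 4) (nat_lit 1) (nat_lit 4) (nat_lit 519) (nat_lit 369) (nat_lit 312)))) (XT.nd (nat_lit 78) (nat_lit 0) (nat_lit 0) (XT.lf (nat_lit 0) (nat_lit 837954840755) (nat_lit 152) (nat_lit 4314591055121) (nat_lit 0) (nat_lit 837287244347) (nat_lit 1) (nat_lit 5) (nat_lit 3) (nat_lit 4) (nat_lit 1) (nat_lit 4) (nat_lit 520) (nat_lit 369) (nat_lit 311)) (XT.nd (nat_lit 78) (nat_lit 0) (nat_lit 0) (XT.lf (nat_lit 0) (nat_lit 908085612924) (nat_lit 152) (nat_lit 4653264838331) (nat_lit 0) (nat_lit 907417440235) (nat_lit 1) (nat_lit 5) (nat_lit 3) (nat_lit 4) (nat_lit 1) (nat_lit 4) (nat_lit 521) (nat_lit 369) (nat_lit 310)) (XT.lf (nat_lit 0) (nat_lit 983821785236) (nat_lit 152) (nat_lit 5019042963641) (nat_lit 0) (nat_lit 983153078955) (nat_lit 1) (nat_lit 5) (nat_lit 3) (nat_lit 4) (nat_lit 1) (nat_lit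 4) (nat_lit 522) (nat_lit 369) (nat_lit 309))))))) (XT.nd (nat_lit 57798) (nat_lit 0) (nat_lit 152) (XT.nd (nat_lit 468) (nat_lit 0) (nat_lit 0) (XT.nd (nat_lit 234) (nat_lit 0) (nat_lit 0) (XT.nd (nat_lit 78) (nat_lit 0) (nat_lit 0) (XT.lf (nat_lit 0) (nat_lit 1065612164639) (nat_lit 152) (nat_lit 5414093005127) (nat_lit 0) (nat_lit 1064942964290) (nat_lit 1) (nat_lit 5) (nat_lit 3) (nat_lit 4) (nat_lit 1) (nat_lit 4) (nat_lit 523) (nat_lit 369) (nat_lit 308)) (XT.nd (nat_lit 78) (nat_lit 0) (nat_lit 0) (XT.lf (nat_lit 0) (nat_lit 1153941434862) (nat_lit 152) (nat_lit 5840756000073) (nat_lit 0) (nat_lit 1153271777042) (nat_lit 1) (nat_lit 5) (nat_lit 3) (nat_lit 4) (nat_lit 1) (nat_lit 4) (nat_lit 524) (nat_lit 369) (nat_lit 307)) (XT.lf (nat_lit 0) (nat_lit 1249333028618) (nat_lit 152) (nat_lit 6301560321782) (nat_lit 0) (nat_lit 1248662947215) (nat_lit 1) (nat_lit 5) (nat_lit 3) (nat_lit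 4) (nat_lit 1) (nat_lit 4) (nat_lit 525) (nat_lit 369) (nat_lit 306)))) (XT.nd (nat_lit 78) (nat_lit 0) (nat_lit 0) (XT.lf (nat_lit 0) (nat_lit 1352352229425) (nat_lit 152) (nat_lit 6799236662531) (nat_lit 0) (nat_lit 1351681755814) (nat_lit 1) (nat_lit 5) (nat_lit 3) (nat_lit 4) (nat_lit 1) (nat_lit 4) (nat_lit 526) (nat_lit 369) (nat_lit 305)) (XT.nd (nat_lit 78) (nat_lit 0) (nat_lit 0) (XT.lf (nat_lit 0) (nat_lit 1463609521436) (nat_lit 152) (nat_lit 7336734215449) (nat_lit 0) (nat_lit 1462938684671) (nat_lit 1) (nat_lit 5) (nat_lit 3) (nat_lit 4) (nat_lit 1) (nat_lit 4) (nat_lit 527) (nat_lit 369) (nat_lit 304)) (XT.lf (nat_lit 0) (nat_lit 1583764207122) (nat_lit 152) (nat_lit 7917238151221) (nat_lit 0) (nat_lit 1583093034103) (nat_lit 1) (nat_lit 5) (nat_lit 3) (nat_lit 4) (nat_lit 1) (nat_lit 4) (nat_lit 528) (nat_lit 369) (nat_lit 303))))) (XT.nd (nat_lit 57096) (nat_lit 0) (nat_lit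 228) (XT.nd (nat_lit 78) (nat_lit 0) (nat_lit 0) (XT.lf (nat_lit 0) (nat_lit 1713528314251) (nat_lit 152) (nat_lit 8544188493171) (nat_lit 0) (nat_lit 1712856829884) (nat_lit 1) (nat_lit 5) (nat_lit 3) (nat_lit 4) (nat_lit 1) (nat_lit 4) (nat_lit 529) (nat_lit 369) (nat_lit 302)) (XT.nd (nat_lit 78) (nat_lit 0) (nat_lit 0) (XT.lf (nat_lit 0) (nat_lit 1853670815308) (nat_lit 152) (nat_lit 9221300502583) (nat_lit 0) (nat_lit 1852999042658) (nat_lit 1) (nat_lit 5) (nat_lit 3) (nat_lit 4) (nat_lit 1) (nat_lit 4) (nat_lit 530) (nat_lit 369) (nat_lit 301)) (XT.lf (nat_lit 0) (nat_lit 2005022184375) (nat_lit 152) (nat_lit 9952586695069) (nat_lit 0) (nat_lit 2004350144795) (nat_lit 1) (nat_lit 5) (nat_lit 3) (nat_lit 4) (nat_lit 1) (nat_lit 4) (nat_lit 531) (nat_lit 369) (nat_lit 300)))) (XT.nd (nat_lit 78) (nat_lit 152) (nat_lit 0) (XT.lf (nat_lit 0) (nat_lit 27809952779) (nat_lit 76) (nat_lit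 2348324948) (nat_lit 76) (nat_lit 2348324948) (nat_lit 6) (nat_lit 4) (nat_lit 7) (nat_lit 5) (nat_lit 7) (nat_lit 4) (nat_lit 460) (nat_lit 370) (nat_lit 370)) (XT.nd (nat_lit 78) (nat_lit 0) (nat_lit 0) (XT.lf (nat_lit 0) (nat_lit 3089641527) (nat_lit 152) (nat_lit 63465296948) (nat_lit 0) (nat_lit 3031289023) (nat_lit 4) (nat_lit 5) (nat_lit 6) (nat_lit 4) (nat_lit 4) (nat_lit 4) (nat_lit 461) (nat_lit 370) (nat_lit 369)) (XT.lf (nat_lit 0) (nat_lit 11223129058) (nat_lit 152) (nat_lit 52183218271) (nat_lit 0) (nat_lit 11110746458) (nat_lit 4) (nat_lit 5) (nat_lit 6) (nat_lit 4) (nat_lit 4) (nat_lit 4) (nat_lit 462) (nat_lit 370) (nat_lit 368)))))) (XT.nd (nat_lit 468) (nat_lit 0) (nat_lit 0) (XT.nd (nat_lit 234) (nat_lit 76) (nat_lit 0) (XT.nd (nat_lit 78) (nat_lit 0) (nat_lit 0) (XT.lf (nat_lit 0) (nat_lit 19630020233) (nat_lit 152) (nat_lit 40774985441) (nat_lit 0) (nat_lit 19467609766)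 (nat_lit 4) (nat_lit 5) (nat_lit 6) (nat_lit 4) (nat_lit 4) (nat_lit 4) (nat_lit 463) (nat_lit 370) (nat_lit 367)) (XT.nd (nat_lit 78) (nat_lit 0) (nat_lit 0) (XT.lf (nat_lit 0) (nat_lit 28360133665) (nat_lit 152) (nat_lit 29172994116) (nat_lit 0) (nat_lit 28151401101) (nat_lit 4) (nat_lit 5) (nat_lit 6) (nat_lit 4) (nat_lit 4) (nat_lit 4) (nat_lit 464) (nat_lit 370) (nat_lit 366)) (XT.lf (nat_lit 0) (nat_lit 37465203362) (nat_lit 152) (nat_lit 17308491753) (nat_lit 0) (nat_lit 37213579965) (nat_lit 4) (nat_lit 5) (nat_lit 6) (nat_lit 4) (nat_lit 4) (nat_lit 4) (nat_lit 465) (nat_lit 370) (nat_lit 365)))) (XT.nd (nat_lit 78) (nat_lit 76) (nat_lit 0) (XT.lf (nat_lit 0) (nat_lit 46999185291) (nat_lit 152) (nat_lit 5111170191) (nat_lit 0) (nat_lit 46707848161) (nat_lit 4) (nat_lit 5) (nat_lit 6) (nat_lit 4) (nat_lit 4) (nat_lit 4) (nat_lit 466) (nat_lit 370) (nat_lit 364)) (XT.nd (nat_lit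 78) (nat_lit 0) (nat_lit 0) (XT.lf (nat_lit 0) (nat_lit 7885726995) (nat_lit 76) (nat_lit 49322502051) (nat_lit 76) (nat_lit 48994392946) (nat_lit 3) (nat_lit 4) (nat_lit 4) (nat_lit 5) (nat_lit 4) (nat_lit 4) (nat_lit 467) (nat_lit 370) (nat_lit 363)) (XT.lf (nat_lit 0) (nat_lit 21656814382) (nat_lit 76) (nat_lit 46446785556) (nat_lit 76) (nat_lit 46084628325) (nat_lit 3) (nat_lit 4) (nat_lit 4) (nat_lit 5) (nat_lit 4) (nat_lit 4) (nat_lit 468) (nat_lit 370) (nat_lit 362))))) (XT.nd (nat_lit 234) (nat_lit 0) (nat_lit 0) (XT.nd (nat_lit 78) (nat_lit 0) (nat_lit 0) (XT.lf (nat_lit 0) (nat_lit 36014553248) (nat_lit 76) (nat_lit 43605913164) (nat_lit 76) (nat_lit 43212229891) (nat_lit 3) (nat_lit 4) (nat_lit 4) (nat_lit 5) (nat_lit 4) (nat_lit 4) (nat_lit 469) (nat_lit 370) (nat_lit 361)) (XT.nd (nat_lit 78) (nat_lit 0) (nat_lit 0) (XT.lf (nat_lit 0) (nat_lit 51044026491) (nat_lit 76) (nat_lit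 40783050076) (nat_lit 76) (nat_lit 40360176023) (nat_lit 3) (nat_lit 4) (nat_lit 4) (nat_lit 5) (nat_lit 4) (nat_lit 4) (nat_lit 470) (nat_lit 370) (nat_lit 360)) (XT.lf (nat_lit 0) (nat_lit 66834297656) (nat_lit 76) (nat_lit 37961468214) (nat_lit 76) (nat_lit 37511565662) (nat_lit 3) (nat_lit 4) (nat_lit 4) (nat_lit 5) (nat_lit 4) (nat_lit 4) (nat_lit 471) (nat_lit 370) (nat_lit 359)))) (XT.nd (nat_lit 78) (nat_lit 0) (nat_lit 0) (XT.lf (nat_lit 0) (nat_lit 83478938720) (nat_lit 76) (nat_lit 35124447094) (nat_lit 76) (nat_lit 34649518153) (nat_lit 3) (nat_lit 4) (nat_lit 4) (nat_lit 5) (nat_lit 4) (nat_lit 4) (nat_lit 472) (nat_lit 370) (nat_lit 358)) (XT.nd (nat_lit 78) (nat_lit 0) (nat_lit 0) (XT.lf (nat_lit 0) (nat_lit 101076584592) (nat_lit 76) (nat_lit 32255174738) (nat_lit 76) (nat_lit 31757073215) (nat_lit 3) (nat_lit 4) (nat_lit 4) (nat_lit 5) (nat_lit 4) (nat_lit 4) (nat_lit 473)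 (nat_lit 370) (nat_lit 357)) (XT.lf (nat_lit 0) (nat_lit 119731517620) (nat_lit 76) (nat_lit 29336648051) (nat_lit 76) (nat_lit 28817090434) (nat_lit 3) (nat_lit 4) (nat_lit 4) (nat_lit 5) (nat_lit 4) (nat_lit 4) (nat_lit 474) (nat_lit 370) (nat_lit 356))))))))
noncomputable def xc28 : XT := (XT.nd (nat_lit 1794) (nat_lit 0) (nat_lit 0) (XT.nd (nat_lit 858) (nat_lit 0) (nat_lit 0) (XT.nd (nat_lit 390) (nat_lit 152) (nat_lit 0) (XT.nd (nat_lit 156) (nat_lit 0) (nat_lit 0) (XT.nd (nat_lit 78) (nat_lit 0) (nat_lit 0) (XT.lf (nat_lit 0) (nat_lit 139554285553) (nat_lit 76) (nat_lit 26351572060) (nat_lit 76) (nat_lit 25812147689) (nat_lit 3) (nat_lit 4) (nat_lit 4) (nat_lit 5) (nat_lit 4) (nat_lit 4) (nat_lit 475) (nat_lit 370) (nat_lit 355)) (XT.lf (nat_lit 0) (nat_lit 160662356647) (nat_lit 76) (nat_lit 23282257426) (nat_lit 76) (nat_lit 22724437912) (nat_lit 3) (nat_lit 4) (nat_lit 4) (nat_lit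 5) (nat_lit 4) (nat_lit 4) (nat_lit 476) (nat_lit 370) (nat_lit 354))) (XT.nd (nat_lit 78) (nat_lit 0) (nat_lit 0) (XT.lf (nat_lit 0) (nat_lit 183180815767) (nat_lit 76) (nat_lit 20110515617) (nat_lit 76) (nat_lit 19535663563) (nat_lit 3) (nat_lit 4) (nat_lit 4) (nat_lit 5) (nat_lit 4) (nat_lit 4) (nat_lit 477) (nat_lit 370) (nat_lit 353)) (XT.nd (nat_lit 78) (nat_lit 0) (nat_lit 0) (XT.lf (nat_lit 0) (nat_lit 207243105634) (nat_lit 76) (nat_lit 16817551127) (nat_lit 76) (nat_lit 16226928203) (nat_lit 3) (nat_lit 4) (nat_lit 4) (nat_lit 5) (nat_lit 4) (nat_lit 4) (nat_lit 478) (nat_lit 370) (nat_lit 352)) (XT.lf (nat_lit 0) (nat_lit 232991817596) (nat_lit 76) (nat_lit 13383850092) (nat_lit 76) (nat_lit 12778624511) (nat_lit 3) (nat_lit 4) (nat_lit 4) (nat_lit 5) (nat_lit 4) (nat_lit 4) (nat_lit 479) (nat_lit 370) (nat_lit 351))))) (XT.nd (nat_lit 234) (nat_lit 152) (nat_lit 0) (XT.nd (nat_lit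 78) (nat_lit 0) (nat_lit 0) (XT.lf (nat_lit 0) (nat_lit 260579536611) (nat_lit 76) (nat_lit 9789064654) (nat_lit 76) (nat_lit 9170318093) (nat_lit 3) (nat_lit 4) (nat_lit 4) (nat_lit 5) (nat_lit 4) (nat_lit 4) (nat_lit 480) (nat_lit 370) (nat_lit 350)) (XT.nd (nat_lit 78) (nat_lit 0) (nat_lit 0) (XT.lf (nat_lit 0) (nat_lit 290169745461) (nat_lit 76) (nat_lit 6011892380) (nat_lit 76) (nat_lit 5380626395) (nat_lit 3) (nat_lit 4) (nat_lit 4) (nat_lit 5) (nat_lit 4) (nat_lit 4) (nat_lit 481) (nat_lit 370) (nat_lit 349)) (XT.lf (nat_lit 0) (nat_lit 321937793529) (nat_lit 76) (nat_lit 2029950028) (nat_lit 76) (nat_lit 1387091983) (nat_lit 3) (nat_lit 4) (nat_lit 4) (nat_lit 5) (nat_lit 4) (nat_lit 4) (nat_lit 482) (nat_lit 370) (nat_lit 348)))) (XT.nd (nat_lit 78) (nat_lit 0) (nat_lit 0) (XT.lf (nat_lit 0) (nat_lit 2874864345) (nat_lit 152) (nat_lit 345893007964) (nat_lit 0) (nat_lit 2269687091)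 (nat_lit 1) (nat_lit 5) (nat_lit 3) (nat_lit 4) (nat_lit 1) (nat_lit 4) (nat_lit 483) (nat_lit 370) (nat_lit 347)) (XT.nd (nat_lit 78) (nat_lit 0) (nat_lit 0) (XT.lf (nat_lit 0) (nat_lit 7464127866) (nat_lit 152) (nat_lit 364453240142) (nat_lit 0) (nat_lit 6849748460) (nat_lit 1) (nat_lit 5) (nat_lit 3) (nat_lit 4) (nat_lit 1) (nat_lit 4) (nat_lit 484) (nat_lit 370) (nat_lit 346)) (XT.lf (nat_lit 0) (nat_lit 12339707487) (nat_lit 152) (nat_lit 384664989727) (nat_lit 0) (nat_lit 11716807571) (nat_lit 1) (nat_lit 5) (nat_lit 3) (nat_lit 4) (nat_lit 1) (nat_lit 4) (nat_lit 485) (nat_lit 370) (nat_lit 345)))))) (XT.nd (nat_lit 468) (nat_lit 0) (nat_lit 0) (XT.nd (nat_lit 234) (nat_lit 0) (nat_lit 0) (XT.nd (nat_lit 78) (nat_lit 0) (nat_lit 0) (XT.lf (nat_lit 0) (nat_lit 17530495533) (nat_lit 152) (nat_lit 406648030052) (nat_lit 0) (nat_lit 16899706256) (nat_lit 1) (nat_lit 5) (nat_lit 3) (nat_lit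 4) (nat_lit 1) (nat_lit 4) (nat_lit 486) (nat_lit 370) (nat_lit 344)) (XT.nd (nat_lit 78) (nat_lit 0) (nat_lit 0) (XT.lf (nat_lit 0) (nat_lit 23067252229) (nat_lit 152) (nat_lit 430532630984) (nat_lit 0) (nat_lit 22429157988) (nat_lit 1) (nat_lit 5) (nat_lit 3) (nat_lit 4) (nat_lit 1) (nat_lit 4) (nat_lit 487) (nat_lit 370) (nat_lit 343)) (XT.lf (nat_lit 0) (nat_lit 28982787985) (nat_lit 152) (nat_lit 456460330899) (nat_lit 0) (nat_lit 28337929888) (nat_lit 1) (nat_lit 5) (nat_lit 3) (nat_lit 4) (nat_lit 1) (nat_lit 4) (nat_lit 488) (nat_lit 370) (nat_lit 342)))) (XT.nd (nat_lit 78) (nat_lit 0) (nat_lit 0) (XT.lf (nat_lit 0) (nat_lit 35312157828) (nat_lit 152) (nat_lit 484584775427) (nat_lit 0) (nat_lit 34661036902) (nat_lit 1) (nat_lit 5) (nat_lit 3) (nat_lit 4) (nat_lit 1) (nat_lit 4) (nat_lit 489) (nat_lit 370) (nat_lit 341)) (XT.nd (nat_lit 78) (nat_lit 0) (nat_lit 0) (XT.lf (nat_lit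 0) (nat_lit 42092869135) (nat_lit 152) (nat_lit 515072627942) (nat_lit 0) (nat_lit 41435949292) (nat_lit 1) (nat_lit 5) (nat_lit 3) (nat_lit 4) (nat_lit 1) (nat_lit 4) (nat_lit 490) (nat_lit 370) (nat_lit 340)) (XT.lf (nat_lit 0) (nat_lit 49365103898) (nat_lit 152) (nat_lit 548104557200) (nat_lit 0) (nat_lit 48702814689) (nat_lit 1) (nat_lit 5) (nat_lit 3) (nat_lit 4) (nat_lit 1) (nat_lit 4) (nat_lit 491) (nat_lit 370) (nat_lit 339))))) (XT.nd (nat_lit 234) (nat_lit 0) (nat_lit 0) (XT.nd (nat_lit 78) (nat_lit 0) (nat_lit 0) (XT.lf (nat_lit 0) (nat_lit 57171956843) (nat_lit 152) (nat_lit 583876307967) (nat_lit 0) (nat_lit 56504695997) (nat_lit 1) (nat_lit 5) (nat_lit 3) (nat_lit 4) (nat_lit 1) (nat_lit 4) (nat_lit 492) (nat_lit 370) (nat_lit 338)) (XT.nd (nat_lit 78) (nat_lit 0) (nat_lit 0) (XT.lf (nat_lit 0) (nat_lit 65559690800) (nat_lit 152) (nat_lit 622599860988) (nat_lit 0) (nat_lit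 64887826588) (nat_lit 1) (nat_lit 5) (nat_lit 3) (nat_lit 4) (nat_lit 1) (nat_lit 4) (nat_lit 493) (nat_lit 370) (nat_lit 337)) (XT.lf (nat_lit 0) (nat_lit 74578010862) (nat_lit 152) (nat_lit 664504689170) (nat_lit 0) (nat_lit 73901884273) (nat_lit 1) (nat_lit 5) (nat_lit 3) (nat_lit 4) (nat_lit 1) (nat_lit 4) (nat_lit 494) (nat_lit 370) (nat_lit 336)))) (XT.nd (nat_lit 78) (nat_lit 0) (nat_lit 0) (XT.lf (nat_lit 0) (nat_lit 84280358923) (nat_lit 152) (nat_lit 709839117421) (nat_lit 0) (nat_lit 83600285690) (nat_lit 1) (nat_lit 5) (nat_lit 3) (nat_lit 4) (nat_lit 1) (nat_lit 4) (nat_lit 495) (nat_lit 370) (nat_lit 335)) (XT.nd (nat_lit 78) (nat_lit 0) (nat_lit 0) (XT.lf (nat_lit 0) (nat_lit 94724230381) (nat_lit 152) (nat_lit 758871794205) (nat_lit 0) (nat_lit 94040502846) (nat_lit 1) (nat_lit 5) (nat_lit 3) (nat_lit 4) (nat_lit 1) (nat_lit 4) (nat_lit 496) (nat_lit 370) (nat_lit 334))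 (XT.lf (nat_lit 0) (nat_lit 105971514843) (nat_lit 152) (nat_lit 811893283532) (nat_lit 0) (nat_lit 105284403697) (nat_lit 1) (nat_lit 5) (nat_lit 3) (nat_lit 4) (nat_lit 1) (nat_lit 4) (nat_lit 497) (nat_lit 370) (nat_lit 333))))))) (XT.nd (nat_lit 858) (nat_lit 0) (nat_lit 0) (XT.nd (nat_lit 390) (nat_lit 0) (nat_lit 0) (XT.nd (nat_lit 156) (nat_lit 0) (nat_lit 0) (XT.nd (nat_lit 78) (nat_lit 0) (nat_lit 0) (XT.lf (nat_lit 0) (nat_lit 118088862884) (nat_lit 152) (nat_lit 869217786820) (nat_lit 0) (nat_lit 117398618764) (nat_lit 1) (nat_lit 5) (nat_lit 3) (nat_lit 4) (nat_lit 1) (nat_lit 4) (nat_lit 498) (nat_lit 370) (nat_lit 332)) (XT.lf (nat_lit 0) (nat_lit 131148081012) (nat_lit 152) (nat_lit 931185004830) (nat_lit 0) (nat_lit 130454935990) (nat_lit 1) (nat_lit 5) (nat_lit 3) (nat_lit 4) (nat_lit 1) (nat_lit 4) (nat_lit 499) (nat_lit 370) (nat_lit 331))) (XT.nd (nat_lit 78) (nat_lit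 0) (nat_lit 0) (XT.lf (nat_lit 0) (nat_lit 145226557186) (nat_lit 152) (nat_lit 998162150705) (nat_lit 0) (nat_lit 144530726144) (nat_lit 1) (nat_lit 5) (nat_lit 3) (nat_lit 4) (nat_lit 1) (nat_lit 4) (nat_lit 500) (nat_lit 370) (nat_lit 330)) (XT.nd (nat_lit 78) (nat_lit 0) (nat_lit 0) (XT.lf (nat_lit 0) (nat_lit 160407719411) (nat_lit 152) (nat_lit 1070546126050) (nat_lit 0) (nat_lit 159709401314) (nat_lit 1) (nat_lit 5) (nat_lit 3) (nat_lit 4) (nat_lit 1) (nat_lit 4) (nat_lit 501) (nat_lit 370) (nat_lit 329)) (XT.lf (nat_lit 0) (nat_lit 176781530132) (nat_lit 152) (nat_lit 1148765872942) (nat_lit 0) (nat_lit 176080909205) (nat_lit 1) (nat_lit 5) (nat_lit 3) (nat_lit 4) (nat_lit 1) (nat_lit 4) (nat_lit 502) (nat_lit 370) (nat_lit 328))))) (XT.nd (nat_lit 234) (nat_lit 0) (nat_lit 0) (XT.nd (nat_lit 78) (nat_lit 0) (nat_lit 0) (XT.lf (nat_lit 0) (nat_lit 194445019338) (nat_lit 152) (nat_lit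 1233284915807) (nat_lit 0) (nat_lit 193742266162) (nat_lit 1) (nat_lit 5) (nat_lit 3) (nat_lit 4) (nat_lit 1) (nat_lit 4) (nat_lit 503) (nat_lit 370) (nat_lit 327)) (XT.nd (nat_lit 78) (nat_lit 0) (nat_lit 0) (XT.lf (nat_lit 0) (nat_lit 213502859557) (nat_lit 152) (nat_lit 1324604108232) (nat_lit 0) (nat_lit 212798132076) (nat_lit 1) (nat_lit 5) (nat_lit 3) (nat_lit 4) (nat_lit 1) (nat_lit 4) (nat_lit 504) (nat_lit 370) (nat_lit 326)) (XT.lf (nat_lit 0) (nat_lit 234067986139) (nat_lit 152) (nat_lit 1423264600986) (nat_lit 0) (nat_lit 233361430597) (nat_lit 1) (nat_lit 5) (nat_lit 3) (nat_lit 4) (nat_lit 1) (nat_lit 4) (nat_lit 505) (nat_lit 370) (nat_lit 325)))) (XT.nd (nat_lit 78) (nat_lit 0) (nat_lit 0) (XT.lf (nat_lit 0) (nat_lit 256262266501) (nat_lit 152) (nat_lit 1529851048843) (nat_lit 0) (nat_lit 255554018311) (nat_lit 1) (nat_lit 5) (nat_lit 3) (nat_lit 4) (nat_lit 1) (nat_lit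 4) (nat_lit 506) (nat_lit 370) (nat_lit 324)) (XT.nd (nat_lit 78) (nat_lit 0) (nat_lit 0) (XT.lf (nat_lit 0) (nat_lit 280217222303) (nat_lit 152) (nat_lit 1644995075196) (nat_lit 0) (nat_lit 279507406846) (nat_lit 1) (nat_lit 5) (nat_lit 3) (nat_lit 4) (nat_lit 1) (nat_lit 4) (nat_lit 507) (nat_lit 370) (nat_lit 323)) (XT.lf (nat_lit 0) (nat_lit 306074808841) (nat_lit 152) (nat_lit 1769379015016) (nat_lit 0) (nat_lit 305363542210) (nat_lit 1) (nat_lit 5) (nat_lit 3) (nat_lit 4) (nat_lit 1) (nat_lit 4) (nat_lit 508) (nat_lit 370) (nat_lit 322)))))) (XT.nd (nat_lit 468) (nat_lit 0) (nat_lit 0) (XT.nd (nat_lit 234) (nat_lit 0) (nat_lit 0) (XT.nd (nat_lit 78) (nat_lit 0) (nat_lit 0) (XT.lf (nat_lit 0) (nat_lit 333988256255) (nat_lit 152) (nat_lit 1903739958318) (nat_lit 0) (nat_lit 333275645946) (nat_lit 1) (nat_lit 5) (nat_lit 3) (nat_lit 4) (nat_lit 1) (nat_lit 4) (nat_lit 509) (nat_lit 370)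 (nat_lit 321)) (XT.nd (nat_lit 78) (nat_lit 0) (nat_lit 0) (XT.lf (nat_lit 0) (nat_lit 364122977568) (nat_lit 152) (nat_lit 2048874118098) (nat_lit 0) (nat_lit 363409123112) (nat_lit 1) (nat_lit 5) (nat_lit 3) (nat_lit 4) (nat_lit 1) (nat_lit 4) (nat_lit 510) (nat_lit 370) (nat_lit 320)) (XT.lf (nat_lit 0) (nat_lit 396657548906) (nat_lit 152) (nat_lit 2205641548637) (nat_lit 0) (nat_lit 395942542462) (nat_lit 1) (nat_lit 5) (nat_lit 3) (nat_lit 4) (nat_lit 1) (nat_lit 4) (nat_lit 511) (nat_lit 370) (nat_lit 319)))) (XT.nd (nat_lit 78) (nat_lit 0) (nat_lit 0) (XT.lf (nat_lit 0) (nat_lit 431784767729) (nat_lit 152) (nat_lit 2374971242116) (nat_lit 0) (nat_lit 431068694629) (nat_lit 1) (nat_lit 5) (nat_lit 3) (nat_lit 4) (nat_lit 1) (nat_lit 4) (nat_lit 512) (nat_lit 370) (nat_lit 318)) (XT.nd (nat_lit 78) (nat_lit 0) (nat_lit 0) (XT.lf (nat_lit 0) (nat_lit 469712795334) (nat_lit 152) (nat_lit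 2557866633755) (nat_lit 0) (nat_lit 468995734590) (nat_lit 1) (nat_lit 5) (nat_lit 3) (nat_lit 4) (nat_lit 1) (nat_lit 4) (nat_lit 513) (nat_lit 370) (nat_lit 317)) (XT.lf (nat_lit 0) (nat_lit 510666390402) (nat_lit 152) (nat_lit 2755411548097) (nat_lit 0) (nat_lit 509948415173) (nat_lit 1) (nat_lit 5) (nat_lit 3) (nat_lit 4) (nat_lit 1) (nat_lit 4) (nat_lit 514) (nat_lit 370) (nat_lit 316))))) (XT.nd (nat_lit 234) (nat_lit 0) (nat_lit 0) (XT.nd (nat_lit 78) (nat_lit 0) (nat_lit 0) (XT.lf (nat_lit 0) (nat_lit 554888240905) (nat_lit 152) (nat_lit 2968776621672) (nat_lit 0) (nat_lit 554169418930) (nat_lit 1) (nat_lit 5) (nat_lit 3) (nat_lit 4) (nat_lit 1) (nat_lit 4) (nat_lit 515) (nat_lit 370) (nat_lit 315)) (XT.nd (nat_lit 78) (nat_lit 0) (nat_lit 0) (XT.lf (nat_lit 0) (nat_lit 602640402252) (nat_lit 152) (nat_lit 3199226240102) (nat_lit 0) (nat_lit 601920796254) (nat_lit 1) (nat_lit 5)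 (nat_lit 3) (nat_lit 4) (nat_lit 1) (nat_lit 4) (nat_lit 516) (nat_lit 370) (nat_lit 314)) (XT.lf (nat_lit 0) (nat_lit 654205850216) (nat_lit 152) (nat_lit 3448126030753) (nat_lit 0) (nat_lit 653485518270) (nat_lit 1) (nat_lit 5) (nat_lit 3) (nat_lit 4) (nat_lit 1) (nat_lit 4) (nat_lit 517) (nat_lit 370) (nat_lit 313)))) (XT.nd (nat_lit 78) (nat_lit 0) (nat_lit 0) (XT.lf (nat_lit 0) (nat_lit 709890157820) (nat_lit 152) (nat_lit 3716950955350) (nat_lit 0) (nat_lit 709169153700) (nat_lit 1) (nat_lit 5) (nat_lit 3) (nat_lit 4) (nat_lit 1) (nat_lit 4) (nat_lit 518) (nat_lit 370) (nat_lit 312)) (XT.nd (nat_lit 78) (nat_lit 0) (nat_lit 0) (XT.lf (nat_lit 0) (nat_lit 770023306147) (nat_lit 152) (nat_lit 4007294050482) (nat_lit 0) (nat_lit 769301679644) (nat_lit 1) (nat_lit 5) (nat_lit 3) (nat_lit 4) (nat_lit 1) (nat_lit 4) (nat_lit 519) (nat_lit 370) (nat_lit 311)) (XT.lf (nat_lit 0) (nat_lit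 834961639780) (nat_lit 152) (nat_lit 4320875867823) (nat_lit 0) (nat_lit 834239436996) (nat_lit 1) (nat_lit 5) (nat_lit 3) (nat_lit 4) (nat_lit 1) (nat_lit 4) (nat_lit 520) (nat_lit 370) (nat_lit 310))))))))
noncomputable def xc29 : XT := (XT.nd (nat_lit 58500) (nat_lit 0) (nat_lit 0) (XT.nd (nat_lit 57564) (nat_lit 0) (nat_lit 152) (XT.nd (nat_lit 390) (nat_lit 0) (nat_lit 0) (XT.nd (nat_lit 156) (nat_lit 0) (nat_lit 0) (XT.nd (nat_lit 78) (nat_lit 0) (nat_lit 0) (XT.lf (nat_lit 0) (nat_lit 905089978473) (nat_lit 152) (nat_lit 4659554669996) (nat_lit 0) (nat_lit 904367242096) (nat_lit 1) (nat_lit 5) (nat_lit 3) (nat_lit 4) (nat_lit 1) (nat_lit 4) (nat_lit 521) (nat_lit 370) (nat_lit 309)) (XT.lf (nat_lit 0) (nat_lit 980823897567) (nat_lit 152) (nat_lit 5025337442495) (nat_lit 0) (nat_lit 980100667122) (nat_lit 1) (nat_lit 5) (nat_lit 3) (nat_lit 4) (nat_lit 1) (nat_lit 4) (nat_lit 522)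 (nat_lit 370) (nat_lit 308))) (XT.nd (nat_lit 78) (nat_lit 0) (nat_lit 0) (XT.lf (nat_lit 0) (nat_lit 1062612190657) (nat_lit 152) (nat_lit 5420391786933) (nat_lit 0) (nat_lit 1061888502741) (nat_lit 1) (nat_lit 5) (nat_lit 3) (nat_lit 4) (nat_lit 1) (nat_lit 4) (nat_lit 523) (nat_lit 370) (nat_lit 307)) (XT.nd (nat_lit 78) (nat_lit 0) (nat_lit 0) (XT.lf (nat_lit 0) (nat_lit 1150939529108) (nat_lit 152) (nat_lit 5847058766094) (nat_lit 0) (nat_lit 1150215417609) (nat_lit 1) (nat_lit 5) (nat_lit 3) (nat_lit 4) (nat_lit 1) (nat_lit 4) (nat_lit 524) (nat_lit 370) (nat_lit 306)) (XT.lf (nat_lit 0) (nat_lit 1246329334186) (nat_lit 152) (nat_lit 6307866776891) (nat_lit 0) (nat_lit 1245604830480) (nat_lit 1) (nat_lit 5) (nat_lit 3) (nat_lit 4) (nat_lit 1) (nat_lit 4) (nat_lit 525) (nat_lit 370) (nat_lit 305))))) (XT.nd (nat_lit 234) (nat_lit 0) (nat_lit 0) (XT.nd (nat_lit 78) (nat_lit 0) (nat_lit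 0) (XT.lf (nat_lit 0) (nat_lit 1349346878810) (nat_lit 152) (nat_lit 6805546533462) (nat_lit 0) (nat_lit 1348622011949) (nat_lit 1) (nat_lit 5) (nat_lit 3) (nat_lit 4) (nat_lit 1) (nat_lit 4) (nat_lit 526) (nat_lit 370) (nat_lit 304)) (XT.nd (nat_lit 78) (nat_lit 0) (nat_lit 0) (XT.lf (nat_lit 0) (nat_lit 1460602637318) (nat_lit 152) (nat_lit 7343047249178) (nat_lit 0) (nat_lit 1459877434203) (nat_lit 1) (nat_lit 5) (nat_lit 3) (nat_lit 4) (nat_lit 1) (nat_lit 4) (nat_lit 527) (nat_lit 370) (nat_lit 303)) (XT.lf (nat_lit 0) (nat_lit 1580755903095) (nat_lit 152) (nat_lit 7923554113468) (nat_lit 0) (nat_lit 1580030388633) (nat_lit 1) (nat_lit 5) (nat_lit 3) (nat_lit 4) (nat_lit 1) (nat_lit 4) (nat_lit 528) (nat_lit 370) (nat_lit 302)))) (XT.nd (nat_lit 78) (nat_lit 0) (nat_lit 0) (XT.lf (nat_lit 0) (nat_lit 1710518695492) (nat_lit 152) (nat_lit 8550507167007) (nat_lit 0) (nat_lit 1709792892746)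 (nat_lit 1) (nat_lit 5) (nat_lit 3) (nat_lit 4) (nat_lit 1) (nat_lit 4) (nat_lit 529) (nat_lit 370) (nat_lit 301)) (XT.nd (nat_lit 78) (nat_lit 0) (nat_lit 0) (XT.lf (nat_lit 0) (nat_lit 1850659979205) (nat_lit 152) (nat_lit 9227621687150) (nat_lit 0) (nat_lit 1849933909530) (nat_lit 1) (nat_lit 5) (nat_lit 3) (nat_lit 4) (nat_lit 1) (nat_lit 4) (nat_lit 530) (nat_lit 370) (nat_lit 300)) (XT.lf (nat_lit 0) (nat_lit 2002010221102) (nat_lit 152) (nat_lit 9958910204387) (nat_lit 0) (nat_lit 2001283904270) (nat_lit 1) (nat_lit 5) (nat_lit 3) (nat_lit 4) (nat_lit 1) (nat_lit 4) (nat_lit 531) (nat_lit 370) (nat_lit 299)))))) (XT.nd (nat_lit 468) (nat_lit 76) (nat_lit 0) (XT.nd (nat_lit 234) (nat_lit 152) (nat_lit 0) (XT.nd (nat_lit 78) (nat_lit 0) (nat_lit 0) (XT.lf (nat_lit 0) (nat_lit 9092040642) (nat_lit 76) (nat_lit 9675916661) (nat_lit 76) (nat_lit 9675916661) (nat_lit 6) (nat_lit 4) (nat_lit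 7) (nat_lit 5) (nat_lit 7) (nat_lit 4) (nat_lit 458) (nat_lit 371) (nat_lit 371)) (XT.nd (nat_lit 78) (nat_lit 0) (nat_lit 0) (XT.lf (nat_lit 0) (nat_lit 36385908937) (nat_lit 76) (nat_lit 12234214774) (nat_lit 76) (nat_lit 12166152414) (nat_lit 6) (nat_lit 4) (nat_lit 7) (nat_lit 5) (nat_lit 7) (nat_lit 4) (nat_lit 459) (nat_lit 371) (nat_lit 370)) (XT.lf (nat_lit 0) (nat_lit 55227334037) (nat_lit 76) (nat_lit 4966124772) (nat_lit 76) (nat_lit 4835041708) (nat_lit 6) (nat_lit 4) (nat_lit 7) (nat_lit 5) (nat_lit 7) (nat_lit 4) (nat_lit 460) (nat_lit 371) (nat_lit 369)))) (XT.nd (nat_lit 78) (nat_lit 0) (nat_lit 0) (XT.lf (nat_lit 0) (nat_lit 2745204843) (nat_lit 152) (nat_lit 64303822061) (nat_lit 0) (nat_lit 2569801540) (nat_lit 4) (nat_lit 5) (nat_lit 6) (nat_lit 4) (nat_lit 4) (nat_lit 4) (nat_lit 461) (nat_lit 371) (nat_lit 368)) (XT.nd (nat_lit 78) (nat_lit 0) (nat_lit 0) (XT.lf (nat_lit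 0) (nat_lit 10697309990) (nat_lit 152) (nat_lit 53395018452) (nat_lit 0) (nat_lit 10471878821) (nat_lit 4) (nat_lit 5) (nat_lit 6) (nat_lit 4) (nat_lit 4) (nat_lit 4) (nat_lit 462) (nat_lit 371) (nat_lit 367)) (XT.lf (nat_lit 0) (nat_lit 18936254513) (nat_lit 152) (nat_lit 42332410684) (nat_lit 0) (nat_lit 18664501245) (nat_lit 4) (nat_lit 5) (nat_lit 6) (nat_lit 4) (nat_lit 4) (nat_lit 4) (nat_lit 463) (nat_lit 371) (nat_lit 366))))) (XT.nd (nat_lit 234) (nat_lit 76) (nat_lit 0) (XT.nd (nat_lit 78) (nat_lit 0) (nat_lit 0) (XT.lf (nat_lit 0) (nat_lit 27510861787) (nat_lit 152) (nat_lit 31050442565) (nat_lit 0) (nat_lit 27196217686) (nat_lit 4) (nat_lit 5) (nat_lit 6) (nat_lit 4) (nat_lit 4) (nat_lit 4) (nat_lit 464) (nat_lit 371) (nat_lit 365)) (XT.nd (nat_lit 78) (nat_lit 0) (nat_lit 0) (XT.lf (nat_lit 0) (nat_lit 36471944299) (nat_lit 152) (nat_lit 19482257986) (nat_lit 0) (nat_lit 36117586465)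 (nat_lit 4) (nat_lit 5) (nat_lit 6) (nat_lit 4) (nat_lit 4) (nat_lit 4) (nat_lit 465) (nat_lit 371) (nat_lit 364)) (XT.lf (nat_lit 0) (nat_lit 45872604761) (nat_lit 152) (nat_lit 7559304742) (nat_lit 0) (nat_lit 45481474952) (nat_lit 4) (nat_lit 5) (nat_lit 6) (nat_lit 4) (nat_lit 4) (nat_lit 4) (nat_lit 466) (nat_lit 371) (nat_lit 363)))) (XT.nd (nat_lit 78) (nat_lit 0) (nat_lit 0) (XT.lf (nat_lit 0) (nat_lit 5041255732) (nat_lit 76) (nat_lit 50848537379) (nat_lit 76) (nat_lit 50423359445) (nat_lit 3) (nat_lit 4) (nat_lit 4) (nat_lit 5) (nat_lit 4) (nat_lit 4) (nat_lit 467) (nat_lit 371) (nat_lit 362)) (XT.nd (nat_lit 78) (nat_lit 0) (nat_lit 0) (XT.lf (nat_lit 0) (nat_lit 18564729892) (nat_lit 76) (nat_lit 48100177337) (nat_lit 76) (nat_lit 47643473360) (nat_lit 3) (nat_lit 4) (nat_lit 4) (nat_lit 5) (nat_lit 4) (nat_lit 4) (nat_lit 468) (nat_lit 371) (nat_lit 361)) (XT.lf (nat_lit 0)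 (nat_lit 32693197253) (nat_lit 76) (nat_lit 45377227587) (nat_lit 76) (nat_lit 44891332831) (nat_lit 3) (nat_lit 4) (nat_lit 4) (nat_lit 5) (nat_lit 4) (nat_lit 4) (nat_lit 469) (nat_lit 371) (nat_lit 360))))))) (XT.nd (nat_lit 936) (nat_lit 152) (nat_lit 0) (XT.nd (nat_lit 468) (nat_lit 0) (nat_lit 0) (XT.nd (nat_lit 234) (nat_lit 0) (nat_lit 0) (XT.nd (nat_lit 78) (nat_lit 0) (nat_lit 0) (XT.lf (nat_lit 0) (nat_lit 47510382064) (nat_lit 76) (nat_lit 42663552131) (nat_lit 76) (nat_lit 42150628875) (nat_lit 3) (nat_lit 4) (nat_lit 4) (nat_lit 5) (nat_lit 4) (nat_lit 4) (nat_lit 470) (nat_lit 371) (nat_lit 359)) (XT.nd (nat_lit 78) (nat_lit 0) (nat_lit 0) (XT.lf (nat_lit 0) (nat_lit 63104089866) (nat_lit 76) (nat_lit 39943069928) (nat_lit 76) (nat_lit 39405120283) (nat_lit 3) (nat_lit 4) (nat_lit 4) (nat_lit 5) (nat_lit 4) (nat_lit 4) (nat_lit 471) (nat_lit 371) (nat_lit 358)) (XT.lf (nat_lit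 0) (nat_lit 79566727816) (nat_lit 76) (nat_lit 37199659603) (nat_lit 76) (nat_lit 36638537376) (nat_lit 3) (nat_lit 4) (nat_lit 4) (nat_lit 5) (nat_lit 4) (nat_lit 4) (nat_lit 472) (nat_lit 371) (nat_lit 357)))) (XT.nd (nat_lit 78) (nat_lit 0) (nat_lit 0) (XT.lf (nat_lit 0) (nat_lit 96995852287) (nat_lit 76) (nat_lit 34417063909) (nat_lit 76) (nat_lit 33834485588) (nat_lit 3) (nat_lit 4) (nat_lit 4) (nat_lit 5) (nat_lit 4) (nat_lit 4) (nat_lit 473) (nat_lit 371) (nat_lit 356)) (XT.nd (nat_lit 78) (nat_lit 0) (nat_lit 0) (XT.lf (nat_lit 0) (nat_lit 115494746980) (nat_lit 76) (nat_lit 31578793391) (nat_lit 76) (nat_lit 30976348316) (nat_lit 3) (nat_lit 4) (nat_lit 4) (nat_lit 5) (nat_lit 4) (nat_lit 4) (nat_lit 474) (nat_lit 371) (nat_lit 355)) (XT.lf (nat_lit 0) (nat_lit 135173034974) (nat_lit 76) (nat_lit 28668028667) (nat_lit 76) (nat_lit 28047188449) (nat_lit 3) (nat_lit 4) (nat_lit 4)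 (nat_lit 5) (nat_lit 4) (nat_lit 4) (nat_lit 475) (nat_lit 371) (nat_lit 354))))) (XT.nd (nat_lit 234) (nat_lit 0) (nat_lit 0) (XT.nd (nat_lit 78) (nat_lit 0) (nat_lit 0) (XT.lf (nat_lit 0) (nat_lit 156147328346) (nat_lit 76) (nat_lit 25667520762) (nat_lit 76) (nat_lit 25029648004) (nat_lit 3) (nat_lit 4) (nat_lit 4) (nat_lit 5) (nat_lit 4) (nat_lit 4) (nat_lit 476) (nat_lit 371) (nat_lit 353)) (XT.nd (nat_lit 78) (nat_lit 0) (nat_lit 0) (XT.lf (nat_lit 0) (nat_lit 178541919205) (nat_lit 76) (nat_lit 22559488888) (nat_lit 76) (nat_lit 21905845260) (nat_lit 3) (nat_lit 4) (nat_lit 4) (nat_lit 5) (nat_lit 4) (nat_lit 4) (nat_lit 477) (nat_lit 371) (nat_lit 352)) (XT.lf (nat_lit 0) (nat_lit 202489516238) (nat_lit 76) (nat_lit 19325515077) (nat_lit 76) (nat_lit 18657268792) (nat_lit 3) (nat_lit 4) (nat_lit 4) (nat_lit 5) (nat_lit 4) (nat_lit 4) (nat_lit 478) (nat_lit 371) (nat_lit 351)))) (XT.nd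 (nat_lit 78) (nat_lit 0) (nat_lit 0) (XT.lf (nat_lit 0) (nat_lit 228132031131) (nat_lit 76) (nat_lit 15946435042) (nat_lit 76) (nat_lit 15264667778) (nat_lit 3) (nat_lit 4) (nat_lit 4) (nat_lit 5) (nat_lit 4) (nat_lit 4) (nat_lit 479) (nat_lit 371) (nat_lit 350)) (XT.nd (nat_lit 78) (nat_lit 0) (nat_lit 0) (XT.lf (nat_lit 0) (nat_lit 255621419528) (nat_lit 76) (nat_lit 12402224604) (nat_lit 76) (nat_lit 11707937915) (nat_lit 3) (nat_lit 4) (nat_lit 4) (nat_lit 5) (nat_lit 4) (nat_lit 4) (nat_lit 480) (nat_lit 371) (nat_lit 349)) (XT.lf (nat_lit 0) (nat_lit 285120581507) (nat_lit 76) (nat_lit 8671881034) (nat_lit 76) (nat_lit 7966002285) (nat_lit 3) (nat_lit 4) (nat_lit 4) (nat_lit 5) (nat_lit 4) (nat_lit 4) (nat_lit 481) (nat_lit 371) (nat_lit 348)))))) (XT.nd (nat_lit 468) (nat_lit 0) (nat_lit 0) (XT.nd (nat_lit 234) (nat_lit 0) (nat_lit 0) (XT.nd (nat_lit 78) (nat_lit 152) (nat_lit 0)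 (XT.lf (nat_lit 0) (nat_lit 316804326919) (nat_lit 76) (nat_lit 4733298593) (nat_lit 76) (nat_lit 4016686454) (nat_lit 3) (nat_lit 4) (nat_lit 4) (nat_lit 5) (nat_lit 4) (nat_lit 4) (nat_lit 482) (nat_lit 371) (nat_lit 347)) (XT.nd (nat_lit 78) (nat_lit 76) (nat_lit 0) (XT.lf (nat_lit 0) (nat_lit 155238352) (nat_lit 152) (nat_lit 403654688) (nat_lit 76) (nat_lit 350700928446) (nat_lit 2) (nat_lit 5) (nat_lit 4) (nat_lit 5) (nat_lit 3) (nat_lit 4) (nat_lit 483) (nat_lit 371) (nat_lit 346)) (XT.lf (nat_lit 0) (nat_lit 4681717780) (nat_lit 152) (nat_lit 370312218471) (nat_lit 0) (nat_lit 4000465361) (nat_lit 1) (nat_lit 5) (nat_lit 3) (nat_lit 4) (nat_lit 1) (nat_lit 4) (nat_lit 484) (nat_lit 371) (nat_lit 345)))) (XT.nd (nat_lit 78) (nat_lit 0) (nat_lit 0) (XT.lf (nat_lit 0) (nat_lit 9521317620) (nat_lit 152) (nat_lit 390598175159) (nat_lit 0) (nat_lit 8832175839) (nat_lit 1) (nat_lit 5)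 (nat_lit 3) (nat_lit 4) (nat_lit 1) (nat_lit 4) (nat_lit 485) (nat_lit 371) (nat_lit 344)) (XT.nd (nat_lit 78) (nat_lit 0) (nat_lit 0) (XT.lf (nat_lit 0) (nat_lit 14678791054) (nat_lit 152) (nat_lit 412649925763) (nat_lit 0) (nat_lit 13982344309) (nat_lit 1) (nat_lit 5) (nat_lit 3) (nat_lit 4) (nat_lit 1) (nat_lit 4) (nat_lit 486) (nat_lit 371) (nat_lit 343)) (XT.lf (nat_lit 0) (nat_lit 20184700886) (nat_lit 152) (nat_lit 436598147324) (nat_lit 0) (nat_lit 19481490286) (nat_lit 1) (nat_lit 5) (nat_lit 3) (nat_lit 4) (nat_lit 1) (nat_lit 4) (nat_lit 487) (nat_lit 371) (nat_lit 342))))) (XT.nd (nat_lit 234) (nat_lit 0) (nat_lit 0) (XT.nd (nat_lit 78) (nat_lit 0) (nat_lit 0) (XT.lf (nat_lit 0) (nat_lit 26071674732) (nat_lit 152) (nat_lit 462584755229) (nat_lit 0) (nat_lit 25362201302) (nat_lit 1) (nat_lit 5) (nat_lit 3) (nat_lit 4) (nat_lit 1) (nat_lit 4) (nat_lit 488) (nat_lit 371) (nat_lit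 341)) (XT.nd (nat_lit 78) (nat_lit 0) (nat_lit 0) (XT.lf (nat_lit 0) (nat_lit 32374598362) (nat_lit 152) (nat_lit 490763744192) (nat_lit 0) (nat_lit 31659326016) (nat_lit 1) (nat_lit 5) (nat_lit 3) (nat_lit 4) (nat_lit 1) (nat_lit 4) (nat_lit 489) (nat_lit 371) (nat_lit 340)) (XT.lf (nat_lit 0) (nat_lit 39130822434) (nat_lit 152) (nat_lit 521302100813) (nat_lit 0) (nat_lit 38410180721) (nat_lit 1) (nat_lit 5) (nat_lit 3) (nat_lit 4) (nat_lit 1) (nat_lit 4) (nat_lit 490) (nat_lit 371) (nat_lit 339)))) (XT.nd (nat_lit 78) (nat_lit 0) (nat_lit 0) (XT.lf (nat_lit 0) (nat_lit 46380383832) (nat_lit 152) (nat_lit 554380793133) (nat_lit 0) (nat_lit 45654770483) (nat_lit 1) (nat_lit 5) (nat_lit 3) (nat_lit 4) (nat_lit 1) (nat_lit 4) (nat_lit 491) (nat_lit 371) (nat_lit 338)) (XT.nd (nat_lit 78) (nat_lit 0) (nat_lit 0) (XT.lf (nat_lit 0) (nat_lit 54166242919) (nat_lit 152) (nat_lit 590195843031)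 (nat_lit 0) (nat_lit 53436026204) (nat_lit 1) (nat_lit 5) (nat_lit 3) (nat_lit 4) (nat_lit 1) (nat_lit 4) (nat_lit 492) (nat_lit 371) (nat_lit 337)) (XT.lf (nat_lit 0) (nat_lit 62534538121) (nat_lit 152) (nat_lit 628959487841) (nat_lit 0) (nat_lit 61800059029) (nat_lit 1) (nat_lit 5) (nat_lit 3) (nat_lit 4) (nat_lit 1) (nat_lit 4) (nat_lit 493) (nat_lit 371) (nat_lit 336))))))))
noncomputable def xc30 : XT := (XT.nd (nat_lit 1794) (nat_lit 0) (nat_lit 0) (XT.nd (nat_lit 858) (nat_lit 0) (nat_lit 0) (XT.nd (nat_lit 390) (nat_lit 0) (nat_lit 0) (XT.nd (nat_lit 156) (nat_lit 0) (nat_lit 0) (XT.nd (nat_lit 78) (nat_lit 0) (nat_lit 0) (XT.lf (nat_lit 0) (nat_lit 71534859334) (nat_lit 152) (nat_lit 670901438049) (nat_lit 0) (nat_lit 70796433597) (nat_lit 1) (nat_lit 5) (nat_lit 3) (nat_lit 4) (nat_lit 1) (nat_lit 4) (nat_lit 494) (nat_lit 371) (nat_lit 335)) (XT.lf (nat_lit 0) (nat_lit 81220541795)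 (nat_lit 152) (nat_lit 716270238547) (nat_lit 0) (nat_lit 80478461757) (nat_lit 1) (nat_lit 5) (nat_lit 3) (nat_lit 4) (nat_lit 1) (nat_lit 4) (nat_lit 495) (nat_lit 371) (nat_lit 334))) (XT.nd (nat_lit 78) (nat_lit 0) (nat_lit 0) (XT.lf (nat_lit 0) (nat_lit 91648982141) (nat_lit 152) (nat_lit 765334741484) (nat_lit 0) (nat_lit 90903518491) (nat_lit 1) (nat_lit 5) (nat_lit 3) (nat_lit 4) (nat_lit 1) (nat_lit 4) (nat_lit 496) (nat_lit 371) (nat_lit 333)) (XT.nd (nat_lit 78) (nat_lit 0) (nat_lit 0) (XT.lf (nat_lit 0) (nat_lit 102881978537) (nat_lit 152) (nat_lit 818385699472) (nat_lit 0) (nat_lit 102133381913) (nat_lit 1) (nat_lit 5) (nat_lit 3) (nat_lit 4) (nat_lit 1) (nat_lit 4) (nat_lit 497) (nat_lit 371) (nat_lit 332)) (XT.lf (nat_lit 0) (nat_lit 114986096888) (nat_lit 152) (nat_lit 875737488558) (nat_lit 0) (nat_lit 114234599362) (nat_lit 1) (nat_lit 5) (nat_lit 3) (nat_lit 4) (nat_lit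 1) (nat_lit 4) (nat_lit 498) (nat_lit 371) (nat_lit 331))))) (XT.nd (nat_lit 234) (nat_lit 0) (nat_lit 0) (XT.nd (nat_lit 78) (nat_lit 0) (nat_lit 0) (XT.lf (nat_lit 0) (nat_lit 128033065302) (nat_lit 152) (nat_lit 937729971195) (nat_lit 0) (nat_lit 127278881756) (nat_lit 1) (nat_lit 5) (nat_lit 3) (nat_lit 4) (nat_lit 1) (nat_lit 4) (nat_lit 499) (nat_lit 371) (nat_lit 330)) (XT.nd (nat_lit 78) (nat_lit 0) (nat_lit 0) (XT.lf (nat_lit 0) (nat_lit 142100199147) (nat_lit 152) (nat_lit 1004730510243) (nat_lit 0) (nat_lit 141343528546) (nat_lit 1) (nat_lit 5) (nat_lit 3) (nat_lit 4) (nat_lit 1) (nat_lit 4) (nat_lit 500) (nat_lit 371) (nat_lit 329)) (XT.lf (nat_lit 0) (nat_lit 157270859218) (nat_lit 152) (nat_lit 1077136145934) (nat_lit 0) (nat_lit 156511885787) (nat_lit 1) (nat_lit 5) (nat_lit 3) (nat_lit 4) (nat_lit 1) (nat_lit 4) (nat_lit 501) (nat_lit 371) (nat_lit 328)))) (XT.nd (nat_lit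 78) (nat_lit 0) (nat_lit 0) (XT.lf (nat_lit 0) (nat_lit 173634945721) (nat_lit 152) (nat_lit 1155375948702) (nat_lit 0) (nat_lit 172873840041) (nat_lit 1) (nat_lit 5) (nat_lit 3) (nat_lit 4) (nat_lit 1) (nat_lit 4) (nat_lit 502) (nat_lit 371) (nat_lit 327)) (XT.nd (nat_lit 78) (nat_lit 0) (nat_lit 0) (XT.lf (nat_lit 0) (nat_lit 191289431022) (nat_lit 152) (nat_lit 1239913561822) (nat_lit 0) (nat_lit 190526351036) (nat_lit 1) (nat_lit 5) (nat_lit 3) (nat_lit 4) (nat_lit 1) (nat_lit 4) (nat_lit 503) (nat_lit 371) (nat_lit 326)) (XT.lf (nat_lit 0) (nat_lit 210338934291) (nat_lit 152) (nat_lit 1331249948927) (nat_lit 0) (nat_lit 209574026246) (nat_lit 1) (nat_lit 5) (nat_lit 3) (nat_lit 4) (nat_lit 1) (nat_lit 4) (nat_lit 504) (nat_lit 371) (nat_lit 325)))))) (XT.nd (nat_lit 468) (nat_lit 0) (nat_lit 0) (XT.nd (nat_lit 234) (nat_lit 0) (nat_lit 0) (XT.nd (nat_lit 78) (nat_lit 0) (nat_lit 0)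 (XT.lf (nat_lit 0) (nat_lit 230896341476) (nat_lit 152) (nat_lit 1429926362682) (nat_lit 0) (nat_lit 230129740782) (nat_lit 1) (nat_lit 5) (nat_lit 3) (nat_lit 4) (nat_lit 1) (nat_lit 4) (nat_lit 505) (nat_lit 371) (nat_lit 324)) (XT.nd (nat_lit 78) (nat_lit 0) (nat_lit 0) (XT.lf (nat_lit 0) (nat_lit 253083474247) (nat_lit 152) (nat_lit 1536527552206) (nat_lit 0) (nat_lit 252315306286) (nat_lit 1) (nat_lit 5) (nat_lit 3) (nat_lit 4) (nat_lit 1) (nat_lit 4) (nat_lit 506) (nat_lit 371) (nat_lit 323)) (XT.lf (nat_lit 0) (nat_lit 277031811910) (nat_lit 152) (nat_lit 1651685228251) (nat_lit 0) (nat_lit 276262192776) (nat_lit 1) (nat_lit 5) (nat_lit 3) (nat_lit 4) (nat_lit 1) (nat_lit 4) (nat_lit 507) (nat_lit 371) (nat_lit 322)))) (XT.nd (nat_lit 78) (nat_lit 0) (nat_lit 0) (XT.lf (nat_lit 0) (nat_lit 302883270541) (nat_lit 152) (nat_lit 1776081806675) (nat_lit 0) (nat_lit 302112307728) (nat_lit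 1) (nat_lit 5) (nat_lit 3) (nat_lit 4) (nat_lit 1) (nat_lit 4) (nat_lit 508) (nat_lit 371) (nat_lit 321)) (XT.nd (nat_lit 78) (nat_lit 0) (nat_lit 0) (XT.lf (nat_lit 0) (nat_lit 330791043967) (nat_lit 152) (nat_lit 1910454452387) (nat_lit 0) (nat_lit 330018837008) (nat_lit 1) (nat_lit 5) (nat_lit 3) (nat_lit 4) (nat_lit 1) (nat_lit 4) (nat_lit 509) (nat_lit 371) (nat_lit 320)) (XT.lf (nat_lit 0) (nat_lit 360920511588) (nat_lit 152) (nat_lit 2055599447733) (nat_lit 0) (nat_lit 360147152640) (nat_lit 1) (nat_lit 5) (nat_lit 3) (nat_lit 4) (nat_lit 1) (nat_lit 4) (nat_lit 510) (nat_lit 371) (nat_lit 319))))) (XT.nd (nat_lit 234) (nat_lit 0) (nat_lit 0) (XT.nd (nat_lit 78) (nat_lit 0) (nat_lit 0) (XT.lf (nat_lit 0) (nat_lit 393450218396) (nat_lit 152) (nat_lit 2212376911203) (nat_lit 0) (nat_lit 392675792793) (nat_lit 1) (nat_lit 5) (nat_lit 3) (nat_lit 4) (nat_lit 1) (nat_lit 4) (nat_lit 511)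 (nat_lit 371) (nat_lit 318)) (XT.nd (nat_lit 78) (nat_lit 0) (nat_lit 0) (XT.lf (nat_lit 0) (nat_lit 428572933025) (nat_lit 152) (nat_lit 2381715894433) (nat_lit 0) (nat_lit 427797519778) (nat_lit 1) (nat_lit 5) (nat_lit 3) (nat_lit 4) (nat_lit 1) (nat_lit 4) (nat_lit 512) (nat_lit 371) (nat_lit 317)) (XT.lf (nat_lit 0) (nat_lit 466496790079) (nat_lit 152) (nat_lit 2564619887693) (nat_lit 0) (nat_lit 465720462347) (nat_lit 1) (nat_lit 5) (nat_lit 3) (nat_lit 4) (nat_lit 1) (nat_lit 4) (nat_lit 513) (nat_lit 371) (nat_lit 316)))) (XT.nd (nat_lit 78) (nat_lit 0) (nat_lit 0) (XT.lf (nat_lit 0) (nat_lit 507446523527) (nat_lit 152) (nat_lit 2762172766500) (nat_lit 0) (nat_lit 506669349049) (nat_lit 1) (nat_lit 5) (nat_lit 3) (nat_lit 4) (nat_lit 1) (nat_lit 4) (nat_lit 514) (nat_lit 371) (nat_lit 315)) (XT.nd (nat_lit 78) (nat_lit 0) (nat_lit 0) (XT.lf (nat_lit 0) (nat_lit 551664798455) (nat_lit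 152) (nat_lit 2975545214579) (nat_lit 0) (nat_lit 550886839953) (nat_lit 1) (nat_lit 5) (nat_lit 3) (nat_lit 4) (nat_lit 1) (nat_lit 4) (nat_lit 515) (nat_lit 371) (nat_lit 314)) (XT.lf (nat_lit 0) (nat_lit 599413649085) (nat_lit 152) (nat_lit 3206001661253) (nat_lit 0) (nat_lit 598634964636) (nat_lit 1) (nat_lit 5) (nat_lit 3) (nat_lit 4) (nat_lit 1) (nat_lit 4) (nat_lit 516) (nat_lit 371) (nat_lit 313))))))) (XT.nd (nat_lit 936) (nat_lit 0) (nat_lit 0) (XT.nd (nat_lit 468) (nat_lit 0) (nat_lit 0) (XT.nd (nat_lit 234) (nat_lit 0) (nat_lit 0) (XT.nd (nat_lit 78) (nat_lit 0) (nat_lit 0) (XT.lf (nat_lit 0) (nat_lit 650976031570) (nat_lit 152) (nat_lit 3454907774353) (nat_lit 0) (nat_lit 650196674946) (nat_lit 1) (nat_lit 5) (nat_lit 3) (nat_lit 4) (nat_lit 1) (nat_lit 4) (nat_lit 517) (nat_lit 371) (nat_lit 312)) (XT.nd (nat_lit 78) (nat_lit 0) (nat_lit 0) (XT.lf (nat_lit 0) (nat_lit 706657500768)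 (nat_lit 152) (nat_lit 3723738553068) (nat_lit 0) (nat_lit 705877521761) (nat_lit 1) (nat_lit 5) (nat_lit 3) (nat_lit 4) (nat_lit 1) (nat_lit 4) (nat_lit 518) (nat_lit 371) (nat_lit 311)) (XT.lf (nat_lit 0) (nat_lit 766788020941) (nat_lit 152) (nat_lit 4014087068681) (nat_lit 0) (nat_lit 766007465653) (nat_lit 1) (nat_lit 5) (nat_lit 3) (nat_lit 4) (nat_lit 1) (nat_lit 4) (nat_lit 519) (nat_lit 371) (nat_lit 310)))) (XT.nd (nat_lit 78) (nat_lit 0) (nat_lit 0) (XT.lf (nat_lit 0) (nat_lit 831723921097) (nat_lit 152) (nat_lit 4327673904986) (nat_lit 0) (nat_lit 830942832216) (nat_lit 1) (nat_lit 5) (nat_lit 3) (nat_lit 4) (nat_lit 1) (nat_lit 4) (nat_lit 520) (nat_lit 371) (nat_lit 309)) (XT.nd (nat_lit 78) (nat_lit 0) (nat_lit 0) (XT.lf (nat_lit 0) (nat_lit 901850006572) (nat_lit 152) (nat_lit 4666357354347) (nat_lit 0) (nat_lit 901068423623) (nat_lit 1) (nat_lit 5) (nat_lit 3) (nat_lit 4)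 (nat_lit 1) (nat_lit 4) (nat_lit 521) (nat_lit 371) (nat_lit 308)) (XT.lf (nat_lit 0) (nat_lit 977581839353) (nat_lit 152) (nat_lit 5032144429797) (nat_lit 0) (nat_lit 976799798933) (nat_lit 1) (nat_lit 5) (nat_lit 3) (nat_lit 4) (nat_lit 1) (nat_lit 4) (nat_lit 522) (nat_lit 371) (nat_lit 307))))) (XT.nd (nat_lit 234) (nat_lit 0) (nat_lit 0) (XT.nd (nat_lit 78) (nat_lit 0) (nat_lit 0) (XT.lf (nat_lit 0) (nat_lit 1059368200670) (nat_lit 152) (nat_lit 5427202758451) (nat_lit 0) (nat_lit 1058585736667) (nat_lit 1) (nat_lit 5) (nat_lit 3) (nat_lit 4) (nat_lit 1) (nat_lit 4) (nat_lit 523) (nat_lit 371) (nat_lit 306)) (XT.nd (nat_lit 78) (nat_lit 0) (nat_lit 0) (XT.lf (nat_lit 0) (nat_lit 1147693750444) (nat_lit 152) (nat_lit 5853873426700) (nat_lit 0) (nat_lit 1146910894234) (nat_lit 1) (nat_lit 5) (nat_lit 3) (nat_lit 4) (nat_lit 1) (nat_lit 4) (nat_lit 524) (nat_lit 371) (nat_lit 305)) (XT.lf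 (nat_lit 0) (nat_lit 1243081899339) (nat_lit 152) (nat_lit 6314684853319) (nat_lit 0) (nat_lit 1242298679975) (nat_lit 1) (nat_lit 5) (nat_lit 3) (nat_lit 4) (nat_lit 1) (nat_lit 4) (nat_lit 525) (nat_lit 371) (nat_lit 304)))) (XT.nd (nat_lit 78) (nat_lit 0) (nat_lit 0) (XT.lf (nat_lit 0) (nat_lit 1346097910461) (nat_lit 152) (nat_lit 6812367772688) (nat_lit 0) (nat_lit 1345314354842) (nat_lit 1) (nat_lit 5) (nat_lit 3) (nat_lit 4) (nat_lit 1) (nat_lit 4) (nat_lit 526) (nat_lit 371) (nat_lit 303)) (XT.nd (nat_lit 78) (nat_lit 0) (nat_lit 0) (XT.lf (nat_lit 0) (nat_lit 1457352249059) (nat_lit 152) (nat_lit 7349871416921) (nat_lit 0) (nat_lit 1456568382093) (nat_lit 1) (nat_lit 5) (nat_lit 3) (nat_lit 4) (nat_lit 1) (nat_lit 4) (nat_lit 527) (nat_lit 371) (nat_lit 302)) (XT.lf (nat_lit 0) (nat_lit 1577504200104) (nat_lit 152) (nat_lit 7930380992800) (nat_lit 0) (nat_lit 1576720044854) (nat_lit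 1) (nat_lit 5) (nat_lit 3) (nat_lit 4) (nat_lit 1) (nat_lit 4) (nat_lit 528) (nat_lit 371) (nat_lit 301)))))) (XT.nd (nat_lit 57018) (nat_lit 0) (nat_lit 228) (XT.nd (nat_lit 56784) (nat_lit 0) (nat_lit 380) (XT.nd (nat_lit 78) (nat_lit 0) (nat_lit 0) (XT.lf (nat_lit 0) (nat_lit 1707265775157) (nat_lit 152) (nat_lit 8557336557071) (nat_lit 0) (nat_lit 1706481352978) (nat_lit 1) (nat_lit 5) (nat_lit 3) (nat_lit 4) (nat_lit 1) (nat_lit 4) (nat_lit 529) (nat_lit 371) (nat_lit 300)) (XT.nd (nat_lit 78) (nat_lit 0) (nat_lit 0) (XT.lf (nat_lit 0) (nat_lit 1847405931700) (nat_lit 152) (nat_lit 9234453401965) (nat_lit 0) (nat_lit 1846621262364) (nat_lit 1) (nat_lit 5) (nat_lit 3) (nat_lit 4) (nat_lit 1) (nat_lit 4) (nat_lit 530) (nat_lit 371) (nat_lit 299)) (XT.lf (nat_lit 0) (nat_lit 1998755129921) (nat_lit 152) (nat_lit 9965744071750) (nat_lit 0) (nat_lit 1997970231736) (nat_lit 1) (nat_lit 5)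 (nat_lit 3) (nat_lit 4) (nat_lit 1) (nat_lit 4) (nat_lit 531) (nat_lit 371) (nat_lit 298)))) (XT.nd (nat_lit 78) (nat_lit 76) (nat_lit 0) (XT.lf (nat_lit 0) (nat_lit 8631222238) (nat_lit 152) (nat_lit 7728617675) (nat_lit 0) (nat_lit 8631222238) (nat_lit 7) (nat_lit 5) (nat_lit 9) (nat_lit 4) (nat_lit 7) (nat_lit 4) (nat_lit 456) (nat_lit 372) (nat_lit 372)) (XT.nd (nat_lit 78) (nat_lit 0) (nat_lit 0) (XT.lf (nat_lit 0) (nat_lit 513988393) (nat_lit 76) (nat_lit 26434666246) (nat_lit 76) (nat_lit 26361158897) (nat_lit 6) (nat_lit 4) (nat_lit 7) (nat_lit 5) (nat_lit 7) (nat_lit 4) (nat_lit 457) (nat_lit 372) (nat_lit 371)) (XT.lf (nat_lit 0) (nat_lit 17760104039) (nat_lit 76) (nat_lit 19642866187) (nat_lit 76) (nat_lit 19501296478) (nat_lit 6) (nat_lit 4) (nat_lit 7) (nat_lit 5) (nat_lit 7) (nat_lit 4) (nat_lit 458) (nat_lit 372) (nat_lit 370))))) (XT.nd (nat_lit 234) (nat_lit 0) (nat_lit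 0) (XT.nd (nat_lit 78) (nat_lit 152) (nat_lit 0) (XT.lf (nat_lit 0) (nat_lit 35569360171) (nat_lit 76) (nat_lit 12726660153) (nat_lit 76) (nat_lit 12522069740) (nat_lit 6) (nat_lit 4) (nat_lit 7) (nat_lit 5) (nat_lit 7) (nat_lit 4) (nat_lit 459) (nat_lit 372) (nat_lit 369)) (XT.nd (nat_lit 78) (nat_lit 152) (nat_lit 0) (XT.lf (nat_lit 0) (nat_lit 54047293119) (nat_lit 76) (nat_lit 5645063220) (nat_lit 76) (nat_lit 5382120303) (nat_lit 6) (nat_lit 4) (nat_lit 7) (nat_lit 5) (nat_lit 7) (nat_lit 4) (nat_lit 460) (nat_lit 372) (nat_lit 368)) (XT.lf (nat_lit 0) (nat_lit 1995937867) (nat_lit 152) (nat_lit 65985841323) (nat_lit 0) (nat_lit 1702444337) (nat_lit 4) (nat_lit 5) (nat_lit 6) (nat_lit 4) (nat_lit 4) (nat_lit 4) (nat_lit 461) (nat_lit 372) (nat_lit 367)))) (XT.nd (nat_lit 78) (nat_lit 0) (nat_lit 0) (XT.lf (nat_lit 0) (nat_lit 9780096362) (nat_lit 152) (nat_lit 55422662777) (nat_lit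 0) (nat_lit 9440280733) (nat_lit 4) (nat_lit 5) (nat_lit 6) (nat_lit 4) (nat_lit 4) (nat_lit 4) (nat_lit 462) (nat_lit 372) (nat_lit 366)) (XT.nd (nat_lit 78) (nat_lit 0) (nat_lit 0) (XT.lf (nat_lit 0) (nat_lit 17863534726) (nat_lit 152) (nat_lit 44680078216) (nat_lit 0) (nat_lit 17480828265) (nat_lit 4) (nat_lit 5) (nat_lit 6) (nat_lit 4) (nat_lit 4) (nat_lit 4) (nat_lit 463) (nat_lit 372) (nat_lit 365)) (XT.lf (nat_lit 0) (nat_lit 26294154815) (nat_lit 152) (nat_lit 33694427880) (nat_lit 0) (nat_lit 25871734621) (nat_lit 4) (nat_lit 5) (nat_lit 6) (nat_lit 4) (nat_lit 4) (nat_lit 4) (nat_lit 464) (nat_lit 372) (nat_lit 364))))))))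
noncomputable def xc31 : XT := (XT.nd (nat_lit 1794) (nat_lit 0) (nat_lit 0) (XT.nd (nat_lit 858) (nat_lit 152) (nat_lit 0) (XT.nd (nat_lit 390) (nat_lit 0) (nat_lit 0) (XT.nd (nat_lit 156) (nat_lit 76) (nat_lit 0) (XT.nd (nat_lit 78) (nat_lit 0) (nat_lit 0) (XT.lf (nat_lit 0) (nat_lit 35121915860) (nat_lit 152) (nat_lit 22400611619) (nat_lit 0) (nat_lit 34662723691) (nat_lit 4) (nat_lit 5) (nat_lit 6) (nat_lit 4) (nat_lit 4) (nat_lit 4) (nat_lit 465) (nat_lit 372) (nat_lit 363)) (XT.lf (nat_lit 0) (nat_lit 44399130519) (nat_lit 152) (nat_lit 10731703114) (nat_lit 0) (nat_lit 43905890224) (nat_lit 4) (nat_lit 5) (nat_lit 6) (nat_lit 4) (nat_lit 4) (nat_lit 4) (nat_lit 466) (nat_lit 372) (nat_lit 362))) (XT.nd (nat_lit 78) (nat_lit 0) (nat_lit 0) (XT.lf (nat_lit 0) (nat_lit 1454191257) (nat_lit 76) (nat_lit 52761556957) (nat_lit 76) (nat_lit 52236790620) (nat_lit 3) (nat_lit 4) (nat_lit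 4) (nat_lit 5) (nat_lit 4) (nat_lit 4) (nat_lit 467) (nat_lit 372) (nat_lit 361)) (XT.nd (nat_lit 78) (nat_lit 0) (nat_lit 0) (XT.lf (nat_lit 0) (nat_lit 14748393911) (nat_lit 76) (nat_lit 50131119557) (nat_lit 76) (nat_lit 49577162440) (nat_lit 3) (nat_lit 4) (nat_lit 4) (nat_lit 5) (nat_lit 4) (nat_lit 4) (nat_lit 468) (nat_lit 372) (nat_lit 360)) (XT.lf (nat_lit 0) (nat_lit 28664572840) (nat_lit 76) (nat_lit 47517357438) (nat_lit 76) (nat_lit 46936371822) (nat_lit 3) (nat_lit 4) (nat_lit 4) (nat_lit 5) (nat_lit 4) (nat_lit 4) (nat_lit 469) (nat_lit 372) (nat_lit 359))))) (XT.nd (nat_lit 234) (nat_lit 0) (nat_lit 0) (XT.nd (nat_lit 78) (nat_lit 0) (nat_lit 0) (XT.lf (nat_lit 0) (nat_lit 43285194288) (nat_lit 76) (nat_lit 44904781640) (nat_lit 76) (nat_lit 44298769636) (nat_lit 3) (nat_lit 4) (nat_lit 4) (nat_lit 5) (nat_lit 4) (nat_lit 4) (nat_lit 470) (nat_lit 372) (nat_lit 358)) (XT.nd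 (nat_lit 78) (nat_lit 0) (nat_lit 0) (XT.lf (nat_lit 0) (nat_lit 58696898977) (nat_lit 76) (nat_lit 42277910233) (nat_lit 76) (nat_lit 41648725646) (nat_lit 3) (nat_lit 4) (nat_lit 4) (nat_lit 5) (nat_lit 4) (nat_lit 4) (nat_lit 471) (nat_lit 372) (nat_lit 357)) (XT.lf (nat_lit 0) (nat_lit 74991015525) (nat_lit 76) (nat_lit 39621176570) (nat_lit 76) (nat_lit 38970535889) (nat_lit 3) (nat_lit 4) (nat_lit 4) (nat_lit 5) (nat_lit 4) (nat_lit 4) (nat_lit 472) (nat_lit 372) (nat_lit 356)))) (XT.nd (nat_lit 78) (nat_lit 0) (nat_lit 0) (XT.lf (nat_lit 0) (nat_lit 92264101662) (nat_lit 76) (nat_lit 36918837045) (nat_lit 76) (nat_lit 36248329610) (nat_lit 3) (nat_lit 4) (nat_lit 4) (nat_lit 5) (nat_lit 4) (nat_lit 4) (nat_lit 473) (nat_lit 372) (nat_lit 355)) (XT.nd (nat_lit 78) (nat_lit 0) (nat_lit 0) (XT.lf (nat_lit 0) (nat_lit 110618516415) (nat_lit 76) (nat_lit 34154877794) (nat_lit 76) (nat_lit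 33465975216) (nat_lit 3) (nat_lit 4) (nat_lit 4) (nat_lit 5) (nat_lit 4) (nat_lit 4) (nat_lit 474) (nat_lit 372) (nat_lit 354)) (XT.lf (nat_lit 0) (nat_lit 130163026687) (nat_lit 76) (nat_lit 31312919799) (nat_lit 76) (nat_lit 30606984682) (nat_lit 3) (nat_lit 4) (nat_lit 4) (nat_lit 5) (nat_lit 4) (nat_lit 4) (nat_lit 475) (nat_lit 372) (nat_lit 353)))))) (XT.nd (nat_lit 468) (nat_lit 152) (nat_lit 0) (XT.nd (nat_lit 234) (nat_lit 0) (nat_lit 0) (XT.nd (nat_lit 78) (nat_lit 0) (nat_lit 0) (XT.lf (nat_lit 0) (nat_lit 151013451798) (nat_lit 76) (nat_lit 28376121828) (nat_lit 76) (nat_lit 27654415841) (nat_lit 3) (nat_lit 4) (nat_lit 4) (nat_lit 5) (nat_lit 4) (nat_lit 4) (nat_lit 476) (nat_lit 372) (nat_lit 352)) (XT.nd (nat_lit 78) (nat_lit 0) (nat_lit 0) (XT.lf (nat_lit 0) (nat_lit 173293349824) (nat_lit 76) (nat_lit 25327080634) (nat_lit 76) (nat_lit 24590771989) (nat_lit 3) (nat_lit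 4) (nat_lit 4) (nat_lit 5) (nat_lit 4) (nat_lit 4) (nat_lit 477) (nat_lit 372) (nat_lit 351)) (XT.lf (nat_lit 0) (nat_lit 197134749788) (nat_lit 76) (nat_lit 22147727824) (nat_lit 76) (nat_lit 21397898199) (nat_lit 3) (nat_lit 4) (nat_lit 4) (nat_lit 5) (nat_lit 4) (nat_lit 4) (nat_lit 478) (nat_lit 372) (nat_lit 350)))) (XT.nd (nat_lit 78) (nat_lit 0) (nat_lit 0) (XT.lf (nat_lit 0) (nat_lit 222678934062) (nat_lit 76) (nat_lit 18819222788) (nat_lit 76) (nat_lit 18056873739) (nat_lit 3) (nat_lit 4) (nat_lit 4) (nat_lit 5) (nat_lit 4) (nat_lit 4) (nat_lit 479) (nat_lit 372) (nat_lit 349)) (XT.nd (nat_lit 78) (nat_lit 0) (nat_lit 0) (XT.lf (nat_lit 0) (nat_lit 250077275589) (nat_lit 76) (nat_lit 15321841053) (nat_lit 76) (nat_lit 14547899944) (nat_lit 3) (nat_lit 4) (nat_lit 4) (nat_lit 5) (nat_lit 4) (nat_lit 4) (nat_lit 480) (nat_lit 372) (nat_lit 348)) (XT.lf (nat_lit 0) (nat_lit 279492134911)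 (nat_lit 76) (nat_lit 11634857394) (nat_lit 76) (nat_lit 10850182896) (nat_lit 3) (nat_lit 4) (nat_lit 4) (nat_lit 5) (nat_lit 4) (nat_lit 4) (nat_lit 481) (nat_lit 372) (nat_lit 347))))) (XT.nd (nat_lit 234) (nat_lit 0) (nat_lit 0) (XT.nd (nat_lit 78) (nat_lit 152) (nat_lit 0) (XT.lf (nat_lit 0) (nat_lit 311097822307) (nat_lit 76) (nat_lit 7736423018) (nat_lit 76) (nat_lit 6941810197) (nat_lit 3) (nat_lit 4) (nat_lit 4) (nat_lit 5) (nat_lit 4) (nat_lit 4) (nat_lit 482) (nat_lit 372) (nat_lit 346)) (XT.nd (nat_lit 78) (nat_lit 152) (nat_lit 0) (XT.lf (nat_lit 0) (nat_lit 345081630738) (nat_lit 76) (nat_lit 3603436093) (nat_lit 76) (nat_lit 2799621120) (nat_lit 3) (nat_lit 4) (nat_lit 4) (nat_lit 5) (nat_lit 4) (nat_lit 4) (nat_lit 483) (nat_lit 372) (nat_lit 345)) (XT.lf (nat_lit 0) (nat_lit 1601876942) (nat_lit 152) (nat_lit 376794265838) (nat_lit 0) (nat_lit 849714458) (nat_lit 1) (nat_lit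 5) (nat_lit 3) (nat_lit 4) (nat_lit 1) (nat_lit 4) (nat_lit 484) (nat_lit 372) (nat_lit 344)))) (XT.nd (nat_lit 78) (nat_lit 0) (nat_lit 0) (XT.lf (nat_lit 0) (nat_lit 6408162170) (nat_lit 152) (nat_lit 397148932806) (nat_lit 0) (nat_lit 5648694721) (nat_lit 1) (nat_lit 5) (nat_lit 3) (nat_lit 4) (nat_lit 1) (nat_lit 4) (nat_lit 485) (nat_lit 372) (nat_lit 343)) (XT.nd (nat_lit 78) (nat_lit 0) (nat_lit 0) (XT.lf (nat_lit 0) (nat_lit 11534788740) (nat_lit 152) (nat_lit 419264304039) (nat_lit 0) (nat_lit 10768557436) (nat_lit 1) (nat_lit 5) (nat_lit 3) (nat_lit 4) (nat_lit 1) (nat_lit 4) (nat_lit 486) (nat_lit 372) (nat_lit 342)) (XT.lf (nat_lit 0) (nat_lit 17012136663) (nat_lit 152) (nat_lit 443271433590) (nat_lit 0) (nat_lit 16239642529) (nat_lit 1) (nat_lit 5) (nat_lit 3) (nat_lit 4) (nat_lit 1) (nat_lit 4) (nat_lit 487) (nat_lit 372) (nat_lit 341))))))) (XT.nd (nat_lit 936) (nat_lit 0)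 (nat_lit 0) (XT.nd (nat_lit 468) (nat_lit 0) (nat_lit 0) (XT.nd (nat_lit 234) (nat_lit 0) (nat_lit 0) (XT.nd (nat_lit 78) (nat_lit 0) (nat_lit 0) (XT.lf (nat_lit 0) (nat_lit 22872664295) (nat_lit 152) (nat_lit 469312585930) (nat_lit 0) (nat_lit 22094371245) (nat_lit 1) (nat_lit 5) (nat_lit 3) (nat_lit 4) (nat_lit 1) (nat_lit 4) (nat_lit 488) (nat_lit 372) (nat_lit 340)) (XT.nd (nat_lit 78) (nat_lit 0) (nat_lit 0) (XT.lf (nat_lit 0) (nat_lit 29151100690) (nat_lit 152) (nat_lit 497542079000) (nat_lit 0) (nat_lit 28367438273) (nat_lit 1) (nat_lit 5) (nat_lit 3) (nat_lit 4) (nat_lit 1) (nat_lit 4) (nat_lit 489) (nat_lit 372) (nat_lit 339)) (XT.lf (nat_lit 0) (nat_lit 35884651397) (nat_lit 152) (nat_lit 528127198683) (nat_lit 0) (nat_lit 35096017344) (nat_lit 1) (nat_lit 5) (nat_lit 3) (nat_lit 4) (nat_lit 1) (nat_lit 4) (nat_lit 490) (nat_lit 372) (nat_lit 338)))) (XT.nd (nat_lit 78) (nat_lit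 0) (nat_lit 0) (XT.lf (nat_lit 0) (nat_lit 43113218938) (nat_lit 152) (nat_lit 561249190134) (nat_lit 0) (nat_lit 42319981519) (nat_lit 1) (nat_lit 5) (nat_lit 3) (nat_lit 4) (nat_lit 1) (nat_lit 4) (nat_lit 491) (nat_lit 372) (nat_lit 337)) (XT.nd (nat_lit 78) (nat_lit 0) (nat_lit 0) (XT.lf (nat_lit 0) (nat_lit 50879639269) (nat_lit 152) (nat_lit 597104331820) (nat_lit 0) (nat_lit 50082139473) (nat_lit 1) (nat_lit 5) (nat_lit 3) (nat_lit 4) (nat_lit 1) (nat_lit 4) (nat_lit 492) (nat_lit 372) (nat_lit 336)) (XT.lf (nat_lit 0) (nat_lit 59229935622) (nat_lit 152) (nat_lit 635905098656) (nat_lit 0) (nat_lit 58428489182) (nat_lit 1) (nat_lit 5) (nat_lit 3) (nat_lit 4) (nat_lit 1) (nat_lit 4) (nat_lit 493) (nat_lit 372) (nat_lit 335))))) (XT.nd (nat_lit 234) (nat_lit 0) (nat_lit 0) (XT.nd (nat_lit 78) (nat_lit 0) (nat_lit 0) (XT.lf (nat_lit 0) (nat_lit 68213591235) (nat_lit 152) (nat_lit 677881421111)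 (nat_lit 0) (nat_lit 67408490493) (nat_lit 1) (nat_lit 5) (nat_lit 3) (nat_lit 4) (nat_lit 1) (nat_lit 4) (nat_lit 494) (nat_lit 372) (nat_lit 334)) (XT.nd (nat_lit 78) (nat_lit 0) (nat_lit 0) (XT.lf (nat_lit 0) (nat_lit 77883842584) (nat_lit 152) (nat_lit 723282047762) (nat_lit 0) (nat_lit 77075358231) (nat_lit 1) (nat_lit 5) (nat_lit 3) (nat_lit 4) (nat_lit 1) (nat_lit 4) (nat_lit 495) (nat_lit 372) (nat_lit 333)) (XT.lf (nat_lit 0) (nat_lit 88297994864) (nat_lit 152) (nat_lit 772376019361) (nat_lit 0) (nat_lit 87486377537) (nat_lit 1) (nat_lit 5) (nat_lit 3) (nat_lit 4) (nat_lit 1) (nat_lit 4) (nat_lit 496) (nat_lit 372) (nat_lit 332)))) (XT.nd (nat_lit 78) (nat_lit 0) (nat_lit 0) (XT.lf (nat_lit 0) (nat_lit 99517761569) (nat_lit 152) (nat_lit 825454263146) (nat_lit 0) (nat_lit 98703243340) (nat_lit 1) (nat_lit 5) (nat_lit 3) (nat_lit 4) (nat_lit 1) (nat_lit 4) (nat_lit 497) (nat_lit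 372) (nat_lit 331)) (XT.nd (nat_lit 78) (nat_lit 0) (nat_lit 0) (XT.lf (nat_lit 0) (nat_lit 111609630206) (nat_lit 152) (nat_lit 882831316859) (nat_lit 0) (nat_lit 110792425957) (nat_lit 1) (nat_lit 5) (nat_lit 3) (nat_lit 4) (nat_lit 1) (nat_lit 4) (nat_lit 498) (nat_lit 372) (nat_lit 330)) (XT.lf (nat_lit 0) (nat_lit 124645256293) (nat_lit 152) (nat_lit 944847192669) (nat_lit 0) (nat_lit 123825564987) (nat_lit 1) (nat_lit 5) (nat_lit 3) (nat_lit 4) (nat_lit 1) (nat_lit 4) (nat_lit 499) (nat_lit 372) (nat_lit 329)))))) (XT.nd (nat_lit 468) (nat_lit 0) (nat_lit 0) (XT.nd (nat_lit 234) (nat_lit 0) (nat_lit 0) (XT.nd (nat_lit 78) (nat_lit 0) (nat_lit 0) (XT.lf (nat_lit 0) (nat_lit 138701887983) (nat_lit 152) (nat_lit 1011869392063) (nat_lit 0) (nat_lit 137879893849) (nat_lit 1) (nat_lit 5) (nat_lit 3) (nat_lit 4) (nat_lit 1) (nat_lit 4) (nat_lit 500) (nat_lit 372) (nat_lit 328)) (XT.nd (nat_lit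 78) (nat_lit 0) (nat_lit 0) (XT.lf (nat_lit 0) (nat_lit 153862823836) (nat_lit 152) (nat_lit 1084295083630) (nat_lit 0) (nat_lit 153038697452) (nat_lit 1) (nat_lit 5) (nat_lit 3) (nat_lit 4) (nat_lit 1) (nat_lit 4) (nat_lit 501) (nat_lit 372) (nat_lit 327)) (XT.lf (nat_lit 0) (nat_lit 170217906434) (nat_lit 152) (nat_lit 1162553456653) (nat_lit 0) (nat_lit 169391805745) (nat_lit 1) (nat_lit 5) (nat_lit 3) (nat_lit 4) (nat_lit 1) (nat_lit 4) (nat_lit 502) (nat_lit 372) (nat_lit 326)))) (XT.nd (nat_lit 78) (nat_lit 0) (nat_lit 0) (XT.lf (nat_lit 0) (nat_lit 187864054785) (nat_lit 152) (nat_lit 1247108264453) (nat_lit 0) (nat_lit 187036126036) (nat_lit 1) (nat_lit 5) (nat_lit 3) (nat_lit 4) (nat_lit 1) (nat_lit 4) (nat_lit 503) (nat_lit 372) (nat_lit 325)) (XT.nd (nat_lit 78) (nat_lit 0) (nat_lit 0) (XT.lf (nat_lit 0) (nat_lit 206905838657) (nat_lit 152) (nat_lit 1338460572559) (nat_lit 0)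 (nat_lit 206076217260) (nat_lit 1) (nat_lit 5) (nat_lit 3) (nat_lit 4) (nat_lit 1) (nat_lit 4) (nat_lit 504) (nat_lit 372) (nat_lit 324)) (XT.lf (nat_lit 0) (nat_lit 227456098251) (nat_lit 152) (nat_lit 1437151727982) (nat_lit 0) (nat_lit 226624909587) (nat_lit 1) (nat_lit 5) (nat_lit 3) (nat_lit 4) (nat_lit 1) (nat_lit 4) (nat_lit 505) (nat_lit 372) (nat_lit 323))))) (XT.nd (nat_lit 234) (nat_lit 0) (nat_lit 0) (XT.nd (nat_lit 78) (nat_lit 0) (nat_lit 0) (XT.lf (nat_lit 0) (nat_lit 249636612883) (nat_lit 152) (nat_lit 1543766567198) (nat_lit 0) (nat_lit 248803973045) (nat_lit 1) (nat_lit 5) (nat_lit 3) (nat_lit 4) (nat_lit 1) (nat_lit 4) (nat_lit 506) (nat_lit 372) (nat_lit 322)) (XT.nd (nat_lit 78) (nat_lit 0) (nat_lit 0) (XT.lf (nat_lit 0) (nat_lit 273578822640) (nat_lit 152) (nat_lit 1658936881846) (nat_lit 0) (nat_lit 272744839123) (nat_lit 1) (nat_lit 5) (nat_lit 3) (nat_lit 4) (nat_lit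 1) (nat_lit 4) (nat_lit 507) (nat_lit 372) (nat_lit 321)) (XT.lf (nat_lit 0) (nat_lit 299424607283) (nat_lit 152) (nat_lit 1783345162681) (nat_lit 0) (nat_lit 298589379619) (nat_lit 1) (nat_lit 5) (nat_lit 3) (nat_lit 4) (nat_lit 1) (nat_lit 4) (nat_lit 508) (nat_lit 372) (nat_lit 320)))) (XT.nd (nat_lit 78) (nat_lit 0) (nat_lit 0) (XT.lf (nat_lit 0) (nat_lit 327327127017) (nat_lit 152) (nat_lit 1917728643959) (nat_lit 0) (nat_lit 326490747365) (nat_lit 1) (nat_lit 5) (nat_lit 3) (nat_lit 4) (nat_lit 1) (nat_lit 4) (nat_lit 509) (nat_lit 372) (nat_lit 319)) (XT.nd (nat_lit 78) (nat_lit 0) (nat_lit 0) (XT.lf (nat_lit 0) (nat_lit 357451730108) (nat_lit 152) (nat_lit 2062883672236) (nat_lit 0) (nat_lit 356614283801) (nat_lit 1) (nat_lit 5) (nat_lit 3) (nat_lit 4) (nat_lit 1) (nat_lit 4) (nat_lit 510) (nat_lit 372) (nat_lit 318)) (XT.lf (nat_lit 0) (nat_lit 389976932722) (nat_lit 152) (nat_lit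 2219670425457) (nat_lit 0) (nat_lit 389138498770) (nat_lit 1) (nat_lit 5) (nat_lit 3) (nat_lit 4) (nat_lit 1) (nat_lit 4) (nat_lit 511) (nat_lit 372) (nat_lit 317))))))))
noncomputable def xc32 : XT := (XT.nd (nat_lit 58188) (nat_lit 0) (nat_lit 152) (XT.nd (nat_lit 858) (nat_lit 0) (nat_lit 0) (XT.nd (nat_lit 390) (nat_lit 0) (nat_lit 0) (XT.nd (nat_lit 156) (nat_lit 0) (nat_lit 0) (XT.nd (nat_lit 78) (nat_lit 0) (nat_lit 0) (XT.lf (nat_lit 0) (nat_lit 425095476800) (nat_lit 152) (nat_lit 2389018010308) (nat_lit 0) (nat_lit 424256128364) (nat_lit 1) (nat_lit 5) (nat_lit 3) (nat_lit 4) (nat_lit 1) (nat_lit 4) (nat_lit 512) (nat_lit 372) (nat_lit 316)) (XT.lf (nat_lit 0) (nat_lit 463015472234) (nat_lit 152) (nat_lit 2571929968033) (nat_lit 0) (nat_lit 462175277052) (nat_lit 1) (nat_lit 5) (nat_lit 3) (nat_lit 4) (nat_lit 1) (nat_lit 4) (nat_lit 513) (nat_lit 372) (nat_lit 315))) (XT.nd (nat_lit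 78) (nat_lit 0) (nat_lit 0) (XT.lf (nat_lit 0) (nat_lit 503961630107) (nat_lit 152) (nat_lit 2769490221343) (nat_lit 0) (nat_lit 503120650901) (nat_lit 1) (nat_lit 5) (nat_lit 3) (nat_lit 4) (nat_lit 1) (nat_lit 4) (nat_lit 514) (nat_lit 372) (nat_lit 314)) (XT.nd (nat_lit 78) (nat_lit 0) (nat_lit 0) (XT.lf (nat_lit 0) (nat_lit 548176594317) (nat_lit 152) (nat_lit 2982869497666) (nat_lit 0) (nat_lit 547334889164) (nat_lit 1) (nat_lit 5) (nat_lit 3) (nat_lit 4) (nat_lit 1) (nat_lit 4) (nat_lit 515) (nat_lit 372) (nat_lit 313)) (XT.lf (nat_lit 0) (nat_lit 595922379469) (nat_lit 152) (nat_lit 3213332266788) (nat_lit 0) (nat_lit 595080002141) (nat_lit 1) (nat_lit 5) (nat_lit 3) (nat_lit 4) (nat_lit 1) (nat_lit 4) (nat_lit 516) (nat_lit 372) (nat_lit 312))))) (XT.nd (nat_lit 234) (nat_lit 0) (nat_lit 0) (XT.nd (nat_lit 78) (nat_lit 0) (nat_lit 0) (XT.lf (nat_lit 0) (nat_lit 647481923547) (nat_lit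 152) (nat_lit 3462244234008) (nat_lit 0) (nat_lit 646638923836) (nat_lit 1) (nat_lit 5) (nat_lit 3) (nat_lit 4) (nat_lit 1) (nat_lit 4) (nat_lit 517) (nat_lit 372) (nat_lit 311)) (XT.nd (nat_lit 78) (nat_lit 0) (nat_lit 0) (XT.lf (nat_lit 0) (nat_lit 703160764591) (nat_lit 152) (nat_lit 3731080433204) (nat_lit 0) (nat_lit 702317188599) (nat_lit 1) (nat_lit 5) (nat_lit 3) (nat_lit 4) (nat_lit 1) (nat_lit 4) (nat_lit 518) (nat_lit 372) (nat_lit 310)) (XT.lf (nat_lit 0) (nat_lit 763288851288) (nat_lit 152) (nat_lit 4021433967779) (nat_lit 0) (nat_lit 762444741703) (nat_lit 1) (nat_lit 5) (nat_lit 3) (nat_lit 4) (nat_lit 1) (nat_lit 4) (nat_lit 519) (nat_lit 372) (nat_lit 309)))) (XT.nd (nat_lit 78) (nat_lit 0) (nat_lit 0) (XT.lf (nat_lit 0) (nat_lit 828222498226) (nat_lit 152) (nat_lit 4335025451272) (nat_lit 0) (nat_lit 827377894573) (nat_lit 1) (nat_lit 5) (nat_lit 3) (nat_lit 4) (nat_lit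 1) (nat_lit 4) (nat_lit 520) (nat_lit 372) (nat_lit 308)) (XT.nd (nat_lit 78) (nat_lit 0) (nat_lit 0) (XT.lf (nat_lit 0) (nat_lit 898346497387) (nat_lit 152) (nat_lit 4673713203586) (nat_lit 0) (nat_lit 897501436263) (nat_lit 1) (nat_lit 5) (nat_lit 3) (nat_lit 4) (nat_lit 1) (nat_lit 4) (nat_lit 521) (nat_lit 372) (nat_lit 307)) (XT.lf (nat_lit 0) (nat_lit 974076398395) (nat_lit 152) (nat_lit 5039504263251) (nat_lit 0) (nat_lit 973230913689) (nat_lit 1) (nat_lit 5) (nat_lit 3) (nat_lit 4) (nat_lit 1) (nat_lit 4) (nat_lit 522) (nat_lit 372) (nat_lit 306)))))) (XT.nd (nat_lit 468) (nat_lit 0) (nat_lit 0) (XT.nd (nat_lit 234) (nat_lit 0) (nat_lit 0) (XT.nd (nat_lit 78) (nat_lit 0) (nat_lit 0) (XT.lf (nat_lit 0) (nat_lit 1055860971036) (nat_lit 152) (nat_lit 5434566280993) (nat_lit 0) (nat_lit 1055015094122) (nat_lit 1) (nat_lit 5) (nat_lit 3) (nat_lit 4) (nat_lit 1) (nat_lit 4) (nat_lit 523)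 (nat_lit 372) (nat_lit 305)) (XT.nd (nat_lit 78) (nat_lit 0) (nat_lit 0) (XT.lf (nat_lit 0) (nat_lit 1144184864627) (nat_lit 152) (nat_lit 5861240365064) (nat_lit 0) (nat_lit 1143338624558) (nat_lit 1) (nat_lit 5) (nat_lit 3) (nat_lit 4) (nat_lit 1) (nat_lit 4) (nat_lit 524) (nat_lit 372) (nat_lit 304)) (XT.lf (nat_lit 0) (nat_lit 1239571480019) (nat_lit 152) (nat_lit 6322054954481) (nat_lit 0) (nat_lit 1238724903696) (nat_lit 1) (nat_lit 5) (nat_lit 3) (nat_lit 4) (nat_lit 1) (nat_lit 4) (nat_lit 525) (nat_lit 372) (nat_lit 303)))) (XT.nd (nat_lit 78) (nat_lit 0) (nat_lit 0) (XT.lf (nat_lit 0) (nat_lit 1342586071230) (nat_lit 152) (nat_lit 6819740802367) (nat_lit 0) (nat_lit 1341739183561) (nat_lit 1) (nat_lit 5) (nat_lit 3) (nat_lit 4) (nat_lit 1) (nat_lit 4) (nat_lit 526) (nat_lit 372) (nat_lit 302)) (XT.nd (nat_lit 78) (nat_lit 0) (nat_lit 0) (XT.lf (nat_lit 0) (nat_lit 1453839095097)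 (nat_lit 152) (nat_lit 7357247158190) (nat_lit 0) (nat_lit 1452991919144) (nat_lit 1) (nat_lit 5) (nat_lit 3) (nat_lit 4) (nat_lit 1) (nat_lit 4) (nat_lit 527) (nat_lit 372) (nat_lit 301)) (XT.lf (nat_lit 0) (nat_lit 1573989828798) (nat_lit 152) (nat_lit 7937759244801) (nat_lit 0) (nat_lit 1573142385916) (nat_lit 1) (nat_lit 5) (nat_lit 3) (nat_lit 4) (nat_lit 1) (nat_lit 4) (nat_lit 528) (nat_lit 372) (nat_lit 300))))) (XT.nd (nat_lit 56628) (nat_lit 0) (nat_lit 456) (XT.nd (nat_lit 78) (nat_lit 0) (nat_lit 0) (XT.lf (nat_lit 0) (nat_lit 1703750276681) (nat_lit 152) (nat_lit 8564717133822) (nat_lit 0) (nat_lit 1702902586642) (nat_lit 1) (nat_lit 5) (nat_lit 3) (nat_lit 4) (nat_lit 1) (nat_lit 4) (nat_lit 529) (nat_lit 372) (nat_lit 299)) (XT.nd (nat_lit 78) (nat_lit 0) (nat_lit 0) (XT.lf (nat_lit 0) (nat_lit 1843889389549) (nat_lit 152) (nat_lit 9241836131264) (nat_lit 0) (nat_lit 1843041470660)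 (nat_lit 1) (nat_lit 5) (nat_lit 3) (nat_lit 4) (nat_lit 1) (nat_lit 4) (nat_lit 530) (nat_lit 372) (nat_lit 298)) (XT.lf (nat_lit 0) (nat_lit 1995237621402) (nat_lit 152) (nat_lit 9973128794148) (nat_lit 0) (nat_lit 1994389490616) (nat_lit 1) (nat_lit 5) (nat_lit 3) (nat_lit 4) (nat_lit 1) (nat_lit 4) (nat_lit 531) (nat_lit 372) (nat_lit 297)))) (XT.nd (nat_lit 78) (nat_lit 152) (nat_lit 0) (XT.lf (nat_lit 0) (nat_lit 21175128946) (nat_lit 76) (nat_lit 442184543) (nat_lit 76) (nat_lit 442184543) (nat_lit 9) (nat_lit 4) (nat_lit 10) (nat_lit 5) (nat_lit 10) (nat_lit 4) (nat_lit 454) (nat_lit 373) (nat_lit 373)) (XT.nd (nat_lit 78) (nat_lit 0) (nat_lit 0) (XT.lf (nat_lit 0) (nat_lit 7976354534) (nat_lit 152) (nat_lit 31059356105) (nat_lit 0) (nat_lit 7896966597) (nat_lit 7) (nat_lit 5) (nat_lit 9) (nat_lit 4) (nat_lit 7) (nat_lit 4) (nat_lit 455) (nat_lit 373) (nat_lit 372)) (XT.lf (nat_lit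 0) (nat_lit 17129876942) (nat_lit 152) (nat_lit 15892224991) (nat_lit 0) (nat_lit 16976981656) (nat_lit 7) (nat_lit 5) (nat_lit 9) (nat_lit 4) (nat_lit 7) (nat_lit 4) (nat_lit 456) (nat_lit 373) (nat_lit 371))))))) (XT.nd (nat_lit 858) (nat_lit 76) (nat_lit 0) (XT.nd (nat_lit 390) (nat_lit 0) (nat_lit 0) (XT.nd (nat_lit 156) (nat_lit 152) (nat_lit 0) (XT.nd (nat_lit 78) (nat_lit 76) (nat_lit 0) (XT.lf (nat_lit 0) (nat_lit 26607470606) (nat_lit 152) (nat_lit 349481213) (nat_lit 0) (nat_lit 26386512960) (nat_lit 7) (nat_lit 5) (nat_lit 9) (nat_lit 4) (nat_lit 7) (nat_lit 4) (nat_lit 457) (nat_lit 373) (nat_lit 370)) (XT.lf (nat_lit 0) (nat_lit 16485659849) (nat_lit 76) (nat_lit 20376119711) (nat_lit 76) (nat_lit 20092141361) (nat_lit 6) (nat_lit 4) (nat_lit 7) (nat_lit 5) (nat_lit 7) (nat_lit 4) (nat_lit 458) (nat_lit 373) (nat_lit 369))) (XT.nd (nat_lit 78) (nat_lit 152) (nat_lit 0) (XT.lf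 (nat_lit 0) (nat_lit 33931423829) (nat_lit 76) (nat_lit 13646406746) (nat_lit 76) (nat_lit 13304075892) (nat_lit 6) (nat_lit 4) (nat_lit 7) (nat_lit 5) (nat_lit 7) (nat_lit 4) (nat_lit 459) (nat_lit 373) (nat_lit 368)) (XT.nd (nat_lit 78) (nat_lit 152) (nat_lit 0) (XT.lf (nat_lit 0) (nat_lit 52072789972) (nat_lit 76) (nat_lit 6737488580) (nat_lit 76) (nat_lit 6341127631) (nat_lit 6) (nat_lit 4) (nat_lit 7) (nat_lit 5) (nat_lit 7) (nat_lit 4) (nat_lit 460) (nat_lit 373) (nat_lit 367)) (XT.lf (nat_lit 0) (nat_lit 837400496) (nat_lit 152) (nat_lit 68521322257) (nat_lit 0) (nat_lit 424077518) (nat_lit 4) (nat_lit 5) (nat_lit 6) (nat_lit 4) (nat_lit 4) (nat_lit 4) (nat_lit 461) (nat_lit 373) (nat_lit 366))))) (XT.nd (nat_lit 234) (nat_lit 0) (nat_lit 0) (XT.nd (nat_lit 78) (nat_lit 0) (nat_lit 0) (XT.lf (nat_lit 0) (nat_lit 8466052832) (nat_lit 152) (nat_lit 58278166917) (nat_lit 0) (nat_lit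 8009839022) (nat_lit 4) (nat_lit 5) (nat_lit 6) (nat_lit 4) (nat_lit 4) (nat_lit 4) (nat_lit 462) (nat_lit 373) (nat_lit 365)) (XT.nd (nat_lit 78) (nat_lit 0) (nat_lit 0) (XT.lf (nat_lit 0) (nat_lit 16405504011) (nat_lit 152) (nat_lit 47831900140) (nat_lit 0) (nat_lit 15909576468) (nat_lit 4) (nat_lit 5) (nat_lit 6) (nat_lit 4) (nat_lit 4) (nat_lit 4) (nat_lit 463) (nat_lit 373) (nat_lit 364)) (XT.lf (nat_lit 0) (nat_lit 24702802634) (nat_lit 152) (nat_lit 37120618122) (nat_lit 0) (nat_lit 24170103115) (nat_lit 4) (nat_lit 5) (nat_lit 6) (nat_lit 4) (nat_lit 4) (nat_lit 4) (nat_lit 464) (nat_lit 373) (nat_lit 363)))) (XT.nd (nat_lit 78) (nat_lit 0) (nat_lit 0) (XT.lf (nat_lit 0) (nat_lit 33407117876) (nat_lit 152) (nat_lit 26080846600) (nat_lit 0) (nat_lit 32840370232) (nat_lit 4) (nat_lit 5) (nat_lit 6) (nat_lit 4) (nat_lit 4) (nat_lit 4) (nat_lit 465) (nat_lit 373) (nat_lit 362)) (XT.nd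 (nat_lit 78) (nat_lit 0) (nat_lit 0) (XT.lf (nat_lit 0) (nat_lit 42570030866) (nat_lit 152) (nat_lit 14647164706) (nat_lit 0) (nat_lit 41971757180) (nat_lit 4) (nat_lit 5) (nat_lit 6) (nat_lit 4) (nat_lit 4) (nat_lit 4) (nat_lit 466) (nat_lit 373) (nat_lit 361)) (XT.lf (nat_lit 0) (nat_lit 52245840347) (nat_lit 152) (nat_lit 2751817287) (nat_lit 0) (nat_lit 51618375882) (nat_lit 4) (nat_lit 5) (nat_lit 6) (nat_lit 4) (nat_lit 4) (nat_lit 4) (nat_lit 467) (nat_lit 373) (nat_lit 360)))))) (XT.nd (nat_lit 468) (nat_lit 0) (nat_lit 0) (XT.nd (nat_lit 234) (nat_lit 0) (nat_lit 0) (XT.nd (nat_lit 78) (nat_lit 0) (nat_lit 0) (XT.lf (nat_lit 0) (nat_lit 10185191113) (nat_lit 76) (nat_lit 52551647427) (nat_lit 76) (nat_lit 51897154462) (nat_lit 3) (nat_lit 4) (nat_lit 4) (nat_lit 5) (nat_lit 4) (nat_lit 4) (nat_lit 468) (nat_lit 373) (nat_lit 359)) (XT.nd (nat_lit 78) (nat_lit 0) (nat_lit 0) (XT.lf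 (nat_lit 0) (nat_lit 23904806679) (nat_lit 76) (nat_lit 50038984968) (nat_lit 76) (nat_lit 49359465614) (nat_lit 3) (nat_lit 4) (nat_lit 4) (nat_lit 5) (nat_lit 4) (nat_lit 4) (nat_lit 469) (nat_lit 373) (nat_lit 358)) (XT.lf (nat_lit 0) (nat_lit 38343425014) (nat_lit 76) (nat_lit 47520019965) (nat_lit 76) (nat_lit 46817328029) (nat_lit 3) (nat_lit 4) (nat_lit 4) (nat_lit 5) (nat_lit 4) (nat_lit 4) (nat_lit 470) (nat_lit 373) (nat_lit 357)))) (XT.nd (nat_lit 78) (nat_lit 0) (nat_lit 0) (XT.lf (nat_lit 0) (nat_lit 53586608301) (nat_lit 76) (nat_lit 44979825220) (nat_lit 76) (nat_lit 44255677189) (nat_lit 3) (nat_lit 4) (nat_lit 4) (nat_lit 5) (nat_lit 4) (nat_lit 4) (nat_lit 471) (nat_lit 373) (nat_lit 356)) (XT.nd (nat_lit 78) (nat_lit 0) (nat_lit 0) (XT.lf (nat_lit 0) (nat_lit 69724686515) (nat_lit 76) (nat_lit 42403347725) (nat_lit 76) (nat_lit 41659332941) (nat_lit 3) (nat_lit 4) (nat_lit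 4) (nat_lit 5) (nat_lit 4) (nat_lit 4) (nat_lit 472) (nat_lit 373) (nat_lit 355)) (XT.lf (nat_lit 0) (nat_lit 86853292712) (nat_lit 76) (nat_lit 39775319468) (nat_lit 76) (nat_lit 39012909541) (nat_lit 3) (nat_lit 4) (nat_lit 4) (nat_lit 5) (nat_lit 4) (nat_lit 4) (nat_lit 473) (nat_lit 373) (nat_lit 354))))) (XT.nd (nat_lit 234) (nat_lit 0) (nat_lit 0) (XT.nd (nat_lit 78) (nat_lit 0) (nat_lit 0) (XT.lf (nat_lit 0) (nat_lit 105073929744) (nat_lit 76) (nat_lit 37080166946) (nat_lit 76) (nat_lit 36300724479) (nat_lit 3) (nat_lit 4) (nat_lit 4) (nat_lit 5) (nat_lit 4) (nat_lit 4) (nat_lit 474) (nat_lit 373) (nat_lit 353)) (XT.nd (nat_lit 78) (nat_lit 0) (nat_lit 0) (XT.lf (nat_lit 0) (nat_lit 124494571755) (nat_lit 76) (nat_lit 34301918885) (nat_lit 76) (nat_lit 33506705549) (nat_lit 3) (nat_lit 4) (nat_lit 4) (nat_lit 5) (nat_lit 4) (nat_lit 4) (nat_lit 475) (nat_lit 373) (nat_lit 352)) (XT.lf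 (nat_lit 0) (nat_lit 145230304032) (nat_lit 76) (nat_lit 31424111594) (nat_lit 76) (nat_lit 30614295600) (nat_lit 3) (nat_lit 4) (nat_lit 4) (nat_lit 5) (nat_lit 4) (nat_lit 4) (nat_lit 476) (nat_lit 373) (nat_lit 351)))) (XT.nd (nat_lit 78) (nat_lit 0) (nat_lit 0) (XT.lf (nat_lit 0) (nat_lit 167404004989) (nat_lit 76) (nat_lit 28429691400) (nat_lit 76) (nat_lit 27606354427) (nat_lit 3) (nat_lit 4) (nat_lit 4) (nat_lit 5) (nat_lit 4) (nat_lit 4) (nat_lit 477) (nat_lit 373) (nat_lit 350)) (XT.nd (nat_lit 78) (nat_lit 0) (nat_lit 0) (XT.lf (nat_lit 0) (nat_lit 191147074334) (nat_lit 76) (nat_lit 25300913589) (nat_lit 76) (nat_lit 24465057191) (nat_lit 3) (nat_lit 4) (nat_lit 4) (nat_lit 5) (nat_lit 4) (nat_lit 4) (nat_lit 478) (nat_lit 373) (nat_lit 349)) (XT.lf (nat_lit 0) (nat_lit 216600211738) (nat_lit 76) (nat_lit 22019237257) (nat_lit 76) (nat_lit 21171788799) (nat_lit 3) (nat_lit 4)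 (nat_lit 4) (nat_lit 5) (nat_lit 4) (nat_lit 4) (nat_lit 479) (nat_lit 373) (nat_lit 348))))))))
noncomputable def xc33 : XT := (XT.nd (nat_lit 1794) (nat_lit 0) (nat_lit 0) (XT.nd (nat_lit 858) (nat_lit 0) (nat_lit 0) (XT.nd (nat_lit 390) (nat_lit 152) (nat_lit 0) (XT.nd (nat_lit 156) (nat_lit 0) (nat_lit 0) (XT.nd (nat_lit 78) (nat_lit 0) (nat_lit 0) (XT.lf (nat_lit 0) (nat_lit 243914250608) (nat_lit 76) (nat_lit 18565215433) (nat_lit 76) (nat_lit 17707033586) (nat_lit 3) (nat_lit 4) (nat_lit 4) (nat_lit 5) (nat_lit 4) (nat_lit 4) (nat_lit 480) (nat_lit 373) (nat_lit 347)) (XT.lf (nat_lit 0) (nat_lit 273251051915) (nat_lit 76) (nat_lit 14918379840) (nat_lit 76) (nat_lit 14050259669) (nat_lit 3) (nat_lit 4) (nat_lit 4) (nat_lit 5) (nat_lit 4) (nat_lit 4) (nat_lit 481) (nat_lit 373) (nat_lit 346))) (XT.nd (nat_lit 78) (nat_lit 0) (nat_lit 0) (XT.lf (nat_lit 0) (nat_lit 304784463370) (nat_lit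 76) (nat_lit 11057119599) (nat_lit 76) (nat_lit 10179797277) (nat_lit 3) (nat_lit 4) (nat_lit 4) (nat_lit 5) (nat_lit 4) (nat_lit 4) (nat_lit 482) (nat_lit 373) (nat_lit 345)) (XT.nd (nat_lit 78) (nat_lit 0) (nat_lit 0) (XT.lf (nat_lit 0) (nat_lit 338701349634) (nat_lit 76) (nat_lit 6958553168) (nat_lit 76) (nat_lit 6072710336) (nat_lit 3) (nat_lit 4) (nat_lit 4) (nat_lit 5) (nat_lit 4) (nat_lit 4) (nat_lit 483) (nat_lit 373) (nat_lit 344)) (XT.lf (nat_lit 0) (nat_lit 375202699662) (nat_lit 76) (nat_lit 2598392747) (nat_lit 76) (nat_lit 1704660554) (nat_lit 3) (nat_lit 4) (nat_lit 4) (nat_lit 5) (nat_lit 4) (nat_lit 4) (nat_lit 484) (nat_lit 373) (nat_lit 343))))) (XT.nd (nat_lit 234) (nat_lit 0) (nat_lit 0) (XT.nd (nat_lit 78) (nat_lit 0) (nat_lit 0) (XT.lf (nat_lit 0) (nat_lit 2981792808) (nat_lit 152) (nat_lit 404356081973) (nat_lit 0) (nat_lit 2147499144) (nat_lit 1) (nat_lit 5) (nat_lit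 3) (nat_lit 4) (nat_lit 1) (nat_lit 4) (nat_lit 485) (nat_lit 373) (nat_lit 342)) (XT.nd (nat_lit 78) (nat_lit 0) (nat_lit 0) (XT.lf (nat_lit 0) (nat_lit 8079857468) (nat_lit 152) (nat_lit 426530361196) (nat_lit 0) (nat_lit 7239300974) (nat_lit 1) (nat_lit 5) (nat_lit 3) (nat_lit 4) (nat_lit 1) (nat_lit 4) (nat_lit 486) (nat_lit 373) (nat_lit 341)) (XT.lf (nat_lit 0) (nat_lit 13530759177) (nat_lit 152) (nat_lit 450592035183) (nat_lit 0) (nat_lit 12684403767) (nat_lit 1) (nat_lit 5) (nat_lit 3) (nat_lit 4) (nat_lit 1) (nat_lit 4) (nat_lit 487) (nat_lit 373) (nat_lit 340)))) (XT.nd (nat_lit 78) (nat_lit 0) (nat_lit 0) (XT.lf (nat_lit 0) (nat_lit 19366799575) (nat_lit 152) (nat_lit 476683691630) (nat_lit 0) (nat_lit 18515074798) (nat_lit 1) (nat_lit 5) (nat_lit 3) (nat_lit 4) (nat_lit 1) (nat_lit 4) (nat_lit 488) (nat_lit 373) (nat_lit 339)) (XT.nd (nat_lit 78) (nat_lit 0) (nat_lit 0) (XT.lf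 (nat_lit 0) (nat_lit 25622562605) (nat_lit 152) (nat_lit 504959947761) (nat_lit 0) (nat_lit 24765866192) (nat_lit 1) (nat_lit 5) (nat_lit 3) (nat_lit 4) (nat_lit 1) (nat_lit 4) (nat_lit 489) (nat_lit 373) (nat_lit 338)) (XT.lf (nat_lit 0) (nat_lit 32335119455) (nat_lit 152) (nat_lit 535588366575) (nat_lit 0) (nat_lit 31473819675) (nat_lit 1) (nat_lit 5) (nat_lit 3) (nat_lit 4) (nat_lit 1) (nat_lit 4) (nat_lit 490) (nat_lit 373) (nat_lit 337)))))) (XT.nd (nat_lit 468) (nat_lit 0) (nat_lit 0) (XT.nd (nat_lit 234) (nat_lit 0) (nat_lit 0) (XT.nd (nat_lit 78) (nat_lit 0) (nat_lit 0) (XT.lf (nat_lit 0) (nat_lit 39544248240) (nat_lit 152) (nat_lit 568750449814) (nat_lit 0) (nat_lit 38678686083) (nat_lit 1) (nat_lit 5) (nat_lit 3) (nat_lit 4) (nat_lit 1) (nat_lit 4) (nat_lit 491) (nat_lit 373) (nat_lit 336)) (XT.nd (nat_lit 78) (nat_lit 0) (nat_lit 0) (XT.lf (nat_lit 0) (nat_lit 47292669722) (nat_lit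 152) (nat_lit 604642713527) (nat_lit 0) (nat_lit 46423160921) (nat_lit 1) (nat_lit 5) (nat_lit 3) (nat_lit 4) (nat_lit 1) (nat_lit 4) (nat_lit 492) (nat_lit 373) (nat_lit 335)) (XT.lf (nat_lit 0) (nat_lit 55626300475) (nat_lit 152) (nat_lit 643477852609) (nat_lit 0) (nat_lit 54753137373) (nat_lit 1) (nat_lit 5) (nat_lit 3) (nat_lit 4) (nat_lit 1) (nat_lit 4) (nat_lit 493) (nat_lit 373) (nat_lit 334)))) (XT.nd (nat_lit 78) (nat_lit 0) (nat_lit 0) (XT.lf (nat_lit 0) (nat_lit 64594524976) (nat_lit 152) (nat_lit 685486001217) (nat_lit 0) (nat_lit 63717978262) (nat_lit 1) (nat_lit 5) (nat_lit 3) (nat_lit 4) (nat_lit 1) (nat_lit 4) (nat_lit 494) (nat_lit 373) (nat_lit 333)) (XT.nd (nat_lit 78) (nat_lit 0) (nat_lit 0) (XT.lf (nat_lit 0) (nat_lit 74250488259) (nat_lit 152) (nat_lit 730916096530) (nat_lit 0) (nat_lit 73370808572) (nat_lit 1) (nat_lit 5) (nat_lit 3) (nat_lit 4) (nat_lit 1) (nat_lit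 4) (nat_lit 495) (nat_lit 373) (nat_lit 332)) (XT.lf (nat_lit 0) (nat_lit 84651410848) (nat_lit 152) (nat_lit 780037353926) (nat_lit 0) (nat_lit 83768830259) (nat_lit 1) (nat_lit 5) (nat_lit 3) (nat_lit 4) (nat_lit 1) (nat_lit 4) (nat_lit 496) (nat_lit 373) (nat_lit 331))))) (XT.nd (nat_lit 234) (nat_lit 0) (nat_lit 0) (XT.nd (nat_lit 78) (nat_lit 0) (nat_lit 0) (XT.lf (nat_lit 0) (nat_lit 95858927840) (nat_lit 152) (nat_lit 833140862339) (nat_lit 0) (nat_lit 94973661230) (nat_lit 1) (nat_lit 5) (nat_lit 3) (nat_lit 4) (nat_lit 1) (nat_lit 4) (nat_lit 497) (nat_lit 373) (nat_lit 330)) (XT.nd (nat_lit 78) (nat_lit 0) (nat_lit 0) (XT.lf (nat_lit 0) (nat_lit 107939454149) (nat_lit 152) (nat_lit 890541309225) (nat_lit 0) (nat_lit 107051700484) (nat_lit 1) (nat_lit 5) (nat_lit 3) (nat_lit 4) (nat_lit 1) (nat_lit 4) (nat_lit 498) (nat_lit 373) (nat_lit 329)) (XT.lf (nat_lit 0) (nat_lit 120964578080)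 (nat_lit 152) (nat_lit 952578845381) (nat_lit 0) (nat_lit 120074521585) (nat_lit 1) (nat_lit 5) (nat_lit 3) (nat_lit 4) (nat_lit 1) (nat_lit 4) (nat_lit 499) (nat_lit 373) (nat_lit 328)))) (XT.nd (nat_lit 78) (nat_lit 0) (nat_lit 0) (XT.lf (nat_lit 0) (nat_lit 135011485553) (nat_lit 152) (nat_lit 1019621100650) (nat_lit 0) (nat_lit 134119296809) (nat_lit 1) (nat_lit 5) (nat_lit 3) (nat_lit 4) (nat_lit 1) (nat_lit 4) (nat_lit 500) (nat_lit 373) (nat_lit 327)) (XT.nd (nat_lit 78) (nat_lit 0) (nat_lit 0) (XT.lf (nat_lit 0) (nat_lit 150163417500) (nat_lit 152) (nat_lit 1092065362472) (nat_lit 0) (nat_lit 149269254451) (nat_lit 1) (nat_lit 5) (nat_lit 3) (nat_lit 4) (nat_lit 1) (nat_lit 4) (nat_lit 501) (nat_lit 373) (nat_lit 326)) (XT.lf (nat_lit 0) (nat_lit 166510163149) (nat_lit 152) (nat_lit 1170340930176) (nat_lit 0) (nat_lit 165614172040) (nat_lit 1) (nat_lit 5) (nat_lit 3) (nat_lit 4)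 (nat_lit 1) (nat_lit 4) (nat_lit 502) (nat_lit 373) (nat_lit 325))))))) (XT.nd (nat_lit 936) (nat_lit 0) (nat_lit 0) (XT.nd (nat_lit 468) (nat_lit 0) (nat_lit 0) (XT.nd (nat_lit 234) (nat_lit 0) (nat_lit 0) (XT.nd (nat_lit 78) (nat_lit 0) (nat_lit 0) (XT.lf (nat_lit 0) (nat_lit 184148592102) (nat_lit 152) (nat_lit 1254911658977) (nat_lit 0) (nat_lit 183250908345) (nat_lit 1) (nat_lit 5) (nat_lit 3) (nat_lit 4) (nat_lit 1) (nat_lit 4) (nat_lit 503) (nat_lit 373) (nat_lit 324)) (XT.nd (nat_lit 78) (nat_lit 0) (nat_lit 0) (XT.lf (nat_lit 0) (nat_lit 203183228384) (nat_lit 152) (nat_lit 1346278708751) (nat_lit 0) (nat_lit 202283977360) (nat_lit 1) (nat_lit 5) (nat_lit 3) (nat_lit 4) (nat_lit 1) (nat_lit 4) (nat_lit 504) (nat_lit 373) (nat_lit 323)) (XT.lf (nat_lit 0) (nat_lit 223726869839) (nat_lit 152) (nat_lit 1444983513865) (nat_lit 0) (nat_lit 222826167641) (nat_lit 1) (nat_lit 5) (nat_lit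 3) (nat_lit 4) (nat_lit 1) (nat_lit 4) (nat_lit 505) (nat_lit 373) (nat_lit 322)))) (XT.nd (nat_lit 78) (nat_lit 0) (nat_lit 0) (XT.lf (nat_lit 0) (nat_lit 245901256564) (nat_lit 152) (nat_lit 1551610991684) (nat_lit 0) (nat_lit 244999210688) (nat_lit 1) (nat_lit 5) (nat_lit 3) (nat_lit 4) (nat_lit 1) (nat_lit 4) (nat_lit 506) (nat_lit 373) (nat_lit 321)) (XT.nd (nat_lit 78) (nat_lit 0) (nat_lit 0) (XT.lf (nat_lit 0) (nat_lit 269837792333) (nat_lit 152) (nat_lit 1666793008744) (nat_lit 0) (nat_lit 268934502310) (nat_lit 1) (nat_lit 5) (nat_lit 3) (nat_lit 4) (nat_lit 1) (nat_lit 4) (nat_lit 507) (nat_lit 373) (nat_lit 320)) (XT.lf (nat_lit 0) (nat_lit 295678323284) (nat_lit 152) (nat_lit 1791212125144) (nat_lit 0) (nat_lit 294773881272) (nat_lit 1) (nat_lit 5) (nat_lit 3) (nat_lit 4) (nat_lit 1) (nat_lit 4) (nat_lit 508) (nat_lit 373) (nat_lit 319))))) (XT.nd (nat_lit 234) (nat_lit 0) (nat_lit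 0) (XT.nd (nat_lit 78) (nat_lit 0) (nat_lit 0) (XT.lf (nat_lit 0) (nat_lit 323575978488) (nat_lit 152) (nat_lit 1925605639353) (nat_lit 0) (nat_lit 322670469821) (nat_lit 1) (nat_lit 5) (nat_lit 3) (nat_lit 4) (nat_lit 1) (nat_lit 4) (nat_lit 509) (nat_lit 373) (nat_lit 318)) (XT.nd (nat_lit 78) (nat_lit 0) (nat_lit 0) (XT.lf (nat_lit 0) (nat_lit 353696077385) (nat_lit 152) (nat_lit 2070769957381) (nat_lit 0) (nat_lit 352789581073) (nat_lit 1) (nat_lit 5) (nat_lit 3) (nat_lit 4) (nat_lit 1) (nat_lit 4) (nat_lit 510) (nat_lit 373) (nat_lit 317)) (XT.lf (nat_lit 0) (nat_lit 386217109448) (nat_lit 152) (nat_lit 2227565312223) (nat_lit 0) (nat_lit 385309698652) (nat_lit 1) (nat_lit 5) (nat_lit 3) (nat_lit 4) (nat_lit 1) (nat_lit 4) (nat_lit 511) (nat_lit 373) (nat_lit 316)))) (XT.nd (nat_lit 78) (nat_lit 0) (nat_lit 0) (XT.lf (nat_lit 0) (nat_lit 421331791906) (nat_lit 152) (nat_lit 2396920861539)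 (nat_lit 0) (nat_lit 420423534364) (nat_lit 1) (nat_lit 5) (nat_lit 3) (nat_lit 4) (nat_lit 1) (nat_lit 4) (nat_lit 512) (nat_lit 373) (nat_lit 315)) (XT.nd (nat_lit 78) (nat_lit 0) (nat_lit 0) (XT.lf (nat_lit 0) (nat_lit 459248211765) (nat_lit 152) (nat_lit 2579840193767) (nat_lit 0) (nat_lit 458339170199) (nat_lit 1) (nat_lit 5) (nat_lit 3) (nat_lit 4) (nat_lit 1) (nat_lit 4) (nat_lit 513) (nat_lit 373) (nat_lit 314)) (XT.lf (nat_lit 0) (nat_lit 500191058921) (nat_lit 152) (nat_lit 2777407275322) (nat_lit 0) (nat_lit 499281291407) (nat_lit 1) (nat_lit 5) (nat_lit 3) (nat_lit 4) (nat_lit 1) (nat_lit 4) (nat_lit 514) (nat_lit 373) (nat_lit 313)))))) (XT.nd (nat_lit 468) (nat_lit 0) (nat_lit 0) (XT.nd (nat_lit 234) (nat_lit 0) (nat_lit 0) (XT.nd (nat_lit 78) (nat_lit 0) (nat_lit 0) (XT.lf (nat_lit 0) (nat_lit 544402957653) (nat_lit 152) (nat_lit 2990792874093) (nat_lit 0) (nat_lit 543492517965)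 (nat_lit 1) (nat_lit 5) (nat_lit 3) (nat_lit 4) (nat_lit 1) (nat_lit 4) (nat_lit 515) (nat_lit 373) (nat_lit 312)) (XT.nd (nat_lit 78) (nat_lit 0) (nat_lit 0) (XT.lf (nat_lit 0) (nat_lit 592145904397) (nat_lit 152) (nat_lit 3221261497334) (nat_lit 0) (nat_lit 591234842326) (nat_lit 1) (nat_lit 5) (nat_lit 3) (nat_lit 4) (nat_lit 1) (nat_lit 4) (nat_lit 516) (nat_lit 373) (nat_lit 311)) (XT.lf (nat_lit 0) (nat_lit 643702820321) (nat_lit 152) (nat_lit 3470178885034) (nat_lit 0) (nat_lit 642791181970) (nat_lit 1) (nat_lit 5) (nat_lit 3) (nat_lit 4) (nat_lit 1) (nat_lit 4) (nat_lit 517) (nat_lit 373) (nat_lit 310)))) (XT.nd (nat_lit 78) (nat_lit 0) (nat_lit 0) (XT.lf (nat_lit 0) (nat_lit 699379227889) (nat_lit 152) (nat_lit 3739020103193) (nat_lit 0) (nat_lit 698467055944) (nat_lit 1) (nat_lit 5) (nat_lit 3) (nat_lit 4) (nat_lit 1) (nat_lit 4) (nat_lit 518) (nat_lit 373) (nat_lit 309)) (XT.nd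 (nat_lit 78) (nat_lit 0) (nat_lit 0) (XT.lf (nat_lit 0) (nat_lit 759505061367) (nat_lit 152) (nat_lit 4029378284957) (nat_lit 0) (nat_lit 758592395354) (nat_lit 1) (nat_lit 5) (nat_lit 3) (nat_lit 4) (nat_lit 1) (nat_lit 4) (nat_lit 519) (nat_lit 373) (nat_lit 308)) (XT.lf (nat_lit 0) (nat_lit 824436621992) (nat_lit 152) (nat_lit 4342974071403) (nat_lit 0) (nat_lit 823523498509) (nat_lit 1) (nat_lit 5) (nat_lit 3) (nat_lit 4) (nat_lit 1) (nat_lit 4) (nat_lit 520) (nat_lit 373) (nat_lit 307))))) (XT.nd (nat_lit 234) (nat_lit 0) (nat_lit 0) (XT.nd (nat_lit 78) (nat_lit 0) (nat_lit 0) (XT.lf (nat_lit 0) (nat_lit 894558689381) (nat_lit 152) (nat_lit 4681665807931) (nat_lit 0) (nat_lit 893645142314) (nat_lit 1) (nat_lit 5) (nat_lit 3) (nat_lit 4) (nat_lit 1) (nat_lit 4) (nat_lit 521) (nat_lit 373) (nat_lit 306)) (XT.nd (nat_lit 78) (nat_lit 0) (nat_lit 0) (XT.lf (nat_lit 0) (nat_lit 970286801713)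 (nat_lit 152) (nat_lit 5047460556685) (nat_lit 0) (nat_lit 969372862438) (nat_lit 1) (nat_lit 5) (nat_lit 3) (nat_lit 4) (nat_lit 1) (nat_lit 4) (nat_lit 522) (nat_lit 373) (nat_lit 305)) (XT.lf (nat_lit 0) (nat_lit 1052069718170) (nat_lit 152) (nat_lit 5442525990248) (nat_lit 0) (nat_lit 1051155415741) (nat_lit 1) (nat_lit 5) (nat_lit 3) (nat_lit 4) (nat_lit 1) (nat_lit 4) (nat_lit 523) (nat_lit 373) (nat_lit 304)))) (XT.nd (nat_lit 78) (nat_lit 0) (nat_lit 0) (XT.lf (nat_lit 0) (nat_lit 1140392078258) (nat_lit 152) (nat_lit 5869203237118) (nat_lit 0) (nat_lit 1139477439575) (nat_lit 1) (nat_lit 5) (nat_lit 3) (nat_lit 4) (nat_lit 1) (nat_lit 4) (nat_lit 524) (nat_lit 373) (nat_lit 303)) (XT.nd (nat_lit 78) (nat_lit 0) (nat_lit 0) (XT.lf (nat_lit 0) (nat_lit 1235777273741) (nat_lit 152) (nat_lit 6330020755052) (nat_lit 0) (nat_lit 1234862323711) (nat_lit 1) (nat_lit 5) (nat_lit 3) (nat_lit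 4) (nat_lit 1) (nat_lit 4) (nat_lit 525) (nat_lit 373) (nat_lit 302)) (XT.lf (nat_lit 0) (nat_lit 1338790550221) (nat_lit 152) (nat_lit 6827709314527) (nat_lit 0) (nat_lit 1337875311907) (nat_lit 1) (nat_lit 5) (nat_lit 3) (nat_lit 4) (nat_lit 1) (nat_lit 4) (nat_lit 526) (nat_lit 373) (nat_lit 301))))))))
noncomputable def xc34 : XT := (XT.nd (nat_lit 58032) (nat_lit 0) (nat_lit 0) (XT.nd (nat_lit 57096) (nat_lit 0) (nat_lit 152) (XT.nd (nat_lit 56628) (nat_lit 0) (nat_lit 456) (XT.nd (nat_lit 156) (nat_lit 0) (nat_lit 0) (XT.nd (nat_lit 78) (nat_lit 0) (nat_lit 0) (XT.lf (nat_lit 0) (nat_lit 1450042356744) (nat_lit 152) (nat_lit 7365218181082) (nat_lit 0) (nat_lit 1449126851501) (nat_lit 1) (nat_lit 5) (nat_lit 3) (nat_lit 4) (nat_lit 1) (nat_lit 4) (nat_lit 527) (nat_lit 373) (nat_lit 300)) (XT.lf (nat_lit 0) (nat_lit 1570191963274) (nat_lit 152) (nat_lit 7945732592443) (nat_lit 0) (nat_lit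 1569276210874) (nat_lit 1) (nat_lit 5) (nat_lit 3) (nat_lit 4) (nat_lit 1) (nat_lit 4) (nat_lit 528) (nat_lit 373) (nat_lit 299))) (XT.nd (nat_lit 78) (nat_lit 0) (nat_lit 0) (XT.lf (nat_lit 0) (nat_lit 1699951367481) (nat_lit 152) (nat_lit 8572692634012) (nat_lit 0) (nat_lit 1699035386232) (nat_lit 1) (nat_lit 5) (nat_lit 3) (nat_lit 4) (nat_lit 1) (nat_lit 4) (nat_lit 529) (nat_lit 373) (nat_lit 298)) (XT.nd (nat_lit 78) (nat_lit 0) (nat_lit 0) (XT.lf (nat_lit 0) (nat_lit 1840089513982) (nat_lit 152) (nat_lit 9249813624553) (nat_lit 0) (nat_lit 1839173320835) (nat_lit 1) (nat_lit 5) (nat_lit 3) (nat_lit 4) (nat_lit 1) (nat_lit 4) (nat_lit 530) (nat_lit 373) (nat_lit 297)) (XT.lf (nat_lit 0) (nat_lit 1991436851051) (nat_lit 152) (nat_lit 9981108132900) (nat_lit 0) (nat_lit 1990520461704) (nat_lit 1) (nat_lit 5) (nat_lit 3) (nat_lit 4) (nat_lit 1) (nat_lit 4) (nat_lit 531) (nat_lit 373)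 (nat_lit 296))))) (XT.nd (nat_lit 234) (nat_lit 152) (nat_lit 0) (XT.nd (nat_lit 78) (nat_lit 0) (nat_lit 0) (XT.lf (nat_lit 0) (nat_lit 2242087506) (nat_lit 76) (nat_lit 8646207841) (nat_lit 76) (nat_lit 8646207841) (nat_lit 9) (nat_lit 4) (nat_lit 10) (nat_lit 5) (nat_lit 10) (nat_lit 4) (nat_lit 452) (nat_lit 374) (nat_lit 374)) (XT.nd (nat_lit 78) (nat_lit 0) (nat_lit 0) (XT.lf (nat_lit 0) (nat_lit 22908910594) (nat_lit 76) (nat_lit 9335988830) (nat_lit 76) (nat_lit 9243390741) (nat_lit 9) (nat_lit 4) (nat_lit 10) (nat_lit 5) (nat_lit 10) (nat_lit 4) (nat_lit 453) (nat_lit 374) (nat_lit 373)) (XT.lf (nat_lit 0) (nat_lit 41926769811) (nat_lit 76) (nat_lit 1193559164) (nat_lit 76) (nat_lit 1015222103) (nat_lit 9) (nat_lit 4) (nat_lit 10) (nat_lit 5) (nat_lit 10) (nat_lit 4) (nat_lit 454) (nat_lit 374) (nat_lit 372)))) (XT.nd (nat_lit 78) (nat_lit 0) (nat_lit 0) (XT.lf (nat_lit 0) (nat_lit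 7621226126) (nat_lit 152) (nat_lit 31964134557) (nat_lit 0) (nat_lit 7382591868) (nat_lit 7) (nat_lit 5) (nat_lit 9) (nat_lit 4) (nat_lit 7) (nat_lit 4) (nat_lit 455) (nat_lit 374) (nat_lit 371)) (XT.nd (nat_lit 78) (nat_lit 0) (nat_lit 0) (XT.lf (nat_lit 0) (nat_lit 16578493468) (nat_lit 152) (nat_lit 17199771628) (nat_lit 0) (nat_lit 16271796851) (nat_lit 7) (nat_lit 5) (nat_lit 9) (nat_lit 4) (nat_lit 7) (nat_lit 4) (nat_lit 456) (nat_lit 374) (nat_lit 370)) (XT.lf (nat_lit 0) (nat_lit 25874369479) (nat_lit 152) (nat_lit 2029961355) (nat_lit 0) (nat_lit 25504652157) (nat_lit 7) (nat_lit 5) (nat_lit 9) (nat_lit 4) (nat_lit 7) (nat_lit 4) (nat_lit 457) (nat_lit 374) (nat_lit 369)))))) (XT.nd (nat_lit 468) (nat_lit 76) (nat_lit 0) (XT.nd (nat_lit 234) (nat_lit 152) (nat_lit 0) (XT.nd (nat_lit 78) (nat_lit 0) (nat_lit 0) (XT.lf (nat_lit 0) (nat_lit 14353196450) (nat_lit 76) (nat_lit 21555939100)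 (nat_lit 76) (nat_lit 21127869274) (nat_lit 6) (nat_lit 4) (nat_lit 7) (nat_lit 5) (nat_lit 7) (nat_lit 4) (nat_lit 458) (nat_lit 374) (nat_lit 368)) (XT.nd (nat_lit 78) (nat_lit 0) (nat_lit 0) (XT.lf (nat_lit 0) (nat_lit 31462393624) (nat_lit 76) (nat_lit 14998904902) (nat_lit 76) (nat_lit 14516804981) (nat_lit 6) (nat_lit 4) (nat_lit 7) (nat_lit 5) (nat_lit 7) (nat_lit 4) (nat_lit 459) (nat_lit 374) (nat_lit 367)) (XT.lf (nat_lit 0) (nat_lit 49292123836) (nat_lit 76) (nat_lit 8249874484) (nat_lit 76) (nat_lit 7717746696) (nat_lit 6) (nat_lit 4) (nat_lit 7) (nat_lit 5) (nat_lit 7) (nat_lit 4) (nat_lit 460) (nat_lit 374) (nat_lit 366)))) (XT.nd (nat_lit 78) (nat_lit 152) (nat_lit 0) (XT.lf (nat_lit 0) (nat_lit 67948044744) (nat_lit 76) (nat_lit 1268853591) (nat_lit 76) (nat_lit 690403705) (nat_lit 6) (nat_lit 4) (nat_lit 7) (nat_lit 5) (nat_lit 7) (nat_lit 4) (nat_lit 461) (nat_lit 374)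 (nat_lit 365)) (XT.nd (nat_lit 78) (nat_lit 0) (nat_lit 0) (XT.lf (nat_lit 0) (nat_lit 6747392476) (nat_lit 152) (nat_lit 61978452379) (nat_lit 0) (nat_lit 6172076996) (nat_lit 4) (nat_lit 5) (nat_lit 6) (nat_lit 4) (nat_lit 4) (nat_lit 4) (nat_lit 462) (nat_lit 374) (nat_lit 364)) (XT.lf (nat_lit 0) (nat_lit 14553522189) (nat_lit 152) (nat_lit 51806553920) (nat_lit 0) (nat_lit 13941434733) (nat_lit 4) (nat_lit 5) (nat_lit 6) (nat_lit 4) (nat_lit 4) (nat_lit 4) (nat_lit 463) (nat_lit 374) (nat_lit 363))))) (XT.nd (nat_lit 234) (nat_lit 76) (nat_lit 0) (XT.nd (nat_lit 78) (nat_lit 0) (nat_lit 0) (XT.lf (nat_lit 0) (nat_lit 22727375008) (nat_lit 152) (nat_lit 41349316641) (nat_lit 0) (nat_lit 22081239428) (nat_lit 4) (nat_lit 5) (nat_lit 6) (nat_lit 4) (nat_lit 4) (nat_lit 4) (nat_lit 464) (nat_lit 374) (nat_lit 362)) (XT.nd (nat_lit 78) (nat_lit 0) (nat_lit 0) (XT.lf (nat_lit 0) (nat_lit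 31317388582) (nat_lit 152) (nat_lit 30544771729) (nat_lit 0) (nat_lit 30639726959) (nat_lit 4) (nat_lit 5) (nat_lit 6) (nat_lit 4) (nat_lit 4) (nat_lit 4) (nat_lit 465) (nat_lit 374) (nat_lit 361)) (XT.lf (nat_lit 0) (nat_lit 40374466693) (nat_lit 152) (nat_lit 19328892252) (nat_lit 0) (nat_lit 39667614290) (nat_lit 4) (nat_lit 5) (nat_lit 6) (nat_lit 4) (nat_lit 4) (nat_lit 4) (nat_lit 466) (nat_lit 374) (nat_lit 360)))) (XT.nd (nat_lit 78) (nat_lit 76) (nat_lit 0) (XT.lf (nat_lit 0) (nat_lit 49952280915) (nat_lit 152) (nat_lit 7635213737) (nat_lit 0) (nat_lit 49218400013) (nat_lit 4) (nat_lit 5) (nat_lit 6) (nat_lit 4) (nat_lit 4) (nat_lit 4) (nat_lit 467) (nat_lit 374) (nat_lit 359)) (XT.nd (nat_lit 78) (nat_lit 0) (nat_lit 0) (XT.lf (nat_lit 0) (nat_lit 4848080297) (nat_lit 76) (nat_lit 55376104818) (nat_lit 76) (nat_lit 54617197527) (nat_lit 3) (nat_lit 4) (nat_lit 4) (nat_lit 5) (nat_lit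 4) (nat_lit 4) (nat_lit 468) (nat_lit 374) (nat_lit 358)) (XT.lf (nat_lit 0) (nat_lit 18385692750) (nat_lit 76) (nat_lit 52957053153) (nat_lit 76) (nat_lit 52174973280) (nat_lit 3) (nat_lit 4) (nat_lit 4) (nat_lit 5) (nat_lit 4) (nat_lit 4) (nat_lit 469) (nat_lit 374) (nat_lit 357))))))) (XT.nd (nat_lit 936) (nat_lit 152) (nat_lit 0) (XT.nd (nat_lit 468) (nat_lit 0) (nat_lit 0) (XT.nd (nat_lit 234) (nat_lit 0) (nat_lit 0) (XT.nd (nat_lit 78) (nat_lit 0) (nat_lit 0) (XT.lf (nat_lit 0) (nat_lit 32655789683) (nat_lit 76) (nat_lit 50524764813) (nat_lit 76) (nat_lit 49721228846) (nat_lit 3) (nat_lit 4) (nat_lit 4) (nat_lit 5) (nat_lit 4) (nat_lit 4) (nat_lit 470) (nat_lit 374) (nat_lit 356)) (XT.nd (nat_lit 78) (nat_lit 0) (nat_lit 0) (XT.lf (nat_lit 0) (nat_lit 47742934636) (nat_lit 76) (nat_lit 48064826236) (nat_lit 76) (nat_lit 47241423515) (nat_lit 3) (nat_lit 4) (nat_lit 4) (nat_lit 5)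 (nat_lit 4) (nat_lit 4) (nat_lit 471) (nat_lit 374) (nat_lit 355)) (XT.lf (nat_lit 0) (nat_lit 63736532910) (nat_lit 76) (nat_lit 45562660009) (nat_lit 76) (nat_lit 44720862145) (nat_lit 3) (nat_lit 4) (nat_lit 4) (nat_lit 5) (nat_lit 4) (nat_lit 4) (nat_lit 472) (nat_lit 374) (nat_lit 354)))) (XT.nd (nat_lit 78) (nat_lit 0) (nat_lit 0) (XT.lf (nat_lit 0) (nat_lit 80731361385) (nat_lit 76) (nat_lit 43003438481) (nat_lit 76) (nat_lit 42144608077) (nat_lit 3) (nat_lit 4) (nat_lit 4) (nat_lit 5) (nat_lit 4) (nat_lit 4) (nat_lit 473) (nat_lit 374) (nat_lit 353)) (XT.nd (nat_lit 78) (nat_lit 0) (nat_lit 0) (XT.lf (nat_lit 0) (nat_lit 98828130156) (nat_lit 76) (nat_lit 40371995893) (nat_lit 76) (nat_lit 39497394619) (nat_lit 3) (nat_lit 4) (nat_lit 4) (nat_lit 5) (nat_lit 4) (nat_lit 4) (nat_lit 474) (nat_lit 374) (nat_lit 352)) (XT.lf (nat_lit 0) (nat_lit 118134079333) (nat_lit 76) (nat_lit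 37652738512) (nat_lit 76) (nat_lit 36763534582) (nat_lit 3) (nat_lit 4) (nat_lit 4) (nat_lit 5) (nat_lit 4) (nat_lit 4) (nat_lit 475) (nat_lit 374) (nat_lit 351))))) (XT.nd (nat_lit 234) (nat_lit 0) (nat_lit 0) (XT.nd (nat_lit 78) (nat_lit 0) (nat_lit 0) (XT.lf (nat_lit 0) (nat_lit 138763614542) (nat_lit 76) (nat_lit 34829552221) (nat_lit 76) (nat_lit 33926827311) (nat_lit 3) (nat_lit 4) (nat_lit 4) (nat_lit 5) (nat_lit 4) (nat_lit 4) (nat_lit 476) (nat_lit 374) (nat_lit 350)) (XT.nd (nat_lit 78) (nat_lit 0) (nat_lit 0) (XT.lf (nat_lit 0) (nat_lit 160838984879) (nat_lit 76) (nat_lit 31885707026) (nat_lit 76) (nat_lit 30970462691) (nat_lit 3) (nat_lit 4) (nat_lit 4) (nat_lit 5) (nat_lit 4) (nat_lit 4) (nat_lit 477) (nat_lit 374) (nat_lit 349)) (XT.lf (nat_lit 0) (nat_lit 184491007355) (nat_lit 76) (nat_lit 28803757920) (nat_lit 76) (nat_lit 27876921524) (nat_lit 3) (nat_lit 4) (nat_lit 4)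 (nat_lit 5) (nat_lit 4) (nat_lit 4) (nat_lit 478) (nat_lit 374) (nat_lit 348)))) (XT.nd (nat_lit 78) (nat_lit 0) (nat_lit 0) (XT.lf (nat_lit 0) (nat_lit 209859842102) (nat_lit 76) (nat_lit 25565441498) (nat_lit 76) (nat_lit 24627871714) (nat_lit 3) (nat_lit 4) (nat_lit 4) (nat_lit 5) (nat_lit 4) (nat_lit 4) (nat_lit 479) (nat_lit 374) (nat_lit 347)) (XT.nd (nat_lit 78) (nat_lit 0) (nat_lit 0) (XT.lf (nat_lit 0) (nat_lit 237095822956) (nat_lit 76) (nat_lit 22151567740) (nat_lit 76) (nat_lit 21204059632) (nat_lit 3) (nat_lit 4) (nat_lit 4) (nat_lit 5) (nat_lit 4) (nat_lit 4) (nat_lit 480) (nat_lit 374) (nat_lit 346)) (XT.lf (nat_lit 0) (nat_lit 266360348322) (nat_lit 76) (nat_lit 18541906281) (nat_lit 76) (nat_lit 17585196022) (nat_lit 3) (nat_lit 4) (nat_lit 4) (nat_lit 5) (nat_lit 4) (nat_lit 4) (nat_lit 481) (nat_lit 374) (nat_lit 345)))))) (XT.nd (nat_lit 468) (nat_lit 0) (nat_lit 0)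 (XT.nd (nat_lit 234) (nat_lit 152) (nat_lit 0) (XT.nd (nat_lit 78) (nat_lit 0) (nat_lit 0) (XT.lf (nat_lit 0) (nat_lit 297826837610) (nat_lit 76) (nat_lit 14715066535) (nat_lit 76) (nat_lit 13749835766) (nat_lit 3) (nat_lit 4) (nat_lit 4) (nat_lit 5) (nat_lit 4) (nat_lit 4) (nat_lit 482) (nat_lit 374) (nat_lit 344)) (XT.nd (nat_lit 78) (nat_lit 0) (nat_lit 0) (XT.lf (nat_lit 0) (nat_lit 331681758905) (nat_lit 76) (nat_lit 10648370933) (nat_lit 76) (nat_lit 9675250803) (nat_lit 3) (nat_lit 4) (nat_lit 4) (nat_lit 5) (nat_lit 4) (nat_lit 4) (nat_lit 483) (nat_lit 374) (nat_lit 343)) (XT.lf (nat_lit 0) (nat_lit 368125733961) (nat_lit 76) (nat_lit 6317720539) (nat_lit 76) (nat_lit 5337295445) (nat_lit 3) (nat_lit 4) (nat_lit 4) (nat_lit 5) (nat_lit 4) (nat_lit 4) (nat_lit 484) (nat_lit 374) (nat_lit 342)))) (XT.nd (nat_lit 78) (nat_lit 152) (nat_lit 0) (XT.lf (nat_lit 0) (nat_lit 407374727076)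 (nat_lit 76) (nat_lit 1697452239) (nat_lit 76) (nat_lit 710263288) (nat_lit 3) (nat_lit 4) (nat_lit 4) (nat_lit 5) (nat_lit 4) (nat_lit 4) (nat_lit 485) (nat_lit 374) (nat_lit 341)) (XT.nd (nat_lit 78) (nat_lit 0) (nat_lit 0) (XT.lf (nat_lit 0) (nat_lit 4293523571) (nat_lit 152) (nat_lit 434491155352) (nat_lit 0) (nat_lit 3373660811) (nat_lit 1) (nat_lit 5) (nat_lit 3) (nat_lit 4) (nat_lit 1) (nat_lit 4) (nat_lit 486) (nat_lit 374) (nat_lit 340)) (XT.lf (nat_lit 0) (nat_lit 9719938045) (nat_lit 152) (nat_lit 458603333444) (nat_lit 0) (nat_lit 8794705919) (nat_lit 1) (nat_lit 5) (nat_lit 3) (nat_lit 4) (nat_lit 1) (nat_lit 4) (nat_lit 487) (nat_lit 374) (nat_lit 339))))) (XT.nd (nat_lit 234) (nat_lit 0) (nat_lit 0) (XT.nd (nat_lit 78) (nat_lit 0) (nat_lit 0) (XT.lf (nat_lit 0) (nat_lit 15533305078) (nat_lit 152) (nat_lit 484741752953) (nat_lit 0) (nat_lit 14603101316) (nat_lit 1) (nat_lit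 5) (nat_lit 3) (nat_lit 4) (nat_lit 1) (nat_lit 4) (nat_lit 488) (nat_lit 374) (nat_lit 338)) (XT.nd (nat_lit 78) (nat_lit 0) (nat_lit 0) (XT.lf (nat_lit 0) (nat_lit 21768074250) (nat_lit 152) (nat_lit 513061308216) (nat_lit 0) (nat_lit 20833267122) (nat_lit 1) (nat_lit 5) (nat_lit 3) (nat_lit 4) (nat_lit 1) (nat_lit 4) (nat_lit 489) (nat_lit 374) (nat_lit 337)) (XT.lf (nat_lit 0) (nat_lit 28461192344) (nat_lit 152) (nat_lit 543729818818) (nat_lit 0) (nat_lit 27522122839) (nat_lit 1) (nat_lit 5) (nat_lit 3) (nat_lit 4) (nat_lit 1) (nat_lit 4) (nat_lit 490) (nat_lit 374) (nat_lit 336)))) (XT.nd (nat_lit 78) (nat_lit 0) (nat_lit 0) (XT.lf (nat_lit 0) (nat_lit 35652322280) (nat_lit 152) (nat_lit 576929024083) (nat_lit 0) (nat_lit 34709306131) (nat_lit 1) (nat_lit 5) (nat_lit 3) (nat_lit 4) (nat_lit 1) (nat_lit 4) (nat_lit 491) (nat_lit 374) (nat_lit 335)) (XT.nd (nat_lit 78) (nat_lit 0) (nat_lit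 0) (XT.lf (nat_lit 0) (nat_lit 43384078163) (nat_lit 152) (nat_lit 612855660042) (nat_lit 0) (nat_lit 42437407712) (nat_lit 1) (nat_lit 5) (nat_lit 3) (nat_lit 4) (nat_lit 1) (nat_lit 4) (nat_lit 492) (nat_lit 374) (nat_lit 334)) (XT.lf (nat_lit 0) (nat_lit 51702277804) (nat_lit 152) (nat_lit 651722625278) (nat_lit 0) (nat_lit 50752223741) (nat_lit 1) (nat_lit 5) (nat_lit 3) (nat_lit 4) (nat_lit 1) (nat_lit 4) (nat_lit 493) (nat_lit 374) (nat_lit 333))))))))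
noncomputable def xc35 : XT := (XT.nd (nat_lit 1794) (nat_lit 0) (nat_lit 0) (XT.nd (nat_lit 858) (nat_lit 0) (nat_lit 0) (XT.nd (nat_lit 390) (nat_lit 0) (nat_lit 0) (XT.nd (nat_lit 156) (nat_lit 0) (nat_lit 0) (XT.nd (nat_lit 78) (nat_lit 0) (nat_lit 0) (XT.lf (nat_lit 0) (nat_lit 60656214239) (nat_lit 152) (nat_lit 693760242548) (nat_lit 0) (nat_lit 59703027202) (nat_lit 1) (nat_lit 5) (nat_lit 3) (nat_lit 4) (nat_lit 1) (nat_lit 4) (nat_lit 494) (nat_lit 374) (nat_lit 332)) (XT.lf (nat_lit 0) (nat_lit 70298947831) (nat_lit 152) (nat_lit 739217623658) (nat_lit 0) (nat_lit 69342859893) (nat_lit 1) (nat_lit 5) (nat_lit 3) (nat_lit 4) (nat_lit 1) (nat_lit 4) (nat_lit 495) (nat_lit 374) (nat_lit 331))) (XT.nd (nat_lit 78) (nat_lit 0) (nat_lit 0) (XT.lf (nat_lit 0) (nat_lit 80687620706) (nat_lit 152) (nat_lit 788364145681) (nat_lit 0) (nat_lit 79728846748) (nat_lit 1) (nat_lit 5) (nat_lit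 3) (nat_lit 4) (nat_lit 1) (nat_lit 4) (nat_lit 496) (nat_lit 374) (nat_lit 330)) (XT.nd (nat_lit 78) (nat_lit 0) (nat_lit 0) (XT.lf (nat_lit 0) (nat_lit 91883795370) (nat_lit 152) (nat_lit 841491047267) (nat_lit 0) (nat_lit 90922534356) (nat_lit 1) (nat_lit 5) (nat_lit 3) (nat_lit 4) (nat_lit 1) (nat_lit 4) (nat_lit 497) (nat_lit 374) (nat_lit 329)) (XT.lf (nat_lit 0) (nat_lit 103953819524) (nat_lit 152) (nat_lit 898913154499) (nat_lit 0) (nat_lit 102990255681) (nat_lit 1) (nat_lit 5) (nat_lit 3) (nat_lit 4) (nat_lit 1) (nat_lit 4) (nat_lit 498) (nat_lit 374) (nat_lit 328))))) (XT.nd (nat_lit 234) (nat_lit 0) (nat_lit 0) (XT.nd (nat_lit 78) (nat_lit 0) (nat_lit 0) (XT.lf (nat_lit 0) (nat_lit 116969219238) (nat_lit 152) (nat_lit 960970746530) (nat_lit 0) (nat_lit 116003523145) (nat_lit 1) (nat_lit 5) (nat_lit 3) (nat_lit 4) (nat_lit 1) (nat_lit 4) (nat_lit 499) (nat_lit 374) (nat_lit 327))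 (XT.nd (nat_lit 78) (nat_lit 0) (nat_lit 0) (XT.lf (nat_lit 0) (nat_lit 131007122805) (nat_lit 152) (nat_lit 1028031572055) (nat_lit 0) (nat_lit 130039452407) (nat_lit 1) (nat_lit 5) (nat_lit 3) (nat_lit 4) (nat_lit 1) (nat_lit 4) (nat_lit 500) (nat_lit 374) (nat_lit 326)) (XT.lf (nat_lit 0) (nat_lit 146150717803) (nat_lit 152) (nat_lit 1100493028558) (nat_lit 0) (nat_lit 145181219345) (nat_lit 1) (nat_lit 5) (nat_lit 3) (nat_lit 4) (nat_lit 1) (nat_lit 4) (nat_lit 501) (nat_lit 374) (nat_lit 325)))) (XT.nd (nat_lit 78) (nat_lit 0) (nat_lit 0) (XT.lf (nat_lit 0) (nat_lit 162489744054) (nat_lit 152) (nat_lit 1178784517262) (nat_lit 0) (nat_lit 161518552948) (nat_lit 1) (nat_lit 5) (nat_lit 3) (nat_lit 4) (nat_lit 1) (nat_lit 4) (nat_lit 502) (nat_lit 374) (nat_lit 324)) (XT.nd (nat_lit 78) (nat_lit 0) (nat_lit 0) (XT.lf (nat_lit 0) (nat_lit 180121025417) (nat_lit 152) (nat_lit 1263369987731)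 (nat_lit 0) (nat_lit 179148267044) (nat_lit 1) (nat_lit 5) (nat_lit 3) (nat_lit 4) (nat_lit 1) (nat_lit 4) (nat_lit 503) (nat_lit 374) (nat_lit 323)) (XT.lf (nat_lit 0) (nat_lit 199149043560) (nat_lit 152) (nat_lit 1354750687196) (nat_lit 0) (nat_lit 198174834013) (nat_lit 1) (nat_lit 5) (nat_lit 3) (nat_lit 4) (nat_lit 1) (nat_lit 4) (nat_lit 504) (nat_lit 374) (nat_lit 322)))))) (XT.nd (nat_lit 468) (nat_lit 0) (nat_lit 0) (XT.nd (nat_lit 234) (nat_lit 0) (nat_lit 0) (XT.nd (nat_lit 78) (nat_lit 0) (nat_lit 0) (XT.lf (nat_lit 0) (nat_lit 219686557108) (nat_lit 152) (nat_lit 1453468130914) (nat_lit 0) (nat_lit 218711003882) (nat_lit 1) (nat_lit 5) (nat_lit 3) (nat_lit 4) (nat_lit 1) (nat_lit 4) (nat_lit 505) (nat_lit 374) (nat_lit 321)) (XT.nd (nat_lit 78) (nat_lit 0) (nat_lit 0) (XT.lf (nat_lit 0) (nat_lit 241855269846) (nat_lit 152) (nat_lit 1560107311144) (nat_lit 0) (nat_lit 240878472473)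 (nat_lit 1) (nat_lit 5) (nat_lit 3) (nat_lit 4) (nat_lit 1) (nat_lit 4) (nat_lit 506) (nat_lit 374) (nat_lit 320)) (XT.lf (nat_lit 0) (nat_lit 265786551922) (nat_lit 152) (nat_lit 1675300163769) (nat_lit 0) (nat_lit 264808602562) (nat_lit 1) (nat_lit 5) (nat_lit 3) (nat_lit 4) (nat_lit 1) (nat_lit 4) (nat_lit 507) (nat_lit 374) (nat_lit 319)))) (XT.nd (nat_lit 78) (nat_lit 0) (nat_lit 0) (XT.lf (nat_lit 0) (nat_lit 291622218343) (nat_lit 152) (nat_lit 1799729313101) (nat_lit 0) (nat_lit 290643202327) (nat_lit 1) (nat_lit 5) (nat_lit 3) (nat_lit 4) (nat_lit 1) (nat_lit 4) (nat_lit 508) (nat_lit 374) (nat_lit 318)) (XT.nd (nat_lit 78) (nat_lit 0) (nat_lit 0) (XT.lf (nat_lit 0) (nat_lit 319515369353) (nat_lit 152) (nat_lit 1934132117061) (nat_lit 0) (nat_lit 318535365693) (nat_lit 1) (nat_lit 5) (nat_lit 3) (nat_lit 4) (nat_lit 1) (nat_lit 4) (nat_lit 509) (nat_lit 374) (nat_lit 317)) (XT.lf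 (nat_lit 0) (nat_lit 349631297699) (nat_lit 152) (nat_lit 2079305036710) (nat_lit 0) (nat_lit 348650379554) (nat_lit 1) (nat_lit 5) (nat_lit 3) (nat_lit 4) (nat_lit 1) (nat_lit 4) (nat_lit 510) (nat_lit 374) (nat_lit 316))))) (XT.nd (nat_lit 234) (nat_lit 0) (nat_lit 0) (XT.nd (nat_lit 78) (nat_lit 0) (nat_lit 0) (XT.lf (nat_lit 0) (nat_lit 382148468142) (nat_lit 152) (nat_lit 2236108356016) (nat_lit 0) (nat_lit 381166703251) (nat_lit 1) (nat_lit 5) (nat_lit 3) (nat_lit 4) (nat_lit 1) (nat_lit 4) (nat_lit 511) (nat_lit 374) (nat_lit 315)) (XT.nd (nat_lit 78) (nat_lit 0) (nat_lit 0) (XT.lf (nat_lit 0) (nat_lit 417259575025) (nat_lit 152) (nat_lit 2405471279835) (nat_lit 0) (nat_lit 416277026110) (nat_lit 1) (nat_lit 5) (nat_lit 3) (nat_lit 4) (nat_lit 1) (nat_lit 4) (nat_lit 512) (nat_lit 374) (nat_lit 314)) (XT.lf (nat_lit 0) (nat_lit 455172684167) (nat_lit 152) (nat_lit 2588397440308)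 (nat_lit 0) (nat_lit 454189409304) (nat_lit 1) (nat_lit 5) (nat_lit 3) (nat_lit 4) (nat_lit 1) (nat_lit 4) (nat_lit 513) (nat_lit 374) (nat_lit 313)))) (XT.nd (nat_lit 78) (nat_lit 0) (nat_lit 0) (XT.lf (nat_lit 0) (nat_lit 496112465844) (nat_lit 152) (nat_lit 2785970844311) (nat_lit 0) (nat_lit 495128518807) (nat_lit 1) (nat_lit 5) (nat_lit 3) (nat_lit 4) (nat_lit 1) (nat_lit 4) (nat_lit 514) (nat_lit 374) (nat_lit 312)) (XT.nd (nat_lit 78) (nat_lit 0) (nat_lit 0) (XT.lf (nat_lit 0) (nat_lit 540321526169) (nat_lit 152) (nat_lit 2999362297202) (nat_lit 0) (nat_lit 539336956749) (nat_lit 1) (nat_lit 5) (nat_lit 3) (nat_lit 4) (nat_lit 1) (nat_lit 4) (nat_lit 515) (nat_lit 374) (nat_lit 311)) (XT.lf (nat_lit 0) (nat_lit 588061844760) (nat_lit 152) (nat_lit 3229836340923) (nat_lit 0) (nat_lit 587076699059) (nat_lit 1) (nat_lit 5) (nat_lit 3) (nat_lit 4) (nat_lit 1) (nat_lit 4) (nat_lit 516)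 (nat_lit 374) (nat_lit 310))))))) (XT.nd (nat_lit 936) (nat_lit 0) (nat_lit 0) (XT.nd (nat_lit 468) (nat_lit 0) (nat_lit 0) (XT.nd (nat_lit 234) (nat_lit 0) (nat_lit 0) (XT.nd (nat_lit 78) (nat_lit 0) (nat_lit 0) (XT.lf (nat_lit 0) (nat_lit 639616327208) (nat_lit 152) (nat_lit 3478758747586) (nat_lit 0) (nat_lit 638630647913) (nat_lit 1) (nat_lit 5) (nat_lit 3) (nat_lit 4) (nat_lit 1) (nat_lit 4) (nat_lit 517) (nat_lit 374) (nat_lit 309)) (XT.nd (nat_lit 78) (nat_lit 0) (nat_lit 0) (XT.lf (nat_lit 0) (nat_lit 695290481557) (nat_lit 152) (nat_lit 3747604612934) (nat_lit 0) (nat_lit 694304308195) (nat_lit 1) (nat_lit 5) (nat_lit 3) (nat_lit 4) (nat_lit 1) (nat_lit 4) (nat_lit 518) (nat_lit 374) (nat_lit 308)) (XT.lf (nat_lit 0) (nat_lit 755414228722) (nat_lit 152) (nat_lit 4037967097650) (nat_lit 0) (nat_lit 754427597889) (nat_lit 1) (nat_lit 5) (nat_lit 3) (nat_lit 4) (nat_lit 1) (nat_lit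 4) (nat_lit 519) (nat_lit 374) (nat_lit 307)))) (XT.nd (nat_lit 78) (nat_lit 0) (nat_lit 0) (XT.lf (nat_lit 0) (nat_lit 820343857574) (nat_lit 152) (nat_lit 4351566868311) (nat_lit 0) (nat_lit 819356803158) (nat_lit 1) (nat_lit 5) (nat_lit 3) (nat_lit 4) (nat_lit 1) (nat_lit 4) (nat_lit 520) (nat_lit 374) (nat_lit 306)) (XT.nd (nat_lit 78) (nat_lit 0) (nat_lit 0) (XT.lf (nat_lit 0) (nat_lit 890464136286) (nat_lit 152) (nat_lit 4690262293927) (nat_lit 0) (nat_lit 889476689663) (nat_lit 1) (nat_lit 5) (nat_lit 3) (nat_lit 4) (nat_lit 1) (nat_lit 4) (nat_lit 521) (nat_lit 374) (nat_lit 305)) (XT.lf (nat_lit 0) (nat_lit 966190592434) (nat_lit 152) (nat_lit 5056060458502) (nat_lit 0) (nat_lit 965202782657) (nat_lit 1) (nat_lit 5) (nat_lit 3) (nat_lit 4) (nat_lit 1) (nat_lit 4) (nat_lit 522) (nat_lit 374) (nat_lit 304))))) (XT.nd (nat_lit 234) (nat_lit 0) (nat_lit 0) (XT.nd (nat_lit 78) (nat_lit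 0) (nat_lit 0) (XT.lf (nat_lit 0) (nat_lit 1047971975389) (nat_lit 152) (nat_lit 5451129054865) (nat_lit 0) (nat_lit 1046983829357) (nat_lit 1) (nat_lit 5) (nat_lit 3) (nat_lit 4) (nat_lit 1) (nat_lit 4) (nat_lit 523) (nat_lit 374) (nat_lit 303)) (XT.nd (nat_lit 78) (nat_lit 0) (nat_lit 0) (XT.lf (nat_lit 0) (nat_lit 1136292915567) (nat_lit 152) (nat_lit 5877809230251) (nat_lit 0) (nat_lit 1135304458189) (nat_lit 1) (nat_lit 5) (nat_lit 3) (nat_lit 4) (nat_lit 1) (nat_lit 4) (nat_lit 524) (nat_lit 374) (nat_lit 302)) (XT.lf (nat_lit 0) (nat_lit 1231676796319) (nat_lit 152) (nat_lit 6338629459775) (nat_lit 0) (nat_lit 1230688050656) (nat_lit 1) (nat_lit 5) (nat_lit 3) (nat_lit 4) (nat_lit 1) (nat_lit 4) (nat_lit 525) (nat_lit 374) (nat_lit 301)))) (XT.nd (nat_lit 78) (nat_lit 0) (nat_lit 0) (XT.lf (nat_lit 0) (nat_lit 1334688855455) (nat_lit 152) (nat_lit 6836320529982) (nat_lit 0) (nat_lit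 1333699842863) (nat_lit 1) (nat_lit 5) (nat_lit 3) (nat_lit 4) (nat_lit 1) (nat_lit 4) (nat_lit 526) (nat_lit 374) (nat_lit 300)) (XT.nd (nat_lit 78) (nat_lit 0) (nat_lit 0) (XT.lf (nat_lit 0) (nat_lit 1445939534807) (nat_lit 152) (nat_lit 7373831721287) (nat_lit 0) (nat_lit 1444950275059) (nat_lit 1) (nat_lit 5) (nat_lit 3) (nat_lit 4) (nat_lit 1) (nat_lit 4) (nat_lit 527) (nat_lit 374) (nat_lit 299)) (XT.lf (nat_lit 0) (nat_lit 1566088097662) (nat_lit 152) (nat_lit 7954348285196) (nat_lit 0) (nat_lit 1565098609064) (nat_lit 1) (nat_lit 5) (nat_lit 3) (nat_lit 4) (nat_lit 1) (nat_lit 4) (nat_lit 528) (nat_lit 374) (nat_lit 298)))))) (XT.nd (nat_lit 56550) (nat_lit 0) (nat_lit 380) (XT.nd (nat_lit 56316) (nat_lit 0) (nat_lit 608) (XT.nd (nat_lit 78) (nat_lit 0) (nat_lit 0) (XT.lf (nat_lit 0) (nat_lit 1695846535502) (nat_lit 152) (nat_lit 8581310319864) (nat_lit 0) (nat_lit 1694856835007)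 (nat_lit 1) (nat_lit 5) (nat_lit 3) (nat_lit 4) (nat_lit 1) (nat_lit 4) (nat_lit 529) (nat_lit 374) (nat_lit 297)) (XT.nd (nat_lit 78) (nat_lit 0) (nat_lit 0) (XT.lf (nat_lit 0) (nat_lit 1835983787218) (nat_lit 152) (nat_lit 9258433155868) (nat_lit 0) (nat_lit 1834993890522) (nat_lit 1) (nat_lit 5) (nat_lit 3) (nat_lit 4) (nat_lit 1) (nat_lit 4) (nat_lit 530) (nat_lit 374) (nat_lit 296)) (XT.lf (nat_lit 0) (nat_lit 1987330295784) (nat_lit 152) (nat_lit 9989729372976) (nat_lit 0) (nat_lit 1986340217420) (nat_lit 1) (nat_lit 5) (nat_lit 3) (nat_lit 4) (nat_lit 1) (nat_lit 4) (nat_lit 531) (nat_lit 374) (nat_lit 295)))) (XT.nd (nat_lit 78) (nat_lit 76) (nat_lit 0) (XT.lf (nat_lit 0) (nat_lit 1445359791) (nat_lit 152) (nat_lit 14499404752) (nat_lit 0) (nat_lit 1445359791) (nat_lit 10) (nat_lit 5) (nat_lit 12) (nat_lit 4) (nat_lit 10) (nat_lit 4) (nat_lit 450) (nat_lit 375) (nat_lit 375)) (XT.nd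 (nat_lit 78) (nat_lit 76) (nat_lit 0) (XT.lf (nat_lit 0) (nat_lit 12077006348) (nat_lit 152) (nat_lit 12783465891) (nat_lit 0) (nat_lit 11977000411) (nat_lit 10) (nat_lit 5) (nat_lit 12) (nat_lit 4) (nat_lit 10) (nat_lit 4) (nat_lit 451) (nat_lit 375) (nat_lit 374)) (XT.lf (nat_lit 0) (nat_lit 4026807884) (nat_lit 76) (nat_lit 17626340965) (nat_lit 76) (nat_lit 17433736938) (nat_lit 9) (nat_lit 4) (nat_lit 10) (nat_lit 5) (nat_lit 10) (nat_lit 4) (nat_lit 452) (nat_lit 375) (nat_lit 373))))) (XT.nd (nat_lit 234) (nat_lit 76) (nat_lit 0) (XT.nd (nat_lit 78) (nat_lit 152) (nat_lit 0) (XT.lf (nat_lit 0) (nat_lit 22028055383) (nat_lit 76) (nat_lit 9886506100) (nat_lit 76) (nat_lit 9608163102) (nat_lit 9) (nat_lit 4) (nat_lit 10) (nat_lit 5) (nat_lit 10) (nat_lit 4) (nat_lit 453) (nat_lit 375) (nat_lit 372)) (XT.nd (nat_lit 78) (nat_lit 152) (nat_lit 0) (XT.lf (nat_lit 0) (nat_lit 40653796006)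 (nat_lit 76) (nat_lit 1944624570) (nat_lit 76) (nat_lit 1586893635) (nat_lit 9) (nat_lit 4) (nat_lit 10) (nat_lit 5) (nat_lit 10) (nat_lit 4) (nat_lit 454) (nat_lit 375) (nat_lit 371)) (XT.lf (nat_lit 0) (nat_lit 6829476908) (nat_lit 152) (nat_lit 33779053111) (nat_lit 0) (nat_lit 6430182201) (nat_lit 7) (nat_lit 5) (nat_lit 9) (nat_lit 4) (nat_lit 7) (nat_lit 4) (nat_lit 455) (nat_lit 375) (nat_lit 370)))) (XT.nd (nat_lit 78) (nat_lit 76) (nat_lit 0) (XT.lf (nat_lit 0) (nat_lit 15605026597) (nat_lit 152) (nat_lit 19387623687) (nat_lit 0) (nat_lit 15142711186) (nat_lit 7) (nat_lit 5) (nat_lit 9) (nat_lit 4) (nat_lit 7) (nat_lit 4) (nat_lit 456) (nat_lit 375) (nat_lit 369)) (XT.nd (nat_lit 78) (nat_lit 76) (nat_lit 0) (XT.lf (nat_lit 0) (nat_lit 24732645521) (nat_lit 152) (nat_lit 4563122215) (nat_lit 0) (nat_lit 24211977606) (nat_lit 7) (nat_lit 5) (nat_lit 9) (nat_lit 4) (nat_lit 7) (nat_lit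 4) (nat_lit 457) (nat_lit 375) (nat_lit 368)) (XT.lf (nat_lit 0) (nat_lit 11350077022) (nat_lit 76) (nat_lit 23189315876) (nat_lit 76) (nat_lit 22614617865) (nat_lit 6) (nat_lit 4) (nat_lit 7) (nat_lit 5) (nat_lit 7) (nat_lit 4) (nat_lit 458) (nat_lit 375) (nat_lit 367))))))))
noncomputable def xc36 : XT := (XT.nd (nat_lit 1794) (nat_lit 152) (nat_lit 0) (XT.nd (nat_lit 858) (nat_lit 0) (nat_lit 0) (XT.nd (nat_lit 390) (nat_lit 76) (nat_lit 0) (XT.nd (nat_lit 156) (nat_lit 152) (nat_lit 0) (XT.nd (nat_lit 78) (nat_lit 0) (nat_lit 0) (XT.lf (nat_lit 0) (nat_lit 28147638265) (nat_lit 76) (nat_lit 16792169426) (nat_lit 76) (nat_lit 16167443549) (nat_lit 6) (nat_lit 4) (nat_lit 7) (nat_lit 5) (nat_lit 7) (nat_lit 4) (nat_lit 459) (nat_lit 375) (nat_lit 366)) (XT.lf (nat_lit 0) (nat_lit 45688816688) (nat_lit 76) (nat_lit 10191183219) (nat_lit 76) (nat_lit 9520135243) (nat_lit 6) (nat_lit 4)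 (nat_lit 7) (nat_lit 5) (nat_lit 7) (nat_lit 4) (nat_lit 460) (nat_lit 375) (nat_lit 365))) (XT.nd (nat_lit 78) (nat_lit 152) (nat_lit 0) (XT.lf (nat_lit 0) (nat_lit 64077560015) (nat_lit 76) (nat_lit 3347240299) (nat_lit 76) (nat_lit 2633301491) (nat_lit 6) (nat_lit 4) (nat_lit 7) (nat_lit 5) (nat_lit 7) (nat_lit 4) (nat_lit 461) (nat_lit 375) (nat_lit 364)) (XT.nd (nat_lit 78) (nat_lit 0) (nat_lit 0) (XT.lf (nat_lit 0) (nat_lit 4613930641) (nat_lit 152) (nat_lit 66545446779) (nat_lit 0) (nat_lit 3916104214) (nat_lit 4) (nat_lit 5) (nat_lit 6) (nat_lit 4) (nat_lit 4) (nat_lit 4) (nat_lit 462) (nat_lit 375) (nat_lit 363)) (XT.lf (nat_lit 0) (nat_lit 12296614551) (nat_lit 152) (nat_lit 56627593059) (nat_lit 0) (nat_lit 11564739998) (nat_lit 4) (nat_lit 5) (nat_lit 6) (nat_lit 4) (nat_lit 4) (nat_lit 4) (nat_lit 463) (nat_lit 375) (nat_lit 362))))) (XT.nd (nat_lit 234) (nat_lit 76) (nat_lit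 0) (XT.nd (nat_lit 78) (nat_lit 0) (nat_lit 0) (XT.lf (nat_lit 0) (nat_lit 20356165701) (nat_lit 152) (nat_lit 46405582391) (nat_lit 0) (nat_lit 19592765106) (nat_lit 4) (nat_lit 5) (nat_lit 6) (nat_lit 4) (nat_lit 4) (nat_lit 4) (nat_lit 464) (nat_lit 375) (nat_lit 361)) (XT.nd (nat_lit 78) (nat_lit 0) (nat_lit 0) (XT.lf (nat_lit 0) (nat_lit 28840344395) (nat_lit 152) (nat_lit 35818839896) (nat_lit 0) (nat_lit 28047753021) (nat_lit 4) (nat_lit 5) (nat_lit 6) (nat_lit 4) (nat_lit 4) (nat_lit 4) (nat_lit 465) (nat_lit 375) (nat_lit 360)) (XT.lf (nat_lit 0) (nat_lit 37799427248) (nat_lit 152) (nat_lit 24804629323) (nat_lit 0) (nat_lit 36979807374) (nat_lit 4) (nat_lit 5) (nat_lit 6) (nat_lit 4) (nat_lit 4) (nat_lit 4) (nat_lit 466) (nat_lit 375) (nat_lit 359)))) (XT.nd (nat_lit 78) (nat_lit 76) (nat_lit 0) (XT.lf (nat_lit 0) (nat_lit 47286505121) (nat_lit 152) (nat_lit 13297681275) (nat_lit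 0) (nat_lit 46441858858) (nat_lit 4) (nat_lit 5) (nat_lit 6) (nat_lit 4) (nat_lit 4) (nat_lit 4) (nat_lit 467) (nat_lit 375) (nat_lit 358)) (XT.nd (nat_lit 78) (nat_lit 76) (nat_lit 0) (XT.lf (nat_lit 0) (nat_lit 57357797734) (nat_lit 152) (nat_lit 1229806432) (nat_lit 0) (nat_lit 56489978889) (nat_lit 4) (nat_lit 5) (nat_lit 6) (nat_lit 4) (nat_lit 4) (nat_lit 4) (nat_lit 468) (nat_lit 375) (nat_lit 357)) (XT.lf (nat_lit 0) (nat_lit 12074525191) (nat_lit 76) (nat_lit 56288854251) (nat_lit 76) (nat_lit 55399579312) (nat_lit 3) (nat_lit 4) (nat_lit 4) (nat_lit 5) (nat_lit 4) (nat_lit 4) (nat_lit 469) (nat_lit 375) (nat_lit 356)))))) (XT.nd (nat_lit 468) (nat_lit 0) (nat_lit 0) (XT.nd (nat_lit 234) (nat_lit 0) (nat_lit 0) (XT.nd (nat_lit 78) (nat_lit 0) (nat_lit 0) (XT.lf (nat_lit 0) (nat_lit 26188583790) (nat_lit 76) (nat_lit 53936822079) (nat_lit 76) (nat_lit 53027680386) (nat_lit 3) (nat_lit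 4) (nat_lit 4) (nat_lit 5) (nat_lit 4) (nat_lit 4) (nat_lit 470) (nat_lit 375) (nat_lit 355)) (XT.nd (nat_lit 78) (nat_lit 0) (nat_lit 0) (XT.lf (nat_lit 0) (nat_lit 41131248803) (nat_lit 76) (nat_lit 51551194770) (nat_lit 76) (nat_lit 50623657934) (nat_lit 3) (nat_lit 4) (nat_lit 4) (nat_lit 5) (nat_lit 4) (nat_lit 4) (nat_lit 471) (nat_lit 375) (nat_lit 354)) (XT.lf (nat_lit 0) (nat_lit 56991069355) (nat_lit 76) (nat_lit 49117835272) (nat_lit 76) (nat_lit 48173265897) (nat_lit 3) (nat_lit 4) (nat_lit 4) (nat_lit 5) (nat_lit 4) (nat_lit 4) (nat_lit 472) (nat_lit 375) (nat_lit 353)))) (XT.nd (nat_lit 78) (nat_lit 0) (nat_lit 0) (XT.lf (nat_lit 0) (nat_lit 73862029570) (nat_lit 76) (nat_lit 46622323678) (nat_lit 76) (nat_lit 45661983432) (nat_lit 3) (nat_lit 4) (nat_lit 4) (nat_lit 5) (nat_lit 4) (nat_lit 4) (nat_lit 473) (nat_lit 375) (nat_lit 352)) (XT.nd (nat_lit 78) (nat_lit 0) (nat_lit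 0) (XT.lf (nat_lit 0) (nat_lit 91844105506) (nat_lit 76) (nat_lit 44049871770) (nat_lit 76) (nat_lit 43074928867) (nat_lit 3) (nat_lit 4) (nat_lit 4) (nat_lit 5) (nat_lit 4) (nat_lit 4) (nat_lit 474) (nat_lit 375) (nat_lit 351)) (XT.lf (nat_lit 0) (nat_lit 111043857615) (nat_lit 76) (nat_lit 41385235389) (nat_lit 76) (nat_lit 40396771508) (nat_lit 3) (nat_lit 4) (nat_lit 4) (nat_lit 5) (nat_lit 4) (nat_lit 4) (nat_lit 475) (nat_lit 375) (nat_lit 350))))) (XT.nd (nat_lit 234) (nat_lit 0) (nat_lit 0) (XT.nd (nat_lit 78) (nat_lit 0) (nat_lit 0) (XT.lf (nat_lit 0) (nat_lit 131575062204) (nat_lit 76) (nat_lit 38612624098) (nat_lit 76) (nat_lit 37611640791) (nat_lit 3) (nat_lit 4) (nat_lit 4) (nat_lit 5) (nat_lit 4) (nat_lit 4) (nat_lit 476) (nat_lit 375) (nat_lit 349)) (XT.nd (nat_lit 78) (nat_lit 0) (nat_lit 0) (XT.lf (nat_lit 0) (nat_lit 153559385672) (nat_lit 76) (nat_lit 35715607607) (nat_lit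 76) (nat_lit 34703032240) (nat_lit 3) (nat_lit 4) (nat_lit 4) (nat_lit 5) (nat_lit 4) (nat_lit 4) (nat_lit 477) (nat_lit 375) (nat_lit 348)) (XT.lf (nat_lit 0) (nat_lit 177127105490) (nat_lit 76) (nat_lit 32677018411) (nat_lit 76) (nat_lit 31653709655) (nat_lit 3) (nat_lit 4) (nat_lit 4) (nat_lit 5) (nat_lit 4) (nat_lit 4) (nat_lit 478) (nat_lit 375) (nat_lit 347)))) (XT.nd (nat_lit 78) (nat_lit 0) (nat_lit 0) (XT.lf (nat_lit 0) (nat_lit 202417882222) (nat_lit 76) (nat_lit 29478850055) (nat_lit 76) (nat_lit 28445602976) (nat_lit 3) (nat_lit 4) (nat_lit 4) (nat_lit 5) (nat_lit 4) (nat_lit 4) (nat_lit 479) (nat_lit 375) (nat_lit 346)) (XT.nd (nat_lit 78) (nat_lit 0) (nat_lit 0) (XT.lf (nat_lit 0) (nat_lit 229581587136) (nat_lit 76) (nat_lit 26102150431) (nat_lit 76) (nat_lit 25059701201) (nat_lit 3) (nat_lit 4) (nat_lit 4) (nat_lit 5) (nat_lit 4) (nat_lit 4) (nat_lit 480) (nat_lit 375) (nat_lit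 345)) (XT.lf (nat_lit 0) (nat_lit 258779190335) (nat_lit 76) (nat_lit 22526909467) (nat_lit 76) (nat_lit 21475939727) (nat_lit 3) (nat_lit 4) (nat_lit 4) (nat_lit 5) (nat_lit 4) (nat_lit 4) (nat_lit 481) (nat_lit 375) (nat_lit 344))))))) (XT.nd (nat_lit 858) (nat_lit 0) (nat_lit 0) (XT.nd (nat_lit 390) (nat_lit 76) (nat_lit 0) (XT.nd (nat_lit 156) (nat_lit 76) (nat_lit 0) (XT.nd (nat_lit 78) (nat_lit 0) (nat_lit 0) (XT.lf (nat_lit 0) (nat_lit 290183714653) (nat_lit 76) (nat_lit 18731940550) (nat_lit 76) (nat_lit 17673081448) (nat_lit 3) (nat_lit 4) (nat_lit 4) (nat_lit 5) (nat_lit 4) (nat_lit 4) (nat_lit 482) (nat_lit 375) (nat_lit 343)) (XT.lf (nat_lit 0) (nat_lit 323981260976) (nat_lit 76) (nat_lit 14694754975) (nat_lit 76) (nat_lit 13628590909) (nat_lit 3) (nat_lit 4) (nat_lit 4) (nat_lit 5) (nat_lit 4) (nat_lit 4) (nat_lit 483) (nat_lit 375) (nat_lit 342))) (XT.nd (nat_lit 78) (nat_lit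 76) (nat_lit 0) (XT.lf (nat_lit 0) (nat_lit 360372111058) (nat_lit 76) (nat_lit 10391428680) (nat_lit 76) (nat_lit 9318500758) (nat_lit 3) (nat_lit 4) (nat_lit 4) (nat_lit 5) (nat_lit 4) (nat_lit 4) (nat_lit 484) (nat_lit 375) (nat_lit 341)) (XT.nd (nat_lit 78) (nat_lit 76) (nat_lit 0) (XT.lf (nat_lit 0) (nat_lit 399571914383) (nat_lit 76) (nat_lit 5796460471) (nat_lit 76) (nat_lit 4717269719) (nat_lit 3) (nat_lit 4) (nat_lit 4) (nat_lit 5) (nat_lit 4) (nat_lit 4) (nat_lit 485) (nat_lit 375) (nat_lit 340)) (XT.lf (nat_lit 0) (nat_lit 192245454) (nat_lit 152) (nat_lit 685119121) (nat_lit 76) (nat_lit 441615464294) (nat_lit 2) (nat_lit 5) (nat_lit 4) (nat_lit 5) (nat_lit 3) (nat_lit 4) (nat_lit 486) (nat_lit 375) (nat_lit 339))))) (XT.nd (nat_lit 234) (nat_lit 0) (nat_lit 0) (XT.nd (nat_lit 78) (nat_lit 0) (nat_lit 0) (XT.lf (nat_lit 0) (nat_lit 5557090622) (nat_lit 152) (nat_lit 467352802736)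 (nat_lit 0) (nat_lit 4547498924) (nat_lit 1) (nat_lit 5) (nat_lit 3) (nat_lit 4) (nat_lit 1) (nat_lit 4) (nat_lit 487) (nat_lit 375) (nat_lit 338)) (XT.nd (nat_lit 78) (nat_lit 0) (nat_lit 0) (XT.lf (nat_lit 0) (nat_lit 11349463798) (nat_lit 152) (nat_lit 493534521376) (nat_lit 0) (nat_lit 10335268733) (nat_lit 1) (nat_lit 5) (nat_lit 3) (nat_lit 4) (nat_lit 1) (nat_lit 4) (nat_lit 488) (nat_lit 375) (nat_lit 337)) (XT.lf (nat_lit 0) (nat_lit 17564794215) (nat_lit 152) (nat_lit 521894168426) (nat_lit 0) (nat_lit 16546336773) (nat_lit 1) (nat_lit 5) (nat_lit 3) (nat_lit 4) (nat_lit 1) (nat_lit 4) (nat_lit 489) (nat_lit 375) (nat_lit 336)))) (XT.nd (nat_lit 78) (nat_lit 0) (nat_lit 0) (XT.lf (nat_lit 0) (nat_lit 24239913460) (nat_lit 152) (nat_lit 552599801055) (nat_lit 0) (nat_lit 23217509373) (nat_lit 1) (nat_lit 5) (nat_lit 3) (nat_lit 4) (nat_lit 1) (nat_lit 4) (nat_lit 490) (nat_lit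 375) (nat_lit 335)) (XT.nd (nat_lit 78) (nat_lit 0) (nat_lit 0) (XT.lf (nat_lit 0) (nat_lit 31414377796) (nat_lit 152) (nat_lit 585833378566) (nat_lit 0) (nat_lit 30388319408) (nat_lit 1) (nat_lit 5) (nat_lit 3) (nat_lit 4) (nat_lit 1) (nat_lit 4) (nat_lit 491) (nat_lit 375) (nat_lit 334)) (XT.lf (nat_lit 0) (nat_lit 39130702567) (nat_lit 152) (nat_lit 621791840679) (nat_lit 0) (nat_lit 38101260567) (nat_lit 1) (nat_lit 5) (nat_lit 3) (nat_lit 4) (nat_lit 1) (nat_lit 4) (nat_lit 492) (nat_lit 375) (nat_lit 333)))))) (XT.nd (nat_lit 468) (nat_lit 0) (nat_lit 0) (XT.nd (nat_lit 234) (nat_lit 0) (nat_lit 0) (XT.nd (nat_lit 78) (nat_lit 0) (nat_lit 0) (XT.lf (nat_lit 0) (nat_lit 47434614142) (nat_lit 152) (nat_lit 660688274576) (nat_lit 0) (nat_lit 46402039168) (nat_lit 1) (nat_lit 5) (nat_lit 3) (nat_lit 4) (nat_lit 1) (nat_lit 4) (nat_lit 493) (nat_lit 375) (nat_lit 332)) (XT.nd (nat_lit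 78) (nat_lit 0) (nat_lit 0) (XT.lf (nat_lit 0) (nat_lit 56375320886) (nat_lit 152) (nat_lit 702753177644) (nat_lit 0) (nat_lit 55339845010) (nat_lit 1) (nat_lit 5) (nat_lit 3) (nat_lit 4) (nat_lit 1) (nat_lit 4) (nat_lit 494) (nat_lit 375) (nat_lit 331)) (XT.lf (nat_lit 0) (nat_lit 66005804764) (nat_lit 152) (nat_lit 748235823381) (nat_lit 0) (nat_lit 64967642869) (nat_lit 1) (nat_lit 5) (nat_lit 3) (nat_lit 4) (nat_lit 1) (nat_lit 4) (nat_lit 495) (nat_lit 375) (nat_lit 330)))) (XT.nd (nat_lit 78) (nat_lit 0) (nat_lit 0) (XT.lf (nat_lit 0) (nat_lit 76383135312) (nat_lit 152) (nat_lit 797405738577) (nat_lit 0) (nat_lit 75342486361) (nat_lit 1) (nat_lit 5) (nat_lit 3) (nat_lit 4) (nat_lit 1) (nat_lit 4) (nat_lit 496) (nat_lit 375) (nat_lit 329)) (XT.nd (nat_lit 78) (nat_lit 0) (nat_lit 0) (XT.lf (nat_lit 0) (nat_lit 87568807820) (nat_lit 152) (nat_lit 850554300509) (nat_lit 0) (nat_lit 86525856040)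 (nat_lit 1) (nat_lit 5) (nat_lit 3) (nat_lit 4) (nat_lit 1) (nat_lit 4) (nat_lit 497) (nat_lit 375) (nat_lit 328)) (XT.lf (nat_lit 0) (nat_lit 99629107757) (nat_lit 152) (nat_lit 907996463616) (nat_lit 0) (nat_lit 98584023727) (nat_lit 1) (nat_lit 5) (nat_lit 3) (nat_lit 4) (nat_lit 1) (nat_lit 4) (nat_lit 498) (nat_lit 375) (nat_lit 327))))) (XT.nd (nat_lit 234) (nat_lit 0) (nat_lit 0) (XT.nd (nat_lit 78) (nat_lit 0) (nat_lit 0) (XT.lf (nat_lit 0) (nat_lit 112635503565) (nat_lit 152) (nat_lit 970072625903) (nat_lit 0) (nat_lit 111588445230) (nat_lit 1) (nat_lit 5) (nat_lit 3) (nat_lit 4) (nat_lit 1) (nat_lit 4) (nat_lit 499) (nat_lit 375) (nat_lit 326)) (XT.nd (nat_lit 78) (nat_lit 0) (nat_lit 0) (XT.lf (nat_lit 0) (nat_lit 126665070183) (nat_lit 152) (nat_lit 1037150646108) (nat_lit 0) (nat_lit 125616183788) (nat_lit 1) (nat_lit 5) (nat_lit 3) (nat_lit 4) (nat_lit 1) (nat_lit 4) (nat_lit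 500) (nat_lit 375) (nat_lit 325)) (XT.lf (nat_lit 0) (nat_lit 141800945783) (nat_lit 152) (nat_lit 1109628023612) (nat_lit 0) (nat_lit 140750366740) (nat_lit 1) (nat_lit 5) (nat_lit 3) (nat_lit 4) (nat_lit 1) (nat_lit 4) (nat_lit 501) (nat_lit 375) (nat_lit 324)))) (XT.nd (nat_lit 78) (nat_lit 0) (nat_lit 0) (XT.lf (nat_lit 0) (nat_lit 158132824444) (nat_lit 152) (nat_lit 1187934253983) (nat_lit 0) (nat_lit 157080678133) (nat_lit 1) (nat_lit 5) (nat_lit 3) (nat_lit 4) (nat_lit 1) (nat_lit 4) (nat_lit 502) (nat_lit 375) (nat_lit 323)) (XT.nd (nat_lit 78) (nat_lit 0) (nat_lit 0) (XT.lf (nat_lit 0) (nat_lit 175757487668) (nat_lit 152) (nat_lit 1272533374144) (nat_lit 0) (nat_lit 174703890184) (nat_lit 1) (nat_lit 5) (nat_lit 3) (nat_lit 4) (nat_lit 1) (nat_lit 4) (nat_lit 503) (nat_lit 375) (nat_lit 322)) (XT.lf (nat_lit 0) (nat_lit 194779377904) (nat_lit 152) (nat_lit 1363926712213) (nat_lit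 0) (nat_lit 193724436741) (nat_lit 1) (nat_lit 5) (nat_lit 3) (nat_lit 4) (nat_lit 1) (nat_lit 4) (nat_lit 504) (nat_lit 375) (nat_lit 321))))))))
noncomputable def xc37 : XT := (XT.nd (nat_lit 1794) (nat_lit 0) (nat_lit 0) (XT.nd (nat_lit 858) (nat_lit 0) (nat_lit 0) (XT.nd (nat_lit 390) (nat_lit 0) (nat_lit 0) (XT.nd (nat_lit 156) (nat_lit 0) (nat_lit 0) (XT.nd (nat_lit 78) (nat_lit 0) (nat_lit 0) (XT.lf (nat_lit 0) (nat_lit 215311217464) (nat_lit 152) (nat_lit 1462655858342) (nat_lit 0) (nat_lit 214255032155) (nat_lit 1) (nat_lit 5) (nat_lit 3) (nat_lit 4) (nat_lit 1) (nat_lit 4) (nat_lit 505) (nat_lit 375) (nat_lit 320)) (XT.lf (nat_lit 0) (nat_lit 237474676510) (nat_lit 152) (nat_lit 1569305874138) (nat_lit 0) (nat_lit 236417339212) (nat_lit 1) (nat_lit 5) (nat_lit 3) (nat_lit 4) (nat_lit 1) (nat_lit 4) (nat_lit 506) (nat_lit 375) (nat_lit 319))) (XT.nd (nat_lit 78) (nat_lit 0) (nat_lit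 0) (XT.lf (nat_lit 0) (nat_lit 261401094057) (nat_lit 152) (nat_lit 1684508759694) (nat_lit 0) (nat_lit 260342690103) (nat_lit 1) (nat_lit 5) (nat_lit 3) (nat_lit 4) (nat_lit 1) (nat_lit 4) (nat_lit 507) (nat_lit 375) (nat_lit 318)) (XT.nd (nat_lit 78) (nat_lit 0) (nat_lit 0) (XT.lf (nat_lit 0) (nat_lit 287232256283) (nat_lit 152) (nat_lit 1808947198776) (nat_lit 0) (nat_lit 286172864686) (nat_lit 1) (nat_lit 5) (nat_lit 3) (nat_lit 4) (nat_lit 1) (nat_lit 4) (nat_lit 508) (nat_lit 375) (nat_lit 317)) (XT.lf (nat_lit 0) (nat_lit 315121236743) (nat_lit 152) (nat_lit 1943358604357) (nat_lit 0) (nat_lit 314060930660) (nat_lit 1) (nat_lit 5) (nat_lit 3) (nat_lit 4) (nat_lit 1) (nat_lit 4) (nat_lit 509) (nat_lit 375) (nat_lit 316))))) (XT.nd (nat_lit 234) (nat_lit 0) (nat_lit 0) (XT.nd (nat_lit 78) (nat_lit 0) (nat_lit 0) (XT.lf (nat_lit 0) (nat_lit 345233303468) (nat_lit 152) (nat_lit 2088539488471)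 (nat_lit 0) (nat_lit 344172150640) (nat_lit 1) (nat_lit 5) (nat_lit 3) (nat_lit 4) (nat_lit 1) (nat_lit 4) (nat_lit 510) (nat_lit 375) (nat_lit 315)) (XT.nd (nat_lit 78) (nat_lit 0) (nat_lit 0) (XT.lf (nat_lit 0) (nat_lit 377746898336) (nat_lit 152) (nat_lit 2245350182281) (nat_lit 0) (nat_lit 376684961485) (nat_lit 1) (nat_lit 5) (nat_lit 3) (nat_lit 4) (nat_lit 1) (nat_lit 4) (nat_lit 511) (nat_lit 375) (nat_lit 314)) (XT.lf (nat_lit 0) (nat_lit 412854694502) (nat_lit 152) (nat_lit 2414719934344) (nat_lit 0) (nat_lit 411792031702) (nat_lit 1) (nat_lit 5) (nat_lit 3) (nat_lit 4) (nat_lit 1) (nat_lit 4) (nat_lit 512) (nat_lit 375) (nat_lit 313)))) (XT.nd (nat_lit 78) (nat_lit 0) (nat_lit 0) (XT.lf (nat_lit 0) (nat_lit 450764738165) (nat_lit 152) (nat_lit 2597652417265) (nat_lit 0) (nat_lit 449701403191) (nat_lit 1) (nat_lit 5) (nat_lit 3) (nat_lit 4) (nat_lit 1) (nat_lit 4) (nat_lit 513)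 (nat_lit 375) (nat_lit 312)) (XT.nd (nat_lit 78) (nat_lit 0) (nat_lit 0) (XT.lf (nat_lit 0) (nat_lit 491701681435) (nat_lit 152) (nat_lit 2795231675387) (nat_lit 0) (nat_lit 490637724078) (nat_lit 1) (nat_lit 5) (nat_lit 3) (nat_lit 4) (nat_lit 1) (nat_lit 4) (nat_lit 514) (nat_lit 375) (nat_lit 311)) (XT.lf (nat_lit 0) (nat_lit 535908113606) (nat_lit 152) (nat_lit 3008628548759) (nat_lit 0) (nat_lit 534843579968) (nat_lit 1) (nat_lit 5) (nat_lit 3) (nat_lit 4) (nat_lit 1) (nat_lit 4) (nat_lit 515) (nat_lit 375) (nat_lit 310)))))) (XT.nd (nat_lit 468) (nat_lit 0) (nat_lit 0) (XT.nd (nat_lit 234) (nat_lit 0) (nat_lit 0) (XT.nd (nat_lit 78) (nat_lit 0) (nat_lit 0) (XT.lf (nat_lit 0) (nat_lit 583645998721) (nat_lit 152) (nat_lit 3239107611443) (nat_lit 0) (nat_lit 582580931490) (nat_lit 1) (nat_lit 5) (nat_lit 3) (nat_lit 4) (nat_lit 1) (nat_lit 4) (nat_lit 516) (nat_lit 375) (nat_lit 309))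 (XT.nd (nat_lit 78) (nat_lit 0) (nat_lit 0) (XT.lf (nat_lit 0) (nat_lit 635198227950) (nat_lit 152) (nat_lit 3488034665295) (nat_lit 0) (nat_lit 634132666651) (nat_lit 1) (nat_lit 5) (nat_lit 3) (nat_lit 4) (nat_lit 1) (nat_lit 4) (nat_lit 517) (nat_lit 375) (nat_lit 308)) (XT.lf (nat_lit 0) (nat_lit 690870295986) (nat_lit 152) (nat_lit 3756884833595) (nat_lit 0) (nat_lit 689804277216) (nat_lit 1) (nat_lit 5) (nat_lit 3) (nat_lit 4) (nat_lit 1) (nat_lit 4) (nat_lit 518) (nat_lit 375) (nat_lit 307)))) (XT.nd (nat_lit 78) (nat_lit 0) (nat_lit 0) (XT.lf (nat_lit 0) (nat_lit 750992111379) (nat_lit 152) (nat_lit 4047251302526) (nat_lit 0) (nat_lit 749925669026) (nat_lit 1) (nat_lit 5) (nat_lit 3) (nat_lit 4) (nat_lit 1) (nat_lit 4) (nat_lit 519) (nat_lit 375) (nat_lit 306)) (XT.nd (nat_lit 78) (nat_lit 0) (nat_lit 0) (XT.lf (nat_lit 0) (nat_lit 815919951554) (nat_lit 152) (nat_lit 4360854762274)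 (nat_lit 0) (nat_lit 814853116994) (nat_lit 1) (nat_lit 5) (nat_lit 3) (nat_lit 4) (nat_lit 1) (nat_lit 4) (nat_lit 520) (nat_lit 375) (nat_lit 305)) (XT.lf (nat_lit 0) (nat_lit 886038574083) (nat_lit 152) (nat_lit 4699553603712) (nat_lit 0) (nat_lit 884971376368) (nat_lit 1) (nat_lit 5) (nat_lit 3) (nat_lit 4) (nat_lit 1) (nat_lit 4) (nat_lit 521) (nat_lit 375) (nat_lit 304))))) (XT.nd (nat_lit 234) (nat_lit 0) (nat_lit 0) (XT.nd (nat_lit 78) (nat_lit 0) (nat_lit 0) (XT.lf (nat_lit 0) (nat_lit 961763496729) (nat_lit 152) (nat_lit 5065354931086) (nat_lit 0) (nat_lit 960695962760) (nat_lit 1) (nat_lit 5) (nat_lit 3) (nat_lit 4) (nat_lit 1) (nat_lit 4) (nat_lit 522) (nat_lit 375) (nat_lit 303)) (XT.nd (nat_lit 78) (nat_lit 0) (nat_lit 0) (XT.lf (nat_lit 0) (nat_lit 1043543459773) (nat_lit 152) (nat_lit 5460426455965) (nat_lit 0) (nat_lit 1042475614458) (nat_lit 1) (nat_lit 5) (nat_lit 3)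 (nat_lit 4) (nat_lit 1) (nat_lit 4) (nat_lit 523) (nat_lit 375) (nat_lit 302)) (XT.lf (nat_lit 0) (nat_lit 1131863085220) (nat_lit 152) (nat_lit 5887109342941) (nat_lit 0) (nat_lit 1130794951621) (nat_lit 1) (nat_lit 5) (nat_lit 3) (nat_lit 4) (nat_lit 1) (nat_lit 4) (nat_lit 524) (nat_lit 375) (nat_lit 301)))) (XT.nd (nat_lit 78) (nat_lit 0) (nat_lit 0) (XT.lf (nat_lit 0) (nat_lit 1227245748628) (nat_lit 152) (nat_lit 6347932083197) (nat_lit 0) (nat_lit 1226177348099) (nat_lit 1) (nat_lit 5) (nat_lit 3) (nat_lit 4) (nat_lit 1) (nat_lit 4) (nat_lit 525) (nat_lit 375) (nat_lit 300)) (XT.nd (nat_lit 78) (nat_lit 0) (nat_lit 0) (XT.lf (nat_lit 0) (nat_lit 1330256680593) (nat_lit 152) (nat_lit 6845625478155) (nat_lit 0) (nat_lit 1329188032907) (nat_lit 1) (nat_lit 5) (nat_lit 3) (nat_lit 4) (nat_lit 1) (nat_lit 4) (nat_lit 526) (nat_lit 375) (nat_lit 299)) (XT.lf (nat_lit 0) (nat_lit 1441506316270)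 (nat_lit 152) (nat_lit 7383138822008) (nat_lit 0) (nat_lit 1440437439735) (nat_lit 1) (nat_lit 5) (nat_lit 3) (nat_lit 4) (nat_lit 1) (nat_lit 4) (nat_lit 527) (nat_lit 375) (nat_lit 298))))))) (XT.nd (nat_lit 56862) (nat_lit 0) (nat_lit 228) (XT.nd (nat_lit 56394) (nat_lit 0) (nat_lit 456) (XT.nd (nat_lit 234) (nat_lit 0) (nat_lit 0) (XT.nd (nat_lit 78) (nat_lit 0) (nat_lit 0) (XT.lf (nat_lit 0) (nat_lit 1561653912758) (nat_lit 152) (nat_lit 7963657379016) (nat_lit 0) (nat_lit 1560584824326) (nat_lit 1) (nat_lit 5) (nat_lit 3) (nat_lit 4) (nat_lit 1) (nat_lit 4) (nat_lit 528) (nat_lit 375) (nat_lit 297)) (XT.nd (nat_lit 78) (nat_lit 0) (nat_lit 0) (XT.lf (nat_lit 0) (nat_lit 1691411455814) (nat_lit 152) (nat_lit 8590621259147) (nat_lit 0) (nat_lit 1690342171180) (nat_lit 1) (nat_lit 5) (nat_lit 3) (nat_lit 4) (nat_lit 1) (nat_lit 4) (nat_lit 529) (nat_lit 375) (nat_lit 296)) (XT.lf (nat_lit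 0) (nat_lit 1831547879026) (nat_lit 152) (nat_lit 9267745803912) (nat_lit 0) (nat_lit 1830478412725) (nat_lit 1) (nat_lit 5) (nat_lit 3) (nat_lit 4) (nat_lit 1) (nat_lit 4) (nat_lit 530) (nat_lit 375) (nat_lit 295)))) (XT.nd (nat_lit 56004) (nat_lit 0) (nat_lit 836) (XT.lf (nat_lit 0) (nat_lit 1982893620459) (nat_lit 152) (nat_lit 9999043603206) (nat_lit 0) (nat_lit 1981823985947) (nat_lit 1) (nat_lit 5) (nat_lit 3) (nat_lit 4) (nat_lit 1) (nat_lit 4) (nat_lit 531) (nat_lit 375) (nat_lit 294)) (XT.nd (nat_lit 78) (nat_lit 0) (nat_lit 0) (XT.lf (nat_lit 0) (nat_lit 1445460065) (nat_lit 76) (nat_lit 7048594912) (nat_lit 76) (nat_lit 7048594912) (nat_lit 12) (nat_lit 4) (nat_lit 13) (nat_lit 5) (nat_lit 13) (nat_lit 4) (nat_lit 448) (nat_lit 376) (nat_lit 376)) (XT.lf (nat_lit 0) (nat_lit 21161908076) (nat_lit 76) (nat_lit 5909339344) (nat_lit 76) (nat_lit 5792692419) (nat_lit 12) (nat_lit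 4) (nat_lit 13) (nat_lit 5) (nat_lit 13) (nat_lit 4) (nat_lit 449) (nat_lit 376) (nat_lit 375))))) (XT.nd (nat_lit 234) (nat_lit 152) (nat_lit 0) (XT.nd (nat_lit 78) (nat_lit 76) (nat_lit 0) (XT.lf (nat_lit 0) (nat_lit 2769282056) (nat_lit 152) (nat_lit 29468056299) (nat_lit 0) (nat_lit 2561269707) (nat_lit 10) (nat_lit 5) (nat_lit 12) (nat_lit 4) (nat_lit 10) (nat_lit 4) (nat_lit 450) (nat_lit 376) (nat_lit 374)) (XT.nd (nat_lit 78) (nat_lit 76) (nat_lit 0) (XT.lf (nat_lit 0) (nat_lit 11743120728) (nat_lit 152) (nat_lit 13687200458) (nat_lit 0) (nat_lit 11442510290) (nat_lit 10) (nat_lit 5) (nat_lit 12) (nat_lit 4) (nat_lit 10) (nat_lit 4) (nat_lit 451) (nat_lit 376) (nat_lit 373)) (XT.lf (nat_lit 0) (nat_lit 2651996174) (nat_lit 76) (nat_lit 18437491603) (nat_lit 76) (nat_lit 18051142193) (nat_lit 9) (nat_lit 4) (nat_lit 10) (nat_lit 5) (nat_lit 10) (nat_lit 4) (nat_lit 452) (nat_lit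 376) (nat_lit 372)))) (XT.nd (nat_lit 78) (nat_lit 152) (nat_lit 0) (XT.lf (nat_lit 0) (nat_lit 20261125079) (nat_lit 76) (nat_lit 10898204875) (nat_lit 76) (nat_lit 10432467528) (nat_lit 9) (nat_lit 4) (nat_lit 10) (nat_lit 5) (nat_lit 10) (nat_lit 4) (nat_lit 453) (nat_lit 376) (nat_lit 371)) (XT.nd (nat_lit 78) (nat_lit 152) (nat_lit 0) (XT.lf (nat_lit 0) (nat_lit 38523792929) (nat_lit 76) (nat_lit 3142016064) (nat_lit 76) (nat_lit 2602771368) (nat_lit 9) (nat_lit 4) (nat_lit 10) (nat_lit 5) (nat_lit 10) (nat_lit 4) (nat_lit 454) (nat_lit 376) (nat_lit 370)) (XT.lf (nat_lit 0) (nat_lit 5596415034) (nat_lit 152) (nat_lit 36514866839) (nat_lit 0) (nat_lit 5034093686) (nat_lit 7) (nat_lit 5) (nat_lit 9) (nat_lit 4) (nat_lit 7) (nat_lit 4) (nat_lit 455) (nat_lit 376) (nat_lit 369)))))) (XT.nd (nat_lit 468) (nat_lit 152) (nat_lit 0) (XT.nd (nat_lit 234) (nat_lit 0) (nat_lit 0) (XT.nd (nat_lit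 78) (nat_lit 76) (nat_lit 0) (XT.lf (nat_lit 0) (nat_lit 14203707636) (nat_lit 152) (nat_lit 22468746216) (nat_lit 0) (nat_lit 13583033785) (nat_lit 7) (nat_lit 5) (nat_lit 9) (nat_lit 4) (nat_lit 7) (nat_lit 4) (nat_lit 456) (nat_lit 376) (nat_lit 368)) (XT.nd (nat_lit 78) (nat_lit 76) (nat_lit 0) (XT.lf (nat_lit 0) (nat_lit 23175532961) (nat_lit 152) (nat_lit 7963975116) (nat_lit 0) (nat_lit 22500829014) (nat_lit 7) (nat_lit 5) (nat_lit 9) (nat_lit 4) (nat_lit 7) (nat_lit 4) (nat_lit 457) (nat_lit 376) (nat_lit 367)) (XT.lf (nat_lit 0) (nat_lit 7458505303) (nat_lit 76) (nat_lit 25285929310) (nat_lit 76) (nat_lit 24561197496) (nat_lit 6) (nat_lit 4) (nat_lit 7) (nat_lit 5) (nat_lit 7) (nat_lit 4) (nat_lit 458) (nat_lit 376) (nat_lit 366)))) (XT.nd (nat_lit 78) (nat_lit 0) (nat_lit 0) (XT.lf (nat_lit 0) (nat_lit 23967514758) (nat_lit 76) (nat_lit 19036827071) (nat_lit 76) (nat_lit 18265773158)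 (nat_lit 6) (nat_lit 4) (nat_lit 7) (nat_lit 5) (nat_lit 7) (nat_lit 4) (nat_lit 459) (nat_lit 376) (nat_lit 365)) (XT.nd (nat_lit 78) (nat_lit 0) (nat_lit 0) (XT.lf (nat_lit 0) (nat_lit 41241515599) (nat_lit 76) (nat_lit 12572918837) (nat_lit 76) (nat_lit 11758974092) (nat_lit 6) (nat_lit 4) (nat_lit 7) (nat_lit 5) (nat_lit 7) (nat_lit 4) (nat_lit 460) (nat_lit 376) (nat_lit 364)) (XT.lf (nat_lit 0) (nat_lit 59382872275) (nat_lit 76) (nat_lit 5855899966) (nat_lit 76) (nat_lit 5002241487) (nat_lit 6) (nat_lit 4) (nat_lit 7) (nat_lit 5) (nat_lit 7) (nat_lit 4) (nat_lit 461) (nat_lit 376) (nat_lit 363))))) (XT.nd (nat_lit 234) (nat_lit 0) (nat_lit 0) (XT.nd (nat_lit 78) (nat_lit 0) (nat_lit 0) (XT.lf (nat_lit 0) (nat_lit 2053024589) (nat_lit 152) (nat_lit 72006213789) (nat_lit 0) (nat_lit 1228551947) (nat_lit 4) (nat_lit 5) (nat_lit 6) (nat_lit 4) (nat_lit 4) (nat_lit 4) (nat_lit 462) (nat_lit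 376) (nat_lit 362)) (XT.nd (nat_lit 78) (nat_lit 0) (nat_lit 0) (XT.lf (nat_lit 0) (nat_lit 9621406829) (nat_lit 152) (nat_lit 62323586679) (nat_lit 0) (nat_lit 8765408145) (nat_lit 4) (nat_lit 5) (nat_lit 6) (nat_lit 4) (nat_lit 4) (nat_lit 4) (nat_lit 463) (nat_lit 376) (nat_lit 361)) (XT.lf (nat_lit 0) (nat_lit 17575123101) (nat_lit 152) (nat_lit 52319378427) (nat_lit 0) (nat_lit 16689933637) (nat_lit 4) (nat_lit 5) (nat_lit 6) (nat_lit 4) (nat_lit 4) (nat_lit 4) (nat_lit 464) (nat_lit 376) (nat_lit 360)))) (XT.nd (nat_lit 78) (nat_lit 0) (nat_lit 0) (XT.lf (nat_lit 0) (nat_lit 25961306537) (nat_lit 152) (nat_lit 41934304837) (nat_lit 0) (nat_lit 25049088573) (nat_lit 4) (nat_lit 5) (nat_lit 6) (nat_lit 4) (nat_lit 4) (nat_lit 4) (nat_lit 465) (nat_lit 376) (nat_lit 359)) (XT.nd (nat_lit 78) (nat_lit 0) (nat_lit 0) (XT.lf (nat_lit 0) (nat_lit 34829653040) (nat_lit 152) (nat_lit 31106824731)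 (nat_lit 0) (nat_lit 33892408687) (nat_lit 4) (nat_lit 5) (nat_lit 6) (nat_lit 4) (nat_lit 4) (nat_lit 4) (nat_lit 466) (nat_lit 376) (nat_lit 358)) (XT.lf (nat_lit 0) (nat_lit 44232715773) (nat_lit 152) (nat_lit 19772775264) (nat_lit 0) (nat_lit 43272298839) (nat_lit 4) (nat_lit 5) (nat_lit 6) (nat_lit 4) (nat_lit 4) (nat_lit 4) (nat_lit 467) (nat_lit 376) (nat_lit 357))))))))
noncomputable def xc38 : XT := (XT.nd (nat_lit 1794) (nat_lit 0) (nat_lit 0) (XT.nd (nat_lit 858) (nat_lit 152) (nat_lit 0) (XT.nd (nat_lit 390) (nat_lit 0) (nat_lit 0) (XT.nd (nat_lit 156) (nat_lit 0) (nat_lit 0) (XT.nd (nat_lit 78) (nat_lit 76) (nat_lit 0) (XT.lf (nat_lit 0) (nat_lit 54226216590) (nat_lit 152) (nat_lit 7864991699) (nat_lit 0) (nat_lit 53244343562) (nat_lit 4) (nat_lit 5) (nat_lit 6) (nat_lit 4) (nat_lit 4) (nat_lit 4) (nat_lit 468) (nat_lit 376) (nat_lit 356)) (XT.lf (nat_lit 0) (nat_lit 4933904491)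 (nat_lit 76) (nat_lit 60054132268) (nat_lit 76) (nat_lit 59052392485) (nat_lit 3) (nat_lit 4) (nat_lit 4) (nat_lit 5) (nat_lit 4) (nat_lit 4) (nat_lit 469) (nat_lit 376) (nat_lit 355))) (XT.nd (nat_lit 78) (nat_lit 0) (nat_lit 0) (XT.lf (nat_lit 0) (nat_lit 18903483151) (nat_lit 76) (nat_lit 57776411363) (nat_lit 76) (nat_lit 56756276438) (nat_lit 3) (nat_lit 4) (nat_lit 4) (nat_lit 5) (nat_lit 4) (nat_lit 4) (nat_lit 470) (nat_lit 376) (nat_lit 354)) (XT.nd (nat_lit 78) (nat_lit 0) (nat_lit 0) (XT.lf (nat_lit 0) (nat_lit 33712370442) (nat_lit 76) (nat_lit 55459590783) (nat_lit 76) (nat_lit 54422423318) (nat_lit 3) (nat_lit 4) (nat_lit 4) (nat_lit 5) (nat_lit 4) (nat_lit 4) (nat_lit 471) (nat_lit 376) (nat_lit 353)) (XT.lf (nat_lit 0) (nat_lit 49448322734) (nat_lit 76) (nat_lit 53089941219) (nat_lit 76) (nat_lit 52037002884) (nat_lit 3) (nat_lit 4) (nat_lit 4) (nat_lit 5) (nat_lit 4) (nat_lit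 4) (nat_lit 472) (nat_lit 376) (nat_lit 352))))) (XT.nd (nat_lit 234) (nat_lit 0) (nat_lit 0) (XT.nd (nat_lit 78) (nat_lit 0) (nat_lit 0) (XT.lf (nat_lit 0) (nat_lit 66204590114) (nat_lit 76) (nat_lit 50653420305) (nat_lit 76) (nat_lit 49585879313) (nat_lit 3) (nat_lit 4) (nat_lit 4) (nat_lit 5) (nat_lit 4) (nat_lit 4) (nat_lit 473) (nat_lit 376) (nat_lit 351)) (XT.nd (nat_lit 78) (nat_lit 0) (nat_lit 0) (XT.lf (nat_lit 0) (nat_lit 84080468982) (nat_lit 76) (nat_lit 48135589397) (nat_lit 76) (nat_lit 47054527426) (nat_lit 3) (nat_lit 4) (nat_lit 4) (nat_lit 5) (nat_lit 4) (nat_lit 4) (nat_lit 474) (nat_lit 376) (nat_lit 350)) (XT.lf (nat_lit 0) (nat_lit 103181890471) (nat_lit 76) (nat_lit 45521528016) (nat_lit 76) (nat_lit 44427946620) (nat_lit 3) (nat_lit 4) (nat_lit 4) (nat_lit 5) (nat_lit 4) (nat_lit 4) (nat_lit 475) (nat_lit 376) (nat_lit 349)))) (XT.nd (nat_lit 78) (nat_lit 0) (nat_lit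 0) (XT.lf (nat_lit 0) (nat_lit 123622048191) (nat_lit 76) (nat_lit 42795745428) (nat_lit 76) (nat_lit 41690571972) (nat_lit 3) (nat_lit 4) (nat_lit 4) (nat_lit 5) (nat_lit 4) (nat_lit 4) (nat_lit 476) (nat_lit 376) (nat_lit 348)) (XT.nd (nat_lit 78) (nat_lit 0) (nat_lit 0) (XT.lf (nat_lit 0) (nat_lit 145522069002) (nat_lit 76) (nat_lit 39942088848) (nat_lit 76) (nat_lit 38826182002) (nat_lit 3) (nat_lit 4) (nat_lit 4) (nat_lit 5) (nat_lit 4) (nat_lit 4) (nat_lit 477) (nat_lit 376) (nat_lit 347)) (XT.lf (nat_lit 0) (nat_lit 169011730804) (nat_lit 76) (nat_lit 36943647717) (nat_lit 76) (nat_lit 35817802548) (nat_lit 3) (nat_lit 4) (nat_lit 4) (nat_lit 5) (nat_lit 4) (nat_lit 4) (nat_lit 478) (nat_lit 376) (nat_lit 346)))))) (XT.nd (nat_lit 468) (nat_lit 152) (nat_lit 0) (XT.nd (nat_lit 234) (nat_lit 0) (nat_lit 0) (XT.nd (nat_lit 78) (nat_lit 0) (nat_lit 0) (XT.lf (nat_lit 0) (nat_lit 194230231595)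 (nat_lit 76) (nat_lit 33782653496) (nat_lit 76) (nat_lit 32647606176) (nat_lit 3) (nat_lit 4) (nat_lit 4) (nat_lit 5) (nat_lit 4) (nat_lit 4) (nat_lit 479) (nat_lit 376) (nat_lit 345)) (XT.nd (nat_lit 78) (nat_lit 0) (nat_lit 0) (XT.lf (nat_lit 0) (nat_lit 221327014342) (nat_lit 76) (nat_lit 30440374368) (nat_lit 76) (nat_lit 29296806537) (nat_lit 3) (nat_lit 4) (nat_lit 4) (nat_lit 5) (nat_lit 4) (nat_lit 4) (nat_lit 480) (nat_lit 376) (nat_lit 344)) (XT.lf (nat_lit 0) (nat_lit 250462652572) (nat_lit 76) (nat_lit 26897004233) (nat_lit 76) (nat_lit 25745547041) (nat_lit 3) (nat_lit 4) (nat_lit 4) (nat_lit 5) (nat_lit 4) (nat_lit 4) (nat_lit 481) (nat_lit 376) (nat_lit 343)))) (XT.nd (nat_lit 78) (nat_lit 0) (nat_lit 0) (XT.lf (nat_lit 0) (nat_lit 281809801918) (nat_lit 76) (nat_lit 23131545342) (nat_lit 76) (nat_lit 21972783186) (nat_lit 3) (nat_lit 4) (nat_lit 4) (nat_lit 5) (nat_lit 4)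 (nat_lit 4) (nat_lit 482) (nat_lit 376) (nat_lit 342)) (XT.nd (nat_lit 78) (nat_lit 0) (nat_lit 0) (XT.lf (nat_lit 0) (nat_lit 315554223267) (nat_lit 76) (nat_lit 19121683866) (nat_lit 76) (nat_lit 17956157854) (nat_lit 3) (nat_lit 4) (nat_lit 4) (nat_lit 5) (nat_lit 4) (nat_lit 4) (nat_lit 483) (nat_lit 376) (nat_lit 341)) (XT.lf (nat_lit 0) (nat_lit 351895883559) (nat_lit 76) (nat_lit 14843657662) (nat_lit 76) (nat_lit 13671868821) (nat_lit 3) (nat_lit 4) (nat_lit 4) (nat_lit 5) (nat_lit 4) (nat_lit 4) (nat_lit 484) (nat_lit 376) (nat_lit 340))))) (XT.nd (nat_lit 234) (nat_lit 0) (nat_lit 0) (XT.nd (nat_lit 78) (nat_lit 152) (nat_lit 0) (XT.lf (nat_lit 0) (nat_lit 391050140781) (nat_lit 76) (nat_lit 10272115464) (nat_lit 76) (nat_lit 9094527706) (nat_lit 3) (nat_lit 4) (nat_lit 4) (nat_lit 5) (nat_lit 4) (nat_lit 4) (nat_lit 485) (nat_lit 376) (nat_lit 339)) (XT.nd (nat_lit 78) (nat_lit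 152) (nat_lit 0) (XT.lf (nat_lit 0) (nat_lit 433249020161) (nat_lit 76) (nat_lit 5379966651) (nat_lit 76) (nat_lit 4197009527) (nat_lit 3) (nat_lit 4) (nat_lit 4) (nat_lit 5) (nat_lit 4) (nat_lit 4) (nat_lit 486) (nat_lit 376) (nat_lit 338)) (XT.lf (nat_lit 0) (nat_lit 932909756) (nat_lit 76) (nat_lit 86724145) (nat_lit 152) (nat_lit 476807653335) (nat_lit 1) (nat_lit 5) (nat_lit 2) (nat_lit 5) (nat_lit 3) (nat_lit 4) (nat_lit 487) (nat_lit 376) (nat_lit 337)))) (XT.nd (nat_lit 78) (nat_lit 0) (nat_lit 0) (XT.lf (nat_lit 0) (nat_lit 6790482603) (nat_lit 152) (nat_lit 503114102191) (nat_lit 0) (nat_lit 5686286189) (nat_lit 1) (nat_lit 5) (nat_lit 3) (nat_lit 4) (nat_lit 1) (nat_lit 4) (nat_lit 488) (nat_lit 376) (nat_lit 336)) (XT.nd (nat_lit 78) (nat_lit 0) (nat_lit 0) (XT.lf (nat_lit 0) (nat_lit 12987814171) (nat_lit 152) (nat_lit 531510871268) (nat_lit 0) (nat_lit 11879671113) (nat_lit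 1) (nat_lit 5) (nat_lit 3) (nat_lit 4) (nat_lit 1) (nat_lit 4) (nat_lit 489) (nat_lit 376) (nat_lit 335)) (XT.lf (nat_lit 0) (nat_lit 19646267816) (nat_lit 152) (nat_lit 562250876143) (nat_lit 0) (nat_lit 18534470457) (nat_lit 1) (nat_lit 5) (nat_lit 3) (nat_lit 4) (nat_lit 1) (nat_lit 4) (nat_lit 490) (nat_lit 376) (nat_lit 334))))))) (XT.nd (nat_lit 936) (nat_lit 0) (nat_lit 0) (XT.nd (nat_lit 468) (nat_lit 0) (nat_lit 0) (XT.nd (nat_lit 234) (nat_lit 0) (nat_lit 0) (XT.nd (nat_lit 78) (nat_lit 0) (nat_lit 0) (XT.lf (nat_lit 0) (nat_lit 26805301041) (nat_lit 152) (nat_lit 595516279808) (nat_lit 0) (nat_lit 25690120069) (nat_lit 1) (nat_lit 5) (nat_lit 3) (nat_lit 4) (nat_lit 1) (nat_lit 4) (nat_lit 491) (nat_lit 376) (nat_lit 333)) (XT.nd (nat_lit 78) (nat_lit 0) (nat_lit 0) (XT.lf (nat_lit 0) (nat_lit 34507337745) (nat_lit 152) (nat_lit 631504210582) (nat_lit 0) (nat_lit 33389023800)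 (nat_lit 1) (nat_lit 5) (nat_lit 3) (nat_lit 4) (nat_lit 1) (nat_lit 4) (nat_lit 492) (nat_lit 376) (nat_lit 332)) (XT.lf (nat_lit 0) (nat_lit 42798019629) (nat_lit 152) (nat_lit 670427930277) (nat_lit 0) (nat_lit 41676804782) (nat_lit 1) (nat_lit 5) (nat_lit 3) (nat_lit 4) (nat_lit 1) (nat_lit 4) (nat_lit 493) (nat_lit 376) (nat_lit 331)))) (XT.nd (nat_lit 78) (nat_lit 0) (nat_lit 0) (XT.lf (nat_lit 0) (nat_lit 51726476659) (nat_lit 152) (nat_lit 712518097971) (nat_lit 0) (nat_lit 50602575792) (nat_lit 1) (nat_lit 5) (nat_lit 3) (nat_lit 4) (nat_lit 1) (nat_lit 4) (nat_lit 494) (nat_lit 376) (nat_lit 330)) (XT.nd (nat_lit 78) (nat_lit 0) (nat_lit 0) (XT.lf (nat_lit 0) (nat_lit 61345618211) (nat_lit 152) (nat_lit 758024136882) (nat_lit 0) (nat_lit 60219230288) (nat_lit 1) (nat_lit 5) (nat_lit 3) (nat_lit 4) (nat_lit 1) (nat_lit 4) (nat_lit 495) (nat_lit 376) (nat_lit 329)) (XT.lf (nat_lit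 0) (nat_lit 71712446603) (nat_lit 152) (nat_lit 807215712424) (nat_lit 0) (nat_lit 70583755850) (nat_lit 1) (nat_lit 5) (nat_lit 3) (nat_lit 4) (nat_lit 1) (nat_lit 4) (nat_lit 496) (nat_lit 376) (nat_lit 328))))) (XT.nd (nat_lit 234) (nat_lit 0) (nat_lit 0) (XT.nd (nat_lit 78) (nat_lit 0) (nat_lit 0) (XT.lf (nat_lit 0) (nat_lit 82888394894) (nat_lit 152) (nat_lit 860384330231) (nat_lit 0) (nat_lit 81757571892) (nat_lit 1) (nat_lit 5) (nat_lit 3) (nat_lit 4) (nat_lit 1) (nat_lit 4) (nat_lit 497) (nat_lit 376) (nat_lit 327)) (XT.nd (nat_lit 78) (nat_lit 0) (nat_lit 0) (XT.lf (nat_lit 0) (nat_lit 94939690925) (nat_lit 152) (nat_lit 917845063594) (nat_lit 0) (nat_lit 93806893618) (nat_lit 1) (nat_lit 5) (nat_lit 3) (nat_lit 4) (nat_lit 1) (nat_lit 4) (nat_lit 498) (nat_lit 376) (nat_lit 326)) (XT.lf (nat_lit 0) (nat_lit 107937749783) (nat_lit 152) (nat_lit 979938420561) (nat_lit 0) (nat_lit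 106803124416) (nat_lit 1) (nat_lit 5) (nat_lit 3) (nat_lit 4) (nat_lit 1) (nat_lit 4) (nat_lit 499) (nat_lit 376) (nat_lit 325)))) (XT.nd (nat_lit 78) (nat_lit 0) (nat_lit 0) (XT.lf (nat_lit 0) (nat_lit 121959597004) (nat_lit 152) (nat_lit 1047032361767) (nat_lit 0) (nat_lit 120823278988) (nat_lit 1) (nat_lit 5) (nat_lit 3) (nat_lit 4) (nat_lit 1) (nat_lit 4) (nat_lit 500) (nat_lit 376) (nat_lit 324)) (XT.nd (nat_lit 78) (nat_lit 0) (nat_lit 0) (XT.lf (nat_lit 0) (nat_lit 137088325014) (nat_lit 152) (nat_lit 1119524480938) (nat_lit 0) (nat_lit 135950439732) (nat_lit 1) (nat_lit 5) (nat_lit 3) (nat_lit 4) (nat_lit 1) (nat_lit 4) (nat_lit 501) (nat_lit 376) (nat_lit 323)) (XT.lf (nat_lit 0) (nat_lit 153413585535) (nat_lit 152) (nat_lit 1197844361001) (nat_lit 0) (nat_lit 152274249080) (nat_lit 1) (nat_lit 5) (nat_lit 3) (nat_lit 4) (nat_lit 1) (nat_lit 4) (nat_lit 502) (nat_lit 376) (nat_lit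 322)))))) (XT.nd (nat_lit 468) (nat_lit 0) (nat_lit 0) (XT.nd (nat_lit 234) (nat_lit 0) (nat_lit 0) (XT.nd (nat_lit 78) (nat_lit 0) (nat_lit 0) (XT.lf (nat_lit 0) (nat_lit 171032120853) (nat_lit 152) (nat_lit 1282456119766) (nat_lit 0) (nat_lit 169891440718) (nat_lit 1) (nat_lit 5) (nat_lit 3) (nat_lit 4) (nat_lit 1) (nat_lit 4) (nat_lit 503) (nat_lit 376) (nat_lit 321)) (XT.nd (nat_lit 78) (nat_lit 0) (nat_lit 0) (XT.lf (nat_lit 0) (nat_lit 190048337101) (nat_lit 152) (nat_lit 1373861160246) (nat_lit 0) (nat_lit 188906412820) (nat_lit 1) (nat_lit 5) (nat_lit 3) (nat_lit 4) (nat_lit 1) (nat_lit 4) (nat_lit 504) (nat_lit 376) (nat_lit 320)) (XT.lf (nat_lit 0) (nat_lit 210574922969) (nat_lit 152) (nat_lit 1472601141940) (nat_lit 0) (nat_lit 209431846700) (nat_lit 1) (nat_lit 5) (nat_lit 3) (nat_lit 4) (nat_lit 1) (nat_lit 4) (nat_lit 505) (nat_lit 376) (nat_lit 319)))) (XT.nd (nat_lit 78)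 (nat_lit 0) (nat_lit 0) (XT.lf (nat_lit 0) (nat_lit 232733517485) (nat_lit 152) (nat_lit 1579261190667) (nat_lit 0) (nat_lit 231589374560) (nat_lit 1) (nat_lit 5) (nat_lit 3) (nat_lit 4) (nat_lit 1) (nat_lit 4) (nat_lit 506) (nat_lit 376) (nat_lit 318)) (XT.nd (nat_lit 78) (nat_lit 0) (nat_lit 0) (XT.lf (nat_lit 0) (nat_lit 256655430837) (nat_lit 152) (nat_lit 1694473365974) (nat_lit 0) (nat_lit 255510300268) (nat_lit 1) (nat_lit 5) (nat_lit 3) (nat_lit 4) (nat_lit 1) (nat_lit 4) (nat_lit 507) (nat_lit 376) (nat_lit 317)) (XT.lf (nat_lit 0) (nat_lit 282482422513) (nat_lit 152) (nat_lit 1818920406677) (nat_lit 0) (nat_lit 281336377459) (nat_lit 1) (nat_lit 5) (nat_lit 3) (nat_lit 4) (nat_lit 1) (nat_lit 4) (nat_lit 508) (nat_lit 376) (nat_lit 316))))) (XT.nd (nat_lit 234) (nat_lit 0) (nat_lit 0) (XT.nd (nat_lit 78) (nat_lit 0) (nat_lit 0) (XT.lf (nat_lit 0) (nat_lit 310367541352) (nat_lit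 152) (nat_lit 1953339776723) (nat_lit 0) (nat_lit 309220649552) (nat_lit 1) (nat_lit 5) (nat_lit 3) (nat_lit 4) (nat_lit 1) (nat_lit 4) (nat_lit 509) (nat_lit 376) (nat_lit 315)) (XT.nd (nat_lit 78) (nat_lit 0) (nat_lit 0) (XT.lf (nat_lit 0) (nat_lit 340476032503) (nat_lit 152) (nat_lit 2098528035340) (nat_lit 0) (nat_lit 339328356679) (nat_lit 1) (nat_lit 5) (nat_lit 3) (nat_lit 4) (nat_lit 1) (nat_lit 4) (nat_lit 510) (nat_lit 376) (nat_lit 314)) (XT.lf (nat_lit 0) (nat_lit 372986316654) (nat_lit 152) (nat_lit 2255345557395) (nat_lit 0) (nat_lit 371837914882) (nat_lit 1) (nat_lit 5) (nat_lit 3) (nat_lit 4) (nat_lit 1) (nat_lit 4) (nat_lit 511) (nat_lit 376) (nat_lit 313)))) (XT.nd (nat_lit 78) (nat_lit 0) (nat_lit 0) (XT.lf (nat_lit 0) (nat_lit 408091047341) (nat_lit 152) (nat_lit 2424721631906) (nat_lit 0) (nat_lit 406941973395) (nat_lit 1) (nat_lit 5) (nat_lit 3) (nat_lit 4) (nat_lit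 1) (nat_lit 4) (nat_lit 512) (nat_lit 376) (nat_lit 312)) (XT.nd (nat_lit 78) (nat_lit 0) (nat_lit 0) (XT.lf (nat_lit 0) (nat_lit 445998252597) (nat_lit 152) (nat_lit 2607659968946) (nat_lit 0) (nat_lit 444848556268) (nat_lit 1) (nat_lit 5) (nat_lit 3) (nat_lit 4) (nat_lit 1) (nat_lit 4) (nat_lit 513) (nat_lit 376) (nat_lit 311)) (XT.lf (nat_lit 0) (nat_lit 486932567713) (nat_lit 152) (nat_lit 2805244647549) (nat_lit 0) (nat_lit 485782295103) (nat_lit 1) (nat_lit 5) (nat_lit 3) (nat_lit 4) (nat_lit 1) (nat_lit 4) (nat_lit 514) (nat_lit 376) (nat_lit 310))))))))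
noncomputable def xc39 : XT := (XT.nd (nat_lit 57564) (nat_lit 0) (nat_lit 152) (XT.nd (nat_lit 858) (nat_lit 0) (nat_lit 0) (XT.nd (nat_lit 390) (nat_lit 0) (nat_lit 0) (XT.nd (nat_lit 156) (nat_lit 0) (nat_lit 0) (XT.nd (nat_lit 78) (nat_lit 0) (nat_lit 0) (XT.lf (nat_lit 0) (nat_lit 531136566408) (nat_lit 152) (nat_lit 3018646539884) (nat_lit 0) (nat_lit 529985760205) (nat_lit 1) (nat_lit 5) (nat_lit 3) (nat_lit 4) (nat_lit 1) (nat_lit 4) (nat_lit 515) (nat_lit 376) (nat_lit 309)) (XT.lf (nat_lit 0) (nat_lit 578872198304) (nat_lit 152) (nat_lit 3249130249757) (nat_lit 0) (nat_lit 577720898033) (nat_lit 1) (nat_lit 5) (nat_lit 3) (nat_lit 4) (nat_lit 1) (nat_lit 4) (nat_lit 516) (nat_lit 376) (nat_lit 308))) (XT.nd (nat_lit 78) (nat_lit 0) (nat_lit 0) (XT.lf (nat_lit 0) (nat_lit 630422341220) (nat_lit 152) (nat_lit 3498061606560) (nat_lit 0) (nat_lit 629270583479) (nat_lit 1) (nat_lit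 5) (nat_lit 3) (nat_lit 4) (nat_lit 1) (nat_lit 4) (nat_lit 517) (nat_lit 376) (nat_lit 307)) (XT.nd (nat_lit 78) (nat_lit 0) (nat_lit 0) (XT.lf (nat_lit 0) (nat_lit 686092477484) (nat_lit 152) (nat_lit 3766915759075) (nat_lit 0) (nat_lit 684940296159) (nat_lit 1) (nat_lit 5) (nat_lit 3) (nat_lit 4) (nat_lit 1) (nat_lit 4) (nat_lit 518) (nat_lit 376) (nat_lit 306)) (XT.lf (nat_lit 0) (nat_lit 746212504199) (nat_lit 152) (nat_lit 4057285917094) (nat_lit 0) (nat_lit 745059930668) (nat_lit 1) (nat_lit 5) (nat_lit 3) (nat_lit 4) (nat_lit 1) (nat_lit 4) (nat_lit 519) (nat_lit 376) (nat_lit 305))))) (XT.nd (nat_lit 234) (nat_lit 0) (nat_lit 0) (XT.nd (nat_lit 78) (nat_lit 0) (nat_lit 0) (XT.lf (nat_lit 0) (nat_lit 811138688192) (nat_lit 152) (nat_lit 4370892792665) (nat_lit 0) (nat_lit 809985751505) (nat_lit 1) (nat_lit 5) (nat_lit 3) (nat_lit 4) (nat_lit 1) (nat_lit 4) (nat_lit 520) (nat_lit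 376) (nat_lit 304)) (XT.nd (nat_lit 78) (nat_lit 0) (nat_lit 0) (XT.lf (nat_lit 0) (nat_lit 881255777218) (nat_lit 152) (nat_lit 4709594796901) (nat_lit 0) (nat_lit 880102504277) (nat_lit 1) (nat_lit 5) (nat_lit 3) (nat_lit 4) (nat_lit 1) (nat_lit 4) (nat_lit 521) (nat_lit 376) (nat_lit 303)) (XT.lf (nat_lit 0) (nat_lit 956979279954) (nat_lit 152) (nat_lit 5075399052792) (nat_lit 0) (nat_lit 955825695666) (nat_lit 1) (nat_lit 5) (nat_lit 3) (nat_lit 4) (nat_lit 1) (nat_lit 4) (nat_lit 522) (nat_lit 376) (nat_lit 302)))) (XT.nd (nat_lit 78) (nat_lit 0) (nat_lit 0) (XT.lf (nat_lit 0) (nat_lit 1038757928267) (nat_lit 152) (nat_lit 5470473289261) (nat_lit 0) (nat_lit 1037604055696) (nat_lit 1) (nat_lit 5) (nat_lit 3) (nat_lit 4) (nat_lit 1) (nat_lit 4) (nat_lit 523) (nat_lit 376) (nat_lit 301)) (XT.nd (nat_lit 78) (nat_lit 0) (nat_lit 0) (XT.lf (nat_lit 0) (nat_lit 1127076336370) (nat_lit 152)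 (nat_lit 5897158686968) (nat_lit 0) (nat_lit 1125922196869) (nat_lit 1) (nat_lit 5) (nat_lit 3) (nat_lit 4) (nat_lit 1) (nat_lit 4) (nat_lit 524) (nat_lit 376) (nat_lit 300)) (XT.lf (nat_lit 0) (nat_lit 1222457872607) (nat_lit 152) (nat_lit 6357983751974) (nat_lit 0) (nat_lit 1221303485949) (nat_lit 1) (nat_lit 5) (nat_lit 3) (nat_lit 4) (nat_lit 1) (nat_lit 4) (nat_lit 525) (nat_lit 376) (nat_lit 299)))))) (XT.nd (nat_lit 56238) (nat_lit 0) (nat_lit 684) (XT.nd (nat_lit 234) (nat_lit 0) (nat_lit 0) (XT.nd (nat_lit 78) (nat_lit 0) (nat_lit 0) (XT.lf (nat_lit 0) (nat_lit 1325467760897) (nat_lit 152) (nat_lit 6855679299480) (nat_lit 0) (nat_lit 1324313145390) (nat_lit 1) (nat_lit 5) (nat_lit 3) (nat_lit 4) (nat_lit 1) (nat_lit 4) (nat_lit 526) (nat_lit 376) (nat_lit 298)) (XT.nd (nat_lit 78) (nat_lit 0) (nat_lit 0) (XT.lf (nat_lit 0) (nat_lit 1436716430206) (nat_lit 152) (nat_lit 7393194636432)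 (nat_lit 0) (nat_lit 1435561602803) (nat_lit 1) (nat_lit 5) (nat_lit 3) (nat_lit 4) (nat_lit 1) (nat_lit 4) (nat_lit 527) (nat_lit 376) (nat_lit 297)) (XT.lf (nat_lit 0) (nat_lit 1556863131910) (nat_lit 152) (nat_lit 7973715038903) (nat_lit 0) (nat_lit 1555708108305) (nat_lit 1) (nat_lit 5) (nat_lit 3) (nat_lit 4) (nat_lit 1) (nat_lit 4) (nat_lit 528) (nat_lit 376) (nat_lit 296)))) (XT.nd (nat_lit 78) (nat_lit 0) (nat_lit 0) (XT.lf (nat_lit 0) (nat_lit 1686619846462) (nat_lit 152) (nat_lit 8600680627795) (nat_lit 0) (nat_lit 1685464641189) (nat_lit 1) (nat_lit 5) (nat_lit 3) (nat_lit 4) (nat_lit 1) (nat_lit 4) (nat_lit 529) (nat_lit 376) (nat_lit 295)) (XT.nd (nat_lit 78) (nat_lit 0) (nat_lit 0) (XT.lf (nat_lit 0) (nat_lit 1826755502542) (nat_lit 152) (nat_lit 9277806754747) (nat_lit 0) (nat_lit 1825600129058) (nat_lit 1) (nat_lit 5) (nat_lit 3) (nat_lit 4) (nat_lit 1) (nat_lit 4) (nat_lit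 530) (nat_lit 376) (nat_lit 294)) (XT.lf (nat_lit 0) (nat_lit 1978100533666) (nat_lit 152) (nat_lit 10009106019029) (nat_lit 0) (nat_lit 1976945004431) (nat_lit 1) (nat_lit 5) (nat_lit 3) (nat_lit 4) (nat_lit 1) (nat_lit 4) (nat_lit 531) (nat_lit 376) (nat_lit 293))))) (XT.nd (nat_lit 234) (nat_lit 152) (nat_lit 0) (XT.nd (nat_lit 78) (nat_lit 228) (nat_lit 0) (XT.lf (nat_lit 0) (nat_lit 12836974788) (nat_lit 76) (nat_lit 563427740) (nat_lit 76) (nat_lit 563427740) (nat_lit 15) (nat_lit 4) (nat_lit 16) (nat_lit 5) (nat_lit 16) (nat_lit 4) (nat_lit 446) (nat_lit 377) (nat_lit 377)) (XT.nd (nat_lit 78) (nat_lit 76) (nat_lit 0) (XT.lf (nat_lit 0) (nat_lit 7704837341) (nat_lit 152) (nat_lit 14160564571) (nat_lit 0) (nat_lit 7578858663) (nat_lit 13) (nat_lit 5) (nat_lit 15) (nat_lit 4) (nat_lit 13) (nat_lit 4) (nat_lit 447) (nat_lit 377) (nat_lit 376)) (XT.lf (nat_lit 0) (nat_lit 2434218502)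 (nat_lit 76) (nat_lit 14455817794) (nat_lit 76) (nat_lit 14213192191) (nat_lit 12) (nat_lit 4) (nat_lit 13) (nat_lit 5) (nat_lit 13) (nat_lit 4) (nat_lit 448) (nat_lit 377) (nat_lit 375)))) (XT.nd (nat_lit 78) (nat_lit 152) (nat_lit 0) (XT.lf (nat_lit 0) (nat_lit 20282334569) (nat_lit 76) (nat_lit 6483383323) (nat_lit 76) (nat_lit 6132751308) (nat_lit 12) (nat_lit 4) (nat_lit 13) (nat_lit 5) (nat_lit 13) (nat_lit 4) (nat_lit 449) (nat_lit 377) (nat_lit 374)) (XT.nd (nat_lit 78) (nat_lit 0) (nat_lit 0) (XT.lf (nat_lit 0) (nat_lit 2196237494) (nat_lit 152) (nat_lit 30878577404) (nat_lit 0) (nat_lit 1778980131) (nat_lit 10) (nat_lit 5) (nat_lit 12) (nat_lit 4) (nat_lit 10) (nat_lit 4) (nat_lit 450) (nat_lit 377) (nat_lit 373)) (XT.lf (nat_lit 0) (nat_lit 10973364970) (nat_lit 152) (nat_lit 15500025055) (nat_lit 0) (nat_lit 10470368636) (nat_lit 10) (nat_lit 5) (nat_lit 12) (nat_lit 4) (nat_lit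 10) (nat_lit 4) (nat_lit 451) (nat_lit 377) (nat_lit 372))))))) (XT.nd (nat_lit 936) (nat_lit 76) (nat_lit 0) (XT.nd (nat_lit 468) (nat_lit 228) (nat_lit 0) (XT.nd (nat_lit 234) (nat_lit 152) (nat_lit 0) (XT.nd (nat_lit 78) (nat_lit 0) (nat_lit 0) (XT.lf (nat_lit 0) (nat_lit 351592851) (nat_lit 76) (nat_lit 19730674416) (nat_lit 76) (nat_lit 19148290145) (nat_lit 9) (nat_lit 4) (nat_lit 10) (nat_lit 5) (nat_lit 10) (nat_lit 4) (nat_lit 452) (nat_lit 377) (nat_lit 371)) (XT.nd (nat_lit 78) (nat_lit 0) (nat_lit 0) (XT.lf (nat_lit 0) (nat_lit 17597648983) (nat_lit 76) (nat_lit 12377080407) (nat_lit 76) (nat_lit 11721188786) (nat_lit 9) (nat_lit 4) (nat_lit 10) (nat_lit 5) (nat_lit 10) (nat_lit 4) (nat_lit 453) (nat_lit 377) (nat_lit 370)) (XT.lf (nat_lit 0) (nat_lit 35524138340) (nat_lit 76) (nat_lit 4792829298) (nat_lit 76) (nat_lit 4068875317) (nat_lit 9) (nat_lit 4) (nat_lit 10) (nat_lit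 5) (nat_lit 10) (nat_lit 4) (nat_lit 454) (nat_lit 377) (nat_lit 369)))) (XT.nd (nat_lit 78) (nat_lit 0) (nat_lit 0) (XT.lf (nat_lit 0) (nat_lit 3914733469) (nat_lit 152) (nat_lit 40187787972) (nat_lit 0) (nat_lit 3186053206) (nat_lit 7) (nat_lit 5) (nat_lit 9) (nat_lit 4) (nat_lit 7) (nat_lit 4) (nat_lit 455) (nat_lit 377) (nat_lit 368)) (XT.nd (nat_lit 78) (nat_lit 0) (nat_lit 0) (XT.lf (nat_lit 0) (nat_lit 12366232473) (nat_lit 152) (nat_lit 26461397720) (nat_lit 0) (nat_lit 11583522114) (nat_lit 7) (nat_lit 5) (nat_lit 9) (nat_lit 4) (nat_lit 7) (nat_lit 4) (nat_lit 456) (nat_lit 377) (nat_lit 367)) (XT.lf (nat_lit 0) (nat_lit 21193804466) (nat_lit 152) (nat_lit 12252673260) (nat_lit 0) (nat_lit 20361066240) (nat_lit 7) (nat_lit 5) (nat_lit 9) (nat_lit 4) (nat_lit 7) (nat_lit 4) (nat_lit 457) (nat_lit 377) (nat_lit 366))))) (XT.nd (nat_lit 234) (nat_lit 152) (nat_lit 0) (XT.nd (nat_lit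 78) (nat_lit 0) (nat_lit 0) (XT.lf (nat_lit 0) (nat_lit 2655420126) (nat_lit 76) (nat_lit 27858203777) (nat_lit 76) (nat_lit 26979143452) (nat_lit 6) (nat_lit 4) (nat_lit 7) (nat_lit 5) (nat_lit 7) (nat_lit 4) (nat_lit 458) (nat_lit 377) (nat_lit 365)) (XT.nd (nat_lit 78) (nat_lit 0) (nat_lit 0) (XT.lf (nat_lit 0) (nat_lit 18897251999) (nat_lit 76) (nat_lit 21746179511) (nat_lit 76) (nat_lit 20824228354) (nat_lit 6) (nat_lit 4) (nat_lit 7) (nat_lit 5) (nat_lit 7) (nat_lit 4) (nat_lit 459) (nat_lit 377) (nat_lit 364)) (XT.lf (nat_lit 0) (nat_lit 35923866190) (nat_lit 76) (nat_lit 15409195326) (nat_lit 76) (nat_lit 14447530436) (nat_lit 6) (nat_lit 4) (nat_lit 7) (nat_lit 5) (nat_lit 7) (nat_lit 4) (nat_lit 460) (nat_lit 377) (nat_lit 363)))) (XT.nd (nat_lit 78) (nat_lit 152) (nat_lit 0) (XT.lf (nat_lit 0) (nat_lit 53836161154) (nat_lit 76) (nat_lit 8809698722) (nat_lit 76) (nat_lit 7811261857)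 (nat_lit 6) (nat_lit 4) (nat_lit 7) (nat_lit 5) (nat_lit 7) (nat_lit 4) (nat_lit 461) (nat_lit 377) (nat_lit 362)) (XT.nd (nat_lit 78) (nat_lit 152) (nat_lit 0) (XT.lf (nat_lit 0) (nat_lit 72740283823) (nat_lit 76) (nat_lit 1908581573) (nat_lit 76) (nat_lit 876096582) (nat_lit 6) (nat_lit 4) (nat_lit 7) (nat_lit 5) (nat_lit 7) (nat_lit 4) (nat_lit 462) (nat_lit 377) (nat_lit 361)) (XT.lf (nat_lit 0) (nat_lit 6512045942) (nat_lit 152) (nat_lit 68928288815) (nat_lit 0) (nat_lit 5526850542) (nat_lit 4) (nat_lit 5) (nat_lit 6) (nat_lit 4) (nat_lit 4) (nat_lit 4) (nat_lit 463) (nat_lit 377) (nat_lit 360)))))) (XT.nd (nat_lit 468) (nat_lit 76) (nat_lit 0) (XT.nd (nat_lit 234) (nat_lit 0) (nat_lit 0) (XT.nd (nat_lit 78) (nat_lit 0) (nat_lit 0) (XT.lf (nat_lit 0) (nat_lit 14367766956) (nat_lit 152) (nat_lit 59125749468) (nat_lit 0) (nat_lit 13355543055) (nat_lit 4) (nat_lit 5) (nat_lit 6) (nat_lit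 4) (nat_lit 4) (nat_lit 4) (nat_lit 464) (nat_lit 377) (nat_lit 359)) (XT.nd (nat_lit 78) (nat_lit 0) (nat_lit 0) (XT.lf (nat_lit 0) (nat_lit 22663214041) (nat_lit 152) (nat_lit 48927406345) (nat_lit 0) (nat_lit 21625963753) (nat_lit 4) (nat_lit 5) (nat_lit 6) (nat_lit 4) (nat_lit 4) (nat_lit 4) (nat_lit 465) (nat_lit 377) (nat_lit 358)) (XT.lf (nat_lit 0) (nat_lit 31447545405) (nat_lit 152) (nat_lit 38272824820) (nat_lit 0) (nat_lit 30387122534) (nat_lit 4) (nat_lit 5) (nat_lit 6) (nat_lit 4) (nat_lit 4) (nat_lit 4) (nat_lit 466) (nat_lit 377) (nat_lit 357)))) (XT.nd (nat_lit 78) (nat_lit 0) (nat_lit 0) (XT.lf (nat_lit 0) (nat_lit 40772816343) (nat_lit 152) (nat_lit 27098866631) (nat_lit 0) (nat_lit 39690937377) (nat_lit 4) (nat_lit 5) (nat_lit 6) (nat_lit 4) (nat_lit 4) (nat_lit 4) (nat_lit 467) (nat_lit 377) (nat_lit 356)) (XT.nd (nat_lit 78) (nat_lit 0) (nat_lit 0) (XT.lf (nat_lit 0)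 (nat_lit 50694287720) (nat_lit 152) (nat_lit 15339315732) (nat_lit 0) (nat_lit 49592542001) (nat_lit 4) (nat_lit 5) (nat_lit 6) (nat_lit 4) (nat_lit 4) (nat_lit 4) (nat_lit 468) (nat_lit 377) (nat_lit 355)) (XT.lf (nat_lit 0) (nat_lit 61270753441) (nat_lit 152) (nat_lit 2924485893) (nat_lit 0) (nat_lit 60150612579) (nat_lit 4) (nat_lit 5) (nat_lit 6) (nat_lit 4) (nat_lit 4) (nat_lit 4) (nat_lit 469) (nat_lit 377) (nat_lit 354))))) (XT.nd (nat_lit 234) (nat_lit 0) (nat_lit 0) (XT.nd (nat_lit 78) (nat_lit 0) (nat_lit 0) (XT.lf (nat_lit 0) (nat_lit 10757316799) (nat_lit 76) (nat_lit 62066285786) (nat_lit 76) (nat_lit 60929112385) (nat_lit 3) (nat_lit 4) (nat_lit 4) (nat_lit 5) (nat_lit 4) (nat_lit 4) (nat_lit 470) (nat_lit 377) (nat_lit 353)) (XT.nd (nat_lit 78) (nat_lit 0) (nat_lit 0) (XT.lf (nat_lit 0) (nat_lit 25442335830) (nat_lit 76) (nat_lit 59813175140) (nat_lit 76) (nat_lit 58660230868)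 (nat_lit 3) (nat_lit 4) (nat_lit 4) (nat_lit 5) (nat_lit 4) (nat_lit 4) (nat_lit 471) (nat_lit 377) (nat_lit 352)) (XT.lf (nat_lit 0) (nat_lit 41063595287) (nat_lit 76) (nat_lit 57502516256) (nat_lit 76) (nat_lit 56334969327) (nat_lit 3) (nat_lit 4) (nat_lit 4) (nat_lit 5) (nat_lit 4) (nat_lit 4) (nat_lit 472) (nat_lit 377) (nat_lit 351)))) (XT.nd (nat_lit 78) (nat_lit 0) (nat_lit 0) (XT.lf (nat_lit 0) (nat_lit 57713665599) (nat_lit 76) (nat_lit 55120616342) (nat_lit 76) (nat_lit 53939548434) (nat_lit 3) (nat_lit 4) (nat_lit 4) (nat_lit 5) (nat_lit 4) (nat_lit 4) (nat_lit 473) (nat_lit 377) (nat_lit 350)) (XT.nd (nat_lit 78) (nat_lit 0) (nat_lit 0) (XT.lf (nat_lit 0) (nat_lit 75491213847) (nat_lit 76) (nat_lit 52653360434) (nat_lit 76) (nat_lit 51459773101) (nat_lit 3) (nat_lit 4) (nat_lit 4) (nat_lit 5) (nat_lit 4) (nat_lit 4) (nat_lit 474) (nat_lit 377) (nat_lit 349)) (XT.lf (nat_lit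 0) (nat_lit 94501588467) (nat_lit 76) (nat_lit 50086127757) (nat_lit 76) (nat_lit 48880948363) (nat_lit 3) (nat_lit 4) (nat_lit 4) (nat_lit 5) (nat_lit 4) (nat_lit 4) (nat_lit 475) (nat_lit 377) (nat_lit 348))))))))
noncomputable def xc40 : XT := (XT.nd (nat_lit 1794) (nat_lit 0) (nat_lit 0) (XT.nd (nat_lit 858) (nat_lit 152) (nat_lit 0) (XT.nd (nat_lit 390) (nat_lit 0) (nat_lit 0) (XT.nd (nat_lit 156) (nat_lit 0) (nat_lit 0) (XT.nd (nat_lit 78) (nat_lit 0) (nat_lit 0) (XT.lf (nat_lit 0) (nat_lit 114857443530) (nat_lit 76) (nat_lit 47403705080) (nat_lit 76) (nat_lit 46187792297) (nat_lit 3) (nat_lit 4) (nat_lit 4) (nat_lit 5) (nat_lit 4) (nat_lit 4) (nat_lit 476) (nat_lit 377) (nat_lit 347)) (XT.lf (nat_lit 0) (nat_lit 136679406325) (nat_lit 76) (nat_lit 44590196565) (nat_lit 76) (nat_lit 43364345459) (nat_lit 3) (nat_lit 4) (nat_lit 4) (nat_lit 5) (nat_lit 4) (nat_lit 4) (nat_lit 477)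 (nat_lit 377) (nat_lit 346))) (XT.nd (nat_lit 78) (nat_lit 0) (nat_lit 0) (XT.lf (nat_lit 0) (nat_lit 160096792187) (nat_lit 76) (nat_lit 41628929569) (nat_lit 76) (nat_lit 40393876312) (nat_lit 3) (nat_lit 4) (nat_lit 4) (nat_lit 5) (nat_lit 4) (nat_lit 4) (nat_lit 478) (nat_lit 377) (nat_lit 345)) (XT.nd (nat_lit 78) (nat_lit 0) (nat_lit 0) (XT.lf (nat_lit 0) (nat_lit 185248370811) (nat_lit 76) (nat_lit 38502355843) (nat_lit 76) (nat_lit 37258782076) (nat_lit 3) (nat_lit 4) (nat_lit 4) (nat_lit 5) (nat_lit 4) (nat_lit 4) (nat_lit 479) (nat_lit 377) (nat_lit 344)) (XT.lf (nat_lit 0) (nat_lit 212283188588) (nat_lit 76) (nat_lit 35191947543) (nat_lit 76) (nat_lit 33940484415) (nat_lit 3) (nat_lit 4) (nat_lit 4) (nat_lit 5) (nat_lit 4) (nat_lit 4) (nat_lit 480) (nat_lit 377) (nat_lit 343))))) (XT.nd (nat_lit 234) (nat_lit 0) (nat_lit 0) (XT.nd (nat_lit 78) (nat_lit 0) (nat_lit 0) (XT.lf (nat_lit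 0) (nat_lit 241361451846) (nat_lit 76) (nat_lit 31678087435) (nat_lit 76) (nat_lit 30419319342) (nat_lit 3) (nat_lit 4) (nat_lit 4) (nat_lit 5) (nat_lit 4) (nat_lit 4) (nat_lit 481) (nat_lit 377) (nat_lit 342)) (XT.nd (nat_lit 78) (nat_lit 0) (nat_lit 0) (XT.lf (nat_lit 0) (nat_lit 272655476219) (nat_lit 76) (nat_lit 27939952643) (nat_lit 76) (nat_lit 26674420695) (nat_lit 3) (nat_lit 4) (nat_lit 4) (nat_lit 5) (nat_lit 4) (nat_lit 4) (nat_lit 482) (nat_lit 377) (nat_lit 341)) (XT.lf (nat_lit 0) (nat_lit 306350707776) (nat_lit 76) (nat_lit 23955391258) (nat_lit 76) (nat_lit 22683596480) (nat_lit 3) (nat_lit 4) (nat_lit 4) (nat_lit 5) (nat_lit 4) (nat_lit 4) (nat_lit 483) (nat_lit 377) (nat_lit 340)))) (XT.nd (nat_lit 78) (nat_lit 0) (nat_lit 0) (XT.lf (nat_lit 0) (nat_lit 342646821966) (nat_lit 76) (nat_lit 19700791065) (nat_lit 76) (nat_lit 18423197371) (nat_lit 3) (nat_lit 4) (nat_lit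 4) (nat_lit 5) (nat_lit 4) (nat_lit 4) (nat_lit 484) (nat_lit 377) (nat_lit 339)) (XT.nd (nat_lit 78) (nat_lit 0) (nat_lit 0) (XT.lf (nat_lit 0) (nat_lit 381758906871) (nat_lit 76) (nat_lit 15150939617) (nat_lit 76) (nat_lit 13867976556) (nat_lit 3) (nat_lit 4) (nat_lit 4) (nat_lit 5) (nat_lit 4) (nat_lit 4) (nat_lit 485) (nat_lit 377) (nat_lit 338)) (XT.lf (nat_lit 0) (nat_lit 423918737809) (nat_lit 76) (nat_lit 10278874833) (nat_lit 76) (nat_lit 8990940136) (nat_lit 3) (nat_lit 4) (nat_lit 4) (nat_lit 5) (nat_lit 4) (nat_lit 4) (nat_lit 486) (nat_lit 377) (nat_lit 337)))))) (XT.nd (nat_lit 468) (nat_lit 0) (nat_lit 0) (XT.nd (nat_lit 234) (nat_lit 0) (nat_lit 0) (XT.nd (nat_lit 78) (nat_lit 152) (nat_lit 0) (XT.lf (nat_lit 0) (nat_lit 469376150817) (nat_lit 76) (nat_lit 5055725216) (nat_lit 76) (nat_lit 3763187153) (nat_lit 3) (nat_lit 4) (nat_lit 4) (nat_lit 5) (nat_lit 4) (nat_lit 4)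 (nat_lit 487) (nat_lit 377) (nat_lit 336)) (XT.nd (nat_lit 78) (nat_lit 0) (nat_lit 0) (XT.lf (nat_lit 0) (nat_lit 1829345308) (nat_lit 152) (nat_lit 513537263286) (nat_lit 0) (nat_lit 628604160) (nat_lit 1) (nat_lit 5) (nat_lit 3) (nat_lit 4) (nat_lit 1) (nat_lit 4) (nat_lit 488) (nat_lit 377) (nat_lit 335)) (XT.lf (nat_lit 0) (nat_lit 8010011276) (nat_lit 152) (nat_lit 541968404609) (nat_lit 0) (nat_lit 6805615827) (nat_lit 1) (nat_lit 5) (nat_lit 3) (nat_lit 4) (nat_lit 1) (nat_lit 4) (nat_lit 489) (nat_lit 377) (nat_lit 334)))) (XT.nd (nat_lit 78) (nat_lit 0) (nat_lit 0) (XT.lf (nat_lit 0) (nat_lit 14653033809) (nat_lit 152) (nat_lit 572740235638) (nat_lit 0) (nat_lit 13445254748) (nat_lit 1) (nat_lit 5) (nat_lit 3) (nat_lit 4) (nat_lit 1) (nat_lit 4) (nat_lit 490) (nat_lit 377) (nat_lit 333)) (XT.nd (nat_lit 78) (nat_lit 0) (nat_lit 0) (XT.lf (nat_lit 0) (nat_lit 21797778967) (nat_lit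 152) (nat_lit 606035107965) (nat_lit 0) (nat_lit 20586866932) (nat_lit 1) (nat_lit 5) (nat_lit 3) (nat_lit 4) (nat_lit 1) (nat_lit 4) (nat_lit 491) (nat_lit 377) (nat_lit 332)) (XT.lf (nat_lit 0) (nat_lit 29486585981) (nat_lit 152) (nat_lit 642050324536) (nat_lit 0) (nat_lit 28272773044) (nat_lit 1) (nat_lit 5) (nat_lit 3) (nat_lit 4) (nat_lit 1) (nat_lit 4) (nat_lit 492) (nat_lit 377) (nat_lit 331))))) (XT.nd (nat_lit 234) (nat_lit 0) (nat_lit 0) (XT.nd (nat_lit 78) (nat_lit 0) (nat_lit 0) (XT.lf (nat_lit 0) (nat_lit 37765018151) (nat_lit 152) (nat_lit 680999308858) (nat_lit 0) (nat_lit 36548519194) (nat_lit 1) (nat_lit 5) (nat_lit 3) (nat_lit 4) (nat_lit 1) (nat_lit 4) (nat_lit 493) (nat_lit 377) (nat_lit 330)) (XT.nd (nat_lit 78) (nat_lit 0) (nat_lit 0) (XT.lf (nat_lit 0) (nat_lit 46682132854) (nat_lit 152) (nat_lit 723112869726) (nat_lit 0) (nat_lit 45463146841) (nat_lit 1) (nat_lit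 5) (nat_lit 3) (nat_lit 4) (nat_lit 1) (nat_lit 4) (nat_lit 494) (nat_lit 377) (nat_lit 329)) (XT.lf (nat_lit 0) (nat_lit 56290772250) (nat_lit 152) (nat_lit 768640568982) (nat_lit 0) (nat_lit 55069483408) (nat_lit 1) (nat_lit 5) (nat_lit 3) (nat_lit 4) (nat_lit 1) (nat_lit 4) (nat_lit 495) (nat_lit 377) (nat_lit 328)))) (XT.nd (nat_lit 78) (nat_lit 0) (nat_lit 0) (XT.lf (nat_lit 0) (nat_lit 66647876424) (nat_lit 152) (nat_lit 817852200400) (nat_lit 0) (nat_lit 65424455333) (nat_lit 1) (nat_lit 5) (nat_lit 3) (nat_lit 4) (nat_lit 1) (nat_lit 4) (nat_lit 496) (nat_lit 377) (nat_lit 327)) (XT.nd (nat_lit 78) (nat_lit 0) (nat_lit 0) (XT.lf (nat_lit 0) (nat_lit 77814820810) (nat_lit 152) (nat_lit 871039388462) (nat_lit 0) (nat_lit 76589425413) (nat_lit 1) (nat_lit 5) (nat_lit 3) (nat_lit 4) (nat_lit 1) (nat_lit 4) (nat_lit 497) (nat_lit 377) (nat_lit 326)) (XT.lf (nat_lit 0) (nat_lit 89857779891)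 (nat_lit 152) (nat_lit 928517316505) (nat_lit 0) (nat_lit 88630556435) (nat_lit 1) (nat_lit 5) (nat_lit 3) (nat_lit 4) (nat_lit 1) (nat_lit 4) (nat_lit 498) (nat_lit 377) (nat_lit 325))))))) (XT.nd (nat_lit 858) (nat_lit 0) (nat_lit 0) (XT.nd (nat_lit 390) (nat_lit 0) (nat_lit 0) (XT.nd (nat_lit 156) (nat_lit 0) (nat_lit 0) (XT.nd (nat_lit 78) (nat_lit 0) (nat_lit 0) (XT.lf (nat_lit 0) (nat_lit 102848119352) (nat_lit 152) (nat_lit 990626594473) (nat_lit 0) (nat_lit 101619203247) (nat_lit 1) (nat_lit 5) (nat_lit 3) (nat_lit 4) (nat_lit 1) (nat_lit 4) (nat_lit 499) (nat_lit 377) (nat_lit 324)) (XT.lf (nat_lit 0) (nat_lit 116862818983) (nat_lit 152) (nat_lit 1057735277347) (nat_lit 0) (nat_lit 115632335611) (nat_lit 1) (nat_lit 5) (nat_lit 3) (nat_lit 4) (nat_lit 1) (nat_lit 4) (nat_lit 500) (nat_lit 377) (nat_lit 323))) (XT.nd (nat_lit 78) (nat_lit 0) (nat_lit 0) (XT.lf (nat_lit 0) (nat_lit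 131984928854) (nat_lit 152) (nat_lit 1130241046209) (nat_lit 0) (nat_lit 130752994308) (nat_lit 1) (nat_lit 5) (nat_lit 3) (nat_lit 4) (nat_lit 1) (nat_lit 4) (nat_lit 501) (nat_lit 377) (nat_lit 322)) (XT.nd (nat_lit 78) (nat_lit 0) (nat_lit 0) (XT.lf (nat_lit 0) (nat_lit 148304061468) (nat_lit 152) (nat_lit 1208573564877) (nat_lit 0) (nat_lit 147070783244) (nat_lit 1) (nat_lit 5) (nat_lit 3) (nat_lit 4) (nat_lit 1) (nat_lit 4) (nat_lit 502) (nat_lit 377) (nat_lit 321)) (XT.lf (nat_lit 0) (nat_lit 165916922798) (nat_lit 152) (nat_lit 1293197026052) (nat_lit 0) (nat_lit 164682400427) (nat_lit 1) (nat_lit 5) (nat_lit 3) (nat_lit 4) (nat_lit 1) (nat_lit 4) (nat_lit 503) (nat_lit 377) (nat_lit 320))))) (XT.nd (nat_lit 234) (nat_lit 0) (nat_lit 0) (XT.nd (nat_lit 78) (nat_lit 0) (nat_lit 0) (XT.lf (nat_lit 0) (nat_lit 184927885354) (nat_lit 152) (nat_lit 1384612902097) (nat_lit 0) (nat_lit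 183692210995) (nat_lit 1) (nat_lit 5) (nat_lit 3) (nat_lit 4) (nat_lit 1) (nat_lit 4) (nat_lit 504) (nat_lit 377) (nat_lit 319)) (XT.nd (nat_lit 78) (nat_lit 0) (nat_lit 0) (XT.lf (nat_lit 0) (nat_lit 205449606692) (nat_lit 152) (nat_lit 1483362916723) (nat_lit 0) (nat_lit 204212865677) (nat_lit 1) (nat_lit 5) (nat_lit 3) (nat_lit 4) (nat_lit 1) (nat_lit 4) (nat_lit 505) (nat_lit 377) (nat_lit 318)) (XT.lf (nat_lit 0) (nat_lit 227603697013) (nat_lit 152) (nat_lit 1590032255200) (nat_lit 0) (nat_lit 226365968355) (nat_lit 1) (nat_lit 5) (nat_lit 3) (nat_lit 4) (nat_lit 1) (nat_lit 4) (nat_lit 506) (nat_lit 377) (nat_lit 317)))) (XT.nd (nat_lit 78) (nat_lit 0) (nat_lit 0) (XT.lf (nat_lit 0) (nat_lit 251521439815) (nat_lit 152) (nat_lit 1705253032129) (nat_lit 0) (nat_lit 250282796671) (nat_lit 1) (nat_lit 5) (nat_lit 3) (nat_lit 4) (nat_lit 1) (nat_lit 4) (nat_lit 507) (nat_lit 377) (nat_lit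 316)) (XT.nd (nat_lit 78) (nat_lit 0) (nat_lit 0) (XT.lf (nat_lit 0) (nat_lit 277344569871) (nat_lit 152) (nat_lit 1829708037297) (nat_lit 0) (nat_lit 276105079981) (nat_lit 1) (nat_lit 5) (nat_lit 3) (nat_lit 4) (nat_lit 1) (nat_lit 4) (nat_lit 508) (nat_lit 377) (nat_lit 315)) (XT.lf (nat_lit 0) (nat_lit 305226113135) (nat_lit 152) (nat_lit 1964134781846) (nat_lit 0) (nat_lit 303985839222) (nat_lit 1) (nat_lit 5) (nat_lit 3) (nat_lit 4) (nat_lit 1) (nat_lit 4) (nat_lit 509) (nat_lit 377) (nat_lit 314)))))) (XT.nd (nat_lit 468) (nat_lit 0) (nat_lit 0) (XT.nd (nat_lit 234) (nat_lit 0) (nat_lit 0) (XT.nd (nat_lit 78) (nat_lit 0) (nat_lit 0) (XT.lf (nat_lit 0) (nat_lit 335331293569) (nat_lit 152) (nat_lit 2109329868707) (nat_lit 0) (nat_lit 334090293708) (nat_lit 1) (nat_lit 5) (nat_lit 3) (nat_lit 4) (nat_lit 1) (nat_lit 4) (nat_lit 510) (nat_lit 377) (nat_lit 313)) (XT.nd (nat_lit 78) (nat_lit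 0) (nat_lit 0) (XT.lf (nat_lit 0) (nat_lit 367838512241) (nat_lit 152) (nat_lit 2266153713210) (nat_lit 0) (nat_lit 366596840206) (nat_lit 1) (nat_lit 5) (nat_lit 3) (nat_lit 4) (nat_lit 1) (nat_lit 4) (nat_lit 511) (nat_lit 377) (nat_lit 312)) (XT.lf (nat_lit 0) (nat_lit 402940404521) (nat_lit 152) (nat_lit 2435535641841) (nat_lit 0) (nat_lit 401698110103) (nat_lit 1) (nat_lit 5) (nat_lit 3) (nat_lit 4) (nat_lit 1) (nat_lit 4) (nat_lit 512) (nat_lit 377) (nat_lit 311)))) (XT.nd (nat_lit 78) (nat_lit 0) (nat_lit 0) (XT.lf (nat_lit 0) (nat_lit 440844981623) (nat_lit 152) (nat_lit 2618479399361) (nat_lit 0) (nat_lit 439602110924) (nat_lit 1) (nat_lit 5) (nat_lit 3) (nat_lit 4) (nat_lit 1) (nat_lit 4) (nat_lit 513) (nat_lit 377) (nat_lit 310)) (XT.nd (nat_lit 78) (nat_lit 0) (nat_lit 0) (XT.lf (nat_lit 0) (nat_lit 481776863263) (nat_lit 152) (nat_lit 2816069096927) (nat_lit 0) (nat_lit 480533458970)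 (nat_lit 1) (nat_lit 5) (nat_lit 3) (nat_lit 4) (nat_lit 1) (nat_lit 4) (nat_lit 514) (nat_lit 377) (nat_lit 309)) (XT.lf (nat_lit 0) (nat_lit 525978608739) (nat_lit 152) (nat_lit 3029475636450) (nat_lit 0) (nat_lit 524734710379) (nat_lit 1) (nat_lit 5) (nat_lit 3) (nat_lit 4) (nat_lit 1) (nat_lit 4) (nat_lit 515) (nat_lit 377) (nat_lit 308))))) (XT.nd (nat_lit 234) (nat_lit 0) (nat_lit 0) (XT.nd (nat_lit 78) (nat_lit 0) (nat_lit 0) (XT.lf (nat_lit 0) (nat_lit 573712154322) (nat_lit 152) (nat_lit 3259963649276) (nat_lit 0) (nat_lit 572467798491) (nat_lit 1) (nat_lit 5) (nat_lit 3) (nat_lit 4) (nat_lit 1) (nat_lit 4) (nat_lit 516) (nat_lit 377) (nat_lit 307)) (XT.nd (nat_lit 78) (nat_lit 0) (nat_lit 0) (XT.lf (nat_lit 0) (nat_lit 625260365466) (nat_lit 152) (nat_lit 3508898990294) (nat_lit 0) (nat_lit 624015586052) (nat_lit 1) (nat_lit 5) (nat_lit 3) (nat_lit 4) (nat_lit 1) (nat_lit 4) (nat_lit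 517) (nat_lit 377) (nat_lit 306)) (XT.lf (nat_lit 0) (nat_lit 680928713052) (nat_lit 152) (nat_lit 3777756831897) (nat_lit 0) (nat_lit 679683541431) (nat_lit 1) (nat_lit 5) (nat_lit 3) (nat_lit 4) (nat_lit 1) (nat_lit 4) (nat_lit 518) (nat_lit 377) (nat_lit 305)))) (XT.nd (nat_lit 78) (nat_lit 0) (nat_lit 0) (XT.lf (nat_lit 0) (nat_lit 741047083585) (nat_lit 152) (nat_lit 4068130405738) (nat_lit 0) (nat_lit 739801548809) (nat_lit 1) (nat_lit 5) (nat_lit 3) (nat_lit 4) (nat_lit 1) (nat_lit 4) (nat_lit 519) (nat_lit 377) (nat_lit 304)) (XT.nd (nat_lit 78) (nat_lit 0) (nat_lit 0) (XT.lf (nat_lit 0) (nat_lit 805971734075) (nat_lit 152) (nat_lit 4381740444107) (nat_lit 0) (nat_lit 804725863044) (nat_lit 1) (nat_lit 5) (nat_lit 3) (nat_lit 4) (nat_lit 1) (nat_lit 4) (nat_lit 520) (nat_lit 377) (nat_lit 303)) (XT.lf (nat_lit 0) (nat_lit 876087403191) (nat_lit 152) (nat_lit 4720445376860) (nat_lit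 0) (nat_lit 874841220814) (nat_lit 1) (nat_lit 5) (nat_lit 3) (nat_lit 4) (nat_lit 1) (nat_lit 4) (nat_lit 521) (nat_lit 377) (nat_lit 302))))))))
noncomputable def xc41 : XT := (XT.nd (nat_lit 57408) (nat_lit 0) (nat_lit 152) (XT.nd (nat_lit 56472) (nat_lit 0) (nat_lit 456) (XT.nd (nat_lit 390) (nat_lit 0) (nat_lit 0) (XT.nd (nat_lit 156) (nat_lit 0) (nat_lit 0) (XT.nd (nat_lit 78) (nat_lit 0) (nat_lit 0) (XT.lf (nat_lit 0) (nat_lit 951809591195) (nat_lit 152) (nat_lit 5086252344341) (nat_lit 0) (nat_lit 950563120535) (nat_lit 1) (nat_lit 5) (nat_lit 3) (nat_lit 4) (nat_lit 1) (nat_lit 4) (nat_lit 522) (nat_lit 377) (nat_lit 301)) (XT.lf (nat_lit 0) (nat_lit 1033587022165) (nat_lit 152) (nat_lit 5481329091541) (nat_lit 0) (nat_lit 1032340284574) (nat_lit 1) (nat_lit 5) (nat_lit 3) (nat_lit 4) (nat_lit 1) (nat_lit 4) (nat_lit 523) (nat_lit 377) (nat_lit 300))) (XT.nd (nat_lit 78) (nat_lit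 0) (nat_lit 0) (XT.lf (nat_lit 0) (nat_lit 1121904303098) (nat_lit 152) (nat_lit 5908016813999) (nat_lit 0) (nat_lit 1120657318350) (nat_lit 1) (nat_lit 5) (nat_lit 3) (nat_lit 4) (nat_lit 1) (nat_lit 4) (nat_lit 524) (nat_lit 377) (nat_lit 299)) (XT.nd (nat_lit 78) (nat_lit 0) (nat_lit 0) (XT.lf (nat_lit 0) (nat_lit 1217284795658) (nat_lit 152) (nat_lit 6368844031553) (nat_lit 0) (nat_lit 1216037582062) (nat_lit 1) (nat_lit 5) (nat_lit 3) (nat_lit 4) (nat_lit 1) (nat_lit 4) (nat_lit 525) (nat_lit 377) (nat_lit 298)) (XT.lf (nat_lit 0) (nat_lit 1320293717581) (nat_lit 152) (nat_lit 6866541572158) (nat_lit 0) (nat_lit 1319046292088) (nat_lit 1) (nat_lit 5) (nat_lit 3) (nat_lit 4) (nat_lit 1) (nat_lit 4) (nat_lit 526) (nat_lit 377) (nat_lit 297))))) (XT.nd (nat_lit 234) (nat_lit 0) (nat_lit 0) (XT.nd (nat_lit 78) (nat_lit 0) (nat_lit 0) (XT.lf (nat_lit 0) (nat_lit 1431541492107) (nat_lit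 152) (nat_lit 7404058754573) (nat_lit 0) (nat_lit 1430293870412) (nat_lit 1) (nat_lit 5) (nat_lit 3) (nat_lit 4) (nat_lit 1) (nat_lit 4) (nat_lit 527) (nat_lit 377) (nat_lit 296)) (XT.nd (nat_lit 78) (nat_lit 0) (nat_lit 0) (XT.lf (nat_lit 0) (nat_lit 1551687365307) (nat_lit 152) (nat_lit 7984580865805) (nat_lit 0) (nat_lit 1550439561944) (nat_lit 1) (nat_lit 5) (nat_lit 3) (nat_lit 4) (nat_lit 1) (nat_lit 4) (nat_lit 528) (nat_lit 377) (nat_lit 295)) (XT.lf (nat_lit 0) (nat_lit 1681443312726) (nat_lit 152) (nat_lit 8611548036884) (nat_lit 0) (nat_lit 1680195341152) (nat_lit 1) (nat_lit 5) (nat_lit 3) (nat_lit 4) (nat_lit 1) (nat_lit 4) (nat_lit 529) (nat_lit 377) (nat_lit 294)))) (XT.nd (nat_lit 78) (nat_lit 0) (nat_lit 0) (XT.lf (nat_lit 0) (nat_lit 1821578258497) (nat_lit 152) (nat_lit 9288675628823) (nat_lit 0) (nat_lit 1820330131173) (nat_lit 1) (nat_lit 5) (nat_lit 3) (nat_lit 4)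 (nat_lit 1) (nat_lit 4) (nat_lit 530) (nat_lit 377) (nat_lit 293)) (XT.nd (nat_lit 55692) (nat_lit 0) (nat_lit 1140) (XT.lf (nat_lit 0) (nat_lit 1972922631928) (nat_lit 152) (nat_lit 10019976249575) (nat_lit 0) (nat_lit 1971674360390) (nat_lit 1) (nat_lit 5) (nat_lit 3) (nat_lit 4) (nat_lit 1) (nat_lit 4) (nat_lit 531) (nat_lit 377) (nat_lit 292)) (XT.lf (nat_lit 0) (nat_lit 3988460248) (nat_lit 152) (nat_lit 4611388455) (nat_lit 0) (nat_lit 3988460248) (nat_lit 16) (nat_lit 5) (nat_lit 18) (nat_lit 4) (nat_lit 16) (nat_lit 4) (nat_lit 444) (nat_lit 378) (nat_lit 378)))))) (XT.nd (nat_lit 468) (nat_lit 228) (nat_lit 0) (XT.nd (nat_lit 234) (nat_lit 228) (nat_lit 0) (XT.nd (nat_lit 78) (nat_lit 152) (nat_lit 0) (XT.lf (nat_lit 0) (nat_lit 7521493416) (nat_lit 76) (nat_lit 9562865988) (nat_lit 76) (nat_lit 9415924457) (nat_lit 15) (nat_lit 4) (nat_lit 16) (nat_lit 5) (nat_lit 16) (nat_lit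 4) (nat_lit 445) (nat_lit 378) (nat_lit 377)) (XT.nd (nat_lit 78) (nat_lit 152) (nat_lit 0) (XT.lf (nat_lit 0) (nat_lit 25251853936) (nat_lit 76) (nat_lit 1487731628) (nat_lit 76) (nat_lit 1204733125) (nat_lit 15) (nat_lit 4) (nat_lit 16) (nat_lit 5) (nat_lit 16) (nat_lit 4) (nat_lit 446) (nat_lit 378) (nat_lit 376)) (XT.lf (nat_lit 0) (nat_lit 7397711517) (nat_lit 152) (nat_lit 15062984143) (nat_lit 0) (nat_lit 7019028941) (nat_lit 13) (nat_lit 5) (nat_lit 15) (nat_lit 4) (nat_lit 13) (nat_lit 4) (nat_lit 447) (nat_lit 378) (nat_lit 375)))) (XT.nd (nat_lit 78) (nat_lit 152) (nat_lit 0) (XT.lf (nat_lit 0) (nat_lit 1061407236) (nat_lit 76) (nat_lit 15291201302) (nat_lit 76) (nat_lit 14804512315) (nat_lit 12) (nat_lit 4) (nat_lit 13) (nat_lit 5) (nat_lit 13) (nat_lit 4) (nat_lit 448) (nat_lit 378) (nat_lit 374)) (XT.nd (nat_lit 78) (nat_lit 152) (nat_lit 0) (XT.lf (nat_lit 0) (nat_lit 18517975267)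 (nat_lit 76) (nat_lit 7518226100) (nat_lit 76) (nat_lit 6931531175) (nat_lit 12) (nat_lit 4) (nat_lit 13) (nat_lit 5) (nat_lit 13) (nat_lit 4) (nat_lit 449) (nat_lit 378) (nat_lit 373)) (XT.lf (nat_lit 0) (nat_lit 1168190079) (nat_lit 152) (nat_lit 33238731462) (nat_lit 0) (nat_lit 539215066) (nat_lit 10) (nat_lit 5) (nat_lit 12) (nat_lit 4) (nat_lit 10) (nat_lit 4) (nat_lit 450) (nat_lit 378) (nat_lit 372))))) (XT.nd (nat_lit 234) (nat_lit 152) (nat_lit 0) (XT.nd (nat_lit 78) (nat_lit 76) (nat_lit 0) (XT.lf (nat_lit 0) (nat_lit 9763177558) (nat_lit 152) (nat_lit 18232682348) (nat_lit 0) (nat_lit 9054814609) (nat_lit 10) (nat_lit 5) (nat_lit 12) (nat_lit 4) (nat_lit 10) (nat_lit 4) (nat_lit 451) (nat_lit 378) (nat_lit 371)) (XT.nd (nat_lit 78) (nat_lit 76) (nat_lit 0) (XT.lf (nat_lit 0) (nat_lit 18694975895) (nat_lit 152) (nat_lit 2743562941) (nat_lit 0) (nat_lit 17913105596) (nat_lit 10)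 (nat_lit 5) (nat_lit 12) (nat_lit 4) (nat_lit 10) (nat_lit 4) (nat_lit 452) (nat_lit 378) (nat_lit 370)) (XT.lf (nat_lit 0) (nat_lit 14021843534) (nat_lit 76) (nat_lit 14331896402) (nat_lit 76) (nat_lit 13481963743) (nat_lit 9) (nat_lit 4) (nat_lit 10) (nat_lit 5) (nat_lit 10) (nat_lit 4) (nat_lit 453) (nat_lit 378) (nat_lit 369)))) (XT.nd (nat_lit 78) (nat_lit 152) (nat_lit 0) (XT.lf (nat_lit 0) (nat_lit 31637056509) (nat_lit 76) (nat_lit 6906846870) (nat_lit 76) (nat_lit 5993893507) (nat_lit 9) (nat_lit 4) (nat_lit 10) (nat_lit 5) (nat_lit 10) (nat_lit 4) (nat_lit 454) (nat_lit 378) (nat_lit 368)) (XT.nd (nat_lit 78) (nat_lit 0) (nat_lit 0) (XT.lf (nat_lit 0) (nat_lit 1774466694) (nat_lit 152) (nat_lit 44819581968) (nat_lit 0) (nat_lit 875109411) (nat_lit 7) (nat_lit 5) (nat_lit 9) (nat_lit 4) (nat_lit 7) (nat_lit 4) (nat_lit 455) (nat_lit 378) (nat_lit 367)) (XT.lf (nat_lit 0) (nat_lit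 10081712366) (nat_lit 152) (nat_lit 31389238356) (nat_lit 0) (nat_lit 9132327215) (nat_lit 7) (nat_lit 5) (nat_lit 9) (nat_lit 4) (nat_lit 7) (nat_lit 4) (nat_lit 456) (nat_lit 378) (nat_lit 366))))))) (XT.nd (nat_lit 936) (nat_lit 76) (nat_lit 0) (XT.nd (nat_lit 468) (nat_lit 152) (nat_lit 0) (XT.nd (nat_lit 234) (nat_lit 0) (nat_lit 0) (XT.nd (nat_lit 78) (nat_lit 76) (nat_lit 0) (XT.lf (nat_lit 0) (nat_lit 18775716458) (nat_lit 152) (nat_lit 17454631155) (nat_lit 0) (nat_lit 17780009209) (nat_lit 7) (nat_lit 5) (nat_lit 9) (nat_lit 4) (nat_lit 7) (nat_lit 4) (nat_lit 457) (nat_lit 378) (nat_lit 365)) (XT.nd (nat_lit 78) (nat_lit 76) (nat_lit 0) (XT.lf (nat_lit 0) (nat_lit 27907998997) (nat_lit 152) (nat_lit 2933184914) (nat_lit 0) (nat_lit 26869400916) (nat_lit 7) (nat_lit 5) (nat_lit 9) (nat_lit 4) (nat_lit 7) (nat_lit 4) (nat_lit 458) (nat_lit 378) (nat_lit 364)) (XT.lf (nat_lit 0)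 (nat_lit 12906803989) (nat_lit 76) (nat_lit 24936282168) (nat_lit 76) (nat_lit 23857970353) (nat_lit 6) (nat_lit 4) (nat_lit 7) (nat_lit 5) (nat_lit 7) (nat_lit 4) (nat_lit 459) (nat_lit 378) (nat_lit 363)))) (XT.nd (nat_lit 78) (nat_lit 0) (nat_lit 0) (XT.lf (nat_lit 0) (nat_lit 29704356467) (nat_lit 76) (nat_lit 18716820250) (nat_lit 76) (nat_lit 17601736460) (nat_lit 6) (nat_lit 4) (nat_lit 7) (nat_lit 5) (nat_lit 7) (nat_lit 4) (nat_lit 460) (nat_lit 378) (nat_lit 362)) (XT.nd (nat_lit 78) (nat_lit 0) (nat_lit 0) (XT.lf (nat_lit 0) (nat_lit 47404557252) (nat_lit 76) (nat_lit 12226140562) (nat_lit 76) (nat_lit 11077008646) (nat_lit 6) (nat_lit 4) (nat_lit 7) (nat_lit 5) (nat_lit 7) (nat_lit 4) (nat_lit 461) (nat_lit 378) (nat_lit 361)) (XT.lf (nat_lit 0) (nat_lit 66112296423) (nat_lit 76) (nat_lit 5425779814) (nat_lit 76) (nat_lit 4245121857) (nat_lit 6) (nat_lit 4) (nat_lit 7) (nat_lit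 5) (nat_lit 7) (nat_lit 4) (nat_lit 462) (nat_lit 378) (nat_lit 360))))) (XT.nd (nat_lit 234) (nat_lit 0) (nat_lit 0) (XT.nd (nat_lit 78) (nat_lit 0) (nat_lit 0) (XT.lf (nat_lit 0) (nat_lit 2950106047) (nat_lit 152) (nat_lit 76480838444) (nat_lit 0) (nat_lit 1829875735) (nat_lit 4) (nat_lit 5) (nat_lit 6) (nat_lit 4) (nat_lit 4) (nat_lit 4) (nat_lit 463) (nat_lit 378) (nat_lit 359)) (XT.nd (nat_lit 78) (nat_lit 0) (nat_lit 0) (XT.lf (nat_lit 0) (nat_lit 10715090710) (nat_lit 152) (nat_lit 66865029564) (nat_lit 0) (nat_lit 9569834010) (nat_lit 4) (nat_lit 5) (nat_lit 6) (nat_lit 4) (nat_lit 4) (nat_lit 4) (nat_lit 464) (nat_lit 378) (nat_lit 358)) (XT.lf (nat_lit 0) (nat_lit 18926522657) (nat_lit 152) (nat_lit 56839585021) (nat_lit 0) (nat_lit 17758093374) (nat_lit 4) (nat_lit 5) (nat_lit 6) (nat_lit 4) (nat_lit 4) (nat_lit 4) (nat_lit 465) (nat_lit 378) (nat_lit 357)))) (XT.nd (nat_lit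 78) (nat_lit 0) (nat_lit 0) (XT.lf (nat_lit 0) (nat_lit 27633062225) (nat_lit 152) (nat_lit 46345094774) (nat_lit 0) (nat_lit 26443176848) (nat_lit 4) (nat_lit 5) (nat_lit 6) (nat_lit 4) (nat_lit 4) (nat_lit 4) (nat_lit 466) (nat_lit 378) (nat_lit 356)) (XT.nd (nat_lit 78) (nat_lit 0) (nat_lit 0) (XT.lf (nat_lit 0) (nat_lit 36886303723) (nat_lit 152) (nat_lit 35319369251) (nat_lit 0) (nat_lit 35676551591) (nat_lit 4) (nat_lit 5) (nat_lit 6) (nat_lit 4) (nat_lit 4) (nat_lit 4) (nat_lit 467) (nat_lit 378) (nat_lit 355)) (XT.lf (nat_lit 0) (nat_lit 46741081174) (nat_lit 152) (nat_lit 23697070820) (nat_lit 0) (nat_lit 45512933900) (nat_lit 4) (nat_lit 5) (nat_lit 6) (nat_lit 4) (nat_lit 4) (nat_lit 4) (nat_lit 468) (nat_lit 378) (nat_lit 354)))))) (XT.nd (nat_lit 468) (nat_lit 0) (nat_lit 0) (XT.nd (nat_lit 234) (nat_lit 0) (nat_lit 0) (XT.nd (nat_lit 78) (nat_lit 76) (nat_lit 0) (XT.lf (nat_lit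 0) (nat_lit 57255793259) (nat_lit 152) (nat_lit 11409326599) (nat_lit 0) (nat_lit 56010613446) (nat_lit 4) (nat_lit 5) (nat_lit 6) (nat_lit 4) (nat_lit 4) (nat_lit 4) (nat_lit 469) (nat_lit 378) (nat_lit 353)) (XT.nd (nat_lit 78) (nat_lit 0) (nat_lit 0) (XT.lf (nat_lit 0) (nat_lit 1701811157) (nat_lit 76) (nat_lit 66831866826) (nat_lit 76) (nat_lit 65570916143) (nat_lit 3) (nat_lit 4) (nat_lit 4) (nat_lit 5) (nat_lit 4) (nat_lit 4) (nat_lit 470) (nat_lit 378) (nat_lit 352)) (XT.lf (nat_lit 0) (nat_lit 16272137353) (nat_lit 76) (nat_lit 64637746860) (nat_lit 76) (nat_lit 63362193519) (nat_lit 3) (nat_lit 4) (nat_lit 4) (nat_lit 5) (nat_lit 4) (nat_lit 4) (nat_lit 471) (nat_lit 378) (nat_lit 351)))) (XT.nd (nat_lit 78) (nat_lit 0) (nat_lit 0) (XT.lf (nat_lit 0) (nat_lit 31787199742) (nat_lit 76) (nat_lit 62381708976) (nat_lit 76) (nat_lit 61092634657) (nat_lit 3) (nat_lit 4) (nat_lit 4) (nat_lit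 5) (nat_lit 4) (nat_lit 4) (nat_lit 472) (nat_lit 378) (nat_lit 350)) (XT.nd (nat_lit 78) (nat_lit 0) (nat_lit 0) (XT.lf (nat_lit 0) (nat_lit 48338939434) (nat_lit 76) (nat_lit 60050384062) (nat_lit 76) (nat_lit 58748790317) (nat_lit 3) (nat_lit 4) (nat_lit 4) (nat_lit 5) (nat_lit 4) (nat_lit 4) (nat_lit 473) (nat_lit 378) (nat_lit 349)) (XT.lf (nat_lit 0) (nat_lit 66025440814) (nat_lit 76) (nat_lit 57629956857) (nat_lit 76) (nat_lit 56316771052) (nat_lit 3) (nat_lit 4) (nat_lit 4) (nat_lit 5) (nat_lit 4) (nat_lit 4) (nat_lit 474) (nat_lit 378) (nat_lit 348))))) (XT.nd (nat_lit 234) (nat_lit 0) (nat_lit 0) (XT.nd (nat_lit 78) (nat_lit 0) (nat_lit 0) (XT.lf (nat_lit 0) (nat_lit 84951512776) (nat_lit 76) (nat_lit 55106084091) (nat_lit 76) (nat_lit 53782164897) (nat_lit 3) (nat_lit 4) (nat_lit 4) (nat_lit 5) (nat_lit 4) (nat_lit 4) (nat_lit 475) (nat_lit 378) (nat_lit 347)) (XT.nd (nat_lit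 78) (nat_lit 0) (nat_lit 0) (XT.lf (nat_lit 0) (nat_lit 105229309823) (nat_lit 76) (nat_lit 52463809479) (nat_lit 76) (nat_lit 51129951962) (nat_lit 3) (nat_lit 4) (nat_lit 4) (nat_lit 5) (nat_lit 4) (nat_lit 4) (nat_lit 476) (nat_lit 378) (nat_lit 346)) (XT.lf (nat_lit 0) (nat_lit 126978996678) (nat_lit 76) (nat_lit 49687475099) (nat_lit 76) (nat_lit 48344415430) (nat_lit 3) (nat_lit 4) (nat_lit 4) (nat_lit 5) (nat_lit 4) (nat_lit 4) (nat_lit 477) (nat_lit 378) (nat_lit 345)))) (XT.nd (nat_lit 78) (nat_lit 0) (nat_lit 0) (XT.lf (nat_lit 0) (nat_lit 150329460373) (nat_lit 76) (nat_lit 46760628598) (nat_lit 76) (nat_lit 45409048419) (nat_lit 3) (nat_lit 4) (nat_lit 4) (nat_lit 5) (nat_lit 4) (nat_lit 4) (nat_lit 478) (nat_lit 378) (nat_lit 344)) (XT.nd (nat_lit 78) (nat_lit 0) (nat_lit 0) (XT.lf (nat_lit 0) (nat_lit 175419074027) (nat_lit 76) (nat_lit 43665925701) (nat_lit 76) (nat_lit 42306456161)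 (nat_lit 3) (nat_lit 4) (nat_lit 4) (nat_lit 5) (nat_lit 4) (nat_lit 4) (nat_lit 479) (nat_lit 378) (nat_lit 343)) (XT.lf (nat_lit 0) (nat_lit 202396516833) (nat_lit 76) (nat_lit 40385027428) (nat_lit 76) (nat_lit 39018252924) (nat_lit 3) (nat_lit 4) (nat_lit 4) (nat_lit 5) (nat_lit 4) (nat_lit 4) (nat_lit 480) (nat_lit 378) (nat_lit 342))))))))
noncomputable def xc42 : XT := (XT.nd (nat_lit 1794) (nat_lit 0) (nat_lit 0) (XT.nd (nat_lit 858) (nat_lit 0) (nat_lit 0) (XT.nd (nat_lit 390) (nat_lit 152) (nat_lit 0) (XT.nd (nat_lit 156) (nat_lit 0) (nat_lit 0) (XT.nd (nat_lit 78) (nat_lit 0) (nat_lit 0) (XT.lf (nat_lit 0) (nat_lit 231421655116) (nat_lit 76) (nat_lit 36898491418) (nat_lit 76) (nat_lit 35524953058) (nat_lit 3) (nat_lit 4) (nat_lit 4) (nat_lit 5) (nat_lit 4) (nat_lit 4) (nat_lit 481) (nat_lit 378) (nat_lit 341)) (XT.lf (nat_lit 0) (nat_lit 262666489698) (nat_lit 76) (nat_lit 33185656718)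 (nat_lit 76) (nat_lit 31805855529) (nat_lit 3) (nat_lit 4) (nat_lit 4) (nat_lit 5) (nat_lit 4) (nat_lit 4) (nat_lit 482) (nat_lit 378) (nat_lit 340))) (XT.nd (nat_lit 78) (nat_lit 0) (nat_lit 0) (XT.lf (nat_lit 0) (nat_lit 296316175154) (nat_lit 76) (nat_lit 29224521344) (nat_lit 76) (nat_lit 27838921238) (nat_lit 3) (nat_lit 4) (nat_lit 4) (nat_lit 5) (nat_lit 4) (nat_lit 4) (nat_lit 483) (nat_lit 378) (nat_lit 339)) (XT.nd (nat_lit 78) (nat_lit 0) (nat_lit 0) (XT.lf (nat_lit 0) (nat_lit 332570117026) (nat_lit 76) (nat_lit 24991611901) (nat_lit 76) (nat_lit 23600642429) (nat_lit 3) (nat_lit 4) (nat_lit 4) (nat_lit 5) (nat_lit 4) (nat_lit 4) (nat_lit 484) (nat_lit 378) (nat_lit 338)) (XT.lf (nat_lit 0) (nat_lit 371643153490) (nat_lit 76) (nat_lit 20461844482) (nat_lit 76) (nat_lit 19065903373) (nat_lit 3) (nat_lit 4) (nat_lit 4) (nat_lit 5) (nat_lit 4) (nat_lit 4) (nat_lit 485) (nat_lit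 378) (nat_lit 337))))) (XT.nd (nat_lit 234) (nat_lit 152) (nat_lit 0) (XT.nd (nat_lit 78) (nat_lit 0) (nat_lit 0) (XT.lf (nat_lit 0) (nat_lit 413766828463) (nat_lit 76) (nat_lit 15608376020) (nat_lit 76) (nat_lit 14207831545) (nat_lit 3) (nat_lit 4) (nat_lit 4) (nat_lit 5) (nat_lit 4) (nat_lit 4) (nat_lit 486) (nat_lit 378) (nat_lit 336)) (XT.nd (nat_lit 78) (nat_lit 0) (nat_lit 0) (XT.lf (nat_lit 0) (nat_lit 459190763726) (nat_lit 76) (nat_lit 10402445220) (nat_lit 76) (nat_lit 8997638369) (nat_lit 3) (nat_lit 4) (nat_lit 4) (nat_lit 5) (nat_lit 4) (nat_lit 4) (nat_lit 487) (nat_lit 378) (nat_lit 335)) (XT.lf (nat_lit 0) (nat_lit 508184138152) (nat_lit 76) (nat_lit 4813202123) (nat_lit 76) (nat_lit 3404448626) (nat_lit 3) (nat_lit 4) (nat_lit 4) (nat_lit 5) (nat_lit 4) (nat_lit 4) (nat_lit 488) (nat_lit 378) (nat_lit 334)))) (XT.nd (nat_lit 78) (nat_lit 0) (nat_lit 0) (XT.lf (nat_lit 0)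 (nat_lit 2601887436) (nat_lit 152) (nat_lit 553328739018) (nat_lit 0) (nat_lit 1294102439) (nat_lit 1) (nat_lit 5) (nat_lit 3) (nat_lit 4) (nat_lit 1) (nat_lit 4) (nat_lit 489) (nat_lit 378) (nat_lit 333)) (XT.nd (nat_lit 78) (nat_lit 0) (nat_lit 0) (XT.lf (nat_lit 0) (nat_lit 9230621903) (nat_lit 152) (nat_lit 584130038708) (nat_lit 0) (nat_lit 7919703932) (nat_lit 1) (nat_lit 5) (nat_lit 3) (nat_lit 4) (nat_lit 1) (nat_lit 4) (nat_lit 490) (nat_lit 378) (nat_lit 332)) (XT.lf (nat_lit 0) (nat_lit 16362137371) (nat_lit 152) (nat_lit 617452196832) (nat_lit 0) (nat_lit 15048318497) (nat_lit 1) (nat_lit 5) (nat_lit 3) (nat_lit 4) (nat_lit 1) (nat_lit 4) (nat_lit 491) (nat_lit 378) (nat_lit 331)))))) (XT.nd (nat_lit 468) (nat_lit 0) (nat_lit 0) (XT.nd (nat_lit 234) (nat_lit 0) (nat_lit 0) (XT.nd (nat_lit 78) (nat_lit 0) (nat_lit 0) (XT.lf (nat_lit 0) (nat_lit 24038694671) (nat_lit 152) (nat_lit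 653492678031) (nat_lit 0) (nat_lit 22722189777) (nat_lit 1) (nat_lit 5) (nat_lit 3) (nat_lit 4) (nat_lit 1) (nat_lit 4) (nat_lit 492) (nat_lit 378) (nat_lit 330)) (XT.nd (nat_lit 78) (nat_lit 0) (nat_lit 0) (XT.lf (nat_lit 0) (nat_lit 32305784514) (nat_lit 152) (nat_lit 692465055526) (nat_lit 0) (nat_lit 30986792564) (nat_lit 1) (nat_lit 5) (nat_lit 3) (nat_lit 4) (nat_lit 1) (nat_lit 4) (nat_lit 493) (nat_lit 378) (nat_lit 329)) (XT.lf (nat_lit 0) (nat_lit 41212397061) (nat_lit 152) (nat_lit 734600276739) (nat_lit 0) (nat_lit 39891102282) (nat_lit 1) (nat_lit 5) (nat_lit 3) (nat_lit 4) (nat_lit 1) (nat_lit 4) (nat_lit 494) (nat_lit 378) (nat_lit 328)))) (XT.nd (nat_lit 78) (nat_lit 0) (nat_lit 0) (XT.lf (nat_lit 0) (nat_lit 50811312239) (nat_lit 152) (nat_lit 780148031871) (nat_lit 0) (nat_lit 49487885211) (nat_lit 1) (nat_lit 5) (nat_lit 3) (nat_lit 4) (nat_lit 1) (nat_lit 4) (nat_lit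 495) (nat_lit 378) (nat_lit 327)) (XT.nd (nat_lit 78) (nat_lit 0) (nat_lit 0) (XT.lf (nat_lit 0) (nat_lit 61159412508) (nat_lit 152) (nat_lit 829378233544) (nat_lit 0) (nat_lit 59834011175) (nat_lit 1) (nat_lit 5) (nat_lit 3) (nat_lit 4) (nat_lit 1) (nat_lit 4) (nat_lit 496) (nat_lit 378) (nat_lit 326)) (XT.lf (nat_lit 0) (nat_lit 72318019944) (nat_lit 152) (nat_lit 882582616287) (nat_lit 0) (nat_lit 70990790551) (nat_lit 1) (nat_lit 5) (nat_lit 3) (nat_lit 4) (nat_lit 1) (nat_lit 4) (nat_lit 497) (nat_lit 378) (nat_lit 325))))) (XT.nd (nat_lit 234) (nat_lit 0) (nat_lit 0) (XT.nd (nat_lit 78) (nat_lit 0) (nat_lit 0) (XT.lf (nat_lit 0) (nat_lit 84353259628) (nat_lit 152) (nat_lit 940076465331) (nat_lit 0) (nat_lit 83024337587) (nat_lit 1) (nat_lit 5) (nat_lit 3) (nat_lit 4) (nat_lit 1) (nat_lit 4) (nat_lit 498) (nat_lit 378) (nat_lit 324)) (XT.nd (nat_lit 78) (nat_lit 0) (nat_lit 0) (XT.lf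 (nat_lit 0) (nat_lit 97336451499) (nat_lit 152) (nat_lit 1002200484967) (nat_lit 0) (nat_lit 96005962190) (nat_lit 1) (nat_lit 5) (nat_lit 3) (nat_lit 4) (nat_lit 1) (nat_lit 4) (nat_lit 499) (nat_lit 378) (nat_lit 323)) (XT.lf (nat_lit 0) (nat_lit 111344532990) (nat_lit 152) (nat_lit 1069322817532) (nat_lit 0) (nat_lit 110012592508) (nat_lit 1) (nat_lit 5) (nat_lit 3) (nat_lit 4) (nat_lit 1) (nat_lit 4) (nat_lit 500) (nat_lit 378) (nat_lit 322)))) (XT.nd (nat_lit 78) (nat_lit 0) (nat_lit 0) (XT.lf (nat_lit 0) (nat_lit 126460514954) (nat_lit 152) (nat_lit 1141841224998) (nat_lit 0) (nat_lit 125127230794) (nat_lit 1) (nat_lit 5) (nat_lit 3) (nat_lit 4) (nat_lit 1) (nat_lit 4) (nat_lit 501) (nat_lit 378) (nat_lit 321)) (XT.nd (nat_lit 78) (nat_lit 0) (nat_lit 0) (XT.lf (nat_lit 0) (nat_lit 142773973581) (nat_lit 152) (nat_lit 1220185446076) (nat_lit 0) (nat_lit 141439445274) (nat_lit 1) (nat_lit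 5) (nat_lit 3) (nat_lit 4) (nat_lit 1) (nat_lit 4) (nat_lit 502) (nat_lit 378) (nat_lit 320)) (XT.lf (nat_lit 0) (nat_lit 160381581219) (nat_lit 152) (nat_lit 1304819742817) (nat_lit 0) (nat_lit 159045900923) (nat_lit 1) (nat_lit 5) (nat_lit 3) (nat_lit 4) (nat_lit 1) (nat_lit 4) (nat_lit 503) (nat_lit 378) (nat_lit 319))))))) (XT.nd (nat_lit 936) (nat_lit 0) (nat_lit 0) (XT.nd (nat_lit 468) (nat_lit 0) (nat_lit 0) (XT.nd (nat_lit 234) (nat_lit 0) (nat_lit 0) (XT.nd (nat_lit 78) (nat_lit 0) (nat_lit 0) (XT.lf (nat_lit 0) (nat_lit 179387679245) (nat_lit 152) (nat_lit 1396245651793) (nat_lit 0) (nat_lit 178050932293) (nat_lit 1) (nat_lit 5) (nat_lit 3) (nat_lit 4) (nat_lit 1) (nat_lit 4) (nat_lit 504) (nat_lit 378) (nat_lit 318)) (XT.nd (nat_lit 78) (nat_lit 0) (nat_lit 0) (XT.lf (nat_lit 0) (nat_lit 199904896389) (nat_lit 152) (nat_lit 1495004956170) (nat_lit 0) (nat_lit 198567161793) (nat_lit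 1) (nat_lit 5) (nat_lit 3) (nat_lit 4) (nat_lit 1) (nat_lit 4) (nat_lit 505) (nat_lit 378) (nat_lit 317)) (XT.lf (nat_lit 0) (nat_lit 222054816160) (nat_lit 152) (nat_lit 1601682896269) (nat_lit 0) (nat_lit 220716167079) (nat_lit 1) (nat_lit 5) (nat_lit 3) (nat_lit 4) (nat_lit 1) (nat_lit 4) (nat_lit 506) (nat_lit 378) (nat_lit 316)))) (XT.nd (nat_lit 78) (nat_lit 0) (nat_lit 0) (XT.lf (nat_lit 0) (nat_lit 245968697341) (nat_lit 152) (nat_lit 1716911637661) (nat_lit 0) (nat_lit 244629201515) (nat_lit 1) (nat_lit 5) (nat_lit 3) (nat_lit 4) (nat_lit 1) (nat_lit 4) (nat_lit 507) (nat_lit 378) (nat_lit 315)) (XT.nd (nat_lit 78) (nat_lit 0) (nat_lit 0) (XT.lf (nat_lit 0) (nat_lit 271788251822) (nat_lit 152) (nat_lit 1841374017333) (nat_lit 0) (nat_lit 270447971972) (nat_lit 1) (nat_lit 5) (nat_lit 3) (nat_lit 4) (nat_lit 1) (nat_lit 4) (nat_lit 508) (nat_lit 378) (nat_lit 314)) (XT.lf (nat_lit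 0) (nat_lit 299666484369) (nat_lit 152) (nat_lit 1975807590127) (nat_lit 0) (nat_lit 298325478571) (nat_lit 1) (nat_lit 5) (nat_lit 3) (nat_lit 4) (nat_lit 1) (nat_lit 4) (nat_lit 509) (nat_lit 378) (nat_lit 313))))) (XT.nd (nat_lit 234) (nat_lit 0) (nat_lit 0) (XT.nd (nat_lit 78) (nat_lit 0) (nat_lit 0) (XT.lf (nat_lit 0) (nat_lit 329768599323) (nat_lit 152) (nat_lit 2121008999437) (nat_lit 0) (nat_lit 328426921351) (nat_lit 1) (nat_lit 5) (nat_lit 3) (nat_lit 4) (nat_lit 1) (nat_lit 4) (nat_lit 510) (nat_lit 378) (nat_lit 312)) (XT.nd (nat_lit 78) (nat_lit 0) (nat_lit 0) (XT.lf (nat_lit 0) (nat_lit 362272979589) (nat_lit 152) (nat_lit 2277838698058) (nat_lit 0) (nat_lit 360930679234) (nat_lit 1) (nat_lit 5) (nat_lit 3) (nat_lit 4) (nat_lit 1) (nat_lit 4) (nat_lit 511) (nat_lit 378) (nat_lit 311)) (XT.lf (nat_lit 0) (nat_lit 397372243715) (nat_lit 152) (nat_lit 2447226047170) (nat_lit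 0) (nat_lit 396029367079) (nat_lit 1) (nat_lit 5) (nat_lit 3) (nat_lit 4) (nat_lit 1) (nat_lit 4) (nat_lit 512) (nat_lit 378) (nat_lit 310)))) (XT.nd (nat_lit 78) (nat_lit 0) (nat_lit 0) (XT.lf (nat_lit 0) (nat_lit 435274387341) (nat_lit 152) (nat_lit 2630174823653) (nat_lit 0) (nat_lit 433930977112) (nat_lit 1) (nat_lit 5) (nat_lit 3) (nat_lit 4) (nat_lit 1) (nat_lit 4) (nat_lit 513) (nat_lit 378) (nat_lit 309)) (XT.nd (nat_lit 78) (nat_lit 0) (nat_lit 0) (XT.lf (nat_lit 0) (nat_lit 476204015762) (nat_lit 152) (nat_lit 2827769168408) (nat_lit 0) (nat_lit 474860111465) (nat_lit 1) (nat_lit 5) (nat_lit 3) (nat_lit 4) (nat_lit 1) (nat_lit 4) (nat_lit 514) (nat_lit 378) (nat_lit 308)) (XT.lf (nat_lit 0) (nat_lit 520403674925) (nat_lit 152) (nat_lit 3041180010883) (nat_lit 0) (nat_lit 519059313158) (nat_lit 1) (nat_lit 5) (nat_lit 3) (nat_lit 4) (nat_lit 1) (nat_lit 4) (nat_lit 515) (nat_lit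 378) (nat_lit 307)))))) (XT.nd (nat_lit 468) (nat_lit 0) (nat_lit 0) (XT.nd (nat_lit 234) (nat_lit 0) (nat_lit 0) (XT.nd (nat_lit 78) (nat_lit 0) (nat_lit 0) (XT.lf (nat_lit 0) (nat_lit 568135288736) (nat_lit 152) (nat_lit 3271672007923) (nat_lit 0) (nat_lit 566790503385) (nat_lit 1) (nat_lit 5) (nat_lit 3) (nat_lit 4) (nat_lit 1) (nat_lit 4) (nat_lit 516) (nat_lit 378) (nat_lit 306)) (XT.nd (nat_lit 78) (nat_lit 0) (nat_lit 0) (XT.lf (nat_lit 0) (nat_lit 619681711203) (nat_lit 152) (nat_lit 3520611038029) (nat_lit 0) (nat_lit 618336533645) (nat_lit 1) (nat_lit 5) (nat_lit 3) (nat_lit 4) (nat_lit 1) (nat_lit 4) (nat_lit 517) (nat_lit 378) (nat_lit 305)) (XT.lf (nat_lit 0) (nat_lit 675348402606) (nat_lit 152) (nat_lit 3789472295454) (nat_lit 0) (nat_lit 674002861893) (nat_lit 1) (nat_lit 5) (nat_lit 3) (nat_lit 4) (nat_lit 1) (nat_lit 4) (nat_lit 518) (nat_lit 378) (nat_lit 304)))) (XT.nd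 (nat_lit 78) (nat_lit 0) (nat_lit 0) (XT.lf (nat_lit 0) (nat_lit 735465239636) (nat_lit 152) (nat_lit 4079849032094) (nat_lit 0) (nat_lit 734119362669) (nat_lit 1) (nat_lit 5) (nat_lit 3) (nat_lit 4) (nat_lit 1) (nat_lit 4) (nat_lit 519) (nat_lit 378) (nat_lit 303)) (XT.nd (nat_lit 78) (nat_lit 0) (nat_lit 0) (XT.lf (nat_lit 0) (nat_lit 800388470216) (nat_lit 152) (nat_lit 4393461998980) (nat_lit 0) (nat_lit 799042281902) (nat_lit 1) (nat_lit 5) (nat_lit 3) (nat_lit 4) (nat_lit 1) (nat_lit 4) (nat_lit 520) (nat_lit 378) (nat_lit 302)) (XT.lf (nat_lit 0) (nat_lit 870502824601) (nat_lit 152) (nat_lit 4732169643323) (nat_lit 0) (nat_lit 869156348003) (nat_lit 1) (nat_lit 5) (nat_lit 3) (nat_lit 4) (nat_lit 1) (nat_lit 4) (nat_lit 521) (nat_lit 378) (nat_lit 301))))) (XT.nd (nat_lit 234) (nat_lit 0) (nat_lit 0) (XT.nd (nat_lit 78) (nat_lit 0) (nat_lit 0) (XT.lf (nat_lit 0) (nat_lit 946223795261)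 (nat_lit 152) (nat_lit 5097979121535) (nat_lit 0) (nat_lit 944877051734) (nat_lit 1) (nat_lit 5) (nat_lit 3) (nat_lit 4) (nat_lit 1) (nat_lit 4) (nat_lit 522) (nat_lit 378) (nat_lit 300)) (XT.nd (nat_lit 78) (nat_lit 0) (nat_lit 0) (XT.lf (nat_lit 0) (nat_lit 1028000099060) (nat_lit 152) (nat_lit 5493058193486) (nat_lit 0) (nat_lit 1026653108376) (nat_lit 1) (nat_lit 5) (nat_lit 3) (nat_lit 4) (nat_lit 1) (nat_lit 4) (nat_lit 523) (nat_lit 378) (nat_lit 299)) (XT.lf (nat_lit 0) (nat_lit 1116316336317) (nat_lit 152) (nat_lit 5919748068492) (nat_lit 0) (nat_lit 1114969116784) (nat_lit 1) (nat_lit 5) (nat_lit 3) (nat_lit 4) (nat_lit 1) (nat_lit 4) (nat_lit 524) (nat_lit 378) (nat_lit 298)))) (XT.nd (nat_lit 78) (nat_lit 0) (nat_lit 0) (XT.lf (nat_lit 0) (nat_lit 1211695862511) (nat_lit 152) (nat_lit 6380577279145) (nat_lit 0) (nat_lit 1210348431081) (nat_lit 1) (nat_lit 5) (nat_lit 3) (nat_lit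 4) (nat_lit 1) (nat_lit 4) (nat_lit 525) (nat_lit 378) (nat_lit 297)) (XT.nd (nat_lit 78) (nat_lit 0) (nat_lit 0) (XT.lf (nat_lit 0) (nat_lit 1314703889650) (nat_lit 152) (nat_lit 6878276665212) (nat_lit 0) (nat_lit 1313356262018) (nat_lit 1) (nat_lit 5) (nat_lit 3) (nat_lit 4) (nat_lit 1) (nat_lit 4) (nat_lit 526) (nat_lit 378) (nat_lit 296)) (XT.lf (nat_lit 0) (nat_lit 1425950835672) (nat_lit 152) (nat_lit 7415795556389) (nat_lit 0) (nat_lit 1424603026372) (nat_lit 1) (nat_lit 5) (nat_lit 3) (nat_lit 4) (nat_lit 1) (nat_lit 4) (nat_lit 527) (nat_lit 378) (nat_lit 295))))))))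
noncomputable def xc43 : XT := (XT.nd (nat_lit 57252) (nat_lit 0) (nat_lit 152) (XT.nd (nat_lit 56316) (nat_lit 0) (nat_lit 380) (XT.nd (nat_lit 55848) (nat_lit 0) (nat_lit 912) (XT.nd (nat_lit 156) (nat_lit 0) (nat_lit 0) (XT.nd (nat_lit 78) (nat_lit 0) (nat_lit 0) (XT.lf (nat_lit 0) (nat_lit 1546095941738) (nat_lit 152) (nat_lit 7996319249807) (nat_lit 0) (nat_lit 1544747964228) (nat_lit 1) (nat_lit 5) (nat_lit 3) (nat_lit 4) (nat_lit 1) (nat_lit 4) (nat_lit 528) (nat_lit 378) (nat_lit 294)) (XT.lf (nat_lit 0) (nat_lit 1675851178849) (nat_lit 152) (nat_lit 8623287885874) (nat_lit 0) (nat_lit 1674503045588) (nat_lit 1) (nat_lit 5) (nat_lit 3) (nat_lit 4) (nat_lit 1) (nat_lit 4) (nat_lit 529) (nat_lit 378) (nat_lit 293))) (XT.nd (nat_lit 78) (nat_lit 0) (nat_lit 0) (XT.lf (nat_lit 0) (nat_lit 1815985466927) (nat_lit 152) (nat_lit 9300416834283) (nat_lit 0) (nat_lit 1814637189452) (nat_lit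 1) (nat_lit 5) (nat_lit 3) (nat_lit 4) (nat_lit 1) (nat_lit 4) (nat_lit 530) (nat_lit 378) (nat_lit 292)) (XT.nd (nat_lit 55536) (nat_lit 0) (nat_lit 1292) (XT.lf (nat_lit 0) (nat_lit 1967329231383) (nat_lit 152) (nat_lit 10031718711026) (nat_lit 0) (nat_lit 1965980820377) (nat_lit 1) (nat_lit 5) (nat_lit 3) (nat_lit 4) (nat_lit 1) (nat_lit 4) (nat_lit 531) (nat_lit 378) (nat_lit 291)) (XT.lf (nat_lit 0) (nat_lit 2833879073) (nat_lit 76) (nat_lit 4283656738) (nat_lit 76) (nat_lit 4283656738) (nat_lit 18) (nat_lit 4) (nat_lit 19) (nat_lit 5) (nat_lit 19) (nat_lit 4) (nat_lit 442) (nat_lit 379) (nat_lit 379))))) (XT.nd (nat_lit 234) (nat_lit 152) (nat_lit 0) (XT.nd (nat_lit 78) (nat_lit 228) (nat_lit 0) (XT.lf (nat_lit 0) (nat_lit 22755331967) (nat_lit 76) (nat_lit 690889194) (nat_lit 76) (nat_lit 519496593) (nat_lit 18) (nat_lit 4) (nat_lit 19) (nat_lit 5) (nat_lit 19) (nat_lit 4) (nat_lit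 443) (nat_lit 379) (nat_lit 378)) (XT.nd (nat_lit 78) (nat_lit 76) (nat_lit 0) (XT.lf (nat_lit 0) (nat_lit 7921766969) (nat_lit 152) (nat_lit 9655836074) (nat_lit 0) (nat_lit 7616128585) (nat_lit 16) (nat_lit 5) (nat_lit 18) (nat_lit 4) (nat_lit 16) (nat_lit 4) (nat_lit 444) (nat_lit 379) (nat_lit 377)) (XT.lf (nat_lit 0) (nat_lit 6643534486) (nat_lit 76) (nat_lit 10166546845) (nat_lit 76) (nat_lit 9724851489) (nat_lit 15) (nat_lit 4) (nat_lit 16) (nat_lit 5) (nat_lit 16) (nat_lit 4) (nat_lit 445) (nat_lit 379) (nat_lit 376)))) (XT.nd (nat_lit 78) (nat_lit 152) (nat_lit 0) (XT.lf (nat_lit 0) (nat_lit 23983065711) (nat_lit 76) (nat_lit 2289500095) (nat_lit 76) (nat_lit 1721826060) (nat_lit 15) (nat_lit 4) (nat_lit 16) (nat_lit 5) (nat_lit 16) (nat_lit 4) (nat_lit 446) (nat_lit 379) (nat_lit 375)) (XT.nd (nat_lit 78) (nat_lit 0) (nat_lit 0) (XT.lf (nat_lit 0) (nat_lit 6655661184) (nat_lit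 152) (nat_lit 16873170959) (nat_lit 0) (nat_lit 6022030665) (nat_lit 13) (nat_lit 5) (nat_lit 15) (nat_lit 4) (nat_lit 13) (nat_lit 4) (nat_lit 447) (nat_lit 379) (nat_lit 374)) (XT.lf (nat_lit 0) (nat_lit 15402359309) (nat_lit 152) (nat_lit 1173836685) (nat_lit 0) (nat_lit 14668722853) (nat_lit 13) (nat_lit 5) (nat_lit 15) (nat_lit 4) (nat_lit 13) (nat_lit 4) (nat_lit 448) (nat_lit 379) (nat_lit 373)))))) (XT.nd (nat_lit 468) (nat_lit 228) (nat_lit 0) (XT.nd (nat_lit 234) (nat_lit 76) (nat_lit 0) (XT.nd (nat_lit 78) (nat_lit 152) (nat_lit 0) (XT.lf (nat_lit 0) (nat_lit 15858374708) (nat_lit 76) (nat_lit 9020000075) (nat_lit 76) (nat_lit 8193765530) (nat_lit 12) (nat_lit 4) (nat_lit 13) (nat_lit 5) (nat_lit 13) (nat_lit 4) (nat_lit 449) (nat_lit 379) (nat_lit 372)) (XT.nd (nat_lit 78) (nat_lit 152) (nat_lit 0) (XT.lf (nat_lit 0) (nat_lit 33621686338) (nat_lit 76) (nat_lit 1180334806) (nat_lit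 76) (nat_lit 268361289) (nat_lit 12) (nat_lit 4) (nat_lit 13) (nat_lit 5) (nat_lit 13) (nat_lit 4) (nat_lit 450) (nat_lit 379) (nat_lit 371)) (XT.lf (nat_lit 0) (nat_lit 8105387012) (nat_lit 152) (nat_lit 21901365861) (nat_lit 0) (nat_lit 7187459740) (nat_lit 10) (nat_lit 5) (nat_lit 12) (nat_lit 4) (nat_lit 10) (nat_lit 4) (nat_lit 451) (nat_lit 379) (nat_lit 370)))) (XT.nd (nat_lit 78) (nat_lit 76) (nat_lit 0) (XT.lf (nat_lit 0) (nat_lit 16881029658) (nat_lit 152) (nat_lit 6731607937) (nat_lit 0) (nat_lit 15895040026) (nat_lit 10) (nat_lit 5) (nat_lit 12) (nat_lit 4) (nat_lit 10) (nat_lit 4) (nat_lit 452) (nat_lit 379) (nat_lit 369)) (XT.nd (nat_lit 78) (nat_lit 0) (nat_lit 0) (XT.lf (nat_lit 0) (nat_lit 9512518773) (nat_lit 76) (nat_lit 16774236956) (nat_lit 76) (nat_lit 15725226620) (nat_lit 9) (nat_lit 4) (nat_lit 10) (nat_lit 5) (nat_lit 10) (nat_lit 4) (nat_lit 453) (nat_lit 379)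 (nat_lit 368)) (XT.lf (nat_lit 0) (nat_lit 26839512875) (nat_lit 76) (nat_lit 9496596290) (nat_lit 76) (nat_lit 8389233451) (nat_lit 9) (nat_lit 4) (nat_lit 10) (nat_lit 5) (nat_lit 10) (nat_lit 4) (nat_lit 454) (nat_lit 379) (nat_lit 367))))) (XT.nd (nat_lit 234) (nat_lit 76) (nat_lit 0) (XT.nd (nat_lit 78) (nat_lit 152) (nat_lit 0) (XT.lf (nat_lit 0) (nat_lit 44997578305) (nat_lit 76) (nat_lit 1920642930) (nat_lit 76) (nat_lit 759249995) (nat_lit 9) (nat_lit 4) (nat_lit 10) (nat_lit 5) (nat_lit 10) (nat_lit 4) (nat_lit 455) (nat_lit 379) (nat_lit 366)) (XT.nd (nat_lit 78) (nat_lit 0) (nat_lit 0) (XT.lf (nat_lit 0) (nat_lit 7336609418) (nat_lit 152) (nat_lit 37281470142) (nat_lit 0) (nat_lit 6214923490) (nat_lit 7) (nat_lit 5) (nat_lit 9) (nat_lit 4) (nat_lit 7) (nat_lit 4) (nat_lit 456) (nat_lit 379) (nat_lit 365)) (XT.lf (nat_lit 0) (nat_lit 15906939529) (nat_lit 152) (nat_lit 23600675218)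 (nat_lit 0) (nat_lit 14742362769) (nat_lit 7) (nat_lit 5) (nat_lit 9) (nat_lit 4) (nat_lit 7) (nat_lit 4) (nat_lit 457) (nat_lit 379) (nat_lit 364)))) (XT.nd (nat_lit 78) (nat_lit 76) (nat_lit 0) (XT.lf (nat_lit 0) (nat_lit 24924709121) (nat_lit 152) (nat_lit 9314240345) (nat_lit 0) (nat_lit 23720418628) (nat_lit 7) (nat_lit 5) (nat_lit 9) (nat_lit 4) (nat_lit 7) (nat_lit 4) (nat_lit 458) (nat_lit 379) (nat_lit 363)) (XT.nd (nat_lit 78) (nat_lit 0) (nat_lit 0) (XT.lf (nat_lit 0) (nat_lit 5960671774) (nat_lit 76) (nat_lit 28626039355) (nat_lit 76) (nat_lit 27384976886) (nat_lit 6) (nat_lit 4) (nat_lit 7) (nat_lit 5) (nat_lit 7) (nat_lit 4) (nat_lit 459) (nat_lit 379) (nat_lit 362)) (XT.lf (nat_lit 0) (nat_lit 22546130074) (nat_lit 76) (nat_lit 22515394351) (nat_lit 76) (nat_lit 21240283758) (nat_lit 6) (nat_lit 4) (nat_lit 7) (nat_lit 5) (nat_lit 7) (nat_lit 4) (nat_lit 460) (nat_lit 379)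 (nat_lit 361))))))) (XT.nd (nat_lit 936) (nat_lit 0) (nat_lit 0) (XT.nd (nat_lit 468) (nat_lit 76) (nat_lit 0) (XT.nd (nat_lit 234) (nat_lit 152) (nat_lit 0) (XT.nd (nat_lit 78) (nat_lit 0) (nat_lit 0) (XT.lf (nat_lit 0) (nat_lit 40049947360) (nat_lit 76) (nat_lit 16125471065) (nat_lit 76) (nat_lit 14818834429) (nat_lit 6) (nat_lit 4) (nat_lit 7) (nat_lit 5) (nat_lit 7) (nat_lit 4) (nat_lit 461) (nat_lit 379) (nat_lit 360)) (XT.nd (nat_lit 78) (nat_lit 0) (nat_lit 0) (XT.lf (nat_lit 0) (nat_lit 58575849958) (nat_lit 76) (nat_lit 9418403283) (nat_lit 76) (nat_lit 8082575867) (nat_lit 6) (nat_lit 4) (nat_lit 7) (nat_lit 5) (nat_lit 7) (nat_lit 4) (nat_lit 462) (nat_lit 379) (nat_lit 359)) (XT.lf (nat_lit 0) (nat_lit 78233620994) (nat_lit 76) (nat_lit 2354445418) (nat_lit 76) (nat_lit 991589503) (nat_lit 6) (nat_lit 4) (nat_lit 7) (nat_lit 5) (nat_lit 7) (nat_lit 4) (nat_lit 463) (nat_lit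 379) (nat_lit 358)))) (XT.nd (nat_lit 78) (nat_lit 0) (nat_lit 0) (XT.lf (nat_lit 0) (nat_lit 6595448876) (nat_lit 152) (nat_lit 75583081115) (nat_lit 0) (nat_lit 5310372669) (nat_lit 4) (nat_lit 5) (nat_lit 6) (nat_lit 4) (nat_lit 4) (nat_lit 4) (nat_lit 464) (nat_lit 379) (nat_lit 357)) (XT.nd (nat_lit 78) (nat_lit 0) (nat_lit 0) (XT.lf (nat_lit 0) (nat_lit 14729089027) (nat_lit 152) (nat_lit 65717727851) (nat_lit 0) (nat_lit 13422556725) (nat_lit 4) (nat_lit 5) (nat_lit 6) (nat_lit 4) (nat_lit 4) (nat_lit 4) (nat_lit 465) (nat_lit 379) (nat_lit 356)) (XT.lf (nat_lit 0) (nat_lit 23363599155) (nat_lit 152) (nat_lit 55371470269) (nat_lit 0) (nat_lit 22037200099) (nat_lit 4) (nat_lit 5) (nat_lit 6) (nat_lit 4) (nat_lit 4) (nat_lit 4) (nat_lit 466) (nat_lit 379) (nat_lit 355))))) (XT.nd (nat_lit 234) (nat_lit 76) (nat_lit 0) (XT.nd (nat_lit 78) (nat_lit 0) (nat_lit 0) (XT.lf (nat_lit 0) (nat_lit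 32550146726) (nat_lit 152) (nat_lit 44482997214) (nat_lit 0) (nat_lit 31205352528) (nat_lit 4) (nat_lit 5) (nat_lit 6) (nat_lit 4) (nat_lit 4) (nat_lit 4) (nat_lit 467) (nat_lit 379) (nat_lit 354)) (XT.nd (nat_lit 78) (nat_lit 0) (nat_lit 0) (XT.lf (nat_lit 0) (nat_lit 42343170542) (nat_lit 152) (nat_lit 32987784401) (nat_lit 0) (nat_lit 40981343804) (nat_lit 4) (nat_lit 5) (nat_lit 6) (nat_lit 4) (nat_lit 4) (nat_lit 4) (nat_lit 468) (nat_lit 379) (nat_lit 353)) (XT.lf (nat_lit 0) (nat_lit 52800703336) (nat_lit 152) (nat_lit 20817712049) (nat_lit 0) (nat_lit 51423105728) (nat_lit 4) (nat_lit 5) (nat_lit 6) (nat_lit 4) (nat_lit 4) (nat_lit 4) (nat_lit 469) (nat_lit 379) (nat_lit 352)))) (XT.nd (nat_lit 78) (nat_lit 76) (nat_lit 0) (XT.lf (nat_lit 0) (nat_lit 63984715672) (nat_lit 152) (nat_lit 7900661212) (nat_lit 0) (nat_lit 62592515407) (nat_lit 4) (nat_lit 5) (nat_lit 6) (nat_lit 4)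 (nat_lit 4) (nat_lit 4) (nat_lit 470) (nat_lit 379) (nat_lit 351)) (XT.nd (nat_lit 78) (nat_lit 0) (nat_lit 0) (XT.lf (nat_lit 0) (nat_lit 6147433096) (nat_lit 76) (nat_lit 69961895997) (nat_lit 76) (nat_lit 68556174753) (nat_lit 3) (nat_lit 4) (nat_lit 4) (nat_lit 5) (nat_lit 4) (nat_lit 4) (nat_lit 471) (nat_lit 379) (nat_lit 350)) (XT.lf (nat_lit 0) (nat_lit 21564164866) (nat_lit 76) (nat_lit 67756433113) (nat_lit 76) (nat_lit 66338192444) (nat_lit 3) (nat_lit 4) (nat_lit 4) (nat_lit 5) (nat_lit 4) (nat_lit 4) (nat_lit 472) (nat_lit 379) (nat_lit 349)))))) (XT.nd (nat_lit 468) (nat_lit 0) (nat_lit 0) (XT.nd (nat_lit 234) (nat_lit 0) (nat_lit 0) (XT.nd (nat_lit 78) (nat_lit 0) (nat_lit 0) (XT.lf (nat_lit 0) (nat_lit 38024857688) (nat_lit 76) (nat_lit 65471936902) (nat_lit 76) (nat_lit 64042104173) (nat_lit 3) (nat_lit 4) (nat_lit 4) (nat_lit 5) (nat_lit 4) (nat_lit 4) (nat_lit 473) (nat_lit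 379) (nat_lit 348)) (XT.nd (nat_lit 78) (nat_lit 0) (nat_lit 0) (XT.lf (nat_lit 0) (nat_lit 55627056410) (nat_lit 76) (nat_lit 63094869609) (nat_lit 76) (nat_lit 61654303490) (nat_lit 3) (nat_lit 4) (nat_lit 4) (nat_lit 5) (nat_lit 4) (nat_lit 4) (nat_lit 474) (nat_lit 379) (nat_lit 347)) (XT.lf (nat_lit 0) (nat_lit 74475070358) (nat_lit 76) (nat_lit 60611144908) (nat_lit 76) (nat_lit 59160640466) (nat_lit 3) (nat_lit 4) (nat_lit 4) (nat_lit 5) (nat_lit 4) (nat_lit 4) (nat_lit 475) (nat_lit 379) (nat_lit 346)))) (XT.nd (nat_lit 78) (nat_lit 0) (nat_lit 0) (XT.lf (nat_lit 0) (nat_lit 94680591464) (nat_lit 76) (nat_lit 58006044431) (nat_lit 76) (nat_lit 56546337838) (nat_lit 3) (nat_lit 4) (nat_lit 4) (nat_lit 5) (nat_lit 4) (nat_lit 4) (nat_lit 476) (nat_lit 379) (nat_lit 345)) (XT.nd (nat_lit 78) (nat_lit 0) (nat_lit 0) (XT.lf (nat_lit 0) (nat_lit 116363356152) (nat_lit 76) (nat_lit 55264130546)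 (nat_lit 76) (nat_lit 53795903442) (nat_lit 3) (nat_lit 4) (nat_lit 4) (nat_lit 5) (nat_lit 4) (nat_lit 4) (nat_lit 477) (nat_lit 379) (nat_lit 344)) (XT.lf (nat_lit 0) (nat_lit 139651854877) (nat_lit 76) (nat_lit 52369154874) (nat_lit 76) (nat_lit 50893038409) (nat_lit 3) (nat_lit 4) (nat_lit 4) (nat_lit 5) (nat_lit 4) (nat_lit 4) (nat_lit 478) (nat_lit 379) (nat_lit 343))))) (XT.nd (nat_lit 234) (nat_lit 0) (nat_lit 0) (XT.nd (nat_lit 78) (nat_lit 0) (nat_lit 0) (XT.lf (nat_lit 0) (nat_lit 164684093560) (nat_lit 76) (nat_lit 49303962004) (nat_lit 76) (nat_lit 47820540574) (nat_lit 3) (nat_lit 4) (nat_lit 4) (nat_lit 5) (nat_lit 4) (nat_lit 4) (nat_lit 479) (nat_lit 379) (nat_lit 342)) (XT.nd (nat_lit 78) (nat_lit 0) (nat_lit 0) (XT.lf (nat_lit 0) (nat_lit 191608411391) (nat_lit 76) (nat_lit 46050387829) (nat_lit 76) (nat_lit 44560202544) (nat_lit 3) (nat_lit 4) (nat_lit 4) (nat_lit 5)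 (nat_lit 4) (nat_lit 4) (nat_lit 480) (nat_lit 379) (nat_lit 341)) (XT.lf (nat_lit 0) (nat_lit 220584359884) (nat_lit 76) (nat_lit 42589151911) (nat_lit 76) (nat_lit 41092703797) (nat_lit 3) (nat_lit 4) (nat_lit 4) (nat_lit 5) (nat_lit 4) (nat_lit 4) (nat_lit 481) (nat_lit 379) (nat_lit 340)))) (XT.nd (nat_lit 78) (nat_lit 0) (nat_lit 0) (XT.lf (nat_lit 0) (nat_lit 251783648364) (nat_lit 76) (nat_lit 38899743221) (nat_lit 76) (nat_lit 37397496191) (nat_lit 3) (nat_lit 4) (nat_lit 4) (nat_lit 5) (nat_lit 4) (nat_lit 4) (nat_lit 482) (nat_lit 379) (nat_lit 339)) (XT.nd (nat_lit 78) (nat_lit 0) (nat_lit 0) (XT.lf (nat_lit 0) (nat_lit 285391161502) (nat_lit 76) (nat_lit 34960298598) (nat_lit 76) (nat_lit 33452682201) (nat_lit 3) (nat_lit 4) (nat_lit 4) (nat_lit 5) (nat_lit 4) (nat_lit 4) (nat_lit 483) (nat_lit 379) (nat_lit 338)) (XT.lf (nat_lit 0) (nat_lit 321606054933) (nat_lit 76) (nat_lit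 30747473183) (nat_lit 76) (nat_lit 29234885150) (nat_lit 3) (nat_lit 4) (nat_lit 4) (nat_lit 5) (nat_lit 4) (nat_lit 4) (nat_lit 484) (nat_lit 379) (nat_lit 337))))))))
noncomputable def xc44 : XT := (XT.nd (nat_lit 1794) (nat_lit 0) (nat_lit 0) (XT.nd (nat_lit 858) (nat_lit 0) (nat_lit 0) (XT.nd (nat_lit 390) (nat_lit 152) (nat_lit 0) (XT.nd (nat_lit 156) (nat_lit 0) (nat_lit 0) (XT.nd (nat_lit 78) (nat_lit 0) (nat_lit 0) (XT.lf (nat_lit 0) (nat_lit 360642935431) (nat_lit 76) (nat_lit 26236302086) (nat_lit 76) (nat_lit 24719110687) (nat_lit 3) (nat_lit 4) (nat_lit 4) (nat_lit 5) (nat_lit 4) (nat_lit 4) (nat_lit 485) (nat_lit 379) (nat_lit 336)) (XT.lf (nat_lit 0) (nat_lit 402733132660) (nat_lit 76) (nat_lit 21400052441) (nat_lit 76) (nat_lit 19878598665) (nat_lit 3) (nat_lit 4) (nat_lit 4) (nat_lit 5) (nat_lit 4) (nat_lit 4) (nat_lit 486) (nat_lit 379) (nat_lit 335))) (XT.nd (nat_lit 78)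 (nat_lit 0) (nat_lit 0) (XT.lf (nat_lit 0) (nat_lit 448126070011) (nat_lit 76) (nat_lit 16210064991) (nat_lit 76) (nat_lit 14684664570) (nat_lit 3) (nat_lit 4) (nat_lit 4) (nat_lit 5) (nat_lit 4) (nat_lit 4) (nat_lit 487) (nat_lit 379) (nat_lit 334)) (XT.nd (nat_lit 78) (nat_lit 0) (nat_lit 0) (XT.lf (nat_lit 0) (nat_lit 497090742666) (nat_lit 76) (nat_lit 10635584254) (nat_lit 76) (nat_lit 9106529532) (nat_lit 3) (nat_lit 4) (nat_lit 4) (nat_lit 5) (nat_lit 4) (nat_lit 4) (nat_lit 488) (nat_lit 379) (nat_lit 333)) (XT.lf (nat_lit 0) (nat_lit 549917311651) (nat_lit 76) (nat_lit 4643576271) (nat_lit 76) (nat_lit 3111137937) (nat_lit 3) (nat_lit 4) (nat_lit 4) (nat_lit 5) (nat_lit 4) (nat_lit 4) (nat_lit 489) (nat_lit 379) (nat_lit 332))))) (XT.nd (nat_lit 234) (nat_lit 0) (nat_lit 0) (XT.nd (nat_lit 78) (nat_lit 0) (nat_lit 0) (XT.lf (nat_lit 0) (nat_lit 3346899289) (nat_lit 152) (nat_lit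 596487780483) (nat_lit 0) (nat_lit 1925074003) (nat_lit 1) (nat_lit 5) (nat_lit 3) (nat_lit 4) (nat_lit 1) (nat_lit 4) (nat_lit 490) (nat_lit 379) (nat_lit 331)) (XT.nd (nat_lit 78) (nat_lit 0) (nat_lit 0) (XT.lf (nat_lit 0) (nat_lit 10466165042) (nat_lit 152) (nat_lit 629835203234) (nat_lit 0) (nat_lit 9041653737) (nat_lit 1) (nat_lit 5) (nat_lit 3) (nat_lit 4) (nat_lit 1) (nat_lit 4) (nat_lit 491) (nat_lit 379) (nat_lit 330)) (XT.lf (nat_lit 0) (nat_lit 18131380015) (nat_lit 152) (nat_lit 665899077606) (nat_lit 0) (nat_lit 16704381654) (nat_lit 1) (nat_lit 5) (nat_lit 3) (nat_lit 4) (nat_lit 1) (nat_lit 4) (nat_lit 492) (nat_lit 379) (nat_lit 329)))) (XT.nd (nat_lit 78) (nat_lit 0) (nat_lit 0) (XT.lf (nat_lit 0) (nat_lit 26387967702) (nat_lit 152) (nat_lit 704893115446) (nat_lit 0) (nat_lit 24958666512) (nat_lit 1) (nat_lit 5) (nat_lit 3) (nat_lit 4) (nat_lit 1) (nat_lit 4) (nat_lit 493)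 (nat_lit 379) (nat_lit 328)) (XT.nd (nat_lit 78) (nat_lit 0) (nat_lit 0) (XT.lf (nat_lit 0) (nat_lit 35284856032) (nat_lit 152) (nat_lit 747048392536) (nat_lit 0) (nat_lit 33853422592) (nat_lit 1) (nat_lit 5) (nat_lit 3) (nat_lit 4) (nat_lit 1) (nat_lit 4) (nat_lit 494) (nat_lit 379) (nat_lit 327)) (XT.lf (nat_lit 0) (nat_lit 44874767304) (nat_lit 152) (nat_lit 792614717923) (nat_lit 0) (nat_lit 43441359559) (nat_lit 1) (nat_lit 5) (nat_lit 3) (nat_lit 4) (nat_lit 1) (nat_lit 4) (nat_lit 495) (nat_lit 379) (nat_lit 326)))))) (XT.nd (nat_lit 468) (nat_lit 0) (nat_lit 0) (XT.nd (nat_lit 234) (nat_lit 0) (nat_lit 0) (XT.nd (nat_lit 78) (nat_lit 0) (nat_lit 0) (XT.lf (nat_lit 0) (nat_lit 55214530624) (nat_lit 152) (nat_lit 841862114276) (nat_lit 0) (nat_lit 53779294819) (nat_lit 1) (nat_lit 5) (nat_lit 3) (nat_lit 4) (nat_lit 1) (nat_lit 4) (nat_lit 496) (nat_lit 379) (nat_lit 325)) (XT.nd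 (nat_lit 78) (nat_lit 0) (nat_lit 0) (XT.lf (nat_lit 0) (nat_lit 66365418663) (nat_lit 152) (nat_lit 895082418020) (nat_lit 0) (nat_lit 64928490209) (nat_lit 1) (nat_lit 5) (nat_lit 3) (nat_lit 4) (nat_lit 1) (nat_lit 4) (nat_lit 497) (nat_lit 379) (nat_lit 324)) (XT.lf (nat_lit 0) (nat_lit 78393510756) (nat_lit 152) (nat_lit 952591008731) (nat_lit 0) (nat_lit 76955015036) (nat_lit 1) (nat_lit 5) (nat_lit 3) (nat_lit 4) (nat_lit 1) (nat_lit 4) (nat_lit 498) (nat_lit 379) (nat_lit 323)))) (XT.nd (nat_lit 78) (nat_lit 0) (nat_lit 0) (XT.lf (nat_lit 0) (nat_lit 91370084488) (nat_lit 152) (nat_lit 1014728678059) (nat_lit 0) (nat_lit 89930137594) (nat_lit 1) (nat_lit 5) (nat_lit 3) (nat_lit 4) (nat_lit 1) (nat_lit 4) (nat_lit 499) (nat_lit 379) (nat_lit 322)) (XT.nd (nat_lit 78) (nat_lit 0) (nat_lit 0) (XT.lf (nat_lit 0) (nat_lit 105372038072) (nat_lit 152) (nat_lit 1081863649228) (nat_lit 0)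 (nat_lit 103930747500) (nat_lit 1) (nat_lit 5) (nat_lit 3) (nat_lit 4) (nat_lit 1) (nat_lit 4) (nat_lit 500) (nat_lit 379) (nat_lit 321)) (XT.lf (nat_lit 0) (nat_lit 120482346049) (nat_lit 152) (nat_lit 1154393759105) (nat_lit 0) (nat_lit 119039811329) (nat_lit 1) (nat_lit 5) (nat_lit 3) (nat_lit 4) (nat_lit 1) (nat_lit 4) (nat_lit 501) (nat_lit 379) (nat_lit 320))))) (XT.nd (nat_lit 234) (nat_lit 0) (nat_lit 0) (XT.nd (nat_lit 78) (nat_lit 0) (nat_lit 0) (XT.lf (nat_lit 0) (nat_lit 136790550984) (nat_lit 152) (nat_lit 1232748815748) (nat_lit 0) (nat_lit 135346864276) (nat_lit 1) (nat_lit 5) (nat_lit 3) (nat_lit 4) (nat_lit 1) (nat_lit 4) (nat_lit 502) (nat_lit 379) (nat_lit 319)) (XT.nd (nat_lit 78) (nat_lit 0) (nat_lit 0) (XT.lf (nat_lit 0) (nat_lit 154393294091) (nat_lit 152) (nat_lit 1317393145420) (nat_lit 0) (nat_lit 152948540728) (nat_lit 1) (nat_lit 5) (nat_lit 3) (nat_lit 4) (nat_lit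 1) (nat_lit 4) (nat_lit 503) (nat_lit 379) (nat_lit 318)) (XT.lf (nat_lit 0) (nat_lit 173394887923) (nat_lit 152) (nat_lit 1408828344147) (nat_lit 0) (nat_lit 171949146916) (nat_lit 1) (nat_lit 5) (nat_lit 3) (nat_lit 4) (nat_lit 1) (nat_lit 4) (nat_lit 504) (nat_lit 379) (nat_lit 317)))) (XT.nd (nat_lit 78) (nat_lit 0) (nat_lit 0) (XT.lf (nat_lit 0) (nat_lit 193907934516) (nat_lit 152) (nat_lit 1507596250145) (nat_lit 0) (nat_lit 192461279024) (nat_lit 1) (nat_lit 5) (nat_lit 3) (nat_lit 4) (nat_lit 1) (nat_lit 4) (nat_lit 505) (nat_lit 379) (nat_lit 316)) (XT.nd (nat_lit 78) (nat_lit 0) (nat_lit 0) (XT.lf (nat_lit 0) (nat_lit 216053992666) (nat_lit 152) (nat_lit 1614282154708) (nat_lit 0) (nat_lit 214606490429) (nat_lit 1) (nat_lit 5) (nat_lit 3) (nat_lit 4) (nat_lit 1) (nat_lit 4) (nat_lit 506) (nat_lit 379) (nat_lit 315)) (XT.lf (nat_lit 0) (nat_lit 239964298273) (nat_lit 152) (nat_lit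 1729518270605) (nat_lit 0) (nat_lit 238516012012) (nat_lit 1) (nat_lit 5) (nat_lit 3) (nat_lit 4) (nat_lit 1) (nat_lit 4) (nat_lit 507) (nat_lit 379) (nat_lit 314))))))) (XT.nd (nat_lit 858) (nat_lit 0) (nat_lit 0) (XT.nd (nat_lit 390) (nat_lit 0) (nat_lit 0) (XT.nd (nat_lit 156) (nat_lit 0) (nat_lit 0) (XT.nd (nat_lit 78) (nat_lit 0) (nat_lit 0) (XT.lf (nat_lit 0) (nat_lit 265780542037) (nat_lit 152) (nat_lit 1853987478521) (nat_lit 0) (nat_lit 264331529827) (nat_lit 1) (nat_lit 5) (nat_lit 3) (nat_lit 4) (nat_lit 1) (nat_lit 4) (nat_lit 508) (nat_lit 379) (nat_lit 313)) (XT.lf (nat_lit 0) (nat_lit 293655709105) (nat_lit 152) (nat_lit 1988427373763) (nat_lit 0) (nat_lit 292206024721) (nat_lit 1) (nat_lit 5) (nat_lit 3) (nat_lit 4) (nat_lit 1) (nat_lit 4) (nat_lit 509) (nat_lit 379) (nat_lit 312))) (XT.nd (nat_lit 78) (nat_lit 0) (nat_lit 0) (XT.lf (nat_lit 0) (nat_lit 323754985653) (nat_lit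 152) (nat_lit 2133634637191) (nat_lit 0) (nat_lit 322304678886) (nat_lit 1) (nat_lit 5) (nat_lit 3) (nat_lit 4) (nat_lit 1) (nat_lit 4) (nat_lit 510) (nat_lit 379) (nat_lit 311)) (XT.nd (nat_lit 78) (nat_lit 0) (nat_lit 0) (XT.lf (nat_lit 0) (nat_lit 356256737764) (nat_lit 152) (nat_lit 2290469756294) (nat_lit 0) (nat_lit 354805854717) (nat_lit 1) (nat_lit 5) (nat_lit 3) (nat_lit 4) (nat_lit 1) (nat_lit 4) (nat_lit 511) (nat_lit 379) (nat_lit 310)) (XT.lf (nat_lit 0) (nat_lit 391353568414) (nat_lit 152) (nat_lit 2459862124368) (nat_lit 0) (nat_lit 389902151773) (nat_lit 1) (nat_lit 5) (nat_lit 3) (nat_lit 4) (nat_lit 1) (nat_lit 4) (nat_lit 512) (nat_lit 379) (nat_lit 309))))) (XT.nd (nat_lit 234) (nat_lit 0) (nat_lit 0) (XT.nd (nat_lit 78) (nat_lit 0) (nat_lit 0) (XT.lf (nat_lit 0) (nat_lit 429253458822) (nat_lit 152) (nat_lit 2642815548041) (nat_lit 0) (nat_lit 427801548113) (nat_lit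 1) (nat_lit 5) (nat_lit 3) (nat_lit 4) (nat_lit 1) (nat_lit 4) (nat_lit 513) (nat_lit 379) (nat_lit 308)) (XT.nd (nat_lit 78) (nat_lit 0) (nat_lit 0) (XT.lf (nat_lit 0) (nat_lit 470181000930) (nat_lit 152) (nat_lit 2840414195747) (nat_lit 0) (nat_lit 468728632750) (nat_lit 1) (nat_lit 5) (nat_lit 3) (nat_lit 4) (nat_lit 1) (nat_lit 4) (nat_lit 514) (nat_lit 379) (nat_lit 307)) (XT.lf (nat_lit 0) (nat_lit 514378728321) (nat_lit 152) (nat_lit 3053829022437) (nat_lit 0) (nat_lit 512925936558) (nat_lit 1) (nat_lit 5) (nat_lit 3) (nat_lit 4) (nat_lit 1) (nat_lit 4) (nat_lit 515) (nat_lit 379) (nat_lit 306)))) (XT.nd (nat_lit 78) (nat_lit 0) (nat_lit 0) (XT.lf (nat_lit 0) (nat_lit 562108553454) (nat_lit 152) (nat_lit 3284324708565) (nat_lit 0) (nat_lit 560655369484) (nat_lit 1) (nat_lit 5) (nat_lit 3) (nat_lit 4) (nat_lit 1) (nat_lit 4) (nat_lit 516) (nat_lit 379) (nat_lit 305)) (XT.nd (nat_lit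 78) (nat_lit 0) (nat_lit 0) (XT.lf (nat_lit 0) (nat_lit 613653319738) (nat_lit 152) (nat_lit 3533267154494) (nat_lit 0) (nat_lit 612199772613) (nat_lit 1) (nat_lit 5) (nat_lit 3) (nat_lit 4) (nat_lit 1) (nat_lit 4) (nat_lit 517) (nat_lit 379) (nat_lit 304)) (XT.lf (nat_lit 0) (nat_lit 669318477638) (nat_lit 152) (nat_lit 3802131574717) (nat_lit 0) (nat_lit 667864594260) (nat_lit 1) (nat_lit 5) (nat_lit 3) (nat_lit 4) (nat_lit 1) (nat_lit 4) (nat_lit 518) (nat_lit 379) (nat_lit 303)))))) (XT.nd (nat_lit 468) (nat_lit 0) (nat_lit 0) (XT.nd (nat_lit 234) (nat_lit 0) (nat_lit 0) (XT.nd (nat_lit 78) (nat_lit 0) (nat_lit 0) (XT.lf (nat_lit 0) (nat_lit 729433894759) (nat_lit 152) (nat_lit 4092511239873) (nat_lit 0) (nat_lit 727979700033) (nat_lit 1) (nat_lit 5) (nat_lit 3) (nat_lit 4) (nat_lit 1) (nat_lit 4) (nat_lit 519) (nat_lit 379) (nat_lit 302)) (XT.nd (nat_lit 78) (nat_lit 0) (nat_lit 0)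 (XT.lf (nat_lit 0) (nat_lit 794355810607) (nat_lit 152) (nat_lit 4406126918349) (nat_lit 0) (nat_lit 792901327598) (nat_lit 1) (nat_lit 5) (nat_lit 3) (nat_lit 4) (nat_lit 1) (nat_lit 4) (nat_lit 520) (nat_lit 379) (nat_lit 301)) (XT.lf (nat_lit 0) (nat_lit 864468947648) (nat_lit 152) (nat_lit 4744837073424) (nat_lit 0) (nat_lit 863014197709) (nat_lit 1) (nat_lit 5) (nat_lit 3) (nat_lit 4) (nat_lit 1) (nat_lit 4) (nat_lit 521) (nat_lit 379) (nat_lit 300)))) (XT.nd (nat_lit 78) (nat_lit 0) (nat_lit 0) (XT.lf (nat_lit 0) (nat_lit 940188791138) (nat_lit 152) (nat_lit 5110648876387) (nat_lit 0) (nat_lit 938733794042) (nat_lit 1) (nat_lit 5) (nat_lit 3) (nat_lit 4) (nat_lit 1) (nat_lit 4) (nat_lit 522) (nat_lit 379) (nat_lit 299)) (XT.nd (nat_lit 78) (nat_lit 0) (nat_lit 0) (XT.lf (nat_lit 0) (nat_lit 1021964051261) (nat_lit 152) (nat_lit 5505730100885) (nat_lit 0) (nat_lit 1020508825316) (nat_lit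 1) (nat_lit 5) (nat_lit 3) (nat_lit 4) (nat_lit 1) (nat_lit 4) (nat_lit 523) (nat_lit 379) (nat_lit 298)) (XT.lf (nat_lit 0) (nat_lit 1110279322151) (nat_lit 152) (nat_lit 5932421968990) (nat_lit 0) (nat_lit 1108823884309) (nat_lit 1) (nat_lit 5) (nat_lit 3) (nat_lit 4) (nat_lit 1) (nat_lit 4) (nat_lit 524) (nat_lit 379) (nat_lit 297))))) (XT.nd (nat_lit 234) (nat_lit 0) (nat_lit 0) (XT.nd (nat_lit 78) (nat_lit 0) (nat_lit 0) (XT.lf (nat_lit 0) (nat_lit 1205657953561) (nat_lit 152) (nat_lit 6393253025106) (nat_lit 0) (nat_lit 1204202319518) (nat_lit 1) (nat_lit 5) (nat_lit 3) (nat_lit 4) (nat_lit 1) (nat_lit 4) (nat_lit 525) (nat_lit 379) (nat_lit 296)) (XT.nd (nat_lit 78) (nat_lit 0) (nat_lit 0) (XT.lf (nat_lit 0) (nat_lit 1308665152196) (nat_lit 152) (nat_lit 6890954119935) (nat_lit 0) (nat_lit 1307209336485) (nat_lit 1) (nat_lit 5) (nat_lit 3) (nat_lit 4) (nat_lit 1) (nat_lit 4) (nat_lit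 526) (nat_lit 379) (nat_lit 295)) (XT.lf (nat_lit 0) (nat_lit 1419911331085) (nat_lit 152) (nat_lit 7428474593298) (nat_lit 0) (nat_lit 1418455347163) (nat_lit 1) (nat_lit 5) (nat_lit 3) (nat_lit 4) (nat_lit 1) (nat_lit 4) (nat_lit 527) (nat_lit 379) (nat_lit 294)))) (XT.nd (nat_lit 78) (nat_lit 0) (nat_lit 0) (XT.lf (nat_lit 0) (nat_lit 1540055726843) (nat_lit 152) (nat_lit 8008999751704) (nat_lit 0) (nat_lit 1538599587170) (nat_lit 1) (nat_lit 5) (nat_lit 3) (nat_lit 4) (nat_lit 1) (nat_lit 4) (nat_lit 528) (nat_lit 379) (nat_lit 293)) (XT.nd (nat_lit 78) (nat_lit 0) (nat_lit 0) (XT.lf (nat_lit 0) (nat_lit 1669810306260) (nat_lit 152) (nat_lit 8635969744240) (nat_lit 0) (nat_lit 1668354022374) (nat_lit 1) (nat_lit 5) (nat_lit 3) (nat_lit 4) (nat_lit 1) (nat_lit 4) (nat_lit 529) (nat_lit 379) (nat_lit 292)) (XT.lf (nat_lit 0) (nat_lit 1809943985363) (nat_lit 152) (nat_lit 9313099948640)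 (nat_lit 0) (nat_lit 1808487567946) (nat_lit 1) (nat_lit 5) (nat_lit 3) (nat_lit 4) (nat_lit 1) (nat_lit 4) (nat_lit 530) (nat_lit 379) (nat_lit 291))))))))
noncomputable def xc45 : XT := (XT.nd (nat_lit 57096) (nat_lit 0) (nat_lit 152) (XT.nd (nat_lit 56160) (nat_lit 0) (nat_lit 380) (XT.nd (nat_lit 55692) (nat_lit 0) (nat_lit 836) (XT.nd (nat_lit 55458) (nat_lit 0) (nat_lit 1292) (XT.nd (nat_lit 55380) (nat_lit 0) (nat_lit 1520) (XT.lf (nat_lit 0) (nat_lit 1961287185954) (nat_lit 152) (nat_lit 10044402988337) (nat_lit 0) (nat_lit 1959830644896) (nat_lit 1) (nat_lit 5) (nat_lit 3) (nat_lit 4) (nat_lit 1) (nat_lit 4) (nat_lit 531) (nat_lit 379) (nat_lit 290)) (XT.lf (nat_lit 0) (nat_lit 8081826100) (nat_lit 76) (nat_lit 1143287651) (nat_lit 76) (nat_lit 1143287651) (nat_lit 21) (nat_lit 4) (nat_lit 22) (nat_lit 5) (nat_lit 22) (nat_lit 4) (nat_lit 440) (nat_lit 380) (nat_lit 380))) (XT.nd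 (nat_lit 78) (nat_lit 76) (nat_lit 0) (XT.lf (nat_lit 0) (nat_lit 5752431167) (nat_lit 152) (nat_lit 10416591887) (nat_lit 0) (nat_lit 5567327157) (nat_lit 19) (nat_lit 5) (nat_lit 21) (nat_lit 4) (nat_lit 19) (nat_lit 4) (nat_lit 441) (nat_lit 380) (nat_lit 379)) (XT.nd (nat_lit 78) (nat_lit 0) (nat_lit 0) (XT.lf (nat_lit 0) (nat_lit 5246640345) (nat_lit 76) (nat_lit 8964485977) (nat_lit 76) (nat_lit 8607989366) (nat_lit 18) (nat_lit 4) (nat_lit 19) (nat_lit 5) (nat_lit 19) (nat_lit 4) (nat_lit 442) (nat_lit 380) (nat_lit 378)) (XT.lf (nat_lit 0) (nat_lit 21944290275) (nat_lit 76) (nat_lit 1284421407) (nat_lit 76) (nat_lit 769227943) (nat_lit 18) (nat_lit 4) (nat_lit 19) (nat_lit 5) (nat_lit 19) (nat_lit 4) (nat_lit 443) (nat_lit 380) (nat_lit 377))))) (XT.nd (nat_lit 234) (nat_lit 228) (nat_lit 0) (XT.nd (nat_lit 78) (nat_lit 76) (nat_lit 0) (XT.lf (nat_lit 0) (nat_lit 7450341167) (nat_lit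 152) (nat_lit 10957579838) (nat_lit 0) (nat_lit 6837253209) (nat_lit 16) (nat_lit 5) (nat_lit 18) (nat_lit 4) (nat_lit 16) (nat_lit 4) (nat_lit 444) (nat_lit 380) (nat_lit 376)) (XT.nd (nat_lit 78) (nat_lit 0) (nat_lit 0) (XT.lf (nat_lit 0) (nat_lit 4882413907) (nat_lit 76) (nat_lit 11230544399) (nat_lit 76) (nat_lit 10491477762) (nat_lit 15) (nat_lit 4) (nat_lit 16) (nat_lit 5) (nat_lit 16) (nat_lit 4) (nat_lit 445) (nat_lit 380) (nat_lit 375)) (XT.lf (nat_lit 0) (nat_lit 21860066154) (nat_lit 76) (nat_lit 3536912101) (nat_lit 76) (nat_lit 2681198540) (nat_lit 15) (nat_lit 4) (nat_lit 16) (nat_lit 5) (nat_lit 16) (nat_lit 4) (nat_lit 446) (nat_lit 380) (nat_lit 374)))) (XT.nd (nat_lit 78) (nat_lit 76) (nat_lit 0) (XT.lf (nat_lit 0) (nat_lit 5474289007) (nat_lit 152) (nat_lit 19601852052) (nat_lit 0) (nat_lit 4581955699) (nat_lit 13) (nat_lit 5) (nat_lit 15) (nat_lit 4) (nat_lit 13) (nat_lit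 4) (nat_lit 447) (nat_lit 380) (nat_lit 373)) (XT.nd (nat_lit 78) (nat_lit 76) (nat_lit 0) (XT.lf (nat_lit 0) (nat_lit 14051846366) (nat_lit 152) (nat_lit 4246926313) (nat_lit 0) (nat_lit 13066914968) (nat_lit 13) (nat_lit 5) (nat_lit 15) (nat_lit 4) (nat_lit 13) (nat_lit 4) (nat_lit 448) (nat_lit 380) (nat_lit 372)) (XT.lf (nat_lit 0) (nat_lit 12287772296) (nat_lit 76) (nat_lit 10997604650) (nat_lit 76) (nat_lit 9926934280) (nat_lit 12) (nat_lit 4) (nat_lit 13) (nat_lit 5) (nat_lit 13) (nat_lit 4) (nat_lit 449) (nat_lit 380) (nat_lit 371)))))) (XT.nd (nat_lit 468) (nat_lit 228) (nat_lit 0) (XT.nd (nat_lit 234) (nat_lit 76) (nat_lit 0) (XT.nd (nat_lit 78) (nat_lit 152) (nat_lit 0) (XT.lf (nat_lit 0) (nat_lit 29740260471) (nat_lit 76) (nat_lit 3316276579) (nat_lit 76) (nat_lit 2166218273) (nat_lit 12) (nat_lit 4) (nat_lit 13) (nat_lit 5) (nat_lit 13) (nat_lit 4) (nat_lit 450) (nat_lit 380)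 (nat_lit 370)) (XT.nd (nat_lit 78) (nat_lit 0) (nat_lit 0) (XT.lf (nat_lit 0) (nat_lit 5990169387) (nat_lit 152) (nat_lit 26527815940) (nat_lit 0) (nat_lit 4857238224) (nat_lit 10) (nat_lit 5) (nat_lit 12) (nat_lit 4) (nat_lit 10) (nat_lit 4) (nat_lit 451) (nat_lit 380) (nat_lit 369)) (XT.lf (nat_lit 0) (nat_lit 14621223432) (nat_lit 152) (nat_lit 11653763094) (nat_lit 0) (nat_lit 13425271565) (nat_lit 10) (nat_lit 5) (nat_lit 12) (nat_lit 4) (nat_lit 10) (nat_lit 4) (nat_lit 452) (nat_lit 380) (nat_lit 368)))) (XT.nd (nat_lit 78) (nat_lit 0) (nat_lit 0) (XT.lf (nat_lit 0) (nat_lit 4042952776) (nat_lit 76) (nat_lit 19718575198) (nat_lit 76) (nat_lit 18464270828) (nat_lit 9) (nat_lit 4) (nat_lit 10) (nat_lit 5) (nat_lit 10) (nat_lit 4) (nat_lit 453) (nat_lit 380) (nat_lit 367)) (XT.nd (nat_lit 78) (nat_lit 0) (nat_lit 0) (XT.lf (nat_lit 0) (nat_lit 21103077551) (nat_lit 76) (nat_lit 12577424224)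 (nat_lit 76) (nat_lit 11269089758) (nat_lit 9) (nat_lit 4) (nat_lit 10) (nat_lit 5) (nat_lit 10) (nat_lit 4) (nat_lit 454) (nat_lit 380) (nat_lit 366)) (XT.lf (nat_lit 0) (nat_lit 39014041753) (nat_lit 76) (nat_lit 5127850208) (nat_lit 76) (nat_lit 3769487875) (nat_lit 9) (nat_lit 4) (nat_lit 10) (nat_lit 5) (nat_lit 10) (nat_lit 4) (nat_lit 455) (nat_lit 380) (nat_lit 365))))) (XT.nd (nat_lit 234) (nat_lit 76) (nat_lit 0) (XT.nd (nat_lit 78) (nat_lit 0) (nat_lit 0) (XT.lf (nat_lit 0) (nat_lit 4114656352) (nat_lit 152) (nat_lit 44173010007) (nat_lit 0) (nat_lit 2814022619) (nat_lit 7) (nat_lit 5) (nat_lit 9) (nat_lit 4) (nat_lit 7) (nat_lit 4) (nat_lit 456) (nat_lit 380) (nat_lit 364)) (XT.nd (nat_lit 78) (nat_lit 0) (nat_lit 0) (XT.lf (nat_lit 0) (nat_lit 12570473517) (nat_lit 152) (nat_lit 30727226451) (nat_lit 0) (nat_lit 11230126051) (nat_lit 7) (nat_lit 5) (nat_lit 9) (nat_lit 4) (nat_lit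 7) (nat_lit 4) (nat_lit 457) (nat_lit 380) (nat_lit 363)) (XT.lf (nat_lit 0) (nat_lit 21482212604) (nat_lit 152) (nat_lit 16658394696) (nat_lit 0) (nat_lit 20105093163) (nat_lit 7) (nat_lit 5) (nat_lit 9) (nat_lit 4) (nat_lit 7) (nat_lit 4) (nat_lit 458) (nat_lit 380) (nat_lit 362)))) (XT.nd (nat_lit 78) (nat_lit 76) (nat_lit 0) (XT.lf (nat_lit 0) (nat_lit 30902683919) (nat_lit 152) (nat_lit 1883143888) (nat_lit 0) (nat_lit 29491516352) (nat_lit 7) (nat_lit 5) (nat_lit 9) (nat_lit 4) (nat_lit 7) (nat_lit 4) (nat_lit 459) (nat_lit 380) (nat_lit 361)) (XT.nd (nat_lit 78) (nat_lit 0) (nat_lit 0) (XT.lf (nat_lit 0) (nat_lit 14406767892) (nat_lit 76) (nat_lit 26827427697) (nat_lit 76) (nat_lit 25384734089) (nat_lit 6) (nat_lit 4) (nat_lit 7) (nat_lit 5) (nat_lit 7) (nat_lit 4) (nat_lit 460) (nat_lit 380) (nat_lit 360)) (XT.lf (nat_lit 0) (nat_lit 31728748606) (nat_lit 76) (nat_lit 20530797376)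 (nat_lit 76) (nat_lit 19058912987) (nat_lit 6) (nat_lit 4) (nat_lit 7) (nat_lit 5) (nat_lit 7) (nat_lit 4) (nat_lit 461) (nat_lit 380) (nat_lit 359))))))) (XT.nd (nat_lit 936) (nat_lit 0) (nat_lit 0) (XT.nd (nat_lit 468) (nat_lit 76) (nat_lit 0) (XT.nd (nat_lit 234) (nat_lit 0) (nat_lit 0) (XT.nd (nat_lit 78) (nat_lit 152) (nat_lit 0) (XT.lf (nat_lit 0) (nat_lit 50086284006) (nat_lit 76) (nat_lit 13910111969) (nat_lit 76) (nat_lit 12411199081) (nat_lit 6) (nat_lit 4) (nat_lit 7) (nat_lit 5) (nat_lit 7) (nat_lit 4) (nat_lit 462) (nat_lit 380) (nat_lit 358)) (XT.nd (nat_lit 78) (nat_lit 152) (nat_lit 0) (XT.lf (nat_lit 0) (nat_lit 69588159489) (nat_lit 76) (nat_lit 6926137785) (nat_lit 76) (nat_lit 5402198508) (nat_lit 6) (nat_lit 4) (nat_lit 7) (nat_lit 5) (nat_lit 7) (nat_lit 4) (nat_lit 463) (nat_lit 380) (nat_lit 357)) (XT.lf (nat_lit 0) (nat_lit 1984428760) (nat_lit 152) (nat_lit 85331566650)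 (nat_lit 0) (nat_lit 551917780) (nat_lit 4) (nat_lit 5) (nat_lit 6) (nat_lit 4) (nat_lit 4) (nat_lit 4) (nat_lit 464) (nat_lit 380) (nat_lit 356)))) (XT.nd (nat_lit 78) (nat_lit 0) (nat_lit 0) (XT.lf (nat_lit 0) (nat_lit 10046039471) (nat_lit 152) (nat_lit 75614446051) (nat_lit 0) (nat_lit 8593661737) (nat_lit 4) (nat_lit 5) (nat_lit 6) (nat_lit 4) (nat_lit 4) (nat_lit 4) (nat_lit 465) (nat_lit 380) (nat_lit 355)) (XT.nd (nat_lit 78) (nat_lit 0) (nat_lit 0) (XT.lf (nat_lit 0) (nat_lit 18613855673) (nat_lit 152) (nat_lit 65405440937) (nat_lit 0) (nat_lit 17143082796) (nat_lit 4) (nat_lit 5) (nat_lit 6) (nat_lit 4) (nat_lit 4) (nat_lit 4) (nat_lit 466) (nat_lit 380) (nat_lit 354)) (XT.lf (nat_lit 0) (nat_lit 27738649609) (nat_lit 152) (nat_lit 54644053500) (nat_lit 0) (nat_lit 26250844192) (nat_lit 4) (nat_lit 5) (nat_lit 6) (nat_lit 4) (nat_lit 4) (nat_lit 4) (nat_lit 467) (nat_lit 380)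 (nat_lit 353))))) (XT.nd (nat_lit 234) (nat_lit 76) (nat_lit 0) (XT.nd (nat_lit 78) (nat_lit 0) (nat_lit 0) (XT.lf (nat_lit 0) (nat_lit 37474494133) (nat_lit 152) (nat_lit 43266512555) (nat_lit 0) (nat_lit 35970917846) (nat_lit 4) (nat_lit 5) (nat_lit 6) (nat_lit 4) (nat_lit 4) (nat_lit 4) (nat_lit 468) (nat_lit 380) (nat_lit 352)) (XT.nd (nat_lit 78) (nat_lit 0) (nat_lit 0) (XT.lf (nat_lit 0) (nat_lit 47879083138) (nat_lit 152) (nat_lit 31205395638) (nat_lit 0) (nat_lit 46360904194) (nat_lit 4) (nat_lit 5) (nat_lit 6) (nat_lit 4) (nat_lit 4) (nat_lit 4) (nat_lit 469) (nat_lit 380) (nat_lit 351)) (XT.lf (nat_lit 0) (nat_lit 59014073447) (nat_lit 152) (nat_lit 18389229462) (nat_lit 0) (nat_lit 57482373524) (nat_lit 4) (nat_lit 5) (nat_lit 6) (nat_lit 4) (nat_lit 4) (nat_lit 4) (nat_lit 470) (nat_lit 380) (nat_lit 350)))) (XT.nd (nat_lit 78) (nat_lit 76) (nat_lit 0) (XT.lf (nat_lit 0) (nat_lit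 70945450189) (nat_lit 152) (nat_lit 4742066377) (nat_lit 0) (nat_lit 69401230841) (nat_lit 4) (nat_lit 5) (nat_lit 6) (nat_lit 4) (nat_lit 4) (nat_lit 4) (nat_lit 471) (nat_lit 380) (nat_lit 349)) (XT.nd (nat_lit 78) (nat_lit 0) (nat_lit 0) (XT.lf (nat_lit 0) (nat_lit 10333909710) (nat_lit 76) (nat_lit 73658538885) (nat_lit 76) (nat_lit 72102727477) (nat_lit 3) (nat_lit 4) (nat_lit 4) (nat_lit 5) (nat_lit 4) (nat_lit 4) (nat_lit 472) (nat_lit 380) (nat_lit 348)) (XT.lf (nat_lit 0) (nat_lit 26710299876) (nat_lit 76) (nat_lit 71417402585) (nat_lit 76) (nat_lit 69850857787) (nat_lit 3) (nat_lit 4) (nat_lit 4) (nat_lit 5) (nat_lit 4) (nat_lit 4) (nat_lit 473) (nat_lit 380) (nat_lit 347)))))) (XT.nd (nat_lit 468) (nat_lit 0) (nat_lit 0) (XT.nd (nat_lit 234) (nat_lit 0) (nat_lit 0) (XT.nd (nat_lit 78) (nat_lit 0) (nat_lit 0) (XT.lf (nat_lit 0) (nat_lit 44234440582) (nat_lit 76) (nat_lit 69080483357)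 (nat_lit 76) (nat_lit 67504000236) (nat_lit 3) (nat_lit 4) (nat_lit 4) (nat_lit 5) (nat_lit 4) (nat_lit 4) (nat_lit 474) (nat_lit 380) (nat_lit 346)) (XT.nd (nat_lit 78) (nat_lit 0) (nat_lit 0) (XT.lf (nat_lit 0) (nat_lit 63010178589) (nat_lit 76) (nat_lit 66633932790) (nat_lit 76) (nat_lit 65048247519) (nat_lit 3) (nat_lit 4) (nat_lit 4) (nat_lit 5) (nat_lit 4) (nat_lit 4) (nat_lit 475) (nat_lit 380) (nat_lit 345)) (XT.lf (nat_lit 0) (nat_lit 83148777528) (nat_lit 76) (nat_lit 64063252809) (nat_lit 76) (nat_lit 62469047027) (nat_lit 3) (nat_lit 4) (nat_lit 4) (nat_lit 5) (nat_lit 4) (nat_lit 4) (nat_lit 476) (nat_lit 380) (nat_lit 344)))) (XT.nd (nat_lit 78) (nat_lit 0) (nat_lit 0) (XT.lf (nat_lit 0) (nat_lit 104769577246) (nat_lit 76) (nat_lit 61353209752) (nat_lit 76) (nat_lit 59751114609) (nat_lit 3) (nat_lit 4) (nat_lit 4) (nat_lit 5) (nat_lit 4) (nat_lit 4) (nat_lit 477) (nat_lit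 380) (nat_lit 343)) (XT.nd (nat_lit 78) (nat_lit 0) (nat_lit 0) (XT.lf (nat_lit 0) (nat_lit 128000701000) (nat_lit 76) (nat_lit 58487744107) (nat_lit 76) (nat_lit 56878343999) (nat_lit 3) (nat_lit 4) (nat_lit 4) (nat_lit 5) (nat_lit 4) (nat_lit 4) (nat_lit 478) (nat_lit 380) (nat_lit 342)) (XT.lf (nat_lit 0) (nat_lit 152979814709) (nat_lit 76) (nat_lit 55449875336) (nat_lit 76) (nat_lit 53833711372) (nat_lit 3) (nat_lit 4) (nat_lit 4) (nat_lit 5) (nat_lit 4) (nat_lit 4) (nat_lit 479) (nat_lit 380) (nat_lit 341))))) (XT.nd (nat_lit 234) (nat_lit 0) (nat_lit 0) (XT.nd (nat_lit 78) (nat_lit 0) (nat_lit 0) (XT.lf (nat_lit 0) (nat_lit 179854942749) (nat_lit 76) (nat_lit 52221601253) (nat_lit 76) (nat_lit 50599174460) (nat_lit 3) (nat_lit 4) (nat_lit 4) (nat_lit 5) (nat_lit 4) (nat_lit 4) (nat_lit 480) (nat_lit 380) (nat_lit 340)) (XT.nd (nat_lit 78) (nat_lit 0) (nat_lit 0) (XT.lf (nat_lit 0)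 (nat_lit 208785345140) (nat_lit 76) (nat_lit 48783791345) (nat_lit 76) (nat_lit 47155565636) (nat_lit 3) (nat_lit 4) (nat_lit 4) (nat_lit 5) (nat_lit 4) (nat_lit 4) (nat_lit 481) (nat_lit 380) (nat_lit 339)) (XT.lf (nat_lit 0) (nat_lit 239942461302) (nat_lit 76) (nat_lit 45116073406) (nat_lit 76) (nat_lit 43482478330) (nat_lit 3) (nat_lit 4) (nat_lit 4) (nat_lit 5) (nat_lit 4) (nat_lit 4) (nat_lit 482) (nat_lit 380) (nat_lit 338)))) (XT.nd (nat_lit 78) (nat_lit 0) (nat_lit 0) (XT.lf (nat_lit 0) (nat_lit 273510925999) (nat_lit 76) (nat_lit 41196712811) (nat_lit 76) (nat_lit 39558146099) (nat_lit 3) (nat_lit 4) (nat_lit 4) (nat_lit 5) (nat_lit 4) (nat_lit 4) (nat_lit 483) (nat_lit 380) (nat_lit 337)) (XT.nd (nat_lit 78) (nat_lit 0) (nat_lit 0) (XT.lf (nat_lit 0) (nat_lit 309689663465) (nat_lit 76) (nat_lit 37002483719) (nat_lit 76) (nat_lit 35359313640) (nat_lit 3) (nat_lit 4) (nat_lit 4)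 (nat_lit 5) (nat_lit 4) (nat_lit 4) (nat_lit 484) (nat_lit 380) (nat_lit 336)) (XT.lf (nat_lit 0) (nat_lit 348693066219) (nat_lit 76) (nat_lit 32508531439) (nat_lit 76) (nat_lit 30861098984) (nat_lit 3) (nat_lit 4) (nat_lit 4) (nat_lit 5) (nat_lit 4) (nat_lit 4) (nat_lit 485) (nat_lit 380) (nat_lit 335))))))))
noncomputable def xc46 : XT := (XT.nd (nat_lit 1794) (nat_lit 0) (nat_lit 0) (XT.nd (nat_lit 858) (nat_lit 0) (nat_lit 0) (XT.nd (nat_lit 390) (nat_lit 152) (nat_lit 0) (XT.nd (nat_lit 156) (nat_lit 0) (nat_lit 0) (XT.nd (nat_lit 78) (nat_lit 0) (nat_lit 0) (XT.lf (nat_lit 0) (nat_lit 390752265536) (nat_lit 76) (nat_lit 27688225143) (nat_lit 76) (nat_lit 26036846043) (nat_lit 3) (nat_lit 4) (nat_lit 4) (nat_lit 5) (nat_lit 4) (nat_lit 4) (nat_lit 486) (nat_lit 380) (nat_lit 334)) (XT.lf (nat_lit 0) (nat_lit 436116501116) (nat_lit 76) (nat_lit 22513000053) (nat_lit 76) (nat_lit 20857966653)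 (nat_lit 3) (nat_lit 4) (nat_lit 4) (nat_lit 5) (nat_lit 4) (nat_lit 4) (nat_lit 487) (nat_lit 380) (nat_lit 333))) (XT.nd (nat_lit 78) (nat_lit 0) (nat_lit 0) (XT.lf (nat_lit 0) (nat_lit 485054598058) (nat_lit 76) (nat_lit 16952188169) (nat_lit 76) (nat_lit 15293771156) (nat_lit 3) (nat_lit 4) (nat_lit 4) (nat_lit 5) (nat_lit 4) (nat_lit 4) (nat_lit 488) (nat_lit 380) (nat_lit 332)) (XT.nd (nat_lit 78) (nat_lit 0) (nat_lit 0) (XT.lf (nat_lit 0) (nat_lit 537856559901) (nat_lit 76) (nat_lit 10972836530) (nat_lit 76) (nat_lit 9311286544) (nat_lit 3) (nat_lit 4) (nat_lit 4) (nat_lit 5) (nat_lit 4) (nat_lit 4) (nat_lit 489) (nat_lit 380) (nat_lit 331)) (XT.lf (nat_lit 0) (nat_lit 594835287158) (nat_lit 76) (nat_lit 4539511943) (nat_lit 76) (nat_lit 2875061054) (nat_lit 3) (nat_lit 4) (nat_lit 4) (nat_lit 5) (nat_lit 4) (nat_lit 4) (nat_lit 490) (nat_lit 380) (nat_lit 330))))) (XT.nd (nat_lit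 234) (nat_lit 0) (nat_lit 0) (XT.nd (nat_lit 78) (nat_lit 0) (nat_lit 0) (XT.lf (nat_lit 0) (nat_lit 4074922886) (nat_lit 152) (nat_lit 643257507948) (nat_lit 0) (nat_lit 2531277600) (nat_lit 1) (nat_lit 5) (nat_lit 3) (nat_lit 4) (nat_lit 1) (nat_lit 4) (nat_lit 491) (nat_lit 380) (nat_lit 329)) (XT.nd (nat_lit 78) (nat_lit 0) (nat_lit 0) (XT.lf (nat_lit 0) (nat_lit 11729635703) (nat_lit 152) (nat_lit 679343042666) (nat_lit 0) (nat_lit 10183687588) (nat_lit 1) (nat_lit 5) (nat_lit 3) (nat_lit 4) (nat_lit 1) (nat_lit 4) (nat_lit 492) (nat_lit 380) (nat_lit 328)) (XT.lf (nat_lit 0) (nat_lit 19976499173) (nat_lit 152) (nat_lit 718357136382) (nat_lit 0) (nat_lit 18428418808) (nat_lit 1) (nat_lit 5) (nat_lit 3) (nat_lit 4) (nat_lit 1) (nat_lit 4) (nat_lit 493) (nat_lit 380) (nat_lit 327)))) (XT.nd (nat_lit 78) (nat_lit 0) (nat_lit 0) (XT.lf (nat_lit 0) (nat_lit 28864383597) (nat_lit 152) (nat_lit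 760530983726) (nat_lit 0) (nat_lit 27314328927) (nat_lit 1) (nat_lit 5) (nat_lit 3) (nat_lit 4) (nat_lit 1) (nat_lit 4) (nat_lit 494) (nat_lit 380) (nat_lit 326)) (XT.nd (nat_lit 78) (nat_lit 0) (nat_lit 0) (XT.lf (nat_lit 0) (nat_lit 38445957920) (nat_lit 152) (nat_lit 806114503794) (nat_lit 0) (nat_lit 36894075190) (nat_lit 1) (nat_lit 5) (nat_lit 3) (nat_lit 4) (nat_lit 1) (nat_lit 4) (nat_lit 495) (nat_lit 380) (nat_lit 325)) (XT.lf (nat_lit 0) (nat_lit 48778001843) (nat_lit 152) (nat_lit 855377821149) (nat_lit 0) (nat_lit 47224426464) (nat_lit 1) (nat_lit 5) (nat_lit 3) (nat_lit 4) (nat_lit 1) (nat_lit 4) (nat_lit 496) (nat_lit 380) (nat_lit 324)))))) (XT.nd (nat_lit 468) (nat_lit 0) (nat_lit 0) (XT.nd (nat_lit 234) (nat_lit 0) (nat_lit 0) (XT.nd (nat_lit 78) (nat_lit 0) (nat_lit 0) (XT.lf (nat_lit 0) (nat_lit 59921742291) (nat_lit 152) (nat_lit 908612866560) (nat_lit 0) (nat_lit 58366599646)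 (nat_lit 1) (nat_lit 5) (nat_lit 3) (nat_lit 4) (nat_lit 1) (nat_lit 4) (nat_lit 497) (nat_lit 380) (nat_lit 323)) (XT.nd (nat_lit 78) (nat_lit 0) (nat_lit 0) (XT.lf (nat_lit 0) (nat_lit 71943216245) (nat_lit 152) (nat_lit 966135106963) (nat_lit 0) (nat_lit 70386622427) (nat_lit 1) (nat_lit 5) (nat_lit 3) (nat_lit 4) (nat_lit 1) (nat_lit 4) (nat_lit 498) (nat_lit 380) (nat_lit 322)) (XT.lf (nat_lit 0) (nat_lit 84913662070) (nat_lit 152) (nat_lit 1028285414894) (nat_lit 0) (nat_lit 83355724573) (nat_lit 1) (nat_lit 5) (nat_lit 3) (nat_lit 4) (nat_lit 1) (nat_lit 4) (nat_lit 499) (nat_lit 380) (nat_lit 321)))) (XT.nd (nat_lit 78) (nat_lit 0) (nat_lit 0) (XT.lf (nat_lit 0) (nat_lit 98909941667) (nat_lit 152) (nat_lit 1095432088473) (nat_lit 0) (nat_lit 97350760022) (nat_lit 1) (nat_lit 5) (nat_lit 3) (nat_lit 4) (nat_lit 1) (nat_lit 4) (nat_lit 500) (nat_lit 380) (nat_lit 320)) (XT.nd (nat_lit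 78) (nat_lit 0) (nat_lit 0) (XT.lf (nat_lit 0) (nat_lit 114014995951) (nat_lit 152) (nat_lit 1167973033916) (nat_lit 0) (nat_lit 112454662319) (nat_lit 1) (nat_lit 5) (nat_lit 3) (nat_lit 4) (nat_lit 1) (nat_lit 4) (nat_lit 501) (nat_lit 380) (nat_lit 319)) (XT.lf (nat_lit 0) (nat_lit 130318336356) (nat_lit 152) (nat_lit 1246338123491) (nat_lit 0) (nat_lit 128756936068) (nat_lit 1) (nat_lit 5) (nat_lit 3) (nat_lit 4) (nat_lit 1) (nat_lit 4) (nat_lit 502) (nat_lit 380) (nat_lit 318))))) (XT.nd (nat_lit 234) (nat_lit 0) (nat_lit 0) (XT.nd (nat_lit 78) (nat_lit 0) (nat_lit 0) (XT.lf (nat_lit 0) (nat_lit 147916575269) (nat_lit 152) (nat_lit 1330991742913) (nat_lit 0) (nat_lit 146354187337) (nat_lit 1) (nat_lit 5) (nat_lit 3) (nat_lit 4) (nat_lit 1) (nat_lit 4) (nat_lit 503) (nat_lit 380) (nat_lit 317)) (XT.nd (nat_lit 78) (nat_lit 0) (nat_lit 0) (XT.lf (nat_lit 0) (nat_lit 166913998550) (nat_lit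 152) (nat_lit 1422435543262) (nat_lit 0) (nat_lit 165350696133) (nat_lit 1) (nat_lit 5) (nat_lit 3) (nat_lit 4) (nat_lit 1) (nat_lit 4) (nat_lit 504) (nat_lit 380) (nat_lit 316)) (XT.lf (nat_lit 0) (nat_lit 187423183523) (nat_lit 152) (nat_lit 1521211413724) (nat_lit 0) (nat_lit 185859034361) (nat_lit 1) (nat_lit 5) (nat_lit 3) (nat_lit 4) (nat_lit 1) (nat_lit 4) (nat_lit 505) (nat_lit 380) (nat_lit 315)))) (XT.nd (nat_lit 78) (nat_lit 0) (nat_lit 0) (XT.lf (nat_lit 0) (nat_lit 209565666099) (nat_lit 152) (nat_lit 1627904692791) (nat_lit 0) (nat_lit 208000732912) (nat_lit 1) (nat_lit 5) (nat_lit 3) (nat_lit 4) (nat_lit 1) (nat_lit 4) (nat_lit 506) (nat_lit 380) (nat_lit 314)) (XT.nd (nat_lit 78) (nat_lit 0) (nat_lit 0) (XT.lf (nat_lit 0) (nat_lit 233472660988) (nat_lit 152) (nat_lit 1743147636932) (nat_lit 0) (nat_lit 231907001854) (nat_lit 1) (nat_lit 5) (nat_lit 3) (nat_lit 4) (nat_lit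 1) (nat_lit 4) (nat_lit 507) (nat_lit 380) (nat_lit 313)) (XT.lf (nat_lit 0) (nat_lit 259285839272) (nat_lit 152) (nat_lit 1867623167296) (nat_lit 0) (nat_lit 257719507964) (nat_lit 1) (nat_lit 5) (nat_lit 3) (nat_lit 4) (nat_lit 1) (nat_lit 4) (nat_lit 508) (nat_lit 380) (nat_lit 312))))))) (XT.nd (nat_lit 936) (nat_lit 0) (nat_lit 0) (XT.nd (nat_lit 468) (nat_lit 0) (nat_lit 0) (XT.nd (nat_lit 234) (nat_lit 0) (nat_lit 0) (XT.nd (nat_lit 78) (nat_lit 0) (nat_lit 0) (XT.lf (nat_lit 0) (nat_lit 287158167934) (nat_lit 152) (nat_lit 2002068916657) (nat_lit 0) (nat_lit 285591214243) (nat_lit 1) (nat_lit 5) (nat_lit 3) (nat_lit 4) (nat_lit 1) (nat_lit 4) (nat_lit 509) (nat_lit 380) (nat_lit 311)) (XT.nd (nat_lit 78) (nat_lit 0) (nat_lit 0) (XT.lf (nat_lit 0) (nat_lit 317254816328) (nat_lit 152) (nat_lit 2147281600566) (nat_lit 0) (nat_lit 315687286356) (nat_lit 1) (nat_lit 5) (nat_lit 3) (nat_lit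 4) (nat_lit 1) (nat_lit 4) (nat_lit 510) (nat_lit 380) (nat_lit 310)) (XT.lf (nat_lit 0) (nat_lit 349754134963) (nat_lit 152) (nat_lit 2304121738632) (nat_lit 0) (nat_lit 348186071398) (nat_lit 1) (nat_lit 5) (nat_lit 3) (nat_lit 4) (nat_lit 1) (nat_lit 4) (nat_lit 511) (nat_lit 380) (nat_lit 309)))) (XT.nd (nat_lit 78) (nat_lit 0) (nat_lit 0) (XT.lf (nat_lit 0) (nat_lit 384848712395) (nat_lit 152) (nat_lit 2473518753895) (nat_lit 0) (nat_lit 383280154761) (nat_lit 1) (nat_lit 5) (nat_lit 3) (nat_lit 4) (nat_lit 1) (nat_lit 4) (nat_lit 512) (nat_lit 380) (nat_lit 308)) (XT.nd (nat_lit 78) (nat_lit 0) (nat_lit 0) (XT.lf (nat_lit 0) (nat_lit 422746516489) (nat_lit 152) (nat_lit 2656476480519) (nat_lit 0) (nat_lit 421177501385) (nat_lit 1) (nat_lit 5) (nat_lit 3) (nat_lit 4) (nat_lit 1) (nat_lit 4) (nat_lit 513) (nat_lit 380) (nat_lit 307)) (XT.lf (nat_lit 0) (nat_lit 463672126825) (nat_lit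 152) (nat_lit 2854079112441) (nat_lit 0) (nat_lit 462102688138) (nat_lit 1) (nat_lit 5) (nat_lit 3) (nat_lit 4) (nat_lit 1) (nat_lit 4) (nat_lit 514) (nat_lit 380) (nat_lit 306))))) (XT.nd (nat_lit 234) (nat_lit 0) (nat_lit 0) (XT.nd (nat_lit 78) (nat_lit 0) (nat_lit 0) (XT.lf (nat_lit 0) (nat_lit 507868065539) (nat_lit 152) (nat_lit 3067497628219) (nat_lit 0) (nat_lit 506298234644) (nat_lit 1) (nat_lit 5) (nat_lit 3) (nat_lit 4) (nat_lit 1) (nat_lit 4) (nat_lit 515) (nat_lit 380) (nat_lit 305)) (XT.nd (nat_lit 78) (nat_lit 0) (nat_lit 0) (XT.lf (nat_lit 0) (nat_lit 555596234489) (nat_lit 152) (nat_lit 3297996730169) (nat_lit 0) (nat_lit 554026040440) (nat_lit 1) (nat_lit 5) (nat_lit 3) (nat_lit 4) (nat_lit 1) (nat_lit 4) (nat_lit 516) (nat_lit 380) (nat_lit 304)) (XT.lf (nat_lit 0) (nat_lit 607139467270) (nat_lit 152) (nat_lit 3546942338896) (nat_lit 0) (nat_lit 605568936967) (nat_lit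 1) (nat_lit 5) (nat_lit 3) (nat_lit 4) (nat_lit 1) (nat_lit 4) (nat_lit 517) (nat_lit 380) (nat_lit 303)))) (XT.nd (nat_lit 78) (nat_lit 0) (nat_lit 0) (XT.lf (nat_lit 0) (nat_lit 662803205261) (nat_lit 152) (nat_lit 3815809687636) (nat_lit 0) (nat_lit 661232363611) (nat_lit 1) (nat_lit 5) (nat_lit 3) (nat_lit 4) (nat_lit 1) (nat_lit 4) (nat_lit 518) (nat_lit 380) (nat_lit 302)) (XT.nd (nat_lit 78) (nat_lit 0) (nat_lit 0) (XT.lf (nat_lit 0) (nat_lit 722917307650) (nat_lit 152) (nat_lit 4106192064382) (nat_lit 0) (nat_lit 721346177716) (nat_lit 1) (nat_lit 5) (nat_lit 3) (nat_lit 4) (nat_lit 1) (nat_lit 4) (nat_lit 519) (nat_lit 380) (nat_lit 301)) (XT.lf (nat_lit 0) (nat_lit 787838006154) (nat_lit 152) (nat_lit 4419810253589) (nat_lit 0) (nat_lit 786266609291) (nat_lit 1) (nat_lit 5) (nat_lit 3) (nat_lit 4) (nat_lit 1) (nat_lit 4) (nat_lit 520) (nat_lit 380) (nat_lit 300)))))) (XT.nd (nat_lit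 468) (nat_lit 0) (nat_lit 0) (XT.nd (nat_lit 234) (nat_lit 0) (nat_lit 0) (XT.nd (nat_lit 78) (nat_lit 0) (nat_lit 0) (XT.lf (nat_lit 0) (nat_lit 857950016025) (nat_lit 152) (nat_lit 4758522733415) (nat_lit 0) (nat_lit 856378372004) (nat_lit 1) (nat_lit 5) (nat_lit 3) (nat_lit 4) (nat_lit 1) (nat_lit 4) (nat_lit 521) (nat_lit 380) (nat_lit 299)) (XT.nd (nat_lit 78) (nat_lit 0) (nat_lit 0) (XT.lf (nat_lit 0) (nat_lit 933668815839) (nat_lit 152) (nat_lit 5124336688925) (nat_lit 0) (nat_lit 932096942969) (nat_lit 1) (nat_lit 5) (nat_lit 3) (nat_lit 4) (nat_lit 1) (nat_lit 4) (nat_lit 522) (nat_lit 380) (nat_lit 298)) (XT.lf (nat_lit 0) (nat_lit 1015443109595) (nat_lit 152) (nat_lit 5519419906523) (nat_lit 0) (nat_lit 1013871024828) (nat_lit 1) (nat_lit 5) (nat_lit 3) (nat_lit 4) (nat_lit 1) (nat_lit 4) (nat_lit 523) (nat_lit 380) (nat_lit 297)))) (XT.nd (nat_lit 78) (nat_lit 0) (nat_lit 0)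 (XT.lf (nat_lit 0) (nat_lit 1103757485701) (nat_lit 152) (nat_lit 5946113620091) (nat_lit 0) (nat_lit 1102185204733) (nat_lit 1) (nat_lit 5) (nat_lit 3) (nat_lit 4) (nat_lit 1) (nat_lit 4) (nat_lit 524) (nat_lit 380) (nat_lit 296)) (XT.nd (nat_lit 78) (nat_lit 0) (nat_lit 0) (XT.lf (nat_lit 0) (nat_lit 1199135288607) (nat_lit 152) (nat_lit 6406946384968) (nat_lit 0) (nat_lit 1197562825971) (nat_lit 1) (nat_lit 5) (nat_lit 3) (nat_lit 4) (nat_lit 1) (nat_lit 4) (nat_lit 525) (nat_lit 380) (nat_lit 295)) (XT.lf (nat_lit 0) (nat_lit 1302141720109) (nat_lit 152) (nat_lit 6904649061983) (nat_lit 0) (nat_lit 1300569089262) (nat_lit 1) (nat_lit 5) (nat_lit 3) (nat_lit 4) (nat_lit 1) (nat_lit 4) (nat_lit 526) (nat_lit 380) (nat_lit 294))))) (XT.nd (nat_lit 234) (nat_lit 0) (nat_lit 0) (XT.nd (nat_lit 78) (nat_lit 0) (nat_lit 0) (XT.lf (nat_lit 0) (nat_lit 1413387188689) (nat_lit 152) (nat_lit 7442171000334)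 (nat_lit 0) (nat_lit 1411814402092) (nat_lit 1) (nat_lit 5) (nat_lit 3) (nat_lit 4) (nat_lit 1) (nat_lit 4) (nat_lit 527) (nat_lit 380) (nat_lit 293)) (XT.nd (nat_lit 78) (nat_lit 0) (nat_lit 0) (XT.lf (nat_lit 0) (nat_lit 1533530926754) (nat_lit 152) (nat_lit 8022697515210) (nat_lit 0) (nat_lit 1531957995943) (nat_lit 1) (nat_lit 5) (nat_lit 3) (nat_lit 4) (nat_lit 1) (nat_lit 4) (nat_lit 528) (nat_lit 380) (nat_lit 292)) (XT.lf (nat_lit 0) (nat_lit 1663284897197) (nat_lit 152) (nat_lit 8649668763737) (nat_lit 0) (nat_lit 1661711832854) (nat_lit 1) (nat_lit 5) (nat_lit 3) (nat_lit 4) (nat_lit 1) (nat_lit 4) (nat_lit 529) (nat_lit 380) (nat_lit 291)))) (XT.nd (nat_lit 78) (nat_lit 0) (nat_lit 0) (XT.lf (nat_lit 0) (nat_lit 1803418012434) (nat_lit 152) (nat_lit 9326800131091) (nat_lit 0) (nat_lit 1801844824452) (nat_lit 1) (nat_lit 5) (nat_lit 3) (nat_lit 4) (nat_lit 1) (nat_lit 4) (nat_lit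 530) (nat_lit 380) (nat_lit 290)) (XT.nd (nat_lit 55224) (nat_lit 0) (nat_lit 1596) (XT.lf (nat_lit 0) (nat_lit 1954760690926) (nat_lit 152) (nat_lit 10058104247598) (nat_lit 0) (nat_lit 1953187388462) (nat_lit 1) (nat_lit 5) (nat_lit 3) (nat_lit 4) (nat_lit 1) (nat_lit 4) (nat_lit 531) (nat_lit 380) (nat_lit 289)) (XT.lf (nat_lit 0) (nat_lit 1082271273) (nat_lit 152) (nat_lit 7295160558) (nat_lit 0) (nat_lit 1082271273) (nat_lit 22) (nat_lit 5) (nat_lit 24) (nat_lit 4) (nat_lit 22) (nat_lit 4) (nat_lit 438) (nat_lit 381) (nat_lit 381))))))))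
noncomputable def xc47 : XT := (XT.nd (nat_lit 1794) (nat_lit 228) (nat_lit 0) (XT.nd (nat_lit 858) (nat_lit 456) (nat_lit 0) (XT.nd (nat_lit 390) (nat_lit 456) (nat_lit 0) (XT.nd (nat_lit 156) (nat_lit 228) (nat_lit 0) (XT.nd (nat_lit 78) (nat_lit 76) (nat_lit 0) (XT.lf (nat_lit 0) (nat_lit 10007294510) (nat_lit 152) (nat_lit 1723240) (nat_lit 0) (nat_lit 9791389193) (nat_lit 22) (nat_lit 5) (nat_lit 24) (nat_lit 4) (nat_lit 22) (nat_lit 4) (nat_lit 439) (nat_lit 381) (nat_lit 380)) (XT.lf (nat_lit 0) (nat_lit 15774868861) (nat_lit 76) (nat_lit 2696663681) (nat_lit 76) (nat_lit 2280846033) (nat_lit 21) (nat_lit 4) (nat_lit 22) (nat_lit 5) (nat_lit 22) (nat_lit 4) (nat_lit 440) (nat_lit 381) (nat_lit 379))) (XT.nd (nat_lit 78) (nat_lit 76) (nat_lit 0) (XT.lf (nat_lit 0) (nat_lit 5538586946) (nat_lit 152) (nat_lit 11248699597) (nat_lit 0) (nat_lit 4982178005) (nat_lit 19) (nat_lit 5) (nat_lit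 21) (nat_lit 4) (nat_lit 19) (nat_lit 4) (nat_lit 441) (nat_lit 381) (nat_lit 378)) (XT.nd (nat_lit 78) (nat_lit 0) (nat_lit 0) (XT.lf (nat_lit 0) (nat_lit 3980791427) (nat_lit 76) (nat_lit 9801860479) (nat_lit 76) (nat_lit 9086754684) (nat_lit 18) (nat_lit 4) (nat_lit 19) (nat_lit 5) (nat_lit 19) (nat_lit 4) (nat_lit 442) (nat_lit 381) (nat_lit 377)) (XT.lf (nat_lit 0) (nat_lit 20317400717) (nat_lit 76) (nat_lit 2303610458) (nat_lit 76) (nat_lit 1441563133) (nat_lit 18) (nat_lit 4) (nat_lit 19) (nat_lit 5) (nat_lit 19) (nat_lit 4) (nat_lit 443) (nat_lit 381) (nat_lit 376))))) (XT.nd (nat_lit 234) (nat_lit 228) (nat_lit 0) (XT.nd (nat_lit 78) (nat_lit 76) (nat_lit 0) (XT.lf (nat_lit 0) (nat_lit 6559849458) (nat_lit 152) (nat_lit 13135722241) (nat_lit 0) (nat_lit 5635678812) (nat_lit 16) (nat_lit 5) (nat_lit 18) (nat_lit 4) (nat_lit 16) (nat_lit 4) (nat_lit 444) (nat_lit 381) (nat_lit 375))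 (XT.nd (nat_lit 78) (nat_lit 0) (nat_lit 0) (XT.lf (nat_lit 0) (nat_lit 2227695408) (nat_lit 76) (nat_lit 12761163818) (nat_lit 76) (nat_lit 11720346247) (nat_lit 15) (nat_lit 4) (nat_lit 16) (nat_lit 5) (nat_lit 16) (nat_lit 4) (nat_lit 445) (nat_lit 381) (nat_lit 374)) (XT.lf (nat_lit 0) (nat_lit 18870274527) (nat_lit 76) (nat_lit 5237359717) (nat_lit 76) (nat_lit 4088535735) (nat_lit 15) (nat_lit 4) (nat_lit 16) (nat_lit 5) (nat_lit 16) (nat_lit 4) (nat_lit 446) (nat_lit 381) (nat_lit 373)))) (XT.nd (nat_lit 78) (nat_lit 76) (nat_lit 0) (XT.lf (nat_lit 0) (nat_lit 3846594263) (nat_lit 152) (nat_lit 23265197384) (nat_lit 0) (nat_lit 2690270263) (nat_lit 13) (nat_lit 5) (nat_lit 15) (nat_lit 4) (nat_lit 13) (nat_lit 4) (nat_lit 447) (nat_lit 381) (nat_lit 372)) (XT.nd (nat_lit 78) (nat_lit 76) (nat_lit 0) (XT.lf (nat_lit 0) (nat_lit 12267539801) (nat_lit 152) (nat_lit 8229168436) (nat_lit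 0) (nat_lit 11025476830) (nat_lit 13) (nat_lit 5) (nat_lit 15) (nat_lit 4) (nat_lit 13) (nat_lit 4) (nat_lit 448) (nat_lit 381) (nat_lit 371)) (XT.lf (nat_lit 0) (nat_lit 7785008905) (nat_lit 76) (nat_lit 13462758963) (nat_lit 76) (nat_lit 12141308055) (nat_lit 12) (nat_lit 4) (nat_lit 13) (nat_lit 5) (nat_lit 13) (nat_lit 4) (nat_lit 449) (nat_lit 381) (nat_lit 370)))))) (XT.nd (nat_lit 468) (nat_lit 228) (nat_lit 0) (XT.nd (nat_lit 234) (nat_lit 76) (nat_lit 0) (XT.nd (nat_lit 78) (nat_lit 152) (nat_lit 0) (XT.lf (nat_lit 0) (nat_lit 24949697586) (nat_lit 76) (nat_lit 5928039409) (nat_lit 76) (nat_lit 4533081152) (nat_lit 12) (nat_lit 4) (nat_lit 13) (nat_lit 5) (nat_lit 13) (nat_lit 4) (nat_lit 450) (nat_lit 381) (nat_lit 369)) (XT.nd (nat_lit 78) (nat_lit 0) (nat_lit 0) (XT.lf (nat_lit 0) (nat_lit 3404990060) (nat_lit 152) (nat_lit 32139448587) (nat_lit 0) (nat_lit 2050341341) (nat_lit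 10) (nat_lit 5) (nat_lit 12) (nat_lit 4) (nat_lit 10) (nat_lit 4) (nat_lit 451) (nat_lit 381) (nat_lit 368)) (XT.lf (nat_lit 0) (nat_lit 11902165770) (nat_lit 152) (nat_lit 17539196738) (nat_lit 0) (nat_lit 10489164547) (nat_lit 10) (nat_lit 5) (nat_lit 12) (nat_lit 4) (nat_lit 10) (nat_lit 4) (nat_lit 452) (nat_lit 381) (nat_lit 367)))) (XT.nd (nat_lit 78) (nat_lit 76) (nat_lit 0) (XT.lf (nat_lit 0) (nat_lit 20821275780) (nat_lit 152) (nat_lit 2298245181) (nat_lit 0) (nat_lit 19354244461) (nat_lit 10) (nat_lit 5) (nat_lit 12) (nat_lit 4) (nat_lit 10) (nat_lit 4) (nat_lit 453) (nat_lit 381) (nat_lit 366)) (XT.nd (nat_lit 78) (nat_lit 0) (nat_lit 0) (XT.lf (nat_lit 0) (nat_lit 14393756846) (nat_lit 76) (nat_lit 16167587428) (nat_lit 76) (nat_lit 14650528242) (nat_lit 9) (nat_lit 4) (nat_lit 10) (nat_lit 5) (nat_lit 10) (nat_lit 4) (nat_lit 454) (nat_lit 381) (nat_lit 365)) (XT.lf (nat_lit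 0) (nat_lit 32075923614) (nat_lit 76) (nat_lit 8835031323) (nat_lit 76) (nat_lit 7271650038) (nat_lit 9) (nat_lit 4) (nat_lit 10) (nat_lit 5) (nat_lit 10) (nat_lit 4) (nat_lit 455) (nat_lit 381) (nat_lit 364))))) (XT.nd (nat_lit 234) (nat_lit 76) (nat_lit 0) (XT.nd (nat_lit 78) (nat_lit 76) (nat_lit 0) (XT.lf (nat_lit 0) (nat_lit 441770695) (nat_lit 152) (nat_lit 687389070) (nat_lit 76) (nat_lit 50278167326) (nat_lit 8) (nat_lit 5) (nat_lit 10) (nat_lit 5) (nat_lit 9) (nat_lit 4) (nat_lit 456) (nat_lit 381) (nat_lit 363)) (XT.nd (nat_lit 78) (nat_lit 0) (nat_lit 0) (XT.lf (nat_lit 0) (nat_lit 8746546773) (nat_lit 152) (nat_lit 38876516268) (nat_lit 0) (nat_lit 7222485801) (nat_lit 7) (nat_lit 5) (nat_lit 9) (nat_lit 4) (nat_lit 7) (nat_lit 4) (nat_lit 457) (nat_lit 381) (nat_lit 362)) (XT.lf (nat_lit 0) (nat_lit 17560109466) (nat_lit 152) (nat_lit 25009168882) (nat_lit 0) (nat_lit 16002000369)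 (nat_lit 7) (nat_lit 5) (nat_lit 9) (nat_lit 4) (nat_lit 7) (nat_lit 4) (nat_lit 458) (nat_lit 381) (nat_lit 361)))) (XT.nd (nat_lit 78) (nat_lit 76) (nat_lit 0) (XT.lf (nat_lit 0) (nat_lit 26889676712) (nat_lit 152) (nat_lit 10420477675) (nat_lit 0) (nat_lit 25300041573) (nat_lit 7) (nat_lit 5) (nat_lit 9) (nat_lit 4) (nat_lit 7) (nat_lit 4) (nat_lit 459) (nat_lit 381) (nat_lit 360)) (XT.nd (nat_lit 78) (nat_lit 0) (nat_lit 0) (XT.lf (nat_lit 0) (nat_lit 5238036664) (nat_lit 76) (nat_lit 31678473078) (nat_lit 76) (nat_lit 30059647159) (nat_lit 6) (nat_lit 4) (nat_lit 7) (nat_lit 5) (nat_lit 7) (nat_lit 4) (nat_lit 460) (nat_lit 381) (nat_lit 359)) (XT.lf (nat_lit 0) (nat_lit 22391650181) (nat_lit 76) (nat_lit 25468225132) (nat_lit 76) (nat_lit 23822370713) (nat_lit 6) (nat_lit 4) (nat_lit 7) (nat_lit 5) (nat_lit 7) (nat_lit 4) (nat_lit 461) (nat_lit 381) (nat_lit 358))))))) (XT.nd (nat_lit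 936) (nat_lit 0) (nat_lit 0) (XT.nd (nat_lit 468) (nat_lit 76) (nat_lit 0) (XT.nd (nat_lit 234) (nat_lit 152) (nat_lit 0) (XT.nd (nat_lit 78) (nat_lit 0) (nat_lit 0) (XT.lf (nat_lit 0) (nat_lit 40593290029) (nat_lit 76) (nat_lit 18927523406) (nat_lit 76) (nat_lit 17256642598) (nat_lit 6) (nat_lit 4) (nat_lit 7) (nat_lit 5) (nat_lit 7) (nat_lit 4) (nat_lit 462) (nat_lit 381) (nat_lit 357)) (XT.nd (nat_lit 78) (nat_lit 0) (nat_lit 0) (XT.lf (nat_lit 0) (nat_lit 59950817778) (nat_lit 76) (nat_lit 12017608185) (nat_lit 76) (nat_lit 10323554796) (nat_lit 6) (nat_lit 4) (nat_lit 7) (nat_lit 5) (nat_lit 7) (nat_lit 4) (nat_lit 463) (nat_lit 381) (nat_lit 356)) (XT.lf (nat_lit 0) (nat_lit 80578944703) (nat_lit 76) (nat_lit 4697531826) (nat_lit 76) (nat_lit 2982022342) (nat_lit 6) (nat_lit 4) (nat_lit 7) (nat_lit 5) (nat_lit 7) (nat_lit 4) (nat_lit 464) (nat_lit 381) (nat_lit 355)))) (XT.nd (nat_lit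 78) (nat_lit 0) (nat_lit 0) (XT.lf (nat_lit 0) (nat_lit 4849622584) (nat_lit 152) (nat_lit 86588386839) (nat_lit 0) (nat_lit 3242792734) (nat_lit 4) (nat_lit 5) (nat_lit 6) (nat_lit 4) (nat_lit 4) (nat_lit 4) (nat_lit 465) (nat_lit 381) (nat_lit 354)) (XT.nd (nat_lit 78) (nat_lit 0) (nat_lit 0) (XT.lf (nat_lit 0) (nat_lit 13355685150) (nat_lit 152) (nat_lit 76506467344) (nat_lit 0) (nat_lit 11731822761) (nat_lit 4) (nat_lit 5) (nat_lit 6) (nat_lit 4) (nat_lit 4) (nat_lit 4) (nat_lit 466) (nat_lit 381) (nat_lit 353)) (XT.lf (nat_lit 0) (nat_lit 22423299795) (nat_lit 152) (nat_lit 65862751776) (nat_lit 0) (nat_lit 20783666535) (nat_lit 4) (nat_lit 5) (nat_lit 6) (nat_lit 4) (nat_lit 4) (nat_lit 4) (nat_lit 467) (nat_lit 381) (nat_lit 352))))) (XT.nd (nat_lit 234) (nat_lit 76) (nat_lit 0) (XT.nd (nat_lit 78) (nat_lit 0) (nat_lit 0) (XT.lf (nat_lit 0) (nat_lit 32106200530) (nat_lit 152) (nat_lit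 54594166265) (nat_lit 0) (nat_lit 30451964613) (nat_lit 4) (nat_lit 5) (nat_lit 6) (nat_lit 4) (nat_lit 4) (nat_lit 4) (nat_lit 468) (nat_lit 381) (nat_lit 351)) (XT.nd (nat_lit 78) (nat_lit 0) (nat_lit 0) (XT.lf (nat_lit 0) (nat_lit 42461767508) (nat_lit 152) (nat_lit 42633934009) (nat_lit 0) (nat_lit 40794010612) (nat_lit 4) (nat_lit 5) (nat_lit 6) (nat_lit 4) (nat_lit 4) (nat_lit 4) (nat_lit 469) (nat_lit 381) (nat_lit 350)) (XT.lf (nat_lit 0) (nat_lit 53551367052) (nat_lit 152) (nat_lit 29911179557) (nat_lit 0) (nat_lit 51871090731) (nat_lit 4) (nat_lit 5) (nat_lit 6) (nat_lit 4) (nat_lit 4) (nat_lit 4) (nat_lit 470) (nat_lit 381) (nat_lit 349)))) (XT.nd (nat_lit 78) (nat_lit 76) (nat_lit 0) (XT.lf (nat_lit 0) (nat_lit 65440715308) (nat_lit 152) (nat_lit 16350508808) (nat_lit 0) (nat_lit 63748846926) (nat_lit 4) (nat_lit 5) (nat_lit 6) (nat_lit 4) (nat_lit 4) (nat_lit 4) (nat_lit 471)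 (nat_lit 381) (nat_lit 348)) (XT.nd (nat_lit 78) (nat_lit 76) (nat_lit 0) (XT.lf (nat_lit 0) (nat_lit 78200267672) (nat_lit 152) (nat_lit 1871562232) (nat_lit 0) (nat_lit 76497665902) (nat_lit 4) (nat_lit 5) (nat_lit 6) (nat_lit 4) (nat_lit 4) (nat_lit 4) (nat_lit 472) (nat_lit 381) (nat_lit 347)) (XT.lf (nat_lit 0) (nat_lit 14328216766) (nat_lit 76) (nat_lit 77922013498) (nat_lit 76) (nat_lit 76209473404) (nat_lit 3) (nat_lit 4) (nat_lit 4) (nat_lit 5) (nat_lit 4) (nat_lit 4) (nat_lit 473) (nat_lit 381) (nat_lit 346)))))) (XT.nd (nat_lit 468) (nat_lit 0) (nat_lit 0) (XT.nd (nat_lit 234) (nat_lit 0) (nat_lit 0) (XT.nd (nat_lit 78) (nat_lit 0) (nat_lit 0) (XT.lf (nat_lit 0) (nat_lit 31780081532) (nat_lit 76) (nat_lit 75622268404) (nat_lit 76) (nat_lit 73900526160) (nat_lit 3) (nat_lit 4) (nat_lit 4) (nat_lit 5) (nat_lit 4) (nat_lit 4) (nat_lit 474) (nat_lit 381) (nat_lit 345)) (XT.nd (nat_lit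 78) (nat_lit 0) (nat_lit 0) (XT.lf (nat_lit 0) (nat_lit 50488897371) (nat_lit 76) (nat_lit 73210138333) (nat_lit 76) (nat_lit 71479875578) (nat_lit 3) (nat_lit 4) (nat_lit 4) (nat_lit 5) (nat_lit 4) (nat_lit 4) (nat_lit 475) (nat_lit 381) (nat_lit 344)) (XT.lf (nat_lit 0) (nat_lit 70565531341) (nat_lit 76) (nat_lit 70671329180) (nat_lit 76) (nat_lit 68933177064) (nat_lit 3) (nat_lit 4) (nat_lit 4) (nat_lit 5) (nat_lit 4) (nat_lit 4) (nat_lit 476) (nat_lit 381) (nat_lit 343)))) (XT.nd (nat_lit 78) (nat_lit 0) (nat_lit 0) (XT.lf (nat_lit 0) (nat_lit 92128956087) (nat_lit 76) (nat_lit 67990796151) (nat_lit 76) (nat_lit 66245339070) (nat_lit 3) (nat_lit 4) (nat_lit 4) (nat_lit 5) (nat_lit 4) (nat_lit 4) (nat_lit 477) (nat_lit 381) (nat_lit 342)) (XT.nd (nat_lit 78) (nat_lit 0) (nat_lit 0) (XT.lf (nat_lit 0) (nat_lit 115306954867) (nat_lit 76) (nat_lit 65152654604) (nat_lit 76) (nat_lit 63400433668)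 (nat_lit 3) (nat_lit 4) (nat_lit 4) (nat_lit 5) (nat_lit 4) (nat_lit 4) (nat_lit 478) (nat_lit 381) (nat_lit 341)) (XT.lf (nat_lit 0) (nat_lit 140236878785) (nat_lit 76) (nat_lit 62140085924) (nat_lit 76) (nat_lit 60381602158) (nat_lit 3) (nat_lit 4) (nat_lit 4) (nat_lit 5) (nat_lit 4) (nat_lit 4) (nat_lit 479) (nat_lit 381) (nat_lit 340))))) (XT.nd (nat_lit 234) (nat_lit 0) (nat_lit 0) (XT.nd (nat_lit 78) (nat_lit 0) (nat_lit 0) (XT.lf (nat_lit 0) (nat_lit 167066460723) (nat_lit 76) (nat_lit 58935237852) (nat_lit 76) (nat_lit 57170955170) (nat_lit 3) (nat_lit 4) (nat_lit 4) (nat_lit 5) (nat_lit 4) (nat_lit 4) (nat_lit 480) (nat_lit 381) (nat_lit 339)) (XT.nd (nat_lit 78) (nat_lit 0) (nat_lit 0) (XT.lf (nat_lit 0) (nat_lit 195954690797) (nat_lit 76) (nat_lit 55519118695) (nat_lit 76) (nat_lit 53749466646) (nat_lit 3) (nat_lit 4) (nat_lit 4) (nat_lit 5) (nat_lit 4) (nat_lit 4) (nat_lit 481)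 (nat_lit 381) (nat_lit 338)) (XT.lf (nat_lit 0) (nat_lit 227072758518) (nat_lit 76) (nat_lit 51871484784) (nat_lit 76) (nat_lit 50096861100) (nat_lit 3) (nat_lit 4) (nat_lit 4) (nat_lit 5) (nat_lit 4) (nat_lit 4) (nat_lit 482) (nat_lit 381) (nat_lit 337)))) (XT.nd (nat_lit 78) (nat_lit 0) (nat_lit 0) (XT.lf (nat_lit 0) (nat_lit 260605067250) (nat_lit 76) (nat_lit 47970720512) (nat_lit 76) (nat_lit 46191493460) (nat_lit 3) (nat_lit 4) (nat_lit 4) (nat_lit 5) (nat_lit 4) (nat_lit 4) (nat_lit 483) (nat_lit 381) (nat_lit 336)) (XT.nd (nat_lit 78) (nat_lit 0) (nat_lit 0) (XT.lf (nat_lit 0) (nat_lit 296750326971) (nat_lit 76) (nat_lit 43793710237) (nat_lit 76) (nat_lit 42010220809) (nat_lit 3) (nat_lit 4) (nat_lit 4) (nat_lit 5) (nat_lit 4) (nat_lit 4) (nat_lit 484) (nat_lit 381) (nat_lit 335)) (XT.lf (nat_lit 0) (nat_lit 335722731812) (nat_lit 76) (nat_lit 39315701306) (nat_lit 76) (nat_lit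 37528265233) (nat_lit 3) (nat_lit 4) (nat_lit 4) (nat_lit 5) (nat_lit 4) (nat_lit 4) (nat_lit 485) (nat_lit 381) (nat_lit 334))))))))
noncomputable def xc48 : XT := (XT.nd (nat_lit 1794) (nat_lit 0) (nat_lit 0) (XT.nd (nat_lit 858) (nat_lit 0) (nat_lit 0) (XT.nd (nat_lit 390) (nat_lit 152) (nat_lit 0) (XT.nd (nat_lit 156) (nat_lit 0) (nat_lit 0) (XT.nd (nat_lit 78) (nat_lit 0) (nat_lit 0) (XT.lf (nat_lit 0) (nat_lit 377753229359) (nat_lit 76) (nat_lit 34510157371) (nat_lit 76) (nat_lit 32719066997) (nat_lit 3) (nat_lit 4) (nat_lit 4) (nat_lit 5) (nat_lit 4) (nat_lit 4) (nat_lit 486) (nat_lit 381) (nat_lit 333)) (XT.lf (nat_lit 0) (nat_lit 423090889225) (nat_lit 76) (nat_lit 29348601133) (nat_lit 76) (nat_lit 27554127147) (nat_lit 3) (nat_lit 4) (nat_lit 4) (nat_lit 5) (nat_lit 4) (nat_lit 4) (nat_lit 487) (nat_lit 381) (nat_lit 332))) (XT.nd (nat_lit 78) (nat_lit 0) (nat_lit 0) (XT.lf (nat_lit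 0) (nat_lit 472004379026) (nat_lit 76) (nat_lit 23800445593) (nat_lit 76) (nat_lit 22002838633) (nat_lit 3) (nat_lit 4) (nat_lit 4) (nat_lit 5) (nat_lit 4) (nat_lit 4) (nat_lit 488) (nat_lit 381) (nat_lit 331)) (XT.nd (nat_lit 78) (nat_lit 0) (nat_lit 0) (XT.lf (nat_lit 0) (nat_lit 524783556478) (nat_lit 76) (nat_lit 17832812792) (nat_lit 76) (nat_lit 16032304931) (nat_lit 3) (nat_lit 4) (nat_lit 4) (nat_lit 5) (nat_lit 4) (nat_lit 4) (nat_lit 489) (nat_lit 381) (nat_lit 330)) (XT.lf (nat_lit 0) (nat_lit 581741187077) (nat_lit 76) (nat_lit 11410338980) (nat_lit 76) (nat_lit 9607145099) (nat_lit 3) (nat_lit 4) (nat_lit 4) (nat_lit 5) (nat_lit 4) (nat_lit 4) (nat_lit 490) (nat_lit 381) (nat_lit 329))))) (XT.nd (nat_lit 234) (nat_lit 0) (nat_lit 0) (XT.nd (nat_lit 78) (nat_lit 152) (nat_lit 0) (XT.lf (nat_lit 0) (nat_lit 643214797524) (nat_lit 76) (nat_lit 4494965053) (nat_lit 76) (nat_lit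 2689284116) (nat_lit 3) (nat_lit 4) (nat_lit 4) (nat_lit 5) (nat_lit 4) (nat_lit 4) (nat_lit 491) (nat_lit 381) (nat_lit 328)) (XT.nd (nat_lit 78) (nat_lit 0) (nat_lit 0) (XT.lf (nat_lit 0) (nat_lit 4795525473) (nat_lit 152) (nat_lit 693904241152) (nat_lit 0) (nat_lit 3121466430) (nat_lit 1) (nat_lit 5) (nat_lit 3) (nat_lit 4) (nat_lit 1) (nat_lit 4) (nat_lit 492) (nat_lit 381) (nat_lit 327)) (XT.lf (nat_lit 0) (nat_lit 13033385038) (nat_lit 152) (nat_lit 732936905123) (nat_lit 0) (nat_lit 11357351690) (nat_lit 1) (nat_lit 5) (nat_lit 3) (nat_lit 4) (nat_lit 1) (nat_lit 4) (nat_lit 493) (nat_lit 381) (nat_lit 326)))) (XT.nd (nat_lit 78) (nat_lit 0) (nat_lit 0) (XT.lf (nat_lit 0) (nat_lit 21912932513) (nat_lit 152) (nat_lit 775127947148) (nat_lit 0) (nat_lit 20235071104) (nat_lit 1) (nat_lit 5) (nat_lit 3) (nat_lit 4) (nat_lit 1) (nat_lit 4) (nat_lit 494) (nat_lit 381) (nat_lit 325)) (XT.nd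 (nat_lit 78) (nat_lit 0) (nat_lit 0) (XT.lf (nat_lit 0) (nat_lit 31486787438) (nat_lit 152) (nat_lit 820727388216) (nat_lit 0) (nat_lit 29807233382) (nat_lit 1) (nat_lit 5) (nat_lit 3) (nat_lit 4) (nat_lit 1) (nat_lit 4) (nat_lit 495) (nat_lit 381) (nat_lit 324)) (XT.lf (nat_lit 0) (nat_lit 41811683770) (nat_lit 152) (nat_lit 870005447238) (nat_lit 0) (nat_lit 40130562447) (nat_lit 1) (nat_lit 5) (nat_lit 3) (nat_lit 4) (nat_lit 1) (nat_lit 4) (nat_lit 496) (nat_lit 381) (nat_lit 323)))))) (XT.nd (nat_lit 468) (nat_lit 0) (nat_lit 0) (XT.nd (nat_lit 234) (nat_lit 0) (nat_lit 0) (XT.nd (nat_lit 78) (nat_lit 0) (nat_lit 0) (XT.lf (nat_lit 0) (nat_lit 52948806079) (nat_lit 152) (nat_lit 923254142341) (nat_lit 0) (nat_lit 51266233582) (nat_lit 1) (nat_lit 5) (nat_lit 3) (nat_lit 4) (nat_lit 1) (nat_lit 4) (nat_lit 497) (nat_lit 381) (nat_lit 322)) (XT.nd (nat_lit 78) (nat_lit 0) (nat_lit 0)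 (XT.lf (nat_lit 0) (nat_lit 64964152127) (nat_lit 152) (nat_lit 980789021348) (nat_lit 0) (nat_lit 63280235951) (nat_lit 1) (nat_lit 5) (nat_lit 3) (nat_lit 4) (nat_lit 1) (nat_lit 4) (nat_lit 498) (nat_lit 381) (nat_lit 321)) (XT.lf (nat_lit 0) (nat_lit 77928923964) (nat_lit 152) (nat_lit 1042951031690) (nat_lit 0) (nat_lit 76243763642) (nat_lit 1) (nat_lit 5) (nat_lit 3) (nat_lit 4) (nat_lit 1) (nat_lit 4) (nat_lit 499) (nat_lit 381) (nat_lit 320)))) (XT.nd (nat_lit 78) (nat_lit 0) (nat_lit 0) (XT.lf (nat_lit 0) (nat_lit 91919949869) (nat_lit 152) (nat_lit 1110108540835) (nat_lit 0) (nat_lit 90233637558) (nat_lit 1) (nat_lit 5) (nat_lit 3) (nat_lit 4) (nat_lit 1) (nat_lit 4) (nat_lit 500) (nat_lit 381) (nat_lit 319)) (XT.nd (nat_lit 78) (nat_lit 0) (nat_lit 0) (XT.lf (nat_lit 0) (nat_lit 107020139623) (nat_lit 152) (nat_lit 1182659519209) (nat_lit 0) (nat_lit 105332760657) (nat_lit 1)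 (nat_lit 5) (nat_lit 3) (nat_lit 4) (nat_lit 1) (nat_lit 4) (nat_lit 501) (nat_lit 381) (nat_lit 318)) (XT.lf (nat_lit 0) (nat_lit 123318975834) (nat_lit 152) (nat_lit 1261033898535) (nat_lit 0) (nat_lit 121630609223) (nat_lit 1) (nat_lit 5) (nat_lit 3) (nat_lit 4) (nat_lit 1) (nat_lit 4) (nat_lit 502) (nat_lit 381) (nat_lit 317))))) (XT.nd (nat_lit 234) (nat_lit 0) (nat_lit 0) (XT.nd (nat_lit 78) (nat_lit 0) (nat_lit 0) (XT.lf (nat_lit 0) (nat_lit 140913044196) (nat_lit 152) (nat_lit 1345696119578) (nat_lit 0) (nat_lit 139223763101) (nat_lit 1) (nat_lit 5) (nat_lit 3) (nat_lit 4) (nat_lit 1) (nat_lit 4) (nat_lit 503) (nat_lit 381) (nat_lit 316)) (XT.nd (nat_lit 78) (nat_lit 0) (nat_lit 0) (XT.lf (nat_lit 0) (nat_lit 159906605857) (nat_lit 152) (nat_lit 1437147884391) (nat_lit 0) (nat_lit 158216478016) (nat_lit 1) (nat_lit 5) (nat_lit 3) (nat_lit 4) (nat_lit 1) (nat_lit 4) (nat_lit 504)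 (nat_lit 381) (nat_lit 315)) (XT.lf (nat_lit 0) (nat_lit 180412215255) (nat_lit 152) (nat_lit 1535931129357) (nat_lit 0) (nat_lit 178721303390) (nat_lit 1) (nat_lit 5) (nat_lit 3) (nat_lit 4) (nat_lit 1) (nat_lit 4) (nat_lit 505) (nat_lit 381) (nat_lit 314)))) (XT.nd (nat_lit 78) (nat_lit 0) (nat_lit 0) (XT.lf (nat_lit 0) (nat_lit 202551387113) (nat_lit 152) (nat_lit 1642631236668) (nat_lit 0) (nat_lit 200859749301) (nat_lit 1) (nat_lit 5) (nat_lit 3) (nat_lit 4) (nat_lit 1) (nat_lit 4) (nat_lit 506) (nat_lit 381) (nat_lit 313)) (XT.nd (nat_lit 78) (nat_lit 0) (nat_lit 0) (XT.lf (nat_lit 0) (nat_lit 226455316524) (nat_lit 152) (nat_lit 1757880503257) (nat_lit 0) (nat_lit 224763006537) (nat_lit 1) (nat_lit 5) (nat_lit 3) (nat_lit 4) (nat_lit 1) (nat_lit 4) (nat_lit 507) (nat_lit 381) (nat_lit 312)) (XT.lf (nat_lit 0) (nat_lit 252265656402) (nat_lit 152) (nat_lit 1882361887741) (nat_lit 0)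 (nat_lit 250572724032) (nat_lit 1) (nat_lit 5) (nat_lit 3) (nat_lit 4) (nat_lit 1) (nat_lit 4) (nat_lit 508) (nat_lit 381) (nat_lit 311))))))) (XT.nd (nat_lit 858) (nat_lit 0) (nat_lit 0) (XT.nd (nat_lit 390) (nat_lit 0) (nat_lit 0) (XT.nd (nat_lit 156) (nat_lit 0) (nat_lit 0) (XT.nd (nat_lit 78) (nat_lit 0) (nat_lit 0) (XT.lf (nat_lit 0) (nat_lit 280135356909) (nat_lit 152) (nat_lit 2016813057582) (nat_lit 0) (nat_lit 278441848258) (nat_lit 1) (nat_lit 5) (nat_lit 3) (nat_lit 4) (nat_lit 1) (nat_lit 4) (nat_lit 509) (nat_lit 381) (nat_lit 310)) (XT.lf (nat_lit 0) (nat_lit 310229571827) (nat_lit 152) (nat_lit 2162030760455) (nat_lit 0) (nat_lit 308535529583) (nat_lit 1) (nat_lit 5) (nat_lit 3) (nat_lit 4) (nat_lit 1) (nat_lit 4) (nat_lit 510) (nat_lit 381) (nat_lit 309))) (XT.nd (nat_lit 78) (nat_lit 0) (nat_lit 0) (XT.lf (nat_lit 0) (nat_lit 342726637244) (nat_lit 152) (nat_lit 2318875545709)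 (nat_lit 0) (nat_lit 341032100932) (nat_lit 1) (nat_lit 5) (nat_lit 3) (nat_lit 4) (nat_lit 1) (nat_lit 4) (nat_lit 511) (nat_lit 381) (nat_lit 308)) (XT.nd (nat_lit 78) (nat_lit 0) (nat_lit 0) (XT.lf (nat_lit 0) (nat_lit 377819128362) (nat_lit 152) (nat_lit 2488276863924) (nat_lit 0) (nat_lit 376124134579) (nat_lit 1) (nat_lit 5) (nat_lit 3) (nat_lit 4) (nat_lit 1) (nat_lit 4) (nat_lit 512) (nat_lit 381) (nat_lit 307)) (XT.lf (nat_lit 0) (nat_lit 415715000684) (nat_lit 152) (nat_lit 2671238574763) (nat_lit 0) (nat_lit 414019583318) (nat_lit 1) (nat_lit 5) (nat_lit 3) (nat_lit 4) (nat_lit 1) (nat_lit 4) (nat_lit 513) (nat_lit 381) (nat_lit 306))))) (XT.nd (nat_lit 234) (nat_lit 0) (nat_lit 0) (XT.nd (nat_lit 78) (nat_lit 0) (nat_lit 0) (XT.lf (nat_lit 0) (nat_lit 456638822343) (nat_lit 152) (nat_lit 2868844895773) (nat_lit 0) (nat_lit 454943012770) (nat_lit 1) (nat_lit 5) (nat_lit 3) (nat_lit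 4) (nat_lit 1) (nat_lit 4) (nat_lit 514) (nat_lit 381) (nat_lit 305)) (XT.nd (nat_lit 78) (nat_lit 0) (nat_lit 0) (XT.lf (nat_lit 0) (nat_lit 500833104874) (nat_lit 152) (nat_lit 3082266827373) (nat_lit 0) (nat_lit 499136932146) (nat_lit 1) (nat_lit 5) (nat_lit 3) (nat_lit 4) (nat_lit 1) (nat_lit 4) (nat_lit 515) (nat_lit 381) (nat_lit 304)) (XT.lf (nat_lit 0) (nat_lit 548559740321) (nat_lit 152) (nat_lit 3312769092121) (nat_lit 0) (nat_lit 546863231339) (nat_lit 1) (nat_lit 5) (nat_lit 3) (nat_lit 4) (nat_lit 1) (nat_lit 4) (nat_lit 516) (nat_lit 381) (nat_lit 303)))) (XT.nd (nat_lit 78) (nat_lit 0) (nat_lit 0) (XT.lf (nat_lit 0) (nat_lit 600101553192) (nat_lit 152) (nat_lit 3561717629365) (nat_lit 0) (nat_lit 598404732864) (nat_lit 1) (nat_lit 5) (nat_lit 3) (nat_lit 4) (nat_lit 1) (nat_lit 4) (nat_lit 517) (nat_lit 381) (nat_lit 302)) (XT.nd (nat_lit 78) (nat_lit 0) (nat_lit 0) (XT.lf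 (nat_lit 0) (nat_lit 655763976452) (nat_lit 152) (nat_lit 3830587689695) (nat_lit 0) (nat_lit 654066867839) (nat_lit 1) (nat_lit 5) (nat_lit 3) (nat_lit 4) (nat_lit 1) (nat_lit 4) (nat_lit 518) (nat_lit 381) (nat_lit 301)) (XT.lf (nat_lit 0) (nat_lit 715876861496) (nat_lit 152) (nat_lit 4120972577172) (nat_lit 0) (nat_lit 714179485954) (nat_lit 1) (nat_lit 5) (nat_lit 3) (nat_lit 4) (nat_lit 1) (nat_lit 4) (nat_lit 519) (nat_lit 381) (nat_lit 300)))))) (XT.nd (nat_lit 468) (nat_lit 0) (nat_lit 0) (XT.nd (nat_lit 234) (nat_lit 0) (nat_lit 0) (XT.nd (nat_lit 78) (nat_lit 0) (nat_lit 0) (XT.lf (nat_lit 0) (nat_lit 780796432831) (nat_lit 152) (nat_lit 4434593091130) (nat_lit 0) (nat_lit 779098810132) (nat_lit 1) (nat_lit 5) (nat_lit 3) (nat_lit 4) (nat_lit 1) (nat_lit 4) (nat_lit 520) (nat_lit 381) (nat_lit 299)) (XT.nd (nat_lit 78) (nat_lit 0) (nat_lit 0) (XT.lf (nat_lit 0) (nat_lit 850907399025)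 (nat_lit 152) (nat_lit 4773307723504) (nat_lit 0) (nat_lit 849209547477) (nat_lit 1) (nat_lit 5) (nat_lit 3) (nat_lit 4) (nat_lit 1) (nat_lit 4) (nat_lit 521) (nat_lit 381) (nat_lit 298)) (XT.lf (nat_lit 0) (nat_lit 926625232472) (nat_lit 152) (nat_lit 5139123672113) (nat_lit 0) (nat_lit 924927169027) (nat_lit 1) (nat_lit 5) (nat_lit 3) (nat_lit 4) (nat_lit 1) (nat_lit 4) (nat_lit 522) (nat_lit 381) (nat_lit 297)))) (XT.nd (nat_lit 78) (nat_lit 0) (nat_lit 0) (XT.lf (nat_lit 0) (nat_lit 1008398631444) (nat_lit 152) (nat_lit 5534208735174) (nat_lit 0) (nat_lit 1006700371798) (nat_lit 1) (nat_lit 5) (nat_lit 3) (nat_lit 4) (nat_lit 1) (nat_lit 4) (nat_lit 523) (nat_lit 381) (nat_lit 296)) (XT.nd (nat_lit 78) (nat_lit 0) (nat_lit 0) (XT.lf (nat_lit 0) (nat_lit 1096712179046) (nat_lit 152) (nat_lit 5960904157503) (nat_lit 0) (nat_lit 1095013737732) (nat_lit 1) (nat_lit 5) (nat_lit 3) (nat_lit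 4) (nat_lit 1) (nat_lit 4) (nat_lit 524) (nat_lit 381) (nat_lit 295)) (XT.lf (nat_lit 0) (nat_lit 1192089214819) (nat_lit 152) (nat_lit 6421738504567) (nat_lit 0) (nat_lit 1190390605294) (nat_lit 1) (nat_lit 5) (nat_lit 3) (nat_lit 4) (nat_lit 1) (nat_lit 4) (nat_lit 525) (nat_lit 381) (nat_lit 294))))) (XT.nd (nat_lit 234) (nat_lit 0) (nat_lit 0) (XT.nd (nat_lit 78) (nat_lit 0) (nat_lit 0) (XT.lf (nat_lit 0) (nat_lit 1295094936013) (nat_lit 152) (nat_lit 6919442646570) (nat_lit 0) (nat_lit 1293396170737) (nat_lit 1) (nat_lit 5) (nat_lit 3) (nat_lit 4) (nat_lit 1) (nat_lit 4) (nat_lit 526) (nat_lit 381) (nat_lit 293)) (XT.nd (nat_lit 78) (nat_lit 0) (nat_lit 0) (XT.lf (nat_lit 0) (nat_lit 1406339746900) (nat_lit 152) (nat_lit 7456965941390) (nat_lit 0) (nat_lit 1404640837411) (nat_lit 1) (nat_lit 5) (nat_lit 3) (nat_lit 4) (nat_lit 1) (nat_lit 4) (nat_lit 527) (nat_lit 381) (nat_lit 292))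 (XT.lf (nat_lit 0) (nat_lit 1526482875990) (nat_lit 152) (nat_lit 8037493712257) (nat_lit 0) (nat_lit 1524783832970) (nat_lit 1) (nat_lit 5) (nat_lit 3) (nat_lit 4) (nat_lit 1) (nat_lit 4) (nat_lit 528) (nat_lit 381) (nat_lit 291)))) (XT.nd (nat_lit 78) (nat_lit 0) (nat_lit 0) (XT.lf (nat_lit 0) (nat_lit 1656236282567) (nat_lit 152) (nat_lit 8664466123739) (nat_lit 0) (nat_lit 1654537115906) (nat_lit 1) (nat_lit 5) (nat_lit 3) (nat_lit 4) (nat_lit 1) (nat_lit 4) (nat_lit 529) (nat_lit 381) (nat_lit 290)) (XT.nd (nat_lit 78) (nat_lit 0) (nat_lit 0) (XT.lf (nat_lit 0) (nat_lit 1796368875706) (nat_lit 152) (nat_lit 9341598567903) (nat_lit 0) (nat_lit 1794669594564) (nat_lit 1) (nat_lit 5) (nat_lit 3) (nat_lit 4) (nat_lit 1) (nat_lit 4) (nat_lit 530) (nat_lit 381) (nat_lit 289)) (XT.lf (nat_lit 0) (nat_lit 1947711070775) (nat_lit 152) (nat_lit 10072903681455) (nat_lit 0) (nat_lit 1946011683631)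 (nat_lit 1) (nat_lit 5) (nat_lit 3) (nat_lit 4) (nat_lit 1) (nat_lit 4) (nat_lit 531) (nat_lit 381) (nat_lit 288))))))))
noncomputable def xc49 : XT := (XT.nd (nat_lit 1794) (nat_lit 304) (nat_lit 0) (XT.nd (nat_lit 858) (nat_lit 608) (nat_lit 0) (XT.nd (nat_lit 390) (nat_lit 456) (nat_lit 0) (XT.nd (nat_lit 156) (nat_lit 228) (nat_lit 0) (XT.nd (nat_lit 78) (nat_lit 76) (nat_lit 0) (XT.lf (nat_lit 0) (nat_lit 2641915469) (nat_lit 152) (nat_lit 3372344518) (nat_lit 0) (nat_lit 2641915469) (nat_lit 25) (nat_lit 5) (nat_lit 27) (nat_lit 4) (nat_lit 25) (nat_lit 4) (nat_lit 436) (nat_lit 382) (nat_lit 382)) (XT.lf (nat_lit 0) (nat_lit 7632349163) (nat_lit 76) (nat_lit 5356063998) (nat_lit 76) (nat_lit 5104232036) (nat_lit 24) (nat_lit 4) (nat_lit 25) (nat_lit 5) (nat_lit 25) (nat_lit 4) (nat_lit 437) (nat_lit 382) (nat_lit 381))) (XT.nd (nat_lit 78) (nat_lit 76) (nat_lit 0) (XT.lf (nat_lit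 0) (nat_lit 2197650256) (nat_lit 152) (nat_lit 14989202725) (nat_lit 0) (nat_lit 1748567197) (nat_lit 22) (nat_lit 5) (nat_lit 24) (nat_lit 4) (nat_lit 22) (nat_lit 4) (nat_lit 438) (nat_lit 382) (nat_lit 380)) (XT.nd (nat_lit 78) (nat_lit 76) (nat_lit 0) (XT.lf (nat_lit 0) (nat_lit 9855152188) (nat_lit 152) (nat_lit 769939673) (nat_lit 0) (nat_lit 9206156799) (nat_lit 22) (nat_lit 5) (nat_lit 24) (nat_lit 4) (nat_lit 22) (nat_lit 4) (nat_lit 439) (nat_lit 382) (nat_lit 379)) (XT.lf (nat_lit 0) (nat_lit 14606214938) (nat_lit 76) (nat_lit 3513541321) (nat_lit 76) (nat_lit 2679441923) (nat_lit 21) (nat_lit 4) (nat_lit 22) (nat_lit 5) (nat_lit 22) (nat_lit 4) (nat_lit 440) (nat_lit 382) (nat_lit 378))))) (XT.nd (nat_lit 234) (nat_lit 228) (nat_lit 0) (XT.nd (nat_lit 78) (nat_lit 76) (nat_lit 0) (XT.lf (nat_lit 0) (nat_lit 4924527271) (nat_lit 152) (nat_lit 12917846027) (nat_lit 0) (nat_lit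 3993516160) (nat_lit 19) (nat_lit 5) (nat_lit 21) (nat_lit 4) (nat_lit 19) (nat_lit 4) (nat_lit 441) (nat_lit 382) (nat_lit 377)) (XT.nd (nat_lit 78) (nat_lit 0) (nat_lit 0) (XT.lf (nat_lit 0) (nat_lit 1862710065) (nat_lit 76) (nat_lit 11084399203) (nat_lit 76) (nat_lit 10006446561) (nat_lit 18) (nat_lit 4) (nat_lit 19) (nat_lit 5) (nat_lit 19) (nat_lit 4) (nat_lit 442) (nat_lit 382) (nat_lit 376)) (XT.lf (nat_lit 0) (nat_lit 17865022467) (nat_lit 76) (nat_lit 3754495987) (nat_lit 76) (nat_lit 2540486372) (nat_lit 18) (nat_lit 4) (nat_lit 19) (nat_lit 5) (nat_lit 19) (nat_lit 4) (nat_lit 443) (nat_lit 382) (nat_lit 375)))) (XT.nd (nat_lit 78) (nat_lit 76) (nat_lit 0) (XT.lf (nat_lit 0) (nat_lit 5245014852) (nat_lit 152) (nat_lit 16203170792) (nat_lit 0) (nat_lit 4004284951) (nat_lit 16) (nat_lit 5) (nat_lit 18) (nat_lit 4) (nat_lit 16) (nat_lit 4) (nat_lit 444) (nat_lit 382) (nat_lit 374))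 (XT.nd (nat_lit 78) (nat_lit 76) (nat_lit 0) (XT.lf (nat_lit 0) (nat_lit 13463262078) (nat_lit 152) (nat_lit 1269502902) (nat_lit 0) (nat_lit 12114525765) (nat_lit 16) (nat_lit 5) (nat_lit 18) (nat_lit 4) (nat_lit 16) (nat_lit 4) (nat_lit 445) (nat_lit 382) (nat_lit 373)) (XT.lf (nat_lit 0) (nat_lit 14995973548) (nat_lit 76) (nat_lit 7400919670) (nat_lit 76) (nat_lit 5952177421) (nat_lit 15) (nat_lit 4) (nat_lit 16) (nat_lit 5) (nat_lit 16) (nat_lit 4) (nat_lit 446) (nat_lit 382) (nat_lit 372)))))) (XT.nd (nat_lit 468) (nat_lit 228) (nat_lit 0) (XT.nd (nat_lit 234) (nat_lit 152) (nat_lit 0) (XT.nd (nat_lit 78) (nat_lit 76) (nat_lit 0) (XT.lf (nat_lit 0) (nat_lit 1762931353) (nat_lit 152) (nat_lit 27884915668) (nat_lit 0) (nat_lit 335764372) (nat_lit 13) (nat_lit 5) (nat_lit 15) (nat_lit 4) (nat_lit 13) (nat_lit 4) (nat_lit 447) (nat_lit 382) (nat_lit 371)) (XT.nd (nat_lit 78) (nat_lit 76)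 (nat_lit 0) (XT.lf (nat_lit 0) (nat_lit 10038865946) (nat_lit 152) (nat_lit 13144161526) (nat_lit 0) (nat_lit 8532311028) (nat_lit 13) (nat_lit 5) (nat_lit 15) (nat_lit 4) (nat_lit 13) (nat_lit 4) (nat_lit 448) (nat_lit 382) (nat_lit 370)) (XT.lf (nat_lit 0) (nat_lit 2323401494) (nat_lit 76) (nat_lit 16430071336) (nat_lit 76) (nat_lit 14850009070) (nat_lit 12) (nat_lit 4) (nat_lit 13) (nat_lit 5) (nat_lit 13) (nat_lit 4) (nat_lit 449) (nat_lit 382) (nat_lit 369)))) (XT.nd (nat_lit 78) (nat_lit 152) (nat_lit 0) (XT.lf (nat_lit 0) (nat_lit 19221609161) (nat_lit 76) (nat_lit 9031100409) (nat_lit 76) (nat_lit 7382975783) (nat_lit 12) (nat_lit 4) (nat_lit 13) (nat_lit 5) (nat_lit 13) (nat_lit 4) (nat_lit 450) (nat_lit 382) (nat_lit 368)) (XT.nd (nat_lit 78) (nat_lit 76) (nat_lit 0) (XT.lf (nat_lit 0) (nat_lit 389007287) (nat_lit 152) (nat_lit 902010171) (nat_lit 76) (nat_lit 36558807311) (nat_lit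 11) (nat_lit 5) (nat_lit 13) (nat_lit 5) (nat_lit 12) (nat_lit 4) (nat_lit 451) (nat_lit 382) (nat_lit 367)) (XT.lf (nat_lit 0) (nat_lit 8707743739) (nat_lit 152) (nat_lit 24422785513) (nat_lit 0) (nat_lit 7069319819) (nat_lit 10) (nat_lit 5) (nat_lit 12) (nat_lit 4) (nat_lit 10) (nat_lit 4) (nat_lit 452) (nat_lit 382) (nat_lit 366))))) (XT.nd (nat_lit 234) (nat_lit 152) (nat_lit 0) (XT.nd (nat_lit 78) (nat_lit 76) (nat_lit 0) (XT.lf (nat_lit 0) (nat_lit 17512074656) (nat_lit 152) (nat_lit 9416574180) (nat_lit 0) (nat_lit 15823622868) (nat_lit 10) (nat_lit 5) (nat_lit 12) (nat_lit 4) (nat_lit 10) (nat_lit 4) (nat_lit 453) (nat_lit 382) (nat_lit 365)) (XT.nd (nat_lit 78) (nat_lit 0) (nat_lit 0) (XT.lf (nat_lit 0) (nat_lit 6671791823) (nat_lit 76) (nat_lit 20288360943) (nat_lit 76) (nat_lit 18553587057) (nat_lit 9) (nat_lit 4) (nat_lit 10) (nat_lit 5) (nat_lit 10) (nat_lit 4) (nat_lit 454)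 (nat_lit 382) (nat_lit 364)) (XT.lf (nat_lit 0) (nat_lit 24142109116) (nat_lit 76) (nat_lit 13064154756) (nat_lit 76) (nat_lit 11286490038) (nat_lit 9) (nat_lit 4) (nat_lit 10) (nat_lit 5) (nat_lit 10) (nat_lit 4) (nat_lit 455) (nat_lit 382) (nat_lit 363)))) (XT.nd (nat_lit 78) (nat_lit 152) (nat_lit 0) (XT.lf (nat_lit 0) (nat_lit 42602045394) (nat_lit 76) (nat_lit 5470685990) (nat_lit 76) (nat_lit 3653307539) (nat_lit 9) (nat_lit 4) (nat_lit 10) (nat_lit 5) (nat_lit 10) (nat_lit 4) (nat_lit 456) (nat_lit 382) (nat_lit 362)) (XT.nd (nat_lit 78) (nat_lit 0) (nat_lit 0) (XT.lf (nat_lit 0) (nat_lit 4412498990) (nat_lit 152) (nat_lit 48096836759) (nat_lit 0) (nat_lit 2695693040) (nat_lit 7) (nat_lit 5) (nat_lit 9) (nat_lit 4) (nat_lit 7) (nat_lit 4) (nat_lit 457) (nat_lit 382) (nat_lit 361)) (XT.lf (nat_lit 0) (nat_lit 13135157615) (nat_lit 152) (nat_lit 34416048973) (nat_lit 0) (nat_lit 11386825622)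 (nat_lit 7) (nat_lit 5) (nat_lit 9) (nat_lit 4) (nat_lit 7) (nat_lit 4) (nat_lit 458) (nat_lit 382) (nat_lit 360))))))) (XT.nd (nat_lit 936) (nat_lit 76) (nat_lit 0) (XT.nd (nat_lit 468) (nat_lit 152) (nat_lit 0) (XT.nd (nat_lit 234) (nat_lit 0) (nat_lit 0) (XT.nd (nat_lit 78) (nat_lit 76) (nat_lit 0) (XT.lf (nat_lit 0) (nat_lit 22380554427) (nat_lit 152) (nat_lit 20000098137) (nat_lit 0) (nat_lit 20603031655) (nat_lit 7) (nat_lit 5) (nat_lit 9) (nat_lit 4) (nat_lit 7) (nat_lit 4) (nat_lit 459) (nat_lit 382) (nat_lit 359)) (XT.nd (nat_lit 78) (nat_lit 76) (nat_lit 0) (XT.lf (nat_lit 0) (nat_lit 32203476963) (nat_lit 152) (nat_lit 4763556393) (nat_lit 0) (nat_lit 30398925691) (nat_lit 7) (nat_lit 5) (nat_lit 9) (nat_lit 4) (nat_lit 7) (nat_lit 4) (nat_lit 460) (nat_lit 382) (nat_lit 358)) (XT.lf (nat_lit 0) (nat_lit 11983321132) (nat_lit 76) (nat_lit 30967013164) (nat_lit 76) (nat_lit 29137435504)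 (nat_lit 6) (nat_lit 4) (nat_lit 7) (nat_lit 5) (nat_lit 7) (nat_lit 4) (nat_lit 461) (nat_lit 382) (nat_lit 357)))) (XT.nd (nat_lit 78) (nat_lit 0) (nat_lit 0) (XT.lf (nat_lit 0) (nat_lit 30040613246) (nat_lit 76) (nat_lit 24500370401) (nat_lit 76) (nat_lit 22647620159) (nat_lit 6) (nat_lit 4) (nat_lit 7) (nat_lit 5) (nat_lit 7) (nat_lit 4) (nat_lit 462) (nat_lit 382) (nat_lit 356)) (XT.nd (nat_lit 78) (nat_lit 0) (nat_lit 0) (XT.lf (nat_lit 0) (nat_lit 49264485685) (nat_lit 76) (nat_lit 17659028296) (nat_lit 76) (nat_lit 15784821959) (nat_lit 6) (nat_lit 4) (nat_lit 7) (nat_lit 5) (nat_lit 7) (nat_lit 4) (nat_lit 463) (nat_lit 382) (nat_lit 355)) (XT.lf (nat_lit 0) (nat_lit 69768857694) (nat_lit 76) (nat_lit 10402445560) (nat_lit 76) (nat_lit 8508372469) (nat_lit 6) (nat_lit 4) (nat_lit 7) (nat_lit 5) (nat_lit 7) (nat_lit 4) (nat_lit 464) (nat_lit 382) (nat_lit 354))))) (XT.nd (nat_lit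 234) (nat_lit 0) (nat_lit 0) (XT.nd (nat_lit 78) (nat_lit 152) (nat_lit 0) (XT.lf (nat_lit 0) (nat_lit 91675236663) (nat_lit 76) (nat_lit 2687620223) (nat_lit 76) (nat_lit 775151990) (nat_lit 6) (nat_lit 4) (nat_lit 7) (nat_lit 5) (nat_lit 7) (nat_lit 4) (nat_lit 465) (nat_lit 382) (nat_lit 353)) (XT.nd (nat_lit 78) (nat_lit 0) (nat_lit 0) (XT.lf (nat_lit 0) (nat_lit 7557928059) (nat_lit 152) (nat_lit 88740333351) (nat_lit 0) (nat_lit 5771353269) (nat_lit 4) (nat_lit 5) (nat_lit 6) (nat_lit 4) (nat_lit 4) (nat_lit 4) (nat_lit 466) (nat_lit 382) (nat_lit 352)) (XT.lf (nat_lit 0) (nat_lit 16572598915) (nat_lit 152) (nat_lit 78205573216) (nat_lit 0) (nat_lit 14771421467) (nat_lit 4) (nat_lit 5) (nat_lit 6) (nat_lit 4) (nat_lit 4) (nat_lit 4) (nat_lit 467) (nat_lit 382) (nat_lit 351)))) (XT.nd (nat_lit 78) (nat_lit 0) (nat_lit 0) (XT.lf (nat_lit 0) (nat_lit 26206477623) (nat_lit 152) (nat_lit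 67037872367) (nat_lit 0) (nat_lit 24391779196) (nat_lit 4) (nat_lit 5) (nat_lit 6) (nat_lit 4) (nat_lit 4) (nat_lit 4) (nat_lit 468) (nat_lit 382) (nat_lit 350)) (XT.nd (nat_lit 78) (nat_lit 0) (nat_lit 0) (XT.lf (nat_lit 0) (nat_lit 36516653835) (nat_lit 152) (nat_lit 55171051834) (nat_lit 0) (nat_lit 34689435984) (nat_lit 4) (nat_lit 5) (nat_lit 6) (nat_lit 4) (nat_lit 4) (nat_lit 4) (nat_lit 469) (nat_lit 382) (nat_lit 349)) (XT.lf (nat_lit 0) (nat_lit 47564224893) (nat_lit 152) (nat_lit 42534789718) (nat_lit 0) (nat_lit 45725414981) (nat_lit 4) (nat_lit 5) (nat_lit 6) (nat_lit 4) (nat_lit 4) (nat_lit 4) (nat_lit 470) (nat_lit 382) (nat_lit 348)))))) (XT.nd (nat_lit 468) (nat_lit 0) (nat_lit 0) (XT.nd (nat_lit 234) (nat_lit 0) (nat_lit 0) (XT.nd (nat_lit 78) (nat_lit 76) (nat_lit 0) (XT.lf (nat_lit 0) (nat_lit 59414657883) (nat_lit 152) (nat_lit 29054204466) (nat_lit 0) (nat_lit 57565114582)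 (nat_lit 4) (nat_lit 5) (nat_lit 6) (nat_lit 4) (nat_lit 4) (nat_lit 4) (nat_lit 471) (nat_lit 382) (nat_lit 347)) (XT.nd (nat_lit 78) (nat_lit 76) (nat_lit 0) (XT.lf (nat_lit 0) (nat_lit 72138177595) (nat_lit 152) (nat_lit 14649411128) (nat_lit 0) (nat_lit 70278695970) (nat_lit 4) (nat_lit 5) (nat_lit 6) (nat_lit 4) (nat_lit 4) (nat_lit 4) (nat_lit 472) (nat_lit 382) (nat_lit 346)) (XT.lf (nat_lit 0) (nat_lit 805233051) (nat_lit 76) (nat_lit 85024315484) (nat_lit 76) (nat_lit 83155631709) (nat_lit 3) (nat_lit 4) (nat_lit 4) (nat_lit 5) (nat_lit 4) (nat_lit 4) (nat_lit 473) (nat_lit 382) (nat_lit 345)))) (XT.nd (nat_lit 78) (nat_lit 0) (nat_lit 0) (XT.lf (nat_lit 0) (nat_lit 18190175650) (nat_lit 76) (nat_lit 82758990886) (nat_lit 76) (nat_lit 80881786600) (nat_lit 3) (nat_lit 4) (nat_lit 4) (nat_lit 5) (nat_lit 4) (nat_lit 4) (nat_lit 474) (nat_lit 382) (nat_lit 344)) (XT.nd (nat_lit 78)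 (nat_lit 0) (nat_lit 0) (XT.lf (nat_lit 0) (nat_lit 36837026520) (nat_lit 76) (nat_lit 80378731644) (nat_lit 76) (nat_lit 78493637997) (nat_lit 3) (nat_lit 4) (nat_lit 4) (nat_lit 5) (nat_lit 4) (nat_lit 4) (nat_lit 475) (nat_lit 382) (nat_lit 343)) (XT.lf (nat_lit 0) (nat_lit 56856285518) (nat_lit 76) (nat_lit 77869432518) (nat_lit 76) (nat_lit 75977033906) (nat_lit 3) (nat_lit 4) (nat_lit 4) (nat_lit 5) (nat_lit 4) (nat_lit 4) (nat_lit 476) (nat_lit 382) (nat_lit 342))))) (XT.nd (nat_lit 234) (nat_lit 0) (nat_lit 0) (XT.nd (nat_lit 78) (nat_lit 0) (nat_lit 0) (XT.lf (nat_lit 0) (nat_lit 78366585290) (nat_lit 76) (nat_lit 75216223587) (nat_lit 76) (nat_lit 73317061120) (nat_lit 3) (nat_lit 4) (nat_lit 4) (nat_lit 5) (nat_lit 4) (nat_lit 4) (nat_lit 477) (nat_lit 382) (nat_lit 341)) (XT.nd (nat_lit 78) (nat_lit 0) (nat_lit 0) (XT.lf (nat_lit 0) (nat_lit 101495394279) (nat_lit 76) (nat_lit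 72403382132) (nat_lit 76) (nat_lit 70497956835) (nat_lit 3) (nat_lit 4) (nat_lit 4) (nat_lit 5) (nat_lit 4) (nat_lit 4) (nat_lit 478) (nat_lit 382) (nat_lit 340)) (XT.lf (nat_lit 0) (nat_lit 126379772095) (nat_lit 76) (nat_lit 69414239462) (nat_lit 76) (nat_lit 67503015250) (nat_lit 3) (nat_lit 4) (nat_lit 4) (nat_lit 5) (nat_lit 4) (nat_lit 4) (nat_lit 479) (nat_lit 382) (nat_lit 339)))) (XT.nd (nat_lit 78) (nat_lit 0) (nat_lit 0) (XT.lf (nat_lit 0) (nat_lit 153167181716) (nat_lit 76) (nat_lit 66231082140) (nat_lit 76) (nat_lit 64314488561) (nat_lit 3) (nat_lit 4) (nat_lit 4) (nat_lit 5) (nat_lit 4) (nat_lit 4) (nat_lit 480) (nat_lit 382) (nat_lit 338)) (XT.nd (nat_lit 78) (nat_lit 0) (nat_lit 0) (XT.lf (nat_lit 0) (nat_lit 182016363347) (nat_lit 76) (nat_lit 62835047012) (nat_lit 76) (nat_lit 60913481796) (nat_lit 3) (nat_lit 4) (nat_lit 4) (nat_lit 5) (nat_lit 4) (nat_lit 4) (nat_lit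 481) (nat_lit 382) (nat_lit 337)) (XT.lf (nat_lit 0) (nat_lit 213098275104) (nat_lit 76) (nat_lit 59206009424) (nat_lit 76) (nat_lit 57279840842) (nat_lit 3) (nat_lit 4) (nat_lit 4) (nat_lit 5) (nat_lit 4) (nat_lit 4) (nat_lit 482) (nat_lit 382) (nat_lit 336))))))))
noncomputable def xc50 : XT := (XT.nd (nat_lit 1794) (nat_lit 0) (nat_lit 0) (XT.nd (nat_lit 858) (nat_lit 0) (nat_lit 0) (XT.nd (nat_lit 390) (nat_lit 152) (nat_lit 0) (XT.nd (nat_lit 156) (nat_lit 0) (nat_lit 0) (XT.nd (nat_lit 78) (nat_lit 0) (nat_lit 0) (XT.lf (nat_lit 0) (nat_lit 246597106091) (nat_lit 76) (nat_lit 55322463968) (nat_lit 76) (nat_lit 53392033009) (nat_lit 3) (nat_lit 4) (nat_lit 4) (nat_lit 5) (nat_lit 4) (nat_lit 4) (nat_lit 483) (nat_lit 382) (nat_lit 335)) (XT.lf (nat_lit 0) (nat_lit 282711367900) (nat_lit 76) (nat_lit 51161397042) (nat_lit 76) (nat_lit 49227019439) (nat_lit 3) (nat_lit 4) (nat_lit 4)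 (nat_lit 5) (nat_lit 4) (nat_lit 4) (nat_lit 484) (nat_lit 382) (nat_lit 334))) (XT.nd (nat_lit 78) (nat_lit 0) (nat_lit 0) (XT.lf (nat_lit 0) (nat_lit 321655070971) (nat_lit 76) (nat_lit 46698150472) (nat_lit 76) (nat_lit 44760118568) (nat_lit 3) (nat_lit 4) (nat_lit 4) (nat_lit 5) (nat_lit 4) (nat_lit 4) (nat_lit 485) (nat_lit 382) (nat_lit 333)) (XT.nd (nat_lit 78) (nat_lit 0) (nat_lit 0) (XT.lf (nat_lit 0) (nat_lit 363658992804) (nat_lit 76) (nat_lit 41906275389) (nat_lit 76) (nat_lit 39964859873) (nat_lit 3) (nat_lit 4) (nat_lit 4) (nat_lit 5) (nat_lit 4) (nat_lit 4) (nat_lit 486) (nat_lit 382) (nat_lit 332)) (XT.lf (nat_lit 0) (nat_lit 408972045529) (nat_lit 76) (nat_lit 36757375496) (nat_lit 76) (nat_lit 34812827006) (nat_lit 3) (nat_lit 4) (nat_lit 4) (nat_lit 5) (nat_lit 4) (nat_lit 4) (nat_lit 487) (nat_lit 382) (nat_lit 331))))) (XT.nd (nat_lit 234) (nat_lit 152) (nat_lit 0)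 (XT.nd (nat_lit 78) (nat_lit 0) (nat_lit 0) (XT.lf (nat_lit 0) (nat_lit 457862750939) (nat_lit 76) (nat_lit 31220938793) (nat_lit 76) (nat_lit 29273489401) (nat_lit 3) (nat_lit 4) (nat_lit 4) (nat_lit 5) (nat_lit 4) (nat_lit 4) (nat_lit 488) (nat_lit 382) (nat_lit 330)) (XT.nd (nat_lit 78) (nat_lit 0) (nat_lit 0) (XT.lf (nat_lit 0) (nat_lit 510620831733) (nat_lit 76) (nat_lit 25264156768) (nat_lit 76) (nat_lit 23314021356) (nat_lit 3) (nat_lit 4) (nat_lit 4) (nat_lit 5) (nat_lit 4) (nat_lit 4) (nat_lit 489) (nat_lit 382) (nat_lit 329)) (XT.lf (nat_lit 0) (nat_lit 567558928389) (nat_lit 76) (nat_lit 18851729970) (nat_lit 76) (nat_lit 16899107503) (nat_lit 3) (nat_lit 4) (nat_lit 4) (nat_lit 5) (nat_lit 4) (nat_lit 4) (nat_lit 490) (nat_lit 382) (nat_lit 328)))) (XT.nd (nat_lit 78) (nat_lit 152) (nat_lit 0) (XT.lf (nat_lit 0) (nat_lit 629014451852) (nat_lit 76) (nat_lit 11945658835) (nat_lit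 76) (nat_lit 9990733537) (nat_lit 3) (nat_lit 4) (nat_lit 4) (nat_lit 5) (nat_lit 4) (nat_lit 4) (nat_lit 491) (nat_lit 382) (nat_lit 327)) (XT.nd (nat_lit 78) (nat_lit 152) (nat_lit 0) (XT.lf (nat_lit 0) (nat_lit 695351583000) (nat_lit 76) (nat_lit 4505018495) (nat_lit 76) (nat_lit 2547960948) (nat_lit 3) (nat_lit 4) (nat_lit 4) (nat_lit 5) (nat_lit 4) (nat_lit 4) (nat_lit 492) (nat_lit 382) (nat_lit 326)) (XT.lf (nat_lit 0) (nat_lit 5517480917) (nat_lit 152) (nat_lit 748718820299) (nat_lit 0) (nat_lit 3703562536) (nat_lit 1) (nat_lit 5) (nat_lit 3) (nat_lit 4) (nat_lit 1) (nat_lit 4) (nat_lit 493) (nat_lit 382) (nat_lit 325)))))) (XT.nd (nat_lit 468) (nat_lit 0) (nat_lit 0) (XT.nd (nat_lit 234) (nat_lit 0) (nat_lit 0) (XT.nd (nat_lit 78) (nat_lit 0) (nat_lit 0) (XT.lf (nat_lit 0) (nat_lit 14389308995) (nat_lit 152) (nat_lit 790925783325) (nat_lit 0) (nat_lit 12573697965) (nat_lit 1) (nat_lit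 5) (nat_lit 3) (nat_lit 4) (nat_lit 1) (nat_lit 4) (nat_lit 494) (nat_lit 382) (nat_lit 324)) (XT.nd (nat_lit 78) (nat_lit 0) (nat_lit 0) (XT.lf (nat_lit 0) (nat_lit 23956016330) (nat_lit 152) (nat_lit 836539966061) (nat_lit 0) (nat_lit 22138838034) (nat_lit 1) (nat_lit 5) (nat_lit 3) (nat_lit 4) (nat_lit 1) (nat_lit 4) (nat_lit 495) (nat_lit 382) (nat_lit 323)) (XT.lf (nat_lit 0) (nat_lit 34274294523) (nat_lit 152) (nat_lit 885831674775) (nat_lit 0) (nat_lit 32455665053) (nat_lit 1) (nat_lit 5) (nat_lit 3) (nat_lit 4) (nat_lit 1) (nat_lit 4) (nat_lit 496) (nat_lit 382) (nat_lit 322)))) (XT.nd (nat_lit 78) (nat_lit 0) (nat_lit 0) (XT.lf (nat_lit 0) (nat_lit 45405288925) (nat_lit 152) (nat_lit 939093008481) (nat_lit 0) (nat_lit 43585315777) (nat_lit 1) (nat_lit 5) (nat_lit 3) (nat_lit 4) (nat_lit 1) (nat_lit 4) (nat_lit 497) (nat_lit 382) (nat_lit 321)) (XT.nd (nat_lit 78) (nat_lit 0) (nat_lit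 0) (XT.lf (nat_lit 0) (nat_lit 57414960985) (nat_lit 152) (nat_lit 996639589899) (nat_lit 0) (nat_lit 55593743690) (nat_lit 1) (nat_lit 5) (nat_lit 3) (nat_lit 4) (nat_lit 1) (nat_lit 4) (nat_lit 498) (nat_lit 382) (nat_lit 320)) (XT.lf (nat_lit 0) (nat_lit 70374479130) (nat_lit 152) (nat_lit 1058812435806) (nat_lit 0) (nat_lit 68552109847) (nat_lit 1) (nat_lit 5) (nat_lit 3) (nat_lit 4) (nat_lit 1) (nat_lit 4) (nat_lit 499) (nat_lit 382) (nat_lit 319))))) (XT.nd (nat_lit 234) (nat_lit 0) (nat_lit 0) (XT.nd (nat_lit 78) (nat_lit 0) (nat_lit 0) (XT.lf (nat_lit 0) (nat_lit 84360640505) (nat_lit 152) (nat_lit 1125979977883) (nat_lit 0) (nat_lit 82537204565) (nat_lit 1) (nat_lit 5) (nat_lit 3) (nat_lit 4) (nat_lit 1) (nat_lit 4) (nat_lit 500) (nat_lit 382) (nat_lit 318)) (XT.nd (nat_lit 78) (nat_lit 0) (nat_lit 0) (XT.lf (nat_lit 0) (nat_lit 99456326065) (nat_lit 152) (nat_lit 1198540246007)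 (nat_lit 0) (nat_lit 97631902481) (nat_lit 1) (nat_lit 5) (nat_lit 3) (nat_lit 4) (nat_lit 1) (nat_lit 4) (nat_lit 501) (nat_lit 382) (nat_lit 317)) (XT.lf (nat_lit 0) (nat_lit 115750991725) (nat_lit 152) (nat_lit 1276923226954) (nat_lit 0) (nat_lit 113925653656) (nat_lit 1) (nat_lit 5) (nat_lit 3) (nat_lit 4) (nat_lit 1) (nat_lit 4) (nat_lit 502) (nat_lit 382) (nat_lit 316)))) (XT.nd (nat_lit 78) (nat_lit 0) (nat_lit 0) (XT.lf (nat_lit 0) (nat_lit 133341198467) (nat_lit 152) (nat_lit 1361593412462) (nat_lit 0) (nat_lit 131515013653) (nat_lit 1) (nat_lit 5) (nat_lit 3) (nat_lit 4) (nat_lit 1) (nat_lit 4) (nat_lit 503) (nat_lit 382) (nat_lit 315)) (XT.nd (nat_lit 78) (nat_lit 0) (nat_lit 0) (XT.lf (nat_lit 0) (nat_lit 152331184553) (nat_lit 152) (nat_lit 1453052551779) (nat_lit 0) (nat_lit 150504215715) (nat_lit 1) (nat_lit 5) (nat_lit 3) (nat_lit 4) (nat_lit 1) (nat_lit 4) (nat_lit 504)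 (nat_lit 382) (nat_lit 314)) (XT.lf (nat_lit 0) (nat_lit 172833483234) (nat_lit 152) (nat_lit 1551842624989) (nat_lit 0) (nat_lit 171005788448) (nat_lit 1) (nat_lit 5) (nat_lit 3) (nat_lit 4) (nat_lit 1) (nat_lit 4) (nat_lit 505) (nat_lit 382) (nat_lit 313))))))) (XT.nd (nat_lit 936) (nat_lit 0) (nat_lit 0) (XT.nd (nat_lit 468) (nat_lit 0) (nat_lit 0) (XT.nd (nat_lit 234) (nat_lit 0) (nat_lit 0) (XT.nd (nat_lit 78) (nat_lit 0) (nat_lit 0) (XT.lf (nat_lit 0) (nat_lit 194969589613) (nat_lit 152) (nat_lit 1658549054749) (nat_lit 0) (nat_lit 193141222654) (nat_lit 1) (nat_lit 5) (nat_lit 3) (nat_lit 4) (nat_lit 1) (nat_lit 4) (nat_lit 506) (nat_lit 382) (nat_lit 312)) (XT.nd (nat_lit 78) (nat_lit 0) (nat_lit 0) (XT.lf (nat_lit 0) (nat_lit 218870680617) (nat_lit 152) (nat_lit 1773804175457) (nat_lit 0) (nat_lit 217041691274) (nat_lit 1) (nat_lit 5) (nat_lit 3) (nat_lit 4) (nat_lit 1) (nat_lit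 4) (nat_lit 507) (nat_lit 382) (nat_lit 311)) (XT.lf (nat_lit 0) (nat_lit 244678392341) (nat_lit 152) (nat_lit 1898290980420) (nat_lit 0) (nat_lit 242848826717) (nat_lit 1) (nat_lit 5) (nat_lit 3) (nat_lit 4) (nat_lit 1) (nat_lit 4) (nat_lit 508) (nat_lit 382) (nat_lit 310)))) (XT.nd (nat_lit 78) (nat_lit 0) (nat_lit 0) (XT.lf (nat_lit 0) (nat_lit 272545659372) (nat_lit 152) (nat_lit 2032747169225) (nat_lit 0) (nat_lit 270715560155) (nat_lit 1) (nat_lit 5) (nat_lit 3) (nat_lit 4) (nat_lit 1) (nat_lit 4) (nat_lit 509) (nat_lit 382) (nat_lit 309)) (XT.nd (nat_lit 78) (nat_lit 0) (nat_lit 0) (XT.lf (nat_lit 0) (nat_lit 302637621072) (nat_lit 152) (nat_lit 2177969519286) (nat_lit 0) (nat_lit 300807027787) (nat_lit 1) (nat_lit 5) (nat_lit 3) (nat_lit 4) (nat_lit 1) (nat_lit 4) (nat_lit 510) (nat_lit 382) (nat_lit 308)) (XT.lf (nat_lit 0) (nat_lit 335132600175) (nat_lit 152) (nat_lit 2334818607492)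 (nat_lit 0) (nat_lit 333301549420) (nat_lit 1) (nat_lit 5) (nat_lit 3) (nat_lit 4) (nat_lit 1) (nat_lit 4) (nat_lit 511) (nat_lit 382) (nat_lit 307))))) (XT.nd (nat_lit 234) (nat_lit 0) (nat_lit 0) (XT.nd (nat_lit 78) (nat_lit 0) (nat_lit 0) (XT.lf (nat_lit 0) (nat_lit 370223159521) (nat_lit 152) (nat_lit 2504223909922) (nat_lit 0) (nat_lit 368391685182) (nat_lit 1) (nat_lit 5) (nat_lit 3) (nat_lit 4) (nat_lit 1) (nat_lit 4) (nat_lit 512) (nat_lit 382) (nat_lit 306)) (XT.nd (nat_lit 78) (nat_lit 0) (nat_lit 0) (XT.lf (nat_lit 0) (nat_lit 408117243166) (nat_lit 152) (nat_lit 2687189309850) (nat_lit 0) (nat_lit 406285376620) (nat_lit 1) (nat_lit 5) (nat_lit 3) (nat_lit 4) (nat_lit 1) (nat_lit 4) (nat_lit 513) (nat_lit 382) (nat_lit 305)) (XT.lf (nat_lit 0) (nat_lit 449039408641) (nat_lit 152) (nat_lit 2884799046681) (nat_lit 0) (nat_lit 447207178941) (nat_lit 1) (nat_lit 5) (nat_lit 3) (nat_lit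 4) (nat_lit 1) (nat_lit 4) (nat_lit 514) (nat_lit 382) (nat_lit 304)))) (XT.nd (nat_lit 78) (nat_lit 0) (nat_lit 0) (XT.lf (nat_lit 0) (nat_lit 493232157670) (nat_lit 152) (nat_lit 3098224141080) (nat_lit 0) (nat_lit 491399591715) (nat_lit 1) (nat_lit 5) (nat_lit 3) (nat_lit 4) (nat_lit 1) (nat_lit 4) (nat_lit 515) (nat_lit 382) (nat_lit 303)) (XT.nd (nat_lit 78) (nat_lit 0) (nat_lit 0) (XT.lf (nat_lit 0) (nat_lit 540957373207) (nat_lit 152) (nat_lit 3328729334345) (nat_lit 0) (nat_lit 539124495906) (nat_lit 1) (nat_lit 5) (nat_lit 3) (nat_lit 4) (nat_lit 1) (nat_lit 4) (nat_lit 516) (nat_lit 382) (nat_lit 302)) (XT.lf (nat_lit 0) (nat_lit 592497871347) (nat_lit 152) (nat_lit 3577680583179) (nat_lit 0) (nat_lit 590664705762) (nat_lit 1) (nat_lit 5) (nat_lit 3) (nat_lit 4) (nat_lit 1) (nat_lit 4) (nat_lit 517) (nat_lit 382) (nat_lit 301)))))) (XT.nd (nat_lit 468) (nat_lit 0) (nat_lit 0)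 (XT.nd (nat_lit 234) (nat_lit 0) (nat_lit 0) (XT.nd (nat_lit 78) (nat_lit 0) (nat_lit 0) (XT.lf (nat_lit 0) (nat_lit 648159077262) (nat_lit 152) (nat_lit 3846553154240) (nat_lit 0) (nat_lit 646325644748) (nat_lit 1) (nat_lit 5) (nat_lit 3) (nat_lit 4) (nat_lit 1) (nat_lit 4) (nat_lit 518) (nat_lit 382) (nat_lit 300)) (XT.nd (nat_lit 78) (nat_lit 0) (nat_lit 0) (XT.lf (nat_lit 0) (nat_lit 708270835137) (nat_lit 152) (nat_lit 4136940366468) (nat_lit 0) (nat_lit 706437155465) (nat_lit 1) (nat_lit 5) (nat_lit 3) (nat_lit 4) (nat_lit 1) (nat_lit 4) (nat_lit 519) (nat_lit 382) (nat_lit 299)) (XT.lf (nat_lit 0) (nat_lit 773189362795) (nat_lit 152) (nat_lit 4450563032974) (nat_lit 0) (nat_lit 771355454274) (nat_lit 1) (nat_lit 5) (nat_lit 3) (nat_lit 4) (nat_lit 1) (nat_lit 4) (nat_lit 520) (nat_lit 382) (nat_lit 298)))) (XT.nd (nat_lit 78) (nat_lit 0) (nat_lit 0) (XT.lf (nat_lit 0) (nat_lit 843299362623)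 (nat_lit 152) (nat_lit 4789279658446) (nat_lit 0) (nat_lit 841465242205) (nat_lit 1) (nat_lit 5) (nat_lit 3) (nat_lit 4) (nat_lit 1) (nat_lit 4) (nat_lit 521) (nat_lit 382) (nat_lit 297)) (XT.nd (nat_lit 78) (nat_lit 0) (nat_lit 0) (XT.lf (nat_lit 0) (nat_lit 919016301286) (nat_lit 152) (nat_lit 5155097452519) (nat_lit 0) (nat_lit 917181984667) (nat_lit 1) (nat_lit 5) (nat_lit 3) (nat_lit 4) (nat_lit 1) (nat_lit 4) (nat_lit 522) (nat_lit 382) (nat_lit 296)) (XT.lf (nat_lit 0) (nat_lit 1000788871754) (nat_lit 152) (nat_lit 5550184224341) (nat_lit 0) (nat_lit 998954373467) (nat_lit 1) (nat_lit 5) (nat_lit 3) (nat_lit 4) (nat_lit 1) (nat_lit 4) (nat_lit 523) (nat_lit 382) (nat_lit 295))))) (XT.nd (nat_lit 234) (nat_lit 0) (nat_lit 0) (XT.nd (nat_lit 78) (nat_lit 0) (nat_lit 0) (XT.lf (nat_lit 0) (nat_lit 1089101652223) (nat_lit 152) (nat_lit 5976881228856) (nat_lit 0) (nat_lit 1087266985725)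 (nat_lit 1) (nat_lit 5) (nat_lit 3) (nat_lit 4) (nat_lit 1) (nat_lit 4) (nat_lit 524) (nat_lit 382) (nat_lit 294)) (XT.nd (nat_lit 78) (nat_lit 0) (nat_lit 0) (XT.lf (nat_lit 0) (nat_lit 1184477977688) (nat_lit 152) (nat_lit 6437717040908) (nat_lit 0) (nat_lit 1182643155439) (nat_lit 1) (nat_lit 5) (nat_lit 3) (nat_lit 4) (nat_lit 1) (nat_lit 4) (nat_lit 525) (nat_lit 382) (nat_lit 293)) (XT.lf (nat_lit 0) (nat_lit 1287483041188) (nat_lit 152) (nat_lit 6935422539380) (nat_lit 0) (nat_lit 1285648074725) (nat_lit 1) (nat_lit 5) (nat_lit 3) (nat_lit 4) (nat_lit 1) (nat_lit 4) (nat_lit 526) (nat_lit 382) (nat_lit 292)))) (XT.nd (nat_lit 78) (nat_lit 0) (nat_lit 0) (XT.lf (nat_lit 0) (nat_lit 1398727243100) (nat_lit 152) (nat_lit 7472947090192) (nat_lit 0) (nat_lit 1396892143106) (nat_lit 1) (nat_lit 5) (nat_lit 3) (nat_lit 4) (nat_lit 1) (nat_lit 4) (nat_lit 527) (nat_lit 382) (nat_lit 291))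 (XT.nd (nat_lit 78) (nat_lit 0) (nat_lit 0) (XT.lf (nat_lit 0) (nat_lit 1518869808325) (nat_lit 152) (nat_lit 8053476024013) (nat_lit 0) (nat_lit 1517034584691) (nat_lit 1) (nat_lit 5) (nat_lit 3) (nat_lit 4) (nat_lit 1) (nat_lit 4) (nat_lit 528) (nat_lit 382) (nat_lit 290)) (XT.lf (nat_lit 0) (nat_lit 1648622692803) (nat_lit 152) (nat_lit 8680449512304) (nat_lit 0) (nat_lit 1646787354688) (nat_lit 1) (nat_lit 5) (nat_lit 3) (nat_lit 4) (nat_lit 1) (nat_lit 4) (nat_lit 529) (nat_lit 382) (nat_lit 289))))))))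
noncomputable def xc51 : XT := (XT.nd (nat_lit 56628) (nat_lit 0) (nat_lit 152) (XT.nd (nat_lit 55692) (nat_lit 0) (nat_lit 684) (XT.nd (nat_lit 55224) (nat_lit 0) (nat_lit 1368) (XT.nd (nat_lit 54990) (nat_lit 0) (nat_lit 1824) (XT.nd (nat_lit 78) (nat_lit 0) (nat_lit 0) (XT.lf (nat_lit 0) (nat_lit 1788754802519) (nat_lit 152) (nat_lit 9357582953514) (nat_lit 0) (nat_lit 1786919358402) (nat_lit 1) (nat_lit 5) (nat_lit 3) (nat_lit 4) (nat_lit 1) (nat_lit 4) (nat_lit 530) (nat_lit 382) (nat_lit 288)) (XT.lf (nat_lit 0) (nat_lit 1940096549972) (nat_lit 152) (nat_lit 10088888990257) (nat_lit 0) (nat_lit 1938261007706) (nat_lit 1) (nat_lit 5) (nat_lit 3) (nat_lit 4) (nat_lit 1) (nat_lit 4) (nat_lit 531) (nat_lit 382) (nat_lit 287))) (XT.nd (nat_lit 78) (nat_lit 228) (nat_lit 0) (XT.lf (nat_lit 0) (nat_lit 3705181105) (nat_lit 152) (nat_lit 536995896) (nat_lit 0) (nat_lit 3705181105) (nat_lit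 28) (nat_lit 5) (nat_lit 30) (nat_lit 4) (nat_lit 28) (nat_lit 4) (nat_lit 434) (nat_lit 383) (nat_lit 383)) (XT.nd (nat_lit 78) (nat_lit 152) (nat_lit 0) (XT.lf (nat_lit 0) (nat_lit 12879656618) (nat_lit 76) (nat_lit 2002128852) (nat_lit 76) (nat_lit 1708392052) (nat_lit 27) (nat_lit 4) (nat_lit 28) (nat_lit 5) (nat_lit 28) (nat_lit 4) (nat_lit 435) (nat_lit 383) (nat_lit 382)) (XT.lf (nat_lit 0) (nat_lit 5369219683) (nat_lit 152) (nat_lit 7112658968) (nat_lit 0) (nat_lit 4845409203) (nat_lit 25) (nat_lit 5) (nat_lit 27) (nat_lit 4) (nat_lit 25) (nat_lit 4) (nat_lit 436) (nat_lit 383) (nat_lit 381))))) (XT.nd (nat_lit 234) (nat_lit 228) (nat_lit 0) (XT.nd (nat_lit 78) (nat_lit 152) (nat_lit 0) (XT.lf (nat_lit 0) (nat_lit 6886348349) (nat_lit 76) (nat_lit 5996743909) (nat_lit 76) (nat_lit 5239755687) (nat_lit 24) (nat_lit 4) (nat_lit 25) (nat_lit 5) (nat_lit 25) (nat_lit 4) (nat_lit 437)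 (nat_lit 383) (nat_lit 380)) (XT.nd (nat_lit 78) (nat_lit 0) (nat_lit 0) (XT.lf (nat_lit 0) (nat_lit 1848086518) (nat_lit 152) (nat_lit 16188211296) (nat_lit 0) (nat_lit 947259168) (nat_lit 22) (nat_lit 5) (nat_lit 24) (nat_lit 4) (nat_lit 22) (nat_lit 4) (nat_lit 438) (nat_lit 383) (nat_lit 379)) (XT.lf (nat_lit 0) (nat_lit 9334060645) (nat_lit 152) (nat_lit 2310924932) (nat_lit 0) (nat_lit 8248129285) (nat_lit 22) (nat_lit 5) (nat_lit 24) (nat_lit 4) (nat_lit 22) (nat_lit 4) (nat_lit 439) (nat_lit 383) (nat_lit 378)))) (XT.nd (nat_lit 78) (nat_lit 152) (nat_lit 0) (XT.lf (nat_lit 0) (nat_lit 12650765075) (nat_lit 76) (nat_lit 4742048981) (nat_lit 76) (nat_lit 3484725020) (nat_lit 21) (nat_lit 4) (nat_lit 22) (nat_lit 5) (nat_lit 22) (nat_lit 4) (nat_lit 440) (nat_lit 383) (nat_lit 377)) (XT.nd (nat_lit 78) (nat_lit 0) (nat_lit 0) (XT.lf (nat_lit 0) (nat_lit 3906613269) (nat_lit 152) (nat_lit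 15433922413) (nat_lit 0) (nat_lit 2595482885) (nat_lit 19) (nat_lit 5) (nat_lit 21) (nat_lit 4) (nat_lit 19) (nat_lit 4) (nat_lit 441) (nat_lit 383) (nat_lit 376)) (XT.lf (nat_lit 0) (nat_lit 11726486809) (nat_lit 152) (nat_lit 1064120625) (nat_lit 0) (nat_lit 10279299452) (nat_lit 19) (nat_lit 5) (nat_lit 21) (nat_lit 4) (nat_lit 19) (nat_lit 4) (nat_lit 442) (nat_lit 383) (nat_lit 375)))))) (XT.nd (nat_lit 468) (nat_lit 228) (nat_lit 0) (XT.nd (nat_lit 234) (nat_lit 228) (nat_lit 0) (XT.nd (nat_lit 78) (nat_lit 152) (nat_lit 0) (XT.lf (nat_lit 0) (nat_lit 14572622914) (nat_lit 76) (nat_lit 5645675833) (nat_lit 76) (nat_lit 4072509798) (nat_lit 18) (nat_lit 4) (nat_lit 19) (nat_lit 5) (nat_lit 19) (nat_lit 4) (nat_lit 443) (nat_lit 383) (nat_lit 374)) (XT.nd (nat_lit 78) (nat_lit 0) (nat_lit 0) (XT.lf (nat_lit 0) (nat_lit 3498045737) (nat_lit 152) (nat_lit 20178102966) (nat_lit 0) (nat_lit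 1933404108) (nat_lit 16) (nat_lit 5) (nat_lit 18) (nat_lit 4) (nat_lit 16) (nat_lit 4) (nat_lit 444) (nat_lit 383) (nat_lit 373)) (XT.lf (nat_lit 0) (nat_lit 11570749988) (nat_lit 152) (nat_lit 5539167865) (nat_lit 0) (nat_lit 9906102422) (nat_lit 16) (nat_lit 5) (nat_lit 18) (nat_lit 4) (nat_lit 16) (nat_lit 4) (nat_lit 445) (nat_lit 383) (nat_lit 372)))) (XT.nd (nat_lit 78) (nat_lit 152) (nat_lit 0) (XT.lf (nat_lit 0) (nat_lit 10214204394) (nat_lit 76) (nat_lit 10040413056) (nat_lit 76) (nat_lit 8283167400) (nat_lit 15) (nat_lit 4) (nat_lit 16) (nat_lit 5) (nat_lit 16) (nat_lit 4) (nat_lit 446) (nat_lit 383) (nat_lit 371)) (XT.nd (nat_lit 78) (nat_lit 152) (nat_lit 0) (XT.lf (nat_lit 0) (nat_lit 26989600769) (nat_lit 76) (nat_lit 2522196559) (nat_lit 76) (nat_lit 679211931) (nat_lit 15) (nat_lit 4) (nat_lit 16) (nat_lit 5) (nat_lit 16) (nat_lit 4) (nat_lit 447) (nat_lit 383) (nat_lit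 370)) (XT.lf (nat_lit 0) (nat_lit 7352617844) (nat_lit 152) (nat_lit 19021031469) (nat_lit 0) (nat_lit 5572643247) (nat_lit 13) (nat_lit 5) (nat_lit 15) (nat_lit 4) (nat_lit 13) (nat_lit 4) (nat_lit 448) (nat_lit 383) (nat_lit 369))))) (XT.nd (nat_lit 234) (nat_lit 152) (nat_lit 0) (XT.nd (nat_lit 78) (nat_lit 76) (nat_lit 0) (XT.lf (nat_lit 0) (nat_lit 15887023355) (nat_lit 152) (nat_lit 3922844955) (nat_lit 0) (nat_lit 14038986398) (nat_lit 13) (nat_lit 5) (nat_lit 15) (nat_lit 4) (nat_lit 13) (nat_lit 4) (nat_lit 449) (nat_lit 383) (nat_lit 368)) (XT.nd (nat_lit 78) (nat_lit 0) (nat_lit 0) (XT.lf (nat_lit 0) (nat_lit 12522050968) (nat_lit 76) (nat_lit 12643848089) (nat_lit 76) (nat_lit 10732790428) (nat_lit 12) (nat_lit 4) (nat_lit 13) (nat_lit 5) (nat_lit 13) (nat_lit 4) (nat_lit 450) (nat_lit 383) (nat_lit 367)) (XT.lf (nat_lit 0) (nat_lit 30030428037) (nat_lit 76) (nat_lit 5030783855)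 (nat_lit 76) (nat_lit 3061373690) (nat_lit 12) (nat_lit 4) (nat_lit 13) (nat_lit 5) (nat_lit 13) (nat_lit 4) (nat_lit 451) (nat_lit 383) (nat_lit 366)))) (XT.nd (nat_lit 78) (nat_lit 0) (nat_lit 0) (XT.lf (nat_lit 0) (nat_lit 5019027431) (nat_lit 152) (nat_lit 32345321056) (nat_lit 0) (nat_lit 3145471634) (nat_lit 10) (nat_lit 5) (nat_lit 12) (nat_lit 4) (nat_lit 10) (nat_lit 4) (nat_lit 452) (nat_lit 383) (nat_lit 365)) (XT.nd (nat_lit 78) (nat_lit 0) (nat_lit 0) (XT.lf (nat_lit 0) (nat_lit 13717081409) (nat_lit 152) (nat_lit 17556461782) (nat_lit 0) (nat_lit 11797203513) (nat_lit 10) (nat_lit 5) (nat_lit 12) (nat_lit 4) (nat_lit 10) (nat_lit 4) (nat_lit 453) (nat_lit 383) (nat_lit 364)) (XT.lf (nat_lit 0) (nat_lit 22906298193) (nat_lit 152) (nat_lit 2003097733) (nat_lit 0) (nat_lit 20943529466) (nat_lit 10) (nat_lit 5) (nat_lit 12) (nat_lit 4) (nat_lit 10) (nat_lit 4) (nat_lit 454) (nat_lit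 383) (nat_lit 363))))))) (XT.nd (nat_lit 936) (nat_lit 76) (nat_lit 0) (XT.nd (nat_lit 468) (nat_lit 228) (nat_lit 0) (XT.nd (nat_lit 234) (nat_lit 152) (nat_lit 0) (XT.nd (nat_lit 78) (nat_lit 0) (nat_lit 0) (XT.lf (nat_lit 0) (nat_lit 15165583059) (nat_lit 76) (nat_lit 17840281980) (nat_lit 76) (nat_lit 15837799519) (nat_lit 9) (nat_lit 4) (nat_lit 10) (nat_lit 5) (nat_lit 10) (nat_lit 4) (nat_lit 455) (nat_lit 383) (nat_lit 362)) (XT.nd (nat_lit 78) (nat_lit 0) (nat_lit 0) (XT.lf (nat_lit 0) (nat_lit 33443892558) (nat_lit 76) (nat_lit 10339705805) (nat_lit 76) (nat_lit 8300451369) (nat_lit 9) (nat_lit 4) (nat_lit 10) (nat_lit 5) (nat_lit 10) (nat_lit 4) (nat_lit 456) (nat_lit 383) (nat_lit 361)) (XT.lf (nat_lit 0) (nat_lit 52834667093) (nat_lit 76) (nat_lit 2417987784) (nat_lit 76) (nat_lit 344685223) (nat_lit 9) (nat_lit 4) (nat_lit 10) (nat_lit 5) (nat_lit 10) (nat_lit 4) (nat_lit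 457) (nat_lit 383) (nat_lit 360)))) (XT.nd (nat_lit 78) (nat_lit 0) (nat_lit 0) (XT.lf (nat_lit 0) (nat_lit 8181135113) (nat_lit 152) (nat_lit 44934779443) (nat_lit 0) (nat_lit 6232219739) (nat_lit 7) (nat_lit 5) (nat_lit 9) (nat_lit 4) (nat_lit 7) (nat_lit 4) (nat_lit 458) (nat_lit 383) (nat_lit 359)) (XT.nd (nat_lit 78) (nat_lit 0) (nat_lit 0) (XT.lf (nat_lit 0) (nat_lit 17348596338) (nat_lit 152) (nat_lit 30678773395) (nat_lit 0) (nat_lit 15372652465) (nat_lit 7) (nat_lit 5) (nat_lit 9) (nat_lit 4) (nat_lit 7) (nat_lit 4) (nat_lit 459) (nat_lit 383) (nat_lit 358)) (XT.lf (nat_lit 0) (nat_lit 27099356294) (nat_lit 152) (nat_lit 15590328676) (nat_lit 0) (nat_lit 25098386032) (nat_lit 7) (nat_lit 5) (nat_lit 9) (nat_lit 4) (nat_lit 7) (nat_lit 4) (nat_lit 460) (nat_lit 383) (nat_lit 357))))) (XT.nd (nat_lit 234) (nat_lit 152) (nat_lit 0) (XT.nd (nat_lit 78) (nat_lit 0) (nat_lit 0) (XT.lf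 (nat_lit 0) (nat_lit 442082473) (nat_lit 76) (nat_lit 37059746883) (nat_lit 76) (nat_lit 35035604039) (nat_lit 6) (nat_lit 4) (nat_lit 7) (nat_lit 5) (nat_lit 7) (nat_lit 4) (nat_lit 461) (nat_lit 383) (nat_lit 356)) (XT.nd (nat_lit 78) (nat_lit 0) (nat_lit 0) (XT.lf (nat_lit 0) (nat_lit 18365719277) (nat_lit 76) (nat_lit 30661677235) (nat_lit 76) (nat_lit 28616078296) (nat_lit 6) (nat_lit 4) (nat_lit 7) (nat_lit 5) (nat_lit 7) (nat_lit 4) (nat_lit 462) (nat_lit 383) (nat_lit 355)) (XT.lf (nat_lit 0) (nat_lit 37465836800) (nat_lit 76) (nat_lit 23883828754) (nat_lit 76) (nat_lit 21818363061) (nat_lit 6) (nat_lit 4) (nat_lit 7) (nat_lit 5) (nat_lit 7) (nat_lit 4) (nat_lit 463) (nat_lit 383) (nat_lit 354)))) (XT.nd (nat_lit 78) (nat_lit 152) (nat_lit 0) (XT.lf (nat_lit 0) (nat_lit 57855620924) (nat_lit 76) (nat_lit 16686036411) (nat_lit 76) (nat_lit 14602175576) (nat_lit 6) (nat_lit 4) (nat_lit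 7) (nat_lit 5) (nat_lit 7) (nat_lit 4) (nat_lit 464) (nat_lit 383) (nat_lit 353)) (XT.nd (nat_lit 78) (nat_lit 152) (nat_lit 0) (XT.lf (nat_lit 0) (nat_lit 79655899999) (nat_lit 76) (nat_lit 9025646623) (nat_lit 76) (nat_lit 6924753249) (nat_lit 6) (nat_lit 4) (nat_lit 7) (nat_lit 5) (nat_lit 7) (nat_lit 4) (nat_lit 465) (nat_lit 383) (nat_lit 352)) (XT.lf (nat_lit 0) (nat_lit 391427460) (nat_lit 76) (nat_lit 814385859) (nat_lit 152) (nat_lit 101384736081) (nat_lit 4) (nat_lit 5) (nat_lit 5) (nat_lit 5) (nat_lit 6) (nat_lit 4) (nat_lit 466) (nat_lit 383) (nat_lit 351)))))) (XT.nd (nat_lit 468) (nat_lit 76) (nat_lit 0) (XT.nd (nat_lit 234) (nat_lit 0) (nat_lit 0) (XT.nd (nat_lit 78) (nat_lit 0) (nat_lit 0) (XT.lf (nat_lit 0) (nat_lit 10151876148) (nat_lit 152) (nat_lit 91745660468) (nat_lit 0) (nat_lit 8178480869) (nat_lit 4) (nat_lit 5) (nat_lit 6) (nat_lit 4) (nat_lit 4) (nat_lit 4) (nat_lit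 467) (nat_lit 383) (nat_lit 350)) (XT.nd (nat_lit 78) (nat_lit 0) (nat_lit 0) (XT.lf (nat_lit 0) (nat_lit 19740364091) (nat_lit 152) (nat_lit 80671371342) (nat_lit 0) (nat_lit 17754449386) (nat_lit 4) (nat_lit 5) (nat_lit 6) (nat_lit 4) (nat_lit 4) (nat_lit 4) (nat_lit 468) (nat_lit 383) (nat_lit 349)) (XT.lf (nat_lit 0) (nat_lit 30008511817) (nat_lit 152) (nat_lit 68891043145) (nat_lit 0) (nat_lit 28011005052) (nat_lit 4) (nat_lit 5) (nat_lit 6) (nat_lit 4) (nat_lit 4) (nat_lit 4) (nat_lit 469) (nat_lit 383) (nat_lit 348)))) (XT.nd (nat_lit 78) (nat_lit 0) (nat_lit 0) (XT.lf (nat_lit 0) (nat_lit 41017167610) (nat_lit 152) (nat_lit 56334866526) (nat_lit 0) (nat_lit 39008927455) (nat_lit 4) (nat_lit 5) (nat_lit 6) (nat_lit 4) (nat_lit 4) (nat_lit 4) (nat_lit 470) (nat_lit 383) (nat_lit 347)) (XT.nd (nat_lit 78) (nat_lit 0) (nat_lit 0) (XT.lf (nat_lit 0) (nat_lit 52831567947) (nat_lit 152)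 (nat_lit 42928434511) (nat_lit 0) (nat_lit 50813389469) (nat_lit 4) (nat_lit 5) (nat_lit 6) (nat_lit 4) (nat_lit 4) (nat_lit 4) (nat_lit 471) (nat_lit 383) (nat_lit 346)) (XT.lf (nat_lit 0) (nat_lit 65521724090) (nat_lit 152) (nat_lit 28592301579) (nat_lit 0) (nat_lit 63494343462) (nat_lit 4) (nat_lit 5) (nat_lit 6) (nat_lit 4) (nat_lit 4) (nat_lit 4) (nat_lit 472) (nat_lit 383) (nat_lit 345))))) (XT.nd (nat_lit 234) (nat_lit 0) (nat_lit 0) (XT.nd (nat_lit 78) (nat_lit 76) (nat_lit 0) (XT.lf (nat_lit 0) (nat_lit 79162836965) (nat_lit 152) (nat_lit 13241512866) (nat_lit 0) (nat_lit 77126935826) (nat_lit 4) (nat_lit 5) (nat_lit 6) (nat_lit 4) (nat_lit 4) (nat_lit 4) (nat_lit 473) (nat_lit 383) (nat_lit 344)) (XT.nd (nat_lit 78) (nat_lit 0) (nat_lit 0) (XT.lf (nat_lit 0) (nat_lit 3384190160) (nat_lit 76) (nat_lit 90532942490) (nat_lit 76) (nat_lit 88489151990) (nat_lit 3) (nat_lit 4) (nat_lit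 4) (nat_lit 5) (nat_lit 4) (nat_lit 4) (nat_lit 474) (nat_lit 383) (nat_lit 343)) (XT.lf (nat_lit 0) (nat_lit 21973666058) (nat_lit 76) (nat_lit 88182193275) (nat_lit 76) (nat_lit 86131097810) (nat_lit 3) (nat_lit 4) (nat_lit 4) (nat_lit 5) (nat_lit 4) (nat_lit 4) (nat_lit 475) (nat_lit 383) (nat_lit 342)))) (XT.nd (nat_lit 78) (nat_lit 0) (nat_lit 0) (XT.lf (nat_lit 0) (nat_lit 41939800082) (nat_lit 76) (nat_lit 85700218247) (nat_lit 76) (nat_lit 83642358927) (nat_lit 3) (nat_lit 4) (nat_lit 4) (nat_lit 5) (nat_lit 4) (nat_lit 4) (nat_lit 476) (nat_lit 383) (nat_lit 341)) (XT.nd (nat_lit 78) (nat_lit 0) (nat_lit 0) (XT.lf (nat_lit 0) (nat_lit 63400910064) (nat_lit 76) (nat_lit 83072309408) (nat_lit 76) (nat_lit 81008187258) (nat_lit 3) (nat_lit 4) (nat_lit 4) (nat_lit 5) (nat_lit 4) (nat_lit 4) (nat_lit 477) (nat_lit 383) (nat_lit 340)) (XT.lf (nat_lit 0) (nat_lit 86484172951) (nat_lit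 76) (nat_lit 80282893963) (nat_lit 76) (nat_lit 78212972897) (nat_lit 3) (nat_lit 4) (nat_lit 4) (nat_lit 5) (nat_lit 4) (nat_lit 4) (nat_lit 478) (nat_lit 383) (nat_lit 339))))))))
noncomputable def xc52 : XT := (XT.nd (nat_lit 1794) (nat_lit 0) (nat_lit 0) (XT.nd (nat_lit 858) (nat_lit 152) (nat_lit 0) (XT.nd (nat_lit 390) (nat_lit 0) (nat_lit 0) (XT.nd (nat_lit 156) (nat_lit 0) (nat_lit 0) (XT.nd (nat_lit 78) (nat_lit 0) (nat_lit 0) (XT.lf (nat_lit 0) (nat_lit 111326378449) (nat_lit 76) (nat_lit 77315442044) (nat_lit 76) (nat_lit 75240151612) (nat_lit 3) (nat_lit 4) (nat_lit 4) (nat_lit 5) (nat_lit 4) (nat_lit 4) (nat_lit 479) (nat_lit 383) (nat_lit 338)) (XT.lf (nat_lit 0) (nat_lit 138074739628) (nat_lit 76) (nat_lit 74152368751) (nat_lit 76) (nat_lit 72072106682) (nat_lit 3) (nat_lit 4) (nat_lit 4) (nat_lit 5) (nat_lit 4) (nat_lit 4) (nat_lit 480) (nat_lit 383) (nat_lit 337))) (XT.nd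 (nat_lit 78) (nat_lit 0) (nat_lit 0) (XT.lf (nat_lit 0) (nat_lit 166887765296) (nat_lit 76) (nat_lit 70774929945) (nat_lit 76) (nat_lit 68690064509) (nat_lit 3) (nat_lit 4) (nat_lit 4) (nat_lit 5) (nat_lit 4) (nat_lit 4) (nat_lit 481) (nat_lit 383) (nat_lit 336)) (XT.nd (nat_lit 78) (nat_lit 0) (nat_lit 0) (XT.lf (nat_lit 0) (nat_lit 197936199307) (nat_lit 76) (nat_lit 67163111174) (nat_lit 76) (nat_lit 65073983362) (nat_lit 3) (nat_lit 4) (nat_lit 4) (nat_lit 5) (nat_lit 4) (nat_lit 4) (nat_lit 482) (nat_lit 383) (nat_lit 335)) (XT.lf (nat_lit 0) (nat_lit 231404032382) (nat_lit 76) (nat_lit 63295509067) (nat_lit 76) (nat_lit 61202434611) (nat_lit 3) (nat_lit 4) (nat_lit 4) (nat_lit 5) (nat_lit 4) (nat_lit 4) (nat_lit 483) (nat_lit 383) (nat_lit 334))))) (XT.nd (nat_lit 234) (nat_lit 0) (nat_lit 0) (XT.nd (nat_lit 78) (nat_lit 0) (nat_lit 0) (XT.lf (nat_lit 0) (nat_lit 267489592420) (nat_lit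 76) (nat_lit 59149204502) (nat_lit 76) (nat_lit 57052475744) (nat_lit 3) (nat_lit 4) (nat_lit 4) (nat_lit 5) (nat_lit 4) (nat_lit 4) (nat_lit 484) (nat_lit 383) (nat_lit 333)) (XT.nd (nat_lit 78) (nat_lit 0) (nat_lit 0) (XT.lf (nat_lit 0) (nat_lit 306406719778) (nat_lit 76) (nat_lit 54699626784) (nat_lit 76) (nat_lit 52599514415) (nat_lit 3) (nat_lit 4) (nat_lit 4) (nat_lit 5) (nat_lit 4) (nat_lit 4) (nat_lit 485) (nat_lit 383) (nat_lit 332)) (XT.lf (nat_lit 0) (nat_lit 348386034470) (nat_lit 76) (nat_lit 49920408045) (nat_lit 76) (nat_lit 47817162702) (nat_lit 3) (nat_lit 4) (nat_lit 4) (nat_lit 5) (nat_lit 4) (nat_lit 4) (nat_lit 486) (nat_lit 383) (nat_lit 331)))) (XT.nd (nat_lit 78) (nat_lit 0) (nat_lit 0) (XT.lf (nat_lit 0) (nat_lit 393676302804) (nat_lit 76) (nat_lit 44783226990) (nat_lit 76) (nat_lit 42677080745) (nat_lit 3) (nat_lit 4) (nat_lit 4) (nat_lit 5) (nat_lit 4) (nat_lit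 4) (nat_lit 487) (nat_lit 383) (nat_lit 330)) (XT.nd (nat_lit 78) (nat_lit 0) (nat_lit 0) (XT.lf (nat_lit 0) (nat_lit 442545911555) (nat_lit 76) (nat_lit 39257641063) (nat_lit 76) (nat_lit 37148808798) (nat_lit 3) (nat_lit 4) (nat_lit 4) (nat_lit 5) (nat_lit 4) (nat_lit 4) (nat_lit 488) (nat_lit 383) (nat_lit 329)) (XT.lf (nat_lit 0) (nat_lit 495284458407) (nat_lit 76) (nat_lit 33310906052) (nat_lit 76) (nat_lit 31199586731) (nat_lit 3) (nat_lit 4) (nat_lit 4) (nat_lit 5) (nat_lit 4) (nat_lit 4) (nat_lit 489) (nat_lit 383) (nat_lit 328)))))) (XT.nd (nat_lit 468) (nat_lit 0) (nat_lit 0) (XT.nd (nat_lit 234) (nat_lit 152) (nat_lit 0) (XT.nd (nat_lit 78) (nat_lit 0) (nat_lit 0) (XT.lf (nat_lit 0) (nat_lit 552204468079) (nat_lit 76) (nat_lit 26907782046) (nat_lit 76) (nat_lit 24794159895) (nat_lit 3) (nat_lit 4) (nat_lit 4) (nat_lit 5) (nat_lit 4) (nat_lit 4) (nat_lit 490) (nat_lit 383) (nat_lit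 327)) (XT.nd (nat_lit 78) (nat_lit 0) (nat_lit 0) (XT.lf (nat_lit 0) (nat_lit 613643244335) (nat_lit 76) (nat_lit 20010324605) (nat_lit 76) (nat_lit 17894570206) (nat_lit 3) (nat_lit 4) (nat_lit 4) (nat_lit 5) (nat_lit 4) (nat_lit 4) (nat_lit 491) (nat_lit 383) (nat_lit 326)) (XT.lf (nat_lit 0) (nat_lit 679964868810) (nat_lit 76) (nat_lit 12577659909) (nat_lit 76) (nat_lit 10459931205) (nat_lit 3) (nat_lit 4) (nat_lit 4) (nat_lit 5) (nat_lit 4) (nat_lit 4) (nat_lit 492) (nat_lit 383) (nat_lit 325)))) (XT.nd (nat_lit 78) (nat_lit 152) (nat_lit 0) (XT.lf (nat_lit 0) (nat_lit 751562358538) (nat_lit 76) (nat_lit 4565742537) (nat_lit 76) (nat_lit 2446185772) (nat_lit 3) (nat_lit 4) (nat_lit 4) (nat_lit 5) (nat_lit 4) (nat_lit 4) (nat_lit 493) (nat_lit 383) (nat_lit 324)) (XT.nd (nat_lit 78) (nat_lit 0) (nat_lit 0) (XT.lf (nat_lit 0) (nat_lit 6248928607) (nat_lit 152) (nat_lit 808018109064) (nat_lit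 0) (nat_lit 4284808780) (nat_lit 1) (nat_lit 5) (nat_lit 3) (nat_lit 4) (nat_lit 1) (nat_lit 4) (nat_lit 494) (nat_lit 383) (nat_lit 323)) (XT.lf (nat_lit 0) (nat_lit 15809017804) (nat_lit 152) (nat_lit 853645941492) (nat_lit 0) (nat_lit 13843446803) (nat_lit 1) (nat_lit 5) (nat_lit 3) (nat_lit 4) (nat_lit 1) (nat_lit 4) (nat_lit 495) (nat_lit 383) (nat_lit 322))))) (XT.nd (nat_lit 234) (nat_lit 0) (nat_lit 0) (XT.nd (nat_lit 78) (nat_lit 0) (nat_lit 0) (XT.lf (nat_lit 0) (nat_lit 26121168090) (nat_lit 152) (nat_lit 902950288809) (nat_lit 0) (nat_lit 24154253410) (nat_lit 1) (nat_lit 5) (nat_lit 3) (nat_lit 4) (nat_lit 1) (nat_lit 4) (nat_lit 496) (nat_lit 383) (nat_lit 321)) (XT.nd (nat_lit 78) (nat_lit 0) (nat_lit 0) (XT.lf (nat_lit 0) (nat_lit 37246488504) (nat_lit 152) (nat_lit 956223324927) (nat_lit 0) (nat_lit 35278329678) (nat_lit 1) (nat_lit 5) (nat_lit 3) (nat_lit 4) (nat_lit 1)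 (nat_lit 4) (nat_lit 497) (nat_lit 383) (nat_lit 320)) (XT.lf (nat_lit 0) (nat_lit 49250906872) (nat_lit 152) (nat_lit 1013780741910) (nat_lit 0) (nat_lit 47281596058) (nat_lit 1) (nat_lit 5) (nat_lit 3) (nat_lit 4) (nat_lit 1) (nat_lit 4) (nat_lit 498) (nat_lit 383) (nat_lit 319)))) (XT.nd (nat_lit 78) (nat_lit 0) (nat_lit 0) (XT.lf (nat_lit 0) (nat_lit 62205560487) (nat_lit 152) (nat_lit 1075963620748) (nat_lit 0) (nat_lit 60235183017) (nat_lit 1) (nat_lit 5) (nat_lit 3) (nat_lit 4) (nat_lit 1) (nat_lit 4) (nat_lit 499) (nat_lit 383) (nat_lit 318)) (XT.nd (nat_lit 78) (nat_lit 0) (nat_lit 0) (XT.lf (nat_lit 0) (nat_lit 76187217667) (nat_lit 152) (nat_lit 1143140452576) (nat_lit 0) (nat_lit 74215852553) (nat_lit 1) (nat_lit 5) (nat_lit 3) (nat_lit 4) (nat_lit 1) (nat_lit 4) (nat_lit 500) (nat_lit 383) (nat_lit 317)) (XT.lf (nat_lit 0) (nat_lit 91278732677) (nat_lit 152) (nat_lit 1215709322322)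 (nat_lit 0) (nat_lit 89306453078) (nat_lit 1) (nat_lit 5) (nat_lit 3) (nat_lit 4) (nat_lit 1) (nat_lit 4) (nat_lit 501) (nat_lit 383) (nat_lit 316))))))) (XT.nd (nat_lit 858) (nat_lit 0) (nat_lit 0) (XT.nd (nat_lit 390) (nat_lit 0) (nat_lit 0) (XT.nd (nat_lit 156) (nat_lit 0) (nat_lit 0) (XT.nd (nat_lit 78) (nat_lit 0) (nat_lit 0) (XT.lf (nat_lit 0) (nat_lit 107569536716) (nat_lit 152) (nat_lit 1294100267733) (nat_lit 0) (nat_lit 105596410372) (nat_lit 1) (nat_lit 5) (nat_lit 3) (nat_lit 4) (nat_lit 1) (nat_lit 4) (nat_lit 502) (nat_lit 383) (nat_lit 315)) (XT.lf (nat_lit 0) (nat_lit 125156167884) (nat_lit 152) (nat_lit 1378777827745) (nat_lit 0) (nat_lit 123182257515) (nat_lit 1) (nat_lit 5) (nat_lit 3) (nat_lit 4) (nat_lit 1) (nat_lit 4) (nat_lit 503) (nat_lit 383) (nat_lit 314))) (XT.nd (nat_lit 78) (nat_lit 0) (nat_lit 0) (XT.lf (nat_lit 0) (nat_lit 144142843253) (nat_lit 152) (nat_lit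 1470243795306) (nat_lit 0) (nat_lit 142168206936) (nat_lit 1) (nat_lit 5) (nat_lit 3) (nat_lit 4) (nat_lit 1) (nat_lit 4) (nat_lit 504) (nat_lit 383) (nat_lit 313)) (XT.nd (nat_lit 78) (nat_lit 0) (nat_lit 0) (XT.lf (nat_lit 0) (nat_lit 164642076455) (nat_lit 152) (nat_lit 1569040190964) (nat_lit 0) (nat_lit 162666767964) (nat_lit 1) (nat_lit 5) (nat_lit 3) (nat_lit 4) (nat_lit 1) (nat_lit 4) (nat_lit 505) (nat_lit 383) (nat_lit 312)) (XT.lf (nat_lit 0) (nat_lit 186775344427) (nat_lit 152) (nat_lit 1675752474843) (nat_lit 0) (nat_lit 184799413554) (nat_lit 1) (nat_lit 5) (nat_lit 3) (nat_lit 4) (nat_lit 1) (nat_lit 4) (nat_lit 506) (nat_lit 383) (nat_lit 311))))) (XT.nd (nat_lit 234) (nat_lit 0) (nat_lit 0) (XT.nd (nat_lit 78) (nat_lit 0) (nat_lit 0) (XT.lf (nat_lit 0) (nat_lit 210673807277) (nat_lit 152) (nat_lit 1791013016031) (nat_lit 0) (nat_lit 208697300123) (nat_lit 1) (nat_lit 5)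 (nat_lit 3) (nat_lit 4) (nat_lit 1) (nat_lit 4) (nat_lit 507) (nat_lit 383) (nat_lit 310)) (XT.nd (nat_lit 78) (nat_lit 0) (nat_lit 0) (XT.lf (nat_lit 0) (nat_lit 236479085525) (nat_lit 152) (nat_lit 1915504839958) (nat_lit 0) (nat_lit 234502044777) (nat_lit 1) (nat_lit 5) (nat_lit 3) (nat_lit 4) (nat_lit 1) (nat_lit 4) (nat_lit 508) (nat_lit 383) (nat_lit 309)) (XT.lf (nat_lit 0) (nat_lit 264344099338) (nat_lit 152) (nat_lit 2049965675951) (nat_lit 0) (nat_lit 262366564522) (nat_lit 1) (nat_lit 5) (nat_lit 3) (nat_lit 4) (nat_lit 1) (nat_lit 4) (nat_lit 509) (nat_lit 383) (nat_lit 308)))) (XT.nd (nat_lit 78) (nat_lit 0) (nat_lit 0) (XT.lf (nat_lit 0) (nat_lit 294433974723) (nat_lit 152) (nat_lit 2195192328965) (nat_lit 0) (nat_lit 292455982438) (nat_lit 1) (nat_lit 5) (nat_lit 3) (nat_lit 4) (nat_lit 1) (nat_lit 4) (nat_lit 510) (nat_lit 383) (nat_lit 307)) (XT.nd (nat_lit 78) (nat_lit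 0) (nat_lit 0) (XT.lf (nat_lit 0) (nat_lit 326927022055) (nat_lit 152) (nat_lit 2352045401386) (nat_lit 0) (nat_lit 324948606185) (nat_lit 1) (nat_lit 5) (nat_lit 3) (nat_lit 4) (nat_lit 1) (nat_lit 4) (nat_lit 511) (nat_lit 383) (nat_lit 306)) (XT.lf (nat_lit 0) (nat_lit 362015792724) (nat_lit 152) (nat_lit 2521454392904) (nat_lit 0) (nat_lit 360036984647) (nat_lit 1) (nat_lit 5) (nat_lit 3) (nat_lit 4) (nat_lit 1) (nat_lit 4) (nat_lit 512) (nat_lit 383) (nat_lit 305)))))) (XT.nd (nat_lit 468) (nat_lit 0) (nat_lit 0) (XT.nd (nat_lit 234) (nat_lit 0) (nat_lit 0) (XT.nd (nat_lit 78) (nat_lit 0) (nat_lit 0) (XT.lf (nat_lit 0) (nat_lit 399908220185) (nat_lit 152) (nat_lit 2704423208653) (nat_lit 0) (nat_lit 397929048954) (nat_lit 1) (nat_lit 5) (nat_lit 3) (nat_lit 4) (nat_lit 1) (nat_lit 4) (nat_lit 513) (nat_lit 383) (nat_lit 304)) (XT.nd (nat_lit 78) (nat_lit 0) (nat_lit 0) (XT.lf (nat_lit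 0) (nat_lit 440828852158) (nat_lit 152) (nat_lit 2902036108283) (nat_lit 0) (nat_lit 438849344673) (nat_lit 1) (nat_lit 5) (nat_lit 3) (nat_lit 4) (nat_lit 1) (nat_lit 4) (nat_lit 514) (nat_lit 383) (nat_lit 303)) (XT.lf (nat_lit 0) (nat_lit 485020181277) (nat_lit 152) (nat_lit 3115464131198) (nat_lit 0) (nat_lit 483040362445) (nat_lit 1) (nat_lit 5) (nat_lit 3) (nat_lit 4) (nat_lit 1) (nat_lit 4) (nat_lit 515) (nat_lit 383) (nat_lit 302)))) (XT.nd (nat_lit 78) (nat_lit 0) (nat_lit 0) (XT.lf (nat_lit 0) (nat_lit 532744082083) (nat_lit 152) (nat_lit 3345972036054) (nat_lit 0) (nat_lit 530763974967) (nat_lit 1) (nat_lit 5) (nat_lit 3) (nat_lit 4) (nat_lit 1) (nat_lit 4) (nat_lit 516) (nat_lit 383) (nat_lit 301)) (XT.nd (nat_lit 78) (nat_lit 0) (nat_lit 0) (XT.lf (nat_lit 0) (nat_lit 584283362879) (nat_lit 152) (nat_lit 3594925795618) (nat_lit 0) (nat_lit 582302988833) (nat_lit 1) (nat_lit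 5) (nat_lit 3) (nat_lit 4) (nat_lit 1) (nat_lit 4) (nat_lit 517) (nat_lit 383) (nat_lit 300)) (XT.lf (nat_lit 0) (nat_lit 639943441624) (nat_lit 152) (nat_lit 3863800691431) (nat_lit 0) (nat_lit 637962820421) (nat_lit 1) (nat_lit 5) (nat_lit 3) (nat_lit 4) (nat_lit 1) (nat_lit 4) (nat_lit 518) (nat_lit 383) (nat_lit 299))))) (XT.nd (nat_lit 234) (nat_lit 0) (nat_lit 0) (XT.nd (nat_lit 78) (nat_lit 0) (nat_lit 0) (XT.lf (nat_lit 0) (nat_lit 700054155822) (nat_lit 152) (nat_lit 4154190056207) (nat_lit 0) (nat_lit 698073305771) (nat_lit 1) (nat_lit 5) (nat_lit 3) (nat_lit 4) (nat_lit 1) (nat_lit 4) (nat_lit 519) (nat_lit 383) (nat_lit 298)) (XT.nd (nat_lit 78) (nat_lit 0) (nat_lit 0) (XT.lf (nat_lit 0) (nat_lit 764971717114) (nat_lit 152) (nat_lit 4467814715811) (nat_lit 0) (nat_lit 762990655165) (nat_lit 1) (nat_lit 5) (nat_lit 3) (nat_lit 4) (nat_lit 1) (nat_lit 4) (nat_lit 520) (nat_lit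 383) (nat_lit 297)) (XT.lf (nat_lit 0) (nat_lit 835080822157) (nat_lit 152) (nat_lit 4806533186746) (nat_lit 0) (nat_lit 833099564007) (nat_lit 1) (nat_lit 5) (nat_lit 3) (nat_lit 4) (nat_lit 1) (nat_lit 4) (nat_lit 521) (nat_lit 383) (nat_lit 296)))) (XT.nd (nat_lit 78) (nat_lit 0) (nat_lit 0) (XT.lf (nat_lit 0) (nat_lit 910796932317) (nat_lit 152) (nat_lit 5172352689580) (nat_lit 0) (nat_lit 908815492499) (nat_lit 1) (nat_lit 5) (nat_lit 3) (nat_lit 4) (nat_lit 1) (nat_lit 4) (nat_lit 522) (nat_lit 383) (nat_lit 295)) (XT.nd (nat_lit 78) (nat_lit 0) (nat_lit 0) (XT.lf (nat_lit 0) (nat_lit 992568735652) (nat_lit 152) (nat_lit 5567441043589) (nat_lit 0) (nat_lit 990587127623) (nat_lit 1) (nat_lit 5) (nat_lit 3) (nat_lit 4) (nat_lit 1) (nat_lit 4) (nat_lit 523) (nat_lit 383) (nat_lit 294)) (XT.lf (nat_lit 0) (nat_lit 1080880805812) (nat_lit 152) (nat_lit 5994139513092) (nat_lit 0) (nat_lit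 1078899042033) (nat_lit 1) (nat_lit 5) (nat_lit 3) (nat_lit 4) (nat_lit 1) (nat_lit 4) (nat_lit 524) (nat_lit 383) (nat_lit 293))))))))
noncomputable def xc53 : XT := (XT.nd (nat_lit 56472) (nat_lit 0) (nat_lit 228) (XT.nd (nat_lit 55536) (nat_lit 0) (nat_lit 1064) (XT.nd (nat_lit 390) (nat_lit 0) (nat_lit 0) (XT.nd (nat_lit 156) (nat_lit 0) (nat_lit 0) (XT.nd (nat_lit 78) (nat_lit 0) (nat_lit 0) (XT.lf (nat_lit 0) (nat_lit 1176256473584) (nat_lit 152) (nat_lit 6454976681613) (nat_lit 0) (nat_lit 1174274565590) (nat_lit 1) (nat_lit 5) (nat_lit 3) (nat_lit 4) (nat_lit 1) (nat_lit 4) (nat_lit 525) (nat_lit 383) (nat_lit 292)) (XT.lf (nat_lit 0) (nat_lit 1279260928109) (nat_lit 152) (nat_lit 6952683436077) (nat_lit 0) (nat_lit 1277278886584) (nat_lit 1) (nat_lit 5) (nat_lit 3) (nat_lit 4) (nat_lit 1) (nat_lit 4) (nat_lit 526) (nat_lit 383) (nat_lit 291))) (XT.nd (nat_lit 78) (nat_lit 0) (nat_lit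 0) (XT.lf (nat_lit 0) (nat_lit 1390504566155) (nat_lit 152) (nat_lit 7490209149843) (nat_lit 0) (nat_lit 1388522400991) (nat_lit 1) (nat_lit 5) (nat_lit 3) (nat_lit 4) (nat_lit 1) (nat_lit 4) (nat_lit 527) (nat_lit 383) (nat_lit 290)) (XT.nd (nat_lit 78) (nat_lit 0) (nat_lit 0) (XT.lf (nat_lit 0) (nat_lit 1510646609282) (nat_lit 152) (nat_lit 8070739160474) (nat_lit 0) (nat_lit 1508664329636) (nat_lit 1) (nat_lit 5) (nat_lit 3) (nat_lit 4) (nat_lit 1) (nat_lit 4) (nat_lit 528) (nat_lit 383) (nat_lit 289)) (XT.lf (nat_lit 0) (nat_lit 1640399010337) (nat_lit 152) (nat_lit 8697713645811) (nat_lit 0) (nat_lit 1638416624690) (nat_lit 1) (nat_lit 5) (nat_lit 3) (nat_lit 4) (nat_lit 1) (nat_lit 4) (nat_lit 529) (nat_lit 383) (nat_lit 288))))) (XT.nd (nat_lit 54912) (nat_lit 0) (nat_lit 1976) (XT.nd (nat_lit 78) (nat_lit 0) (nat_lit 0) (XT.lf (nat_lit 0) (nat_lit 1780530672437) (nat_lit 152) (nat_lit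 9374848010211) (nat_lit 0) (nat_lit 1778548188640) (nat_lit 1) (nat_lit 5) (nat_lit 3) (nat_lit 4) (nat_lit 1) (nat_lit 4) (nat_lit 530) (nat_lit 383) (nat_lit 287)) (XT.nd (nat_lit 54756) (nat_lit 0) (nat_lit 2204) (XT.lf (nat_lit 0) (nat_lit 1931872005433) (nat_lit 152) (nat_lit 10106154901761) (nat_lit 0) (nat_lit 1929889430757) (nat_lit 1) (nat_lit 5) (nat_lit 3) (nat_lit 4) (nat_lit 1) (nat_lit 4) (nat_lit 531) (nat_lit 383) (nat_lit 286)) (XT.lf (nat_lit 0) (nat_lit 1599117176) (nat_lit 76) (nat_lit 2858019993) (nat_lit 76) (nat_lit 2858019993) (nat_lit 30) (nat_lit 4) (nat_lit 31) (nat_lit 5) (nat_lit 31) (nat_lit 4) (nat_lit 432) (nat_lit 384) (nat_lit 384)))) (XT.nd (nat_lit 78) (nat_lit 76) (nat_lit 0) (XT.lf (nat_lit 0) (nat_lit 760676046) (nat_lit 152) (nat_lit 14050591122) (nat_lit 0) (nat_lit 443440302) (nat_lit 28) (nat_lit 5) (nat_lit 30) (nat_lit 4) (nat_lit 28) (nat_lit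 4) (nat_lit 433) (nat_lit 384) (nat_lit 383)) (XT.nd (nat_lit 78) (nat_lit 76) (nat_lit 0) (XT.lf (nat_lit 0) (nat_lit 7553266967) (nat_lit 152) (nat_lit 1413112683) (nat_lit 0) (nat_lit 6942294424) (nat_lit 28) (nat_lit 5) (nat_lit 30) (nat_lit 4) (nat_lit 28) (nat_lit 4) (nat_lit 434) (nat_lit 384) (nat_lit 382)) (XT.lf (nat_lit 0) (nat_lit 12192142671) (nat_lit 76) (nat_lit 2654595248) (nat_lit 76) (nat_lit 1771644186) (nat_lit 27) (nat_lit 4) (nat_lit 28) (nat_lit 5) (nat_lit 28) (nat_lit 4) (nat_lit 435) (nat_lit 384) (nat_lit 381)))))) (XT.nd (nat_lit 468) (nat_lit 304) (nat_lit 0) (XT.nd (nat_lit 234) (nat_lit 228) (nat_lit 0) (XT.nd (nat_lit 78) (nat_lit 228) (nat_lit 0) (XT.lf (nat_lit 0) (nat_lit 5102081442) (nat_lit 152) (nat_lit 8218749326) (nat_lit 0) (nat_lit 4051356421) (nat_lit 25) (nat_lit 5) (nat_lit 27) (nat_lit 4) (nat_lit 25) (nat_lit 4) (nat_lit 436) (nat_lit 384)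 (nat_lit 380)) (XT.nd (nat_lit 78) (nat_lit 152) (nat_lit 0) (XT.lf (nat_lit 0) (nat_lit 5389925977) (nat_lit 76) (nat_lit 7030068390) (nat_lit 76) (nat_lit 5763438052) (nat_lit 24) (nat_lit 4) (nat_lit 25) (nat_lit 5) (nat_lit 25) (nat_lit 4) (nat_lit 437) (nat_lit 384) (nat_lit 379)) (XT.lf (nat_lit 0) (nat_lit 862974865) (nat_lit 76) (nat_lit 256985487) (nat_lit 152) (nat_lit 17943647083) (nat_lit 22) (nat_lit 5) (nat_lit 23) (nat_lit 5) (nat_lit 24) (nat_lit 4) (nat_lit 438) (nat_lit 384) (nat_lit 378)))) (XT.nd (nat_lit 78) (nat_lit 228) (nat_lit 0) (XT.lf (nat_lit 0) (nat_lit 8440931929) (nat_lit 152) (nat_lit 4633810782) (nat_lit 0) (nat_lit 6911629449) (nat_lit 22) (nat_lit 5) (nat_lit 24) (nat_lit 4) (nat_lit 22) (nat_lit 4) (nat_lit 439) (nat_lit 384) (nat_lit 377)) (XT.nd (nat_lit 78) (nat_lit 152) (nat_lit 0) (XT.lf (nat_lit 0) (nat_lit 9896931423) (nat_lit 76) (nat_lit 6389466706)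 (nat_lit 76) (nat_lit 4701467373) (nat_lit 21) (nat_lit 4) (nat_lit 22) (nat_lit 5) (nat_lit 22) (nat_lit 4) (nat_lit 440) (nat_lit 384) (nat_lit 376)) (XT.lf (nat_lit 0) (nat_lit 2478812857) (nat_lit 152) (nat_lit 18811838838) (nat_lit 0) (nat_lit 779793539) (nat_lit 19) (nat_lit 5) (nat_lit 21) (nat_lit 4) (nat_lit 19) (nat_lit 4) (nat_lit 441) (nat_lit 384) (nat_lit 375))))) (XT.nd (nat_lit 234) (nat_lit 76) (nat_lit 0) (XT.nd (nat_lit 78) (nat_lit 228) (nat_lit 0) (XT.lf (nat_lit 0) (nat_lit 10152473216) (nat_lit 152) (nat_lit 4736087054) (nat_lit 0) (nat_lit 8327475219) (nat_lit 19) (nat_lit 5) (nat_lit 21) (nat_lit 4) (nat_lit 19) (nat_lit 4) (nat_lit 442) (nat_lit 384) (nat_lit 374)) (XT.nd (nat_lit 78) (nat_lit 152) (nat_lit 0) (XT.lf (nat_lit 0) (nat_lit 10420691540) (nat_lit 76) (nat_lit 7988356989) (nat_lit 76) (nat_lit 6046712068) (nat_lit 18) (nat_lit 4) (nat_lit 19) (nat_lit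 5) (nat_lit 19) (nat_lit 4) (nat_lit 443) (nat_lit 384) (nat_lit 373)) (XT.lf (nat_lit 0) (nat_lit 703243356) (nat_lit 76) (nat_lit 620263706) (nat_lit 152) (nat_lit 24478727567) (nat_lit 16) (nat_lit 5) (nat_lit 17) (nat_lit 5) (nat_lit 18) (nat_lit 4) (nat_lit 444) (nat_lit 384) (nat_lit 372)))) (XT.nd (nat_lit 78) (nat_lit 76) (nat_lit 0) (XT.lf (nat_lit 0) (nat_lit 9246531941) (nat_lit 152) (nat_lit 10718039546) (nat_lit 0) (nat_lit 7256108543) (nat_lit 16) (nat_lit 5) (nat_lit 18) (nat_lit 4) (nat_lit 16) (nat_lit 4) (nat_lit 445) (nat_lit 384) (nat_lit 371)) (XT.nd (nat_lit 78) (nat_lit 0) (nat_lit 0) (XT.lf (nat_lit 0) (nat_lit 4496630657) (nat_lit 76) (nat_lit 13171481317) (nat_lit 76) (nat_lit 11095318947) (nat_lit 15) (nat_lit 4) (nat_lit 16) (nat_lit 5) (nat_lit 16) (nat_lit 4) (nat_lit 446) (nat_lit 384) (nat_lit 370)) (XT.lf (nat_lit 0) (nat_lit 21025738280) (nat_lit 76) (nat_lit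 5778093615) (nat_lit 76) (nat_lit 3622543308) (nat_lit 15) (nat_lit 4) (nat_lit 16) (nat_lit 5) (nat_lit 16) (nat_lit 4) (nat_lit 447) (nat_lit 384) (nat_lit 369))))))) (XT.nd (nat_lit 936) (nat_lit 228) (nat_lit 0) (XT.nd (nat_lit 468) (nat_lit 228) (nat_lit 0) (XT.nd (nat_lit 234) (nat_lit 152) (nat_lit 0) (XT.nd (nat_lit 78) (nat_lit 76) (nat_lit 0) (XT.lf (nat_lit 0) (nat_lit 4192876989) (nat_lit 152) (nat_lit 25894604160) (nat_lit 0) (nat_lit 2128934715) (nat_lit 13) (nat_lit 5) (nat_lit 15) (nat_lit 4) (nat_lit 13) (nat_lit 4) (nat_lit 448) (nat_lit 384) (nat_lit 368)) (XT.nd (nat_lit 78) (nat_lit 76) (nat_lit 0) (XT.lf (nat_lit 0) (nat_lit 12612168136) (nat_lit 152) (nat_lit 11030816307) (nat_lit 0) (nat_lit 10485205158) (nat_lit 13) (nat_lit 5) (nat_lit 15) (nat_lit 4) (nat_lit 13) (nat_lit 4) (nat_lit 449) (nat_lit 384) (nat_lit 367)) (XT.lf (nat_lit 0) (nat_lit 4811321922) (nat_lit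 76) (nat_lit 16787691323) (nat_lit 76) (nat_lit 14602375842) (nat_lit 12) (nat_lit 4) (nat_lit 13) (nat_lit 5) (nat_lit 13) (nat_lit 4) (nat_lit 450) (nat_lit 384) (nat_lit 366)))) (XT.nd (nat_lit 78) (nat_lit 152) (nat_lit 0) (XT.lf (nat_lit 0) (nat_lit 22108157771) (nat_lit 76) (nat_lit 9282388725) (nat_lit 76) (nat_lit 7043043148) (nat_lit 12) (nat_lit 4) (nat_lit 13) (nat_lit 5) (nat_lit 13) (nat_lit 4) (nat_lit 451) (nat_lit 384) (nat_lit 365)) (XT.nd (nat_lit 78) (nat_lit 76) (nat_lit 0) (XT.lf (nat_lit 0) (nat_lit 859890294) (nat_lit 152) (nat_lit 500801631) (nat_lit 76) (nat_lit 39497926547) (nat_lit 11) (nat_lit 5) (nat_lit 13) (nat_lit 5) (nat_lit 12) (nat_lit 4) (nat_lit 452) (nat_lit 384) (nat_lit 364)) (XT.lf (nat_lit 0) (nat_lit 9413807191) (nat_lit 152) (nat_lit 26766144360) (nat_lit 0) (nat_lit 7251126133) (nat_lit 10) (nat_lit 5) (nat_lit 12) (nat_lit 4) (nat_lit 10) (nat_lit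 4) (nat_lit 453) (nat_lit 384) (nat_lit 363))))) (XT.nd (nat_lit 234) (nat_lit 152) (nat_lit 0) (XT.nd (nat_lit 78) (nat_lit 76) (nat_lit 0) (XT.lf (nat_lit 0) (nat_lit 18511908630) (nat_lit 152) (nat_lit 11399124669) (nat_lit 0) (nat_lit 16309513839) (nat_lit 10) (nat_lit 5) (nat_lit 12) (nat_lit 4) (nat_lit 10) (nat_lit 4) (nat_lit 454) (nat_lit 384) (nat_lit 362)) (XT.nd (nat_lit 78) (nat_lit 0) (nat_lit 0) (XT.lf (nat_lit 0) (nat_lit 5093151217) (nat_lit 76) (nat_lit 23191715971) (nat_lit 76) (nat_lit 20952549204) (nat_lit 9) (nat_lit 4) (nat_lit 10) (nat_lit 5) (nat_lit 10) (nat_lit 4) (nat_lit 455) (nat_lit 384) (nat_lit 361)) (XT.lf (nat_lit 0) (nat_lit 23203287772) (nat_lit 76) (nat_lit 15777151453) (nat_lit 76) (nat_lit 13503936561) (nat_lit 9) (nat_lit 4) (nat_lit 10) (nat_lit 5) (nat_lit 10) (nat_lit 4) (nat_lit 456) (nat_lit 384) (nat_lit 360)))) (XT.nd (nat_lit 78) (nat_lit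 152) (nat_lit 0) (XT.lf (nat_lit 0) (nat_lit 42438346618) (nat_lit 76) (nat_lit 7935073857) (nat_lit 76) (nat_lit 5630332923) (nat_lit 9) (nat_lit 4) (nat_lit 10) (nat_lit 5) (nat_lit 10) (nat_lit 4) (nat_lit 457) (nat_lit 384) (nat_lit 359)) (XT.nd (nat_lit 78) (nat_lit 0) (nat_lit 0) (XT.lf (nat_lit 0) (nat_lit 2668684790) (nat_lit 152) (nat_lit 56627693509) (nat_lit 0) (nat_lit 507636907) (nat_lit 7) (nat_lit 5) (nat_lit 9) (nat_lit 4) (nat_lit 7) (nat_lit 4) (nat_lit 458) (nat_lit 384) (nat_lit 358)) (XT.lf (nat_lit 0) (nat_lit 11763983435) (nat_lit 152) (nat_lit 42519784487) (nat_lit 0) (nat_lit 9577909164) (nat_lit 7) (nat_lit 5) (nat_lit 9) (nat_lit 4) (nat_lit 7) (nat_lit 4) (nat_lit 459) (nat_lit 384) (nat_lit 357)))))) (XT.nd (nat_lit 468) (nat_lit 152) (nat_lit 0) (XT.nd (nat_lit 234) (nat_lit 0) (nat_lit 0) (XT.nd (nat_lit 78) (nat_lit 76) (nat_lit 0) (XT.lf (nat_lit 0) (nat_lit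 21447926187) (nat_lit 152) (nat_lit 27568466644) (nat_lit 0) (nat_lit 19238679334) (nat_lit 7) (nat_lit 5) (nat_lit 9) (nat_lit 4) (nat_lit 7) (nat_lit 4) (nat_lit 460) (nat_lit 384) (nat_lit 356)) (XT.nd (nat_lit 78) (nat_lit 76) (nat_lit 0) (XT.lf (nat_lit 0) (nat_lit 31777899374) (nat_lit 152) (nat_lit 11685139580) (nat_lit 0) (nat_lit 29547196426) (nat_lit 7) (nat_lit 5) (nat_lit 9) (nat_lit 4) (nat_lit 7) (nat_lit 4) (nat_lit 461) (nat_lit 384) (nat_lit 355)) (XT.lf (nat_lit 0) (nat_lit 5499423565) (nat_lit 76) (nat_lit 37447955354) (nat_lit 76) (nat_lit 35197385652) (nat_lit 6) (nat_lit 4) (nat_lit 7) (nat_lit 5) (nat_lit 7) (nat_lit 4) (nat_lit 462) (nat_lit 384) (nat_lit 354)))) (XT.nd (nat_lit 78) (nat_lit 0) (nat_lit 0) (XT.lf (nat_lit 0) (nat_lit 24484953203) (nat_lit 76) (nat_lit 30728897266) (nat_lit 76) (nat_lit 28459932421) (nat_lit 6) (nat_lit 4) (nat_lit 7) (nat_lit 5)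 (nat_lit 7) (nat_lit 4) (nat_lit 463) (nat_lit 384) (nat_lit 353)) (XT.nd (nat_lit 78) (nat_lit 0) (nat_lit 0) (XT.lf (nat_lit 0) (nat_lit 44768637433) (nat_lit 76) (nat_lit 23585540472) (nat_lit 76) (nat_lit 21299543088) (nat_lit 6) (nat_lit 4) (nat_lit 7) (nat_lit 5) (nat_lit 7) (nat_lit 4) (nat_lit 464) (nat_lit 384) (nat_lit 352)) (XT.lf (nat_lit 0) (nat_lit 66470675866) (nat_lit 76) (nat_lit 15975553971) (nat_lit 76) (nat_lit 13673785716) (nat_lit 6) (nat_lit 4) (nat_lit 7) (nat_lit 5) (nat_lit 7) (nat_lit 4) (nat_lit 465) (nat_lit 384) (nat_lit 351))))) (XT.nd (nat_lit 234) (nat_lit 0) (nat_lit 0) (XT.nd (nat_lit 78) (nat_lit 152) (nat_lit 0) (XT.lf (nat_lit 0) (nat_lit 89719673172) (nat_lit 76) (nat_lit 7853841545) (nat_lit 76) (nat_lit 5537470633) (nat_lit 6) (nat_lit 4) (nat_lit 7) (nat_lit 5) (nat_lit 7) (nat_lit 4) (nat_lit 466) (nat_lit 384) (nat_lit 350)) (XT.nd (nat_lit 78)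 (nat_lit 0) (nat_lit 0) (XT.lf (nat_lit 0) (nat_lit 3123082769) (nat_lit 152) (nat_lit 106563251084) (nat_lit 0) (nat_lit 965775463) (nat_lit 4) (nat_lit 5) (nat_lit 6) (nat_lit 4) (nat_lit 4) (nat_lit 4) (nat_lit 467) (nat_lit 384) (nat_lit 349)) (XT.lf (nat_lit 0) (nat_lit 12669542225) (nat_lit 152) (nat_lit 95575454294) (nat_lit 0) (nat_lit 10500642859) (nat_lit 4) (nat_lit 5) (nat_lit 6) (nat_lit 4) (nat_lit 4) (nat_lit 4) (nat_lit 468) (nat_lit 384) (nat_lit 348)))) (XT.nd (nat_lit 78) (nat_lit 0) (nat_lit 0) (XT.lf (nat_lit 0) (nat_lit 22898774686) (nat_lit 152) (nat_lit 83875211594) (nat_lit 0) (nat_lit 20719141930) (nat_lit 4) (nat_lit 5) (nat_lit 6) (nat_lit 4) (nat_lit 4) (nat_lit 4) (nat_lit 469) (nat_lit 384) (nat_lit 347)) (XT.nd (nat_lit 78) (nat_lit 0) (nat_lit 0) (XT.lf (nat_lit 0) (nat_lit 33871397825) (nat_lit 152) (nat_lit 71393188212) (nat_lit 0) (nat_lit 31681826746)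 (nat_lit 4) (nat_lit 5) (nat_lit 6) (nat_lit 4) (nat_lit 4) (nat_lit 4) (nat_lit 470) (nat_lit 384) (nat_lit 346)) (XT.lf (nat_lit 0) (nat_lit 45652434595) (nat_lit 152) (nat_lit 58055416603) (nat_lit 0) (nat_lit 43453661365) (nat_lit 4) (nat_lit 5) (nat_lit 6) (nat_lit 4) (nat_lit 4) (nat_lit 4) (nat_lit 471) (nat_lit 384) (nat_lit 345))))))))
noncomputable def xc54 : XT := (XT.nd (nat_lit 1794) (nat_lit 152) (nat_lit 0) (XT.nd (nat_lit 858) (nat_lit 0) (nat_lit 0) (XT.nd (nat_lit 390) (nat_lit 0) (nat_lit 0) (XT.nd (nat_lit 156) (nat_lit 76) (nat_lit 0) (XT.nd (nat_lit 78) (nat_lit 0) (nat_lit 0) (XT.lf (nat_lit 0) (nat_lit 58311698546) (nat_lit 152) (nat_lit 43782858120) (nat_lit 0) (nat_lit 56104404805) (nat_lit 4) (nat_lit 5) (nat_lit 6) (nat_lit 4) (nat_lit 4) (nat_lit 4) (nat_lit 472) (nat_lit 384) (nat_lit 344)) (XT.lf (nat_lit 0) (nat_lit 71924207539) (nat_lit 152) (nat_lit 28490934638)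 (nat_lit 0) (nat_lit 69709024437) (nat_lit 4) (nat_lit 5) (nat_lit 6) (nat_lit 4) (nat_lit 4) (nat_lit 4) (nat_lit 473) (nat_lit 384) (nat_lit 343))) (XT.nd (nat_lit 78) (nat_lit 76) (nat_lit 0) (XT.lf (nat_lit 0) (nat_lit 86570628294) (nat_lit 152) (nat_lit 12089027352) (nat_lit 0) (nat_lit 84348140228) (nat_lit 4) (nat_lit 5) (nat_lit 6) (nat_lit 4) (nat_lit 4) (nat_lit 4) (nat_lit 474) (nat_lit 384) (nat_lit 342)) (XT.nd (nat_lit 78) (nat_lit 0) (nat_lit 0) (XT.lf (nat_lit 0) (nat_lit 5810736814) (nat_lit 76) (nat_lit 96666765961) (nat_lit 76) (nat_lit 94437514039) (nat_lit 3) (nat_lit 4) (nat_lit 4) (nat_lit 5) (nat_lit 4) (nat_lit 4) (nat_lit 475) (nat_lit 384) (nat_lit 341)) (XT.lf (nat_lit 0) (nat_lit 25727681048) (nat_lit 76) (nat_lit 94210091025) (nat_lit 76) (nat_lit 91974576274) (nat_lit 3) (nat_lit 4) (nat_lit 4) (nat_lit 5) (nat_lit 4) (nat_lit 4) (nat_lit 476) (nat_lit 384)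 (nat_lit 340))))) (XT.nd (nat_lit 234) (nat_lit 0) (nat_lit 0) (XT.nd (nat_lit 78) (nat_lit 0) (nat_lit 0) (XT.lf (nat_lit 0) (nat_lit 47143244927) (nat_lit 76) (nat_lit 91605608196) (nat_lit 76) (nat_lit 89364294529) (nat_lit 3) (nat_lit 4) (nat_lit 4) (nat_lit 5) (nat_lit 4) (nat_lit 4) (nat_lit 477) (nat_lit 384) (nat_lit 339)) (XT.nd (nat_lit 78) (nat_lit 0) (nat_lit 0) (XT.lf (nat_lit 0) (nat_lit 70184335497) (nat_lit 76) (nat_lit 88837883503) (nat_lit 76) (nat_lit 86591200468) (nat_lit 3) (nat_lit 4) (nat_lit 4) (nat_lit 5) (nat_lit 4) (nat_lit 4) (nat_lit 478) (nat_lit 384) (nat_lit 338)) (XT.lf (nat_lit 0) (nat_lit 94987492553) (nat_lit 76) (nat_lit 85890515612) (nat_lit 76) (nat_lit 83638860942) (nat_lit 3) (nat_lit 4) (nat_lit 4) (nat_lit 5) (nat_lit 4) (nat_lit 4) (nat_lit 479) (nat_lit 384) (nat_lit 337)))) (XT.nd (nat_lit 78) (nat_lit 0) (nat_lit 0) (XT.lf (nat_lit 0) (nat_lit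 121699697768) (nat_lit 76) (nat_lit 82746038641) (nat_lit 76) (nat_lit 80489780604) (nat_lit 3) (nat_lit 4) (nat_lit 4) (nat_lit 5) (nat_lit 4) (nat_lit 4) (nat_lit 480) (nat_lit 384) (nat_lit 336)) (XT.nd (nat_lit 78) (nat_lit 0) (nat_lit 0) (XT.lf (nat_lit 0) (nat_lit 150479245690) (nat_lit 76) (nat_lit 79385818652) (nat_lit 76) (nat_lit 77125298239) (nat_lit 3) (nat_lit 4) (nat_lit 4) (nat_lit 5) (nat_lit 4) (nat_lit 4) (nat_lit 481) (nat_lit 384) (nat_lit 335)) (XT.lf (nat_lit 0) (nat_lit 181496681789) (nat_lit 76) (nat_lit 75789943230) (nat_lit 76) (nat_lit 73525476172) (nat_lit 3) (nat_lit 4) (nat_lit 4) (nat_lit 5) (nat_lit 4) (nat_lit 4) (nat_lit 482) (nat_lit 384) (nat_lit 334)))))) (XT.nd (nat_lit 468) (nat_lit 0) (nat_lit 0) (XT.nd (nat_lit 234) (nat_lit 0) (nat_lit 0) (XT.nd (nat_lit 78) (nat_lit 0) (nat_lit 0) (XT.lf (nat_lit 0) (nat_lit 214935813094) (nat_lit 76) (nat_lit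 71937103484) (nat_lit 76) (nat_lit 69668982125) (nat_lit 3) (nat_lit 4) (nat_lit 4) (nat_lit 5) (nat_lit 4) (nat_lit 4) (nat_lit 483) (nat_lit 384) (nat_lit 333)) (XT.nd (nat_lit 78) (nat_lit 0) (nat_lit 0) (XT.lf (nat_lit 0) (nat_lit 250994797419) (nat_lit 76) (nat_lit 67804467771) (nat_lit 76) (nat_lit 65532962800) (nat_lit 3) (nat_lit 4) (nat_lit 4) (nat_lit 5) (nat_lit 4) (nat_lit 4) (nat_lit 484) (nat_lit 384) (nat_lit 332)) (XT.lf (nat_lit 0) (nat_lit 289887317635) (nat_lit 76) (nat_lit 63367546397) (nat_lit 76) (nat_lit 61092908453) (nat_lit 3) (nat_lit 4) (nat_lit 4) (nat_lit 5) (nat_lit 4) (nat_lit 4) (nat_lit 485) (nat_lit 384) (nat_lit 331)))) (XT.nd (nat_lit 78) (nat_lit 0) (nat_lit 0) (XT.lf (nat_lit 0) (nat_lit 331843847936) (nat_lit 76) (nat_lit 58600046496) (nat_lit 76) (nat_lit 56322507650) (nat_lit 3) (nat_lit 4) (nat_lit 4) (nat_lit 5) (nat_lit 4) (nat_lit 4) (nat_lit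 486) (nat_lit 384) (nat_lit 330)) (XT.nd (nat_lit 78) (nat_lit 0) (nat_lit 0) (XT.lf (nat_lit 0) (nat_lit 377113019612) (nat_lit 76) (nat_lit 53473716216) (nat_lit 76) (nat_lit 51193491350) (nat_lit 3) (nat_lit 4) (nat_lit 4) (nat_lit 5) (nat_lit 4) (nat_lit 4) (nat_lit 487) (nat_lit 384) (nat_lit 329)) (XT.lf (nat_lit 0) (nat_lit 425963094421) (nat_lit 76) (nat_lit 47958177304) (nat_lit 76) (nat_lit 45675465382) (nat_lit 3) (nat_lit 4) (nat_lit 4) (nat_lit 5) (nat_lit 4) (nat_lit 4) (nat_lit 488) (nat_lit 384) (nat_lit 328))))) (XT.nd (nat_lit 234) (nat_lit 0) (nat_lit 0) (XT.nd (nat_lit 78) (nat_lit 0) (nat_lit 0) (XT.lf (nat_lit 0) (nat_lit 478683554288) (nat_lit 76) (nat_lit 42020745084) (nat_lit 76) (nat_lit 39735730332) (nat_lit 3) (nat_lit 4) (nat_lit 4) (nat_lit 5) (nat_lit 4) (nat_lit 4) (nat_lit 489) (nat_lit 384) (nat_lit 327)) (XT.nd (nat_lit 78) (nat_lit 0) (nat_lit 0) (XT.lf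 (nat_lit 0) (nat_lit 535586816754) (nat_lit 76) (nat_lit 35626234773) (nat_lit 76) (nat_lit 33339087772) (nat_lit 3) (nat_lit 4) (nat_lit 4) (nat_lit 5) (nat_lit 4) (nat_lit 4) (nat_lit 490) (nat_lit 384) (nat_lit 326)) (XT.lf (nat_lit 0) (nat_lit 597010086335) (nat_lit 76) (nat_lit 28736752977) (nat_lit 76) (nat_lit 26447631671) (nat_lit 3) (nat_lit 4) (nat_lit 4) (nat_lit 5) (nat_lit 4) (nat_lit 4) (nat_lit 491) (nat_lit 384) (nat_lit 325)))) (XT.nd (nat_lit 78) (nat_lit 0) (nat_lit 0) (XT.lf (nat_lit 0) (nat_lit 663317352779) (nat_lit 76) (nat_lit 21311473137) (nat_lit 76) (nat_lit 19020523770) (nat_lit 3) (nat_lit 4) (nat_lit 4) (nat_lit 5) (nat_lit 4) (nat_lit 4) (nat_lit 492) (nat_lit 384) (nat_lit 324)) (XT.nd (nat_lit 78) (nat_lit 0) (nat_lit 0) (XT.lf (nat_lit 0) (nat_lit 734901548035) (nat_lit 76) (nat_lit 13306393594) (nat_lit 76) (nat_lit 11013751579) (nat_lit 3) (nat_lit 4)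 (nat_lit 4) (nat_lit 5) (nat_lit 4) (nat_lit 4) (nat_lit 493) (nat_lit 384) (nat_lit 323)) (XT.lf (nat_lit 0) (nat_lit 812186874740) (nat_lit 76) (nat_lit 4674076840) (nat_lit 76) (nat_lit 2379867558) (nat_lit 3) (nat_lit 4) (nat_lit 4) (nat_lit 5) (nat_lit 4) (nat_lit 4) (nat_lit 494) (nat_lit 384) (nat_lit 322))))))) (XT.nd (nat_lit 936) (nat_lit 0) (nat_lit 0) (XT.nd (nat_lit 468) (nat_lit 0) (nat_lit 0) (XT.nd (nat_lit 234) (nat_lit 0) (nat_lit 0) (XT.nd (nat_lit 78) (nat_lit 0) (nat_lit 0) (XT.lf (nat_lit 0) (nat_lit 6997513349) (nat_lit 152) (nat_lit 872146683253) (nat_lit 0) (nat_lit 4871901817) (nat_lit 1) (nat_lit 5) (nat_lit 3) (nat_lit 4) (nat_lit 1) (nat_lit 4) (nat_lit 495) (nat_lit 384) (nat_lit 321)) (XT.nd (nat_lit 78) (nat_lit 0) (nat_lit 0) (XT.lf (nat_lit 0) (nat_lit 17303989647) (nat_lit 152) (nat_lit 921462732981) (nat_lit 0) (nat_lit 15177133968) (nat_lit 1) (nat_lit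 5) (nat_lit 3) (nat_lit 4) (nat_lit 1) (nat_lit 4) (nat_lit 496) (nat_lit 384) (nat_lit 320)) (XT.lf (nat_lit 0) (nat_lit 28424056370) (nat_lit 152) (nat_lit 974746604664) (nat_lit 0) (nat_lit 26296048702) (nat_lit 1) (nat_lit 5) (nat_lit 3) (nat_lit 4) (nat_lit 1) (nat_lit 4) (nat_lit 497) (nat_lit 384) (nat_lit 319)))) (XT.nd (nat_lit 78) (nat_lit 0) (nat_lit 0) (XT.lf (nat_lit 0) (nat_lit 40423610208) (nat_lit 152) (nat_lit 1032314054578) (nat_lit 0) (nat_lit 38294535885) (nat_lit 1) (nat_lit 5) (nat_lit 3) (nat_lit 4) (nat_lit 1) (nat_lit 4) (nat_lit 498) (nat_lit 384) (nat_lit 318)) (XT.nd (nat_lit 78) (nat_lit 0) (nat_lit 0) (XT.lf (nat_lit 0) (nat_lit 53373759628) (nat_lit 152) (nat_lit 1094506223168) (nat_lit 0) (nat_lit 51243697661) (nat_lit 1) (nat_lit 5) (nat_lit 3) (nat_lit 4) (nat_lit 1) (nat_lit 4) (nat_lit 499) (nat_lit 384) (nat_lit 317)) (XT.lf (nat_lit 0) (nat_lit 67351246258)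 (nat_lit 152) (nat_lit 1161691656617) (nat_lit 0) (nat_lit 65220269806) (nat_lit 1) (nat_lit 5) (nat_lit 3) (nat_lit 4) (nat_lit 1) (nat_lit 4) (nat_lit 500) (nat_lit 384) (nat_lit 316))))) (XT.nd (nat_lit 234) (nat_lit 0) (nat_lit 0) (XT.nd (nat_lit 78) (nat_lit 0) (nat_lit 0) (XT.lf (nat_lit 0) (nat_lit 82438899647) (nat_lit 152) (nat_lit 1234268490827) (nat_lit 0) (nat_lit 80307076449) (nat_lit 1) (nat_lit 5) (nat_lit 3) (nat_lit 4) (nat_lit 1) (nat_lit 4) (nat_lit 501) (nat_lit 384) (nat_lit 315)) (XT.nd (nat_lit 78) (nat_lit 0) (nat_lit 0) (XT.lf (nat_lit 0) (nat_lit 98726128112) (nat_lit 152) (nat_lit 1312666810741) (nat_lit 0) (nat_lit 96593520890) (nat_lit 1) (nat_lit 5) (nat_lit 3) (nat_lit 4) (nat_lit 1) (nat_lit 4) (nat_lit 502) (nat_lit 384) (nat_lit 314)) (XT.lf (nat_lit 0) (nat_lit 116309448562) (nat_lit 152) (nat_lit 1397351198998) (nat_lit 0) (nat_lit 114176115393) (nat_lit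 1) (nat_lit 5) (nat_lit 3) (nat_lit 4) (nat_lit 1) (nat_lit 4) (nat_lit 503) (nat_lit 384) (nat_lit 313)))) (XT.nd (nat_lit 78) (nat_lit 0) (nat_lit 0) (XT.lf (nat_lit 0) (nat_lit 135293058452) (nat_lit 152) (nat_lit 1488823489007) (nat_lit 0) (nat_lit 133159053108) (nat_lit 1) (nat_lit 5) (nat_lit 3) (nat_lit 4) (nat_lit 1) (nat_lit 4) (nat_lit 504) (nat_lit 384) (nat_lit 312)) (XT.nd (nat_lit 78) (nat_lit 0) (nat_lit 0) (XT.lf (nat_lit 0) (nat_lit 155789453247) (nat_lit 152) (nat_lit 1587625738785) (nat_lit 0) (nat_lit 153654825521) (nat_lit 1) (nat_lit 5) (nat_lit 3) (nat_lit 4) (nat_lit 1) (nat_lit 4) (nat_lit 505) (nat_lit 384) (nat_lit 311)) (XT.lf (nat_lit 0) (nat_lit 177920093066) (nat_lit 152) (nat_lit 1694343443144) (nat_lit 0) (nat_lit 175784889058) (nat_lit 1) (nat_lit 5) (nat_lit 3) (nat_lit 4) (nat_lit 1) (nat_lit 4) (nat_lit 506) (nat_lit 384) (nat_lit 310)))))) (XT.nd (nat_lit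 468) (nat_lit 0) (nat_lit 0) (XT.nd (nat_lit 234) (nat_lit 0) (nat_lit 0) (XT.nd (nat_lit 78) (nat_lit 0) (nat_lit 0) (XT.lf (nat_lit 0) (nat_lit 201816122440) (nat_lit 152) (nat_lit 1809609003295) (nat_lit 0) (nat_lit 199680384839) (nat_lit 1) (nat_lit 5) (nat_lit 3) (nat_lit 4) (nat_lit 1) (nat_lit 4) (nat_lit 507) (nat_lit 384) (nat_lit 309)) (XT.nd (nat_lit 78) (nat_lit 0) (nat_lit 0) (XT.lf (nat_lit 0) (nat_lit 227619147469) (nat_lit 152) (nat_lit 1934105474411) (nat_lit 0) (nat_lit 225482915800) (nat_lit 1) (nat_lit 5) (nat_lit 3) (nat_lit 4) (nat_lit 1) (nat_lit 4) (nat_lit 508) (nat_lit 384) (nat_lit 308)) (XT.lf (nat_lit 0) (nat_lit 255482074968) (nat_lit 152) (nat_lit 2068570613356) (nat_lit 0) (nat_lit 253345385829) (nat_lit 1) (nat_lit 5) (nat_lit 3) (nat_lit 4) (nat_lit 1) (nat_lit 4) (nat_lit 509) (nat_lit 384) (nat_lit 307)))) (XT.nd (nat_lit 78) (nat_lit 0) (nat_lit 0) (XT.lf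 (nat_lit 0) (nat_lit 285570018582) (nat_lit 152) (nat_lit 2213801250584) (nat_lit 0) (nat_lit 283432905860) (nat_lit 1) (nat_lit 5) (nat_lit 3) (nat_lit 4) (nat_lit 1) (nat_lit 4) (nat_lit 510) (nat_lit 384) (nat_lit 306)) (XT.nd (nat_lit 78) (nat_lit 0) (nat_lit 0) (XT.lf (nat_lit 0) (nat_lit 318061277236) (nat_lit 152) (nat_lit 2370658012094) (nat_lit 0) (nat_lit 315923772306) (nat_lit 1) (nat_lit 5) (nat_lit 3) (nat_lit 4) (nat_lit 1) (nat_lit 4) (nat_lit 511) (nat_lit 384) (nat_lit 305)) (XT.lf (nat_lit 0) (nat_lit 353148391722) (nat_lit 152) (nat_lit 2540070419434) (nat_lit 0) (nat_lit 351010523638) (nat_lit 1) (nat_lit 5) (nat_lit 3) (nat_lit 4) (nat_lit 1) (nat_lit 4) (nat_lit 512) (nat_lit 384) (nat_lit 304))))) (XT.nd (nat_lit 234) (nat_lit 0) (nat_lit 0) (XT.nd (nat_lit 78) (nat_lit 0) (nat_lit 0) (XT.lf (nat_lit 0) (nat_lit 391039285681) (nat_lit 152) (nat_lit 2723042397981)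 (nat_lit 0) (nat_lit 388901081342) (nat_lit 1) (nat_lit 5) (nat_lit 3) (nat_lit 4) (nat_lit 1) (nat_lit 4) (nat_lit 513) (nat_lit 384) (nat_lit 303)) (XT.nd (nat_lit 78) (nat_lit 0) (nat_lit 0) (XT.lf (nat_lit 0) (nat_lit 431958497744) (nat_lit 152) (nat_lit 2920658226128) (nat_lit 0) (nat_lit 429819982059) (nat_lit 1) (nat_lit 5) (nat_lit 3) (nat_lit 4) (nat_lit 1) (nat_lit 4) (nat_lit 514) (nat_lit 384) (nat_lit 302)) (XT.lf (nat_lit 0) (nat_lit 476148512131) (nat_lit 152) (nat_lit 3134088960633) (nat_lit 0) (nat_lit 474009708162) (nat_lit 1) (nat_lit 5) (nat_lit 3) (nat_lit 4) (nat_lit 1) (nat_lit 4) (nat_lit 515) (nat_lit 384) (nat_lit 301)))) (XT.nd (nat_lit 78) (nat_lit 0) (nat_lit 0) (XT.lf (nat_lit 0) (nat_lit 523871195594) (nat_lit 152) (nat_lit 3364599376220) (nat_lit 0) (nat_lit 521732124695) (nat_lit 1) (nat_lit 5) (nat_lit 3) (nat_lit 4) (nat_lit 1) (nat_lit 4) (nat_lit 516)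 (nat_lit 384) (nat_lit 300)) (XT.nd (nat_lit 78) (nat_lit 0) (nat_lit 0) (XT.lf (nat_lit 0) (nat_lit 575409349219) (nat_lit 152) (nat_lit 3613555460536) (nat_lit 0) (nat_lit 573270031163) (nat_lit 1) (nat_lit 5) (nat_lit 3) (nat_lit 4) (nat_lit 1) (nat_lit 4) (nat_lit 517) (nat_lit 384) (nat_lit 299)) (XT.lf (nat_lit 0) (nat_lit 631068384288) (nat_lit 152) (nat_lit 3882432508895) (nat_lit 0) (nat_lit 628928837383) (nat_lit 1) (nat_lit 5) (nat_lit 3) (nat_lit 4) (nat_lit 1) (nat_lit 4) (nat_lit 518) (nat_lit 384) (nat_lit 298))))))))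
noncomputable def xc55 : XT := (XT.nd (nat_lit 56316) (nat_lit 0) (nat_lit 380) (XT.nd (nat_lit 858) (nat_lit 0) (nat_lit 0) (XT.nd (nat_lit 390) (nat_lit 0) (nat_lit 0) (XT.nd (nat_lit 156) (nat_lit 0) (nat_lit 0) (XT.nd (nat_lit 78) (nat_lit 0) (nat_lit 0) (XT.lf (nat_lit 0) (nat_lit 691178132120) (nat_lit 152) (nat_lit 4172823866771) (nat_lit 0) (nat_lit 689038373318) (nat_lit 1) (nat_lit 5) (nat_lit 3) (nat_lit 4) (nat_lit 1) (nat_lit 4) (nat_lit 519) (nat_lit 384) (nat_lit 297)) (XT.lf (nat_lit 0) (nat_lit 756094798627) (nat_lit 152) (nat_lit 4486450371838) (nat_lit 0) (nat_lit 753954843624) (nat_lit 1) (nat_lit 5) (nat_lit 3) (nat_lit 4) (nat_lit 1) (nat_lit 4) (nat_lit 520) (nat_lit 384) (nat_lit 296))) (XT.nd (nat_lit 78) (nat_lit 0) (nat_lit 0) (XT.lf (nat_lit 0) (nat_lit 826203075167) (nat_lit 152) (nat_lit 4825170551535) (nat_lit 0) (nat_lit 824062938496) (nat_lit 1) (nat_lit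 5) (nat_lit 3) (nat_lit 4) (nat_lit 1) (nat_lit 4) (nat_lit 521) (nat_lit 384) (nat_lit 295)) (XT.nd (nat_lit 78) (nat_lit 0) (nat_lit 0) (XT.lf (nat_lit 0) (nat_lit 901918418193) (nat_lit 152) (nat_lit 5190991636555) (nat_lit 0) (nat_lit 899778113311) (nat_lit 1) (nat_lit 5) (nat_lit 3) (nat_lit 4) (nat_lit 1) (nat_lit 4) (nat_lit 522) (nat_lit 384) (nat_lit 294)) (XT.lf (nat_lit 0) (nat_lit 983689511219) (nat_lit 152) (nat_lit 5586081455551) (nat_lit 0) (nat_lit 981549050587) (nat_lit 1) (nat_lit 5) (nat_lit 3) (nat_lit 4) (nat_lit 1) (nat_lit 4) (nat_lit 523) (nat_lit 384) (nat_lit 293))))) (XT.nd (nat_lit 234) (nat_lit 0) (nat_lit 0) (XT.nd (nat_lit 78) (nat_lit 0) (nat_lit 0) (XT.lf (nat_lit 0) (nat_lit 1072000923687) (nat_lit 152) (nat_lit 6012781281524) (nat_lit 0) (nat_lit 1069860318840) (nat_lit 1) (nat_lit 5) (nat_lit 3) (nat_lit 4) (nat_lit 1) (nat_lit 4) (nat_lit 524) (nat_lit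 384) (nat_lit 292)) (XT.nd (nat_lit 78) (nat_lit 0) (nat_lit 0) (XT.lf (nat_lit 0) (nat_lit 1167375982483) (nat_lit 152) (nat_lit 6473619706036) (nat_lit 0) (nat_lit 1165235244106) (nat_lit 1) (nat_lit 5) (nat_lit 3) (nat_lit 4) (nat_lit 1) (nat_lit 4) (nat_lit 525) (nat_lit 384) (nat_lit 291)) (XT.lf (nat_lit 0) (nat_lit 1270379873143) (nat_lit 152) (nat_lit 6971327623454) (nat_lit 0) (nat_lit 1268239011125) (nat_lit 1) (nat_lit 5) (nat_lit 3) (nat_lit 4) (nat_lit 1) (nat_lit 4) (nat_lit 526) (nat_lit 384) (nat_lit 290)))) (XT.nd (nat_lit 78) (nat_lit 0) (nat_lit 0) (XT.lf (nat_lit 0) (nat_lit 1381622989091) (nat_lit 152) (nat_lit 7508854414029) (nat_lit 0) (nat_lit 1379482012592) (nat_lit 1) (nat_lit 5) (nat_lit 3) (nat_lit 4) (nat_lit 1) (nat_lit 4) (nat_lit 527) (nat_lit 384) (nat_lit 289)) (XT.nd (nat_lit 78) (nat_lit 0) (nat_lit 0) (XT.lf (nat_lit 0) (nat_lit 1501764548794) (nat_lit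 152) (nat_lit 8089385421706) (nat_lit 0) (nat_lit 1499623466294) (nat_lit 1) (nat_lit 5) (nat_lit 3) (nat_lit 4) (nat_lit 1) (nat_lit 4) (nat_lit 528) (nat_lit 384) (nat_lit 288)) (XT.lf (nat_lit 0) (nat_lit 1631516502234) (nat_lit 152) (nat_lit 8716360830234) (nat_lit 0) (nat_lit 1629375321584) (nat_lit 1) (nat_lit 5) (nat_lit 3) (nat_lit 4) (nat_lit 1) (nat_lit 4) (nat_lit 529) (nat_lit 384) (nat_lit 287)))))) (XT.nd (nat_lit 54990) (nat_lit 0) (nat_lit 1596) (XT.nd (nat_lit 54756) (nat_lit 0) (nat_lit 2052) (XT.nd (nat_lit 78) (nat_lit 0) (nat_lit 0) (XT.lf (nat_lit 0) (nat_lit 1771647749876) (nat_lit 152) (nat_lit 9393496049441) (nat_lit 0) (nat_lit 1769506478347) (nat_lit 1) (nat_lit 5) (nat_lit 3) (nat_lit 4) (nat_lit 1) (nat_lit 4) (nat_lit 530) (nat_lit 384) (nat_lit 286)) (XT.nd (nat_lit 54600) (nat_lit 0) (nat_lit 2432) (XT.lf (nat_lit 0) (nat_lit 1922988699114) (nat_lit 152)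 (nat_lit 10124803732477) (nat_lit 0) (nat_lit 1920847343438) (nat_lit 1) (nat_lit 5) (nat_lit 3) (nat_lit 4) (nat_lit 1) (nat_lit 4) (nat_lit 531) (nat_lit 384) (nat_lit 285)) (XT.lf (nat_lit 0) (nat_lit 3183068337) (nat_lit 76) (nat_lit 1784022823) (nat_lit 76) (nat_lit 1784022823) (nat_lit 33) (nat_lit 4) (nat_lit 34) (nat_lit 5) (nat_lit 34) (nat_lit 4) (nat_lit 430) (nat_lit 385) (nat_lit 385)))) (XT.nd (nat_lit 78) (nat_lit 228) (nat_lit 0) (XT.lf (nat_lit 0) (nat_lit 2610625038) (nat_lit 152) (nat_lit 9204349842) (nat_lit 0) (nat_lit 2240601266) (nat_lit 31) (nat_lit 5) (nat_lit 33) (nat_lit 4) (nat_lit 31) (nat_lit 4) (nat_lit 431) (nat_lit 385) (nat_lit 384)) (XT.nd (nat_lit 78) (nat_lit 152) (nat_lit 0) (XT.lf (nat_lit 0) (nat_lit 2869653503) (nat_lit 76) (nat_lit 6243501944) (nat_lit 76) (nat_lit 5530863569) (nat_lit 30) (nat_lit 4) (nat_lit 31) (nat_lit 5) (nat_lit 31) (nat_lit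 4) (nat_lit 432) (nat_lit 385) (nat_lit 383)) (XT.lf (nat_lit 0) (nat_lit 521956048) (nat_lit 76) (nat_lit 224116147) (nat_lit 152) (nat_lit 14537236425) (nat_lit 28) (nat_lit 5) (nat_lit 29) (nat_lit 5) (nat_lit 30) (nat_lit 4) (nat_lit 433) (nat_lit 385) (nat_lit 382))))) (XT.nd (nat_lit 234) (nat_lit 228) (nat_lit 0) (XT.nd (nat_lit 78) (nat_lit 228) (nat_lit 0) (XT.lf (nat_lit 0) (nat_lit 7371855538) (nat_lit 152) (nat_lit 2432484959) (nat_lit 0) (nat_lit 6146289873) (nat_lit 28) (nat_lit 5) (nat_lit 30) (nat_lit 4) (nat_lit 28) (nat_lit 4) (nat_lit 434) (nat_lit 385) (nat_lit 381)) (XT.nd (nat_lit 78) (nat_lit 152) (nat_lit 0) (XT.lf (nat_lit 0) (nat_lit 10813040621) (nat_lit 76) (nat_lit 3669657709) (nat_lit 76) (nat_lit 2192260082) (nat_lit 27) (nat_lit 4) (nat_lit 28) (nat_lit 5) (nat_lit 28) (nat_lit 4) (nat_lit 435) (nat_lit 385) (nat_lit 380)) (XT.lf (nat_lit 0) (nat_lit 4480833176)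 (nat_lit 152) (nat_lit 10069514719) (nat_lit 0) (nat_lit 2896967094) (nat_lit 25) (nat_lit 5) (nat_lit 27) (nat_lit 4) (nat_lit 25) (nat_lit 4) (nat_lit 436) (nat_lit 385) (nat_lit 379)))) (XT.nd (nat_lit 78) (nat_lit 152) (nat_lit 0) (XT.lf (nat_lit 0) (nat_lit 3134214356) (nat_lit 76) (nat_lit 8462160847) (nat_lit 76) (nat_lit 6678382434) (nat_lit 24) (nat_lit 4) (nat_lit 25) (nat_lit 5) (nat_lit 25) (nat_lit 4) (nat_lit 437) (nat_lit 385) (nat_lit 378)) (XT.nd (nat_lit 78) (nat_lit 76) (nat_lit 0) (XT.lf (nat_lit 0) (nat_lit 82287280) (nat_lit 152) (nat_lit 1797724878) (nat_lit 76) (nat_lit 17290167326) (nat_lit 23) (nat_lit 5) (nat_lit 25) (nat_lit 5) (nat_lit 24) (nat_lit 4) (nat_lit 438) (nat_lit 385) (nat_lit 377)) (XT.lf (nat_lit 0) (nat_lit 7170473427) (nat_lit 152) (nat_lit 7752362471) (nat_lit 0) (nat_lit 5188737294) (nat_lit 22) (nat_lit 5) (nat_lit 24) (nat_lit 4) (nat_lit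 22) (nat_lit 4) (nat_lit 439) (nat_lit 385) (nat_lit 376))))))) (XT.nd (nat_lit 936) (nat_lit 456) (nat_lit 0) (XT.nd (nat_lit 468) (nat_lit 304) (nat_lit 0) (XT.nd (nat_lit 234) (nat_lit 228) (nat_lit 0) (XT.nd (nat_lit 78) (nat_lit 152) (nat_lit 0) (XT.lf (nat_lit 0) (nat_lit 6328394966) (nat_lit 76) (nat_lit 8465556970) (nat_lit 76) (nat_lit 6336879307) (nat_lit 21) (nat_lit 4) (nat_lit 22) (nat_lit 5) (nat_lit 22) (nat_lit 4) (nat_lit 440) (nat_lit 385) (nat_lit 375)) (XT.nd (nat_lit 78) (nat_lit 76) (nat_lit 0) (XT.lf (nat_lit 0) (nat_lit 690700179) (nat_lit 152) (nat_lit 828078262) (nat_lit 76) (nat_lit 20716544804) (nat_lit 20) (nat_lit 5) (nat_lit 22) (nat_lit 5) (nat_lit 21) (nat_lit 4) (nat_lit 441) (nat_lit 385) (nat_lit 374)) (XT.lf (nat_lit 0) (nat_lit 8170942779) (nat_lit 152) (nat_lit 9268129323) (nat_lit 0) (nat_lit 5957319339) (nat_lit 19) (nat_lit 5) (nat_lit 21) (nat_lit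 4) (nat_lit 19) (nat_lit 4) (nat_lit 442) (nat_lit 385) (nat_lit 373)))) (XT.nd (nat_lit 78) (nat_lit 152) (nat_lit 0) (XT.lf (nat_lit 0) (nat_lit 5384624308) (nat_lit 76) (nat_lit 10796422010) (nat_lit 76) (nat_lit 8474792159) (nat_lit 18) (nat_lit 4) (nat_lit 19) (nat_lit 5) (nat_lit 19) (nat_lit 4) (nat_lit 443) (nat_lit 385) (nat_lit 372)) (XT.nd (nat_lit 78) (nat_lit 152) (nat_lit 0) (XT.lf (nat_lit 0) (nat_lit 21225591118) (nat_lit 76) (nat_lit 3606059311) (nat_lit 76) (nat_lit 1184423523) (nat_lit 18) (nat_lit 4) (nat_lit 19) (nat_lit 5) (nat_lit 19) (nat_lit 4) (nat_lit 444) (nat_lit 385) (nat_lit 371)) (XT.lf (nat_lit 0) (nat_lit 6476834793) (nat_lit 152) (nat_lit 16836807553) (nat_lit 0) (nat_lit 4148840461) (nat_lit 16) (nat_lit 5) (nat_lit 18) (nat_lit 4) (nat_lit 16) (nat_lit 4) (nat_lit 445) (nat_lit 385) (nat_lit 370))))) (XT.nd (nat_lit 234) (nat_lit 152) (nat_lit 0) (XT.nd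 (nat_lit 78) (nat_lit 152) (nat_lit 0) (XT.lf (nat_lit 0) (nat_lit 14674734044) (nat_lit 152) (nat_lit 2081045417) (nat_lit 0) (nat_lit 12267351776) (nat_lit 16) (nat_lit 5) (nat_lit 18) (nat_lit 4) (nat_lit 16) (nat_lit 4) (nat_lit 446) (nat_lit 385) (nat_lit 369)) (XT.nd (nat_lit 78) (nat_lit 76) (nat_lit 0) (XT.lf (nat_lit 0) (nat_lit 14110432901) (nat_lit 76) (nat_lit 9534873446) (nat_lit 76) (nat_lit 7053983829) (nat_lit 15) (nat_lit 4) (nat_lit 16) (nat_lit 5) (nat_lit 16) (nat_lit 4) (nat_lit 447) (nat_lit 385) (nat_lit 368)) (XT.lf (nat_lit 0) (nat_lit 618914713) (nat_lit 152) (nat_lit 1261609373) (nat_lit 76) (nat_lit 30640545396) (nat_lit 14) (nat_lit 5) (nat_lit 16) (nat_lit 5) (nat_lit 15) (nat_lit 4) (nat_lit 448) (nat_lit 385) (nat_lit 367)))) (XT.nd (nat_lit 78) (nat_lit 76) (nat_lit 0) (XT.lf (nat_lit 0) (nat_lit 8853622763) (nat_lit 152) (nat_lit 19158859827) (nat_lit 0)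 (nat_lit 6435129539) (nat_lit 13) (nat_lit 5) (nat_lit 15) (nat_lit 4) (nat_lit 13) (nat_lit 4) (nat_lit 449) (nat_lit 385) (nat_lit 366)) (XT.nd (nat_lit 78) (nat_lit 76) (nat_lit 0) (XT.lf (nat_lit 0) (nat_lit 17626063452) (nat_lit 152) (nat_lit 3758362477) (nat_lit 0) (nat_lit 15153540133) (nat_lit 13) (nat_lit 5) (nat_lit 15) (nat_lit 4) (nat_lit 13) (nat_lit 4) (nat_lit 450) (nat_lit 385) (nat_lit 365)) (XT.lf (nat_lit 0) (nat_lit 13144693162) (nat_lit 76) (nat_lit 14081662915) (nat_lit 76) (nat_lit 11559111730) (nat_lit 12) (nat_lit 4) (nat_lit 13) (nat_lit 5) (nat_lit 13) (nat_lit 4) (nat_lit 451) (nat_lit 385) (nat_lit 364)))))) (XT.nd (nat_lit 468) (nat_lit 228) (nat_lit 0) (XT.nd (nat_lit 234) (nat_lit 76) (nat_lit 0) (XT.nd (nat_lit 78) (nat_lit 152) (nat_lit 0) (XT.lf (nat_lit 0) (nat_lit 31236500657) (nat_lit 76) (nat_lit 6275865274) (nat_lit 76) (nat_lit 3706991990) (nat_lit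 12) (nat_lit 4) (nat_lit 13) (nat_lit 5) (nat_lit 13) (nat_lit 4) (nat_lit 452) (nat_lit 385) (nat_lit 363)) (XT.nd (nat_lit 78) (nat_lit 0) (nat_lit 0) (XT.lf (nat_lit 0) (nat_lit 4576751117) (nat_lit 152) (nat_lit 37100197808) (nat_lit 0) (nat_lit 2158451009) (nat_lit 10) (nat_lit 5) (nat_lit 12) (nat_lit 4) (nat_lit 10) (nat_lit 4) (nat_lit 453) (nat_lit 385) (nat_lit 362)) (XT.lf (nat_lit 0) (nat_lit 13590486496) (nat_lit 152) (nat_lit 21905719190) (nat_lit 0) (nat_lit 11135414413) (nat_lit 10) (nat_lit 5) (nat_lit 12) (nat_lit 4) (nat_lit 10) (nat_lit 4) (nat_lit 454) (nat_lit 385) (nat_lit 361)))) (XT.nd (nat_lit 78) (nat_lit 76) (nat_lit 0) (XT.lf (nat_lit 0) (nat_lit 23162837922) (nat_lit 152) (nat_lit 5827983606) (nat_lit 0) (nat_lit 20673717714) (nat_lit 10) (nat_lit 5) (nat_lit 12) (nat_lit 4) (nat_lit 10) (nat_lit 4) (nat_lit 455) (nat_lit 385) (nat_lit 360)) (XT.nd (nat_lit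 78) (nat_lit 0) (nat_lit 0) (XT.lf (nat_lit 0) (nat_lit 11819545970) (nat_lit 76) (nat_lit 21815244836) (nat_lit 76) (nat_lit 19294598585) (nat_lit 9) (nat_lit 4) (nat_lit 10) (nat_lit 5) (nat_lit 10) (nat_lit 4) (nat_lit 456) (nat_lit 385) (nat_lit 359)) (XT.lf (nat_lit 0) (nat_lit 30910423623) (nat_lit 76) (nat_lit 14046908373) (nat_lit 76) (nat_lit 11497071343) (nat_lit 9) (nat_lit 4) (nat_lit 10) (nat_lit 5) (nat_lit 10) (nat_lit 4) (nat_lit 457) (nat_lit 385) (nat_lit 358))))) (XT.nd (nat_lit 234) (nat_lit 76) (nat_lit 0) (XT.nd (nat_lit 78) (nat_lit 152) (nat_lit 0) (XT.lf (nat_lit 0) (nat_lit 51250889189) (nat_lit 76) (nat_lit 5799124954) (nat_lit 76) (nat_lit 3222259424) (nat_lit 9) (nat_lit 4) (nat_lit 10) (nat_lit 5) (nat_lit 10) (nat_lit 4) (nat_lit 458) (nat_lit 385) (nat_lit 357)) (XT.nd (nat_lit 78) (nat_lit 0) (nat_lit 0) (XT.lf (nat_lit 0) (nat_lit 5593621715) (nat_lit 152)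 (nat_lit 55593300368) (nat_lit 0) (nat_lit 3184462532) (nat_lit 7) (nat_lit 5) (nat_lit 9) (nat_lit 4) (nat_lit 7) (nat_lit 4) (nat_lit 459) (nat_lit 385) (nat_lit 356)) (XT.lf (nat_lit 0) (nat_lit 15215696686) (nat_lit 152) (nat_lit 40768951855) (nat_lit 0) (nat_lit 12785081407) (nat_lit 7) (nat_lit 5) (nat_lit 9) (nat_lit 4) (nat_lit 7) (nat_lit 4) (nat_lit 460) (nat_lit 385) (nat_lit 355)))) (XT.nd (nat_lit 78) (nat_lit 76) (nat_lit 0) (XT.lf (nat_lit 0) (nat_lit 25488384889) (nat_lit 152) (nat_lit 25003188985) (nat_lit 0) (nat_lit 23037902857) (nat_lit 7) (nat_lit 5) (nat_lit 9) (nat_lit 4) (nat_lit 7) (nat_lit 4) (nat_lit 461) (nat_lit 385) (nat_lit 354)) (XT.nd (nat_lit 78) (nat_lit 76) (nat_lit 0) (XT.lf (nat_lit 0) (nat_lit 36472561515) (nat_lit 152) (nat_lit 8202585013) (nat_lit 0) (nat_lit 34003684340) (nat_lit 7) (nat_lit 5) (nat_lit 9) (nat_lit 4) (nat_lit 7) (nat_lit 4) (nat_lit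 462) (nat_lit 385) (nat_lit 353)) (XT.lf (nat_lit 0) (nat_lit 10244911139) (nat_lit 76) (nat_lit 38234797201) (nat_lit 76) (nat_lit 35748887486) (nat_lit 6) (nat_lit 4) (nat_lit 7) (nat_lit 5) (nat_lit 7) (nat_lit 4) (nat_lit 463) (nat_lit 385) (nat_lit 352))))))))
noncomputable def xc56 : XT := (XT.nd (nat_lit 1794) (nat_lit 152) (nat_lit 0) (XT.nd (nat_lit 858) (nat_lit 76) (nat_lit 0) (XT.nd (nat_lit 390) (nat_lit 0) (nat_lit 0) (XT.nd (nat_lit 156) (nat_lit 152) (nat_lit 0) (XT.nd (nat_lit 78) (nat_lit 0) (nat_lit 0) (XT.lf (nat_lit 0) (nat_lit 30430354727) (nat_lit 76) (nat_lit 31141843693) (nat_lit 76) (nat_lit 28640163109) (nat_lit 6) (nat_lit 4) (nat_lit 7) (nat_lit 5) (nat_lit 7) (nat_lit 4) (nat_lit 464) (nat_lit 385) (nat_lit 351)) (XT.lf (nat_lit 0) (nat_lit 52041429601) (nat_lit 76) (nat_lit 23578526901) (nat_lit 76) (nat_lit 21062243659) (nat_lit 6) (nat_lit 4) (nat_lit 7)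 (nat_lit 5) (nat_lit 7) (nat_lit 4) (nat_lit 465) (nat_lit 385) (nat_lit 350))) (XT.nd (nat_lit 78) (nat_lit 152) (nat_lit 0) (XT.lf (nat_lit 0) (nat_lit 75206201392) (nat_lit 76) (nat_lit 15500027169) (nat_lit 76) (nat_lit 12970222948) (nat_lit 6) (nat_lit 4) (nat_lit 7) (nat_lit 5) (nat_lit 7) (nat_lit 4) (nat_lit 466) (nat_lit 385) (nat_lit 349)) (XT.nd (nat_lit 78) (nat_lit 152) (nat_lit 0) (XT.lf (nat_lit 0) (nat_lit 100061942820) (nat_lit 76) (nat_lit 6858471906) (nat_lit 76) (nat_lit 4316148260) (nat_lit 6) (nat_lit 4) (nat_lit 7) (nat_lit 5) (nat_lit 7) (nat_lit 4) (nat_lit 467) (nat_lit 385) (nat_lit 348)) (XT.lf (nat_lit 0) (nat_lit 4952110858) (nat_lit 152) (nat_lit 111838441715) (nat_lit 0) (nat_lit 2587374093) (nat_lit 4) (nat_lit 5) (nat_lit 6) (nat_lit 4) (nat_lit 4) (nat_lit 4) (nat_lit 468) (nat_lit 385) (nat_lit 347))))) (XT.nd (nat_lit 234) (nat_lit 0) (nat_lit 0) (XT.nd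 (nat_lit 78) (nat_lit 0) (nat_lit 0) (XT.lf (nat_lit 0) (nat_lit 15145310665) (nat_lit 152) (nat_lit 100212352253) (nat_lit 0) (nat_lit 12770635577) (nat_lit 4) (nat_lit 5) (nat_lit 6) (nat_lit 4) (nat_lit 4) (nat_lit 4) (nat_lit 469) (nat_lit 385) (nat_lit 346)) (XT.nd (nat_lit 78) (nat_lit 0) (nat_lit 0) (XT.lf (nat_lit 0) (nat_lit 26084570237) (nat_lit 152) (nat_lit 87798989277) (nat_lit 0) (nat_lit 23700692997) (nat_lit 4) (nat_lit 5) (nat_lit 6) (nat_lit 4) (nat_lit 4) (nat_lit 4) (nat_lit 470) (nat_lit 385) (nat_lit 345)) (XT.lf (nat_lit 0) (nat_lit 37834714814) (nat_lit 152) (nat_lit 74524792117) (nat_lit 0) (nat_lit 35442317064) (nat_lit 4) (nat_lit 5) (nat_lit 6) (nat_lit 4) (nat_lit 4) (nat_lit 4) (nat_lit 471) (nat_lit 385) (nat_lit 344)))) (XT.nd (nat_lit 78) (nat_lit 0) (nat_lit 0) (XT.lf (nat_lit 0) (nat_lit 50465374884) (nat_lit 152) (nat_lit 60311098865) (nat_lit 0) (nat_lit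 48065087772) (nat_lit 4) (nat_lit 5) (nat_lit 6) (nat_lit 4) (nat_lit 4) (nat_lit 4) (nat_lit 472) (nat_lit 385) (nat_lit 343)) (XT.nd (nat_lit 78) (nat_lit 0) (nat_lit 0) (XT.lf (nat_lit 0) (nat_lit 64051398801) (nat_lit 152) (nat_lit 45073680226) (nat_lit 0) (nat_lit 61643806726) (nat_lit 4) (nat_lit 5) (nat_lit 6) (nat_lit 4) (nat_lit 4) (nat_lit 4) (nat_lit 473) (nat_lit 385) (nat_lit 342)) (XT.lf (nat_lit 0) (nat_lit 78673296338) (nat_lit 152) (nat_lit 28722240387) (nat_lit 0) (nat_lit 76258940407) (nat_lit 4) (nat_lit 5) (nat_lit 6) (nat_lit 4) (nat_lit 4) (nat_lit 4) (nat_lit 474) (nat_lit 385) (nat_lit 341)))))) (XT.nd (nat_lit 468) (nat_lit 0) (nat_lit 0) (XT.nd (nat_lit 234) (nat_lit 0) (nat_lit 0) (XT.nd (nat_lit 78) (nat_lit 76) (nat_lit 0) (XT.lf (nat_lit 0) (nat_lit 94417715776) (nat_lit 152) (nat_lit 11159881927) (nat_lit 0) (nat_lit 91997097016) (nat_lit 4) (nat_lit 5) (nat_lit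 6) (nat_lit 4) (nat_lit 4) (nat_lit 4) (nat_lit 475) (nat_lit 385) (nat_lit 340)) (XT.nd (nat_lit 78) (nat_lit 0) (nat_lit 0) (XT.lf (nat_lit 0) (nat_lit 8123856597) (nat_lit 76) (nat_lit 103449479728) (nat_lit 76) (nat_lit 101023062051) (nat_lit 3) (nat_lit 4) (nat_lit 4) (nat_lit 5) (nat_lit 4) (nat_lit 4) (nat_lit 476) (nat_lit 385) (nat_lit 339)) (XT.lf (nat_lit 0) (nat_lit 29497248159) (nat_lit 76) (nat_lit 100866687649) (nat_lit 76) (nat_lit 98434900606) (nat_lit 3) (nat_lit 4) (nat_lit 4) (nat_lit 5) (nat_lit 4) (nat_lit 4) (nat_lit 477) (nat_lit 385) (nat_lit 338)))) (XT.nd (nat_lit 78) (nat_lit 0) (nat_lit 0) (XT.lf (nat_lit 0) (nat_lit 52499290287) (nat_lit 76) (nat_lit 98119046984) (nat_lit 76) (nat_lit 95682288304) (nat_lit 3) (nat_lit 4) (nat_lit 4) (nat_lit 5) (nat_lit 4) (nat_lit 4) (nat_lit 478) (nat_lit 385) (nat_lit 337)) (XT.nd (nat_lit 78) (nat_lit 0) (nat_lit 0) (XT.lf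 (nat_lit 0) (nat_lit 77266291379) (nat_lit 76) (nat_lit 95190275416) (nat_lit 76) (nat_lit 92748913370) (nat_lit 3) (nat_lit 4) (nat_lit 4) (nat_lit 5) (nat_lit 4) (nat_lit 4) (nat_lit 479) (nat_lit 385) (nat_lit 336)) (XT.lf (nat_lit 0) (nat_lit 103945018849) (nat_lit 76) (nat_lit 92063017262) (nat_lit 76) (nat_lit 89617392839) (nat_lit 3) (nat_lit 4) (nat_lit 4) (nat_lit 5) (nat_lit 4) (nat_lit 4) (nat_lit 480) (nat_lit 385) (nat_lit 335))))) (XT.nd (nat_lit 234) (nat_lit 0) (nat_lit 0) (XT.nd (nat_lit 78) (nat_lit 0) (nat_lit 0) (XT.lf (nat_lit 0) (nat_lit 132693568859) (nat_lit 76) (nat_lit 88718740622) (nat_lit 76) (nat_lit 86269169554) (nat_lit 3) (nat_lit 4) (nat_lit 4) (nat_lit 5) (nat_lit 4) (nat_lit 4) (nat_lit 481) (nat_lit 385) (nat_lit 334)) (XT.nd (nat_lit 78) (nat_lit 0) (nat_lit 0) (XT.lf (nat_lit 0) (nat_lit 163682303188) (nat_lit 76) (nat_lit 85137627561) (nat_lit 76)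 (nat_lit 82684402192) (nat_lit 3) (nat_lit 4) (nat_lit 4) (nat_lit 5) (nat_lit 4) (nat_lit 4) (nat_lit 482) (nat_lit 385) (nat_lit 333)) (XT.lf (nat_lit 0) (nat_lit 197094858779) (nat_lit 76) (nat_lit 81298456667) (nat_lit 76) (nat_lit 78841847686) (nat_lit 3) (nat_lit 4) (nat_lit 4) (nat_lit 5) (nat_lit 4) (nat_lit 4) (nat_lit 483) (nat_lit 385) (nat_lit 332)))) (XT.nd (nat_lit 78) (nat_lit 0) (nat_lit 0) (XT.lf (nat_lit 0) (nat_lit 233129235963) (nat_lit 76) (nat_lit 77178477298) (nat_lit 76) (nat_lit 74718735344) (nat_lit 3) (nat_lit 4) (nat_lit 4) (nat_lit 5) (nat_lit 4) (nat_lit 4) (nat_lit 484) (nat_lit 385) (nat_lit 331)) (XT.nd (nat_lit 78) (nat_lit 0) (nat_lit 0) (XT.lf (nat_lit 0) (nat_lit 271998971788) (nat_lit 76) (nat_lit 72753274762) (nat_lit 76) (nat_lit 70290631906) (nat_lit 3) (nat_lit 4) (nat_lit 4) (nat_lit 5) (nat_lit 4) (nat_lit 4) (nat_lit 485) (nat_lit 385) (nat_lit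 330)) (XT.lf (nat_lit 0) (nat_lit 313934405430) (nat_lit 76) (nat_lit 67996625637) (nat_lit 76) (nat_lit 65531296761) (nat_lit 3) (nat_lit 4) (nat_lit 4) (nat_lit 5) (nat_lit 4) (nat_lit 4) (nat_lit 486) (nat_lit 385) (nat_lit 329))))))) (XT.nd (nat_lit 858) (nat_lit 0) (nat_lit 0) (XT.nd (nat_lit 390) (nat_lit 152) (nat_lit 0) (XT.nd (nat_lit 156) (nat_lit 0) (nat_lit 0) (XT.nd (nat_lit 78) (nat_lit 0) (nat_lit 0) (XT.lf (nat_lit 0) (nat_lit 359184043164) (nat_lit 76) (nat_lit 62880342371) (nat_lit 76) (nat_lit 60412526439) (nat_lit 3) (nat_lit 4) (nat_lit 4) (nat_lit 5) (nat_lit 4) (nat_lit 4) (nat_lit 487) (nat_lit 385) (nat_lit 328)) (XT.lf (nat_lit 0) (nat_lit 408016030989) (nat_lit 76) (nat_lit 57374106250) (nat_lit 76) (nat_lit 54903987489) (nat_lit 3) (nat_lit 4) (nat_lit 4) (nat_lit 5) (nat_lit 4) (nat_lit 4) (nat_lit 488) (nat_lit 385) (nat_lit 327))) (XT.nd (nat_lit 78) (nat_lit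 0) (nat_lit 0) (XT.lf (nat_lit 0) (nat_lit 460719743649) (nat_lit 76) (nat_lit 51445287726) (nat_lit 76) (nat_lit 48973036715) (nat_lit 3) (nat_lit 4) (nat_lit 4) (nat_lit 5) (nat_lit 4) (nat_lit 4) (nat_lit 489) (nat_lit 385) (nat_lit 326)) (XT.nd (nat_lit 78) (nat_lit 0) (nat_lit 0) (XT.lf (nat_lit 0) (nat_lit 517607499441) (nat_lit 76) (nat_lit 45058753059) (nat_lit 76) (nat_lit 42584527743) (nat_lit 3) (nat_lit 4) (nat_lit 4) (nat_lit 5) (nat_lit 4) (nat_lit 4) (nat_lit 490) (nat_lit 385) (nat_lit 325)) (XT.lf (nat_lit 0) (nat_lit 579016410992) (nat_lit 76) (nat_lit 38176656118) (nat_lit 76) (nat_lit 35700602742) (nat_lit 3) (nat_lit 4) (nat_lit 4) (nat_lit 5) (nat_lit 4) (nat_lit 4) (nat_lit 491) (nat_lit 385) (nat_lit 324))))) (XT.nd (nat_lit 234) (nat_lit 152) (nat_lit 0) (XT.nd (nat_lit 78) (nat_lit 0) (nat_lit 0) (XT.lf (nat_lit 0) (nat_lit 645310382962) (nat_lit 76) (nat_lit 30758214107)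 (nat_lit 76) (nat_lit 28280468082) (nat_lit 3) (nat_lit 4) (nat_lit 4) (nat_lit 5) (nat_lit 4) (nat_lit 4) (nat_lit 492) (nat_lit 385) (nat_lit 323)) (XT.nd (nat_lit 78) (nat_lit 0) (nat_lit 0) (XT.lf (nat_lit 0) (nat_lit 716882268520) (nat_lit 76) (nat_lit 22759465887) (nat_lit 76) (nat_lit 20280152596) (nat_lit 3) (nat_lit 4) (nat_lit 4) (nat_lit 5) (nat_lit 4) (nat_lit 4) (nat_lit 493) (nat_lit 385) (nat_lit 322)) (XT.lf (nat_lit 0) (nat_lit 794156197358) (nat_lit 76) (nat_lit 14133011470) (nat_lit 76) (nat_lit 11652247005) (nat_lit 3) (nat_lit 4) (nat_lit 4) (nat_lit 5) (nat_lit 4) (nat_lit 4) (nat_lit 494) (nat_lit 385) (nat_lit 321)))) (XT.nd (nat_lit 78) (nat_lit 152) (nat_lit 0) (XT.lf (nat_lit 0) (nat_lit 877590089053) (nat_lit 76) (nat_lit 4827731124) (nat_lit 76) (nat_lit 2345622981) (nat_lit 3) (nat_lit 4) (nat_lit 4) (nat_lit 5) (nat_lit 4) (nat_lit 4) (nat_lit 495) (nat_lit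 385) (nat_lit 320)) (XT.nd (nat_lit 78) (nat_lit 0) (nat_lit 0) (XT.lf (nat_lit 0) (nat_lit 7770509250) (nat_lit 152) (nat_lit 941478710663) (nat_lit 0) (nat_lit 5471108981) (nat_lit 1) (nat_lit 5) (nat_lit 3) (nat_lit 4) (nat_lit 1) (nat_lit 4) (nat_lit 496) (nat_lit 385) (nat_lit 319)) (XT.lf (nat_lit 0) (nat_lit 18885711442) (nat_lit 152) (nat_lit 994772615277) (nat_lit 0) (nat_lit 16585244518) (nat_lit 1) (nat_lit 5) (nat_lit 3) (nat_lit 4) (nat_lit 1) (nat_lit 4) (nat_lit 497) (nat_lit 385) (nat_lit 318)))))) (XT.nd (nat_lit 468) (nat_lit 0) (nat_lit 0) (XT.nd (nat_lit 234) (nat_lit 0) (nat_lit 0) (XT.nd (nat_lit 78) (nat_lit 0) (nat_lit 0) (XT.lf (nat_lit 0) (nat_lit 30880761086) (nat_lit 152) (nat_lit 1052349354943) (nat_lit 0) (nat_lit 28579306517) (nat_lit 1) (nat_lit 5) (nat_lit 3) (nat_lit 4) (nat_lit 1) (nat_lit 4) (nat_lit 498) (nat_lit 385) (nat_lit 317)) (XT.nd (nat_lit 78)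 (nat_lit 0) (nat_lit 0) (XT.lf (nat_lit 0) (nat_lit 43826739956) (nat_lit 152) (nat_lit 1114550125153) (nat_lit 0) (nat_lit 41524370902) (nat_lit 1) (nat_lit 5) (nat_lit 3) (nat_lit 4) (nat_lit 1) (nat_lit 4) (nat_lit 499) (nat_lit 385) (nat_lit 316)) (XT.lf (nat_lit 0) (nat_lit 57800364965) (nat_lit 152) (nat_lit 1181743523066) (nat_lit 0) (nat_lit 55497149166) (nat_lit 1) (nat_lit 5) (nat_lit 3) (nat_lit 4) (nat_lit 1) (nat_lit 4) (nat_lit 500) (nat_lit 385) (nat_lit 315)))) (XT.nd (nat_lit 78) (nat_lit 0) (nat_lit 0) (XT.lf (nat_lit 0) (nat_lit 72884442780) (nat_lit 152) (nat_lit 1254327731780) (nat_lit 0) (nat_lit 70580442957) (nat_lit 1) (nat_lit 5) (nat_lit 3) (nat_lit 4) (nat_lit 1) (nat_lit 4) (nat_lit 501) (nat_lit 385) (nat_lit 314)) (XT.nd (nat_lit 78) (nat_lit 0) (nat_lit 0) (XT.lf (nat_lit 0) (nat_lit 89168360527) (nat_lit 152) (nat_lit 1332732879939) (nat_lit 0) (nat_lit 86863634756)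 (nat_lit 1) (nat_lit 5) (nat_lit 3) (nat_lit 4) (nat_lit 1) (nat_lit 4) (nat_lit 502) (nat_lit 385) (nat_lit 313)) (XT.lf (nat_lit 0) (nat_lit 106748615498) (nat_lit 152) (nat_lit 1417423590644) (nat_lit 0) (nat_lit 104443217553) (nat_lit 1) (nat_lit 5) (nat_lit 3) (nat_lit 4) (nat_lit 1) (nat_lit 4) (nat_lit 503) (nat_lit 385) (nat_lit 312))))) (XT.nd (nat_lit 234) (nat_lit 0) (nat_lit 0) (XT.nd (nat_lit 78) (nat_lit 0) (nat_lit 0) (XT.lf (nat_lit 0) (nat_lit 125729386982) (nat_lit 152) (nat_lit 1508901734772) (nat_lit 0) (nat_lit 123423366653) (nat_lit 1) (nat_lit 5) (nat_lit 3) (nat_lit 4) (nat_lit 1) (nat_lit 4) (nat_lit 504) (nat_lit 385) (nat_lit 311)) (XT.nd (nat_lit 78) (nat_lit 0) (nat_lit 0) (XT.lf (nat_lit 0) (nat_lit 146223153623) (nat_lit 152) (nat_lit 1607709405030) (nat_lit 0) (nat_lit 143916557014) (nat_lit 1) (nat_lit 5) (nat_lit 3) (nat_lit 4) (nat_lit 1) (nat_lit 4) (nat_lit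 505) (nat_lit 385) (nat_lit 310)) (XT.lf (nat_lit 0) (nat_lit 168351359965) (nat_lit 152) (nat_lit 1714432128353) (nat_lit 0) (nat_lit 166044229763) (nat_lit 1) (nat_lit 5) (nat_lit 3) (nat_lit 4) (nat_lit 1) (nat_lit 4) (nat_lit 506) (nat_lit 385) (nat_lit 309)))) (XT.nd (nat_lit 78) (nat_lit 0) (nat_lit 0) (XT.lf (nat_lit 0) (nat_lit 192245136121) (nat_lit 152) (nat_lit 1829702335693) (nat_lit 0) (nat_lit 189937511851) (nat_lit 1) (nat_lit 5) (nat_lit 3) (nat_lit 4) (nat_lit 1) (nat_lit 4) (nat_lit 507) (nat_lit 385) (nat_lit 308)) (XT.nd (nat_lit 78) (nat_lit 0) (nat_lit 0) (XT.lf (nat_lit 0) (nat_lit 218046074836) (nat_lit 152) (nat_lit 1954203109760) (nat_lit 0) (nat_lit 215737993096) (nat_lit 1) (nat_lit 5) (nat_lit 3) (nat_lit 4) (nat_lit 1) (nat_lit 4) (nat_lit 508) (nat_lit 385) (nat_lit 307)) (XT.lf (nat_lit 0) (nat_lit 245907070564) (nat_lit 152) (nat_lit 2088672232921) (nat_lit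 0) (nat_lit 243598565240) (nat_lit 1) (nat_lit 5) (nat_lit 3) (nat_lit 4) (nat_lit 1) (nat_lit 4) (nat_lit 509) (nat_lit 385) (nat_lit 306))))))))
noncomputable def xc57 : XT := (XT.nd (nat_lit 56160) (nat_lit 0) (nat_lit 836) (XT.nd (nat_lit 858) (nat_lit 0) (nat_lit 0) (XT.nd (nat_lit 390) (nat_lit 0) (nat_lit 0) (XT.nd (nat_lit 156) (nat_lit 0) (nat_lit 0) (XT.nd (nat_lit 78) (nat_lit 0) (nat_lit 0) (XT.lf (nat_lit 0) (nat_lit 275993225501) (nat_lit 152) (nat_lit 2233906559237) (nat_lit 0) (nat_lit 273684327969) (nat_lit 1) (nat_lit 5) (nat_lit 3) (nat_lit 4) (nat_lit 1) (nat_lit 4) (nat_lit 510) (nat_lit 385) (nat_lit 305)) (XT.lf (nat_lit 0) (nat_lit 308482827972) (nat_lit 152) (nat_lit 2390766736568) (nat_lit 0) (nat_lit 306173567286) (nat_lit 1) (nat_lit 5) (nat_lit 3) (nat_lit 4) (nat_lit 1) (nat_lit 4) (nat_lit 511) (nat_lit 385) (nat_lit 304))) (XT.nd (nat_lit 78) (nat_lit 0)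 (nat_lit 0) (XT.lf (nat_lit 0) (nat_lit 343568408955) (nat_lit 152) (nat_lit 2560182306706) (nat_lit 0) (nat_lit 341258812014) (nat_lit 1) (nat_lit 5) (nat_lit 3) (nat_lit 4) (nat_lit 1) (nat_lit 4) (nat_lit 512) (nat_lit 385) (nat_lit 303)) (XT.nd (nat_lit 78) (nat_lit 0) (nat_lit 0) (XT.lf (nat_lit 0) (nat_lit 381457883004) (nat_lit 152) (nat_lit 2743157213771) (nat_lit 0) (nat_lit 379147974717) (nat_lit 1) (nat_lit 5) (nat_lit 3) (nat_lit 4) (nat_lit 1) (nat_lit 4) (nat_lit 513) (nat_lit 385) (nat_lit 302)) (XT.lf (nat_lit 0) (nat_lit 422375780335) (nat_lit 152) (nat_lit 2940775753507) (nat_lit 0) (nat_lit 420065583765) (nat_lit 1) (nat_lit 5) (nat_lit 3) (nat_lit 4) (nat_lit 1) (nat_lit 4) (nat_lit 514) (nat_lit 385) (nat_lit 301))))) (XT.nd (nat_lit 234) (nat_lit 0) (nat_lit 0) (XT.nd (nat_lit 78) (nat_lit 0) (nat_lit 0) (XT.lf (nat_lit 0) (nat_lit 466564577378) (nat_lit 152) (nat_lit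 3154208998744) (nat_lit 0) (nat_lit 464254113878) (nat_lit 1) (nat_lit 5) (nat_lit 3) (nat_lit 4) (nat_lit 1) (nat_lit 4) (nat_lit 515) (nat_lit 385) (nat_lit 300)) (XT.nd (nat_lit 78) (nat_lit 0) (nat_lit 0) (XT.lf (nat_lit 0) (nat_lit 514286133671) (nat_lit 152) (nat_lit 3384721739082) (nat_lit 0) (nat_lit 511975423014) (nat_lit 1) (nat_lit 5) (nat_lit 3) (nat_lit 4) (nat_lit 1) (nat_lit 4) (nat_lit 516) (nat_lit 385) (nat_lit 299)) (XT.lf (nat_lit 0) (nat_lit 565823243620) (nat_lit 152) (nat_lit 3633679975945) (nat_lit 0) (nat_lit 563512304114) (nat_lit 1) (nat_lit 5) (nat_lit 3) (nat_lit 4) (nat_lit 1) (nat_lit 4) (nat_lit 517) (nat_lit 385) (nat_lit 298)))) (XT.nd (nat_lit 78) (nat_lit 0) (nat_lit 0) (XT.lf (nat_lit 0) (nat_lit 621481312322) (nat_lit 152) (nat_lit 3902559017404) (nat_lit 0) (nat_lit 619170160919) (nat_lit 1) (nat_lit 5) (nat_lit 3) (nat_lit 4) (nat_lit 1) (nat_lit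 4) (nat_lit 518) (nat_lit 385) (nat_lit 297)) (XT.nd (nat_lit 78) (nat_lit 0) (nat_lit 0) (XT.lf (nat_lit 0) (nat_lit 681590165370) (nat_lit 152) (nat_lit 4192952220742) (nat_lit 0) (nat_lit 679278817765) (nat_lit 1) (nat_lit 5) (nat_lit 3) (nat_lit 4) (nat_lit 1) (nat_lit 4) (nat_lit 519) (nat_lit 385) (nat_lit 296)) (XT.lf (nat_lit 0) (nat_lit 746506003373) (nat_lit 152) (nat_lit 4506580434571) (nat_lit 0) (nat_lit 744194474101) (nat_lit 1) (nat_lit 5) (nat_lit 3) (nat_lit 4) (nat_lit 1) (nat_lit 4) (nat_lit 520) (nat_lit 385) (nat_lit 295)))))) (XT.nd (nat_lit 468) (nat_lit 0) (nat_lit 0) (XT.nd (nat_lit 234) (nat_lit 0) (nat_lit 0) (XT.nd (nat_lit 78) (nat_lit 0) (nat_lit 0) (XT.lf (nat_lit 0) (nat_lit 816613512780) (nat_lit 152) (nat_lit 4845302196454) (nat_lit 0) (nat_lit 814301815297) (nat_lit 1) (nat_lit 5) (nat_lit 3) (nat_lit 4) (nat_lit 1) (nat_lit 4) (nat_lit 521) (nat_lit 385)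 (nat_lit 294)) (XT.nd (nat_lit 78) (nat_lit 0) (nat_lit 0) (XT.lf (nat_lit 0) (nat_lit 892328145498) (nat_lit 152) (nat_lit 5211124746462) (nat_lit 0) (nat_lit 890016292263) (nat_lit 1) (nat_lit 5) (nat_lit 3) (nat_lit 4) (nat_lit 1) (nat_lit 4) (nat_lit 522) (nat_lit 385) (nat_lit 293)) (XT.lf (nat_lit 0) (nat_lit 974098580831) (nat_lit 152) (nat_lit 5606215921928) (nat_lit 0) (nat_lit 971786583383) (nat_lit 1) (nat_lit 5) (nat_lit 3) (nat_lit 4) (nat_lit 1) (nat_lit 4) (nat_lit 523) (nat_lit 385) (nat_lit 292)))) (XT.nd (nat_lit 78) (nat_lit 0) (nat_lit 0) (XT.lf (nat_lit 0) (nat_lit 1062409384323) (nat_lit 152) (nat_lit 6032917003892) (nat_lit 0) (nat_lit 1060097253344) (nat_lit 1) (nat_lit 5) (nat_lit 3) (nat_lit 4) (nat_lit 1) (nat_lit 4) (nat_lit 524) (nat_lit 385) (nat_lit 291)) (XT.nd (nat_lit 78) (nat_lit 0) (nat_lit 0) (XT.lf (nat_lit 0) (nat_lit 1157783879254) (nat_lit 152) (nat_lit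 6493756591358) (nat_lit 0) (nat_lit 1155471624635) (nat_lit 1) (nat_lit 5) (nat_lit 3) (nat_lit 4) (nat_lit 1) (nat_lit 4) (nat_lit 525) (nat_lit 385) (nat_lit 290)) (XT.lf (nat_lit 0) (nat_lit 1260787247816) (nat_lit 152) (nat_lit 6991465585586) (nat_lit 0) (nat_lit 1258474878715) (nat_lit 1) (nat_lit 5) (nat_lit 3) (nat_lit 4) (nat_lit 1) (nat_lit 4) (nat_lit 526) (nat_lit 385) (nat_lit 289))))) (XT.nd (nat_lit 234) (nat_lit 0) (nat_lit 0) (XT.nd (nat_lit 78) (nat_lit 0) (nat_lit 0) (XT.lf (nat_lit 0) (nat_lit 1372029880340) (nat_lit 152) (nat_lit 7528993373207) (nat_lit 0) (nat_lit 1369717405239) (nat_lit 1) (nat_lit 5) (nat_lit 3) (nat_lit 4) (nat_lit 1) (nat_lit 4) (nat_lit 527) (nat_lit 385) (nat_lit 288)) (XT.nd (nat_lit 78) (nat_lit 0) (nat_lit 0) (XT.lf (nat_lit 0) (nat_lit 1492170992428) (nat_lit 152) (nat_lit 8109525304074) (nat_lit 0) (nat_lit 1489858419177) (nat_lit 1) (nat_lit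 5) (nat_lit 3) (nat_lit 4) (nat_lit 1) (nat_lit 4) (nat_lit 528) (nat_lit 385) (nat_lit 287)) (XT.lf (nat_lit 0) (nat_lit 1621922531410) (nat_lit 152) (nat_lit 8736501567408) (nat_lit 0) (nat_lit 1619609867280) (nat_lit 1) (nat_lit 5) (nat_lit 3) (nat_lit 4) (nat_lit 1) (nat_lit 4) (nat_lit 529) (nat_lit 385) (nat_lit 286)))) (XT.nd (nat_lit 78) (nat_lit 0) (nat_lit 0) (XT.lf (nat_lit 0) (nat_lit 1762053395295) (nat_lit 152) (nat_lit 9413637578102) (nat_lit 0) (nat_lit 1759740647017) (nat_lit 1) (nat_lit 5) (nat_lit 3) (nat_lit 4) (nat_lit 1) (nat_lit 4) (nat_lit 530) (nat_lit 385) (nat_lit 285)) (XT.nd (nat_lit 54444) (nat_lit 0) (nat_lit 2660) (XT.lf (nat_lit 0) (nat_lit 1913393989201) (nat_lit 152) (nat_lit 10144945993997) (nat_lit 0) (nat_lit 1911081163009) (nat_lit 1) (nat_lit 5) (nat_lit 3) (nat_lit 4) (nat_lit 1) (nat_lit 4) (nat_lit 531) (nat_lit 385) (nat_lit 284)) (XT.lf (nat_lit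 0) (nat_lit 4364570542) (nat_lit 152) (nat_lit 941226024) (nat_lit 152) (nat_lit 941226024) (nat_lit 36) (nat_lit 4) (nat_lit 38) (nat_lit 5) (nat_lit 38) (nat_lit 4) (nat_lit 428) (nat_lit 386) (nat_lit 386))))))) (XT.nd (nat_lit 936) (nat_lit 684) (nat_lit 0) (XT.nd (nat_lit 468) (nat_lit 532) (nat_lit 0) (XT.nd (nat_lit 234) (nat_lit 228) (nat_lit 0) (XT.nd (nat_lit 78) (nat_lit 228) (nat_lit 0) (XT.lf (nat_lit 0) (nat_lit 3986708663) (nat_lit 152) (nat_lit 5444263881) (nat_lit 0) (nat_lit 3555112936) (nat_lit 34) (nat_lit 5) (nat_lit 36) (nat_lit 4) (nat_lit 34) (nat_lit 4) (nat_lit 429) (nat_lit 386) (nat_lit 385)) (XT.nd (nat_lit 78) (nat_lit 152) (nat_lit 0) (XT.lf (nat_lit 0) (nat_lit 6064175112) (nat_lit 76) (nat_lit 4141066334) (nat_lit 76) (nat_lit 3309844934) (nat_lit 33) (nat_lit 4) (nat_lit 34) (nat_lit 5) (nat_lit 34) (nat_lit 4) (nat_lit 430) (nat_lit 386) (nat_lit 384))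 (XT.lf (nat_lit 0) (nat_lit 2670710914) (nat_lit 152) (nat_lit 9853609163) (nat_lit 0) (nat_lit 1558446866) (nat_lit 31) (nat_lit 5) (nat_lit 33) (nat_lit 4) (nat_lit 31) (nat_lit 4) (nat_lit 431) (nat_lit 386) (nat_lit 383)))) (XT.nd (nat_lit 78) (nat_lit 152) (nat_lit 0) (XT.lf (nat_lit 0) (nat_lit 1881963810) (nat_lit 76) (nat_lit 7116375139) (nat_lit 76) (nat_lit 5686875348) (nat_lit 30) (nat_lit 4) (nat_lit 31) (nat_lit 5) (nat_lit 31) (nat_lit 4) (nat_lit 432) (nat_lit 386) (nat_lit 382)) (XT.nd (nat_lit 78) (nat_lit 76) (nat_lit 0) (XT.lf (nat_lit 0) (nat_lit 434762543) (nat_lit 152) (nat_lit 818930501) (nat_lit 76) (nat_lit 14084169739) (nat_lit 29) (nat_lit 5) (nat_lit 31) (nat_lit 5) (nat_lit 30) (nat_lit 4) (nat_lit 433) (nat_lit 386) (nat_lit 381)) (XT.lf (nat_lit 0) (nat_lit 6865052891) (nat_lit 152) (nat_lit 4138149346) (nat_lit 0) (nat_lit 5017631493) (nat_lit 28) (nat_lit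 5) (nat_lit 30) (nat_lit 4) (nat_lit 28) (nat_lit 4) (nat_lit 434) (nat_lit 386) (nat_lit 380))))) (XT.nd (nat_lit 234) (nat_lit 228) (nat_lit 0) (XT.nd (nat_lit 78) (nat_lit 228) (nat_lit 0) (XT.lf (nat_lit 0) (nat_lit 8734178010) (nat_lit 76) (nat_lit 5053331419) (nat_lit 76) (nat_lit 2972732279) (nat_lit 27) (nat_lit 4) (nat_lit 28) (nat_lit 5) (nat_lit 28) (nat_lit 4) (nat_lit 435) (nat_lit 386) (nat_lit 379)) (XT.nd (nat_lit 78) (nat_lit 76) (nat_lit 0) (XT.lf (nat_lit 0) (nat_lit 3501793413) (nat_lit 152) (nat_lit 12675922648) (nat_lit 0) (nat_lit 1375400398) (nat_lit 25) (nat_lit 5) (nat_lit 27) (nat_lit 4) (nat_lit 25) (nat_lit 4) (nat_lit 436) (nat_lit 386) (nat_lit 378)) (XT.lf (nat_lit 0) (nat_lit 105846309) (nat_lit 76) (nat_lit 10301507753) (nat_lit 76) (nat_lit 7990010727) (nat_lit 24) (nat_lit 4) (nat_lit 25) (nat_lit 5) (nat_lit 25) (nat_lit 4) (nat_lit 437) (nat_lit 386)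 (nat_lit 377)))) (XT.nd (nat_lit 78) (nat_lit 228) (nat_lit 0) (XT.lf (nat_lit 0) (nat_lit 14082714867) (nat_lit 76) (nat_lit 3851900546) (nat_lit 76) (nat_lit 1369010919) (nat_lit 24) (nat_lit 4) (nat_lit 25) (nat_lit 5) (nat_lit 25) (nat_lit 4) (nat_lit 438) (nat_lit 386) (nat_lit 376)) (XT.nd (nat_lit 78) (nat_lit 76) (nat_lit 0) (XT.lf (nat_lit 0) (nat_lit 5515156494) (nat_lit 152) (nat_lit 11685060308) (nat_lit 0) (nat_lit 3069243087) (nat_lit 22) (nat_lit 5) (nat_lit 24) (nat_lit 4) (nat_lit 22) (nat_lit 4) (nat_lit 439) (nat_lit 386) (nat_lit 375)) (XT.lf (nat_lit 0) (nat_lit 1924008821) (nat_lit 76) (nat_lit 10982622531) (nat_lit 76) (nat_lit 8400652151) (nat_lit 21) (nat_lit 4) (nat_lit 22) (nat_lit 5) (nat_lit 22) (nat_lit 4) (nat_lit 440) (nat_lit 386) (nat_lit 374)))))) (XT.nd (nat_lit 468) (nat_lit 304) (nat_lit 0) (XT.nd (nat_lit 234) (nat_lit 228) (nat_lit 0) (XT.nd (nat_lit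 78) (nat_lit 152) (nat_lit 0) (XT.lf (nat_lit 0) (nat_lit 16776744354) (nat_lit 76) (nat_lit 4177097237) (nat_lit 76) (nat_lit 1469148178) (nat_lit 21) (nat_lit 4) (nat_lit 22) (nat_lit 5) (nat_lit 22) (nat_lit 4) (nat_lit 441) (nat_lit 386) (nat_lit 373)) (XT.nd (nat_lit 78) (nat_lit 0) (nat_lit 0) (XT.lf (nat_lit 0) (nat_lit 5770153096) (nat_lit 152) (nat_lit 14687103979) (nat_lit 0) (nat_lit 3154786445) (nat_lit 19) (nat_lit 5) (nat_lit 21) (nat_lit 4) (nat_lit 19) (nat_lit 4) (nat_lit 442) (nat_lit 386) (nat_lit 372)) (XT.lf (nat_lit 0) (nat_lit 13534687555) (nat_lit 152) (nat_lit 537137436) (nat_lit 0) (nat_lit 10819314967) (nat_lit 19) (nat_lit 5) (nat_lit 21) (nat_lit 4) (nat_lit 19) (nat_lit 4) (nat_lit 443) (nat_lit 386) (nat_lit 371)))) (XT.nd (nat_lit 78) (nat_lit 152) (nat_lit 0) (XT.lf (nat_lit 0) (nat_lit 15048027823) (nat_lit 76) (nat_lit 7010722588) (nat_lit 76) (nat_lit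 4202751910) (nat_lit 18) (nat_lit 4) (nat_lit 19) (nat_lit 5) (nat_lit 19) (nat_lit 4) (nat_lit 444) (nat_lit 386) (nat_lit 370)) (XT.nd (nat_lit 78) (nat_lit 0) (nat_lit 0) (XT.lf (nat_lit 0) (nat_lit 3245245523) (nat_lit 152) (nat_lit 23931731254) (nat_lit 0) (nat_lit 565884736) (nat_lit 16) (nat_lit 5) (nat_lit 18) (nat_lit 4) (nat_lit 16) (nat_lit 4) (nat_lit 445) (nat_lit 386) (nat_lit 369)) (XT.lf (nat_lit 0) (nat_lit 11336166342) (nat_lit 152) (nat_lit 9392606517) (nat_lit 0) (nat_lit 8583298207) (nat_lit 16) (nat_lit 5) (nat_lit 18) (nat_lit 4) (nat_lit 16) (nat_lit 4) (nat_lit 446) (nat_lit 386) (nat_lit 368))))) (XT.nd (nat_lit 234) (nat_lit 76) (nat_lit 0) (XT.nd (nat_lit 78) (nat_lit 152) (nat_lit 0) (XT.lf (nat_lit 0) (nat_lit 6202705044) (nat_lit 76) (nat_lit 13814798453) (nat_lit 76) (nat_lit 10993867958) (nat_lit 15) (nat_lit 4) (nat_lit 16) (nat_lit 5) (nat_lit 16) (nat_lit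 4) (nat_lit 447) (nat_lit 386) (nat_lit 367)) (XT.nd (nat_lit 78) (nat_lit 152) (nat_lit 0) (XT.lf (nat_lit 0) (nat_lit 23173142526) (nat_lit 76) (nat_lit 6276464440) (nat_lit 76) (nat_lit 3392513241) (nat_lit 15) (nat_lit 4) (nat_lit 16) (nat_lit 5) (nat_lit 16) (nat_lit 4) (nat_lit 448) (nat_lit 386) (nat_lit 366)) (XT.lf (nat_lit 0) (nat_lit 4589114373) (nat_lit 152) (nat_lit 28355141697) (nat_lit 0) (nat_lit 1864759093) (nat_lit 13) (nat_lit 5) (nat_lit 15) (nat_lit 4) (nat_lit 13) (nat_lit 4) (nat_lit 449) (nat_lit 386) (nat_lit 365)))) (XT.nd (nat_lit 78) (nat_lit 76) (nat_lit 0) (XT.lf (nat_lit 0) (nat_lit 13270173570) (nat_lit 152) (nat_lit 13140717562) (nat_lit 0) (nat_lit 10495790423) (nat_lit 13) (nat_lit 5) (nat_lit 15) (nat_lit 4) (nat_lit 13) (nat_lit 4) (nat_lit 450) (nat_lit 386) (nat_lit 364)) (XT.nd (nat_lit 78) (nat_lit 0) (nat_lit 0) (XT.lf (nat_lit 0) (nat_lit 3086917385)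 (nat_lit 76) (nat_lit 19457046568) (nat_lit 76) (nat_lit 16636341322) (nat_lit 12) (nat_lit 4) (nat_lit 13) (nat_lit 5) (nat_lit 13) (nat_lit 4) (nat_lit 451) (nat_lit 386) (nat_lit 363)) (XT.lf (nat_lit 0) (nat_lit 21010796638) (nat_lit 76) (nat_lit 11736793588) (nat_lit 76) (nat_lit 8873197510) (nat_lit 12) (nat_lit 4) (nat_lit 13) (nat_lit 5) (nat_lit 13) (nat_lit 4) (nat_lit 452) (nat_lit 386) (nat_lit 362))))))))
noncomputable def xc58 : XT := (XT.nd (nat_lit 1794) (nat_lit 228) (nat_lit 0) (XT.nd (nat_lit 858) (nat_lit 228) (nat_lit 0) (XT.nd (nat_lit 390) (nat_lit 152) (nat_lit 0) (XT.nd (nat_lit 156) (nat_lit 76) (nat_lit 0) (XT.nd (nat_lit 78) (nat_lit 152) (nat_lit 0) (XT.lf (nat_lit 0) (nat_lit 40045168879) (nat_lit 76) (nat_lit 3563673051) (nat_lit 76) (nat_lit 660363240) (nat_lit 12) (nat_lit 4) (nat_lit 13) (nat_lit 5) (nat_lit 13) (nat_lit 4) (nat_lit 453) (nat_lit 386) (nat_lit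 361)) (XT.lf (nat_lit 0) (nat_lit 8112867809) (nat_lit 152) (nat_lit 33585142597) (nat_lit 0) (nat_lit 5390569858) (nat_lit 10) (nat_lit 5) (nat_lit 12) (nat_lit 4) (nat_lit 10) (nat_lit 4) (nat_lit 454) (nat_lit 386) (nat_lit 360))) (XT.nd (nat_lit 78) (nat_lit 76) (nat_lit 0) (XT.lf (nat_lit 0) (nat_lit 17612888936) (nat_lit 152) (nat_lit 17655333173) (nat_lit 0) (nat_lit 14859064943) (nat_lit 10) (nat_lit 5) (nat_lit 12) (nat_lit 4) (nat_lit 10) (nat_lit 4) (nat_lit 455) (nat_lit 386) (nat_lit 359)) (XT.nd (nat_lit 78) (nat_lit 76) (nat_lit 0) (XT.lf (nat_lit 0) (nat_lit 27733608957) (nat_lit 152) (nat_lit 736033821) (nat_lit 0) (nat_lit 24950594184) (nat_lit 10) (nat_lit 5) (nat_lit 12) (nat_lit 4) (nat_lit 10) (nat_lit 4) (nat_lit 456) (nat_lit 386) (nat_lit 358)) (XT.lf (nat_lit 0) (nat_lit 18182584489) (nat_lit 76) (nat_lit 20789709612) (nat_lit 76) (nat_lit 17979666339) (nat_lit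 9) (nat_lit 4) (nat_lit 10) (nat_lit 5) (nat_lit 10) (nat_lit 4) (nat_lit 457) (nat_lit 386) (nat_lit 357))))) (XT.nd (nat_lit 234) (nat_lit 0) (nat_lit 0) (XT.nd (nat_lit 78) (nat_lit 152) (nat_lit 0) (XT.lf (nat_lit 0) (nat_lit 38399437921) (nat_lit 76) (nat_lit 12605147329) (nat_lit 76) (nat_lit 9770077668) (nat_lit 9) (nat_lit 4) (nat_lit 10) (nat_lit 5) (nat_lit 10) (nat_lit 4) (nat_lit 458) (nat_lit 386) (nat_lit 356)) (XT.nd (nat_lit 78) (nat_lit 152) (nat_lit 0) (XT.lf (nat_lit 0) (nat_lit 59995571814) (nat_lit 76) (nat_lit 3887579289) (nat_lit 76) (nat_lit 1029337047) (nat_lit 9) (nat_lit 4) (nat_lit 10) (nat_lit 5) (nat_lit 10) (nat_lit 4) (nat_lit 459) (nat_lit 386) (nat_lit 355)) (XT.lf (nat_lit 0) (nat_lit 8365736060) (nat_lit 152) (nat_lit 55270009407) (nat_lit 0) (nat_lit 5699348711) (nat_lit 7) (nat_lit 5) (nat_lit 9) (nat_lit 4) (nat_lit 7) (nat_lit 4) (nat_lit 460) (nat_lit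 386) (nat_lit 354)))) (XT.nd (nat_lit 78) (nat_lit 0) (nat_lit 0) (XT.lf (nat_lit 0) (nat_lit 18585382612) (nat_lit 152) (nat_lit 39613102271) (nat_lit 0) (nat_lit 15900600121) (nat_lit 7) (nat_lit 5) (nat_lit 9) (nat_lit 4) (nat_lit 7) (nat_lit 4) (nat_lit 461) (nat_lit 386) (nat_lit 353)) (XT.nd (nat_lit 78) (nat_lit 0) (nat_lit 0) (XT.lf (nat_lit 0) (nat_lit 29520446599) (nat_lit 152) (nat_lit 22913290647) (nat_lit 0) (nat_lit 26818631567) (nat_lit 7) (nat_lit 5) (nat_lit 9) (nat_lit 4) (nat_lit 7) (nat_lit 4) (nat_lit 462) (nat_lit 386) (nat_lit 352)) (XT.lf (nat_lit 0) (nat_lit 41235728398) (nat_lit 152) (nat_lit 5071612689) (nat_lit 0) (nat_lit 38518142497) (nat_lit 7) (nat_lit 5) (nat_lit 9) (nat_lit 4) (nat_lit 7) (nat_lit 4) (nat_lit 463) (nat_lit 386) (nat_lit 351)))))) (XT.nd (nat_lit 468) (nat_lit 0) (nat_lit 0) (XT.nd (nat_lit 234) (nat_lit 152) (nat_lit 0) (XT.nd (nat_lit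 78) (nat_lit 0) (nat_lit 0) (XT.lf (nat_lit 0) (nat_lit 14755805204) (nat_lit 76) (nat_lit 39399724168) (nat_lit 76) (nat_lit 36667535609) (nat_lit 6) (nat_lit 4) (nat_lit 7) (nat_lit 5) (nat_lit 7) (nat_lit 4) (nat_lit 464) (nat_lit 386) (nat_lit 350)) (XT.nd (nat_lit 78) (nat_lit 0) (nat_lit 0) (XT.lf (nat_lit 0) (nat_lit 36282654562) (nat_lit 76) (nat_lit 31879620070) (nat_lit 76) (nat_lit 29133910532) (nat_lit 6) (nat_lit 4) (nat_lit 7) (nat_lit 5) (nat_lit 7) (nat_lit 4) (nat_lit 465) (nat_lit 386) (nat_lit 349)) (XT.lf (nat_lit 0) (nat_lit 59369439763) (nat_lit 76) (nat_lit 23841132091) (nat_lit 76) (nat_lit 21082903128) (nat_lit 6) (nat_lit 4) (nat_lit 7) (nat_lit 5) (nat_lit 7) (nat_lit 4) (nat_lit 466) (nat_lit 386) (nat_lit 348)))) (XT.nd (nat_lit 78) (nat_lit 152) (nat_lit 0) (XT.lf (nat_lit 0) (nat_lit 84152971386) (nat_lit 76) (nat_lit 15236624748) (nat_lit 76) (nat_lit 12466803725)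 (nat_lit 6) (nat_lit 4) (nat_lit 7) (nat_lit 5) (nat_lit 7) (nat_lit 4) (nat_lit 467) (nat_lit 386) (nat_lit 347)) (XT.nd (nat_lit 78) (nat_lit 152) (nat_lit 0) (XT.lf (nat_lit 0) (nat_lit 110780114803) (nat_lit 76) (nat_lit 6015108367) (nat_lit 76) (nat_lit 3234553955) (nat_lit 6) (nat_lit 4) (nat_lit 7) (nat_lit 5) (nat_lit 7) (nat_lit 4) (nat_lit 468) (nat_lit 386) (nat_lit 346)) (XT.lf (nat_lit 0) (nat_lit 6702173302) (nat_lit 152) (nat_lit 117999277808) (nat_lit 0) (nat_lit 4118383733) (nat_lit 4) (nat_lit 5) (nat_lit 6) (nat_lit 4) (nat_lit 4) (nat_lit 4) (nat_lit 469) (nat_lit 386) (nat_lit 345))))) (XT.nd (nat_lit 234) (nat_lit 0) (nat_lit 0) (XT.nd (nat_lit 78) (nat_lit 0) (nat_lit 0) (XT.lf (nat_lit 0) (nat_lit 17610540682) (nat_lit 152) (nat_lit 105649489281) (nat_lit 0) (nat_lit 15018230602) (nat_lit 4) (nat_lit 5) (nat_lit 6) (nat_lit 4) (nat_lit 4) (nat_lit 4) (nat_lit 470)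 (nat_lit 386) (nat_lit 344)) (XT.nd (nat_lit 78) (nat_lit 0) (nat_lit 0) (XT.lf (nat_lit 0) (nat_lit 29332081377) (nat_lit 152) (nat_lit 92434157352) (nat_lit 0) (nat_lit 26731881936) (nat_lit 4) (nat_lit 5) (nat_lit 6) (nat_lit 4) (nat_lit 4) (nat_lit 4) (nat_lit 471) (nat_lit 386) (nat_lit 343)) (XT.lf (nat_lit 0) (nat_lit 41936256371) (nat_lit 152) (nat_lit 78274968943) (nat_lit 0) (nat_lit 39328751965) (nat_lit 4) (nat_lit 5) (nat_lit 6) (nat_lit 4) (nat_lit 4) (nat_lit 4) (nat_lit 472) (nat_lit 386) (nat_lit 342)))) (XT.nd (nat_lit 78) (nat_lit 0) (nat_lit 0) (XT.lf (nat_lit 0) (nat_lit 55497757070) (nat_lit 152) (nat_lit 63088017752) (nat_lit 0) (nat_lit 52883488809) (nat_lit 4) (nat_lit 5) (nat_lit 6) (nat_lit 4) (nat_lit 4) (nat_lit 4) (nat_lit 473) (nat_lit 386) (nat_lit 341)) (XT.nd (nat_lit 78) (nat_lit 0) (nat_lit 0) (XT.lf (nat_lit 0) (nat_lit 70096947924) (nat_lit 152) (nat_lit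 46783307031) (nat_lit 0) (nat_lit 67476416833) (nat_lit 4) (nat_lit 5) (nat_lit 6) (nat_lit 4) (nat_lit 4) (nat_lit 4) (nat_lit 474) (nat_lit 386) (nat_lit 340)) (XT.lf (nat_lit 0) (nat_lit 85820342655) (nat_lit 152) (nat_lit 29264216273) (nat_lit 0) (nat_lit 83194012648) (nat_lit 4) (nat_lit 5) (nat_lit 6) (nat_lit 4) (nat_lit 4) (nat_lit 4) (nat_lit 475) (nat_lit 386) (nat_lit 339))))))) (XT.nd (nat_lit 936) (nat_lit 152) (nat_lit 0) (XT.nd (nat_lit 468) (nat_lit 0) (nat_lit 0) (XT.nd (nat_lit 234) (nat_lit 0) (nat_lit 0) (XT.nd (nat_lit 78) (nat_lit 76) (nat_lit 0) (XT.lf (nat_lit 0) (nat_lit 102761116936) (nat_lit 152) (nat_lit 10426928643) (nat_lit 0) (nat_lit 100129417562) (nat_lit 4) (nat_lit 5) (nat_lit 6) (nat_lit 4) (nat_lit 4) (nat_lit 4) (nat_lit 476) (nat_lit 386) (nat_lit 338)) (XT.nd (nat_lit 78) (nat_lit 0) (nat_lit 0) (XT.lf (nat_lit 0) (nat_lit 10358350892) (nat_lit 76)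 (nat_lit 110910428237) (nat_lit 76) (nat_lit 108273757228) (nat_lit 3) (nat_lit 4) (nat_lit 4) (nat_lit 5) (nat_lit 4) (nat_lit 4) (nat_lit 477) (nat_lit 386) (nat_lit 337)) (XT.lf (nat_lit 0) (nat_lit 33324237055) (nat_lit 76) (nat_lit 108181383894) (nat_lit 76) (nat_lit 105540109518) (nat_lit 3) (nat_lit 4) (nat_lit 4) (nat_lit 5) (nat_lit 4) (nat_lit 4) (nat_lit 478) (nat_lit 386) (nat_lit 336)))) (XT.nd (nat_lit 78) (nat_lit 0) (nat_lit 0) (XT.lf (nat_lit 0) (nat_lit 58057760402) (nat_lit 76) (nat_lit 105269831143) (nat_lit 76) (nat_lit 102624294390) (nat_lit 3) (nat_lit 4) (nat_lit 4) (nat_lit 5) (nat_lit 4) (nat_lit 4) (nat_lit 479) (nat_lit 386) (nat_lit 335)) (XT.nd (nat_lit 78) (nat_lit 0) (nat_lit 0) (XT.lf (nat_lit 0) (nat_lit 84705489960) (nat_lit 76) (nat_lit 102158516339) (nat_lit 76) (nat_lit 99509032941) (nat_lit 3) (nat_lit 4) (nat_lit 4) (nat_lit 5) (nat_lit 4) (nat_lit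 4) (nat_lit 480) (nat_lit 386) (nat_lit 334)) (XT.lf (nat_lit 0) (nat_lit 113425338200) (nat_lit 76) (nat_lit 98829002059) (nat_lit 76) (nat_lit 96175864361) (nat_lit 3) (nat_lit 4) (nat_lit 4) (nat_lit 5) (nat_lit 4) (nat_lit 4) (nat_lit 481) (nat_lit 386) (nat_lit 333))))) (XT.nd (nat_lit 234) (nat_lit 0) (nat_lit 0) (XT.nd (nat_lit 78) (nat_lit 0) (nat_lit 0) (XT.lf (nat_lit 0) (nat_lit 144387496815) (nat_lit 76) (nat_lit 95261557850) (nat_lit 76) (nat_lit 92605036539) (nat_lit 3) (nat_lit 4) (nat_lit 4) (nat_lit 5) (nat_lit 4) (nat_lit 4) (nat_lit 482) (nat_lit 386) (nat_lit 332)) (XT.nd (nat_lit 78) (nat_lit 0) (nat_lit 0) (XT.lf (nat_lit 0) (nat_lit 177775445264) (nat_lit 76) (nat_lit 91435043301) (nat_lit 76) (nat_lit 88775389016) (nat_lit 3) (nat_lit 4) (nat_lit 4) (nat_lit 5) (nat_lit 4) (nat_lit 4) (nat_lit 483) (nat_lit 386) (nat_lit 331)) (XT.lf (nat_lit 0) (nat_lit 213787038057)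 (nat_lit 76) (nat_lit 87326782770) (nat_lit 76) (nat_lit 84664227583) (nat_lit 3) (nat_lit 4) (nat_lit 4) (nat_lit 5) (nat_lit 4) (nat_lit 4) (nat_lit 484) (nat_lit 386) (nat_lit 330)))) (XT.nd (nat_lit 78) (nat_lit 0) (nat_lit 0) (XT.lf (nat_lit 0) (nat_lit 252635677224) (nat_lit 76) (nat_lit 82912431010) (nat_lit 76) (nat_lit 80247189803) (nat_lit 3) (nat_lit 4) (nat_lit 4) (nat_lit 5) (nat_lit 4) (nat_lit 4) (nat_lit 485) (nat_lit 386) (nat_lit 329)) (XT.nd (nat_lit 78) (nat_lit 0) (nat_lit 0) (XT.lf (nat_lit 0) (nat_lit 294551576924) (nat_lit 76) (nat_lit 78165828898) (nat_lit 76) (nat_lit 75498100636) (nat_lit 3) (nat_lit 4) (nat_lit 4) (nat_lit 5) (nat_lit 4) (nat_lit 4) (nat_lit 486) (nat_lit 386) (nat_lit 328)) (XT.lf (nat_lit 0) (nat_lit 339783127673) (nat_lit 76) (nat_lit 73058848424) (nat_lit 76) (nat_lit 70388817332) (nat_lit 3) (nat_lit 4) (nat_lit 4) (nat_lit 5) (nat_lit 4)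 (nat_lit 4) (nat_lit 487) (nat_lit 386) (nat_lit 327)))))) (XT.nd (nat_lit 468) (nat_lit 152) (nat_lit 0) (XT.nd (nat_lit 234) (nat_lit 0) (nat_lit 0) (XT.nd (nat_lit 78) (nat_lit 0) (nat_lit 0) (XT.lf (nat_lit 0) (nat_lit 388598368291) (nat_lit 76) (nat_lit 67561225998) (nat_lit 76) (nat_lit 64889062657) (nat_lit 3) (nat_lit 4) (nat_lit 4) (nat_lit 5) (nat_lit 4) (nat_lit 4) (nat_lit 488) (nat_lit 386) (nat_lit 326)) (XT.nd (nat_lit 78) (nat_lit 0) (nat_lit 0) (XT.lf (nat_lit 0) (nat_lit 441286574278) (nat_lit 76) (nat_lit 61640383118) (nat_lit 76) (nat_lit 58966245472) (nat_lit 3) (nat_lit 4) (nat_lit 4) (nat_lit 5) (nat_lit 4) (nat_lit 4) (nat_lit 489) (nat_lit 386) (nat_lit 325)) (XT.lf (nat_lit 0) (nat_lit 498159972039) (nat_lit 76) (nat_lit 55261233307) (nat_lit 76) (nat_lit 52585267600) (nat_lit 3) (nat_lit 4) (nat_lit 4) (nat_lit 5) (nat_lit 4) (nat_lit 4) (nat_lit 490) (nat_lit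 386) (nat_lit 324)))) (XT.nd (nat_lit 78) (nat_lit 0) (nat_lit 0) (XT.lf (nat_lit 0) (nat_lit 559555589116) (nat_lit 76) (nat_lit 48385974195) (nat_lit 76) (nat_lit 45708315840) (nat_lit 3) (nat_lit 4) (nat_lit 4) (nat_lit 5) (nat_lit 4) (nat_lit 4) (nat_lit 491) (nat_lit 386) (nat_lit 323)) (XT.nd (nat_lit 78) (nat_lit 0) (nat_lit 0) (XT.lf (nat_lit 0) (nat_lit 625837251390) (nat_lit 76) (nat_lit 40973863507) (nat_lit 76) (nat_lit 38294637885) (nat_lit 3) (nat_lit 4) (nat_lit 4) (nat_lit 5) (nat_lit 4) (nat_lit 4) (nat_lit 492) (nat_lit 386) (nat_lit 322)) (XT.lf (nat_lit 0) (nat_lit 697397739080) (nat_lit 76) (nat_lit 32980977624) (nat_lit 76) (nat_lit 30300300829) (nat_lit 3) (nat_lit 4) (nat_lit 4) (nat_lit 5) (nat_lit 4) (nat_lit 4) (nat_lit 493) (nat_lit 386) (nat_lit 321))))) (XT.nd (nat_lit 234) (nat_lit 152) (nat_lit 0) (XT.nd (nat_lit 78) (nat_lit 0) (nat_lit 0) (XT.lf (nat_lit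 0) (nat_lit 774661114336) (nat_lit 76) (nat_lit 24359951296) (nat_lit 76) (nat_lit 21677930822) (nat_lit 3) (nat_lit 4) (nat_lit 4) (nat_lit 5) (nat_lit 4) (nat_lit 4) (nat_lit 494) (nat_lit 386) (nat_lit 320)) (XT.nd (nat_lit 78) (nat_lit 0) (nat_lit 0) (XT.lf (nat_lit 0) (nat_lit 858085234196) (nat_lit 76) (nat_lit 15059696959) (nat_lit 76) (nat_lit 12376432338) (nat_lit 3) (nat_lit 4) (nat_lit 4) (nat_lit 5) (nat_lit 4) (nat_lit 4) (nat_lit 495) (nat_lit 386) (nat_lit 319)) (XT.lf (nat_lit 0) (nat_lit 948164463815) (nat_lit 76) (nat_lit 5025101996) (nat_lit 76) (nat_lit 2340685387) (nat_lit 3) (nat_lit 4) (nat_lit 4) (nat_lit 5) (nat_lit 4) (nat_lit 4) (nat_lit 496) (nat_lit 386) (nat_lit 318)))) (XT.nd (nat_lit 78) (nat_lit 0) (nat_lit 0) (XT.lf (nat_lit 0) (nat_lit 8574930196) (nat_lit 152) (nat_lit 1016420029422) (nat_lit 0) (nat_lit 6088371618) (nat_lit 1) (nat_lit 5) (nat_lit 3)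 (nat_lit 4) (nat_lit 1) (nat_lit 4) (nat_lit 497) (nat_lit 386) (nat_lit 317)) (XT.nd (nat_lit 78) (nat_lit 0) (nat_lit 0) (XT.lf (nat_lit 0) (nat_lit 20565809290) (nat_lit 152) (nat_lit 1074005370708) (nat_lit 0) (nat_lit 18078336226) (nat_lit 1) (nat_lit 5) (nat_lit 3) (nat_lit 4) (nat_lit 1) (nat_lit 4) (nat_lit 498) (nat_lit 386) (nat_lit 316)) (XT.lf (nat_lit 0) (nat_lit 33507926539) (nat_lit 152) (nat_lit 1136214105383) (nat_lit 0) (nat_lit 31019606730) (nat_lit 1) (nat_lit 5) (nat_lit 3) (nat_lit 4) (nat_lit 1) (nat_lit 4) (nat_lit 499) (nat_lit 386) (nat_lit 315))))))))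
noncomputable def xc59 : XT := (XT.nd (nat_lit 1794) (nat_lit 0) (nat_lit 0) (XT.nd (nat_lit 858) (nat_lit 0) (nat_lit 0) (XT.nd (nat_lit 390) (nat_lit 0) (nat_lit 0) (XT.nd (nat_lit 156) (nat_lit 0) (nat_lit 0) (XT.nd (nat_lit 78) (nat_lit 0) (nat_lit 0) (XT.lf (nat_lit 0) (nat_lit 47477975974) (nat_lit 152) (nat_lit 1203414877800) (nat_lit 0) (nat_lit 44988872141) (nat_lit 1) (nat_lit 5) (nat_lit 3) (nat_lit 4) (nat_lit 1) (nat_lit 4) (nat_lit 500) (nat_lit 386) (nat_lit 314)) (XT.lf (nat_lit 0) (nat_lit 62558743071) (nat_lit 152) (nat_lit 1276005914758) (nat_lit 0) (nat_lit 60068913290) (nat_lit 1) (nat_lit 5) (nat_lit 3) (nat_lit 4) (nat_lit 1) (nat_lit 4) (nat_lit 501) (nat_lit 386) (nat_lit 313))) (XT.nd (nat_lit 78) (nat_lit 0) (nat_lit 0) (XT.lf (nat_lit 0) (nat_lit 78839595339) (nat_lit 152) (nat_lit 1354417385365) (nat_lit 0) (nat_lit 76349093385) (nat_lit 1) (nat_lit 5) (nat_lit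 3) (nat_lit 4) (nat_lit 1) (nat_lit 4) (nat_lit 502) (nat_lit 386) (nat_lit 312)) (XT.nd (nat_lit 78) (nat_lit 0) (nat_lit 0) (XT.lf (nat_lit 0) (nat_lit 96417011904) (nat_lit 152) (nat_lit 1439113950189) (nat_lit 0) (nat_lit 93925887566) (nat_lit 1) (nat_lit 5) (nat_lit 3) (nat_lit 4) (nat_lit 1) (nat_lit 4) (nat_lit 503) (nat_lit 386) (nat_lit 311)) (XT.lf (nat_lit 0) (nat_lit 115395155233) (nat_lit 152) (nat_lit 1530597514798) (nat_lit 0) (nat_lit 112903454615) (nat_lit 1) (nat_lit 5) (nat_lit 3) (nat_lit 4) (nat_lit 1) (nat_lit 4) (nat_lit 504) (nat_lit 386) (nat_lit 310))))) (XT.nd (nat_lit 234) (nat_lit 0) (nat_lit 0) (XT.nd (nat_lit 78) (nat_lit 0) (nat_lit 0) (XT.lf (nat_lit 0) (nat_lit 135886488398) (nat_lit 152) (nat_lit 1629410204019) (nat_lit 0) (nat_lit 133394254187) (nat_lit 1) (nat_lit 5) (nat_lit 3) (nat_lit 4) (nat_lit 1) (nat_lit 4) (nat_lit 505) (nat_lit 386) (nat_lit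 309)) (XT.nd (nat_lit 78) (nat_lit 0) (nat_lit 0) (XT.lf (nat_lit 0) (nat_lit 158012441522) (nat_lit 152) (nat_lit 1736137574530) (nat_lit 0) (nat_lit 155519713243) (nat_lit 1) (nat_lit 5) (nat_lit 3) (nat_lit 4) (nat_lit 1) (nat_lit 4) (nat_lit 506) (nat_lit 386) (nat_lit 308)) (XT.lf (nat_lit 0) (nat_lit 181904131364) (nat_lit 152) (nat_lit 1851412084822) (nat_lit 0) (nat_lit 179410945614) (nat_lit 1) (nat_lit 5) (nat_lit 3) (nat_lit 4) (nat_lit 1) (nat_lit 4) (nat_lit 507) (nat_lit 386) (nat_lit 307)))) (XT.nd (nat_lit 78) (nat_lit 0) (nat_lit 0) (XT.lf (nat_lit 0) (nat_lit 207703138308) (nat_lit 152) (nat_lit 1975916843105) (nat_lit 0) (nat_lit 205209528974) (nat_lit 1) (nat_lit 5) (nat_lit 3) (nat_lit 4) (nat_lit 1) (nat_lit 4) (nat_lit 508) (nat_lit 386) (nat_lit 306)) (XT.nd (nat_lit 78) (nat_lit 0) (nat_lit 0) (XT.lf (nat_lit 0) (nat_lit 235562345358) (nat_lit 152) (nat_lit 2110389655353)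 (nat_lit 0) (nat_lit 233068343817) (nat_lit 1) (nat_lit 5) (nat_lit 3) (nat_lit 4) (nat_lit 1) (nat_lit 4) (nat_lit 509) (nat_lit 386) (nat_lit 305)) (XT.lf (nat_lit 0) (nat_lit 265646844112) (nat_lit 152) (nat_lit 2255627397491) (nat_lit 0) (nat_lit 263152479416) (nat_lit 1) (nat_lit 5) (nat_lit 3) (nat_lit 4) (nat_lit 1) (nat_lit 4) (nat_lit 510) (nat_lit 386) (nat_lit 304)))))) (XT.nd (nat_lit 468) (nat_lit 0) (nat_lit 0) (XT.nd (nat_lit 234) (nat_lit 0) (nat_lit 0) (XT.nd (nat_lit 78) (nat_lit 0) (nat_lit 0) (XT.lf (nat_lit 0) (nat_lit 298134913080) (nat_lit 152) (nat_lit 2412490737621) (nat_lit 0) (nat_lit 295640212130) (nat_lit 1) (nat_lit 5) (nat_lit 3) (nat_lit 4) (nat_lit 1) (nat_lit 4) (nat_lit 511) (nat_lit 386) (nat_lit 303)) (XT.nd (nat_lit 78) (nat_lit 0) (nat_lit 0) (XT.lf (nat_lit 0) (nat_lit 333219074153) (nat_lit 152) (nat_lit 2581909236276) (nat_lit 0) (nat_lit 330724061857)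 (nat_lit 1) (nat_lit 5) (nat_lit 3) (nat_lit 4) (nat_lit 1) (nat_lit 4) (nat_lit 512) (nat_lit 386) (nat_lit 302)) (XT.lf (nat_lit 0) (nat_lit 371107233471) (nat_lit 152) (nat_lit 2764886854931) (nat_lit 0) (nat_lit 368611932891) (nat_lit 1) (nat_lit 5) (nat_lit 3) (nat_lit 4) (nat_lit 1) (nat_lit 4) (nat_lit 513) (nat_lit 386) (nat_lit 301)))) (XT.nd (nat_lit 78) (nat_lit 0) (nat_lit 0) (XT.lf (nat_lit 0) (nat_lit 412023913459) (nat_lit 152) (nat_lit 2962507905398) (nat_lit 0) (nat_lit 409528345949) (nat_lit 1) (nat_lit 5) (nat_lit 3) (nat_lit 4) (nat_lit 1) (nat_lit 4) (nat_lit 514) (nat_lit 386) (nat_lit 300)) (XT.nd (nat_lit 78) (nat_lit 0) (nat_lit 0) (XT.lf (nat_lit 0) (nat_lit 456211583332) (nat_lit 152) (nat_lit 3175943475386) (nat_lit 0) (nat_lit 453715768665) (nat_lit 1) (nat_lit 5) (nat_lit 3) (nat_lit 4) (nat_lit 1) (nat_lit 4) (nat_lit 515) (nat_lit 386) (nat_lit 299)) (XT.lf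 (nat_lit 0) (nat_lit 503932095948) (nat_lit 152) (nat_lit 3406458368271) (nat_lit 0) (nat_lit 501436052432) (nat_lit 1) (nat_lit 5) (nat_lit 3) (nat_lit 4) (nat_lit 1) (nat_lit 4) (nat_lit 516) (nat_lit 386) (nat_lit 298))))) (XT.nd (nat_lit 234) (nat_lit 0) (nat_lit 0) (XT.nd (nat_lit 78) (nat_lit 0) (nat_lit 0) (XT.lf (nat_lit 0) (nat_lit 555468239530) (nat_lit 152) (nat_lit 3655418598234) (nat_lit 0) (nat_lit 552971984117) (nat_lit 1) (nat_lit 5) (nat_lit 3) (nat_lit 4) (nat_lit 1) (nat_lit 4) (nat_lit 517) (nat_lit 386) (nat_lit 297)) (XT.nd (nat_lit 78) (nat_lit 0) (nat_lit 0) (XT.lf (nat_lit 0) (nat_lit 611125413448) (nat_lit 152) (nat_lit 3924299485155) (nat_lit 0) (nat_lit 608628961834) (nat_lit 1) (nat_lit 5) (nat_lit 3) (nat_lit 4) (nat_lit 1) (nat_lit 4) (nat_lit 518) (nat_lit 386) (nat_lit 296)) (XT.lf (nat_lit 0) (nat_lit 671233437992) (nat_lit 152) (nat_lit 4214694397255)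 (nat_lit 0) (nat_lit 668736804710) (nat_lit 1) (nat_lit 5) (nat_lit 3) (nat_lit 4) (nat_lit 1) (nat_lit 4) (nat_lit 519) (nat_lit 386) (nat_lit 295)))) (XT.nd (nat_lit 78) (nat_lit 0) (nat_lit 0) (XT.lf (nat_lit 0) (nat_lit 736148508862) (nat_lit 152) (nat_lit 4528324193270) (nat_lit 0) (nat_lit 733651707369) (nat_lit 1) (nat_lit 5) (nat_lit 3) (nat_lit 4) (nat_lit 1) (nat_lit 4) (nat_lit 520) (nat_lit 386) (nat_lit 294)) (XT.nd (nat_lit 78) (nat_lit 0) (nat_lit 0) (XT.lf (nat_lit 0) (nat_lit 806255307960) (nat_lit 152) (nat_lit 4867047420141) (nat_lit 0) (nat_lit 803758350717) (nat_lit 1) (nat_lit 5) (nat_lit 3) (nat_lit 4) (nat_lit 1) (nat_lit 4) (nat_lit 521) (nat_lit 386) (nat_lit 293)) (XT.lf (nat_lit 0) (nat_lit 881969282985) (nat_lit 152) (nat_lit 5232871326618) (nat_lit 0) (nat_lit 879472181528) (nat_lit 1) (nat_lit 5) (nat_lit 3) (nat_lit 4) (nat_lit 1) (nat_lit 4) (nat_lit 522)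 (nat_lit 386) (nat_lit 292))))))) (XT.nd (nat_lit 55146) (nat_lit 0) (nat_lit 1596) (XT.nd (nat_lit 468) (nat_lit 0) (nat_lit 0) (XT.nd (nat_lit 234) (nat_lit 0) (nat_lit 0) (XT.nd (nat_lit 78) (nat_lit 0) (nat_lit 0) (XT.lf (nat_lit 0) (nat_lit 963739109344) (nat_lit 152) (nat_lit 5627963758075) (nat_lit 0) (nat_lit 961241874355) (nat_lit 1) (nat_lit 5) (nat_lit 3) (nat_lit 4) (nat_lit 1) (nat_lit 4) (nat_lit 523) (nat_lit 386) (nat_lit 291)) (XT.nd (nat_lit 78) (nat_lit 0) (nat_lit 0) (XT.lf (nat_lit 0) (nat_lit 1052049348970) (nat_lit 152) (nat_lit 6054666002994) (nat_lit 0) (nat_lit 1049551990342) (nat_lit 1) (nat_lit 5) (nat_lit 3) (nat_lit 4) (nat_lit 1) (nat_lit 4) (nat_lit 524) (nat_lit 386) (nat_lit 290)) (XT.lf (nat_lit 0) (nat_lit 1147423321803) (nat_lit 152) (nat_lit 6515506667269) (nat_lit 0) (nat_lit 1144925848693) (nat_lit 1) (nat_lit 5) (nat_lit 3) (nat_lit 4) (nat_lit 1)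 (nat_lit 4) (nat_lit 525) (nat_lit 386) (nat_lit 289)))) (XT.nd (nat_lit 78) (nat_lit 0) (nat_lit 0) (XT.lf (nat_lit 0) (nat_lit 1250426206941) (nat_lit 152) (nat_lit 7013216658543) (nat_lit 0) (nat_lit 1247928627829) (nat_lit 1) (nat_lit 5) (nat_lit 3) (nat_lit 4) (nat_lit 1) (nat_lit 4) (nat_lit 526) (nat_lit 386) (nat_lit 288)) (XT.nd (nat_lit 78) (nat_lit 0) (nat_lit 0) (XT.lf (nat_lit 0) (nat_lit 1361668391850) (nat_lit 152) (nat_lit 7550745369355) (nat_lit 0) (nat_lit 1359170714590) (nat_lit 1) (nat_lit 5) (nat_lit 3) (nat_lit 4) (nat_lit 1) (nat_lit 4) (nat_lit 527) (nat_lit 386) (nat_lit 287)) (XT.lf (nat_lit 0) (nat_lit 1481809089480) (nat_lit 152) (nat_lit 8131278155029) (nat_lit 0) (nat_lit 1479311321340) (nat_lit 1) (nat_lit 5) (nat_lit 3) (nat_lit 4) (nat_lit 1) (nat_lit 4) (nat_lit 528) (nat_lit 386) (nat_lit 286))))) (XT.nd (nat_lit 54444) (nat_lit 0) (nat_lit 2660) (XT.nd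 (nat_lit 78) (nat_lit 0) (nat_lit 0) (XT.lf (nat_lit 0) (nat_lit 1611560244704) (nat_lit 152) (nat_lit 8758255209850) (nat_lit 0) (nat_lit 1609062392417) (nat_lit 1) (nat_lit 5) (nat_lit 3) (nat_lit 4) (nat_lit 1) (nat_lit 4) (nat_lit 529) (nat_lit 386) (nat_lit 285)) (XT.nd (nat_lit 78) (nat_lit 0) (nat_lit 0) (XT.lf (nat_lit 0) (nat_lit 1751690753258) (nat_lit 152) (nat_lit 9435391953402) (nat_lit 0) (nat_lit 1749192823056) (nat_lit 1) (nat_lit 5) (nat_lit 3) (nat_lit 4) (nat_lit 1) (nat_lit 4) (nat_lit 530) (nat_lit 386) (nat_lit 284)) (XT.lf (nat_lit 0) (nat_lit 1903031018154) (nat_lit 152) (nat_lit 10166701047870) (nat_lit 0) (nat_lit 1900533015810) (nat_lit 1) (nat_lit 5) (nat_lit 3) (nat_lit 4) (nat_lit 1) (nat_lit 4) (nat_lit 531) (nat_lit 386) (nat_lit 283)))) (XT.nd (nat_lit 78) (nat_lit 304) (nat_lit 0) (XT.lf (nat_lit 0) (nat_lit 5276599834) (nat_lit 152) (nat_lit 259536628)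 (nat_lit 152) (nat_lit 259536628) (nat_lit 40) (nat_lit 4) (nat_lit 42) (nat_lit 5) (nat_lit 42) (nat_lit 4) (nat_lit 426) (nat_lit 387) (nat_lit 387)) (XT.nd (nat_lit 78) (nat_lit 152) (nat_lit 0) (XT.lf (nat_lit 0) (nat_lit 5041280181) (nat_lit 152) (nat_lit 2450413076) (nat_lit 0) (nat_lit 4537866925) (nat_lit 38) (nat_lit 5) (nat_lit 40) (nat_lit 4) (nat_lit 38) (nat_lit 4) (nat_lit 427) (nat_lit 387) (nat_lit 386)) (XT.lf (nat_lit 0) (nat_lit 8452206396) (nat_lit 152) (nat_lit 2511739178) (nat_lit 152) (nat_lit 1542202536) (nat_lit 36) (nat_lit 4) (nat_lit 38) (nat_lit 5) (nat_lit 38) (nat_lit 4) (nat_lit 428) (nat_lit 387) (nat_lit 385)))))) (XT.nd (nat_lit 468) (nat_lit 456) (nat_lit 0) (XT.nd (nat_lit 234) (nat_lit 228) (nat_lit 0) (XT.nd (nat_lit 78) (nat_lit 228) (nat_lit 0) (XT.lf (nat_lit 0) (nat_lit 4134021257) (nat_lit 152) (nat_lit 6040924824) (nat_lit 0) (nat_lit 2836676471)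 (nat_lit 34) (nat_lit 5) (nat_lit 36) (nat_lit 4) (nat_lit 34) (nat_lit 4) (nat_lit 429) (nat_lit 387) (nat_lit 384)) (XT.nd (nat_lit 78) (nat_lit 152) (nat_lit 0) (XT.lf (nat_lit 0) (nat_lit 5156501022) (nat_lit 76) (nat_lit 5032302676) (nat_lit 76) (nat_lit 3364934119) (nat_lit 33) (nat_lit 4) (nat_lit 34) (nat_lit 5) (nat_lit 34) (nat_lit 4) (nat_lit 430) (nat_lit 387) (nat_lit 383)) (XT.lf (nat_lit 0) (nat_lit 2421214960) (nat_lit 152) (nat_lit 11155975269) (nat_lit 0) (nat_lit 560119441) (nat_lit 31) (nat_lit 5) (nat_lit 33) (nat_lit 4) (nat_lit 31) (nat_lit 4) (nat_lit 431) (nat_lit 387) (nat_lit 382)))) (XT.nd (nat_lit 78) (nat_lit 152) (nat_lit 0) (XT.lf (nat_lit 0) (nat_lit 229312295) (nat_lit 76) (nat_lit 8339832156) (nat_lit 76) (nat_lit 6184999837) (nat_lit 30) (nat_lit 4) (nat_lit 31) (nat_lit 5) (nat_lit 31) (nat_lit 4) (nat_lit 432) (nat_lit 387) (nat_lit 381)) (XT.nd (nat_lit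 78) (nat_lit 152) (nat_lit 0) (XT.lf (nat_lit 0) (nat_lit 12617329875) (nat_lit 76) (nat_lit 2614016746) (nat_lit 76) (nat_lit 187205909) (nat_lit 30) (nat_lit 4) (nat_lit 31) (nat_lit 5) (nat_lit 31) (nat_lit 4) (nat_lit 433) (nat_lit 387) (nat_lit 380)) (XT.lf (nat_lit 0) (nat_lit 6029855753) (nat_lit 152) (nat_lit 6540213484) (nat_lit 0) (nat_lit 3549630939) (nat_lit 28) (nat_lit 5) (nat_lit 30) (nat_lit 4) (nat_lit 28) (nat_lit 4) (nat_lit 434) (nat_lit 387) (nat_lit 379))))) (XT.nd (nat_lit 234) (nat_lit 228) (nat_lit 0) (XT.nd (nat_lit 78) (nat_lit 152) (nat_lit 0) (XT.lf (nat_lit 0) (nat_lit 5943235654) (nat_lit 76) (nat_lit 6813815926) (nat_lit 76) (nat_lit 4117685796) (nat_lit 27) (nat_lit 4) (nat_lit 28) (nat_lit 5) (nat_lit 28) (nat_lit 4) (nat_lit 435) (nat_lit 387) (nat_lit 378)) (XT.nd (nat_lit 78) (nat_lit 0) (nat_lit 0) (XT.lf (nat_lit 0) (nat_lit 1622517818) (nat_lit 76)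 (nat_lit 549866930) (nat_lit 152) (nat_lit 15516775872) (nat_lit 25) (nat_lit 5) (nat_lit 26) (nat_lit 5) (nat_lit 27) (nat_lit 4) (nat_lit 436) (nat_lit 387) (nat_lit 377)) (XT.lf (nat_lit 0) (nat_lit 8935185614) (nat_lit 152) (nat_lit 3527378547) (nat_lit 0) (nat_lit 6082272215) (nat_lit 25) (nat_lit 5) (nat_lit 27) (nat_lit 4) (nat_lit 25) (nat_lit 4) (nat_lit 437) (nat_lit 387) (nat_lit 376)))) (XT.nd (nat_lit 78) (nat_lit 152) (nat_lit 0) (XT.lf (nat_lit 0) (nat_lit 10019650460) (nat_lit 76) (nat_lit 6230042105) (nat_lit 76) (nat_lit 3218431854) (nat_lit 24) (nat_lit 4) (nat_lit 25) (nat_lit 5) (nat_lit 25) (nat_lit 4) (nat_lit 438) (nat_lit 387) (nat_lit 375)) (XT.nd (nat_lit 78) (nat_lit 0) (nat_lit 0) (XT.lf (nat_lit 0) (nat_lit 3465171847) (nat_lit 152) (nat_lit 16455209167) (nat_lit 0) (nat_lit 540586864) (nat_lit 22) (nat_lit 5) (nat_lit 24) (nat_lit 4) (nat_lit 22) (nat_lit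 4) (nat_lit 439) (nat_lit 387) (nat_lit 374)) (XT.lf (nat_lit 0) (nat_lit 10693635305) (nat_lit 152) (nat_lit 3175130338) (nat_lit 0) (nat_lit 7643071643) (nat_lit 22) (nat_lit 5) (nat_lit 24) (nat_lit 4) (nat_lit 22) (nat_lit 4) (nat_lit 440) (nat_lit 387) (nat_lit 373))))))))
noncomputable def xc60 : XT := (XT.nd (nat_lit 1794) (nat_lit 304) (nat_lit 0) (XT.nd (nat_lit 858) (nat_lit 456) (nat_lit 0) (XT.nd (nat_lit 390) (nat_lit 380) (nat_lit 0) (XT.nd (nat_lit 156) (nat_lit 76) (nat_lit 0) (XT.nd (nat_lit 78) (nat_lit 152) (nat_lit 0) (XT.lf (nat_lit 0) (nat_lit 11283557112) (nat_lit 76) (nat_lit 7263357991) (nat_lit 76) (nat_lit 4096147404) (nat_lit 21) (nat_lit 4) (nat_lit 22) (nat_lit 5) (nat_lit 22) (nat_lit 4) (nat_lit 441) (nat_lit 387) (nat_lit 372)) (XT.lf (nat_lit 0) (nat_lit 2836501401) (nat_lit 76) (nat_lit 101824752) (nat_lit 152) (nat_lit 20925747600) (nat_lit 19) (nat_lit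 5) (nat_lit 20) (nat_lit 5) (nat_lit 21) (nat_lit 4) (nat_lit 442) (nat_lit 387) (nat_lit 371))) (XT.nd (nat_lit 78) (nat_lit 76) (nat_lit 0) (XT.lf (nat_lit 0) (nat_lit 10592940671) (nat_lit 152) (nat_lit 7091292452) (nat_lit 0) (nat_lit 7467734250) (nat_lit 19) (nat_lit 5) (nat_lit 21) (nat_lit 4) (nat_lit 19) (nat_lit 4) (nat_lit 443) (nat_lit 387) (nat_lit 370)) (XT.nd (nat_lit 78) (nat_lit 0) (nat_lit 0) (XT.lf (nat_lit 0) (nat_lit 7938078873) (nat_lit 76) (nat_lit 10908419976) (nat_lit 76) (nat_lit 7697474583) (nat_lit 18) (nat_lit 4) (nat_lit 19) (nat_lit 5) (nat_lit 19) (nat_lit 4) (nat_lit 444) (nat_lit 387) (nat_lit 369)) (XT.lf (nat_lit 0) (nat_lit 24167365222) (nat_lit 76) (nat_lit 3585457982) (nat_lit 76) (nat_lit 295124651) (nat_lit 18) (nat_lit 4) (nat_lit 19) (nat_lit 5) (nat_lit 19) (nat_lit 4) (nat_lit 445) (nat_lit 387) (nat_lit 368))))) (XT.nd (nat_lit 234) (nat_lit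 152) (nat_lit 0) (XT.nd (nat_lit 78) (nat_lit 76) (nat_lit 0) (XT.lf (nat_lit 0) (nat_lit 7524480689) (nat_lit 152) (nat_lit 17706320087) (nat_lit 0) (nat_lit 4409813394) (nat_lit 16) (nat_lit 5) (nat_lit 18) (nat_lit 4) (nat_lit 16) (nat_lit 4) (nat_lit 446) (nat_lit 387) (nat_lit 367)) (XT.nd (nat_lit 78) (nat_lit 76) (nat_lit 0) (XT.lf (nat_lit 0) (nat_lit 15964925876) (nat_lit 152) (nat_lit 2607024605) (nat_lit 0) (nat_lit 12787237877) (nat_lit 16) (nat_lit 5) (nat_lit 18) (nat_lit 4) (nat_lit 16) (nat_lit 4) (nat_lit 447) (nat_lit 387) (nat_lit 366)) (XT.lf (nat_lit 0) (nat_lit 14045101996) (nat_lit 76) (nat_lit 11196650032) (nat_lit 76) (nat_lit 7960609529) (nat_lit 15) (nat_lit 4) (nat_lit 16) (nat_lit 5) (nat_lit 16) (nat_lit 4) (nat_lit 448) (nat_lit 387) (nat_lit 365)))) (XT.nd (nat_lit 78) (nat_lit 152) (nat_lit 0) (XT.lf (nat_lit 0) (nat_lit 31829012955) (nat_lit 76) (nat_lit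 3331051690) (nat_lit 76) (nat_lit 40981091) (nat_lit 15) (nat_lit 4) (nat_lit 16) (nat_lit 5) (nat_lit 16) (nat_lit 4) (nat_lit 449) (nat_lit 387) (nat_lit 364)) (XT.nd (nat_lit 78) (nat_lit 0) (nat_lit 0) (XT.lf (nat_lit 0) (nat_lit 8389818511) (nat_lit 152) (nat_lit 23632024282) (nat_lit 0) (nat_lit 5297134747) (nat_lit 13) (nat_lit 5) (nat_lit 15) (nat_lit 4) (nat_lit 13) (nat_lit 4) (nat_lit 450) (nat_lit 387) (nat_lit 363)) (XT.lf (nat_lit 0) (nat_lit 17511023555) (nat_lit 152) (nat_lit 7718337235) (nat_lit 0) (nat_lit 14375448959) (nat_lit 13) (nat_lit 5) (nat_lit 15) (nat_lit 4) (nat_lit 13) (nat_lit 4) (nat_lit 451) (nat_lit 387) (nat_lit 362)))))) (XT.nd (nat_lit 468) (nat_lit 152) (nat_lit 0) (XT.nd (nat_lit 234) (nat_lit 76) (nat_lit 0) (XT.nd (nat_lit 78) (nat_lit 152) (nat_lit 0) (XT.lf (nat_lit 0) (nat_lit 9643618945) (nat_lit 76) (nat_lit 17799348848) (nat_lit 76) (nat_lit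 14624060519) (nat_lit 12) (nat_lit 4) (nat_lit 13) (nat_lit 5) (nat_lit 13) (nat_lit 4) (nat_lit 452) (nat_lit 387) (nat_lit 361)) (XT.nd (nat_lit 78) (nat_lit 152) (nat_lit 0) (XT.lf (nat_lit 0) (nat_lit 28534019786) (nat_lit 76) (nat_lit 9699569071) (nat_lit 76) (nat_lit 6487508765) (nat_lit 12) (nat_lit 4) (nat_lit 13) (nat_lit 5) (nat_lit 13) (nat_lit 4) (nat_lit 453) (nat_lit 387) (nat_lit 360)) (XT.lf (nat_lit 0) (nat_lit 1061306764) (nat_lit 76) (nat_lit 1009565925) (nat_lit 152) (nat_lit 45521320448) (nat_lit 10) (nat_lit 5) (nat_lit 11) (nat_lit 5) (nat_lit 12) (nat_lit 4) (nat_lit 454) (nat_lit 387) (nat_lit 359)))) (XT.nd (nat_lit 78) (nat_lit 76) (nat_lit 0) (XT.lf (nat_lit 0) (nat_lit 11479641234) (nat_lit 152) (nat_lit 30713765531) (nat_lit 0) (nat_lit 8444794500) (nat_lit 10) (nat_lit 5) (nat_lit 12) (nat_lit 4) (nat_lit 10) (nat_lit 4) (nat_lit 455) (nat_lit 387) (nat_lit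 358)) (XT.nd (nat_lit 78) (nat_lit 76) (nat_lit 0) (XT.lf (nat_lit 0) (nat_lit 21538349681) (nat_lit 152) (nat_lit 13921289018) (nat_lit 0) (nat_lit 18476474448) (nat_lit 10) (nat_lit 5) (nat_lit 12) (nat_lit 4) (nat_lit 10) (nat_lit 4) (nat_lit 456) (nat_lit 387) (nat_lit 357)) (XT.lf (nat_lit 0) (nat_lit 4179404986) (nat_lit 76) (nat_lit 28203434912) (nat_lit 76) (nat_lit 25116533290) (nat_lit 9) (nat_lit 4) (nat_lit 10) (nat_lit 5) (nat_lit 10) (nat_lit 4) (nat_lit 457) (nat_lit 387) (nat_lit 356))))) (XT.nd (nat_lit 234) (nat_lit 76) (nat_lit 0) (XT.nd (nat_lit 78) (nat_lit 76) (nat_lit 0) (XT.lf (nat_lit 0) (nat_lit 24281802738) (nat_lit 76) (nat_lit 20077410719) (nat_lit 76) (nat_lit 16967336515) (nat_lit 9) (nat_lit 4) (nat_lit 10) (nat_lit 5) (nat_lit 10) (nat_lit 4) (nat_lit 458) (nat_lit 387) (nat_lit 355)) (XT.nd (nat_lit 78) (nat_lit 76) (nat_lit 0) (XT.lf (nat_lit 0) (nat_lit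 45771959149) (nat_lit 76) (nat_lit 11414044614) (nat_lit 76) (nat_lit 8282514315) (nat_lit 9) (nat_lit 4) (nat_lit 10) (nat_lit 5) (nat_lit 10) (nat_lit 4) (nat_lit 459) (nat_lit 387) (nat_lit 354)) (XT.lf (nat_lit 0) (nat_lit 939905179) (nat_lit 152) (nat_lit 1196394278) (nat_lit 76) (nat_lit 67811619441) (nat_lit 8) (nat_lit 5) (nat_lit 10) (nat_lit 5) (nat_lit 9) (nat_lit 4) (nat_lit 460) (nat_lit 387) (nat_lit 353)))) (XT.nd (nat_lit 78) (nat_lit 0) (nat_lit 0) (XT.lf (nat_lit 0) (nat_lit 11027985863) (nat_lit 152) (nat_lit 55601456703) (nat_lit 0) (nat_lit 8092993090) (nat_lit 7) (nat_lit 5) (nat_lit 9) (nat_lit 4) (nat_lit 7) (nat_lit 4) (nat_lit 461) (nat_lit 387) (nat_lit 352)) (XT.nd (nat_lit 78) (nat_lit 0) (nat_lit 0) (XT.lf (nat_lit 0) (nat_lit 21917575183) (nat_lit 152) (nat_lit 38994971327) (nat_lit 0) (nat_lit 18966811540) (nat_lit 7) (nat_lit 5) (nat_lit 9) (nat_lit 4) (nat_lit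 7) (nat_lit 4) (nat_lit 462) (nat_lit 387) (nat_lit 351)) (XT.lf (nat_lit 0) (nat_lit 33590750810) (nat_lit 152) (nat_lit 21239706560) (nat_lit 0) (nat_lit 30625384509) (nat_lit 7) (nat_lit 5) (nat_lit 9) (nat_lit 4) (nat_lit 7) (nat_lit 4) (nat_lit 463) (nat_lit 387) (nat_lit 350))))))) (XT.nd (nat_lit 858) (nat_lit 76) (nat_lit 0) (XT.nd (nat_lit 390) (nat_lit 152) (nat_lit 0) (XT.nd (nat_lit 156) (nat_lit 0) (nat_lit 0) (XT.nd (nat_lit 78) (nat_lit 76) (nat_lit 0) (XT.lf (nat_lit 0) (nat_lit 46116687117) (nat_lit 152) (nat_lit 2230446019) (nat_lit 0) (nat_lit 43137799837) (nat_lit 7) (nat_lit 5) (nat_lit 9) (nat_lit 4) (nat_lit 7) (nat_lit 4) (nat_lit 464) (nat_lit 387) (nat_lit 349)) (XT.lf (nat_lit 0) (nat_lit 19100965414) (nat_lit 76) (nat_lit 40928025139) (nat_lit 76) (nat_lit 37936618434) (nat_lit 6) (nat_lit 4) (nat_lit 7) (nat_lit 5) (nat_lit 7) (nat_lit 4) (nat_lit 465) (nat_lit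 387) (nat_lit 348))) (XT.nd (nat_lit 78) (nat_lit 0) (nat_lit 0) (XT.lf (nat_lit 0) (nat_lit 42115540810) (nat_lit 76) (nat_lit 32926585081) (nat_lit 76) (nat_lit 29923586316) (nat_lit 6) (nat_lit 4) (nat_lit 7) (nat_lit 5) (nat_lit 7) (nat_lit 4) (nat_lit 466) (nat_lit 387) (nat_lit 347)) (XT.nd (nat_lit 78) (nat_lit 0) (nat_lit 0) (XT.lf (nat_lit 0) (nat_lit 66832211502) (nat_lit 76) (nat_lit 24356381367) (nat_lit 76) (nat_lit 21342649213) (nat_lit 6) (nat_lit 4) (nat_lit 7) (nat_lit 5) (nat_lit 7) (nat_lit 4) (nat_lit 467) (nat_lit 387) (nat_lit 346)) (XT.lf (nat_lit 0) (nat_lit 93397446651) (nat_lit 76) (nat_lit 15166627606) (nat_lit 76) (nat_lit 12142957129) (nat_lit 6) (nat_lit 4) (nat_lit 7) (nat_lit 5) (nat_lit 7) (nat_lit 4) (nat_lit 468) (nat_lit 387) (nat_lit 345))))) (XT.nd (nat_lit 234) (nat_lit 0) (nat_lit 0) (XT.nd (nat_lit 78) (nat_lit 152) (nat_lit 0) (XT.lf (nat_lit 0)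 (nat_lit 121968669871) (nat_lit 76) (nat_lit 5302865998) (nat_lit 76) (nat_lit 2269993369) (nat_lit 6) (nat_lit 4) (nat_lit 7) (nat_lit 5) (nat_lit 7) (nat_lit 4) (nat_lit 469) (nat_lit 387) (nat_lit 344)) (XT.nd (nat_lit 78) (nat_lit 0) (nat_lit 0) (XT.lf (nat_lit 0) (nat_lit 8399092688) (nat_lit 152) (nat_lit 125050468966) (nat_lit 0) (nat_lit 5582987930) (nat_lit 4) (nat_lit 5) (nat_lit 6) (nat_lit 4) (nat_lit 4) (nat_lit 4) (nat_lit 470) (nat_lit 387) (nat_lit 343)) (XT.lf (nat_lit 0) (nat_lit 20094148308) (nat_lit 152) (nat_lit 111889641880) (nat_lit 0) (nat_lit 17270738586) (nat_lit 4) (nat_lit 5) (nat_lit 6) (nat_lit 4) (nat_lit 4) (nat_lit 4) (nat_lit 471) (nat_lit 387) (nat_lit 342)))) (XT.nd (nat_lit 78) (nat_lit 0) (nat_lit 0) (XT.lf (nat_lit 0) (nat_lit 32673800083) (nat_lit 152) (nat_lit 97780920918) (nat_lit 0) (nat_lit 29843626505) (nat_lit 4) (nat_lit 5) (nat_lit 6) (nat_lit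 4) (nat_lit 4) (nat_lit 4) (nat_lit 472) (nat_lit 387) (nat_lit 341)) (XT.nd (nat_lit 78) (nat_lit 0) (nat_lit 0) (XT.lf (nat_lit 0) (nat_lit 46212594099) (nat_lit 152) (nat_lit 82640698845) (nat_lit 0) (nat_lit 43376157692) (nat_lit 4) (nat_lit 5) (nat_lit 6) (nat_lit 4) (nat_lit 4) (nat_lit 4) (nat_lit 473) (nat_lit 387) (nat_lit 340)) (XT.lf (nat_lit 0) (nat_lit 60790760246) (nat_lit 152) (nat_lit 66379255827) (nat_lit 0) (nat_lit 57948524922) (nat_lit 4) (nat_lit 5) (nat_lit 6) (nat_lit 4) (nat_lit 4) (nat_lit 4) (nat_lit 474) (nat_lit 387) (nat_lit 339)))))) (XT.nd (nat_lit 468) (nat_lit 0) (nat_lit 0) (XT.nd (nat_lit 234) (nat_lit 76) (nat_lit 0) (XT.nd (nat_lit 78) (nat_lit 0) (nat_lit 0) (XT.lf (nat_lit 0) (nat_lit 76494687656) (nat_lit 152) (nat_lit 48900227756) (nat_lit 0) (nat_lit 73647082965) (nat_lit 4) (nat_lit 5) (nat_lit 6) (nat_lit 4) (nat_lit 4) (nat_lit 4) (nat_lit 475)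 (nat_lit 387) (nat_lit 338)) (XT.nd (nat_lit 78) (nat_lit 0) (nat_lit 0) (XT.lf (nat_lit 0) (nat_lit 93417436640) (nat_lit 152) (nat_lit 30100035206) (nat_lit 0) (nat_lit 90564860313) (nat_lit 4) (nat_lit 5) (nat_lit 6) (nat_lit 4) (nat_lit 4) (nat_lit 4) (nat_lit 476) (nat_lit 387) (nat_lit 337)) (XT.lf (nat_lit 0) (nat_lit 111659290154) (nat_lit 152) (nat_lit 9867269630) (nat_lit 0) (nat_lit 108802110461) (nat_lit 4) (nat_lit 5) (nat_lit 6) (nat_lit 4) (nat_lit 4) (nat_lit 4) (nat_lit 477) (nat_lit 387) (nat_lit 336)))) (XT.nd (nat_lit 78) (nat_lit 0) (nat_lit 0) (XT.lf (nat_lit 0) (nat_lit 12545545855) (nat_lit 76) (nat_lit 119084522897) (nat_lit 76) (nat_lit 116223080828) (nat_lit 3) (nat_lit 4) (nat_lit 4) (nat_lit 5) (nat_lit 4) (nat_lit 4) (nat_lit 478) (nat_lit 387) (nat_lit 335)) (XT.nd (nat_lit 78) (nat_lit 0) (nat_lit 0) (XT.lf (nat_lit 0) (nat_lit 37248071289) (nat_lit 76) (nat_lit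 116188913496) (nat_lit 76) (nat_lit 113323524781) (nat_lit 3) (nat_lit 4) (nat_lit 4) (nat_lit 5) (nat_lit 4) (nat_lit 4) (nat_lit 479) (nat_lit 387) (nat_lit 334)) (XT.lf (nat_lit 0) (nat_lit 63867099077) (nat_lit 76) (nat_lit 113092361051) (nat_lit 76) (nat_lit 110223318036) (nat_lit 3) (nat_lit 4) (nat_lit 4) (nat_lit 5) (nat_lit 4) (nat_lit 4) (nat_lit 480) (nat_lit 387) (nat_lit 333))))) (XT.nd (nat_lit 234) (nat_lit 0) (nat_lit 0) (XT.nd (nat_lit 78) (nat_lit 0) (nat_lit 0) (XT.lf (nat_lit 0) (nat_lit 92560371603) (nat_lit 76) (nat_lit 109776515624) (nat_lit 76) (nat_lit 106904088997) (nat_lit 3) (nat_lit 4) (nat_lit 4) (nat_lit 5) (nat_lit 4) (nat_lit 4) (nat_lit 481) (nat_lit 387) (nat_lit 332)) (XT.nd (nat_lit 78) (nat_lit 0) (nat_lit 0) (XT.lf (nat_lit 0) (nat_lit 123497923077) (nat_lit 76) (nat_lit 106221727759) (nat_lit 76) (nat_lit 103346168158) (nat_lit 3) (nat_lit 4) (nat_lit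 4) (nat_lit 5) (nat_lit 4) (nat_lit 4) (nat_lit 482) (nat_lit 387) (nat_lit 331)) (XT.lf (nat_lit 0) (nat_lit 156863087135) (nat_lit 76) (nat_lit 102406932048) (nat_lit 76) (nat_lit 99528471545) (nat_lit 3) (nat_lit 4) (nat_lit 4) (nat_lit 5) (nat_lit 4) (nat_lit 4) (nat_lit 483) (nat_lit 387) (nat_lit 330)))) (XT.nd (nat_lit 78) (nat_lit 0) (nat_lit 0) (XT.lf (nat_lit 0) (nat_lit 192853583270) (nat_lit 76) (nat_lit 98309522292) (nat_lit 76) (nat_lit 95428375769) (nat_lit 3) (nat_lit 4) (nat_lit 4) (nat_lit 5) (nat_lit 4) (nat_lit 4) (nat_lit 484) (nat_lit 387) (nat_lit 329)) (XT.nd (nat_lit 78) (nat_lit 0) (nat_lit 0) (XT.lf (nat_lit 0) (nat_lit 231682688494) (nat_lit 76) (nat_lit 93905217547) (nat_lit 76) (nat_lit 91021583968) (nat_lit 3) (nat_lit 4) (nat_lit 4) (nat_lit 5) (nat_lit 4) (nat_lit 4) (nat_lit 485) (nat_lit 387) (nat_lit 328)) (XT.lf (nat_lit 0) (nat_lit 273580501210) (nat_lit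 76) (nat_lit 89167918227) (nat_lit 76) (nat_lit 86281981818) (nat_lit 3) (nat_lit 4) (nat_lit 4) (nat_lit 5) (nat_lit 4) (nat_lit 4) (nat_lit 486) (nat_lit 387) (nat_lit 327))))))))
noncomputable def xc61 : XT := (XT.nd (nat_lit 1794) (nat_lit 0) (nat_lit 0) (XT.nd (nat_lit 858) (nat_lit 152) (nat_lit 0) (XT.nd (nat_lit 390) (nat_lit 0) (nat_lit 0) (XT.nd (nat_lit 156) (nat_lit 0) (nat_lit 0) (XT.nd (nat_lit 78) (nat_lit 0) (nat_lit 0) (XT.lf (nat_lit 0) (nat_lit 318795304752) (nat_lit 76) (nat_lit 84069551448) (nat_lit 76) (nat_lit 81181482790) (nat_lit 3) (nat_lit 4) (nat_lit 4) (nat_lit 5) (nat_lit 4) (nat_lit 4) (nat_lit 487) (nat_lit 387) (nat_lit 326)) (XT.lf (nat_lit 0) (nat_lit 367595038697) (nat_lit 76) (nat_lit 78579904666) (nat_lit 76) (nat_lit 75689861703) (nat_lit 3) (nat_lit 4) (nat_lit 4) (nat_lit 5) (nat_lit 4) (nat_lit 4) (nat_lit 488) (nat_lit 387) (nat_lit 325))) (XT.nd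 (nat_lit 78) (nat_lit 0) (nat_lit 0) (XT.lf (nat_lit 0) (nat_lit 420268886652) (nat_lit 76) (nat_lit 72666446641) (nat_lit 76) (nat_lit 69774575618) (nat_lit 3) (nat_lit 4) (nat_lit 4) (nat_lit 5) (nat_lit 4) (nat_lit 4) (nat_lit 489) (nat_lit 387) (nat_lit 324)) (XT.nd (nat_lit 78) (nat_lit 0) (nat_lit 0) (XT.lf (nat_lit 0) (nat_lit 477128989940) (nat_lit 76) (nat_lit 66294134659) (nat_lit 76) (nat_lit 63400570987) (nat_lit 3) (nat_lit 4) (nat_lit 4) (nat_lit 5) (nat_lit 4) (nat_lit 4) (nat_lit 490) (nat_lit 387) (nat_lit 323)) (XT.lf (nat_lit 0) (nat_lit 538512297320) (nat_lit 76) (nat_lit 59425206871) (nat_lit 76) (nat_lit 56530075932) (nat_lit 3) (nat_lit 4) (nat_lit 4) (nat_lit 5) (nat_lit 4) (nat_lit 4) (nat_lit 491) (nat_lit 387) (nat_lit 322))))) (XT.nd (nat_lit 234) (nat_lit 0) (nat_lit 0) (XT.nd (nat_lit 78) (nat_lit 0) (nat_lit 0) (XT.lf (nat_lit 0) (nat_lit 604782561726) (nat_lit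 76) (nat_lit 52018958519) (nat_lit 76) (nat_lit 49122376408) (nat_lit 3) (nat_lit 4) (nat_lit 4) (nat_lit 5) (nat_lit 4) (nat_lit 4) (nat_lit 492) (nat_lit 387) (nat_lit 321)) (XT.nd (nat_lit 78) (nat_lit 0) (nat_lit 0) (XT.lf (nat_lit 0) (nat_lit 676332495834) (nat_lit 76) (nat_lit 44031500725) (nat_lit 76) (nat_lit 41133574935) (nat_lit 3) (nat_lit 4) (nat_lit 4) (nat_lit 5) (nat_lit 4) (nat_lit 4) (nat_lit 493) (nat_lit 387) (nat_lit 320)) (XT.lf (nat_lit 0) (nat_lit 753586099256) (nat_lit 76) (nat_lit 35415500405) (nat_lit 76) (nat_lit 32516330468) (nat_lit 3) (nat_lit 4) (nat_lit 4) (nat_lit 5) (nat_lit 4) (nat_lit 4) (nat_lit 494) (nat_lit 387) (nat_lit 319)))) (XT.nd (nat_lit 78) (nat_lit 0) (nat_lit 0) (XT.lf (nat_lit 0) (nat_lit 837001171121) (nat_lit 76) (nat_lit 26119899781) (nat_lit 76) (nat_lit 23219577855) (nat_lit 3) (nat_lit 4) (nat_lit 4) (nat_lit 5) (nat_lit 4) (nat_lit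 4) (nat_lit 495) (nat_lit 387) (nat_lit 318)) (XT.nd (nat_lit 78) (nat_lit 0) (nat_lit 0) (XT.lf (nat_lit 0) (nat_lit 927072022967) (nat_lit 76) (nat_lit 16089613809) (nat_lit 76) (nat_lit 13188225228) (nat_lit 3) (nat_lit 4) (nat_lit 4) (nat_lit 5) (nat_lit 4) (nat_lit 4) (nat_lit 496) (nat_lit 387) (nat_lit 317)) (XT.lf (nat_lit 0) (nat_lit 1024332407991) (nat_lit 76) (nat_lit 5265203761) (nat_lit 76) (nat_lit 2362827536) (nat_lit 3) (nat_lit 4) (nat_lit 4) (nat_lit 5) (nat_lit 4) (nat_lit 4) (nat_lit 497) (nat_lit 387) (nat_lit 316)))))) (XT.nd (nat_lit 468) (nat_lit 0) (nat_lit 0) (XT.nd (nat_lit 234) (nat_lit 0) (nat_lit 0) (XT.nd (nat_lit 78) (nat_lit 0) (nat_lit 0) (XT.lf (nat_lit 0) (nat_lit 9417629179) (nat_lit 152) (nat_lit 1097410433820) (nat_lit 0) (nat_lit 6729397040) (nat_lit 1) (nat_lit 5) (nat_lit 3) (nat_lit 4) (nat_lit 1) (nat_lit 4) (nat_lit 498) (nat_lit 387) (nat_lit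 315)) (XT.nd (nat_lit 78) (nat_lit 0) (nat_lit 0) (XT.lf (nat_lit 0) (nat_lit 22356170854) (nat_lit 152) (nat_lit 1159626542999) (nat_lit 0) (nat_lit 19667154691) (nat_lit 1) (nat_lit 5) (nat_lit 3) (nat_lit 4) (nat_lit 1) (nat_lit 4) (nat_lit 499) (nat_lit 387) (nat_lit 314)) (XT.lf (nat_lit 0) (nat_lit 36322909571) (nat_lit 152) (nat_lit 1226834143660) (nat_lit 0) (nat_lit 33633167460) (nat_lit 1) (nat_lit 5) (nat_lit 3) (nat_lit 4) (nat_lit 1) (nat_lit 4) (nat_lit 500) (nat_lit 387) (nat_lit 313)))) (XT.nd (nat_lit 78) (nat_lit 0) (nat_lit 0) (XT.lf (nat_lit 0) (nat_lit 51400611189) (nat_lit 152) (nat_lit 1299431503067) (nat_lit 0) (nat_lit 48710196904) (nat_lit 1) (nat_lit 5) (nat_lit 3) (nat_lit 4) (nat_lit 1) (nat_lit 4) (nat_lit 501) (nat_lit 387) (nat_lit 312)) (XT.nd (nat_lit 78) (nat_lit 0) (nat_lit 0) (XT.lf (nat_lit 0) (nat_lit 67678625051) (nat_lit 152) (nat_lit 1377848827793)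 (nat_lit 0) (nat_lit 64987588383) (nat_lit 1) (nat_lit 5) (nat_lit 3) (nat_lit 4) (nat_lit 1) (nat_lit 4) (nat_lit 502) (nat_lit 387) (nat_lit 311)) (XT.lf (nat_lit 0) (nat_lit 85253413462) (nat_lit 152) (nat_lit 1462550813097) (nat_lit 0) (nat_lit 82561800513) (nat_lit 1) (nat_lit 5) (nat_lit 3) (nat_lit 4) (nat_lit 1) (nat_lit 4) (nat_lit 503) (nat_lit 387) (nat_lit 310))))) (XT.nd (nat_lit 234) (nat_lit 0) (nat_lit 0) (XT.nd (nat_lit 78) (nat_lit 0) (nat_lit 0) (XT.lf (nat_lit 0) (nat_lit 104229123315) (nat_lit 152) (nat_lit 1554039396669) (nat_lit 0) (nat_lit 101536976773) (nat_lit 1) (nat_lit 5) (nat_lit 3) (nat_lit 4) (nat_lit 1) (nat_lit 4) (nat_lit 504) (nat_lit 387) (nat_lit 309)) (XT.nd (nat_lit 78) (nat_lit 0) (nat_lit 0) (XT.lf (nat_lit 0) (nat_lit 124718203261) (nat_lit 152) (nat_lit 1652856733079) (nat_lit 0) (nat_lit 122025562651) (nat_lit 1) (nat_lit 5) (nat_lit 3) (nat_lit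 4) (nat_lit 1) (nat_lit 4) (nat_lit 505) (nat_lit 387) (nat_lit 308)) (XT.lf (nat_lit 0) (nat_lit 146842070072) (nat_lit 152) (nat_lit 1759588406542) (nat_lit 0) (nat_lit 144148971991) (nat_lit 1) (nat_lit 5) (nat_lit 3) (nat_lit 4) (nat_lit 1) (nat_lit 4) (nat_lit 506) (nat_lit 387) (nat_lit 307)))) (XT.nd (nat_lit 78) (nat_lit 0) (nat_lit 0) (XT.lf (nat_lit 0) (nat_lit 170731828142) (nat_lit 152) (nat_lit 1874866901049) (nat_lit 0) (nat_lit 168038306478) (nat_lit 1) (nat_lit 5) (nat_lit 3) (nat_lit 4) (nat_lit 1) (nat_lit 4) (nat_lit 507) (nat_lit 387) (nat_lit 306)) (XT.nd (nat_lit 78) (nat_lit 0) (nat_lit 0) (XT.lf (nat_lit 0) (nat_lit 196529046408) (nat_lit 152) (nat_lit 1999375348420) (nat_lit 0) (nat_lit 193835132537) (nat_lit 1) (nat_lit 5) (nat_lit 3) (nat_lit 4) (nat_lit 1) (nat_lit 4) (nat_lit 508) (nat_lit 387) (nat_lit 305)) (XT.lf (nat_lit 0) (nat_lit 224386597275) (nat_lit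 152) (nat_lit 2133851576490) (nat_lit 0) (nat_lit 221692320250) (nat_lit 1) (nat_lit 5) (nat_lit 3) (nat_lit 4) (nat_lit 1) (nat_lit 4) (nat_lit 509) (nat_lit 387) (nat_lit 304))))))) (XT.nd (nat_lit 936) (nat_lit 0) (nat_lit 0) (XT.nd (nat_lit 468) (nat_lit 0) (nat_lit 0) (XT.nd (nat_lit 234) (nat_lit 0) (nat_lit 0) (XT.nd (nat_lit 78) (nat_lit 0) (nat_lit 0) (XT.lf (nat_lit 0) (nat_lit 254469562526) (nat_lit 152) (nat_lit 2279092481427) (nat_lit 0) (nat_lit 251774949246) (nat_lit 1) (nat_lit 5) (nat_lit 3) (nat_lit 4) (nat_lit 1) (nat_lit 4) (nat_lit 510) (nat_lit 387) (nat_lit 303)) (XT.nd (nat_lit 78) (nat_lit 0) (nat_lit 0) (XT.lf (nat_lit 0) (nat_lit 286956211585) (nat_lit 152) (nat_lit 2435958750073) (nat_lit 0) (nat_lit 284261286958) (nat_lit 1) (nat_lit 5) (nat_lit 3) (nat_lit 4) (nat_lit 1) (nat_lit 4) (nat_lit 511) (nat_lit 387) (nat_lit 302)) (XT.lf (nat_lit 0) (nat_lit 322039057926)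 (nat_lit 152) (nat_lit 2605379960318) (nat_lit 0) (nat_lit 319343845016) (nat_lit 1) (nat_lit 5) (nat_lit 3) (nat_lit 4) (nat_lit 1) (nat_lit 4) (nat_lit 512) (nat_lit 387) (nat_lit 301)))) (XT.nd (nat_lit 78) (nat_lit 0) (nat_lit 0) (XT.lf (nat_lit 0) (nat_lit 359925999900) (nat_lit 152) (nat_lit 2788360089704) (nat_lit 0) (nat_lit 357230520060) (nat_lit 1) (nat_lit 5) (nat_lit 3) (nat_lit 4) (nat_lit 1) (nat_lit 4) (nat_lit 513) (nat_lit 387) (nat_lit 300)) (XT.nd (nat_lit 78) (nat_lit 0) (nat_lit 0) (XT.lf (nat_lit 0) (nat_lit 400841552718) (nat_lit 152) (nat_lit 2985983464923) (nat_lit 0) (nat_lit 398145825721) (nat_lit 1) (nat_lit 5) (nat_lit 3) (nat_lit 4) (nat_lit 1) (nat_lit 4) (nat_lit 514) (nat_lit 387) (nat_lit 299)) (XT.lf (nat_lit 0) (nat_lit 445028178914) (nat_lit 152) (nat_lit 3199421187458) (nat_lit 0) (nat_lit 442332223068) (nat_lit 1) (nat_lit 5) (nat_lit 3) (nat_lit 4)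 (nat_lit 1) (nat_lit 4) (nat_lit 515) (nat_lit 387) (nat_lit 298))))) (XT.nd (nat_lit 234) (nat_lit 0) (nat_lit 0) (XT.nd (nat_lit 78) (nat_lit 0) (nat_lit 0) (XT.lf (nat_lit 0) (nat_lit 492747725164) (nat_lit 152) (nat_lit 3429938073442) (nat_lit 0) (nat_lit 490051557421) (nat_lit 1) (nat_lit 5) (nat_lit 3) (nat_lit 4) (nat_lit 1) (nat_lit 4) (nat_lit 516) (nat_lit 387) (nat_lit 297)) (XT.nd (nat_lit 78) (nat_lit 0) (nat_lit 0) (XT.lf (nat_lit 0) (nat_lit 544282973962) (nat_lit 152) (nat_lit 3678900148867) (nat_lit 0) (nat_lit 541586610018) (nat_lit 1) (nat_lit 5) (nat_lit 3) (nat_lit 4) (nat_lit 1) (nat_lit 4) (nat_lit 517) (nat_lit 387) (nat_lit 296)) (XT.lf (nat_lit 0) (nat_lit 599939319376) (nat_lit 152) (nat_lit 3947782744551) (nat_lit 0) (nat_lit 597242773764) (nat_lit 1) (nat_lit 5) (nat_lit 3) (nat_lit 4) (nat_lit 1) (nat_lit 4) (nat_lit 518) (nat_lit 387) (nat_lit 295)))) (XT.nd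 (nat_lit 78) (nat_lit 0) (nat_lit 0) (XT.lf (nat_lit 0) (nat_lit 660046576787) (nat_lit 152) (nat_lit 4238179238836) (nat_lit 0) (nat_lit 657349862964) (nat_lit 1) (nat_lit 5) (nat_lit 3) (nat_lit 4) (nat_lit 1) (nat_lit 4) (nat_lit 519) (nat_lit 387) (nat_lit 294)) (XT.nd (nat_lit 78) (nat_lit 0) (nat_lit 0) (XT.lf (nat_lit 0) (nat_lit 724960937349) (nat_lit 152) (nat_lit 4551810499839) (nat_lit 0) (nat_lit 722264067775) (nat_lit 1) (nat_lit 5) (nat_lit 3) (nat_lit 4) (nat_lit 1) (nat_lit 4) (nat_lit 520) (nat_lit 387) (nat_lit 293)) (XT.lf (nat_lit 0) (nat_lit 795067078754) (nat_lit 152) (nat_lit 4890535083180) (nat_lit 0) (nat_lit 792370064966) (nat_lit 1) (nat_lit 5) (nat_lit 3) (nat_lit 4) (nat_lit 1) (nat_lit 4) (nat_lit 521) (nat_lit 387) (nat_lit 292)))))) (XT.nd (nat_lit 468) (nat_lit 0) (nat_lit 0) (XT.nd (nat_lit 234) (nat_lit 0) (nat_lit 0) (XT.nd (nat_lit 78) (nat_lit 0) (nat_lit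 0) (XT.lf (nat_lit 0) (nat_lit 870780444804) (nat_lit 152) (nat_lit 5256360245648) (nat_lit 0) (nat_lit 868083297485) (nat_lit 1) (nat_lit 5) (nat_lit 3) (nat_lit 4) (nat_lit 1) (nat_lit 4) (nat_lit 522) (nat_lit 387) (nat_lit 291)) (XT.nd (nat_lit 78) (nat_lit 0) (nat_lit 0) (XT.lf (nat_lit 0) (nat_lit 952549707296) (nat_lit 152) (nat_lit 5651453840060) (nat_lit 0) (nat_lit 949852436338) (nat_lit 1) (nat_lit 5) (nat_lit 3) (nat_lit 4) (nat_lit 1) (nat_lit 4) (nat_lit 523) (nat_lit 387) (nat_lit 290)) (XT.lf (nat_lit 0) (nat_lit 1040859424825) (nat_lit 152) (nat_lit 6078157161788) (nat_lit 0) (nat_lit 1038162039385) (nat_lit 1) (nat_lit 5) (nat_lit 3) (nat_lit 4) (nat_lit 1) (nat_lit 4) (nat_lit 524) (nat_lit 387) (nat_lit 289)))) (XT.nd (nat_lit 78) (nat_lit 0) (nat_lit 0) (XT.lf (nat_lit 0) (nat_lit 1136232914234) (nat_lit 152) (nat_lit 6538998823109) (nat_lit 0) (nat_lit 1133535422792)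 (nat_lit 1) (nat_lit 5) (nat_lit 3) (nat_lit 4) (nat_lit 1) (nat_lit 4) (nat_lit 525) (nat_lit 387) (nat_lit 288)) (XT.nd (nat_lit 78) (nat_lit 0) (nat_lit 0) (XT.lf (nat_lit 0) (nat_lit 1239235351757) (nat_lit 152) (nat_lit 7036709737574) (nat_lit 0) (nat_lit 1236537762166) (nat_lit 1) (nat_lit 5) (nat_lit 3) (nat_lit 4) (nat_lit 1) (nat_lit 4) (nat_lit 526) (nat_lit 387) (nat_lit 287)) (XT.lf (nat_lit 0) (nat_lit 1350477122208) (nat_lit 152) (nat_lit 7574239303192) (nat_lit 0) (nat_lit 1347779441738) (nat_lit 1) (nat_lit 5) (nat_lit 3) (nat_lit 4) (nat_lit 1) (nat_lit 4) (nat_lit 527) (nat_lit 387) (nat_lit 286))))) (XT.nd (nat_lit 234) (nat_lit 0) (nat_lit 0) (XT.nd (nat_lit 78) (nat_lit 0) (nat_lit 0) (XT.lf (nat_lit 0) (nat_lit 1470617436080) (nat_lit 152) (nat_lit 8154772880353) (nat_lit 0) (nat_lit 1467919671463) (nat_lit 1) (nat_lit 5) (nat_lit 3) (nat_lit 4) (nat_lit 1) (nat_lit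 4) (nat_lit 528) (nat_lit 387) (nat_lit 285)) (XT.nd (nat_lit 78) (nat_lit 0) (nat_lit 0) (XT.lf (nat_lit 0) (nat_lit 1600368235974) (nat_lit 152) (nat_lit 8781750668032) (nat_lit 0) (nat_lit 1597670393442) (nat_lit 1) (nat_lit 5) (nat_lit 3) (nat_lit 4) (nat_lit 1) (nat_lit 4) (nat_lit 529) (nat_lit 387) (nat_lit 284)) (XT.lf (nat_lit 0) (nat_lit 1740498415517) (nat_lit 152) (nat_lit 9458888090157) (nat_lit 0) (nat_lit 1737800500842) (nat_lit 1) (nat_lit 5) (nat_lit 3) (nat_lit 4) (nat_lit 1) (nat_lit 4) (nat_lit 530) (nat_lit 387) (nat_lit 283)))) (XT.nd (nat_lit 54132) (nat_lit 0) (nat_lit 2964) (XT.lf (nat_lit 0) (nat_lit 1891838375774) (nat_lit 152) (nat_lit 10190197812933) (nat_lit 0) (nat_lit 1889140394301) (nat_lit 1) (nat_lit 5) (nat_lit 3) (nat_lit 4) (nat_lit 1) (nat_lit 4) (nat_lit 531) (nat_lit 387) (nat_lit 282)) (XT.nd (nat_lit 78) (nat_lit 152) (nat_lit 0) (XT.lf (nat_lit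 0) (nat_lit 322195972) (nat_lit 152) (nat_lit 4744558295) (nat_lit 0) (nat_lit 322195972) (nat_lit 42) (nat_lit 5) (nat_lit 44) (nat_lit 4) (nat_lit 42) (nat_lit 4) (nat_lit 424) (nat_lit 388) (nat_lit 388)) (XT.lf (nat_lit 0) (nat_lit 18694209) (nat_lit 152) (nat_lit 5870753978) (nat_lit 152) (nat_lit 5283572756) (nat_lit 40) (nat_lit 4) (nat_lit 42) (nat_lit 5) (nat_lit 42) (nat_lit 4) (nat_lit 425) (nat_lit 388) (nat_lit 387))))))))
noncomputable def xc62 : XT := (XT.nd (nat_lit 1794) (nat_lit 836) (nat_lit 0) (XT.nd (nat_lit 858) (nat_lit 836) (nat_lit 0) (XT.nd (nat_lit 390) (nat_lit 532) (nat_lit 0) (XT.nd (nat_lit 156) (nat_lit 380) (nat_lit 0) (XT.nd (nat_lit 78) (nat_lit 152) (nat_lit 0) (XT.lf (nat_lit 0) (nat_lit 10299880527) (nat_lit 152) (nat_lit 1216884687) (nat_lit 152) (nat_lit 86017148) (nat_lit 40) (nat_lit 4) (nat_lit 42) (nat_lit 5) (nat_lit 42) (nat_lit 4) (nat_lit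 426) (nat_lit 388) (nat_lit 386)) (XT.lf (nat_lit 0) (nat_lit 5284613395) (nat_lit 152) (nat_lit 2997622168) (nat_lit 0) (nat_lit 3771390436) (nat_lit 38) (nat_lit 5) (nat_lit 40) (nat_lit 4) (nat_lit 38) (nat_lit 4) (nat_lit 427) (nat_lit 388) (nat_lit 385))) (XT.nd (nat_lit 78) (nat_lit 228) (nat_lit 0) (XT.lf (nat_lit 0) (nat_lit 7619761235) (nat_lit 152) (nat_lit 3433793031) (nat_lit 152) (nat_lit 1488974346) (nat_lit 36) (nat_lit 4) (nat_lit 38) (nat_lit 5) (nat_lit 38) (nat_lit 4) (nat_lit 428) (nat_lit 388) (nat_lit 384)) (XT.nd (nat_lit 78) (nat_lit 76) (nat_lit 0) (XT.lf (nat_lit 0) (nat_lit 3997923682) (nat_lit 152) (nat_lit 7237782477) (nat_lit 0) (nat_lit 1827141868) (nat_lit 34) (nat_lit 5) (nat_lit 36) (nat_lit 4) (nat_lit 34) (nat_lit 4) (nat_lit 429) (nat_lit 388) (nat_lit 383)) (XT.lf (nat_lit 0) (nat_lit 3637735595) (nat_lit 76) (nat_lit 6247036073) (nat_lit 76) (nat_lit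 3733639656) (nat_lit 33) (nat_lit 4) (nat_lit 34) (nat_lit 5) (nat_lit 34) (nat_lit 4) (nat_lit 430) (nat_lit 388) (nat_lit 382))))) (XT.nd (nat_lit 234) (nat_lit 304) (nat_lit 0) (XT.nd (nat_lit 78) (nat_lit 76) (nat_lit 0) (XT.lf (nat_lit 0) (nat_lit 1079573790) (nat_lit 76) (nat_lit 800332916) (nat_lit 152) (nat_lit 12338080992) (nat_lit 31) (nat_lit 5) (nat_lit 32) (nat_lit 5) (nat_lit 33) (nat_lit 4) (nat_lit 431) (nat_lit 388) (nat_lit 381)) (XT.nd (nat_lit 78) (nat_lit 76) (nat_lit 0) (XT.lf (nat_lit 0) (nat_lit 7873487803) (nat_lit 152) (nat_lit 1993139343) (nat_lit 0) (nat_lit 4980553581) (nat_lit 31) (nat_lit 5) (nat_lit 33) (nat_lit 4) (nat_lit 31) (nat_lit 4) (nat_lit 432) (nat_lit 388) (nat_lit 380)) (XT.lf (nat_lit 0) (nat_lit 10048406317) (nat_lit 76) (nat_lit 4311029465) (nat_lit 76) (nat_lit 1166263281) (nat_lit 30) (nat_lit 4) (nat_lit 31) (nat_lit 5) (nat_lit 31) (nat_lit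 4) (nat_lit 433) (nat_lit 388) (nat_lit 379)))) (XT.nd (nat_lit 78) (nat_lit 152) (nat_lit 0) (XT.lf (nat_lit 0) (nat_lit 4861314806) (nat_lit 152) (nat_lit 9652911827) (nat_lit 0) (nat_lit 1733588948) (nat_lit 28) (nat_lit 5) (nat_lit 30) (nat_lit 4) (nat_lit 28) (nat_lit 4) (nat_lit 434) (nat_lit 388) (nat_lit 378)) (XT.nd (nat_lit 78) (nat_lit 76) (nat_lit 0) (XT.lf (nat_lit 0) (nat_lit 2423674635) (nat_lit 76) (nat_lit 8961543732) (nat_lit 76) (nat_lit 5633905544) (nat_lit 27) (nat_lit 4) (nat_lit 28) (nat_lit 5) (nat_lit 28) (nat_lit 4) (nat_lit 435) (nat_lit 388) (nat_lit 377)) (XT.lf (nat_lit 0) (nat_lit 574721753) (nat_lit 152) (nat_lit 2317320950) (nat_lit 76) (nat_lit 14957011559) (nat_lit 26) (nat_lit 5) (nat_lit 28) (nat_lit 5) (nat_lit 27) (nat_lit 4) (nat_lit 436) (nat_lit 388) (nat_lit 376)))))) (XT.nd (nat_lit 468) (nat_lit 456) (nat_lit 0) (XT.nd (nat_lit 234) (nat_lit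 152) (nat_lit 0) (XT.nd (nat_lit 78) (nat_lit 152) (nat_lit 0) (XT.lf (nat_lit 0) (nat_lit 7103419870) (nat_lit 152) (nat_lit 7927860569) (nat_lit 0) (nat_lit 3692183946) (nat_lit 25) (nat_lit 5) (nat_lit 27) (nat_lit 4) (nat_lit 25) (nat_lit 4) (nat_lit 437) (nat_lit 388) (nat_lit 375)) (XT.nd (nat_lit 78) (nat_lit 76) (nat_lit 0) (XT.lf (nat_lit 0) (nat_lit 5161433846) (nat_lit 76) (nat_lit 9030779409) (nat_lit 76) (nat_lit 5472601953) (nat_lit 24) (nat_lit 4) (nat_lit 25) (nat_lit 5) (nat_lit 25) (nat_lit 4) (nat_lit 438) (nat_lit 388) (nat_lit 374)) (XT.lf (nat_lit 0) (nat_lit 1104788884) (nat_lit 152) (nat_lit 1396273548) (nat_lit 76) (nat_lit 18178456190) (nat_lit 23) (nat_lit 5) (nat_lit 25) (nat_lit 5) (nat_lit 24) (nat_lit 4) (nat_lit 439) (nat_lit 388) (nat_lit 373)))) (XT.nd (nat_lit 78) (nat_lit 76) (nat_lit 0) (XT.lf (nat_lit 0) (nat_lit 8128743271) (nat_lit 152) (nat_lit 9026501091)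 (nat_lit 0) (nat_lit 4591508913) (nat_lit 22) (nat_lit 5) (nat_lit 24) (nat_lit 4) (nat_lit 22) (nat_lit 4) (nat_lit 440) (nat_lit 388) (nat_lit 372)) (XT.nd (nat_lit 78) (nat_lit 0) (nat_lit 0) (XT.lf (nat_lit 0) (nat_lit 4914016003) (nat_lit 76) (nat_lit 10814734622) (nat_lit 76) (nat_lit 7169493852) (nat_lit 21) (nat_lit 4) (nat_lit 22) (nat_lit 5) (nat_lit 22) (nat_lit 4) (nat_lit 441) (nat_lit 388) (nat_lit 371)) (XT.lf (nat_lit 0) (nat_lit 20078583574) (nat_lit 76) (nat_lit 3902490465) (nat_lit 76) (nat_lit 157243758) (nat_lit 21) (nat_lit 4) (nat_lit 22) (nat_lit 5) (nat_lit 22) (nat_lit 4) (nat_lit 442) (nat_lit 388) (nat_lit 370))))) (XT.nd (nat_lit 234) (nat_lit 228) (nat_lit 0) (XT.nd (nat_lit 78) (nat_lit 76) (nat_lit 0) (XT.lf (nat_lit 0) (nat_lit 7208872750) (nat_lit 152) (nat_lit 14586040891) (nat_lit 0) (nat_lit 3655312754) (nat_lit 19) (nat_lit 5) (nat_lit 21) (nat_lit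 4) (nat_lit 19) (nat_lit 4) (nat_lit 443) (nat_lit 388) (nat_lit 369)) (XT.nd (nat_lit 78) (nat_lit 76) (nat_lit 0) (XT.lf (nat_lit 0) (nat_lit 15179380835) (nat_lit 152) (nat_lit 139065801) (nat_lit 0) (nat_lit 11546432902) (nat_lit 19) (nat_lit 5) (nat_lit 21) (nat_lit 4) (nat_lit 19) (nat_lit 4) (nat_lit 444) (nat_lit 388) (nat_lit 368)) (XT.lf (nat_lit 0) (nat_lit 15902287380) (nat_lit 76) (nat_lit 8090239488) (nat_lit 76) (nat_lit 4383784206) (nat_lit 18) (nat_lit 4) (nat_lit 19) (nat_lit 5) (nat_lit 19) (nat_lit 4) (nat_lit 445) (nat_lit 388) (nat_lit 367)))) (XT.nd (nat_lit 78) (nat_lit 76) (nat_lit 0) (XT.lf (nat_lit 0) (nat_lit 2931658407) (nat_lit 76) (nat_lit 292464693) (nat_lit 152) (nat_lit 26786021668) (nat_lit 16) (nat_lit 5) (nat_lit 17) (nat_lit 5) (nat_lit 18) (nat_lit 4) (nat_lit 446) (nat_lit 388) (nat_lit 366)) (XT.nd (nat_lit 78) (nat_lit 76) (nat_lit 0) (XT.lf (nat_lit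 0) (nat_lit 11572611576) (nat_lit 152) (nat_lit 12144130848) (nat_lit 0) (nat_lit 8019335329) (nat_lit 16) (nat_lit 5) (nat_lit 18) (nat_lit 4) (nat_lit 16) (nat_lit 4) (nat_lit 447) (nat_lit 388) (nat_lit 365)) (XT.lf (nat_lit 0) (nat_lit 3838168653) (nat_lit 76) (nat_lit 16687159741) (nat_lit 76) (nat_lit 13079853399) (nat_lit 15) (nat_lit 4) (nat_lit 16) (nat_lit 5) (nat_lit 16) (nat_lit 4) (nat_lit 448) (nat_lit 388) (nat_lit 364))))))) (XT.nd (nat_lit 936) (nat_lit 380) (nat_lit 0) (XT.nd (nat_lit 468) (nat_lit 228) (nat_lit 0) (XT.nd (nat_lit 234) (nat_lit 76) (nat_lit 0) (XT.nd (nat_lit 78) (nat_lit 152) (nat_lit 0) (XT.lf (nat_lit 0) (nat_lit 21466875921) (nat_lit 76) (nat_lit 8900224714) (nat_lit 76) (nat_lit 5242890505) (nat_lit 15) (nat_lit 4) (nat_lit 16) (nat_lit 5) (nat_lit 16) (nat_lit 4) (nat_lit 449) (nat_lit 388) (nat_lit 363)) (XT.nd (nat_lit 78) (nat_lit 0) (nat_lit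 0) (XT.lf (nat_lit 0) (nat_lit 2469904859) (nat_lit 76) (nat_lit 498153393) (nat_lit 152) (nat_lit 34808280552) (nat_lit 13) (nat_lit 5) (nat_lit 14) (nat_lit 5) (nat_lit 15) (nat_lit 4) (nat_lit 450) (nat_lit 388) (nat_lit 362)) (XT.lf (nat_lit 0) (nat_lit 12004741121) (nat_lit 152) (nat_lit 19528477214) (nat_lit 0) (nat_lit 8535715992) (nat_lit 13) (nat_lit 5) (nat_lit 15) (nat_lit 4) (nat_lit 13) (nat_lit 4) (nat_lit 451) (nat_lit 388) (nat_lit 361)))) (XT.nd (nat_lit 78) (nat_lit 76) (nat_lit 0) (XT.lf (nat_lit 0) (nat_lit 21637587967) (nat_lit 152) (nat_lit 2785703277) (nat_lit 0) (nat_lit 18131790862) (nat_lit 13) (nat_lit 5) (nat_lit 15) (nat_lit 4) (nat_lit 13) (nat_lit 4) (nat_lit 452) (nat_lit 388) (nat_lit 360)) (XT.nd (nat_lit 78) (nat_lit 0) (nat_lit 0) (XT.lf (nat_lit 0) (nat_lit 15824700513) (nat_lit 76) (nat_lit 16467585641) (nat_lit 76) (nat_lit 12927740411) (nat_lit 12)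 (nat_lit 4) (nat_lit 13) (nat_lit 5) (nat_lit 13) (nat_lit 4) (nat_lit 453) (nat_lit 388) (nat_lit 359)) (XT.lf (nat_lit 0) (nat_lit 35825622898) (nat_lit 76) (nat_lit 7923950230) (nat_lit 76) (nat_lit 4352578958) (nat_lit 12) (nat_lit 4) (nat_lit 13) (nat_lit 5) (nat_lit 13) (nat_lit 4) (nat_lit 454) (nat_lit 388) (nat_lit 358))))) (XT.nd (nat_lit 234) (nat_lit 76) (nat_lit 0) (XT.nd (nat_lit 78) (nat_lit 0) (nat_lit 0) (XT.lf (nat_lit 0) (nat_lit 4726749643) (nat_lit 152) (nat_lit 45080663982) (nat_lit 0) (nat_lit 1392895891) (nat_lit 10) (nat_lit 5) (nat_lit 12) (nat_lit 4) (nat_lit 10) (nat_lit 4) (nat_lit 455) (nat_lit 388) (nat_lit 357)) (XT.nd (nat_lit 78) (nat_lit 0) (nat_lit 0) (XT.lf (nat_lit 0) (nat_lit 14728039967) (nat_lit 152) (nat_lit 28405616024) (nat_lit 0) (nat_lit 11369159827) (nat_lit 10) (nat_lit 5) (nat_lit 12) (nat_lit 4) (nat_lit 10) (nat_lit 4) (nat_lit 456) (nat_lit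 388) (nat_lit 356)) (XT.lf (nat_lit 0) (nat_lit 25418850466) (nat_lit 152) (nat_lit 10622722927) (nat_lit 0) (nat_lit 22036797743) (nat_lit 10) (nat_lit 5) (nat_lit 12) (nat_lit 4) (nat_lit 10) (nat_lit 4) (nat_lit 457) (nat_lit 388) (nat_lit 355)))) (XT.nd (nat_lit 78) (nat_lit 0) (nat_lit 0) (XT.lf (nat_lit 0) (nat_lit 8814323579) (nat_lit 76) (nat_lit 28260195204) (nat_lit 76) (nat_lit 24856686387) (nat_lit 9) (nat_lit 4) (nat_lit 10) (nat_lit 5) (nat_lit 10) (nat_lit 4) (nat_lit 458) (nat_lit 388) (nat_lit 354)) (XT.nd (nat_lit 78) (nat_lit 0) (nat_lit 0) (XT.lf (nat_lit 0) (nat_lit 30206352693) (nat_lit 76) (nat_lit 19647016075) (nat_lit 76) (nat_lit 16223640504) (nat_lit 9) (nat_lit 4) (nat_lit 10) (nat_lit 5) (nat_lit 10) (nat_lit 4) (nat_lit 459) (nat_lit 388) (nat_lit 353)) (XT.lf (nat_lit 0) (nat_lit 53120758229) (nat_lit 76) (nat_lit 10441439015) (nat_lit 76) (nat_lit 6999668301)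 (nat_lit 9) (nat_lit 4) (nat_lit 10) (nat_lit 5) (nat_lit 10) (nat_lit 4) (nat_lit 460) (nat_lit 388) (nat_lit 352)))))) (XT.nd (nat_lit 468) (nat_lit 152) (nat_lit 0) (XT.nd (nat_lit 234) (nat_lit 76) (nat_lit 0) (XT.nd (nat_lit 78) (nat_lit 0) (nat_lit 0) (XT.lf (nat_lit 0) (nat_lit 2328435154) (nat_lit 76) (nat_lit 453891003) (nat_lit 152) (nat_lit 72620023171) (nat_lit 7) (nat_lit 5) (nat_lit 8) (nat_lit 5) (nat_lit 9) (nat_lit 4) (nat_lit 461) (nat_lit 388) (nat_lit 351)) (XT.nd (nat_lit 78) (nat_lit 0) (nat_lit 0) (XT.lf (nat_lit 0) (nat_lit 13618893215) (nat_lit 152) (nat_lit 56542925900) (nat_lit 0) (nat_lit 10401694953) (nat_lit 7) (nat_lit 5) (nat_lit 9) (nat_lit 4) (nat_lit 7) (nat_lit 4) (nat_lit 462) (nat_lit 388) (nat_lit 350)) (XT.lf (nat_lit 0) (nat_lit 25253081645) (nat_lit 152) (nat_lit 38867673349) (nat_lit 0) (nat_lit 22022362403) (nat_lit 7) (nat_lit 5) (nat_lit 9)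 (nat_lit 4) (nat_lit 7) (nat_lit 4) (nat_lit 463) (nat_lit 388) (nat_lit 349)))) (XT.nd (nat_lit 78) (nat_lit 76) (nat_lit 0) (XT.lf (nat_lit 0) (nat_lit 37742918696) (nat_lit 152) (nat_lit 19932498192) (nat_lit 0) (nat_lit 34499680030) (nat_lit 7) (nat_lit 5) (nat_lit 9) (nat_lit 4) (nat_lit 7) (nat_lit 4) (nat_lit 464) (nat_lit 388) (nat_lit 348)) (XT.nd (nat_lit 78) (nat_lit 0) (nat_lit 0) (XT.lf (nat_lit 0) (nat_lit 394544739) (nat_lit 76) (nat_lit 50777362288) (nat_lit 76) (nat_lit 47522531561) (nat_lit 6) (nat_lit 4) (nat_lit 7) (nat_lit 5) (nat_lit 7) (nat_lit 4) (nat_lit 465) (nat_lit 388) (nat_lit 347)) (XT.lf (nat_lit 0) (nat_lit 23342259205) (nat_lit 76) (nat_lit 42810225859) (nat_lit 76) (nat_lit 39544661743) (nat_lit 6) (nat_lit 4) (nat_lit 7) (nat_lit 5) (nat_lit 7) (nat_lit 4) (nat_lit 466) (nat_lit 388) (nat_lit 346))))) (XT.nd (nat_lit 234) (nat_lit 152) (nat_lit 0) (XT.nd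 (nat_lit 78) (nat_lit 0) (nat_lit 0) (XT.lf (nat_lit 0) (nat_lit 47997021629) (nat_lit 76) (nat_lit 34271784766) (nat_lit 76) (nat_lit 30996282327) (nat_lit 6) (nat_lit 4) (nat_lit 7) (nat_lit 5) (nat_lit 7) (nat_lit 4) (nat_lit 467) (nat_lit 388) (nat_lit 345)) (XT.nd (nat_lit 78) (nat_lit 0) (nat_lit 0) (XT.lf (nat_lit 0) (nat_lit 74504934306) (nat_lit 76) (nat_lit 25111440838) (nat_lit 76) (nat_lit 21826736248) (nat_lit 6) (nat_lit 4) (nat_lit 7) (nat_lit 5) (nat_lit 7) (nat_lit 4) (nat_lit 468) (nat_lit 388) (nat_lit 344)) (XT.lf (nat_lit 0) (nat_lit 103023081164) (nat_lit 76) (nat_lit 15274910557) (nat_lit 76) (nat_lit 11981685457) (nat_lit 6) (nat_lit 4) (nat_lit 7) (nat_lit 5) (nat_lit 7) (nat_lit 4) (nat_lit 469) (nat_lit 388) (nat_lit 343)))) (XT.nd (nat_lit 78) (nat_lit 152) (nat_lit 0) (XT.lf (nat_lit 0) (nat_lit 133720458628) (nat_lit 76) (nat_lit 4703903372) (nat_lit 76) (nat_lit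 1402788911) (nat_lit 6) (nat_lit 4) (nat_lit 7) (nat_lit 5) (nat_lit 7) (nat_lit 4) (nat_lit 470) (nat_lit 388) (nat_lit 342)) (XT.nd (nat_lit 78) (nat_lit 0) (nat_lit 0) (XT.lf (nat_lit 0) (nat_lit 10066172299) (nat_lit 152) (nat_lit 133006537461) (nat_lit 0) (nat_lit 7002820979) (nat_lit 4) (nat_lit 5) (nat_lit 6) (nat_lit 4) (nat_lit 4) (nat_lit 4) (nat_lit 471) (nat_lit 388) (nat_lit 341)) (XT.lf (nat_lit 0) (nat_lit 22623117391) (nat_lit 152) (nat_lit 118944545617) (nat_lit 0) (nat_lit 19553503241) (nat_lit 4) (nat_lit 5) (nat_lit 6) (nat_lit 4) (nat_lit 4) (nat_lit 4) (nat_lit 472) (nat_lit 388) (nat_lit 340))))))))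
noncomputable def xc63 : XT := (XT.nd (nat_lit 1794) (nat_lit 152) (nat_lit 0) (XT.nd (nat_lit 858) (nat_lit 0) (nat_lit 0) (XT.nd (nat_lit 390) (nat_lit 76) (nat_lit 0) (XT.nd (nat_lit 156) (nat_lit 0) (nat_lit 0) (XT.nd (nat_lit 78) (nat_lit 0) (nat_lit 0) (XT.lf (nat_lit 0) (nat_lit 36140886700) (nat_lit 152) (nat_lit 103847591247) (nat_lit 0) (nat_lit 33065473634) (nat_lit 4) (nat_lit 5) (nat_lit 6) (nat_lit 4) (nat_lit 4) (nat_lit 4) (nat_lit 473) (nat_lit 388) (nat_lit 339)) (XT.lf (nat_lit 0) (nat_lit 50699585525) (nat_lit 152) (nat_lit 87626210915) (nat_lit 0) (nat_lit 47618803092) (nat_lit 4) (nat_lit 5) (nat_lit 6) (nat_lit 4) (nat_lit 4) (nat_lit 4) (nat_lit 474) (nat_lit 388) (nat_lit 338))) (XT.nd (nat_lit 78) (nat_lit 0) (nat_lit 0) (XT.lf (nat_lit 0) (nat_lit 66385487638) (nat_lit 152) (nat_lit 70184277924) (nat_lit 0) (nat_lit 63299733569) (nat_lit 4) (nat_lit 5) (nat_lit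 6) (nat_lit 4) (nat_lit 4) (nat_lit 4) (nat_lit 475) (nat_lit 388) (nat_lit 337)) (XT.nd (nat_lit 78) (nat_lit 0) (nat_lit 0) (XT.lf (nat_lit 0) (nat_lit 83291546531) (nat_lit 152) (nat_lit 51418432672) (nat_lit 0) (nat_lit 80201189096) (nat_lit 4) (nat_lit 5) (nat_lit 6) (nat_lit 4) (nat_lit 4) (nat_lit 4) (nat_lit 476) (nat_lit 388) (nat_lit 336)) (XT.lf (nat_lit 0) (nat_lit 101517946259) (nat_lit 152) (nat_lit 31217470149) (nat_lit 0) (nat_lit 98423326447) (nat_lit 4) (nat_lit 5) (nat_lit 6) (nat_lit 4) (nat_lit 4) (nat_lit 4) (nat_lit 477) (nat_lit 388) (nat_lit 335))))) (XT.nd (nat_lit 234) (nat_lit 0) (nat_lit 0) (XT.nd (nat_lit 78) (nat_lit 76) (nat_lit 0) (XT.lf (nat_lit 0) (nat_lit 121172695115) (nat_lit 152) (nat_lit 9461680947) (nat_lit 0) (nat_lit 118074128658) (nat_lit 4) (nat_lit 5) (nat_lit 6) (nat_lit 4) (nat_lit 4) (nat_lit 4) (nat_lit 478) (nat_lit 388) (nat_lit 334))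 (XT.nd (nat_lit 78) (nat_lit 0) (nat_lit 0) (XT.lf (nat_lit 0) (nat_lit 14713907365) (nat_lit 76) (nat_lit 128012228146) (nat_lit 76) (nat_lit 124910007388) (nat_lit 3) (nat_lit 4) (nat_lit 4) (nat_lit 5) (nat_lit 4) (nat_lit 4) (nat_lit 479) (nat_lit 388) (nat_lit 333)) (XT.lf (nat_lit 0) (nat_lit 41306359439) (nat_lit 76) (nat_lit 124929344554) (nat_lit 76) (nat_lit 121823740184) (nat_lit 3) (nat_lit 4) (nat_lit 4) (nat_lit 5) (nat_lit 4) (nat_lit 4) (nat_lit 480) (nat_lit 388) (nat_lit 332)))) (XT.nd (nat_lit 78) (nat_lit 0) (nat_lit 0) (XT.lf (nat_lit 0) (nat_lit 69975024824) (nat_lit 76) (nat_lit 121626155471) (nat_lit 76) (nat_lit 118517418128) (nat_lit 3) (nat_lit 4) (nat_lit 4) (nat_lit 5) (nat_lit 4) (nat_lit 4) (nat_lit 481) (nat_lit 388) (nat_lit 331)) (XT.nd (nat_lit 78) (nat_lit 0) (nat_lit 0) (XT.lf (nat_lit 0) (nat_lit 100889791907) (nat_lit 76) (nat_lit 118083086444) (nat_lit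 76) (nat_lit 114971448199) (nat_lit 3) (nat_lit 4) (nat_lit 4) (nat_lit 5) (nat_lit 4) (nat_lit 4) (nat_lit 482) (nat_lit 388) (nat_lit 330)) (XT.lf (nat_lit 0) (nat_lit 134233859307) (nat_lit 76) (nat_lit 114279141508) (nat_lit 76) (nat_lit 111164817242) (nat_lit 3) (nat_lit 4) (nat_lit 4) (nat_lit 5) (nat_lit 4) (nat_lit 4) (nat_lit 483) (nat_lit 388) (nat_lit 329)))))) (XT.nd (nat_lit 468) (nat_lit 0) (nat_lit 0) (XT.nd (nat_lit 234) (nat_lit 0) (nat_lit 0) (XT.nd (nat_lit 78) (nat_lit 0) (nat_lit 0) (XT.lf (nat_lit 0) (nat_lit 170204821499) (nat_lit 76) (nat_lit 110191778767) (nat_lit 76) (nat_lit 107074967446) (nat_lit 3) (nat_lit 4) (nat_lit 4) (nat_lit 5) (nat_lit 4) (nat_lit 4) (nat_lit 484) (nat_lit 388) (nat_lit 328)) (XT.nd (nat_lit 78) (nat_lit 0) (nat_lit 0) (XT.lf (nat_lit 0) (nat_lit 209015839740) (nat_lit 76) (nat_lit 105796776812) (nat_lit 76) (nat_lit 102677662662) (nat_lit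 3) (nat_lit 4) (nat_lit 4) (nat_lit 5) (nat_lit 4) (nat_lit 4) (nat_lit 485) (nat_lit 388) (nat_lit 327)) (XT.lf (nat_lit 0) (nat_lit 250896905248) (nat_lit 76) (nat_lit 101068091188) (nat_lit 76) (nat_lit 97946844788) (nat_lit 3) (nat_lit 4) (nat_lit 4) (nat_lit 5) (nat_lit 4) (nat_lit 4) (nat_lit 486) (nat_lit 388) (nat_lit 326)))) (XT.nd (nat_lit 78) (nat_lit 0) (nat_lit 0) (XT.lf (nat_lit 0) (nat_lit 296096202117) (nat_lit 76) (nat_lit 95977700053) (nat_lit 76) (nat_lit 92854479348) (nat_lit 3) (nat_lit 4) (nat_lit 4) (nat_lit 5) (nat_lit 4) (nat_lit 4) (nat_lit 487) (nat_lit 388) (nat_lit 325)) (XT.nd (nat_lit 78) (nat_lit 0) (nat_lit 0) (XT.lf (nat_lit 0) (nat_lit 344881578030) (nat_lit 76) (nat_lit 90495438126) (nat_lit 76) (nat_lit 87370389361) (nat_lit 3) (nat_lit 4) (nat_lit 4) (nat_lit 5) (nat_lit 4) (nat_lit 4) (nat_lit 488) (nat_lit 388) (nat_lit 324)) (XT.lf (nat_lit 0) (nat_lit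 397542131513) (nat_lit 76) (nat_lit 84588817931) (nat_lit 76) (nat_lit 81462076517) (nat_lit 3) (nat_lit 4) (nat_lit 4) (nat_lit 5) (nat_lit 4) (nat_lit 4) (nat_lit 489) (nat_lit 388) (nat_lit 323))))) (XT.nd (nat_lit 234) (nat_lit 0) (nat_lit 0) (XT.nd (nat_lit 78) (nat_lit 0) (nat_lit 0) (XT.lf (nat_lit 0) (nat_lit 454389925103) (nat_lit 76) (nat_lit 78222837272) (nat_lit 76) (nat_lit 75094528591) (nat_lit 3) (nat_lit 4) (nat_lit 4) (nat_lit 5) (nat_lit 4) (nat_lit 4) (nat_lit 490) (nat_lit 388) (nat_lit 322)) (XT.nd (nat_lit 78) (nat_lit 0) (nat_lit 0) (XT.lf (nat_lit 0) (nat_lit 515761834615) (nat_lit 76) (nat_lit 71359771820) (nat_lit 76) (nat_lit 68230011966) (nat_lit 3) (nat_lit 4) (nat_lit 4) (nat_lit 5) (nat_lit 4) (nat_lit 4) (nat_lit 491) (nat_lit 388) (nat_lit 321)) (XT.lf (nat_lit 0) (nat_lit 582021545440) (nat_lit 76) (nat_lit 63958951558) (nat_lit 76) (nat_lit 60827848025)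 (nat_lit 3) (nat_lit 4) (nat_lit 4) (nat_lit 5) (nat_lit 4) (nat_lit 4) (nat_lit 492) (nat_lit 388) (nat_lit 320)))) (XT.nd (nat_lit 78) (nat_lit 0) (nat_lit 0) (XT.lf (nat_lit 0) (nat_lit 653561707713) (nat_lit 76) (nat_lit 55976519772) (nat_lit 76) (nat_lit 52844172093) (nat_lit 3) (nat_lit 4) (nat_lit 4) (nat_lit 5) (nat_lit 4) (nat_lit 4) (nat_lit 493) (nat_lit 388) (nat_lit 319)) (XT.nd (nat_lit 78) (nat_lit 0) (nat_lit 0) (XT.lf (nat_lit 0) (nat_lit 730806263140) (nat_lit 76) (nat_lit 47365173164) (nat_lit 76) (nat_lit 44231673497) (nat_lit 3) (nat_lit 4) (nat_lit 4) (nat_lit 5) (nat_lit 4) (nat_lit 4) (nat_lit 494) (nat_lit 388) (nat_lit 318)) (XT.lf (nat_lit 0) (nat_lit 814212957232) (nat_lit 76) (nat_lit 38073881532) (nat_lit 76) (nat_lit 34939315209) (nat_lit 3) (nat_lit 4) (nat_lit 4) (nat_lit 5) (nat_lit 4) (nat_lit 4) (nat_lit 495) (nat_lit 388) (nat_lit 317))))))) (XT.nd (nat_lit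 936) (nat_lit 0) (nat_lit 0) (XT.nd (nat_lit 468) (nat_lit 0) (nat_lit 0) (XT.nd (nat_lit 234) (nat_lit 152) (nat_lit 0) (XT.nd (nat_lit 78) (nat_lit 0) (nat_lit 0) (XT.lf (nat_lit 0) (nat_lit 904276051881) (nat_lit 76) (nat_lit 28047585368) (nat_lit 76) (nat_lit 24912031401) (nat_lit 3) (nat_lit 4) (nat_lit 4) (nat_lit 5) (nat_lit 4) (nat_lit 4) (nat_lit 496) (nat_lit 388) (nat_lit 316)) (XT.nd (nat_lit 78) (nat_lit 0) (nat_lit 0) (XT.lf (nat_lit 0) (nat_lit 1001529254314) (nat_lit 76) (nat_lit 17226869586) (nat_lit 76) (nat_lit 14090401133) (nat_lit 3) (nat_lit 4) (nat_lit 4) (nat_lit 5) (nat_lit 4) (nat_lit 4) (nat_lit 497) (nat_lit 388) (nat_lit 315)) (XT.lf (nat_lit 0) (nat_lit 1106548879805) (nat_lit 76) (nat_lit 5547611424) (nat_lit 76) (nat_lit 2410296226) (nat_lit 3) (nat_lit 4) (nat_lit 4) (nat_lit 5) (nat_lit 4) (nat_lit 4) (nat_lit 498) (nat_lit 388) (nat_lit 314)))) (XT.nd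 (nat_lit 78) (nat_lit 0) (nat_lit 0) (XT.lf (nat_lit 0) (nat_lit 10305388421) (nat_lit 152) (nat_lit 1184926178372) (nat_lit 0) (nat_lit 7399740994) (nat_lit 1) (nat_lit 5) (nat_lit 3) (nat_lit 4) (nat_lit 1) (nat_lit 4) (nat_lit 499) (nat_lit 388) (nat_lit 313)) (XT.nd (nat_lit 78) (nat_lit 0) (nat_lit 0) (XT.lf (nat_lit 0) (nat_lit 24269061659) (nat_lit 152) (nat_lit 1252140101482) (nat_lit 0) (nat_lit 21362742058) (nat_lit 1) (nat_lit 5) (nat_lit 3) (nat_lit 4) (nat_lit 1) (nat_lit 4) (nat_lit 500) (nat_lit 388) (nat_lit 312)) (XT.lf (nat_lit 0) (nat_lit 39343924871) (nat_lit 152) (nat_lit 1324743315007) (nat_lit 0) (nat_lit 36436982886) (nat_lit 1) (nat_lit 5) (nat_lit 3) (nat_lit 4) (nat_lit 1) (nat_lit 4) (nat_lit 501) (nat_lit 388) (nat_lit 311))))) (XT.nd (nat_lit 234) (nat_lit 0) (nat_lit 0) (XT.nd (nat_lit 78) (nat_lit 0) (nat_lit 0) (XT.lf (nat_lit 0) (nat_lit 55619310579) (nat_lit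 152) (nat_lit 1403166060214) (nat_lit 0) (nat_lit 52711792314) (nat_lit 1) (nat_lit 5) (nat_lit 3) (nat_lit 4) (nat_lit 1) (nat_lit 4) (nat_lit 502) (nat_lit 388) (nat_lit 310)) (XT.nd (nat_lit 78) (nat_lit 0) (nat_lit 0) (XT.lf (nat_lit 0) (nat_lit 73191665513) (nat_lit 152) (nat_lit 1487873064482) (nat_lit 0) (nat_lit 70283613655) (nat_lit 1) (nat_lit 5) (nat_lit 3) (nat_lit 4) (nat_lit 1) (nat_lit 4) (nat_lit 503) (nat_lit 388) (nat_lit 309)) (XT.lf (nat_lit 0) (nat_lit 92165122148) (nat_lit 152) (nat_lit 1579366295242) (nat_lit 0) (nat_lit 89256576221) (nat_lit 1) (nat_lit 5) (nat_lit 3) (nat_lit 4) (nat_lit 1) (nat_lit 4) (nat_lit 504) (nat_lit 388) (nat_lit 308)))) (XT.nd (nat_lit 78) (nat_lit 0) (nat_lit 0) (XT.lf (nat_lit 0) (nat_lit 112652115781) (nat_lit 152) (nat_lit 1678187934604) (nat_lit 0) (nat_lit 109743112384) (nat_lit 1) (nat_lit 5) (nat_lit 3) (nat_lit 4) (nat_lit 1)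 (nat_lit 4) (nat_lit 505) (nat_lit 388) (nat_lit 307)) (XT.nd (nat_lit 78) (nat_lit 0) (nat_lit 0) (XT.lf (nat_lit 0) (nat_lit 134774050820) (nat_lit 152) (nat_lit 1784923592282) (nat_lit 0) (nat_lit 131864623839) (nat_lit 1) (nat_lit 5) (nat_lit 3) (nat_lit 4) (nat_lit 1) (nat_lit 4) (nat_lit 506) (nat_lit 388) (nat_lit 306)) (XT.lf (nat_lit 0) (nat_lit 158662020212) (nat_lit 152) (nat_lit 1900205775877) (nat_lit 0) (nat_lit 155752201025) (nat_lit 1) (nat_lit 5) (nat_lit 3) (nat_lit 4) (nat_lit 1) (nat_lit 4) (nat_lit 507) (nat_lit 388) (nat_lit 305)))))) (XT.nd (nat_lit 468) (nat_lit 0) (nat_lit 0) (XT.nd (nat_lit 234) (nat_lit 0) (nat_lit 0) (XT.nd (nat_lit 78) (nat_lit 0) (nat_lit 0) (XT.lf (nat_lit 0) (nat_lit 184457582296) (nat_lit 152) (nat_lit 2024717639070) (nat_lit 0) (nat_lit 181547399953) (nat_lit 1) (nat_lit 5) (nat_lit 3) (nat_lit 4) (nat_lit 1) (nat_lit 4) (nat_lit 508) (nat_lit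 388) (nat_lit 304)) (XT.nd (nat_lit 78) (nat_lit 0) (nat_lit 0) (XT.lf (nat_lit 0) (nat_lit 212313599660) (nat_lit 152) (nat_lit 2159197029939) (nat_lit 0) (nat_lit 209403081064) (nat_lit 1) (nat_lit 5) (nat_lit 3) (nat_lit 4) (nat_lit 1) (nat_lit 4) (nat_lit 509) (nat_lit 388) (nat_lit 303)) (XT.lf (nat_lit 0) (nat_lit 242395145001) (nat_lit 152) (nat_lit 2304440863392) (nat_lit 0) (nat_lit 239484315058) (nat_lit 1) (nat_lit 5) (nat_lit 3) (nat_lit 4) (nat_lit 1) (nat_lit 4) (nat_lit 510) (nat_lit 388) (nat_lit 302)))) (XT.nd (nat_lit 78) (nat_lit 0) (nat_lit 0) (XT.lf (nat_lit 0) (nat_lit 274880479328) (nat_lit 152) (nat_lit 2461309843628) (nat_lit 0) (nat_lit 271969361101) (nat_lit 1) (nat_lit 5) (nat_lit 3) (nat_lit 4) (nat_lit 1) (nat_lit 4) (nat_lit 511) (nat_lit 388) (nat_lit 301)) (XT.nd (nat_lit 78) (nat_lit 0) (nat_lit 0) (XT.lf (nat_lit 0) (nat_lit 309962108326) (nat_lit 152)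 (nat_lit 2630733564605) (nat_lit 0) (nat_lit 307050723170) (nat_lit 1) (nat_lit 5) (nat_lit 3) (nat_lit 4) (nat_lit 1) (nat_lit 4) (nat_lit 512) (nat_lit 388) (nat_lit 300)) (XT.lf (nat_lit 0) (nat_lit 347847923130) (nat_lit 152) (nat_lit 2813716018741) (nat_lit 0) (nat_lit 344936290816) (nat_lit 1) (nat_lit 5) (nat_lit 3) (nat_lit 4) (nat_lit 1) (nat_lit 4) (nat_lit 513) (nat_lit 388) (nat_lit 299))))) (XT.nd (nat_lit 234) (nat_lit 0) (nat_lit 0) (XT.nd (nat_lit 78) (nat_lit 0) (nat_lit 0) (XT.lf (nat_lit 0) (nat_lit 388762432271) (nat_lit 152) (nat_lit 3011341546508) (nat_lit 0) (nat_lit 385850571109) (nat_lit 1) (nat_lit 5) (nat_lit 3) (nat_lit 4) (nat_lit 1) (nat_lit 4) (nat_lit 514) (nat_lit 388) (nat_lit 298)) (XT.nd (nat_lit 78) (nat_lit 0) (nat_lit 0) (XT.lf (nat_lit 0) (nat_lit 432948092101) (nat_lit 152) (nat_lit 3224781262142) (nat_lit 0) (nat_lit 430036019041) (nat_lit 1) (nat_lit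 5) (nat_lit 3) (nat_lit 4) (nat_lit 1) (nat_lit 4) (nat_lit 515) (nat_lit 388) (nat_lit 297)) (XT.lf (nat_lit 0) (nat_lit 480666743566) (nat_lit 152) (nat_lit 3455299993589) (nat_lit 0) (nat_lit 477754474305) (nat_lit 1) (nat_lit 5) (nat_lit 3) (nat_lit 4) (nat_lit 1) (nat_lit 4) (nat_lit 516) (nat_lit 388) (nat_lit 296)))) (XT.nd (nat_lit 78) (nat_lit 0) (nat_lit 0) (XT.lf (nat_lit 0) (nat_lit 532201163861) (nat_lit 152) (nat_lit 3704263777776) (nat_lit 0) (nat_lit 529288712932) (nat_lit 1) (nat_lit 5) (nat_lit 3) (nat_lit 4) (nat_lit 1) (nat_lit 4) (nat_lit 517) (nat_lit 388) (nat_lit 295)) (XT.nd (nat_lit 78) (nat_lit 0) (nat_lit 0) (XT.lf (nat_lit 0) (nat_lit 587856742142) (nat_lit 152) (nat_lit 3973147955645) (nat_lit 0) (nat_lit 584944123002) (nat_lit 1) (nat_lit 5) (nat_lit 3) (nat_lit 4) (nat_lit 1) (nat_lit 4) (nat_lit 518) (nat_lit 388) (nat_lit 294)) (XT.lf (nat_lit 0) (nat_lit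 647963289244) (nat_lit 152) (nat_lit 4263545914919) (nat_lit 0) (nat_lit 645050514353) (nat_lit 1) (nat_lit 5) (nat_lit 3) (nat_lit 4) (nat_lit 1) (nat_lit 4) (nat_lit 519) (nat_lit 388) (nat_lit 293))))))))
noncomputable def xc64 : XT := (XT.nd (nat_lit 55770) (nat_lit 0) (nat_lit 684) (XT.nd (nat_lit 54834) (nat_lit 0) (nat_lit 2204) (XT.nd (nat_lit 390) (nat_lit 0) (nat_lit 0) (XT.nd (nat_lit 156) (nat_lit 0) (nat_lit 0) (XT.nd (nat_lit 78) (nat_lit 0) (nat_lit 0) (XT.lf (nat_lit 0) (nat_lit 712876992113) (nat_lit 152) (nat_lit 4577178532392) (nat_lit 0) (nat_lit 709964073009) (nat_lit 1) (nat_lit 5) (nat_lit 3) (nat_lit 4) (nat_lit 1) (nat_lit 4) (nat_lit 520) (nat_lit 388) (nat_lit 292)) (XT.lf (nat_lit 0) (nat_lit 782982524543) (nat_lit 152) (nat_lit 4915904371723) (nat_lit 0) (nat_lit 780069471908) (nat_lit 1) (nat_lit 5) (nat_lit 3) (nat_lit 4) (nat_lit 1) (nat_lit 4) (nat_lit 521)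 (nat_lit 388) (nat_lit 291))) (XT.nd (nat_lit 78) (nat_lit 0) (nat_lit 0) (XT.lf (nat_lit 0) (nat_lit 858695326727) (nat_lit 152) (nat_lit 5281730697146) (nat_lit 0) (nat_lit 855782150451) (nat_lit 1) (nat_lit 5) (nat_lit 3) (nat_lit 4) (nat_lit 1) (nat_lit 4) (nat_lit 522) (nat_lit 388) (nat_lit 290)) (XT.nd (nat_lit 78) (nat_lit 0) (nat_lit 0) (XT.lf (nat_lit 0) (nat_lit 940464067122) (nat_lit 152) (nat_lit 5676825368367) (nat_lit 0) (nat_lit 937550776365) (nat_lit 1) (nat_lit 5) (nat_lit 3) (nat_lit 4) (nat_lit 1) (nat_lit 4) (nat_lit 523) (nat_lit 388) (nat_lit 289)) (XT.lf (nat_lit 0) (nat_lit 1028773301226) (nat_lit 152) (nat_lit 6103529687141) (nat_lit 0) (nat_lit 1025859904468) (nat_lit 1) (nat_lit 5) (nat_lit 3) (nat_lit 4) (nat_lit 1) (nat_lit 4) (nat_lit 524) (nat_lit 388) (nat_lit 288))))) (XT.nd (nat_lit 234) (nat_lit 0) (nat_lit 0) (XT.nd (nat_lit 78) (nat_lit 0) (nat_lit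 0) (XT.lf (nat_lit 0) (nat_lit 1124146343020) (nat_lit 152) (nat_lit 6564372271653) (nat_lit 0) (nat_lit 1121232848113) (nat_lit 1) (nat_lit 5) (nat_lit 3) (nat_lit 4) (nat_lit 1) (nat_lit 4) (nat_lit 525) (nat_lit 388) (nat_lit 287)) (XT.nd (nat_lit 78) (nat_lit 0) (nat_lit 0) (XT.lf (nat_lit 0) (nat_lit 1227148366085) (nat_lit 152) (nat_lit 7062084040924) (nat_lit 0) (nat_lit 1224234780298) (nat_lit 1) (nat_lit 5) (nat_lit 3) (nat_lit 4) (nat_lit 1) (nat_lit 4) (nat_lit 526) (nat_lit 388) (nat_lit 286)) (XT.lf (nat_lit 0) (nat_lit 1338389752779) (nat_lit 152) (nat_lit 7599614398029) (nat_lit 0) (nat_lit 1335476082845) (nat_lit 1) (nat_lit 5) (nat_lit 3) (nat_lit 4) (nat_lit 1) (nat_lit 4) (nat_lit 527) (nat_lit 388) (nat_lit 285)))) (XT.nd (nat_lit 78) (nat_lit 0) (nat_lit 0) (XT.lf (nat_lit 0) (nat_lit 1458529711320) (nat_lit 152) (nat_lit 8180148708048) (nat_lit 0) (nat_lit 1455615963472)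 (nat_lit 1) (nat_lit 5) (nat_lit 3) (nat_lit 4) (nat_lit 1) (nat_lit 4) (nat_lit 528) (nat_lit 388) (nat_lit 284)) (XT.nd (nat_lit 78) (nat_lit 0) (nat_lit 0) (XT.lf (nat_lit 0) (nat_lit 1588280182203) (nat_lit 152) (nat_lit 8807127174301) (nat_lit 0) (nat_lit 1585366362212) (nat_lit 1) (nat_lit 5) (nat_lit 3) (nat_lit 4) (nat_lit 1) (nat_lit 4) (nat_lit 529) (nat_lit 388) (nat_lit 283)) (XT.lf (nat_lit 0) (nat_lit 1728410057107) (nat_lit 152) (nat_lit 9484265224734) (nat_lit 0) (nat_lit 1725496170317) (nat_lit 1) (nat_lit 5) (nat_lit 3) (nat_lit 4) (nat_lit 1) (nat_lit 4) (nat_lit 530) (nat_lit 388) (nat_lit 282)))))) (XT.nd (nat_lit 468) (nat_lit 608) (nat_lit 0) (XT.nd (nat_lit 234) (nat_lit 304) (nat_lit 0) (XT.nd (nat_lit 78) (nat_lit 304) (nat_lit 0) (XT.lf (nat_lit 0) (nat_lit 841474540) (nat_lit 152) (nat_lit 3340540368) (nat_lit 0) (nat_lit 841474540) (nat_lit 46) (nat_lit 5) (nat_lit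 48) (nat_lit 4) (nat_lit 46) (nat_lit 4) (nat_lit 422) (nat_lit 389) (nat_lit 389)) (XT.nd (nat_lit 78) (nat_lit 152) (nat_lit 0) (XT.lf (nat_lit 0) (nat_lit 2256235325) (nat_lit 152) (nat_lit 4415420876) (nat_lit 152) (nat_lit 3730532699) (nat_lit 44) (nat_lit 4) (nat_lit 46) (nat_lit 5) (nat_lit 46) (nat_lit 4) (nat_lit 423) (nat_lit 389) (nat_lit 388)) (XT.lf (nat_lit 0) (nat_lit 1038240393) (nat_lit 76) (nat_lit 95069361) (nat_lit 152) (nat_lit 9656232509) (nat_lit 42) (nat_lit 5) (nat_lit 43) (nat_lit 5) (nat_lit 44) (nat_lit 4) (nat_lit 424) (nat_lit 389) (nat_lit 387)))) (XT.nd (nat_lit 78) (nat_lit 304) (nat_lit 0) (XT.lf (nat_lit 0) (nat_lit 6239033380) (nat_lit 152) (nat_lit 482786903) (nat_lit 0) (nat_lit 4474010122) (nat_lit 42) (nat_lit 5) (nat_lit 44) (nat_lit 4) (nat_lit 42) (nat_lit 4) (nat_lit 425) (nat_lit 389) (nat_lit 386)) (XT.nd (nat_lit 78) (nat_lit 76) (nat_lit 0)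 (XT.lf (nat_lit 0) (nat_lit 80605357) (nat_lit 228) (nat_lit 2100777370) (nat_lit 76) (nat_lit 9455612699) (nat_lit 39) (nat_lit 5) (nat_lit 42) (nat_lit 5) (nat_lit 40) (nat_lit 4) (nat_lit 426) (nat_lit 389) (nat_lit 385)) (XT.lf (nat_lit 0) (nat_lit 5269308539) (nat_lit 152) (nat_lit 4095283073) (nat_lit 0) (nat_lit 2737308632) (nat_lit 38) (nat_lit 5) (nat_lit 40) (nat_lit 4) (nat_lit 38) (nat_lit 4) (nat_lit 427) (nat_lit 389) (nat_lit 384))))) (XT.nd (nat_lit 234) (nat_lit 228) (nat_lit 0) (XT.nd (nat_lit 78) (nat_lit 228) (nat_lit 0) (XT.lf (nat_lit 0) (nat_lit 6226872592) (nat_lit 152) (nat_lit 4654077633) (nat_lit 152) (nat_lit 1722452053) (nat_lit 36) (nat_lit 4) (nat_lit 38) (nat_lit 5) (nat_lit 38) (nat_lit 4) (nat_lit 428) (nat_lit 389) (nat_lit 383)) (XT.nd (nat_lit 78) (nat_lit 76) (nat_lit 0) (XT.lf (nat_lit 0) (nat_lit 3577609432) (nat_lit 152) (nat_lit 9041929332) (nat_lit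 0) (nat_lit 520526699) (nat_lit 34) (nat_lit 5) (nat_lit 36) (nat_lit 4) (nat_lit 34) (nat_lit 4) (nat_lit 429) (nat_lit 389) (nat_lit 382)) (XT.lf (nat_lit 0) (nat_lit 1498878740) (nat_lit 76) (nat_lit 7792464945) (nat_lit 76) (nat_lit 4418146467) (nat_lit 33) (nat_lit 4) (nat_lit 34) (nat_lit 5) (nat_lit 34) (nat_lit 4) (nat_lit 430) (nat_lit 389) (nat_lit 381)))) (XT.nd (nat_lit 78) (nat_lit 152) (nat_lit 0) (XT.lf (nat_lit 0) (nat_lit 1082603001) (nat_lit 152) (nat_lit 1416241032) (nat_lit 76) (nat_lit 11823313119) (nat_lit 32) (nat_lit 5) (nat_lit 34) (nat_lit 5) (nat_lit 33) (nat_lit 4) (nat_lit 431) (nat_lit 389) (nat_lit 380)) (XT.nd (nat_lit 78) (nat_lit 76) (nat_lit 0) (XT.lf (nat_lit 0) (nat_lit 6878562899) (nat_lit 152) (nat_lit 4858223276) (nat_lit 0) (nat_lit 3230383459) (nat_lit 31) (nat_lit 5) (nat_lit 33) (nat_lit 4) (nat_lit 31) (nat_lit 4) (nat_lit 432) (nat_lit 389)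 (nat_lit 379)) (XT.lf (nat_lit 0) (nat_lit 6808825536) (nat_lit 76) (nat_lit 6366674750) (nat_lit 76) (nat_lit 2485317568) (nat_lit 30) (nat_lit 4) (nat_lit 31) (nat_lit 5) (nat_lit 31) (nat_lit 4) (nat_lit 433) (nat_lit 389) (nat_lit 378))))))) (XT.nd (nat_lit 858) (nat_lit 684) (nat_lit 0) (XT.nd (nat_lit 390) (nat_lit 456) (nat_lit 0) (XT.nd (nat_lit 156) (nat_lit 228) (nat_lit 0) (XT.nd (nat_lit 78) (nat_lit 0) (nat_lit 0) (XT.lf (nat_lit 0) (nat_lit 2899184427) (nat_lit 76) (nat_lit 464491979) (nat_lit 152) (nat_lit 13041369060) (nat_lit 28) (nat_lit 5) (nat_lit 29) (nat_lit 5) (nat_lit 30) (nat_lit 4) (nat_lit 434) (nat_lit 389) (nat_lit 377)) (XT.lf (nat_lit 0) (nat_lit 9708261398) (nat_lit 152) (nat_lit 1753049239) (nat_lit 0) (nat_lit 5729395816) (nat_lit 28) (nat_lit 5) (nat_lit 30) (nat_lit 4) (nat_lit 28) (nat_lit 4) (nat_lit 435) (nat_lit 389) (nat_lit 376))) (XT.nd (nat_lit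 78) (nat_lit 152) (nat_lit 0) (XT.lf (nat_lit 0) (nat_lit 11070117417) (nat_lit 76) (nat_lit 5557018539) (nat_lit 76) (nat_lit 1406760355) (nat_lit 27) (nat_lit 4) (nat_lit 28) (nat_lit 5) (nat_lit 28) (nat_lit 4) (nat_lit 436) (nat_lit 389) (nat_lit 375)) (XT.nd (nat_lit 78) (nat_lit 0) (nat_lit 0) (XT.lf (nat_lit 0) (nat_lit 4898656318) (nat_lit 152) (nat_lit 13126971548) (nat_lit 0) (nat_lit 908883136) (nat_lit 25) (nat_lit 5) (nat_lit 27) (nat_lit 4) (nat_lit 25) (nat_lit 4) (nat_lit 437) (nat_lit 389) (nat_lit 374)) (XT.lf (nat_lit 0) (nat_lit 11762508446) (nat_lit 152) (nat_lit 494675662) (nat_lit 0) (nat_lit 7636678290) (nat_lit 25) (nat_lit 5) (nat_lit 27) (nat_lit 4) (nat_lit 25) (nat_lit 4) (nat_lit 438) (nat_lit 389) (nat_lit 373))))) (XT.nd (nat_lit 234) (nat_lit 228) (nat_lit 0) (XT.nd (nat_lit 78) (nat_lit 152) (nat_lit 0) (XT.lf (nat_lit 0) (nat_lit 13437523983) (nat_lit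 76) (nat_lit 5866967543) (nat_lit 76) (nat_lit 1615158709) (nat_lit 24) (nat_lit 4) (nat_lit 25) (nat_lit 5) (nat_lit 25) (nat_lit 4) (nat_lit 439) (nat_lit 389) (nat_lit 372)) (XT.nd (nat_lit 78) (nat_lit 0) (nat_lit 0) (XT.lf (nat_lit 0) (nat_lit 5150483435) (nat_lit 152) (nat_lit 15761024939) (nat_lit 0) (nat_lit 1105616991) (nat_lit 22) (nat_lit 5) (nat_lit 24) (nat_lit 4) (nat_lit 22) (nat_lit 4) (nat_lit 440) (nat_lit 389) (nat_lit 371)) (XT.lf (nat_lit 0) (nat_lit 12539637449) (nat_lit 152) (nat_lit 2251086190) (nat_lit 0) (nat_lit 8394765069) (nat_lit 22) (nat_lit 5) (nat_lit 24) (nat_lit 4) (nat_lit 22) (nat_lit 4) (nat_lit 441) (nat_lit 389) (nat_lit 370)))) (XT.nd (nat_lit 78) (nat_lit 152) (nat_lit 0) (XT.lf (nat_lit 0) (nat_lit 12614861259) (nat_lit 76) (nat_lit 8029972498) (nat_lit 76) (nat_lit 3792502029) (nat_lit 21) (nat_lit 4) (nat_lit 22) (nat_lit 5) (nat_lit 22) (nat_lit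 4) (nat_lit 442) (nat_lit 389) (nat_lit 369)) (XT.nd (nat_lit 78) (nat_lit 0) (nat_lit 0) (XT.lf (nat_lit 0) (nat_lit 2704374862) (nat_lit 76) (nat_lit 674271437) (nat_lit 152) (nat_lit 22407740886) (nat_lit 19) (nat_lit 5) (nat_lit 20) (nat_lit 5) (nat_lit 21) (nat_lit 4) (nat_lit 443) (nat_lit 389) (nat_lit 368)) (XT.lf (nat_lit 0) (nat_lit 11247624154) (nat_lit 152) (nat_lit 8790396342) (nat_lit 0) (nat_lit 7171145100) (nat_lit 19) (nat_lit 5) (nat_lit 21) (nat_lit 4) (nat_lit 19) (nat_lit 4) (nat_lit 444) (nat_lit 389) (nat_lit 367)))))) (XT.nd (nat_lit 468) (nat_lit 380) (nat_lit 0) (XT.nd (nat_lit 234) (nat_lit 76) (nat_lit 0) (XT.nd (nat_lit 78) (nat_lit 152) (nat_lit 0) (XT.lf (nat_lit 0) (nat_lit 6628161432) (nat_lit 76) (nat_lit 13130571371) (nat_lit 76) (nat_lit 8986029957) (nat_lit 18) (nat_lit 4) (nat_lit 19) (nat_lit 5) (nat_lit 19) (nat_lit 4) (nat_lit 445) (nat_lit 389)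 (nat_lit 366)) (XT.nd (nat_lit 78) (nat_lit 152) (nat_lit 0) (XT.lf (nat_lit 0) (nat_lit 23458045643) (nat_lit 76) (nat_lit 5573146159) (nat_lit 76) (nat_lit 1365584041) (nat_lit 18) (nat_lit 4) (nat_lit 19) (nat_lit 5) (nat_lit 19) (nat_lit 4) (nat_lit 446) (nat_lit 389) (nat_lit 365)) (XT.lf (nat_lit 0) (nat_lit 6665356863) (nat_lit 152) (nat_lit 22775414298) (nat_lit 0) (nat_lit 2715435917) (nat_lit 16) (nat_lit 5) (nat_lit 18) (nat_lit 4) (nat_lit 16) (nat_lit 4) (nat_lit 447) (nat_lit 389) (nat_lit 364)))) (XT.nd (nat_lit 78) (nat_lit 76) (nat_lit 0) (XT.lf (nat_lit 0) (nat_lit 15452957909) (nat_lit 152) (nat_lit 7132555310) (nat_lit 0) (nat_lit 11453009097) (nat_lit 16) (nat_lit 5) (nat_lit 18) (nat_lit 4) (nat_lit 16) (nat_lit 4) (nat_lit 448) (nat_lit 389) (nat_lit 363)) (XT.nd (nat_lit 78) (nat_lit 0) (nat_lit 0) (XT.lf (nat_lit 0) (nat_lit 9976857113) (nat_lit 76) (nat_lit 15066431298)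 (nat_lit 76) (nat_lit 11020160387) (nat_lit 15) (nat_lit 4) (nat_lit 16) (nat_lit 5) (nat_lit 16) (nat_lit 4) (nat_lit 449) (nat_lit 389) (nat_lit 362)) (XT.lf (nat_lit 0) (nat_lit 28583888002) (nat_lit 76) (nat_lit 6875482300) (nat_lit 76) (nat_lit 2786320557) (nat_lit 15) (nat_lit 4) (nat_lit 16) (nat_lit 5) (nat_lit 16) (nat_lit 4) (nat_lit 450) (nat_lit 389) (nat_lit 361))))) (XT.nd (nat_lit 234) (nat_lit 152) (nat_lit 0) (XT.nd (nat_lit 78) (nat_lit 76) (nat_lit 0) (XT.lf (nat_lit 0) (nat_lit 5918246391) (nat_lit 152) (nat_lit 32567908675) (nat_lit 0) (nat_lit 2095213543) (nat_lit 13) (nat_lit 5) (nat_lit 15) (nat_lit 4) (nat_lit 13) (nat_lit 4) (nat_lit 451) (nat_lit 389) (nat_lit 360)) (XT.nd (nat_lit 78) (nat_lit 76) (nat_lit 0) (XT.lf (nat_lit 0) (nat_lit 15488900528) (nat_lit 152) (nat_lit 15951773042) (nat_lit 0) (nat_lit 11631819554) (nat_lit 13) (nat_lit 5) (nat_lit 15) (nat_lit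 4) (nat_lit 13) (nat_lit 4) (nat_lit 452) (nat_lit 389) (nat_lit 359)) (XT.lf (nat_lit 0) (nat_lit 1841896576) (nat_lit 76) (nat_lit 23907829527) (nat_lit 76) (nat_lit 20019222511) (nat_lit 12) (nat_lit 4) (nat_lit 13) (nat_lit 5) (nat_lit 13) (nat_lit 4) (nat_lit 453) (nat_lit 389) (nat_lit 358)))) (XT.nd (nat_lit 78) (nat_lit 152) (nat_lit 0) (XT.lf (nat_lit 0) (nat_lit 21728529822) (nat_lit 76) (nat_lit 15422414376) (nat_lit 76) (nat_lit 11504616580) (nat_lit 12) (nat_lit 4) (nat_lit 13) (nat_lit 5) (nat_lit 13) (nat_lit 4) (nat_lit 454) (nat_lit 389) (nat_lit 357)) (XT.nd (nat_lit 78) (nat_lit 152) (nat_lit 0) (XT.lf (nat_lit 0) (nat_lit 42985981312) (nat_lit 76) (nat_lit 6370293918) (nat_lit 76) (nat_lit 2425467623) (nat_lit 12) (nat_lit 4) (nat_lit 13) (nat_lit 5) (nat_lit 13) (nat_lit 4) (nat_lit 455) (nat_lit 389) (nat_lit 356)) (XT.lf (nat_lit 0) (nat_lit 7262322425) (nat_lit 152)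 (nat_lit 44274847889) (nat_lit 0) (nat_lit 3586532903) (nat_lit 10) (nat_lit 5) (nat_lit 12) (nat_lit 4) (nat_lit 10) (nat_lit 4) (nat_lit 456) (nat_lit 389) (nat_lit 355))))))))
noncomputable def xc65 : XT := (XT.nd (nat_lit 1794) (nat_lit 228) (nat_lit 0) (XT.nd (nat_lit 858) (nat_lit 152) (nat_lit 0) (XT.nd (nat_lit 390) (nat_lit 228) (nat_lit 0) (XT.nd (nat_lit 156) (nat_lit 76) (nat_lit 0) (XT.nd (nat_lit 78) (nat_lit 0) (nat_lit 0) (XT.lf (nat_lit 0) (nat_lit 17903906137) (nat_lit 152) (nat_lit 26592630850) (nat_lit 0) (nat_lit 14206660521) (nat_lit 10) (nat_lit 5) (nat_lit 12) (nat_lit 4) (nat_lit 10) (nat_lit 4) (nat_lit 457) (nat_lit 389) (nat_lit 354)) (XT.lf (nat_lit 0) (nat_lit 29302009404) (nat_lit 152) (nat_lit 7689731080) (nat_lit 0) (nat_lit 25584897033) (nat_lit 10) (nat_lit 5) (nat_lit 12) (nat_lit 4) (nat_lit 10) (nat_lit 4) (nat_lit 458) (nat_lit 389) (nat_lit 353)))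 (XT.nd (nat_lit 78) (nat_lit 0) (nat_lit 0) (XT.lf (nat_lit 0) (nat_lit 13206511813) (nat_lit 76) (nat_lit 28635281653) (nat_lit 76) (nat_lit 24899774139) (nat_lit 9) (nat_lit 4) (nat_lit 10) (nat_lit 5) (nat_lit 10) (nat_lit 4) (nat_lit 459) (nat_lit 389) (nat_lit 352)) (XT.nd (nat_lit 78) (nat_lit 0) (nat_lit 0) (XT.lf (nat_lit 0) (nat_lit 36036789008) (nat_lit 76) (nat_lit 19472731836) (nat_lit 76) (nat_lit 15720191783) (nat_lit 9) (nat_lit 4) (nat_lit 10) (nat_lit 5) (nat_lit 10) (nat_lit 4) (nat_lit 460) (nat_lit 389) (nat_lit 351)) (XT.lf (nat_lit 0) (nat_lit 60531463424) (nat_lit 76) (nat_lit 9660045316) (nat_lit 76) (nat_lit 5891734393) (nat_lit 9) (nat_lit 4) (nat_lit 10) (nat_lit 5) (nat_lit 10) (nat_lit 4) (nat_lit 461) (nat_lit 389) (nat_lit 350))))) (XT.nd (nat_lit 234) (nat_lit 76) (nat_lit 0) (XT.nd (nat_lit 78) (nat_lit 0) (nat_lit 0) (XT.lf (nat_lit 0) (nat_lit 4575223320)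 (nat_lit 152) (nat_lit 75661142247) (nat_lit 0) (nat_lit 1072525560) (nat_lit 7) (nat_lit 5) (nat_lit 9) (nat_lit 4) (nat_lit 7) (nat_lit 4) (nat_lit 462) (nat_lit 389) (nat_lit 349)) (XT.nd (nat_lit 78) (nat_lit 0) (nat_lit 0) (XT.lf (nat_lit 0) (nat_lit 16173312493) (nat_lit 152) (nat_lit 58059975079) (nat_lit 0) (nat_lit 12658095309) (nat_lit 7) (nat_lit 5) (nat_lit 9) (nat_lit 4) (nat_lit 7) (nat_lit 4) (nat_lit 463) (nat_lit 389) (nat_lit 348)) (XT.lf (nat_lit 0) (nat_lit 28629724307) (nat_lit 152) (nat_lit 39193397501) (nat_lit 0) (nat_lit 25102915062) (nat_lit 7) (nat_lit 5) (nat_lit 9) (nat_lit 4) (nat_lit 7) (nat_lit 4) (nat_lit 464) (nat_lit 389) (nat_lit 347)))) (XT.nd (nat_lit 78) (nat_lit 76) (nat_lit 0) (XT.lf (nat_lit 0) (nat_lit 42018274535) (nat_lit 152) (nat_lit 18949607570) (nat_lit 0) (nat_lit 38480731901) (nat_lit 7) (nat_lit 5) (nat_lit 9) (nat_lit 4) (nat_lit 7) (nat_lit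 4) (nat_lit 465) (nat_lit 389) (nat_lit 346)) (XT.nd (nat_lit 78) (nat_lit 0) (nat_lit 0) (XT.lf (nat_lit 0) (nat_lit 2938345873) (nat_lit 76) (nat_lit 53550624149) (nat_lit 76) (nat_lit 50003143192) (nat_lit 6) (nat_lit 4) (nat_lit 7) (nat_lit 5) (nat_lit 7) (nat_lit 4) (nat_lit 466) (nat_lit 389) (nat_lit 345)) (XT.lf (nat_lit 0) (nat_lit 27535785825) (nat_lit 76) (nat_lit 45041592889) (nat_lit 76) (nat_lit 41484909781) (nat_lit 6) (nat_lit 4) (nat_lit 7) (nat_lit 5) (nat_lit 7) (nat_lit 4) (nat_lit 467) (nat_lit 389) (nat_lit 344)))))) (XT.nd (nat_lit 468) (nat_lit 0) (nat_lit 0) (XT.nd (nat_lit 234) (nat_lit 152) (nat_lit 0) (XT.nd (nat_lit 78) (nat_lit 0) (nat_lit 0) (XT.lf (nat_lit 0) (nat_lit 53990622140) (nat_lit 76) (nat_lit 35908480289) (nat_lit 76) (nat_lit 32343276670) (nat_lit 6) (nat_lit 4) (nat_lit 7) (nat_lit 5) (nat_lit 7) (nat_lit 4) (nat_lit 468) (nat_lit 389) (nat_lit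 343)) (XT.nd (nat_lit 78) (nat_lit 0) (nat_lit 0) (XT.lf (nat_lit 0) (nat_lit 82459624218) (nat_lit 76) (nat_lit 26097164200) (nat_lit 76) (nat_lit 22524071220) (nat_lit 6) (nat_lit 4) (nat_lit 7) (nat_lit 5) (nat_lit 7) (nat_lit 4) (nat_lit 469) (nat_lit 389) (nat_lit 342)) (XT.lf (nat_lit 0) (nat_lit 113111497256) (nat_lit 76) (nat_lit 15549503489) (nat_lit 76) (nat_lit 11969105545) (nat_lit 6) (nat_lit 4) (nat_lit 7) (nat_lit 5) (nat_lit 7) (nat_lit 4) (nat_lit 470) (nat_lit 389) (nat_lit 341)))) (XT.nd (nat_lit 78) (nat_lit 152) (nat_lit 0) (XT.lf (nat_lit 0) (nat_lit 146127881985) (nat_lit 76) (nat_lit 4202993501) (nat_lit 76) (nat_lit 615831701) (nat_lit 6) (nat_lit 4) (nat_lit 7) (nat_lit 5) (nat_lit 7) (nat_lit 4) (nat_lit 471) (nat_lit 389) (nat_lit 340)) (XT.nd (nat_lit 78) (nat_lit 0) (nat_lit 0) (XT.lf (nat_lit 0) (nat_lit 11724648693) (nat_lit 152) (nat_lit 141891257113) (nat_lit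 0) (nat_lit 8397403666) (nat_lit 4) (nat_lit 5) (nat_lit 6) (nat_lit 4) (nat_lit 4) (nat_lit 4) (nat_lit 472) (nat_lit 389) (nat_lit 339)) (XT.lf (nat_lit 0) (nat_lit 25222950680) (nat_lit 152) (nat_lit 126834365429) (nat_lit 0) (nat_lit 21890336286) (nat_lit 4) (nat_lit 5) (nat_lit 6) (nat_lit 4) (nat_lit 4) (nat_lit 4) (nat_lit 473) (nat_lit 389) (nat_lit 338))))) (XT.nd (nat_lit 234) (nat_lit 0) (nat_lit 0) (XT.nd (nat_lit 78) (nat_lit 0) (nat_lit 0) (XT.lf (nat_lit 0) (nat_lit 39763624208) (nat_lit 152) (nat_lit 110650080178) (nat_lit 0) (nat_lit 36426038178) (nat_lit 4) (nat_lit 5) (nat_lit 6) (nat_lit 4) (nat_lit 4) (nat_lit 4) (nat_lit 474) (nat_lit 389) (nat_lit 337)) (XT.nd (nat_lit 78) (nat_lit 0) (nat_lit 0) (XT.lf (nat_lit 0) (nat_lit 55432836230) (nat_lit 152) (nat_lit 93242494484) (nat_lit 0) (nat_lit 52090646834) (nat_lit 4) (nat_lit 5) (nat_lit 6) (nat_lit 4) (nat_lit 4)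 (nat_lit 4) (nat_lit 475) (nat_lit 389) (nat_lit 336)) (XT.lf (nat_lit 0) (nat_lit 72323441337) (nat_lit 152) (nat_lit 74508452284) (nat_lit 0) (nat_lit 68976989563) (nat_lit 4) (nat_lit 5) (nat_lit 6) (nat_lit 4) (nat_lit 4) (nat_lit 4) (nat_lit 476) (nat_lit 389) (nat_lit 335)))) (XT.nd (nat_lit 78) (nat_lit 0) (nat_lit 0) (XT.lf (nat_lit 0) (nat_lit 90535532002) (nat_lit 152) (nat_lit 54336937032) (nat_lit 0) (nat_lit 87185133584) (nat_lit 4) (nat_lit 5) (nat_lit 6) (nat_lit 4) (nat_lit 4) (nat_lit 4) (nat_lit 477) (nat_lit 389) (nat_lit 334)) (XT.nd (nat_lit 78) (nat_lit 0) (nat_lit 0) (XT.lf (nat_lit 0) (nat_lit 110177031726) (nat_lit 152) (nat_lit 32608413822) (nat_lit 0) (nat_lit 106822979007) (nat_lit 4) (nat_lit 5) (nat_lit 6) (nat_lit 4) (nat_lit 4) (nat_lit 4) (nat_lit 478) (nat_lit 389) (nat_lit 333)) (XT.lf (nat_lit 0) (nat_lit 131364334582) (nat_lit 152) (nat_lit 9194121035)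 (nat_lit 0) (nat_lit 128006898252) (nat_lit 4) (nat_lit 5) (nat_lit 6) (nat_lit 4) (nat_lit 4) (nat_lit 4) (nat_lit 479) (nat_lit 389) (nat_lit 332))))))) (XT.nd (nat_lit 936) (nat_lit 152) (nat_lit 0) (XT.nd (nat_lit 468) (nat_lit 0) (nat_lit 0) (XT.nd (nat_lit 234) (nat_lit 0) (nat_lit 0) (XT.nd (nat_lit 78) (nat_lit 0) (nat_lit 0) (XT.lf (nat_lit 0) (nat_lit 16889577776) (nat_lit 76) (nat_lit 137739611933) (nat_lit 76) (nat_lit 134379042628) (nat_lit 3) (nat_lit 4) (nat_lit 4) (nat_lit 5) (nat_lit 4) (nat_lit 4) (nat_lit 480) (nat_lit 389) (nat_lit 331)) (XT.nd (nat_lit 78) (nat_lit 0) (nat_lit 0) (XT.lf (nat_lit 0) (nat_lit 45535458770) (nat_lit 76) (nat_lit 134448141688) (nat_lit 76) (nat_lit 131084671481) (nat_lit 3) (nat_lit 4) (nat_lit 4) (nat_lit 5) (nat_lit 4) (nat_lit 4) (nat_lit 481) (nat_lit 389) (nat_lit 330)) (XT.lf (nat_lit 0) (nat_lit 76429129194) (nat_lit 76) (nat_lit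 130915923436) (nat_lit 76) (nat_lit 127549767209) (nat_lit 3) (nat_lit 4) (nat_lit 4) (nat_lit 5) (nat_lit 4) (nat_lit 4) (nat_lit 482) (nat_lit 389) (nat_lit 329)))) (XT.nd (nat_lit 78) (nat_lit 0) (nat_lit 0) (XT.lf (nat_lit 0) (nat_lit 109753662652) (nat_lit 76) (nat_lit 127122025514) (nat_lit 76) (nat_lit 123753382232) (nat_lit 3) (nat_lit 4) (nat_lit 4) (nat_lit 5) (nat_lit 4) (nat_lit 4) (nat_lit 483) (nat_lit 389) (nat_lit 328)) (XT.nd (nat_lit 78) (nat_lit 0) (nat_lit 0) (XT.lf (nat_lit 0) (nat_lit 145706537860) (nat_lit 76) (nat_lit 123043965565) (nat_lit 76) (nat_lit 119673019453) (nat_lit 3) (nat_lit 4) (nat_lit 4) (nat_lit 5) (nat_lit 4) (nat_lit 4) (nat_lit 484) (nat_lit 389) (nat_lit 327)) (XT.lf (nat_lit 0) (nat_lit 184500808893) (nat_lit 76) (nat_lit 118657577305) (nat_lit 76) (nat_lit 115284498944) (nat_lit 3) (nat_lit 4) (nat_lit 4) (nat_lit 5) (nat_lit 4) (nat_lit 4)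 (nat_lit 485) (nat_lit 389) (nat_lit 326))))) (XT.nd (nat_lit 234) (nat_lit 0) (nat_lit 0) (XT.nd (nat_lit 78) (nat_lit 0) (nat_lit 0) (XT.lf (nat_lit 0) (nat_lit 226366367729) (nat_lit 76) (nat_lit 113936867325) (nat_lit 76) (nat_lit 110561814659) (nat_lit 3) (nat_lit 4) (nat_lit 4) (nat_lit 5) (nat_lit 4) (nat_lit 4) (nat_lit 486) (nat_lit 389) (nat_lit 325)) (XT.nd (nat_lit 78) (nat_lit 0) (nat_lit 0) (XT.lf (nat_lit 0) (nat_lit 271551306566) (nat_lit 76) (nat_lit 108853861045) (nat_lit 76) (nat_lit 105476980319) (nat_lit 3) (nat_lit 4) (nat_lit 4) (nat_lit 5) (nat_lit 4) (nat_lit 4) (nat_lit 487) (nat_lit 389) (nat_lit 324)) (XT.lf (nat_lit 0) (nat_lit 320323388006) (nat_lit 76) (nat_lit 103378436948) (nat_lit 76) (nat_lit 99999863573) (nat_lit 3) (nat_lit 4) (nat_lit 4) (nat_lit 5) (nat_lit 4) (nat_lit 4) (nat_lit 488) (nat_lit 389) (nat_lit 323)))) (XT.nd (nat_lit 78) (nat_lit 0)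 (nat_lit 0) (XT.lf (nat_lit 0) (nat_lit 372971631791) (nat_lit 76) (nat_lit 97478148076) (nat_lit 76) (nat_lit 94098007434) (nat_lit 3) (nat_lit 4) (nat_lit 4) (nat_lit 5) (nat_lit 4) (nat_lit 4) (nat_lit 489) (nat_lit 389) (nat_lit 322)) (XT.nd (nat_lit 78) (nat_lit 0) (nat_lit 0) (XT.lf (nat_lit 0) (nat_lit 429808027514) (nat_lit 76) (nat_lit 91118029754) (nat_lit 76) (nat_lit 87736437939) (nat_lit 3) (nat_lit 4) (nat_lit 4) (nat_lit 5) (nat_lit 4) (nat_lit 4) (nat_lit 490) (nat_lit 389) (nat_lit 321)) (XT.lf (nat_lit 0) (nat_lit 491169383445) (nat_lit 76) (nat_lit 84260392391) (nat_lit 76) (nat_lit 80877456897) (nat_lit 3) (nat_lit 4) (nat_lit 4) (nat_lit 5) (nat_lit 4) (nat_lit 4) (nat_lit 491) (nat_lit 389) (nat_lit 320)))))) (XT.nd (nat_lit 468) (nat_lit 152) (nat_lit 0) (XT.nd (nat_lit 234) (nat_lit 0) (nat_lit 0) (XT.nd (nat_lit 78) (nat_lit 0) (nat_lit 0) (XT.lf (nat_lit 0) (nat_lit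 557419322434) (nat_lit 76) (nat_lit 76864598137) (nat_lit 76) (nat_lit 73480418496) (nat_lit 3) (nat_lit 4) (nat_lit 4) (nat_lit 5) (nat_lit 4) (nat_lit 4) (nat_lit 492) (nat_lit 389) (nat_lit 319)) (XT.nd (nat_lit 78) (nat_lit 0) (nat_lit 0) (XT.lf (nat_lit 0) (nat_lit 628950436713) (nat_lit 76) (nat_lit 68886820064) (nat_lit 76) (nat_lit 65501488435) (nat_lit 3) (nat_lit 4) (nat_lit 4) (nat_lit 5) (nat_lit 4) (nat_lit 4) (nat_lit 493) (nat_lit 389) (nat_lit 318)) (XT.lf (nat_lit 0) (nat_lit 706186614366) (nat_lit 76) (nat_lit 60279782448) (nat_lit 76) (nat_lit 56893384163) (nat_lit 3) (nat_lit 4) (nat_lit 4) (nat_lit 5) (nat_lit 4) (nat_lit 4) (nat_lit 494) (nat_lit 389) (nat_lit 317)))) (XT.nd (nat_lit 78) (nat_lit 0) (nat_lit 0) (XT.lf (nat_lit 0) (nat_lit 789585551261) (nat_lit 76) (nat_lit 50992480623) (nat_lit 76) (nat_lit 47605094694) (nat_lit 3) (nat_lit 4) (nat_lit 4) (nat_lit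 5) (nat_lit 4) (nat_lit 4) (nat_lit 495) (nat_lit 389) (nat_lit 316)) (XT.nd (nat_lit 78) (nat_lit 0) (nat_lit 0) (XT.lf (nat_lit 0) (nat_lit 879641463320) (nat_lit 76) (nat_lit 40969878726) (nat_lit 76) (nat_lit 37581578312) (nat_lit 3) (nat_lit 4) (nat_lit 4) (nat_lit 5) (nat_lit 4) (nat_lit 4) (nat_lit 496) (nat_lit 389) (nat_lit 315)) (XT.lf (nat_lit 0) (nat_lit 976888015206) (nat_lit 76) (nat_lit 30152583560) (nat_lit 76) (nat_lit 26763436401) (nat_lit 3) (nat_lit 4) (nat_lit 4) (nat_lit 5) (nat_lit 4) (nat_lit 4) (nat_lit 497) (nat_lit 389) (nat_lit 314))))) (XT.nd (nat_lit 234) (nat_lit 0) (nat_lit 0) (XT.nd (nat_lit 78) (nat_lit 152) (nat_lit 0) (XT.lf (nat_lit 0) (nat_lit 1081901482784) (nat_lit 76) (nat_lit 18476492637) (nat_lit 76) (nat_lit 15086561453) (nat_lit 3) (nat_lit 4) (nat_lit 4) (nat_lit 5) (nat_lit 4) (nat_lit 4) (nat_lit 498) (nat_lit 389) (nat_lit 313)) (XT.nd (nat_lit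 78) (nat_lit 152) (nat_lit 0) (XT.lf (nat_lit 0) (nat_lit 1195304168083) (nat_lit 76) (nat_lit 5872414305) (nat_lit 76) (nat_lit 2481757174) (nat_lit 3) (nat_lit 4) (nat_lit 4) (nat_lit 5) (nat_lit 4) (nat_lit 4) (nat_lit 499) (nat_lit 389) (nat_lit 312)) (XT.lf (nat_lit 0) (nat_lit 11245002030) (nat_lit 152) (nat_lit 1279482712497) (nat_lit 0) (nat_lit 8104882303) (nat_lit 1) (nat_lit 5) (nat_lit 3) (nat_lit 4) (nat_lit 1) (nat_lit 4) (nat_lit 500) (nat_lit 389) (nat_lit 311)))) (XT.nd (nat_lit 78) (nat_lit 0) (nat_lit 0) (XT.lf (nat_lit 0) (nat_lit 26317237087) (nat_lit 152) (nat_lit 1352091346503) (nat_lit 0) (nat_lit 23176541080) (nat_lit 1) (nat_lit 5) (nat_lit 3) (nat_lit 4) (nat_lit 1) (nat_lit 4) (nat_lit 501) (nat_lit 389) (nat_lit 310)) (XT.nd (nat_lit 78) (nat_lit 0) (nat_lit 0) (XT.lf (nat_lit 0) (nat_lit 42590189319) (nat_lit 152) (nat_lit 1430519110673) (nat_lit 0) (nat_lit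 39448959718) (nat_lit 1) (nat_lit 5) (nat_lit 3) (nat_lit 4) (nat_lit 1) (nat_lit 4) (nat_lit 502) (nat_lit 389) (nat_lit 309)) (XT.lf (nat_lit 0) (nat_lit 60160291035) (nat_lit 152) (nat_lit 1515230762129) (nat_lit 0) (nat_lit 57018567366) (nat_lit 1) (nat_lit 5) (nat_lit 3) (nat_lit 4) (nat_lit 1) (nat_lit 4) (nat_lit 503) (nat_lit 389) (nat_lit 308))))))))
noncomputable def xc66 : XT := (XT.nd (nat_lit 1794) (nat_lit 0) (nat_lit 0) (XT.nd (nat_lit 858) (nat_lit 0) (nat_lit 0) (XT.nd (nat_lit 390) (nat_lit 0) (nat_lit 0) (XT.nd (nat_lit 156) (nat_lit 0) (nat_lit 0) (XT.nd (nat_lit 78) (nat_lit 0) (nat_lit 0) (XT.lf (nat_lit 0) (nat_lit 79131661356) (nat_lit 152) (nat_lit 1606728295842) (nat_lit 0) (nat_lit 75989480217) (nat_lit 1) (nat_lit 5) (nat_lit 3) (nat_lit 4) (nat_lit 1) (nat_lit 4) (nat_lit 504) (nat_lit 389) (nat_lit 307)) (XT.lf (nat_lit 0) (nat_lit 99616723218) (nat_lit 152)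 (nat_lit 1705553919418) (nat_lit 0) (nat_lit 96474118495) (nat_lit 1) (nat_lit 5) (nat_lit 3) (nat_lit 4) (nat_lit 1) (nat_lit 4) (nat_lit 505) (nat_lit 389) (nat_lit 306))) (XT.nd (nat_lit 78) (nat_lit 0) (nat_lit 0) (XT.lf (nat_lit 0) (nat_lit 121736869579) (nat_lit 152) (nat_lit 1812293266184) (nat_lit 0) (nat_lit 118593872649) (nat_lit 1) (nat_lit 5) (nat_lit 3) (nat_lit 4) (nat_lit 1) (nat_lit 4) (nat_lit 506) (nat_lit 389) (nat_lit 305)) (XT.nd (nat_lit 78) (nat_lit 0) (nat_lit 0) (XT.lf (nat_lit 0) (nat_lit 145623182788) (nat_lit 152) (nat_lit 1927578865602) (nat_lit 0) (nat_lit 142479822704) (nat_lit 1) (nat_lit 5) (nat_lit 3) (nat_lit 4) (nat_lit 1) (nat_lit 4) (nat_lit 507) (nat_lit 389) (nat_lit 304)) (XT.lf (nat_lit 0) (nat_lit 171417211369) (nat_lit 152) (nat_lit 2052093891593) (nat_lit 0) (nat_lit 168273515030) (nat_lit 1) (nat_lit 5) (nat_lit 3) (nat_lit 4) (nat_lit 1) (nat_lit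 4) (nat_lit 508) (nat_lit 389) (nat_lit 303))))) (XT.nd (nat_lit 234) (nat_lit 0) (nat_lit 0) (XT.nd (nat_lit 78) (nat_lit 0) (nat_lit 0) (XT.lf (nat_lit 0) (nat_lit 199271808823) (nat_lit 152) (nat_lit 2186576210978) (nat_lit 0) (nat_lit 196127801138) (nat_lit 1) (nat_lit 5) (nat_lit 3) (nat_lit 4) (nat_lit 1) (nat_lit 4) (nat_lit 509) (nat_lit 389) (nat_lit 302)) (XT.nd (nat_lit 78) (nat_lit 0) (nat_lit 0) (XT.lf (nat_lit 0) (nat_lit 229352039433) (nat_lit 152) (nat_lit 2331822756021) (nat_lit 0) (nat_lit 226207743464) (nat_lit 1) (nat_lit 5) (nat_lit 3) (nat_lit 4) (nat_lit 1) (nat_lit 4) (nat_lit 510) (nat_lit 389) (nat_lit 301)) (XT.lf (nat_lit 0) (nat_lit 261836156416) (nat_lit 152) (nat_lit 2488694246989) (nat_lit 0) (nat_lit 258691593517) (nat_lit 1) (nat_lit 5) (nat_lit 3) (nat_lit 4) (nat_lit 1) (nat_lit 4) (nat_lit 511) (nat_lit 389) (nat_lit 300)))) (XT.nd (nat_lit 78) (nat_lit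 0) (nat_lit 0) (XT.lf (nat_lit 0) (nat_lit 296916658244) (nat_lit 152) (nat_lit 2658120292716) (nat_lit 0) (nat_lit 293771848188) (nat_lit 1) (nat_lit 5) (nat_lit 3) (nat_lit 4) (nat_lit 1) (nat_lit 4) (nat_lit 512) (nat_lit 389) (nat_lit 299)) (XT.nd (nat_lit 78) (nat_lit 0) (nat_lit 0) (XT.lf (nat_lit 0) (nat_lit 334801429371) (nat_lit 152) (nat_lit 2841104899401) (nat_lit 0) (nat_lit 331656390466) (nat_lit 1) (nat_lit 5) (nat_lit 3) (nat_lit 4) (nat_lit 1) (nat_lit 4) (nat_lit 513) (nat_lit 389) (nat_lit 298)) (XT.lf (nat_lit 0) (nat_lit 375714972146) (nat_lit 152) (nat_lit 3038732420266) (nat_lit 0) (nat_lit 372569721344) (nat_lit 1) (nat_lit 5) (nat_lit 3) (nat_lit 4) (nat_lit 1) (nat_lit 4) (nat_lit 514) (nat_lit 389) (nat_lit 297)))))) (XT.nd (nat_lit 468) (nat_lit 0) (nat_lit 0) (XT.nd (nat_lit 234) (nat_lit 0) (nat_lit 0) (XT.nd (nat_lit 78) (nat_lit 0) (nat_lit 0) (XT.lf (nat_lit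 0) (nat_lit 419899737192) (nat_lit 152) (nat_lit 3252173981363) (nat_lit 0) (nat_lit 416754290188) (nat_lit 1) (nat_lit 5) (nat_lit 3) (nat_lit 4) (nat_lit 1) (nat_lit 4) (nat_lit 515) (nat_lit 389) (nat_lit 296)) (XT.nd (nat_lit 78) (nat_lit 0) (nat_lit 0) (XT.lf (nat_lit 0) (nat_lit 467617560153) (nat_lit 152) (nat_lit 3482694421572) (nat_lit 0) (nat_lit 464471931482) (nat_lit 1) (nat_lit 5) (nat_lit 3) (nat_lit 4) (nat_lit 1) (nat_lit 4) (nat_lit 516) (nat_lit 389) (nat_lit 295)) (XT.lf (nat_lit 0) (nat_lit 519151213314) (nat_lit 152) (nat_lit 3731659787945) (nat_lit 0) (nat_lit 516005416433) (nat_lit 1) (nat_lit 5) (nat_lit 3) (nat_lit 4) (nat_lit 1) (nat_lit 4) (nat_lit 517) (nat_lit 389) (nat_lit 294)))) (XT.nd (nat_lit 78) (nat_lit 0) (nat_lit 0) (XT.lf (nat_lit 0) (nat_lit 574806081287) (nat_lit 152) (nat_lit 4000545430802) (nat_lit 0) (nat_lit 571660128654) (nat_lit 1) (nat_lit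 5) (nat_lit 3) (nat_lit 4) (nat_lit 1) (nat_lit 4) (nat_lit 518) (nat_lit 389) (nat_lit 293)) (XT.nd (nat_lit 78) (nat_lit 0) (nat_lit 0) (XT.lf (nat_lit 0) (nat_lit 634911970696) (nat_lit 152) (nat_lit 4290944746546) (nat_lit 0) (nat_lit 631765873850) (nat_lit 1) (nat_lit 5) (nat_lit 3) (nat_lit 4) (nat_lit 1) (nat_lit 4) (nat_lit 519) (nat_lit 389) (nat_lit 292)) (XT.lf (nat_lit 0) (nat_lit 699825064590) (nat_lit 152) (nat_lit 4604578620009) (nat_lit 0) (nat_lit 696678834212) (nat_lit 1) (nat_lit 5) (nat_lit 3) (nat_lit 4) (nat_lit 1) (nat_lit 4) (nat_lit 520) (nat_lit 389) (nat_lit 291))))) (XT.nd (nat_lit 234) (nat_lit 0) (nat_lit 0) (XT.nd (nat_lit 78) (nat_lit 0) (nat_lit 0) (XT.lf (nat_lit 0) (nat_lit 769930033154) (nat_lit 152) (nat_lit 4943305622295) (nat_lit 0) (nat_lit 766783679137) (nat_lit 1) (nat_lit 5) (nat_lit 3) (nat_lit 4) (nat_lit 1) (nat_lit 4) (nat_lit 521) (nat_lit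 389) (nat_lit 290)) (XT.nd (nat_lit 78) (nat_lit 0) (nat_lit 0) (XT.lf (nat_lit 0) (nat_lit 845642313240) (nat_lit 152) (nat_lit 5309133024527) (nat_lit 0) (nat_lit 842495844741) (nat_lit 1) (nat_lit 5) (nat_lit 3) (nat_lit 4) (nat_lit 1) (nat_lit 4) (nat_lit 522) (nat_lit 389) (nat_lit 289)) (XT.lf (nat_lit 0) (nat_lit 927410570211) (nat_lit 152) (nat_lit 5704228692794) (nat_lit 0) (nat_lit 924263995711) (nat_lit 1) (nat_lit 5) (nat_lit 3) (nat_lit 4) (nat_lit 1) (nat_lit 4) (nat_lit 523) (nat_lit 389) (nat_lit 288)))) (XT.nd (nat_lit 78) (nat_lit 0) (nat_lit 0) (XT.lf (nat_lit 0) (nat_lit 1015719356701) (nat_lit 152) (nat_lit 6130933934759) (nat_lit 0) (nat_lit 1012572684051) (nat_lit 1) (nat_lit 5) (nat_lit 3) (nat_lit 4) (nat_lit 1) (nat_lit 4) (nat_lit 524) (nat_lit 389) (nat_lit 287)) (XT.nd (nat_lit 78) (nat_lit 0) (nat_lit 0) (XT.lf (nat_lit 0) (nat_lit 1111091984037) (nat_lit 152)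 (nat_lit 6591777374077) (nat_lit 0) (nat_lit 1107945220508) (nat_lit 1) (nat_lit 5) (nat_lit 3) (nat_lit 4) (nat_lit 1) (nat_lit 4) (nat_lit 525) (nat_lit 389) (nat_lit 286)) (XT.lf (nat_lit 0) (nat_lit 1214093623344) (nat_lit 152) (nat_lit 7089489934835) (nat_lit 0) (nat_lit 1210946775668) (nat_lit 1) (nat_lit 5) (nat_lit 3) (nat_lit 4) (nat_lit 1) (nat_lit 4) (nat_lit 526) (nat_lit 389) (nat_lit 285))))))) (XT.nd (nat_lit 54756) (nat_lit 0) (nat_lit 1748) (XT.nd (nat_lit 54288) (nat_lit 0) (nat_lit 2812) (XT.nd (nat_lit 234) (nat_lit 0) (nat_lit 0) (XT.nd (nat_lit 78) (nat_lit 0) (nat_lit 0) (XT.lf (nat_lit 0) (nat_lit 1325334654707) (nat_lit 152) (nat_lit 7627021024799) (nat_lit 0) (nat_lit 1322187729116) (nat_lit 1) (nat_lit 5) (nat_lit 3) (nat_lit 4) (nat_lit 1) (nat_lit 4) (nat_lit 527) (nat_lit 389) (nat_lit 284)) (XT.nd (nat_lit 78) (nat_lit 0) (nat_lit 0) (XT.lf (nat_lit 0) (nat_lit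 1445474284238) (nat_lit 152) (nat_lit 8207556013391) (nat_lit 0) (nat_lit 1442327286504) (nat_lit 1) (nat_lit 5) (nat_lit 3) (nat_lit 4) (nat_lit 1) (nat_lit 4) (nat_lit 528) (nat_lit 389) (nat_lit 283)) (XT.lf (nat_lit 0) (nat_lit 1575224450481) (nat_lit 152) (nat_lit 8834535107951) (nat_lit 0) (nat_lit 1572077385949) (nat_lit 1) (nat_lit 5) (nat_lit 3) (nat_lit 4) (nat_lit 1) (nat_lit 4) (nat_lit 529) (nat_lit 389) (nat_lit 282)))) (XT.nd (nat_lit 53898) (nat_lit 0) (nat_lit 3572) (XT.lf (nat_lit 0) (nat_lit 1715354043312) (nat_lit 152) (nat_lit 9511673740151) (nat_lit 0) (nat_lit 1712206916929) (nat_lit 1) (nat_lit 5) (nat_lit 3) (nat_lit 4) (nat_lit 1) (nat_lit 4) (nat_lit 530) (nat_lit 389) (nat_lit 281)) (XT.nd (nat_lit 78) (nat_lit 152) (nat_lit 0) (XT.lf (nat_lit 0) (nat_lit 1324284039) (nat_lit 228) (nat_lit 2049213536) (nat_lit 0) (nat_lit 1324284039) (nat_lit 50) (nat_lit 5)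 (nat_lit 53) (nat_lit 4) (nat_lit 50) (nat_lit 4) (nat_lit 420) (nat_lit 390) (nat_lit 390)) (XT.lf (nat_lit 0) (nat_lit 4282591425) (nat_lit 152) (nat_lit 3115122956) (nat_lit 152) (nat_lit 2316269386) (nat_lit 48) (nat_lit 4) (nat_lit 50) (nat_lit 5) (nat_lit 50) (nat_lit 4) (nat_lit 421) (nat_lit 390) (nat_lit 389))))) (XT.nd (nat_lit 234) (nat_lit 304) (nat_lit 0) (XT.nd (nat_lit 78) (nat_lit 304) (nat_lit 0) (XT.lf (nat_lit 0) (nat_lit 2282388111) (nat_lit 152) (nat_lit 6918015837) (nat_lit 0) (nat_lit 857820702) (nat_lit 46) (nat_lit 5) (nat_lit 48) (nat_lit 4) (nat_lit 46) (nat_lit 4) (nat_lit 422) (nat_lit 390) (nat_lit 388)) (XT.nd (nat_lit 78) (nat_lit 152) (nat_lit 0) (XT.lf (nat_lit 0) (nat_lit 1775886898) (nat_lit 152) (nat_lit 5353803906) (nat_lit 152) (nat_lit 3295080778) (nat_lit 44) (nat_lit 4) (nat_lit 46) (nat_lit 5) (nat_lit 46) (nat_lit 4) (nat_lit 423) (nat_lit 390)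 (nat_lit 387)) (XT.lf (nat_lit 0) (nat_lit 265557861) (nat_lit 76) (nat_lit 1134183586) (nat_lit 152) (nat_lit 9423345728) (nat_lit 42) (nat_lit 5) (nat_lit 43) (nat_lit 5) (nat_lit 44) (nat_lit 4) (nat_lit 424) (nat_lit 390) (nat_lit 386)))) (XT.nd (nat_lit 78) (nat_lit 304) (nat_lit 0) (XT.lf (nat_lit 0) (nat_lit 6353996017) (nat_lit 152) (nat_lit 1486845006) (nat_lit 0) (nat_lit 3400671325) (nat_lit 42) (nat_lit 5) (nat_lit 44) (nat_lit 4) (nat_lit 42) (nat_lit 4) (nat_lit 425) (nat_lit 390) (nat_lit 385)) (XT.nd (nat_lit 78) (nat_lit 152) (nat_lit 0) (XT.lf (nat_lit 0) (nat_lit 8264311592) (nat_lit 152) (nat_lit 3424907661) (nat_lit 152) (nat_lit 5459584) (nat_lit 40) (nat_lit 4) (nat_lit 42) (nat_lit 5) (nat_lit 42) (nat_lit 4) (nat_lit 426) (nat_lit 390) (nat_lit 384)) (XT.lf (nat_lit 0) (nat_lit 4995274920) (nat_lit 152) (nat_lit 5749900448) (nat_lit 0) (nat_lit 1429493620) (nat_lit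 38) (nat_lit 5) (nat_lit 40) (nat_lit 4) (nat_lit 38) (nat_lit 4) (nat_lit 427) (nat_lit 390) (nat_lit 383)))))) (XT.nd (nat_lit 468) (nat_lit 456) (nat_lit 0) (XT.nd (nat_lit 234) (nat_lit 304) (nat_lit 0) (XT.nd (nat_lit 78) (nat_lit 152) (nat_lit 0) (XT.lf (nat_lit 0) (nat_lit 4265286314) (nat_lit 152) (nat_lit 6179824299) (nat_lit 152) (nat_lit 2244019227) (nat_lit 36) (nat_lit 4) (nat_lit 38) (nat_lit 5) (nat_lit 38) (nat_lit 4) (nat_lit 428) (nat_lit 390) (nat_lit 382)) (XT.nd (nat_lit 78) (nat_lit 0) (nat_lit 0) (XT.lf (nat_lit 0) (nat_lit 1749848352) (nat_lit 76) (nat_lit 1148357429) (nat_lit 152) (nat_lit 10343317222) (nat_lit 34) (nat_lit 5) (nat_lit 35) (nat_lit 5) (nat_lit 36) (nat_lit 4) (nat_lit 429) (nat_lit 390) (nat_lit 381)) (XT.lf (nat_lit 0) (nat_lit 8435612668) (nat_lit 152) (nat_lit 1209076427) (nat_lit 0) (nat_lit 4180376169) (nat_lit 34) (nat_lit 5) (nat_lit 36)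 (nat_lit 4) (nat_lit 34) (nat_lit 4) (nat_lit 430) (nat_lit 390) (nat_lit 380)))) (XT.nd (nat_lit 78) (nat_lit 152) (nat_lit 0) (XT.lf (nat_lit 0) (nat_lit 16374547) (nat_lit 152) (nat_lit 4493155957) (nat_lit 76) (nat_lit 9941561192) (nat_lit 32) (nat_lit 5) (nat_lit 34) (nat_lit 5) (nat_lit 33) (nat_lit 4) (nat_lit 431) (nat_lit 390) (nat_lit 379)) (XT.nd (nat_lit 78) (nat_lit 76) (nat_lit 0) (XT.lf (nat_lit 0) (nat_lit 5572958923) (nat_lit 152) (nat_lit 8394388909) (nat_lit 0) (nat_lit 1147915424) (nat_lit 31) (nat_lit 5) (nat_lit 33) (nat_lit 4) (nat_lit 31) (nat_lit 4) (nat_lit 432) (nat_lit 390) (nat_lit 378)) (XT.lf (nat_lit 0) (nat_lit 2879390016) (nat_lit 76) (nat_lit 8793134204) (nat_lit 76) (nat_lit 4152185388) (nat_lit 30) (nat_lit 4) (nat_lit 31) (nat_lit 5) (nat_lit 31) (nat_lit 4) (nat_lit 433) (nat_lit 390) (nat_lit 377))))) (XT.nd (nat_lit 234) (nat_lit 228) (nat_lit 0)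 (XT.nd (nat_lit 78) (nat_lit 152) (nat_lit 0) (XT.lf (nat_lit 0) (nat_lit 1608005381) (nat_lit 152) (nat_lit 1496209951) (nat_lit 76) (nat_lit 13481711052) (nat_lit 29) (nat_lit 5) (nat_lit 31) (nat_lit 5) (nat_lit 30) (nat_lit 4) (nat_lit 434) (nat_lit 390) (nat_lit 376)) (XT.nd (nat_lit 78) (nat_lit 76) (nat_lit 0) (XT.lf (nat_lit 0) (nat_lit 7748521911) (nat_lit 152) (nat_lit 6544547109) (nat_lit 0) (nat_lit 3094850470) (nat_lit 28) (nat_lit 5) (nat_lit 30) (nat_lit 4) (nat_lit 28) (nat_lit 4) (nat_lit 435) (nat_lit 390) (nat_lit 375)) (XT.lf (nat_lit 0) (nat_lit 5833443442) (nat_lit 76) (nat_lit 8613825284) (nat_lit 76) (nat_lit 3801456991) (nat_lit 27) (nat_lit 4) (nat_lit 28) (nat_lit 5) (nat_lit 28) (nat_lit 4) (nat_lit 436) (nat_lit 390) (nat_lit 374)))) (XT.nd (nat_lit 78) (nat_lit 152) (nat_lit 0) (XT.lf (nat_lit 0) (nat_lit 2366587457) (nat_lit 152) (nat_lit 36807911) (nat_lit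 76) (nat_lit 16771130884) (nat_lit 26) (nat_lit 5) (nat_lit 28) (nat_lit 5) (nat_lit 27) (nat_lit 4) (nat_lit 437) (nat_lit 390) (nat_lit 373)) (XT.nd (nat_lit 78) (nat_lit 76) (nat_lit 0) (XT.lf (nat_lit 0) (nat_lit 9078340477) (nat_lit 152) (nat_lit 6707301724) (nat_lit 0) (nat_lit 4360408258) (nat_lit 25) (nat_lit 5) (nat_lit 27) (nat_lit 4) (nat_lit 25) (nat_lit 4) (nat_lit 438) (nat_lit 390) (nat_lit 372)) (XT.lf (nat_lit 0) (nat_lit 6718335631) (nat_lit 76) (nat_lit 9653964117) (nat_lit 76) (nat_lit 4819384973) (nat_lit 24) (nat_lit 4) (nat_lit 25) (nat_lit 5) (nat_lit 25) (nat_lit 4) (nat_lit 439) (nat_lit 390) (nat_lit 371))))))))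
noncomputable def xc67 : XT := (XT.nd (nat_lit 1794) (nat_lit 456) (nat_lit 0) (XT.nd (nat_lit 858) (nat_lit 456) (nat_lit 0) (XT.nd (nat_lit 390) (nat_lit 304) (nat_lit 0) (XT.nd (nat_lit 156) (nat_lit 228) (nat_lit 0) (XT.nd (nat_lit 78) (nat_lit 76) (nat_lit 0) (XT.lf (nat_lit 0) (nat_lit 1841162032) (nat_lit 152) (nat_lit 1112968529) (nat_lit 76) (nat_lit 19362428784) (nat_lit 23) (nat_lit 5) (nat_lit 25) (nat_lit 5) (nat_lit 24) (nat_lit 4) (nat_lit 440) (nat_lit 390) (nat_lit 370)) (XT.lf (nat_lit 0) (nat_lit 9044554254) (nat_lit 152) (nat_lit 10079744908) (nat_lit 0) (nat_lit 4375488057) (nat_lit 22) (nat_lit 5) (nat_lit 24) (nat_lit 4) (nat_lit 22) (nat_lit 4) (nat_lit 441) (nat_lit 390) (nat_lit 369))) (XT.nd (nat_lit 78) (nat_lit 152) (nat_lit 0) (XT.lf (nat_lit 0) (nat_lit 4207216735) (nat_lit 76) (nat_lit 12660879210) (nat_lit 76) (nat_lit 7906074042) (nat_lit 21) (nat_lit 4)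 (nat_lit 22) (nat_lit 5) (nat_lit 22) (nat_lit 4) (nat_lit 442) (nat_lit 390) (nat_lit 368)) (XT.nd (nat_lit 78) (nat_lit 152) (nat_lit 0) (XT.lf (nat_lit 0) (nat_lit 19889245611) (nat_lit 76) (nat_lit 5543134278) (nat_lit 76) (nat_lit 708941173) (nat_lit 21) (nat_lit 4) (nat_lit 22) (nat_lit 5) (nat_lit 22) (nat_lit 4) (nat_lit 443) (nat_lit 390) (nat_lit 367)) (XT.lf (nat_lit 0) (nat_lit 6837018518) (nat_lit 152) (nat_lit 18464274746) (nat_lit 0) (nat_lit 2292851431) (nat_lit 19) (nat_lit 5) (nat_lit 21) (nat_lit 4) (nat_lit 19) (nat_lit 4) (nat_lit 444) (nat_lit 390) (nat_lit 366))))) (XT.nd (nat_lit 234) (nat_lit 152) (nat_lit 0) (XT.nd (nat_lit 78) (nat_lit 152) (nat_lit 0) (XT.lf (nat_lit 0) (nat_lit 15115576733) (nat_lit 152) (nat_lit 3524382661) (nat_lit 0) (nat_lit 10508388942) (nat_lit 19) (nat_lit 5) (nat_lit 21) (nat_lit 4) (nat_lit 19) (nat_lit 4) (nat_lit 445) (nat_lit 390)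 (nat_lit 365)) (XT.nd (nat_lit 78) (nat_lit 76) (nat_lit 0) (XT.lf (nat_lit 0) (nat_lit 12976539598) (nat_lit 76) (nat_lit 11251098110) (nat_lit 76) (nat_lit 6585557815) (nat_lit 18) (nat_lit 4) (nat_lit 19) (nat_lit 5) (nat_lit 19) (nat_lit 4) (nat_lit 446) (nat_lit 390) (nat_lit 364)) (XT.lf (nat_lit 0) (nat_lit 1342753457) (nat_lit 152) (nat_lit 1926643200) (nat_lit 76) (nat_lit 29342375589) (nat_lit 17) (nat_lit 5) (nat_lit 19) (nat_lit 5) (nat_lit 18) (nat_lit 4) (nat_lit 447) (nat_lit 390) (nat_lit 363)))) (XT.nd (nat_lit 78) (nat_lit 76) (nat_lit 0) (XT.lf (nat_lit 0) (nat_lit 9934268196) (nat_lit 152) (nat_lit 19057534474) (nat_lit 0) (nat_lit 5517973513) (nat_lit 16) (nat_lit 5) (nat_lit 18) (nat_lit 4) (nat_lit 16) (nat_lit 4) (nat_lit 448) (nat_lit 390) (nat_lit 362)) (XT.nd (nat_lit 78) (nat_lit 76) (nat_lit 0) (XT.lf (nat_lit 0) (nat_lit 19222234157) (nat_lit 152) (nat_lit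 2573610690) (nat_lit 0) (nat_lit 14763048643) (nat_lit 16) (nat_lit 5) (nat_lit 18) (nat_lit 4) (nat_lit 16) (nat_lit 4) (nat_lit 449) (nat_lit 390) (nat_lit 361)) (XT.lf (nat_lit 0) (nat_lit 15774692726) (nat_lit 76) (nat_lit 13737708403) (nat_lit 76) (nat_lit 9238809155) (nat_lit 15) (nat_lit 4) (nat_lit 16) (nat_lit 5) (nat_lit 16) (nat_lit 4) (nat_lit 450) (nat_lit 390) (nat_lit 360)))))) (XT.nd (nat_lit 468) (nat_lit 228) (nat_lit 0) (XT.nd (nat_lit 234) (nat_lit 76) (nat_lit 0) (XT.nd (nat_lit 78) (nat_lit 152) (nat_lit 0) (XT.lf (nat_lit 0) (nat_lit 35499938898) (nat_lit 76) (nat_lit 5079189960) (nat_lit 76) (nat_lit 543518736) (nat_lit 15) (nat_lit 4) (nat_lit 16) (nat_lit 5) (nat_lit 16) (nat_lit 4) (nat_lit 451) (nat_lit 390) (nat_lit 359)) (XT.nd (nat_lit 78) (nat_lit 0) (nat_lit 0) (XT.lf (nat_lit 0) (nat_lit 8728539545) (nat_lit 152) (nat_lit 30415024380) (nat_lit 0) (nat_lit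 4497317925) (nat_lit 13) (nat_lit 5) (nat_lit 15) (nat_lit 4) (nat_lit 13) (nat_lit 4) (nat_lit 452) (nat_lit 390) (nat_lit 358)) (XT.lf (nat_lit 0) (nat_lit 18891747240) (nat_lit 152) (nat_lit 12822065821) (nat_lit 0) (nat_lit 14631334840) (nat_lit 13) (nat_lit 5) (nat_lit 15) (nat_lit 4) (nat_lit 13) (nat_lit 4) (nat_lit 453) (nat_lit 390) (nat_lit 357)))) (XT.nd (nat_lit 78) (nat_lit 0) (nat_lit 0) (XT.lf (nat_lit 0) (nat_lit 6283556884) (nat_lit 76) (nat_lit 23632883559) (nat_lit 76) (nat_lit 19345442660) (nat_lit 12) (nat_lit 4) (nat_lit 13) (nat_lit 5) (nat_lit 13) (nat_lit 4) (nat_lit 454) (nat_lit 390) (nat_lit 356)) (XT.nd (nat_lit 78) (nat_lit 0) (nat_lit 0) (XT.lf (nat_lit 0) (nat_lit 27443023858) (nat_lit 76) (nat_lit 14630677590) (nat_lit 76) (nat_lit 10318210303) (nat_lit 12) (nat_lit 4) (nat_lit 13) (nat_lit 5) (nat_lit 13) (nat_lit 4) (nat_lit 455) (nat_lit 390) (nat_lit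 355)) (XT.lf (nat_lit 0) (nat_lit 50106537270) (nat_lit 76) (nat_lit 5004426751) (nat_lit 76) (nat_lit 668786881) (nat_lit 12) (nat_lit 4) (nat_lit 13) (nat_lit 5) (nat_lit 13) (nat_lit 4) (nat_lit 456) (nat_lit 390) (nat_lit 354))))) (XT.nd (nat_lit 234) (nat_lit 76) (nat_lit 0) (XT.nd (nat_lit 78) (nat_lit 0) (nat_lit 0) (XT.lf (nat_lit 0) (nat_lit 9692959119) (nat_lit 152) (nat_lit 44034026038) (nat_lit 0) (nat_lit 5658611005) (nat_lit 10) (nat_lit 5) (nat_lit 12) (nat_lit 4) (nat_lit 10) (nat_lit 4) (nat_lit 457) (nat_lit 390) (nat_lit 353)) (XT.nd (nat_lit 78) (nat_lit 0) (nat_lit 0) (XT.lf (nat_lit 0) (nat_lit 21048858351) (nat_lit 152) (nat_lit 25217439761) (nat_lit 0) (nat_lit 16996115094) (nat_lit 10) (nat_lit 5) (nat_lit 12) (nat_lit 4) (nat_lit 10) (nat_lit 4) (nat_lit 458) (nat_lit 390) (nat_lit 352)) (XT.lf (nat_lit 0) (nat_lit 33231947677) (nat_lit 152) (nat_lit 5061759977)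 (nat_lit 0) (nat_lit 29162171880) (nat_lit 10) (nat_lit 5) (nat_lit 12) (nat_lit 4) (nat_lit 10) (nat_lit 4) (nat_lit 459) (nat_lit 390) (nat_lit 351)))) (XT.nd (nat_lit 78) (nat_lit 0) (nat_lit 0) (XT.lf (nat_lit 0) (nat_lit 17424077294) (nat_lit 76) (nat_lit 29309395365) (nat_lit 76) (nat_lit 25223848698) (nat_lit 9) (nat_lit 4) (nat_lit 10) (nat_lit 5) (nat_lit 10) (nat_lit 4) (nat_lit 460) (nat_lit 390) (nat_lit 350)) (XT.nd (nat_lit 78) (nat_lit 0) (nat_lit 0) (XT.lf (nat_lit 0) (nat_lit 41846625218) (nat_lit 76) (nat_lit 19533597771) (nat_lit 76) (nat_lit 15433448447) (nat_lit 9) (nat_lit 4) (nat_lit 10) (nat_lit 5) (nat_lit 10) (nat_lit 4) (nat_lit 461) (nat_lit 390) (nat_lit 349)) (XT.lf (nat_lit 0) (nat_lit 68084066692) (nat_lit 76) (nat_lit 9046781709) (nat_lit 76) (nat_lit 4933111406) (nat_lit 9) (nat_lit 4) (nat_lit 10) (nat_lit 5) (nat_lit 10) (nat_lit 4) (nat_lit 462) (nat_lit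 390) (nat_lit 348))))))) (XT.nd (nat_lit 936) (nat_lit 76) (nat_lit 0) (XT.nd (nat_lit 468) (nat_lit 152) (nat_lit 0) (XT.nd (nat_lit 234) (nat_lit 76) (nat_lit 0) (XT.nd (nat_lit 78) (nat_lit 0) (nat_lit 0) (XT.lf (nat_lit 0) (nat_lit 6297637317) (nat_lit 152) (nat_lit 78930343911) (nat_lit 0) (nat_lit 2477091272) (nat_lit 7) (nat_lit 5) (nat_lit 9) (nat_lit 4) (nat_lit 7) (nat_lit 4) (nat_lit 463) (nat_lit 390) (nat_lit 347)) (XT.nd (nat_lit 78) (nat_lit 0) (nat_lit 0) (XT.lf (nat_lit 0) (nat_lit 18723099836) (nat_lit 152) (nat_lit 60127282608) (nat_lit 0) (nat_lit 14891820403) (nat_lit 7) (nat_lit 5) (nat_lit 9) (nat_lit 4) (nat_lit 7) (nat_lit 4) (nat_lit 464) (nat_lit 390) (nat_lit 346)) (XT.lf (nat_lit 0) (nat_lit 32082993311) (nat_lit 152) (nat_lit 39942304044) (nat_lit 0) (nat_lit 28241775554) (nat_lit 7) (nat_lit 5) (nat_lit 9) (nat_lit 4) (nat_lit 7) (nat_lit 4) (nat_lit 465)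 (nat_lit 390) (nat_lit 345)))) (XT.nd (nat_lit 78) (nat_lit 76) (nat_lit 0) (XT.lf (nat_lit 0) (nat_lit 46456487478) (nat_lit 152) (nat_lit 18255793531) (nat_lit 0) (nat_lit 42606067570) (nat_lit 7) (nat_lit 5) (nat_lit 9) (nat_lit 4) (nat_lit 7) (nat_lit 4) (nat_lit 466) (nat_lit 390) (nat_lit 344)) (XT.nd (nat_lit 78) (nat_lit 0) (nat_lit 0) (XT.lf (nat_lit 0) (nat_lit 5327252323) (nat_lit 76) (nat_lit 56729626823) (nat_lit 76) (nat_lit 52870686405) (nat_lit 6) (nat_lit 4) (nat_lit 7) (nat_lit 5) (nat_lit 7) (nat_lit 4) (nat_lit 467) (nat_lit 390) (nat_lit 343)) (XT.lf (nat_lit 0) (nat_lit 31732943858) (nat_lit 76) (nat_lit 47621728415) (nat_lit 76) (nat_lit 43754898635) (nat_lit 6) (nat_lit 4) (nat_lit 7) (nat_lit 5) (nat_lit 7) (nat_lit 4) (nat_lit 468) (nat_lit 390) (nat_lit 342))))) (XT.nd (nat_lit 234) (nat_lit 152) (nat_lit 0) (XT.nd (nat_lit 78) (nat_lit 0) (nat_lit 0) (XT.lf (nat_lit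 0) (nat_lit 60156441510) (nat_lit 76) (nat_lit 37833758800) (nat_lit 76) (nat_lit 33959624056) (nat_lit 6) (nat_lit 4) (nat_lit 7) (nat_lit 5) (nat_lit 7) (nat_lit 4) (nat_lit 469) (nat_lit 390) (nat_lit 341)) (XT.nd (nat_lit 78) (nat_lit 0) (nat_lit 0) (XT.lf (nat_lit 0) (nat_lit 90766180821) (nat_lit 76) (nat_lit 27307715195) (nat_lit 76) (nat_lit 23426816595) (nat_lit 6) (nat_lit 4) (nat_lit 7) (nat_lit 5) (nat_lit 7) (nat_lit 4) (nat_lit 470) (nat_lit 390) (nat_lit 340)) (XT.lf (nat_lit 0) (nat_lit 123743552839) (nat_lit 76) (nat_lit 15981221045) (nat_lit 76) (nat_lit 12094059616) (nat_lit 6) (nat_lit 4) (nat_lit 7) (nat_lit 5) (nat_lit 7) (nat_lit 4) (nat_lit 471) (nat_lit 390) (nat_lit 339)))) (XT.nd (nat_lit 78) (nat_lit 76) (nat_lit 0) (XT.lf (nat_lit 0) (nat_lit 100511216) (nat_lit 152) (nat_lit 3683897014) (nat_lit 76) (nat_lit 159180719655) (nat_lit 5) (nat_lit 5) (nat_lit 7)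 (nat_lit 5) (nat_lit 6) (nat_lit 4) (nat_lit 472) (nat_lit 390) (nat_lit 338)) (XT.nd (nat_lit 78) (nat_lit 0) (nat_lit 0) (XT.lf (nat_lit 0) (nat_lit 13394087161) (nat_lit 152) (nat_lit 151737239313) (nat_lit 0) (nat_lit 9784522612) (nat_lit 4) (nat_lit 5) (nat_lit 6) (nat_lit 4) (nat_lit 4) (nat_lit 4) (nat_lit 473) (nat_lit 390) (nat_lit 337)) (XT.lf (nat_lit 0) (nat_lit 27918070598) (nat_lit 152) (nat_lit 135587301359) (nat_lit 0) (nat_lit 24303902683) (nat_lit 4) (nat_lit 5) (nat_lit 6) (nat_lit 4) (nat_lit 4) (nat_lit 4) (nat_lit 474) (nat_lit 390) (nat_lit 336)))))) (XT.nd (nat_lit 468) (nat_lit 76) (nat_lit 0) (XT.nd (nat_lit 234) (nat_lit 0) (nat_lit 0) (XT.nd (nat_lit 78) (nat_lit 0) (nat_lit 0) (XT.lf (nat_lit 0) (nat_lit 43571828833) (nat_lit 152) (nat_lit 118211518718) (nat_lit 0) (nat_lit 39953398541) (nat_lit 4) (nat_lit 5) (nat_lit 6) (nat_lit 4) (nat_lit 4) (nat_lit 4)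 (nat_lit 475) (nat_lit 390) (nat_lit 335)) (XT.nd (nat_lit 78) (nat_lit 0) (nat_lit 0) (XT.lf (nat_lit 0) (nat_lit 60448124877) (nat_lit 152) (nat_lit 99506923789) (nat_lit 0) (nat_lit 56825747940) (nat_lit 4) (nat_lit 5) (nat_lit 6) (nat_lit 4) (nat_lit 4) (nat_lit 4) (nat_lit 476) (nat_lit 390) (nat_lit 334)) (XT.lf (nat_lit 0) (nat_lit 78646966410) (nat_lit 152) (nat_lit 79362674528) (nat_lit 0) (nat_lit 75020935173) (nat_lit 4) (nat_lit 5) (nat_lit 6) (nat_lit 4) (nat_lit 4) (nat_lit 4) (nat_lit 477) (nat_lit 390) (nat_lit 333)))) (XT.nd (nat_lit 78) (nat_lit 0) (nat_lit 0) (XT.lf (nat_lit 0) (nat_lit 98276198420) (nat_lit 152) (nat_lit 57659397606) (nat_lit 0) (nat_lit 94646783571) (nat_lit 4) (nat_lit 5) (nat_lit 6) (nat_lit 4) (nat_lit 4) (nat_lit 4) (nat_lit 478) (nat_lit 390) (nat_lit 332)) (XT.nd (nat_lit 78) (nat_lit 0) (nat_lit 0) (XT.lf (nat_lit 0) (nat_lit 119452142281) (nat_lit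 152) (nat_lit 34268481013) (nat_lit 0) (nat_lit 115819594458) (nat_lit 4) (nat_lit 5) (nat_lit 6) (nat_lit 4) (nat_lit 4) (nat_lit 4) (nat_lit 479) (nat_lit 390) (nat_lit 331)) (XT.lf (nat_lit 0) (nat_lit 142300285068) (nat_lit 152) (nat_lit 9051311908) (nat_lit 0) (nat_lit 138664836343) (nat_lit 4) (nat_lit 5) (nat_lit 6) (nat_lit 4) (nat_lit 4) (nat_lit 4) (nat_lit 480) (nat_lit 390) (nat_lit 330))))) (XT.nd (nat_lit 234) (nat_lit 0) (nat_lit 0) (XT.nd (nat_lit 78) (nat_lit 0) (nat_lit 0) (XT.lf (nat_lit 0) (nat_lit 19096846382) (nat_lit 76) (nat_lit 148318456415) (nat_lit 76) (nat_lit 144680321670) (nat_lit 3) (nat_lit 4) (nat_lit 4) (nat_lit 5) (nat_lit 4) (nat_lit 4) (nat_lit 481) (nat_lit 390) (nat_lit 329)) (XT.nd (nat_lit 78) (nat_lit 0) (nat_lit 0) (XT.lf (nat_lit 0) (nat_lit 49970982864) (nat_lit 76) (nat_lit 144796285178) (nat_lit 76) (nat_lit 141155663377) (nat_lit 3) (nat_lit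 4) (nat_lit 4) (nat_lit 5) (nat_lit 4) (nat_lit 4) (nat_lit 482) (nat_lit 390) (nat_lit 328)) (XT.lf (nat_lit 0) (nat_lit 83277429338) (nat_lit 76) (nat_lit 141011690047) (nat_lit 76) (nat_lit 137368765417) (nat_lit 3) (nat_lit 4) (nat_lit 4) (nat_lit 5) (nat_lit 4) (nat_lit 4) (nat_lit 483) (nat_lit 390) (nat_lit 327)))) (XT.nd (nat_lit 78) (nat_lit 0) (nat_lit 0) (XT.lf (nat_lit 0) (nat_lit 119213557339) (nat_lit 76) (nat_lit 136942243793) (nat_lit 76) (nat_lit 133297186913) (nat_lit 3) (nat_lit 4) (nat_lit 4) (nat_lit 5) (nat_lit 4) (nat_lit 4) (nat_lit 484) (nat_lit 390) (nat_lit 326)) (XT.nd (nat_lit 78) (nat_lit 0) (nat_lit 0) (XT.lf (nat_lit 0) (nat_lit 157992321699) (nat_lit 76) (nat_lit 132563831178) (nat_lit 76) (nat_lit 128916799993) (nat_lit 3) (nat_lit 4) (nat_lit 4) (nat_lit 5) (nat_lit 4) (nat_lit 4) (nat_lit 485) (nat_lit 390) (nat_lit 325)) (XT.lf (nat_lit 0) (nat_lit 199843522503)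 (nat_lit 76) (nat_lit 127850506053) (nat_lit 76) (nat_lit 124201646808) (nat_lit 3) (nat_lit 4) (nat_lit 4) (nat_lit 5) (nat_lit 4) (nat_lit 4) (nat_lit 486) (nat_lit 390) (nat_lit 324))))))))
noncomputable def xc68 : XT := (XT.nd (nat_lit 1794) (nat_lit 0) (nat_lit 0) (XT.nd (nat_lit 858) (nat_lit 152) (nat_lit 0) (XT.nd (nat_lit 390) (nat_lit 0) (nat_lit 0) (XT.nd (nat_lit 156) (nat_lit 0) (nat_lit 0) (XT.nd (nat_lit 78) (nat_lit 0) (nat_lit 0) (XT.lf (nat_lit 0) (nat_lit 245015166867) (nat_lit 76) (nat_lit 122774337602) (nat_lit 76) (nat_lit 119123785709) (nat_lit 3) (nat_lit 4) (nat_lit 4) (nat_lit 5) (nat_lit 4) (nat_lit 4) (nat_lit 487) (nat_lit 390) (nat_lit 323)) (XT.lf (nat_lit 0) (nat_lit 293774938610) (nat_lit 76) (nat_lit 117305244829) (nat_lit 76) (nat_lit 113653125668) (nat_lit 3) (nat_lit 4) (nat_lit 4) (nat_lit 5) (nat_lit 4) (nat_lit 4) (nat_lit 488) (nat_lit 390) (nat_lit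 322))) (XT.nd (nat_lit 78) (nat_lit 0) (nat_lit 0) (XT.lf (nat_lit 0) (nat_lit 346411784527) (nat_lit 76) (nat_lit 111410818293) (nat_lit 76) (nat_lit 107757247959) (nat_lit 3) (nat_lit 4) (nat_lit 4) (nat_lit 5) (nat_lit 4) (nat_lit 4) (nat_lit 489) (nat_lit 390) (nat_lit 321)) (XT.nd (nat_lit 78) (nat_lit 0) (nat_lit 0) (XT.lf (nat_lit 0) (nat_lit 403237626668) (nat_lit 76) (nat_lit 105056128060) (nat_lit 76) (nat_lit 101401214047) (nat_lit 3) (nat_lit 4) (nat_lit 4) (nat_lit 5) (nat_lit 4) (nat_lit 4) (nat_lit 490) (nat_lit 390) (nat_lit 320)) (XT.lf (nat_lit 0) (nat_lit 464589210765) (nat_lit 76) (nat_lit 98203516706) (nat_lit 76) (nat_lit 94547358546) (nat_lit 3) (nat_lit 4) (nat_lit 4) (nat_lit 5) (nat_lit 4) (nat_lit 4) (nat_lit 491) (nat_lit 390) (nat_lit 319))))) (XT.nd (nat_lit 234) (nat_lit 0) (nat_lit 0) (XT.nd (nat_lit 78) (nat_lit 0) (nat_lit 0) (XT.lf (nat_lit 0) (nat_lit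 530830101759) (nat_lit 76) (nat_lit 90812376164) (nat_lit 76) (nat_lit 87155066016) (nat_lit 3) (nat_lit 4) (nat_lit 4) (nat_lit 5) (nat_lit 4) (nat_lit 4) (nat_lit 492) (nat_lit 390) (nat_lit 318)) (XT.nd (nat_lit 78) (nat_lit 0) (nat_lit 0) (XT.lf (nat_lit 0) (nat_lit 602352838265) (nat_lit 76) (nat_lit 82838907082) (nat_lit 76) (nat_lit 79180530279) (nat_lit 3) (nat_lit 4) (nat_lit 4) (nat_lit 5) (nat_lit 4) (nat_lit 4) (nat_lit 493) (nat_lit 390) (nat_lit 317)) (XT.lf (nat_lit 0) (nat_lit 679581258720) (nat_lit 76) (nat_lit 74235859274) (nat_lit 76) (nat_lit 70576494827) (nat_lit 3) (nat_lit 4) (nat_lit 4) (nat_lit 5) (nat_lit 4) (nat_lit 4) (nat_lit 494) (nat_lit 390) (nat_lit 316)))) (XT.nd (nat_lit 78) (nat_lit 0) (nat_lit 0) (XT.lf (nat_lit 0) (nat_lit 762973013025) (nat_lit 76) (nat_lit 64952251715) (nat_lit 76) (nat_lit 61291972783) (nat_lit 3) (nat_lit 4) (nat_lit 4) (nat_lit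 5) (nat_lit 4) (nat_lit 4) (nat_lit 495) (nat_lit 390) (nat_lit 315)) (XT.nd (nat_lit 78) (nat_lit 0) (nat_lit 0) (XT.lf (nat_lit 0) (nat_lit 853022274537) (nat_lit 76) (nat_lit 54933070435) (nat_lit 76) (nat_lit 51271944758) (nat_lit 3) (nat_lit 4) (nat_lit 4) (nat_lit 5) (nat_lit 4) (nat_lit 4) (nat_lit 496) (nat_lit 390) (nat_lit 314)) (XT.lf (nat_lit 0) (nat_lit 950262668511) (nat_lit 76) (nat_lit 44118942508) (nat_lit 76) (nat_lit 40457032806) (nat_lit 3) (nat_lit 4) (nat_lit 4) (nat_lit 5) (nat_lit 4) (nat_lit 4) (nat_lit 497) (nat_lit 390) (nat_lit 313)))))) (XT.nd (nat_lit 468) (nat_lit 0) (nat_lit 0) (XT.nd (nat_lit 234) (nat_lit 152) (nat_lit 0) (XT.nd (nat_lit 78) (nat_lit 0) (nat_lit 0) (XT.lf (nat_lit 0) (nat_lit 1055270434317) (nat_lit 76) (nat_lit 32445784212) (nat_lit 76) (nat_lit 28783148562) (nat_lit 3) (nat_lit 4) (nat_lit 4) (nat_lit 5) (nat_lit 4) (nat_lit 4) (nat_lit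 498) (nat_lit 390) (nat_lit 312)) (XT.nd (nat_lit 78) (nat_lit 0) (nat_lit 0) (XT.lf (nat_lit 0) (nat_lit 1168667840198) (nat_lit 76) (nat_lit 19844421276) (nat_lit 76) (nat_lit 16181113453) (nat_lit 3) (nat_lit 4) (nat_lit 4) (nat_lit 5) (nat_lit 4) (nat_lit 4) (nat_lit 499) (nat_lit 390) (nat_lit 311)) (XT.lf (nat_lit 0) (nat_lit 1291126870781) (nat_lit 76) (nat_lit 6240178957) (nat_lit 76) (nat_lit 2576248750) (nat_lit 3) (nat_lit 4) (nat_lit 4) (nat_lit 5) (nat_lit 4) (nat_lit 4) (nat_lit 500) (nat_lit 390) (nat_lit 310)))) (XT.nd (nat_lit 78) (nat_lit 0) (nat_lit 0) (XT.lf (nat_lit 0) (nat_lit 12243352650) (nat_lit 152) (nat_lit 1381637659962) (nat_lit 0) (nat_lit 8850291088) (nat_lit 1) (nat_lit 5) (nat_lit 3) (nat_lit 4) (nat_lit 1) (nat_lit 4) (nat_lit 501) (nat_lit 390) (nat_lit 309)) (XT.nd (nat_lit 78) (nat_lit 0) (nat_lit 0) (XT.lf (nat_lit 0) (nat_lit 28514051664) (nat_lit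 152) (nat_lit 1460070071320) (nat_lit 0) (nat_lit 25120496033) (nat_lit 1) (nat_lit 5) (nat_lit 3) (nat_lit 4) (nat_lit 1) (nat_lit 4) (nat_lit 502) (nat_lit 390) (nat_lit 308)) (XT.lf (nat_lit 0) (nat_lit 46082067066) (nat_lit 152) (nat_lit 1544786025728) (nat_lit 0) (nat_lit 42688053966) (nat_lit 1) (nat_lit 5) (nat_lit 3) (nat_lit 4) (nat_lit 1) (nat_lit 4) (nat_lit 503) (nat_lit 390) (nat_lit 307))))) (XT.nd (nat_lit 234) (nat_lit 0) (nat_lit 0) (XT.nd (nat_lit 78) (nat_lit 0) (nat_lit 0) (XT.lf (nat_lit 0) (nat_lit 65051505615) (nat_lit 152) (nat_lit 1636287543656) (nat_lit 0) (nat_lit 61657068931) (nat_lit 1) (nat_lit 5) (nat_lit 3) (nat_lit 4) (nat_lit 1) (nat_lit 4) (nat_lit 504) (nat_lit 390) (nat_lit 306)) (XT.nd (nat_lit 78) (nat_lit 0) (nat_lit 0) (XT.lf (nat_lit 0) (nat_lit 85534778799) (nat_lit 152) (nat_lit 1735116856321) (nat_lit 0) (nat_lit 82139949908) (nat_lit 1) (nat_lit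 5) (nat_lit 3) (nat_lit 4) (nat_lit 1) (nat_lit 4) (nat_lit 505) (nat_lit 390) (nat_lit 305)) (XT.lf (nat_lit 0) (nat_lit 107653268978) (nat_lit 152) (nat_lit 1841859618909) (nat_lit 0) (nat_lit 104258076932) (nat_lit 1) (nat_lit 5) (nat_lit 3) (nat_lit 4) (nat_lit 1) (nat_lit 4) (nat_lit 506) (nat_lit 390) (nat_lit 304)))) (XT.nd (nat_lit 78) (nat_lit 0) (nat_lit 0) (XT.lf (nat_lit 0) (nat_lit 131538048684) (nat_lit 152) (nat_lit 1957148381124) (nat_lit 0) (nat_lit 128142520384) (nat_lit 1) (nat_lit 5) (nat_lit 3) (nat_lit 4) (nat_lit 1) (nat_lit 4) (nat_lit 507) (nat_lit 390) (nat_lit 303)) (XT.nd (nat_lit 78) (nat_lit 0) (nat_lit 0) (XT.lf (nat_lit 0) (nat_lit 157330657355) (nat_lit 152) (nat_lit 2081666335632) (nat_lit 0) (nat_lit 153934817708) (nat_lit 1) (nat_lit 5) (nat_lit 3) (nat_lit 4) (nat_lit 1) (nat_lit 4) (nat_lit 508) (nat_lit 390) (nat_lit 302)) (XT.lf (nat_lit 0) (nat_lit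 185183940078) (nat_lit 152) (nat_lit 2216151366608) (nat_lit 0) (nat_lit 181787812148) (nat_lit 1) (nat_lit 5) (nat_lit 3) (nat_lit 4) (nat_lit 1) (nat_lit 4) (nat_lit 509) (nat_lit 390) (nat_lit 301))))))) (XT.nd (nat_lit 858) (nat_lit 0) (nat_lit 0) (XT.nd (nat_lit 390) (nat_lit 0) (nat_lit 0) (XT.nd (nat_lit 156) (nat_lit 0) (nat_lit 0) (XT.nd (nat_lit 78) (nat_lit 0) (nat_lit 0) (XT.lf (nat_lit 0) (nat_lit 215262953344) (nat_lit 152) (nat_lit 2361400422382) (nat_lit 0) (nat_lit 211866558484) (nat_lit 1) (nat_lit 5) (nat_lit 3) (nat_lit 4) (nat_lit 1) (nat_lit 4) (nat_lit 510) (nat_lit 390) (nat_lit 300)) (XT.lf (nat_lit 0) (nat_lit 247745943157) (nat_lit 152) (nat_lit 2518274238101) (nat_lit 0) (nat_lit 244349301140) (nat_lit 1) (nat_lit 5) (nat_lit 3) (nat_lit 4) (nat_lit 1) (nat_lit 4) (nat_lit 511) (nat_lit 390) (nat_lit 299))) (XT.nd (nat_lit 78) (nat_lit 0) (nat_lit 0) (XT.lf (nat_lit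 0) (nat_lit 282825401308) (nat_lit 152) (nat_lit 2687702436376) (nat_lit 0) (nat_lit 279428530442) (nat_lit 1) (nat_lit 5) (nat_lit 3) (nat_lit 4) (nat_lit 1) (nat_lit 4) (nat_lit 512) (nat_lit 390) (nat_lit 298)) (XT.nd (nat_lit 78) (nat_lit 0) (nat_lit 0) (XT.lf (nat_lit 0) (nat_lit 320709206069) (nat_lit 152) (nat_lit 2870689036159) (nat_lit 0) (nat_lit 317312123306) (nat_lit 1) (nat_lit 5) (nat_lit 3) (nat_lit 4) (nat_lit 1) (nat_lit 4) (nat_lit 513) (nat_lit 390) (nat_lit 297)) (XT.lf (nat_lit 0) (nat_lit 361621854060) (nat_lit 152) (nat_lit 3068318402487) (nat_lit 0) (nat_lit 358224575095) (nat_lit 1) (nat_lit 5) (nat_lit 3) (nat_lit 4) (nat_lit 1) (nat_lit 4) (nat_lit 514) (nat_lit 390) (nat_lit 296))))) (XT.nd (nat_lit 234) (nat_lit 0) (nat_lit 0) (XT.nd (nat_lit 78) (nat_lit 0) (nat_lit 0) (XT.lf (nat_lit 0) (nat_lit 405805790601) (nat_lit 152) (nat_lit 3281761672346) (nat_lit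 0) (nat_lit 402408329969) (nat_lit 1) (nat_lit 5) (nat_lit 3) (nat_lit 4) (nat_lit 1) (nat_lit 4) (nat_lit 515) (nat_lit 390) (nat_lit 295)) (XT.nd (nat_lit 78) (nat_lit 0) (nat_lit 0) (XT.lf (nat_lit 0) (nat_lit 453522846430) (nat_lit 152) (nat_lit 3512283694741) (nat_lit 0) (nat_lit 450125217586) (nat_lit 1) (nat_lit 5) (nat_lit 3) (nat_lit 4) (nat_lit 1) (nat_lit 4) (nat_lit 516) (nat_lit 390) (nat_lit 294)) (XT.lf (nat_lit 0) (nat_lit 505055789283) (nat_lit 152) (nat_lit 3761250526102) (nat_lit 0) (nat_lit 501658004689) (nat_lit 1) (nat_lit 5) (nat_lit 3) (nat_lit 4) (nat_lit 1) (nat_lit 4) (nat_lit 517) (nat_lit 390) (nat_lit 293)))) (XT.nd (nat_lit 78) (nat_lit 0) (nat_lit 0) (XT.lf (nat_lit 0) (nat_lit 560709999562) (nat_lit 152) (nat_lit 4030137525429) (nat_lit 0) (nat_lit 557312070755) (nat_lit 1) (nat_lit 5) (nat_lit 3) (nat_lit 4) (nat_lit 1) (nat_lit 4) (nat_lit 518) (nat_lit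 390) (nat_lit 292)) (XT.nd (nat_lit 78) (nat_lit 0) (nat_lit 0) (XT.lf (nat_lit 0) (nat_lit 620815279996) (nat_lit 152) (nat_lit 4320538097163) (nat_lit 0) (nat_lit 617417217657) (nat_lit 1) (nat_lit 5) (nat_lit 3) (nat_lit 4) (nat_lit 1) (nat_lit 4) (nat_lit 519) (nat_lit 390) (nat_lit 291)) (XT.lf (nat_lit 0) (nat_lit 685727810024) (nat_lit 152) (nat_lit 4634173133581) (nat_lit 0) (nat_lit 682329624045) (nat_lit 1) (nat_lit 5) (nat_lit 3) (nat_lit 4) (nat_lit 1) (nat_lit 4) (nat_lit 520) (nat_lit 390) (nat_lit 290)))))) (XT.nd (nat_lit 468) (nat_lit 0) (nat_lit 0) (XT.nd (nat_lit 234) (nat_lit 0) (nat_lit 0) (XT.nd (nat_lit 78) (nat_lit 0) (nat_lit 0) (XT.lf (nat_lit 0) (nat_lit 755832256491) (nat_lit 152) (nat_lit 4972901212676) (nat_lit 0) (nat_lit 752433956030) (nat_lit 1) (nat_lit 5) (nat_lit 3) (nat_lit 4) (nat_lit 1) (nat_lit 4) (nat_lit 521) (nat_lit 390) (nat_lit 289)) (XT.nd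 (nat_lit 78) (nat_lit 0) (nat_lit 0) (XT.lf (nat_lit 0) (nat_lit 831544053153) (nat_lit 152) (nat_lit 5338729611955) (nat_lit 0) (nat_lit 828145646691) (nat_lit 1) (nat_lit 5) (nat_lit 3) (nat_lit 4) (nat_lit 1) (nat_lit 4) (nat_lit 522) (nat_lit 390) (nat_lit 288)) (XT.lf (nat_lit 0) (nat_lit 913311862509) (nat_lit 152) (nat_lit 5733826203412) (nat_lit 0) (nat_lit 909913357898) (nat_lit 1) (nat_lit 5) (nat_lit 3) (nat_lit 4) (nat_lit 1) (nat_lit 4) (nat_lit 523) (nat_lit 390) (nat_lit 287)))) (XT.nd (nat_lit 78) (nat_lit 0) (nat_lit 0) (XT.lf (nat_lit 0) (nat_lit 1001620234541) (nat_lit 152) (nat_lit 6160532300183) (nat_lit 0) (nat_lit 998221639050) (nat_lit 1) (nat_lit 5) (nat_lit 3) (nat_lit 4) (nat_lit 1) (nat_lit 4) (nat_lit 524) (nat_lit 390) (nat_lit 286)) (XT.nd (nat_lit 78) (nat_lit 0) (nat_lit 0) (XT.lf (nat_lit 0) (nat_lit 1096992478119) (nat_lit 152) (nat_lit 6621376530989)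 (nat_lit 0) (nat_lit 1093593798481) (nat_lit 1) (nat_lit 5) (nat_lit 3) (nat_lit 4) (nat_lit 1) (nat_lit 4) (nat_lit 525) (nat_lit 390) (nat_lit 285)) (XT.lf (nat_lit 0) (nat_lit 1199993762095) (nat_lit 152) (nat_lit 7119089824605) (nat_lit 0) (nat_lit 1196595004543) (nat_lit 1) (nat_lit 5) (nat_lit 3) (nat_lit 4) (nat_lit 1) (nat_lit 4) (nat_lit 526) (nat_lit 390) (nat_lit 284))))) (XT.nd (nat_lit 234) (nat_lit 0) (nat_lit 0) (XT.nd (nat_lit 78) (nat_lit 0) (nat_lit 0) (XT.lf (nat_lit 0) (nat_lit 1311234464448) (nat_lit 152) (nat_lit 7656621593141) (nat_lit 0) (nat_lit 1307835634753) (nat_lit 1) (nat_lit 5) (nat_lit 3) (nat_lit 4) (nat_lit 1) (nat_lit 4) (nat_lit 527) (nat_lit 390) (nat_lit 283)) (XT.nd (nat_lit 78) (nat_lit 0) (nat_lit 0) (XT.lf (nat_lit 0) (nat_lit 1431373789339) (nat_lit 152) (nat_lit 8237157210042) (nat_lit 0) (nat_lit 1427974892846) (nat_lit 1) (nat_lit 5) (nat_lit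 3) (nat_lit 4) (nat_lit 1) (nat_lit 4) (nat_lit 528) (nat_lit 390) (nat_lit 282)) (XT.lf (nat_lit 0) (nat_lit 1561123673510) (nat_lit 152) (nat_lit 8864136886369) (nat_lit 0) (nat_lit 1557724715165) (nat_lit 1) (nat_lit 5) (nat_lit 3) (nat_lit 4) (nat_lit 1) (nat_lit 4) (nat_lit 529) (nat_lit 390) (nat_lit 281)))) (XT.nd (nat_lit 53742) (nat_lit 0) (nat_lit 3952) (XT.lf (nat_lit 0) (nat_lit 1701253005162) (nat_lit 152) (nat_lit 9541276057241) (nat_lit 0) (nat_lit 1697853989548) (nat_lit 1) (nat_lit 5) (nat_lit 3) (nat_lit 4) (nat_lit 1) (nat_lit 4) (nat_lit 530) (nat_lit 390) (nat_lit 280)) (XT.nd (nat_lit 78) (nat_lit 152) (nat_lit 0) (XT.lf (nat_lit 0) (nat_lit 1797076958) (nat_lit 228) (nat_lit 814964899) (nat_lit 0) (nat_lit 1797076958) (nat_lit 55) (nat_lit 5) (nat_lit 58) (nat_lit 4) (nat_lit 55) (nat_lit 4) (nat_lit 418) (nat_lit 391) (nat_lit 391)) (XT.lf (nat_lit 0) (nat_lit 6216601545)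 (nat_lit 152) (nat_lit 1908727153) (nat_lit 152) (nat_lit 976944348) (nat_lit 53) (nat_lit 4) (nat_lit 55) (nat_lit 5) (nat_lit 55) (nat_lit 4) (nat_lit 419) (nat_lit 391) (nat_lit 390))))))))
noncomputable def xc69 : XT := (XT.nd (nat_lit 1794) (nat_lit 1140) (nat_lit 0) (XT.nd (nat_lit 858) (nat_lit 912) (nat_lit 0) (XT.nd (nat_lit 390) (nat_lit 684) (nat_lit 0) (XT.nd (nat_lit 156) (nat_lit 380) (nat_lit 0) (XT.nd (nat_lit 78) (nat_lit 152) (nat_lit 0) (XT.lf (nat_lit 0) (nat_lit 3377228004) (nat_lit 228) (nat_lit 4313481759) (nat_lit 0) (nat_lit 1715612578) (nat_lit 50) (nat_lit 5) (nat_lit 53) (nat_lit 4) (nat_lit 50) (nat_lit 4) (nat_lit 420) (nat_lit 391) (nat_lit 389)) (XT.lf (nat_lit 0) (nat_lit 3846602077) (nat_lit 152) (nat_lit 4145118220) (nat_lit 152) (nat_lit 1743823563) (nat_lit 48) (nat_lit 4) (nat_lit 50) (nat_lit 5) (nat_lit 50) (nat_lit 4) (nat_lit 421) (nat_lit 391)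 (nat_lit 388))) (XT.nd (nat_lit 78) (nat_lit 228) (nat_lit 0) (XT.lf (nat_lit 0) (nat_lit 2456392783) (nat_lit 76) (nat_lit 208307032) (nat_lit 152) (nat_lit 7426927956) (nat_lit 46) (nat_lit 5) (nat_lit 47) (nat_lit 5) (nat_lit 48) (nat_lit 4) (nat_lit 422) (nat_lit 391) (nat_lit 387)) (XT.nd (nat_lit 78) (nat_lit 76) (nat_lit 0) (XT.lf (nat_lit 0) (nat_lit 812343533) (nat_lit 152) (nat_lit 6551242578) (nat_lit 152) (nat_lit 3106484657) (nat_lit 44) (nat_lit 4) (nat_lit 46) (nat_lit 5) (nat_lit 46) (nat_lit 4) (nat_lit 423) (nat_lit 391) (nat_lit 386)) (XT.lf (nat_lit 0) (nat_lit 1453392363) (nat_lit 228) (nat_lit 965388121) (nat_lit 76) (nat_lit 8459303394) (nat_lit 43) (nat_lit 5) (nat_lit 46) (nat_lit 5) (nat_lit 44) (nat_lit 4) (nat_lit 424) (nat_lit 391) (nat_lit 385))))) (XT.nd (nat_lit 234) (nat_lit 304) (nat_lit 0) (XT.nd (nat_lit 78) (nat_lit 304) (nat_lit 0) (XT.lf (nat_lit 0)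 (nat_lit 6234567760) (nat_lit 152) (nat_lit 3000365234) (nat_lit 0) (nat_lit 2075440452) (nat_lit 42) (nat_lit 5) (nat_lit 44) (nat_lit 4) (nat_lit 42) (nat_lit 4) (nat_lit 425) (nat_lit 391) (nat_lit 384)) (XT.nd (nat_lit 78) (nat_lit 152) (nat_lit 0) (XT.lf (nat_lit 0) (nat_lit 6469999169) (nat_lit 152) (nat_lit 4948203785) (nat_lit 152) (nat_lit 357480749) (nat_lit 40) (nat_lit 4) (nat_lit 42) (nat_lit 5) (nat_lit 42) (nat_lit 4) (nat_lit 426) (nat_lit 391) (nat_lit 383)) (XT.lf (nat_lit 0) (nat_lit 4296714679) (nat_lit 76) (nat_lit 168219641) (nat_lit 152) (nat_lit 7807105477) (nat_lit 38) (nat_lit 5) (nat_lit 39) (nat_lit 5) (nat_lit 40) (nat_lit 4) (nat_lit 427) (nat_lit 391) (nat_lit 382)))) (XT.nd (nat_lit 78) (nat_lit 152) (nat_lit 0) (XT.lf (nat_lit 0) (nat_lit 1723378184) (nat_lit 152) (nat_lit 8020074490) (nat_lit 152) (nat_lit 3056766637) (nat_lit 36) (nat_lit 4) (nat_lit 38)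 (nat_lit 5) (nat_lit 38) (nat_lit 4) (nat_lit 428) (nat_lit 391) (nat_lit 381)) (XT.nd (nat_lit 78) (nat_lit 76) (nat_lit 0) (XT.lf (nat_lit 0) (nat_lit 1978539887) (nat_lit 228) (nat_lit 1165180629) (nat_lit 76) (nat_lit 10222273102) (nat_lit 35) (nat_lit 5) (nat_lit 38) (nat_lit 5) (nat_lit 36) (nat_lit 4) (nat_lit 429) (nat_lit 391) (nat_lit 380)) (XT.lf (nat_lit 0) (nat_lit 7333377817) (nat_lit 152) (nat_lit 4458767037) (nat_lit 0) (nat_lit 2172007080) (nat_lit 34) (nat_lit 5) (nat_lit 36) (nat_lit 4) (nat_lit 34) (nat_lit 4) (nat_lit 430) (nat_lit 391) (nat_lit 379)))))) (XT.nd (nat_lit 468) (nat_lit 456) (nat_lit 0) (XT.nd (nat_lit 234) (nat_lit 228) (nat_lit 0) (XT.nd (nat_lit 78) (nat_lit 152) (nat_lit 0) (XT.lf (nat_lit 0) (nat_lit 6347282885) (nat_lit 76) (nat_lit 6835407988) (nat_lit 76) (nat_lit 1422205289) (nat_lit 33) (nat_lit 4) (nat_lit 34) (nat_lit 5) (nat_lit 34) (nat_lit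 4) (nat_lit 431) (nat_lit 391) (nat_lit 378)) (XT.nd (nat_lit 78) (nat_lit 0) (nat_lit 0) (XT.lf (nat_lit 0) (nat_lit 2634772534) (nat_lit 76) (nat_lit 1346551011) (nat_lit 152) (nat_lit 11308424870) (nat_lit 31) (nat_lit 5) (nat_lit 32) (nat_lit 5) (nat_lit 33) (nat_lit 4) (nat_lit 432) (nat_lit 391) (nat_lit 377)) (XT.lf (nat_lit 0) (nat_lit 9884005720) (nat_lit 152) (nat_lit 1674984091) (nat_lit 0) (nat_lit 4455963352) (nat_lit 31) (nat_lit 5) (nat_lit 33) (nat_lit 4) (nat_lit 31) (nat_lit 4) (nat_lit 433) (nat_lit 391) (nat_lit 376)))) (XT.nd (nat_lit 78) (nat_lit 152) (nat_lit 0) (XT.lf (nat_lit 0) (nat_lit 10313584339) (nat_lit 76) (nat_lit 6044892643) (nat_lit 76) (nat_lit 431746266) (nat_lit 30) (nat_lit 4) (nat_lit 31) (nat_lit 5) (nat_lit 31) (nat_lit 4) (nat_lit 434) (nat_lit 391) (nat_lit 375)) (XT.nd (nat_lit 78) (nat_lit 0) (nat_lit 0) (XT.lf (nat_lit 0) (nat_lit 5436097200)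 (nat_lit 152) (nat_lit 12100455055) (nat_lit 0) (nat_lit 80042590) (nat_lit 28) (nat_lit 5) (nat_lit 30) (nat_lit 4) (nat_lit 28) (nat_lit 4) (nat_lit 435) (nat_lit 391) (nat_lit 374)) (XT.lf (nat_lit 0) (nat_lit 11907340665) (nat_lit 152) (nat_lit 183921845) (nat_lit 0) (nat_lit 6404344524) (nat_lit 28) (nat_lit 5) (nat_lit 30) (nat_lit 4) (nat_lit 28) (nat_lit 4) (nat_lit 436) (nat_lit 391) (nat_lit 373))))) (XT.nd (nat_lit 234) (nat_lit 228) (nat_lit 0) (XT.nd (nat_lit 78) (nat_lit 152) (nat_lit 0) (XT.lf (nat_lit 0) (nat_lit 13010024683) (nat_lit 76) (nat_lit 6031192457) (nat_lit 76) (nat_lit 392139343) (nat_lit 27) (nat_lit 4) (nat_lit 28) (nat_lit 5) (nat_lit 28) (nat_lit 4) (nat_lit 437) (nat_lit 391) (nat_lit 372)) (XT.nd (nat_lit 78) (nat_lit 0) (nat_lit 0) (XT.lf (nat_lit 0) (nat_lit 5999670560) (nat_lit 152) (nat_lit 13771455725) (nat_lit 0) (nat_lit 661678160) (nat_lit 25) (nat_lit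 5) (nat_lit 27) (nat_lit 4) (nat_lit 25) (nat_lit 4) (nat_lit 438) (nat_lit 391) (nat_lit 371)) (XT.lf (nat_lit 0) (nat_lit 13052028543) (nat_lit 152) (nat_lit 839712724) (nat_lit 0) (nat_lit 7606029731) (nat_lit 25) (nat_lit 5) (nat_lit 27) (nat_lit 4) (nat_lit 25) (nat_lit 4) (nat_lit 439) (nat_lit 391) (nat_lit 370)))) (XT.nd (nat_lit 78) (nat_lit 152) (nat_lit 0) (XT.lf (nat_lit 0) (nat_lit 13497844654) (nat_lit 76) (nat_lit 7341231475) (nat_lit 76) (nat_lit 1795226726) (nat_lit 24) (nat_lit 4) (nat_lit 25) (nat_lit 5) (nat_lit 25) (nat_lit 4) (nat_lit 440) (nat_lit 391) (nat_lit 369)) (XT.nd (nat_lit 78) (nat_lit 0) (nat_lit 0) (XT.lf (nat_lit 0) (nat_lit 4985105480) (nat_lit 76) (nat_lit 122446595) (nat_lit 152) (nat_lit 18744669432) (nat_lit 22) (nat_lit 5) (nat_lit 23) (nat_lit 5) (nat_lit 24) (nat_lit 4) (nat_lit 441) (nat_lit 391) (nat_lit 368)) (XT.lf (nat_lit 0) (nat_lit 12753399925)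 (nat_lit 152) (nat_lit 4934339500) (nat_lit 0) (nat_lit 7453083434) (nat_lit 22) (nat_lit 5) (nat_lit 24) (nat_lit 4) (nat_lit 22) (nat_lit 4) (nat_lit 442) (nat_lit 391) (nat_lit 367))))))) (XT.nd (nat_lit 936) (nat_lit 456) (nat_lit 0) (XT.nd (nat_lit 468) (nat_lit 228) (nat_lit 0) (XT.nd (nat_lit 234) (nat_lit 228) (nat_lit 0) (XT.nd (nat_lit 78) (nat_lit 152) (nat_lit 0) (XT.lf (nat_lit 0) (nat_lit 10344900974) (nat_lit 76) (nat_lit 10776308788) (nat_lit 76) (nat_lit 5402484948) (nat_lit 21) (nat_lit 4) (nat_lit 22) (nat_lit 5) (nat_lit 22) (nat_lit 4) (nat_lit 443) (nat_lit 391) (nat_lit 366)) (XT.nd (nat_lit 78) (nat_lit 76) (nat_lit 0) (XT.lf (nat_lit 0) (nat_lit 2031159440) (nat_lit 152) (nat_lit 1217074564) (nat_lit 76) (nat_lit 24765085600) (nat_lit 20) (nat_lit 5) (nat_lit 22) (nat_lit 5) (nat_lit 21) (nat_lit 4) (nat_lit 444) (nat_lit 391) (nat_lit 365)) (XT.lf (nat_lit 0) (nat_lit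 10132260229) (nat_lit 152) (nat_lit 14414337663) (nat_lit 0) (nat_lit 5035124207) (nat_lit 19) (nat_lit 5) (nat_lit 21) (nat_lit 4) (nat_lit 19) (nat_lit 4) (nat_lit 445) (nat_lit 391) (nat_lit 364)))) (XT.nd (nat_lit 78) (nat_lit 152) (nat_lit 0) (XT.lf (nat_lit 0) (nat_lit 1380384971) (nat_lit 76) (nat_lit 17522340108) (nat_lit 76) (nat_lit 12371173990) (nat_lit 18) (nat_lit 4) (nat_lit 19) (nat_lit 5) (nat_lit 19) (nat_lit 4) (nat_lit 446) (nat_lit 391) (nat_lit 363)) (XT.nd (nat_lit 78) (nat_lit 152) (nat_lit 0) (XT.lf (nat_lit 0) (nat_lit 19002767406) (nat_lit 76) (nat_lit 9639252684) (nat_lit 76) (nat_lit 4438058700) (nat_lit 18) (nat_lit 4) (nat_lit 19) (nat_lit 5) (nat_lit 19) (nat_lit 4) (nat_lit 447) (nat_lit 391) (nat_lit 362)) (XT.lf (nat_lit 0) (nat_lit 2801944573) (nat_lit 76) (nat_lit 1067988434) (nat_lit 152) (nat_lit 31157132833) (nat_lit 16) (nat_lit 5) (nat_lit 17) (nat_lit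 5) (nat_lit 18) (nat_lit 4) (nat_lit 448) (nat_lit 391) (nat_lit 361))))) (XT.nd (nat_lit 234) (nat_lit 152) (nat_lit 0) (XT.nd (nat_lit 78) (nat_lit 76) (nat_lit 0) (XT.lf (nat_lit 0) (nat_lit 13074416703) (nat_lit 152) (nat_lit 15832554783) (nat_lit 0) (nat_lit 8175891782) (nat_lit 16) (nat_lit 5) (nat_lit 18) (nat_lit 4) (nat_lit 16) (nat_lit 4) (nat_lit 449) (nat_lit 391) (nat_lit 360)) (XT.nd (nat_lit 78) (nat_lit 0) (nat_lit 0) (XT.lf (nat_lit 0) (nat_lit 1703476789) (nat_lit 76) (nat_lit 21269177954) (nat_lit 76) (nat_lit 16333881057) (nat_lit 15) (nat_lit 4) (nat_lit 16) (nat_lit 5) (nat_lit 16) (nat_lit 4) (nat_lit 450) (nat_lit 391) (nat_lit 359)) (XT.lf (nat_lit 0) (nat_lit 21323093936) (nat_lit 76) (nat_lit 12664196441) (nat_lit 76) (nat_lit 7694851419) (nat_lit 15) (nat_lit 4) (nat_lit 16) (nat_lit 5) (nat_lit 16) (nat_lit 4) (nat_lit 451) (nat_lit 391) (nat_lit 358)))) (XT.nd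 (nat_lit 78) (nat_lit 76) (nat_lit 0) (XT.lf (nat_lit 0) (nat_lit 1450562446) (nat_lit 152) (nat_lit 1983701174) (nat_lit 76) (nat_lit 40818623385) (nat_lit 14) (nat_lit 5) (nat_lit 16) (nat_lit 5) (nat_lit 15) (nat_lit 4) (nat_lit 452) (nat_lit 391) (nat_lit 357)) (XT.nd (nat_lit 78) (nat_lit 0) (nat_lit 0) (XT.lf (nat_lit 0) (nat_lit 11430280735) (nat_lit 152) (nat_lit 28768736456) (nat_lit 0) (nat_lit 6772816065) (nat_lit 13) (nat_lit 5) (nat_lit 15) (nat_lit 4) (nat_lit 13) (nat_lit 4) (nat_lit 453) (nat_lit 391) (nat_lit 356)) (XT.lf (nat_lit 0) (nat_lit 22258140747) (nat_lit 152) (nat_lit 10070525648) (nat_lit 0) (nat_lit 17575649688) (nat_lit 13) (nat_lit 5) (nat_lit 15) (nat_lit 4) (nat_lit 13) (nat_lit 4) (nat_lit 454) (nat_lit 391) (nat_lit 355)))))) (XT.nd (nat_lit 468) (nat_lit 228) (nat_lit 0) (XT.nd (nat_lit 234) (nat_lit 76) (nat_lit 0) (XT.nd (nat_lit 78) (nat_lit 76) (nat_lit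 0) (XT.lf (nat_lit 0) (nat_lit 10467918888) (nat_lit 76) (nat_lit 23648023563) (nat_lit 76) (nat_lit 18942359922) (nat_lit 12) (nat_lit 4) (nat_lit 13) (nat_lit 5) (nat_lit 13) (nat_lit 4) (nat_lit 455) (nat_lit 391) (nat_lit 354)) (XT.nd (nat_lit 78) (nat_lit 76) (nat_lit 0) (XT.lf (nat_lit 0) (nat_lit 33047426371) (nat_lit 76) (nat_lit 14064566352) (nat_lit 76) (nat_lit 9337446617) (nat_lit 12) (nat_lit 4) (nat_lit 13) (nat_lit 5) (nat_lit 13) (nat_lit 4) (nat_lit 456) (nat_lit 391) (nat_lit 353)) (XT.lf (nat_lit 0) (nat_lit 902606887) (nat_lit 152) (nat_lit 2869564164) (nat_lit 76) (nat_lit 56344219498) (nat_lit 11) (nat_lit 5) (nat_lit 13) (nat_lit 5) (nat_lit 12) (nat_lit 4) (nat_lit 457) (nat_lit 391) (nat_lit 352)))) (XT.nd (nat_lit 78) (nat_lit 0) (nat_lit 0) (XT.lf (nat_lit 0) (nat_lit 12054173370) (nat_lit 152) (nat_lit 44313598532) (nat_lit 0) (nat_lit 7641782970) (nat_lit 10)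 (nat_lit 5) (nat_lit 12) (nat_lit 4) (nat_lit 10) (nat_lit 4) (nat_lit 458) (nat_lit 391) (nat_lit 351)) (XT.nd (nat_lit 78) (nat_lit 0) (nat_lit 0) (XT.lf (nat_lit 0) (nat_lit 24201079539) (nat_lit 152) (nat_lit 24231918656) (nat_lit 0) (nat_lit 19772918268) (nat_lit 10) (nat_lit 5) (nat_lit 12) (nat_lit 4) (nat_lit 10) (nat_lit 4) (nat_lit 459) (nat_lit 391) (nat_lit 350)) (XT.lf (nat_lit 0) (nat_lit 37250052120) (nat_lit 152) (nat_lit 2686222732) (nat_lit 0) (nat_lit 32807288193) (nat_lit 10) (nat_lit 5) (nat_lit 12) (nat_lit 4) (nat_lit 10) (nat_lit 4) (nat_lit 460) (nat_lit 391) (nat_lit 349))))) (XT.nd (nat_lit 234) (nat_lit 152) (nat_lit 0) (XT.nd (nat_lit 78) (nat_lit 0) (nat_lit 0) (XT.lf (nat_lit 0) (nat_lit 21528089672) (nat_lit 76) (nat_lit 30268079761) (nat_lit 76) (nat_lit 25811794855) (nat_lit 9) (nat_lit 4) (nat_lit 10) (nat_lit 5) (nat_lit 10) (nat_lit 4) (nat_lit 461)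 (nat_lit 391) (nat_lit 348)) (XT.nd (nat_lit 78) (nat_lit 0) (nat_lit 0) (XT.lf (nat_lit 0) (nat_lit 47703694304) (nat_lit 76) (nat_lit 19812890007) (nat_lit 76) (nat_lit 15344085676) (nat_lit 9) (nat_lit 4) (nat_lit 10) (nat_lit 5) (nat_lit 10) (nat_lit 4) (nat_lit 462) (nat_lit 391) (nat_lit 347)) (XT.lf (nat_lit 0) (nat_lit 75854254128) (nat_lit 76) (nat_lit 8582195000) (nat_lit 76) (nat_lit 4101798608) (nat_lit 9) (nat_lit 4) (nat_lit 10) (nat_lit 5) (nat_lit 10) (nat_lit 4) (nat_lit 463) (nat_lit 391) (nat_lit 346)))) (XT.nd (nat_lit 78) (nat_lit 0) (nat_lit 0) (XT.lf (nat_lit 0) (nat_lit 7964339361) (nat_lit 152) (nat_lit 82858206167) (nat_lit 0) (nat_lit 3805885860) (nat_lit 7) (nat_lit 5) (nat_lit 9) (nat_lit 4) (nat_lit 7) (nat_lit 4) (nat_lit 464) (nat_lit 391) (nat_lit 345)) (XT.nd (nat_lit 78) (nat_lit 0) (nat_lit 0) (XT.lf (nat_lit 0) (nat_lit 21297698804) (nat_lit 152) (nat_lit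 62727682572) (nat_lit 0) (nat_lit 17130043152) (nat_lit 7) (nat_lit 5) (nat_lit 9) (nat_lit 4) (nat_lit 7) (nat_lit 4) (nat_lit 465) (nat_lit 391) (nat_lit 344)) (XT.lf (nat_lit 0) (nat_lit 35646624424) (nat_lit 152) (nat_lit 41091593326) (nat_lit 0) (nat_lit 31470448262) (nat_lit 7) (nat_lit 5) (nat_lit 9) (nat_lit 4) (nat_lit 7) (nat_lit 4) (nat_lit 466) (nat_lit 391) (nat_lit 343))))))))
noncomputable def xc70 : XT := (XT.nd (nat_lit 1794) (nat_lit 152) (nat_lit 0) (XT.nd (nat_lit 858) (nat_lit 76) (nat_lit 0) (XT.nd (nat_lit 390) (nat_lit 152) (nat_lit 0) (XT.nd (nat_lit 156) (nat_lit 0) (nat_lit 0) (XT.nd (nat_lit 78) (nat_lit 76) (nat_lit 0) (XT.lf (nat_lit 0) (nat_lit 51096146892) (nat_lit 152) (nat_lit 17821724567) (nat_lit 0) (nat_lit 46912081368) (nat_lit 7) (nat_lit 5) (nat_lit 9) (nat_lit 4) (nat_lit 7) (nat_lit 4) (nat_lit 467) (nat_lit 391) (nat_lit 342)) (XT.lf (nat_lit 0)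 (nat_lit 7600002108) (nat_lit 76) (nat_lit 60320597057) (nat_lit 76) (nat_lit 56129226569) (nat_lit 6) (nat_lit 4) (nat_lit 7) (nat_lit 5) (nat_lit 7) (nat_lit 4) (nat_lit 468) (nat_lit 391) (nat_lit 341))) (XT.nd (nat_lit 78) (nat_lit 0) (nat_lit 0) (XT.lf (nat_lit 0) (nat_lit 35981366033) (nat_lit 76) (nat_lit 50554244547) (nat_lit 76) (nat_lit 46356110203) (nat_lit 6) (nat_lit 4) (nat_lit 7) (nat_lit 5) (nat_lit 7) (nat_lit 4) (nat_lit 469) (nat_lit 391) (nat_lit 340)) (XT.nd (nat_lit 78) (nat_lit 0) (nat_lit 0) (XT.lf (nat_lit 0) (nat_lit 66552092633) (nat_lit 76) (nat_lit 40048216780) (nat_lit 76) (nat_lit 35843819607) (nat_lit 6) (nat_lit 4) (nat_lit 7) (nat_lit 5) (nat_lit 7) (nat_lit 4) (nat_lit 470) (nat_lit 391) (nat_lit 339)) (XT.lf (nat_lit 0) (nat_lit 99493341770) (nat_lit 76) (nat_lit 28740255815) (nat_lit 76) (nat_lit 24530059725) (nat_lit 6) (nat_lit 4) (nat_lit 7) (nat_lit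 5) (nat_lit 7) (nat_lit 4) (nat_lit 471) (nat_lit 391) (nat_lit 338))))) (XT.nd (nat_lit 234) (nat_lit 0) (nat_lit 0) (XT.nd (nat_lit 78) (nat_lit 152) (nat_lit 0) (XT.lf (nat_lit 0) (nat_lit 135000320847) (nat_lit 76) (nat_lit 16563351510) (nat_lit 76) (nat_lit 12347786054) (nat_lit 6) (nat_lit 4) (nat_lit 7) (nat_lit 5) (nat_lit 7) (nat_lit 4) (nat_lit 472) (nat_lit 391) (nat_lit 337)) (XT.nd (nat_lit 78) (nat_lit 76) (nat_lit 0) (XT.lf (nat_lit 0) (nat_lit 736414380) (nat_lit 152) (nat_lit 2688795181) (nat_lit 76) (nat_lit 172526892336) (nat_lit 5) (nat_lit 5) (nat_lit 7) (nat_lit 5) (nat_lit 6) (nat_lit 4) (nat_lit 473) (nat_lit 391) (nat_lit 336)) (XT.lf (nat_lit 0) (nat_lit 15092728821) (nat_lit 152) (nat_lit 162585650584) (nat_lit 0) (nat_lit 11180561730) (nat_lit 4) (nat_lit 5) (nat_lit 6) (nat_lit 4) (nat_lit 4) (nat_lit 4) (nat_lit 474) (nat_lit 391) (nat_lit 335)))) (XT.nd (nat_lit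 78) (nat_lit 0) (nat_lit 0) (XT.lf (nat_lit 0) (nat_lit 30732177994) (nat_lit 152) (nat_lit 145239315213) (nat_lit 0) (nat_lit 26816064258) (nat_lit 4) (nat_lit 5) (nat_lit 6) (nat_lit 4) (nat_lit 4) (nat_lit 4) (nat_lit 475) (nat_lit 391) (nat_lit 334)) (XT.nd (nat_lit 78) (nat_lit 0) (nat_lit 0) (XT.lf (nat_lit 0) (nat_lit 47595224906) (nat_lit 152) (nat_lit 126561986276) (nat_lit 0) (nat_lit 43675456869) (nat_lit 4) (nat_lit 5) (nat_lit 6) (nat_lit 4) (nat_lit 4) (nat_lit 4) (nat_lit 476) (nat_lit 391) (nat_lit 333)) (XT.lf (nat_lit 0) (nat_lit 65781798725) (nat_lit 152) (nat_lit 106442983304) (nat_lit 0) (nat_lit 61858647076) (nat_lit 4) (nat_lit 5) (nat_lit 6) (nat_lit 4) (nat_lit 4) (nat_lit 4) (nat_lit 477) (nat_lit 391) (nat_lit 332)))))) (XT.nd (nat_lit 468) (nat_lit 0) (nat_lit 0) (XT.nd (nat_lit 234) (nat_lit 76) (nat_lit 0) (XT.nd (nat_lit 78) (nat_lit 0) (nat_lit 0) (XT.lf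 (nat_lit 0) (nat_lit 85399671740) (nat_lit 152) (nat_lit 84763082575) (nat_lit 0) (nat_lit 81473387117) (nat_lit 4) (nat_lit 5) (nat_lit 6) (nat_lit 4) (nat_lit 4) (nat_lit 4) (nat_lit 478) (nat_lit 391) (nat_lit 331)) (XT.nd (nat_lit 78) (nat_lit 0) (nat_lit 0) (XT.lf (nat_lit 0) (nat_lit 106565098013) (nat_lit 152) (nat_lit 61393810605) (nat_lit 0) (nat_lit 102635912489) (nat_lit 4) (nat_lit 5) (nat_lit 6) (nat_lit 4) (nat_lit 4) (nat_lit 4) (nat_lit 479) (nat_lit 391) (nat_lit 330)) (XT.lf (nat_lit 0) (nat_lit 129403502293) (nat_lit 152) (nat_lit 36196682818) (nat_lit 0) (nat_lit 125471630748) (nat_lit 4) (nat_lit 5) (nat_lit 6) (nat_lit 4) (nat_lit 4) (nat_lit 4) (nat_lit 480) (nat_lit 391) (nat_lit 329)))) (XT.nd (nat_lit 78) (nat_lit 76) (nat_lit 0) (XT.lf (nat_lit 0) (nat_lit 154050223271) (nat_lit 152) (nat_lit 9022382901) (nat_lit 0) (nat_lit 150115864670) (nat_lit 4) (nat_lit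 5) (nat_lit 6) (nat_lit 4) (nat_lit 4) (nat_lit 4) (nat_lit 481) (nat_lit 391) (nat_lit 328)) (XT.nd (nat_lit 78) (nat_lit 0) (nat_lit 0) (XT.lf (nat_lit 0) (nat_lit 21358563901) (nat_lit 76) (nat_lit 159806425664) (nat_lit 76) (nat_lit 155869764234) (nat_lit 3) (nat_lit 4) (nat_lit 4) (nat_lit 5) (nat_lit 4) (nat_lit 4) (nat_lit 482) (nat_lit 391) (nat_lit 327)) (XT.lf (nat_lit 0) (nat_lit 54648263168) (nat_lit 76) (nat_lit 156030444229) (nat_lit 76) (nat_lit 152091650550) (nat_lit 3) (nat_lit 4) (nat_lit 4) (nat_lit 5) (nat_lit 4) (nat_lit 4) (nat_lit 483) (nat_lit 391) (nat_lit 326))))) (XT.nd (nat_lit 234) (nat_lit 0) (nat_lit 0) (XT.nd (nat_lit 78) (nat_lit 0) (nat_lit 0) (XT.lf (nat_lit 0) (nat_lit 90568884495) (nat_lit 76) (nat_lit 151968973619) (nat_lit 76) (nat_lit 148028205634) (nat_lit 3) (nat_lit 4) (nat_lit 4) (nat_lit 5) (nat_lit 4) (nat_lit 4) (nat_lit 484) (nat_lit 391)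 (nat_lit 325)) (XT.nd (nat_lit 78) (nat_lit 0) (nat_lit 0) (XT.lf (nat_lit 0) (nat_lit 129333290824) (nat_lit 76) (nat_lit 147597945859) (nat_lit 76) (nat_lit 143655349814) (nat_lit 3) (nat_lit 4) (nat_lit 4) (nat_lit 5) (nat_lit 4) (nat_lit 4) (nat_lit 485) (nat_lit 391) (nat_lit 324)) (XT.lf (nat_lit 0) (nat_lit 171171197155) (nat_lit 76) (nat_lit 142891458563) (nat_lit 76) (nat_lit 138947169870) (nat_lit 3) (nat_lit 4) (nat_lit 4) (nat_lit 5) (nat_lit 4) (nat_lit 4) (nat_lit 486) (nat_lit 391) (nat_lit 323)))) (XT.nd (nat_lit 78) (nat_lit 0) (nat_lit 0) (XT.lf (nat_lit 0) (nat_lit 216330531822) (nat_lit 76) (nat_lit 137821621436) (nat_lit 76) (nat_lit 133875765476) (nat_lit 3) (nat_lit 4) (nat_lit 4) (nat_lit 5) (nat_lit 4) (nat_lit 4) (nat_lit 487) (nat_lit 391) (nat_lit 322)) (XT.nd (nat_lit 78) (nat_lit 0) (nat_lit 0) (XT.lf (nat_lit 0) (nat_lit 265078905697) (nat_lit 76) (nat_lit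 132358390999) (nat_lit 76) (nat_lit 128411083866) (nat_lit 3) (nat_lit 4) (nat_lit 4) (nat_lit 5) (nat_lit 4) (nat_lit 4) (nat_lit 488) (nat_lit 391) (nat_lit 321)) (XT.lf (nat_lit 0) (nat_lit 317705198032) (nat_lit 76) (nat_lit 126469392552) (nat_lit 76) (nat_lit 122520741740) (nat_lit 3) (nat_lit 4) (nat_lit 4) (nat_lit 5) (nat_lit 4) (nat_lit 4) (nat_lit 489) (nat_lit 391) (nat_lit 320))))))) (XT.nd (nat_lit 936) (nat_lit 152) (nat_lit 0) (XT.nd (nat_lit 468) (nat_lit 0) (nat_lit 0) (XT.nd (nat_lit 234) (nat_lit 0) (nat_lit 0) (XT.nd (nat_lit 78) (nat_lit 0) (nat_lit 0) (XT.lf (nat_lit 0) (nat_lit 374521268339) (nat_lit 76) (nat_lit 120119728328) (nat_lit 76) (nat_lit 116169833369) (nat_lit 3) (nat_lit 4) (nat_lit 4) (nat_lit 5) (nat_lit 4) (nat_lit 4) (nat_lit 490) (nat_lit 391) (nat_lit 319)) (XT.nd (nat_lit 78) (nat_lit 0) (nat_lit 0) (XT.lf (nat_lit 0) (nat_lit 435863804440) (nat_lit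 76) (nat_lit 113271770686) (nat_lit 76) (nat_lit 109320723738) (nat_lit 3) (nat_lit 4) (nat_lit 4) (nat_lit 5) (nat_lit 4) (nat_lit 4) (nat_lit 491) (nat_lit 391) (nat_lit 318)) (XT.lf (nat_lit 0) (nat_lit 502096317661) (nat_lit 76) (nat_lit 105884939136) (nat_lit 76) (nat_lit 101932825533) (nat_lit 3) (nat_lit 4) (nat_lit 4) (nat_lit 5) (nat_lit 4) (nat_lit 4) (nat_lit 492) (nat_lit 391) (nat_lit 317)))) (XT.nd (nat_lit 78) (nat_lit 0) (nat_lit 0) (XT.lf (nat_lit 0) (nat_lit 573611296970) (nat_lit 76) (nat_lit 97915459862) (nat_lit 76) (nat_lit 93962358615) (nat_lit 3) (nat_lit 4) (nat_lit 4) (nat_lit 5) (nat_lit 4) (nat_lit 4) (nat_lit 493) (nat_lit 391) (nat_lit 316)) (XT.nd (nat_lit 78) (nat_lit 0) (nat_lit 0) (XT.lf (nat_lit 0) (nat_lit 650832534835) (nat_lit 76) (nat_lit 89316106320) (nat_lit 76) (nat_lit 85362090588) (nat_lit 3) (nat_lit 4) (nat_lit 4) (nat_lit 5) (nat_lit 4) (nat_lit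 4) (nat_lit 494) (nat_lit 391) (nat_lit 315)) (XT.lf (nat_lit 0) (nat_lit 734217638593) (nat_lit 76) (nat_lit 80035919379) (nat_lit 76) (nat_lit 76081056901) (nat_lit 3) (nat_lit 4) (nat_lit 4) (nat_lit 5) (nat_lit 4) (nat_lit 4) (nat_lit 495) (nat_lit 391) (nat_lit 314))))) (XT.nd (nat_lit 234) (nat_lit 0) (nat_lit 0) (XT.nd (nat_lit 78) (nat_lit 0) (nat_lit 0) (XT.lf (nat_lit 0) (nat_lit 824260742192) (nat_lit 76) (nat_lit 70019905336) (nat_lit 76) (nat_lit 66064258835) (nat_lit 3) (nat_lit 4) (nat_lit 4) (nat_lit 5) (nat_lit 4) (nat_lit 4) (nat_lit 496) (nat_lit 391) (nat_lit 313)) (XT.nd (nat_lit 78) (nat_lit 0) (nat_lit 0) (XT.lf (nat_lit 0) (nat_lit 921495434394) (nat_lit 76) (nat_lit 59208710037) (nat_lit 76) (nat_lit 55252337588) (nat_lit 3) (nat_lit 4) (nat_lit 4) (nat_lit 5) (nat_lit 4) (nat_lit 4) (nat_lit 497) (nat_lit 391) (nat_lit 312)) (XT.lf (nat_lit 0) (nat_lit 1026497920782)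 (nat_lit 76) (nat_lit 47538267137) (nat_lit 76) (nat_lit 43581222514) (nat_lit 3) (nat_lit 4) (nat_lit 4) (nat_lit 5) (nat_lit 4) (nat_lit 4) (nat_lit 498) (nat_lit 391) (nat_lit 311)))) (XT.nd (nat_lit 78) (nat_lit 0) (nat_lit 0) (XT.lf (nat_lit 0) (nat_lit 1139890438313) (nat_lit 76) (nat_lit 34939418456) (nat_lit 76) (nat_lit 30981751450) (nat_lit 3) (nat_lit 4) (nat_lit 4) (nat_lit 5) (nat_lit 4) (nat_lit 4) (nat_lit 499) (nat_lit 391) (nat_lit 310)) (XT.nd (nat_lit 78) (nat_lit 0) (nat_lit 0) (XT.lf (nat_lit 0) (nat_lit 1262344942645) (nat_lit 76) (nat_lit 21337504152) (nat_lit 76) (nat_lit 17379260865) (nat_lit 3) (nat_lit 4) (nat_lit 4) (nat_lit 5) (nat_lit 4) (nat_lit 4) (nat_lit 500) (nat_lit 391) (nat_lit 309)) (XT.lf (nat_lit 0) (nat_lit 1394587090102) (nat_lit 76) (nat_lit 6651920286) (nat_lit 76) (nat_lit 2693143405) (nat_lit 3) (nat_lit 4) (nat_lit 4) (nat_lit 5) (nat_lit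 4) (nat_lit 4) (nat_lit 501) (nat_lit 391) (nat_lit 308)))))) (XT.nd (nat_lit 468) (nat_lit 0) (nat_lit 0) (XT.nd (nat_lit 234) (nat_lit 0) (nat_lit 0) (XT.nd (nat_lit 78) (nat_lit 0) (nat_lit 0) (XT.lf (nat_lit 0) (nat_lit 13307483464) (nat_lit 152) (nat_lit 1491994058960) (nat_lit 0) (nat_lit 9641491845) (nat_lit 1) (nat_lit 5) (nat_lit 3) (nat_lit 4) (nat_lit 1) (nat_lit 4) (nat_lit 502) (nat_lit 391) (nat_lit 307)) (XT.nd (nat_lit 78) (nat_lit 0) (nat_lit 0) (XT.lf (nat_lit 0) (nat_lit 30873567094) (nat_lit 152) (nat_lit 1576713997583) (nat_lit 0) (nat_lit 27207151892) (nat_lit 1) (nat_lit 5) (nat_lit 3) (nat_lit 4) (nat_lit 1) (nat_lit 4) (nat_lit 503) (nat_lit 391) (nat_lit 306)) (XT.lf (nat_lit 0) (nat_lit 49841216966) (nat_lit 152) (nat_lit 1668219204598) (nat_lit 0) (nat_lit 46174409557) (nat_lit 1) (nat_lit 5) (nat_lit 3) (nat_lit 4) (nat_lit 1) (nat_lit 4) (nat_lit 504) (nat_lit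 391) (nat_lit 305)))) (XT.nd (nat_lit 78) (nat_lit 0) (nat_lit 0) (XT.lf (nat_lit 0) (nat_lit 70322833967) (nat_lit 152) (nat_lit 1767051933085) (nat_lit 0) (nat_lit 66655663403) (nat_lit 1) (nat_lit 5) (nat_lit 3) (nat_lit 4) (nat_lit 1) (nat_lit 4) (nat_lit 505) (nat_lit 391) (nat_lit 304)) (XT.nd (nat_lit 78) (nat_lit 0) (nat_lit 0) (XT.lf (nat_lit 0) (nat_lit 92439790643) (nat_lit 152) (nat_lit 1873797858472) (nat_lit 0) (nat_lit 88772283824) (nat_lit 1) (nat_lit 5) (nat_lit 3) (nat_lit 4) (nat_lit 1) (nat_lit 4) (nat_lit 506) (nat_lit 391) (nat_lit 303)) (XT.lf (nat_lit 0) (nat_lit 116323150440) (nat_lit 152) (nat_lit 1989089549204) (nat_lit 0) (nat_lit 112655332275) (nat_lit 1) (nat_lit 5) (nat_lit 3) (nat_lit 4) (nat_lit 1) (nat_lit 4) (nat_lit 507) (nat_lit 391) (nat_lit 302))))) (XT.nd (nat_lit 234) (nat_lit 0) (nat_lit 0) (XT.nd (nat_lit 78) (nat_lit 0) (nat_lit 0) (XT.lf (nat_lit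 0) (nat_lit 142114444379) (nat_lit 152) (nat_lit 2113610215302) (nat_lit 0) (nat_lit 138446337930) (nat_lit 1) (nat_lit 5) (nat_lit 3) (nat_lit 4) (nat_lit 1) (nat_lit 4) (nat_lit 508) (nat_lit 391) (nat_lit 301)) (XT.nd (nat_lit 78) (nat_lit 0) (nat_lit 0) (XT.lf (nat_lit 0) (nat_lit 169966509758) (nat_lit 152) (nat_lit 2248097757009) (nat_lit 0) (nat_lit 166298136380) (nat_lit 1) (nat_lit 5) (nat_lit 3) (nat_lit 4) (nat_lit 1) (nat_lit 4) (nat_lit 509) (nat_lit 391) (nat_lit 300)) (XT.lf (nat_lit 0) (nat_lit 200044395854) (nat_lit 152) (nat_lit 2393349137534) (nat_lit 0) (nat_lit 196375775318) (nat_lit 1) (nat_lit 5) (nat_lit 3) (nat_lit 4) (nat_lit 1) (nat_lit 4) (nat_lit 510) (nat_lit 391) (nat_lit 299)))) (XT.nd (nat_lit 78) (nat_lit 0) (nat_lit 0) (XT.lf (nat_lit 0) (nat_lit 232526341991) (nat_lit 152) (nat_lit 2550225105800) (nat_lit 0) (nat_lit 228857492606) (nat_lit 1) (nat_lit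 5) (nat_lit 3) (nat_lit 4) (nat_lit 1) (nat_lit 4) (nat_lit 511) (nat_lit 391) (nat_lit 298)) (XT.nd (nat_lit 78) (nat_lit 0) (nat_lit 0) (XT.lf (nat_lit 0) (nat_lit 267604833775) (nat_lit 152) (nat_lit 2719655297175) (nat_lit 0) (nat_lit 263935772493) (nat_lit 1) (nat_lit 5) (nat_lit 3) (nat_lit 4) (nat_lit 1) (nat_lit 4) (nat_lit 512) (nat_lit 391) (nat_lit 297)) (XT.lf (nat_lit 0) (nat_lit 305487743752) (nat_lit 152) (nat_lit 2902643742421) (nat_lit 0) (nat_lit 301818486269) (nat_lit 1) (nat_lit 5) (nat_lit 3) (nat_lit 4) (nat_lit 1) (nat_lit 4) (nat_lit 513) (nat_lit 391) (nat_lit 296))))))))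
noncomputable def xc71 : XT := (XT.nd (nat_lit 55302) (nat_lit 0) (nat_lit 1368) (XT.nd (nat_lit 858) (nat_lit 0) (nat_lit 0) (XT.nd (nat_lit 390) (nat_lit 0) (nat_lit 0) (XT.nd (nat_lit 156) (nat_lit 0) (nat_lit 0) (XT.nd (nat_lit 78) (nat_lit 0) (nat_lit 0) (XT.lf (nat_lit 0) (nat_lit 346399563239) (nat_lit 152) (nat_lit 3100274817510) (nat_lit 0) (nat_lit 342730124088) (nat_lit 1) (nat_lit 5) (nat_lit 3) (nat_lit 4) (nat_lit 1) (nat_lit 4) (nat_lit 514) (nat_lit 391) (nat_lit 295)) (XT.lf (nat_lit 0) (nat_lit 390582732647) (nat_lit 152) (nat_lit 3313719669555) (nat_lit 0) (nat_lit 386913125286) (nat_lit 1) (nat_lit 5) (nat_lit 3) (nat_lit 4) (nat_lit 1) (nat_lit 4) (nat_lit 515) (nat_lit 391) (nat_lit 294))) (XT.nd (nat_lit 78) (nat_lit 0) (nat_lit 0) (XT.lf (nat_lit 0) (nat_lit 438299078167) (nat_lit 152) (nat_lit 3544243156938) (nat_lit 0) (nat_lit 434629315055) (nat_lit 1) (nat_lit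 5) (nat_lit 3) (nat_lit 4) (nat_lit 1) (nat_lit 4) (nat_lit 516) (nat_lit 391) (nat_lit 293)) (XT.nd (nat_lit 78) (nat_lit 0) (nat_lit 0) (XT.lf (nat_lit 0) (nat_lit 489831363327) (nat_lit 152) (nat_lit 3793211344769) (nat_lit 0) (nat_lit 486161456001) (nat_lit 1) (nat_lit 5) (nat_lit 3) (nat_lit 4) (nat_lit 1) (nat_lit 4) (nat_lit 517) (nat_lit 391) (nat_lit 292)) (XT.lf (nat_lit 0) (nat_lit 545484964632) (nat_lit 152) (nat_lit 4062099600086) (nat_lit 0) (nat_lit 541814923774) (nat_lit 1) (nat_lit 5) (nat_lit 3) (nat_lit 4) (nat_lit 1) (nat_lit 4) (nat_lit 518) (nat_lit 391) (nat_lit 291))))) (XT.nd (nat_lit 234) (nat_lit 0) (nat_lit 0) (XT.nd (nat_lit 78) (nat_lit 0) (nat_lit 0) (XT.lf (nat_lit 0) (nat_lit 605589681200) (nat_lit 152) (nat_lit 4352501334775) (nat_lit 0) (nat_lit 601919516703) (nat_lit 1) (nat_lit 5) (nat_lit 3) (nat_lit 4) (nat_lit 1) (nat_lit 4) (nat_lit 519) (nat_lit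 391) (nat_lit 290)) (XT.nd (nat_lit 78) (nat_lit 0) (nat_lit 0) (XT.lf (nat_lit 0) (nat_lit 670501689130) (nat_lit 152) (nat_lit 4666137448002) (nat_lit 0) (nat_lit 666831410151) (nat_lit 1) (nat_lit 5) (nat_lit 3) (nat_lit 4) (nat_lit 1) (nat_lit 4) (nat_lit 520) (nat_lit 391) (nat_lit 289)) (XT.lf (nat_lit 0) (nat_lit 740605652173) (nat_lit 152) (nat_lit 5004866524144) (nat_lit 0) (nat_lit 736935267192) (nat_lit 1) (nat_lit 5) (nat_lit 3) (nat_lit 4) (nat_lit 1) (nat_lit 4) (nat_lit 521) (nat_lit 391) (nat_lit 288)))) (XT.nd (nat_lit 78) (nat_lit 0) (nat_lit 0) (XT.lf (nat_lit 0) (nat_lit 816317001220) (nat_lit 152) (nat_lit 5370695846613) (nat_lit 0) (nat_lit 812646518090) (nat_lit 1) (nat_lit 5) (nat_lit 3) (nat_lit 4) (nat_lit 1) (nat_lit 4) (nat_lit 522) (nat_lit 391) (nat_lit 287)) (XT.nd (nat_lit 78) (nat_lit 0) (nat_lit 0) (XT.lf (nat_lit 0) (nat_lit 898084396118) (nat_lit 152)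 (nat_lit 5765793292876) (nat_lit 0) (nat_lit 894413822109) (nat_lit 1) (nat_lit 5) (nat_lit 3) (nat_lit 4) (nat_lit 1) (nat_lit 4) (nat_lit 523) (nat_lit 391) (nat_lit 286)) (XT.lf (nat_lit 0) (nat_lit 986392384392) (nat_lit 152) (nat_lit 6192500181134) (nat_lit 0) (nat_lit 982721726235) (nat_lit 1) (nat_lit 5) (nat_lit 3) (nat_lit 4) (nat_lit 1) (nat_lit 4) (nat_lit 524) (nat_lit 391) (nat_lit 285)))))) (XT.nd (nat_lit 53976) (nat_lit 0) (nat_lit 3572) (XT.nd (nat_lit 234) (nat_lit 0) (nat_lit 0) (XT.nd (nat_lit 78) (nat_lit 0) (nat_lit 0) (XT.lf (nat_lit 0) (nat_lit 1081764272639) (nat_lit 152) (nat_lit 6653345144799) (nat_lit 0) (nat_lit 1078093536569) (nat_lit 1) (nat_lit 5) (nat_lit 3) (nat_lit 4) (nat_lit 1) (nat_lit 4) (nat_lit 525) (nat_lit 391) (nat_lit 284)) (XT.nd (nat_lit 78) (nat_lit 0) (nat_lit 0) (XT.lf (nat_lit 0) (nat_lit 1184765227605) (nat_lit 152) (nat_lit 7151059116988)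 (nat_lit 0) (nat_lit 1181094419392) (nat_lit 1) (nat_lit 5) (nat_lit 3) (nat_lit 4) (nat_lit 1) (nat_lit 4) (nat_lit 526) (nat_lit 391) (nat_lit 283)) (XT.lf (nat_lit 0) (nat_lit 1296005625318) (nat_lit 152) (nat_lit 7688591513832) (nat_lit 0) (nat_lit 1292334750306) (nat_lit 1) (nat_lit 5) (nat_lit 3) (nat_lit 4) (nat_lit 1) (nat_lit 4) (nat_lit 527) (nat_lit 391) (nat_lit 282)))) (XT.nd (nat_lit 78) (nat_lit 0) (nat_lit 0) (XT.lf (nat_lit 0) (nat_lit 1416144668137) (nat_lit 152) (nat_lit 8269127712499) (nat_lit 0) (nat_lit 1412473731274) (nat_lit 1) (nat_lit 5) (nat_lit 3) (nat_lit 4) (nat_lit 1) (nat_lit 4) (nat_lit 528) (nat_lit 391) (nat_lit 281)) (XT.nd (nat_lit 78) (nat_lit 0) (nat_lit 0) (XT.lf (nat_lit 0) (nat_lit 1545894291128) (nat_lit 152) (nat_lit 8896107927499) (nat_lit 0) (nat_lit 1542223296996) (nat_lit 1) (nat_lit 5) (nat_lit 3) (nat_lit 4) (nat_lit 1) (nat_lit 4) (nat_lit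 529) (nat_lit 391) (nat_lit 280)) (XT.lf (nat_lit 0) (nat_lit 1686023380948) (nat_lit 152) (nat_lit 9573247597143) (nat_lit 0) (nat_lit 1682352333789) (nat_lit 1) (nat_lit 5) (nat_lit 3) (nat_lit 4) (nat_lit 1) (nat_lit 4) (nat_lit 530) (nat_lit 391) (nat_lit 279))))) (XT.nd (nat_lit 234) (nat_lit 532) (nat_lit 0) (XT.nd (nat_lit 78) (nat_lit 228) (nat_lit 0) (XT.lf (nat_lit 0) (nat_lit 430176018) (nat_lit 228) (nat_lit 1862262923) (nat_lit 228) (nat_lit 1862262923) (nat_lit 58) (nat_lit 4) (nat_lit 61) (nat_lit 5) (nat_lit 61) (nat_lit 4) (nat_lit 416) (nat_lit 392) (nat_lit 392)) (XT.nd (nat_lit 78) (nat_lit 152) (nat_lit 0) (XT.lf (nat_lit 0) (nat_lit 323206748) (nat_lit 304) (nat_lit 414561426) (nat_lit 76) (nat_lit 7824082470) (nat_lit 57) (nat_lit 5) (nat_lit 61) (nat_lit 5) (nat_lit 58) (nat_lit 4) (nat_lit 417) (nat_lit 392) (nat_lit 391)) (XT.lf (nat_lit 0) (nat_lit 4471353813)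 (nat_lit 228) (nat_lit 1824004384) (nat_lit 0) (nat_lit 2533245581) (nat_lit 55) (nat_lit 5) (nat_lit 58) (nat_lit 4) (nat_lit 55) (nat_lit 4) (nat_lit 418) (nat_lit 392) (nat_lit 390)))) (XT.nd (nat_lit 78) (nat_lit 380) (nat_lit 0) (XT.lf (nat_lit 0) (nat_lit 5823146030) (nat_lit 152) (nat_lit 3050359273) (nat_lit 152) (nat_lit 249489185) (nat_lit 53) (nat_lit 4) (nat_lit 55) (nat_lit 5) (nat_lit 55) (nat_lit 4) (nat_lit 419) (nat_lit 392) (nat_lit 389)) (XT.nd (nat_lit 78) (nat_lit 152) (nat_lit 0) (XT.lf (nat_lit 0) (nat_lit 3905910336) (nat_lit 228) (nat_lit 4959920215) (nat_lit 0) (nat_lit 572832875) (nat_lit 50) (nat_lit 5) (nat_lit 53) (nat_lit 4) (nat_lit 50) (nat_lit 4) (nat_lit 420) (nat_lit 392) (nat_lit 388)) (XT.lf (nat_lit 0) (nat_lit 2972039740) (nat_lit 152) (nat_lit 5412358852) (nat_lit 152) (nat_lit 1394393214) (nat_lit 48) (nat_lit 4) (nat_lit 50) (nat_lit 5) (nat_lit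 50) (nat_lit 4) (nat_lit 421) (nat_lit 392) (nat_lit 387))))))) (XT.nd (nat_lit 936) (nat_lit 912) (nat_lit 0) (XT.nd (nat_lit 468) (nat_lit 532) (nat_lit 0) (XT.nd (nat_lit 234) (nat_lit 380) (nat_lit 0) (XT.nd (nat_lit 78) (nat_lit 228) (nat_lit 0) (XT.lf (nat_lit 0) (nat_lit 1285910633) (nat_lit 76) (nat_lit 1568912439) (nat_lit 152) (nat_lit 7290749268) (nat_lit 46) (nat_lit 5) (nat_lit 47) (nat_lit 5) (nat_lit 48) (nat_lit 4) (nat_lit 422) (nat_lit 392) (nat_lit 386)) (XT.nd (nat_lit 78) (nat_lit 228) (nat_lit 0) (XT.lf (nat_lit 0) (nat_lit 7390122701) (nat_lit 152) (nat_lit 608084027) (nat_lit 0) (nat_lit 2538916608) (nat_lit 46) (nat_lit 5) (nat_lit 48) (nat_lit 4) (nat_lit 46) (nat_lit 4) (nat_lit 423) (nat_lit 392) (nat_lit 385)) (XT.lf (nat_lit 0) (nat_lit 1288808591) (nat_lit 228) (nat_lit 2673897479) (nat_lit 76) (nat_lit 6992613957) (nat_lit 43) (nat_lit 5) (nat_lit 46) (nat_lit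 5) (nat_lit 44) (nat_lit 4) (nat_lit 424) (nat_lit 392) (nat_lit 384)))) (XT.nd (nat_lit 78) (nat_lit 304) (nat_lit 0) (XT.lf (nat_lit 0) (nat_lit 5880040888) (nat_lit 152) (nat_lit 5032316595) (nat_lit 0) (nat_lit 490464282) (nat_lit 42) (nat_lit 5) (nat_lit 44) (nat_lit 4) (nat_lit 42) (nat_lit 4) (nat_lit 425) (nat_lit 392) (nat_lit 383)) (XT.nd (nat_lit 78) (nat_lit 152) (nat_lit 0) (XT.lf (nat_lit 0) (nat_lit 4144851719) (nat_lit 152) (nat_lit 6762501932) (nat_lit 152) (nat_lit 973299653) (nat_lit 40) (nat_lit 4) (nat_lit 42) (nat_lit 5) (nat_lit 42) (nat_lit 4) (nat_lit 426) (nat_lit 392) (nat_lit 382)) (XT.lf (nat_lit 0) (nat_lit 1567201486) (nat_lit 76) (nat_lit 2147427137) (nat_lit 152) (nat_lit 8676802292) (nat_lit 38) (nat_lit 5) (nat_lit 39) (nat_lit 5) (nat_lit 40) (nat_lit 4) (nat_lit 427) (nat_lit 392) (nat_lit 381))))) (XT.nd (nat_lit 234) (nat_lit 228) (nat_lit 0) (XT.nd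 (nat_lit 78) (nat_lit 304) (nat_lit 0) (XT.lf (nat_lit 0) (nat_lit 8805823127) (nat_lit 152) (nat_lit 1343185202) (nat_lit 0) (nat_lit 2785600299) (nat_lit 38) (nat_lit 5) (nat_lit 40) (nat_lit 4) (nat_lit 38) (nat_lit 4) (nat_lit 428) (nat_lit 392) (nat_lit 380)) (XT.nd (nat_lit 78) (nat_lit 76) (nat_lit 0) (XT.lf (nat_lit 0) (nat_lit 827582500) (nat_lit 228) (nat_lit 4592588025) (nat_lit 76) (nat_lit 8092890734) (nat_lit 35) (nat_lit 5) (nat_lit 38) (nat_lit 5) (nat_lit 36) (nat_lit 4) (nat_lit 429) (nat_lit 392) (nat_lit 379)) (XT.lf (nat_lit 0) (nat_lit 5781761545) (nat_lit 76) (nat_lit 164247921) (nat_lit 152) (nat_lit 8184132744) (nat_lit 34) (nat_lit 5) (nat_lit 35) (nat_lit 5) (nat_lit 36) (nat_lit 4) (nat_lit 430) (nat_lit 392) (nat_lit 378)))) (XT.nd (nat_lit 78) (nat_lit 152) (nat_lit 0) (XT.lf (nat_lit 0) (nat_lit 2080815600) (nat_lit 76) (nat_lit 9518513965) (nat_lit 76) (nat_lit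 3187245347) (nat_lit 33) (nat_lit 4) (nat_lit 34) (nat_lit 5) (nat_lit 34) (nat_lit 4) (nat_lit 431) (nat_lit 392) (nat_lit 377)) (XT.nd (nat_lit 78) (nat_lit 76) (nat_lit 0) (XT.lf (nat_lit 0) (nat_lit 2152217915) (nat_lit 152) (nat_lit 2070560669) (nat_lit 76) (nat_lit 11264241068) (nat_lit 32) (nat_lit 5) (nat_lit 34) (nat_lit 5) (nat_lit 33) (nat_lit 4) (nat_lit 432) (nat_lit 392) (nat_lit 376)) (XT.lf (nat_lit 0) (nat_lit 7843752303) (nat_lit 152) (nat_lit 6788920887) (nat_lit 0) (nat_lit 1596450206) (nat_lit 31) (nat_lit 5) (nat_lit 33) (nat_lit 4) (nat_lit 31) (nat_lit 4) (nat_lit 433) (nat_lit 392) (nat_lit 375)))))) (XT.nd (nat_lit 468) (nat_lit 456) (nat_lit 0) (XT.nd (nat_lit 234) (nat_lit 228) (nat_lit 0) (XT.nd (nat_lit 78) (nat_lit 152) (nat_lit 0) (XT.lf (nat_lit 0) (nat_lit 4765984464) (nat_lit 76) (nat_lit 9337158407) (nat_lit 76) (nat_lit 2918463708) (nat_lit 30) (nat_lit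 4) (nat_lit 31) (nat_lit 5) (nat_lit 31) (nat_lit 4) (nat_lit 434) (nat_lit 392) (nat_lit 374)) (XT.nd (nat_lit 78) (nat_lit 76) (nat_lit 0) (XT.lf (nat_lit 0) (nat_lit 2857696086) (nat_lit 152) (nat_lit 633383691) (nat_lit 76) (nat_lit 14378974889) (nat_lit 29) (nat_lit 5) (nat_lit 31) (nat_lit 5) (nat_lit 30) (nat_lit 4) (nat_lit 435) (nat_lit 392) (nat_lit 373)) (XT.lf (nat_lit 0) (nat_lit 9147778496) (nat_lit 152) (nat_lit 6694242356) (nat_lit 0) (nat_lit 2921544161) (nat_lit 28) (nat_lit 5) (nat_lit 30) (nat_lit 4) (nat_lit 28) (nat_lit 4) (nat_lit 436) (nat_lit 392) (nat_lit 372)))) (XT.nd (nat_lit 78) (nat_lit 152) (nat_lit 0) (XT.lf (nat_lit 0) (nat_lit 6003780317) (nat_lit 76) (nat_lit 10034606736) (nat_lit 76) (nat_lit 3682393722) (nat_lit 27) (nat_lit 4) (nat_lit 28) (nat_lit 5) (nat_lit 28) (nat_lit 4) (nat_lit 437) (nat_lit 392) (nat_lit 371)) (XT.nd (nat_lit 78) (nat_lit 76)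 (nat_lit 0) (XT.lf (nat_lit 0) (nat_lit 2622086388) (nat_lit 152) (nat_lit 1014920249) (nat_lit 76) (nat_lit 17109710473) (nat_lit 26) (nat_lit 5) (nat_lit 28) (nat_lit 5) (nat_lit 27) (nat_lit 4) (nat_lit 438) (nat_lit 392) (nat_lit 370)) (XT.lf (nat_lit 0) (nat_lit 9486515342) (nat_lit 152) (nat_lit 8943382240) (nat_lit 0) (nat_lit 3396824277) (nat_lit 25) (nat_lit 5) (nat_lit 27) (nat_lit 4) (nat_lit 25) (nat_lit 4) (nat_lit 439) (nat_lit 392) (nat_lit 369))))) (XT.nd (nat_lit 234) (nat_lit 228) (nat_lit 0) (XT.nd (nat_lit 78) (nat_lit 152) (nat_lit 0) (XT.lf (nat_lit 0) (nat_lit 4825023729) (nat_lit 76) (nat_lit 12171348974) (nat_lit 76) (nat_lit 5989059820) (nat_lit 24) (nat_lit 4) (nat_lit 25) (nat_lit 5) (nat_lit 25) (nat_lit 4) (nat_lit 440) (nat_lit 392) (nat_lit 368)) (XT.nd (nat_lit 78) (nat_lit 76) (nat_lit 0) (XT.lf (nat_lit 0) (nat_lit 935185836) (nat_lit 152) (nat_lit 4322841586)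 (nat_lit 76) (nat_lit 18968461825) (nat_lit 23) (nat_lit 5) (nat_lit 25) (nat_lit 5) (nat_lit 24) (nat_lit 4) (nat_lit 441) (nat_lit 392) (nat_lit 367)) (XT.lf (nat_lit 0) (nat_lit 8277125191) (nat_lit 152) (nat_lit 14862392840) (nat_lit 0) (nat_lit 2399888095) (nat_lit 22) (nat_lit 5) (nat_lit 24) (nat_lit 4) (nat_lit 22) (nat_lit 4) (nat_lit 442) (nat_lit 392) (nat_lit 366)))) (XT.nd (nat_lit 78) (nat_lit 228) (nat_lit 0) (XT.lf (nat_lit 0) (nat_lit 16333069494) (nat_lit 152) (nat_lit 226390328) (nat_lit 0) (nat_lit 10387770038) (nat_lit 22) (nat_lit 5) (nat_lit 24) (nat_lit 4) (nat_lit 22) (nat_lit 4) (nat_lit 443) (nat_lit 392) (nat_lit 365)) (XT.nd (nat_lit 78) (nat_lit 152) (nat_lit 0) (XT.lf (nat_lit 0) (nat_lit 16146007199) (nat_lit 76) (nat_lit 9154325049) (nat_lit 76) (nat_lit 3146004889) (nat_lit 21) (nat_lit 4) (nat_lit 22) (nat_lit 5) (nat_lit 22) (nat_lit 4) (nat_lit 444)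 (nat_lit 392) (nat_lit 364)) (XT.lf (nat_lit 0) (nat_lit 3595128766) (nat_lit 76) (nat_lit 1049968074) (nat_lit 152) (nat_lit 25413087801) (nat_lit 19) (nat_lit 5) (nat_lit 20) (nat_lit 5) (nat_lit 21) (nat_lit 4) (nat_lit 445) (nat_lit 392) (nat_lit 363))))))))
noncomputable def xc72 : XT := (XT.nd (nat_lit 1794) (nat_lit 304) (nat_lit 0) (XT.nd (nat_lit 858) (nat_lit 380) (nat_lit 0) (XT.nd (nat_lit 390) (nat_lit 304) (nat_lit 0) (XT.nd (nat_lit 156) (nat_lit 152) (nat_lit 0) (XT.nd (nat_lit 78) (nat_lit 76) (nat_lit 0) (XT.lf (nat_lit 0) (nat_lit 13299048376) (nat_lit 152) (nat_lit 10828905233) (nat_lit 0) (nat_lit 7631731006) (nat_lit 19) (nat_lit 5) (nat_lit 21) (nat_lit 4) (nat_lit 19) (nat_lit 4) (nat_lit 446) (nat_lit 392) (nat_lit 362)) (XT.lf (nat_lit 0) (nat_lit 6109431176) (nat_lit 76) (nat_lit 16598263174) (nat_lit 76) (nat_lit 10884623705) (nat_lit 18) (nat_lit 4) (nat_lit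 19) (nat_lit 5) (nat_lit 19) (nat_lit 4) (nat_lit 447) (nat_lit 392) (nat_lit 361))) (XT.nd (nat_lit 78) (nat_lit 152) (nat_lit 0) (XT.lf (nat_lit 0) (nat_lit 24799484545) (nat_lit 76) (nat_lit 8256814989) (nat_lit 76) (nat_lit 2500284689) (nat_lit 18) (nat_lit 4) (nat_lit 19) (nat_lit 5) (nat_lit 19) (nat_lit 4) (nat_lit 448) (nat_lit 392) (nat_lit 360)) (XT.nd (nat_lit 78) (nat_lit 0) (nat_lit 0) (XT.lf (nat_lit 0) (nat_lit 6323460884) (nat_lit 152) (nat_lit 30377629483) (nat_lit 0) (nat_lit 956568260) (nat_lit 16) (nat_lit 5) (nat_lit 18) (nat_lit 4) (nat_lit 16) (nat_lit 4) (nat_lit 449) (nat_lit 392) (nat_lit 359)) (XT.lf (nat_lit 0) (nat_lit 16131178554) (nat_lit 152) (nat_lit 13027157752) (nat_lit 0) (nat_lit 10730237804) (nat_lit 16) (nat_lit 5) (nat_lit 18) (nat_lit 4) (nat_lit 16) (nat_lit 4) (nat_lit 450) (nat_lit 392) (nat_lit 358))))) (XT.nd (nat_lit 234) (nat_lit 76) (nat_lit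 0) (XT.nd (nat_lit 78) (nat_lit 152) (nat_lit 0) (XT.lf (nat_lit 0) (nat_lit 5808667702) (nat_lit 76) (nat_lit 20959111603) (nat_lit 76) (nat_lit 15526644812) (nat_lit 15) (nat_lit 4) (nat_lit 16) (nat_lit 5) (nat_lit 16) (nat_lit 4) (nat_lit 451) (nat_lit 392) (nat_lit 357)) (XT.nd (nat_lit 78) (nat_lit 152) (nat_lit 0) (XT.lf (nat_lit 0) (nat_lit 26703860683) (nat_lit 76) (nat_lit 11814739020) (nat_lit 76) (nat_lit 6353081449) (nat_lit 15) (nat_lit 4) (nat_lit 16) (nat_lit 5) (nat_lit 16) (nat_lit 4) (nat_lit 452) (nat_lit 392) (nat_lit 356)) (XT.lf (nat_lit 0) (nat_lit 1422148732) (nat_lit 76) (nat_lit 1900367999) (nat_lit 152) (nat_lit 44330089140) (nat_lit 13) (nat_lit 5) (nat_lit 14) (nat_lit 5) (nat_lit 15) (nat_lit 4) (nat_lit 453) (nat_lit 392) (nat_lit 355)))) (XT.nd (nat_lit 78) (nat_lit 76) (nat_lit 0) (XT.lf (nat_lit 0) (nat_lit 14062345535) (nat_lit 152) (nat_lit 27572730336)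 (nat_lit 0) (nat_lit 8957056221) (nat_lit 13) (nat_lit 5) (nat_lit 15) (nat_lit 4) (nat_lit 13) (nat_lit 4) (nat_lit 454) (nat_lit 392) (nat_lit 354)) (XT.nd (nat_lit 78) (nat_lit 76) (nat_lit 0) (XT.lf (nat_lit 0) (nat_lit 25629201582) (nat_lit 152) (nat_lit 7637737110) (nat_lit 0) (nat_lit 20502456173) (nat_lit 13) (nat_lit 5) (nat_lit 15) (nat_lit 4) (nat_lit 13) (nat_lit 4) (nat_lit 455) (nat_lit 392) (nat_lit 353)) (XT.lf (nat_lit 0) (nat_lit 14461797403) (nat_lit 76) (nat_lit 23931934480) (nat_lit 76) (nat_lit 18785322317) (nat_lit 12) (nat_lit 4) (nat_lit 13) (nat_lit 5) (nat_lit 13) (nat_lit 4) (nat_lit 456) (nat_lit 392) (nat_lit 352)))))) (XT.nd (nat_lit 468) (nat_lit 152) (nat_lit 0) (XT.nd (nat_lit 234) (nat_lit 76) (nat_lit 0) (XT.nd (nat_lit 78) (nat_lit 152) (nat_lit 0) (XT.lf (nat_lit 0) (nat_lit 38613854744) (nat_lit 76) (nat_lit 13700906690) (nat_lit 76) (nat_lit 8535899384)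 (nat_lit 12) (nat_lit 4) (nat_lit 13) (nat_lit 5) (nat_lit 13) (nat_lit 4) (nat_lit 457) (nat_lit 392) (nat_lit 351)) (XT.nd (nat_lit 78) (nat_lit 76) (nat_lit 0) (XT.lf (nat_lit 0) (nat_lit 2336925226) (nat_lit 152) (nat_lit 321235374) (nat_lit 76) (nat_lit 62158547611) (nat_lit 11) (nat_lit 5) (nat_lit 13) (nat_lit 5) (nat_lit 12) (nat_lit 4) (nat_lit 458) (nat_lit 392) (nat_lit 350)) (XT.lf (nat_lit 0) (nat_lit 14378055869) (nat_lit 152) (nat_lit 45078208371) (nat_lit 0) (nat_lit 9565268170) (nat_lit 10) (nat_lit 5) (nat_lit 12) (nat_lit 4) (nat_lit 10) (nat_lit 4) (nat_lit 459) (nat_lit 392) (nat_lit 349)))) (XT.nd (nat_lit 78) (nat_lit 76) (nat_lit 0) (XT.lf (nat_lit 0) (nat_lit 27396007225) (nat_lit 152) (nat_lit 23595955442) (nat_lit 0) (nat_lit 22569698547) (nat_lit 10) (nat_lit 5) (nat_lit 12) (nat_lit 4) (nat_lit 10) (nat_lit 4) (nat_lit 460) (nat_lit 392) (nat_lit 348)) (XT.nd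 (nat_lit 78) (nat_lit 76) (nat_lit 0) (XT.lf (nat_lit 0) (nat_lit 41395650108) (nat_lit 152) (nat_lit 517308785) (nat_lit 0) (nat_lit 36556822005) (nat_lit 10) (nat_lit 5) (nat_lit 12) (nat_lit 4) (nat_lit 10) (nat_lit 4) (nat_lit 461) (nat_lit 392) (nat_lit 347)) (XT.lf (nat_lit 0) (nat_lit 25573798946) (nat_lit 76) (nat_lit 31501196896) (nat_lit 76) (nat_lit 26650776733) (nat_lit 9) (nat_lit 4) (nat_lit 10) (nat_lit 5) (nat_lit 10) (nat_lit 4) (nat_lit 462) (nat_lit 392) (nat_lit 346))))) (XT.nd (nat_lit 234) (nat_lit 0) (nat_lit 0) (XT.nd (nat_lit 78) (nat_lit 152) (nat_lit 0) (XT.lf (nat_lit 0) (nat_lit 53671343645) (nat_lit 76) (nat_lit 20297616350) (nat_lit 76) (nat_lit 15436462798) (nat_lit 9) (nat_lit 4) (nat_lit 10) (nat_lit 5) (nat_lit 10) (nat_lit 4) (nat_lit 463) (nat_lit 392) (nat_lit 345)) (XT.nd (nat_lit 78) (nat_lit 152) (nat_lit 0) (XT.lf (nat_lit 0) (nat_lit 83914588714)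 (nat_lit 76) (nat_lit 8249969806) (nat_lit 76) (nat_lit 3378877930) (nat_lit 9) (nat_lit 4) (nat_lit 10) (nat_lit 5) (nat_lit 10) (nat_lit 4) (nat_lit 464) (nat_lit 392) (nat_lit 344)) (XT.lf (nat_lit 0) (nat_lit 9598478158) (nat_lit 152) (nat_lit 87440767619) (nat_lit 0) (nat_lit 5079687392) (nat_lit 7) (nat_lit 5) (nat_lit 9) (nat_lit 4) (nat_lit 7) (nat_lit 4) (nat_lit 465) (nat_lit 392) (nat_lit 343)))) (XT.nd (nat_lit 78) (nat_lit 0) (nat_lit 0) (XT.lf (nat_lit 0) (nat_lit 23924655123) (nat_lit 152) (nat_lit 65851364732) (nat_lit 0) (nat_lit 19397974996) (nat_lit 7) (nat_lit 5) (nat_lit 9) (nat_lit 4) (nat_lit 7) (nat_lit 4) (nat_lit 466) (nat_lit 392) (nat_lit 342)) (XT.nd (nat_lit 78) (nat_lit 0) (nat_lit 0) (XT.lf (nat_lit 0) (nat_lit 39353114022) (nat_lit 152) (nat_lit 42624724083) (nat_lit 0) (nat_lit 34819128930) (nat_lit 7) (nat_lit 5) (nat_lit 9) (nat_lit 4) (nat_lit 7) (nat_lit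 4) (nat_lit 467) (nat_lit 392) (nat_lit 341)) (XT.lf (nat_lit 0) (nat_lit 55975282757) (nat_lit 152) (nat_lit 17623206320) (nat_lit 0) (nat_lit 51434533810) (nat_lit 7) (nat_lit 5) (nat_lit 9) (nat_lit 4) (nat_lit 7) (nat_lit 4) (nat_lit 468) (nat_lit 392) (nat_lit 340))))))) (XT.nd (nat_lit 858) (nat_lit 76) (nat_lit 0) (XT.nd (nat_lit 390) (nat_lit 152) (nat_lit 0) (XT.nd (nat_lit 156) (nat_lit 0) (nat_lit 0) (XT.nd (nat_lit 78) (nat_lit 0) (nat_lit 0) (XT.lf (nat_lit 0) (nat_lit 9791138079) (nat_lit 76) (nat_lit 64334002098) (nat_lit 76) (nat_lit 59786990322) (nat_lit 6) (nat_lit 4) (nat_lit 7) (nat_lit 5) (nat_lit 7) (nat_lit 4) (nat_lit 469) (nat_lit 392) (nat_lit 339)) (XT.lf (nat_lit 0) (nat_lit 40325741799) (nat_lit 76) (nat_lit 53846507515) (nat_lit 76) (nat_lit 49293696823) (nat_lit 6) (nat_lit 4) (nat_lit 7) (nat_lit 5) (nat_lit 7) (nat_lit 4) (nat_lit 470) (nat_lit 392) (nat_lit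 338))) (XT.nd (nat_lit 78) (nat_lit 0) (nat_lit 0) (XT.lf (nat_lit 0) (nat_lit 73233543825) (nat_lit 76) (nat_lit 42555706905) (nat_lit 76) (nat_lit 37997526845) (nat_lit 6) (nat_lit 4) (nat_lit 7) (nat_lit 5) (nat_lit 7) (nat_lit 4) (nat_lit 471) (nat_lit 392) (nat_lit 337)) (XT.nd (nat_lit 78) (nat_lit 0) (nat_lit 0) (XT.lf (nat_lit 0) (nat_lit 108709553354) (nat_lit 76) (nat_lit 30394691818) (nat_lit 76) (nat_lit 25831540123) (nat_lit 6) (nat_lit 4) (nat_lit 7) (nat_lit 5) (nat_lit 7) (nat_lit 4) (nat_lit 472) (nat_lit 392) (nat_lit 336)) (XT.lf (nat_lit 0) (nat_lit 146963998590) (nat_lit 76) (nat_lit 17291396982) (nat_lit 76) (nat_lit 12723641920) (nat_lit 6) (nat_lit 4) (nat_lit 7) (nat_lit 5) (nat_lit 7) (nat_lit 4) (nat_lit 473) (nat_lit 392) (nat_lit 335))))) (XT.nd (nat_lit 234) (nat_lit 0) (nat_lit 0) (XT.nd (nat_lit 78) (nat_lit 76) (nat_lit 0) (XT.lf (nat_lit 0) (nat_lit 1333618224)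 (nat_lit 152) (nat_lit 1798091530) (nat_lit 76) (nat_lit 186853490833) (nat_lit 5) (nat_lit 5) (nat_lit 7) (nat_lit 5) (nat_lit 6) (nat_lit 4) (nat_lit 474) (nat_lit 392) (nat_lit 334)) (XT.nd (nat_lit 78) (nat_lit 0) (nat_lit 0) (XT.lf (nat_lit 0) (nat_lit 16837796894) (nat_lit 152) (nat_lit 174486048692) (nat_lit 0) (nat_lit 12600793113) (nat_lit 4) (nat_lit 5) (nat_lit 6) (nat_lit 4) (nat_lit 4) (nat_lit 4) (nat_lit 475) (nat_lit 392) (nat_lit 333)) (XT.lf (nat_lit 0) (nat_lit 33688576092) (nat_lit 152) (nat_lit 155833966043) (nat_lit 0) (nat_lit 29448188699) (nat_lit 4) (nat_lit 5) (nat_lit 6) (nat_lit 4) (nat_lit 4) (nat_lit 4) (nat_lit 476) (nat_lit 392) (nat_lit 332)))) (XT.nd (nat_lit 78) (nat_lit 0) (nat_lit 0) (XT.lf (nat_lit 0) (nat_lit 51863790916) (nat_lit 152) (nat_lit 135738339264) (nat_lit 0) (nat_lit 47620270549) (nat_lit 4) (nat_lit 5) (nat_lit 6) (nat_lit 4) (nat_lit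 4) (nat_lit 4) (nat_lit 477) (nat_lit 392) (nat_lit 331)) (XT.nd (nat_lit 78) (nat_lit 0) (nat_lit 0) (XT.lf (nat_lit 0) (nat_lit 71471146343) (nat_lit 152) (nat_lit 114080083158) (nat_lit 0) (nat_lit 67224725074) (nat_lit 4) (nat_lit 5) (nat_lit 6) (nat_lit 4) (nat_lit 4) (nat_lit 4) (nat_lit 478) (nat_lit 392) (nat_lit 330)) (XT.lf (nat_lit 0) (nat_lit 92626834108) (nat_lit 152) (nat_lit 90730852506) (nat_lit 0) (nat_lit 88377726820) (nat_lit 4) (nat_lit 5) (nat_lit 6) (nat_lit 4) (nat_lit 4) (nat_lit 4) (nat_lit 479) (nat_lit 392) (nat_lit 329)))))) (XT.nd (nat_lit 468) (nat_lit 0) (nat_lit 0) (XT.nd (nat_lit 234) (nat_lit 76) (nat_lit 0) (XT.nd (nat_lit 78) (nat_lit 0) (nat_lit 0) (XT.lf (nat_lit 0) (nat_lit 115456221252) (nat_lit 152) (nat_lit 65552281494) (nat_lit 0) (nat_lit 111204626907) (nat_lit 4) (nat_lit 5) (nat_lit 6) (nat_lit 4) (nat_lit 4) (nat_lit 4) (nat_lit 480) (nat_lit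 392) (nat_lit 328)) (XT.nd (nat_lit 78) (nat_lit 0) (nat_lit 0) (XT.lf (nat_lit 0) (nat_lit 140094593029) (nat_lit 152) (nat_lit 38395163777) (nat_lit 0) (nat_lit 135840695855) (nat_lit 4) (nat_lit 5) (nat_lit 6) (nat_lit 4) (nat_lit 4) (nat_lit 4) (nat_lit 481) (nat_lit 392) (nat_lit 327)) (XT.lf (nat_lit 0) (nat_lit 166687954608) (nat_lit 152) (nat_lit 9098568287) (nat_lit 0) (nat_lit 162431925184) (nat_lit 4) (nat_lit 5) (nat_lit 6) (nat_lit 4) (nat_lit 4) (nat_lit 4) (nat_lit 482) (nat_lit 392) (nat_lit 326)))) (XT.nd (nat_lit 78) (nat_lit 0) (nat_lit 0) (XT.lf (nat_lit 0) (nat_lit 23696509823) (nat_lit 76) (nat_lit 172267288085) (nat_lit 76) (nat_lit 168009284357) (nat_lit 3) (nat_lit 4) (nat_lit 4) (nat_lit 5) (nat_lit 4) (nat_lit 4) (nat_lit 483) (nat_lit 392) (nat_lit 325)) (XT.nd (nat_lit 78) (nat_lit 0) (nat_lit 0) (XT.lf (nat_lit 0) (nat_lit 59602773119) (nat_lit 76) (nat_lit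 168213202330) (nat_lit 76) (nat_lit 163953370542) (nat_lit 3) (nat_lit 4) (nat_lit 4) (nat_lit 5) (nat_lit 4) (nat_lit 4) (nat_lit 484) (nat_lit 392) (nat_lit 324)) (XT.lf (nat_lit 0) (nat_lit 98353884975) (nat_lit 76) (nat_lit 163849012400) (nat_lit 76) (nat_lit 159587487963) (nat_lit 3) (nat_lit 4) (nat_lit 4) (nat_lit 5) (nat_lit 4) (nat_lit 4) (nat_lit 485) (nat_lit 392) (nat_lit 323))))) (XT.nd (nat_lit 234) (nat_lit 0) (nat_lit 0) (XT.nd (nat_lit 78) (nat_lit 0) (nat_lit 0) (XT.lf (nat_lit 0) (nat_lit 140179481608) (nat_lit 76) (nat_lit 159148856427) (nat_lit 76) (nat_lit 154885764724) (nat_lit 3) (nat_lit 4) (nat_lit 4) (nat_lit 5) (nat_lit 4) (nat_lit 4) (nat_lit 486) (nat_lit 392) (nat_lit 322)) (XT.nd (nat_lit 78) (nat_lit 0) (nat_lit 0) (XT.lf (nat_lit 0) (nat_lit 185327418407) (nat_lit 76) (nat_lit 154084881637) (nat_lit 76) (nat_lit 149820338760) (nat_lit 3) (nat_lit 4) (nat_lit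 4) (nat_lit 5) (nat_lit 4) (nat_lit 4) (nat_lit 487) (nat_lit 392) (nat_lit 321)) (XT.lf (nat_lit 0) (nat_lit 234065238701) (nat_lit 76) (nat_lit 148627079289) (nat_lit 76) (nat_lit 144361192733) (nat_lit 3) (nat_lit 4) (nat_lit 4) (nat_lit 5) (nat_lit 4) (nat_lit 4) (nat_lit 488) (nat_lit 392) (nat_lit 320)))) (XT.nd (nat_lit 78) (nat_lit 0) (nat_lit 0) (XT.lf (nat_lit 0) (nat_lit 286681759202) (nat_lit 76) (nat_lit 142743106851) (nat_lit 76) (nat_lit 138475976148) (nat_lit 3) (nat_lit 4) (nat_lit 4) (nat_lit 5) (nat_lit 4) (nat_lit 4) (nat_lit 489) (nat_lit 392) (nat_lit 319)) (XT.nd (nat_lit 78) (nat_lit 0) (nat_lit 0) (XT.lf (nat_lit 0) (nat_lit 343488781513) (nat_lit 76) (nat_lit 136398096338) (nat_lit 76) (nat_lit 132129813647) (nat_lit 3) (nat_lit 4) (nat_lit 4) (nat_lit 5) (nat_lit 4) (nat_lit 4) (nat_lit 490) (nat_lit 392) (nat_lit 318)) (XT.lf (nat_lit 0) (nat_lit 404822939842)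 (nat_lit 76) (nat_lit 129554447688) (nat_lit 76) (nat_lit 125285098341) (nat_lit 3) (nat_lit 4) (nat_lit 4) (nat_lit 5) (nat_lit 4) (nat_lit 4) (nat_lit 491) (nat_lit 392) (nat_lit 317))))))))
noncomputable def xc73 : XT := (XT.nd (nat_lit 1794) (nat_lit 0) (nat_lit 0) (XT.nd (nat_lit 858) (nat_lit 152) (nat_lit 0) (XT.nd (nat_lit 390) (nat_lit 0) (nat_lit 0) (XT.nd (nat_lit 156) (nat_lit 0) (nat_lit 0) (XT.nd (nat_lit 78) (nat_lit 0) (nat_lit 0) (XT.lf (nat_lit 0) (nat_lit 471047695865) (nat_lit 76) (nat_lit 122171605946) (nat_lit 76) (nat_lit 117901268955) (nat_lit 3) (nat_lit 4) (nat_lit 4) (nat_lit 5) (nat_lit 4) (nat_lit 4) (nat_lit 492) (nat_lit 392) (nat_lit 316)) (XT.lf (nat_lit 0) (nat_lit 542555492584) (nat_lit 76) (nat_lit 114205820938) (nat_lit 76) (nat_lit 109934569463) (nat_lit 3) (nat_lit 4) (nat_lit 4) (nat_lit 5) (nat_lit 4) (nat_lit 4) (nat_lit 493) (nat_lit 392) (nat_lit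 315))) (XT.nd (nat_lit 78) (nat_lit 0) (nat_lit 0) (XT.lf (nat_lit 0) (nat_lit 619770079903) (nat_lit 76) (nat_lit 105609888014) (nat_lit 76) (nat_lit 101337789792) (nat_lit 3) (nat_lit 4) (nat_lit 4) (nat_lit 5) (nat_lit 4) (nat_lit 4) (nat_lit 494) (nat_lit 392) (nat_lit 314)) (XT.nd (nat_lit 78) (nat_lit 0) (nat_lit 0) (XT.lf (nat_lit 0) (nat_lit 703149025747) (nat_lit 76) (nat_lit 96332868310) (nat_lit 76) (nat_lit 92059986065) (nat_lit 3) (nat_lit 4) (nat_lit 4) (nat_lit 5) (nat_lit 4) (nat_lit 4) (nat_lit 495) (nat_lit 392) (nat_lit 313)) (XT.lf (nat_lit 0) (nat_lit 793186427575) (nat_lit 76) (nat_lit 86319786895) (nat_lit 76) (nat_lit 82046178703) (nat_lit 3) (nat_lit 4) (nat_lit 4) (nat_lit 5) (nat_lit 4) (nat_lit 4) (nat_lit 496) (nat_lit 392) (nat_lit 312))))) (XT.nd (nat_lit 234) (nat_lit 0) (nat_lit 0) (XT.nd (nat_lit 78) (nat_lit 0) (nat_lit 0) (XT.lf (nat_lit 0) (nat_lit 890415840358)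 (nat_lit 76) (nat_lit 75511306992) (nat_lit 76) (nat_lit 71237026625) (nat_lit 3) (nat_lit 4) (nat_lit 4) (nat_lit 5) (nat_lit 4) (nat_lit 4) (nat_lit 497) (nat_lit 392) (nat_lit 311)) (XT.nd (nat_lit 78) (nat_lit 0) (nat_lit 0) (XT.lf (nat_lit 0) (nat_lit 995413438396) (nat_lit 76) (nat_lit 63843378347) (nat_lit 76) (nat_lit 59568475597) (nat_lit 3) (nat_lit 4) (nat_lit 4) (nat_lit 5) (nat_lit 4) (nat_lit 4) (nat_lit 498) (nat_lit 392) (nat_lit 310)) (XT.lf (nat_lit 0) (nat_lit 1108801429676) (nat_lit 76) (nat_lit 51246857681) (nat_lit 76) (nat_lit 46971378651) (nat_lit 3) (nat_lit 4) (nat_lit 4) (nat_lit 5) (nat_lit 4) (nat_lit 4) (nat_lit 499) (nat_lit 392) (nat_lit 309)))) (XT.nd (nat_lit 78) (nat_lit 0) (nat_lit 0) (XT.lf (nat_lit 0) (nat_lit 1231251743037) (nat_lit 76) (nat_lit 37647098946) (nat_lit 76) (nat_lit 33371086321) (nat_lit 3) (nat_lit 4) (nat_lit 4) (nat_lit 5) (nat_lit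 4) (nat_lit 4) (nat_lit 500) (nat_lit 392) (nat_lit 308)) (XT.nd (nat_lit 78) (nat_lit 0) (nat_lit 0) (XT.lf (nat_lit 0) (nat_lit 1363490009964) (nat_lit 76) (nat_lit 22963510977) (nat_lit 76) (nat_lit 18687004285) (nat_lit 3) (nat_lit 4) (nat_lit 4) (nat_lit 5) (nat_lit 4) (nat_lit 4) (nat_lit 501) (nat_lit 392) (nat_lit 307)) (XT.lf (nat_lit 0) (nat_lit 1506299864631) (nat_lit 76) (nat_lit 7109079921) (nat_lit 76) (nat_lit 2832115759) (nat_lit 3) (nat_lit 4) (nat_lit 4) (nat_lit 5) (nat_lit 4) (nat_lit 4) (nat_lit 502) (nat_lit 392) (nat_lit 306)))))) (XT.nd (nat_lit 468) (nat_lit 0) (nat_lit 0) (XT.nd (nat_lit 234) (nat_lit 0) (nat_lit 0) (XT.nd (nat_lit 78) (nat_lit 0) (nat_lit 0) (XT.lf (nat_lit 0) (nat_lit 14444666676) (nat_lit 152) (nat_lit 1611203880489) (nat_lit 0) (nat_lit 10484122466) (nat_lit 1) (nat_lit 5) (nat_lit 3) (nat_lit 4) (nat_lit 1) (nat_lit 4) (nat_lit 503) (nat_lit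 392) (nat_lit 305)) (XT.nd (nat_lit 78) (nat_lit 0) (nat_lit 0) (XT.lf (nat_lit 0) (nat_lit 33410660365) (nat_lit 152) (nat_lit 1702712503326) (nat_lit 0) (nat_lit 29449753001) (nat_lit 1) (nat_lit 5) (nat_lit 3) (nat_lit 4) (nat_lit 1) (nat_lit 4) (nat_lit 504) (nat_lit 392) (nat_lit 304)) (XT.lf (nat_lit 0) (nat_lit 53890743863) (nat_lit 152) (nat_lit 1801548394612) (nat_lit 0) (nat_lit 49929500245) (nat_lit 1) (nat_lit 5) (nat_lit 3) (nat_lit 4) (nat_lit 1) (nat_lit 4) (nat_lit 505) (nat_lit 392) (nat_lit 303)))) (XT.nd (nat_lit 78) (nat_lit 0) (nat_lit 0) (XT.lf (nat_lit 0) (nat_lit 76006280629) (nat_lit 152) (nat_lit 1908297248515) (nat_lit 0) (nat_lit 72044725664) (nat_lit 1) (nat_lit 5) (nat_lit 3) (nat_lit 4) (nat_lit 1) (nat_lit 4) (nat_lit 506) (nat_lit 392) (nat_lit 302)) (XT.nd (nat_lit 78) (nat_lit 0) (nat_lit 0) (XT.lf (nat_lit 0) (nat_lit 99888325694) (nat_lit 152) (nat_lit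 2023591650837) (nat_lit 0) (nat_lit 95926482445) (nat_lit 1) (nat_lit 5) (nat_lit 3) (nat_lit 4) (nat_lit 1) (nat_lit 4) (nat_lit 507) (nat_lit 392) (nat_lit 301)) (XT.lf (nat_lit 0) (nat_lit 125678402290) (nat_lit 152) (nat_lit 2148114827666) (nat_lit 0) (nat_lit 121716292111) (nat_lit 1) (nat_lit 5) (nat_lit 3) (nat_lit 4) (nat_lit 1) (nat_lit 4) (nat_lit 508) (nat_lit 392) (nat_lit 300))))) (XT.nd (nat_lit 234) (nat_lit 0) (nat_lit 0) (XT.nd (nat_lit 78) (nat_lit 0) (nat_lit 0) (XT.lf (nat_lit 0) (nat_lit 153529340499) (nat_lit 152) (nat_lit 2282604694124) (nat_lit 0) (nat_lit 149566983163) (nat_lit 1) (nat_lit 5) (nat_lit 3) (nat_lit 4) (nat_lit 1) (nat_lit 4) (nat_lit 509) (nat_lit 392) (nat_lit 299)) (XT.nd (nat_lit 78) (nat_lit 0) (nat_lit 0) (XT.lf (nat_lit 0) (nat_lit 183606182918) (nat_lit 152) (nat_lit 2427858227197) (nat_lit 0) (nat_lit 179643596734) (nat_lit 1) (nat_lit 5)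 (nat_lit 3) (nat_lit 4) (nat_lit 1) (nat_lit 4) (nat_lit 510) (nat_lit 392) (nat_lit 298)) (XT.lf (nat_lit 0) (nat_lit 216087162688) (nat_lit 152) (nat_lit 2584736188562) (nat_lit 0) (nat_lit 212124364606) (nat_lit 1) (nat_lit 5) (nat_lit 3) (nat_lit 4) (nat_lit 1) (nat_lit 4) (nat_lit 511) (nat_lit 392) (nat_lit 297)))) (XT.nd (nat_lit 78) (nat_lit 0) (nat_lit 0) (XT.lf (nat_lit 0) (nat_lit 251164759689) (nat_lit 152) (nat_lit 2754168225399) (nat_lit 0) (nat_lit 247201765406) (nat_lit 1) (nat_lit 5) (nat_lit 3) (nat_lit 4) (nat_lit 1) (nat_lit 4) (nat_lit 512) (nat_lit 392) (nat_lit 296)) (XT.nd (nat_lit 78) (nat_lit 0) (nat_lit 0) (XT.lf (nat_lit 0) (nat_lit 289046841161) (nat_lit 152) (nat_lit 2937158379407) (nat_lit 0) (nat_lit 285083665211) (nat_lit 1) (nat_lit 5) (nat_lit 3) (nat_lit 4) (nat_lit 1) (nat_lit 4) (nat_lit 513) (nat_lit 392) (nat_lit 295)) (XT.lf (nat_lit 0) (nat_lit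 329957893515) (nat_lit 152) (nat_lit 3134791036683) (nat_lit 0) (nat_lit 325994549353) (nat_lit 1) (nat_lit 5) (nat_lit 3) (nat_lit 4) (nat_lit 1) (nat_lit 4) (nat_lit 514) (nat_lit 392) (nat_lit 294))))))) (XT.nd (nat_lit 936) (nat_lit 0) (nat_lit 0) (XT.nd (nat_lit 468) (nat_lit 0) (nat_lit 0) (XT.nd (nat_lit 234) (nat_lit 0) (nat_lit 0) (XT.nd (nat_lit 78) (nat_lit 0) (nat_lit 0) (XT.lf (nat_lit 0) (nat_lit 374140352615) (nat_lit 152) (nat_lit 3348237353715) (nat_lit 0) (nat_lit 370176852703) (nat_lit 1) (nat_lit 5) (nat_lit 3) (nat_lit 4) (nat_lit 1) (nat_lit 4) (nat_lit 515) (nat_lit 392) (nat_lit 293)) (XT.nd (nat_lit 78) (nat_lit 0) (nat_lit 0) (XT.lf (nat_lit 0) (nat_lit 421856040442) (nat_lit 152) (nat_lit 3578762197568) (nat_lit 0) (nat_lit 417892396316) (nat_lit 1) (nat_lit 5) (nat_lit 3) (nat_lit 4) (nat_lit 1) (nat_lit 4) (nat_lit 516) (nat_lit 392) (nat_lit 292)) (XT.lf (nat_lit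 0) (nat_lit 473387716627) (nat_lit 152) (nat_lit 3827731641389) (nat_lit 0) (nat_lit 469423938970) (nat_lit 1) (nat_lit 5) (nat_lit 3) (nat_lit 4) (nat_lit 1) (nat_lit 4) (nat_lit 517) (nat_lit 392) (nat_lit 291)))) (XT.nd (nat_lit 78) (nat_lit 0) (nat_lit 0) (XT.lf (nat_lit 0) (nat_lit 529040754066) (nat_lit 152) (nat_lit 4096621059662) (nat_lit 0) (nat_lit 525076852769) (nat_lit 1) (nat_lit 5) (nat_lit 3) (nat_lit 4) (nat_lit 1) (nat_lit 4) (nat_lit 518) (nat_lit 392) (nat_lit 290)) (XT.nd (nat_lit 78) (nat_lit 0) (nat_lit 0) (XT.lf (nat_lit 0) (nat_lit 589144948536) (nat_lit 152) (nat_lit 4387023871160) (nat_lit 0) (nat_lit 585180932757) (nat_lit 1) (nat_lit 5) (nat_lit 3) (nat_lit 4) (nat_lit 1) (nat_lit 4) (nat_lit 519) (nat_lit 392) (nat_lit 289)) (XT.lf (nat_lit 0) (nat_lit 654056473042) (nat_lit 152) (nat_lit 4700660981433) (nat_lit 0) (nat_lit 650092351262) (nat_lit 1) (nat_lit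 5) (nat_lit 3) (nat_lit 4) (nat_lit 1) (nat_lit 4) (nat_lit 520) (nat_lit 392) (nat_lit 288))))) (XT.nd (nat_lit 234) (nat_lit 0) (nat_lit 0) (XT.nd (nat_lit 78) (nat_lit 0) (nat_lit 0) (XT.lf (nat_lit 0) (nat_lit 724159988470) (nat_lit 152) (nat_lit 5039390980765) (nat_lit 0) (nat_lit 720195768540) (nat_lit 1) (nat_lit 5) (nat_lit 3) (nat_lit 4) (nat_lit 1) (nat_lit 4) (nat_lit 521) (nat_lit 392) (nat_lit 287)) (XT.nd (nat_lit 78) (nat_lit 0) (nat_lit 0) (XT.lf (nat_lit 0) (nat_lit 799870923059) (nat_lit 152) (nat_lit 5405221158041) (nat_lit 0) (nat_lit 795906612250) (nat_lit 1) (nat_lit 5) (nat_lit 3) (nat_lit 4) (nat_lit 1) (nat_lit 4) (nat_lit 522) (nat_lit 392) (nat_lit 286)) (XT.lf (nat_lit 0) (nat_lit 881637934199) (nat_lit 152) (nat_lit 5800319395791) (nat_lit 0) (nat_lit 877673539243) (nat_lit 1) (nat_lit 5) (nat_lit 3) (nat_lit 4) (nat_lit 1) (nat_lit 4) (nat_lit 523) (nat_lit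 392) (nat_lit 285)))) (XT.nd (nat_lit 78) (nat_lit 0) (nat_lit 0) (XT.lf (nat_lit 0) (nat_lit 969945567142) (nat_lit 152) (nat_lit 6227027016908) (nat_lit 0) (nat_lit 965981094272) (nat_lit 1) (nat_lit 5) (nat_lit 3) (nat_lit 4) (nat_lit 1) (nat_lit 4) (nat_lit 524) (nat_lit 392) (nat_lit 284)) (XT.nd (nat_lit 78) (nat_lit 0) (nat_lit 0) (XT.lf (nat_lit 0) (nat_lit 1065317126379) (nat_lit 152) (nat_lit 6687872659145) (nat_lit 0) (nat_lit 1061352581366) (nat_lit 1) (nat_lit 5) (nat_lit 3) (nat_lit 4) (nat_lit 1) (nat_lit 4) (nat_lit 525) (nat_lit 392) (nat_lit 283)) (XT.lf (nat_lit 0) (nat_lit 1168317776706) (nat_lit 152) (nat_lit 7185587259642) (nat_lit 0) (nat_lit 1164353164894) (nat_lit 1) (nat_lit 5) (nat_lit 3) (nat_lit 4) (nat_lit 1) (nat_lit 4) (nat_lit 526) (nat_lit 392) (nat_lit 282)))))) (XT.nd (nat_lit 53820) (nat_lit 0) (nat_lit 3572) (XT.nd (nat_lit 234) (nat_lit 0) (nat_lit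 0) (XT.nd (nat_lit 78) (nat_lit 0) (nat_lit 0) (XT.lf (nat_lit 0) (nat_lit 1279557892346) (nat_lit 152) (nat_lit 7723120238253) (nat_lit 0) (nat_lit 1275593218684) (nat_lit 1) (nat_lit 5) (nat_lit 3) (nat_lit 4) (nat_lit 1) (nat_lit 4) (nat_lit 527) (nat_lit 392) (nat_lit 281)) (XT.nd (nat_lit 78) (nat_lit 0) (nat_lit 0) (XT.lf (nat_lit 0) (nat_lit 1399696673985) (nat_lit 152) (nat_lit 8303656975593) (nat_lit 0) (nat_lit 1395731943054) (nat_lit 1) (nat_lit 5) (nat_lit 3) (nat_lit 4) (nat_lit 1) (nat_lit 4) (nat_lit 528) (nat_lit 392) (nat_lit 280)) (XT.lf (nat_lit 0) (nat_lit 1529446055145) (nat_lit 152) (nat_lit 8930637689364) (nat_lit 0) (nat_lit 1525481271186) (nat_lit 1) (nat_lit 5) (nat_lit 3) (nat_lit 4) (nat_lit 1) (nat_lit 4) (nat_lit 529) (nat_lit 392) (nat_lit 279)))) (XT.nd (nat_lit 53430) (nat_lit 0) (nat_lit 4560) (XT.lf (nat_lit 0) (nat_lit 1669574921045) (nat_lit 152) (nat_lit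 9607777820833) (nat_lit 0) (nat_lit 1665610087987) (nat_lit 1) (nat_lit 5) (nat_lit 3) (nat_lit 4) (nat_lit 1) (nat_lit 4) (nat_lit 530) (nat_lit 392) (nat_lit 278)) (XT.nd (nat_lit 78) (nat_lit 228) (nat_lit 0) (XT.lf (nat_lit 0) (nat_lit 1749729712) (nat_lit 228) (nat_lit 1091292749) (nat_lit 228) (nat_lit 1091292749) (nat_lit 64) (nat_lit 4) (nat_lit 67) (nat_lit 5) (nat_lit 67) (nat_lit 4) (nat_lit 414) (nat_lit 393) (nat_lit 393)) (XT.lf (nat_lit 0) (nat_lit 1661017442) (nat_lit 228) (nat_lit 5934844742) (nat_lit 0) (nat_lit 487239463) (nat_lit 61) (nat_lit 5) (nat_lit 64) (nat_lit 4) (nat_lit 61) (nat_lit 4) (nat_lit 415) (nat_lit 393) (nat_lit 392))))) (XT.nd (nat_lit 234) (nat_lit 532) (nat_lit 0) (XT.nd (nat_lit 78) (nat_lit 228) (nat_lit 0) (XT.lf (nat_lit 0) (nat_lit 677391376) (nat_lit 228) (nat_lit 4951521666) (nat_lit 228) (nat_lit 2690912224) (nat_lit 58) (nat_lit 4) (nat_lit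 61) (nat_lit 5) (nat_lit 61) (nat_lit 4) (nat_lit 416) (nat_lit 393) (nat_lit 391)) (XT.nd (nat_lit 78) (nat_lit 152) (nat_lit 0) (XT.lf (nat_lit 0) (nat_lit 1181825229) (nat_lit 304) (nat_lit 808738393) (nat_lit 76) (nat_lit 6589619160) (nat_lit 57) (nat_lit 5) (nat_lit 61) (nat_lit 5) (nat_lit 58) (nat_lit 4) (nat_lit 417) (nat_lit 393) (nat_lit 390)) (XT.lf (nat_lit 0) (nat_lit 5170043494) (nat_lit 228) (nat_lit 2407378213) (nat_lit 0) (nat_lit 1282341944) (nat_lit 55) (nat_lit 5) (nat_lit 58) (nat_lit 4) (nat_lit 55) (nat_lit 4) (nat_lit 418) (nat_lit 393) (nat_lit 389)))) (XT.nd (nat_lit 78) (nat_lit 304) (nat_lit 0) (XT.lf (nat_lit 0) (nat_lit 264045039) (nat_lit 228) (nat_lit 4137341439) (nat_lit 76) (nat_lit 4762638914) (nat_lit 52) (nat_lit 5) (nat_lit 55) (nat_lit 5) (nat_lit 53) (nat_lit 4) (nat_lit 419) (nat_lit 393) (nat_lit 388)) (XT.nd (nat_lit 78) (nat_lit 152) (nat_lit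 0) (XT.lf (nat_lit 0) (nat_lit 3429699469) (nat_lit 152) (nat_lit 827961021) (nat_lit 228) (nat_lit 5233524649) (nat_lit 50) (nat_lit 5) (nat_lit 52) (nat_lit 5) (nat_lit 53) (nat_lit 4) (nat_lit 420) (nat_lit 393) (nat_lit 387)) (XT.lf (nat_lit 0) (nat_lit 1653721822) (nat_lit 152) (nat_lit 6924354428) (nat_lit 152) (nat_lit 1265907641) (nat_lit 48) (nat_lit 4) (nat_lit 50) (nat_lit 5) (nat_lit 50) (nat_lit 4) (nat_lit 421) (nat_lit 393) (nat_lit 386))))))))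
noncomputable def xc74 : XT := (XT.nd (nat_lit 1794) (nat_lit 1064) (nat_lit 0) (XT.nd (nat_lit 858) (nat_lit 836) (nat_lit 0) (XT.nd (nat_lit 390) (nat_lit 608) (nat_lit 0) (XT.nd (nat_lit 156) (nat_lit 456) (nat_lit 0) (XT.nd (nat_lit 78) (nat_lit 76) (nat_lit 0) (XT.lf (nat_lit 0) (nat_lit 2840698570) (nat_lit 228) (nat_lit 336974982) (nat_lit 76) (nat_lit 7043759350) (nat_lit 47) (nat_lit 5) (nat_lit 50) (nat_lit 5) (nat_lit 48) (nat_lit 4) (nat_lit 422) (nat_lit 393) (nat_lit 385)) (XT.lf (nat_lit 0) (nat_lit 7225474124) (nat_lit 152) (nat_lit 2460499237) (nat_lit 0) (nat_lit 939071971) (nat_lit 46) (nat_lit 5) (nat_lit 48) (nat_lit 4) (nat_lit 46) (nat_lit 4) (nat_lit 423) (nat_lit 393) (nat_lit 384))) (XT.nd (nat_lit 78) (nat_lit 228) (nat_lit 0) (XT.lf (nat_lit 0) (nat_lit 898628147) (nat_lit 228) (nat_lit 4883378990) (nat_lit 76) (nat_lit 5273757112) (nat_lit 43) (nat_lit 5) (nat_lit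 46) (nat_lit 5) (nat_lit 44) (nat_lit 4) (nat_lit 424) (nat_lit 393) (nat_lit 383)) (XT.nd (nat_lit 78) (nat_lit 152) (nat_lit 0) (XT.lf (nat_lit 0) (nat_lit 3887380269) (nat_lit 76) (nat_lit 1435457006) (nat_lit 152) (nat_lit 6193806052) (nat_lit 42) (nat_lit 5) (nat_lit 43) (nat_lit 5) (nat_lit 44) (nat_lit 4) (nat_lit 425) (nat_lit 393) (nat_lit 382)) (XT.lf (nat_lit 0) (nat_lit 1275090589) (nat_lit 152) (nat_lit 8878553498) (nat_lit 152) (nat_lit 1856565592) (nat_lit 40) (nat_lit 4) (nat_lit 42) (nat_lit 5) (nat_lit 42) (nat_lit 4) (nat_lit 426) (nat_lit 393) (nat_lit 381))))) (XT.nd (nat_lit 234) (nat_lit 304) (nat_lit 0) (XT.nd (nat_lit 78) (nat_lit 228) (nat_lit 0) (XT.lf (nat_lit 0) (nat_lit 2745589608) (nat_lit 228) (nat_lit 1653776123) (nat_lit 76) (nat_lit 8133729866) (nat_lit 39) (nat_lit 5) (nat_lit 42) (nat_lit 5) (nat_lit 40) (nat_lit 4) (nat_lit 427) (nat_lit 393) (nat_lit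 380)) (XT.nd (nat_lit 78) (nat_lit 152) (nat_lit 0) (XT.lf (nat_lit 0) (nat_lit 7648672882) (nat_lit 152) (nat_lit 4906801024) (nat_lit 0) (nat_lit 535859685) (nat_lit 38) (nat_lit 5) (nat_lit 40) (nat_lit 4) (nat_lit 38) (nat_lit 4) (nat_lit 428) (nat_lit 393) (nat_lit 379)) (XT.lf (nat_lit 0) (nat_lit 5030242560) (nat_lit 152) (nat_lit 8020145443) (nat_lit 152) (nat_lit 635353728) (nat_lit 36) (nat_lit 4) (nat_lit 38) (nat_lit 5) (nat_lit 38) (nat_lit 4) (nat_lit 429) (nat_lit 393) (nat_lit 378)))) (XT.nd (nat_lit 78) (nat_lit 152) (nat_lit 0) (XT.lf (nat_lit 0) (nat_lit 1358840271) (nat_lit 76) (nat_lit 2965902011) (nat_lit 152) (nat_lit 9994520970) (nat_lit 34) (nat_lit 5) (nat_lit 35) (nat_lit 5) (nat_lit 36) (nat_lit 4) (nat_lit 430) (nat_lit 393) (nat_lit 377)) (XT.nd (nat_lit 78) (nat_lit 152) (nat_lit 0) (XT.lf (nat_lit 0) (nat_lit 9777829468) (nat_lit 152) (nat_lit 2722917182)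 (nat_lit 0) (nat_lit 2490976302) (nat_lit 34) (nat_lit 5) (nat_lit 36) (nat_lit 4) (nat_lit 34) (nat_lit 4) (nat_lit 431) (nat_lit 393) (nat_lit 376)) (XT.lf (nat_lit 0) (nat_lit 73824246) (nat_lit 152) (nat_lit 7333211062) (nat_lit 76) (nat_lit 8301288967) (nat_lit 32) (nat_lit 5) (nat_lit 34) (nat_lit 5) (nat_lit 33) (nat_lit 4) (nat_lit 432) (nat_lit 393) (nat_lit 375)))))) (XT.nd (nat_lit 468) (nat_lit 456) (nat_lit 0) (XT.nd (nat_lit 234) (nat_lit 152) (nat_lit 0) (XT.nd (nat_lit 78) (nat_lit 152) (nat_lit 0) (XT.lf (nat_lit 0) (nat_lit 3792612033) (nat_lit 76) (nat_lit 1719157937) (nat_lit 152) (nat_lit 10958951784) (nat_lit 31) (nat_lit 5) (nat_lit 32) (nat_lit 5) (nat_lit 33) (nat_lit 4) (nat_lit 433) (nat_lit 393) (nat_lit 374)) (XT.nd (nat_lit 78) (nat_lit 152) (nat_lit 0) (XT.lf (nat_lit 0) (nat_lit 11539580870) (nat_lit 152) (nat_lit 1464855448) (nat_lit 0) (nat_lit 4277301141)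 (nat_lit 31) (nat_lit 5) (nat_lit 33) (nat_lit 4) (nat_lit 31) (nat_lit 4) (nat_lit 434) (nat_lit 393) (nat_lit 373)) (XT.lf (nat_lit 0) (nat_lit 61895503) (nat_lit 152) (nat_lit 7280478611) (nat_lit 76) (nat_lit 10802318314) (nat_lit 29) (nat_lit 5) (nat_lit 31) (nat_lit 5) (nat_lit 30) (nat_lit 4) (nat_lit 435) (nat_lit 393) (nat_lit 372)))) (XT.nd (nat_lit 78) (nat_lit 76) (nat_lit 0) (XT.lf (nat_lit 0) (nat_lit 5010858123) (nat_lit 76) (nat_lit 1025745893) (nat_lit 152) (nat_lit 13026833552) (nat_lit 28) (nat_lit 5) (nat_lit 29) (nat_lit 5) (nat_lit 30) (nat_lit 4) (nat_lit 436) (nat_lit 393) (nat_lit 371)) (XT.nd (nat_lit 78) (nat_lit 76) (nat_lit 0) (XT.lf (nat_lit 0) (nat_lit 12688923066) (nat_lit 152) (nat_lit 1764890537) (nat_lit 0) (nat_lit 5585907408) (nat_lit 28) (nat_lit 5) (nat_lit 30) (nat_lit 4) (nat_lit 28) (nat_lit 4) (nat_lit 437) (nat_lit 393) (nat_lit 370)) (XT.lf (nat_lit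 0) (nat_lit 11810622273) (nat_lit 76) (nat_lit 8240163491) (nat_lit 76) (nat_lit 1029141421) (nat_lit 27) (nat_lit 4) (nat_lit 28) (nat_lit 5) (nat_lit 28) (nat_lit 4) (nat_lit 438) (nat_lit 393) (nat_lit 369))))) (XT.nd (nat_lit 234) (nat_lit 228) (nat_lit 0) (XT.nd (nat_lit 78) (nat_lit 76) (nat_lit 0) (XT.lf (nat_lit 0) (nat_lit 4181740258) (nat_lit 76) (nat_lit 1343629099) (nat_lit 152) (nat_lit 16665458234) (nat_lit 25) (nat_lit 5) (nat_lit 26) (nat_lit 5) (nat_lit 27) (nat_lit 4) (nat_lit 439) (nat_lit 393) (nat_lit 368)) (XT.nd (nat_lit 78) (nat_lit 76) (nat_lit 0) (XT.lf (nat_lit 0) (nat_lit 12823343922) (nat_lit 152) (nat_lit 4575013705) (nat_lit 0) (nat_lit 5968134574) (nat_lit 25) (nat_lit 5) (nat_lit 27) (nat_lit 4) (nat_lit 25) (nat_lit 4) (nat_lit 440) (nat_lit 393) (nat_lit 367)) (XT.lf (nat_lit 0) (nat_lit 10166159954) (nat_lit 76) (nat_lit 10696044918) (nat_lit 76) (nat_lit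 3761447633) (nat_lit 24) (nat_lit 4) (nat_lit 25) (nat_lit 5) (nat_lit 25) (nat_lit 4) (nat_lit 441) (nat_lit 393) (nat_lit 366)))) (XT.nd (nat_lit 78) (nat_lit 76) (nat_lit 0) (XT.lf (nat_lit 0) (nat_lit 47261849) (nat_lit 76) (nat_lit 3344741267) (nat_lit 152) (nat_lit 22581938055) (nat_lit 22) (nat_lit 5) (nat_lit 23) (nat_lit 5) (nat_lit 24) (nat_lit 4) (nat_lit 442) (nat_lit 393) (nat_lit 365)) (XT.nd (nat_lit 78) (nat_lit 76) (nat_lit 0) (XT.lf (nat_lit 0) (nat_lit 11309107776) (nat_lit 152) (nat_lit 11326665442) (nat_lit 0) (nat_lit 4757101299) (nat_lit 22) (nat_lit 5) (nat_lit 24) (nat_lit 4) (nat_lit 22) (nat_lit 4) (nat_lit 443) (nat_lit 393) (nat_lit 364)) (XT.lf (nat_lit 0) (nat_lit 4347729117) (nat_lit 76) (nat_lit 15590819822) (nat_lit 76) (nat_lit 8980460842) (nat_lit 21) (nat_lit 4) (nat_lit 22) (nat_lit 5) (nat_lit 22) (nat_lit 4) (nat_lit 444) (nat_lit 393) (nat_lit 363)))))))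 (XT.nd (nat_lit 936) (nat_lit 456) (nat_lit 0) (XT.nd (nat_lit 468) (nat_lit 228) (nat_lit 0) (XT.nd (nat_lit 234) (nat_lit 228) (nat_lit 0) (XT.nd (nat_lit 78) (nat_lit 152) (nat_lit 0) (XT.lf (nat_lit 0) (nat_lit 21701674525) (nat_lit 76) (nat_lit 7756965598) (nat_lit 76) (nat_lit 1092576522) (nat_lit 21) (nat_lit 4) (nat_lit 22) (nat_lit 5) (nat_lit 22) (nat_lit 4) (nat_lit 445) (nat_lit 393) (nat_lit 362)) (XT.nd (nat_lit 78) (nat_lit 0) (nat_lit 0) (XT.lf (nat_lit 0) (nat_lit 7171106143) (nat_lit 152) (nat_lit 24165254889) (nat_lit 0) (nat_lit 954053419) (nat_lit 19) (nat_lit 5) (nat_lit 21) (nat_lit 4) (nat_lit 19) (nat_lit 4) (nat_lit 446) (nat_lit 393) (nat_lit 361)) (XT.lf (nat_lit 0) (nat_lit 16383040258) (nat_lit 152) (nat_lit 7632649541) (nat_lit 0) (nat_lit 10123096702) (nat_lit 19) (nat_lit 5) (nat_lit 21) (nat_lit 4) (nat_lit 19) (nat_lit 4) (nat_lit 447) (nat_lit 393) (nat_lit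 360)))) (XT.nd (nat_lit 78) (nat_lit 152) (nat_lit 0) (XT.lf (nat_lit 0) (nat_lit 10557903954) (nat_lit 76) (nat_lit 15932070608) (nat_lit 76) (nat_lit 9632413318) (nat_lit 18) (nat_lit 4) (nat_lit 19) (nat_lit 5) (nat_lit 19) (nat_lit 4) (nat_lit 448) (nat_lit 393) (nat_lit 359)) (XT.nd (nat_lit 78) (nat_lit 152) (nat_lit 0) (XT.lf (nat_lit 0) (nat_lit 30449849128) (nat_lit 76) (nat_lit 7071014244) (nat_lit 76) (nat_lit 734584979) (nat_lit 18) (nat_lit 4) (nat_lit 19) (nat_lit 5) (nat_lit 19) (nat_lit 4) (nat_lit 449) (nat_lit 393) (nat_lit 358)) (XT.lf (nat_lit 0) (nat_lit 8691197490) (nat_lit 152) (nat_lit 29037468163) (nat_lit 0) (nat_lit 2792607314) (nat_lit 16) (nat_lit 5) (nat_lit 18) (nat_lit 4) (nat_lit 16) (nat_lit 4) (nat_lit 450) (nat_lit 393) (nat_lit 357))))) (XT.nd (nat_lit 234) (nat_lit 152) (nat_lit 0) (XT.nd (nat_lit 78) (nat_lit 76) (nat_lit 0) (XT.lf (nat_lit 0) (nat_lit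 19145617038) (nat_lit 152) (nat_lit 10578245483) (nat_lit 0) (nat_lit 13217836081) (nat_lit 16) (nat_lit 5) (nat_lit 18) (nat_lit 4) (nat_lit 16) (nat_lit 4) (nat_lit 451) (nat_lit 393) (nat_lit 356)) (XT.nd (nat_lit 78) (nat_lit 0) (nat_lit 0) (XT.lf (nat_lit 0) (nat_lit 9676064111) (nat_lit 76) (nat_lit 20911217257) (nat_lit 76) (nat_lit 14956407801) (nat_lit 15) (nat_lit 4) (nat_lit 16) (nat_lit 5) (nat_lit 16) (nat_lit 4) (nat_lit 452) (nat_lit 393) (nat_lit 355)) (XT.lf (nat_lit 0) (nat_lit 31990820457) (nat_lit 76) (nat_lit 11163044739) (nat_lit 76) (nat_lit 5183208895) (nat_lit 15) (nat_lit 4) (nat_lit 16) (nat_lit 5) (nat_lit 16) (nat_lit 4) (nat_lit 453) (nat_lit 393) (nat_lit 354)))) (XT.nd (nat_lit 78) (nat_lit 0) (nat_lit 0) (XT.lf (nat_lit 0) (nat_lit 4688664839) (nat_lit 76) (nat_lit 451562692) (nat_lit 152) (nat_lit 46200400315) (nat_lit 13) (nat_lit 5) (nat_lit 14) (nat_lit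 5) (nat_lit 15) (nat_lit 4) (nat_lit 454) (nat_lit 393) (nat_lit 353)) (XT.nd (nat_lit 78) (nat_lit 0) (nat_lit 0) (XT.lf (nat_lit 0) (nat_lit 16659934636) (nat_lit 152) (nat_lit 26780001922) (nat_lit 0) (nat_lit 11081726746) (nat_lit 13) (nat_lit 5) (nat_lit 15) (nat_lit 4) (nat_lit 13) (nat_lit 4) (nat_lit 455) (nat_lit 393) (nat_lit 352)) (XT.lf (nat_lit 0) (nat_lit 29043057577) (nat_lit 152) (nat_lit 5472323818) (nat_lit 0) (nat_lit 23446454545) (nat_lit 13) (nat_lit 5) (nat_lit 15) (nat_lit 4) (nat_lit 13) (nat_lit 4) (nat_lit 456) (nat_lit 393) (nat_lit 351)))))) (XT.nd (nat_lit 468) (nat_lit 152) (nat_lit 0) (XT.nd (nat_lit 234) (nat_lit 76) (nat_lit 0) (XT.nd (nat_lit 78) (nat_lit 152) (nat_lit 0) (XT.lf (nat_lit 0) (nat_lit 18324884032) (nat_lit 76) (nat_lit 24467947599) (nat_lit 76) (nat_lit 18854312027) (nat_lit 12) (nat_lit 4) (nat_lit 13) (nat_lit 5) (nat_lit 13) (nat_lit 4)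 (nat_lit 457) (nat_lit 393) (nat_lit 350)) (XT.nd (nat_lit 78) (nat_lit 152) (nat_lit 0) (XT.lf (nat_lit 0) (nat_lit 44208650936) (nat_lit 76) (nat_lit 13520551781) (nat_lit 76) (nat_lit 7891145339) (nat_lit 12) (nat_lit 4) (nat_lit 13) (nat_lit 5) (nat_lit 13) (nat_lit 4) (nat_lit 458) (nat_lit 393) (nat_lit 349)) (XT.lf (nat_lit 0) (nat_lit 2141803793) (nat_lit 76) (nat_lit 1601375481) (nat_lit 152) (nat_lit 66161300330) (nat_lit 10) (nat_lit 5) (nat_lit 11) (nat_lit 5) (nat_lit 12) (nat_lit 4) (nat_lit 459) (nat_lit 393) (nat_lit 348)))) (XT.nd (nat_lit 78) (nat_lit 76) (nat_lit 0) (XT.lf (nat_lit 0) (nat_lit 16693894156) (nat_lit 152) (nat_lit 46300653276) (nat_lit 0) (nat_lit 11455440380) (nat_lit 10) (nat_lit 5) (nat_lit 12) (nat_lit 4) (nat_lit 10) (nat_lit 4) (nat_lit 460) (nat_lit 393) (nat_lit 347)) (XT.nd (nat_lit 78) (nat_lit 76) (nat_lit 0) (XT.lf (nat_lit 0) (nat_lit 30666941338)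 (nat_lit 152) (nat_lit 23276398761) (nat_lit 0) (nat_lit 25416895501) (nat_lit 10) (nat_lit 5) (nat_lit 12) (nat_lit 4) (nat_lit 10) (nat_lit 4) (nat_lit 461) (nat_lit 393) (nat_lit 346)) (XT.lf (nat_lit 0) (nat_lit 1563240499) (nat_lit 76) (nat_lit 44180966417) (nat_lit 76) (nat_lit 38920187191) (nat_lit 9) (nat_lit 4) (nat_lit 10) (nat_lit 5) (nat_lit 10) (nat_lit 4) (nat_lit 462) (nat_lit 393) (nat_lit 345))))) (XT.nd (nat_lit 234) (nat_lit 152) (nat_lit 0) (XT.nd (nat_lit 78) (nat_lit 0) (nat_lit 0) (XT.lf (nat_lit 0) (nat_lit 29611697118) (nat_lit 76) (nat_lit 33002491854) (nat_lit 76) (nat_lit 27731774305) (nat_lit 9) (nat_lit 4) (nat_lit 10) (nat_lit 5) (nat_lit 10) (nat_lit 4) (nat_lit 463) (nat_lit 393) (nat_lit 344)) (XT.nd (nat_lit 78) (nat_lit 0) (nat_lit 0) (XT.lf (nat_lit 0) (nat_lit 59809490263) (nat_lit 76) (nat_lit 20978091590) (nat_lit 76) (nat_lit 15698171890) (nat_lit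 9) (nat_lit 4) (nat_lit 10) (nat_lit 5) (nat_lit 10) (nat_lit 4) (nat_lit 464) (nat_lit 393) (nat_lit 343)) (XT.lf (nat_lit 0) (nat_lit 92335569817) (nat_lit 76) (nat_lit 8036509919) (nat_lit 76) (nat_lit 2748069709) (nat_lit 9) (nat_lit 4) (nat_lit 10) (nat_lit 5) (nat_lit 10) (nat_lit 4) (nat_lit 465) (nat_lit 393) (nat_lit 342)))) (XT.nd (nat_lit 78) (nat_lit 0) (nat_lit 0) (XT.lf (nat_lit 0) (nat_lit 11221116054) (nat_lit 152) (nat_lit 92681832319) (nat_lit 0) (nat_lit 6317107192) (nat_lit 7) (nat_lit 5) (nat_lit 9) (nat_lit 4) (nat_lit 7) (nat_lit 4) (nat_lit 466) (nat_lit 393) (nat_lit 341)) (XT.nd (nat_lit 78) (nat_lit 0) (nat_lit 0) (XT.lf (nat_lit 0) (nat_lit 26630071648) (nat_lit 152) (nat_lit 69495217698) (nat_lit 0) (nat_lit 21719298929) (nat_lit 7) (nat_lit 5) (nat_lit 9) (nat_lit 4) (nat_lit 7) (nat_lit 4) (nat_lit 467) (nat_lit 393) (nat_lit 340)) (XT.lf (nat_lit 0) (nat_lit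 43234181768) (nat_lit 152) (nat_lit 44530761072) (nat_lit 0) (nat_lit 38317146220) (nat_lit 7) (nat_lit 5) (nat_lit 9) (nat_lit 4) (nat_lit 7) (nat_lit 4) (nat_lit 468) (nat_lit 393) (nat_lit 339))))))))
noncomputable def xc75 : XT := (XT.nd (nat_lit 1794) (nat_lit 152) (nat_lit 0) (XT.nd (nat_lit 858) (nat_lit 76) (nat_lit 0) (XT.nd (nat_lit 390) (nat_lit 152) (nat_lit 0) (XT.nd (nat_lit 156) (nat_lit 0) (nat_lit 0) (XT.nd (nat_lit 78) (nat_lit 76) (nat_lit 0) (XT.lf (nat_lit 0) (nat_lit 61131841142) (nat_lit 152) (nat_lit 17640524920) (nat_lit 0) (nat_lit 56209006677) (nat_lit 7) (nat_lit 5) (nat_lit 9) (nat_lit 4) (nat_lit 7) (nat_lit 4) (nat_lit 469) (nat_lit 393) (nat_lit 338)) (XT.lf (nat_lit 0) (nat_lit 11931712906) (nat_lit 76) (nat_lit 68784355048) (nat_lit 76) (nat_lit 63856151217) (nat_lit 6) (nat_lit 4) (nat_lit 7) (nat_lit 5) (nat_lit 7) (nat_lit 4) (nat_lit 470) (nat_lit 393)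 (nat_lit 337))) (XT.nd (nat_lit 78) (nat_lit 0) (nat_lit 0) (XT.lf (nat_lit 0) (nat_lit 44808545385) (nat_lit 76) (nat_lit 57509443655) (nat_lit 76) (nat_lit 52576268188) (nat_lit 6) (nat_lit 4) (nat_lit 7) (nat_lit 5) (nat_lit 7) (nat_lit 4) (nat_lit 471) (nat_lit 393) (nat_lit 336)) (XT.nd (nat_lit 78) (nat_lit 0) (nat_lit 0) (XT.lf (nat_lit 0) (nat_lit 80255879406) (nat_lit 76) (nat_lit 45363140808) (nat_lit 76) (nat_lit 40425361974) (nat_lit 6) (nat_lit 4) (nat_lit 7) (nat_lit 5) (nat_lit 7) (nat_lit 4) (nat_lit 472) (nat_lit 393) (nat_lit 335)) (XT.lf (nat_lit 0) (nat_lit 118483773247) (nat_lit 76) (nat_lit 32273468415) (nat_lit 76) (nat_lit 27331427205) (nat_lit 6) (nat_lit 4) (nat_lit 7) (nat_lit 5) (nat_lit 7) (nat_lit 4) (nat_lit 473) (nat_lit 393) (nat_lit 334))))) (XT.nd (nat_lit 234) (nat_lit 0) (nat_lit 0) (XT.nd (nat_lit 78) (nat_lit 152) (nat_lit 0) (XT.lf (nat_lit 0) (nat_lit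 159718762575) (nat_lit 76) (nat_lit 18162858047) (nat_lit 76) (nat_lit 13216870192) (nat_lit 6) (nat_lit 4) (nat_lit 7) (nat_lit 5) (nat_lit 7) (nat_lit 4) (nat_lit 474) (nat_lit 393) (nat_lit 333)) (XT.nd (nat_lit 78) (nat_lit 76) (nat_lit 0) (XT.lf (nat_lit 0) (nat_lit 1901805191) (nat_lit 152) (nat_lit 993887356) (nat_lit 76) (nat_lit 202251398965) (nat_lit 5) (nat_lit 5) (nat_lit 7) (nat_lit 5) (nat_lit 6) (nat_lit 4) (nat_lit 475) (nat_lit 393) (nat_lit 332)) (XT.lf (nat_lit 0) (nat_lit 18645768662) (nat_lit 152) (nat_lit 187496326672) (nat_lit 0) (nat_lit 14059633693) (nat_lit 4) (nat_lit 5) (nat_lit 6) (nat_lit 4) (nat_lit 4) (nat_lit 4) (nat_lit 476) (nat_lit 393) (nat_lit 331)))) (XT.nd (nat_lit 78) (nat_lit 0) (nat_lit 0) (XT.lf (nat_lit 0) (nat_lit 36810465898) (nat_lit 152) (nat_lit 167422344516) (nat_lit 0) (nat_lit 32221430027) (nat_lit 4) (nat_lit 5) (nat_lit 6) (nat_lit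 4) (nat_lit 4) (nat_lit 4) (nat_lit 477) (nat_lit 393) (nat_lit 330)) (XT.nd (nat_lit 78) (nat_lit 0) (nat_lit 0) (XT.lf (nat_lit 0) (nat_lit 56408082818) (nat_lit 152) (nat_lit 145784129729) (nat_lit 0) (nat_lit 51816360926) (nat_lit 4) (nat_lit 5) (nat_lit 6) (nat_lit 4) (nat_lit 4) (nat_lit 4) (nat_lit 478) (nat_lit 393) (nat_lit 329)) (XT.lf (nat_lit 0) (nat_lit 77554753447) (nat_lit 152) (nat_lit 122453455852) (nat_lit 0) (nat_lit 72960544500) (nat_lit 4) (nat_lit 5) (nat_lit 6) (nat_lit 4) (nat_lit 4) (nat_lit 4) (nat_lit 479) (nat_lit 393) (nat_lit 328)))))) (XT.nd (nat_lit 468) (nat_lit 0) (nat_lit 0) (XT.nd (nat_lit 234) (nat_lit 76) (nat_lit 0) (XT.nd (nat_lit 78) (nat_lit 0) (nat_lit 0) (XT.lf (nat_lit 0) (nat_lit 100375791390) (nat_lit 152) (nat_lit 97292067040) (nat_lit 0) (nat_lit 95779279613) (nat_lit 4) (nat_lit 5) (nat_lit 6) (nat_lit 4) (nat_lit 4) (nat_lit 4) (nat_lit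 480) (nat_lit 393) (nat_lit 327)) (XT.nd (nat_lit 78) (nat_lit 0) (nat_lit 0) (XT.lf (nat_lit 0) (nat_lit 125006432427) (nat_lit 152) (nat_lit 70150858768) (nat_lit 0) (nat_lit 120407788400) (nat_lit 4) (nat_lit 5) (nat_lit 6) (nat_lit 4) (nat_lit 4) (nat_lit 4) (nat_lit 481) (nat_lit 393) (nat_lit 326)) (XT.lf (nat_lit 0) (nat_lit 151592635911) (nat_lit 152) (nat_lit 40868994244) (nat_lit 0) (nat_lit 146992017580) (nat_lit 4) (nat_lit 5) (nat_lit 6) (nat_lit 4) (nat_lit 4) (nat_lit 4) (nat_lit 482) (nat_lit 393) (nat_lit 325)))) (XT.nd (nat_lit 78) (nat_lit 76) (nat_lit 0) (XT.lf (nat_lit 0) (nat_lit 180291949717) (nat_lit 152) (nat_lit 9272951310) (nat_lit 0) (nat_lit 175689503325) (nat_lit 4) (nat_lit 5) (nat_lit 6) (nat_lit 4) (nat_lit 4) (nat_lit 4) (nat_lit 483) (nat_lit 393) (nat_lit 324)) (XT.nd (nat_lit 78) (nat_lit 0) (nat_lit 0) (XT.lf (nat_lit 0) (nat_lit 26131720329) (nat_lit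 76) (nat_lit 185771192024) (nat_lit 76) (nat_lit 181167052984) (nat_lit 3) (nat_lit 4) (nat_lit 4) (nat_lit 5) (nat_lit 4) (nat_lit 4) (nat_lit 484) (nat_lit 393) (nat_lit 323)) (XT.lf (nat_lit 0) (nat_lit 64870522487) (nat_lit 76) (nat_lit 181413333416) (nat_lit 76) (nat_lit 176807627109) (nat_lit 3) (nat_lit 4) (nat_lit 4) (nat_lit 5) (nat_lit 4) (nat_lit 4) (nat_lit 485) (nat_lit 393) (nat_lit 322))))) (XT.nd (nat_lit 234) (nat_lit 0) (nat_lit 0) (XT.nd (nat_lit 78) (nat_lit 0) (nat_lit 0) (XT.lf (nat_lit 0) (nat_lit 106684721253) (nat_lit 76) (nat_lit 176719039780) (nat_lit 76) (nat_lit 172111882300) (nat_lit 3) (nat_lit 4) (nat_lit 4) (nat_lit 5) (nat_lit 4) (nat_lit 4) (nat_lit 486) (nat_lit 393) (nat_lit 321)) (XT.nd (nat_lit 78) (nat_lit 0) (nat_lit 0) (XT.lf (nat_lit 0) (nat_lit 151822104471) (nat_lit 76) (nat_lit 171660493079) (nat_lit 76) (nat_lit 167051991920) (nat_lit 3) (nat_lit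 4) (nat_lit 4) (nat_lit 5) (nat_lit 4) (nat_lit 4) (nat_lit 487) (nat_lit 393) (nat_lit 320)) (XT.lf (nat_lit 0) (nat_lit 200550152929) (nat_lit 76) (nat_lit 166207716740) (nat_lit 76) (nat_lit 161597971433) (nat_lit 3) (nat_lit 4) (nat_lit 4) (nat_lit 5) (nat_lit 4) (nat_lit 4) (nat_lit 488) (nat_lit 393) (nat_lit 319)))) (XT.nd (nat_lit 78) (nat_lit 0) (nat_lit 0) (XT.lf (nat_lit 0) (nat_lit 253157625435) (nat_lit 76) (nat_lit 160328398013) (nat_lit 76) (nat_lit 155717500719) (nat_lit 3) (nat_lit 4) (nat_lit 4) (nat_lit 5) (nat_lit 4) (nat_lit 4) (nat_lit 489) (nat_lit 393) (nat_lit 318)) (XT.nd (nat_lit 78) (nat_lit 0) (nat_lit 0) (XT.lf (nat_lit 0) (nat_lit 309956269974) (nat_lit 76) (nat_lit 153987696493) (nat_lit 76) (nat_lit 149375732543) (nat_lit 3) (nat_lit 4) (nat_lit 4) (nat_lit 5) (nat_lit 4) (nat_lit 4) (nat_lit 490) (nat_lit 393) (nat_lit 317)) (XT.lf (nat_lit 0) (nat_lit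 371282671105) (nat_lit 76) (nat_lit 147148037650) (nat_lit 76) (nat_lit 142535086056) (nat_lit 3) (nat_lit 4) (nat_lit 4) (nat_lit 5) (nat_lit 4) (nat_lit 4) (nat_lit 491) (nat_lit 393) (nat_lit 316))))))) (XT.nd (nat_lit 936) (nat_lit 152) (nat_lit 0) (XT.nd (nat_lit 468) (nat_lit 0) (nat_lit 0) (XT.nd (nat_lit 234) (nat_lit 0) (nat_lit 0) (XT.nd (nat_lit 78) (nat_lit 0) (nat_lit 0) (XT.lf (nat_lit 0) (nat_lit 437500244538) (nat_lit 76) (nat_lit 139768890174) (nat_lit 76) (nat_lit 135155024095) (nat_lit 3) (nat_lit 4) (nat_lit 4) (nat_lit 5) (nat_lit 4) (nat_lit 4) (nat_lit 492) (nat_lit 393) (nat_lit 315)) (XT.nd (nat_lit 78) (nat_lit 0) (nat_lit 0) (XT.lf (nat_lit 0) (nat_lit 509001390710) (nat_lit 76) (nat_lit 131806525784) (nat_lit 76) (nat_lit 127191812959) (nat_lit 3) (nat_lit 4) (nat_lit 4) (nat_lit 5) (nat_lit 4) (nat_lit 4) (nat_lit 493) (nat_lit 393) (nat_lit 314)) (XT.lf (nat_lit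 0) (nat_lit 586209820116) (nat_lit 76) (nat_lit 123213760097) (nat_lit 76) (nat_lit 118598263249) (nat_lit 3) (nat_lit 4) (nat_lit 4) (nat_lit 5) (nat_lit 4) (nat_lit 4) (nat_lit 494) (nat_lit 393) (nat_lit 313)))) (XT.nd (nat_lit 78) (nat_lit 0) (nat_lit 0) (XT.lf (nat_lit 0) (nat_lit 669583064189) (nat_lit 76) (nat_lit 113939673021) (nat_lit 76) (nat_lit 109323450225) (nat_lit 3) (nat_lit 4) (nat_lit 4) (nat_lit 5) (nat_lit 4) (nat_lit 4) (nat_lit 495) (nat_lit 393) (nat_lit 312)) (XT.nd (nat_lit 78) (nat_lit 0) (nat_lit 0) (XT.lf (nat_lit 0) (nat_lit 759615186598) (nat_lit 76) (nat_lit 103929307003) (nat_lit 76) (nat_lit 99312412033) (nat_lit 3) (nat_lit 4) (nat_lit 4) (nat_lit 5) (nat_lit 4) (nat_lit 4) (nat_lit 496) (nat_lit 393) (nat_lit 311)) (XT.lf (nat_lit 0) (nat_lit 856839711031) (nat_lit 76) (nat_lit 93123341355) (nat_lit 76) (nat_lit 88505824001) (nat_lit 3) (nat_lit 4) (nat_lit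 4) (nat_lit 5) (nat_lit 4) (nat_lit 4) (nat_lit 497) (nat_lit 393) (nat_lit 310))))) (XT.nd (nat_lit 234) (nat_lit 0) (nat_lit 0) (XT.nd (nat_lit 78) (nat_lit 0) (nat_lit 0) (XT.lf (nat_lit 0) (nat_lit 961832782819) (nat_lit 76) (nat_lit 81457740725) (nat_lit 76) (nat_lit 76839647091) (nat_lit 3) (nat_lit 4) (nat_lit 4) (nat_lit 5) (nat_lit 4) (nat_lit 4) (nat_lit 498) (nat_lit 393) (nat_lit 309)) (XT.nd (nat_lit 78) (nat_lit 0) (nat_lit 0) (XT.lf (nat_lit 0) (nat_lit 1075216583127) (nat_lit 76) (nat_lit 68863375628) (nat_lit 76) (nat_lit 64244748400) (nat_lit 3) (nat_lit 4) (nat_lit 4) (nat_lit 5) (nat_lit 4) (nat_lit 4) (nat_lit 499) (nat_lit 393) (nat_lit 308)) (XT.lf (nat_lit 0) (nat_lit 1197663015957) (nat_lit 76) (nat_lit 55265612789) (nat_lit 76) (nat_lit 50646491494) (nat_lit 3) (nat_lit 4) (nat_lit 4) (nat_lit 5) (nat_lit 4) (nat_lit 4) (nat_lit 500) (nat_lit 393) (nat_lit 307))))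 (XT.nd (nat_lit 78) (nat_lit 0) (nat_lit 0) (XT.lf (nat_lit 0) (nat_lit 1329897689801) (nat_lit 76) (nat_lit 40583872874) (nat_lit 76) (nat_lit 35964294108) (nat_lit 3) (nat_lit 4) (nat_lit 4) (nat_lit 5) (nat_lit 4) (nat_lit 4) (nat_lit 501) (nat_lit 393) (nat_lit 306)) (XT.nd (nat_lit 78) (nat_lit 0) (nat_lit 0) (XT.lf (nat_lit 0) (nat_lit 1472704217540) (nat_lit 76) (nat_lit 24731152978) (nat_lit 76) (nat_lit 20111150628) (nat_lit 3) (nat_lit 4) (nat_lit 4) (nat_lit 5) (nat_lit 4) (nat_lit 4) (nat_lit 502) (nat_lit 393) (nat_lit 305)) (XT.lf (nat_lit 0) (nat_lit 1626928860079) (nat_lit 76) (nat_lit 7613511058) (nat_lit 76) (nat_lit 2993116502) (nat_lit 3) (nat_lit 4) (nat_lit 4) (nat_lit 5) (nat_lit 4) (nat_lit 4) (nat_lit 503) (nat_lit 393) (nat_lit 304)))))) (XT.nd (nat_lit 468) (nat_lit 0) (nat_lit 0) (XT.nd (nat_lit 234) (nat_lit 0) (nat_lit 0) (XT.nd (nat_lit 78) (nat_lit 0) (nat_lit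 0) (XT.lf (nat_lit 0) (nat_lit 15662469549) (nat_lit 152) (nat_lit 1739971844573) (nat_lit 0) (nat_lit 11383990187) (nat_lit 1) (nat_lit 5) (nat_lit 3) (nat_lit 4) (nat_lit 1) (nat_lit 4) (nat_lit 504) (nat_lit 393) (nat_lit 303)) (XT.nd (nat_lit 78) (nat_lit 0) (nat_lit 0) (XT.lf (nat_lit 0) (nat_lit 36141133138) (nat_lit 152) (nat_lit 1838810664375) (nat_lit 0) (nat_lit 31862342429) (nat_lit 1) (nat_lit 5) (nat_lit 3) (nat_lit 4) (nat_lit 1) (nat_lit 4) (nat_lit 505) (nat_lit 393) (nat_lit 302)) (XT.lf (nat_lit 0) (nat_lit 58255355172) (nat_lit 152) (nat_lit 1945562229868) (nat_lit 0) (nat_lit 53976276179) (nat_lit 1) (nat_lit 5) (nat_lit 3) (nat_lit 4) (nat_lit 1) (nat_lit 4) (nat_lit 506) (nat_lit 393) (nat_lit 301)))) (XT.nd (nat_lit 78) (nat_lit 0) (nat_lit 0) (XT.lf (nat_lit 0) (nat_lit 82136182894) (nat_lit 152) (nat_lit 2060859142922) (nat_lit 0) (nat_lit 77856836972) (nat_lit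 1) (nat_lit 5) (nat_lit 3) (nat_lit 4) (nat_lit 1) (nat_lit 4) (nat_lit 507) (nat_lit 393) (nat_lit 300)) (XT.nd (nat_lit 78) (nat_lit 0) (nat_lit 0) (XT.lf (nat_lit 0) (nat_lit 107925132319) (nat_lit 152) (nat_lit 2185384644502) (nat_lit 0) (nat_lit 103645539240) (nat_lit 1) (nat_lit 5) (nat_lit 3) (nat_lit 4) (nat_lit 1) (nat_lit 4) (nat_lit 508) (nat_lit 393) (nat_lit 299)) (XT.lf (nat_lit 0) (nat_lit 135775026852) (nat_lit 152) (nat_lit 2319876663507) (nat_lit 0) (nat_lit 131495204924) (nat_lit 1) (nat_lit 5) (nat_lit 3) (nat_lit 4) (nat_lit 1) (nat_lit 4) (nat_lit 509) (nat_lit 393) (nat_lit 298))))) (XT.nd (nat_lit 234) (nat_lit 0) (nat_lit 0) (XT.nd (nat_lit 78) (nat_lit 0) (nat_lit 0) (XT.lf (nat_lit 0) (nat_lit 165850902904) (nat_lit 152) (nat_lit 2465132189679) (nat_lit 0) (nat_lit 161570869079) (nat_lit 1) (nat_lit 5) (nat_lit 3) (nat_lit 4) (nat_lit 1) (nat_lit 4) (nat_lit 510)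 (nat_lit 393) (nat_lit 297)) (XT.nd (nat_lit 78) (nat_lit 0) (nat_lit 0) (XT.lf (nat_lit 0) (nat_lit 198330987890) (nat_lit 152) (nat_lit 2622011996507) (nat_lit 0) (nat_lit 194050757864) (nat_lit 1) (nat_lit 5) (nat_lit 3) (nat_lit 4) (nat_lit 1) (nat_lit 4) (nat_lit 511) (nat_lit 393) (nat_lit 296)) (XT.lf (nat_lit 0) (nat_lit 233407756387) (nat_lit 152) (nat_lit 2791445742106) (nat_lit 0) (nat_lit 229127344693) (nat_lit 1) (nat_lit 5) (nat_lit 3) (nat_lit 4) (nat_lit 1) (nat_lit 4) (nat_lit 512) (nat_lit 393) (nat_lit 295)))) (XT.nd (nat_lit 78) (nat_lit 0) (nat_lit 0) (XT.lf (nat_lit 0) (nat_lit 271289070726) (nat_lit 152) (nat_lit 2974437478300) (nat_lit 0) (nat_lit 267008490821) (nat_lit 1) (nat_lit 5) (nat_lit 3) (nat_lit 4) (nat_lit 1) (nat_lit 4) (nat_lit 513) (nat_lit 393) (nat_lit 294)) (XT.nd (nat_lit 78) (nat_lit 0) (nat_lit 0) (XT.lf (nat_lit 0) (nat_lit 312199412772) (nat_lit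 152) (nat_lit 3172071600563) (nat_lit 0) (nat_lit 307918677116) (nat_lit 1) (nat_lit 5) (nat_lit 3) (nat_lit 4) (nat_lit 1) (nat_lit 4) (nat_lit 514) (nat_lit 393) (nat_lit 293)) (XT.lf (nat_lit 0) (nat_lit 356381214179) (nat_lit 152) (nat_lit 3385519274066) (nat_lit 0) (nat_lit 352100334309) (nat_lit 1) (nat_lit 5) (nat_lit 3) (nat_lit 4) (nat_lit 1) (nat_lit 4) (nat_lit 515) (nat_lit 393) (nat_lit 292))))))))
noncomputable def xc76 : XT := (XT.nd (nat_lit 54990) (nat_lit 0) (nat_lit 1748) (XT.nd (nat_lit 858) (nat_lit 0) (nat_lit 0) (XT.nd (nat_lit 390) (nat_lit 0) (nat_lit 0) (XT.nd (nat_lit 156) (nat_lit 0) (nat_lit 0) (XT.nd (nat_lit 78) (nat_lit 0) (nat_lit 0) (XT.lf (nat_lit 0) (nat_lit 404096293031) (nat_lit 152) (nat_lit 3616045373909) (nat_lit 0) (nat_lit 399815279630) (nat_lit 1) (nat_lit 5) (nat_lit 3) (nat_lit 4) (nat_lit 1) (nat_lit 4) (nat_lit 516) (nat_lit 393) (nat_lit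 291)) (XT.lf (nat_lit 0) (nat_lit 455627405350) (nat_lit 152) (nat_lit 3865015980685) (nat_lit 0) (nat_lit 451346268309) (nat_lit 1) (nat_lit 5) (nat_lit 3) (nat_lit 4) (nat_lit 1) (nat_lit 4) (nat_lit 517) (nat_lit 393) (nat_lit 290))) (XT.nd (nat_lit 78) (nat_lit 0) (nat_lit 0) (XT.lf (nat_lit 0) (nat_lit 511279920691) (nat_lit 152) (nat_lit 4133906475767) (nat_lit 0) (nat_lit 506998669168) (nat_lit 1) (nat_lit 5) (nat_lit 3) (nat_lit 4) (nat_lit 1) (nat_lit 4) (nat_lit 518) (nat_lit 393) (nat_lit 289)) (XT.nd (nat_lit 78) (nat_lit 0) (nat_lit 0) (XT.lf (nat_lit 0) (nat_lit 571383631737) (nat_lit 152) (nat_lit 4424310284311) (nat_lit 0) (nat_lit 567102274213) (nat_lit 1) (nat_lit 5) (nat_lit 3) (nat_lit 4) (nat_lit 1) (nat_lit 4) (nat_lit 519) (nat_lit 393) (nat_lit 288)) (XT.lf (nat_lit 0) (nat_lit 636294708628) (nat_lit 152) (nat_lit 4737948317775) (nat_lit 0) (nat_lit 632013252955)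 (nat_lit 1) (nat_lit 5) (nat_lit 3) (nat_lit 4) (nat_lit 1) (nat_lit 4) (nat_lit 520) (nat_lit 393) (nat_lit 287))))) (XT.nd (nat_lit 234) (nat_lit 0) (nat_lit 0) (XT.nd (nat_lit 78) (nat_lit 0) (nat_lit 0) (XT.lf (nat_lit 0) (nat_lit 706397809598) (nat_lit 152) (nat_lit 5076679171913) (nat_lit 0) (nat_lit 702116263046) (nat_lit 1) (nat_lit 5) (nat_lit 3) (nat_lit 4) (nat_lit 1) (nat_lit 4) (nat_lit 521) (nat_lit 393) (nat_lit 286)) (XT.nd (nat_lit 78) (nat_lit 0) (nat_lit 0) (XT.lf (nat_lit 0) (nat_lit 782108360429) (nat_lit 152) (nat_lit 5442510140676) (nat_lit 0) (nat_lit 777826729730) (nat_lit 1) (nat_lit 5) (nat_lit 3) (nat_lit 4) (nat_lit 1) (nat_lit 4) (nat_lit 522) (nat_lit 393) (nat_lit 285)) (XT.lf (nat_lit 0) (nat_lit 863875016239) (nat_lit 152) (nat_lit 5837609111285) (nat_lit 0) (nat_lit 859593307625) (nat_lit 1) (nat_lit 5) (nat_lit 3) (nat_lit 4) (nat_lit 1) (nat_lit 4) (nat_lit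 523) (nat_lit 393) (nat_lit 284)))) (XT.nd (nat_lit 78) (nat_lit 0) (nat_lit 0) (XT.lf (nat_lit 0) (nat_lit 952182320171) (nat_lit 152) (nat_lit 6264317410974) (nat_lit 0) (nat_lit 947900539415) (nat_lit 1) (nat_lit 5) (nat_lit 3) (nat_lit 4) (nat_lit 1) (nat_lit 4) (nat_lit 524) (nat_lit 393) (nat_lit 283)) (XT.nd (nat_lit 78) (nat_lit 0) (nat_lit 0) (XT.lf (nat_lit 0) (nat_lit 1047553574769) (nat_lit 152) (nat_lit 6725163681519) (nat_lit 0) (nat_lit 1043271727214) (nat_lit 1) (nat_lit 5) (nat_lit 3) (nat_lit 4) (nat_lit 1) (nat_lit 4) (nat_lit 525) (nat_lit 393) (nat_lit 282)) (XT.lf (nat_lit 0) (nat_lit 1150553943022) (nat_lit 152) (nat_lit 7222878863783) (nat_lit 0) (nat_lit 1146272033616) (nat_lit 1) (nat_lit 5) (nat_lit 3) (nat_lit 4) (nat_lit 1) (nat_lit 4) (nat_lit 526) (nat_lit 393) (nat_lit 281)))))) (XT.nd (nat_lit 53664) (nat_lit 0) (nat_lit 3876) (XT.nd (nat_lit 234) (nat_lit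 0) (nat_lit 0) (XT.nd (nat_lit 78) (nat_lit 0) (nat_lit 0) (XT.lf (nat_lit 0) (nat_lit 1261793797484) (nat_lit 152) (nat_lit 7760412381067) (nat_lit 0) (nat_lit 1257511830808) (nat_lit 1) (nat_lit 5) (nat_lit 3) (nat_lit 4) (nat_lit 1) (nat_lit 4) (nat_lit 527) (nat_lit 393) (nat_lit 280)) (XT.nd (nat_lit 78) (nat_lit 0) (nat_lit 0) (XT.lf (nat_lit 0) (nat_lit 1381932337291) (nat_lit 152) (nat_lit 8340949617178) (nat_lit 0) (nat_lit 1377650317588) (nat_lit 1) (nat_lit 5) (nat_lit 3) (nat_lit 4) (nat_lit 1) (nat_lit 4) (nat_lit 528) (nat_lit 393) (nat_lit 279)) (XT.lf (nat_lit 0) (nat_lit 1511681494531) (nat_lit 152) (nat_lit 8967930792774) (nat_lit 0) (nat_lit 1507399425729) (nat_lit 1) (nat_lit 5) (nat_lit 3) (nat_lit 4) (nat_lit 1) (nat_lit 4) (nat_lit 529) (nat_lit 393) (nat_lit 278)))) (XT.nd (nat_lit 53274) (nat_lit 0) (nat_lit 5016) (XT.lf (nat_lit 0) (nat_lit 1651810153100) (nat_lit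 152) (nat_lit 9645071351860) (nat_lit 0) (nat_lit 1647528038836) (nat_lit 1) (nat_lit 5) (nat_lit 3) (nat_lit 4) (nat_lit 1) (nat_lit 4) (nat_lit 530) (nat_lit 393) (nat_lit 277)) (XT.nd (nat_lit 78) (nat_lit 304) (nat_lit 0) (XT.lf (nat_lit 0) (nat_lit 3139928734) (nat_lit 456) (nat_lit 301425428) (nat_lit 456) (nat_lit 301425428) (nat_lit 71) (nat_lit 4) (nat_lit 77) (nat_lit 5) (nat_lit 77) (nat_lit 4) (nat_lit 412) (nat_lit 394) (nat_lit 394)) (XT.lf (nat_lit 0) (nat_lit 3092121919) (nat_lit 304) (nat_lit 2853271613) (nat_lit 0) (nat_lit 1723027283) (nat_lit 67) (nat_lit 5) (nat_lit 71) (nat_lit 4) (nat_lit 67) (nat_lit 4) (nat_lit 413) (nat_lit 394) (nat_lit 393))))) (XT.nd (nat_lit 234) (nat_lit 456) (nat_lit 0) (XT.nd (nat_lit 78) (nat_lit 456) (nat_lit 0) (XT.lf (nat_lit 0) (nat_lit 3337283840) (nat_lit 228) (nat_lit 3587153372) (nat_lit 228) (nat_lit 950378519) (nat_lit 64) (nat_lit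 4) (nat_lit 67) (nat_lit 5) (nat_lit 67) (nat_lit 4) (nat_lit 414) (nat_lit 394) (nat_lit 392)) (XT.nd (nat_lit 78) (nat_lit 228) (nat_lit 0) (XT.lf (nat_lit 0) (nat_lit 1784158147) (nat_lit 152) (nat_lit 905606747) (nat_lit 228) (nat_lit 5412538971) (nat_lit 61) (nat_lit 5) (nat_lit 63) (nat_lit 5) (nat_lit 64) (nat_lit 4) (nat_lit 415) (nat_lit 394) (nat_lit 391)) (XT.lf (nat_lit 0) (nat_lit 127425185) (nat_lit 228) (nat_lit 6379170772) (nat_lit 228) (nat_lit 1844555683) (nat_lit 58) (nat_lit 4) (nat_lit 61) (nat_lit 5) (nat_lit 61) (nat_lit 4) (nat_lit 416) (nat_lit 394) (nat_lit 390)))) (XT.nd (nat_lit 78) (nat_lit 380) (nat_lit 0) (XT.lf (nat_lit 0) (nat_lit 1871686550) (nat_lit 304) (nat_lit 1573289867) (nat_lit 76) (nat_lit 5174070340) (nat_lit 57) (nat_lit 5) (nat_lit 61) (nat_lit 5) (nat_lit 58) (nat_lit 4) (nat_lit 417) (nat_lit 394) (nat_lit 389)) (XT.nd (nat_lit 78) (nat_lit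 228) (nat_lit 0) (XT.lf (nat_lit 0) (nat_lit 5523855677) (nat_lit 152) (nat_lit 174709431) (nat_lit 228) (nat_lit 3213000651) (nat_lit 55) (nat_lit 5) (nat_lit 57) (nat_lit 5) (nat_lit 58) (nat_lit 4) (nat_lit 418) (nat_lit 394) (nat_lit 388)) (XT.lf (nat_lit 0) (nat_lit 578056866) (nat_lit 228) (nat_lit 5397654049) (nat_lit 76) (nat_lit 3250334732) (nat_lit 52) (nat_lit 5) (nat_lit 55) (nat_lit 5) (nat_lit 53) (nat_lit 4) (nat_lit 419) (nat_lit 394) (nat_lit 387))))))) (XT.nd (nat_lit 858) (nat_lit 836) (nat_lit 0) (XT.nd (nat_lit 390) (nat_lit 608) (nat_lit 0) (XT.nd (nat_lit 156) (nat_lit 532) (nat_lit 0) (XT.nd (nat_lit 78) (nat_lit 0) (nat_lit 0) (XT.lf (nat_lit 0) (nat_lit 1939321077) (nat_lit 152) (nat_lit 2495400839) (nat_lit 228) (nat_lit 5129464084) (nat_lit 50) (nat_lit 5) (nat_lit 52) (nat_lit 5) (nat_lit 53) (nat_lit 4) (nat_lit 420) (nat_lit 394) (nat_lit 386)) (XT.lf (nat_lit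 0) (nat_lit 8576694736) (nat_lit 228) (nat_lit 110352939) (nat_lit 0) (nat_lit 1244235265) (nat_lit 50) (nat_lit 5) (nat_lit 53) (nat_lit 4) (nat_lit 50) (nat_lit 4) (nat_lit 421) (nat_lit 394) (nat_lit 385))) (XT.nd (nat_lit 78) (nat_lit 304) (nat_lit 0) (XT.lf (nat_lit 0) (nat_lit 2656128112) (nat_lit 228) (nat_lit 2351399313) (nat_lit 76) (nat_lit 5309420738) (nat_lit 47) (nat_lit 5) (nat_lit 50) (nat_lit 5) (nat_lit 48) (nat_lit 4) (nat_lit 422) (nat_lit 394) (nat_lit 384)) (XT.nd (nat_lit 78) (nat_lit 228) (nat_lit 0) (XT.lf (nat_lit 0) (nat_lit 5914531196) (nat_lit 76) (nat_lit 957627572) (nat_lit 152) (nat_lit 3861919478) (nat_lit 46) (nat_lit 5) (nat_lit 47) (nat_lit 5) (nat_lit 48) (nat_lit 4) (nat_lit 423) (nat_lit 394) (nat_lit 383)) (XT.lf (nat_lit 0) (nat_lit 280538852) (nat_lit 228) (nat_lit 7606925879) (nat_lit 76) (nat_lit 3292547041) (nat_lit 43) (nat_lit 5) (nat_lit 46)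 (nat_lit 5) (nat_lit 44) (nat_lit 4) (nat_lit 424) (nat_lit 394) (nat_lit 382))))) (XT.nd (nat_lit 234) (nat_lit 304) (nat_lit 0) (XT.nd (nat_lit 78) (nat_lit 228) (nat_lit 0) (XT.lf (nat_lit 0) (nat_lit 862354957) (nat_lit 76) (nat_lit 3682081256) (nat_lit 152) (nat_lit 7109293917) (nat_lit 42) (nat_lit 5) (nat_lit 43) (nat_lit 5) (nat_lit 44) (nat_lit 4) (nat_lit 425) (nat_lit 394) (nat_lit 381)) (XT.nd (nat_lit 78) (nat_lit 228) (nat_lit 0) (XT.lf (nat_lit 0) (nat_lit 9204466669) (nat_lit 152) (nat_lit 2048423842) (nat_lit 0) (nat_lit 908081355) (nat_lit 42) (nat_lit 5) (nat_lit 44) (nat_lit 4) (nat_lit 42) (nat_lit 4) (nat_lit 426) (nat_lit 394) (nat_lit 380)) (XT.lf (nat_lit 0) (nat_lit 1562035787) (nat_lit 228) (nat_lit 5364586618) (nat_lit 76) (nat_lit 5770454058) (nat_lit 39) (nat_lit 5) (nat_lit 42) (nat_lit 5) (nat_lit 40) (nat_lit 4) (nat_lit 427) (nat_lit 394) (nat_lit 379))))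 (XT.nd (nat_lit 78) (nat_lit 228) (nat_lit 0) (XT.lf (nat_lit 0) (nat_lit 4144505551) (nat_lit 76) (nat_lit 2130428779) (nat_lit 152) (nat_lit 6995605445) (nat_lit 38) (nat_lit 5) (nat_lit 39) (nat_lit 5) (nat_lit 40) (nat_lit 4) (nat_lit 428) (nat_lit 394) (nat_lit 378)) (XT.nd (nat_lit 78) (nat_lit 76) (nat_lit 0) (XT.lf (nat_lit 0) (nat_lit 493147726) (nat_lit 152) (nat_lit 10945132509) (nat_lit 152) (nat_lit 2445746976) (nat_lit 36) (nat_lit 4) (nat_lit 38) (nat_lit 5) (nat_lit 38) (nat_lit 4) (nat_lit 429) (nat_lit 394) (nat_lit 377)) (XT.lf (nat_lit 0) (nat_lit 2494692689) (nat_lit 228) (nat_lit 3543602480) (nat_lit 76) (nat_lit 8491562692) (nat_lit 35) (nat_lit 5) (nat_lit 38) (nat_lit 5) (nat_lit 36) (nat_lit 4) (nat_lit 430) (nat_lit 394) (nat_lit 376)))))) (XT.nd (nat_lit 468) (nat_lit 380) (nat_lit 0) (XT.nd (nat_lit 234) (nat_lit 228) (nat_lit 0) (XT.nd (nat_lit 78) (nat_lit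 152) (nat_lit 0) (XT.lf (nat_lit 0) (nat_lit 7108853982) (nat_lit 76) (nat_lit 611012639) (nat_lit 152) (nat_lit 7500691748) (nat_lit 34) (nat_lit 5) (nat_lit 35) (nat_lit 5) (nat_lit 36) (nat_lit 4) (nat_lit 431) (nat_lit 394) (nat_lit 375)) (XT.nd (nat_lit 78) (nat_lit 76) (nat_lit 0) (XT.lf (nat_lit 0) (nat_lit 2580182554) (nat_lit 76) (nat_lit 10922932745) (nat_lit 76) (nat_lit 2452209670) (nat_lit 33) (nat_lit 4) (nat_lit 34) (nat_lit 5) (nat_lit 34) (nat_lit 4) (nat_lit 432) (nat_lit 394) (nat_lit 374)) (XT.lf (nat_lit 0) (nat_lit 2946547048) (nat_lit 152) (nat_lit 2513297816) (nat_lit 76) (nat_lit 11275550466) (nat_lit 32) (nat_lit 5) (nat_lit 34) (nat_lit 5) (nat_lit 33) (nat_lit 4) (nat_lit 433) (nat_lit 394) (nat_lit 373)))) (XT.nd (nat_lit 78) (nat_lit 152) (nat_lit 0) (XT.lf (nat_lit 0) (nat_lit 8749102913) (nat_lit 152) (nat_lit 8215131796) (nat_lit 0) (nat_lit 600202422) (nat_lit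 31) (nat_lit 5) (nat_lit 33) (nat_lit 4) (nat_lit 31) (nat_lit 4) (nat_lit 434) (nat_lit 394) (nat_lit 372)) (XT.nd (nat_lit 78) (nat_lit 76) (nat_lit 0) (XT.lf (nat_lit 0) (nat_lit 3629688237) (nat_lit 76) (nat_lit 11550950227) (nat_lit 76) (nat_lit 3265992763) (nat_lit 30) (nat_lit 4) (nat_lit 31) (nat_lit 5) (nat_lit 31) (nat_lit 4) (nat_lit 435) (nat_lit 394) (nat_lit 371)) (XT.lf (nat_lit 0) (nat_lit 2687014723) (nat_lit 152) (nat_lit 2821945517) (nat_lit 76) (nat_lit 13877510758) (nat_lit 29) (nat_lit 5) (nat_lit 31) (nat_lit 5) (nat_lit 30) (nat_lit 4) (nat_lit 436) (nat_lit 394) (nat_lit 370))))) (XT.nd (nat_lit 234) (nat_lit 152) (nat_lit 0) (XT.nd (nat_lit 78) (nat_lit 152) (nat_lit 0) (XT.lf (nat_lit 0) (nat_lit 9094113931) (nat_lit 152) (nat_lit 10090058599) (nat_lit 0) (nat_lit 1198203684) (nat_lit 28) (nat_lit 5) (nat_lit 30) (nat_lit 4) (nat_lit 28) (nat_lit 4) (nat_lit 437)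 (nat_lit 394) (nat_lit 369)) (XT.nd (nat_lit 78) (nat_lit 76) (nat_lit 0) (XT.lf (nat_lit 0) (nat_lit 2925528377) (nat_lit 76) (nat_lit 13257408620) (nat_lit 76) (nat_lit 5261492436) (nat_lit 27) (nat_lit 4) (nat_lit 28) (nat_lit 5) (nat_lit 28) (nat_lit 4) (nat_lit 438) (nat_lit 394) (nat_lit 368)) (XT.lf (nat_lit 0) (nat_lit 1345002729) (nat_lit 152) (nat_lit 5290908597) (nat_lit 76) (nat_lit 15940343685) (nat_lit 26) (nat_lit 5) (nat_lit 28) (nat_lit 5) (nat_lit 27) (nat_lit 4) (nat_lit 439) (nat_lit 394) (nat_lit 367)))) (XT.nd (nat_lit 78) (nat_lit 76) (nat_lit 0) (XT.lf (nat_lit 0) (nat_lit 8319450702) (nat_lit 152) (nat_lit 14707656424) (nat_lit 0) (nat_lit 750697697) (nat_lit 25) (nat_lit 5) (nat_lit 27) (nat_lit 4) (nat_lit 25) (nat_lit 4) (nat_lit 440) (nat_lit 394) (nat_lit 366)) (XT.nd (nat_lit 78) (nat_lit 76) (nat_lit 0) (XT.lf (nat_lit 0) (nat_lit 16059351485) (nat_lit 152)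 (nat_lit 582442173) (nat_lit 0) (nat_lit 8417091131) (nat_lit 25) (nat_lit 5) (nat_lit 27) (nat_lit 4) (nat_lit 25) (nat_lit 4) (nat_lit 441) (nat_lit 394) (nat_lit 365)) (XT.lf (nat_lit 0) (nat_lit 15227681768) (nat_lit 76) (nat_lit 9452095475) (nat_lit 76) (nat_lit 1741772761) (nat_lit 24) (nat_lit 4) (nat_lit 25) (nat_lit 5) (nat_lit 25) (nat_lit 4) (nat_lit 442) (nat_lit 394) (nat_lit 364))))))))
noncomputable def xc77 : XT := (XT.nd (nat_lit 1794) (nat_lit 456) (nat_lit 0) (XT.nd (nat_lit 858) (nat_lit 456) (nat_lit 0) (XT.nd (nat_lit 390) (nat_lit 304) (nat_lit 0) (XT.nd (nat_lit 156) (nat_lit 228) (nat_lit 0) (XT.nd (nat_lit 78) (nat_lit 0) (nat_lit 0) (XT.lf (nat_lit 0) (nat_lit 4304964774) (nat_lit 76) (nat_lit 1501914164) (nat_lit 152) (nat_lit 22073404526) (nat_lit 22) (nat_lit 5) (nat_lit 23) (nat_lit 5) (nat_lit 24) (nat_lit 4) (nat_lit 443) (nat_lit 394) (nat_lit 363)) (XT.lf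 (nat_lit 0) (nat_lit 14245568710) (nat_lit 152) (nat_lit 8182113813) (nat_lit 0) (nat_lit 6993998412) (nat_lit 22) (nat_lit 5) (nat_lit 24) (nat_lit 4) (nat_lit 22) (nat_lit 4) (nat_lit 444) (nat_lit 394) (nat_lit 362))) (XT.nd (nat_lit 78) (nat_lit 152) (nat_lit 0) (XT.lf (nat_lit 0) (nat_lit 8643683327) (nat_lit 76) (nat_lit 14866135913) (nat_lit 76) (nat_lit 7564537748) (nat_lit 21) (nat_lit 4) (nat_lit 22) (nat_lit 5) (nat_lit 22) (nat_lit 4) (nat_lit 445) (nat_lit 394) (nat_lit 361)) (XT.nd (nat_lit 78) (nat_lit 76) (nat_lit 0) (XT.lf (nat_lit 0) (nat_lit 756443599) (nat_lit 152) (nat_lit 5774517575) (nat_lit 76) (nat_lit 26316363750) (nat_lit 20) (nat_lit 5) (nat_lit 22) (nat_lit 5) (nat_lit 21) (nat_lit 4) (nat_lit 446) (nat_lit 394) (nat_lit 360)) (XT.lf (nat_lit 0) (nat_lit 9615227979) (nat_lit 152) (nat_lit 22336838141) (nat_lit 0) (nat_lit 2771884372) (nat_lit 19) (nat_lit 5)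 (nat_lit 21) (nat_lit 4) (nat_lit 19) (nat_lit 4) (nat_lit 447) (nat_lit 394) (nat_lit 359))))) (XT.nd (nat_lit 234) (nat_lit 152) (nat_lit 0) (XT.nd (nat_lit 78) (nat_lit 152) (nat_lit 0) (XT.lf (nat_lit 0) (nat_lit 19425566205) (nat_lit 152) (nat_lit 4760264153) (nat_lit 0) (nat_lit 12545450623) (nat_lit 19) (nat_lit 5) (nat_lit 21) (nat_lit 4) (nat_lit 19) (nat_lit 4) (nat_lit 448) (nat_lit 394) (nat_lit 358)) (XT.nd (nat_lit 78) (nat_lit 76) (nat_lit 0) (XT.lf (nat_lit 0) (nat_lit 14797356473) (nat_lit 76) (nat_lit 15497056678) (nat_lit 76) (nat_lit 8582892971) (nat_lit 18) (nat_lit 4) (nat_lit 19) (nat_lit 5) (nat_lit 19) (nat_lit 4) (nat_lit 449) (nat_lit 394) (nat_lit 357)) (XT.lf (nat_lit 0) (nat_lit 847320047) (nat_lit 152) (nat_lit 5183264051) (nat_lit 76) (nat_lit 35158701819) (nat_lit 17) (nat_lit 5) (nat_lit 19) (nat_lit 5) (nat_lit 18) (nat_lit 4) (nat_lit 450) (nat_lit 394)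 (nat_lit 356)))) (XT.nd (nat_lit 78) (nat_lit 76) (nat_lit 0) (XT.lf (nat_lit 0) (nat_lit 10982737919) (nat_lit 152) (nat_lit 28127979608) (nat_lit 0) (nat_lit 4524515207) (nat_lit 16) (nat_lit 5) (nat_lit 18) (nat_lit 4) (nat_lit 16) (nat_lit 4) (nat_lit 451) (nat_lit 394) (nat_lit 355)) (XT.nd (nat_lit 78) (nat_lit 76) (nat_lit 0) (XT.lf (nat_lit 0) (nat_lit 22155270687) (nat_lit 152) (nat_lit 8431462522) (nat_lit 0) (nat_lit 15672021586) (nat_lit 16) (nat_lit 5) (nat_lit 18) (nat_lit 4) (nat_lit 16) (nat_lit 4) (nat_lit 452) (nat_lit 394) (nat_lit 354)) (XT.lf (nat_lit 0) (nat_lit 13367418609) (nat_lit 76) (nat_lit 21105528154) (nat_lit 76) (nat_lit 14599106472) (nat_lit 15) (nat_lit 4) (nat_lit 16) (nat_lit 5) (nat_lit 16) (nat_lit 4) (nat_lit 453) (nat_lit 394) (nat_lit 353)))))) (XT.nd (nat_lit 468) (nat_lit 228) (nat_lit 0) (XT.nd (nat_lit 234) (nat_lit 76) (nat_lit 0) (XT.nd (nat_lit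 78) (nat_lit 152) (nat_lit 0) (XT.lf (nat_lit 0) (nat_lit 37251261435) (nat_lit 76) (nat_lit 10687026760) (nat_lit 76) (nat_lit 4159148983) (nat_lit 15) (nat_lit 4) (nat_lit 16) (nat_lit 5) (nat_lit 16) (nat_lit 4) (nat_lit 454) (nat_lit 394) (nat_lit 352)) (XT.nd (nat_lit 78) (nat_lit 0) (nat_lit 0) (XT.lf (nat_lit 0) (nat_lit 6903236702) (nat_lit 152) (nat_lit 47595958886) (nat_lit 0) (nat_lit 840510284) (nat_lit 13) (nat_lit 5) (nat_lit 15) (nat_lit 4) (nat_lit 13) (nat_lit 4) (nat_lit 455) (nat_lit 394) (nat_lit 351)) (XT.lf (nat_lit 0) (nat_lit 19255247804) (nat_lit 152) (nat_lit 26351631463) (nat_lit 0) (nat_lit 13175488847) (nat_lit 13) (nat_lit 5) (nat_lit 15) (nat_lit 4) (nat_lit 13) (nat_lit 4) (nat_lit 456) (nat_lit 394) (nat_lit 350)))) (XT.nd (nat_lit 78) (nat_lit 76) (nat_lit 0) (XT.lf (nat_lit 0) (nat_lit 32535500700) (nat_lit 152) (nat_lit 3529766565) (nat_lit 0) (nat_lit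 26439970872) (nat_lit 13) (nat_lit 5) (nat_lit 15) (nat_lit 4) (nat_lit 13) (nat_lit 4) (nat_lit 457) (nat_lit 394) (nat_lit 349)) (XT.nd (nat_lit 78) (nat_lit 0) (nat_lit 0) (XT.lf (nat_lit 0) (nat_lit 22110956062) (nat_lit 76) (nat_lit 25243506144) (nat_lit 76) (nat_lit 19133373660) (nat_lit 12) (nat_lit 4) (nat_lit 13) (nat_lit 5) (nat_lit 13) (nat_lit 4) (nat_lit 458) (nat_lit 394) (nat_lit 348)) (XT.lf (nat_lit 0) (nat_lit 49893566443) (nat_lit 76) (nat_lit 13507865125) (nat_lit 76) (nat_lit 7384211661) (nat_lit 12) (nat_lit 4) (nat_lit 13) (nat_lit 5) (nat_lit 13) (nat_lit 4) (nat_lit 459) (nat_lit 394) (nat_lit 347))))) (XT.nd (nat_lit 234) (nat_lit 76) (nat_lit 0) (XT.nd (nat_lit 78) (nat_lit 0) (nat_lit 0) (XT.lf (nat_lit 0) (nat_lit 4462502469) (nat_lit 76) (nat_lit 633014529) (nat_lit 152) (nat_lit 70317072076) (nat_lit 10) (nat_lit 5) (nat_lit 11) (nat_lit 5) (nat_lit 12) (nat_lit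 4) (nat_lit 460) (nat_lit 394) (nat_lit 346)) (XT.nd (nat_lit 78) (nat_lit 0) (nat_lit 0) (XT.lf (nat_lit 0) (nat_lit 19028714517) (nat_lit 152) (nat_lit 47960971171) (nat_lit 0) (nat_lit 13336339564) (nat_lit 10) (nat_lit 5) (nat_lit 12) (nat_lit 4) (nat_lit 10) (nat_lit 4) (nat_lit 461) (nat_lit 394) (nat_lit 345)) (XT.lf (nat_lit 0) (nat_lit 34045582597) (nat_lit 152) (nat_lit 23246164026) (nat_lit 0) (nat_lit 28343269321) (nat_lit 10) (nat_lit 5) (nat_lit 12) (nat_lit 4) (nat_lit 10) (nat_lit 4) (nat_lit 462) (nat_lit 394) (nat_lit 344)))) (XT.nd (nat_lit 78) (nat_lit 0) (nat_lit 0) (XT.lf (nat_lit 0) (nat_lit 3532738865) (nat_lit 76) (nat_lit 46772109662) (nat_lit 76) (nat_lit 41060594235) (nat_lit 9) (nat_lit 4) (nat_lit 10) (nat_lit 5) (nat_lit 10) (nat_lit 4) (nat_lit 463) (nat_lit 394) (nat_lit 343)) (XT.nd (nat_lit 78) (nat_lit 0) (nat_lit 0) (XT.lf (nat_lit 0) (nat_lit 33688446894)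 (nat_lit 76) (nat_lit 34769233732) (nat_lit 76) (nat_lit 29049197794) (nat_lit 9) (nat_lit 4) (nat_lit 10) (nat_lit 5) (nat_lit 10) (nat_lit 4) (nat_lit 464) (nat_lit 394) (nat_lit 342)) (XT.lf (nat_lit 0) (nat_lit 66175558748) (nat_lit 76) (nat_lit 21847582000) (nat_lit 76) (nat_lit 16119656701) (nat_lit 9) (nat_lit 4) (nat_lit 10) (nat_lit 5) (nat_lit 10) (nat_lit 4) (nat_lit 465) (nat_lit 394) (nat_lit 341))))))) (XT.nd (nat_lit 936) (nat_lit 76) (nat_lit 0) (XT.nd (nat_lit 468) (nat_lit 152) (nat_lit 0) (XT.nd (nat_lit 234) (nat_lit 76) (nat_lit 0) (XT.nd (nat_lit 78) (nat_lit 152) (nat_lit 0) (XT.lf (nat_lit 0) (nat_lit 101186590647) (nat_lit 76) (nat_lit 7930581715) (nat_lit 76) (nat_lit 2195351452) (nat_lit 9) (nat_lit 4) (nat_lit 10) (nat_lit 5) (nat_lit 10) (nat_lit 4) (nat_lit 466) (nat_lit 394) (nat_lit 340)) (XT.nd (nat_lit 78) (nat_lit 0) (nat_lit 0) (XT.lf (nat_lit 0) (nat_lit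 12851623963) (nat_lit 152) (nat_lit 98592437967) (nat_lit 0) (nat_lit 7534962742) (nat_lit 7) (nat_lit 5) (nat_lit 9) (nat_lit 4) (nat_lit 7) (nat_lit 4) (nat_lit 467) (nat_lit 394) (nat_lit 339)) (XT.lf (nat_lit 0) (nat_lit 29439013143) (nat_lit 152) (nat_lit 73662297208) (nat_lit 0) (nat_lit 24116553006) (nat_lit 7) (nat_lit 5) (nat_lit 9) (nat_lit 4) (nat_lit 7) (nat_lit 4) (nat_lit 468) (nat_lit 394) (nat_lit 338)))) (XT.nd (nat_lit 78) (nat_lit 76) (nat_lit 0) (XT.lf (nat_lit 0) (nat_lit 47321190164) (nat_lit 152) (nat_lit 46803835009) (nat_lit 0) (nat_lit 41993360660) (nat_lit 7) (nat_lit 5) (nat_lit 9) (nat_lit 4) (nat_lit 7) (nat_lit 4) (nat_lit 469) (nat_lit 394) (nat_lit 337)) (XT.nd (nat_lit 78) (nat_lit 76) (nat_lit 0) (XT.lf (nat_lit 0) (nat_lit 66604123484) (nat_lit 152) (nat_lit 17857890109) (nat_lit 0) (nat_lit 61271322344) (nat_lit 7) (nat_lit 5) (nat_lit 9) (nat_lit 4)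 (nat_lit 7) (nat_lit 4) (nat_lit 470) (nat_lit 394) (nat_lit 336)) (XT.lf (nat_lit 0) (nat_lit 14049902014) (nat_lit 76) (nat_lit 73690080802) (nat_lit 76) (nat_lit 68352676296) (nat_lit 6) (nat_lit 4) (nat_lit 7) (nat_lit 5) (nat_lit 7) (nat_lit 4) (nat_lit 471) (nat_lit 394) (nat_lit 335))))) (XT.nd (nat_lit 234) (nat_lit 152) (nat_lit 0) (XT.nd (nat_lit 78) (nat_lit 0) (nat_lit 0) (XT.lf (nat_lit 0) (nat_lit 49470684641) (nat_lit 76) (nat_lit 61557400398) (nat_lit 76) (nat_lit 56215733515) (nat_lit 6) (nat_lit 4) (nat_lit 7) (nat_lit 5) (nat_lit 7) (nat_lit 4) (nat_lit 472) (nat_lit 394) (nat_lit 334)) (XT.nd (nat_lit 78) (nat_lit 0) (nat_lit 0) (XT.lf (nat_lit 0) (nat_lit 87673993857) (nat_lit 76) (nat_lit 48480341379) (nat_lit 76) (nat_lit 43134727850) (nat_lit 6) (nat_lit 4) (nat_lit 7) (nat_lit 5) (nat_lit 7) (nat_lit 4) (nat_lit 473) (nat_lit 394) (nat_lit 333)) (XT.lf (nat_lit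 0) (nat_lit 128886219642) (nat_lit 76) (nat_lit 34381410060) (nat_lit 76) (nat_lit 29032142231) (nat_lit 6) (nat_lit 4) (nat_lit 7) (nat_lit 5) (nat_lit 7) (nat_lit 4) (nat_lit 474) (nat_lit 394) (nat_lit 332)))) (XT.nd (nat_lit 78) (nat_lit 152) (nat_lit 0) (XT.lf (nat_lit 0) (nat_lit 173351582595) (nat_lit 76) (nat_lit 19177057220) (nat_lit 76) (nat_lit 13824405780) (nat_lit 6) (nat_lit 4) (nat_lit 7) (nat_lit 5) (nat_lit 7) (nat_lit 4) (nat_lit 475) (nat_lit 394) (nat_lit 331)) (XT.nd (nat_lit 78) (nat_lit 76) (nat_lit 0) (XT.lf (nat_lit 0) (nat_lit 2449609336) (nat_lit 152) (nat_lit 260596993) (nat_lit 76) (nat_lit 218816995165) (nat_lit 5) (nat_lit 5) (nat_lit 7) (nat_lit 5) (nat_lit 6) (nat_lit 4) (nat_lit 476) (nat_lit 394) (nat_lit 330)) (XT.lf (nat_lit 0) (nat_lit 20532618785) (nat_lit 152) (nat_lit 201682756130) (nat_lit 0) (nat_lit 15570873121) (nat_lit 4) (nat_lit 5) (nat_lit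 6) (nat_lit 4) (nat_lit 4) (nat_lit 4) (nat_lit 477) (nat_lit 394) (nat_lit 329)))))) (XT.nd (nat_lit 468) (nat_lit 76) (nat_lit 0) (XT.nd (nat_lit 234) (nat_lit 0) (nat_lit 0) (XT.nd (nat_lit 78) (nat_lit 0) (nat_lit 0) (XT.lf (nat_lit 0) (nat_lit 40121218568) (nat_lit 152) (nat_lit 180063098118) (nat_lit 0) (nat_lit 35156985848) (nat_lit 4) (nat_lit 5) (nat_lit 6) (nat_lit 4) (nat_lit 4) (nat_lit 4) (nat_lit 478) (nat_lit 394) (nat_lit 328)) (XT.nd (nat_lit 78) (nat_lit 0) (nat_lit 0) (XT.lf (nat_lit 0) (nat_lit 61259539996) (nat_lit 152) (nat_lit 156749606441) (nat_lit 0) (nat_lit 56293004448) (nat_lit 4) (nat_lit 5) (nat_lit 6) (nat_lit 4) (nat_lit 4) (nat_lit 4) (nat_lit 479) (nat_lit 394) (nat_lit 327)) (XT.lf (nat_lit 0) (nat_lit 84072847198) (nat_lit 152) (nat_lit 131604127074) (nat_lit 0) (nat_lit 79104179400) (nat_lit 4) (nat_lit 5) (nat_lit 6) (nat_lit 4) (nat_lit 4) (nat_lit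 4) (nat_lit 480) (nat_lit 394) (nat_lit 326)))) (XT.nd (nat_lit 78) (nat_lit 0) (nat_lit 0) (XT.lf (nat_lit 0) (nat_lit 108696330141) (nat_lit 152) (nat_lit 104477649768) (nat_lit 0) (nat_lit 103725688038) (nat_lit 4) (nat_lit 5) (nat_lit 6) (nat_lit 4) (nat_lit 4) (nat_lit 4) (nat_lit 481) (nat_lit 394) (nat_lit 325)) (XT.nd (nat_lit 78) (nat_lit 0) (nat_lit 0) (XT.lf (nat_lit 0) (nat_lit 135275905761) (nat_lit 152) (nat_lit 75209425029) (nat_lit 0) (nat_lit 130303435598) (nat_lit 4) (nat_lit 5) (nat_lit 6) (nat_lit 4) (nat_lit 4) (nat_lit 4) (nat_lit 482) (nat_lit 394) (nat_lit 324)) (XT.lf (nat_lit 0) (nat_lit 163969082655) (nat_lit 152) (nat_lit 43626011524) (nat_lit 0) (nat_lit 158994919844) (nat_lit 4) (nat_lit 5) (nat_lit 6) (nat_lit 4) (nat_lit 4) (nat_lit 4) (nat_lit 483) (nat_lit 394) (nat_lit 323))))) (XT.nd (nat_lit 234) (nat_lit 0) (nat_lit 0) (XT.nd (nat_lit 78) (nat_lit 76)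 (nat_lit 0) (XT.lf (nat_lit 0) (nat_lit 194945894464) (nat_lit 152) (nat_lit 9540248286) (nat_lit 0) (nat_lit 189970164385) (nat_lit 4) (nat_lit 5) (nat_lit 6) (nat_lit 4) (nat_lit 4) (nat_lit 4) (nat_lit 484) (nat_lit 394) (nat_lit 322)) (XT.nd (nat_lit 78) (nat_lit 0) (nat_lit 0) (XT.lf (nat_lit 0) (nat_lit 28684783436) (nat_lit 76) (nat_lit 200394993774) (nat_lit 76) (nat_lit 195417812522) (nat_lit 3) (nat_lit 4) (nat_lit 4) (nat_lit 5) (nat_lit 4) (nat_lit 4) (nat_lit 485) (nat_lit 394) (nat_lit 321)) (XT.lf (nat_lit 0) (nat_lit 70488428620) (nat_lit 76) (nat_lit 195706128227) (nat_lit 76) (nat_lit 190727603297) (nat_lit 3) (nat_lit 4) (nat_lit 4) (nat_lit 5) (nat_lit 4) (nat_lit 4) (nat_lit 486) (nat_lit 394) (nat_lit 320)))) (XT.nd (nat_lit 78) (nat_lit 0) (nat_lit 0) (XT.lf (nat_lit 0) (nat_lit 115616040003) (nat_lit 76) (nat_lit 190652607535) (nat_lit 76) (nat_lit 185672838457)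 (nat_lit 3) (nat_lit 4) (nat_lit 4) (nat_lit 5) (nat_lit 4) (nat_lit 4) (nat_lit 487) (nat_lit 394) (nat_lit 319)) (XT.nd (nat_lit 78) (nat_lit 0) (nat_lit 0) (XT.lf (nat_lit 0) (nat_lit 164335040467) (nat_lit 76) (nat_lit 185204484907) (nat_lit 76) (nat_lit 180223563841) (nat_lit 3) (nat_lit 4) (nat_lit 4) (nat_lit 5) (nat_lit 4) (nat_lit 4) (nat_lit 488) (nat_lit 394) (nat_lit 318)) (XT.lf (nat_lit 0) (nat_lit 216934135200) (nat_lit 76) (nat_lit 179329475173) (nat_lit 76) (nat_lit 174347487451) (nat_lit 3) (nat_lit 4) (nat_lit 4) (nat_lit 5) (nat_lit 4) (nat_lit 4) (nat_lit 489) (nat_lit 394) (nat_lit 317))))))))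
noncomputable def xc78 : XT := (XT.nd (nat_lit 1794) (nat_lit 0) (nat_lit 0) (XT.nd (nat_lit 858) (nat_lit 152) (nat_lit 0) (XT.nd (nat_lit 390) (nat_lit 0) (nat_lit 0) (XT.nd (nat_lit 156) (nat_lit 0) (nat_lit 0) (XT.nd (nat_lit 78) (nat_lit 0) (nat_lit 0) (XT.lf (nat_lit 0) (nat_lit 273725022540) (nat_lit 76) (nat_lit 172992763460) (nat_lit 76) (nat_lit 168009788094) (nat_lit 3) (nat_lit 4) (nat_lit 4) (nat_lit 5) (nat_lit 4) (nat_lit 4) (nat_lit 490) (nat_lit 394) (nat_lit 316)) (XT.lf (nat_lit 0) (nat_lit 335044241081) (nat_lit 76) (nat_lit 166156798884) (nat_lit 76) (nat_lit 161172909033) (nat_lit 3) (nat_lit 4) (nat_lit 4) (nat_lit 5) (nat_lit 4) (nat_lit 4) (nat_lit 491) (nat_lit 394) (nat_lit 315))) (XT.nd (nat_lit 78) (nat_lit 0) (nat_lit 0) (XT.lf (nat_lit 0) (nat_lit 401255163968) (nat_lit 76) (nat_lit 158781072025) (nat_lit 76) (nat_lit 153796335429) (nat_lit 3) (nat_lit 4)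 (nat_lit 4) (nat_lit 5) (nat_lit 4) (nat_lit 4) (nat_lit 492) (nat_lit 394) (nat_lit 314)) (XT.nd (nat_lit 78) (nat_lit 0) (nat_lit 0) (XT.lf (nat_lit 0) (nat_lit 472750152227) (nat_lit 76) (nat_lit 150821874872) (nat_lit 76) (nat_lit 145836354252) (nat_lit 3) (nat_lit 4) (nat_lit 4) (nat_lit 5) (nat_lit 4) (nat_lit 4) (nat_lit 493) (nat_lit 394) (nat_lit 313)) (XT.lf (nat_lit 0) (nat_lit 549952879861) (nat_lit 76) (nat_lit 142232041813) (nat_lit 76) (nat_lit 137245795246) (nat_lit 3) (nat_lit 4) (nat_lit 4) (nat_lit 5) (nat_lit 4) (nat_lit 4) (nat_lit 494) (nat_lit 394) (nat_lit 312))))) (XT.nd (nat_lit 234) (nat_lit 0) (nat_lit 0) (XT.nd (nat_lit 78) (nat_lit 0) (nat_lit 0) (XT.lf (nat_lit 0) (nat_lit 633320844515) (nat_lit 76) (nat_lit 132960670133) (nat_lit 76) (nat_lit 127973751392) (nat_lit 3) (nat_lit 4) (nat_lit 4) (nat_lit 5) (nat_lit 4) (nat_lit 4) (nat_lit 495) (nat_lit 394)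 (nat_lit 311)) (XT.nd (nat_lit 78) (nat_lit 0) (nat_lit 0) (XT.lf (nat_lit 0) (nat_lit 723348078574) (nat_lit 76) (nat_lit 122952818371) (nat_lit 76) (nat_lit 117965277246) (nat_lit 3) (nat_lit 4) (nat_lit 4) (nat_lit 5) (nat_lit 4) (nat_lit 4) (nat_lit 496) (nat_lit 394) (nat_lit 310)) (XT.lf (nat_lit 0) (nat_lit 820568076757) (nat_lit 76) (nat_lit 112149180737) (nat_lit 76) (nat_lit 107161063331) (nat_lit 3) (nat_lit 4) (nat_lit 4) (nat_lit 5) (nat_lit 4) (nat_lit 4) (nat_lit 497) (nat_lit 394) (nat_lit 309)))) (XT.nd (nat_lit 78) (nat_lit 0) (nat_lit 0) (XT.lf (nat_lit 0) (nat_lit 925556957573) (nat_lit 76) (nat_lit 100485735676) (nat_lit 76) (nat_lit 95497084677) (nat_lit 3) (nat_lit 4) (nat_lit 4) (nat_lit 5) (nat_lit 4) (nat_lit 4) (nat_lit 498) (nat_lit 394) (nat_lit 308)) (XT.nd (nat_lit 78) (nat_lit 0) (nat_lit 0) (XT.lf (nat_lit 0) (nat_lit 1038936877351) (nat_lit 76) (nat_lit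 87893366476) (nat_lit 76) (nat_lit 82904221409) (nat_lit 3) (nat_lit 4) (nat_lit 4) (nat_lit 5) (nat_lit 4) (nat_lit 4) (nat_lit 499) (nat_lit 394) (nat_lit 307)) (XT.lf (nat_lit 0) (nat_lit 1161379717098) (nat_lit 76) (nat_lit 74297451690) (nat_lit 76) (nat_lit 69307849153) (nat_lit 3) (nat_lit 4) (nat_lit 4) (nat_lit 5) (nat_lit 4) (nat_lit 4) (nat_lit 500) (nat_lit 394) (nat_lit 306)))))) (XT.nd (nat_lit 468) (nat_lit 0) (nat_lit 0) (XT.nd (nat_lit 234) (nat_lit 152) (nat_lit 0) (XT.nd (nat_lit 78) (nat_lit 0) (nat_lit 0) (XT.lf (nat_lit 0) (nat_lit 1293611064013) (nat_lit 76) (nat_lit 59617422935) (nat_lit 76) (nat_lit 54627396814) (nat_lit 3) (nat_lit 4) (nat_lit 4) (nat_lit 5) (nat_lit 4) (nat_lit 4) (nat_lit 501) (nat_lit 394) (nat_lit 305)) (XT.nd (nat_lit 78) (nat_lit 0) (nat_lit 0) (XT.lf (nat_lit 0) (nat_lit 1436414511261) (nat_lit 76) (nat_lit 43766287447) (nat_lit 76) (nat_lit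 38775869119) (nat_lit 3) (nat_lit 4) (nat_lit 4) (nat_lit 5) (nat_lit 4) (nat_lit 4) (nat_lit 502) (nat_lit 394) (nat_lit 304)) (XT.lf (nat_lit 0) (nat_lit 1590636301495) (nat_lit 76) (nat_lit 26650112571) (nat_lit 76) (nat_lit 21659331088) (nat_lit 3) (nat_lit 4) (nat_lit 4) (nat_lit 5) (nat_lit 4) (nat_lit 4) (nat_lit 503) (nat_lit 394) (nat_lit 303)))) (XT.nd (nat_lit 78) (nat_lit 152) (nat_lit 0) (XT.lf (nat_lit 0) (nat_lit 1757190341619) (nat_lit 76) (nat_lit 8167469123) (nat_lit 76) (nat_lit 3176351386) (nat_lit 3) (nat_lit 4) (nat_lit 4) (nat_lit 5) (nat_lit 4) (nat_lit 4) (nat_lit 504) (nat_lit 394) (nat_lit 302)) (XT.nd (nat_lit 78) (nat_lit 0) (nat_lit 0) (XT.lf (nat_lit 0) (nat_lit 16968818913) (nat_lit 152) (nat_lit 1879059555826) (nat_lit 0) (nat_lit 12347125317) (nat_lit 1) (nat_lit 5) (nat_lit 3) (nat_lit 4) (nat_lit 1) (nat_lit 4) (nat_lit 505) (nat_lit 394) (nat_lit 301))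 (XT.lf (nat_lit 0) (nat_lit 39081823604) (nat_lit 152) (nat_lit 1985813632051) (nat_lit 0) (nat_lit 34459863078) (nat_lit 1) (nat_lit 5) (nat_lit 3) (nat_lit 4) (nat_lit 1) (nat_lit 4) (nat_lit 506) (nat_lit 394) (nat_lit 300))))) (XT.nd (nat_lit 234) (nat_lit 0) (nat_lit 0) (XT.nd (nat_lit 78) (nat_lit 0) (nat_lit 0) (XT.lf (nat_lit 0) (nat_lit 62961524155) (nat_lit 152) (nat_lit 2101112869855) (nat_lit 0) (nat_lit 58339316473) (nat_lit 1) (nat_lit 5) (nat_lit 3) (nat_lit 4) (nat_lit 1) (nat_lit 4) (nat_lit 507) (nat_lit 394) (nat_lit 299)) (XT.nd (nat_lit 78) (nat_lit 0) (nat_lit 0) (XT.lf (nat_lit 0) (nat_lit 88749429904) (nat_lit 152) (nat_lit 2225640523983) (nat_lit 0) (nat_lit 84126993373) (nat_lit 1) (nat_lit 5) (nat_lit 3) (nat_lit 4) (nat_lit 1) (nat_lit 4) (nat_lit 508) (nat_lit 394) (nat_lit 298)) (XT.lf (nat_lit 0) (nat_lit 116598358070) (nat_lit 152) (nat_lit 2360134536088)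 (nat_lit 0) (nat_lit 111975709642) (nat_lit 1) (nat_lit 5) (nat_lit 3) (nat_lit 4) (nat_lit 1) (nat_lit 4) (nat_lit 509) (nat_lit 394) (nat_lit 297)))) (XT.nd (nat_lit 78) (nat_lit 0) (nat_lit 0) (XT.lf (nat_lit 0) (nat_lit 146673339339) (nat_lit 152) (nat_lit 2505391907722) (nat_lit 0) (nat_lit 142050494709) (nat_lit 1) (nat_lit 5) (nat_lit 3) (nat_lit 4) (nat_lit 1) (nat_lit 4) (nat_lit 510) (nat_lit 394) (nat_lit 296)) (XT.nd (nat_lit 78) (nat_lit 0) (nat_lit 0) (XT.lf (nat_lit 0) (nat_lit 179152595821) (nat_lit 152) (nat_lit 2662273423312) (nat_lit 0) (nat_lit 174529569523) (nat_lit 1) (nat_lit 5) (nat_lit 3) (nat_lit 4) (nat_lit 1) (nat_lit 4) (nat_lit 511) (nat_lit 394) (nat_lit 295)) (XT.lf (nat_lit 0) (nat_lit 214228597184) (nat_lit 152) (nat_lit 2831708751097) (nat_lit 0) (nat_lit 209605402676) (nat_lit 1) (nat_lit 5) (nat_lit 3) (nat_lit 4) (nat_lit 1) (nat_lit 4) (nat_lit 512)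 (nat_lit 394) (nat_lit 294))))))) (XT.nd (nat_lit 936) (nat_lit 0) (nat_lit 0) (XT.nd (nat_lit 468) (nat_lit 0) (nat_lit 0) (XT.nd (nat_lit 234) (nat_lit 0) (nat_lit 0) (XT.nd (nat_lit 78) (nat_lit 0) (nat_lit 0) (XT.lf (nat_lit 0) (nat_lit 252109201215) (nat_lit 152) (nat_lit 3014701952278) (nat_lit 0) (nat_lit 247485850956) (nat_lit 1) (nat_lit 5) (nat_lit 3) (nat_lit 4) (nat_lit 1) (nat_lit 4) (nat_lit 513) (nat_lit 394) (nat_lit 293)) (XT.nd (nat_lit 78) (nat_lit 0) (nat_lit 0) (XT.lf (nat_lit 0) (nat_lit 293018885567) (nat_lit 152) (nat_lit 3212337431012) (nat_lit 0) (nat_lit 288395391094) (nat_lit 1) (nat_lit 5) (nat_lit 3) (nat_lit 4) (nat_lit 1) (nat_lit 4) (nat_lit 514) (nat_lit 394) (nat_lit 292)) (XT.lf (nat_lit 0) (nat_lit 337200078000) (nat_lit 152) (nat_lit 3425786360505) (nat_lit 0) (nat_lit 332576449995) (nat_lit 1) (nat_lit 5) (nat_lit 3) (nat_lit 4) (nat_lit 1) (nat_lit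 4) (nat_lit 515) (nat_lit 394) (nat_lit 291)))) (XT.nd (nat_lit 78) (nat_lit 0) (nat_lit 0) (XT.lf (nat_lit 0) (nat_lit 384914592986) (nat_lit 152) (nat_lit 3656313623303) (nat_lit 0) (nat_lit 380290841341) (nat_lit 1) (nat_lit 5) (nat_lit 3) (nat_lit 4) (nat_lit 1) (nat_lit 4) (nat_lit 516) (nat_lit 394) (nat_lit 290)) (XT.nd (nat_lit 78) (nat_lit 0) (nat_lit 0) (XT.lf (nat_lit 0) (nat_lit 436445183207) (nat_lit 152) (nat_lit 3905285306888) (nat_lit 0) (nat_lit 431821317081) (nat_lit 1) (nat_lit 5) (nat_lit 3) (nat_lit 4) (nat_lit 1) (nat_lit 4) (nat_lit 517) (nat_lit 394) (nat_lit 289)) (XT.lf (nat_lit 0) (nat_lit 492097215124) (nat_lit 152) (nat_lit 4174176799016) (nat_lit 0) (nat_lit 487473242997) (nat_lit 1) (nat_lit 5) (nat_lit 3) (nat_lit 4) (nat_lit 1) (nat_lit 4) (nat_lit 518) (nat_lit 394) (nat_lit 288))))) (XT.nd (nat_lit 234) (nat_lit 0) (nat_lit 0) (XT.nd (nat_lit 78) (nat_lit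 0) (nat_lit 0) (XT.lf (nat_lit 0) (nat_lit 552200478555) (nat_lit 152) (nat_lit 4464581530751) (nat_lit 0) (nat_lit 547576408279) (nat_lit 1) (nat_lit 5) (nat_lit 3) (nat_lit 4) (nat_lit 1) (nat_lit 4) (nat_lit 519) (nat_lit 394) (nat_lit 287)) (XT.nd (nat_lit 78) (nat_lit 0) (nat_lit 0) (XT.lf (nat_lit 0) (nat_lit 617111140989) (nat_lit 152) (nat_lit 4778220419021) (nat_lit 0) (nat_lit 612486979833) (nat_lit 1) (nat_lit 5) (nat_lit 3) (nat_lit 4) (nat_lit 1) (nat_lit 4) (nat_lit 520) (nat_lit 394) (nat_lit 286)) (XT.lf (nat_lit 0) (nat_lit 687213858200) (nat_lit 152) (nat_lit 5116952064647) (nat_lit 0) (nat_lit 682589612897) (nat_lit 1) (nat_lit 5) (nat_lit 3) (nat_lit 4) (nat_lit 1) (nat_lit 4) (nat_lit 521) (nat_lit 394) (nat_lit 285)))) (XT.nd (nat_lit 78) (nat_lit 0) (nat_lit 0) (XT.lf (nat_lit 0) (nat_lit 762924053701) (nat_lit 152) (nat_lit 5482783766268) (nat_lit 0) (nat_lit 758299730484)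 (nat_lit 1) (nat_lit 5) (nat_lit 3) (nat_lit 4) (nat_lit 1) (nat_lit 4) (nat_lit 522) (nat_lit 394) (nat_lit 284)) (XT.nd (nat_lit 78) (nat_lit 0) (nat_lit 0) (XT.lf (nat_lit 0) (nat_lit 844690380500) (nat_lit 152) (nat_lit 5877883415450) (nat_lit 0) (nat_lit 840065985140) (nat_lit 1) (nat_lit 5) (nat_lit 3) (nat_lit 4) (nat_lit 1) (nat_lit 4) (nat_lit 523) (nat_lit 394) (nat_lit 283)) (XT.lf (nat_lit 0) (nat_lit 932997379793) (nat_lit 152) (nat_lit 6304592343447) (nat_lit 0) (nat_lit 928372917635) (nat_lit 1) (nat_lit 5) (nat_lit 3) (nat_lit 4) (nat_lit 1) (nat_lit 4) (nat_lit 524) (nat_lit 394) (nat_lit 282)))))) (XT.nd (nat_lit 53508) (nat_lit 0) (nat_lit 4560) (XT.nd (nat_lit 234) (nat_lit 0) (nat_lit 0) (XT.nd (nat_lit 78) (nat_lit 0) (nat_lit 0) (XT.lf (nat_lit 0) (nat_lit 1028368352318) (nat_lit 152) (nat_lit 6765439195759) (nat_lit 0) (nat_lit 1023743828308) (nat_lit 1) (nat_lit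 5) (nat_lit 3) (nat_lit 4) (nat_lit 1) (nat_lit 4) (nat_lit 525) (nat_lit 394) (nat_lit 281)) (XT.nd (nat_lit 78) (nat_lit 0) (nat_lit 0) (XT.lf (nat_lit 0) (nat_lit 1131368459392) (nat_lit 152) (nat_lit 7263154916695) (nat_lit 0) (nat_lit 1126743878114) (nat_lit 1) (nat_lit 5) (nat_lit 3) (nat_lit 4) (nat_lit 1) (nat_lit 4) (nat_lit 526) (nat_lit 394) (nat_lit 280)) (XT.lf (nat_lit 0) (nat_lit 1242608072021) (nat_lit 152) (nat_lit 7800688932751) (nat_lit 0) (nat_lit 1237983437716) (nat_lit 1) (nat_lit 5) (nat_lit 3) (nat_lit 4) (nat_lit 1) (nat_lit 4) (nat_lit 527) (nat_lit 394) (nat_lit 279)))) (XT.nd (nat_lit 78) (nat_lit 0) (nat_lit 0) (XT.lf (nat_lit 0) (nat_lit 1362746387910) (nat_lit 152) (nat_lit 8381226630687) (nat_lit 0) (nat_lit 1358121704504) (nat_lit 1) (nat_lit 5) (nat_lit 3) (nat_lit 4) (nat_lit 1) (nat_lit 4) (nat_lit 528) (nat_lit 394) (nat_lit 278)) (XT.nd (nat_lit 78)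 (nat_lit 0) (nat_lit 0) (XT.lf (nat_lit 0) (nat_lit 1492495337818) (nat_lit 152) (nat_lit 9008208233899) (nat_lit 0) (nat_lit 1487870608950) (nat_lit 1) (nat_lit 5) (nat_lit 3) (nat_lit 4) (nat_lit 1) (nat_lit 4) (nat_lit 529) (nat_lit 394) (nat_lit 277)) (XT.lf (nat_lit 0) (nat_lit 1632623804412) (nat_lit 152) (nat_lit 9685349188925) (nat_lit 0) (nat_lit 1627999033450) (nat_lit 1) (nat_lit 5) (nat_lit 3) (nat_lit 4) (nat_lit 1) (nat_lit 4) (nat_lit 530) (nat_lit 394) (nat_lit 276))))) (XT.nd (nat_lit 234) (nat_lit 684) (nat_lit 0) (XT.nd (nat_lit 78) (nat_lit 532) (nat_lit 0) (XT.lf (nat_lit 0) (nat_lit 540029676) (nat_lit 532) (nat_lit 2501538983) (nat_lit 0) (nat_lit 540029676) (nat_lit 77) (nat_lit 5) (nat_lit 84) (nat_lit 4) (nat_lit 77) (nat_lit 4) (nat_lit 410) (nat_lit 395) (nat_lit 395)) (XT.nd (nat_lit 78) (nat_lit 76) (nat_lit 0) (XT.lf (nat_lit 0) (nat_lit 358206053) (nat_lit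 456) (nat_lit 4278462303) (nat_lit 456) (nat_lit 2681550320) (nat_lit 71) (nat_lit 4) (nat_lit 77) (nat_lit 5) (nat_lit 77) (nat_lit 4) (nat_lit 411) (nat_lit 395) (nat_lit 394)) (XT.lf (nat_lit 0) (nat_lit 816053129) (nat_lit 532) (nat_lit 1378143679) (nat_lit 76) (nat_lit 5299765331) (nat_lit 70) (nat_lit 5) (nat_lit 77) (nat_lit 5) (nat_lit 71) (nat_lit 4) (nat_lit 412) (nat_lit 395) (nat_lit 393)))) (XT.nd (nat_lit 78) (nat_lit 456) (nat_lit 0) (XT.lf (nat_lit 0) (nat_lit 4315315923) (nat_lit 304) (nat_lit 3173722457) (nat_lit 0) (nat_lit 199918863) (nat_lit 67) (nat_lit 5) (nat_lit 71) (nat_lit 4) (nat_lit 67) (nat_lit 4) (nat_lit 413) (nat_lit 395) (nat_lit 392)) (XT.nd (nat_lit 78) (nat_lit 152) (nat_lit 0) (XT.lf (nat_lit 0) (nat_lit 110928248) (nat_lit 304) (nat_lit 5058444282) (nat_lit 76) (nat_lit 2735834819) (nat_lit 63) (nat_lit 5) (nat_lit 67) (nat_lit 5) (nat_lit 64) (nat_lit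 4) (nat_lit 414) (nat_lit 395) (nat_lit 391)) (XT.lf (nat_lit 0) (nat_lit 1059173252) (nat_lit 152) (nat_lit 2515432398) (nat_lit 228) (nat_lit 4566614235) (nat_lit 61) (nat_lit 5) (nat_lit 63) (nat_lit 5) (nat_lit 64) (nat_lit 4) (nat_lit 415) (nat_lit 395) (nat_lit 390))))))))
noncomputable def xc79 : XT := (XT.nd (nat_lit 1794) (nat_lit 1368) (nat_lit 0) (XT.nd (nat_lit 858) (nat_lit 1064) (nat_lit 0) (XT.nd (nat_lit 390) (nat_lit 608) (nat_lit 0) (XT.nd (nat_lit 156) (nat_lit 532) (nat_lit 0) (XT.nd (nat_lit 78) (nat_lit 304) (nat_lit 0) (XT.lf (nat_lit 0) (nat_lit 7242194703) (nat_lit 228) (nat_lit 753146248) (nat_lit 0) (nat_lit 406702175) (nat_lit 61) (nat_lit 5) (nat_lit 64) (nat_lit 4) (nat_lit 61) (nat_lit 4) (nat_lit 416) (nat_lit 395) (nat_lit 389)) (XT.lf (nat_lit 0) (nat_lit 2396878778) (nat_lit 304) (nat_lit 2712746525) (nat_lit 76) (nat_lit 3569047575) (nat_lit 57) (nat_lit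 5) (nat_lit 61) (nat_lit 5) (nat_lit 58) (nat_lit 4) (nat_lit 417) (nat_lit 395) (nat_lit 388))) (XT.nd (nat_lit 78) (nat_lit 380) (nat_lit 0) (XT.lf (nat_lit 0) (nat_lit 4177378860) (nat_lit 152) (nat_lit 1916124415) (nat_lit 228) (nat_lit 2888137590) (nat_lit 55) (nat_lit 5) (nat_lit 57) (nat_lit 5) (nat_lit 58) (nat_lit 4) (nat_lit 418) (nat_lit 395) (nat_lit 387)) (XT.nd (nat_lit 78) (nat_lit 152) (nat_lit 0) (XT.lf (nat_lit 0) (nat_lit 706887567) (nat_lit 228) (nat_lit 7082254586) (nat_lit 76) (nat_lit 1520760647) (nat_lit 52) (nat_lit 5) (nat_lit 55) (nat_lit 5) (nat_lit 53) (nat_lit 4) (nat_lit 419) (nat_lit 395) (nat_lit 386)) (XT.lf (nat_lit 0) (nat_lit 14438430) (nat_lit 152) (nat_lit 4409203337) (nat_lit 228) (nat_lit 5235617006) (nat_lit 50) (nat_lit 5) (nat_lit 52) (nat_lit 5) (nat_lit 53) (nat_lit 4) (nat_lit 420) (nat_lit 395) (nat_lit 385))))) (XT.nd (nat_lit 234) (nat_lit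 304) (nat_lit 0) (XT.nd (nat_lit 78) (nat_lit 304) (nat_lit 0) (XT.lf (nat_lit 0) (nat_lit 7789720626) (nat_lit 152) (nat_lit 654336246) (nat_lit 228) (nat_lit 1592044526) (nat_lit 50) (nat_lit 5) (nat_lit 52) (nat_lit 5) (nat_lit 53) (nat_lit 4) (nat_lit 421) (nat_lit 395) (nat_lit 384)) (XT.nd (nat_lit 78) (nat_lit 76) (nat_lit 0) (XT.lf (nat_lit 0) (nat_lit 2269091767) (nat_lit 228) (nat_lit 4833626146) (nat_lit 76) (nat_lit 3332440320) (nat_lit 47) (nat_lit 5) (nat_lit 50) (nat_lit 5) (nat_lit 48) (nat_lit 4) (nat_lit 422) (nat_lit 395) (nat_lit 383)) (XT.lf (nat_lit 0) (nat_lit 3157899841) (nat_lit 76) (nat_lit 3177369509) (nat_lit 152) (nat_lit 4529023936) (nat_lit 46) (nat_lit 5) (nat_lit 47) (nat_lit 5) (nat_lit 48) (nat_lit 4) (nat_lit 423) (nat_lit 395) (nat_lit 382)))) (XT.nd (nat_lit 78) (nat_lit 152) (nat_lit 0) (XT.lf (nat_lit 0) (nat_lit 452560389) (nat_lit 152) (nat_lit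 10275994833) (nat_lit 152) (nat_lit 599091003) (nat_lit 44) (nat_lit 4) (nat_lit 46) (nat_lit 5) (nat_lit 46) (nat_lit 4) (nat_lit 424) (nat_lit 395) (nat_lit 381)) (XT.nd (nat_lit 78) (nat_lit 76) (nat_lit 0) (XT.lf (nat_lit 0) (nat_lit 3592961735) (nat_lit 228) (nat_lit 2573567190) (nat_lit 76) (nat_lit 5644146671) (nat_lit 43) (nat_lit 5) (nat_lit 46) (nat_lit 5) (nat_lit 44) (nat_lit 4) (nat_lit 425) (nat_lit 395) (nat_lit 380)) (XT.lf (nat_lit 0) (nat_lit 6430422879) (nat_lit 76) (nat_lit 1656098795) (nat_lit 152) (nat_lit 4244725592) (nat_lit 42) (nat_lit 5) (nat_lit 43) (nat_lit 5) (nat_lit 44) (nat_lit 4) (nat_lit 426) (nat_lit 395) (nat_lit 379)))))) (XT.nd (nat_lit 468) (nat_lit 456) (nat_lit 0) (XT.nd (nat_lit 234) (nat_lit 304) (nat_lit 0) (XT.nd (nat_lit 78) (nat_lit 76) (nat_lit 0) (XT.lf (nat_lit 0) (nat_lit 119262275) (nat_lit 228) (nat_lit 9665617752) (nat_lit 76) (nat_lit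 3102480525) (nat_lit 39) (nat_lit 5) (nat_lit 42) (nat_lit 5) (nat_lit 40) (nat_lit 4) (nat_lit 427) (nat_lit 395) (nat_lit 378)) (XT.nd (nat_lit 78) (nat_lit 76) (nat_lit 0) (XT.lf (nat_lit 0) (nat_lit 4659241331) (nat_lit 228) (nat_lit 494439833) (nat_lit 76) (nat_lit 8320986016) (nat_lit 39) (nat_lit 5) (nat_lit 42) (nat_lit 5) (nat_lit 40) (nat_lit 4) (nat_lit 428) (nat_lit 395) (nat_lit 377)) (XT.lf (nat_lit 0) (nat_lit 9641219869) (nat_lit 76) (nat_lit 12007839) (nat_lit 152) (nat_lit 4448484705) (nat_lit 38) (nat_lit 5) (nat_lit 39) (nat_lit 5) (nat_lit 40) (nat_lit 4) (nat_lit 429) (nat_lit 395) (nat_lit 376)))) (XT.nd (nat_lit 78) (nat_lit 76) (nat_lit 0) (XT.lf (nat_lit 0) (nat_lit 404198527) (nat_lit 228) (nat_lit 9039518457) (nat_lit 76) (nat_lit 5322722416) (nat_lit 35) (nat_lit 5) (nat_lit 38) (nat_lit 5) (nat_lit 36) (nat_lit 4) (nat_lit 430) (nat_lit 395) (nat_lit 375))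 (XT.nd (nat_lit 78) (nat_lit 0) (nat_lit 0) (XT.lf (nat_lit 0) (nat_lit 1194813442) (nat_lit 76) (nat_lit 4225848657) (nat_lit 152) (nat_lit 10053181810) (nat_lit 34) (nat_lit 5) (nat_lit 35) (nat_lit 5) (nat_lit 36) (nat_lit 4) (nat_lit 431) (nat_lit 395) (nat_lit 374)) (XT.lf (nat_lit 0) (nat_lit 10989183662) (nat_lit 152) (nat_lit 3752305529) (nat_lit 0) (nat_lit 1484306129) (nat_lit 34) (nat_lit 5) (nat_lit 36) (nat_lit 4) (nat_lit 34) (nat_lit 4) (nat_lit 432) (nat_lit 395) (nat_lit 373))))) (XT.nd (nat_lit 234) (nat_lit 228) (nat_lit 0) (XT.nd (nat_lit 78) (nat_lit 76) (nat_lit 0) (XT.lf (nat_lit 0) (nat_lit 138556629) (nat_lit 152) (nat_lit 9375376596) (nat_lit 76) (nat_lit 7510325384) (nat_lit 32) (nat_lit 5) (nat_lit 34) (nat_lit 5) (nat_lit 33) (nat_lit 4) (nat_lit 433) (nat_lit 395) (nat_lit 372)) (XT.nd (nat_lit 78) (nat_lit 0) (nat_lit 0) (XT.lf (nat_lit 0) (nat_lit 2022052050)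 (nat_lit 76) (nat_lit 3666682549) (nat_lit 152) (nat_lit 12184761316) (nat_lit 31) (nat_lit 5) (nat_lit 32) (nat_lit 5) (nat_lit 33) (nat_lit 4) (nat_lit 434) (nat_lit 395) (nat_lit 371)) (XT.lf (nat_lit 0) (nat_lit 11884769142) (nat_lit 152) (nat_lit 4214786399) (nat_lit 0) (nat_lit 2674979430) (nat_lit 31) (nat_lit 5) (nat_lit 33) (nat_lit 4) (nat_lit 31) (nat_lit 4) (nat_lit 435) (nat_lit 395) (nat_lit 370)))) (XT.nd (nat_lit 78) (nat_lit 152) (nat_lit 0) (XT.lf (nat_lit 0) (nat_lit 8459706429) (nat_lit 76) (nat_lit 10299874598) (nat_lit 76) (nat_lit 973437961) (nat_lit 30) (nat_lit 4) (nat_lit 31) (nat_lit 5) (nat_lit 31) (nat_lit 4) (nat_lit 436) (nat_lit 395) (nat_lit 369)) (XT.nd (nat_lit 78) (nat_lit 0) (nat_lit 0) (XT.lf (nat_lit 0) (nat_lit 1341212163) (nat_lit 76) (nat_lit 3839391303) (nat_lit 152) (nat_lit 15574337755) (nat_lit 28) (nat_lit 5) (nat_lit 29) (nat_lit 5) (nat_lit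 30) (nat_lit 4) (nat_lit 437) (nat_lit 395) (nat_lit 368)) (XT.lf (nat_lit 0) (nat_lit 12051773656) (nat_lit 152) (nat_lit 6559056454) (nat_lit 0) (nat_lit 3223580150) (nat_lit 28) (nat_lit 5) (nat_lit 30) (nat_lit 4) (nat_lit 28) (nat_lit 4) (nat_lit 438) (nat_lit 395) (nat_lit 367))))))) (XT.nd (nat_lit 936) (nat_lit 608) (nat_lit 0) (XT.nd (nat_lit 468) (nat_lit 304) (nat_lit 0) (XT.nd (nat_lit 234) (nat_lit 228) (nat_lit 0) (XT.nd (nat_lit 78) (nat_lit 152) (nat_lit 0) (XT.lf (nat_lit 0) (nat_lit 7387949460) (nat_lit 76) (nat_lit 12256250859) (nat_lit 76) (nat_lit 3342318382) (nat_lit 27) (nat_lit 4) (nat_lit 28) (nat_lit 5) (nat_lit 28) (nat_lit 4) (nat_lit 439) (nat_lit 395) (nat_lit 366)) (XT.nd (nat_lit 78) (nat_lit 76) (nat_lit 0) (XT.lf (nat_lit 0) (nat_lit 3510966370) (nat_lit 152) (nat_lit 1690510362) (nat_lit 76) (nat_lit 19016094020) (nat_lit 26) (nat_lit 5) (nat_lit 28) (nat_lit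 5) (nat_lit 27) (nat_lit 4) (nat_lit 440) (nat_lit 395) (nat_lit 365)) (XT.lf (nat_lit 0) (nat_lit 11031432730) (nat_lit 152) (nat_lit 11848553541) (nat_lit 0) (nat_lit 2636221838) (nat_lit 25) (nat_lit 5) (nat_lit 27) (nat_lit 4) (nat_lit 25) (nat_lit 4) (nat_lit 441) (nat_lit 395) (nat_lit 364)))) (XT.nd (nat_lit 78) (nat_lit 152) (nat_lit 0) (XT.lf (nat_lit 0) (nat_lit 3271383836) (nat_lit 76) (nat_lit 16046231489) (nat_lit 76) (nat_lit 7587999894) (nat_lit 24) (nat_lit 4) (nat_lit 25) (nat_lit 5) (nat_lit 25) (nat_lit 4) (nat_lit 442) (nat_lit 395) (nat_lit 363)) (XT.nd (nat_lit 78) (nat_lit 76) (nat_lit 0) (XT.lf (nat_lit 0) (nat_lit 102994393) (nat_lit 152) (nat_lit 8302355760) (nat_lit 76) (nat_lit 19982257522) (nat_lit 23) (nat_lit 5) (nat_lit 25) (nat_lit 5) (nat_lit 24) (nat_lit 4) (nat_lit 443) (nat_lit 395) (nat_lit 362)) (XT.lf (nat_lit 0) (nat_lit 8113652119) (nat_lit 152)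 (nat_lit 21671699294) (nat_lit 0) (nat_lit 177898234) (nat_lit 22) (nat_lit 5) (nat_lit 24) (nat_lit 4) (nat_lit 22) (nat_lit 4) (nat_lit 444) (nat_lit 395) (nat_lit 361))))) (XT.nd (nat_lit 234) (nat_lit 152) (nat_lit 0) (XT.nd (nat_lit 78) (nat_lit 152) (nat_lit 0) (XT.lf (nat_lit 0) (nat_lit 17127097190) (nat_lit 152) (nat_lit 5363873535) (nat_lit 0) (nat_lit 9145021208) (nat_lit 22) (nat_lit 5) (nat_lit 24) (nat_lit 4) (nat_lit 22) (nat_lit 4) (nat_lit 445) (nat_lit 395) (nat_lit 360)) (XT.nd (nat_lit 78) (nat_lit 76) (nat_lit 0) (XT.lf (nat_lit 0) (nat_lit 12720068152) (nat_lit 76) (nat_lit 14364797932) (nat_lit 76) (nat_lit 6339831117) (nat_lit 21) (nat_lit 4) (nat_lit 22) (nat_lit 5) (nat_lit 22) (nat_lit 4) (nat_lit 446) (nat_lit 395) (nat_lit 359)) (XT.lf (nat_lit 0) (nat_lit 2426525902) (nat_lit 152) (nat_lit 3017506670) (nat_lit 76) (nat_lit 29902255180) (nat_lit 20) (nat_lit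 5) (nat_lit 22) (nat_lit 5) (nat_lit 21) (nat_lit 4) (nat_lit 447) (nat_lit 395) (nat_lit 358)))) (XT.nd (nat_lit 78) (nat_lit 76) (nat_lit 0) (XT.lf (nat_lit 0) (nat_lit 11988041334) (nat_lit 152) (nat_lit 20898787645) (nat_lit 0) (nat_lit 4486696405) (nat_lit 19) (nat_lit 5) (nat_lit 21) (nat_lit 4) (nat_lit 19) (nat_lit 4) (nat_lit 448) (nat_lit 395) (nat_lit 357)) (XT.nd (nat_lit 78) (nat_lit 76) (nat_lit 0) (XT.lf (nat_lit 0) (nat_lit 22464421795) (nat_lit 152) (nat_lit 2154976446) (nat_lit 0) (nat_lit 14931550824) (nat_lit 19) (nat_lit 5) (nat_lit 21) (nat_lit 4) (nat_lit 19) (nat_lit 4) (nat_lit 449) (nat_lit 395) (nat_lit 356)) (XT.lf (nat_lit 0) (nat_lit 18891656139) (nat_lit 76) (nat_lit 15271132273) (nat_lit 76) (nat_lit 7709070522) (nat_lit 18) (nat_lit 4) (nat_lit 19) (nat_lit 5) (nat_lit 19) (nat_lit 4) (nat_lit 450) (nat_lit 395) (nat_lit 355)))))) (XT.nd (nat_lit 468) (nat_lit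 228) (nat_lit 0) (XT.nd (nat_lit 234) (nat_lit 228) (nat_lit 0) (XT.nd (nat_lit 78) (nat_lit 76) (nat_lit 0) (XT.lf (nat_lit 0) (nat_lit 2287692375) (nat_lit 152) (nat_lit 2830690109) (nat_lit 76) (nat_lit 39256200016) (nat_lit 17) (nat_lit 5) (nat_lit 19) (nat_lit 5) (nat_lit 18) (nat_lit 4) (nat_lit 451) (nat_lit 395) (nat_lit 354)) (XT.nd (nat_lit 78) (nat_lit 0) (nat_lit 0) (XT.lf (nat_lit 0) (nat_lit 13229879440) (nat_lit 152) (nat_lit 27606882236) (nat_lit 0) (nat_lit 6179771440) (nat_lit 16) (nat_lit 5) (nat_lit 18) (nat_lit 4) (nat_lit 16) (nat_lit 4) (nat_lit 452) (nat_lit 395) (nat_lit 353)) (XT.lf (nat_lit 0) (nat_lit 25194842793) (nat_lit 152) (nat_lit 6539927913) (nat_lit 0) (nat_lit 18123278699) (nat_lit 16) (nat_lit 5) (nat_lit 18) (nat_lit 4) (nat_lit 16) (nat_lit 4) (nat_lit 453) (nat_lit 395) (nat_lit 352)))) (XT.nd (nat_lit 78) (nat_lit 152) (nat_lit 0) (XT.lf (nat_lit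 0) (nat_lit 16937900377) (nat_lit 76) (nat_lit 21526320815) (nat_lit 76) (nat_lit 14434889967) (nat_lit 15) (nat_lit 4) (nat_lit 16) (nat_lit 5) (nat_lit 16) (nat_lit 4) (nat_lit 454) (nat_lit 395) (nat_lit 351)) (XT.nd (nat_lit 78) (nat_lit 152) (nat_lit 0) (XT.lf (nat_lit 0) (nat_lit 42547184831) (nat_lit 76) (nat_lit 10368239279) (nat_lit 76) (nat_lit 3258413288) (nat_lit 15) (nat_lit 4) (nat_lit 16) (nat_lit 5) (nat_lit 16) (nat_lit 4) (nat_lit 455) (nat_lit 395) (nat_lit 350)) (XT.lf (nat_lit 0) (nat_lit 8624494154) (nat_lit 152) (nat_lit 49023292438) (nat_lit 0) (nat_lit 2025551070) (nat_lit 13) (nat_lit 5) (nat_lit 15) (nat_lit 4) (nat_lit 13) (nat_lit 4) (nat_lit 456) (nat_lit 395) (nat_lit 349))))) (XT.nd (nat_lit 234) (nat_lit 152) (nat_lit 0) (XT.nd (nat_lit 78) (nat_lit 76) (nat_lit 0) (XT.lf (nat_lit 0) (nat_lit 21878073662) (nat_lit 152) (nat_lit 26255740537) (nat_lit 0) (nat_lit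 15264527921) (nat_lit 13) (nat_lit 5) (nat_lit 15) (nat_lit 4) (nat_lit 13) (nat_lit 4) (nat_lit 457) (nat_lit 395) (nat_lit 348)) (XT.nd (nat_lit 78) (nat_lit 76) (nat_lit 0) (XT.lf (nat_lit 0) (nat_lit 36140568564) (nat_lit 152) (nat_lit 1771387294) (nat_lit 0) (nat_lit 29513501844) (nat_lit 13) (nat_lit 5) (nat_lit 15) (nat_lit 4) (nat_lit 13) (nat_lit 4) (nat_lit 458) (nat_lit 395) (nat_lit 347)) (XT.lf (nat_lit 0) (nat_lit 25868928318) (nat_lit 76) (nat_lit 26249717378) (nat_lit 76) (nat_lit 19610131233) (nat_lit 12) (nat_lit 4) (nat_lit 13) (nat_lit 5) (nat_lit 13) (nat_lit 4) (nat_lit 459) (nat_lit 395) (nat_lit 346)))) (XT.nd (nat_lit 78) (nat_lit 152) (nat_lit 0) (XT.lf (nat_lit 0) (nat_lit 55726807102) (nat_lit 76) (nat_lit 13650282059) (nat_lit 76) (nat_lit 6999103854) (nat_lit 12) (nat_lit 4) (nat_lit 13) (nat_lit 5) (nat_lit 13) (nat_lit 4) (nat_lit 460) (nat_lit 395) (nat_lit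 345)) (XT.nd (nat_lit 78) (nat_lit 0) (nat_lit 0) (XT.lf (nat_lit 0) (nat_lit 6412002375) (nat_lit 152) (nat_lit 74717304963) (nat_lit 0) (nat_lit 243565714) (nat_lit 10) (nat_lit 5) (nat_lit 12) (nat_lit 4) (nat_lit 10) (nat_lit 4) (nat_lit 461) (nat_lit 395) (nat_lit 344)) (XT.lf (nat_lit 0) (nat_lit 21407757931) (nat_lit 152) (nat_lit 50045676054) (nat_lit 0) (nat_lit 15230119118) (nat_lit 10) (nat_lit 5) (nat_lit 12) (nat_lit 4) (nat_lit 10) (nat_lit 4) (nat_lit 462) (nat_lit 395) (nat_lit 343))))))))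
noncomputable def xc80 : XT := (XT.nd (nat_lit 1794) (nat_lit 228) (nat_lit 0) (XT.nd (nat_lit 858) (nat_lit 152) (nat_lit 0) (XT.nd (nat_lit 390) (nat_lit 228) (nat_lit 0) (XT.nd (nat_lit 156) (nat_lit 0) (nat_lit 0) (XT.nd (nat_lit 78) (nat_lit 76) (nat_lit 0) (XT.lf (nat_lit 0) (nat_lit 37562512772) (nat_lit 152) (nat_lit 23483474915) (nat_lit 0) (nat_lit 31376353449) (nat_lit 10) (nat_lit 5) (nat_lit 12) (nat_lit 4) (nat_lit 10) (nat_lit 4) (nat_lit 463) (nat_lit 395) (nat_lit 342)) (XT.lf (nat_lit 0) (nat_lit 5396667239) (nat_lit 76) (nat_lit 49705121517) (nat_lit 76) (nat_lit 43511072833) (nat_lit 9) (nat_lit 4) (nat_lit 10) (nat_lit 5) (nat_lit 10) (nat_lit 4) (nat_lit 464) (nat_lit 395) (nat_lit 341))) (XT.nd (nat_lit 78) (nat_lit 0) (nat_lit 0) (XT.lf (nat_lit 0) (nat_lit 37847697890) (nat_lit 76) (nat_lit 36801923433) (nat_lit 76) (nat_lit 30600569784) (nat_lit 9) (nat_lit 4)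 (nat_lit 10) (nat_lit 5) (nat_lit 10) (nat_lit 4) (nat_lit 465) (nat_lit 395) (nat_lit 340)) (XT.nd (nat_lit 78) (nat_lit 0) (nat_lit 0) (XT.lf (nat_lit 0) (nat_lit 72825321267) (nat_lit 76) (nat_lit 22902009858) (nat_lit 76) (nat_lit 16693892354) (nat_lit 9) (nat_lit 4) (nat_lit 10) (nat_lit 5) (nat_lit 10) (nat_lit 4) (nat_lit 466) (nat_lit 395) (nat_lit 339)) (XT.lf (nat_lit 0) (nat_lit 110536812177) (nat_lit 76) (nat_lit 7923010936) (nat_lit 76) (nat_lit 1708630603) (nat_lit 9) (nat_lit 4) (nat_lit 10) (nat_lit 5) (nat_lit 10) (nat_lit 4) (nat_lit 467) (nat_lit 395) (nat_lit 338))))) (XT.nd (nat_lit 234) (nat_lit 76) (nat_lit 0) (XT.nd (nat_lit 78) (nat_lit 0) (nat_lit 0) (XT.lf (nat_lit 0) (nat_lit 14508027735) (nat_lit 152) (nat_lit 105190446055) (nat_lit 0) (nat_lit 8748602504) (nat_lit 7) (nat_lit 5) (nat_lit 9) (nat_lit 4) (nat_lit 7) (nat_lit 4) (nat_lit 468) (nat_lit 395) (nat_lit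 337)) (XT.nd (nat_lit 78) (nat_lit 0) (nat_lit 0) (XT.lf (nat_lit 0) (nat_lit 32375869245) (nat_lit 152) (nat_lit 78361404180) (nat_lit 0) (nat_lit 26611472378) (nat_lit 7) (nat_lit 5) (nat_lit 9) (nat_lit 4) (nat_lit 7) (nat_lit 4) (nat_lit 469) (nat_lit 395) (nat_lit 336)) (XT.lf (nat_lit 0) (nat_lit 51645528943) (nat_lit 152) (nat_lit 49442700323) (nat_lit 0) (nat_lit 45876528709) (nat_lit 7) (nat_lit 5) (nat_lit 9) (nat_lit 4) (nat_lit 7) (nat_lit 4) (nat_lit 470) (nat_lit 395) (nat_lit 335)))) (XT.nd (nat_lit 78) (nat_lit 76) (nat_lit 0) (XT.lf (nat_lit 0) (nat_lit 72431197405) (nat_lit 152) (nat_lit 18262964387) (nat_lit 0) (nat_lit 66657934795) (nat_lit 7) (nat_lit 5) (nat_lit 9) (nat_lit 4) (nat_lit 7) (nat_lit 4) (nat_lit 471) (nat_lit 395) (nat_lit 334)) (XT.nd (nat_lit 78) (nat_lit 0) (nat_lit 0) (XT.lf (nat_lit 0) (nat_lit 16171538273) (nat_lit 76) (nat_lit 79073436573) (nat_lit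 76) (nat_lit 73296227317) (nat_lit 6) (nat_lit 4) (nat_lit 7) (nat_lit 5) (nat_lit 7) (nat_lit 4) (nat_lit 472) (nat_lit 395) (nat_lit 333)) (XT.lf (nat_lit 0) (nat_lit 54352083947) (nat_lit 76) (nat_lit 66008056603) (nat_lit 76) (nat_lit 60227193046) (nat_lit 6) (nat_lit 4) (nat_lit 7) (nat_lit 5) (nat_lit 7) (nat_lit 4) (nat_lit 473) (nat_lit 395) (nat_lit 332)))))) (XT.nd (nat_lit 468) (nat_lit 0) (nat_lit 0) (XT.nd (nat_lit 234) (nat_lit 152) (nat_lit 0) (XT.nd (nat_lit 78) (nat_lit 0) (nat_lit 0) (XT.lf (nat_lit 0) (nat_lit 95543232379) (nat_lit 76) (nat_lit 51919939219) (nat_lit 76) (nat_lit 46135692051) (nat_lit 6) (nat_lit 4) (nat_lit 7) (nat_lit 5) (nat_lit 7) (nat_lit 4) (nat_lit 474) (nat_lit 395) (nat_lit 331)) (XT.nd (nat_lit 78) (nat_lit 0) (nat_lit 0) (XT.lf (nat_lit 0) (nat_lit 139989079263) (nat_lit 76) (nat_lit 36725599282) (nat_lit 76) (nat_lit 30938219140) (nat_lit 6)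 (nat_lit 4) (nat_lit 7) (nat_lit 5) (nat_lit 7) (nat_lit 4) (nat_lit 475) (nat_lit 395) (nat_lit 330)) (XT.lf (nat_lit 0) (nat_lit 187953007397) (nat_lit 76) (nat_lit 20334996258) (nat_lit 76) (nat_lit 14544715214) (nat_lit 6) (nat_lit 4) (nat_lit 7) (nat_lit 5) (nat_lit 7) (nat_lit 4) (nat_lit 476) (nat_lit 395) (nat_lit 329)))) (XT.nd (nat_lit 78) (nat_lit 0) (nat_lit 0) (XT.lf (nat_lit 0) (nat_lit 437275699) (nat_lit 76) (nat_lit 2558033321) (nat_lit 152) (nat_lit 236226086208) (nat_lit 4) (nat_lit 5) (nat_lit 5) (nat_lit 5) (nat_lit 6) (nat_lit 4) (nat_lit 477) (nat_lit 395) (nat_lit 328)) (XT.nd (nat_lit 78) (nat_lit 0) (nat_lit 0) (XT.lf (nat_lit 0) (nat_lit 22514038840) (nat_lit 152) (nat_lit 217120122955) (nat_lit 0) (nat_lit 17147877618) (nat_lit 4) (nat_lit 5) (nat_lit 6) (nat_lit 4) (nat_lit 4) (nat_lit 4) (nat_lit 478) (nat_lit 395) (nat_lit 327)) (XT.lf (nat_lit 0) (nat_lit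 43644629528) (nat_lit 152) (nat_lit 193822540722) (nat_lit 0) (nat_lit 38276336057) (nat_lit 4) (nat_lit 5) (nat_lit 6) (nat_lit 4) (nat_lit 4) (nat_lit 4) (nat_lit 479) (nat_lit 395) (nat_lit 326))))) (XT.nd (nat_lit 234) (nat_lit 0) (nat_lit 0) (XT.nd (nat_lit 78) (nat_lit 0) (nat_lit 0) (XT.lf (nat_lit 0) (nat_lit 66450778636) (nat_lit 152) (nat_lit 168691792321) (nat_lit 0) (nat_lit 61080510860) (nat_lit 4) (nat_lit 5) (nat_lit 6) (nat_lit 4) (nat_lit 4) (nat_lit 4) (nat_lit 480) (nat_lit 395) (nat_lit 325)) (XT.nd (nat_lit 78) (nat_lit 0) (nat_lit 0) (XT.lf (nat_lit 0) (nat_lit 91067633714) (nat_lit 152) (nat_lit 141578954800) (nat_lit 0) (nat_lit 85695537878) (nat_lit 4) (nat_lit 5) (nat_lit 6) (nat_lit 4) (nat_lit 4) (nat_lit 4) (nat_lit 481) (nat_lit 395) (nat_lit 324)) (XT.lf (nat_lit 0) (nat_lit 117641072423) (nat_lit 152) (nat_lit 112323359490) (nat_lit 0) (nat_lit 112267283938)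 (nat_lit 4) (nat_lit 5) (nat_lit 6) (nat_lit 4) (nat_lit 4) (nat_lit 4) (nat_lit 482) (nat_lit 395) (nat_lit 323)))) (XT.nd (nat_lit 78) (nat_lit 0) (nat_lit 0) (XT.lf (nat_lit 0) (nat_lit 146328566992) (nat_lit 152) (nat_lit 80751639902) (nat_lit 0) (nat_lit 140953211240) (nat_lit 4) (nat_lit 5) (nat_lit 6) (nat_lit 4) (nat_lit 4) (nat_lit 4) (nat_lit 483) (nat_lit 395) (nat_lit 322)) (XT.nd (nat_lit 78) (nat_lit 0) (nat_lit 0) (XT.lf (nat_lit 0) (nat_lit 177300117387) (nat_lit 152) (nat_lit 46676704364) (nat_lit 0) (nat_lit 171923310462) (nat_lit 4) (nat_lit 5) (nat_lit 6) (nat_lit 4) (nat_lit 4) (nat_lit 4) (nat_lit 484) (nat_lit 395) (nat_lit 321)) (XT.lf (nat_lit 0) (nat_lit 210739258724) (nat_lit 152) (nat_lit 9896627332) (nat_lit 0) (nat_lit 205361108120) (nat_lit 4) (nat_lit 5) (nat_lit 6) (nat_lit 4) (nat_lit 4) (nat_lit 4) (nat_lit 485) (nat_lit 395) (nat_lit 320))))))) (XT.nd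 (nat_lit 858) (nat_lit 152) (nat_lit 0) (XT.nd (nat_lit 390) (nat_lit 0) (nat_lit 0) (XT.nd (nat_lit 156) (nat_lit 0) (nat_lit 0) (XT.nd (nat_lit 78) (nat_lit 0) (nat_lit 0) (XT.lf (nat_lit 0) (nat_lit 31376107160) (nat_lit 76) (nat_lit 216222637848) (nat_lit 76) (nat_lit 210843243097) (nat_lit 3) (nat_lit 4) (nat_lit 4) (nat_lit 5) (nat_lit 4) (nat_lit 4) (nat_lit 486) (nat_lit 395) (nat_lit 319)) (XT.lf (nat_lit 0) (nat_lit 76494670548) (nat_lit 76) (nat_lit 211173770867) (nat_lit 76) (nat_lit 205793224128) (nat_lit 3) (nat_lit 4) (nat_lit 4) (nat_lit 5) (nat_lit 4) (nat_lit 4) (nat_lit 487) (nat_lit 395) (nat_lit 318))) (XT.nd (nat_lit 78) (nat_lit 0) (nat_lit 0) (XT.lf (nat_lit 0) (nat_lit 125205293239) (nat_lit 76) (nat_lit 205729957231) (nat_lit 76) (nat_lit 200348343837) (nat_lit 3) (nat_lit 4) (nat_lit 4) (nat_lit 5) (nat_lit 4) (nat_lit 4) (nat_lit 488) (nat_lit 395) (nat_lit 317))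 (XT.nd (nat_lit 78) (nat_lit 0) (nat_lit 0) (XT.lf (nat_lit 0) (nat_lit 177796630774) (nat_lit 76) (nat_lit 199858937305) (nat_lit 76) (nat_lit 194476336266) (nat_lit 3) (nat_lit 4) (nat_lit 4) (nat_lit 5) (nat_lit 4) (nat_lit 4) (nat_lit 489) (nat_lit 395) (nat_lit 316)) (XT.lf (nat_lit 0) (nat_lit 234580335525) (nat_lit 76) (nat_lit 193525919858) (nat_lit 76) (nat_lit 188142404334) (nat_lit 3) (nat_lit 4) (nat_lit 4) (nat_lit 5) (nat_lit 4) (nat_lit 4) (nat_lit 490) (nat_lit 395) (nat_lit 315))))) (XT.nd (nat_lit 234) (nat_lit 0) (nat_lit 0) (XT.nd (nat_lit 78) (nat_lit 0) (nat_lit 0) (XT.lf (nat_lit 0) (nat_lit 295892903519) (nat_lit 76) (nat_lit 186693375899) (nat_lit 76) (nat_lit 181309013629) (nat_lit 3) (nat_lit 4) (nat_lit 4) (nat_lit 5) (nat_lit 4) (nat_lit 4) (nat_lit 491) (nat_lit 395) (nat_lit 314)) (XT.nd (nat_lit 78) (nat_lit 0) (nat_lit 0) (XT.lf (nat_lit 0) (nat_lit 362097668493)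 (nat_lit 76) (nat_lit 179320816278) (nat_lit 76) (nat_lit 173935669985) (nat_lit 3) (nat_lit 4) (nat_lit 4) (nat_lit 5) (nat_lit 4) (nat_lit 4) (nat_lit 492) (nat_lit 395) (nat_lit 313)) (XT.lf (nat_lit 0) (nat_lit 433586954979) (nat_lit 76) (nat_lit 171364551753) (nat_lit 76) (nat_lit 165978679512) (nat_lit 3) (nat_lit 4) (nat_lit 4) (nat_lit 5) (nat_lit 4) (nat_lit 4) (nat_lit 493) (nat_lit 395) (nat_lit 312)))) (XT.nd (nat_lit 78) (nat_lit 0) (nat_lit 0) (XT.lf (nat_lit 0) (nat_lit 510784403195) (nat_lit 76) (nat_lit 162777434090) (nat_lit 76) (nat_lit 157390889675) (nat_lit 3) (nat_lit 4) (nat_lit 4) (nat_lit 5) (nat_lit 4) (nat_lit 4) (nat_lit 494) (nat_lit 395) (nat_lit 311)) (XT.nd (nat_lit 78) (nat_lit 0) (nat_lit 0) (XT.lf (nat_lit 0) (nat_lit 594147479500) (nat_lit 76) (nat_lit 153508576666) (nat_lit 76) (nat_lit 148121409868) (nat_lit 3) (nat_lit 4) (nat_lit 4) (nat_lit 5) (nat_lit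 4) (nat_lit 4) (nat_lit 495) (nat_lit 395) (nat_lit 310)) (XT.lf (nat_lit 0) (nat_lit 684170187309) (nat_lit 76) (nat_lit 143503052918) (nat_lit 76) (nat_lit 138115309839) (nat_lit 3) (nat_lit 4) (nat_lit 4) (nat_lit 5) (nat_lit 4) (nat_lit 4) (nat_lit 496) (nat_lit 395) (nat_lit 309)))))) (XT.nd (nat_lit 468) (nat_lit 152) (nat_lit 0) (XT.nd (nat_lit 234) (nat_lit 0) (nat_lit 0) (XT.nd (nat_lit 78) (nat_lit 0) (nat_lit 0) (XT.lf (nat_lit 0) (nat_lit 781385994519) (nat_lit 76) (nat_lit 132701570853) (nat_lit 76) (nat_lit 127313294181) (nat_lit 3) (nat_lit 4) (nat_lit 4) (nat_lit 5) (nat_lit 4) (nat_lit 4) (nat_lit 497) (nat_lit 395) (nat_lit 308)) (XT.nd (nat_lit 78) (nat_lit 0) (nat_lit 0) (XT.lf (nat_lit 0) (nat_lit 886370994805) (nat_lit 76) (nat_lit 121040121689) (nat_lit 76) (nat_lit 115651350949) (nat_lit 3) (nat_lit 4) (nat_lit 4) (nat_lit 5) (nat_lit 4) (nat_lit 4) (nat_lit 498)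 (nat_lit 395) (nat_lit 307)) (XT.lf (nat_lit 0) (nat_lit 999747321500) (nat_lit 76) (nat_lit 108449600542) (nat_lit 76) (nat_lit 103060372332) (nat_lit 3) (nat_lit 4) (nat_lit 4) (nat_lit 5) (nat_lit 4) (nat_lit 4) (nat_lit 499) (nat_lit 395) (nat_lit 306)))) (XT.nd (nat_lit 78) (nat_lit 0) (nat_lit 0) (XT.lf (nat_lit 0) (nat_lit 1122186834318) (nat_lit 76) (nat_lit 94855396917) (nat_lit 76) (nat_lit 89465745123) (nat_lit 3) (nat_lit 4) (nat_lit 4) (nat_lit 5) (nat_lit 4) (nat_lit 4) (nat_lit 500) (nat_lit 395) (nat_lit 305)) (XT.nd (nat_lit 78) (nat_lit 0) (nat_lit 0) (XT.lf (nat_lit 0) (nat_lit 1254415100742) (nat_lit 76) (nat_lit 80176952569) (nat_lit 76) (nat_lit 74786908567) (nat_lit 3) (nat_lit 4) (nat_lit 4) (nat_lit 5) (nat_lit 4) (nat_lit 4) (nat_lit 501) (nat_lit 395) (nat_lit 304)) (XT.lf (nat_lit 0) (nat_lit 1397215695686) (nat_lit 76) (nat_lit 64327284124) (nat_lit 76) (nat_lit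 58936876969) (nat_lit 3) (nat_lit 4) (nat_lit 4) (nat_lit 5) (nat_lit 4) (nat_lit 4) (nat_lit 502) (nat_lit 395) (nat_lit 303))))) (XT.nd (nat_lit 234) (nat_lit 152) (nat_lit 0) (XT.nd (nat_lit 78) (nat_lit 0) (nat_lit 0) (XT.lf (nat_lit 0) (nat_lit 1551434844896) (nat_lit 76) (nat_lit 47212467623) (nat_lit 76) (nat_lit 41821724212) (nat_lit 3) (nat_lit 4) (nat_lit 4) (nat_lit 5) (nat_lit 4) (nat_lit 4) (nat_lit 503) (nat_lit 395) (nat_lit 302)) (XT.nd (nat_lit 78) (nat_lit 0) (nat_lit 0) (XT.lf (nat_lit 0) (nat_lit 1717986439627) (nat_lit 76) (nat_lit 28731081929) (nat_lit 76) (nat_lit 23340027172) (nat_lit 3) (nat_lit 4) (nat_lit 4) (nat_lit 5) (nat_lit 4) (nat_lit 4) (nat_lit 504) (nat_lit 395) (nat_lit 301)) (XT.lf (nat_lit 0) (nat_lit 1897857452293) (nat_lit 76) (nat_lit 8773607720) (nat_lit 76) (nat_lit 3382264679) (nat_lit 3) (nat_lit 4) (nat_lit 4) (nat_lit 5) (nat_lit 4) (nat_lit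 4) (nat_lit 505) (nat_lit 395) (nat_lit 300)))) (XT.nd (nat_lit 78) (nat_lit 0) (nat_lit 0) (XT.lf (nat_lit 0) (nat_lit 18372064996) (nat_lit 152) (nat_lit 2029289981890) (nat_lit 0) (nat_lit 13379833542) (nat_lit 1) (nat_lit 5) (nat_lit 3) (nat_lit 4) (nat_lit 1) (nat_lit 4) (nat_lit 506) (nat_lit 395) (nat_lit 299)) (XT.nd (nat_lit 78) (nat_lit 0) (nat_lit 0) (XT.lf (nat_lit 0) (nat_lit 42250721871) (nat_lit 152) (nat_lit 2144591372242) (nat_lit 0) (nat_lit 37258261568) (nat_lit 1) (nat_lit 5) (nat_lit 3) (nat_lit 4) (nat_lit 1) (nat_lit 4) (nat_lit 507) (nat_lit 395) (nat_lit 298)) (XT.lf (nat_lit 0) (nat_lit 68037661253) (nat_lit 152) (nat_lit 2269121019469) (nat_lit 0) (nat_lit 63044989053) (nat_lit 1) (nat_lit 5) (nat_lit 3) (nat_lit 4) (nat_lit 1) (nat_lit 4) (nat_lit 508) (nat_lit 395) (nat_lit 297))))))))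
noncomputable def xc81 : XT := (XT.nd (nat_lit 54678) (nat_lit 0) (nat_lit 2508) (XT.nd (nat_lit 858) (nat_lit 0) (nat_lit 0) (XT.nd (nat_lit 390) (nat_lit 0) (nat_lit 0) (XT.nd (nat_lit 156) (nat_lit 0) (nat_lit 0) (XT.nd (nat_lit 78) (nat_lit 0) (nat_lit 0) (XT.lf (nat_lit 0) (nat_lit 95885694635) (nat_lit 152) (nat_lit 2403616877036) (nat_lit 0) (nat_lit 90892826234) (nat_lit 1) (nat_lit 5) (nat_lit 3) (nat_lit 4) (nat_lit 1) (nat_lit 4) (nat_lit 509) (nat_lit 395) (nat_lit 296)) (XT.lf (nat_lit 0) (nat_lit 125959847400) (nat_lit 152) (nat_lit 2548875957433) (nat_lit 0) (nat_lit 120966797331) (nat_lit 1) (nat_lit 5) (nat_lit 3) (nat_lit 4) (nat_lit 1) (nat_lit 4) (nat_lit 510) (nat_lit 395) (nat_lit 295))) (XT.nd (nat_lit 78) (nat_lit 0) (nat_lit 0) (XT.lf (nat_lit 0) (nat_lit 158438336749) (nat_lit 152) (nat_lit 2705759055209) (nat_lit 0) (nat_lit 153445118469) (nat_lit 1) (nat_lit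 5) (nat_lit 3) (nat_lit 4) (nat_lit 1) (nat_lit 4) (nat_lit 511) (nat_lit 395) (nat_lit 294)) (XT.nd (nat_lit 78) (nat_lit 0) (nat_lit 0) (XT.lf (nat_lit 0) (nat_lit 193513627804) (nat_lit 152) (nat_lit 2875195847981) (nat_lit 0) (nat_lit 188520253773) (nat_lit 1) (nat_lit 5) (nat_lit 3) (nat_lit 4) (nat_lit 1) (nat_lit 4) (nat_lit 512) (nat_lit 395) (nat_lit 293)) (XT.lf (nat_lit 0) (nat_lit 231393574142) (nat_lit 152) (nat_lit 3058190405633) (nat_lit 0) (nat_lit 226400055897) (nat_lit 1) (nat_lit 5) (nat_lit 3) (nat_lit 4) (nat_lit 1) (nat_lit 4) (nat_lit 513) (nat_lit 395) (nat_lit 292))))) (XT.nd (nat_lit 234) (nat_lit 0) (nat_lit 0) (XT.nd (nat_lit 78) (nat_lit 0) (nat_lit 0) (XT.lf (nat_lit 0) (nat_lit 272302649519) (nat_lit 152) (nat_lit 3255827140357) (nat_lit 0) (nat_lit 267308997743) (nat_lit 1) (nat_lit 5) (nat_lit 3) (nat_lit 4) (nat_lit 1) (nat_lit 4) (nat_lit 514) (nat_lit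 395) (nat_lit 291)) (XT.nd (nat_lit 78) (nat_lit 0) (nat_lit 0) (XT.lf (nat_lit 0) (nat_lit 316483278085) (nat_lit 152) (nat_lit 3469277232805) (nat_lit 0) (nat_lit 311489502670) (nat_lit 1) (nat_lit 5) (nat_lit 3) (nat_lit 4) (nat_lit 1) (nat_lit 4) (nat_lit 515) (nat_lit 395) (nat_lit 290)) (XT.lf (nat_lit 0) (nat_lit 364197270973) (nat_lit 152) (nat_lit 3699805572412) (nat_lit 0) (nat_lit 359203381076) (nat_lit 1) (nat_lit 5) (nat_lit 3) (nat_lit 4) (nat_lit 1) (nat_lit 4) (nat_lit 516) (nat_lit 395) (nat_lit 289)))) (XT.nd (nat_lit 78) (nat_lit 0) (nat_lit 0) (XT.lf (nat_lit 0) (nat_lit 415727377771) (nat_lit 152) (nat_lit 3948778253043) (nat_lit 0) (nat_lit 410733381872) (nat_lit 1) (nat_lit 5) (nat_lit 3) (nat_lit 4) (nat_lit 1) (nat_lit 4) (nat_lit 517) (nat_lit 395) (nat_lit 288)) (XT.nd (nat_lit 78) (nat_lit 0) (nat_lit 0) (XT.lf (nat_lit 0) (nat_lit 471378962073) (nat_lit 152)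 (nat_lit 4217670668362) (nat_lit 0) (nat_lit 466384868025) (nat_lit 1) (nat_lit 5) (nat_lit 3) (nat_lit 4) (nat_lit 1) (nat_lit 4) (nat_lit 518) (nat_lit 395) (nat_lit 287)) (XT.lf (nat_lit 0) (nat_lit 531481811046) (nat_lit 152) (nat_lit 4508076254903) (nat_lit 0) (nat_lit 526487626119) (nat_lit 1) (nat_lit 5) (nat_lit 3) (nat_lit 4) (nat_lit 1) (nat_lit 4) (nat_lit 519) (nat_lit 395) (nat_lit 286)))))) (XT.nd (nat_lit 468) (nat_lit 0) (nat_lit 0) (XT.nd (nat_lit 234) (nat_lit 0) (nat_lit 0) (XT.nd (nat_lit 78) (nat_lit 0) (nat_lit 0) (XT.lf (nat_lit 0) (nat_lit 596392089722) (nat_lit 152) (nat_lit 4821715934660) (nat_lit 0) (nat_lit 591397820647) (nat_lit 1) (nat_lit 5) (nat_lit 3) (nat_lit 4) (nat_lit 1) (nat_lit 4) (nat_lit 520) (nat_lit 395) (nat_lit 285)) (XT.nd (nat_lit 78) (nat_lit 0) (nat_lit 0) (XT.lf (nat_lit 0) (nat_lit 666494451603) (nat_lit 152) (nat_lit 5160448313144) (nat_lit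 0) (nat_lit 661500104614) (nat_lit 1) (nat_lit 5) (nat_lit 3) (nat_lit 4) (nat_lit 1) (nat_lit 4) (nat_lit 521) (nat_lit 395) (nat_lit 284)) (XT.lf (nat_lit 0) (nat_lit 742204318093) (nat_lit 152) (nat_lit 5526280693338) (nat_lit 0) (nat_lit 737209898961) (nat_lit 1) (nat_lit 5) (nat_lit 3) (nat_lit 4) (nat_lit 1) (nat_lit 4) (nat_lit 522) (nat_lit 395) (nat_lit 283)))) (XT.nd (nat_lit 78) (nat_lit 0) (nat_lit 0) (XT.lf (nat_lit 0) (nat_lit 823970340253) (nat_lit 152) (nat_lit 5921380970828) (nat_lit 0) (nat_lit 818975854322) (nat_lit 1) (nat_lit 5) (nat_lit 3) (nat_lit 4) (nat_lit 1) (nat_lit 4) (nat_lit 523) (nat_lit 395) (nat_lit 282)) (XT.nd (nat_lit 78) (nat_lit 0) (nat_lit 0) (XT.lf (nat_lit 0) (nat_lit 912277057473) (nat_lit 152) (nat_lit 6348090480592) (nat_lit 0) (nat_lit 907282509692) (nat_lit 1) (nat_lit 5) (nat_lit 3) (nat_lit 4) (nat_lit 1) (nat_lit 4) (nat_lit 524) (nat_lit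 395) (nat_lit 281)) (XT.lf (nat_lit 0) (nat_lit 1007647768819) (nat_lit 152) (nat_lit 6808937871577) (nat_lit 0) (nat_lit 1002653163768) (nat_lit 1) (nat_lit 5) (nat_lit 3) (nat_lit 4) (nat_lit 1) (nat_lit 4) (nat_lit 525) (nat_lit 395) (nat_lit 280))))) (XT.nd (nat_lit 234) (nat_lit 0) (nat_lit 0) (XT.nd (nat_lit 78) (nat_lit 0) (nat_lit 0) (XT.lf (nat_lit 0) (nat_lit 1110647634061) (nat_lit 152) (nat_lit 7306654091284) (nat_lit 0) (nat_lit 1105652975983) (nat_lit 1) (nat_lit 5) (nat_lit 3) (nat_lit 4) (nat_lit 1) (nat_lit 4) (nat_lit 526) (nat_lit 395) (nat_lit 279)) (XT.nd (nat_lit 78) (nat_lit 0) (nat_lit 0) (XT.lf (nat_lit 0) (nat_lit 1221887022771) (nat_lit 152) (nat_lit 7844188569165) (nat_lit 0) (nat_lit 1216892315594) (nat_lit 1) (nat_lit 5) (nat_lit 3) (nat_lit 4) (nat_lit 1) (nat_lit 4) (nat_lit 527) (nat_lit 395) (nat_lit 278)) (XT.lf (nat_lit 0) (nat_lit 1342025131327) (nat_lit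 152) (nat_lit 8424726694717) (nat_lit 0) (nat_lit 1337030378688) (nat_lit 1) (nat_lit 5) (nat_lit 3) (nat_lit 4) (nat_lit 1) (nat_lit 4) (nat_lit 528) (nat_lit 395) (nat_lit 277)))) (XT.nd (nat_lit 78) (nat_lit 0) (nat_lit 0) (XT.lf (nat_lit 0) (nat_lit 1471773889260) (nat_lit 152) (nat_lit 9051708693870) (nat_lit 0) (nat_lit 1466779094527) (nat_lit 1) (nat_lit 5) (nat_lit 3) (nat_lit 4) (nat_lit 1) (nat_lit 4) (nat_lit 529) (nat_lit 395) (nat_lit 276)) (XT.nd (nat_lit 52962) (nat_lit 0) (nat_lit 6688) (XT.lf (nat_lit 0) (nat_lit 1611902178101) (nat_lit 152) (nat_lit 9728850015507) (nat_lit 0) (nat_lit 1606907344391) (nat_lit 1) (nat_lit 5) (nat_lit 3) (nat_lit 4) (nat_lit 1) (nat_lit 4) (nat_lit 530) (nat_lit 395) (nat_lit 275)) (XT.lf (nat_lit 0) (nat_lit 1447655856) (nat_lit 380) (nat_lit 555052398) (nat_lit 0) (nat_lit 1447655856) (nat_lit 89) (nat_lit 5) (nat_lit 94) (nat_lit 4) (nat_lit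 89) (nat_lit 4) (nat_lit 408) (nat_lit 396) (nat_lit 396))))))) (XT.nd (nat_lit 936) (nat_lit 1368) (nat_lit 0) (XT.nd (nat_lit 468) (nat_lit 836) (nat_lit 0) (XT.nd (nat_lit 234) (nat_lit 608) (nat_lit 0) (XT.nd (nat_lit 78) (nat_lit 988) (nat_lit 0) (XT.lf (nat_lit 0) (nat_lit 3916398385) (nat_lit 380) (nat_lit 2486580024) (nat_lit 380) (nat_lit 623941887) (nat_lit 84) (nat_lit 4) (nat_lit 89) (nat_lit 5) (nat_lit 89) (nat_lit 4) (nat_lit 409) (nat_lit 396) (nat_lit 395)) (XT.nd (nat_lit 78) (nat_lit 456) (nat_lit 0) (XT.lf (nat_lit 0) (nat_lit 2007554934) (nat_lit 456) (nat_lit 682280648) (nat_lit 532) (nat_lit 4482614066) (nat_lit 77) (nat_lit 5) (nat_lit 83) (nat_lit 5) (nat_lit 84) (nat_lit 4) (nat_lit 410) (nat_lit 396) (nat_lit 394)) (XT.lf (nat_lit 0) (nat_lit 63414580) (nat_lit 456) (nat_lit 6037959566) (nat_lit 456) (nat_lit 1237760436) (nat_lit 71) (nat_lit 4) (nat_lit 77) (nat_lit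 5) (nat_lit 77) (nat_lit 4) (nat_lit 411) (nat_lit 396) (nat_lit 393)))) (XT.nd (nat_lit 78) (nat_lit 532) (nat_lit 0) (XT.lf (nat_lit 0) (nat_lit 2068840062) (nat_lit 532) (nat_lit 1866106436) (nat_lit 76) (nat_lit 3586705112) (nat_lit 70) (nat_lit 5) (nat_lit 77) (nat_lit 5) (nat_lit 71) (nat_lit 4) (nat_lit 412) (nat_lit 396) (nat_lit 392)) (XT.nd (nat_lit 78) (nat_lit 304) (nat_lit 0) (XT.lf (nat_lit 0) (nat_lit 3872992543) (nat_lit 228) (nat_lit 1564491364) (nat_lit 304) (nat_lit 2289657805) (nat_lit 67) (nat_lit 5) (nat_lit 70) (nat_lit 5) (nat_lit 71) (nat_lit 4) (nat_lit 413) (nat_lit 396) (nat_lit 391)) (XT.lf (nat_lit 0) (nat_lit 973898718) (nat_lit 304) (nat_lit 5947209151) (nat_lit 76) (nat_lit 1033580381) (nat_lit 63) (nat_lit 5) (nat_lit 67) (nat_lit 5) (nat_lit 64) (nat_lit 4) (nat_lit 414) (nat_lit 396) (nat_lit 390))))) (XT.nd (nat_lit 234) (nat_lit 380) (nat_lit 0) (XT.nd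 (nat_lit 78) (nat_lit 456) (nat_lit 0) (XT.lf (nat_lit 0) (nat_lit 4308873049) (nat_lit 304) (nat_lit 16787970) (nat_lit 76) (nat_lit 3875372117) (nat_lit 63) (nat_lit 5) (nat_lit 67) (nat_lit 5) (nat_lit 64) (nat_lit 4) (nat_lit 415) (nat_lit 396) (nat_lit 389)) (XT.nd (nat_lit 78) (nat_lit 304) (nat_lit 0) (XT.lf (nat_lit 0) (nat_lit 6452357147) (nat_lit 152) (nat_lit 1414654325) (nat_lit 228) (nat_lit 603634386) (nat_lit 61) (nat_lit 5) (nat_lit 63) (nat_lit 5) (nat_lit 64) (nat_lit 4) (nat_lit 416) (nat_lit 396) (nat_lit 388)) (XT.lf (nat_lit 0) (nat_lit 2760514162) (nat_lit 304) (nat_lit 4233860701) (nat_lit 76) (nat_lit 1765039617) (nat_lit 57) (nat_lit 5) (nat_lit 61) (nat_lit 5) (nat_lit 58) (nat_lit 4) (nat_lit 417) (nat_lit 396) (nat_lit 387)))) (XT.nd (nat_lit 78) (nat_lit 228) (nat_lit 0) (XT.lf (nat_lit 0) (nat_lit 2440037367) (nat_lit 152) (nat_lit 3884696651) (nat_lit 228)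 (nat_lit 2748267360) (nat_lit 55) (nat_lit 5) (nat_lit 57) (nat_lit 5) (nat_lit 58) (nat_lit 4) (nat_lit 418) (nat_lit 396) (nat_lit 386)) (XT.nd (nat_lit 78) (nat_lit 0) (nat_lit 0) (XT.lf (nat_lit 0) (nat_lit 203037805) (nat_lit 152) (nat_lit 459309173) (nat_lit 228) (nat_lit 8752863092) (nat_lit 52) (nat_lit 5) (nat_lit 54) (nat_lit 5) (nat_lit 55) (nat_lit 5) (nat_lit 419) (nat_lit 396) (nat_lit 385)) (XT.lf (nat_lit 0) (nat_lit 4281024783) (nat_lit 228) (nat_lit 2238480754) (nat_lit 76) (nat_lit 3252927685) (nat_lit 52) (nat_lit 5) (nat_lit 55) (nat_lit 5) (nat_lit 53) (nat_lit 4) (nat_lit 420) (nat_lit 396) (nat_lit 384)))))) (XT.nd (nat_lit 468) (nat_lit 608) (nat_lit 0) (XT.nd (nat_lit 234) (nat_lit 380) (nat_lit 0) (XT.nd (nat_lit 78) (nat_lit 228) (nat_lit 0) (XT.lf (nat_lit 0) (nat_lit 5288976711) (nat_lit 152) (nat_lit 2872405659) (nat_lit 228) (nat_lit 1999117585) (nat_lit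 50) (nat_lit 5) (nat_lit 52) (nat_lit 5) (nat_lit 53) (nat_lit 4) (nat_lit 421) (nat_lit 396) (nat_lit 383)) (XT.nd (nat_lit 78) (nat_lit 0) (nat_lit 0) (XT.lf (nat_lit 0) (nat_lit 1677295986) (nat_lit 228) (nat_lit 7798364974) (nat_lit 76) (nat_lit 1101102657) (nat_lit 47) (nat_lit 5) (nat_lit 50) (nat_lit 5) (nat_lit 48) (nat_lit 4) (nat_lit 422) (nat_lit 396) (nat_lit 382)) (XT.lf (nat_lit 0) (nat_lit 5590159315) (nat_lit 228) (nat_lit 91204978) (nat_lit 76) (nat_lit 5336815002) (nat_lit 47) (nat_lit 5) (nat_lit 50) (nat_lit 5) (nat_lit 48) (nat_lit 4) (nat_lit 423) (nat_lit 396) (nat_lit 381)))) (XT.nd (nat_lit 78) (nat_lit 304) (nat_lit 0) (XT.lf (nat_lit 0) (nat_lit 8409792170) (nat_lit 76) (nat_lit 1459512732) (nat_lit 152) (nat_lit 1621372893) (nat_lit 46) (nat_lit 5) (nat_lit 47) (nat_lit 5) (nat_lit 48) (nat_lit 4) (nat_lit 424) (nat_lit 396) (nat_lit 380)) (XT.nd (nat_lit 78)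 (nat_lit 76) (nat_lit 0) (XT.lf (nat_lit 0) (nat_lit 2431625760) (nat_lit 228) (nat_lit 6505538602) (nat_lit 76) (nat_lit 3053737391) (nat_lit 43) (nat_lit 5) (nat_lit 46) (nat_lit 5) (nat_lit 44) (nat_lit 4) (nat_lit 425) (nat_lit 396) (nat_lit 379)) (XT.lf (nat_lit 0) (nat_lit 2165926688) (nat_lit 76) (nat_lit 4587189954) (nat_lit 152) (nat_lit 5772133687) (nat_lit 42) (nat_lit 5) (nat_lit 43) (nat_lit 5) (nat_lit 44) (nat_lit 4) (nat_lit 426) (nat_lit 396) (nat_lit 378))))) (XT.nd (nat_lit 234) (nat_lit 304) (nat_lit 0) (XT.nd (nat_lit 78) (nat_lit 304) (nat_lit 0) (XT.lf (nat_lit 0) (nat_lit 11463352943) (nat_lit 152) (nat_lit 1444714000) (nat_lit 0) (nat_lit 190859676) (nat_lit 42) (nat_lit 5) (nat_lit 44) (nat_lit 4) (nat_lit 42) (nat_lit 4) (nat_lit 427) (nat_lit 396) (nat_lit 377)) (XT.nd (nat_lit 78) (nat_lit 76) (nat_lit 0) (XT.lf (nat_lit 0) (nat_lit 2880879814) (nat_lit 228)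 (nat_lit 5532095214) (nat_lit 76) (nat_lit 5284841589) (nat_lit 39) (nat_lit 5) (nat_lit 42) (nat_lit 5) (nat_lit 40) (nat_lit 4) (nat_lit 428) (nat_lit 396) (nat_lit 376)) (XT.lf (nat_lit 0) (nat_lit 4220435631) (nat_lit 76) (nat_lit 3461265619) (nat_lit 152) (nat_lit 6658622161) (nat_lit 38) (nat_lit 5) (nat_lit 39) (nat_lit 5) (nat_lit 40) (nat_lit 4) (nat_lit 429) (nat_lit 396) (nat_lit 375)))) (XT.nd (nat_lit 78) (nat_lit 304) (nat_lit 0) (XT.lf (nat_lit 0) (nat_lit 12938330459) (nat_lit 152) (nat_lit 238335733) (nat_lit 0) (nat_lit 1851841304) (nat_lit 38) (nat_lit 5) (nat_lit 40) (nat_lit 4) (nat_lit 38) (nat_lit 4) (nat_lit 430) (nat_lit 396) (nat_lit 374)) (XT.nd (nat_lit 78) (nat_lit 76) (nat_lit 0) (XT.lf (nat_lit 0) (nat_lit 2934366543) (nat_lit 228) (nat_lit 5168110754) (nat_lit 76) (nat_lit 7645181184) (nat_lit 35) (nat_lit 5) (nat_lit 38) (nat_lit 5) (nat_lit 36) (nat_lit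 4) (nat_lit 431) (nat_lit 396) (nat_lit 373)) (XT.lf (nat_lit 0) (nat_lit 5768649490) (nat_lit 76) (nat_lit 2506175151) (nat_lit 152) (nat_lit 8243036476) (nat_lit 34) (nat_lit 5) (nat_lit 35) (nat_lit 5) (nat_lit 36) (nat_lit 4) (nat_lit 432) (nat_lit 396) (nat_lit 372))))))))
noncomputable def xc82 : XT := (XT.nd (nat_lit 1794) (nat_lit 836) (nat_lit 0) (XT.nd (nat_lit 858) (nat_lit 684) (nat_lit 0) (XT.nd (nat_lit 390) (nat_lit 380) (nat_lit 0) (XT.nd (nat_lit 156) (nat_lit 228) (nat_lit 0) (XT.nd (nat_lit 78) (nat_lit 76) (nat_lit 0) (XT.lf (nat_lit 0) (nat_lit 239736456) (nat_lit 76) (nat_lit 13921383033) (nat_lit 76) (nat_lit 3179084312) (nat_lit 33) (nat_lit 4) (nat_lit 34) (nat_lit 5) (nat_lit 34) (nat_lit 4) (nat_lit 433) (nat_lit 396) (nat_lit 371)) (XT.lf (nat_lit 0) (nat_lit 2425412814) (nat_lit 152) (nat_lit 5833497039) (nat_lit 76) (nat_lit 9945029620) (nat_lit 32) (nat_lit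 5) (nat_lit 34) (nat_lit 5) (nat_lit 33) (nat_lit 4) (nat_lit 434) (nat_lit 396) (nat_lit 370))) (XT.nd (nat_lit 78) (nat_lit 152) (nat_lit 0) (XT.lf (nat_lit 0) (nat_lit 6367069956) (nat_lit 76) (nat_lit 1984566739) (nat_lit 152) (nat_lit 10774931207) (nat_lit 31) (nat_lit 5) (nat_lit 32) (nat_lit 5) (nat_lit 33) (nat_lit 4) (nat_lit 435) (nat_lit 396) (nat_lit 369)) (XT.nd (nat_lit 78) (nat_lit 152) (nat_lit 0) (XT.lf (nat_lit 0) (nat_lit 14923803414) (nat_lit 152) (nat_lit 558865795) (nat_lit 0) (nat_lit 4626598509) (nat_lit 31) (nat_lit 5) (nat_lit 33) (nat_lit 4) (nat_lit 31) (nat_lit 4) (nat_lit 436) (nat_lit 396) (nat_lit 368)) (XT.lf (nat_lit 0) (nat_lit 1081251437) (nat_lit 152) (nat_lit 8148207851) (nat_lit 76) (nat_lit 11917680463) (nat_lit 29) (nat_lit 5) (nat_lit 31) (nat_lit 5) (nat_lit 30) (nat_lit 4) (nat_lit 437) (nat_lit 396) (nat_lit 367))))) (XT.nd (nat_lit 234) (nat_lit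 228) (nat_lit 0) (XT.nd (nat_lit 78) (nat_lit 76) (nat_lit 0) (XT.lf (nat_lit 0) (nat_lit 5348886250) (nat_lit 76) (nat_lit 2265871048) (nat_lit 152) (nat_lit 14638867960) (nat_lit 28) (nat_lit 5) (nat_lit 29) (nat_lit 5) (nat_lit 30) (nat_lit 4) (nat_lit 438) (nat_lit 396) (nat_lit 366)) (XT.nd (nat_lit 78) (nat_lit 76) (nat_lit 0) (XT.lf (nat_lit 0) (nat_lit 14927893094) (nat_lit 152) (nat_lit 3364467841) (nat_lit 0) (nat_lit 5135719110) (nat_lit 28) (nat_lit 5) (nat_lit 30) (nat_lit 4) (nat_lit 28) (nat_lit 4) (nat_lit 439) (nat_lit 396) (nat_lit 365)) (XT.lf (nat_lit 0) (nat_lit 11604138720) (nat_lit 76) (nat_lit 11469132229) (nat_lit 76) (nat_lit 1603450896) (nat_lit 27) (nat_lit 4) (nat_lit 28) (nat_lit 5) (nat_lit 28) (nat_lit 4) (nat_lit 440) (nat_lit 396) (nat_lit 364)))) (XT.nd (nat_lit 78) (nat_lit 76) (nat_lit 0) (XT.lf (nat_lit 0) (nat_lit 1709409685) (nat_lit 76) (nat_lit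 3888260208) (nat_lit 152) (nat_lit 20412741328) (nat_lit 25) (nat_lit 5) (nat_lit 26) (nat_lit 5) (nat_lit 27) (nat_lit 4) (nat_lit 441) (nat_lit 396) (nat_lit 363)) (XT.nd (nat_lit 78) (nat_lit 76) (nat_lit 0) (XT.lf (nat_lit 0) (nat_lit 13668427776) (nat_lit 152) (nat_lit 9336462347) (nat_lit 0) (nat_lit 4412164446) (nat_lit 25) (nat_lit 5) (nat_lit 27) (nat_lit 4) (nat_lit 25) (nat_lit 4) (nat_lit 442) (nat_lit 396) (nat_lit 362)) (XT.lf (nat_lit 0) (nat_lit 6905475705) (nat_lit 76) (nat_lit 15663173610) (nat_lit 76) (nat_lit 6352880183) (nat_lit 24) (nat_lit 4) (nat_lit 25) (nat_lit 5) (nat_lit 25) (nat_lit 4) (nat_lit 443) (nat_lit 396) (nat_lit 361)))))) (XT.nd (nat_lit 468) (nat_lit 304) (nat_lit 0) (XT.nd (nat_lit 234) (nat_lit 228) (nat_lit 0) (XT.nd (nat_lit 78) (nat_lit 76) (nat_lit 0) (XT.lf (nat_lit 0) (nat_lit 1731611179) (nat_lit 152) (nat_lit 5758570039) (nat_lit 76) (nat_lit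 23038732054) (nat_lit 23) (nat_lit 5) (nat_lit 25) (nat_lit 5) (nat_lit 24) (nat_lit 4) (nat_lit 444) (nat_lit 396) (nat_lit 360)) (XT.nd (nat_lit 78) (nat_lit 0) (nat_lit 0) (XT.lf (nat_lit 0) (nat_lit 10375598903) (nat_lit 152) (nat_lit 20189870994) (nat_lit 0) (nat_lit 1665743910) (nat_lit 22) (nat_lit 5) (nat_lit 24) (nat_lit 4) (nat_lit 22) (nat_lit 4) (nat_lit 445) (nat_lit 396) (nat_lit 359)) (XT.lf (nat_lit 0) (nat_lit 19990648868) (nat_lit 152) (nat_lit 2815609118) (nat_lit 0) (nat_lit 11241080142) (nat_lit 22) (nat_lit 5) (nat_lit 24) (nat_lit 4) (nat_lit 22) (nat_lit 4) (nat_lit 446) (nat_lit 396) (nat_lit 358)))) (XT.nd (nat_lit 78) (nat_lit 152) (nat_lit 0) (XT.lf (nat_lit 0) (nat_lit 16639671339) (nat_lit 76) (nat_lit 14064540020) (nat_lit 76) (nat_lit 5278199319) (nat_lit 21) (nat_lit 4) (nat_lit 22) (nat_lit 5) (nat_lit 22) (nat_lit 4) (nat_lit 447) (nat_lit 396) (nat_lit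 357)) (XT.nd (nat_lit 78) (nat_lit 76) (nat_lit 0) (XT.lf (nat_lit 0) (nat_lit 4000592089) (nat_lit 152) (nat_lit 499157280) (nat_lit 76) (nat_lit 33563796302) (nat_lit 20) (nat_lit 5) (nat_lit 22) (nat_lit 5) (nat_lit 21) (nat_lit 4) (nat_lit 448) (nat_lit 396) (nat_lit 356)) (XT.lf (nat_lit 0) (nat_lit 14321908987) (nat_lit 152) (nat_lit 19805775064) (nat_lit 0) (nat_lit 6125691516) (nat_lit 19) (nat_lit 5) (nat_lit 21) (nat_lit 4) (nat_lit 19) (nat_lit 4) (nat_lit 449) (nat_lit 396) (nat_lit 355))))) (XT.nd (nat_lit 234) (nat_lit 152) (nat_lit 0) (XT.nd (nat_lit 78) (nat_lit 76) (nat_lit 0) (XT.lf (nat_lit 0) (nat_lit 244987747) (nat_lit 76) (nat_lit 25295465258) (nat_lit 76) (nat_lit 17072219288) (nat_lit 18) (nat_lit 4) (nat_lit 19) (nat_lit 5) (nat_lit 19) (nat_lit 4) (nat_lit 450) (nat_lit 396) (nat_lit 354)) (XT.nd (nat_lit 78) (nat_lit 76) (nat_lit 0) (XT.lf (nat_lit 0) (nat_lit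 22898282824) (nat_lit 76) (nat_lit 15236230829) (nat_lit 76) (nat_lit 6987958470) (nat_lit 18) (nat_lit 4) (nat_lit 19) (nat_lit 5) (nat_lit 19) (nat_lit 4) (nat_lit 451) (nat_lit 396) (nat_lit 353)) (XT.lf (nat_lit 0) (nat_lit 3647479649) (nat_lit 152) (nat_lit 684687271) (nat_lit 76) (nat_lit 43498206692) (nat_lit 17) (nat_lit 5) (nat_lit 19) (nat_lit 5) (nat_lit 18) (nat_lit 4) (nat_lit 452) (nat_lit 396) (nat_lit 352)))) (XT.nd (nat_lit 78) (nat_lit 76) (nat_lit 0) (XT.lf (nat_lit 0) (nat_lit 15461557250) (nat_lit 152) (nat_lit 27439459101) (nat_lit 0) (nat_lit 7782945180) (nat_lit 16) (nat_lit 5) (nat_lit 18) (nat_lit 4) (nat_lit 16) (nat_lit 4) (nat_lit 453) (nat_lit 396) (nat_lit 351)) (XT.nd (nat_lit 78) (nat_lit 76) (nat_lit 0) (XT.lf (nat_lit 0) (nat_lit 28296807490) (nat_lit 152) (nat_lit 4863146484) (nat_lit 0) (nat_lit 20599800277) (nat_lit 16) (nat_lit 5) (nat_lit 18) (nat_lit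 4) (nat_lit 16) (nat_lit 4) (nat_lit 454) (nat_lit 396) (nat_lit 350)) (XT.lf (nat_lit 0) (nat_lit 20437212483) (nat_lit 76) (nat_lit 22161621275) (nat_lit 76) (nat_lit 14447581523) (nat_lit 15) (nat_lit 4) (nat_lit 16) (nat_lit 5) (nat_lit 16) (nat_lit 4) (nat_lit 455) (nat_lit 396) (nat_lit 349))))))) (XT.nd (nat_lit 936) (nat_lit 380) (nat_lit 0) (XT.nd (nat_lit 468) (nat_lit 228) (nat_lit 0) (XT.nd (nat_lit 234) (nat_lit 76) (nat_lit 0) (XT.nd (nat_lit 78) (nat_lit 152) (nat_lit 0) (XT.lf (nat_lit 0) (nat_lit 47936404132) (nat_lit 76) (nat_lit 10191397305) (nat_lit 76) (nat_lit 2461586683) (nat_lit 15) (nat_lit 4) (nat_lit 16) (nat_lit 5) (nat_lit 16) (nat_lit 4) (nat_lit 456) (nat_lit 396) (nat_lit 348)) (XT.nd (nat_lit 78) (nat_lit 0) (nat_lit 0) (XT.lf (nat_lit 0) (nat_lit 10316681494) (nat_lit 152) (nat_lit 50904395237) (nat_lit 0) (nat_lit 3145928458) (nat_lit 13) (nat_lit 5) (nat_lit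 15) (nat_lit 4) (nat_lit 13) (nat_lit 4) (nat_lit 457) (nat_lit 396) (nat_lit 347)) (XT.lf (nat_lit 0) (nat_lit 24556308267) (nat_lit 152) (nat_lit 26466606635) (nat_lit 0) (nat_lit 17373035805) (nat_lit 13) (nat_lit 5) (nat_lit 15) (nat_lit 4) (nat_lit 13) (nat_lit 4) (nat_lit 458) (nat_lit 396) (nat_lit 346)))) (XT.nd (nat_lit 78) (nat_lit 76) (nat_lit 0) (XT.lf (nat_lit 0) (nat_lit 39891062856) (nat_lit 152) (nat_lit 163474995) (nat_lit 0) (nat_lit 32696198334) (nat_lit 13) (nat_lit 5) (nat_lit 15) (nat_lit 4) (nat_lit 13) (nat_lit 4) (nat_lit 459) (nat_lit 396) (nat_lit 345)) (XT.nd (nat_lit 78) (nat_lit 0) (nat_lit 0) (XT.lf (nat_lit 0) (nat_lit 29643771605) (nat_lit 76) (nat_lit 27480979698) (nat_lit 76) (nat_lit 20275381787) (nat_lit 12) (nat_lit 4) (nat_lit 13) (nat_lit 5) (nat_lit 13) (nat_lit 4) (nat_lit 460) (nat_lit 396) (nat_lit 344)) (XT.lf (nat_lit 0) (nat_lit 61763960024)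 (nat_lit 76) (nat_lit 13937938818) (nat_lit 76) (nat_lit 6722402584) (nat_lit 12) (nat_lit 4) (nat_lit 13) (nat_lit 5) (nat_lit 13) (nat_lit 4) (nat_lit 461) (nat_lit 396) (nat_lit 343))))) (XT.nd (nat_lit 234) (nat_lit 76) (nat_lit 0) (XT.nd (nat_lit 78) (nat_lit 0) (nat_lit 0) (XT.lf (nat_lit 0) (nat_lit 7718246132) (nat_lit 152) (nat_lit 79072307128) (nat_lit 0) (nat_lit 1028673553) (nat_lit 10) (nat_lit 5) (nat_lit 12) (nat_lit 4) (nat_lit 10) (nat_lit 4) (nat_lit 462) (nat_lit 396) (nat_lit 342)) (XT.nd (nat_lit 78) (nat_lit 0) (nat_lit 0) (XT.lf (nat_lit 0) (nat_lit 23854900387) (nat_lit 152) (nat_lit 52547124367) (nat_lit 0) (nat_lit 17157438446) (nat_lit 10) (nat_lit 5) (nat_lit 12) (nat_lit 4) (nat_lit 10) (nat_lit 4) (nat_lit 463) (nat_lit 396) (nat_lit 341)) (XT.lf (nat_lit 0) (nat_lit 41247626592) (nat_lit 152) (nat_lit 23971221639) (nat_lit 0) (nat_lit 34542859687) (nat_lit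 10) (nat_lit 5) (nat_lit 12) (nat_lit 4) (nat_lit 10) (nat_lit 4) (nat_lit 464) (nat_lit 396) (nat_lit 340)))) (XT.nd (nat_lit 78) (nat_lit 0) (nat_lit 0) (XT.lf (nat_lit 0) (nat_lit 7184118438) (nat_lit 76) (nat_lit 52988152537) (nat_lit 76) (nat_lit 46276621777) (nat_lit 9) (nat_lit 4) (nat_lit 10) (nat_lit 5) (nat_lit 10) (nat_lit 4) (nat_lit 465) (nat_lit 396) (nat_lit 339)) (XT.nd (nat_lit 78) (nat_lit 0) (nat_lit 0) (XT.lf (nat_lit 0) (nat_lit 42130807998) (nat_lit 76) (nat_lit 39104059991) (nat_lit 76) (nat_lit 32386266401) (nat_lit 9) (nat_lit 4) (nat_lit 10) (nat_lit 5) (nat_lit 10) (nat_lit 4) (nat_lit 466) (nat_lit 396) (nat_lit 338)) (XT.lf (nat_lit 0) (nat_lit 79813656485) (nat_lit 76) (nat_lit 24139710169) (nat_lit 76) (nat_lit 17416117663) (nat_lit 9) (nat_lit 4) (nat_lit 10) (nat_lit 5) (nat_lit 10) (nat_lit 4) (nat_lit 467) (nat_lit 396) (nat_lit 337)))))) (XT.nd (nat_lit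 468) (nat_lit 152) (nat_lit 0) (XT.nd (nat_lit 234) (nat_lit 76) (nat_lit 0) (XT.nd (nat_lit 78) (nat_lit 152) (nat_lit 0) (XT.lf (nat_lit 0) (nat_lit 120455969665) (nat_lit 76) (nat_lit 8006425443) (nat_lit 76) (nat_lit 1277463570) (nat_lit 9) (nat_lit 4) (nat_lit 10) (nat_lit 5) (nat_lit 10) (nat_lit 4) (nat_lit 468) (nat_lit 396) (nat_lit 336)) (XT.nd (nat_lit 78) (nat_lit 0) (nat_lit 0) (XT.lf (nat_lit 0) (nat_lit 16207313520) (nat_lit 152) (nat_lit 112500240254) (nat_lit 0) (nat_lit 9972189901) (nat_lit 7) (nat_lit 5) (nat_lit 9) (nat_lit 4) (nat_lit 7) (nat_lit 4) (nat_lit 469) (nat_lit 396) (nat_lit 335)) (XT.lf (nat_lit 0) (nat_lit 35464682828) (nat_lit 152) (nat_lit 83606759584) (nat_lit 0) (nat_lit 29225296832) (nat_lit 7) (nat_lit 5) (nat_lit 9) (nat_lit 4) (nat_lit 7) (nat_lit 4) (nat_lit 470) (nat_lit 396) (nat_lit 334)))) (XT.nd (nat_lit 78) (nat_lit 76) (nat_lit 0) (XT.lf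 (nat_lit 0) (nat_lit 56238971298) (nat_lit 152) (nat_lit 52450378450) (nat_lit 0) (nat_lit 49995638657) (nat_lit 7) (nat_lit 5) (nat_lit 9) (nat_lit 4) (nat_lit 7) (nat_lit 4) (nat_lit 471) (nat_lit 396) (nat_lit 333)) (XT.nd (nat_lit 78) (nat_lit 76) (nat_lit 0) (XT.lf (nat_lit 0) (nat_lit 78653285826) (nat_lit 152) (nat_lit 18846466446) (nat_lit 0) (nat_lit 72406298885) (nat_lit 7) (nat_lit 5) (nat_lit 9) (nat_lit 4) (nat_lit 7) (nat_lit 4) (nat_lit 472) (nat_lit 396) (nat_lit 332)) (XT.lf (nat_lit 0) (nat_lit 18320580349) (nat_lit 76) (nat_lit 84960482029) (nat_lit 76) (nat_lit 78710111475) (nat_lit 6) (nat_lit 4) (nat_lit 7) (nat_lit 5) (nat_lit 7) (nat_lit 4) (nat_lit 473) (nat_lit 396) (nat_lit 331))))) (XT.nd (nat_lit 234) (nat_lit 152) (nat_lit 0) (XT.nd (nat_lit 78) (nat_lit 0) (nat_lit 0) (XT.lf (nat_lit 0) (nat_lit 59492212713) (nat_lit 76) (nat_lit 70882377547) (nat_lit 76)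 (nat_lit 64628874020) (nat_lit 6) (nat_lit 4) (nat_lit 7) (nat_lit 5) (nat_lit 7) (nat_lit 4) (nat_lit 474) (nat_lit 396) (nat_lit 330)) (XT.nd (nat_lit 78) (nat_lit 0) (nat_lit 0) (XT.lf (nat_lit 0) (nat_lit 103919989163) (nat_lit 76) (nat_lit 55697308816) (nat_lit 76) (nat_lit 49440904387) (nat_lit 6) (nat_lit 4) (nat_lit 7) (nat_lit 5) (nat_lit 7) (nat_lit 4) (nat_lit 475) (nat_lit 396) (nat_lit 329)) (XT.lf (nat_lit 0) (nat_lit 151867185414) (nat_lit 76) (nat_lit 39315290243) (nat_lit 76) (nat_lit 33056199793) (nat_lit 6) (nat_lit 4) (nat_lit 7) (nat_lit 5) (nat_lit 7) (nat_lit 4) (nat_lit 476) (nat_lit 396) (nat_lit 328)))) (XT.nd (nat_lit 78) (nat_lit 152) (nat_lit 0) (XT.lf (nat_lit 0) (nat_lit 203617932997) (nat_lit 76) (nat_lit 21639243198) (nat_lit 76) (nat_lit 15377665693) (nat_lit 6) (nat_lit 4) (nat_lit 7) (nat_lit 5) (nat_lit 7) (nat_lit 4) (nat_lit 477) (nat_lit 396) (nat_lit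 327)) (XT.nd (nat_lit 78) (nat_lit 0) (nat_lit 0) (XT.lf (nat_lit 0) (nat_lit 1101150790) (nat_lit 76) (nat_lit 2439729558) (nat_lit 152) (nat_lit 254793747418) (nat_lit 4) (nat_lit 5) (nat_lit 5) (nat_lit 5) (nat_lit 6) (nat_lit 4) (nat_lit 478) (nat_lit 396) (nat_lit 326)) (XT.lf (nat_lit 0) (nat_lit 24605637387) (nat_lit 152) (nat_lit 233891950156) (nat_lit 0) (nat_lit 18803773884) (nat_lit 4) (nat_lit 5) (nat_lit 6) (nat_lit 4) (nat_lit 4) (nat_lit 4) (nat_lit 479) (nat_lit 396) (nat_lit 325))))))))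
noncomputable def xc83 : XT := (XT.nd (nat_lit 1794) (nat_lit 152) (nat_lit 0) (XT.nd (nat_lit 858) (nat_lit 0) (nat_lit 0) (XT.nd (nat_lit 390) (nat_lit 76) (nat_lit 0) (XT.nd (nat_lit 156) (nat_lit 0) (nat_lit 0) (XT.nd (nat_lit 78) (nat_lit 0) (nat_lit 0) (XT.lf (nat_lit 0) (nat_lit 47405158631) (nat_lit 152) (nat_lit 208774841539) (nat_lit 0) (nat_lit 41601467067) (nat_lit 4) (nat_lit 5) (nat_lit 6) (nat_lit 4) (nat_lit 4) (nat_lit 4) (nat_lit 480) (nat_lit 396) (nat_lit 324)) (XT.lf (nat_lit 0) (nat_lit 72015876798) (nat_lit 152) (nat_lit 181674633448) (nat_lit 0) (nat_lit 66210492586) (nat_lit 4) (nat_lit 5) (nat_lit 6) (nat_lit 4) (nat_lit 4) (nat_lit 4) (nat_lit 481) (nat_lit 396) (nat_lit 323))) (XT.nd (nat_lit 78) (nat_lit 0) (nat_lit 0) (XT.lf (nat_lit 0) (nat_lit 98583633181) (nat_lit 152) (nat_lit 152430732055) (nat_lit 0) (nat_lit 92776681702) (nat_lit 4) (nat_lit 5) (nat_lit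 6) (nat_lit 4) (nat_lit 4) (nat_lit 4) (nat_lit 482) (nat_lit 396) (nat_lit 322)) (XT.nd (nat_lit 78) (nat_lit 0) (nat_lit 0) (XT.lf (nat_lit 0) (nat_lit 127265866337) (nat_lit 152) (nat_lit 120869840167) (nat_lit 0) (nat_lit 121457463685) (nat_lit 4) (nat_lit 5) (nat_lit 6) (nat_lit 4) (nat_lit 4) (nat_lit 4) (nat_lit 483) (nat_lit 396) (nat_lit 321)) (XT.lf (nat_lit 0) (nat_lit 158232545054) (nat_lit 152) (nat_lit 86804930277) (nat_lit 0) (nat_lit 152422798723) (nat_lit 4) (nat_lit 5) (nat_lit 6) (nat_lit 4) (nat_lit 4) (nat_lit 4) (nat_lit 484) (nat_lit 396) (nat_lit 320))))) (XT.nd (nat_lit 234) (nat_lit 0) (nat_lit 0) (XT.nd (nat_lit 78) (nat_lit 76) (nat_lit 0) (XT.lf (nat_lit 0) (nat_lit 191667175578) (nat_lit 152) (nat_lit 50034136253) (nat_lit 0) (nat_lit 185856185100) (nat_lit 4) (nat_lit 5) (nat_lit 6) (nat_lit 4) (nat_lit 4) (nat_lit 4) (nat_lit 485) (nat_lit 396) (nat_lit 319))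 (XT.nd (nat_lit 78) (nat_lit 76) (nat_lit 0) (XT.lf (nat_lit 0) (nat_lit 227767889051) (nat_lit 152) (nat_lit 10339557092) (nat_lit 0) (nat_lit 221955746585) (nat_lit 4) (nat_lit 5) (nat_lit 6) (nat_lit 4) (nat_lit 4) (nat_lit 4) (nat_lit 486) (nat_lit 396) (nat_lit 318)) (XT.lf (nat_lit 0) (nat_lit 34226165768) (nat_lit 76) (nat_lit 233345589969) (nat_lit 76) (nat_lit 227532380848) (nat_lit 3) (nat_lit 4) (nat_lit 4) (nat_lit 5) (nat_lit 4) (nat_lit 4) (nat_lit 487) (nat_lit 396) (nat_lit 317)))) (XT.nd (nat_lit 78) (nat_lit 0) (nat_lit 0) (XT.lf (nat_lit 0) (nat_lit 82929031262) (nat_lit 76) (nat_lit 227905766141) (nat_lit 76) (nat_lit 222091569376) (nat_lit 3) (nat_lit 4) (nat_lit 4) (nat_lit 5) (nat_lit 4) (nat_lit 4) (nat_lit 488) (nat_lit 396) (nat_lit 316)) (XT.nd (nat_lit 78) (nat_lit 0) (nat_lit 0) (XT.lf (nat_lit 0) (nat_lit 135513186207) (nat_lit 76) (nat_lit 222038440481) (nat_lit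 76) (nat_lit 216223329230) (nat_lit 3) (nat_lit 4) (nat_lit 4) (nat_lit 5) (nat_lit 4) (nat_lit 4) (nat_lit 489) (nat_lit 396) (nat_lit 315)) (XT.lf (nat_lit 0) (nat_lit 192290240411) (nat_lit 76) (nat_lit 215708843652) (nat_lit 76) (nat_lit 209892885655) (nat_lit 3) (nat_lit 4) (nat_lit 4) (nat_lit 5) (nat_lit 4) (nat_lit 4) (nat_lit 490) (nat_lit 396) (nat_lit 314)))))) (XT.nd (nat_lit 468) (nat_lit 0) (nat_lit 0) (XT.nd (nat_lit 234) (nat_lit 0) (nat_lit 0) (XT.nd (nat_lit 78) (nat_lit 0) (nat_lit 0) (XT.lf (nat_lit 0) (nat_lit 253596650492) (nat_lit 76) (nat_lit 208879466931) (nat_lit 76) (nat_lit 203062724910) (nat_lit 3) (nat_lit 4) (nat_lit 4) (nat_lit 5) (nat_lit 4) (nat_lit 4) (nat_lit 491) (nat_lit 396) (nat_lit 313)) (XT.nd (nat_lit 78) (nat_lit 0) (nat_lit 0) (XT.lf (nat_lit 0) (nat_lit 319795713694) (nat_lit 76) (nat_lit 201509839937) (nat_lit 76) (nat_lit 195692371969) (nat_lit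 3) (nat_lit 4) (nat_lit 4) (nat_lit 5) (nat_lit 4) (nat_lit 4) (nat_lit 492) (nat_lit 396) (nat_lit 312)) (XT.lf (nat_lit 0) (nat_lit 391279720763) (nat_lit 76) (nat_lit 193556290809) (nat_lit 76) (nat_lit 187738150667) (nat_lit 3) (nat_lit 4) (nat_lit 4) (nat_lit 5) (nat_lit 4) (nat_lit 4) (nat_lit 493) (nat_lit 396) (nat_lit 311)))) (XT.nd (nat_lit 78) (nat_lit 0) (nat_lit 0) (XT.lf (nat_lit 0) (nat_lit 468472280628) (nat_lit 76) (nat_lit 184971687401) (nat_lit 76) (nat_lit 179152924876) (nat_lit 3) (nat_lit 4) (nat_lit 4) (nat_lit 5) (nat_lit 4) (nat_lit 4) (nat_lit 494) (nat_lit 396) (nat_lit 310)) (XT.nd (nat_lit 78) (nat_lit 0) (nat_lit 0) (XT.lf (nat_lit 0) (nat_lit 551830830683) (nat_lit 76) (nat_lit 175705157991) (nat_lit 76) (nat_lit 169885819185) (nat_lit 3) (nat_lit 4) (nat_lit 4) (nat_lit 5) (nat_lit 4) (nat_lit 4) (nat_lit 495) (nat_lit 396) (nat_lit 309)) (XT.lf (nat_lit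 0) (nat_lit 641849347519) (nat_lit 76) (nat_lit 165701789812) (nat_lit 76) (nat_lit 159881917413) (nat_lit 3) (nat_lit 4) (nat_lit 4) (nat_lit 5) (nat_lit 4) (nat_lit 4) (nat_lit 496) (nat_lit 396) (nat_lit 308))))) (XT.nd (nat_lit 234) (nat_lit 0) (nat_lit 0) (XT.nd (nat_lit 78) (nat_lit 0) (nat_lit 0) (XT.lf (nat_lit 0) (nat_lit 739061274200) (nat_lit 76) (nat_lit 154902303645) (nat_lit 76) (nat_lit 149081937177) (nat_lit 3) (nat_lit 4) (nat_lit 4) (nat_lit 5) (nat_lit 4) (nat_lit 4) (nat_lit 497) (nat_lit 396) (nat_lit 307)) (XT.nd (nat_lit 78) (nat_lit 0) (nat_lit 0) (XT.lf (nat_lit 0) (nat_lit 844042681402) (nat_lit 76) (nat_lit 143242702534) (nat_lit 76) (nat_lit 137421878596) (nat_lit 3) (nat_lit 4) (nat_lit 4) (nat_lit 5) (nat_lit 4) (nat_lit 4) (nat_lit 498) (nat_lit 396) (nat_lit 306)) (XT.lf (nat_lit 0) (nat_lit 957415681168) (nat_lit 76) (nat_lit 130653892547) (nat_lit 76) (nat_lit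 124832645025) (nat_lit 3) (nat_lit 4) (nat_lit 4) (nat_lit 5) (nat_lit 4) (nat_lit 4) (nat_lit 499) (nat_lit 396) (nat_lit 305)))) (XT.nd (nat_lit 78) (nat_lit 0) (nat_lit 0) (XT.lf (nat_lit 0) (nat_lit 1079852113496) (nat_lit 76) (nat_lit 117061273329) (nat_lit 76) (nat_lit 111239633600) (nat_lit 3) (nat_lit 4) (nat_lit 4) (nat_lit 5) (nat_lit 4) (nat_lit 4) (nat_lit 500) (nat_lit 396) (nat_lit 304)) (XT.nd (nat_lit 78) (nat_lit 0) (nat_lit 0) (XT.lf (nat_lit 0) (nat_lit 1212077527615) (nat_lit 76) (nat_lit 102384296025) (nat_lit 76) (nat_lit 96562293142) (nat_lit 3) (nat_lit 4) (nat_lit 4) (nat_lit 5) (nat_lit 4) (nat_lit 4) (nat_lit 501) (nat_lit 396) (nat_lit 303)) (XT.lf (nat_lit 0) (nat_lit 1354875481536) (nat_lit 76) (nat_lit 86535985955) (nat_lit 76) (nat_lit 80713646817) (nat_lit 3) (nat_lit 4) (nat_lit 4) (nat_lit 5) (nat_lit 4) (nat_lit 4) (nat_lit 502) (nat_lit 396) (nat_lit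 302))))))) (XT.nd (nat_lit 936) (nat_lit 0) (nat_lit 0) (XT.nd (nat_lit 468) (nat_lit 0) (nat_lit 0) (XT.nd (nat_lit 234) (nat_lit 152) (nat_lit 0) (XT.nd (nat_lit 78) (nat_lit 0) (nat_lit 0) (XT.lf (nat_lit 0) (nat_lit 1509092185354) (nat_lit 76) (nat_lit 69422427207) (nat_lit 76) (nat_lit 63599776723) (nat_lit 3) (nat_lit 4) (nat_lit 4) (nat_lit 5) (nat_lit 4) (nat_lit 4) (nat_lit 503) (nat_lit 396) (nat_lit 301)) (XT.nd (nat_lit 78) (nat_lit 0) (nat_lit 0) (XT.lf (nat_lit 0) (nat_lit 1675641515833) (nat_lit 76) (nat_lit 50942206099) (nat_lit 76) (nat_lit 45119267331) (nat_lit 3) (nat_lit 4) (nat_lit 4) (nat_lit 5) (nat_lit 4) (nat_lit 4) (nat_lit 504) (nat_lit 396) (nat_lit 300)) (XT.lf (nat_lit 0) (nat_lit 1855510431969) (nat_lit 76) (nat_lit 30985810211) (nat_lit 76) (nat_lit 25162604514) (nat_lit 3) (nat_lit 4) (nat_lit 4) (nat_lit 5) (nat_lit 4) (nat_lit 4) (nat_lit 505) (nat_lit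 396) (nat_lit 299)))) (XT.nd (nat_lit 78) (nat_lit 152) (nat_lit 0) (XT.lf (nat_lit 0) (nat_lit 2049764823635) (nat_lit 76) (nat_lit 9434979419) (nat_lit 76) (nat_lit 3611526565) (nat_lit 3) (nat_lit 4) (nat_lit 4) (nat_lit 5) (nat_lit 4) (nat_lit 4) (nat_lit 506) (nat_lit 396) (nat_lit 298)) (XT.nd (nat_lit 78) (nat_lit 0) (nat_lit 0) (XT.lf (nat_lit 0) (nat_lit 19881045361) (nat_lit 152) (nat_lit 2191552300467) (nat_lit 0) (nat_lit 14488747487) (nat_lit 1) (nat_lit 5) (nat_lit 3) (nat_lit 4) (nat_lit 1) (nat_lit 4) (nat_lit 507) (nat_lit 396) (nat_lit 297)) (XT.lf (nat_lit 0) (nat_lit 45667089959) (nat_lit 152) (nat_lit 2316083793157) (nat_lit 0) (nat_lit 40274595884) (nat_lit 1) (nat_lit 5) (nat_lit 3) (nat_lit 4) (nat_lit 1) (nat_lit 4) (nat_lit 508) (nat_lit 396) (nat_lit 296))))) (XT.nd (nat_lit 234) (nat_lit 0) (nat_lit 0) (XT.nd (nat_lit 78) (nat_lit 0) (nat_lit 0) (XT.lf (nat_lit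 0) (nat_lit 73514294837) (nat_lit 152) (nat_lit 2450581359485) (nat_lit 0) (nat_lit 68121619095) (nat_lit 1) (nat_lit 5) (nat_lit 3) (nat_lit 4) (nat_lit 1) (nat_lit 4) (nat_lit 509) (nat_lit 396) (nat_lit 295)) (XT.nd (nat_lit 78) (nat_lit 0) (nat_lit 0) (XT.lf (nat_lit 0) (nat_lit 103587680469) (nat_lit 152) (nat_lit 2595842022068) (nat_lit 0) (nat_lit 98194836515) (nat_lit 1) (nat_lit 5) (nat_lit 3) (nat_lit 4) (nat_lit 1) (nat_lit 4) (nat_lit 510) (nat_lit 396) (nat_lit 294)) (XT.lf (nat_lit 0) (nat_lit 136065459509) (nat_lit 152) (nat_lit 2752726584832) (nat_lit 0) (nat_lit 130672459805) (nat_lit 1) (nat_lit 5) (nat_lit 3) (nat_lit 4) (nat_lit 1) (nat_lit 4) (nat_lit 511) (nat_lit 396) (nat_lit 293)))) (XT.nd (nat_lit 78) (nat_lit 0) (nat_lit 0) (XT.lf (nat_lit 0) (nat_lit 171140092871) (nat_lit 152) (nat_lit 2922164734074) (nat_lit 0) (nat_lit 165746948953) (nat_lit 1) (nat_lit 5)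 (nat_lit 3) (nat_lit 4) (nat_lit 1) (nat_lit 4) (nat_lit 512) (nat_lit 396) (nat_lit 292)) (XT.nd (nat_lit 78) (nat_lit 0) (nat_lit 0) (XT.lf (nat_lit 0) (nat_lit 209019430234) (nat_lit 152) (nat_lit 3105160547716) (nat_lit 0) (nat_lit 203626152785) (nat_lit 1) (nat_lit 5) (nat_lit 3) (nat_lit 4) (nat_lit 1) (nat_lit 4) (nat_lit 513) (nat_lit 396) (nat_lit 291)) (XT.lf (nat_lit 0) (nat_lit 249927941746) (nat_lit 152) (nat_lit 3302798445395) (nat_lit 0) (nat_lit 244534540657) (nat_lit 1) (nat_lit 5) (nat_lit 3) (nat_lit 4) (nat_lit 1) (nat_lit 4) (nat_lit 514) (nat_lit 396) (nat_lit 290)))))) (XT.nd (nat_lit 468) (nat_lit 0) (nat_lit 0) (XT.nd (nat_lit 234) (nat_lit 0) (nat_lit 0) (XT.nd (nat_lit 78) (nat_lit 0) (nat_lit 0) (XT.lf (nat_lit 0) (nat_lit 294108048214) (nat_lit 152) (nat_lit 3516249614652) (nat_lit 0) (nat_lit 288714532644) (nat_lit 1) (nat_lit 5) (nat_lit 3) (nat_lit 4) (nat_lit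 1) (nat_lit 4) (nat_lit 515) (nat_lit 396) (nat_lit 289)) (XT.nd (nat_lit 78) (nat_lit 0) (nat_lit 0) (XT.lf (nat_lit 0) (nat_lit 341821557678) (nat_lit 152) (nat_lit 3746778951305) (nat_lit 0) (nat_lit 336427936106) (nat_lit 1) (nat_lit 5) (nat_lit 3) (nat_lit 4) (nat_lit 1) (nat_lit 4) (nat_lit 516) (nat_lit 396) (nat_lit 288)) (XT.lf (nat_lit 0) (nat_lit 393351216861) (nat_lit 152) (nat_lit 3995752555128) (nat_lit 0) (nat_lit 387957497139) (nat_lit 1) (nat_lit 5) (nat_lit 3) (nat_lit 4) (nat_lit 1) (nat_lit 4) (nat_lit 517) (nat_lit 396) (nat_lit 287)))) (XT.nd (nat_lit 78) (nat_lit 0) (nat_lit 0) (XT.lf (nat_lit 0) (nat_lit 449002386705) (nat_lit 152) (nat_lit 4264645825252) (nat_lit 0) (nat_lit 443608576104) (nat_lit 1) (nat_lit 5) (nat_lit 3) (nat_lit 4) (nat_lit 1) (nat_lit 4) (nat_lit 518) (nat_lit 396) (nat_lit 286)) (XT.nd (nat_lit 78) (nat_lit 0) (nat_lit 0) (XT.lf (nat_lit 0)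 (nat_lit 509104851921) (nat_lit 152) (nat_lit 4555052203280) (nat_lit 0) (nat_lit 503710957173) (nat_lit 1) (nat_lit 5) (nat_lit 3) (nat_lit 4) (nat_lit 1) (nat_lit 4) (nat_lit 519) (nat_lit 396) (nat_lit 285)) (XT.lf (nat_lit 0) (nat_lit 574014775265) (nat_lit 152) (nat_lit 4868692615896) (nat_lit 0) (nat_lit 568620802603) (nat_lit 1) (nat_lit 5) (nat_lit 3) (nat_lit 4) (nat_lit 1) (nat_lit 4) (nat_lit 520) (nat_lit 396) (nat_lit 284))))) (XT.nd (nat_lit 234) (nat_lit 0) (nat_lit 0) (XT.nd (nat_lit 78) (nat_lit 0) (nat_lit 0) (XT.lf (nat_lit 0) (nat_lit 644116808136) (nat_lit 152) (nat_lit 5207425672953) (nat_lit 0) (nat_lit 638722763331) (nat_lit 1) (nat_lit 5) (nat_lit 3) (nat_lit 4) (nat_lit 1) (nat_lit 4) (nat_lit 521) (nat_lit 396) (nat_lit 283)) (XT.nd (nat_lit 78) (nat_lit 0) (nat_lit 0) (XT.lf (nat_lit 0) (nat_lit 719826369987) (nat_lit 152) (nat_lit 5573258681455) (nat_lit 0)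 (nat_lit 714432258383) (nat_lit 1) (nat_lit 5) (nat_lit 3) (nat_lit 4) (nat_lit 1) (nat_lit 4) (nat_lit 522) (nat_lit 396) (nat_lit 282)) (XT.lf (nat_lit 0) (nat_lit 801592110073) (nat_lit 152) (nat_lit 5968359540711) (nat_lit 0) (nat_lit 796197936619) (nat_lit 1) (nat_lit 5) (nat_lit 3) (nat_lit 4) (nat_lit 1) (nat_lit 4) (nat_lit 523) (nat_lit 396) (nat_lit 281)))) (XT.nd (nat_lit 78) (nat_lit 0) (nat_lit 0) (XT.lf (nat_lit 0) (nat_lit 889898566115) (nat_lit 152) (nat_lit 6395069589148) (nat_lit 0) (nat_lit 884504335391) (nat_lit 1) (nat_lit 5) (nat_lit 3) (nat_lit 4) (nat_lit 1) (nat_lit 4) (nat_lit 524) (nat_lit 396) (nat_lit 280)) (XT.nd (nat_lit 78) (nat_lit 0) (nat_lit 0) (XT.lf (nat_lit 0) (nat_lit 985269035628) (nat_lit 152) (nat_lit 6855917478904) (nat_lit 0) (nat_lit 979874751877) (nat_lit 1) (nat_lit 5) (nat_lit 3) (nat_lit 4) (nat_lit 1) (nat_lit 4) (nat_lit 525) (nat_lit 396)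 (nat_lit 279)) (XT.lf (nat_lit 0) (nat_lit 1088268676951) (nat_lit 152) (nat_lit 7353634160437) (nat_lit 0) (nat_lit 1082874344101) (nat_lit 1) (nat_lit 5) (nat_lit 3) (nat_lit 4) (nat_lit 1) (nat_lit 4) (nat_lit 526) (nat_lit 396) (nat_lit 278))))))))
noncomputable def xc84 : XT := (XT.nd (nat_lit 54522) (nat_lit 0) (nat_lit 1596) (XT.nd (nat_lit 53586) (nat_lit 0) (nat_lit 3420) (XT.nd (nat_lit 53118) (nat_lit 0) (nat_lit 5244) (XT.nd (nat_lit 156) (nat_lit 0) (nat_lit 0) (XT.nd (nat_lit 78) (nat_lit 0) (nat_lit 0) (XT.lf (nat_lit 0) (nat_lit 1199507858329) (nat_lit 152) (nat_lit 7891169065934) (nat_lit 0) (nat_lit 1194113480017) (nat_lit 1) (nat_lit 5) (nat_lit 3) (nat_lit 4) (nat_lit 1) (nat_lit 4) (nat_lit 527) (nat_lit 396) (nat_lit 277)) (XT.lf (nat_lit 0) (nat_lit 1319645774911) (nat_lit 152) (nat_lit 8471707587426) (nat_lit 0) (nat_lit 1314251354504) (nat_lit 1) (nat_lit 5) (nat_lit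 3) (nat_lit 4) (nat_lit 1) (nat_lit 4) (nat_lit 528) (nat_lit 396) (nat_lit 276))) (XT.nd (nat_lit 78) (nat_lit 0) (nat_lit 0) (XT.lf (nat_lit 0) (nat_lit 1449394355090) (nat_lit 152) (nat_lit 9098689953191) (nat_lit 0) (nat_lit 1443999895707) (nat_lit 1) (nat_lit 5) (nat_lit 3) (nat_lit 4) (nat_lit 1) (nat_lit 4) (nat_lit 529) (nat_lit 396) (nat_lit 275)) (XT.nd (nat_lit 52806) (nat_lit 0) (nat_lit 7068) (XT.lf (nat_lit 0) (nat_lit 1589522479343) (nat_lit 152) (nat_lit 9775831614284) (nat_lit 0) (nat_lit 1584127983871) (nat_lit 1) (nat_lit 5) (nat_lit 3) (nat_lit 4) (nat_lit 1) (nat_lit 4) (nat_lit 530) (nat_lit 396) (nat_lit 274)) (XT.lf (nat_lit 0) (nat_lit 1595257706) (nat_lit 228) (nat_lit 876894530) (nat_lit 228) (nat_lit 876894530) (nat_lit 94) (nat_lit 4) (nat_lit 97) (nat_lit 5) (nat_lit 97) (nat_lit 4) (nat_lit 406) (nat_lit 397) (nat_lit 397))))) (XT.nd (nat_lit 234) (nat_lit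 988) (nat_lit 0) (XT.nd (nat_lit 78) (nat_lit 456) (nat_lit 0) (XT.lf (nat_lit 0) (nat_lit 960395224) (nat_lit 304) (nat_lit 545843403) (nat_lit 380) (nat_lit 5290014702) (nat_lit 89) (nat_lit 5) (nat_lit 93) (nat_lit 5) (nat_lit 94) (nat_lit 4) (nat_lit 407) (nat_lit 397) (nat_lit 396)) (XT.nd (nat_lit 78) (nat_lit 456) (nat_lit 0) (XT.lf (nat_lit 0) (nat_lit 4775479850) (nat_lit 380) (nat_lit 1234646504) (nat_lit 0) (nat_lit 901192526) (nat_lit 89) (nat_lit 5) (nat_lit 94) (nat_lit 4) (nat_lit 89) (nat_lit 4) (nat_lit 408) (nat_lit 397) (nat_lit 395)) (XT.lf (nat_lit 0) (nat_lit 1052126453) (nat_lit 456) (nat_lit 3410529243) (nat_lit 76) (nat_lit 2583016323) (nat_lit 83) (nat_lit 5) (nat_lit 89) (nat_lit 5) (nat_lit 84) (nat_lit 4) (nat_lit 409) (nat_lit 397) (nat_lit 394)))) (XT.nd (nat_lit 78) (nat_lit 532) (nat_lit 0) (XT.lf (nat_lit 0) (nat_lit 1551010126) (nat_lit 456) (nat_lit 2654217938)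 (nat_lit 532) (nat_lit 2995187237) (nat_lit 77) (nat_lit 5) (nat_lit 83) (nat_lit 5) (nat_lit 84) (nat_lit 4) (nat_lit 410) (nat_lit 397) (nat_lit 393)) (XT.nd (nat_lit 78) (nat_lit 456) (nat_lit 0) (XT.lf (nat_lit 0) (nat_lit 86393412) (nat_lit 532) (nat_lit 518293538) (nat_lit 76) (nat_lit 6774044741) (nat_lit 76) (nat_lit 5) (nat_lit 83) (nat_lit 5) (nat_lit 77) (nat_lit 5) (nat_lit 411) (nat_lit 397) (nat_lit 392)) (XT.lf (nat_lit 0) (nat_lit 3193090905) (nat_lit 532) (nat_lit 2657983036) (nat_lit 76) (nat_lit 1718877623) (nat_lit 70) (nat_lit 5) (nat_lit 77) (nat_lit 5) (nat_lit 71) (nat_lit 4) (nat_lit 412) (nat_lit 397) (nat_lit 391)))))) (XT.nd (nat_lit 468) (nat_lit 684) (nat_lit 0) (XT.nd (nat_lit 234) (nat_lit 608) (nat_lit 0) (XT.nd (nat_lit 78) (nat_lit 304) (nat_lit 0) (XT.lf (nat_lit 0) (nat_lit 2915296412) (nat_lit 228) (nat_lit 3521572103) (nat_lit 304) (nat_lit 1348604564)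 (nat_lit 67) (nat_lit 5) (nat_lit 70) (nat_lit 5) (nat_lit 71) (nat_lit 4) (nat_lit 413) (nat_lit 397) (nat_lit 390)) (XT.nd (nat_lit 78) (nat_lit 0) (nat_lit 0) (XT.lf (nat_lit 0) (nat_lit 815847137) (nat_lit 228) (nat_lit 896912194) (nat_lit 304) (nat_lit 6310895189) (nat_lit 63) (nat_lit 5) (nat_lit 66) (nat_lit 5) (nat_lit 67) (nat_lit 5) (nat_lit 414) (nat_lit 397) (nat_lit 389)) (XT.lf (nat_lit 0) (nat_lit 4930579635) (nat_lit 304) (nat_lit 1380086017) (nat_lit 76) (nat_lit 1968739509) (nat_lit 63) (nat_lit 5) (nat_lit 67) (nat_lit 5) (nat_lit 64) (nat_lit 4) (nat_lit 415) (nat_lit 397) (nat_lit 388)))) (XT.nd (nat_lit 78) (nat_lit 456) (nat_lit 0) (XT.lf (nat_lit 0) (nat_lit 4896145758) (nat_lit 152) (nat_lit 3466642353) (nat_lit 228) (nat_lit 196335122) (nat_lit 61) (nat_lit 5) (nat_lit 63) (nat_lit 5) (nat_lit 64) (nat_lit 4) (nat_lit 416) (nat_lit 397) (nat_lit 387)) (XT.nd (nat_lit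 78) (nat_lit 152) (nat_lit 0) (XT.lf (nat_lit 0) (nat_lit 2709305264) (nat_lit 228) (nat_lit 261737099) (nat_lit 304) (nat_lit 5890204090) (nat_lit 57) (nat_lit 5) (nat_lit 60) (nat_lit 5) (nat_lit 61) (nat_lit 5) (nat_lit 417) (nat_lit 397) (nat_lit 386)) (XT.lf (nat_lit 0) (nat_lit 301535841) (nat_lit 152) (nat_lit 6092091751) (nat_lit 228) (nat_lit 2792561102) (nat_lit 55) (nat_lit 5) (nat_lit 57) (nat_lit 5) (nat_lit 58) (nat_lit 4) (nat_lit 418) (nat_lit 397) (nat_lit 385))))) (XT.nd (nat_lit 234) (nat_lit 304) (nat_lit 0) (XT.nd (nat_lit 78) (nat_lit 304) (nat_lit 0) (XT.lf (nat_lit 0) (nat_lit 532773207) (nat_lit 228) (nat_lit 2178821789) (nat_lit 76) (nat_lit 6823908342) (nat_lit 54) (nat_lit 5) (nat_lit 57) (nat_lit 5) (nat_lit 55) (nat_lit 5) (nat_lit 419) (nat_lit 397) (nat_lit 384)) (XT.nd (nat_lit 78) (nat_lit 152) (nat_lit 0) (XT.lf (nat_lit 0) (nat_lit 3960428898) (nat_lit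 228) (nat_lit 4927628718) (nat_lit 76) (nat_lit 1019970149) (nat_lit 52) (nat_lit 5) (nat_lit 55) (nat_lit 5) (nat_lit 53) (nat_lit 4) (nat_lit 420) (nat_lit 397) (nat_lit 383)) (XT.lf (nat_lit 0) (nat_lit 2337898629) (nat_lit 152) (nat_lit 5357597867) (nat_lit 228) (nat_lit 2612239263) (nat_lit 50) (nat_lit 5) (nat_lit 52) (nat_lit 5) (nat_lit 53) (nat_lit 4) (nat_lit 421) (nat_lit 397) (nat_lit 382)))) (XT.nd (nat_lit 78) (nat_lit 228) (nat_lit 0) (XT.lf (nat_lit 0) (nat_lit 926060704) (nat_lit 228) (nat_lit 530846464) (nat_lit 76) (nat_lit 9281790140) (nat_lit 49) (nat_lit 5) (nat_lit 52) (nat_lit 5) (nat_lit 50) (nat_lit 5) (nat_lit 422) (nat_lit 397) (nat_lit 381)) (XT.nd (nat_lit 78) (nat_lit 76) (nat_lit 0) (XT.lf (nat_lit 0) (nat_lit 4718461338) (nat_lit 228) (nat_lit 3673057079) (nat_lit 76) (nat_lit 2798245922) (nat_lit 47) (nat_lit 5) (nat_lit 50) (nat_lit 5) (nat_lit 48) (nat_lit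 4) (nat_lit 423) (nat_lit 397) (nat_lit 380)) (XT.lf (nat_lit 0) (nat_lit 4525256476) (nat_lit 76) (nat_lit 4312597807) (nat_lit 152) (nat_lit 2837202043) (nat_lit 46) (nat_lit 5) (nat_lit 47) (nat_lit 5) (nat_lit 48) (nat_lit 4) (nat_lit 424) (nat_lit 397) (nat_lit 379))))))) (XT.nd (nat_lit 858) (nat_lit 760) (nat_lit 0) (XT.nd (nat_lit 390) (nat_lit 532) (nat_lit 0) (XT.nd (nat_lit 156) (nat_lit 304) (nat_lit 0) (XT.nd (nat_lit 78) (nat_lit 0) (nat_lit 0) (XT.lf (nat_lit 0) (nat_lit 1032806638) (nat_lit 228) (nat_lit 10999998336) (nat_lit 76) (nat_lit 164330802) (nat_lit 43) (nat_lit 5) (nat_lit 46) (nat_lit 5) (nat_lit 44) (nat_lit 4) (nat_lit 425) (nat_lit 397) (nat_lit 378)) (XT.lf (nat_lit 0) (nat_lit 5237847838) (nat_lit 228) (nat_lit 2547249441) (nat_lit 76) (nat_lit 4955713587) (nat_lit 43) (nat_lit 5) (nat_lit 46) (nat_lit 5) (nat_lit 44) (nat_lit 4) (nat_lit 426) (nat_lit 397)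 (nat_lit 377))) (XT.nd (nat_lit 78) (nat_lit 228) (nat_lit 0) (XT.lf (nat_lit 0) (nat_lit 6704547445) (nat_lit 76) (nat_lit 3112038568) (nat_lit 152) (nat_lit 3508430752) (nat_lit 42) (nat_lit 5) (nat_lit 43) (nat_lit 5) (nat_lit 44) (nat_lit 4) (nat_lit 427) (nat_lit 397) (nat_lit 376)) (XT.nd (nat_lit 78) (nat_lit 0) (nat_lit 0) (XT.lf (nat_lit 0) (nat_lit 829635880) (nat_lit 228) (nat_lit 11205638317) (nat_lit 76) (nat_lit 1914010293) (nat_lit 39) (nat_lit 5) (nat_lit 42) (nat_lit 5) (nat_lit 40) (nat_lit 4) (nat_lit 428) (nat_lit 397) (nat_lit 375)) (XT.lf (nat_lit 0) (nat_lit 5470812267) (nat_lit 228) (nat_lit 1767896749) (nat_lit 76) (nat_lit 7365861618) (nat_lit 39) (nat_lit 5) (nat_lit 42) (nat_lit 5) (nat_lit 40) (nat_lit 4) (nat_lit 429) (nat_lit 397) (nat_lit 374))))) (XT.nd (nat_lit 234) (nat_lit 228) (nat_lit 0) (XT.nd (nat_lit 78) (nat_lit 228) (nat_lit 0) (XT.lf (nat_lit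 0) (nat_lit 8658336156) (nat_lit 76) (nat_lit 1921199782) (nat_lit 152) (nat_lit 4725058397) (nat_lit 38) (nat_lit 5) (nat_lit 39) (nat_lit 5) (nat_lit 40) (nat_lit 4) (nat_lit 430) (nat_lit 397) (nat_lit 373)) (XT.nd (nat_lit 78) (nat_lit 0) (nat_lit 0) (XT.lf (nat_lit 0) (nat_lit 161654397) (nat_lit 228) (nat_lit 12193576080) (nat_lit 76) (nat_lit 3695161565) (nat_lit 35) (nat_lit 5) (nat_lit 38) (nat_lit 5) (nat_lit 36) (nat_lit 4) (nat_lit 431) (nat_lit 397) (nat_lit 372)) (XT.lf (nat_lit 0) (nat_lit 5310604320) (nat_lit 228) (nat_lit 1642457093) (nat_lit 76) (nat_lit 9882859614) (nat_lit 35) (nat_lit 5) (nat_lit 38) (nat_lit 5) (nat_lit 36) (nat_lit 4) (nat_lit 432) (nat_lit 397) (nat_lit 371)))) (XT.nd (nat_lit 78) (nat_lit 152) (nat_lit 0) (XT.lf (nat_lit 0) (nat_lit 10069519855) (nat_lit 76) (nat_lit 942487580) (nat_lit 152) (nat_lit 6661052886) (nat_lit 34) (nat_lit 5) (nat_lit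 35) (nat_lit 5) (nat_lit 36) (nat_lit 4) (nat_lit 433) (nat_lit 397) (nat_lit 370)) (XT.nd (nat_lit 78) (nat_lit 76) (nat_lit 0) (XT.lf (nat_lit 0) (nat_lit 4121761196) (nat_lit 76) (nat_lit 13225913676) (nat_lit 76) (nat_lit 1215253875) (nat_lit 33) (nat_lit 4) (nat_lit 34) (nat_lit 5) (nat_lit 34) (nat_lit 4) (nat_lit 434) (nat_lit 397) (nat_lit 369)) (XT.lf (nat_lit 0) (nat_lit 4570553224) (nat_lit 152) (nat_lit 2620556017) (nat_lit 76) (nat_lit 12312886967) (nat_lit 32) (nat_lit 5) (nat_lit 34) (nat_lit 5) (nat_lit 33) (nat_lit 4) (nat_lit 435) (nat_lit 397) (nat_lit 368)))))) (XT.nd (nat_lit 468) (nat_lit 380) (nat_lit 0) (XT.nd (nat_lit 234) (nat_lit 152) (nat_lit 0) (XT.nd (nat_lit 78) (nat_lit 152) (nat_lit 0) (XT.lf (nat_lit 0) (nat_lit 10462901381) (nat_lit 76) (nat_lit 449701752) (nat_lit 152) (nat_lit 9592506110) (nat_lit 31) (nat_lit 5) (nat_lit 32) (nat_lit 5) (nat_lit 33)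 (nat_lit 4) (nat_lit 436) (nat_lit 397) (nat_lit 367)) (XT.nd (nat_lit 78) (nat_lit 76) (nat_lit 0) (XT.lf (nat_lit 0) (nat_lit 2968356829) (nat_lit 76) (nat_lit 15011080051) (nat_lit 76) (nat_lit 3589488316) (nat_lit 30) (nat_lit 4) (nat_lit 31) (nat_lit 5) (nat_lit 31) (nat_lit 4) (nat_lit 437) (nat_lit 397) (nat_lit 366)) (XT.lf (nat_lit 0) (nat_lit 2950993580) (nat_lit 152) (nat_lit 5369264060) (nat_lit 76) (nat_lit 14375869098) (nat_lit 29) (nat_lit 5) (nat_lit 31) (nat_lit 5) (nat_lit 30) (nat_lit 4) (nat_lit 438) (nat_lit 397) (nat_lit 365)))) (XT.nd (nat_lit 78) (nat_lit 76) (nat_lit 0) (XT.lf (nat_lit 0) (nat_lit 9120741863) (nat_lit 76) (nat_lit 834767995) (nat_lit 152) (nat_lit 13939764077) (nat_lit 28) (nat_lit 5) (nat_lit 29) (nat_lit 5) (nat_lit 30) (nat_lit 4) (nat_lit 439) (nat_lit 397) (nat_lit 364)) (XT.nd (nat_lit 78) (nat_lit 76) (nat_lit 0) (XT.lf (nat_lit 0) (nat_lit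 17761337115) (nat_lit 152) (nat_lit 444913738) (nat_lit 0) (nat_lit 6964831567) (nat_lit 28) (nat_lit 5) (nat_lit 30) (nat_lit 4) (nat_lit 28) (nat_lit 4) (nat_lit 440) (nat_lit 397) (nat_lit 363)) (XT.lf (nat_lit 0) (nat_lit 15640454474) (nat_lit 76) (nat_lit 10871214677) (nat_lit 76) (nat_lit 11688424) (nat_lit 27) (nat_lit 4) (nat_lit 28) (nat_lit 5) (nat_lit 28) (nat_lit 4) (nat_lit 441) (nat_lit 397) (nat_lit 362))))) (XT.nd (nat_lit 234) (nat_lit 152) (nat_lit 0) (XT.nd (nat_lit 78) (nat_lit 76) (nat_lit 0) (XT.lf (nat_lit 0) (nat_lit 4959418375) (nat_lit 76) (nat_lit 2673897553) (nat_lit 152) (nat_lit 20330816637) (nat_lit 25) (nat_lit 5) (nat_lit 26) (nat_lit 5) (nat_lit 27) (nat_lit 4) (nat_lit 442) (nat_lit 397) (nat_lit 361)) (XT.nd (nat_lit 78) (nat_lit 76) (nat_lit 0) (XT.lf (nat_lit 0) (nat_lit 16266086179) (nat_lit 152) (nat_lit 7117008041) (nat_lit 0) (nat_lit 6106911316)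 (nat_lit 25) (nat_lit 5) (nat_lit 27) (nat_lit 4) (nat_lit 25) (nat_lit 4) (nat_lit 443) (nat_lit 397) (nat_lit 360)) (XT.lf (nat_lit 0) (nat_lit 10349187048) (nat_lit 76) (nat_lit 15487252534) (nat_lit 76) (nat_lit 5281755572) (nat_lit 24) (nat_lit 4) (nat_lit 25) (nat_lit 5) (nat_lit 25) (nat_lit 4) (nat_lit 444) (nat_lit 397) (nat_lit 359)))) (XT.nd (nat_lit 78) (nat_lit 76) (nat_lit 0) (XT.lf (nat_lit 0) (nat_lit 3259352380) (nat_lit 152) (nat_lit 3468934842) (nat_lit 76) (nat_lit 26131739680) (nat_lit 23) (nat_lit 5) (nat_lit 25) (nat_lit 5) (nat_lit 24) (nat_lit 4) (nat_lit 445) (nat_lit 397) (nat_lit 358)) (XT.nd (nat_lit 78) (nat_lit 0) (nat_lit 0) (XT.lf (nat_lit 0) (nat_lit 12588409687) (nat_lit 152) (nat_lit 19048232619) (nat_lit 0) (nat_lit 3062389755) (nat_lit 22) (nat_lit 5) (nat_lit 24) (nat_lit 4) (nat_lit 22) (nat_lit 4) (nat_lit 446) (nat_lit 397) (nat_lit 357)) (XT.lf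 (nat_lit 0) (nat_lit 22870236771) (nat_lit 152) (nat_lit 488239278) (nat_lit 0) (nat_lit 13310168713) (nat_lit 22) (nat_lit 5) (nat_lit 24) (nat_lit 4) (nat_lit 22) (nat_lit 4) (nat_lit 447) (nat_lit 397) (nat_lit 356))))))))
noncomputable def xc85 : XT := (XT.nd (nat_lit 1794) (nat_lit 304) (nat_lit 0) (XT.nd (nat_lit 858) (nat_lit 456) (nat_lit 0) (XT.nd (nat_lit 390) (nat_lit 380) (nat_lit 0) (XT.nd (nat_lit 156) (nat_lit 76) (nat_lit 0) (XT.nd (nat_lit 78) (nat_lit 152) (nat_lit 0) (XT.lf (nat_lit 0) (nat_lit 20458840361) (nat_lit 76) (nat_lit 13947040544) (nat_lit 76) (nat_lit 4355446444) (nat_lit 21) (nat_lit 4) (nat_lit 22) (nat_lit 5) (nat_lit 22) (nat_lit 4) (nat_lit 448) (nat_lit 397) (nat_lit 355)) (XT.lf (nat_lit 0) (nat_lit 1923154876) (nat_lit 76) (nat_lit 3626816160) (nat_lit 152) (nat_lit 35460269263) (nat_lit 19) (nat_lit 5) (nat_lit 20) (nat_lit 5) (nat_lit 21) (nat_lit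 4) (nat_lit 449) (nat_lit 397) (nat_lit 354))) (XT.nd (nat_lit 78) (nat_lit 76) (nat_lit 0) (XT.lf (nat_lit 0) (nat_lit 16646351989) (nat_lit 152) (nat_lit 19019767597) (nat_lit 0) (nat_lit 7713191452) (nat_lit 19) (nat_lit 5) (nat_lit 21) (nat_lit 4) (nat_lit 19) (nat_lit 4) (nat_lit 450) (nat_lit 397) (nat_lit 353)) (XT.nd (nat_lit 78) (nat_lit 0) (nat_lit 0) (XT.lf (nat_lit 0) (nat_lit 2575044354) (nat_lit 76) (nat_lit 26155591344) (nat_lit 76) (nat_lit 17199258225) (nat_lit 18) (nat_lit 4) (nat_lit 19) (nat_lit 5) (nat_lit 19) (nat_lit 4) (nat_lit 451) (nat_lit 397) (nat_lit 352)) (XT.lf (nat_lit 0) (nat_lit 26869458031) (nat_lit 76) (nat_lit 15377804171) (nat_lit 76) (nat_lit 6400014958) (nat_lit 18) (nat_lit 4) (nat_lit 19) (nat_lit 5) (nat_lit 19) (nat_lit 4) (nat_lit 452) (nat_lit 397) (nat_lit 351))))) (XT.nd (nat_lit 234) (nat_lit 228) (nat_lit 0) (XT.nd (nat_lit 78) (nat_lit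 0) (nat_lit 0) (XT.lf (nat_lit 0) (nat_lit 1362706214) (nat_lit 76) (nat_lit 3618237142) (nat_lit 152) (nat_lit 46592497993) (nat_lit 16) (nat_lit 5) (nat_lit 17) (nat_lit 5) (nat_lit 18) (nat_lit 4) (nat_lit 453) (nat_lit 397) (nat_lit 350)) (XT.nd (nat_lit 78) (nat_lit 0) (nat_lit 0) (XT.lf (nat_lit 0) (nat_lit 17704386712) (nat_lit 152) (nat_lit 27597601327) (nat_lit 0) (nat_lit 9356191240) (nat_lit 16) (nat_lit 5) (nat_lit 18) (nat_lit 4) (nat_lit 16) (nat_lit 4) (nat_lit 454) (nat_lit 397) (nat_lit 349)) (XT.lf (nat_lit 0) (nat_lit 31491945499) (nat_lit 152) (nat_lit 3366073665) (nat_lit 0) (nat_lit 23127979157) (nat_lit 16) (nat_lit 5) (nat_lit 18) (nat_lit 4) (nat_lit 16) (nat_lit 4) (nat_lit 455) (nat_lit 397) (nat_lit 348)))) (XT.nd (nat_lit 78) (nat_lit 152) (nat_lit 0) (XT.lf (nat_lit 0) (nat_lit 23910564032) (nat_lit 76) (nat_lit 23002790685) (nat_lit 76) (nat_lit 14624221685)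 (nat_lit 15) (nat_lit 4) (nat_lit 16) (nat_lit 5) (nat_lit 16) (nat_lit 4) (nat_lit 456) (nat_lit 397) (nat_lit 347)) (XT.nd (nat_lit 78) (nat_lit 152) (nat_lit 0) (XT.lf (nat_lit 0) (nat_lit 53473515120) (nat_lit 76) (nat_lit 10143968078) (nat_lit 76) (nat_lit 1751878100) (nat_lit 15) (nat_lit 4) (nat_lit 16) (nat_lit 5) (nat_lit 16) (nat_lit 4) (nat_lit 457) (nat_lit 397) (nat_lit 346)) (XT.lf (nat_lit 0) (nat_lit 12001264821) (nat_lit 152) (nat_lit 53227123574) (nat_lit 0) (nat_lit 4219219077) (nat_lit 13) (nat_lit 5) (nat_lit 15) (nat_lit 4) (nat_lit 13) (nat_lit 4) (nat_lit 458) (nat_lit 397) (nat_lit 345)))))) (XT.nd (nat_lit 468) (nat_lit 228) (nat_lit 0) (XT.nd (nat_lit 234) (nat_lit 152) (nat_lit 0) (XT.nd (nat_lit 78) (nat_lit 76) (nat_lit 0) (XT.lf (nat_lit 0) (nat_lit 27316413675) (nat_lit 152) (nat_lit 26963913609) (nat_lit 0) (nat_lit 19523634542) (nat_lit 13) (nat_lit 5)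 (nat_lit 15) (nat_lit 4) (nat_lit 13) (nat_lit 4) (nat_lit 459) (nat_lit 397) (nat_lit 344)) (XT.nd (nat_lit 78) (nat_lit 0) (nat_lit 0) (XT.lf (nat_lit 0) (nat_lit 1393158389) (nat_lit 76) (nat_lit 42459362346) (nat_lit 76) (nat_lit 34656644890) (nat_lit 12) (nat_lit 4) (nat_lit 13) (nat_lit 5) (nat_lit 13) (nat_lit 4) (nat_lit 460) (nat_lit 397) (nat_lit 343)) (XT.lf (nat_lit 0) (nat_lit 33477318105) (nat_lit 76) (nat_lit 28934674920) (nat_lit 76) (nat_lit 21122755313) (nat_lit 12) (nat_lit 4) (nat_lit 13) (nat_lit 5) (nat_lit 13) (nat_lit 4) (nat_lit 461) (nat_lit 397) (nat_lit 342)))) (XT.nd (nat_lit 78) (nat_lit 152) (nat_lit 0) (XT.lf (nat_lit 0) (nat_lit 68058821985) (nat_lit 76) (nat_lit 14363359892) (nat_lit 76) (nat_lit 6542919775) (nat_lit 12) (nat_lit 4) (nat_lit 13) (nat_lit 5) (nat_lit 13) (nat_lit 4) (nat_lit 462) (nat_lit 397) (nat_lit 341)) (XT.nd (nat_lit 78) (nat_lit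 0) (nat_lit 0) (XT.lf (nat_lit 0) (nat_lit 9015818620) (nat_lit 152) (nat_lit 84007160429) (nat_lit 0) (nat_lit 1767365399) (nat_lit 10) (nat_lit 5) (nat_lit 12) (nat_lit 4) (nat_lit 10) (nat_lit 4) (nat_lit 463) (nat_lit 397) (nat_lit 340)) (XT.lf (nat_lit 0) (nat_lit 26393026489) (nat_lit 152) (nat_lit 55462994993) (nat_lit 0) (nat_lit 19137809412) (nat_lit 10) (nat_lit 5) (nat_lit 12) (nat_lit 4) (nat_lit 10) (nat_lit 4) (nat_lit 464) (nat_lit 397) (nat_lit 339))))) (XT.nd (nat_lit 234) (nat_lit 152) (nat_lit 0) (XT.nd (nat_lit 78) (nat_lit 76) (nat_lit 0) (XT.lf (nat_lit 0) (nat_lit 45130523822) (nat_lit 152) (nat_lit 24696419997) (nat_lit 0) (nat_lit 37869043916) (nat_lit 10) (nat_lit 5) (nat_lit 12) (nat_lit 4) (nat_lit 10) (nat_lit 4) (nat_lit 465) (nat_lit 397) (nat_lit 338)) (XT.nd (nat_lit 78) (nat_lit 0) (nat_lit 0) (XT.lf (nat_lit 0) (nat_lit 8921157429) (nat_lit 76) (nat_lit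 56632744262) (nat_lit 76) (nat_lit 49365465440) (nat_lit 9) (nat_lit 4) (nat_lit 10) (nat_lit 5) (nat_lit 10) (nat_lit 4) (nat_lit 466) (nat_lit 397) (nat_lit 337)) (XT.lf (nat_lit 0) (nat_lit 46577485153) (nat_lit 76) (nat_lit 41681958422) (nat_lit 76) (nat_lit 34409310232) (nat_lit 9) (nat_lit 4) (nat_lit 10) (nat_lit 5) (nat_lit 10) (nat_lit 4) (nat_lit 467) (nat_lit 397) (nat_lit 336)))) (XT.nd (nat_lit 78) (nat_lit 152) (nat_lit 0) (XT.lf (nat_lit 0) (nat_lit 87195242073) (nat_lit 76) (nat_lit 25561232938) (nat_lit 76) (nat_lit 18283613112) (nat_lit 9) (nat_lit 4) (nat_lit 10) (nat_lit 5) (nat_lit 10) (nat_lit 4) (nat_lit 468) (nat_lit 397) (nat_lit 335)) (XT.nd (nat_lit 78) (nat_lit 152) (nat_lit 0) (XT.lf (nat_lit 0) (nat_lit 131015126007) (nat_lit 76) (nat_lit 8175037585) (nat_lit 76) (nat_lit 892814393) (nat_lit 9) (nat_lit 4) (nat_lit 10) (nat_lit 5) (nat_lit 10) (nat_lit 4) (nat_lit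 469) (nat_lit 397) (nat_lit 334)) (XT.lf (nat_lit 0) (nat_lit 17965698641) (nat_lit 152) (nat_lit 120552521575) (nat_lit 0) (nat_lit 11218952744) (nat_lit 7) (nat_lit 5) (nat_lit 9) (nat_lit 4) (nat_lit 7) (nat_lit 4) (nat_lit 470) (nat_lit 397) (nat_lit 333))))))) (XT.nd (nat_lit 936) (nat_lit 76) (nat_lit 0) (XT.nd (nat_lit 468) (nat_lit 152) (nat_lit 0) (XT.nd (nat_lit 234) (nat_lit 76) (nat_lit 0) (XT.nd (nat_lit 78) (nat_lit 0) (nat_lit 0) (XT.lf (nat_lit 0) (nat_lit 38729450083) (nat_lit 152) (nat_lit 89417765258) (nat_lit 0) (nat_lit 31979049885) (nat_lit 7) (nat_lit 5) (nat_lit 9) (nat_lit 4) (nat_lit 7) (nat_lit 4) (nat_lit 471) (nat_lit 397) (nat_lit 332)) (XT.nd (nat_lit 78) (nat_lit 0) (nat_lit 0) (XT.lf (nat_lit 0) (nat_lit 61134008103) (nat_lit 152) (nat_lit 55833876233) (nat_lit 0) (nat_lit 54380224293) (nat_lit 7) (nat_lit 5) (nat_lit 9) (nat_lit 4) (nat_lit 7) (nat_lit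 4) (nat_lit 472) (nat_lit 397) (nat_lit 331)) (XT.lf (nat_lit 0) (nat_lit 85312140453) (nat_lit 152) (nat_lit 19601838861) (nat_lit 0) (nat_lit 78555223669) (nat_lit 7) (nat_lit 5) (nat_lit 9) (nat_lit 4) (nat_lit 7) (nat_lit 4) (nat_lit 473) (nat_lit 397) (nat_lit 330)))) (XT.nd (nat_lit 78) (nat_lit 0) (nat_lit 0) (XT.lf (nat_lit 0) (nat_lit 20519524971) (nat_lit 76) (nat_lit 91381095051) (nat_lit 76) (nat_lit 84621277365) (nat_lit 6) (nat_lit 4) (nat_lit 7) (nat_lit 5) (nat_lit 7) (nat_lit 4) (nat_lit 474) (nat_lit 397) (nat_lit 329)) (XT.nd (nat_lit 78) (nat_lit 0) (nat_lit 0) (XT.lf (nat_lit 0) (nat_lit 64930569539) (nat_lit 76) (nat_lit 76204610770) (nat_lit 76) (nat_lit 69442107064) (nat_lit 6) (nat_lit 4) (nat_lit 7) (nat_lit 5) (nat_lit 7) (nat_lit 4) (nat_lit 475) (nat_lit 397) (nat_lit 328)) (XT.lf (nat_lit 0) (nat_lit 112862273305) (nat_lit 76) (nat_lit 59830540761) (nat_lit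 76) (nat_lit 53065550000) (nat_lit 6) (nat_lit 4) (nat_lit 7) (nat_lit 5) (nat_lit 7) (nat_lit 4) (nat_lit 476) (nat_lit 397) (nat_lit 327))))) (XT.nd (nat_lit 234) (nat_lit 0) (nat_lit 0) (XT.nd (nat_lit 78) (nat_lit 152) (nat_lit 0) (XT.lf (nat_lit 0) (nat_lit 164598675996) (nat_lit 76) (nat_lit 42161853498) (nat_lit 76) (nat_lit 35394559908) (nat_lit 6) (nat_lit 4) (nat_lit 7) (nat_lit 5) (nat_lit 7) (nat_lit 4) (nat_lit 477) (nat_lit 397) (nat_lit 326)) (XT.nd (nat_lit 78) (nat_lit 152) (nat_lit 0) (XT.lf (nat_lit 0) (nat_lit 220446363701) (nat_lit 76) (nat_lit 23093845650) (nat_lit 76) (nat_lit 16324419810) (nat_lit 6) (nat_lit 4) (nat_lit 7) (nat_lit 5) (nat_lit 7) (nat_lit 4) (nat_lit 478) (nat_lit 397) (nat_lit 325)) (XT.lf (nat_lit 0) (nat_lit 1728417265) (nat_lit 76) (nat_lit 2358033412) (nat_lit 152) (nat_lit 274893960443) (nat_lit 4) (nat_lit 5) (nat_lit 5) (nat_lit 5) (nat_lit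 6) (nat_lit 4) (nat_lit 479) (nat_lit 397) (nat_lit 324)))) (XT.nd (nat_lit 78) (nat_lit 0) (nat_lit 0) (XT.lf (nat_lit 0) (nat_lit 26823124249) (nat_lit 152) (nat_lit 252090803909) (nat_lit 0) (nat_lit 20551616652) (nat_lit 4) (nat_lit 5) (nat_lit 6) (nat_lit 4) (nat_lit 4) (nat_lit 4) (nat_lit 480) (nat_lit 397) (nat_lit 323)) (XT.nd (nat_lit 78) (nat_lit 0) (nat_lit 0) (XT.lf (nat_lit 0) (nat_lit 51428160091) (nat_lit 152) (nat_lit 225002289734) (nat_lit 0) (nat_lit 45155085226) (nat_lit 4) (nat_lit 5) (nat_lit 6) (nat_lit 4) (nat_lit 4) (nat_lit 4) (nat_lit 481) (nat_lit 397) (nat_lit 322)) (XT.lf (nat_lit 0) (nat_lit 77990655061) (nat_lit 152) (nat_lit 195769216041) (nat_lit 0) (nat_lit 71716129024) (nat_lit 4) (nat_lit 5) (nat_lit 6) (nat_lit 4) (nat_lit 4) (nat_lit 4) (nat_lit 482) (nat_lit 397) (nat_lit 321)))))) (XT.nd (nat_lit 468) (nat_lit 0) (nat_lit 0) (XT.nd (nat_lit 234)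 (nat_lit 76) (nat_lit 0) (XT.nd (nat_lit 78) (nat_lit 0) (nat_lit 0) (XT.lf (nat_lit 0) (nat_lit 106668016539) (nat_lit 152) (nat_lit 164218349802) (nat_lit 0) (nat_lit 100392146823) (nat_lit 4) (nat_lit 5) (nat_lit 6) (nat_lit 4) (nat_lit 4) (nat_lit 4) (nat_lit 483) (nat_lit 397) (nat_lit 320)) (XT.nd (nat_lit 78) (nat_lit 0) (nat_lit 0) (XT.lf (nat_lit 0) (nat_lit 137630184443) (nat_lit 152) (nat_lit 130162722920) (nat_lit 0) (nat_lit 131353070580) (nat_lit 4) (nat_lit 5) (nat_lit 6) (nat_lit 4) (nat_lit 4) (nat_lit 4) (nat_lit 484) (nat_lit 397) (nat_lit 319)) (XT.lf (nat_lit 0) (nat_lit 171060638288) (nat_lit 152) (nat_lit 93400524273) (nat_lit 0) (nat_lit 164782372437) (nat_lit 4) (nat_lit 5) (nat_lit 6) (nat_lit 4) (nat_lit 4) (nat_lit 4) (nat_lit 485) (nat_lit 397) (nat_lit 318)))) (XT.nd (nat_lit 78) (nat_lit 76) (nat_lit 0) (XT.lf (nat_lit 0) (nat_lit 207157484466) (nat_lit 152)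 (nat_lit 53713903796) (nat_lit 0) (nat_lit 200878151959) (nat_lit 4) (nat_lit 5) (nat_lit 6) (nat_lit 4) (nat_lit 4) (nat_lit 4) (nat_lit 486) (nat_lit 397) (nat_lit 317)) (XT.nd (nat_lit 78) (nat_lit 76) (nat_lit 0) (XT.lf (nat_lit 0) (nat_lit 246134630214) (nat_lit 152) (nat_lit 10867681514) (nat_lit 0) (nat_lit 239854310063) (nat_lit 4) (nat_lit 5) (nat_lit 6) (nat_lit 4) (nat_lit 4) (nat_lit 4) (nat_lit 487) (nat_lit 397) (nat_lit 316)) (XT.lf (nat_lit 0) (nat_lit 37255728539) (nat_lit 76) (nat_lit 251863323839) (nat_lit 76) (nat_lit 245582089202) (nat_lit 3) (nat_lit 4) (nat_lit 4) (nat_lit 5) (nat_lit 4) (nat_lit 4) (nat_lit 488) (nat_lit 397) (nat_lit 315))))) (XT.nd (nat_lit 234) (nat_lit 0) (nat_lit 0) (XT.nd (nat_lit 78) (nat_lit 0) (nat_lit 0) (XT.lf (nat_lit 0) (nat_lit 89833232938) (nat_lit 76) (nat_lit 245999418795) (nat_lit 76) (nat_lit 239717337413) (nat_lit 3) (nat_lit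 4) (nat_lit 4) (nat_lit 5) (nat_lit 4) (nat_lit 4) (nat_lit 489) (nat_lit 397) (nat_lit 314)) (XT.nd (nat_lit 78) (nat_lit 0) (nat_lit 0) (XT.lf (nat_lit 0) (nat_lit 146604129229) (nat_lit 76) (nat_lit 239672989204) (nat_lit 76) (nat_lit 233390123798) (nat_lit 3) (nat_lit 4) (nat_lit 4) (nat_lit 5) (nat_lit 4) (nat_lit 4) (nat_lit 490) (nat_lit 397) (nat_lit 313)) (XT.lf (nat_lit 0) (nat_lit 207904837538) (nat_lit 76) (nat_lit 232846545110) (nat_lit 76) (nat_lit 226562953757) (nat_lit 3) (nat_lit 4) (nat_lit 4) (nat_lit 5) (nat_lit 4) (nat_lit 4) (nat_lit 491) (nat_lit 397) (nat_lit 312)))) (XT.nd (nat_lit 78) (nat_lit 0) (nat_lit 0) (XT.lf (nat_lit 0) (nat_lit 274098621322) (nat_lit 76) (nat_lit 225479633513) (nat_lit 76) (nat_lit 219195369986) (nat_lit 3) (nat_lit 4) (nat_lit 4) (nat_lit 5) (nat_lit 4) (nat_lit 4) (nat_lit 492) (nat_lit 397) (nat_lit 311)) (XT.nd (nat_lit 78) (nat_lit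 0) (nat_lit 0) (XT.lf (nat_lit 0) (nat_lit 345577740040) (nat_lit 76) (nat_lit 217528598640) (nat_lit 76) (nat_lit 211243712729) (nat_lit 3) (nat_lit 4) (nat_lit 4) (nat_lit 5) (nat_lit 4) (nat_lit 4) (nat_lit 493) (nat_lit 397) (nat_lit 310)) (XT.lf (nat_lit 0) (nat_lit 422765773656) (nat_lit 76) (nat_lit 208946323247) (nat_lit 76) (nat_lit 202660861056) (nat_lit 3) (nat_lit 4) (nat_lit 4) (nat_lit 5) (nat_lit 4) (nat_lit 4) (nat_lit 494) (nat_lit 397) (nat_lit 309))))))))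
noncomputable def xc86 : XT := (XT.nd (nat_lit 1794) (nat_lit 0) (nat_lit 0) (XT.nd (nat_lit 858) (nat_lit 152) (nat_lit 0) (XT.nd (nat_lit 390) (nat_lit 0) (nat_lit 0) (XT.nd (nat_lit 156) (nat_lit 0) (nat_lit 0) (XT.nd (nat_lit 78) (nat_lit 0) (nat_lit 0) (XT.lf (nat_lit 0) (nat_lit 506120132738) (nat_lit 76) (nat_lit 199681949406) (nat_lit 76) (nat_lit 193395953621) (nat_lit 3) (nat_lit 4) (nat_lit 4) (nat_lit 5) (nat_lit 4) (nat_lit 4) (nat_lit 495) (nat_lit 397) (nat_lit 308)) (XT.lf (nat_lit 0) (nat_lit 596134769044) (nat_lit 76) (nat_lit 189680577124) (nat_lit 76) (nat_lit 183394087271) (nat_lit 3) (nat_lit 4) (nat_lit 4) (nat_lit 5) (nat_lit 4) (nat_lit 4) (nat_lit 496) (nat_lit 397) (nat_lit 307))) (XT.nd (nat_lit 78) (nat_lit 0) (nat_lit 0) (XT.lf (nat_lit 0) (nat_lit 693343102642) (nat_lit 76) (nat_lit 178882939009) (nat_lit 76) (nat_lit 172595991686) (nat_lit 3) (nat_lit 4)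 (nat_lit 4) (nat_lit 5) (nat_lit 4) (nat_lit 4) (nat_lit 497) (nat_lit 397) (nat_lit 306)) (XT.nd (nat_lit 78) (nat_lit 0) (nat_lit 0) (XT.lf (nat_lit 0) (nat_lit 798321182915) (nat_lit 76) (nat_lit 167225049059) (nat_lit 76) (nat_lit 160937678152) (nat_lit 3) (nat_lit 4) (nat_lit 4) (nat_lit 5) (nat_lit 4) (nat_lit 4) (nat_lit 498) (nat_lit 397) (nat_lit 305)) (XT.lf (nat_lit 0) (nat_lit 911691102191) (nat_lit 76) (nat_lit 154637823479) (nat_lit 76) (nat_lit 148350060366) (nat_lit 3) (nat_lit 4) (nat_lit 4) (nat_lit 5) (nat_lit 4) (nat_lit 4) (nat_lit 499) (nat_lit 397) (nat_lit 304))))) (XT.nd (nat_lit 234) (nat_lit 0) (nat_lit 0) (XT.nd (nat_lit 78) (nat_lit 0) (nat_lit 0) (XT.lf (nat_lit 0) (nat_lit 1034124682214) (nat_lit 76) (nat_lit 141046671305) (nat_lit 76) (nat_lit 134758545037) (nat_lit 3) (nat_lit 4) (nat_lit 4) (nat_lit 5) (nat_lit 4) (nat_lit 4) (nat_lit 500) (nat_lit 397)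 (nat_lit 303)) (XT.nd (nat_lit 78) (nat_lit 0) (nat_lit 0) (XT.lf (nat_lit 0) (nat_lit 1166347455310) (nat_lit 76) (nat_lit 126371052375) (nat_lit 76) (nat_lit 120082589853) (nat_lit 3) (nat_lit 4) (nat_lit 4) (nat_lit 5) (nat_lit 4) (nat_lit 4) (nat_lit 501) (nat_lit 397) (nat_lit 302)) (XT.lf (nat_lit 0) (nat_lit 1309142963837) (nat_lit 76) (nat_lit 110524000059) (nat_lit 76) (nat_lit 104235226190) (nat_lit 3) (nat_lit 4) (nat_lit 4) (nat_lit 5) (nat_lit 4) (nat_lit 4) (nat_lit 502) (nat_lit 397) (nat_lit 301)))) (XT.nd (nat_lit 78) (nat_lit 0) (nat_lit 0) (XT.lf (nat_lit 0) (nat_lit 1463357403403) (nat_lit 76) (nat_lit 93411605898) (nat_lit 76) (nat_lit 87122543745) (nat_lit 3) (nat_lit 4) (nat_lit 4) (nat_lit 5) (nat_lit 4) (nat_lit 4) (nat_lit 503) (nat_lit 397) (nat_lit 300)) (XT.nd (nat_lit 78) (nat_lit 0) (nat_lit 0) (XT.lf (nat_lit 0) (nat_lit 1629904637353) (nat_lit 76) (nat_lit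 74932463112) (nat_lit 76) (nat_lit 68643134029) (nat_lit 3) (nat_lit 4) (nat_lit 4) (nat_lit 5) (nat_lit 4) (nat_lit 4) (nat_lit 504) (nat_lit 397) (nat_lit 299)) (XT.lf (nat_lit 0) (nat_lit 1809771612258) (nat_lit 76) (nat_lit 54977065669) (nat_lit 76) (nat_lit 48687489429) (nat_lit 3) (nat_lit 4) (nat_lit 4) (nat_lit 5) (nat_lit 4) (nat_lit 4) (nat_lit 505) (nat_lit 397) (nat_lit 298)))))) (XT.nd (nat_lit 468) (nat_lit 0) (nat_lit 0) (XT.nd (nat_lit 234) (nat_lit 0) (nat_lit 0) (XT.nd (nat_lit 78) (nat_lit 152) (nat_lit 0) (XT.lf (nat_lit 0) (nat_lit 2004024206488) (nat_lit 76) (nat_lit 33427159363) (nat_lit 76) (nat_lit 27137354275) (nat_lit 3) (nat_lit 4) (nat_lit 4) (nat_lit 5) (nat_lit 4) (nat_lit 4) (nat_lit 506) (nat_lit 397) (nat_lit 297)) (XT.nd (nat_lit 78) (nat_lit 152) (nat_lit 0) (XT.lf (nat_lit 0) (nat_lit 2213813546528) (nat_lit 76) (nat_lit 10155041046) (nat_lit 76) (nat_lit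 3865024060) (nat_lit 3) (nat_lit 4) (nat_lit 4) (nat_lit 5) (nat_lit 4) (nat_lit 4) (nat_lit 507) (nat_lit 397) (nat_lit 296)) (XT.lf (nat_lit 0) (nat_lit 21505149674) (nat_lit 152) (nat_lit 2366807142963) (nat_lit 0) (nat_lit 15680878204) (nat_lit 1) (nat_lit 5) (nat_lit 3) (nat_lit 4) (nat_lit 1) (nat_lit 4) (nat_lit 508) (nat_lit 397) (nat_lit 295)))) (XT.nd (nat_lit 78) (nat_lit 0) (nat_lit 0) (XT.lf (nat_lit 0) (nat_lit 49351587419) (nat_lit 152) (nat_lit 2501306291478) (nat_lit 0) (nat_lit 43527147738) (nat_lit 1) (nat_lit 5) (nat_lit 3) (nat_lit 4) (nat_lit 1) (nat_lit 4) (nat_lit 509) (nat_lit 397) (nat_lit 294)) (XT.nd (nat_lit 78) (nat_lit 0) (nat_lit 0) (XT.lf (nat_lit 0) (nat_lit 79424262742) (nat_lit 152) (nat_lit 2646568419048) (nat_lit 0) (nat_lit 73599667311) (nat_lit 1) (nat_lit 5) (nat_lit 3) (nat_lit 4) (nat_lit 1) (nat_lit 4) (nat_lit 510) (nat_lit 397) (nat_lit 293))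 (XT.lf (nat_lit 0) (nat_lit 111901384089) (nat_lit 152) (nat_lit 2803454338282) (nat_lit 0) (nat_lit 106076644444) (nat_lit 1) (nat_lit 5) (nat_lit 3) (nat_lit 4) (nat_lit 1) (nat_lit 4) (nat_lit 511) (nat_lit 397) (nat_lit 292))))) (XT.nd (nat_lit 234) (nat_lit 0) (nat_lit 0) (XT.nd (nat_lit 78) (nat_lit 0) (nat_lit 0) (XT.lf (nat_lit 0) (nat_lit 146975408476) (nat_lit 152) (nat_lit 2972893743515) (nat_lit 0) (nat_lit 141150535300) (nat_lit 1) (nat_lit 5) (nat_lit 3) (nat_lit 4) (nat_lit 1) (nat_lit 4) (nat_lit 512) (nat_lit 397) (nat_lit 291)) (XT.nd (nat_lit 78) (nat_lit 0) (nat_lit 0) (XT.lf (nat_lit 0) (nat_lit 184854181974) (nat_lit 152) (nat_lit 3155890720112) (nat_lit 0) (nat_lit 179029185157) (nat_lit 1) (nat_lit 5) (nat_lit 3) (nat_lit 4) (nat_lit 1) (nat_lit 4) (nat_lit 513) (nat_lit 397) (nat_lit 290)) (XT.lf (nat_lit 0) (nat_lit 225762171387) (nat_lit 152) (nat_lit 3353529694600)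 (nat_lit 0) (nat_lit 219937060089) (nat_lit 1) (nat_lit 5) (nat_lit 3) (nat_lit 4) (nat_lit 1) (nat_lit 4) (nat_lit 514) (nat_lit 397) (nat_lit 289)))) (XT.nd (nat_lit 78) (nat_lit 0) (nat_lit 0) (XT.lf (nat_lit 0) (nat_lit 269941794432) (nat_lit 152) (nat_lit 3566981860903) (nat_lit 0) (nat_lit 264116577132) (nat_lit 1) (nat_lit 5) (nat_lit 3) (nat_lit 4) (nat_lit 1) (nat_lit 4) (nat_lit 515) (nat_lit 397) (nat_lit 288)) (XT.nd (nat_lit 78) (nat_lit 0) (nat_lit 0) (XT.lf (nat_lit 0) (nat_lit 317654856281) (nat_lit 152) (nat_lit 3797512120747) (nat_lit 0) (nat_lit 311829540832) (nat_lit 1) (nat_lit 5) (nat_lit 3) (nat_lit 4) (nat_lit 1) (nat_lit 4) (nat_lit 516) (nat_lit 397) (nat_lit 287)) (XT.lf (nat_lit 0) (nat_lit 369184101005) (nat_lit 152) (nat_lit 4046486579375) (nat_lit 0) (nat_lit 363358694677) (nat_lit 1) (nat_lit 5) (nat_lit 3) (nat_lit 4) (nat_lit 1) (nat_lit 4) (nat_lit 517)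 (nat_lit 397) (nat_lit 286))))))) (XT.nd (nat_lit 936) (nat_lit 0) (nat_lit 0) (XT.nd (nat_lit 468) (nat_lit 0) (nat_lit 0) (XT.nd (nat_lit 234) (nat_lit 0) (nat_lit 0) (XT.nd (nat_lit 78) (nat_lit 0) (nat_lit 0) (XT.lf (nat_lit 0) (nat_lit 424834887091) (nat_lit 152) (nat_lit 4315380640987) (nat_lit 0) (nat_lit 419009396617) (nat_lit 1) (nat_lit 5) (nat_lit 3) (nat_lit 4) (nat_lit 1) (nat_lit 4) (nat_lit 518) (nat_lit 397) (nat_lit 285)) (XT.nd (nat_lit 78) (nat_lit 0) (nat_lit 0) (XT.lf (nat_lit 0) (nat_lit 484936996976) (nat_lit 152) (nat_lit 4605787751874) (nat_lit 0) (nat_lit 479111428587) (nat_lit 1) (nat_lit 5) (nat_lit 3) (nat_lit 4) (nat_lit 1) (nat_lit 4) (nat_lit 519) (nat_lit 397) (nat_lit 284)) (XT.lf (nat_lit 0) (nat_lit 549846591310) (nat_lit 152) (nat_lit 4919428843062) (nat_lit 0) (nat_lit 544020950778) (nat_lit 1) (nat_lit 5) (nat_lit 3) (nat_lit 4) (nat_lit 1) (nat_lit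 4) (nat_lit 520) (nat_lit 397) (nat_lit 283)))) (XT.nd (nat_lit 78) (nat_lit 0) (nat_lit 0) (XT.lf (nat_lit 0) (nat_lit 619948319542) (nat_lit 152) (nat_lit 5258162528427) (nat_lit 0) (nat_lit 614122612211) (nat_lit 1) (nat_lit 5) (nat_lit 3) (nat_lit 4) (nat_lit 1) (nat_lit 4) (nat_lit 521) (nat_lit 397) (nat_lit 282)) (XT.nd (nat_lit 78) (nat_lit 0) (nat_lit 0) (XT.lf (nat_lit 0) (nat_lit 695657599320) (nat_lit 152) (nat_lit 5623996118696) (nat_lit 0) (nat_lit 689831830138) (nat_lit 1) (nat_lit 5) (nat_lit 3) (nat_lit 4) (nat_lit 1) (nat_lit 4) (nat_lit 522) (nat_lit 397) (nat_lit 281)) (XT.lf (nat_lit 0) (nat_lit 777423078227) (nat_lit 152) (nat_lit 6019097516625) (nat_lit 0) (nat_lit 771597251776) (nat_lit 1) (nat_lit 5) (nat_lit 3) (nat_lit 4) (nat_lit 1) (nat_lit 4) (nat_lit 523) (nat_lit 397) (nat_lit 280))))) (XT.nd (nat_lit 234) (nat_lit 0) (nat_lit 0) (XT.nd (nat_lit 78) (nat_lit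 0) (nat_lit 0) (XT.lf (nat_lit 0) (nat_lit 865729292436) (nat_lit 152) (nat_lit 6445808063833) (nat_lit 0) (nat_lit 859903412958) (nat_lit 1) (nat_lit 5) (nat_lit 3) (nat_lit 4) (nat_lit 1) (nat_lit 4) (nat_lit 524) (nat_lit 397) (nat_lit 279)) (XT.nd (nat_lit 78) (nat_lit 0) (nat_lit 0) (XT.lf (nat_lit 0) (nat_lit 961099538031) (nat_lit 152) (nat_lit 6906656415414) (nat_lit 0) (nat_lit 955273609454) (nat_lit 1) (nat_lit 5) (nat_lit 3) (nat_lit 4) (nat_lit 1) (nat_lit 4) (nat_lit 525) (nat_lit 397) (nat_lit 278)) (XT.lf (nat_lit 0) (nat_lit 1064098972022) (nat_lit 152) (nat_lit 7404373524563) (nat_lit 0) (nat_lit 1058272997982) (nat_lit 1) (nat_lit 5) (nat_lit 3) (nat_lit 4) (nat_lit 1) (nat_lit 4) (nat_lit 526) (nat_lit 397) (nat_lit 277)))) (XT.nd (nat_lit 78) (nat_lit 0) (nat_lit 0) (XT.lf (nat_lit 0) (nat_lit 1175337961425) (nat_lit 152) (nat_lit 7941908826000) (nat_lit 0) (nat_lit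 1169511945291) (nat_lit 1) (nat_lit 5) (nat_lit 3) (nat_lit 4) (nat_lit 1) (nat_lit 4) (nat_lit 527) (nat_lit 397) (nat_lit 276)) (XT.nd (nat_lit 78) (nat_lit 0) (nat_lit 0) (XT.lf (nat_lit 0) (nat_lit 1295475700253) (nat_lit 152) (nat_lit 8522447714105) (nat_lit 0) (nat_lit 1289649645142) (nat_lit 1) (nat_lit 5) (nat_lit 3) (nat_lit 4) (nat_lit 1) (nat_lit 4) (nat_lit 528) (nat_lit 397) (nat_lit 275)) (XT.lf (nat_lit 0) (nat_lit 1425224115846) (nat_lit 152) (nat_lit 9149430419325) (nat_lit 0) (nat_lit 1419398024646) (nat_lit 1) (nat_lit 5) (nat_lit 3) (nat_lit 4) (nat_lit 1) (nat_lit 4) (nat_lit 529) (nat_lit 397) (nat_lit 274)))))) (XT.nd (nat_lit 53040) (nat_lit 0) (nat_lit 4940) (XT.nd (nat_lit 52806) (nat_lit 0) (nat_lit 6688) (XT.nd (nat_lit 52650) (nat_lit 0) (nat_lit 7296) (XT.lf (nat_lit 0) (nat_lit 1565352087703) (nat_lit 152) (nat_lit 9826572394728) (nat_lit 0) (nat_lit 1559525963087)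 (nat_lit 1) (nat_lit 5) (nat_lit 3) (nat_lit 4) (nat_lit 1) (nat_lit 4) (nat_lit 530) (nat_lit 397) (nat_lit 273)) (XT.nd (nat_lit 78) (nat_lit 0) (nat_lit 0) (XT.lf (nat_lit 0) (nat_lit 343270887) (nat_lit 228) (nat_lit 2591210006) (nat_lit 0) (nat_lit 343270887) (nat_lit 97) (nat_lit 5) (nat_lit 100) (nat_lit 4) (nat_lit 97) (nat_lit 4) (nat_lit 404) (nat_lit 398) (nat_lit 398)) (XT.lf (nat_lit 0) (nat_lit 3893937039) (nat_lit 228) (nat_lit 1179940416) (nat_lit 0) (nat_lit 1547549426) (nat_lit 97) (nat_lit 5) (nat_lit 100) (nat_lit 4) (nat_lit 97) (nat_lit 4) (nat_lit 405) (nat_lit 398) (nat_lit 397)))) (XT.nd (nat_lit 78) (nat_lit 304) (nat_lit 0) (XT.lf (nat_lit 0) (nat_lit 423422855) (nat_lit 304) (nat_lit 3638249196) (nat_lit 76) (nat_lit 2646521791) (nat_lit 93) (nat_lit 5) (nat_lit 97) (nat_lit 5) (nat_lit 94) (nat_lit 4) (nat_lit 406) (nat_lit 398) (nat_lit 396)) (XT.nd (nat_lit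 78) (nat_lit 0) (nat_lit 0) (XT.lf (nat_lit 0) (nat_lit 664971771) (nat_lit 304) (nat_lit 2794446350) (nat_lit 380) (nat_lit 3354537463) (nat_lit 89) (nat_lit 5) (nat_lit 93) (nat_lit 5) (nat_lit 94) (nat_lit 4) (nat_lit 407) (nat_lit 398) (nat_lit 395)) (XT.lf (nat_lit 0) (nat_lit 5300822691) (nat_lit 304) (nat_lit 1282869015) (nat_lit 380) (nat_lit 356993667) (nat_lit 89) (nat_lit 5) (nat_lit 93) (nat_lit 5) (nat_lit 94) (nat_lit 4) (nat_lit 408) (nat_lit 398) (nat_lit 394))))) (XT.nd (nat_lit 234) (nat_lit 760) (nat_lit 0) (XT.nd (nat_lit 78) (nat_lit 532) (nat_lit 0) (XT.lf (nat_lit 0) (nat_lit 2582124796) (nat_lit 456) (nat_lit 3997625795) (nat_lit 76) (nat_lit 504711672) (nat_lit 83) (nat_lit 5) (nat_lit 89) (nat_lit 5) (nat_lit 84) (nat_lit 4) (nat_lit 409) (nat_lit 398) (nat_lit 393)) (XT.nd (nat_lit 78) (nat_lit 76) (nat_lit 0) (XT.lf (nat_lit 0) (nat_lit 817309570) (nat_lit 456)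 (nat_lit 4790564058) (nat_lit 532) (nat_lit 1641573191) (nat_lit 77) (nat_lit 5) (nat_lit 83) (nat_lit 5) (nat_lit 84) (nat_lit 4) (nat_lit 410) (nat_lit 398) (nat_lit 392)) (XT.lf (nat_lit 0) (nat_lit 1265385147) (nat_lit 532) (nat_lit 1446374205) (nat_lit 76) (nat_lit 4721997707) (nat_lit 76) (nat_lit 5) (nat_lit 83) (nat_lit 5) (nat_lit 77) (nat_lit 5) (nat_lit 411) (nat_lit 398) (nat_lit 391)))) (XT.nd (nat_lit 78) (nat_lit 304) (nat_lit 0) (XT.lf (nat_lit 0) (nat_lit 3872075345) (nat_lit 456) (nat_lit 331361801) (nat_lit 532) (nat_lit 3435073540) (nat_lit 70) (nat_lit 5) (nat_lit 76) (nat_lit 5) (nat_lit 77) (nat_lit 5) (nat_lit 412) (nat_lit 398) (nat_lit 390)) (XT.nd (nat_lit 78) (nat_lit 76) (nat_lit 0) (XT.lf (nat_lit 0) (nat_lit 1641937294) (nat_lit 228) (nat_lit 5672393496) (nat_lit 304) (nat_lit 550371121) (nat_lit 67) (nat_lit 5) (nat_lit 70) (nat_lit 5) (nat_lit 71) (nat_lit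 4) (nat_lit 413) (nat_lit 398) (nat_lit 389)) (XT.lf (nat_lit 0) (nat_lit 2359207139) (nat_lit 304) (nat_lit 708054119) (nat_lit 76) (nat_lit 5043068104) (nat_lit 66) (nat_lit 5) (nat_lit 70) (nat_lit 5) (nat_lit 67) (nat_lit 5) (nat_lit 414) (nat_lit 398) (nat_lit 388))))))))
noncomputable def xc87 : XT := (XT.nd (nat_lit 1794) (nat_lit 1444) (nat_lit 0) (XT.nd (nat_lit 858) (nat_lit 1140) (nat_lit 0) (XT.nd (nat_lit 390) (nat_lit 608) (nat_lit 0) (XT.nd (nat_lit 156) (nat_lit 456) (nat_lit 0) (XT.nd (nat_lit 78) (nat_lit 228) (nat_lit 0) (XT.lf (nat_lit 0) (nat_lit 5283475862) (nat_lit 228) (nat_lit 137774060) (nat_lit 304) (nat_lit 2957323236) (nat_lit 63) (nat_lit 5) (nat_lit 66) (nat_lit 5) (nat_lit 67) (nat_lit 5) (nat_lit 415) (nat_lit 398) (nat_lit 387)) (XT.lf (nat_lit 0) (nat_lit 50674600) (nat_lit 228) (nat_lit 5687945486) (nat_lit 76) (nat_lit 2930100543) (nat_lit 60) (nat_lit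 5) (nat_lit 63) (nat_lit 5) (nat_lit 61) (nat_lit 5) (nat_lit 416) (nat_lit 398) (nat_lit 386))) (XT.nd (nat_lit 78) (nat_lit 228) (nat_lit 0) (XT.lf (nat_lit 0) (nat_lit 458938023) (nat_lit 228) (nat_lit 2614735737) (nat_lit 304) (nat_lit 5907581460) (nat_lit 57) (nat_lit 5) (nat_lit 60) (nat_lit 5) (nat_lit 61) (nat_lit 5) (nat_lit 417) (nat_lit 398) (nat_lit 385)) (XT.nd (nat_lit 78) (nat_lit 228) (nat_lit 0) (XT.lf (nat_lit 0) (nat_lit 6354724010) (nat_lit 304) (nat_lit 2138204271) (nat_lit 76) (nat_lit 824614731) (nat_lit 57) (nat_lit 5) (nat_lit 61) (nat_lit 5) (nat_lit 58) (nat_lit 4) (nat_lit 418) (nat_lit 398) (nat_lit 384)) (XT.lf (nat_lit 0) (nat_lit 239001264) (nat_lit 228) (nat_lit 4973450494) (nat_lit 76) (nat_lit 4465315463) (nat_lit 54) (nat_lit 5) (nat_lit 57) (nat_lit 5) (nat_lit 55) (nat_lit 5) (nat_lit 419) (nat_lit 398) (nat_lit 383))))) (XT.nd (nat_lit 234) (nat_lit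 228) (nat_lit 0) (XT.nd (nat_lit 78) (nat_lit 228) (nat_lit 0) (XT.lf (nat_lit 0) (nat_lit 1957225765) (nat_lit 152) (nat_lit 1539403978) (nat_lit 228) (nat_lit 6567282144) (nat_lit 52) (nat_lit 5) (nat_lit 54) (nat_lit 5) (nat_lit 55) (nat_lit 5) (nat_lit 420) (nat_lit 398) (nat_lit 382)) (XT.nd (nat_lit 78) (nat_lit 228) (nat_lit 0) (XT.lf (nat_lit 0) (nat_lit 7069636554) (nat_lit 228) (nat_lit 1026925417) (nat_lit 76) (nat_lit 2380039496) (nat_lit 52) (nat_lit 5) (nat_lit 55) (nat_lit 5) (nat_lit 53) (nat_lit 4) (nat_lit 421) (nat_lit 398) (nat_lit 381)) (XT.lf (nat_lit 0) (nat_lit 76487608) (nat_lit 228) (nat_lit 4207653815) (nat_lit 76) (nat_lit 6632533212) (nat_lit 49) (nat_lit 5) (nat_lit 52) (nat_lit 5) (nat_lit 50) (nat_lit 5) (nat_lit 422) (nat_lit 398) (nat_lit 380)))) (XT.nd (nat_lit 78) (nat_lit 76) (nat_lit 0) (XT.lf (nat_lit 0) (nat_lit 3618747166) (nat_lit 152) (nat_lit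 20815686) (nat_lit 228) (nat_lit 7746538121) (nat_lit 47) (nat_lit 5) (nat_lit 49) (nat_lit 5) (nat_lit 50) (nat_lit 5) (nat_lit 423) (nat_lit 398) (nat_lit 379)) (XT.nd (nat_lit 78) (nat_lit 0) (nat_lit 0) (XT.lf (nat_lit 0) (nat_lit 110268307) (nat_lit 76) (nat_lit 7480590130) (nat_lit 152) (nat_lit 4293994604) (nat_lit 46) (nat_lit 5) (nat_lit 47) (nat_lit 5) (nat_lit 48) (nat_lit 4) (nat_lit 424) (nat_lit 398) (nat_lit 378)) (XT.lf (nat_lit 0) (nat_lit 8855851035) (nat_lit 76) (nat_lit 3092131668) (nat_lit 152) (nat_lit 468368244) (nat_lit 46) (nat_lit 5) (nat_lit 47) (nat_lit 5) (nat_lit 48) (nat_lit 4) (nat_lit 425) (nat_lit 398) (nat_lit 377)))))) (XT.nd (nat_lit 468) (nat_lit 532) (nat_lit 0) (XT.nd (nat_lit 234) (nat_lit 304) (nat_lit 0) (XT.nd (nat_lit 78) (nat_lit 76) (nat_lit 0) (XT.lf (nat_lit 0) (nat_lit 3533664519) (nat_lit 228) (nat_lit 7733023898) (nat_lit 76) (nat_lit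 1712363567) (nat_lit 43) (nat_lit 5) (nat_lit 46) (nat_lit 5) (nat_lit 44) (nat_lit 4) (nat_lit 426) (nat_lit 398) (nat_lit 376)) (XT.nd (nat_lit 78) (nat_lit 0) (nat_lit 0) (XT.lf (nat_lit 0) (nat_lit 1146093883) (nat_lit 76) (nat_lit 6777450320) (nat_lit 152) (nat_lit 5654831395) (nat_lit 42) (nat_lit 5) (nat_lit 43) (nat_lit 5) (nat_lit 44) (nat_lit 4) (nat_lit 427) (nat_lit 398) (nat_lit 375)) (XT.lf (nat_lit 0) (nat_lit 10983492365) (nat_lit 76) (nat_lit 1781675023) (nat_lit 152) (nat_lit 1452450865) (nat_lit 42) (nat_lit 5) (nat_lit 43) (nat_lit 5) (nat_lit 44) (nat_lit 4) (nat_lit 428) (nat_lit 398) (nat_lit 374)))) (XT.nd (nat_lit 78) (nat_lit 76) (nat_lit 0) (XT.lf (nat_lit 0) (nat_lit 3080693851) (nat_lit 228) (nat_lit 8206935603) (nat_lit 76) (nat_lit 3602531765) (nat_lit 39) (nat_lit 5) (nat_lit 42) (nat_lit 5) (nat_lit 40) (nat_lit 4) (nat_lit 429) (nat_lit 398) (nat_lit 373))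 (XT.nd (nat_lit 78) (nat_lit 0) (nat_lit 0) (XT.lf (nat_lit 0) (nat_lit 1786671947) (nat_lit 76) (nat_lit 6187633231) (nat_lit 152) (nat_lit 7633095371) (nat_lit 38) (nat_lit 5) (nat_lit 39) (nat_lit 5) (nat_lit 40) (nat_lit 4) (nat_lit 430) (nat_lit 398) (nat_lit 372)) (XT.lf (nat_lit 0) (nat_lit 12866319985) (nat_lit 76) (nat_lit 517139346) (nat_lit 152) (nat_lit 2988648170) (nat_lit 38) (nat_lit 5) (nat_lit 39) (nat_lit 5) (nat_lit 40) (nat_lit 4) (nat_lit 431) (nat_lit 398) (nat_lit 371))))) (XT.nd (nat_lit 234) (nat_lit 228) (nat_lit 0) (XT.nd (nat_lit 78) (nat_lit 76) (nat_lit 0) (XT.lf (nat_lit 0) (nat_lit 2157446429) (nat_lit 228) (nat_lit 9521745018) (nat_lit 76) (nat_lit 5496389246) (nat_lit 35) (nat_lit 5) (nat_lit 38) (nat_lit 5) (nat_lit 36) (nat_lit 4) (nat_lit 432) (nat_lit 398) (nat_lit 370)) (XT.nd (nat_lit 78) (nat_lit 0) (nat_lit 0) (XT.lf (nat_lit 0) (nat_lit 1687718353)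 (nat_lit 76) (nat_lit 5924305164) (nat_lit 152) (nat_lit 10420447433) (nat_lit 34) (nat_lit 5) (nat_lit 35) (nat_lit 5) (nat_lit 36) (nat_lit 4) (nat_lit 433) (nat_lit 398) (nat_lit 369)) (XT.lf (nat_lit 0) (nat_lit 13684010324) (nat_lit 152) (nat_lit 4789555886) (nat_lit 0) (nat_lit 469872136) (nat_lit 34) (nat_lit 5) (nat_lit 36) (nat_lit 4) (nat_lit 34) (nat_lit 4) (nat_lit 434) (nat_lit 398) (nat_lit 368)))) (XT.nd (nat_lit 78) (nat_lit 76) (nat_lit 0) (XT.lf (nat_lit 0) (nat_lit 559762001) (nat_lit 152) (nat_lit 12157839637) (nat_lit 76) (nat_lit 7188202887) (nat_lit 32) (nat_lit 5) (nat_lit 34) (nat_lit 5) (nat_lit 33) (nat_lit 4) (nat_lit 435) (nat_lit 398) (nat_lit 367)) (XT.nd (nat_lit 78) (nat_lit 0) (nat_lit 0) (XT.lf (nat_lit 0) (nat_lit 341567851) (nat_lit 76) (nat_lit 6275604450) (nat_lit 152) (nat_lit 14312520016) (nat_lit 31) (nat_lit 5) (nat_lit 32) (nat_lit 5) (nat_lit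 33) (nat_lit 4) (nat_lit 436) (nat_lit 398) (nat_lit 366)) (XT.lf (nat_lit 0) (nat_lit 13431653172) (nat_lit 152) (nat_lit 7664049614) (nat_lit 0) (nat_lit 917997037) (nat_lit 31) (nat_lit 5) (nat_lit 33) (nat_lit 4) (nat_lit 31) (nat_lit 4) (nat_lit 437) (nat_lit 398) (nat_lit 365))))))) (XT.nd (nat_lit 936) (nat_lit 684) (nat_lit 0) (XT.nd (nat_lit 468) (nat_lit 304) (nat_lit 0) (XT.nd (nat_lit 234) (nat_lit 228) (nat_lit 0) (XT.nd (nat_lit 78) (nat_lit 152) (nat_lit 0) (XT.lf (nat_lit 0) (nat_lit 6295430212) (nat_lit 76) (nat_lit 14731594794) (nat_lit 76) (nat_lit 2138550722) (nat_lit 30) (nat_lit 4) (nat_lit 31) (nat_lit 5) (nat_lit 31) (nat_lit 4) (nat_lit 438) (nat_lit 398) (nat_lit 364)) (XT.nd (nat_lit 78) (nat_lit 76) (nat_lit 0) (XT.lf (nat_lit 0) (nat_lit 4715915683) (nat_lit 152) (nat_lit 2857446800) (nat_lit 76) (nat_lit 16816039962) (nat_lit 29) (nat_lit 5) (nat_lit 31) (nat_lit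 5) (nat_lit 30) (nat_lit 4) (nat_lit 439) (nat_lit 398) (nat_lit 363)) (XT.lf (nat_lit 0) (nat_lit 12248057782) (nat_lit 152) (nat_lit 12982301677) (nat_lit 0) (nat_lit 456748725) (nat_lit 28) (nat_lit 5) (nat_lit 30) (nat_lit 4) (nat_lit 28) (nat_lit 4) (nat_lit 440) (nat_lit 398) (nat_lit 362)))) (XT.nd (nat_lit 78) (nat_lit 152) (nat_lit 0) (XT.lf (nat_lit 0) (nat_lit 2371954094) (nat_lit 76) (nat_lit 18272696117) (nat_lit 76) (nat_lit 6423034557) (nat_lit 27) (nat_lit 4) (nat_lit 28) (nat_lit 5) (nat_lit 28) (nat_lit 4) (nat_lit 441) (nat_lit 398) (nat_lit 361)) (XT.nd (nat_lit 78) (nat_lit 76) (nat_lit 0) (XT.lf (nat_lit 0) (nat_lit 1388895538) (nat_lit 152) (nat_lit 9014788935) (nat_lit 76) (nat_lit 18129416326) (nat_lit 26) (nat_lit 5) (nat_lit 28) (nat_lit 5) (nat_lit 27) (nat_lit 4) (nat_lit 442) (nat_lit 398) (nat_lit 360)) (XT.lf (nat_lit 0) (nat_lit 8025286999) (nat_lit 76)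 (nat_lit 1580004597) (nat_lit 152) (nat_lit 20486993904) (nat_lit 25) (nat_lit 5) (nat_lit 26) (nat_lit 5) (nat_lit 27) (nat_lit 4) (nat_lit 443) (nat_lit 398) (nat_lit 359))))) (XT.nd (nat_lit 234) (nat_lit 152) (nat_lit 0) (XT.nd (nat_lit 78) (nat_lit 152) (nat_lit 0) (XT.lf (nat_lit 0) (nat_lit 18856968564) (nat_lit 152) (nat_lit 5143183418) (nat_lit 0) (nat_lit 7745818915) (nat_lit 25) (nat_lit 5) (nat_lit 27) (nat_lit 4) (nat_lit 25) (nat_lit 4) (nat_lit 444) (nat_lit 398) (nat_lit 358)) (XT.nd (nat_lit 78) (nat_lit 76) (nat_lit 0) (XT.lf (nat_lit 0) (nat_lit 13655922841) (nat_lit 76) (nat_lit 15501117026) (nat_lit 76) (nat_lit 4350253643) (nat_lit 24) (nat_lit 4) (nat_lit 25) (nat_lit 5) (nat_lit 25) (nat_lit 4) (nat_lit 445) (nat_lit 398) (nat_lit 357)) (XT.lf (nat_lit 0) (nat_lit 4711126210) (nat_lit 152) (nat_lit 1388492840) (nat_lit 76) (nat_lit 29293874416) (nat_lit 23) (nat_lit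 5) (nat_lit 25) (nat_lit 5) (nat_lit 24) (nat_lit 4) (nat_lit 446) (nat_lit 398) (nat_lit 356)))) (XT.nd (nat_lit 78) (nat_lit 76) (nat_lit 0) (XT.lf (nat_lit 0) (nat_lit 14780978752) (nat_lit 152) (nat_lit 18208555516) (nat_lit 0) (nat_lit 4390531082) (nat_lit 22) (nat_lit 5) (nat_lit 24) (nat_lit 4) (nat_lit 22) (nat_lit 4) (nat_lit 447) (nat_lit 398) (nat_lit 355)) (XT.nd (nat_lit 78) (nat_lit 0) (nat_lit 0) (XT.lf (nat_lit 0) (nat_lit 1748634344) (nat_lit 76) (nat_lit 24090957816) (nat_lit 76) (nat_lit 13671319366) (nat_lit 21) (nat_lit 4) (nat_lit 22) (nat_lit 5) (nat_lit 22) (nat_lit 4) (nat_lit 448) (nat_lit 398) (nat_lit 354)) (XT.lf (nat_lit 0) (nat_lit 24228602558) (nat_lit 76) (nat_lit 13997420833) (nat_lit 76) (nat_lit 3550753884) (nat_lit 21) (nat_lit 4) (nat_lit 22) (nat_lit 5) (nat_lit 22) (nat_lit 4) (nat_lit 449) (nat_lit 398) (nat_lit 353)))))) (XT.nd (nat_lit 468) (nat_lit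 304) (nat_lit 0) (XT.nd (nat_lit 234) (nat_lit 152) (nat_lit 0) (XT.nd (nat_lit 78) (nat_lit 76) (nat_lit 0) (XT.lf (nat_lit 0) (nat_lit 4212322987) (nat_lit 76) (nat_lit 2847300245) (nat_lit 152) (nat_lit 37146147492) (nat_lit 19) (nat_lit 5) (nat_lit 20) (nat_lit 5) (nat_lit 21) (nat_lit 4) (nat_lit 450) (nat_lit 398) (nat_lit 352)) (XT.nd (nat_lit 78) (nat_lit 76) (nat_lit 0) (XT.lf (nat_lit 0) (nat_lit 18988597084) (nat_lit 152) (nat_lit 18509053504) (nat_lit 0) (nat_lit 9271128640) (nat_lit 19) (nat_lit 5) (nat_lit 21) (nat_lit 4) (nat_lit 19) (nat_lit 4) (nat_lit 451) (nat_lit 398) (nat_lit 351)) (XT.lf (nat_lit 0) (nat_lit 4761892884) (nat_lit 76) (nat_lit 27250515387) (nat_lit 76) (nat_lit 17513180189) (nat_lit 18) (nat_lit 4) (nat_lit 19) (nat_lit 5) (nat_lit 19) (nat_lit 4) (nat_lit 452) (nat_lit 398) (nat_lit 350)))) (XT.nd (nat_lit 78) (nat_lit 152) (nat_lit 0) (XT.lf (nat_lit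 0) (nat_lit 30853130397) (nat_lit 76) (nat_lit 15684395853) (nat_lit 76) (nat_lit 5928665512) (nat_lit 18) (nat_lit 4) (nat_lit 19) (nat_lit 5) (nat_lit 19) (nat_lit 4) (nat_lit 453) (nat_lit 398) (nat_lit 349)) (XT.nd (nat_lit 78) (nat_lit 0) (nat_lit 0) (XT.lf (nat_lit 0) (nat_lit 3307377065) (nat_lit 76) (nat_lit 2981151754) (nat_lit 152) (nat_lit 49338034239) (nat_lit 16) (nat_lit 5) (nat_lit 17) (nat_lit 5) (nat_lit 18) (nat_lit 4) (nat_lit 454) (nat_lit 398) (nat_lit 348)) (XT.lf (nat_lit 0) (nat_lit 19983138954) (nat_lit 152) (nat_lit 28058997824) (nat_lit 0) (nat_lit 10919681778) (nat_lit 16) (nat_lit 5) (nat_lit 18) (nat_lit 4) (nat_lit 16) (nat_lit 4) (nat_lit 455) (nat_lit 398) (nat_lit 347))))) (XT.nd (nat_lit 234) (nat_lit 228) (nat_lit 0) (XT.nd (nat_lit 78) (nat_lit 76) (nat_lit 0) (XT.lf (nat_lit 0) (nat_lit 34809820865) (nat_lit 152) (nat_lit 2018311771) (nat_lit 0) (nat_lit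 25732842710) (nat_lit 16) (nat_lit 5) (nat_lit 18) (nat_lit 4) (nat_lit 16) (nat_lit 4) (nat_lit 456) (nat_lit 398) (nat_lit 346)) (XT.nd (nat_lit 78) (nat_lit 0) (nat_lit 0) (XT.lf (nat_lit 0) (nat_lit 27399519022) (nat_lit 76) (nat_lit 24044179669) (nat_lit 76) (nat_lit 14954682089) (nat_lit 15) (nat_lit 4) (nat_lit 16) (nat_lit 5) (nat_lit 16) (nat_lit 4) (nat_lit 457) (nat_lit 398) (nat_lit 345)) (XT.lf (nat_lit 0) (nat_lit 59210757318) (nat_lit 76) (nat_lit 10215824163) (nat_lit 76) (nat_lit 1114734522) (nat_lit 15) (nat_lit 4) (nat_lit 16) (nat_lit 5) (nat_lit 16) (nat_lit 4) (nat_lit 458) (nat_lit 398) (nat_lit 344)))) (XT.nd (nat_lit 78) (nat_lit 76) (nat_lit 0) (XT.lf (nat_lit 0) (nat_lit 13698033365) (nat_lit 152) (nat_lit 55985273499) (nat_lit 0) (nat_lit 5261160189) (nat_lit 13) (nat_lit 5) (nat_lit 15) (nat_lit 4) (nat_lit 13) (nat_lit 4) (nat_lit 459) (nat_lit 398) (nat_lit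 343)) (XT.nd (nat_lit 78) (nat_lit 76) (nat_lit 0) (XT.lf (nat_lit 0) (nat_lit 30183826175) (nat_lit 152) (nat_lit 27732119326) (nat_lit 0) (nat_lit 21737750848) (nat_lit 13) (nat_lit 5) (nat_lit 15) (nat_lit 4) (nat_lit 13) (nat_lit 4) (nat_lit 460) (nat_lit 398) (nat_lit 342)) (XT.lf (nat_lit 0) (nat_lit 2858356220) (nat_lit 76) (nat_lit 45166497303) (nat_lit 76) (nat_lit 36711901465) (nat_lit 12) (nat_lit 4) (nat_lit 13) (nat_lit 5) (nat_lit 13) (nat_lit 4) (nat_lit 461) (nat_lit 398) (nat_lit 341))))))))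
noncomputable def xc88 : XT := (XT.nd (nat_lit 1794) (nat_lit 76) (nat_lit 0) (XT.nd (nat_lit 858) (nat_lit 228) (nat_lit 0) (XT.nd (nat_lit 390) (nat_lit 228) (nat_lit 0) (XT.nd (nat_lit 156) (nat_lit 152) (nat_lit 0) (XT.nd (nat_lit 78) (nat_lit 0) (nat_lit 0) (XT.lf (nat_lit 0) (nat_lit 37408971293) (nat_lit 76) (nat_lit 30610917403) (nat_lit 76) (nat_lit 22148432205) (nat_lit 12) (nat_lit 4) (nat_lit 13) (nat_lit 5) (nat_lit 13) (nat_lit 4) (nat_lit 462) (nat_lit 398) (nat_lit 340)) (XT.lf (nat_lit 0) (nat_lit 74664146021) (nat_lit 76) (nat_lit 14921195804) (nat_lit 76) (nat_lit 6451405641) (nat_lit 12) (nat_lit 4) (nat_lit 13) (nat_lit 5) (nat_lit 13) (nat_lit 4) (nat_lit 463) (nat_lit 398) (nat_lit 339))) (XT.nd (nat_lit 78) (nat_lit 0) (nat_lit 0) (XT.lf (nat_lit 0) (nat_lit 10320171213) (nat_lit 152) (nat_lit 89535233890) (nat_lit 0) (nat_lit 2471510085) (nat_lit 10) (nat_lit 5)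 (nat_lit 12) (nat_lit 4) (nat_lit 10) (nat_lit 4) (nat_lit 464) (nat_lit 398) (nat_lit 338)) (XT.nd (nat_lit 78) (nat_lit 0) (nat_lit 0) (XT.lf (nat_lit 0) (nat_lit 29044364075) (nat_lit 152) (nat_lit 58795868506) (nat_lit 0) (nat_lit 21189904030) (nat_lit 10) (nat_lit 5) (nat_lit 12) (nat_lit 4) (nat_lit 10) (nat_lit 4) (nat_lit 465) (nat_lit 398) (nat_lit 337)) (XT.lf (nat_lit 0) (nat_lit 49240868938) (nat_lit 152) (nat_lit 25649757591) (nat_lit 0) (nat_lit 41381039526) (nat_lit 10) (nat_lit 5) (nat_lit 12) (nat_lit 4) (nat_lit 10) (nat_lit 4) (nat_lit 466) (nat_lit 398) (nat_lit 336))))) (XT.nd (nat_lit 234) (nat_lit 152) (nat_lit 0) (XT.nd (nat_lit 78) (nat_lit 0) (nat_lit 0) (XT.lf (nat_lit 0) (nat_lit 10631343092) (nat_lit 76) (nat_lit 60653709758) (nat_lit 76) (nat_lit 52788908711) (nat_lit 9) (nat_lit 4) (nat_lit 10) (nat_lit 5) (nat_lit 10) (nat_lit 4) (nat_lit 467) (nat_lit 398)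 (nat_lit 335)) (XT.nd (nat_lit 78) (nat_lit 0) (nat_lit 0) (XT.lf (nat_lit 0) (nat_lit 51226362733) (nat_lit 76) (nat_lit 44544613202) (nat_lit 76) (nat_lit 36675208788) (nat_lit 9) (nat_lit 4) (nat_lit 10) (nat_lit 5) (nat_lit 10) (nat_lit 4) (nat_lit 468) (nat_lit 398) (nat_lit 334)) (XT.lf (nat_lit 0) (nat_lit 95025193631) (nat_lit 76) (nat_lit 27169185375) (nat_lit 76) (nat_lit 19295518585) (nat_lit 9) (nat_lit 4) (nat_lit 10) (nat_lit 5) (nat_lit 10) (nat_lit 4) (nat_lit 469) (nat_lit 398) (nat_lit 333)))) (XT.nd (nat_lit 78) (nat_lit 152) (nat_lit 0) (XT.lf (nat_lit 0) (nat_lit 142287384413) (nat_lit 76) (nat_lit 8424460779) (nat_lit 76) (nat_lit 546847344) (nat_lit 9) (nat_lit 4) (nat_lit 10) (nat_lit 5) (nat_lit 10) (nat_lit 4) (nat_lit 470) (nat_lit 398) (nat_lit 332)) (XT.nd (nat_lit 78) (nat_lit 0) (nat_lit 0) (XT.lf (nat_lit 0) (nat_lit 19798873633) (nat_lit 152) (nat_lit 129384190808)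 (nat_lit 0) (nat_lit 12501403507) (nat_lit 7) (nat_lit 5) (nat_lit 9) (nat_lit 4) (nat_lit 7) (nat_lit 4) (nat_lit 471) (nat_lit 398) (nat_lit 331)) (XT.lf (nat_lit 0) (nat_lit 42194397849) (nat_lit 152) (nat_lit 95818841578) (nat_lit 0) (nat_lit 34893794749) (nat_lit 7) (nat_lit 5) (nat_lit 9) (nat_lit 4) (nat_lit 7) (nat_lit 4) (nat_lit 472) (nat_lit 398) (nat_lit 330)))))) (XT.nd (nat_lit 468) (nat_lit 152) (nat_lit 0) (XT.nd (nat_lit 234) (nat_lit 0) (nat_lit 0) (XT.nd (nat_lit 78) (nat_lit 76) (nat_lit 0) (XT.lf (nat_lit 0) (nat_lit 66364165566) (nat_lit 152) (nat_lit 59603970683) (nat_lit 0) (nat_lit 59060661564) (nat_lit 7) (nat_lit 5) (nat_lit 9) (nat_lit 4) (nat_lit 7) (nat_lit 4) (nat_lit 473) (nat_lit 398) (nat_lit 329)) (XT.nd (nat_lit 78) (nat_lit 76) (nat_lit 0) (XT.lf (nat_lit 0) (nat_lit 92451405036) (nat_lit 152) (nat_lit 20524971480) (nat_lit 0) (nat_lit 85145215014) (nat_lit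 7) (nat_lit 5) (nat_lit 9) (nat_lit 4) (nat_lit 7) (nat_lit 4) (nat_lit 474) (nat_lit 398) (nat_lit 328)) (XT.lf (nat_lit 0) (nat_lit 22789771978) (nat_lit 76) (nat_lit 98369029894) (nat_lit 76) (nat_lit 91060352816) (nat_lit 6) (nat_lit 4) (nat_lit 7) (nat_lit 5) (nat_lit 7) (nat_lit 4) (nat_lit 475) (nat_lit 398) (nat_lit 327)))) (XT.nd (nat_lit 78) (nat_lit 0) (nat_lit 0) (XT.lf (nat_lit 0) (nat_lit 70707130851) (nat_lit 76) (nat_lit 82002319667) (nat_lit 76) (nat_lit 74691339760) (nat_lit 6) (nat_lit 4) (nat_lit 7) (nat_lit 5) (nat_lit 7) (nat_lit 4) (nat_lit 476) (nat_lit 398) (nat_lit 326)) (XT.nd (nat_lit 78) (nat_lit 0) (nat_lit 0) (XT.lf (nat_lit 0) (nat_lit 122430251234) (nat_lit 76) (nat_lit 64340447018) (nat_lit 76) (nat_lit 57027334862) (nat_lit 6) (nat_lit 4) (nat_lit 7) (nat_lit 5) (nat_lit 7) (nat_lit 4) (nat_lit 477) (nat_lit 398) (nat_lit 325)) (XT.lf (nat_lit 0) (nat_lit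 178265640505) (nat_lit 76) (nat_lit 45278748997) (nat_lit 76) (nat_lit 37963662536) (nat_lit 6) (nat_lit 4) (nat_lit 7) (nat_lit 5) (nat_lit 7) (nat_lit 4) (nat_lit 478) (nat_lit 398) (nat_lit 324))))) (XT.nd (nat_lit 234) (nat_lit 0) (nat_lit 0) (XT.nd (nat_lit 78) (nat_lit 152) (nat_lit 0) (XT.lf (nat_lit 0) (nat_lit 238544175046) (nat_lit 76) (nat_lit 24704267394) (nat_lit 76) (nat_lit 17387352872) (nat_lit 6) (nat_lit 4) (nat_lit 7) (nat_lit 5) (nat_lit 7) (nat_lit 4) (nat_lit 479) (nat_lit 398) (nat_lit 323)) (XT.nd (nat_lit 78) (nat_lit 0) (nat_lit 0) (XT.lf (nat_lit 0) (nat_lit 2328945800) (nat_lit 76) (nat_lit 2309300819) (nat_lit 152) (nat_lit 296642604535) (nat_lit 4) (nat_lit 5) (nat_lit 5) (nat_lit 5) (nat_lit 6) (nat_lit 4) (nat_lit 480) (nat_lit 398) (nat_lit 322)) (XT.lf (nat_lit 0) (nat_lit 29182482309) (nat_lit 152) (nat_lit 271818680139) (nat_lit 0) (nat_lit 22404543015)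 (nat_lit 4) (nat_lit 5) (nat_lit 6) (nat_lit 4) (nat_lit 4) (nat_lit 4) (nat_lit 481) (nat_lit 398) (nat_lit 321)))) (XT.nd (nat_lit 78) (nat_lit 0) (nat_lit 0) (XT.lf (nat_lit 0) (nat_lit 55740105601) (nat_lit 152) (nat_lit 242595632095) (nat_lit 0) (nat_lit 48960822629) (nat_lit 4) (nat_lit 5) (nat_lit 6) (nat_lit 4) (nat_lit 4) (nat_lit 4) (nat_lit 482) (nat_lit 398) (nat_lit 320)) (XT.nd (nat_lit 78) (nat_lit 0) (nat_lit 0) (XT.lf (nat_lit 0) (nat_lit 84412956266) (nat_lit 152) (nat_lit 211054048864) (nat_lit 0) (nat_lit 77632429146) (nat_lit 4) (nat_lit 5) (nat_lit 6) (nat_lit 4) (nat_lit 4) (nat_lit 4) (nat_lit 483) (nat_lit 398) (nat_lit 319)) (XT.lf (nat_lit 0) (nat_lit 115370947491) (nat_lit 152) (nat_lit 177007017360) (nat_lit 0) (nat_lit 108589268384) (nat_lit 4) (nat_lit 5) (nat_lit 6) (nat_lit 4) (nat_lit 4) (nat_lit 4) (nat_lit 484) (nat_lit 398) (nat_lit 318))))))) (XT.nd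 (nat_lit 858) (nat_lit 0) (nat_lit 0) (XT.nd (nat_lit 390) (nat_lit 0) (nat_lit 0) (XT.nd (nat_lit 156) (nat_lit 76) (nat_lit 0) (XT.nd (nat_lit 78) (nat_lit 0) (nat_lit 0) (XT.lf (nat_lit 0) (nat_lit 148797534041) (nat_lit 152) (nat_lit 140252777396) (nat_lit 0) (nat_lit 142014788278) (nat_lit 4) (nat_lit 5) (nat_lit 6) (nat_lit 4) (nat_lit 4) (nat_lit 4) (nat_lit 485) (nat_lit 398) (nat_lit 317)) (XT.lf (nat_lit 0) (nat_lit 184890799390) (nat_lit 152) (nat_lit 100573526069) (nat_lit 0) (nat_lit 178107065983) (nat_lit 4) (nat_lit 5) (nat_lit 6) (nat_lit 4) (nat_lit 4) (nat_lit 4) (nat_lit 486) (nat_lit 398) (nat_lit 316))) (XT.nd (nat_lit 78) (nat_lit 76) (nat_lit 0) (XT.lf (nat_lit 0) (nat_lit 223864629556) (nat_lit 152) (nat_lit 57734127075) (nat_lit 0) (nat_lit 217079981663) (nat_lit 4) (nat_lit 5) (nat_lit 6) (nat_lit 4) (nat_lit 4) (nat_lit 4) (nat_lit 487) (nat_lit 398) (nat_lit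 315)) (XT.nd (nat_lit 78) (nat_lit 76) (nat_lit 0) (XT.lf (nat_lit 0) (nat_lit 265949980569) (nat_lit 152) (nat_lit 11480717309) (nat_lit 0) (nat_lit 259164485931) (nat_lit 4) (nat_lit 5) (nat_lit 6) (nat_lit 4) (nat_lit 4) (nat_lit 4) (nat_lit 488) (nat_lit 398) (nat_lit 314)) (XT.lf (nat_lit 0) (nat_lit 40486074948) (nat_lit 76) (nat_lit 271883863229) (nat_lit 76) (nat_lit 265097584568) (nat_lit 3) (nat_lit 4) (nat_lit 4) (nat_lit 5) (nat_lit 4) (nat_lit 4) (nat_lit 489) (nat_lit 398) (nat_lit 313))))) (XT.nd (nat_lit 234) (nat_lit 0) (nat_lit 0) (XT.nd (nat_lit 78) (nat_lit 0) (nat_lit 0) (XT.lf (nat_lit 0) (nat_lit 97251269467) (nat_lit 76) (nat_lit 265560366266) (nat_lit 76) (nat_lit 258773361656) (nat_lit 3) (nat_lit 4) (nat_lit 4) (nat_lit 5) (nat_lit 4) (nat_lit 4) (nat_lit 490) (nat_lit 398) (nat_lit 312)) (XT.nd (nat_lit 78) (nat_lit 0) (nat_lit 0) (XT.lf (nat_lit 0) (nat_lit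 158546698358) (nat_lit 76) (nat_lit 258736637568) (nat_lit 76) (nat_lit 251948960785) (nat_lit 3) (nat_lit 4) (nat_lit 4) (nat_lit 5) (nat_lit 4) (nat_lit 4) (nat_lit 491) (nat_lit 398) (nat_lit 311)) (XT.lf (nat_lit 0) (nat_lit 224735593792) (nat_lit 76) (nat_lit 251372240227) (nat_lit 76) (nat_lit 244583941060) (nat_lit 3) (nat_lit 4) (nat_lit 4) (nat_lit 5) (nat_lit 4) (nat_lit 4) (nat_lit 492) (nat_lit 398) (nat_lit 310)))) (XT.nd (nat_lit 78) (nat_lit 0) (nat_lit 0) (XT.lf (nat_lit 0) (nat_lit 296210186260) (nat_lit 76) (nat_lit 243423533368) (nat_lit 76) (nat_lit 236634657920) (nat_lit 3) (nat_lit 4) (nat_lit 4) (nat_lit 5) (nat_lit 4) (nat_lit 4) (nat_lit 493) (nat_lit 398) (nat_lit 309)) (XT.nd (nat_lit 78) (nat_lit 0) (nat_lit 0) (XT.lf (nat_lit 0) (nat_lit 373394028903) (nat_lit 76) (nat_lit 234843413544) (nat_lit 76) (nat_lit 228054004503) (nat_lit 3) (nat_lit 4) (nat_lit 4)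 (nat_lit 5) (nat_lit 4) (nat_lit 4) (nat_lit 494) (nat_lit 398) (nat_lit 308)) (XT.lf (nat_lit 0) (nat_lit 456744507455) (nat_lit 76) (nat_lit 225581035600) (nat_lit 76) (nat_lit 218791132491) (nat_lit 3) (nat_lit 4) (nat_lit 4) (nat_lit 5) (nat_lit 4) (nat_lit 4) (nat_lit 495) (nat_lit 398) (nat_lit 307)))))) (XT.nd (nat_lit 468) (nat_lit 0) (nat_lit 0) (XT.nd (nat_lit 234) (nat_lit 0) (nat_lit 0) (XT.nd (nat_lit 78) (nat_lit 0) (nat_lit 0) (XT.lf (nat_lit 0) (nat_lit 546755550678) (nat_lit 76) (nat_lit 215581511371) (nat_lit 76) (nat_lit 208791150792) (nat_lit 3) (nat_lit 4) (nat_lit 4) (nat_lit 5) (nat_lit 4) (nat_lit 4) (nat_lit 496) (nat_lit 398) (nat_lit 306)) (XT.nd (nat_lit 78) (nat_lit 0) (nat_lit 0) (XT.lf (nat_lit 0) (nat_lit 643960557346) (nat_lit 76) (nat_lit 204785584417) (nat_lit 76) (nat_lit 197994800254) (nat_lit 3) (nat_lit 4) (nat_lit 4) (nat_lit 5) (nat_lit 4) (nat_lit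 4) (nat_lit 497) (nat_lit 398) (nat_lit 305)) (XT.lf (nat_lit 0) (nat_lit 748935557130) (nat_lit 76) (nat_lit 193129278873) (nat_lit 76) (nat_lit 186338102503) (nat_lit 3) (nat_lit 4) (nat_lit 4) (nat_lit 5) (nat_lit 4) (nat_lit 4) (nat_lit 498) (nat_lit 398) (nat_lit 304)))) (XT.nd (nat_lit 78) (nat_lit 0) (nat_lit 0) (XT.lf (nat_lit 0) (nat_lit 862302624100) (nat_lit 76) (nat_lit 180543520338) (nat_lit 76) (nat_lit 173751980813) (nat_lit 3) (nat_lit 4) (nat_lit 4) (nat_lit 5) (nat_lit 4) (nat_lit 4) (nat_lit 499) (nat_lit 398) (nat_lit 303)) (XT.nd (nat_lit 78) (nat_lit 0) (nat_lit 0) (XT.lf (nat_lit 0) (nat_lit 984733563100) (nat_lit 76) (nat_lit 166953726538) (nat_lit 76) (nat_lit 160161850759) (nat_lit 3) (nat_lit 4) (nat_lit 4) (nat_lit 5) (nat_lit 4) (nat_lit 4) (nat_lit 500) (nat_lit 398) (nat_lit 302)) (XT.lf (nat_lit 0) (nat_lit 1116953890803) (nat_lit 76) (nat_lit 152279365362)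 (nat_lit 76) (nat_lit 145487178236) (nat_lit 3) (nat_lit 4) (nat_lit 4) (nat_lit 5) (nat_lit 4) (nat_lit 4) (nat_lit 501) (nat_lit 398) (nat_lit 301))))) (XT.nd (nat_lit 234) (nat_lit 0) (nat_lit 0) (XT.nd (nat_lit 78) (nat_lit 0) (nat_lit 0) (XT.lf (nat_lit 0) (nat_lit 1259747135079) (nat_lit 76) (nat_lit 136433477632) (nat_lit 76) (nat_lit 129641002223) (nat_lit 3) (nat_lit 4) (nat_lit 4) (nat_lit 5) (nat_lit 4) (nat_lit 4) (nat_lit 502) (nat_lit 398) (nat_lit 300)) (XT.nd (nat_lit 78) (nat_lit 0) (nat_lit 0) (XT.lf (nat_lit 0) (nat_lit 1413959478116) (nat_lit 76) (nat_lit 119322161792) (nat_lit 76) (nat_lit 112529419453) (nat_lit 3) (nat_lit 4) (nat_lit 4) (nat_lit 5) (nat_lit 4) (nat_lit 4) (nat_lit 503) (nat_lit 398) (nat_lit 299)) (XT.lf (nat_lit 0) (nat_lit 1580504770834) (nat_lit 76) (nat_lit 100844017452) (nat_lit 76) (nat_lit 94051027956) (nat_lit 3) (nat_lit 4) (nat_lit 4) (nat_lit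 5) (nat_lit 4) (nat_lit 4) (nat_lit 504) (nat_lit 398) (nat_lit 298)))) (XT.nd (nat_lit 78) (nat_lit 0) (nat_lit 0) (XT.lf (nat_lit 0) (nat_lit 1760369948303) (nat_lit 76) (nat_lit 80889544496) (nat_lit 76) (nat_lit 74096326151) (nat_lit 3) (nat_lit 4) (nat_lit 4) (nat_lit 5) (nat_lit 4) (nat_lit 4) (nat_lit 505) (nat_lit 398) (nat_lit 297)) (XT.nd (nat_lit 78) (nat_lit 0) (nat_lit 0) (XT.lf (nat_lit 0) (nat_lit 1954620878241) (nat_lit 76) (nat_lit 59340494196) (nat_lit 76) (nat_lit 52547063954) (nat_lit 3) (nat_lit 4) (nat_lit 4) (nat_lit 5) (nat_lit 4) (nat_lit 4) (nat_lit 506) (nat_lit 398) (nat_lit 296)) (XT.lf (nat_lit 0) (nat_lit 2164408677268) (nat_lit 76) (nat_lit 36069168477) (nat_lit 76) (nat_lit 29275542033) (nat_lit 3) (nat_lit 4) (nat_lit 4) (nat_lit 5) (nat_lit 4) (nat_lit 4) (nat_lit 507) (nat_lit 398) (nat_lit 295))))))))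
noncomputable def xc89 : XT := (XT.nd (nat_lit 54210) (nat_lit 0) (nat_lit 3420) (XT.nd (nat_lit 858) (nat_lit 0) (nat_lit 0) (XT.nd (nat_lit 390) (nat_lit 0) (nat_lit 0) (XT.nd (nat_lit 156) (nat_lit 0) (nat_lit 0) (XT.nd (nat_lit 78) (nat_lit 152) (nat_lit 0) (XT.lf (nat_lit 0) (nat_lit 2390976532343) (nat_lit 76) (nat_lit 10937663185) (nat_lit 76) (nat_lit 4143855074) (nat_lit 3) (nat_lit 4) (nat_lit 4) (nat_lit 5) (nat_lit 4) (nat_lit 4) (nat_lit 508) (nat_lit 398) (nat_lit 294)) (XT.lf (nat_lit 0) (nat_lit 23254385965) (nat_lit 152) (nat_lit 2556092265204) (nat_lit 0) (nat_lit 16963667149) (nat_lit 1) (nat_lit 5) (nat_lit 3) (nat_lit 4) (nat_lit 1) (nat_lit 4) (nat_lit 509) (nat_lit 398) (nat_lit 293))) (XT.nd (nat_lit 78) (nat_lit 0) (nat_lit 0) (XT.lf (nat_lit 0) (nat_lit 53326403595) (nat_lit 152) (nat_lit 2701355749244) (nat_lit 0) (nat_lit 47035540565) (nat_lit 1) (nat_lit 5)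 (nat_lit 3) (nat_lit 4) (nat_lit 1) (nat_lit 4) (nat_lit 510) (nat_lit 398) (nat_lit 292)) (XT.nd (nat_lit 78) (nat_lit 0) (nat_lit 0) (XT.lf (nat_lit 0) (nat_lit 85802915968) (nat_lit 152) (nat_lit 2858242924469) (nat_lit 0) (nat_lit 79511919406) (nat_lit 1) (nat_lit 5) (nat_lit 3) (nat_lit 4) (nat_lit 1) (nat_lit 4) (nat_lit 511) (nat_lit 398) (nat_lit 291)) (XT.lf (nat_lit 0) (nat_lit 120876376489) (nat_lit 152) (nat_lit 3027683492656) (nat_lit 0) (nat_lit 114585256287) (nat_lit 1) (nat_lit 5) (nat_lit 3) (nat_lit 4) (nat_lit 1) (nat_lit 4) (nat_lit 512) (nat_lit 398) (nat_lit 290))))) (XT.nd (nat_lit 234) (nat_lit 0) (nat_lit 0) (XT.nd (nat_lit 78) (nat_lit 0) (nat_lit 0) (XT.lf (nat_lit 0) (nat_lit 158754627888) (nat_lit 152) (nat_lit 3210681546062) (nat_lit 0) (nat_lit 152463393205) (nat_lit 1) (nat_lit 5) (nat_lit 3) (nat_lit 4) (nat_lit 1) (nat_lit 4) (nat_lit 513) (nat_lit 398)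 (nat_lit 289)) (XT.nd (nat_lit 78) (nat_lit 0) (nat_lit 0) (XT.lf (nat_lit 0) (nat_lit 199662133878) (nat_lit 152) (nat_lit 3408321517597) (nat_lit 0) (nat_lit 193370793193) (nat_lit 1) (nat_lit 5) (nat_lit 3) (nat_lit 4) (nat_lit 1) (nat_lit 4) (nat_lit 514) (nat_lit 398) (nat_lit 288)) (XT.lf (nat_lit 0) (nat_lit 243841309307) (nat_lit 152) (nat_lit 3621774607091) (nat_lit 0) (nat_lit 237549870473) (nat_lit 1) (nat_lit 5) (nat_lit 3) (nat_lit 4) (nat_lit 1) (nat_lit 4) (nat_lit 515) (nat_lit 398) (nat_lit 287)))) (XT.nd (nat_lit 78) (nat_lit 0) (nat_lit 0) (XT.lf (nat_lit 0) (nat_lit 291553956698) (nat_lit 152) (nat_lit 3852305721741) (nat_lit 0) (nat_lit 285262426985) (nat_lit 1) (nat_lit 5) (nat_lit 3) (nat_lit 4) (nat_lit 1) (nat_lit 4) (nat_lit 516) (nat_lit 398) (nat_lit 286)) (XT.nd (nat_lit 78) (nat_lit 0) (nat_lit 0) (XT.lf (nat_lit 0) (nat_lit 343082817665) (nat_lit 152) (nat_lit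 4101280971856) (nat_lit 0) (nat_lit 336791203805) (nat_lit 1) (nat_lit 5) (nat_lit 3) (nat_lit 4) (nat_lit 1) (nat_lit 4) (nat_lit 517) (nat_lit 398) (nat_lit 285)) (XT.lf (nat_lit 0) (nat_lit 398733248421) (nat_lit 152) (nat_lit 4370175766327) (nat_lit 0) (nat_lit 392441556646) (nat_lit 1) (nat_lit 5) (nat_lit 3) (nat_lit 4) (nat_lit 1) (nat_lit 4) (nat_lit 518) (nat_lit 398) (nat_lit 284)))))) (XT.nd (nat_lit 468) (nat_lit 0) (nat_lit 0) (XT.nd (nat_lit 234) (nat_lit 0) (nat_lit 0) (XT.nd (nat_lit 78) (nat_lit 0) (nat_lit 0) (XT.lf (nat_lit 0) (nat_lit 458835029295) (nat_lit 152) (nat_lit 4660583555786) (nat_lit 0) (nat_lit 452543265378) (nat_lit 1) (nat_lit 5) (nat_lit 3) (nat_lit 4) (nat_lit 1) (nat_lit 4) (nat_lit 519) (nat_lit 398) (nat_lit 283)) (XT.nd (nat_lit 78) (nat_lit 0) (nat_lit 0) (XT.lf (nat_lit 0) (nat_lit 523744318990) (nat_lit 152) (nat_lit 4974225275283) (nat_lit 0)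 (nat_lit 517452488274) (nat_lit 1) (nat_lit 5) (nat_lit 3) (nat_lit 4) (nat_lit 1) (nat_lit 4) (nat_lit 520) (nat_lit 398) (nat_lit 282)) (XT.lf (nat_lit 0) (nat_lit 593845765148) (nat_lit 152) (nat_lit 5312959542414) (nat_lit 0) (nat_lit 587553872581) (nat_lit 1) (nat_lit 5) (nat_lit 3) (nat_lit 4) (nat_lit 1) (nat_lit 4) (nat_lit 521) (nat_lit 398) (nat_lit 281)))) (XT.nd (nat_lit 78) (nat_lit 0) (nat_lit 0) (XT.lf (nat_lit 0) (nat_lit 669554783747) (nat_lit 152) (nat_lit 5678793671355) (nat_lit 0) (nat_lit 663262833911) (nat_lit 1) (nat_lit 5) (nat_lit 3) (nat_lit 4) (nat_lit 1) (nat_lit 4) (nat_lit 522) (nat_lit 398) (nat_lit 280)) (XT.nd (nat_lit 78) (nat_lit 0) (nat_lit 0) (XT.lf (nat_lit 0) (nat_lit 751320020822) (nat_lit 152) (nat_lit 6073895568056) (nat_lit 0) (nat_lit 745028017959) (nat_lit 1) (nat_lit 5) (nat_lit 3) (nat_lit 4) (nat_lit 1) (nat_lit 4) (nat_lit 523) (nat_lit 398)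 (nat_lit 279)) (XT.lf (nat_lit 0) (nat_lit 839626011112) (nat_lit 152) (nat_lit 6500606577089) (nat_lit 0) (nat_lit 833333959150) (nat_lit 1) (nat_lit 5) (nat_lit 3) (nat_lit 4) (nat_lit 1) (nat_lit 4) (nat_lit 524) (nat_lit 398) (nat_lit 278))))) (XT.nd (nat_lit 234) (nat_lit 0) (nat_lit 0) (XT.nd (nat_lit 78) (nat_lit 0) (nat_lit 0) (XT.lf (nat_lit 0) (nat_lit 934996049375) (nat_lit 152) (nat_lit 6961455356286) (nat_lit 0) (nat_lit 928703951950) (nat_lit 1) (nat_lit 5) (nat_lit 3) (nat_lit 4) (nat_lit 1) (nat_lit 4) (nat_lit 525) (nat_lit 398) (nat_lit 277)) (XT.nd (nat_lit 78) (nat_lit 0) (nat_lit 0) (XT.lf (nat_lit 0) (nat_lit 1037995291391) (nat_lit 152) (nat_lit 7459172861376) (nat_lit 0) (nat_lit 1031703151872) (nat_lit 1) (nat_lit 5) (nat_lit 3) (nat_lit 4) (nat_lit 1) (nat_lit 4) (nat_lit 526) (nat_lit 398) (nat_lit 276)) (XT.lf (nat_lit 0) (nat_lit 1149234103041) (nat_lit 152)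 (nat_lit 7996708529425) (nat_lit 0) (nat_lit 1142941924545) (nat_lit 1) (nat_lit 5) (nat_lit 3) (nat_lit 4) (nat_lit 1) (nat_lit 4) (nat_lit 527) (nat_lit 398) (nat_lit 275)))) (XT.nd (nat_lit 78) (nat_lit 0) (nat_lit 0) (XT.lf (nat_lit 0) (nat_lit 1269371677281) (nat_lit 152) (nat_lit 8577247756985) (nat_lit 0) (nat_lit 1263079462696) (nat_lit 1) (nat_lit 5) (nat_lit 3) (nat_lit 4) (nat_lit 1) (nat_lit 4) (nat_lit 528) (nat_lit 398) (nat_lit 274)) (XT.nd (nat_lit 78) (nat_lit 0) (nat_lit 0) (XT.lf (nat_lit 0) (nat_lit 1399119940479) (nat_lit 152) (nat_lit 9204230776515) (nat_lit 0) (nat_lit 1392827692478) (nat_lit 1) (nat_lit 5) (nat_lit 3) (nat_lit 4) (nat_lit 1) (nat_lit 4) (nat_lit 529) (nat_lit 398) (nat_lit 273)) (XT.lf (nat_lit 0) (nat_lit 1539247771229) (nat_lit 152) (nat_lit 9881373042946) (nat_lit 0) (nat_lit 1532955492288) (nat_lit 1) (nat_lit 5) (nat_lit 3) (nat_lit 4) (nat_lit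 1) (nat_lit 4) (nat_lit 530) (nat_lit 398) (nat_lit 272))))))) (XT.nd (nat_lit 936) (nat_lit 1520) (nat_lit 0) (XT.nd (nat_lit 468) (nat_lit 1748) (nat_lit 0) (XT.nd (nat_lit 234) (nat_lit 608) (nat_lit 0) (XT.nd (nat_lit 78) (nat_lit 228) (nat_lit 0) (XT.lf (nat_lit 0) (nat_lit 137394095) (nat_lit 76) (nat_lit 1548259244) (nat_lit 76) (nat_lit 1548259244) (nat_lit 100) (nat_lit 4) (nat_lit 101) (nat_lit 5) (nat_lit 101) (nat_lit 4) (nat_lit 402) (nat_lit 399) (nat_lit 399)) (XT.nd (nat_lit 78) (nat_lit 152) (nat_lit 0) (XT.lf (nat_lit 0) (nat_lit 102290256) (nat_lit 152) (nat_lit 2524062777) (nat_lit 76) (nat_lit 3880168700) (nat_lit 99) (nat_lit 5) (nat_lit 101) (nat_lit 5) (nat_lit 100) (nat_lit 4) (nat_lit 403) (nat_lit 399) (nat_lit 398)) (XT.lf (nat_lit 0) (nat_lit 1223547585) (nat_lit 152) (nat_lit 1898795067) (nat_lit 228) (nat_lit 3441115649) (nat_lit 97) (nat_lit 5) (nat_lit 99)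 (nat_lit 5) (nat_lit 100) (nat_lit 4) (nat_lit 404) (nat_lit 399) (nat_lit 397)))) (XT.nd (nat_lit 78) (nat_lit 608) (nat_lit 0) (XT.lf (nat_lit 0) (nat_lit 5223806339) (nat_lit 152) (nat_lit 949808605) (nat_lit 228) (nat_lit 468340699) (nat_lit 97) (nat_lit 5) (nat_lit 99) (nat_lit 5) (nat_lit 100) (nat_lit 4) (nat_lit 405) (nat_lit 399) (nat_lit 396)) (XT.nd (nat_lit 78) (nat_lit 304) (nat_lit 0) (XT.lf (nat_lit 0) (nat_lit 2411334195) (nat_lit 304) (nat_lit 4049141416) (nat_lit 76) (nat_lit 276630640) (nat_lit 93) (nat_lit 5) (nat_lit 97) (nat_lit 5) (nat_lit 94) (nat_lit 4) (nat_lit 406) (nat_lit 399) (nat_lit 395)) (XT.lf (nat_lit 0) (nat_lit 127376261) (nat_lit 304) (nat_lit 5187398230) (nat_lit 380) (nat_lit 1538764730) (nat_lit 89) (nat_lit 5) (nat_lit 93) (nat_lit 5) (nat_lit 94) (nat_lit 4) (nat_lit 407) (nat_lit 399) (nat_lit 394))))) (XT.nd (nat_lit 234) (nat_lit 1292) (nat_lit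 0) (XT.nd (nat_lit 78) (nat_lit 380) (nat_lit 0) (XT.lf (nat_lit 0) (nat_lit 1269704178) (nat_lit 380) (nat_lit 2355580194) (nat_lit 76) (nat_lit 3361523306) (nat_lit 88) (nat_lit 5) (nat_lit 93) (nat_lit 5) (nat_lit 89) (nat_lit 5) (nat_lit 408) (nat_lit 399) (nat_lit 393)) (XT.nd (nat_lit 78) (nat_lit 0) (nat_lit 0) (XT.lf (nat_lit 0) (nat_lit 2237356850) (nat_lit 380) (nat_lit 1812567336) (nat_lit 456) (nat_lit 3091309792) (nat_lit 83) (nat_lit 5) (nat_lit 88) (nat_lit 5) (nat_lit 89) (nat_lit 5) (nat_lit 409) (nat_lit 399) (nat_lit 392)) (XT.lf (nat_lit 0) (nat_lit 6910843617) (nat_lit 456) (nat_lit 187995101) (nat_lit 76) (nat_lit 220615289) (nat_lit 83) (nat_lit 5) (nat_lit 89) (nat_lit 5) (nat_lit 84) (nat_lit 4) (nat_lit 410) (nat_lit 399) (nat_lit 391)))) (XT.nd (nat_lit 78) (nat_lit 760) (nat_lit 0) (XT.lf (nat_lit 0) (nat_lit 2332797299) (nat_lit 532) (nat_lit 2665934489) (nat_lit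 76) (nat_lit 2511012177) (nat_lit 76) (nat_lit 5) (nat_lit 83) (nat_lit 5) (nat_lit 77) (nat_lit 5) (nat_lit 411) (nat_lit 399) (nat_lit 390)) (XT.nd (nat_lit 78) (nat_lit 304) (nat_lit 0) (XT.lf (nat_lit 0) (nat_lit 2486500182) (nat_lit 456) (nat_lit 2659368717) (nat_lit 532) (nat_lit 2578666119) (nat_lit 70) (nat_lit 5) (nat_lit 76) (nat_lit 5) (nat_lit 77) (nat_lit 5) (nat_lit 412) (nat_lit 399) (nat_lit 389)) (XT.lf (nat_lit 0) (nat_lit 40829394) (nat_lit 228) (nat_lit 65015751) (nat_lit 304) (nat_lit 7859116273) (nat_lit 66) (nat_lit 5) (nat_lit 69) (nat_lit 5) (nat_lit 70) (nat_lit 5) (nat_lit 413) (nat_lit 399) (nat_lit 388)))))) (XT.nd (nat_lit 468) (nat_lit 684) (nat_lit 0) (XT.nd (nat_lit 234) (nat_lit 380) (nat_lit 0) (XT.nd (nat_lit 78) (nat_lit 456) (nat_lit 0) (XT.lf (nat_lit 0) (nat_lit 2900926482) (nat_lit 304) (nat_lit 2524153403) (nat_lit 76) (nat_lit 2791438234) (nat_lit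 66) (nat_lit 5) (nat_lit 70) (nat_lit 5) (nat_lit 67) (nat_lit 5) (nat_lit 414) (nat_lit 399) (nat_lit 387)) (XT.nd (nat_lit 78) (nat_lit 228) (nat_lit 0) (XT.lf (nat_lit 0) (nat_lit 3271294029) (nat_lit 228) (nat_lit 2564206750) (nat_lit 304) (nat_lit 2659487278) (nat_lit 63) (nat_lit 5) (nat_lit 66) (nat_lit 5) (nat_lit 67) (nat_lit 5) (nat_lit 415) (nat_lit 399) (nat_lit 386)) (XT.lf (nat_lit 0) (nat_lit 139532144) (nat_lit 228) (nat_lit 8104868707) (nat_lit 76) (nat_lit 555712567) (nat_lit 60) (nat_lit 5) (nat_lit 63) (nat_lit 5) (nat_lit 61) (nat_lit 5) (nat_lit 416) (nat_lit 399) (nat_lit 385)))) (XT.nd (nat_lit 78) (nat_lit 380) (nat_lit 0) (XT.lf (nat_lit 0) (nat_lit 3077016556) (nat_lit 228) (nat_lit 2081040250) (nat_lit 76) (nat_lit 3961455137) (nat_lit 60) (nat_lit 5) (nat_lit 63) (nat_lit 5) (nat_lit 61) (nat_lit 5) (nat_lit 417) (nat_lit 399) (nat_lit 384)) (XT.nd (nat_lit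 78) (nat_lit 152) (nat_lit 0) (XT.lf (nat_lit 0) (nat_lit 4454759994) (nat_lit 228) (nat_lit 1758439088) (nat_lit 304) (nat_lit 3254211137) (nat_lit 57) (nat_lit 5) (nat_lit 60) (nat_lit 5) (nat_lit 61) (nat_lit 5) (nat_lit 418) (nat_lit 399) (nat_lit 383)) (XT.lf (nat_lit 0) (nat_lit 1629501460) (nat_lit 152) (nat_lit 7975804956) (nat_lit 228) (nat_lit 237472098) (nat_lit 55) (nat_lit 5) (nat_lit 57) (nat_lit 5) (nat_lit 58) (nat_lit 4) (nat_lit 419) (nat_lit 399) (nat_lit 382))))) (XT.nd (nat_lit 234) (nat_lit 304) (nat_lit 0) (XT.nd (nat_lit 78) (nat_lit 304) (nat_lit 0) (XT.lf (nat_lit 0) (nat_lit 2919383730) (nat_lit 228) (nat_lit 1470914554) (nat_lit 76) (nat_lit 5848110675) (nat_lit 54) (nat_lit 5) (nat_lit 57) (nat_lit 5) (nat_lit 55) (nat_lit 5) (nat_lit 420) (nat_lit 399) (nat_lit 381)) (XT.nd (nat_lit 78) (nat_lit 152) (nat_lit 0) (XT.lf (nat_lit 0) (nat_lit 5915471199) (nat_lit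 152) (nat_lit 416450934) (nat_lit 228) (nat_lit 4332029363) (nat_lit 52) (nat_lit 5) (nat_lit 54) (nat_lit 5) (nat_lit 55) (nat_lit 5) (nat_lit 421) (nat_lit 399) (nat_lit 380)) (XT.lf (nat_lit 0) (nat_lit 2708612473) (nat_lit 152) (nat_lit 7385747270) (nat_lit 228) (nat_lit 1023055827) (nat_lit 50) (nat_lit 5) (nat_lit 52) (nat_lit 5) (nat_lit 53) (nat_lit 4) (nat_lit 422) (nat_lit 399) (nat_lit 379)))) (XT.nd (nat_lit 78) (nat_lit 228) (nat_lit 0) (XT.lf (nat_lit 0) (nat_lit 2445927298) (nat_lit 228) (nat_lit 830343010) (nat_lit 76) (nat_lit 8324173814) (nat_lit 49) (nat_lit 5) (nat_lit 52) (nat_lit 5) (nat_lit 50) (nat_lit 5) (nat_lit 423) (nat_lit 399) (nat_lit 378)) (XT.nd (nat_lit 78) (nat_lit 76) (nat_lit 0) (XT.lf (nat_lit 0) (nat_lit 6237842989) (nat_lit 228) (nat_lit 4618151551) (nat_lit 76) (nat_lit 1255963424) (nat_lit 47) (nat_lit 5) (nat_lit 50) (nat_lit 5) (nat_lit 48) (nat_lit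 4) (nat_lit 424) (nat_lit 399) (nat_lit 377)) (XT.lf (nat_lit 0) (nat_lit 3793695365) (nat_lit 76) (nat_lit 6629524411) (nat_lit 152) (nat_lit 2233986431) (nat_lit 46) (nat_lit 5) (nat_lit 47) (nat_lit 5) (nat_lit 48) (nat_lit 4) (nat_lit 425) (nat_lit 399) (nat_lit 376))))))))
noncomputable def xc90 : XT := (XT.nd (nat_lit 1794) (nat_lit 1140) (nat_lit 0) (XT.nd (nat_lit 858) (nat_lit 760) (nat_lit 0) (XT.nd (nat_lit 390) (nat_lit 532) (nat_lit 0) (XT.nd (nat_lit 156) (nat_lit 304) (nat_lit 0) (XT.nd (nat_lit 78) (nat_lit 152) (nat_lit 0) (XT.lf (nat_lit 0) (nat_lit 1633627040) (nat_lit 152) (nat_lit 319067301) (nat_lit 76) (nat_lit 11288438405) (nat_lit 45) (nat_lit 5) (nat_lit 47) (nat_lit 5) (nat_lit 46) (nat_lit 5) (nat_lit 426) (nat_lit 399) (nat_lit 375)) (XT.lf (nat_lit 0) (nat_lit 5889603008) (nat_lit 228) (nat_lit 4796303752) (nat_lit 76) (nat_lit 3165270263) (nat_lit 43) (nat_lit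 5) (nat_lit 46) (nat_lit 5) (nat_lit 44) (nat_lit 4) (nat_lit 427) (nat_lit 399) (nat_lit 374))) (XT.nd (nat_lit 78) (nat_lit 228) (nat_lit 0) (XT.lf (nat_lit 0) (nat_lit 4703134286) (nat_lit 76) (nat_lit 5857306873) (nat_lit 152) (nat_lit 3943649067) (nat_lit 42) (nat_lit 5) (nat_lit 43) (nat_lit 5) (nat_lit 44) (nat_lit 4) (nat_lit 428) (nat_lit 399) (nat_lit 373)) (XT.nd (nat_lit 78) (nat_lit 152) (nat_lit 0) (XT.lf (nat_lit 0) (nat_lit 412914216) (nat_lit 152) (nat_lit 145986972) (nat_lit 76) (nat_lit 14646627817) (nat_lit 41) (nat_lit 5) (nat_lit 43) (nat_lit 5) (nat_lit 42) (nat_lit 5) (nat_lit 429) (nat_lit 399) (nat_lit 372)) (XT.lf (nat_lit 0) (nat_lit 5200166421) (nat_lit 228) (nat_lit 5524023905) (nat_lit 76) (nat_lit 5207092888) (nat_lit 39) (nat_lit 5) (nat_lit 42) (nat_lit 5) (nat_lit 40) (nat_lit 4) (nat_lit 430) (nat_lit 399) (nat_lit 371))))) (XT.nd (nat_lit 234) (nat_lit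 228) (nat_lit 0) (XT.nd (nat_lit 78) (nat_lit 228) (nat_lit 0) (XT.lf (nat_lit 0) (nat_lit 5184528792) (nat_lit 76) (nat_lit 5240276835) (nat_lit 152) (nat_lit 6285951428) (nat_lit 38) (nat_lit 5) (nat_lit 39) (nat_lit 5) (nat_lit 40) (nat_lit 4) (nat_lit 431) (nat_lit 399) (nat_lit 370)) (XT.nd (nat_lit 78) (nat_lit 228) (nat_lit 0) (XT.lf (nat_lit 0) (nat_lit 16151115922) (nat_lit 152) (nat_lit 656642713) (nat_lit 0) (nat_lit 738145140) (nat_lit 38) (nat_lit 5) (nat_lit 40) (nat_lit 4) (nat_lit 38) (nat_lit 4) (nat_lit 432) (nat_lit 399) (nat_lit 369)) (XT.lf (nat_lit 0) (nat_lit 4030024722) (nat_lit 228) (nat_lit 7156498038) (nat_lit 76) (nat_lit 7226922363) (nat_lit 35) (nat_lit 5) (nat_lit 38) (nat_lit 5) (nat_lit 36) (nat_lit 4) (nat_lit 433) (nat_lit 399) (nat_lit 368)))) (XT.nd (nat_lit 78) (nat_lit 152) (nat_lit 0) (XT.lf (nat_lit 0) (nat_lit 4870558186) (nat_lit 76) (nat_lit 4997785357)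 (nat_lit 152) (nat_lit 9474766599) (nat_lit 34) (nat_lit 5) (nat_lit 35) (nat_lit 5) (nat_lit 36) (nat_lit 4) (nat_lit 434) (nat_lit 399) (nat_lit 367)) (XT.nd (nat_lit 78) (nat_lit 152) (nat_lit 0) (XT.lf (nat_lit 0) (nat_lit 16335249060) (nat_lit 152) (nat_lit 2259665126) (nat_lit 0) (nat_lit 1739320544) (nat_lit 34) (nat_lit 5) (nat_lit 36) (nat_lit 4) (nat_lit 34) (nat_lit 4) (nat_lit 435) (nat_lit 399) (nat_lit 366)) (XT.lf (nat_lit 0) (nat_lit 2153394909) (nat_lit 152) (nat_lit 10209465194) (nat_lit 76) (nat_lit 9011365811) (nat_lit 32) (nat_lit 5) (nat_lit 34) (nat_lit 5) (nat_lit 33) (nat_lit 4) (nat_lit 436) (nat_lit 399) (nat_lit 365)))))) (XT.nd (nat_lit 468) (nat_lit 380) (nat_lit 0) (XT.nd (nat_lit 234) (nat_lit 228) (nat_lit 0) (XT.nd (nat_lit 78) (nat_lit 76) (nat_lit 0) (XT.lf (nat_lit 0) (nat_lit 3215945485) (nat_lit 76) (nat_lit 5433194448) (nat_lit 152) (nat_lit 13834595429)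 (nat_lit 31) (nat_lit 5) (nat_lit 32) (nat_lit 5) (nat_lit 33) (nat_lit 4) (nat_lit 437) (nat_lit 399) (nat_lit 364)) (XT.nd (nat_lit 78) (nat_lit 76) (nat_lit 0) (XT.lf (nat_lit 0) (nat_lit 15927415151) (nat_lit 152) (nat_lit 5559534426) (nat_lit 0) (nat_lit 2174032268) (nat_lit 31) (nat_lit 5) (nat_lit 33) (nat_lit 4) (nat_lit 31) (nat_lit 4) (nat_lit 438) (nat_lit 399) (nat_lit 363)) (XT.lf (nat_lit 0) (nat_lit 9447902794) (nat_lit 76) (nat_lit 14640942283) (nat_lit 76) (nat_lit 819497039) (nat_lit 30) (nat_lit 4) (nat_lit 31) (nat_lit 5) (nat_lit 31) (nat_lit 4) (nat_lit 439) (nat_lit 399) (nat_lit 362)))) (XT.nd (nat_lit 78) (nat_lit 152) (nat_lit 0) (XT.lf (nat_lit 0) (nat_lit 6403925062) (nat_lit 152) (nat_lit 564301816) (nat_lit 76) (nat_lit 19267377117) (nat_lit 29) (nat_lit 5) (nat_lit 31) (nat_lit 5) (nat_lit 30) (nat_lit 4) (nat_lit 440) (nat_lit 399) (nat_lit 361)) (XT.nd (nat_lit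 78) (nat_lit 76) (nat_lit 0) (XT.lf (nat_lit 0) (nat_lit 14529162195) (nat_lit 152) (nat_lit 11489583791) (nat_lit 0) (nat_lit 1619145111) (nat_lit 28) (nat_lit 5) (nat_lit 30) (nat_lit 4) (nat_lit 28) (nat_lit 4) (nat_lit 441) (nat_lit 399) (nat_lit 360)) (XT.lf (nat_lit 0) (nat_lit 5028928846) (nat_lit 76) (nat_lit 18531500221) (nat_lit 76) (nat_lit 5571455271) (nat_lit 27) (nat_lit 4) (nat_lit 28) (nat_lit 5) (nat_lit 28) (nat_lit 4) (nat_lit 442) (nat_lit 399) (nat_lit 359))))) (XT.nd (nat_lit 234) (nat_lit 228) (nat_lit 0) (XT.nd (nat_lit 78) (nat_lit 76) (nat_lit 0) (XT.lf (nat_lit 0) (nat_lit 2701042469) (nat_lit 152) (nat_lit 7388198713) (nat_lit 76) (nat_lit 20630357416) (nat_lit 26) (nat_lit 5) (nat_lit 28) (nat_lit 5) (nat_lit 27) (nat_lit 4) (nat_lit 443) (nat_lit 399) (nat_lit 358)) (XT.nd (nat_lit 78) (nat_lit 0) (nat_lit 0) (XT.lf (nat_lit 0) (nat_lit 10955645996) (nat_lit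 76) (nat_lit 585173175) (nat_lit 152) (nat_lit 20865418383) (nat_lit 25) (nat_lit 5) (nat_lit 26) (nat_lit 5) (nat_lit 27) (nat_lit 4) (nat_lit 444) (nat_lit 399) (nat_lit 357)) (XT.lf (nat_lit 0) (nat_lit 21471146326) (nat_lit 152) (nat_lit 3374266636) (nat_lit 0) (nat_lit 9351728163) (nat_lit 25) (nat_lit 5) (nat_lit 27) (nat_lit 4) (nat_lit 25) (nat_lit 4) (nat_lit 445) (nat_lit 399) (nat_lit 356)))) (XT.nd (nat_lit 78) (nat_lit 152) (nat_lit 0) (XT.lf (nat_lit 0) (nat_lit 16873568847) (nat_lit 76) (nat_lit 15690867130) (nat_lit 76) (nat_lit 3537400843) (nat_lit 24) (nat_lit 4) (nat_lit 25) (nat_lit 5) (nat_lit 25) (nat_lit 4) (nat_lit 446) (nat_lit 399) (nat_lit 355)) (XT.nd (nat_lit 78) (nat_lit 0) (nat_lit 0) (XT.lf (nat_lit 0) (nat_lit 549482990) (nat_lit 76) (nat_lit 5572860913) (nat_lit 152) (nat_lit 32019836932) (nat_lit 22) (nat_lit 5) (nat_lit 23) (nat_lit 5) (nat_lit 24) (nat_lit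 4) (nat_lit 447) (nat_lit 399) (nat_lit 354)) (XT.lf (nat_lit 0) (nat_lit 16979829043) (nat_lit 152) (nat_lit 17638889037) (nat_lit 0) (nat_lit 5670400239) (nat_lit 22) (nat_lit 5) (nat_lit 24) (nat_lit 4) (nat_lit 22) (nat_lit 4) (nat_lit 448) (nat_lit 399) (nat_lit 353))))))) (XT.nd (nat_lit 936) (nat_lit 456) (nat_lit 0) (XT.nd (nat_lit 468) (nat_lit 380) (nat_lit 0) (XT.nd (nat_lit 234) (nat_lit 76) (nat_lit 0) (XT.nd (nat_lit 78) (nat_lit 152) (nat_lit 0) (XT.lf (nat_lit 0) (nat_lit 3863575988) (nat_lit 76) (nat_lit 25031768743) (nat_lit 76) (nat_lit 13697313550) (nat_lit 21) (nat_lit 4) (nat_lit 22) (nat_lit 5) (nat_lit 22) (nat_lit 4) (nat_lit 449) (nat_lit 399) (nat_lit 352)) (XT.nd (nat_lit 78) (nat_lit 152) (nat_lit 0) (XT.lf (nat_lit 0) (nat_lit 27995641592) (nat_lit 76) (nat_lit 14203820335) (nat_lit 76) (nat_lit 2846192559) (nat_lit 21) (nat_lit 4) (nat_lit 22) (nat_lit 5)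 (nat_lit 22) (nat_lit 4) (nat_lit 450) (nat_lit 399) (nat_lit 351)) (XT.lf (nat_lit 0) (nat_lit 6379997887) (nat_lit 76) (nat_lit 2158022188) (nat_lit 152) (nat_lit 39131090910) (nat_lit 19) (nat_lit 5) (nat_lit 20) (nat_lit 5) (nat_lit 21) (nat_lit 4) (nat_lit 451) (nat_lit 399) (nat_lit 350)))) (XT.nd (nat_lit 78) (nat_lit 76) (nat_lit 0) (XT.lf (nat_lit 0) (nat_lit 21374057396) (nat_lit 152) (nat_lit 18247411957) (nat_lit 0) (nat_lit 10819473485) (nat_lit 19) (nat_lit 5) (nat_lit 21) (nat_lit 4) (nat_lit 19) (nat_lit 4) (nat_lit 452) (nat_lit 399) (nat_lit 349)) (XT.nd (nat_lit 78) (nat_lit 0) (nat_lit 0) (XT.lf (nat_lit 0) (nat_lit 6841099615) (nat_lit 76) (nat_lit 28575341200) (nat_lit 76) (nat_lit 18003724749) (nat_lit 18) (nat_lit 4) (nat_lit 19) (nat_lit 5) (nat_lit 19) (nat_lit 4) (nat_lit 453) (nat_lit 399) (nat_lit 348)) (XT.lf (nat_lit 0) (nat_lit 34893839440) (nat_lit 76) (nat_lit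 16147281393) (nat_lit 76) (nat_lit 5559894072) (nat_lit 18) (nat_lit 4) (nat_lit 19) (nat_lit 5) (nat_lit 19) (nat_lit 4) (nat_lit 454) (nat_lit 399) (nat_lit 347))))) (XT.nd (nat_lit 234) (nat_lit 228) (nat_lit 0) (XT.nd (nat_lit 78) (nat_lit 0) (nat_lit 0) (XT.lf (nat_lit 0) (nat_lit 5145744969) (nat_lit 76) (nat_lit 2425281447) (nat_lit 152) (nat_lit 52443287203) (nat_lit 16) (nat_lit 5) (nat_lit 17) (nat_lit 5) (nat_lit 18) (nat_lit 4) (nat_lit 455) (nat_lit 399) (nat_lit 346)) (XT.nd (nat_lit 78) (nat_lit 0) (nat_lit 0) (XT.lf (nat_lit 0) (nat_lit 22321160189) (nat_lit 152) (nat_lit 28806451181) (nat_lit 0) (nat_lit 12491983376) (nat_lit 16) (nat_lit 5) (nat_lit 18) (nat_lit 4) (nat_lit 16) (nat_lit 4) (nat_lit 456) (nat_lit 399) (nat_lit 345)) (XT.lf (nat_lit 0) (nat_lit 38279208496) (nat_lit 152) (nat_lit 793418871) (nat_lit 0) (nat_lit 28438439623) (nat_lit 16) (nat_lit 5) (nat_lit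 18) (nat_lit 4) (nat_lit 16) (nat_lit 4) (nat_lit 457) (nat_lit 399) (nat_lit 344)))) (XT.nd (nat_lit 78) (nat_lit 152) (nat_lit 0) (XT.lf (nat_lit 0) (nat_lit 30942740719) (nat_lit 76) (nat_lit 25282842412) (nat_lit 76) (nat_lit 15431340151) (nat_lit 15) (nat_lit 4) (nat_lit 16) (nat_lit 5) (nat_lit 16) (nat_lit 4) (nat_lit 458) (nat_lit 399) (nat_lit 343)) (XT.nd (nat_lit 78) (nat_lit 152) (nat_lit 0) (XT.lf (nat_lit 0) (nat_lit 65198784732) (nat_lit 76) (nat_lit 10398949697) (nat_lit 76) (nat_lit 537509113) (nat_lit 15) (nat_lit 4) (nat_lit 16) (nat_lit 5) (nat_lit 16) (nat_lit 4) (nat_lit 459) (nat_lit 399) (nat_lit 342)) (XT.lf (nat_lit 0) (nat_lit 15425449559) (nat_lit 152) (nat_lit 59178070036) (nat_lit 0) (nat_lit 6285965544) (nat_lit 13) (nat_lit 5) (nat_lit 15) (nat_lit 4) (nat_lit 13) (nat_lit 4) (nat_lit 460) (nat_lit 399) (nat_lit 341)))))) (XT.nd (nat_lit 468) (nat_lit 228)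 (nat_lit 0) (XT.nd (nat_lit 234) (nat_lit 152) (nat_lit 0) (XT.nd (nat_lit 78) (nat_lit 76) (nat_lit 0) (XT.lf (nat_lit 0) (nat_lit 33183322570) (nat_lit 152) (nat_lit 28759924666) (nat_lit 0) (nat_lit 24035949194) (nat_lit 13) (nat_lit 5) (nat_lit 15) (nat_lit 4) (nat_lit 13) (nat_lit 4) (nat_lit 461) (nat_lit 399) (nat_lit 340)) (XT.nd (nat_lit 78) (nat_lit 0) (nat_lit 0) (XT.lf (nat_lit 0) (nat_lit 4247642995) (nat_lit 76) (nat_lit 48188584207) (nat_lit 76) (nat_lit 39033905867) (nat_lit 12) (nat_lit 4) (nat_lit 13) (nat_lit 5) (nat_lit 13) (nat_lit 4) (nat_lit 462) (nat_lit 399) (nat_lit 339)) (XT.lf (nat_lit 0) (nat_lit 41476335550) (nat_lit 76) (nat_lit 32512352944) (nat_lit 76) (nat_lit 23350910748) (nat_lit 12) (nat_lit 4) (nat_lit 13) (nat_lit 5) (nat_lit 13) (nat_lit 4) (nat_lit 463) (nat_lit 399) (nat_lit 338)))) (XT.nd (nat_lit 78) (nat_lit 152) (nat_lit 0) (XT.lf (nat_lit 0)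 (nat_lit 81632320808) (nat_lit 76) (nat_lit 15608004568) (nat_lit 76) (nat_lit 6440299543) (nat_lit 12) (nat_lit 4) (nat_lit 13) (nat_lit 5) (nat_lit 13) (nat_lit 4) (nat_lit 464) (nat_lit 399) (nat_lit 337)) (XT.nd (nat_lit 78) (nat_lit 0) (nat_lit 0) (XT.lf (nat_lit 0) (nat_lit 11645688120) (nat_lit 152) (nat_lit 95675676595) (nat_lit 0) (nat_lit 3151702989) (nat_lit 10) (nat_lit 5) (nat_lit 12) (nat_lit 4) (nat_lit 10) (nat_lit 4) (nat_lit 465) (nat_lit 399) (nat_lit 336)) (XT.lf (nat_lit 0) (nat_lit 31830786543) (nat_lit 152) (nat_lit 62552893537) (nat_lit 0) (nat_lit 23331829776) (nat_lit 10) (nat_lit 5) (nat_lit 12) (nat_lit 4) (nat_lit 10) (nat_lit 4) (nat_lit 466) (nat_lit 399) (nat_lit 335))))) (XT.nd (nat_lit 234) (nat_lit 152) (nat_lit 0) (XT.nd (nat_lit 78) (nat_lit 76) (nat_lit 0) (XT.lf (nat_lit 0) (nat_lit 53608724880) (nat_lit 152) (nat_lit 26825215559) (nat_lit 0) (nat_lit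 45105164747) (nat_lit 10) (nat_lit 5) (nat_lit 12) (nat_lit 4) (nat_lit 10) (nat_lit 4) (nat_lit 467) (nat_lit 399) (nat_lit 334)) (XT.nd (nat_lit 78) (nat_lit 0) (nat_lit 0) (XT.lf (nat_lit 0) (nat_lit 12336182732) (nat_lit 76) (nat_lit 65069060342) (nat_lit 76) (nat_lit 56561237831) (nat_lit 9) (nat_lit 4) (nat_lit 10) (nat_lit 5) (nat_lit 10) (nat_lit 4) (nat_lit 468) (nat_lit 399) (nat_lit 333)) (XT.lf (nat_lit 0) (nat_lit 56115520078) (nat_lit 76) (nat_lit 47703602446) (nat_lit 76) (nat_lit 39191833291) (nat_lit 9) (nat_lit 4) (nat_lit 10) (nat_lit 5) (nat_lit 10) (nat_lit 4) (nat_lit 469) (nat_lit 399) (nat_lit 332)))) (XT.nd (nat_lit 78) (nat_lit 152) (nat_lit 0) (XT.lf (nat_lit 0) (nat_lit 103359661276) (nat_lit 76) (nat_lit 28968109268) (nat_lit 76) (nat_lit 20452685812) (nat_lit 9) (nat_lit 4) (nat_lit 10) (nat_lit 5) (nat_lit 10) (nat_lit 4) (nat_lit 470) (nat_lit 399) (nat_lit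 331)) (XT.nd (nat_lit 78) (nat_lit 152) (nat_lit 0) (XT.lf (nat_lit 0) (nat_lit 154348571605) (nat_lit 76) (nat_lit 8751555662) (nat_lit 76) (nat_lit 232748595) (nat_lit 9) (nat_lit 4) (nat_lit 10) (nat_lit 5) (nat_lit 10) (nat_lit 4) (nat_lit 471) (nat_lit 399) (nat_lit 330)) (XT.lf (nat_lit 0) (nat_lit 21722220339) (nat_lit 152) (nat_lit 139038310424) (nat_lit 0) (nat_lit 13831535115) (nat_lit 7) (nat_lit 5) (nat_lit 9) (nat_lit 4) (nat_lit 7) (nat_lit 4) (nat_lit 472) (nat_lit 399) (nat_lit 329))))))))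
noncomputable def xc91 : XT := (XT.nd (nat_lit 1794) (nat_lit 152) (nat_lit 0) (XT.nd (nat_lit 858) (nat_lit 76) (nat_lit 0) (XT.nd (nat_lit 390) (nat_lit 152) (nat_lit 0) (XT.nd (nat_lit 156) (nat_lit 76) (nat_lit 0) (XT.nd (nat_lit 78) (nat_lit 0) (nat_lit 0) (XT.lf (nat_lit 0) (nat_lit 45884243024) (nat_lit 152) (nat_lit 102839334415) (nat_lit 0) (nat_lit 37990871780) (nat_lit 7) (nat_lit 5) (nat_lit 9) (nat_lit 4) (nat_lit 7) (nat_lit 4) (nat_lit 473) (nat_lit 399) (nat_lit 328)) (XT.lf (nat_lit 0) (nat_lit 71964311170) (nat_lit 152) (nat_lit 63775052700) (nat_lit 0) (nat_lit 64068452870) (nat_lit 7) (nat_lit 5) (nat_lit 9) (nat_lit 4) (nat_lit 7) (nat_lit 4) (nat_lit 474) (nat_lit 399) (nat_lit 327))) (XT.nd (nat_lit 78) (nat_lit 76) (nat_lit 0) (XT.lf (nat_lit 0) (nat_lit 100116973326) (nat_lit 152) (nat_lit 21613973237) (nat_lit 0) (nat_lit 92218812197) (nat_lit 7) (nat_lit 5) (nat_lit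 9) (nat_lit 4) (nat_lit 7) (nat_lit 4) (nat_lit 475) (nat_lit 399) (nat_lit 326)) (XT.nd (nat_lit 78) (nat_lit 0) (nat_lit 0) (XT.lf (nat_lit 0) (nat_lit 25151949800) (nat_lit 76) (nat_lit 105962015282) (nat_lit 76) (nat_lit 98061721904) (nat_lit 6) (nat_lit 4) (nat_lit 7) (nat_lit 5) (nat_lit 7) (nat_lit 4) (nat_lit 476) (nat_lit 399) (nat_lit 325)) (XT.lf (nat_lit 0) (nat_lit 76862771749) (nat_lit 76) (nat_lit 88306452460) (nat_lit 76) (nat_lit 80404184776) (nat_lit 6) (nat_lit 4) (nat_lit 7) (nat_lit 5) (nat_lit 7) (nat_lit 4) (nat_lit 477) (nat_lit 399) (nat_lit 324))))) (XT.nd (nat_lit 234) (nat_lit 152) (nat_lit 0) (XT.nd (nat_lit 78) (nat_lit 0) (nat_lit 0) (XT.lf (nat_lit 0) (nat_lit 132686773582) (nat_lit 76) (nat_lit 69250596871) (nat_lit 76) (nat_lit 61346501128) (nat_lit 6) (nat_lit 4) (nat_lit 7) (nat_lit 5) (nat_lit 7) (nat_lit 4) (nat_lit 478) (nat_lit 399) (nat_lit 323))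 (XT.nd (nat_lit 78) (nat_lit 0) (nat_lit 0) (XT.lf (nat_lit 0) (nat_lit 192954764199) (nat_lit 76) (nat_lit 48681524928) (nat_lit 76) (nat_lit 40775736536) (nat_lit 6) (nat_lit 4) (nat_lit 7) (nat_lit 5) (nat_lit 7) (nat_lit 4) (nat_lit 479) (nat_lit 399) (nat_lit 322)) (XT.lf (nat_lit 0) (nat_lit 258023887248) (nat_lit 76) (nat_lit 26477345833) (nat_lit 76) (nat_lit 18569990174) (nat_lit 6) (nat_lit 4) (nat_lit 7) (nat_lit 5) (nat_lit 7) (nat_lit 4) (nat_lit 480) (nat_lit 399) (nat_lit 321)))) (XT.nd (nat_lit 78) (nat_lit 0) (nat_lit 0) (XT.lf (nat_lit 0) (nat_lit 2911570753) (nat_lit 76) (nat_lit 2290533854) (nat_lit 152) (nat_lit 320165788666) (nat_lit 4) (nat_lit 5) (nat_lit 5) (nat_lit 5) (nat_lit 6) (nat_lit 4) (nat_lit 481) (nat_lit 399) (nat_lit 320)) (XT.nd (nat_lit 78) (nat_lit 0) (nat_lit 0) (XT.lf (nat_lit 0) (nat_lit 31700129693) (nat_lit 152) (nat_lit 293187470090) (nat_lit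 0) (nat_lit 24375916257) (nat_lit 4) (nat_lit 5) (nat_lit 6) (nat_lit 4) (nat_lit 4) (nat_lit 4) (nat_lit 482) (nat_lit 399) (nat_lit 319)) (XT.lf (nat_lit 0) (nat_lit 60368803679) (nat_lit 152) (nat_lit 261654482237) (nat_lit 0) (nat_lit 53043438254) (nat_lit 4) (nat_lit 5) (nat_lit 6) (nat_lit 4) (nat_lit 4) (nat_lit 4) (nat_lit 483) (nat_lit 399) (nat_lit 318)))))) (XT.nd (nat_lit 468) (nat_lit 76) (nat_lit 0) (XT.nd (nat_lit 234) (nat_lit 0) (nat_lit 0) (XT.nd (nat_lit 78) (nat_lit 0) (nat_lit 0) (XT.lf (nat_lit 0) (nat_lit 91322927609) (nat_lit 152) (nat_lit 227615409416) (nat_lit 0) (nat_lit 83996495529) (nat_lit 4) (nat_lit 5) (nat_lit 6) (nat_lit 4) (nat_lit 4) (nat_lit 4) (nat_lit 484) (nat_lit 399) (nat_lit 317)) (XT.nd (nat_lit 78) (nat_lit 0) (nat_lit 0) (XT.lf (nat_lit 0) (nat_lit 124745933329) (nat_lit 152) (nat_lit 190868538603) (nat_lit 0) (nat_lit 117418513606) (nat_lit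 4) (nat_lit 5) (nat_lit 6) (nat_lit 4) (nat_lit 4) (nat_lit 4) (nat_lit 485) (nat_lit 399) (nat_lit 316)) (XT.lf (nat_lit 0) (nat_lit 160835883096) (nat_lit 152) (nat_lit 151196110564) (nat_lit 0) (nat_lit 153507548887) (nat_lit 4) (nat_lit 5) (nat_lit 6) (nat_lit 4) (nat_lit 4) (nat_lit 4) (nat_lit 486) (nat_lit 399) (nat_lit 315)))) (XT.nd (nat_lit 78) (nat_lit 0) (nat_lit 0) (XT.lf (nat_lit 0) (nat_lit 199806643278) (nat_lit 152) (nat_lit 108363029429) (nat_lit 0) (nat_lit 192477462324) (nat_lit 4) (nat_lit 5) (nat_lit 6) (nat_lit 4) (nat_lit 4) (nat_lit 4) (nat_lit 487) (nat_lit 399) (nat_lit 314)) (XT.nd (nat_lit 78) (nat_lit 0) (nat_lit 0) (XT.lf (nat_lit 0) (nat_lit 241889151714) (nat_lit 152) (nat_lit 62115469532) (nat_lit 0) (nat_lit 234559186735) (nat_lit 4) (nat_lit 5) (nat_lit 6) (nat_lit 4) (nat_lit 4) (nat_lit 4) (nat_lit 488) (nat_lit 399) (nat_lit 313)) (XT.lf (nat_lit 0)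 (nat_lit 287332786230) (nat_lit 152) (nat_lit 12179371259) (nat_lit 0) (nat_lit 280002095304) (nat_lit 4) (nat_lit 5) (nat_lit 6) (nat_lit 4) (nat_lit 4) (nat_lit 4) (nat_lit 489) (nat_lit 399) (nat_lit 312))))) (XT.nd (nat_lit 234) (nat_lit 0) (nat_lit 0) (XT.nd (nat_lit 78) (nat_lit 0) (nat_lit 0) (XT.lf (nat_lit 0) (nat_lit 43939199734) (nat_lit 76) (nat_lit 293524381516) (nat_lit 76) (nat_lit 286193018416) (nat_lit 3) (nat_lit 4) (nat_lit 4) (nat_lit 5) (nat_lit 4) (nat_lit 4) (nat_lit 490) (nat_lit 399) (nat_lit 311)) (XT.nd (nat_lit 78) (nat_lit 0) (nat_lit 0) (XT.lf (nat_lit 0) (nat_lit 105229740275) (nat_lit 76) (nat_lit 286703167074) (nat_lit 76) (nat_lit 279371181591) (nat_lit 3) (nat_lit 4) (nat_lit 4) (nat_lit 5) (nat_lit 4) (nat_lit 4) (nat_lit 491) (nat_lit 399) (nat_lit 310)) (XT.lf (nat_lit 0) (nat_lit 171414109458) (nat_lit 76) (nat_lit 279341097748) (nat_lit 76) (nat_lit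 272008535983) (nat_lit 3) (nat_lit 4) (nat_lit 4) (nat_lit 5) (nat_lit 4) (nat_lit 4) (nat_lit 492) (nat_lit 399) (nat_lit 309)))) (XT.nd (nat_lit 78) (nat_lit 0) (nat_lit 0) (XT.lf (nat_lit 0) (nat_lit 242884510954) (nat_lit 76) (nat_lit 271394546458) (nat_lit 76) (nat_lit 264061451100) (nat_lit 3) (nat_lit 4) (nat_lit 4) (nat_lit 5) (nat_lit 4) (nat_lit 4) (nat_lit 493) (nat_lit 399) (nat_lit 308)) (XT.nd (nat_lit 78) (nat_lit 0) (nat_lit 0) (XT.lf (nat_lit 0) (nat_lit 320064473067) (nat_lit 76) (nat_lit 262816422531) (nat_lit 76) (nat_lit 255482833105) (nat_lit 3) (nat_lit 4) (nat_lit 4) (nat_lit 5) (nat_lit 4) (nat_lit 4) (nat_lit 494) (nat_lit 399) (nat_lit 307)) (XT.lf (nat_lit 0) (nat_lit 403411358536) (nat_lit 76) (nat_lit 253555892640) (nat_lit 76) (nat_lit 246221845744) (nat_lit 3) (nat_lit 4) (nat_lit 4) (nat_lit 5) (nat_lit 4) (nat_lit 4) (nat_lit 495) (nat_lit 399) (nat_lit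 306))))))) (XT.nd (nat_lit 936) (nat_lit 152) (nat_lit 0) (XT.nd (nat_lit 468) (nat_lit 0) (nat_lit 0) (XT.nd (nat_lit 234) (nat_lit 0) (nat_lit 0) (XT.nd (nat_lit 78) (nat_lit 0) (nat_lit 0) (XT.lf (nat_lit 0) (nat_lit 493419074830) (nat_lit 76) (nat_lit 243558079571) (nat_lit 76) (nat_lit 236223609091) (nat_lit 3) (nat_lit 4) (nat_lit 4) (nat_lit 5) (nat_lit 4) (nat_lit 4) (nat_lit 496) (nat_lit 399) (nat_lit 305)) (XT.nd (nat_lit 78) (nat_lit 0) (nat_lit 0) (XT.lf (nat_lit 0) (nat_lit 590621001009) (nat_lit 76) (nat_lit 232763737024) (nat_lit 76) (nat_lit 225428874337) (nat_lit 3) (nat_lit 4) (nat_lit 4) (nat_lit 5) (nat_lit 4) (nat_lit 4) (nat_lit 497) (nat_lit 399) (nat_lit 304)) (XT.lf (nat_lit 0) (nat_lit 695593148487) (nat_lit 76) (nat_lit 221108898525) (nat_lit 76) (nat_lit 213773672683) (nat_lit 3) (nat_lit 4) (nat_lit 4) (nat_lit 5) (nat_lit 4) (nat_lit 4) (nat_lit 498) (nat_lit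 399) (nat_lit 303)))) (XT.nd (nat_lit 78) (nat_lit 0) (nat_lit 0) (XT.lf (nat_lit 0) (nat_lit 808957574434) (nat_lit 76) (nat_lit 208524498363) (nat_lit 76) (nat_lit 201188936268) (nat_lit 3) (nat_lit 4) (nat_lit 4) (nat_lit 5) (nat_lit 4) (nat_lit 4) (nat_lit 499) (nat_lit 399) (nat_lit 302)) (XT.nd (nat_lit 78) (nat_lit 0) (nat_lit 0) (XT.lf (nat_lit 0) (nat_lit 931386068041) (nat_lit 76) (nat_lit 194935962317) (nat_lit 76) (nat_lit 187600088875) (nat_lit 3) (nat_lit 4) (nat_lit 4) (nat_lit 5) (nat_lit 4) (nat_lit 4) (nat_lit 500) (nat_lit 399) (nat_lit 301)) (XT.lf (nat_lit 0) (nat_lit 1063604131493) (nat_lit 76) (nat_lit 180262765728) (nat_lit 76) (nat_lit 172926604002) (nat_lit 3) (nat_lit 4) (nat_lit 4) (nat_lit 5) (nat_lit 4) (nat_lit 4) (nat_lit 501) (nat_lit 399) (nat_lit 300))))) (XT.nd (nat_lit 234) (nat_lit 0) (nat_lit 0) (XT.nd (nat_lit 78) (nat_lit 0) (nat_lit 0) (XT.lf (nat_lit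 0) (nat_lit 1206395279239) (nat_lit 76) (nat_lit 164417956319) (nat_lit 76) (nat_lit 157081527664) (nat_lit 3) (nat_lit 4) (nat_lit 4) (nat_lit 5) (nat_lit 4) (nat_lit 4) (nat_lit 502) (nat_lit 399) (nat_lit 299)) (XT.nd (nat_lit 78) (nat_lit 0) (nat_lit 0) (XT.lf (nat_lit 0) (nat_lit 1360605681044) (nat_lit 76) (nat_lit 147307638925) (nat_lit 76) (nat_lit 139970963112) (nat_lit 3) (nat_lit 4) (nat_lit 4) (nat_lit 5) (nat_lit 4) (nat_lit 4) (nat_lit 503) (nat_lit 399) (nat_lit 298)) (XT.lf (nat_lit 0) (nat_lit 1527149176327) (nat_lit 76) (nat_lit 128830419071) (nat_lit 76) (nat_lit 121493514409) (nat_lit 3) (nat_lit 4) (nat_lit 4) (nat_lit 5) (nat_lit 4) (nat_lit 4) (nat_lit 504) (nat_lit 399) (nat_lit 297)))) (XT.nd (nat_lit 78) (nat_lit 0) (nat_lit 0) (XT.lf (nat_lit 0) (nat_lit 1707012689503) (nat_lit 76) (nat_lit 108876802121) (nat_lit 76) (nat_lit 101539685562) (nat_lit 3) (nat_lit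 4) (nat_lit 4) (nat_lit 5) (nat_lit 4) (nat_lit 4) (nat_lit 505) (nat_lit 399) (nat_lit 296)) (XT.nd (nat_lit 78) (nat_lit 0) (nat_lit 0) (XT.lf (nat_lit 0) (nat_lit 1901262078428) (nat_lit 76) (nat_lit 87328544419) (nat_lit 76) (nat_lit 79991231660) (nat_lit 3) (nat_lit 4) (nat_lit 4) (nat_lit 5) (nat_lit 4) (nat_lit 4) (nat_lit 506) (nat_lit 399) (nat_lit 295)) (XT.lf (nat_lit 0) (nat_lit 2111048450593) (nat_lit 76) (nat_lit 64057952587) (nat_lit 76) (nat_lit 56720458160) (nat_lit 3) (nat_lit 4) (nat_lit 4) (nat_lit 5) (nat_lit 4) (nat_lit 4) (nat_lit 507) (nat_lit 399) (nat_lit 294)))))) (XT.nd (nat_lit 468) (nat_lit 0) (nat_lit 0) (XT.nd (nat_lit 234) (nat_lit 0) (nat_lit 0) (XT.nd (nat_lit 78) (nat_lit 152) (nat_lit 0) (XT.lf (nat_lit 0) (nat_lit 2337614984499) (nat_lit 76) (nat_lit 38927126821) (nat_lit 76) (nat_lit 31589464183) (nat_lit 3) (nat_lit 4) (nat_lit 4) (nat_lit 5) (nat_lit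 4) (nat_lit 4) (nat_lit 508) (nat_lit 399) (nat_lit 293)) (XT.nd (nat_lit 78) (nat_lit 152) (nat_lit 0) (XT.lf (nat_lit 0) (nat_lit 2582304296643) (nat_lit 76) (nat_lit 11787143709) (nat_lit 76) (nat_lit 4449325320) (nat_lit 3) (nat_lit 4) (nat_lit 4) (nat_lit 5) (nat_lit 4) (nat_lit 4) (nat_lit 509) (nat_lit 399) (nat_lit 292)) (XT.lf (nat_lit 0) (nat_lit 25139449049) (nat_lit 152) (nat_lit 2760528678317) (nat_lit 0) (nat_lit 18345039231) (nat_lit 1) (nat_lit 5) (nat_lit 3) (nat_lit 4) (nat_lit 1) (nat_lit 4) (nat_lit 510) (nat_lit 399) (nat_lit 291)))) (XT.nd (nat_lit 78) (nat_lit 0) (nat_lit 0) (XT.lf (nat_lit 0) (nat_lit 57615397555) (nat_lit 152) (nat_lit 2917417016496) (nat_lit 0) (nat_lit 50820864098) (nat_lit 1) (nat_lit 5) (nat_lit 3) (nat_lit 4) (nat_lit 1) (nat_lit 4) (nat_lit 511) (nat_lit 399) (nat_lit 290)) (XT.nd (nat_lit 78) (nat_lit 0) (nat_lit 0) (XT.lf (nat_lit 0) (nat_lit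 92688335979) (nat_lit 152) (nat_lit 3086858661493) (nat_lit 0) (nat_lit 85893688040) (nat_lit 1) (nat_lit 5) (nat_lit 3) (nat_lit 4) (nat_lit 1) (nat_lit 4) (nat_lit 512) (nat_lit 399) (nat_lit 289)) (XT.lf (nat_lit 0) (nat_lit 130566103954) (nat_lit 152) (nat_lit 3269857711945) (nat_lit 0) (nat_lit 123771350014) (nat_lit 1) (nat_lit 5) (nat_lit 3) (nat_lit 4) (nat_lit 1) (nat_lit 4) (nat_lit 513) (nat_lit 399) (nat_lit 288))))) (XT.nd (nat_lit 234) (nat_lit 0) (nat_lit 0) (XT.nd (nat_lit 78) (nat_lit 0) (nat_lit 0) (XT.lf (nat_lit 0) (nat_lit 171473162329) (nat_lit 152) (nat_lit 3467498606670) (nat_lit 0) (nat_lit 164678310239) (nat_lit 1) (nat_lit 5) (nat_lit 3) (nat_lit 4) (nat_lit 1) (nat_lit 4) (nat_lit 514) (nat_lit 399) (nat_lit 287)) (XT.nd (nat_lit 78) (nat_lit 0) (nat_lit 0) (XT.lf (nat_lit 0) (nat_lit 215651923300) (nat_lit 152) (nat_lit 3680952550970) (nat_lit 0) (nat_lit 208856980331)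 (nat_lit 1) (nat_lit 5) (nat_lit 3) (nat_lit 4) (nat_lit 1) (nat_lit 4) (nat_lit 515) (nat_lit 399) (nat_lit 286)) (XT.lf (nat_lit 0) (nat_lit 263364186934) (nat_lit 152) (nat_lit 3911484457107) (nat_lit 0) (nat_lit 256569159817) (nat_lit 1) (nat_lit 5) (nat_lit 3) (nat_lit 4) (nat_lit 1) (nat_lit 4) (nat_lit 516) (nat_lit 399) (nat_lit 285)))) (XT.nd (nat_lit 78) (nat_lit 0) (nat_lit 0) (XT.lf (nat_lit 0) (nat_lit 314892692569) (nat_lit 152) (nat_lit 4160460440081) (nat_lit 0) (nat_lit 308097587539) (nat_lit 1) (nat_lit 5) (nat_lit 3) (nat_lit 4) (nat_lit 1) (nat_lit 4) (nat_lit 517) (nat_lit 399) (nat_lit 284)) (XT.nd (nat_lit 78) (nat_lit 0) (nat_lit 0) (XT.lf (nat_lit 0) (nat_lit 370542794315) (nat_lit 152) (nat_lit 4429355913124) (nat_lit 0) (nat_lit 363747617141) (nat_lit 1) (nat_lit 5) (nat_lit 3) (nat_lit 4) (nat_lit 1) (nat_lit 4) (nat_lit 518) (nat_lit 399) (nat_lit 283)) (XT.lf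 (nat_lit 0) (nat_lit 430644270550) (nat_lit 152) (nat_lit 4719764330892) (nat_lit 0) (nat_lit 423849026578) (nat_lit 1) (nat_lit 5) (nat_lit 3) (nat_lit 4) (nat_lit 1) (nat_lit 4) (nat_lit 519) (nat_lit 399) (nat_lit 282))))))))
noncomputable def xc92 : XT := (XT.nd (nat_lit 54054) (nat_lit 0) (nat_lit 2584) (XT.nd (nat_lit 53118) (nat_lit 0) (nat_lit 5700) (XT.nd (nat_lit 390) (nat_lit 0) (nat_lit 0) (XT.nd (nat_lit 156) (nat_lit 0) (nat_lit 0) (XT.nd (nat_lit 78) (nat_lit 0) (nat_lit 0) (XT.lf (nat_lit 0) (nat_lit 495553278172) (nat_lit 152) (nat_lit 5033406632155) (nat_lit 0) (nat_lit 488757972349) (nat_lit 1) (nat_lit 5) (nat_lit 3) (nat_lit 4) (nat_lit 1) (nat_lit 4) (nat_lit 520) (nat_lit 399) (nat_lit 281)) (XT.lf (nat_lit 0) (nat_lit 565654463151) (nat_lit 152) (nat_lit 5372141437959) (nat_lit 0) (nat_lit 558859100059) (nat_lit 1) (nat_lit 5) (nat_lit 3) (nat_lit 4) (nat_lit 1)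 (nat_lit 4) (nat_lit 521) (nat_lit 399) (nat_lit 280))) (XT.nd (nat_lit 78) (nat_lit 0) (nat_lit 0) (XT.lf (nat_lit 0) (nat_lit 641363239917) (nat_lit 152) (nat_lit 5737976065672) (nat_lit 0) (nat_lit 634567823798) (nat_lit 1) (nat_lit 5) (nat_lit 3) (nat_lit 4) (nat_lit 1) (nat_lit 4) (nat_lit 522) (nat_lit 399) (nat_lit 279)) (XT.nd (nat_lit 78) (nat_lit 0) (nat_lit 0) (XT.lf (nat_lit 0) (nat_lit 723128253074) (nat_lit 152) (nat_lit 6133078424198) (nat_lit 0) (nat_lit 716332787855) (nat_lit 1) (nat_lit 5) (nat_lit 3) (nat_lit 4) (nat_lit 1) (nat_lit 4) (nat_lit 523) (nat_lit 399) (nat_lit 278)) (XT.lf (nat_lit 0) (nat_lit 811434036032) (nat_lit 152) (nat_lit 6559789860847) (nat_lit 0) (nat_lit 804638525351) (nat_lit 1) (nat_lit 5) (nat_lit 3) (nat_lit 4) (nat_lit 1) (nat_lit 4) (nat_lit 524) (nat_lit 399) (nat_lit 277))))) (XT.nd (nat_lit 234) (nat_lit 0) (nat_lit 0) (XT.nd (nat_lit 78)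 (nat_lit 0) (nat_lit 0) (XT.lf (nat_lit 0) (nat_lit 906803882320) (nat_lit 152) (nat_lit 7020639035985) (nat_lit 0) (nat_lit 900008329544) (nat_lit 1) (nat_lit 5) (nat_lit 3) (nat_lit 4) (nat_lit 1) (nat_lit 4) (nat_lit 525) (nat_lit 399) (nat_lit 276)) (XT.nd (nat_lit 78) (nat_lit 0) (nat_lit 0) (XT.lf (nat_lit 0) (nat_lit 1009802946582) (nat_lit 152) (nat_lit 7518356907686) (nat_lit 0) (nat_lit 1003007354830) (nat_lit 1) (nat_lit 5) (nat_lit 3) (nat_lit 4) (nat_lit 1) (nat_lit 4) (nat_lit 526) (nat_lit 399) (nat_lit 275)) (XT.lf (nat_lit 0) (nat_lit 1121041593645) (nat_lit 152) (nat_lit 8055892915190) (nat_lit 0) (nat_lit 1114245965804) (nat_lit 1) (nat_lit 5) (nat_lit 3) (nat_lit 4) (nat_lit 1) (nat_lit 4) (nat_lit 527) (nat_lit 399) (nat_lit 274)))) (XT.nd (nat_lit 78) (nat_lit 0) (nat_lit 0) (XT.lf (nat_lit 0) (nat_lit 1241179015490) (nat_lit 152) (nat_lit 8636432457060) (nat_lit 0)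 (nat_lit 1234383354233) (nat_lit 1) (nat_lit 5) (nat_lit 3) (nat_lit 4) (nat_lit 1) (nat_lit 4) (nat_lit 528) (nat_lit 399) (nat_lit 273)) (XT.nd (nat_lit 78) (nat_lit 0) (nat_lit 0) (XT.lf (nat_lit 0) (nat_lit 1370927137580) (nat_lit 152) (nat_lit 9263415767619) (nat_lit 0) (nat_lit 1364131445382) (nat_lit 1) (nat_lit 5) (nat_lit 3) (nat_lit 4) (nat_lit 1) (nat_lit 4) (nat_lit 529) (nat_lit 399) (nat_lit 272)) (XT.lf (nat_lit 0) (nat_lit 1511054837677) (nat_lit 152) (nat_lit 9940558303521) (nat_lit 0) (nat_lit 1504259116830) (nat_lit 1) (nat_lit 5) (nat_lit 3) (nat_lit 4) (nat_lit 1) (nat_lit 4) (nat_lit 530) (nat_lit 399) (nat_lit 271)))))) (XT.nd (nat_lit 468) (nat_lit 1520) (nat_lit 0) (XT.nd (nat_lit 234) (nat_lit 304) (nat_lit 0) (XT.nd (nat_lit 78) (nat_lit 152) (nat_lit 0) (XT.lf (nat_lit 0) (nat_lit 1073741823) (nat_lit 0) (nat_lit 0) (nat_lit 0) (nat_lit 0) (nat_lit 102) (nat_lit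 0) (nat_lit 1) (nat_lit 0) (nat_lit 1) (nat_lit 0) (nat_lit 400) (nat_lit 400) (nat_lit 400)) (XT.nd (nat_lit 78) (nat_lit 76) (nat_lit 0) (XT.lf (nat_lit 0) (nat_lit 3115461127) (nat_lit 76) (nat_lit 3173557718) (nat_lit 0) (nat_lit 159688495) (nat_lit 101) (nat_lit 5) (nat_lit 102) (nat_lit 0) (nat_lit 101) (nat_lit 4) (nat_lit 401) (nat_lit 400) (nat_lit 399)) (XT.lf (nat_lit 0) (nat_lit 181408835) (nat_lit 76) (nat_lit 5995564982) (nat_lit 76) (nat_lit 302965839) (nat_lit 100) (nat_lit 4) (nat_lit 101) (nat_lit 5) (nat_lit 101) (nat_lit 4) (nat_lit 402) (nat_lit 400) (nat_lit 398)))) (XT.nd (nat_lit 78) (nat_lit 228) (nat_lit 0) (XT.lf (nat_lit 0) (nat_lit 2613408199) (nat_lit 152) (nat_lit 2790808710) (nat_lit 76) (nat_lit 1120550623) (nat_lit 99) (nat_lit 5) (nat_lit 101) (nat_lit 5) (nat_lit 100) (nat_lit 4) (nat_lit 403) (nat_lit 400) (nat_lit 397)) (XT.nd (nat_lit 78) (nat_lit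 76) (nat_lit 0) (XT.lf (nat_lit 0) (nat_lit 851069647) (nat_lit 152) (nat_lit 4641312576) (nat_lit 228) (nat_lit 1100692331) (nat_lit 97) (nat_lit 5) (nat_lit 99) (nat_lit 5) (nat_lit 100) (nat_lit 4) (nat_lit 404) (nat_lit 400) (nat_lit 396)) (XT.lf (nat_lit 0) (nat_lit 1650753599) (nat_lit 228) (nat_lit 1956956805) (nat_lit 76) (nat_lit 3070546165) (nat_lit 96) (nat_lit 5) (nat_lit 99) (nat_lit 5) (nat_lit 97) (nat_lit 5) (nat_lit 405) (nat_lit 400) (nat_lit 395))))) (XT.nd (nat_lit 234) (nat_lit 912) (nat_lit 0) (XT.nd (nat_lit 78) (nat_lit 380) (nat_lit 0) (XT.lf (nat_lit 0) (nat_lit 2027123112) (nat_lit 228) (nat_lit 2338576517) (nat_lit 304) (nat_lit 2418177335) (nat_lit 93) (nat_lit 5) (nat_lit 96) (nat_lit 5) (nat_lit 97) (nat_lit 5) (nat_lit 406) (nat_lit 400) (nat_lit 394)) (XT.nd (nat_lit 78) (nat_lit 304) (nat_lit 0) (XT.lf (nat_lit 0) (nat_lit 196816315) (nat_lit 304) (nat_lit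 648217635) (nat_lit 76) (nat_lit 6066908712) (nat_lit 92) (nat_lit 5) (nat_lit 96) (nat_lit 5) (nat_lit 93) (nat_lit 5) (nat_lit 407) (nat_lit 400) (nat_lit 393)) (XT.lf (nat_lit 0) (nat_lit 2783649285) (nat_lit 380) (nat_lit 3337073747) (nat_lit 76) (nat_lit 933153408) (nat_lit 88) (nat_lit 5) (nat_lit 93) (nat_lit 5) (nat_lit 89) (nat_lit 5) (nat_lit 408) (nat_lit 400) (nat_lit 392)))) (XT.nd (nat_lit 78) (nat_lit 532) (nat_lit 0) (XT.lf (nat_lit 0) (nat_lit 1110813301) (nat_lit 380) (nat_lit 4326424826) (nat_lit 456) (nat_lit 1781244226) (nat_lit 83) (nat_lit 5) (nat_lit 88) (nat_lit 5) (nat_lit 89) (nat_lit 5) (nat_lit 409) (nat_lit 400) (nat_lit 391)) (XT.nd (nat_lit 78) (nat_lit 456) (nat_lit 0) (XT.lf (nat_lit 0) (nat_lit 753895644) (nat_lit 456) (nat_lit 1499323039) (nat_lit 76) (nat_lit 5149988619) (nat_lit 82) (nat_lit 5) (nat_lit 88) (nat_lit 5) (nat_lit 83) (nat_lit 5) (nat_lit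 410) (nat_lit 400) (nat_lit 390)) (XT.lf (nat_lit 0) (nat_lit 3294955275) (nat_lit 532) (nat_lit 4184201414) (nat_lit 76) (nat_lit 127986015) (nat_lit 76) (nat_lit 5) (nat_lit 83) (nat_lit 5) (nat_lit 77) (nat_lit 5) (nat_lit 411) (nat_lit 400) (nat_lit 389))))))) (XT.nd (nat_lit 858) (nat_lit 1292) (nat_lit 0) (XT.nd (nat_lit 390) (nat_lit 760) (nat_lit 0) (XT.nd (nat_lit 156) (nat_lit 532) (nat_lit 0) (XT.nd (nat_lit 78) (nat_lit 76) (nat_lit 0) (XT.lf (nat_lit 0) (nat_lit 794029386) (nat_lit 456) (nat_lit 5188425670) (nat_lit 532) (nat_lit 1849560551) (nat_lit 70) (nat_lit 5) (nat_lit 76) (nat_lit 5) (nat_lit 77) (nat_lit 5) (nat_lit 412) (nat_lit 400) (nat_lit 388)) (XT.lf (nat_lit 0) (nat_lit 714688343) (nat_lit 532) (nat_lit 1870363706) (nat_lit 76) (nat_lit 5492721277) (nat_lit 69) (nat_lit 5) (nat_lit 76) (nat_lit 5) (nat_lit 70) (nat_lit 5) (nat_lit 413) (nat_lit 400) (nat_lit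 387))) (XT.nd (nat_lit 78) (nat_lit 304) (nat_lit 0) (XT.lf (nat_lit 0) (nat_lit 3321506405) (nat_lit 304) (nat_lit 4684024764) (nat_lit 76) (nat_lit 338888582) (nat_lit 66) (nat_lit 5) (nat_lit 70) (nat_lit 5) (nat_lit 67) (nat_lit 5) (nat_lit 414) (nat_lit 400) (nat_lit 386)) (XT.nd (nat_lit 78) (nat_lit 76) (nat_lit 0) (XT.lf (nat_lit 0) (nat_lit 904678430) (nat_lit 228) (nat_lit 5221267086) (nat_lit 304) (nat_lit 2507381525) (nat_lit 63) (nat_lit 5) (nat_lit 66) (nat_lit 5) (nat_lit 67) (nat_lit 5) (nat_lit 415) (nat_lit 400) (nat_lit 385)) (XT.lf (nat_lit 0) (nat_lit 181170525) (nat_lit 304) (nat_lit 1923631089) (nat_lit 76) (nat_lit 6841609564) (nat_lit 62) (nat_lit 5) (nat_lit 66) (nat_lit 5) (nat_lit 63) (nat_lit 5) (nat_lit 416) (nat_lit 400) (nat_lit 384))))) (XT.nd (nat_lit 234) (nat_lit 380) (nat_lit 0) (XT.nd (nat_lit 78) (nat_lit 228) (nat_lit 0) (XT.lf (nat_lit 0) (nat_lit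 2949109520) (nat_lit 228) (nat_lit 4992201838) (nat_lit 76) (nat_lit 1338083045) (nat_lit 60) (nat_lit 5) (nat_lit 63) (nat_lit 5) (nat_lit 61) (nat_lit 5) (nat_lit 417) (nat_lit 400) (nat_lit 383)) (XT.nd (nat_lit 78) (nat_lit 0) (nat_lit 0) (XT.lf (nat_lit 0) (nat_lit 1299965676) (nat_lit 228) (nat_lit 4645601229) (nat_lit 304) (nat_lit 3692923293) (nat_lit 57) (nat_lit 5) (nat_lit 60) (nat_lit 5) (nat_lit 61) (nat_lit 5) (nat_lit 418) (nat_lit 400) (nat_lit 382)) (XT.lf (nat_lit 0) (nat_lit 8205436858) (nat_lit 228) (nat_lit 985640700) (nat_lit 304) (nat_lit 834526731) (nat_lit 57) (nat_lit 5) (nat_lit 60) (nat_lit 5) (nat_lit 61) (nat_lit 5) (nat_lit 419) (nat_lit 400) (nat_lit 381)))) (XT.nd (nat_lit 78) (nat_lit 152) (nat_lit 0) (XT.lf (nat_lit 0) (nat_lit 2220491614) (nat_lit 228) (nat_lit 5252678539) (nat_lit 76) (nat_lit 2959765165) (nat_lit 54) (nat_lit 5) (nat_lit 57) (nat_lit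 5) (nat_lit 55) (nat_lit 5) (nat_lit 420) (nat_lit 400) (nat_lit 380)) (XT.nd (nat_lit 78) (nat_lit 0) (nat_lit 0) (XT.lf (nat_lit 0) (nat_lit 1847822449) (nat_lit 152) (nat_lit 3631155689) (nat_lit 228) (nat_lit 5391838206) (nat_lit 52) (nat_lit 5) (nat_lit 54) (nat_lit 5) (nat_lit 55) (nat_lit 5) (nat_lit 421) (nat_lit 400) (nat_lit 379)) (XT.lf (nat_lit 0) (nat_lit 9044334987) (nat_lit 228) (nat_lit 1708100928) (nat_lit 76) (nat_lit 587624240) (nat_lit 52) (nat_lit 5) (nat_lit 55) (nat_lit 5) (nat_lit 53) (nat_lit 4) (nat_lit 422) (nat_lit 400) (nat_lit 378)))))) (XT.nd (nat_lit 468) (nat_lit 608) (nat_lit 0) (XT.nd (nat_lit 234) (nat_lit 304) (nat_lit 0) (XT.nd (nat_lit 78) (nat_lit 152) (nat_lit 0) (XT.lf (nat_lit 0) (nat_lit 1138631184) (nat_lit 228) (nat_lit 5616116772) (nat_lit 76) (nat_lit 5078664020) (nat_lit 49) (nat_lit 5) (nat_lit 52) (nat_lit 5) (nat_lit 50) (nat_lit 5) (nat_lit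 423) (nat_lit 400) (nat_lit 377)) (XT.nd (nat_lit 78) (nat_lit 0) (nat_lit 0) (XT.lf (nat_lit 0) (nat_lit 2407766224) (nat_lit 152) (nat_lit 2317908659) (nat_lit 228) (nat_lit 7635651233) (nat_lit 47) (nat_lit 5) (nat_lit 49) (nat_lit 5) (nat_lit 50) (nat_lit 5) (nat_lit 424) (nat_lit 400) (nat_lit 376)) (XT.lf (nat_lit 0) (nat_lit 8715313309) (nat_lit 228) (nat_lit 1755393546) (nat_lit 76) (nat_lit 2451536329) (nat_lit 47) (nat_lit 5) (nat_lit 50) (nat_lit 5) (nat_lit 48) (nat_lit 4) (nat_lit 425) (nat_lit 400) (nat_lit 375)))) (XT.nd (nat_lit 78) (nat_lit 228) (nat_lit 0) (XT.lf (nat_lit 0) (nat_lit 7247573019) (nat_lit 76) (nat_lit 5917162659) (nat_lit 152) (nat_lit 352067706) (nat_lit 46) (nat_lit 5) (nat_lit 47) (nat_lit 5) (nat_lit 48) (nat_lit 4) (nat_lit 426) (nat_lit 400) (nat_lit 374)) (XT.nd (nat_lit 78) (nat_lit 0) (nat_lit 0) (XT.lf (nat_lit 0) (nat_lit 2808689875) (nat_lit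 152) (nat_lit 835728423) (nat_lit 228) (nat_lit 10505282633) (nat_lit 43) (nat_lit 5) (nat_lit 45) (nat_lit 5) (nat_lit 46) (nat_lit 5) (nat_lit 427) (nat_lit 400) (nat_lit 373)) (XT.lf (nat_lit 0) (nat_lit 8138244951) (nat_lit 228) (nat_lit 2131858139) (nat_lit 76) (nat_lit 4546679136) (nat_lit 43) (nat_lit 5) (nat_lit 46) (nat_lit 5) (nat_lit 44) (nat_lit 4) (nat_lit 428) (nat_lit 400) (nat_lit 372))))) (XT.nd (nat_lit 234) (nat_lit 304) (nat_lit 0) (XT.nd (nat_lit 78) (nat_lit 228) (nat_lit 0) (XT.lf (nat_lit 0) (nat_lit 8050366590) (nat_lit 76) (nat_lit 5072171024) (nat_lit 152) (nat_lit 2404229435) (nat_lit 42) (nat_lit 5) (nat_lit 43) (nat_lit 5) (nat_lit 44) (nat_lit 4) (nat_lit 429) (nat_lit 400) (nat_lit 371)) (XT.nd (nat_lit 78) (nat_lit 0) (nat_lit 0) (XT.lf (nat_lit 0) (nat_lit 2161610277) (nat_lit 228) (nat_lit 13481539743) (nat_lit 76) (nat_lit 641337216) (nat_lit 39) (nat_lit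 5) (nat_lit 42) (nat_lit 5) (nat_lit 40) (nat_lit 4) (nat_lit 430) (nat_lit 400) (nat_lit 370)) (XT.lf (nat_lit 0) (nat_lit 7221989972) (nat_lit 228) (nat_lit 3102891508) (nat_lit 76) (nat_lit 6752225632) (nat_lit 39) (nat_lit 5) (nat_lit 42) (nat_lit 5) (nat_lit 40) (nat_lit 4) (nat_lit 431) (nat_lit 400) (nat_lit 369)))) (XT.nd (nat_lit 78) (nat_lit 228) (nat_lit 0) (XT.lf (nat_lit 0) (nat_lit 8389863017) (nat_lit 76) (nat_lit 4422901714) (nat_lit 152) (nat_lit 5110336826) (nat_lit 38) (nat_lit 5) (nat_lit 39) (nat_lit 5) (nat_lit 40) (nat_lit 4) (nat_lit 432) (nat_lit 400) (nat_lit 368)) (XT.nd (nat_lit 78) (nat_lit 0) (nat_lit 0) (XT.lf (nat_lit 0) (nat_lit 124621726) (nat_lit 228) (nat_lit 16765477830) (nat_lit 76) (nat_lit 1937753923) (nat_lit 35) (nat_lit 5) (nat_lit 38) (nat_lit 5) (nat_lit 36) (nat_lit 4) (nat_lit 433) (nat_lit 400) (nat_lit 367)) (XT.lf (nat_lit 0) (nat_lit 5809887758)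 (nat_lit 228) (nat_lit 5048130894) (nat_lit 76) (nat_lit 8911747944) (nat_lit 35) (nat_lit 5) (nat_lit 38) (nat_lit 5) (nat_lit 36) (nat_lit 4) (nat_lit 434) (nat_lit 400) (nat_lit 366))))))))
noncomputable def xc93 : XT := (XT.nd (nat_lit 1794) (nat_lit 760) (nat_lit 0) (XT.nd (nat_lit 858) (nat_lit 684) (nat_lit 0) (XT.nd (nat_lit 390) (nat_lit 456) (nat_lit 0) (XT.nd (nat_lit 156) (nat_lit 152) (nat_lit 0) (XT.nd (nat_lit 78) (nat_lit 76) (nat_lit 0) (XT.lf (nat_lit 0) (nat_lit 7873219271) (nat_lit 76) (nat_lit 4196935844) (nat_lit 152) (nat_lit 8707270709) (nat_lit 34) (nat_lit 5) (nat_lit 35) (nat_lit 5) (nat_lit 36) (nat_lit 4) (nat_lit 435) (nat_lit 400) (nat_lit 365)) (XT.lf (nat_lit 0) (nat_lit 60040466) (nat_lit 76) (nat_lit 18917935721) (nat_lit 76) (nat_lit 2875989926) (nat_lit 33) (nat_lit 4) (nat_lit 34) (nat_lit 5) (nat_lit 34) (nat_lit 4) (nat_lit 436) (nat_lit 400) (nat_lit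 364))) (XT.nd (nat_lit 78) (nat_lit 76) (nat_lit 0) (XT.lf (nat_lit 0) (nat_lit 3653557404) (nat_lit 152) (nat_lit 8521934331) (nat_lit 76) (nat_lit 10802325394) (nat_lit 32) (nat_lit 5) (nat_lit 34) (nat_lit 5) (nat_lit 33) (nat_lit 4) (nat_lit 437) (nat_lit 400) (nat_lit 363)) (XT.nd (nat_lit 78) (nat_lit 0) (nat_lit 0) (XT.lf (nat_lit 0) (nat_lit 5914109503) (nat_lit 76) (nat_lit 4715193662) (nat_lit 152) (nat_lit 13549965441) (nat_lit 31) (nat_lit 5) (nat_lit 32) (nat_lit 5) (nat_lit 33) (nat_lit 4) (nat_lit 438) (nat_lit 400) (nat_lit 362)) (XT.lf (nat_lit 0) (nat_lit 18420083780) (nat_lit 152) (nat_lit 3674359631) (nat_lit 0) (nat_lit 3361839853) (nat_lit 31) (nat_lit 5) (nat_lit 33) (nat_lit 4) (nat_lit 31) (nat_lit 4) (nat_lit 439) (nat_lit 400) (nat_lit 361))))) (XT.nd (nat_lit 234) (nat_lit 228) (nat_lit 0) (XT.nd (nat_lit 78) (nat_lit 76) (nat_lit 0) (XT.lf (nat_lit 0) (nat_lit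 372861883) (nat_lit 152) (nat_lit 14341043713) (nat_lit 76) (nat_lit 12091630218) (nat_lit 29) (nat_lit 5) (nat_lit 31) (nat_lit 5) (nat_lit 30) (nat_lit 4) (nat_lit 440) (nat_lit 400) (nat_lit 360)) (XT.nd (nat_lit 78) (nat_lit 0) (nat_lit 0) (XT.lf (nat_lit 0) (nat_lit 1634294277) (nat_lit 76) (nat_lit 6444994570) (nat_lit 152) (nat_lit 20162040821) (nat_lit 28) (nat_lit 5) (nat_lit 29) (nat_lit 5) (nat_lit 30) (nat_lit 4) (nat_lit 441) (nat_lit 400) (nat_lit 359)) (XT.lf (nat_lit 0) (nat_lit 16807115705) (nat_lit 152) (nat_lit 10238567007) (nat_lit 0) (nat_lit 2713917193) (nat_lit 28) (nat_lit 5) (nat_lit 30) (nat_lit 4) (nat_lit 28) (nat_lit 4) (nat_lit 442) (nat_lit 400) (nat_lit 358)))) (XT.nd (nat_lit 78) (nat_lit 152) (nat_lit 0) (XT.lf (nat_lit 0) (nat_lit 7546485288) (nat_lit 76) (nat_lit 18982631706) (nat_lit 76) (nat_lit 4846542361) (nat_lit 27) (nat_lit 4) (nat_lit 28) (nat_lit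 5) (nat_lit 28) (nat_lit 4) (nat_lit 443) (nat_lit 400) (nat_lit 357)) (XT.nd (nat_lit 78) (nat_lit 76) (nat_lit 0) (XT.lf (nat_lit 0) (nat_lit 3946820043) (nat_lit 152) (nat_lit 5966417387) (nat_lit 76) (nat_lit 23181495701) (nat_lit 26) (nat_lit 5) (nat_lit 28) (nat_lit 5) (nat_lit 27) (nat_lit 4) (nat_lit 444) (nat_lit 400) (nat_lit 356)) (XT.lf (nat_lit 0) (nat_lit 13472607881) (nat_lit 152) (nat_lit 21132577121) (nat_lit 0) (nat_lit 312816165) (nat_lit 25) (nat_lit 5) (nat_lit 27) (nat_lit 4) (nat_lit 25) (nat_lit 4) (nat_lit 445) (nat_lit 400) (nat_lit 355)))))) (XT.nd (nat_lit 468) (nat_lit 380) (nat_lit 0) (XT.nd (nat_lit 234) (nat_lit 76) (nat_lit 0) (XT.nd (nat_lit 78) (nat_lit 228) (nat_lit 0) (XT.lf (nat_lit 0) (nat_lit 24136729216) (nat_lit 152) (nat_lit 1774890875) (nat_lit 0) (nat_lit 10945411458) (nat_lit 25) (nat_lit 5) (nat_lit 27) (nat_lit 4) (nat_lit 25) (nat_lit 4)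 (nat_lit 446) (nat_lit 400) (nat_lit 354)) (XT.nd (nat_lit 78) (nat_lit 152) (nat_lit 0) (XT.lf (nat_lit 0) (nat_lit 20045446963) (nat_lit 76) (nat_lit 16045639880) (nat_lit 76) (nat_lit 2825131343) (nat_lit 24) (nat_lit 4) (nat_lit 25) (nat_lit 5) (nat_lit 25) (nat_lit 4) (nat_lit 447) (nat_lit 400) (nat_lit 353)) (XT.lf (nat_lit 0) (nat_lit 2417875850) (nat_lit 76) (nat_lit 5113572653) (nat_lit 152) (nat_lit 33588522080) (nat_lit 22) (nat_lit 5) (nat_lit 23) (nat_lit 5) (nat_lit 24) (nat_lit 4) (nat_lit 448) (nat_lit 400) (nat_lit 352)))) (XT.nd (nat_lit 78) (nat_lit 76) (nat_lit 0) (XT.lf (nat_lit 0) (nat_lit 19209590530) (nat_lit 152) (nat_lit 17312730854) (nat_lit 0) (nat_lit 6920179951) (nat_lit 22) (nat_lit 5) (nat_lit 24) (nat_lit 4) (nat_lit 22) (nat_lit 4) (nat_lit 449) (nat_lit 400) (nat_lit 351)) (XT.nd (nat_lit 78) (nat_lit 0) (nat_lit 0) (XT.lf (nat_lit 0) (nat_lit 5865949872)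 (nat_lit 76) (nat_lit 26188574905) (nat_lit 76) (nat_lit 13877708231) (nat_lit 21) (nat_lit 4) (nat_lit 22) (nat_lit 5) (nat_lit 22) (nat_lit 4) (nat_lit 450) (nat_lit 400) (nat_lit 350)) (XT.lf (nat_lit 0) (nat_lit 31803151999) (nat_lit 76) (nat_lit 14557037686) (nat_lit 76) (nat_lit 2226304258) (nat_lit 21) (nat_lit 4) (nat_lit 22) (nat_lit 5) (nat_lit 22) (nat_lit 4) (nat_lit 451) (nat_lit 400) (nat_lit 349))))) (XT.nd (nat_lit 234) (nat_lit 152) (nat_lit 0) (XT.nd (nat_lit 78) (nat_lit 76) (nat_lit 0) (XT.lf (nat_lit 0) (nat_lit 8459918517) (nat_lit 76) (nat_lit 1544431043) (nat_lit 152) (nat_lit 41415600489) (nat_lit 19) (nat_lit 5) (nat_lit 20) (nat_lit 5) (nat_lit 21) (nat_lit 4) (nat_lit 452) (nat_lit 400) (nat_lit 348)) (XT.nd (nat_lit 78) (nat_lit 76) (nat_lit 0) (XT.lf (nat_lit 0) (nat_lit 23826756804) (nat_lit 152) (nat_lit 18213407051) (nat_lit 0) (nat_lit 12376607627) (nat_lit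 19) (nat_lit 5) (nat_lit 21) (nat_lit 4) (nat_lit 19) (nat_lit 4) (nat_lit 453) (nat_lit 400) (nat_lit 347)) (XT.lf (nat_lit 0) (nat_lit 8844367780) (nat_lit 76) (nat_lit 30128159118) (nat_lit 76) (nat_lit 18663407285) (nat_lit 18) (nat_lit 4) (nat_lit 19) (nat_lit 5) (nat_lit 19) (nat_lit 4) (nat_lit 454) (nat_lit 400) (nat_lit 346)))) (XT.nd (nat_lit 78) (nat_lit 152) (nat_lit 0) (XT.lf (nat_lit 0) (nat_lit 39033476406) (nat_lit 76) (nat_lit 16760166332) (nat_lit 76) (nat_lit 5281893520) (nat_lit 18) (nat_lit 4) (nat_lit 19) (nat_lit 5) (nat_lit 19) (nat_lit 4) (nat_lit 455) (nat_lit 400) (nat_lit 345)) (XT.nd (nat_lit 78) (nat_lit 0) (nat_lit 0) (XT.lf (nat_lit 0) (nat_lit 6906665317) (nat_lit 76) (nat_lit 1938266199) (nat_lit 152) (nat_lit 55917051127) (nat_lit 16) (nat_lit 5) (nat_lit 17) (nat_lit 5) (nat_lit 18) (nat_lit 4) (nat_lit 456) (nat_lit 400) (nat_lit 344)) (XT.lf (nat_lit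 0) (nat_lit 24740743708) (nat_lit 152) (nat_lit 29827302607) (nat_lit 0) (nat_lit 14090387877) (nat_lit 16) (nat_lit 5) (nat_lit 18) (nat_lit 4) (nat_lit 16) (nat_lit 4) (nat_lit 457) (nat_lit 400) (nat_lit 343))))))) (XT.nd (nat_lit 936) (nat_lit 228) (nat_lit 0) (XT.nd (nat_lit 468) (nat_lit 228) (nat_lit 0) (XT.nd (nat_lit 234) (nat_lit 228) (nat_lit 0) (XT.nd (nat_lit 78) (nat_lit 0) (nat_lit 0) (XT.lf (nat_lit 0) (nat_lit 349152013) (nat_lit 76) (nat_lit 41587726114) (nat_lit 76) (nat_lit 30927431959) (nat_lit 15) (nat_lit 4) (nat_lit 16) (nat_lit 5) (nat_lit 16) (nat_lit 4) (nat_lit 458) (nat_lit 400) (nat_lit 342)) (XT.nd (nat_lit 78) (nat_lit 0) (nat_lit 0) (XT.lf (nat_lit 0) (nat_lit 34576647781) (nat_lit 76) (nat_lit 26718302769) (nat_lit 76) (nat_lit 16048806463) (nat_lit 15) (nat_lit 4) (nat_lit 16) (nat_lit 5) (nat_lit 16) (nat_lit 4) (nat_lit 459) (nat_lit 400) (nat_lit 341))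 (XT.lf (nat_lit 0) (nat_lit 71487361404) (nat_lit 76) (nat_lit 10687192491) (nat_lit 76) (nat_lit 9175675) (nat_lit 15) (nat_lit 4) (nat_lit 16) (nat_lit 5) (nat_lit 16) (nat_lit 4) (nat_lit 460) (nat_lit 400) (nat_lit 340)))) (XT.nd (nat_lit 78) (nat_lit 76) (nat_lit 0) (XT.lf (nat_lit 0) (nat_lit 17200958024) (nat_lit 152) (nat_lit 62809756188) (nat_lit 0) (nat_lit 7306600452) (nat_lit 13) (nat_lit 5) (nat_lit 15) (nat_lit 4) (nat_lit 13) (nat_lit 4) (nat_lit 461) (nat_lit 400) (nat_lit 339)) (XT.nd (nat_lit 78) (nat_lit 76) (nat_lit 0) (XT.lf (nat_lit 0) (nat_lit 36339351801) (nat_lit 152) (nat_lit 30039830259) (nat_lit 0) (nat_lit 26438230374) (nat_lit 13) (nat_lit 5) (nat_lit 15) (nat_lit 4) (nat_lit 13) (nat_lit 4) (nat_lit 462) (nat_lit 400) (nat_lit 338)) (XT.lf (nat_lit 0) (nat_lit 5582497539) (nat_lit 76) (nat_lit 51536784044) (nat_lit 76) (nat_lit 41629399787) (nat_lit 12) (nat_lit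 4) (nat_lit 13) (nat_lit 5) (nat_lit 13) (nat_lit 4) (nat_lit 463) (nat_lit 400) (nat_lit 337))))) (XT.nd (nat_lit 234) (nat_lit 76) (nat_lit 0) (XT.nd (nat_lit 78) (nat_lit 152) (nat_lit 0) (XT.lf (nat_lit 0) (nat_lit 45715778602) (nat_lit 76) (nat_lit 34644001457) (nat_lit 76) (nat_lit 24730818284) (nat_lit 12) (nat_lit 4) (nat_lit 13) (nat_lit 5) (nat_lit 13) (nat_lit 4) (nat_lit 464) (nat_lit 400) (nat_lit 336)) (XT.nd (nat_lit 78) (nat_lit 152) (nat_lit 0) (XT.lf (nat_lit 0) (nat_lit 89015995554) (nat_lit 76) (nat_lit 16422071117) (nat_lit 76) (nat_lit 6503518577) (nat_lit 12) (nat_lit 4) (nat_lit 13) (nat_lit 5) (nat_lit 13) (nat_lit 4) (nat_lit 465) (nat_lit 400) (nat_lit 335)) (XT.lf (nat_lit 0) (nat_lit 13005929597) (nat_lit 152) (nat_lit 102453208083) (nat_lit 0) (nat_lit 3817481286) (nat_lit 10) (nat_lit 5) (nat_lit 12) (nat_lit 4) (nat_lit 10) (nat_lit 4) (nat_lit 466) (nat_lit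 400) (nat_lit 334)))) (XT.nd (nat_lit 78) (nat_lit 76) (nat_lit 0) (XT.lf (nat_lit 0) (nat_lit 34774088751) (nat_lit 152) (nat_lit 66745529984) (nat_lit 0) (nat_lit 25581378064) (nat_lit 10) (nat_lit 5) (nat_lit 12) (nat_lit 4) (nat_lit 10) (nat_lit 4) (nat_lit 467) (nat_lit 400) (nat_lit 333)) (XT.nd (nat_lit 78) (nat_lit 76) (nat_lit 0) (XT.lf (nat_lit 0) (nat_lit 58264866653) (nat_lit 152) (nat_lit 28219755919) (nat_lit 0) (nat_lit 49068209321) (nat_lit 10) (nat_lit 5) (nat_lit 12) (nat_lit 4) (nat_lit 10) (nat_lit 4) (nat_lit 468) (nat_lit 400) (nat_lit 332)) (XT.lf (nat_lit 0) (nat_lit 14055529505) (nat_lit 76) (nat_lit 69899974231) (nat_lit 76) (nat_lit 60699662598) (nat_lit 9) (nat_lit 4) (nat_lit 10) (nat_lit 5) (nat_lit 10) (nat_lit 4) (nat_lit 469) (nat_lit 400) (nat_lit 331)))))) (XT.nd (nat_lit 468) (nat_lit 76) (nat_lit 0) (XT.nd (nat_lit 234) (nat_lit 76) (nat_lit 0) (XT.nd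 (nat_lit 78) (nat_lit 76) (nat_lit 0) (XT.lf (nat_lit 0) (nat_lit 61282958123) (nat_lit 76) (nat_lit 51173028662) (nat_lit 76) (nat_lit 41969333417) (nat_lit 9) (nat_lit 4) (nat_lit 10) (nat_lit 5) (nat_lit 10) (nat_lit 4) (nat_lit 470) (nat_lit 400) (nat_lit 330)) (XT.nd (nat_lit 78) (nat_lit 76) (nat_lit 0) (XT.lf (nat_lit 0) (nat_lit 112256393843) (nat_lit 76) (nat_lit 30964389510) (nat_lit 76) (nat_lit 21757561291) (nat_lit 9) (nat_lit 4) (nat_lit 10) (nat_lit 5) (nat_lit 10) (nat_lit 4) (nat_lit 471) (nat_lit 400) (nat_lit 329)) (XT.lf (nat_lit 0) (nat_lit 52654549) (nat_lit 152) (nat_lit 9100207657) (nat_lit 76) (nat_lit 167223807250) (nat_lit 8) (nat_lit 5) (nat_lit 10) (nat_lit 5) (nat_lit 9) (nat_lit 4) (nat_lit 472) (nat_lit 400) (nat_lit 328)))) (XT.nd (nat_lit 78) (nat_lit 0) (nat_lit 0) (XT.lf (nat_lit 0) (nat_lit 23751010324) (nat_lit 152) (nat_lit 149564139619) (nat_lit 0)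 (nat_lit 15220996305) (nat_lit 7) (nat_lit 5) (nat_lit 9) (nat_lit 4) (nat_lit 7) (nat_lit 4) (nat_lit 473) (nat_lit 400) (nat_lit 327)) (XT.nd (nat_lit 78) (nat_lit 0) (nat_lit 0) (XT.lf (nat_lit 0) (nat_lit 49824438354) (nat_lit 152) (nat_lit 110513485207) (nat_lit 0) (nat_lit 41292121505) (nat_lit 7) (nat_lit 5) (nat_lit 9) (nat_lit 4) (nat_lit 7) (nat_lit 4) (nat_lit 474) (nat_lit 400) (nat_lit 326)) (XT.lf (nat_lit 0) (nat_lit 77970952255) (nat_lit 152) (nat_lit 68365023618) (nat_lit 0) (nat_lit 69436503157) (nat_lit 7) (nat_lit 5) (nat_lit 9) (nat_lit 4) (nat_lit 7) (nat_lit 4) (nat_lit 475) (nat_lit 400) (nat_lit 325))))) (XT.nd (nat_lit 234) (nat_lit 0) (nat_lit 0) (XT.nd (nat_lit 78) (nat_lit 76) (nat_lit 0) (XT.lf (nat_lit 0) (nat_lit 108357346185) (nat_lit 152) (nat_lit 22868986191) (nat_lit 0) (nat_lit 99820922782) (nat_lit 7) (nat_lit 5) (nat_lit 9) (nat_lit 4) (nat_lit 7)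 (nat_lit 4) (nat_lit 476) (nat_lit 400) (nat_lit 324)) (XT.nd (nat_lit 78) (nat_lit 0) (nat_lit 0) (XT.lf (nat_lit 0) (nat_lit 27626208033) (nat_lit 76) (nat_lit 114201890597) (nat_lit 76) (nat_lit 105663639133) (nat_lit 6) (nat_lit 4) (nat_lit 7) (nat_lit 5) (nat_lit 7) (nat_lit 4) (nat_lit 477) (nat_lit 400) (nat_lit 323)) (XT.lf (nat_lit 0) (nat_lit 83439665942) (nat_lit 76) (nat_lit 95151444668) (nat_lit 76) (nat_lit 86611500556) (nat_lit 6) (nat_lit 4) (nat_lit 7) (nat_lit 5) (nat_lit 7) (nat_lit 4) (nat_lit 478) (nat_lit 400) (nat_lit 322)))) (XT.nd (nat_lit 78) (nat_lit 0) (nat_lit 0) (XT.lf (nat_lit 0) (nat_lit 143697893666) (nat_lit 76) (nat_lit 74587381668) (nat_lit 76) (nat_lit 66045870289) (nat_lit 6) (nat_lit 4) (nat_lit 7) (nat_lit 5) (nat_lit 7) (nat_lit 4) (nat_lit 479) (nat_lit 400) (nat_lit 321)) (XT.nd (nat_lit 78) (nat_lit 0) (nat_lit 0) (XT.lf (nat_lit 0) (nat_lit 208757976999)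 (nat_lit 76) (nat_lit 52387840484) (nat_lit 76) (nat_lit 43844877932) (nat_lit 6) (nat_lit 4) (nat_lit 7) (nat_lit 5) (nat_lit 7) (nat_lit 4) (nat_lit 480) (nat_lit 400) (nat_lit 320)) (XT.lf (nat_lit 0) (nat_lit 279005457176) (nat_lit 76) (nat_lit 28421268279) (nat_lit 76) (nat_lit 19876962048) (nat_lit 6) (nat_lit 4) (nat_lit 7) (nat_lit 5) (nat_lit 7) (nat_lit 4) (nat_lit 481) (nat_lit 400) (nat_lit 319))))))))
noncomputable def xc94 : XT := (XT.nd (nat_lit 1794) (nat_lit 152) (nat_lit 0) (XT.nd (nat_lit 858) (nat_lit 0) (nat_lit 0) (XT.nd (nat_lit 390) (nat_lit 76) (nat_lit 0) (XT.nd (nat_lit 156) (nat_lit 0) (nat_lit 0) (XT.nd (nat_lit 78) (nat_lit 0) (nat_lit 0) (XT.lf (nat_lit 0) (nat_lit 3484267752) (nat_lit 76) (nat_lit 2299298656) (nat_lit 152) (nat_lit 345600533042) (nat_lit 4) (nat_lit 5) (nat_lit 5) (nat_lit 5) (nat_lit 6) (nat_lit 4) (nat_lit 482) (nat_lit 400) (nat_lit 318))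 (XT.lf (nat_lit 0) (nat_lit 34393074911) (nat_lit 152) (nat_lit 316319504340) (nat_lit 0) (nat_lit 26479461609) (nat_lit 4) (nat_lit 5) (nat_lit 6) (nat_lit 4) (nat_lit 4) (nat_lit 4) (nat_lit 483) (nat_lit 400) (nat_lit 317))) (XT.nd (nat_lit 78) (nat_lit 0) (nat_lit 0) (XT.lf (nat_lit 0) (nat_lit 65343618012) (nat_lit 152) (nat_lit 282287800670) (nat_lit 0) (nat_lit 57429017066) (nat_lit 4) (nat_lit 5) (nat_lit 6) (nat_lit 4) (nat_lit 4) (nat_lit 4) (nat_lit 484) (nat_lit 400) (nat_lit 316)) (XT.nd (nat_lit 78) (nat_lit 0) (nat_lit 0) (XT.lf (nat_lit 0) (nat_lit 98763308150) (nat_lit 152) (nat_lit 245547753145) (nat_lit 0) (nat_lit 90847792719) (nat_lit 4) (nat_lit 5) (nat_lit 6) (nat_lit 4) (nat_lit 4) (nat_lit 4) (nat_lit 485) (nat_lit 400) (nat_lit 315)) (XT.lf (nat_lit 0) (nat_lit 134850187933) (nat_lit 152) (nat_lit 205881642965) (nat_lit 0) (nat_lit 126933825756) (nat_lit 4) (nat_lit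 5) (nat_lit 6) (nat_lit 4) (nat_lit 4) (nat_lit 4) (nat_lit 486) (nat_lit 400) (nat_lit 314))))) (XT.nd (nat_lit 234) (nat_lit 76) (nat_lit 0) (XT.nd (nat_lit 78) (nat_lit 0) (nat_lit 0) (XT.lf (nat_lit 0) (nat_lit 173818105538) (nat_lit 152) (nat_lit 163054411700) (nat_lit 0) (nat_lit 165900959337) (nat_lit 4) (nat_lit 5) (nat_lit 6) (nat_lit 4) (nat_lit 4) (nat_lit 4) (nat_lit 487) (nat_lit 400) (nat_lit 313)) (XT.nd (nat_lit 78) (nat_lit 0) (nat_lit 0) (XT.lf (nat_lit 0) (nat_lit 215897981957) (nat_lit 152) (nat_lit 116812268349) (nat_lit 0) (nat_lit 207980109809) (nat_lit 4) (nat_lit 5) (nat_lit 6) (nat_lit 4) (nat_lit 4) (nat_lit 4) (nat_lit 488) (nat_lit 400) (nat_lit 312)) (XT.lf (nat_lit 0) (nat_lit 261339179422) (nat_lit 152) (nat_lit 66881185396) (nat_lit 0) (nat_lit 253420635099) (nat_lit 4) (nat_lit 5) (nat_lit 6) (nat_lit 4) (nat_lit 4) (nat_lit 4) (nat_lit 489) (nat_lit 400)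 (nat_lit 311)))) (XT.nd (nat_lit 78) (nat_lit 76) (nat_lit 0) (XT.lf (nat_lit 0) (nat_lit 310410979102) (nat_lit 152) (nat_lit 12965274943) (nat_lit 0) (nat_lit 302491812396) (nat_lit 4) (nat_lit 5) (nat_lit 6) (nat_lit 4) (nat_lit 4) (nat_lit 4) (nat_lit 490) (nat_lit 400) (nat_lit 310)) (XT.nd (nat_lit 78) (nat_lit 0) (nat_lit 0) (XT.lf (nat_lit 0) (nat_lit 47638010945) (nat_lit 76) (nat_lit 316911861211) (nat_lit 76) (nat_lit 308992118225) (nat_lit 3) (nat_lit 4) (nat_lit 4) (nat_lit 5) (nat_lit 4) (nat_lit 4) (nat_lit 491) (nat_lit 400) (nat_lit 309)) (XT.lf (nat_lit 0) (nat_lit 113818189156) (nat_lit 76) (nat_lit 309551947453) (nat_lit 76) (nat_lit 301631670874) (nat_lit 3) (nat_lit 4) (nat_lit 4) (nat_lit 5) (nat_lit 4) (nat_lit 4) (nat_lit 492) (nat_lit 400) (nat_lit 308)))))) (XT.nd (nat_lit 468) (nat_lit 0) (nat_lit 0) (XT.nd (nat_lit 234) (nat_lit 0) (nat_lit 0) (XT.nd (nat_lit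 78) (nat_lit 0) (nat_lit 0) (XT.lf (nat_lit 0) (nat_lit 185284710122) (nat_lit 76) (nat_lit 301607392061) (nat_lit 76) (nat_lit 293686621413) (nat_lit 3) (nat_lit 4) (nat_lit 4) (nat_lit 5) (nat_lit 4) (nat_lit 4) (nat_lit 493) (nat_lit 400) (nat_lit 307)) (XT.nd (nat_lit 78) (nat_lit 0) (nat_lit 0) (XT.lf (nat_lit 0) (nat_lit 262461079151) (nat_lit 76) (nat_lit 293031116187) (nat_lit 76) (nat_lit 285109888069) (nat_lit 3) (nat_lit 4) (nat_lit 4) (nat_lit 5) (nat_lit 4) (nat_lit 4) (nat_lit 494) (nat_lit 400) (nat_lit 306)) (XT.lf (nat_lit 0) (nat_lit 345804637691) (nat_lit 76) (nat_lit 283772297456) (nat_lit 76) (nat_lit 275850645754) (nat_lit 3) (nat_lit 4) (nat_lit 4) (nat_lit 5) (nat_lit 4) (nat_lit 4) (nat_lit 495) (nat_lit 400) (nat_lit 305)))) (XT.nd (nat_lit 78) (nat_lit 0) (nat_lit 0) (XT.lf (nat_lit 0) (nat_lit 435809273495) (nat_lit 76) (nat_lit 273776068794) (nat_lit 76) (nat_lit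 265854024886) (nat_lit 3) (nat_lit 4) (nat_lit 4) (nat_lit 5) (nat_lit 4) (nat_lit 4) (nat_lit 496) (nat_lit 400) (nat_lit 304)) (XT.nd (nat_lit 78) (nat_lit 0) (nat_lit 0) (XT.lf (nat_lit 0) (nat_lit 533008347369) (nat_lit 76) (nat_lit 262983193291) (nat_lit 76) (nat_lit 255060786228) (nat_lit 3) (nat_lit 4) (nat_lit 4) (nat_lit 5) (nat_lit 4) (nat_lit 4) (nat_lit 497) (nat_lit 400) (nat_lit 303)) (XT.lf (nat_lit 0) (nat_lit 637977853823) (nat_lit 76) (nat_lit 251329713166) (nat_lit 76) (nat_lit 243406969849) (nat_lit 3) (nat_lit 4) (nat_lit 4) (nat_lit 5) (nat_lit 4) (nat_lit 4) (nat_lit 498) (nat_lit 400) (nat_lit 302))))) (XT.nd (nat_lit 234) (nat_lit 0) (nat_lit 0) (XT.nd (nat_lit 78) (nat_lit 0) (nat_lit 0) (XT.lf (nat_lit 0) (nat_lit 751339834378) (nat_lit 76) (nat_lit 238746570759) (nat_lit 76) (nat_lit 230823516095) (nat_lit 3) (nat_lit 4) (nat_lit 4) (nat_lit 5) (nat_lit 4) (nat_lit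 4) (nat_lit 499) (nat_lit 400) (nat_lit 301)) (XT.nd (nat_lit 78) (nat_lit 0) (nat_lit 0) (XT.lf (nat_lit 0) (nat_lit 873766063733) (nat_lit 76) (nat_lit 225159199299) (nat_lit 76) (nat_lit 217235856351) (nat_lit 3) (nat_lit 4) (nat_lit 4) (nat_lit 5) (nat_lit 4) (nat_lit 4) (nat_lit 500) (nat_lit 400) (nat_lit 300)) (XT.lf (nat_lit 0) (nat_lit 1005982030656) (nat_lit 76) (nat_lit 210487081031) (nat_lit 76) (nat_lit 202563471154) (nat_lit 3) (nat_lit 4) (nat_lit 4) (nat_lit 5) (nat_lit 4) (nat_lit 4) (nat_lit 501) (nat_lit 400) (nat_lit 299)))) (XT.nd (nat_lit 78) (nat_lit 0) (nat_lit 0) (XT.lf (nat_lit 0) (nat_lit 1148771237171) (nat_lit 76) (nat_lit 194643270068) (nat_lit 76) (nat_lit 186719413034) (nat_lit 3) (nat_lit 4) (nat_lit 4) (nat_lit 5) (nat_lit 4) (nat_lit 4) (nat_lit 502) (nat_lit 400) (nat_lit 298)) (XT.nd (nat_lit 78) (nat_lit 0) (nat_lit 0) (XT.lf (nat_lit 0) (nat_lit 1302979841540)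 (nat_lit 76) (nat_lit 177533877160) (nat_lit 76) (nat_lit 169609791277) (nat_lit 3) (nat_lit 4) (nat_lit 4) (nat_lit 5) (nat_lit 4) (nat_lit 4) (nat_lit 503) (nat_lit 400) (nat_lit 297)) (XT.lf (nat_lit 0) (nat_lit 1469521672530) (nat_lit 76) (nat_lit 159057513312) (nat_lit 76) (nat_lit 151133215531) (nat_lit 3) (nat_lit 4) (nat_lit 4) (nat_lit 5) (nat_lit 4) (nat_lit 4) (nat_lit 504) (nat_lit 400) (nat_lit 296))))))) (XT.nd (nat_lit 936) (nat_lit 0) (nat_lit 0) (XT.nd (nat_lit 468) (nat_lit 152) (nat_lit 0) (XT.nd (nat_lit 234) (nat_lit 0) (nat_lit 0) (XT.nd (nat_lit 78) (nat_lit 0) (nat_lit 0) (XT.lf (nat_lit 0) (nat_lit 1649383644694) (nat_lit 76) (nat_lit 139104688961) (nat_lit 76) (nat_lit 131180194979) (nat_lit 3) (nat_lit 4) (nat_lit 4) (nat_lit 5) (nat_lit 4) (nat_lit 4) (nat_lit 505) (nat_lit 400) (nat_lit 295)) (XT.nd (nat_lit 78) (nat_lit 0) (nat_lit 0) (XT.lf (nat_lit 0) (nat_lit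 1843631606756) (nat_lit 76) (nat_lit 117557165146) (nat_lit 76) (nat_lit 109632489497) (nat_lit 3) (nat_lit 4) (nat_lit 4) (nat_lit 5) (nat_lit 4) (nat_lit 4) (nat_lit 506) (nat_lit 400) (nat_lit 294)) (XT.lf (nat_lit 0) (nat_lit 2053416657752) (nat_lit 76) (nat_lit 94287252839) (nat_lit 76) (nat_lit 86362408979) (nat_lit 3) (nat_lit 4) (nat_lit 4) (nat_lit 5) (nat_lit 4) (nat_lit 4) (nat_lit 507) (nat_lit 400) (nat_lit 293)))) (XT.nd (nat_lit 78) (nat_lit 0) (nat_lit 0) (XT.lf (nat_lit 0) (nat_lit 2279981968353) (nat_lit 76) (nat_lit 69157056263) (nat_lit 76) (nat_lit 61232056652) (nat_lit 3) (nat_lit 4) (nat_lit 4) (nat_lit 5) (nat_lit 4) (nat_lit 4) (nat_lit 508) (nat_lit 400) (nat_lit 292)) (XT.nd (nat_lit 78) (nat_lit 0) (nat_lit 0) (XT.lf (nat_lit 0) (nat_lit 2524670147807) (nat_lit 76) (nat_lit 42017655734) (nat_lit 76) (nat_lit 34092511909) (nat_lit 3) (nat_lit 4) (nat_lit 4) (nat_lit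 5) (nat_lit 4) (nat_lit 4) (nat_lit 509) (nat_lit 400) (nat_lit 291)) (XT.lf (nat_lit 0) (nat_lit 2788931200142) (nat_lit 76) (nat_lit 12708225176) (nat_lit 76) (nat_lit 4782947819) (nat_lit 3) (nat_lit 4) (nat_lit 4) (nat_lit 5) (nat_lit 4) (nat_lit 4) (nat_lit 510) (nat_lit 400) (nat_lit 290))))) (XT.nd (nat_lit 234) (nat_lit 0) (nat_lit 0) (XT.nd (nat_lit 78) (nat_lit 0) (nat_lit 0) (XT.lf (nat_lit 0) (nat_lit 27171791707) (nat_lit 152) (nat_lit 2981327275649) (nat_lit 0) (nat_lit 19833457451) (nat_lit 1) (nat_lit 5) (nat_lit 3) (nat_lit 4) (nat_lit 1) (nat_lit 4) (nat_lit 511) (nat_lit 400) (nat_lit 289)) (XT.nd (nat_lit 78) (nat_lit 0) (nat_lit 0) (XT.lf (nat_lit 0) (nat_lit 62244246706) (nat_lit 152) (nat_lit 3150769917692) (nat_lit 0) (nat_lit 54905806449) (nat_lit 1) (nat_lit 5) (nat_lit 3) (nat_lit 4) (nat_lit 1) (nat_lit 4) (nat_lit 512) (nat_lit 400) (nat_lit 288)) (XT.lf (nat_lit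 0) (nat_lit 100121567066) (nat_lit 152) (nat_lit 3333769891335) (nat_lit 0) (nat_lit 92783028660) (nat_lit 1) (nat_lit 5) (nat_lit 3) (nat_lit 4) (nat_lit 1) (nat_lit 4) (nat_lit 513) (nat_lit 400) (nat_lit 287)))) (XT.nd (nat_lit 78) (nat_lit 0) (nat_lit 0) (XT.lf (nat_lit 0) (nat_lit 141028210983) (nat_lit 152) (nat_lit 3531411640866) (nat_lit 0) (nat_lit 133689581697) (nat_lit 1) (nat_lit 5) (nat_lit 3) (nat_lit 4) (nat_lit 1) (nat_lit 4) (nat_lit 514) (nat_lit 400) (nat_lit 286)) (XT.nd (nat_lit 78) (nat_lit 0) (nat_lit 0) (XT.lf (nat_lit 0) (nat_lit 185206588197) (nat_lit 152) (nat_lit 3744866376653) (nat_lit 0) (nat_lit 177867874764) (nat_lit 1) (nat_lit 5) (nat_lit 3) (nat_lit 4) (nat_lit 1) (nat_lit 4) (nat_lit 515) (nat_lit 400) (nat_lit 285)) (XT.lf (nat_lit 0) (nat_lit 232918496499) (nat_lit 152) (nat_lit 3975399015649) (nat_lit 0) (nat_lit 225579705152) (nat_lit 1) (nat_lit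 5) (nat_lit 3) (nat_lit 4) (nat_lit 1) (nat_lit 4) (nat_lit 516) (nat_lit 400) (nat_lit 284)))))) (XT.nd (nat_lit 468) (nat_lit 0) (nat_lit 0) (XT.nd (nat_lit 234) (nat_lit 0) (nat_lit 0) (XT.nd (nat_lit 78) (nat_lit 0) (nat_lit 0) (XT.lf (nat_lit 0) (nat_lit 284446673125) (nat_lit 152) (nat_lit 4224375677195) (nat_lit 0) (nat_lit 277107809635) (nat_lit 1) (nat_lit 5) (nat_lit 3) (nat_lit 4) (nat_lit 1) (nat_lit 4) (nat_lit 517) (nat_lit 400) (nat_lit 283)) (XT.nd (nat_lit 78) (nat_lit 0) (nat_lit 0) (XT.lf (nat_lit 0) (nat_lit 340096470231) (nat_lit 152) (nat_lit 4493271778547) (nat_lit 0) (nat_lit 332757539942) (nat_lit 1) (nat_lit 5) (nat_lit 3) (nat_lit 4) (nat_lit 1) (nat_lit 4) (nat_lit 518) (nat_lit 400) (nat_lit 282)) (XT.lf (nat_lit 0) (nat_lit 400197664393) (nat_lit 152) (nat_lit 4783680778081) (nat_lit 0) (nat_lit 392858672253) (nat_lit 1) (nat_lit 5) (nat_lit 3) (nat_lit 4)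 (nat_lit 1) (nat_lit 4) (nat_lit 519) (nat_lit 400) (nat_lit 281)))) (XT.nd (nat_lit 78) (nat_lit 0) (nat_lit 0) (XT.lf (nat_lit 0) (nat_lit 465106410836) (nat_lit 152) (nat_lit 5097323618017) (nat_lit 0) (nat_lit 457767361427) (nat_lit 1) (nat_lit 5) (nat_lit 3) (nat_lit 4) (nat_lit 1) (nat_lit 4) (nat_lit 520) (nat_lit 400) (nat_lit 280)) (XT.nd (nat_lit 78) (nat_lit 0) (nat_lit 0) (XT.lf (nat_lit 0) (nat_lit 535207353983) (nat_lit 152) (nat_lit 5436058922592) (nat_lit 0) (nat_lit 527868251547) (nat_lit 1) (nat_lit 5) (nat_lit 3) (nat_lit 4) (nat_lit 1) (nat_lit 4) (nat_lit 521) (nat_lit 400) (nat_lit 279)) (XT.lf (nat_lit 0) (nat_lit 610915906830) (nat_lit 152) (nat_lit 5801894012130) (nat_lit 0) (nat_lit 603576755295) (nat_lit 1) (nat_lit 5) (nat_lit 3) (nat_lit 4) (nat_lit 1) (nat_lit 4) (nat_lit 522) (nat_lit 400) (nat_lit 278))))) (XT.nd (nat_lit 234) (nat_lit 0) (nat_lit 0) (XT.nd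 (nat_lit 78) (nat_lit 0) (nat_lit 0) (XT.lf (nat_lit 0) (nat_lit 692680712654) (nat_lit 152) (nat_lit 6196996798272) (nat_lit 0) (nat_lit 685341515657) (nat_lit 1) (nat_lit 5) (nat_lit 3) (nat_lit 4) (nat_lit 1) (nat_lit 4) (nat_lit 523) (nat_lit 400) (nat_lit 277)) (XT.nd (nat_lit 78) (nat_lit 0) (nat_lit 0) (XT.lf (nat_lit 0) (nat_lit 780986303638) (nat_lit 152) (nat_lit 6623708630862) (nat_lit 0) (nat_lit 773647064546) (nat_lit 1) (nat_lit 5) (nat_lit 3) (nat_lit 4) (nat_lit 1) (nat_lit 4) (nat_lit 524) (nat_lit 400) (nat_lit 276)) (XT.lf (nat_lit 0) (nat_lit 876355972172) (nat_lit 152) (nat_lit 7084558172611) (nat_lit 0) (nat_lit 869016694103) (nat_lit 1) (nat_lit 5) (nat_lit 3) (nat_lit 4) (nat_lit 1) (nat_lit 4) (nat_lit 525) (nat_lit 400) (nat_lit 275)))) (XT.nd (nat_lit 78) (nat_lit 0) (nat_lit 0) (XT.lf (nat_lit 0) (nat_lit 979354871847) (nat_lit 152) (nat_lit 7582276383768) (nat_lit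 0) (nat_lit 972015557689) (nat_lit 1) (nat_lit 5) (nat_lit 3) (nat_lit 4) (nat_lit 1) (nat_lit 4) (nat_lit 526) (nat_lit 400) (nat_lit 274)) (XT.nd (nat_lit 78) (nat_lit 0) (nat_lit 0) (XT.lf (nat_lit 0) (nat_lit 1090593366514) (nat_lit 152) (nat_lit 8119812705582) (nat_lit 0) (nat_lit 1083254018941) (nat_lit 1) (nat_lit 5) (nat_lit 3) (nat_lit 4) (nat_lit 1) (nat_lit 4) (nat_lit 527) (nat_lit 400) (nat_lit 273)) (XT.lf (nat_lit 0) (nat_lit 1210730647253) (nat_lit 152) (nat_lit 8700352538481) (nat_lit 0) (nat_lit 1203391268738) (nat_lit 1) (nat_lit 5) (nat_lit 3) (nat_lit 4) (nat_lit 1) (nat_lit 4) (nat_lit 528) (nat_lit 400) (nat_lit 272))))))))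
noncomputable def xc95 : XT := (XT.nd (nat_lit 54132) (nat_lit 0) (nat_lit 1900) (XT.nd (nat_lit 53196) (nat_lit 0) (nat_lit 4028) (XT.nd (nat_lit 52728) (nat_lit 0) (nat_lit 6612) (XT.nd (nat_lit 52494) (nat_lit 0) (nat_lit 7372) (XT.nd (nat_lit 78) (nat_lit 0) (nat_lit 0) (XT.lf (nat_lit 0) (nat_lit 1340478638689) (nat_lit 152) (nat_lit 9327336118510) (nat_lit 0) (nat_lit 1333139231525) (nat_lit 1) (nat_lit 5) (nat_lit 3) (nat_lit 4) (nat_lit 1) (nat_lit 4) (nat_lit 529) (nat_lit 400) (nat_lit 271)) (XT.lf (nat_lit 0) (nat_lit 1480606217809) (nat_lit 152) (nat_lit 10004478903922) (nat_lit 0) (nat_lit 1473266784118) (nat_lit 1) (nat_lit 5) (nat_lit 3) (nat_lit 4) (nat_lit 1) (nat_lit 4) (nat_lit 530) (nat_lit 400) (nat_lit 270))) (XT.nd (nat_lit 78) (nat_lit 228) (nat_lit 0) (XT.lf (nat_lit 0) (nat_lit 1518294346) (nat_lit 0) (nat_lit 1518294346) (nat_lit 76) (nat_lit 197255994) (nat_lit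 101) (nat_lit 5) (nat_lit 101) (nat_lit 3) (nat_lit 102) (nat_lit 0) (nat_lit 401) (nat_lit 401) (nat_lit 398)) (XT.nd (nat_lit 78) (nat_lit 0) (nat_lit 0) (XT.lf (nat_lit 0) (nat_lit 2348854194) (nat_lit 228) (nat_lit 217034965) (nat_lit 228) (nat_lit 3940457219) (nat_lit 98) (nat_lit 3) (nat_lit 101) (nat_lit 3) (nat_lit 101) (nat_lit 5) (nat_lit 402) (nat_lit 401) (nat_lit 397)) (XT.lf (nat_lit 76) (nat_lit 3258887408) (nat_lit 0) (nat_lit 1835870745) (nat_lit 228) (nat_lit 1468342538) (nat_lit 99) (nat_lit 5) (nat_lit 98) (nat_lit 3) (nat_lit 101) (nat_lit 5) (nat_lit 403) (nat_lit 401) (nat_lit 396))))) (XT.nd (nat_lit 234) (nat_lit 380) (nat_lit 0) (XT.nd (nat_lit 78) (nat_lit 152) (nat_lit 0) (XT.lf (nat_lit 76) (nat_lit 219236165) (nat_lit 0) (nat_lit 892230164) (nat_lit 304) (nat_lit 5530527695) (nat_lit 96) (nat_lit 5) (nat_lit 95) (nat_lit 5) (nat_lit 99) (nat_lit 5) (nat_lit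 404) (nat_lit 401) (nat_lit 395)) (XT.nd (nat_lit 78) (nat_lit 228) (nat_lit 0) (XT.lf (nat_lit 0) (nat_lit 3668170920) (nat_lit 228) (nat_lit 2727621128) (nat_lit 76) (nat_lit 340507506) (nat_lit 96) (nat_lit 5) (nat_lit 99) (nat_lit 5) (nat_lit 97) (nat_lit 5) (nat_lit 405) (nat_lit 401) (nat_lit 394)) (XT.lf (nat_lit 0) (nat_lit 1133128435) (nat_lit 228) (nat_lit 5119023018) (nat_lit 304) (nat_lit 600307614) (nat_lit 93) (nat_lit 5) (nat_lit 96) (nat_lit 5) (nat_lit 97) (nat_lit 5) (nat_lit 406) (nat_lit 401) (nat_lit 393)))) (XT.nd (nat_lit 78) (nat_lit 304) (nat_lit 0) (XT.lf (nat_lit 0) (nat_lit 1817814824) (nat_lit 304) (nat_lit 1736764590) (nat_lit 76) (nat_lit 3430975537) (nat_lit 92) (nat_lit 5) (nat_lit 96) (nat_lit 5) (nat_lit 93) (nat_lit 5) (nat_lit 407) (nat_lit 401) (nat_lit 392)) (XT.nd (nat_lit 78) (nat_lit 0) (nat_lit 0) (XT.lf (nat_lit 0) (nat_lit 2516280776) (nat_lit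 304) (nat_lit 1737169643) (nat_lit 380) (nat_lit 2886183221) (nat_lit 88) (nat_lit 5) (nat_lit 92) (nat_lit 5) (nat_lit 93) (nat_lit 5) (nat_lit 408) (nat_lit 401) (nat_lit 391)) (XT.lf (nat_lit 0) (nat_lit 6746380606) (nat_lit 380) (nat_lit 271379895) (nat_lit 76) (nat_lit 299377227) (nat_lit 88) (nat_lit 5) (nat_lit 93) (nat_lit 5) (nat_lit 89) (nat_lit 5) (nat_lit 409) (nat_lit 401) (nat_lit 390)))))) (XT.nd (nat_lit 468) (nat_lit 912) (nat_lit 0) (XT.nd (nat_lit 234) (nat_lit 760) (nat_lit 0) (XT.nd (nat_lit 78) (nat_lit 456) (nat_lit 0) (XT.lf (nat_lit 0) (nat_lit 1807211168) (nat_lit 456) (nat_lit 3108747513) (nat_lit 76) (nat_lit 2591343459) (nat_lit 82) (nat_lit 5) (nat_lit 88) (nat_lit 5) (nat_lit 83) (nat_lit 5) (nat_lit 410) (nat_lit 401) (nat_lit 389)) (XT.nd (nat_lit 78) (nat_lit 0) (nat_lit 0) (XT.lf (nat_lit 0) (nat_lit 1649611534) (nat_lit 456) (nat_lit 2569751809) (nat_lit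 532) (nat_lit 3502222901) (nat_lit 76) (nat_lit 5) (nat_lit 82) (nat_lit 5) (nat_lit 83) (nat_lit 5) (nat_lit 411) (nat_lit 401) (nat_lit 388)) (XT.lf (nat_lit 0) (nat_lit 6747382760) (nat_lit 532) (nat_lit 1154568945) (nat_lit 76) (nat_lit 57299304) (nat_lit 76) (nat_lit 5) (nat_lit 83) (nat_lit 5) (nat_lit 77) (nat_lit 5) (nat_lit 412) (nat_lit 401) (nat_lit 387)))) (XT.nd (nat_lit 78) (nat_lit 228) (nat_lit 0) (XT.lf (nat_lit 0) (nat_lit 1213818177) (nat_lit 532) (nat_lit 4108784978) (nat_lit 76) (nat_lit 2889740314) (nat_lit 69) (nat_lit 5) (nat_lit 76) (nat_lit 5) (nat_lit 70) (nat_lit 5) (nat_lit 413) (nat_lit 401) (nat_lit 386)) (XT.nd (nat_lit 78) (nat_lit 0) (nat_lit 0) (XT.lf (nat_lit 0) (nat_lit 1230642637) (nat_lit 228) (nat_lit 2451761520) (nat_lit 304) (nat_lit 4807670841) (nat_lit 66) (nat_lit 5) (nat_lit 69) (nat_lit 5) (nat_lit 70) (nat_lit 5) (nat_lit 414) (nat_lit 401)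 (nat_lit 385)) (XT.lf (nat_lit 0) (nat_lit 6338326342) (nat_lit 304) (nat_lit 1738831534) (nat_lit 76) (nat_lit 713730339) (nat_lit 66) (nat_lit 5) (nat_lit 70) (nat_lit 5) (nat_lit 67) (nat_lit 5) (nat_lit 415) (nat_lit 401) (nat_lit 384))))) (XT.nd (nat_lit 234) (nat_lit 456) (nat_lit 0) (XT.nd (nat_lit 78) (nat_lit 152) (nat_lit 0) (XT.lf (nat_lit 0) (nat_lit 121691122) (nat_lit 304) (nat_lit 4903220310) (nat_lit 76) (nat_lit 4087901056) (nat_lit 62) (nat_lit 5) (nat_lit 66) (nat_lit 5) (nat_lit 63) (nat_lit 5) (nat_lit 416) (nat_lit 401) (nat_lit 383)) (XT.nd (nat_lit 78) (nat_lit 0) (nat_lit 0) (XT.lf (nat_lit 0) (nat_lit 1106139206) (nat_lit 152) (nat_lit 1610756747) (nat_lit 228) (nat_lit 6742737999) (nat_lit 60) (nat_lit 5) (nat_lit 62) (nat_lit 5) (nat_lit 63) (nat_lit 5) (nat_lit 417) (nat_lit 401) (nat_lit 382)) (XT.lf (nat_lit 0) (nat_lit 5584227928) (nat_lit 228) (nat_lit 2167078357)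 (nat_lit 76) (nat_lit 2077771555) (nat_lit 60) (nat_lit 5) (nat_lit 63) (nat_lit 5) (nat_lit 61) (nat_lit 5) (nat_lit 418) (nat_lit 401) (nat_lit 381)))) (XT.nd (nat_lit 78) (nat_lit 228) (nat_lit 0) (XT.lf (nat_lit 0) (nat_lit 4546829656) (nat_lit 228) (nat_lit 4171440517) (nat_lit 304) (nat_lit 1506855956) (nat_lit 57) (nat_lit 5) (nat_lit 60) (nat_lit 5) (nat_lit 61) (nat_lit 5) (nat_lit 419) (nat_lit 401) (nat_lit 380)) (XT.nd (nat_lit 78) (nat_lit 0) (nat_lit 0) (XT.lf (nat_lit 0) (nat_lit 1138427119) (nat_lit 152) (nat_lit 215496051) (nat_lit 228) (nat_lit 9298071636) (nat_lit 54) (nat_lit 5) (nat_lit 56) (nat_lit 5) (nat_lit 57) (nat_lit 5) (nat_lit 420) (nat_lit 401) (nat_lit 379)) (XT.lf (nat_lit 0) (nat_lit 4510726810) (nat_lit 228) (nat_lit 2576620039) (nat_lit 76) (nat_lit 4010676890) (nat_lit 54) (nat_lit 5) (nat_lit 57) (nat_lit 5) (nat_lit 55) (nat_lit 5) (nat_lit 421) (nat_lit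 401) (nat_lit 378))))))) (XT.nd (nat_lit 936) (nat_lit 912) (nat_lit 0) (XT.nd (nat_lit 468) (nat_lit 532) (nat_lit 0) (XT.nd (nat_lit 234) (nat_lit 304) (nat_lit 0) (XT.nd (nat_lit 78) (nat_lit 228) (nat_lit 0) (XT.lf (nat_lit 0) (nat_lit 5013534375) (nat_lit 152) (nat_lit 2932449532) (nat_lit 228) (nat_lit 3631703914) (nat_lit 52) (nat_lit 5) (nat_lit 54) (nat_lit 5) (nat_lit 55) (nat_lit 5) (nat_lit 422) (nat_lit 401) (nat_lit 377)) (XT.nd (nat_lit 78) (nat_lit 76) (nat_lit 0) (XT.lf (nat_lit 0) (nat_lit 1135078235) (nat_lit 152) (nat_lit 10560544587) (nat_lit 228) (nat_lit 396960983) (nat_lit 50) (nat_lit 5) (nat_lit 52) (nat_lit 5) (nat_lit 53) (nat_lit 4) (nat_lit 423) (nat_lit 401) (nat_lit 376)) (XT.lf (nat_lit 0) (nat_lit 3105801831) (nat_lit 228) (nat_lit 3117174209) (nat_lit 76) (nat_lit 6406626495) (nat_lit 49) (nat_lit 5) (nat_lit 52) (nat_lit 5) (nat_lit 50) (nat_lit 5) (nat_lit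 424) (nat_lit 401) (nat_lit 375)))) (XT.nd (nat_lit 78) (nat_lit 152) (nat_lit 0) (XT.lf (nat_lit 0) (nat_lit 5473980644) (nat_lit 152) (nat_lit 1435969465) (nat_lit 228) (nat_lit 6295417742) (nat_lit 47) (nat_lit 5) (nat_lit 49) (nat_lit 5) (nat_lit 50) (nat_lit 5) (nat_lit 425) (nat_lit 401) (nat_lit 374)) (XT.nd (nat_lit 78) (nat_lit 76) (nat_lit 0) (XT.lf (nat_lit 0) (nat_lit 921364576) (nat_lit 76) (nat_lit 10209528523) (nat_lit 152) (nat_lit 2687321668) (nat_lit 46) (nat_lit 5) (nat_lit 47) (nat_lit 5) (nat_lit 48) (nat_lit 4) (nat_lit 426) (nat_lit 401) (nat_lit 373)) (XT.lf (nat_lit 0) (nat_lit 1317076599) (nat_lit 152) (nat_lit 3972012588) (nat_lit 76) (nat_lit 9175235861) (nat_lit 45) (nat_lit 5) (nat_lit 47) (nat_lit 5) (nat_lit 46) (nat_lit 5) (nat_lit 427) (nat_lit 401) (nat_lit 372))))) (XT.nd (nat_lit 234) (nat_lit 304) (nat_lit 0) (XT.nd (nat_lit 78) (nat_lit 76) (nat_lit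 0) (XT.lf (nat_lit 0) (nat_lit 5560073515) (nat_lit 228) (nat_lit 9404223678) (nat_lit 76) (nat_lit 187182170) (nat_lit 43) (nat_lit 5) (nat_lit 46) (nat_lit 5) (nat_lit 44) (nat_lit 4) (nat_lit 428) (nat_lit 401) (nat_lit 371)) (XT.nd (nat_lit 78) (nat_lit 0) (nat_lit 0) (XT.lf (nat_lit 0) (nat_lit 327261400) (nat_lit 76) (nat_lit 9993810999) (nat_lit 152) (nat_lit 5558261439) (nat_lit 42) (nat_lit 5) (nat_lit 43) (nat_lit 5) (nat_lit 44) (nat_lit 4) (nat_lit 429) (nat_lit 401) (nat_lit 370)) (XT.lf (nat_lit 0) (nat_lit 11241533744) (nat_lit 76) (nat_lit 4403081539) (nat_lit 152) (nat_lit 1006280104) (nat_lit 42) (nat_lit 5) (nat_lit 43) (nat_lit 5) (nat_lit 44) (nat_lit 4) (nat_lit 430) (nat_lit 401) (nat_lit 369)))) (XT.nd (nat_lit 78) (nat_lit 76) (nat_lit 0) (XT.lf (nat_lit 0) (nat_lit 3821400430) (nat_lit 228) (nat_lit 11909086711) (nat_lit 76) (nat_lit 1737612076) (nat_lit 39) (nat_lit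 5) (nat_lit 42) (nat_lit 5) (nat_lit 40) (nat_lit 4) (nat_lit 431) (nat_lit 401) (nat_lit 368)) (XT.nd (nat_lit 78) (nat_lit 76) (nat_lit 0) (XT.lf (nat_lit 0) (nat_lit 9176472625) (nat_lit 228) (nat_lit 896515225) (nat_lit 76) (nat_lit 8259966537) (nat_lit 39) (nat_lit 5) (nat_lit 42) (nat_lit 5) (nat_lit 40) (nat_lit 4) (nat_lit 432) (nat_lit 401) (nat_lit 367)) (XT.lf (nat_lit 0) (nat_lit 11453517697) (nat_lit 76) (nat_lit 3716551007) (nat_lit 152) (nat_lit 4080128520) (nat_lit 38) (nat_lit 5) (nat_lit 39) (nat_lit 5) (nat_lit 40) (nat_lit 4) (nat_lit 433) (nat_lit 401) (nat_lit 366)))))) (XT.nd (nat_lit 468) (nat_lit 380) (nat_lit 0) (XT.nd (nat_lit 234) (nat_lit 228) (nat_lit 0) (XT.nd (nat_lit 78) (nat_lit 76) (nat_lit 0) (XT.lf (nat_lit 0) (nat_lit 1484092444) (nat_lit 228) (nat_lit 15624413291) (nat_lit 76) (nat_lit 3117470341) (nat_lit 35) (nat_lit 5) (nat_lit 38) (nat_lit 5) (nat_lit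 36) (nat_lit 4) (nat_lit 434) (nat_lit 401) (nat_lit 365)) (XT.nd (nat_lit 78) (nat_lit 76) (nat_lit 0) (XT.lf (nat_lit 0) (nat_lit 7524216723) (nat_lit 228) (nat_lit 3153552879) (nat_lit 76) (nat_lit 10573480468) (nat_lit 35) (nat_lit 5) (nat_lit 38) (nat_lit 5) (nat_lit 36) (nat_lit 4) (nat_lit 435) (nat_lit 401) (nat_lit 364)) (XT.lf (nat_lit 0) (nat_lit 10743317236) (nat_lit 76) (nat_lit 3503307702) (nat_lit 152) (nat_lit 8096001527) (nat_lit 34) (nat_lit 5) (nat_lit 35) (nat_lit 5) (nat_lit 36) (nat_lit 4) (nat_lit 436) (nat_lit 401) (nat_lit 363)))) (XT.nd (nat_lit 78) (nat_lit 152) (nat_lit 0) (XT.lf (nat_lit 0) (nat_lit 2318777140) (nat_lit 76) (nat_lit 19375731426) (nat_lit 76) (nat_lit 1811795709) (nat_lit 33) (nat_lit 4) (nat_lit 34) (nat_lit 5) (nat_lit 34) (nat_lit 4) (nat_lit 437) (nat_lit 401) (nat_lit 362)) (XT.nd (nat_lit 78) (nat_lit 76) (nat_lit 0) (XT.lf (nat_lit 0)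 (nat_lit 5084294415) (nat_lit 152) (nat_lit 7056665692) (nat_lit 76) (nat_lit 12583907104) (nat_lit 32) (nat_lit 5) (nat_lit 34) (nat_lit 5) (nat_lit 33) (nat_lit 4) (nat_lit 438) (nat_lit 401) (nat_lit 361)) (XT.lf (nat_lit 0) (nat_lit 8479906628) (nat_lit 76) (nat_lit 4104192126) (nat_lit 152) (nat_lit 13441063479) (nat_lit 31) (nat_lit 5) (nat_lit 32) (nat_lit 5) (nat_lit 33) (nat_lit 4) (nat_lit 439) (nat_lit 401) (nat_lit 360))))) (XT.nd (nat_lit 234) (nat_lit 152) (nat_lit 0) (XT.nd (nat_lit 78) (nat_lit 228) (nat_lit 0) (XT.lf (nat_lit 0) (nat_lit 20938336759) (nat_lit 152) (nat_lit 1970762492) (nat_lit 0) (nat_lit 4500030014) (nat_lit 31) (nat_lit 5) (nat_lit 33) (nat_lit 4) (nat_lit 31) (nat_lit 4) (nat_lit 440) (nat_lit 401) (nat_lit 359)) (XT.nd (nat_lit 78) (nat_lit 76) (nat_lit 0) (XT.lf (nat_lit 0) (nat_lit 1443195429) (nat_lit 152) (nat_lit 13486488117) (nat_lit 76) (nat_lit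 13936981927) (nat_lit 29) (nat_lit 5) (nat_lit 31) (nat_lit 5) (nat_lit 30) (nat_lit 4) (nat_lit 441) (nat_lit 401) (nat_lit 358)) (XT.lf (nat_lit 0) (nat_lit 3716197441) (nat_lit 76) (nat_lit 6019790131) (nat_lit 152) (nat_lit 20683752577) (nat_lit 28) (nat_lit 5) (nat_lit 29) (nat_lit 5) (nat_lit 30) (nat_lit 4) (nat_lit 442) (nat_lit 401) (nat_lit 357)))) (XT.nd (nat_lit 78) (nat_lit 152) (nat_lit 0) (XT.lf (nat_lit 0) (nat_lit 19108149754) (nat_lit 152) (nat_lit 9197069816) (nat_lit 0) (nat_lit 3758568697) (nat_lit 28) (nat_lit 5) (nat_lit 30) (nat_lit 4) (nat_lit 28) (nat_lit 4) (nat_lit 443) (nat_lit 401) (nat_lit 356)) (XT.nd (nat_lit 78) (nat_lit 76) (nat_lit 0) (XT.lf (nat_lit 0) (nat_lit 9963683306) (nat_lit 76) (nat_lit 19616992814) (nat_lit 76) (nat_lit 4230639781) (nat_lit 27) (nat_lit 4) (nat_lit 28) (nat_lit 5) (nat_lit 28) (nat_lit 4) (nat_lit 444) (nat_lit 401) (nat_lit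 355)) (XT.lf (nat_lit 0) (nat_lit 5145362437) (nat_lit 152) (nat_lit 4718047288) (nat_lit 76) (nat_lit 25808228741) (nat_lit 26) (nat_lit 5) (nat_lit 28) (nat_lit 5) (nat_lit 27) (nat_lit 4) (nat_lit 445) (nat_lit 401) (nat_lit 354))))))))
noncomputable def xc96 : XT := (XT.nd (nat_lit 1794) (nat_lit 456) (nat_lit 0) (XT.nd (nat_lit 858) (nat_lit 608) (nat_lit 0) (XT.nd (nat_lit 390) (nat_lit 304) (nat_lit 0) (XT.nd (nat_lit 156) (nat_lit 228) (nat_lit 0) (XT.nd (nat_lit 78) (nat_lit 0) (nat_lit 0) (XT.lf (nat_lit 0) (nat_lit 15428093533) (nat_lit 152) (nat_lit 21092334132) (nat_lit 0) (nat_lit 1120753533) (nat_lit 25) (nat_lit 5) (nat_lit 27) (nat_lit 4) (nat_lit 25) (nat_lit 4) (nat_lit 446) (nat_lit 401) (nat_lit 353)) (XT.lf (nat_lit 0) (nat_lit 26880331462) (nat_lit 152) (nat_lit 314244035) (nat_lit 0) (nat_lit 12545962962) (nat_lit 25) (nat_lit 5) (nat_lit 27) (nat_lit 4) (nat_lit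 25) (nat_lit 4) (nat_lit 447) (nat_lit 401) (nat_lit 352))) (XT.nd (nat_lit 78) (nat_lit 152) (nat_lit 0) (XT.lf (nat_lit 0) (nat_lit 23211147713) (nat_lit 76) (nat_lit 16557260361) (nat_lit 76) (nat_lit 2197865472) (nat_lit 24) (nat_lit 4) (nat_lit 25) (nat_lit 5) (nat_lit 25) (nat_lit 4) (nat_lit 448) (nat_lit 401) (nat_lit 351)) (XT.nd (nat_lit 78) (nat_lit 0) (nat_lit 0) (XT.lf (nat_lit 0) (nat_lit 4175464201) (nat_lit 76) (nat_lit 4746666409) (nat_lit 152) (nat_lit 35424350583) (nat_lit 22) (nat_lit 5) (nat_lit 23) (nat_lit 5) (nat_lit 24) (nat_lit 4) (nat_lit 449) (nat_lit 401) (nat_lit 350)) (XT.lf (nat_lit 0) (nat_lit 21493421527) (nat_lit 152) (nat_lit 17208320904) (nat_lit 0) (nat_lit 8156362671) (nat_lit 22) (nat_lit 5) (nat_lit 24) (nat_lit 4) (nat_lit 22) (nat_lit 4) (nat_lit 450) (nat_lit 401) (nat_lit 349))))) (XT.nd (nat_lit 234) (nat_lit 76) (nat_lit 0) (XT.nd (nat_lit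 78) (nat_lit 152) (nat_lit 0) (XT.lf (nat_lit 0) (nat_lit 7786947232) (nat_lit 76) (nat_lit 27558579160) (nat_lit 76) (nat_lit 14203125161) (nat_lit 21) (nat_lit 4) (nat_lit 22) (nat_lit 5) (nat_lit 22) (nat_lit 4) (nat_lit 451) (nat_lit 401) (nat_lit 348)) (XT.nd (nat_lit 78) (nat_lit 152) (nat_lit 0) (XT.lf (nat_lit 0) (nat_lit 35691590612) (nat_lit 76) (nat_lit 15050228722) (nat_lit 76) (nat_lit 1677742183) (nat_lit 21) (nat_lit 4) (nat_lit 22) (nat_lit 5) (nat_lit 22) (nat_lit 4) (nat_lit 452) (nat_lit 401) (nat_lit 347)) (XT.lf (nat_lit 0) (nat_lit 10482323110) (nat_lit 76) (nat_lit 993917523) (nat_lit 152) (nat_lit 44003559011) (nat_lit 19) (nat_lit 5) (nat_lit 20) (nat_lit 5) (nat_lit 21) (nat_lit 4) (nat_lit 453) (nat_lit 401) (nat_lit 346)))) (XT.nd (nat_lit 78) (nat_lit 76) (nat_lit 0) (XT.lf (nat_lit 0) (nat_lit 26369707032) (nat_lit 152) (nat_lit 18389788717) (nat_lit 0) (nat_lit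 13959651416) (nat_lit 19) (nat_lit 5) (nat_lit 21) (nat_lit 4) (nat_lit 19) (nat_lit 4) (nat_lit 454) (nat_lit 401) (nat_lit 345)) (XT.nd (nat_lit 78) (nat_lit 0) (nat_lit 0) (XT.lf (nat_lit 0) (nat_lit 10800185545) (nat_lit 76) (nat_lit 31909802985) (nat_lit 76) (nat_lit 19487227943) (nat_lit 18) (nat_lit 4) (nat_lit 19) (nat_lit 5) (nat_lit 19) (nat_lit 4) (nat_lit 455) (nat_lit 401) (nat_lit 344)) (XT.lf (nat_lit 0) (nat_lit 43311958540) (nat_lit 76) (nat_lit 17518934396) (nat_lit 76) (nat_lit 5084767294) (nat_lit 18) (nat_lit 4) (nat_lit 19) (nat_lit 5) (nat_lit 19) (nat_lit 4) (nat_lit 456) (nat_lit 401) (nat_lit 343)))))) (XT.nd (nat_lit 468) (nat_lit 228) (nat_lit 0) (XT.nd (nat_lit 234) (nat_lit 152) (nat_lit 0) (XT.nd (nat_lit 78) (nat_lit 76) (nat_lit 0) (XT.lf (nat_lit 0) (nat_lit 8615972162) (nat_lit 76) (nat_lit 1509447382) (nat_lit 152) (nat_lit 59771674603) (nat_lit 16) (nat_lit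 5) (nat_lit 17) (nat_lit 5) (nat_lit 18) (nat_lit 4) (nat_lit 457) (nat_lit 401) (nat_lit 342)) (XT.nd (nat_lit 78) (nat_lit 76) (nat_lit 0) (XT.lf (nat_lit 0) (nat_lit 27263462313) (nat_lit 152) (nat_lit 31112951263) (nat_lit 0) (nat_lit 15731204152) (nat_lit 16) (nat_lit 5) (nat_lit 18) (nat_lit 4) (nat_lit 16) (nat_lit 4) (nat_lit 458) (nat_lit 401) (nat_lit 341)) (XT.lf (nat_lit 0) (nat_lit 1449758066) (nat_lit 76) (nat_lit 44371071022) (nat_lit 76) (nat_lit 32830292350) (nat_lit 15) (nat_lit 4) (nat_lit 16) (nat_lit 5) (nat_lit 16) (nat_lit 4) (nat_lit 459) (nat_lit 401) (nat_lit 340)))) (XT.nd (nat_lit 78) (nat_lit 152) (nat_lit 0) (XT.lf (nat_lit 0) (nat_lit 38335996171) (nat_lit 76) (nat_lit 28352365897) (nat_lit 76) (nat_lit 16803697864) (nat_lit 15) (nat_lit 4) (nat_lit 16) (nat_lit 5) (nat_lit 16) (nat_lit 4) (nat_lit 460) (nat_lit 401) (nat_lit 339)) (XT.nd (nat_lit 78) (nat_lit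 76) (nat_lit 0) (XT.lf (nat_lit 0) (nat_lit 455909826) (nat_lit 152) (nat_lit 10607680558) (nat_lit 76) (nat_lit 77657620077) (nat_lit 14) (nat_lit 5) (nat_lit 16) (nat_lit 5) (nat_lit 15) (nat_lit 4) (nat_lit 461) (nat_lit 401) (nat_lit 338)) (XT.lf (nat_lit 0) (nat_lit 19041260060) (nat_lit 152) (nat_lit 66889269664) (nat_lit 0) (nat_lit 8335022233) (nat_lit 13) (nat_lit 5) (nat_lit 15) (nat_lit 4) (nat_lit 13) (nat_lit 4) (nat_lit 462) (nat_lit 401) (nat_lit 337))))) (XT.nd (nat_lit 234) (nat_lit 152) (nat_lit 0) (XT.nd (nat_lit 78) (nat_lit 76) (nat_lit 0) (XT.lf (nat_lit 0) (nat_lit 39676338274) (nat_lit 152) (nat_lit 31567769440) (nat_lit 0) (nat_lit 28964301530) (nat_lit 13) (nat_lit 5) (nat_lit 15) (nat_lit 4) (nat_lit 13) (nat_lit 4) (nat_lit 463) (nat_lit 401) (nat_lit 336)) (XT.nd (nat_lit 78) (nat_lit 0) (nat_lit 0) (XT.lf (nat_lit 0) (nat_lit 6882186424) (nat_lit 76) (nat_lit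 55225152951) (nat_lit 76) (nat_lit 44507746841) (nat_lit 12) (nat_lit 4) (nat_lit 13) (nat_lit 5) (nat_lit 13) (nat_lit 4) (nat_lit 464) (nat_lit 401) (nat_lit 335)) (XT.lf (nat_lit 0) (nat_lit 50162938188) (nat_lit 76) (nat_lit 37013138410) (nat_lit 76) (nat_lit 26290760664) (nat_lit 12) (nat_lit 4) (nat_lit 13) (nat_lit 5) (nat_lit 13) (nat_lit 4) (nat_lit 465) (nat_lit 401) (nat_lit 334)))) (XT.nd (nat_lit 78) (nat_lit 152) (nat_lit 0) (XT.lf (nat_lit 0) (nat_lit 96868661585) (nat_lit 76) (nat_lit 17363259803) (nat_lit 76) (nat_lit 6636278691) (nat_lit 12) (nat_lit 4) (nat_lit 13) (nat_lit 5) (nat_lit 13) (nat_lit 4) (nat_lit 466) (nat_lit 401) (nat_lit 333)) (XT.nd (nat_lit 78) (nat_lit 0) (nat_lit 0) (XT.lf (nat_lit 0) (nat_lit 14413847748) (nat_lit 152) (nat_lit 109897987845) (nat_lit 0) (nat_lit 4477511184) (nat_lit 10) (nat_lit 5) (nat_lit 12) (nat_lit 4) (nat_lit 10) (nat_lit 4)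 (nat_lit 467) (nat_lit 401) (nat_lit 332)) (XT.lf (nat_lit 0) (nat_lit 37896241576) (nat_lit 152) (nat_lit 71389360452) (nat_lit 0) (nat_lit 27956250711) (nat_lit 10) (nat_lit 5) (nat_lit 12) (nat_lit 4) (nat_lit 10) (nat_lit 4) (nat_lit 468) (nat_lit 401) (nat_lit 331))))))) (XT.nd (nat_lit 858) (nat_lit 152) (nat_lit 0) (XT.nd (nat_lit 390) (nat_lit 152) (nat_lit 0) (XT.nd (nat_lit 156) (nat_lit 76) (nat_lit 0) (XT.nd (nat_lit 78) (nat_lit 76) (nat_lit 0) (XT.lf (nat_lit 0) (nat_lit 63241079805) (nat_lit 152) (nat_lit 29833066086) (nat_lit 0) (nat_lit 53297705328) (nat_lit 10) (nat_lit 5) (nat_lit 12) (nat_lit 4) (nat_lit 10) (nat_lit 4) (nat_lit 469) (nat_lit 401) (nat_lit 330)) (XT.lf (nat_lit 0) (nat_lit 15807931531) (nat_lit 76) (nat_lit 75170803671) (nat_lit 76) (nat_lit 65224296220) (nat_lit 9) (nat_lit 4) (nat_lit 10) (nat_lit 5) (nat_lit 10) (nat_lit 4) (nat_lit 470) (nat_lit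 401) (nat_lit 329))) (XT.nd (nat_lit 78) (nat_lit 76) (nat_lit 0) (XT.lf (nat_lit 0) (nat_lit 66767038908) (nat_lit 76) (nat_lit 54969492715) (nat_lit 76) (nat_lit 45020084363) (nat_lit 9) (nat_lit 4) (nat_lit 10) (nat_lit 5) (nat_lit 10) (nat_lit 4) (nat_lit 471) (nat_lit 401) (nat_lit 328)) (XT.nd (nat_lit 78) (nat_lit 76) (nat_lit 0) (XT.lf (nat_lit 0) (nat_lit 121775279550) (nat_lit 76) (nat_lit 33166190448) (nat_lit 76) (nat_lit 23214096076) (nat_lit 9) (nat_lit 4) (nat_lit 10) (nat_lit 5) (nat_lit 10) (nat_lit 4) (nat_lit 472) (nat_lit 401) (nat_lit 327)) (XT.lf (nat_lit 0) (nat_lit 306737080) (nat_lit 152) (nat_lit 9316568299) (nat_lit 76) (nat_lit 180843504399) (nat_lit 8) (nat_lit 5) (nat_lit 10) (nat_lit 5) (nat_lit 9) (nat_lit 4) (nat_lit 473) (nat_lit 401) (nat_lit 326))))) (XT.nd (nat_lit 234) (nat_lit 76) (nat_lit 0) (XT.nd (nat_lit 78) (nat_lit 0) (nat_lit 0) (XT.lf (nat_lit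 0) (nat_lit 25900587342) (nat_lit 152) (nat_lit 161017237491) (nat_lit 0) (nat_lit 16681250067) (nat_lit 7) (nat_lit 5) (nat_lit 9) (nat_lit 4) (nat_lit 7) (nat_lit 4) (nat_lit 474) (nat_lit 401) (nat_lit 325)) (XT.nd (nat_lit 78) (nat_lit 0) (nat_lit 0) (XT.lf (nat_lit 0) (nat_lit 54041408415) (nat_lit 152) (nat_lit 118880459118) (nat_lit 0) (nat_lit 44820096834) (nat_lit 7) (nat_lit 5) (nat_lit 9) (nat_lit 4) (nat_lit 7) (nat_lit 4) (nat_lit 475) (nat_lit 401) (nat_lit 324)) (XT.lf (nat_lit 0) (nat_lit 84422531207) (nat_lit 152) (nat_lit 73395239484) (nat_lit 0) (nat_lit 75199391566) (nat_lit 7) (nat_lit 5) (nat_lit 9) (nat_lit 4) (nat_lit 7) (nat_lit 4) (nat_lit 476) (nat_lit 401) (nat_lit 323)))) (XT.nd (nat_lit 78) (nat_lit 76) (nat_lit 0) (XT.lf (nat_lit 0) (nat_lit 117223992001) (nat_lit 152) (nat_lit 24292036546) (nat_lit 0) (nat_lit 107999159712) (nat_lit 7) (nat_lit 5) (nat_lit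 9) (nat_lit 4) (nat_lit 7) (nat_lit 4) (nat_lit 477) (nat_lit 401) (nat_lit 322)) (XT.nd (nat_lit 78) (nat_lit 0) (nat_lit 0) (XT.lf (nat_lit 0) (nat_lit 30232482873) (nat_lit 76) (nat_lit 123134778891) (nat_lit 76) (nat_lit 113908379335) (nat_lit 6) (nat_lit 4) (nat_lit 7) (nat_lit 5) (nat_lit 7) (nat_lit 4) (nat_lit 478) (nat_lit 401) (nat_lit 321)) (XT.lf (nat_lit 0) (nat_lit 90481670881) (nat_lit 76) (nat_lit 102575353803) (nat_lit 76) (nat_lit 93347503074) (nat_lit 6) (nat_lit 4) (nat_lit 7) (nat_lit 5) (nat_lit 7) (nat_lit 4) (nat_lit 479) (nat_lit 401) (nat_lit 320)))))) (XT.nd (nat_lit 468) (nat_lit 0) (nat_lit 0) (XT.nd (nat_lit 234) (nat_lit 152) (nat_lit 0) (XT.nd (nat_lit 78) (nat_lit 0) (nat_lit 0) (XT.lf (nat_lit 0) (nat_lit 155533384107) (nat_lit 76) (nat_lit 80380106982) (nat_lit 76) (nat_lit 71150912573) (nat_lit 6) (nat_lit 4) (nat_lit 7) (nat_lit 5) (nat_lit 7) (nat_lit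 4) (nat_lit 480) (nat_lit 401) (nat_lit 319)) (XT.nd (nat_lit 78) (nat_lit 0) (nat_lit 0) (XT.lf (nat_lit 0) (nat_lit 225773114185) (nat_lit 76) (nat_lit 56417511038) (nat_lit 76) (nat_lit 47187072482) (nat_lit 6) (nat_lit 4) (nat_lit 7) (nat_lit 5) (nat_lit 7) (nat_lit 4) (nat_lit 481) (nat_lit 401) (nat_lit 318)) (XT.lf (nat_lit 0) (nat_lit 301617096552) (nat_lit 76) (nat_lit 30545565403) (nat_lit 76) (nat_lit 21313974860) (nat_lit 6) (nat_lit 4) (nat_lit 7) (nat_lit 5) (nat_lit 7) (nat_lit 4) (nat_lit 482) (nat_lit 401) (nat_lit 317)))) (XT.nd (nat_lit 78) (nat_lit 0) (nat_lit 0) (XT.lf (nat_lit 0) (nat_lit 4054308330) (nat_lit 76) (nat_lit 2333655866) (nat_lit 152) (nat_lit 373095524659) (nat_lit 4) (nat_lit 5) (nat_lit 5) (nat_lit 5) (nat_lit 6) (nat_lit 4) (nat_lit 483) (nat_lit 401) (nat_lit 316)) (XT.nd (nat_lit 78) (nat_lit 0) (nat_lit 0) (XT.lf (nat_lit 0) (nat_lit 37279067236)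 (nat_lit 152) (nat_lit 341348175663) (nat_lit 0) (nat_lit 28729396085) (nat_lit 4) (nat_lit 5) (nat_lit 6) (nat_lit 4) (nat_lit 4) (nat_lit 4) (nat_lit 484) (nat_lit 401) (nat_lit 315)) (XT.lf (nat_lit 0) (nat_lit 70695687390) (nat_lit 152) (nat_lit 304614445998) (nat_lit 0) (nat_lit 62145169494) (nat_lit 4) (nat_lit 5) (nat_lit 6) (nat_lit 4) (nat_lit 4) (nat_lit 4) (nat_lit 485) (nat_lit 401) (nat_lit 314))))) (XT.nd (nat_lit 234) (nat_lit 0) (nat_lit 0) (XT.nd (nat_lit 78) (nat_lit 0) (nat_lit 0) (XT.lf (nat_lit 0) (nat_lit 106779724596) (nat_lit 152) (nat_lit 264954185687) (nat_lit 0) (nat_lit 98228422676) (nat_lit 4) (nat_lit 5) (nat_lit 6) (nat_lit 4) (nat_lit 4) (nat_lit 4) (nat_lit 486) (nat_lit 401) (nat_lit 313)) (XT.nd (nat_lit 78) (nat_lit 0) (nat_lit 0) (XT.lf (nat_lit 0) (nat_lit 145745010184) (nat_lit 152) (nat_lit 222132370968) (nat_lit 0) (nat_lit 137192982316) (nat_lit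 4) (nat_lit 5) (nat_lit 6) (nat_lit 4) (nat_lit 4) (nat_lit 4) (nat_lit 487) (nat_lit 401) (nat_lit 312)) (XT.lf (nat_lit 0) (nat_lit 187822449551) (nat_lit 152) (nat_lit 175895242937) (nat_lit 0) (nat_lit 179269749509) (nat_lit 4) (nat_lit 5) (nat_lit 6) (nat_lit 4) (nat_lit 4) (nat_lit 4) (nat_lit 488) (nat_lit 401) (nat_lit 311)))) (XT.nd (nat_lit 78) (nat_lit 0) (nat_lit 0) (XT.lf (nat_lit 0) (nat_lit 233261390486) (nat_lit 152) (nat_lit 125968803800) (nat_lit 0) (nat_lit 224708068061) (nat_lit 4) (nat_lit 5) (nat_lit 6) (nat_lit 4) (nat_lit 4) (nat_lit 4) (nat_lit 489) (nat_lit 401) (nat_lit 310)) (XT.nd (nat_lit 78) (nat_lit 0) (nat_lit 0) (XT.lf (nat_lit 0) (nat_lit 282331100787) (nat_lit 152) (nat_lit 72057193175) (nat_lit 0) (nat_lit 273777202081) (nat_lit 4) (nat_lit 5) (nat_lit 6) (nat_lit 4) (nat_lit 4) (nat_lit 4) (nat_lit 490) (nat_lit 401) (nat_lit 309)) (XT.lf (nat_lit 0)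 (nat_lit 335322363923) (nat_lit 152) (nat_lit 13840934852) (nat_lit 0) (nat_lit 326767931623) (nat_lit 4) (nat_lit 5) (nat_lit 6) (nat_lit 4) (nat_lit 4) (nat_lit 4) (nat_lit 491) (nat_lit 401) (nat_lit 308))))))))
noncomputable def xc97 : XT := (XT.nd (nat_lit 1794) (nat_lit 0) (nat_lit 0) (XT.nd (nat_lit 858) (nat_lit 152) (nat_lit 0) (XT.nd (nat_lit 390) (nat_lit 0) (nat_lit 0) (XT.nd (nat_lit 156) (nat_lit 0) (nat_lit 0) (XT.nd (nat_lit 78) (nat_lit 0) (nat_lit 0) (XT.lf (nat_lit 0) (nat_lit 51606523727) (nat_lit 76) (nat_lit 342183816601) (nat_lit 76) (nat_lit 333628890234) (nat_lit 3) (nat_lit 4) (nat_lit 4) (nat_lit 5) (nat_lit 4) (nat_lit 4) (nat_lit 492) (nat_lit 401) (nat_lit 307)) (XT.lf (nat_lit 0) (nat_lit 123069451609) (nat_lit 76) (nat_lit 334241109262) (nat_lit 76) (nat_lit 325685725424) (nat_lit 3) (nat_lit 4) (nat_lit 4) (nat_lit 5) (nat_lit 4) (nat_lit 4) (nat_lit 493)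 (nat_lit 401) (nat_lit 306))) (XT.nd (nat_lit 78) (nat_lit 0) (nat_lit 0) (XT.lf (nat_lit 0) (nat_lit 200242493710) (nat_lit 76) (nat_lit 325666544548) (nat_lit 76) (nat_lit 317110737127) (nat_lit 3) (nat_lit 4) (nat_lit 4) (nat_lit 5) (nat_lit 4) (nat_lit 4) (nat_lit 494) (nat_lit 401) (nat_lit 305)) (XT.nd (nat_lit 78) (nat_lit 0) (nat_lit 0) (XT.lf (nat_lit 0) (nat_lit 283582971760) (nat_lit 76) (nat_lit 316409310225) (nat_lit 76) (nat_lit 307853110597) (nat_lit 3) (nat_lit 4) (nat_lit 4) (nat_lit 5) (nat_lit 4) (nat_lit 4) (nat_lit 495) (nat_lit 401) (nat_lit 304)) (XT.lf (nat_lit 0) (nat_lit 373584755259) (nat_lit 76) (nat_lit 306414548607) (nat_lit 76) (nat_lit 297857985824) (nat_lit 3) (nat_lit 4) (nat_lit 4) (nat_lit 5) (nat_lit 4) (nat_lit 4) (nat_lit 496) (nat_lit 401) (nat_lit 303))))) (XT.nd (nat_lit 234) (nat_lit 0) (nat_lit 0) (XT.nd (nat_lit 78) (nat_lit 0) (nat_lit 0) (XT.lf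 (nat_lit 0) (nat_lit 470781188109) (nat_lit 76) (nat_lit 295623031478) (nat_lit 76) (nat_lit 287066132441) (nat_lit 3) (nat_lit 4) (nat_lit 4) (nat_lit 5) (nat_lit 4) (nat_lit 4) (nat_lit 497) (nat_lit 401) (nat_lit 302)) (XT.nd (nat_lit 78) (nat_lit 0) (nat_lit 0) (XT.lf (nat_lit 0) (nat_lit 575748249171) (nat_lit 76) (nat_lit 283970809107) (nat_lit 76) (nat_lit 275413598723) (nat_lit 3) (nat_lit 4) (nat_lit 4) (nat_lit 5) (nat_lit 4) (nat_lit 4) (nat_lit 498) (nat_lit 401) (nat_lit 301)) (XT.lf (nat_lit 0) (nat_lit 689107965474) (nat_lit 76) (nat_lit 271388831286) (nat_lit 76) (nat_lit 262831332618) (nat_lit 3) (nat_lit 4) (nat_lit 4) (nat_lit 5) (nat_lit 4) (nat_lit 4) (nat_lit 499) (nat_lit 401) (nat_lit 300)))) (XT.nd (nat_lit 78) (nat_lit 0) (nat_lit 0) (XT.lf (nat_lit 0) (nat_lit 811532098300) (nat_lit 76) (nat_lit 257802538148) (nat_lit 76) (nat_lit 249244772551) (nat_lit 3) (nat_lit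 4) (nat_lit 4) (nat_lit 5) (nat_lit 4) (nat_lit 4) (nat_lit 500) (nat_lit 401) (nat_lit 299)) (XT.nd (nat_lit 78) (nat_lit 0) (nat_lit 0) (XT.lf (nat_lit 0) (nat_lit 943746123991) (nat_lit 76) (nat_lit 243131418325) (nat_lit 76) (nat_lit 234573405571) (nat_lit 3) (nat_lit 4) (nat_lit 4) (nat_lit 5) (nat_lit 4) (nat_lit 4) (nat_lit 501) (nat_lit 401) (nat_lit 298)) (XT.lf (nat_lit 0) (nat_lit 1086533533070) (nat_lit 76) (nat_lit 227288531849) (nat_lit 76) (nat_lit 218730290246) (nat_lit 3) (nat_lit 4) (nat_lit 4) (nat_lit 5) (nat_lit 4) (nat_lit 4) (nat_lit 502) (nat_lit 401) (nat_lit 297)))))) (XT.nd (nat_lit 468) (nat_lit 152) (nat_lit 0) (XT.nd (nat_lit 234) (nat_lit 0) (nat_lit 0) (XT.nd (nat_lit 78) (nat_lit 0) (nat_lit 0) (XT.lf (nat_lit 0) (nat_lit 1240740473146) (nat_lit 76) (nat_lit 210179994947) (nat_lit 76) (nat_lit 201621541446) (nat_lit 3) (nat_lit 4) (nat_lit 4) (nat_lit 5)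 (nat_lit 4) (nat_lit 4) (nat_lit 503) (nat_lit 401) (nat_lit 296)) (XT.nd (nat_lit 78) (nat_lit 0) (nat_lit 0) (XT.lf (nat_lit 0) (nat_lit 1407280763124) (nat_lit 76) (nat_lit 191704423697) (nat_lit 76) (nat_lit 183145773995) (nat_lit 3) (nat_lit 4) (nat_lit 4) (nat_lit 5) (nat_lit 4) (nat_lit 4) (nat_lit 504) (nat_lit 401) (nat_lit 295)) (XT.lf (nat_lit 0) (nat_lit 1587141308425) (nat_lit 76) (nat_lit 171752333233) (nat_lit 76) (nat_lit 163193501863) (nat_lit 3) (nat_lit 4) (nat_lit 4) (nat_lit 5) (nat_lit 4) (nat_lit 4) (nat_lit 505) (nat_lit 401) (nat_lit 294)))) (XT.nd (nat_lit 78) (nat_lit 0) (nat_lit 0) (XT.lf (nat_lit 0) (nat_lit 1781387949319) (nat_lit 76) (nat_lit 150205488944) (nat_lit 76) (nat_lit 141646489363) (nat_lit 3) (nat_lit 4) (nat_lit 4) (nat_lit 5) (nat_lit 4) (nat_lit 4) (nat_lit 506) (nat_lit 401) (nat_lit 293)) (XT.nd (nat_lit 78) (nat_lit 0) (nat_lit 0) (XT.lf (nat_lit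 0) (nat_lit 1991171777009) (nat_lit 76) (nat_lit 126936205827) (nat_lit 76) (nat_lit 118377050496) (nat_lit 3) (nat_lit 4) (nat_lit 4) (nat_lit 5) (nat_lit 4) (nat_lit 4) (nat_lit 507) (nat_lit 401) (nat_lit 292)) (XT.lf (nat_lit 0) (nat_lit 2217735954921) (nat_lit 76) (nat_lit 101806591834) (nat_lit 76) (nat_lit 93247292289) (nat_lit 3) (nat_lit 4) (nat_lit 4) (nat_lit 5) (nat_lit 4) (nat_lit 4) (nat_lit 508) (nat_lit 401) (nat_lit 291))))) (XT.nd (nat_lit 234) (nat_lit 152) (nat_lit 0) (XT.nd (nat_lit 78) (nat_lit 0) (nat_lit 0) (XT.lf (nat_lit 0) (nat_lit 2462423085588) (nat_lit 76) (nat_lit 74667730734) (nat_lit 76) (nat_lit 66108297658) (nat_lit 3) (nat_lit 4) (nat_lit 4) (nat_lit 5) (nat_lit 4) (nat_lit 4) (nat_lit 509) (nat_lit 401) (nat_lit 290)) (XT.nd (nat_lit 78) (nat_lit 0) (nat_lit 0) (XT.lf (nat_lit 0) (nat_lit 2726683166824) (nat_lit 76) (nat_lit 45358799647) (nat_lit 76)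 (nat_lit 36799242931) (nat_lit 3) (nat_lit 4) (nat_lit 4) (nat_lit 5) (nat_lit 4) (nat_lit 4) (nat_lit 510) (nat_lit 401) (nat_lit 289)) (XT.lf (nat_lit 0) (nat_lit 3012082184294) (nat_lit 76) (nat_lit 13706116017) (nat_lit 76) (nat_lit 5146444820) (nat_lit 3) (nat_lit 4) (nat_lit 4) (nat_lit 5) (nat_lit 4) (nat_lit 4) (nat_lit 511) (nat_lit 401) (nat_lit 288)))) (XT.nd (nat_lit 78) (nat_lit 0) (nat_lit 0) (XT.lf (nat_lit 0) (nat_lit 29363699252) (nat_lit 152) (nat_lit 3219795994623) (nat_lit 0) (nat_lit 21437979624) (nat_lit 1) (nat_lit 5) (nat_lit 3) (nat_lit 4) (nat_lit 1) (nat_lit 4) (nat_lit 512) (nat_lit 401) (nat_lit 287)) (XT.nd (nat_lit 78) (nat_lit 0) (nat_lit 0) (XT.lf (nat_lit 0) (nat_lit 67240605155) (nat_lit 152) (nat_lit 3402796823072) (nat_lit 0) (nat_lit 59314794647) (nat_lit 1) (nat_lit 5) (nat_lit 3) (nat_lit 4) (nat_lit 1) (nat_lit 4) (nat_lit 513) (nat_lit 401) (nat_lit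 286)) (XT.lf (nat_lit 0) (nat_lit 108146865314) (nat_lit 152) (nat_lit 3600439364091) (nat_lit 0) (nat_lit 100220970659) (nat_lit 1) (nat_lit 5) (nat_lit 3) (nat_lit 4) (nat_lit 1) (nat_lit 4) (nat_lit 514) (nat_lit 401) (nat_lit 285))))))) (XT.nd (nat_lit 936) (nat_lit 0) (nat_lit 0) (XT.nd (nat_lit 468) (nat_lit 0) (nat_lit 0) (XT.nd (nat_lit 234) (nat_lit 0) (nat_lit 0) (XT.nd (nat_lit 78) (nat_lit 0) (nat_lit 0) (XT.lf (nat_lit 0) (nat_lit 152324887197) (nat_lit 152) (nat_lit 3813894832736) (nat_lit 0) (nat_lit 144398914627) (nat_lit 1) (nat_lit 5) (nat_lit 3) (nat_lit 4) (nat_lit 1) (nat_lit 4) (nat_lit 515) (nat_lit 401) (nat_lit 284)) (XT.nd (nat_lit 78) (nat_lit 0) (nat_lit 0) (XT.lf (nat_lit 0) (nat_lit 200036466489) (nat_lit 152) (nat_lit 4044428150305) (nat_lit 0) (nat_lit 192110421777) (nat_lit 1) (nat_lit 5) (nat_lit 3) (nat_lit 4) (nat_lit 1) (nat_lit 4) (nat_lit 516) (nat_lit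 401) (nat_lit 283)) (XT.lf (nat_lit 0) (nat_lit 251564338475) (nat_lit 152) (nat_lit 4293405440160) (nat_lit 0) (nat_lit 243638226964) (nat_lit 1) (nat_lit 5) (nat_lit 3) (nat_lit 4) (nat_lit 1) (nat_lit 4) (nat_lit 517) (nat_lit 401) (nat_lit 282)))) (XT.nd (nat_lit 78) (nat_lit 0) (nat_lit 0) (XT.lf (nat_lit 0) (nat_lit 307213853508) (nat_lit 152) (nat_lit 4562302123278) (nat_lit 0) (nat_lit 299287680146) (nat_lit 1) (nat_lit 5) (nat_lit 3) (nat_lit 4) (nat_lit 1) (nat_lit 4) (nat_lit 518) (nat_lit 401) (nat_lit 281)) (XT.nd (nat_lit 78) (nat_lit 0) (nat_lit 0) (XT.lf (nat_lit 0) (nat_lit 367314786491) (nat_lit 152) (nat_lit 4852711661484) (nat_lit 0) (nat_lit 359388555860) (nat_lit 1) (nat_lit 5) (nat_lit 3) (nat_lit 4) (nat_lit 1) (nat_lit 4) (nat_lit 519) (nat_lit 401) (nat_lit 280)) (XT.lf (nat_lit 0) (nat_lit 432223291101) (nat_lit 152) (nat_lit 5166355000192) (nat_lit 0) (nat_lit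 424297007443) (nat_lit 1) (nat_lit 5) (nat_lit 3) (nat_lit 4) (nat_lit 1) (nat_lit 4) (nat_lit 520) (nat_lit 401) (nat_lit 279))))) (XT.nd (nat_lit 234) (nat_lit 0) (nat_lit 0) (XT.nd (nat_lit 78) (nat_lit 0) (nat_lit 0) (XT.lf (nat_lit 0) (nat_lit 502324010329) (nat_lit 152) (nat_lit 5505090766593) (nat_lit 0) (nat_lit 494397677572) (nat_lit 1) (nat_lit 5) (nat_lit 3) (nat_lit 4) (nat_lit 1) (nat_lit 4) (nat_lit 521) (nat_lit 401) (nat_lit 278)) (XT.nd (nat_lit 78) (nat_lit 0) (nat_lit 0) (XT.lf (nat_lit 0) (nat_lit 578032355845) (nat_lit 152) (nat_lit 5870926283746) (nat_lit 0) (nat_lit 570105977625) (nat_lit 1) (nat_lit 5) (nat_lit 3) (nat_lit 4) (nat_lit 1) (nat_lit 4) (nat_lit 522) (nat_lit 401) (nat_lit 277)) (XT.lf (nat_lit 0) (nat_lit 659796969695) (nat_lit 152) (nat_lit 6266029465829) (nat_lit 0) (nat_lit 651870549381) (nat_lit 1) (nat_lit 5) (nat_lit 3) (nat_lit 4) (nat_lit 1)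 (nat_lit 4) (nat_lit 523) (nat_lit 401) (nat_lit 276)))) (XT.nd (nat_lit 78) (nat_lit 0) (nat_lit 0) (XT.lf (nat_lit 0) (nat_lit 748102382924) (nat_lit 152) (nat_lit 6692741665031) (nat_lit 0) (nat_lit 740175923634) (nat_lit 1) (nat_lit 5) (nat_lit 3) (nat_lit 4) (nat_lit 1) (nat_lit 4) (nat_lit 524) (nat_lit 401) (nat_lit 275)) (XT.nd (nat_lit 78) (nat_lit 0) (nat_lit 0) (XT.lf (nat_lit 0) (nat_lit 843471886871) (nat_lit 152) (nat_lit 7153591546235) (nat_lit 0) (nat_lit 835545391491) (nat_lit 1) (nat_lit 5) (nat_lit 3) (nat_lit 4) (nat_lit 1) (nat_lit 4) (nat_lit 525) (nat_lit 401) (nat_lit 274)) (XT.lf (nat_lit 0) (nat_lit 946470634151) (nat_lit 152) (nat_lit 7651310071702) (nat_lit 0) (nat_lit 938544105355) (nat_lit 1) (nat_lit 5) (nat_lit 3) (nat_lit 4) (nat_lit 1) (nat_lit 4) (nat_lit 526) (nat_lit 401) (nat_lit 273)))))) (XT.nd (nat_lit 52884) (nat_lit 0) (nat_lit 6536) (XT.nd (nat_lit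 234) (nat_lit 0) (nat_lit 0) (XT.nd (nat_lit 78) (nat_lit 0) (nat_lit 0) (XT.lf (nat_lit 0) (nat_lit 1057708987711) (nat_lit 152) (nat_lit 8188846684545) (nat_lit 0) (nat_lit 1049782427975) (nat_lit 1) (nat_lit 5) (nat_lit 3) (nat_lit 4) (nat_lit 1) (nat_lit 4) (nat_lit 527) (nat_lit 401) (nat_lit 272)) (XT.nd (nat_lit 78) (nat_lit 0) (nat_lit 0) (XT.lf (nat_lit 0) (nat_lit 1177846137795) (nat_lit 152) (nat_lit 8769386786914) (nat_lit 0) (nat_lit 1169919549410) (nat_lit 1) (nat_lit 5) (nat_lit 3) (nat_lit 4) (nat_lit 1) (nat_lit 4) (nat_lit 528) (nat_lit 401) (nat_lit 271)) (XT.lf (nat_lit 0) (nat_lit 1307594008255) (nat_lit 152) (nat_lit 9396370616453) (nat_lit 0) (nat_lit 1299667393342) (nat_lit 1) (nat_lit 5) (nat_lit 3) (nat_lit 4) (nat_lit 1) (nat_lit 4) (nat_lit 529) (nat_lit 401) (nat_lit 270)))) (XT.nd (nat_lit 52494) (nat_lit 0) (nat_lit 7144) (XT.lf (nat_lit 0) (nat_lit 1447721475359)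 (nat_lit 152) (nat_lit 10073513632892) (nat_lit 0) (nat_lit 1439794835885) (nat_lit 1) (nat_lit 5) (nat_lit 3) (nat_lit 4) (nat_lit 1) (nat_lit 4) (nat_lit 530) (nat_lit 401) (nat_lit 269)) (XT.nd (nat_lit 78) (nat_lit 228) (nat_lit 0) (XT.lf (nat_lit 0) (nat_lit 2470378716) (nat_lit 228) (nat_lit 403527330) (nat_lit 228) (nat_lit 403527330) (nat_lit 98) (nat_lit 3) (nat_lit 101) (nat_lit 3) (nat_lit 101) (nat_lit 5) (nat_lit 402) (nat_lit 402) (nat_lit 396)) (XT.lf (nat_lit 0) (nat_lit 879013156) (nat_lit 228) (nat_lit 4076613496) (nat_lit 304) (nat_lit 1665378154) (nat_lit 95) (nat_lit 5) (nat_lit 98) (nat_lit 3) (nat_lit 99) (nat_lit 5) (nat_lit 403) (nat_lit 402) (nat_lit 395))))) (XT.nd (nat_lit 234) (nat_lit 304) (nat_lit 0) (XT.nd (nat_lit 78) (nat_lit 304) (nat_lit 0) (XT.lf (nat_lit 0) (nat_lit 3262574625) (nat_lit 228) (nat_lit 669934621) (nat_lit 304) (nat_lit 2774454224) (nat_lit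 95) (nat_lit 5) (nat_lit 98) (nat_lit 3) (nat_lit 99) (nat_lit 5) (nat_lit 404) (nat_lit 402) (nat_lit 394)) (XT.nd (nat_lit 78) (nat_lit 304) (nat_lit 0) (XT.lf (nat_lit 76) (nat_lit 3024834879) (nat_lit 0) (nat_lit 2658394192) (nat_lit 304) (nat_lit 1128985819) (nat_lit 96) (nat_lit 5) (nat_lit 95) (nat_lit 5) (nat_lit 99) (nat_lit 5) (nat_lit 405) (nat_lit 402) (nat_lit 393)) (XT.lf (nat_lit 0) (nat_lit 1103431877) (nat_lit 304) (nat_lit 48531208) (nat_lit 380) (nat_lit 5787362796) (nat_lit 91) (nat_lit 5) (nat_lit 95) (nat_lit 5) (nat_lit 96) (nat_lit 5) (nat_lit 406) (nat_lit 402) (nat_lit 392)))) (XT.nd (nat_lit 78) (nat_lit 380) (nat_lit 0) (XT.lf (nat_lit 0) (nat_lit 3364472165) (nat_lit 304) (nat_lit 3070803410) (nat_lit 76) (nat_lit 646204505) (nat_lit 92) (nat_lit 5) (nat_lit 96) (nat_lit 5) (nat_lit 93) (nat_lit 5) (nat_lit 407) (nat_lit 402) (nat_lit 391)) (XT.nd (nat_lit 78)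 (nat_lit 76) (nat_lit 0) (XT.lf (nat_lit 0) (nat_lit 1037764136) (nat_lit 304) (nat_lit 4635963927) (nat_lit 380) (nat_lit 1571986563) (nat_lit 88) (nat_lit 5) (nat_lit 92) (nat_lit 5) (nat_lit 93) (nat_lit 5) (nat_lit 408) (nat_lit 402) (nat_lit 390)) (XT.lf (nat_lit 0) (nat_lit 610459633) (nat_lit 380) (nat_lit 1939486089) (nat_lit 76) (nat_lit 4879544812) (nat_lit 87) (nat_lit 5) (nat_lit 92) (nat_lit 5) (nat_lit 88) (nat_lit 5) (nat_lit 409) (nat_lit 402) (nat_lit 389))))))))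
noncomputable def xc98 : XT := (XT.nd (nat_lit 1794) (nat_lit 1596) (nat_lit 0) (XT.nd (nat_lit 858) (nat_lit 1292) (nat_lit 0) (XT.nd (nat_lit 390) (nat_lit 988) (nat_lit 0) (XT.nd (nat_lit 156) (nat_lit 988) (nat_lit 0) (XT.nd (nat_lit 78) (nat_lit 0) (nat_lit 0) (XT.lf (nat_lit 0) (nat_lit 2619279281) (nat_lit 380) (nat_lit 156779399) (nat_lit 456) (nat_lit 4857239645) (nat_lit 82) (nat_lit 5) (nat_lit 87) (nat_lit 5) (nat_lit 88) (nat_lit 5) (nat_lit 410) (nat_lit 402) (nat_lit 388)) (XT.lf (nat_lit 0) (nat_lit 5067975887) (nat_lit 456) (nat_lit 407113826) (nat_lit 76) (nat_lit 2382144945) (nat_lit 82) (nat_lit 5) (nat_lit 88) (nat_lit 5) (nat_lit 83) (nat_lit 5) (nat_lit 411) (nat_lit 402) (nat_lit 387))) (XT.nd (nat_lit 78) (nat_lit 532) (nat_lit 0) (XT.lf (nat_lit 0) (nat_lit 4657221958) (nat_lit 456) (nat_lit 2854208797) (nat_lit 532) (nat_lit 590264785) (nat_lit 76) (nat_lit 5)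 (nat_lit 82) (nat_lit 5) (nat_lit 83) (nat_lit 5) (nat_lit 412) (nat_lit 402) (nat_lit 386)) (XT.nd (nat_lit 78) (nat_lit 0) (nat_lit 0) (XT.lf (nat_lit 0) (nat_lit 1605210507) (nat_lit 532) (nat_lit 6689741591) (nat_lit 76) (nat_lit 74595756) (nat_lit 69) (nat_lit 5) (nat_lit 76) (nat_lit 5) (nat_lit 70) (nat_lit 5) (nat_lit 413) (nat_lit 402) (nat_lit 385)) (XT.lf (nat_lit 0) (nat_lit 3978464152) (nat_lit 532) (nat_lit 1484641747) (nat_lit 76) (nat_lit 3191824644) (nat_lit 69) (nat_lit 5) (nat_lit 76) (nat_lit 5) (nat_lit 70) (nat_lit 5) (nat_lit 414) (nat_lit 402) (nat_lit 384))))) (XT.nd (nat_lit 234) (nat_lit 456) (nat_lit 0) (XT.nd (nat_lit 78) (nat_lit 304) (nat_lit 0) (XT.lf (nat_lit 0) (nat_lit 4207184481) (nat_lit 228) (nat_lit 2308975079) (nat_lit 304) (nat_lit 2449065095) (nat_lit 66) (nat_lit 5) (nat_lit 69) (nat_lit 5) (nat_lit 70) (nat_lit 5) (nat_lit 415) (nat_lit 402) (nat_lit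 383)) (XT.nd (nat_lit 78) (nat_lit 76) (nat_lit 0) (XT.lf (nat_lit 0) (nat_lit 1019345944) (nat_lit 228) (nat_lit 8209186133) (nat_lit 304) (nat_lit 74121119) (nat_lit 63) (nat_lit 5) (nat_lit 66) (nat_lit 5) (nat_lit 67) (nat_lit 5) (nat_lit 416) (nat_lit 402) (nat_lit 382)) (XT.lf (nat_lit 0) (nat_lit 2441268181) (nat_lit 304) (nat_lit 2398878657) (nat_lit 76) (nat_lit 4816170363) (nat_lit 62) (nat_lit 5) (nat_lit 66) (nat_lit 5) (nat_lit 63) (nat_lit 5) (nat_lit 417) (nat_lit 402) (nat_lit 381)))) (XT.nd (nat_lit 78) (nat_lit 304) (nat_lit 0) (XT.lf (nat_lit 0) (nat_lit 4017897993) (nat_lit 152) (nat_lit 1122991670) (nat_lit 228) (nat_lit 4898304990) (nat_lit 60) (nat_lit 5) (nat_lit 62) (nat_lit 5) (nat_lit 63) (nat_lit 5) (nat_lit 418) (nat_lit 402) (nat_lit 380)) (XT.nd (nat_lit 78) (nat_lit 76) (nat_lit 0) (XT.lf (nat_lit 0) (nat_lit 446373490) (nat_lit 228) (nat_lit 7652246386)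 (nat_lit 304) (nat_lit 2350743512) (nat_lit 57) (nat_lit 5) (nat_lit 60) (nat_lit 5) (nat_lit 61) (nat_lit 5) (nat_lit 419) (nat_lit 402) (nat_lit 379)) (XT.lf (nat_lit 0) (nat_lit 475066707) (nat_lit 304) (nat_lit 3291955157) (nat_lit 76) (nat_lit 7117021806) (nat_lit 56) (nat_lit 5) (nat_lit 60) (nat_lit 5) (nat_lit 57) (nat_lit 5) (nat_lit 420) (nat_lit 402) (nat_lit 378)))))) (XT.nd (nat_lit 468) (nat_lit 608) (nat_lit 0) (XT.nd (nat_lit 234) (nat_lit 380) (nat_lit 0) (XT.nd (nat_lit 78) (nat_lit 152) (nat_lit 0) (XT.lf (nat_lit 0) (nat_lit 3412747008) (nat_lit 228) (nat_lit 7402136560) (nat_lit 76) (nat_lit 532731195) (nat_lit 54) (nat_lit 5) (nat_lit 57) (nat_lit 5) (nat_lit 55) (nat_lit 5) (nat_lit 421) (nat_lit 402) (nat_lit 377)) (XT.nd (nat_lit 78) (nat_lit 152) (nat_lit 0) (XT.lf (nat_lit 0) (nat_lit 6682795402) (nat_lit 228) (nat_lit 128194788) (nat_lit 76) (nat_lit 5029516733)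 (nat_lit 54) (nat_lit 5) (nat_lit 57) (nat_lit 5) (nat_lit 55) (nat_lit 5) (nat_lit 422) (nat_lit 402) (nat_lit 376)) (XT.lf (nat_lit 0) (nat_lit 8001968060) (nat_lit 152) (nat_lit 2318967124) (nat_lit 228) (nat_lit 2043398193) (nat_lit 52) (nat_lit 5) (nat_lit 54) (nat_lit 5) (nat_lit 55) (nat_lit 5) (nat_lit 423) (nat_lit 402) (nat_lit 375)))) (XT.nd (nat_lit 78) (nat_lit 152) (nat_lit 0) (XT.lf (nat_lit 0) (nat_lit 1329839594) (nat_lit 228) (nat_lit 9093950984) (nat_lit 76) (nat_lit 2497689231) (nat_lit 49) (nat_lit 5) (nat_lit 52) (nat_lit 5) (nat_lit 50) (nat_lit 5) (nat_lit 424) (nat_lit 402) (nat_lit 374)) (XT.nd (nat_lit 78) (nat_lit 152) (nat_lit 0) (XT.lf (nat_lit 0) (nat_lit 4962702323) (nat_lit 228) (nat_lit 838914482) (nat_lit 76) (nat_lit 7709339531) (nat_lit 49) (nat_lit 5) (nat_lit 52) (nat_lit 5) (nat_lit 50) (nat_lit 5) (nat_lit 425) (nat_lit 402) (nat_lit 373)) (XT.lf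 (nat_lit 0) (nat_lit 8375542034) (nat_lit 152) (nat_lit 635747668) (nat_lit 228) (nat_lit 5126309744) (nat_lit 47) (nat_lit 5) (nat_lit 49) (nat_lit 5) (nat_lit 50) (nat_lit 5) (nat_lit 426) (nat_lit 402) (nat_lit 372))))) (XT.nd (nat_lit 234) (nat_lit 304) (nat_lit 0) (XT.nd (nat_lit 78) (nat_lit 228) (nat_lit 0) (XT.lf (nat_lit 0) (nat_lit 3495948564) (nat_lit 76) (nat_lit 10039776661) (nat_lit 152) (nat_lit 1266506807) (nat_lit 46) (nat_lit 5) (nat_lit 47) (nat_lit 5) (nat_lit 48) (nat_lit 4) (nat_lit 427) (nat_lit 402) (nat_lit 371)) (XT.nd (nat_lit 78) (nat_lit 152) (nat_lit 0) (XT.lf (nat_lit 0) (nat_lit 2861304972) (nat_lit 152) (nat_lit 1898131285) (nat_lit 76) (nat_lit 10746676277) (nat_lit 45) (nat_lit 5) (nat_lit 47) (nat_lit 5) (nat_lit 46) (nat_lit 5) (nat_lit 428) (nat_lit 402) (nat_lit 370)) (XT.lf (nat_lit 0) (nat_lit 7415895329) (nat_lit 228) (nat_lit 7736841896) (nat_lit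 76) (nat_lit 1097748159) (nat_lit 43) (nat_lit 5) (nat_lit 46) (nat_lit 5) (nat_lit 44) (nat_lit 4) (nat_lit 429) (nat_lit 402) (nat_lit 369)))) (XT.nd (nat_lit 78) (nat_lit 228) (nat_lit 0) (XT.lf (nat_lit 0) (nat_lit 2711903262) (nat_lit 76) (nat_lit 9798072206) (nat_lit 152) (nat_lit 4530433756) (nat_lit 42) (nat_lit 5) (nat_lit 43) (nat_lit 5) (nat_lit 44) (nat_lit 4) (nat_lit 430) (nat_lit 402) (nat_lit 368)) (XT.nd (nat_lit 78) (nat_lit 152) (nat_lit 0) (XT.lf (nat_lit 0) (nat_lit 262794559) (nat_lit 152) (nat_lit 3563826313) (nat_lit 76) (nat_lit 14054636753) (nat_lit 41) (nat_lit 5) (nat_lit 43) (nat_lit 5) (nat_lit 42) (nat_lit 5) (nat_lit 431) (nat_lit 402) (nat_lit 367)) (XT.lf (nat_lit 0) (nat_lit 5401856404) (nat_lit 228) (nat_lit 10589028829) (nat_lit 76) (nat_lit 2772512574) (nat_lit 39) (nat_lit 5) (nat_lit 42) (nat_lit 5) (nat_lit 40) (nat_lit 4) (nat_lit 432) (nat_lit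 402) (nat_lit 366))))))) (XT.nd (nat_lit 936) (nat_lit 760) (nat_lit 0) (XT.nd (nat_lit 468) (nat_lit 380) (nat_lit 0) (XT.nd (nat_lit 234) (nat_lit 152) (nat_lit 0) (XT.nd (nat_lit 78) (nat_lit 228) (nat_lit 0) (XT.lf (nat_lit 0) (nat_lit 1196023903) (nat_lit 76) (nat_lit 9923649397) (nat_lit 152) (nat_lit 8583033556) (nat_lit 38) (nat_lit 5) (nat_lit 39) (nat_lit 5) (nat_lit 40) (nat_lit 4) (nat_lit 433) (nat_lit 402) (nat_lit 365)) (XT.nd (nat_lit 78) (nat_lit 228) (nat_lit 0) (XT.lf (nat_lit 0) (nat_lit 14420952782) (nat_lit 76) (nat_lit 3104939180) (nat_lit 152) (nat_lit 3172798017) (nat_lit 38) (nat_lit 5) (nat_lit 39) (nat_lit 5) (nat_lit 40) (nat_lit 4) (nat_lit 434) (nat_lit 402) (nat_lit 364)) (XT.lf (nat_lit 0) (nat_lit 2759799418) (nat_lit 228) (nat_lit 14746191829) (nat_lit 76) (nat_lit 4245379717) (nat_lit 35) (nat_lit 5) (nat_lit 38) (nat_lit 5) (nat_lit 36) (nat_lit 4) (nat_lit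 435) (nat_lit 402) (nat_lit 363)))) (XT.nd (nat_lit 78) (nat_lit 152) (nat_lit 0) (XT.lf (nat_lit 0) (nat_lit 9197431449) (nat_lit 228) (nat_lit 1435305142) (nat_lit 76) (nat_lit 12232795710) (nat_lit 35) (nat_lit 5) (nat_lit 38) (nat_lit 5) (nat_lit 36) (nat_lit 4) (nat_lit 436) (nat_lit 402) (nat_lit 362)) (XT.nd (nat_lit 78) (nat_lit 76) (nat_lit 0) (XT.lf (nat_lit 0) (nat_lit 13523427697) (nat_lit 76) (nat_lit 2901042303) (nat_lit 152) (nat_lit 7622410353) (nat_lit 34) (nat_lit 5) (nat_lit 35) (nat_lit 5) (nat_lit 36) (nat_lit 4) (nat_lit 437) (nat_lit 402) (nat_lit 361)) (XT.lf (nat_lit 0) (nat_lit 4436663944) (nat_lit 76) (nat_lit 20020749514) (nat_lit 76) (nat_lit 847108527) (nat_lit 33) (nat_lit 4) (nat_lit 34) (nat_lit 5) (nat_lit 34) (nat_lit 4) (nat_lit 438) (nat_lit 402) (nat_lit 360))))) (XT.nd (nat_lit 234) (nat_lit 228) (nat_lit 0) (XT.nd (nat_lit 78) (nat_lit 76) (nat_lit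 0) (XT.lf (nat_lit 0) (nat_lit 6467077423) (nat_lit 152) (nat_lit 5780472450) (nat_lit 76) (nat_lit 14377138601) (nat_lit 32) (nat_lit 5) (nat_lit 34) (nat_lit 5) (nat_lit 33) (nat_lit 4) (nat_lit 439) (nat_lit 402) (nat_lit 359)) (XT.nd (nat_lit 78) (nat_lit 0) (nat_lit 0) (XT.lf (nat_lit 0) (nat_lit 10952424984) (nat_lit 76) (nat_lit 3585290674) (nat_lit 152) (nat_lit 13493629768) (nat_lit 31) (nat_lit 5) (nat_lit 32) (nat_lit 5) (nat_lit 33) (nat_lit 4) (nat_lit 440) (nat_lit 402) (nat_lit 358)) (XT.lf (nat_lit 0) (nat_lit 23509019506) (nat_lit 152) (nat_lit 415849838) (nat_lit 0) (nat_lit 5605268160) (nat_lit 31) (nat_lit 5) (nat_lit 33) (nat_lit 4) (nat_lit 31) (nat_lit 4) (nat_lit 441) (nat_lit 402) (nat_lit 357)))) (XT.nd (nat_lit 78) (nat_lit 76) (nat_lit 0) (XT.lf (nat_lit 0) (nat_lit 2450716046) (nat_lit 152) (nat_lit 12849152800) (nat_lit 76) (nat_lit 15804702220) (nat_lit 29)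 (nat_lit 5) (nat_lit 31) (nat_lit 5) (nat_lit 30) (nat_lit 4) (nat_lit 442) (nat_lit 402) (nat_lit 356)) (XT.nd (nat_lit 78) (nat_lit 0) (nat_lit 0) (XT.lf (nat_lit 0) (nat_lit 5686298125) (nat_lit 76) (nat_lit 5694785545) (nat_lit 152) (nat_lit 21402880502) (nat_lit 28) (nat_lit 5) (nat_lit 29) (nat_lit 5) (nat_lit 30) (nat_lit 4) (nat_lit 443) (nat_lit 402) (nat_lit 355)) (XT.lf (nat_lit 0) (nat_lit 21456816132) (nat_lit 152) (nat_lit 8337685752) (nat_lit 0) (nat_lit 4768734755) (nat_lit 28) (nat_lit 5) (nat_lit 30) (nat_lit 4) (nat_lit 28) (nat_lit 4) (nat_lit 444) (nat_lit 402) (nat_lit 354)))))) (XT.nd (nat_lit 468) (nat_lit 304) (nat_lit 0) (XT.nd (nat_lit 234) (nat_lit 228) (nat_lit 0) (XT.nd (nat_lit 78) (nat_lit 152) (nat_lit 0) (XT.lf (nat_lit 0) (nat_lit 12315544085) (nat_lit 76) (nat_lit 20428250877) (nat_lit 76) (nat_lit 3708643459) (nat_lit 27) (nat_lit 4) (nat_lit 28) (nat_lit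 5) (nat_lit 28) (nat_lit 4) (nat_lit 445) (nat_lit 402) (nat_lit 353)) (XT.nd (nat_lit 78) (nat_lit 76) (nat_lit 0) (XT.lf (nat_lit 0) (nat_lit 6313847391) (nat_lit 152) (nat_lit 3615995623) (nat_lit 76) (nat_lit 28534935552) (nat_lit 26) (nat_lit 5) (nat_lit 28) (nat_lit 5) (nat_lit 27) (nat_lit 4) (nat_lit 446) (nat_lit 402) (nat_lit 352)) (XT.lf (nat_lit 0) (nat_lit 17414807598) (nat_lit 152) (nat_lit 21295796686) (nat_lit 0) (nat_lit 1881634730) (nat_lit 25) (nat_lit 5) (nat_lit 27) (nat_lit 4) (nat_lit 25) (nat_lit 4) (nat_lit 447) (nat_lit 402) (nat_lit 351)))) (XT.nd (nat_lit 78) (nat_lit 152) (nat_lit 0) (XT.lf (nat_lit 0) (nat_lit 1089101580) (nat_lit 76) (nat_lit 28664577635) (nat_lit 76) (nat_lit 13108232185) (nat_lit 24) (nat_lit 4) (nat_lit 25) (nat_lit 5) (nat_lit 25) (nat_lit 4) (nat_lit 448) (nat_lit 402) (nat_lit 350)) (XT.nd (nat_lit 78) (nat_lit 152) (nat_lit 0) (XT.lf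 (nat_lit 0) (nat_lit 26407258489) (nat_lit 76) (nat_lit 17219949291) (nat_lit 76) (nat_lit 1642147747) (nat_lit 24) (nat_lit 4) (nat_lit 25) (nat_lit 5) (nat_lit 25) (nat_lit 4) (nat_lit 449) (nat_lit 402) (nat_lit 349)) (XT.lf (nat_lit 0) (nat_lit 5850514954) (nat_lit 76) (nat_lit 4461111609) (nat_lit 152) (nat_lit 37528486160) (nat_lit 22) (nat_lit 5) (nat_lit 23) (nat_lit 5) (nat_lit 24) (nat_lit 4) (nat_lit 450) (nat_lit 402) (nat_lit 348))))) (XT.nd (nat_lit 234) (nat_lit 228) (nat_lit 0) (XT.nd (nat_lit 78) (nat_lit 76) (nat_lit 0) (XT.lf (nat_lit 0) (nat_lit 23853382008) (nat_lit 152) (nat_lit 17308041773) (nat_lit 0) (nat_lit 9394064007) (nat_lit 22) (nat_lit 5) (nat_lit 24) (nat_lit 4) (nat_lit 22) (nat_lit 4) (nat_lit 451) (nat_lit 402) (nat_lit 347)) (XT.nd (nat_lit 78) (nat_lit 0) (nat_lit 0) (XT.lf (nat_lit 0) (nat_lit 9654520097) (nat_lit 76) (nat_lit 29141624772) (nat_lit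 76) (nat_lit 14666535901) (nat_lit 21) (nat_lit 4) (nat_lit 22) (nat_lit 5) (nat_lit 22) (nat_lit 4) (nat_lit 452) (nat_lit 402) (nat_lit 346)) (XT.lf (nat_lit 0) (nat_lit 39699341089) (nat_lit 76) (nat_lit 15678653760) (nat_lit 76) (nat_lit 1188962231) (nat_lit 21) (nat_lit 4) (nat_lit 22) (nat_lit 5) (nat_lit 22) (nat_lit 4) (nat_lit 453) (nat_lit 402) (nat_lit 345)))) (XT.nd (nat_lit 78) (nat_lit 76) (nat_lit 0) (XT.lf (nat_lit 0) (nat_lit 12474553601) (nat_lit 76) (nat_lit 495526258) (nat_lit 152) (nat_lit 46902024873) (nat_lit 19) (nat_lit 5) (nat_lit 20) (nat_lit 5) (nat_lit 21) (nat_lit 4) (nat_lit 454) (nat_lit 402) (nat_lit 344)) (XT.nd (nat_lit 78) (nat_lit 76) (nat_lit 0) (XT.lf (nat_lit 0) (nat_lit 29025245258) (nat_lit 152) (nat_lit 18762985791) (nat_lit 0) (nat_lit 15584752728) (nat_lit 19) (nat_lit 5) (nat_lit 21) (nat_lit 4) (nat_lit 19) (nat_lit 4) (nat_lit 455) (nat_lit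 402) (nat_lit 343)) (XT.lf (nat_lit 0) (nat_lit 12734389298) (nat_lit 76) (nat_lit 33923656443) (nat_lit 76) (nat_lit 20472430523) (nat_lit 18) (nat_lit 4) (nat_lit 19) (nat_lit 5) (nat_lit 19) (nat_lit 4) (nat_lit 456) (nat_lit 402) (nat_lit 342))))))))
noncomputable def xc99 : XT := (XT.nd (nat_lit 1794) (nat_lit 228) (nat_lit 0) (XT.nd (nat_lit 858) (nat_lit 456) (nat_lit 0) (XT.nd (nat_lit 390) (nat_lit 228) (nat_lit 0) (XT.nd (nat_lit 156) (nat_lit 76) (nat_lit 0) (XT.nd (nat_lit 78) (nat_lit 152) (nat_lit 0) (XT.lf (nat_lit 0) (nat_lit 47767830880) (nat_lit 76) (nat_lit 18421439165) (nat_lit 76) (nat_lit 4960274922) (nat_lit 18) (nat_lit 4) (nat_lit 19) (nat_lit 5) (nat_lit 19) (nat_lit 4) (nat_lit 457) (nat_lit 402) (nat_lit 341)) (XT.lf (nat_lit 0) (nat_lit 10296996865) (nat_lit 76) (nat_lit 1129620086) (nat_lit 152) (nat_lit 64022938222) (nat_lit 16) (nat_lit 5) (nat_lit 17) (nat_lit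 5) (nat_lit 18) (nat_lit 4) (nat_lit 458) (nat_lit 402) (nat_lit 340))) (XT.nd (nat_lit 78) (nat_lit 76) (nat_lit 0) (XT.lf (nat_lit 0) (nat_lit 29910467890) (nat_lit 152) (nat_lit 32658455512) (nat_lit 0) (nat_lit 17430017053) (nat_lit 16) (nat_lit 5) (nat_lit 18) (nat_lit 4) (nat_lit 16) (nat_lit 4) (nat_lit 459) (nat_lit 402) (nat_lit 339)) (XT.nd (nat_lit 78) (nat_lit 0) (nat_lit 0) (XT.lf (nat_lit 0) (nat_lit 2485383682) (nat_lit 76) (nat_lit 47454644579) (nat_lit 76) (nat_lit 34966888778) (nat_lit 15) (nat_lit 4) (nat_lit 16) (nat_lit 5) (nat_lit 16) (nat_lit 4) (nat_lit 460) (nat_lit 402) (nat_lit 338)) (XT.lf (nat_lit 0) (nat_lit 42254398984) (nat_lit 76) (nat_lit 30188969868) (nat_lit 76) (nat_lit 17694450211) (nat_lit 15) (nat_lit 4) (nat_lit 16) (nat_lit 5) (nat_lit 16) (nat_lit 4) (nat_lit 461) (nat_lit 402) (nat_lit 337))))) (XT.nd (nat_lit 234) (nat_lit 76) (nat_lit 0) (XT.nd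 (nat_lit 78) (nat_lit 76) (nat_lit 0) (XT.lf (nat_lit 0) (nat_lit 891322797) (nat_lit 152) (nat_lit 10646831067) (nat_lit 76) (nat_lit 84248829100) (nat_lit 14) (nat_lit 5) (nat_lit 16) (nat_lit 5) (nat_lit 15) (nat_lit 4) (nat_lit 462) (nat_lit 402) (nat_lit 336)) (XT.nd (nat_lit 78) (nat_lit 0) (nat_lit 0) (XT.lf (nat_lit 0) (nat_lit 20962559317) (nat_lit 152) (nat_lit 71429997126) (nat_lit 0) (nat_lit 9382391351) (nat_lit 13) (nat_lit 5) (nat_lit 15) (nat_lit 4) (nat_lit 13) (nat_lit 4) (nat_lit 463) (nat_lit 402) (nat_lit 335)) (XT.lf (nat_lit 0) (nat_lit 43218962421) (nat_lit 152) (nat_lit 33342807559) (nat_lit 0) (nat_lit 31633822819) (nat_lit 13) (nat_lit 5) (nat_lit 15) (nat_lit 4) (nat_lit 13) (nat_lit 4) (nat_lit 464) (nat_lit 402) (nat_lit 334)))) (XT.nd (nat_lit 78) (nat_lit 0) (nat_lit 0) (XT.lf (nat_lit 0) (nat_lit 8164147725) (nat_lit 76) (nat_lit 59270588183) (nat_lit 76)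 (nat_lit 47680845215) (nat_lit 12) (nat_lit 4) (nat_lit 13) (nat_lit 5) (nat_lit 13) (nat_lit 4) (nat_lit 465) (nat_lit 402) (nat_lit 333)) (XT.nd (nat_lit 78) (nat_lit 0) (nat_lit 0) (XT.lf (nat_lit 0) (nat_lit 54853182861) (nat_lit 76) (nat_lit 39629210776) (nat_lit 76) (nat_lit 28035205432) (nat_lit 12) (nat_lit 4) (nat_lit 13) (nat_lit 5) (nat_lit 13) (nat_lit 4) (nat_lit 466) (nat_lit 402) (nat_lit 332)) (XT.lf (nat_lit 0) (nat_lit 105245200454) (nat_lit 76) (nat_lit 18432895859) (nat_lit 76) (nat_lit 6834943869) (nat_lit 12) (nat_lit 4) (nat_lit 13) (nat_lit 5) (nat_lit 13) (nat_lit 4) (nat_lit 467) (nat_lit 402) (nat_lit 331)))))) (XT.nd (nat_lit 468) (nat_lit 228) (nat_lit 0) (XT.nd (nat_lit 234) (nat_lit 76) (nat_lit 0) (XT.nd (nat_lit 78) (nat_lit 0) (nat_lit 0) (XT.lf (nat_lit 0) (nat_lit 15881979386) (nat_lit 152) (nat_lit 118045556566) (nat_lit 0) (nat_lit 5139751340) (nat_lit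 10) (nat_lit 5) (nat_lit 12) (nat_lit 4) (nat_lit 10) (nat_lit 4) (nat_lit 468) (nat_lit 402) (nat_lit 330)) (XT.nd (nat_lit 78) (nat_lit 0) (nat_lit 0) (XT.lf (nat_lit 0) (nat_lit 41219629623) (nat_lit 152) (nat_lit 76503962708) (nat_lit 0) (nat_lit 30474268603) (nat_lit 10) (nat_lit 5) (nat_lit 12) (nat_lit 4) (nat_lit 10) (nat_lit 4) (nat_lit 469) (nat_lit 402) (nat_lit 329)) (XT.lf (nat_lit 0) (nat_lit 68570448338) (nat_lit 152) (nat_lit 31667353429) (nat_lit 0) (nat_lit 57822186416) (nat_lit 10) (nat_lit 5) (nat_lit 12) (nat_lit 4) (nat_lit 10) (nat_lit 4) (nat_lit 470) (nat_lit 402) (nat_lit 328)))) (XT.nd (nat_lit 78) (nat_lit 0) (nat_lit 0) (XT.lf (nat_lit 0) (nat_lit 17610940252) (nat_lit 76) (nat_lit 80909117742) (nat_lit 76) (nat_lit 70158169799) (nat_lit 9) (nat_lit 4) (nat_lit 10) (nat_lit 5) (nat_lit 10) (nat_lit 4) (nat_lit 471) (nat_lit 402) (nat_lit 327)) (XT.nd (nat_lit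 78) (nat_lit 0) (nat_lit 0) (XT.lf (nat_lit 0) (nat_lit 72606896649) (nat_lit 76) (nat_lit 59112098223) (nat_lit 76) (nat_lit 48358663225) (nat_lit 9) (nat_lit 4) (nat_lit 10) (nat_lit 5) (nat_lit 10) (nat_lit 4) (nat_lit 472) (nat_lit 402) (nat_lit 326)) (XT.lf (nat_lit 0) (nat_lit 131978871014) (nat_lit 76) (nat_lit 35583417250) (nat_lit 76) (nat_lit 24827679422) (nat_lit 9) (nat_lit 4) (nat_lit 10) (nat_lit 5) (nat_lit 10) (nat_lit 4) (nat_lit 473) (nat_lit 402) (nat_lit 325))))) (XT.nd (nat_lit 234) (nat_lit 76) (nat_lit 0) (XT.nd (nat_lit 78) (nat_lit 76) (nat_lit 0) (XT.lf (nat_lit 0) (nat_lit 545499441) (nat_lit 152) (nat_lit 9623231238) (nat_lit 76) (nat_lit 195518282906) (nat_lit 8) (nat_lit 5) (nat_lit 10) (nat_lit 5) (nat_lit 9) (nat_lit 4) (nat_lit 474) (nat_lit 402) (nat_lit 324)) (XT.nd (nat_lit 78) (nat_lit 0) (nat_lit 0) (XT.lf (nat_lit 0) (nat_lit 28186537101) (nat_lit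 152) (nat_lit 173459630467) (nat_lit 0) (nat_lit 18223718228) (nat_lit 7) (nat_lit 5) (nat_lit 9) (nat_lit 4) (nat_lit 7) (nat_lit 4) (nat_lit 475) (nat_lit 402) (nat_lit 323)) (XT.lf (nat_lit 0) (nat_lit 58562779209) (nat_lit 152) (nat_lit 127984427308) (nat_lit 0) (nat_lit 48598267689) (nat_lit 7) (nat_lit 5) (nat_lit 9) (nat_lit 4) (nat_lit 7) (nat_lit 4) (nat_lit 476) (nat_lit 402) (nat_lit 322)))) (XT.nd (nat_lit 78) (nat_lit 76) (nat_lit 0) (XT.lf (nat_lit 0) (nat_lit 91359720853) (nat_lit 152) (nat_lit 78890498883) (nat_lit 0) (nat_lit 81393642065) (nat_lit 7) (nat_lit 5) (nat_lit 9) (nat_lit 4) (nat_lit 7) (nat_lit 4) (nat_lit 477) (nat_lit 402) (nat_lit 321)) (XT.nd (nat_lit 78) (nat_lit 76) (nat_lit 0) (XT.lf (nat_lit 0) (nat_lit 126771714277) (nat_lit 152) (nat_lit 25886918211) (nat_lit 0) (nat_lit 116804184316) (nat_lit 7) (nat_lit 5) (nat_lit 9) (nat_lit 4) (nat_lit 7) (nat_lit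 4) (nat_lit 478) (nat_lit 402) (nat_lit 320)) (XT.lf (nat_lit 0) (nat_lit 32990740451) (nat_lit 76) (nat_lit 132811295982) (nat_lit 76) (nat_lit 122842422343) (nat_lit 6) (nat_lit 4) (nat_lit 7) (nat_lit 5) (nat_lit 7) (nat_lit 4) (nat_lit 479) (nat_lit 402) (nat_lit 319))))))) (XT.nd (nat_lit 936) (nat_lit 76) (nat_lit 0) (XT.nd (nat_lit 468) (nat_lit 0) (nat_lit 0) (XT.nd (nat_lit 234) (nat_lit 152) (nat_lit 0) (XT.nd (nat_lit 78) (nat_lit 0) (nat_lit 0) (XT.lf (nat_lit 0) (nat_lit 98034703578) (nat_lit 76) (nat_lit 110620025422) (nat_lit 76) (nat_lit 100649907635) (nat_lit 6) (nat_lit 4) (nat_lit 7) (nat_lit 5) (nat_lit 7) (nat_lit 4) (nat_lit 480) (nat_lit 402) (nat_lit 318)) (XT.nd (nat_lit 78) (nat_lit 0) (nat_lit 0) (XT.lf (nat_lit 0) (nat_lit 168267257638) (nat_lit 76) (nat_lit 86661111202) (nat_lit 76) (nat_lit 76689841427) (nat_lit 6) (nat_lit 4) (nat_lit 7) (nat_lit 5) (nat_lit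 7) (nat_lit 4) (nat_lit 481) (nat_lit 402) (nat_lit 317)) (XT.lf (nat_lit 0) (nat_lit 244104595544) (nat_lit 76) (nat_lit 60792574570) (nat_lit 76) (nat_lit 50820238140) (nat_lit 6) (nat_lit 4) (nat_lit 7) (nat_lit 5) (nat_lit 7) (nat_lit 4) (nat_lit 482) (nat_lit 402) (nat_lit 316)))) (XT.nd (nat_lit 78) (nat_lit 152) (nat_lit 0) (XT.lf (nat_lit 0) (nat_lit 325996123743) (nat_lit 76) (nat_lit 32861120496) (nat_lit 76) (nat_lit 22887796422) (nat_lit 6) (nat_lit 4) (nat_lit 7) (nat_lit 5) (nat_lit 7) (nat_lit 4) (nat_lit 483) (nat_lit 402) (nat_lit 315)) (XT.nd (nat_lit 78) (nat_lit 0) (nat_lit 0) (XT.lf (nat_lit 0) (nat_lit 4628395073) (nat_lit 76) (nat_lit 2392101865) (nat_lit 152) (nat_lit 402811950045) (nat_lit 4) (nat_lit 5) (nat_lit 5) (nat_lit 5) (nat_lit 6) (nat_lit 4) (nat_lit 484) (nat_lit 402) (nat_lit 314)) (XT.lf (nat_lit 0) (nat_lit 40376744408) (nat_lit 152) (nat_lit 368418642007)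 (nat_lit 0) (nat_lit 31140554311) (nat_lit 4) (nat_lit 5) (nat_lit 6) (nat_lit 4) (nat_lit 4) (nat_lit 4) (nat_lit 485) (nat_lit 402) (nat_lit 313))))) (XT.nd (nat_lit 234) (nat_lit 0) (nat_lit 0) (XT.nd (nat_lit 78) (nat_lit 0) (nat_lit 0) (XT.lf (nat_lit 0) (nat_lit 76458149598) (nat_lit 152) (nat_lit 328763798243) (nat_lit 0) (nat_lit 67221233552) (nat_lit 4) (nat_lit 5) (nat_lit 6) (nat_lit 4) (nat_lit 4) (nat_lit 4) (nat_lit 486) (nat_lit 402) (nat_lit 312)) (XT.nd (nat_lit 78) (nat_lit 0) (nat_lit 0) (XT.lf (nat_lit 0) (nat_lit 115420998134) (nat_lit 152) (nat_lit 285946998844) (nat_lit 0) (nat_lit 106183409915) (nat_lit 4) (nat_lit 5) (nat_lit 6) (nat_lit 4) (nat_lit 4) (nat_lit 4) (nat_lit 487) (nat_lit 402) (nat_lit 311)) (XT.lf (nat_lit 0) (nat_lit 157496180972) (nat_lit 152) (nat_lit 239714514628) (nat_lit 0) (nat_lit 148257970369) (nat_lit 4) (nat_lit 5) (nat_lit 6) (nat_lit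 4) (nat_lit 4) (nat_lit 4) (nat_lit 488) (nat_lit 402) (nat_lit 310)))) (XT.nd (nat_lit 78) (nat_lit 0) (nat_lit 0) (XT.lf (nat_lit 0) (nat_lit 202933032527) (nat_lit 152) (nat_lit 189792375320) (nat_lit 0) (nat_lit 193694245644) (nat_lit 4) (nat_lit 5) (nat_lit 6) (nat_lit 4) (nat_lit 4) (nat_lit 4) (nat_lit 489) (nat_lit 402) (nat_lit 309)) (XT.nd (nat_lit 78) (nat_lit 0) (nat_lit 0) (XT.lf (nat_lit 0) (nat_lit 252000808218) (nat_lit 152) (nat_lit 135884746018) (nat_lit 0) (nat_lit 242761487741) (nat_lit 4) (nat_lit 5) (nat_lit 6) (nat_lit 4) (nat_lit 4) (nat_lit 4) (nat_lit 490) (nat_lit 402) (nat_lit 308)) (XT.lf (nat_lit 0) (nat_lit 304990280047) (nat_lit 152) (nat_lit 77672174105) (nat_lit 0) (nat_lit 295750465503) (nat_lit 4) (nat_lit 5) (nat_lit 6) (nat_lit 4) (nat_lit 4) (nat_lit 4) (nat_lit 491) (nat_lit 402) (nat_lit 307)))))) (XT.nd (nat_lit 468) (nat_lit 0) (nat_lit 0) (XT.nd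 (nat_lit 234) (nat_lit 0) (nat_lit 0) (XT.nd (nat_lit 78) (nat_lit 76) (nat_lit 0) (XT.lf (nat_lit 0) (nat_lit 362215459700) (nat_lit 152) (nat_lit 14809696192) (nat_lit 0) (nat_lit 352975187685) (nat_lit 4) (nat_lit 5) (nat_lit 6) (nat_lit 4) (nat_lit 4) (nat_lit 4) (nat_lit 492) (nat_lit 402) (nat_lit 306)) (XT.nd (nat_lit 78) (nat_lit 0) (nat_lit 0) (XT.lf (nat_lit 0) (nat_lit 55870052404) (nat_lit 76) (nat_lit 369489083052) (nat_lit 76) (nat_lit 360248387454) (nat_lit 3) (nat_lit 4) (nat_lit 4) (nat_lit 5) (nat_lit 4) (nat_lit 4) (nat_lit 493) (nat_lit 402) (nat_lit 305)) (XT.lf (nat_lit 0) (nat_lit 133040014015) (nat_lit 76) (nat_lit 360916102746) (nat_lit 76) (nat_lit 351675014940) (nat_lit 3) (nat_lit 4) (nat_lit 4) (nat_lit 5) (nat_lit 4) (nat_lit 4) (nat_lit 494) (nat_lit 402) (nat_lit 304)))) (XT.nd (nat_lit 78) (nat_lit 0) (nat_lit 0) (XT.lf (nat_lit 0) (nat_lit 216377639759)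 (nat_lit 76) (nat_lit 351660335467) (nat_lit 76) (nat_lit 342418884506) (nat_lit 3) (nat_lit 4) (nat_lit 4) (nat_lit 5) (nat_lit 4) (nat_lit 4) (nat_lit 495) (nat_lit 402) (nat_lit 303)) (XT.nd (nat_lit 78) (nat_lit 0) (nat_lit 0) (XT.lf (nat_lit 0) (nat_lit 306376782235) (nat_lit 76) (nat_lit 341666932223) (nat_lit 76) (nat_lit 332425145009) (nat_lit 3) (nat_lit 4) (nat_lit 4) (nat_lit 5) (nat_lit 4) (nat_lit 4) (nat_lit 496) (nat_lit 402) (nat_lit 302)) (XT.lf (nat_lit 0) (nat_lit 403570769692) (nat_lit 76) (nat_lit 330876672848) (nat_lit 76) (nat_lit 321634574287) (nat_lit 3) (nat_lit 4) (nat_lit 4) (nat_lit 5) (nat_lit 4) (nat_lit 4) (nat_lit 497) (nat_lit 402) (nat_lit 301))))) (XT.nd (nat_lit 234) (nat_lit 0) (nat_lit 0) (XT.nd (nat_lit 78) (nat_lit 0) (nat_lit 0) (XT.lf (nat_lit 0) (nat_lit 508535566503) (nat_lit 76) (nat_lit 319225615063) (nat_lit 76) (nat_lit 309983228218) (nat_lit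 3) (nat_lit 4) (nat_lit 4) (nat_lit 5) (nat_lit 4) (nat_lit 4) (nat_lit 498) (nat_lit 402) (nat_lit 300)) (XT.nd (nat_lit 78) (nat_lit 0) (nat_lit 0) (XT.lf (nat_lit 0) (nat_lit 621893186276) (nat_lit 76) (nat_lit 306644715564) (nat_lit 76) (nat_lit 297402061789) (nat_lit 3) (nat_lit 4) (nat_lit 4) (nat_lit 5) (nat_lit 4) (nat_lit 4) (nat_lit 499) (nat_lit 402) (nat_lit 299)) (XT.lf (nat_lit 0) (nat_lit 744315377871) (nat_lit 76) (nat_lit 293059420871) (nat_lit 76) (nat_lit 283816519940) (nat_lit 3) (nat_lit 4) (nat_lit 4) (nat_lit 5) (nat_lit 4) (nat_lit 4) (nat_lit 500) (nat_lit 402) (nat_lit 298)))) (XT.nd (nat_lit 78) (nat_lit 0) (nat_lit 0) (XT.lf (nat_lit 0) (nat_lit 876527606126) (nat_lit 76) (nat_lit 278389225535) (nat_lit 76) (nat_lit 269146095754) (nat_lit 3) (nat_lit 4) (nat_lit 4) (nat_lit 5) (nat_lit 4) (nat_lit 4) (nat_lit 501) (nat_lit 402) (nat_lit 297)) (XT.nd (nat_lit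 78) (nat_lit 0) (nat_lit 0) (XT.lf (nat_lit 0) (nat_lit 1019313350912) (nat_lit 76) (nat_lit 262547195064) (nat_lit 76) (nat_lit 253303853387) (nat_lit 3) (nat_lit 4) (nat_lit 4) (nat_lit 5) (nat_lit 4) (nat_lit 4) (nat_lit 502) (nat_lit 402) (nat_lit 296)) (XT.lf (nat_lit 0) (nat_lit 1173518749976) (nat_lit 76) (nat_lit 245439450761) (nat_lit 76) (nat_lit 236195912882) (nat_lit 3) (nat_lit 4) (nat_lit 4) (nat_lit 5) (nat_lit 4) (nat_lit 4) (nat_lit 503) (nat_lit 402) (nat_lit 295))))))))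
noncomputable def xc100 : XT := (XT.nd (nat_lit 1794) (nat_lit 0) (nat_lit 0) (XT.nd (nat_lit 858) (nat_lit 0) (nat_lit 0) (XT.nd (nat_lit 390) (nat_lit 152) (nat_lit 0) (XT.nd (nat_lit 156) (nat_lit 0) (nat_lit 0) (XT.nd (nat_lit 78) (nat_lit 0) (nat_lit 0) (XT.lf (nat_lit 0) (nat_lit 1340057613091) (nat_lit 76) (nat_lit 226964613398) (nat_lit 76) (nat_lit 217720893852) (nat_lit 3) (nat_lit 4) (nat_lit 4) (nat_lit 5) (nat_lit 4) (nat_lit 4) (nat_lit 504) (nat_lit 402) (nat_lit 294)) (XT.lf (nat_lit 0) (nat_lit 1519916837223) (nat_lit 76) (nat_lit 207013202459) (nat_lit 76) (nat_lit 197769314702) (nat_lit 3) (nat_lit 4) (nat_lit 4) (nat_lit 5) (nat_lit 4) (nat_lit 4) (nat_lit 505) (nat_lit 402) (nat_lit 293))) (XT.nd (nat_lit 78) (nat_lit 0) (nat_lit 0) (XT.lf (nat_lit 0) (nat_lit 1714162254812) (nat_lit 76) (nat_lit 185466987360) (nat_lit 76) (nat_lit 176222943852) (nat_lit 3) (nat_lit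 4) (nat_lit 4) (nat_lit 5) (nat_lit 4) (nat_lit 4) (nat_lit 506) (nat_lit 402) (nat_lit 292)) (XT.nd (nat_lit 78) (nat_lit 0) (nat_lit 0) (XT.lf (nat_lit 0) (nat_lit 1923944949813) (nat_lit 76) (nat_lit 162198286827) (nat_lit 76) (nat_lit 152954099105) (nat_lit 3) (nat_lit 4) (nat_lit 4) (nat_lit 5) (nat_lit 4) (nat_lit 4) (nat_lit 507) (nat_lit 402) (nat_lit 291)) (XT.lf (nat_lit 0) (nat_lit 2150508078937) (nat_lit 76) (nat_lit 137069212263) (nat_lit 76) (nat_lit 127824891010) (nat_lit 3) (nat_lit 4) (nat_lit 4) (nat_lit 5) (nat_lit 4) (nat_lit 4) (nat_lit 508) (nat_lit 402) (nat_lit 290))))) (XT.nd (nat_lit 234) (nat_lit 152) (nat_lit 0) (XT.nd (nat_lit 78) (nat_lit 0) (nat_lit 0) (XT.lf (nat_lit 0) (nat_lit 2395194238506) (nat_lit 76) (nat_lit 109930850634) (nat_lit 76) (nat_lit 100686405741) (nat_lit 3) (nat_lit 4) (nat_lit 4) (nat_lit 5) (nat_lit 4) (nat_lit 4) (nat_lit 509) (nat_lit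 402) (nat_lit 289)) (XT.nd (nat_lit 78) (nat_lit 0) (nat_lit 0) (XT.lf (nat_lit 0) (nat_lit 2659453420576) (nat_lit 76) (nat_lit 80622382020) (nat_lit 76) (nat_lit 71377822646) (nat_lit 3) (nat_lit 4) (nat_lit 4) (nat_lit 5) (nat_lit 4) (nat_lit 4) (nat_lit 510) (nat_lit 402) (nat_lit 288)) (XT.lf (nat_lit 0) (nat_lit 2944851605485) (nat_lit 76) (nat_lit 48970126607) (nat_lit 76) (nat_lit 39725461231) (nat_lit 3) (nat_lit 4) (nat_lit 4) (nat_lit 5) (nat_lit 4) (nat_lit 4) (nat_lit 511) (nat_lit 402) (nat_lit 287)))) (XT.nd (nat_lit 78) (nat_lit 152) (nat_lit 0) (XT.lf (nat_lit 0) (nat_lit 3253080041737) (nat_lit 76) (nat_lit 14786515473) (nat_lit 76) (nat_lit 5541751947) (nat_lit 3) (nat_lit 4) (nat_lit 4) (nat_lit 5) (nat_lit 4) (nat_lit 4) (nat_lit 512) (nat_lit 402) (nat_lit 286)) (XT.nd (nat_lit 78) (nat_lit 0) (nat_lit 0) (XT.lf (nat_lit 0) (nat_lit 31728368074) (nat_lit 152) (nat_lit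 3477347555642) (nat_lit 0) (nat_lit 23168317700) (nat_lit 1) (nat_lit 5) (nat_lit 3) (nat_lit 4) (nat_lit 1) (nat_lit 4) (nat_lit 513) (nat_lit 402) (nat_lit 285)) (XT.lf (nat_lit 0) (nat_lit 72634272902) (nat_lit 152) (nat_lit 3674990829519) (nat_lit 0) (nat_lit 64074144613) (nat_lit 1) (nat_lit 5) (nat_lit 3) (nat_lit 4) (nat_lit 1) (nat_lit 4) (nat_lit 514) (nat_lit 402) (nat_lit 284)))))) (XT.nd (nat_lit 468) (nat_lit 0) (nat_lit 0) (XT.nd (nat_lit 234) (nat_lit 0) (nat_lit 0) (XT.nd (nat_lit 78) (nat_lit 0) (nat_lit 0) (XT.lf (nat_lit 0) (nat_lit 116811965775) (nat_lit 152) (nat_lit 3888446976738) (nat_lit 0) (nat_lit 108251765343) (nat_lit 1) (nat_lit 5) (nat_lit 3) (nat_lit 4) (nat_lit 1) (nat_lit 4) (nat_lit 515) (nat_lit 402) (nat_lit 283)) (XT.nd (nat_lit 78) (nat_lit 0) (nat_lit 0) (XT.lf (nat_lit 0) (nat_lit 164523240428) (nat_lit 152) (nat_lit 4118980922614) (nat_lit 0) (nat_lit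 155962973197) (nat_lit 1) (nat_lit 5) (nat_lit 3) (nat_lit 4) (nat_lit 1) (nat_lit 4) (nat_lit 516) (nat_lit 402) (nat_lit 282)) (XT.lf (nat_lit 0) (nat_lit 216050830341) (nat_lit 152) (nat_lit 4367958794236) (nat_lit 0) (nat_lit 207490501260) (nat_lit 1) (nat_lit 5) (nat_lit 3) (nat_lit 4) (nat_lit 1) (nat_lit 4) (nat_lit 517) (nat_lit 402) (nat_lit 281)))) (XT.nd (nat_lit 78) (nat_lit 0) (nat_lit 0) (XT.lf (nat_lit 0) (nat_lit 271700084195) (nat_lit 152) (nat_lit 4636856016027) (nat_lit 0) (nat_lit 263139697844) (nat_lit 1) (nat_lit 5) (nat_lit 3) (nat_lit 4) (nat_lit 1) (nat_lit 4) (nat_lit 518) (nat_lit 402) (nat_lit 280)) (XT.nd (nat_lit 78) (nat_lit 0) (nat_lit 0) (XT.lf (nat_lit 0) (nat_lit 331800775346) (nat_lit 152) (nat_lit 4927266053005) (nat_lit 0) (nat_lit 323240335968) (nat_lit 1) (nat_lit 5) (nat_lit 3) (nat_lit 4) (nat_lit 1) (nat_lit 4) (nat_lit 519) (nat_lit 402) (nat_lit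 279)) (XT.lf (nat_lit 0) (nat_lit 396709056037) (nat_lit 152) (nat_lit 5240909853537) (nat_lit 0) (nat_lit 388148567560) (nat_lit 1) (nat_lit 5) (nat_lit 3) (nat_lit 4) (nat_lit 1) (nat_lit 4) (nat_lit 520) (nat_lit 402) (nat_lit 278))))) (XT.nd (nat_lit 234) (nat_lit 0) (nat_lit 0) (XT.nd (nat_lit 78) (nat_lit 0) (nat_lit 0) (XT.lf (nat_lit 0) (nat_lit 466809567933) (nat_lit 152) (nat_lit 5579646047554) (nat_lit 0) (nat_lit 458249033994) (nat_lit 1) (nat_lit 5) (nat_lit 3) (nat_lit 4) (nat_lit 1) (nat_lit 4) (nat_lit 521) (nat_lit 402) (nat_lit 277)) (XT.nd (nat_lit 78) (nat_lit 0) (nat_lit 0) (XT.lf (nat_lit 0) (nat_lit 542517721474) (nat_lit 152) (nat_lit 5945481960648) (nat_lit 0) (nat_lit 533957145440) (nat_lit 1) (nat_lit 5) (nat_lit 3) (nat_lit 4) (nat_lit 1) (nat_lit 4) (nat_lit 522) (nat_lit 402) (nat_lit 276)) (XT.lf (nat_lit 0) (nat_lit 624282157570) (nat_lit 152) (nat_lit 6340585509343)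 (nat_lit 0) (nat_lit 615721542560) (nat_lit 1) (nat_lit 5) (nat_lit 3) (nat_lit 4) (nat_lit 1) (nat_lit 4) (nat_lit 523) (nat_lit 402) (nat_lit 275)))) (XT.nd (nat_lit 78) (nat_lit 0) (nat_lit 0) (XT.lf (nat_lit 0) (nat_lit 712587406212) (nat_lit 152) (nat_lit 6767298047999) (nat_lit 0) (nat_lit 704026755113) (nat_lit 1) (nat_lit 5) (nat_lit 3) (nat_lit 4) (nat_lit 1) (nat_lit 4) (nat_lit 524) (nat_lit 402) (nat_lit 274)) (XT.nd (nat_lit 78) (nat_lit 0) (nat_lit 0) (XT.lf (nat_lit 0) (nat_lit 807956757764) (nat_lit 152) (nat_lit 7228148243515) (nat_lit 0) (nat_lit 799396073248) (nat_lit 1) (nat_lit 5) (nat_lit 3) (nat_lit 4) (nat_lit 1) (nat_lit 4) (nat_lit 525) (nat_lit 402) (nat_lit 273)) (XT.lf (nat_lit 0) (nat_lit 910955363937) (nat_lit 152) (nat_lit 7725867060010) (nat_lit 0) (nat_lit 902394648481) (nat_lit 1) (nat_lit 5) (nat_lit 3) (nat_lit 4) (nat_lit 1) (nat_lit 4) (nat_lit 526)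 (nat_lit 402) (nat_lit 272))))))) (XT.nd (nat_lit 53352) (nat_lit 0) (nat_lit 4180) (XT.nd (nat_lit 52884) (nat_lit 0) (nat_lit 6536) (XT.nd (nat_lit 156) (nat_lit 0) (nat_lit 0) (XT.nd (nat_lit 78) (nat_lit 0) (nat_lit 0) (XT.lf (nat_lit 0) (nat_lit 1022193586843) (nat_lit 152) (nat_lit 8263403942323) (nat_lit 0) (nat_lit 1013632842738) (nat_lit 1) (nat_lit 5) (nat_lit 3) (nat_lit 4) (nat_lit 1) (nat_lit 4) (nat_lit 527) (nat_lit 402) (nat_lit 271)) (XT.lf (nat_lit 0) (nat_lit 1142330615950) (nat_lit 152) (nat_lit 8843944294202) (nat_lit 0) (nat_lit 1133769845318) (nat_lit 1) (nat_lit 5) (nat_lit 3) (nat_lit 4) (nat_lit 1) (nat_lit 4) (nat_lit 528) (nat_lit 402) (nat_lit 270))) (XT.nd (nat_lit 78) (nat_lit 0) (nat_lit 0) (XT.lf (nat_lit 0) (nat_lit 1272078374395) (nat_lit 152) (nat_lit 9470928354768) (nat_lit 0) (nat_lit 1263517579201) (nat_lit 1) (nat_lit 5) (nat_lit 3) (nat_lit 4) (nat_lit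 1) (nat_lit 4) (nat_lit 529) (nat_lit 402) (nat_lit 269)) (XT.nd (nat_lit 52572) (nat_lit 0) (nat_lit 7144) (XT.lf (nat_lit 0) (nat_lit 1412205737782) (nat_lit 152) (nat_lit 10148071585122) (nat_lit 0) (nat_lit 1403644919845) (nat_lit 1) (nat_lit 5) (nat_lit 3) (nat_lit 4) (nat_lit 1) (nat_lit 4) (nat_lit 530) (nat_lit 402) (nat_lit 268)) (XT.lf (nat_lit 0) (nat_lit 781999107) (nat_lit 0) (nat_lit 781999107) (nat_lit 228) (nat_lit 1784589650) (nat_lit 95) (nat_lit 5) (nat_lit 95) (nat_lit 3) (nat_lit 98) (nat_lit 3) (nat_lit 403) (nat_lit 403) (nat_lit 394))))) (XT.nd (nat_lit 234) (nat_lit 304) (nat_lit 0) (XT.nd (nat_lit 78) (nat_lit 304) (nat_lit 0) (XT.lf (nat_lit 0) (nat_lit 5031889149) (nat_lit 0) (nat_lit 341449455) (nat_lit 228) (nat_lit 1420915212) (nat_lit 95) (nat_lit 5) (nat_lit 95) (nat_lit 3) (nat_lit 98) (nat_lit 3) (nat_lit 404) (nat_lit 403) (nat_lit 393)) (XT.nd (nat_lit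 78) (nat_lit 0) (nat_lit 0) (XT.lf (nat_lit 0) (nat_lit 708157601) (nat_lit 304) (nat_lit 5108618616) (nat_lit 380) (nat_lit 1092387818) (nat_lit 91) (nat_lit 5) (nat_lit 95) (nat_lit 5) (nat_lit 96) (nat_lit 5) (nat_lit 405) (nat_lit 403) (nat_lit 392)) (XT.lf (nat_lit 0) (nat_lit 2786878821) (nat_lit 304) (nat_lit 1460994199) (nat_lit 380) (nat_lit 2794056559) (nat_lit 91) (nat_lit 5) (nat_lit 95) (nat_lit 5) (nat_lit 96) (nat_lit 5) (nat_lit 406) (nat_lit 403) (nat_lit 391)))) (XT.nd (nat_lit 78) (nat_lit 304) (nat_lit 0) (XT.lf (nat_lit 76) (nat_lit 2479054089) (nat_lit 0) (nat_lit 2425226378) (nat_lit 380) (nat_lit 2291339884) (nat_lit 92) (nat_lit 5) (nat_lit 91) (nat_lit 5) (nat_lit 96) (nat_lit 5) (nat_lit 407) (nat_lit 403) (nat_lit 390)) (XT.nd (nat_lit 78) (nat_lit 304) (nat_lit 0) (XT.lf (nat_lit 76) (nat_lit 6697119879) (nat_lit 0) (nat_lit 357638876) (nat_lit 380) (nat_lit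 317840466) (nat_lit 92) (nat_lit 5) (nat_lit 91) (nat_lit 5) (nat_lit 96) (nat_lit 5) (nat_lit 408) (nat_lit 403) (nat_lit 389)) (XT.lf (nat_lit 0) (nat_lit 1694227665) (nat_lit 380) (nat_lit 3905636074) (nat_lit 76) (nat_lit 1962745762) (nat_lit 87) (nat_lit 5) (nat_lit 92) (nat_lit 5) (nat_lit 88) (nat_lit 5) (nat_lit 409) (nat_lit 403) (nat_lit 388)))))) (XT.nd (nat_lit 468) (nat_lit 760) (nat_lit 0) (XT.nd (nat_lit 234) (nat_lit 760) (nat_lit 0) (XT.nd (nat_lit 78) (nat_lit 456) (nat_lit 0) (XT.lf (nat_lit 0) (nat_lit 483348554) (nat_lit 380) (nat_lit 3249651143) (nat_lit 456) (nat_lit 4043597189) (nat_lit 82) (nat_lit 5) (nat_lit 87) (nat_lit 5) (nat_lit 88) (nat_lit 5) (nat_lit 410) (nat_lit 403) (nat_lit 387)) (XT.nd (nat_lit 78) (nat_lit 456) (nat_lit 0) (XT.lf (nat_lit 0) (nat_lit 5317982571) (nat_lit 380) (nat_lit 575283286) (nat_lit 456) (nat_lit 2117830400) (nat_lit 82) (nat_lit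 5) (nat_lit 87) (nat_lit 5) (nat_lit 88) (nat_lit 5) (nat_lit 411) (nat_lit 403) (nat_lit 386)) (XT.lf (nat_lit 0) (nat_lit 2199795163) (nat_lit 456) (nat_lit 5998152715) (nat_lit 532) (nat_lit 68739750) (nat_lit 76) (nat_lit 5) (nat_lit 82) (nat_lit 5) (nat_lit 83) (nat_lit 5) (nat_lit 412) (nat_lit 403) (nat_lit 385)))) (XT.nd (nat_lit 78) (nat_lit 684) (nat_lit 0) (XT.lf (nat_lit 0) (nat_lit 1994242807) (nat_lit 532) (nat_lit 1101400740) (nat_lit 76) (nat_lit 5446429867) (nat_lit 75) (nat_lit 5) (nat_lit 82) (nat_lit 5) (nat_lit 76) (nat_lit 5) (nat_lit 413) (nat_lit 403) (nat_lit 384)) (XT.nd (nat_lit 78) (nat_lit 228) (nat_lit 0) (XT.lf (nat_lit 0) (nat_lit 4203572274) (nat_lit 532) (nat_lit 4490804224) (nat_lit 76) (nat_lit 146216292) (nat_lit 69) (nat_lit 5) (nat_lit 76) (nat_lit 5) (nat_lit 70) (nat_lit 5) (nat_lit 414) (nat_lit 403) (nat_lit 383)) (XT.lf (nat_lit 0) (nat_lit 977052570)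 (nat_lit 228) (nat_lit 5630172894) (nat_lit 304) (nat_lit 2554405883) (nat_lit 66) (nat_lit 5) (nat_lit 69) (nat_lit 5) (nat_lit 70) (nat_lit 5) (nat_lit 415) (nat_lit 403) (nat_lit 382))))) (XT.nd (nat_lit 234) (nat_lit 456) (nat_lit 0) (XT.nd (nat_lit 78) (nat_lit 304) (nat_lit 0) (XT.lf (nat_lit 0) (nat_lit 7011257896) (nat_lit 228) (nat_lit 2203117500) (nat_lit 304) (nat_lit 293121806) (nat_lit 66) (nat_lit 5) (nat_lit 69) (nat_lit 5) (nat_lit 70) (nat_lit 5) (nat_lit 416) (nat_lit 403) (nat_lit 381)) (XT.nd (nat_lit 78) (nat_lit 0) (nat_lit 0) (XT.lf (nat_lit 0) (nat_lit 2062696035) (nat_lit 304) (nat_lit 6262010241) (nat_lit 76) (nat_lit 1550535153) (nat_lit 62) (nat_lit 5) (nat_lit 66) (nat_lit 5) (nat_lit 63) (nat_lit 5) (nat_lit 417) (nat_lit 403) (nat_lit 380)) (XT.lf (nat_lit 0) (nat_lit 4616886654) (nat_lit 304) (nat_lit 107421942) (nat_lit 76) (nat_lit 5545460240) (nat_lit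 62) (nat_lit 5) (nat_lit 66) (nat_lit 5) (nat_lit 63) (nat_lit 5) (nat_lit 418) (nat_lit 403) (nat_lit 379)))) (XT.nd (nat_lit 78) (nat_lit 304) (nat_lit 0) (XT.lf (nat_lit 0) (nat_lit 6759826789) (nat_lit 152) (nat_lit 684173926) (nat_lit 228) (nat_lit 3246400486) (nat_lit 60) (nat_lit 5) (nat_lit 62) (nat_lit 5) (nat_lit 63) (nat_lit 5) (nat_lit 419) (nat_lit 403) (nat_lit 378)) (XT.nd (nat_lit 78) (nat_lit 76) (nat_lit 0) (XT.lf (nat_lit 0) (nat_lit 2976992306) (nat_lit 228) (nat_lit 7592995794) (nat_lit 304) (nat_lit 568907335) (nat_lit 57) (nat_lit 5) (nat_lit 60) (nat_lit 5) (nat_lit 61) (nat_lit 5) (nat_lit 420) (nat_lit 403) (nat_lit 377)) (XT.lf (nat_lit 0) (nat_lit 2245806766) (nat_lit 304) (nat_lit 1153506084) (nat_lit 76) (nat_lit 8216373658) (nat_lit 56) (nat_lit 5) (nat_lit 60) (nat_lit 5) (nat_lit 57) (nat_lit 5) (nat_lit 421) (nat_lit 403) (nat_lit 376))))))))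
noncomputable def xc101 : XT := (XT.nd (nat_lit 1794) (nat_lit 1216) (nat_lit 0) (XT.nd (nat_lit 858) (nat_lit 988) (nat_lit 0) (XT.nd (nat_lit 390) (nat_lit 456) (nat_lit 0) (XT.nd (nat_lit 156) (nat_lit 380) (nat_lit 0) (XT.nd (nat_lit 78) (nat_lit 152) (nat_lit 0) (XT.lf (nat_lit 0) (nat_lit 5362813480) (nat_lit 228) (nat_lit 5536386322) (nat_lit 76) (nat_lit 1221632739) (nat_lit 54) (nat_lit 5) (nat_lit 57) (nat_lit 5) (nat_lit 55) (nat_lit 5) (nat_lit 422) (nat_lit 403) (nat_lit 375)) (XT.lf (nat_lit 0) (nat_lit 2249954387) (nat_lit 152) (nat_lit 6574397133) (nat_lit 228) (nat_lit 3834445372) (nat_lit 52) (nat_lit 5) (nat_lit 54) (nat_lit 5) (nat_lit 55) (nat_lit 5) (nat_lit 423) (nat_lit 403) (nat_lit 374))) (XT.nd (nat_lit 78) (nat_lit 380) (nat_lit 0) (XT.lf (nat_lit 0) (nat_lit 10860361902) (nat_lit 152) (nat_lit 1777393984) (nat_lit 228) (nat_lit 596065836) (nat_lit 52) (nat_lit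 5) (nat_lit 54) (nat_lit 5) (nat_lit 55) (nat_lit 5) (nat_lit 424) (nat_lit 403) (nat_lit 373)) (XT.nd (nat_lit 78) (nat_lit 152) (nat_lit 0) (XT.lf (nat_lit 0) (nat_lit 2925519674) (nat_lit 228) (nat_lit 7481065522) (nat_lit 76) (nat_lit 3429155218) (nat_lit 49) (nat_lit 5) (nat_lit 52) (nat_lit 5) (nat_lit 50) (nat_lit 5) (nat_lit 425) (nat_lit 403) (nat_lit 372)) (XT.lf (nat_lit 0) (nat_lit 1327413417) (nat_lit 152) (nat_lit 5443204334) (nat_lit 228) (nat_lit 7708052090) (nat_lit 47) (nat_lit 5) (nat_lit 49) (nat_lit 5) (nat_lit 50) (nat_lit 5) (nat_lit 426) (nat_lit 403) (nat_lit 371))))) (XT.nd (nat_lit 234) (nat_lit 152) (nat_lit 0) (XT.nd (nat_lit 78) (nat_lit 304) (nat_lit 0) (XT.lf (nat_lit 0) (nat_lit 11062174933) (nat_lit 228) (nat_lit 4006721176) (nat_lit 76) (nat_lit 93043227) (nat_lit 47) (nat_lit 5) (nat_lit 50) (nat_lit 5) (nat_lit 48) (nat_lit 4) (nat_lit 427) (nat_lit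 403) (nat_lit 370)) (XT.nd (nat_lit 78) (nat_lit 152) (nat_lit 0) (XT.lf (nat_lit 0) (nat_lit 32876767) (nat_lit 152) (nat_lit 9963406244) (nat_lit 76) (nat_lit 5885945842) (nat_lit 45) (nat_lit 5) (nat_lit 47) (nat_lit 5) (nat_lit 46) (nat_lit 5) (nat_lit 428) (nat_lit 403) (nat_lit 369)) (XT.lf (nat_lit 0) (nat_lit 490548) (nat_lit 152) (nat_lit 4323323078) (nat_lit 228) (nat_lit 12323885630) (nat_lit 43) (nat_lit 5) (nat_lit 45) (nat_lit 5) (nat_lit 46) (nat_lit 5) (nat_lit 429) (nat_lit 403) (nat_lit 368)))) (XT.nd (nat_lit 78) (nat_lit 152) (nat_lit 0) (XT.lf (nat_lit 0) (nat_lit 9218885690) (nat_lit 228) (nat_lit 6281269635) (nat_lit 76) (nat_lit 1953393298) (nat_lit 43) (nat_lit 5) (nat_lit 46) (nat_lit 5) (nat_lit 44) (nat_lit 4) (nat_lit 430) (nat_lit 403) (nat_lit 367)) (XT.nd (nat_lit 78) (nat_lit 76) (nat_lit 0) (XT.lf (nat_lit 0) (nat_lit 4950855652) (nat_lit 76) (nat_lit 9728656945)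 (nat_lit 152) (nat_lit 3630446819) (nat_lit 42) (nat_lit 5) (nat_lit 43) (nat_lit 5) (nat_lit 44) (nat_lit 4) (nat_lit 431) (nat_lit 403) (nat_lit 366)) (XT.lf (nat_lit 0) (nat_lit 1394253489) (nat_lit 152) (nat_lit 1918079266) (nat_lit 76) (nat_lit 15910433399) (nat_lit 41) (nat_lit 5) (nat_lit 43) (nat_lit 5) (nat_lit 42) (nat_lit 5) (nat_lit 432) (nat_lit 403) (nat_lit 365)))))) (XT.nd (nat_lit 468) (nat_lit 456) (nat_lit 0) (XT.nd (nat_lit 234) (nat_lit 304) (nat_lit 0) (XT.nd (nat_lit 78) (nat_lit 76) (nat_lit 0) (XT.lf (nat_lit 0) (nat_lit 6926892382) (nat_lit 228) (nat_lit 9487604481) (nat_lit 76) (nat_lit 3762396169) (nat_lit 39) (nat_lit 5) (nat_lit 42) (nat_lit 5) (nat_lit 40) (nat_lit 4) (nat_lit 433) (nat_lit 403) (nat_lit 364)) (XT.nd (nat_lit 78) (nat_lit 0) (nat_lit 0) (XT.lf (nat_lit 0) (nat_lit 3190922175) (nat_lit 76) (nat_lit 9875934027) (nat_lit 152) (nat_lit 8127323662)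 (nat_lit 38) (nat_lit 5) (nat_lit 39) (nat_lit 5) (nat_lit 40) (nat_lit 4) (nat_lit 434) (nat_lit 403) (nat_lit 363)) (XT.lf (nat_lit 0) (nat_lit 17333162671) (nat_lit 76) (nat_lit 2574068275) (nat_lit 152) (nat_lit 2368887990) (nat_lit 38) (nat_lit 5) (nat_lit 39) (nat_lit 5) (nat_lit 40) (nat_lit 4) (nat_lit 435) (nat_lit 403) (nat_lit 362)))) (XT.nd (nat_lit 78) (nat_lit 76) (nat_lit 0) (XT.lf (nat_lit 0) (nat_lit 3972506878) (nat_lit 228) (nat_lit 14101320539) (nat_lit 76) (nat_lit 5338192321) (nat_lit 35) (nat_lit 5) (nat_lit 38) (nat_lit 5) (nat_lit 36) (nat_lit 4) (nat_lit 436) (nat_lit 403) (nat_lit 361)) (XT.nd (nat_lit 78) (nat_lit 0) (nat_lit 0) (XT.lf (nat_lit 0) (nat_lit 146618446) (nat_lit 76) (nat_lit 10708581387) (nat_lit 152) (nat_lit 13765718048) (nat_lit 34) (nat_lit 5) (nat_lit 35) (nat_lit 5) (nat_lit 36) (nat_lit 4) (nat_lit 437) (nat_lit 403) (nat_lit 360)) (XT.lf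 (nat_lit 0) (nat_lit 16251945502) (nat_lit 76) (nat_lit 2376498446) (nat_lit 152) (nat_lit 7270893772) (nat_lit 34) (nat_lit 5) (nat_lit 35) (nat_lit 5) (nat_lit 36) (nat_lit 4) (nat_lit 438) (nat_lit 403) (nat_lit 359))))) (XT.nd (nat_lit 234) (nat_lit 228) (nat_lit 0) (XT.nd (nat_lit 78) (nat_lit 76) (nat_lit 0) (XT.lf (nat_lit 0) (nat_lit 34628889) (nat_lit 152) (nat_lit 20810907479) (nat_lit 76) (nat_lit 6412729718) (nat_lit 32) (nat_lit 5) (nat_lit 34) (nat_lit 5) (nat_lit 33) (nat_lit 4) (nat_lit 439) (nat_lit 403) (nat_lit 358)) (XT.nd (nat_lit 78) (nat_lit 76) (nat_lit 0) (XT.lf (nat_lit 0) (nat_lit 7821240131) (nat_lit 152) (nat_lit 4664783962) (nat_lit 76) (nat_lit 16201622899) (nat_lit 32) (nat_lit 5) (nat_lit 34) (nat_lit 5) (nat_lit 33) (nat_lit 4) (nat_lit 440) (nat_lit 403) (nat_lit 357)) (XT.lf (nat_lit 0) (nat_lit 13366792703) (nat_lit 76) (nat_lit 3145744911) (nat_lit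 152) (nat_lit 13696303628) (nat_lit 31) (nat_lit 5) (nat_lit 32) (nat_lit 5) (nat_lit 33) (nat_lit 4) (nat_lit 441) (nat_lit 403) (nat_lit 356)))) (XT.nd (nat_lit 78) (nat_lit 152) (nat_lit 0) (XT.lf (nat_lit 0) (nat_lit 1072804054) (nat_lit 76) (nat_lit 25110584174) (nat_lit 76) (nat_lit 5645606057) (nat_lit 30) (nat_lit 4) (nat_lit 31) (nat_lit 5) (nat_lit 31) (nat_lit 4) (nat_lit 442) (nat_lit 403) (nat_lit 355)) (XT.nd (nat_lit 78) (nat_lit 76) (nat_lit 0) (XT.lf (nat_lit 0) (nat_lit 3411575270) (nat_lit 152) (nat_lit 12405673530) (nat_lit 76) (nat_lit 17714450258) (nat_lit 29) (nat_lit 5) (nat_lit 31) (nat_lit 5) (nat_lit 30) (nat_lit 4) (nat_lit 443) (nat_lit 403) (nat_lit 354)) (XT.lf (nat_lit 0) (nat_lit 7575362546) (nat_lit 76) (nat_lit 5458849359) (nat_lit 152) (nat_lit 22313008506) (nat_lit 28) (nat_lit 5) (nat_lit 29) (nat_lit 5) (nat_lit 30) (nat_lit 4) (nat_lit 444) (nat_lit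 403) (nat_lit 353))))))) (XT.nd (nat_lit 936) (nat_lit 532) (nat_lit 0) (XT.nd (nat_lit 468) (nat_lit 380) (nat_lit 0) (XT.nd (nat_lit 234) (nat_lit 152) (nat_lit 0) (XT.nd (nat_lit 78) (nat_lit 152) (nat_lit 0) (XT.lf (nat_lit 0) (nat_lit 23876391598) (nat_lit 152) (nat_lit 7637116893) (nat_lit 0) (nat_lit 5758498765) (nat_lit 28) (nat_lit 5) (nat_lit 30) (nat_lit 4) (nat_lit 28) (nat_lit 4) (nat_lit 445) (nat_lit 403) (nat_lit 352)) (XT.nd (nat_lit 78) (nat_lit 76) (nat_lit 0) (XT.lf (nat_lit 0) (nat_lit 14633748958) (nat_lit 76) (nat_lit 21412561220) (nat_lit 76) (nat_lit 3267639887) (nat_lit 27) (nat_lit 4) (nat_lit 28) (nat_lit 5) (nat_lit 28) (nat_lit 4) (nat_lit 446) (nat_lit 403) (nat_lit 351)) (XT.lf (nat_lit 0) (nat_lit 7467837177) (nat_lit 152) (nat_lit 2636846392) (nat_lit 76) (nat_lit 31385330286) (nat_lit 26) (nat_lit 5) (nat_lit 28) (nat_lit 5) (nat_lit 27) (nat_lit 4) (nat_lit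 447) (nat_lit 403) (nat_lit 350)))) (XT.nd (nat_lit 78) (nat_lit 76) (nat_lit 0) (XT.lf (nat_lit 0) (nat_lit 19453111018) (nat_lit 152) (nat_lit 21727234619) (nat_lit 0) (nat_lit 2607629256) (nat_lit 25) (nat_lit 5) (nat_lit 27) (nat_lit 4) (nat_lit 25) (nat_lit 4) (nat_lit 448) (nat_lit 403) (nat_lit 349)) (XT.nd (nat_lit 78) (nat_lit 0) (nat_lit 0) (XT.lf (nat_lit 0) (nat_lit 2416247261) (nat_lit 76) (nat_lit 30344880977) (nat_lit 76) (nat_lit 13479532460) (nat_lit 24) (nat_lit 4) (nat_lit 25) (nat_lit 5) (nat_lit 25) (nat_lit 4) (nat_lit 449) (nat_lit 403) (nat_lit 348)) (XT.lf (nat_lit 0) (nat_lit 29668003570) (nat_lit 76) (nat_lit 18030079615) (nat_lit 76) (nat_lit 1146335956) (nat_lit 24) (nat_lit 4) (nat_lit 25) (nat_lit 5) (nat_lit 25) (nat_lit 4) (nat_lit 450) (nat_lit 403) (nat_lit 347))))) (XT.nd (nat_lit 234) (nat_lit 152) (nat_lit 0) (XT.nd (nat_lit 78) (nat_lit 76) (nat_lit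 0) (XT.lf (nat_lit 0) (nat_lit 7468259183) (nat_lit 76) (nat_lit 4247623211) (nat_lit 152) (nat_lit 39905068492) (nat_lit 22) (nat_lit 5) (nat_lit 23) (nat_lit 5) (nat_lit 24) (nat_lit 4) (nat_lit 451) (nat_lit 403) (nat_lit 346)) (XT.nd (nat_lit 78) (nat_lit 76) (nat_lit 0) (XT.lf (nat_lit 0) (nat_lit 26310766730) (nat_lit 152) (nat_lit 17597910764) (nat_lit 0) (nat_lit 10647297222) (nat_lit 22) (nat_lit 5) (nat_lit 24) (nat_lit 4) (nat_lit 22) (nat_lit 4) (nat_lit 452) (nat_lit 403) (nat_lit 345)) (XT.lf (nat_lit 0) (nat_lit 11493940249) (nat_lit 76) (nat_lit 30939998032) (nat_lit 76) (nat_lit 15263007544) (nat_lit 21) (nat_lit 4) (nat_lit 22) (nat_lit 5) (nat_lit 22) (nat_lit 4) (nat_lit 453) (nat_lit 403) (nat_lit 344)))) (XT.nd (nat_lit 78) (nat_lit 152) (nat_lit 0) (XT.lf (nat_lit 0) (nat_lit 43863305547) (nat_lit 76) (nat_lit 16439467614) (nat_lit 76) (nat_lit 749957702) (nat_lit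 21) (nat_lit 4) (nat_lit 22) (nat_lit 5) (nat_lit 22) (nat_lit 4) (nat_lit 454) (nat_lit 403) (nat_lit 343)) (XT.nd (nat_lit 78) (nat_lit 0) (nat_lit 0) (XT.lf (nat_lit 0) (nat_lit 14461582226) (nat_lit 76) (nat_lit 39708253) (nat_lit 152) (nat_lit 50121077416) (nat_lit 19) (nat_lit 5) (nat_lit 20) (nat_lit 5) (nat_lit 21) (nat_lit 4) (nat_lit 455) (nat_lit 403) (nat_lit 342)) (XT.lf (nat_lit 0) (nat_lit 31815339008) (nat_lit 152) (nat_lit 19322678613) (nat_lit 0) (nat_lit 17267343302) (nat_lit 19) (nat_lit 5) (nat_lit 21) (nat_lit 4) (nat_lit 19) (nat_lit 4) (nat_lit 456) (nat_lit 403) (nat_lit 341)))))) (XT.nd (nat_lit 468) (nat_lit 228) (nat_lit 0) (XT.nd (nat_lit 234) (nat_lit 76) (nat_lit 0) (XT.nd (nat_lit 78) (nat_lit 152) (nat_lit 0) (XT.lf (nat_lit 0) (nat_lit 14670654938) (nat_lit 76) (nat_lit 36175502678) (nat_lit 76) (nat_lit 21618304821) (nat_lit 18) (nat_lit 4) (nat_lit 19)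 (nat_lit 5) (nat_lit 19) (nat_lit 4) (nat_lit 457) (nat_lit 403) (nat_lit 340)) (XT.nd (nat_lit 78) (nat_lit 152) (nat_lit 0) (XT.lf (nat_lit 0) (nat_lit 52438807810) (nat_lit 76) (nat_lit 19467333668) (nat_lit 76) (nat_lit 4901615302) (nat_lit 18) (nat_lit 4) (nat_lit 19) (nat_lit 5) (nat_lit 19) (nat_lit 4) (nat_lit 458) (nat_lit 403) (nat_lit 339)) (XT.lf (nat_lit 0) (nat_lit 11971019757) (nat_lit 76) (nat_lit 790820379) (nat_lit 152) (nat_lit 68689980457) (nat_lit 16) (nat_lit 5) (nat_lit 17) (nat_lit 5) (nat_lit 18) (nat_lit 4) (nat_lit 459) (nat_lit 403) (nat_lit 338)))) (XT.nd (nat_lit 78) (nat_lit 76) (nat_lit 0) (XT.lf (nat_lit 0) (nat_lit 32702763990) (nat_lit 152) (nat_lit 34462205468) (nat_lit 0) (nat_lit 19201918904) (nat_lit 16) (nat_lit 5) (nat_lit 18) (nat_lit 4) (nat_lit 16) (nat_lit 4) (nat_lit 460) (nat_lit 403) (nat_lit 337)) (XT.nd (nat_lit 78) (nat_lit 0) (nat_lit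 0) (XT.lf (nat_lit 0) (nat_lit 3472661710) (nat_lit 76) (nat_lit 50851400127) (nat_lit 76) (nat_lit 37344292212) (nat_lit 15) (nat_lit 4) (nat_lit 16) (nat_lit 5) (nat_lit 16) (nat_lit 4) (nat_lit 461) (nat_lit 403) (nat_lit 336)) (XT.lf (nat_lit 0) (nat_lit 46364794731) (nat_lit 76) (nat_lit 32234072626) (nat_lit 76) (nat_lit 18721165795) (nat_lit 15) (nat_lit 4) (nat_lit 16) (nat_lit 5) (nat_lit 16) (nat_lit 4) (nat_lit 462) (nat_lit 403) (nat_lit 335))))) (XT.nd (nat_lit 234) (nat_lit 76) (nat_lit 0) (XT.nd (nat_lit 78) (nat_lit 76) (nat_lit 0) (XT.lf (nat_lit 0) (nat_lit 1304655528) (nat_lit 152) (nat_lit 10804592698) (nat_lit 76) (nat_lit 91313323406) (nat_lit 14) (nat_lit 5) (nat_lit 16) (nat_lit 5) (nat_lit 15) (nat_lit 4) (nat_lit 463) (nat_lit 403) (nat_lit 334)) (XT.nd (nat_lit 78) (nat_lit 0) (nat_lit 0) (XT.lf (nat_lit 0) (nat_lit 22980783586) (nat_lit 152) (nat_lit 76449597419)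 (nat_lit 0) (nat_lit 10459257814) (nat_lit 13) (nat_lit 5) (nat_lit 15) (nat_lit 4) (nat_lit 13) (nat_lit 4) (nat_lit 464) (nat_lit 403) (nat_lit 333)) (XT.lf (nat_lit 0) (nat_lit 46992423417) (nat_lit 152) (nat_lit 35366899314) (nat_lit 0) (nat_lit 34466635269) (nat_lit 13) (nat_lit 5) (nat_lit 15) (nat_lit 4) (nat_lit 13) (nat_lit 4) (nat_lit 465) (nat_lit 403) (nat_lit 332)))) (XT.nd (nat_lit 78) (nat_lit 0) (nat_lit 0) (XT.lf (nat_lit 0) (nat_lit 9444325485) (nat_lit 76) (nat_lit 63692810510) (nat_lit 76) (nat_lit 51163075716) (nat_lit 12) (nat_lit 4) (nat_lit 13) (nat_lit 5) (nat_lit 13) (nat_lit 4) (nat_lit 466) (nat_lit 403) (nat_lit 331)) (XT.nd (nat_lit 78) (nat_lit 0) (nat_lit 0) (XT.lf (nat_lit 0) (nat_lit 59822035585) (nat_lit 76) (nat_lit 42503784001) (nat_lit 76) (nat_lit 29970394907) (nat_lit 12) (nat_lit 4) (nat_lit 13) (nat_lit 5) (nat_lit 13) (nat_lit 4) (nat_lit 467)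 (nat_lit 403) (nat_lit 330)) (XT.lf (nat_lit 0) (nat_lit 114202407319) (nat_lit 76) (nat_lit 19633672308) (nat_lit 76) (nat_lit 7096899601) (nat_lit 12) (nat_lit 4) (nat_lit 13) (nat_lit 5) (nat_lit 13) (nat_lit 4) (nat_lit 468) (nat_lit 403) (nat_lit 329))))))))
noncomputable def xc102 : XT := (XT.nd (nat_lit 1794) (nat_lit 228) (nat_lit 0) (XT.nd (nat_lit 858) (nat_lit 228) (nat_lit 0) (XT.nd (nat_lit 390) (nat_lit 152) (nat_lit 0) (XT.nd (nat_lit 156) (nat_lit 76) (nat_lit 0) (XT.nd (nat_lit 78) (nat_lit 0) (nat_lit 0) (XT.lf (nat_lit 0) (nat_lit 17422619887) (nat_lit 152) (nat_lit 126936843147) (nat_lit 0) (nat_lit 5811596109) (nat_lit 10) (nat_lit 5) (nat_lit 12) (nat_lit 4) (nat_lit 10) (nat_lit 4) (nat_lit 469) (nat_lit 403) (nat_lit 328)) (XT.lf (nat_lit 0) (nat_lit 44767276057) (nat_lit 152) (nat_lit 82112837183) (nat_lit 0) (nat_lit 33153566259) (nat_lit 10) (nat_lit 5) (nat_lit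 12) (nat_lit 4) (nat_lit 10) (nat_lit 4) (nat_lit 470) (nat_lit 403) (nat_lit 327))) (XT.nd (nat_lit 78) (nat_lit 76) (nat_lit 0) (XT.lf (nat_lit 0) (nat_lit 74287636117) (nat_lit 152) (nat_lit 33727183795) (nat_lit 0) (nat_lit 62671439263) (nat_lit 10) (nat_lit 5) (nat_lit 12) (nat_lit 4) (nat_lit 10) (nat_lit 4) (nat_lit 471) (nat_lit 403) (nat_lit 326)) (XT.nd (nat_lit 78) (nat_lit 0) (nat_lit 0) (XT.lf (nat_lit 0) (nat_lit 19481384573) (nat_lit 76) (nat_lit 87145778727) (nat_lit 76) (nat_lit 75527279043) (nat_lit 9) (nat_lit 4) (nat_lit 10) (nat_lit 5) (nat_lit 10) (nat_lit 4) (nat_lit 472) (nat_lit 403) (nat_lit 325)) (XT.lf (nat_lit 0) (nat_lit 78842827178) (nat_lit 76) (nat_lit 63622484197) (nat_lit 76) (nat_lit 52001852264) (nat_lit 9) (nat_lit 4) (nat_lit 10) (nat_lit 5) (nat_lit 10) (nat_lit 4) (nat_lit 473) (nat_lit 403) (nat_lit 324))))) (XT.nd (nat_lit 234) (nat_lit 0) (nat_lit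 0) (XT.nd (nat_lit 78) (nat_lit 152) (nat_lit 0) (XT.lf (nat_lit 0) (nat_lit 142932901804) (nat_lit 76) (nat_lit 38227699996) (nat_lit 76) (nat_lit 26605093758) (nat_lit 9) (nat_lit 4) (nat_lit 10) (nat_lit 5) (nat_lit 10) (nat_lit 4) (nat_lit 474) (nat_lit 403) (nat_lit 323)) (XT.nd (nat_lit 78) (nat_lit 76) (nat_lit 0) (XT.lf (nat_lit 0) (nat_lit 772801429) (nat_lit 152) (nat_lit 10017007325) (nat_lit 76) (nat_lit 211337470294) (nat_lit 8) (nat_lit 5) (nat_lit 10) (nat_lit 5) (nat_lit 9) (nat_lit 4) (nat_lit 475) (nat_lit 403) (nat_lit 322)) (XT.lf (nat_lit 0) (nat_lit 30624847218) (nat_lit 152) (nat_lit 186960041145) (nat_lit 0) (nat_lit 19859914860) (nat_lit 7) (nat_lit 5) (nat_lit 9) (nat_lit 4) (nat_lit 7) (nat_lit 4) (nat_lit 476) (nat_lit 403) (nat_lit 321)))) (XT.nd (nat_lit 78) (nat_lit 0) (nat_lit 0) (XT.lf (nat_lit 0) (nat_lit 63417604462) (nat_lit 152) (nat_lit 137874700233)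 (nat_lit 0) (nat_lit 52651220931) (nat_lit 7) (nat_lit 5) (nat_lit 9) (nat_lit 4) (nat_lit 7) (nat_lit 4) (nat_lit 477) (nat_lit 403) (nat_lit 320)) (XT.nd (nat_lit 78) (nat_lit 0) (nat_lit 0) (XT.lf (nat_lit 0) (nat_lit 98825723443) (nat_lit 152) (nat_lit 84879070962) (nat_lit 0) (nat_lit 88057996234) (nat_lit 7) (nat_lit 5) (nat_lit 9) (nat_lit 4) (nat_lit 7) (nat_lit 4) (nat_lit 478) (nat_lit 403) (nat_lit 319)) (XT.lf (nat_lit 0) (nat_lit 137059030051) (nat_lit 152) (nat_lit 27659105157) (nat_lit 0) (nat_lit 126290058695) (nat_lit 7) (nat_lit 5) (nat_lit 9) (nat_lit 4) (nat_lit 7) (nat_lit 4) (nat_lit 479) (nat_lit 403) (nat_lit 318)))))) (XT.nd (nat_lit 468) (nat_lit 0) (nat_lit 0) (XT.nd (nat_lit 234) (nat_lit 152) (nat_lit 0) (XT.nd (nat_lit 78) (nat_lit 0) (nat_lit 0) (XT.lf (nat_lit 0) (nat_lit 35921202490) (nat_lit 76) (nat_lit 143286795323) (nat_lit 76) (nat_lit 132516671978)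 (nat_lit 6) (nat_lit 4) (nat_lit 7) (nat_lit 5) (nat_lit 7) (nat_lit 4) (nat_lit 480) (nat_lit 403) (nat_lit 317)) (XT.nd (nat_lit 78) (nat_lit 0) (nat_lit 0) (XT.lf (nat_lit 0) (nat_lit 106147112089) (nat_lit 76) (nat_lit 119331290106) (nat_lit 76) (nat_lit 108560100105) (nat_lit 6) (nat_lit 4) (nat_lit 7) (nat_lit 5) (nat_lit 7) (nat_lit 4) (nat_lit 481) (nat_lit 403) (nat_lit 316)) (XT.lf (nat_lit 0) (nat_lit 181978297716) (nat_lit 76) (nat_lit 93465909959) (nat_lit 76) (nat_lit 82693732314) (nat_lit 6) (nat_lit 4) (nat_lit 7) (nat_lit 5) (nat_lit 7) (nat_lit 4) (nat_lit 482) (nat_lit 403) (nat_lit 315)))) (XT.nd (nat_lit 78) (nat_lit 152) (nat_lit 0) (XT.lf (nat_lit 0) (nat_lit 263864129361) (nat_lit 76) (nat_lit 65537378555) (nat_lit 76) (nat_lit 54764286426) (nat_lit 6) (nat_lit 4) (nat_lit 7) (nat_lit 5) (nat_lit 7) (nat_lit 4) (nat_lit 483) (nat_lit 403) (nat_lit 314)) (XT.nd (nat_lit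 78) (nat_lit 152) (nat_lit 0) (XT.lf (nat_lit 0) (nat_lit 352289856395) (nat_lit 76) (nat_lit 35380193487) (nat_lit 76) (nat_lit 24606254612) (nat_lit 6) (nat_lit 4) (nat_lit 7) (nat_lit 5) (nat_lit 7) (nat_lit 4) (nat_lit 484) (nat_lit 403) (nat_lit 313)) (XT.lf (nat_lit 0) (nat_lit 5212780256) (nat_lit 76) (nat_lit 2473519337) (nat_lit 152) (nat_lit 434924408975) (nat_lit 4) (nat_lit 5) (nat_lit 5) (nat_lit 5) (nat_lit 6) (nat_lit 4) (nat_lit 485) (nat_lit 403) (nat_lit 312))))) (XT.nd (nat_lit 234) (nat_lit 0) (nat_lit 0) (XT.nd (nat_lit 78) (nat_lit 0) (nat_lit 0) (XT.lf (nat_lit 0) (nat_lit 43705779532) (nat_lit 152) (nat_lit 397688611669) (nat_lit 0) (nat_lit 33728512081) (nat_lit 4) (nat_lit 5) (nat_lit 6) (nat_lit 4) (nat_lit 4) (nat_lit 4) (nat_lit 486) (nat_lit 403) (nat_lit 311)) (XT.nd (nat_lit 78) (nat_lit 0) (nat_lit 0) (XT.lf (nat_lit 0) (nat_lit 82666371538) (nat_lit 152)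 (nat_lit 354876456085) (nat_lit 0) (nat_lit 72688481704) (nat_lit 4) (nat_lit 5) (nat_lit 6) (nat_lit 4) (nat_lit 4) (nat_lit 4) (nat_lit 487) (nat_lit 403) (nat_lit 310)) (XT.lf (nat_lit 0) (nat_lit 124739464997) (nat_lit 152) (nat_lit 308648271699) (nat_lit 0) (nat_lit 114760998882) (nat_lit 4) (nat_lit 5) (nat_lit 6) (nat_lit 4) (nat_lit 4) (nat_lit 4) (nat_lit 488) (nat_lit 403) (nat_lit 309)))) (XT.nd (nat_lit 78) (nat_lit 0) (nat_lit 0) (XT.lf (nat_lit 0) (nat_lit 170174381942) (nat_lit 152) (nat_lit 258730113713) (nat_lit 0) (nat_lit 160195382234) (nat_lit 4) (nat_lit 5) (nat_lit 6) (nat_lit 4) (nat_lit 4) (nat_lit 4) (nat_lit 489) (nat_lit 403) (nat_lit 308)) (XT.nd (nat_lit 78) (nat_lit 0) (nat_lit 0) (XT.lf (nat_lit 0) (nat_lit 219240366326) (nat_lit 152) (nat_lit 204826170821) (nat_lit 0) (nat_lit 209260872550) (nat_lit 4) (nat_lit 5) (nat_lit 6) (nat_lit 4) (nat_lit 4) (nat_lit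 4) (nat_lit 490) (nat_lit 403) (nat_lit 307)) (XT.lf (nat_lit 0) (nat_lit 272228179539) (nat_lit 152) (nat_lit 146617012251) (nat_lit 0) (nat_lit 262248228293) (nat_lit 4) (nat_lit 5) (nat_lit 6) (nat_lit 4) (nat_lit 4) (nat_lit 4) (nat_lit 491) (nat_lit 403) (nat_lit 306))))))) (XT.nd (nat_lit 936) (nat_lit 152) (nat_lit 0) (XT.nd (nat_lit 468) (nat_lit 0) (nat_lit 0) (XT.nd (nat_lit 234) (nat_lit 0) (nat_lit 0) (XT.nd (nat_lit 78) (nat_lit 76) (nat_lit 0) (XT.lf (nat_lit 0) (nat_lit 329451823436) (nat_lit 152) (nat_lit 83757694841) (nat_lit 0) (nat_lit 319471448606) (nat_lit 4) (nat_lit 5) (nat_lit 6) (nat_lit 4) (nat_lit 4) (nat_lit 4) (nat_lit 492) (nat_lit 403) (nat_lit 305)) (XT.nd (nat_lit 78) (nat_lit 76) (nat_lit 0) (XT.lf (nat_lit 0) (nat_lit 391250401092) (nat_lit 152) (nat_lit 15875718931) (nat_lit 0) (nat_lit 381269634055) (nat_lit 4) (nat_lit 5) (nat_lit 6) (nat_lit 4) (nat_lit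 4) (nat_lit 4) (nat_lit 493) (nat_lit 403) (nat_lit 304)) (XT.lf (nat_lit 0) (nat_lit 60455403149) (nat_lit 76) (nat_lit 398988677051) (nat_lit 76) (nat_lit 389007546859) (nat_lit 3) (nat_lit 4) (nat_lit 4) (nat_lit 5) (nat_lit 4) (nat_lit 4) (nat_lit 494) (nat_lit 403) (nat_lit 303)))) (XT.nd (nat_lit 78) (nat_lit 0) (nat_lit 0) (XT.lf (nat_lit 0) (nat_lit 143790387870) (nat_lit 76) (nat_lit 389734268146) (nat_lit 76) (nat_lit 379752801700) (nat_lit 3) (nat_lit 4) (nat_lit 4) (nat_lit 5) (nat_lit 4) (nat_lit 4) (nat_lit 495) (nat_lit 403) (nat_lit 302)) (XT.nd (nat_lit 78) (nat_lit 0) (nat_lit 0) (XT.lf (nat_lit 0) (nat_lit 233787084953) (nat_lit 76) (nat_lit 379742122656) (nat_lit 76) (nat_lit 369760344863) (nat_lit 3) (nat_lit 4) (nat_lit 4) (nat_lit 5) (nat_lit 4) (nat_lit 4) (nat_lit 496) (nat_lit 403) (nat_lit 301)) (XT.lf (nat_lit 0) (nat_lit 330978808159) (nat_lit 76) (nat_lit 368953027868)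 (nat_lit 76) (nat_lit 358970961791) (nat_lit 3) (nat_lit 4) (nat_lit 4) (nat_lit 5) (nat_lit 4) (nat_lit 4) (nat_lit 497) (nat_lit 403) (nat_lit 300))))) (XT.nd (nat_lit 234) (nat_lit 0) (nat_lit 0) (XT.nd (nat_lit 78) (nat_lit 0) (nat_lit 0) (XT.lf (nat_lit 0) (nat_lit 435941508439) (nat_lit 76) (nat_lit 357303048404) (nat_lit 76) (nat_lit 347320715398) (nat_lit 3) (nat_lit 4) (nat_lit 4) (nat_lit 5) (nat_lit 4) (nat_lit 4) (nat_lit 498) (nat_lit 403) (nat_lit 299)) (XT.nd (nat_lit 78) (nat_lit 0) (nat_lit 0) (XT.lf (nat_lit 0) (nat_lit 549297186982) (nat_lit 76) (nat_lit 344723147350) (nat_lit 76) (nat_lit 334740567187) (nat_lit 3) (nat_lit 4) (nat_lit 4) (nat_lit 5) (nat_lit 4) (nat_lit 4) (nat_lit 499) (nat_lit 403) (nat_lit 298)) (XT.lf (nat_lit 0) (nat_lit 671717581140) (nat_lit 76) (nat_lit 331138777144) (nat_lit 76) (nat_lit 321155968132) (nat_lit 3) (nat_lit 4) (nat_lit 4) (nat_lit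 5) (nat_lit 4) (nat_lit 4) (nat_lit 500) (nat_lit 403) (nat_lit 297)))) (XT.nd (nat_lit 78) (nat_lit 0) (nat_lit 0) (XT.lf (nat_lit 0) (nat_lit 803928145102) (nat_lit 76) (nat_lit 316469437814) (nat_lit 76) (nat_lit 306486416905) (nat_lit 3) (nat_lit 4) (nat_lit 4) (nat_lit 5) (nat_lit 4) (nat_lit 4) (nat_lit 501) (nat_lit 403) (nat_lit 296)) (XT.nd (nat_lit 78) (nat_lit 0) (nat_lit 0) (XT.lf (nat_lit 0) (nat_lit 946712348876) (nat_lit 76) (nat_lit 300628199942) (nat_lit 76) (nat_lit 290644982831) (nat_lit 3) (nat_lit 4) (nat_lit 4) (nat_lit 5) (nat_lit 4) (nat_lit 4) (nat_lit 502) (nat_lit 403) (nat_lit 295)) (XT.lf (nat_lit 0) (nat_lit 1100916321078) (nat_lit 76) (nat_lit 283521189525) (nat_lit 76) (nat_lit 273537790747) (nat_lit 3) (nat_lit 4) (nat_lit 4) (nat_lit 5) (nat_lit 4) (nat_lit 4) (nat_lit 503) (nat_lit 403) (nat_lit 294)))))) (XT.nd (nat_lit 468) (nat_lit 152) (nat_lit 0)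 (XT.nd (nat_lit 234) (nat_lit 0) (nat_lit 0) (XT.nd (nat_lit 78) (nat_lit 0) (nat_lit 0) (XT.lf (nat_lit 0) (nat_lit 1267453863024) (nat_lit 76) (nat_lit 265047031688) (nat_lit 76) (nat_lit 255063464699) (nat_lit 3) (nat_lit 4) (nat_lit 4) (nat_lit 5) (nat_lit 4) (nat_lit 4) (nat_lit 504) (nat_lit 403) (nat_lit 293)) (XT.nd (nat_lit 78) (nat_lit 0) (nat_lit 0) (XT.lf (nat_lit 0) (nat_lit 1447311863851) (nat_lit 76) (nat_lit 245096249939) (nat_lit 76) (nat_lit 235112527199) (nat_lit 3) (nat_lit 4) (nat_lit 4) (nat_lit 5) (nat_lit 4) (nat_lit 4) (nat_lit 505) (nat_lit 403) (nat_lit 292)) (XT.lf (nat_lit 0) (nat_lit 1641556148750) (nat_lit 76) (nat_lit 223550617423) (nat_lit 76) (nat_lit 213566750470) (nat_lit 3) (nat_lit 4) (nat_lit 4) (nat_lit 5) (nat_lit 4) (nat_lit 4) (nat_lit 506) (nat_lit 403) (nat_lit 291)))) (XT.nd (nat_lit 78) (nat_lit 0) (nat_lit 0) (XT.lf (nat_lit 0) (nat_lit 1851337794964)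 (nat_lit 76) (nat_lit 200282456319) (nat_lit 76) (nat_lit 190298455834) (nat_lit 3) (nat_lit 4) (nat_lit 4) (nat_lit 5) (nat_lit 4) (nat_lit 4) (nat_lit 507) (nat_lit 403) (nat_lit 290)) (XT.nd (nat_lit 78) (nat_lit 0) (nat_lit 0) (XT.lf (nat_lit 0) (nat_lit 2077899952989) (nat_lit 76) (nat_lit 175153881226) (nat_lit 76) (nat_lit 165169757102) (nat_lit 3) (nat_lit 4) (nat_lit 4) (nat_lit 5) (nat_lit 4) (nat_lit 4) (nat_lit 508) (nat_lit 403) (nat_lit 289)) (XT.lf (nat_lit 0) (nat_lit 2322585213393) (nat_lit 76) (nat_lit 148015982071) (nat_lit 76) (nat_lit 138031743465) (nat_lit 3) (nat_lit 4) (nat_lit 4) (nat_lit 5) (nat_lit 4) (nat_lit 4) (nat_lit 509) (nat_lit 403) (nat_lit 288))))) (XT.nd (nat_lit 234) (nat_lit 152) (nat_lit 0) (XT.nd (nat_lit 78) (nat_lit 0) (nat_lit 0) (XT.lf (nat_lit 0) (nat_lit 2586843562902) (nat_lit 76) (nat_lit 118707941674) (nat_lit 76) (nat_lit 108723597066)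 (nat_lit 3) (nat_lit 4) (nat_lit 4) (nat_lit 5) (nat_lit 4) (nat_lit 4) (nat_lit 510) (nat_lit 403) (nat_lit 287)) (XT.nd (nat_lit 78) (nat_lit 0) (nat_lit 0) (XT.lf (nat_lit 0) (nat_lit 2872240976921) (nat_lit 76) (nat_lit 87056082756) (nat_lit 76) (nat_lit 77071639999) (nat_lit 3) (nat_lit 4) (nat_lit 4) (nat_lit 5) (nat_lit 4) (nat_lit 4) (nat_lit 511) (nat_lit 403) (nat_lit 286)) (XT.lf (nat_lit 0) (nat_lit 3180468699386) (nat_lit 76) (nat_lit 52872838749) (nat_lit 76) (nat_lit 42888305113) (nat_lit 3) (nat_lit 4) (nat_lit 4) (nat_lit 5) (nat_lit 4) (nat_lit 4) (nat_lit 512) (nat_lit 403) (nat_lit 285)))) (XT.nd (nat_lit 78) (nat_lit 152) (nat_lit 0) (XT.lf (nat_lit 0) (nat_lit 3513353264948) (nat_lit 76) (nat_lit 15955642279) (nat_lit 76) (nat_lit 5971024495) (nat_lit 3) (nat_lit 4) (nat_lit 4) (nat_lit 5) (nat_lit 4) (nat_lit 4) (nat_lit 513) (nat_lit 403) (nat_lit 284)) (XT.nd (nat_lit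 78) (nat_lit 0) (nat_lit 0) (XT.lf (nat_lit 0) (nat_lit 34279988757) (nat_lit 152) (nat_lit 3755507823613) (nat_lit 0) (nat_lit 25034900148) (nat_lit 1) (nat_lit 5) (nat_lit 3) (nat_lit 4) (nat_lit 1) (nat_lit 4) (nat_lit 514) (nat_lit 403) (nat_lit 283)) (XT.lf (nat_lit 0) (nat_lit 78457376990) (nat_lit 152) (nat_lit 3968964599140) (nat_lit 0) (nat_lit 69212221582) (nat_lit 1) (nat_lit 5) (nat_lit 3) (nat_lit 4) (nat_lit 1) (nat_lit 4) (nat_lit 515) (nat_lit 403) (nat_lit 282))))))))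
noncomputable def xc103 : XT := (XT.nd (nat_lit 54366) (nat_lit 0) (nat_lit 2812) (XT.nd (nat_lit 858) (nat_lit 0) (nat_lit 0) (XT.nd (nat_lit 390) (nat_lit 0) (nat_lit 0) (XT.nd (nat_lit 156) (nat_lit 0) (nat_lit 0) (XT.nd (nat_lit 78) (nat_lit 0) (nat_lit 0) (XT.lf (nat_lit 0) (nat_lit 126168369570) (nat_lit 152) (nat_lit 4199499126783) (nat_lit 0) (nat_lit 116923152311) (nat_lit 1) (nat_lit 5) (nat_lit 3) (nat_lit 4) (nat_lit 1) (nat_lit 4) (nat_lit 516) (nat_lit 403) (nat_lit 281)) (XT.lf (nat_lit 0) (nat_lit 177695698304) (nat_lit 152) (nat_lit 4448477537078) (nat_lit 0) (nat_lit 168450423776) (nat_lit 1) (nat_lit 5) (nat_lit 3) (nat_lit 4) (nat_lit 1) (nat_lit 4) (nat_lit 517) (nat_lit 403) (nat_lit 280))) (XT.nd (nat_lit 78) (nat_lit 0) (nat_lit 0) (XT.lf (nat_lit 0) (nat_lit 233344710325) (nat_lit 152) (nat_lit 4717375257640) (nat_lit 0) (nat_lit 224099382770) (nat_lit 1) (nat_lit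 5) (nat_lit 3) (nat_lit 4) (nat_lit 1) (nat_lit 4) (nat_lit 518) (nat_lit 403) (nat_lit 279)) (XT.nd (nat_lit 78) (nat_lit 0) (nat_lit 0) (XT.lf (nat_lit 0) (nat_lit 293445177557) (nat_lit 152) (nat_lit 5007785756443) (nat_lit 0) (nat_lit 284199800903) (nat_lit 1) (nat_lit 5) (nat_lit 3) (nat_lit 4) (nat_lit 1) (nat_lit 4) (nat_lit 519) (nat_lit 403) (nat_lit 278)) (XT.lf (nat_lit 0) (nat_lit 358353250917) (nat_lit 152) (nat_lit 5321429984592) (nat_lit 0) (nat_lit 349107828800) (nat_lit 1) (nat_lit 5) (nat_lit 3) (nat_lit 4) (nat_lit 1) (nat_lit 4) (nat_lit 520) (nat_lit 403) (nat_lit 277))))) (XT.nd (nat_lit 234) (nat_lit 0) (nat_lit 0) (XT.nd (nat_lit 78) (nat_lit 0) (nat_lit 0) (XT.lf (nat_lit 0) (nat_lit 428453570838) (nat_lit 152) (nat_lit 5660166574549) (nat_lit 0) (nat_lit 419208106627) (nat_lit 1) (nat_lit 5) (nat_lit 3) (nat_lit 4) (nat_lit 1) (nat_lit 4) (nat_lit 521) (nat_lit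 403) (nat_lit 276)) (XT.nd (nat_lit 78) (nat_lit 0) (nat_lit 0) (XT.lf (nat_lit 0) (nat_lit 504161546625) (nat_lit 152) (nat_lit 6026002854255) (nat_lit 0) (nat_lit 494916043438) (nat_lit 1) (nat_lit 5) (nat_lit 3) (nat_lit 4) (nat_lit 1) (nat_lit 4) (nat_lit 522) (nat_lit 403) (nat_lit 275)) (XT.lf (nat_lit 0) (nat_lit 585925818134) (nat_lit 152) (nat_lit 6421106742404) (nat_lit 0) (nat_lit 576680278857) (nat_lit 1) (nat_lit 5) (nat_lit 3) (nat_lit 4) (nat_lit 1) (nat_lit 4) (nat_lit 523) (nat_lit 403) (nat_lit 274)))) (XT.nd (nat_lit 78) (nat_lit 0) (nat_lit 0) (XT.lf (nat_lit 0) (nat_lit 674230914381) (nat_lit 152) (nat_lit 6847819595372) (nat_lit 0) (nat_lit 664985341688) (nat_lit 1) (nat_lit 5) (nat_lit 3) (nat_lit 4) (nat_lit 1) (nat_lit 4) (nat_lit 524) (nat_lit 403) (nat_lit 273)) (XT.nd (nat_lit 78) (nat_lit 0) (nat_lit 0) (XT.lf (nat_lit 0) (nat_lit 769600124826) (nat_lit 152)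 (nat_lit 7308670081915) (nat_lit 0) (nat_lit 760354521192) (nat_lit 1) (nat_lit 5) (nat_lit 3) (nat_lit 4) (nat_lit 1) (nat_lit 4) (nat_lit 525) (nat_lit 403) (nat_lit 272)) (XT.lf (nat_lit 0) (nat_lit 872598600344) (nat_lit 152) (nat_lit 7806389167881) (nat_lit 0) (nat_lit 863352968062) (nat_lit 1) (nat_lit 5) (nat_lit 3) (nat_lit 4) (nat_lit 1) (nat_lit 4) (nat_lit 526) (nat_lit 403) (nat_lit 271)))))) (XT.nd (nat_lit 53040) (nat_lit 0) (nat_lit 6156) (XT.nd (nat_lit 234) (nat_lit 0) (nat_lit 0) (XT.nd (nat_lit 78) (nat_lit 0) (nat_lit 0) (XT.lf (nat_lit 0) (nat_lit 983836702274) (nat_lit 152) (nat_lit 8343926299704) (nat_lit 0) (nat_lit 974591043465) (nat_lit 1) (nat_lit 5) (nat_lit 3) (nat_lit 4) (nat_lit 1) (nat_lit 4) (nat_lit 527) (nat_lit 403) (nat_lit 270)) (XT.nd (nat_lit 78) (nat_lit 0) (nat_lit 0) (XT.lf (nat_lit 0) (nat_lit 1103973619366) (nat_lit 152) (nat_lit 8924466882610)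 (nat_lit 0) (nat_lit 1094727935995) (nat_lit 1) (nat_lit 5) (nat_lit 3) (nat_lit 4) (nat_lit 1) (nat_lit 4) (nat_lit 528) (nat_lit 403) (nat_lit 269)) (XT.lf (nat_lit 0) (nat_lit 1233721274093) (nat_lit 152) (nat_lit 9551451157091) (nat_lit 0) (nat_lit 1224475567979) (nat_lit 1) (nat_lit 5) (nat_lit 3) (nat_lit 4) (nat_lit 1) (nat_lit 4) (nat_lit 529) (nat_lit 403) (nat_lit 268)))) (XT.nd (nat_lit 52650) (nat_lit 0) (nat_lit 6764) (XT.lf (nat_lit 0) (nat_lit 1373848541445) (nat_lit 152) (nat_lit 10228594585514) (nat_lit 0) (nat_lit 1364602814273) (nat_lit 1) (nat_lit 5) (nat_lit 3) (nat_lit 4) (nat_lit 1) (nat_lit 4) (nat_lit 530) (nat_lit 403) (nat_lit 267)) (XT.nd (nat_lit 78) (nat_lit 0) (nat_lit 0) (XT.lf (nat_lit 0) (nat_lit 293138905) (nat_lit 380) (nat_lit 1578020652) (nat_lit 380) (nat_lit 1578020652) (nat_lit 90) (nat_lit 3) (nat_lit 95) (nat_lit 3) (nat_lit 95) (nat_lit 5) (nat_lit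 404) (nat_lit 404) (nat_lit 392)) (XT.lf (nat_lit 76) (nat_lit 272250310) (nat_lit 0) (nat_lit 2209959538) (nat_lit 380) (nat_lit 4541340939) (nat_lit 91) (nat_lit 5) (nat_lit 90) (nat_lit 3) (nat_lit 95) (nat_lit 5) (nat_lit 405) (nat_lit 404) (nat_lit 391))))) (XT.nd (nat_lit 234) (nat_lit 304) (nat_lit 0) (XT.nd (nat_lit 78) (nat_lit 304) (nat_lit 0) (XT.lf (nat_lit 76) (nat_lit 4048125048) (nat_lit 0) (nat_lit 378746759) (nat_lit 380) (nat_lit 2740214746) (nat_lit 91) (nat_lit 5) (nat_lit 90) (nat_lit 3) (nat_lit 95) (nat_lit 5) (nat_lit 406) (nat_lit 404) (nat_lit 390)) (XT.nd (nat_lit 78) (nat_lit 380) (nat_lit 0) (XT.lf (nat_lit 76) (nat_lit 685545459) (nat_lit 0) (nat_lit 5723134691) (nat_lit 380) (nat_lit 922986753) (nat_lit 92) (nat_lit 5) (nat_lit 91) (nat_lit 5) (nat_lit 96) (nat_lit 5) (nat_lit 407) (nat_lit 404) (nat_lit 389)) (XT.lf (nat_lit 0) (nat_lit 917422638) (nat_lit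 380) (nat_lit 2688117486) (nat_lit 456) (nat_lit 3907563696) (nat_lit 86) (nat_lit 5) (nat_lit 91) (nat_lit 5) (nat_lit 92) (nat_lit 5) (nat_lit 408) (nat_lit 404) (nat_lit 388)))) (XT.nd (nat_lit 78) (nat_lit 304) (nat_lit 0) (XT.lf (nat_lit 76) (nat_lit 1527617322) (nat_lit 0) (nat_lit 1209209037) (nat_lit 456) (nat_lit 4979850826) (nat_lit 87) (nat_lit 5) (nat_lit 86) (nat_lit 5) (nat_lit 92) (nat_lit 5) (nat_lit 409) (nat_lit 404) (nat_lit 387)) (XT.nd (nat_lit 78) (nat_lit 380) (nat_lit 0) (XT.lf (nat_lit 0) (nat_lit 4665023980) (nat_lit 380) (nat_lit 1853443925) (nat_lit 76) (nat_lit 1421073572) (nat_lit 87) (nat_lit 5) (nat_lit 92) (nat_lit 5) (nat_lit 88) (nat_lit 5) (nat_lit 410) (nat_lit 404) (nat_lit 386)) (XT.lf (nat_lit 0) (nat_lit 2826795093) (nat_lit 380) (nat_lit 3885513544) (nat_lit 456) (nat_lit 1470799393) (nat_lit 82) (nat_lit 5) (nat_lit 87) (nat_lit 5) (nat_lit 88)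 (nat_lit 5) (nat_lit 411) (nat_lit 404) (nat_lit 385))))))) (XT.nd (nat_lit 936) (nat_lit 1216) (nat_lit 0) (XT.nd (nat_lit 468) (nat_lit 836) (nat_lit 0) (XT.nd (nat_lit 234) (nat_lit 304) (nat_lit 0) (XT.nd (nat_lit 78) (nat_lit 912) (nat_lit 0) (XT.lf (nat_lit 0) (nat_lit 374755125) (nat_lit 456) (nat_lit 584350937) (nat_lit 76) (nat_lit 7492473891) (nat_lit 81) (nat_lit 5) (nat_lit 87) (nat_lit 5) (nat_lit 82) (nat_lit 5) (nat_lit 412) (nat_lit 404) (nat_lit 384)) (XT.nd (nat_lit 78) (nat_lit 456) (nat_lit 0) (XT.lf (nat_lit 0) (nat_lit 2336733270) (nat_lit 532) (nat_lit 4139996215) (nat_lit 76) (nat_lit 2257932014) (nat_lit 75) (nat_lit 5) (nat_lit 82) (nat_lit 5) (nat_lit 76) (nat_lit 5) (nat_lit 413) (nat_lit 404) (nat_lit 383)) (XT.lf (nat_lit 0) (nat_lit 1097287404) (nat_lit 456) (nat_lit 3311827642) (nat_lit 532) (nat_lit 4635042711) (nat_lit 69) (nat_lit 5) (nat_lit 75) (nat_lit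 5) (nat_lit 76) (nat_lit 5) (nat_lit 414) (nat_lit 404) (nat_lit 382)))) (XT.nd (nat_lit 78) (nat_lit 304) (nat_lit 0) (XT.lf (nat_lit 0) (nat_lit 6657437725) (nat_lit 532) (nat_lit 2506004182) (nat_lit 76) (nat_lit 214200354) (nat_lit 69) (nat_lit 5) (nat_lit 76) (nat_lit 5) (nat_lit 70) (nat_lit 5) (nat_lit 415) (nat_lit 404) (nat_lit 381)) (XT.nd (nat_lit 78) (nat_lit 76) (nat_lit 0) (XT.lf (nat_lit 0) (nat_lit 3339937754) (nat_lit 228) (nat_lit 5811535258) (nat_lit 304) (nat_lit 581102339) (nat_lit 66) (nat_lit 5) (nat_lit 69) (nat_lit 5) (nat_lit 70) (nat_lit 5) (nat_lit 416) (nat_lit 404) (nat_lit 380)) (XT.lf (nat_lit 0) (nat_lit 1614746900) (nat_lit 304) (nat_lit 471348228) (nat_lit 76) (nat_lit 8028743973) (nat_lit 65) (nat_lit 5) (nat_lit 69) (nat_lit 5) (nat_lit 66) (nat_lit 5) (nat_lit 417) (nat_lit 404) (nat_lit 379))))) (XT.nd (nat_lit 234) (nat_lit 456) (nat_lit 0) (XT.nd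 (nat_lit 78) (nat_lit 152) (nat_lit 0) (XT.lf (nat_lit 0) (nat_lit 4061338587) (nat_lit 304) (nat_lit 4463557165) (nat_lit 76) (nat_lit 1993093009) (nat_lit 62) (nat_lit 5) (nat_lit 66) (nat_lit 5) (nat_lit 63) (nat_lit 5) (nat_lit 418) (nat_lit 404) (nat_lit 378)) (XT.nd (nat_lit 78) (nat_lit 0) (nat_lit 0) (XT.lf (nat_lit 0) (nat_lit 2119076007) (nat_lit 152) (nat_lit 4615928064) (nat_lit 228) (nat_lit 4215906218) (nat_lit 60) (nat_lit 5) (nat_lit 62) (nat_lit 5) (nat_lit 63) (nat_lit 5) (nat_lit 419) (nat_lit 404) (nat_lit 377)) (XT.lf (nat_lit 0) (nat_lit 9375798938) (nat_lit 152) (nat_lit 285669604) (nat_lit 228) (nat_lit 1753910105) (nat_lit 60) (nat_lit 5) (nat_lit 62) (nat_lit 5) (nat_lit 63) (nat_lit 5) (nat_lit 420) (nat_lit 404) (nat_lit 376)))) (XT.nd (nat_lit 78) (nat_lit 152) (nat_lit 0) (XT.lf (nat_lit 0) (nat_lit 1020699852) (nat_lit 304) (nat_lit 6576184597) (nat_lit 76)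 (nat_lit 4305526379) (nat_lit 56) (nat_lit 5) (nat_lit 60) (nat_lit 5) (nat_lit 57) (nat_lit 5) (nat_lit 421) (nat_lit 404) (nat_lit 375)) (XT.nd (nat_lit 78) (nat_lit 0) (nat_lit 0) (XT.lf (nat_lit 0) (nat_lit 856205370) (nat_lit 152) (nat_lit 3075398439) (nat_lit 228) (nat_lit 8492451033) (nat_lit 54) (nat_lit 5) (nat_lit 56) (nat_lit 5) (nat_lit 57) (nat_lit 5) (nat_lit 422) (nat_lit 404) (nat_lit 374)) (XT.lf (nat_lit 0) (nat_lit 7229635807) (nat_lit 228) (nat_lit 3872025999) (nat_lit 76) (nat_lit 1873446904) (nat_lit 54) (nat_lit 5) (nat_lit 57) (nat_lit 5) (nat_lit 55) (nat_lit 5) (nat_lit 423) (nat_lit 404) (nat_lit 373)))))) (XT.nd (nat_lit 468) (nat_lit 532) (nat_lit 0) (XT.nd (nat_lit 234) (nat_lit 304) (nat_lit 0) (XT.nd (nat_lit 78) (nat_lit 228) (nat_lit 0) (XT.lf (nat_lit 0) (nat_lit 4483873329) (nat_lit 152) (nat_lit 6427116950) (nat_lit 228) (nat_lit 2649715619) (nat_lit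 52) (nat_lit 5) (nat_lit 54) (nat_lit 5) (nat_lit 55) (nat_lit 5) (nat_lit 424) (nat_lit 404) (nat_lit 372)) (XT.nd (nat_lit 78) (nat_lit 152) (nat_lit 0) (XT.lf (nat_lit 0) (nat_lit 700373455) (nat_lit 228) (nat_lit 576699675) (nat_lit 76) (nat_lit 12911448124) (nat_lit 51) (nat_lit 5) (nat_lit 54) (nat_lit 5) (nat_lit 52) (nat_lit 5) (nat_lit 425) (nat_lit 404) (nat_lit 371)) (XT.lf (nat_lit 0) (nat_lit 4436389876) (nat_lit 228) (nat_lit 6073033668) (nat_lit 76) (nat_lit 4330760311) (nat_lit 49) (nat_lit 5) (nat_lit 52) (nat_lit 5) (nat_lit 50) (nat_lit 5) (nat_lit 426) (nat_lit 404) (nat_lit 370)))) (XT.nd (nat_lit 78) (nat_lit 152) (nat_lit 0) (XT.lf (nat_lit 0) (nat_lit 3389325685) (nat_lit 152) (nat_lit 5152225310) (nat_lit 228) (nat_lit 6996820189) (nat_lit 47) (nat_lit 5) (nat_lit 49) (nat_lit 5) (nat_lit 50) (nat_lit 5) (nat_lit 427) (nat_lit 404) (nat_lit 369)) (XT.nd (nat_lit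 78) (nat_lit 152) (nat_lit 0) (XT.lf (nat_lit 0) (nat_lit 13101551346) (nat_lit 228) (nat_lit 2441295304) (nat_lit 76) (nat_lit 739464585) (nat_lit 47) (nat_lit 5) (nat_lit 50) (nat_lit 5) (nat_lit 48) (nat_lit 4) (nat_lit 428) (nat_lit 404) (nat_lit 368)) (XT.lf (nat_lit 0) (nat_lit 1177722149) (nat_lit 152) (nat_lit 8861915969) (nat_lit 76) (nat_lit 7021593734) (nat_lit 45) (nat_lit 5) (nat_lit 47) (nat_lit 5) (nat_lit 46) (nat_lit 5) (nat_lit 429) (nat_lit 404) (nat_lit 367))))) (XT.nd (nat_lit 234) (nat_lit 304) (nat_lit 0) (XT.nd (nat_lit 78) (nat_lit 76) (nat_lit 0) (XT.lf (nat_lit 0) (nat_lit 1851027686) (nat_lit 152) (nat_lit 3920802253) (nat_lit 228) (nat_lit 12119332942) (nat_lit 43) (nat_lit 5) (nat_lit 45) (nat_lit 5) (nat_lit 46) (nat_lit 5) (nat_lit 430) (nat_lit 404) (nat_lit 366)) (XT.nd (nat_lit 78) (nat_lit 76) (nat_lit 0) (XT.lf (nat_lit 0) (nat_lit 10993535379) (nat_lit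 228) (nat_lit 5005205009) (nat_lit 76) (nat_lit 2767951187) (nat_lit 43) (nat_lit 5) (nat_lit 46) (nat_lit 5) (nat_lit 44) (nat_lit 4) (nat_lit 431) (nat_lit 404) (nat_lit 365)) (XT.lf (nat_lit 0) (nat_lit 7080463309) (nat_lit 76) (nat_lit 9775415690) (nat_lit 152) (nat_lit 2838559487) (nat_lit 42) (nat_lit 5) (nat_lit 43) (nat_lit 5) (nat_lit 44) (nat_lit 4) (nat_lit 432) (nat_lit 404) (nat_lit 364)))) (XT.nd (nat_lit 78) (nat_lit 228) (nat_lit 0) (XT.lf (nat_lit 0) (nat_lit 2457813115) (nat_lit 152) (nat_lit 416130244) (nat_lit 76) (nat_lit 17810347723) (nat_lit 41) (nat_lit 5) (nat_lit 43) (nat_lit 5) (nat_lit 42) (nat_lit 5) (nat_lit 433) (nat_lit 404) (nat_lit 363)) (XT.nd (nat_lit 78) (nat_lit 76) (nat_lit 0) (XT.lf (nat_lit 0) (nat_lit 8418018623) (nat_lit 228) (nat_lit 8576048149) (nat_lit 76) (nat_lit 4721894883) (nat_lit 39) (nat_lit 5) (nat_lit 42) (nat_lit 5) (nat_lit 40) (nat_lit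 4) (nat_lit 434) (nat_lit 404) (nat_lit 362)) (XT.lf (nat_lit 0) (nat_lit 5074467863) (nat_lit 76) (nat_lit 9944466120) (nat_lit 152) (nat_lit 7798126343) (nat_lit 38) (nat_lit 5) (nat_lit 39) (nat_lit 5) (nat_lit 40) (nat_lit 4) (nat_lit 435) (nat_lit 404) (nat_lit 361))))))))
noncomputable def xc104 : XT := (XT.nd (nat_lit 1794) (nat_lit 912) (nat_lit 0) (XT.nd (nat_lit 858) (nat_lit 760) (nat_lit 0) (XT.nd (nat_lit 390) (nat_lit 304) (nat_lit 0) (XT.nd (nat_lit 156) (nat_lit 228) (nat_lit 0) (XT.nd (nat_lit 78) (nat_lit 228) (nat_lit 0) (XT.lf (nat_lit 0) (nat_lit 20227474864) (nat_lit 76) (nat_lit 2111898710) (nat_lit 152) (nat_lit 1651562722) (nat_lit 38) (nat_lit 5) (nat_lit 39) (nat_lit 5) (nat_lit 40) (nat_lit 4) (nat_lit 436) (nat_lit 404) (nat_lit 360)) (XT.lf (nat_lit 0) (nat_lit 5140721958) (nat_lit 228) (nat_lit 13665154375) (nat_lit 76) (nat_lit 6410980068) (nat_lit 35) (nat_lit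 5) (nat_lit 38) (nat_lit 5) (nat_lit 36) (nat_lit 4) (nat_lit 437) (nat_lit 404) (nat_lit 359))) (XT.nd (nat_lit 78) (nat_lit 152) (nat_lit 0) (XT.lf (nat_lit 0) (nat_lit 1683017911) (nat_lit 76) (nat_lit 10864687118) (nat_lit 152) (nat_lit 13976874187) (nat_lit 34) (nat_lit 5) (nat_lit 35) (nat_lit 5) (nat_lit 36) (nat_lit 4) (nat_lit 438) (nat_lit 404) (nat_lit 358)) (XT.nd (nat_lit 78) (nat_lit 152) (nat_lit 0) (XT.lf (nat_lit 0) (nat_lit 18963832614) (nat_lit 76) (nat_lit 1917932415) (nat_lit 152) (nat_lit 7028397399) (nat_lit 34) (nat_lit 5) (nat_lit 35) (nat_lit 5) (nat_lit 36) (nat_lit 4) (nat_lit 439) (nat_lit 404) (nat_lit 357)) (XT.lf (nat_lit 0) (nat_lit 812210787) (nat_lit 152) (nat_lit 21014552037) (nat_lit 76) (nat_lit 7550112179) (nat_lit 32) (nat_lit 5) (nat_lit 34) (nat_lit 5) (nat_lit 33) (nat_lit 4) (nat_lit 440) (nat_lit 404) (nat_lit 356))))) (XT.nd (nat_lit 234) (nat_lit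 152) (nat_lit 0) (XT.nd (nat_lit 78) (nat_lit 152) (nat_lit 0) (XT.lf (nat_lit 0) (nat_lit 9164357478) (nat_lit 152) (nat_lit 3684977753) (nat_lit 76) (nat_lit 18075867624) (nat_lit 32) (nat_lit 5) (nat_lit 34) (nat_lit 5) (nat_lit 33) (nat_lit 4) (nat_lit 441) (nat_lit 404) (nat_lit 355)) (XT.nd (nat_lit 78) (nat_lit 76) (nat_lit 0) (XT.lf (nat_lit 0) (nat_lit 15754872161) (nat_lit 76) (nat_lit 2774660147) (nat_lit 152) (nat_lit 14040279077) (nat_lit 31) (nat_lit 5) (nat_lit 32) (nat_lit 5) (nat_lit 33) (nat_lit 4) (nat_lit 442) (nat_lit 404) (nat_lit 354)) (XT.lf (nat_lit 0) (nat_lit 2483706935) (nat_lit 76) (nat_lit 26484524877) (nat_lit 76) (nat_lit 5351814676) (nat_lit 30) (nat_lit 4) (nat_lit 31) (nat_lit 5) (nat_lit 31) (nat_lit 4) (nat_lit 443) (nat_lit 404) (nat_lit 353)))) (XT.nd (nat_lit 78) (nat_lit 76) (nat_lit 0) (XT.lf (nat_lit 0) (nat_lit 4340195684) (nat_lit 152) (nat_lit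 12136629218) (nat_lit 76) (nat_lit 19684908629) (nat_lit 29) (nat_lit 5) (nat_lit 31) (nat_lit 5) (nat_lit 30) (nat_lit 4) (nat_lit 444) (nat_lit 404) (nat_lit 352)) (XT.nd (nat_lit 78) (nat_lit 0) (nat_lit 0) (XT.lf (nat_lit 0) (nat_lit 9410953080) (nat_lit 76) (nat_lit 5302691199) (nat_lit 152) (nat_lit 23410375631) (nat_lit 28) (nat_lit 5) (nat_lit 29) (nat_lit 5) (nat_lit 30) (nat_lit 4) (nat_lit 445) (nat_lit 404) (nat_lit 351)) (XT.lf (nat_lit 0) (nat_lit 26389237987) (nat_lit 152) (nat_lit 7075603632) (nat_lit 0) (nat_lit 6740668059) (nat_lit 28) (nat_lit 5) (nat_lit 30) (nat_lit 4) (nat_lit 28) (nat_lit 4) (nat_lit 446) (nat_lit 404) (nat_lit 350)))))) (XT.nd (nat_lit 468) (nat_lit 304) (nat_lit 0) (XT.nd (nat_lit 234) (nat_lit 228) (nat_lit 0) (XT.nd (nat_lit 78) (nat_lit 152) (nat_lit 0) (XT.lf (nat_lit 0) (nat_lit 16947248383) (nat_lit 76) (nat_lit 22568338985) (nat_lit 76) (nat_lit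 2896596475) (nat_lit 27) (nat_lit 4) (nat_lit 28) (nat_lit 5) (nat_lit 28) (nat_lit 4) (nat_lit 447) (nat_lit 404) (nat_lit 349)) (XT.nd (nat_lit 78) (nat_lit 76) (nat_lit 0) (XT.lf (nat_lit 0) (nat_lit 8621575876) (nat_lit 152) (nat_lit 1760320782) (nat_lit 76) (nat_lit 34382782129) (nat_lit 26) (nat_lit 5) (nat_lit 28) (nat_lit 5) (nat_lit 27) (nat_lit 4) (nat_lit 448) (nat_lit 404) (nat_lit 348)) (XT.lf (nat_lit 0) (nat_lit 21562445301) (nat_lit 152) (nat_lit 22374684820) (nat_lit 0) (nat_lit 3309607006) (nat_lit 25) (nat_lit 5) (nat_lit 27) (nat_lit 4) (nat_lit 25) (nat_lit 4) (nat_lit 449) (nat_lit 404) (nat_lit 347)))) (XT.nd (nat_lit 78) (nat_lit 152) (nat_lit 0) (XT.lf (nat_lit 0) (nat_lit 3672662229) (nat_lit 76) (nat_lit 32247040326) (nat_lit 76) (nat_lit 13977169492) (nat_lit 24) (nat_lit 4) (nat_lit 25) (nat_lit 5) (nat_lit 25) (nat_lit 4) (nat_lit 450) (nat_lit 404) (nat_lit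 346)) (XT.nd (nat_lit 78) (nat_lit 152) (nat_lit 0) (XT.lf (nat_lit 0) (nat_lit 33025809770) (nat_lit 76) (nat_lit 18985975680) (nat_lit 76) (nat_lit 700333976) (nat_lit 24) (nat_lit 4) (nat_lit 25) (nat_lit 5) (nat_lit 25) (nat_lit 4) (nat_lit 451) (nat_lit 404) (nat_lit 345)) (XT.lf (nat_lit 0) (nat_lit 9051404959) (nat_lit 76) (nat_lit 4098426444) (nat_lit 152) (nat_lit 42561040020) (nat_lit 22) (nat_lit 5) (nat_lit 23) (nat_lit 5) (nat_lit 24) (nat_lit 4) (nat_lit 452) (nat_lit 404) (nat_lit 344))))) (XT.nd (nat_lit 234) (nat_lit 228) (nat_lit 0) (XT.nd (nat_lit 78) (nat_lit 76) (nat_lit 0) (XT.lf (nat_lit 0) (nat_lit 28886404956) (nat_lit 152) (nat_lit 18067151075) (nat_lit 0) (nat_lit 11929214826) (nat_lit 22) (nat_lit 5) (nat_lit 24) (nat_lit 4) (nat_lit 22) (nat_lit 4) (nat_lit 453) (nat_lit 404) (nat_lit 343)) (XT.nd (nat_lit 78) (nat_lit 0) (nat_lit 0) (XT.lf (nat_lit 0) (nat_lit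 13328286183) (nat_lit 76) (nat_lit 32958273387) (nat_lit 76) (nat_lit 15989491196) (nat_lit 21) (nat_lit 4) (nat_lit 22) (nat_lit 5) (nat_lit 22) (nat_lit 4) (nat_lit 454) (nat_lit 404) (nat_lit 342)) (XT.lf (nat_lit 0) (nat_lit 48219435467) (nat_lit 76) (nat_lit 17331546794) (nat_lit 76) (nat_lit 352031214) (nat_lit 21) (nat_lit 4) (nat_lit 22) (nat_lit 5) (nat_lit 22) (nat_lit 4) (nat_lit 455) (nat_lit 404) (nat_lit 341)))) (XT.nd (nat_lit 78) (nat_lit 76) (nat_lit 0) (XT.lf (nat_lit 0) (nat_lit 16093764306) (nat_lit 152) (nat_lit 53301000434) (nat_lit 0) (nat_lit 362788470) (nat_lit 19) (nat_lit 5) (nat_lit 21) (nat_lit 4) (nat_lit 19) (nat_lit 4) (nat_lit 456) (nat_lit 404) (nat_lit 340)) (XT.nd (nat_lit 78) (nat_lit 76) (nat_lit 0) (XT.lf (nat_lit 0) (nat_lit 34761864249) (nat_lit 152) (nat_lit 20061440396) (nat_lit 0) (nat_lit 19022367903) (nat_lit 19) (nat_lit 5) (nat_lit 21) (nat_lit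 4) (nat_lit 19) (nat_lit 4) (nat_lit 457) (nat_lit 404) (nat_lit 339)) (XT.lf (nat_lit 0) (nat_lit 16630928129) (nat_lit 76) (nat_lit 38673412680) (nat_lit 76) (nat_lit 22926026972) (nat_lit 18) (nat_lit 4) (nat_lit 19) (nat_lit 5) (nat_lit 19) (nat_lit 4) (nat_lit 458) (nat_lit 404) (nat_lit 338))))))) (XT.nd (nat_lit 858) (nat_lit 456) (nat_lit 0) (XT.nd (nat_lit 390) (nat_lit 228) (nat_lit 0) (XT.nd (nat_lit 156) (nat_lit 76) (nat_lit 0) (XT.nd (nat_lit 78) (nat_lit 152) (nat_lit 0) (XT.lf (nat_lit 0) (nat_lit 57362265024) (nat_lit 76) (nat_lit 20657933128) (nat_lit 76) (nat_lit 4903242456) (nat_lit 18) (nat_lit 4) (nat_lit 19) (nat_lit 5) (nat_lit 19) (nat_lit 4) (nat_lit 459) (nat_lit 404) (nat_lit 337)) (XT.lf (nat_lit 0) (nat_lit 13657664938) (nat_lit 76) (nat_lit 486142497) (nat_lit 152) (nat_lit 73795267352) (nat_lit 16) (nat_lit 5) (nat_lit 17) (nat_lit 5) (nat_lit 18) (nat_lit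 4) (nat_lit 460) (nat_lit 404) (nat_lit 336))) (XT.nd (nat_lit 78) (nat_lit 76) (nat_lit 0) (XT.lf (nat_lit 0) (nat_lit 35661456533) (nat_lit 152) (nat_lit 36525657827) (nat_lit 0) (nat_lit 21061718239) (nat_lit 16) (nat_lit 5) (nat_lit 18) (nat_lit 4) (nat_lit 16) (nat_lit 4) (nat_lit 461) (nat_lit 404) (nat_lit 335)) (XT.nd (nat_lit 78) (nat_lit 0) (nat_lit 0) (XT.lf (nat_lit 0) (nat_lit 4426441153) (nat_lit 76) (nat_lit 54576905812) (nat_lit 76) (nat_lit 39971798151) (nat_lit 15) (nat_lit 4) (nat_lit 16) (nat_lit 5) (nat_lit 16) (nat_lit 4) (nat_lit 462) (nat_lit 404) (nat_lit 334)) (XT.lf (nat_lit 0) (nat_lit 50699873223) (nat_lit 76) (nat_lit 34495570357) (nat_lit 76) (nat_lit 19885491060) (nat_lit 15) (nat_lit 4) (nat_lit 16) (nat_lit 5) (nat_lit 16) (nat_lit 4) (nat_lit 463) (nat_lit 404) (nat_lit 333))))) (XT.nd (nat_lit 234) (nat_lit 76) (nat_lit 0) (XT.nd (nat_lit 78) (nat_lit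 76) (nat_lit 0) (XT.lf (nat_lit 0) (nat_lit 1702260916) (nat_lit 152) (nat_lit 11073979956) (nat_lit 76) (nat_lit 98896671152) (nat_lit 14) (nat_lit 5) (nat_lit 16) (nat_lit 5) (nat_lit 15) (nat_lit 4) (nat_lit 464) (nat_lit 404) (nat_lit 332)) (XT.nd (nat_lit 78) (nat_lit 0) (nat_lit 0) (XT.lf (nat_lit 0) (nat_lit 25111787016) (nat_lit 152) (nat_lit 81969886648) (nat_lit 0) (nat_lit 11575726794) (nat_lit 13) (nat_lit 5) (nat_lit 15) (nat_lit 4) (nat_lit 13) (nat_lit 4) (nat_lit 465) (nat_lit 404) (nat_lit 331)) (XT.lf (nat_lit 0) (nat_lit 51022688350) (nat_lit 152) (nat_lit 37644697033) (nat_lit 0) (nat_lit 37482973827) (nat_lit 13) (nat_lit 5) (nat_lit 15) (nat_lit 4) (nat_lit 13) (nat_lit 4) (nat_lit 466) (nat_lit 404) (nat_lit 330)))) (XT.nd (nat_lit 78) (nat_lit 0) (nat_lit 0) (XT.lf (nat_lit 0) (nat_lit 10737462352) (nat_lit 76) (nat_lit 68514380131) (nat_lit 76) (nat_lit 54971281996)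 (nat_lit 12) (nat_lit 4) (nat_lit 13) (nat_lit 5) (nat_lit 13) (nat_lit 4) (nat_lit 467) (nat_lit 404) (nat_lit 329)) (XT.nd (nat_lit 78) (nat_lit 0) (nat_lit 0) (XT.lf (nat_lit 0) (nat_lit 65105567717) (nat_lit 76) (nat_lit 45650517073) (nat_lit 76) (nat_lit 32104285964) (nat_lit 12) (nat_lit 4) (nat_lit 13) (nat_lit 5) (nat_lit 13) (nat_lit 4) (nat_lit 468) (nat_lit 404) (nat_lit 328)) (XT.lf (nat_lit 0) (nat_lit 123799497391) (nat_lit 76) (nat_lit 20969579381) (nat_lit 76) (nat_lit 7420447371) (nat_lit 12) (nat_lit 4) (nat_lit 13) (nat_lit 5) (nat_lit 13) (nat_lit 4) (nat_lit 469) (nat_lit 404) (nat_lit 327)))))) (XT.nd (nat_lit 468) (nat_lit 228) (nat_lit 0) (XT.nd (nat_lit 234) (nat_lit 76) (nat_lit 0) (XT.nd (nat_lit 78) (nat_lit 0) (nat_lit 0) (XT.lf (nat_lit 0) (nat_lit 19047981389) (nat_lit 152) (nat_lit 136618232691) (nat_lit 0) (nat_lit 6500001731) (nat_lit 10) (nat_lit 5) (nat_lit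 12) (nat_lit 4) (nat_lit 10) (nat_lit 4) (nat_lit 470) (nat_lit 404) (nat_lit 326)) (XT.nd (nat_lit 78) (nat_lit 0) (nat_lit 0) (XT.lf (nat_lit 0) (nat_lit 48563058060) (nat_lit 152) (nat_lit 88243384613) (nat_lit 0) (nat_lit 36012775572) (nat_lit 10) (nat_lit 5) (nat_lit 12) (nat_lit 4) (nat_lit 10) (nat_lit 4) (nat_lit 471) (nat_lit 404) (nat_lit 325)) (XT.lf (nat_lit 0) (nat_lit 80429165449) (nat_lit 152) (nat_lit 36019358920) (nat_lit 0) (nat_lit 67876750712) (nat_lit 10) (nat_lit 5) (nat_lit 12) (nat_lit 4) (nat_lit 10) (nat_lit 4) (nat_lit 472) (nat_lit 404) (nat_lit 324)))) (XT.nd (nat_lit 78) (nat_lit 0) (nat_lit 0) (XT.lf (nat_lit 0) (nat_lit 21435616447) (nat_lit 76) (nat_lit 93915050391) (nat_lit 76) (nat_lit 81360661350) (nat_lit 9) (nat_lit 4) (nat_lit 10) (nat_lit 5) (nat_lit 10) (nat_lit 4) (nat_lit 473) (nat_lit 404) (nat_lit 323)) (XT.nd (nat_lit 78) (nat_lit 0) (nat_lit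 0) (XT.lf (nat_lit 0) (nat_lit 85516661786) (nat_lit 76) (nat_lit 68524884198) (nat_lit 76) (nat_lit 55968667096) (nat_lit 9) (nat_lit 4) (nat_lit 10) (nat_lit 5) (nat_lit 10) (nat_lit 4) (nat_lit 474) (nat_lit 404) (nat_lit 322)) (XT.lf (nat_lit 0) (nat_lit 154706801016) (nat_lit 76) (nat_lit 41112398649) (nat_lit 76) (nat_lit 28554488899) (nat_lit 9) (nat_lit 4) (nat_lit 10) (nat_lit 5) (nat_lit 10) (nat_lit 4) (nat_lit 475) (nat_lit 404) (nat_lit 321))))) (XT.nd (nat_lit 234) (nat_lit 76) (nat_lit 0) (XT.nd (nat_lit 78) (nat_lit 76) (nat_lit 0) (XT.lf (nat_lit 0) (nat_lit 992086133) (nat_lit 152) (nat_lit 10495937859) (nat_lit 76) (nat_lit 228396838250) (nat_lit 8) (nat_lit 5) (nat_lit 10) (nat_lit 5) (nat_lit 9) (nat_lit 4) (nat_lit 476) (nat_lit 404) (nat_lit 320)) (XT.nd (nat_lit 78) (nat_lit 0) (nat_lit 0) (XT.lf (nat_lit 0) (nat_lit 33232059918) (nat_lit 152) (nat_lit 201594176605)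 (nat_lit 0) (nat_lit 21601570852) (nat_lit 7) (nat_lit 5) (nat_lit 9) (nat_lit 4) (nat_lit 7) (nat_lit 4) (nat_lit 477) (nat_lit 404) (nat_lit 319)) (XT.lf (nat_lit 0) (nat_lit 68636591451) (nat_lit 152) (nat_lit 148605909741) (nat_lit 0) (nat_lit 57004858239) (nat_lit 7) (nat_lit 5) (nat_lit 9) (nat_lit 4) (nat_lit 7) (nat_lit 4) (nat_lit 478) (nat_lit 404) (nat_lit 318)))) (XT.nd (nat_lit 78) (nat_lit 76) (nat_lit 0) (XT.lf (nat_lit 0) (nat_lit 106866576348) (nat_lit 152) (nat_lit 91392760980) (nat_lit 0) (nat_lit 95233691148) (nat_lit 7) (nat_lit 5) (nat_lit 9) (nat_lit 4) (nat_lit 7) (nat_lit 4) (nat_lit 479) (nat_lit 404) (nat_lit 317)) (XT.nd (nat_lit 78) (nat_lit 76) (nat_lit 0) (XT.lf (nat_lit 0) (nat_lit 148148562668) (nat_lit 152) (nat_lit 29615689441) (nat_lit 0) (nat_lit 136514610812) (nat_lit 7) (nat_lit 5) (nat_lit 9) (nat_lit 4) (nat_lit 7) (nat_lit 4) (nat_lit 480) (nat_lit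 404) (nat_lit 316)) (XT.lf (nat_lit 0) (nat_lit 39044558156) (nat_lit 76) (nat_lit 154621648809) (nat_lit 76) (nat_lit 142986709309) (nat_lit 6) (nat_lit 4) (nat_lit 7) (nat_lit 5) (nat_lit 7) (nat_lit 4) (nat_lit 481) (nat_lit 404) (nat_lit 315))))))))
noncomputable def xc105 : XT := (XT.nd (nat_lit 1794) (nat_lit 152) (nat_lit 0) (XT.nd (nat_lit 858) (nat_lit 76) (nat_lit 0) (XT.nd (nat_lit 390) (nat_lit 0) (nat_lit 0) (XT.nd (nat_lit 156) (nat_lit 152) (nat_lit 0) (XT.nd (nat_lit 78) (nat_lit 0) (nat_lit 0) (XT.lf (nat_lit 0) (nat_lit 114870047229) (nat_lit 76) (nat_lit 128759191333) (nat_lit 76) (nat_lit 117123337348) (nat_lit 6) (nat_lit 4) (nat_lit 7) (nat_lit 5) (nat_lit 7) (nat_lit 4) (nat_lit 482) (nat_lit 404) (nat_lit 314)) (XT.lf (nat_lit 0) (nat_lit 196750604286) (nat_lit 76) (nat_lit 100833366107) (nat_lit 76) (nat_lit 89196665376) (nat_lit 6) (nat_lit 4) (nat_lit 7) (nat_lit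 5) (nat_lit 7) (nat_lit 4) (nat_lit 483) (nat_lit 404) (nat_lit 313))) (XT.nd (nat_lit 78) (nat_lit 152) (nat_lit 0) (XT.lf (nat_lit 0) (nat_lit 285171447444) (nat_lit 76) (nat_lit 70678686758) (nat_lit 76) (nat_lit 59041202003) (nat_lit 6) (nat_lit 4) (nat_lit 7) (nat_lit 5) (nat_lit 7) (nat_lit 4) (nat_lit 484) (nat_lit 404) (nat_lit 312)) (XT.nd (nat_lit 78) (nat_lit 152) (nat_lit 0) (XT.lf (nat_lit 0) (nat_lit 380656552068) (nat_lit 76) (nat_lit 38116458890) (nat_lit 76) (nat_lit 26478248188) (nat_lit 6) (nat_lit 4) (nat_lit 7) (nat_lit 5) (nat_lit 7) (nat_lit 4) (nat_lit 485) (nat_lit 404) (nat_lit 311)) (XT.lf (nat_lit 0) (nat_lit 5813370559) (nat_lit 76) (nat_lit 2577135900) (nat_lit 152) (nat_lit 469621913585) (nat_lit 4) (nat_lit 5) (nat_lit 5) (nat_lit 5) (nat_lit 6) (nat_lit 4) (nat_lit 486) (nat_lit 404) (nat_lit 310))))) (XT.nd (nat_lit 234) (nat_lit 0) (nat_lit 0) (XT.nd (nat_lit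 78) (nat_lit 0) (nat_lit 0) (XT.lf (nat_lit 0) (nat_lit 47287028906) (nat_lit 152) (nat_lit 429329213550) (nat_lit 0) (nat_lit 36509709221) (nat_lit 4) (nat_lit 5) (nat_lit 6) (nat_lit 4) (nat_lit 4) (nat_lit 4) (nat_lit 487) (nat_lit 404) (nat_lit 309)) (XT.nd (nat_lit 78) (nat_lit 0) (nat_lit 0) (XT.lf (nat_lit 0) (nat_lit 89358187754) (nat_lit 152) (nat_lit 383105010486) (nat_lit 0) (nat_lit 78580334476) (nat_lit 4) (nat_lit 5) (nat_lit 6) (nat_lit 4) (nat_lit 4) (nat_lit 4) (nat_lit 488) (nat_lit 404) (nat_lit 308)) (XT.lf (nat_lit 0) (nat_lit 134791313393) (nat_lit 152) (nat_lit 333190538910) (nat_lit 0) (nat_lit 124012966047) (nat_lit 4) (nat_lit 5) (nat_lit 6) (nat_lit 4) (nat_lit 4) (nat_lit 4) (nat_lit 489) (nat_lit 404) (nat_lit 307)))) (XT.nd (nat_lit 78) (nat_lit 0) (nat_lit 0) (XT.lf (nat_lit 0) (nat_lit 183855639161) (nat_lit 152) (nat_lit 279290009361) (nat_lit 0) (nat_lit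 173076834345) (nat_lit 4) (nat_lit 5) (nat_lit 6) (nat_lit 4) (nat_lit 4) (nat_lit 4) (nat_lit 490) (nat_lit 404) (nat_lit 306)) (XT.nd (nat_lit 78) (nat_lit 0) (nat_lit 0) (XT.lf (nat_lit 0) (nat_lit 236841916618) (nat_lit 152) (nat_lit 221084011294) (nat_lit 0) (nat_lit 226062688218) (nat_lit 4) (nat_lit 5) (nat_lit 6) (nat_lit 4) (nat_lit 4) (nat_lit 4) (nat_lit 491) (nat_lit 404) (nat_lit 305)) (XT.lf (nat_lit 0) (nat_lit 294064138518) (nat_lit 152) (nat_lit 158227620275) (nat_lit 0) (nat_lit 283284517911) (nat_lit 4) (nat_lit 5) (nat_lit 6) (nat_lit 4) (nat_lit 4) (nat_lit 4) (nat_lit 492) (nat_lit 404) (nat_lit 304)))))) (XT.nd (nat_lit 468) (nat_lit 0) (nat_lit 0) (XT.nd (nat_lit 234) (nat_lit 0) (nat_lit 0) (XT.nd (nat_lit 78) (nat_lit 76) (nat_lit 0) (XT.lf (nat_lit 0) (nat_lit 355861399510) (nat_lit 152) (nat_lit 90348353987) (nat_lit 0) (nat_lit 345081415749) (nat_lit 4) (nat_lit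 5) (nat_lit 6) (nat_lit 4) (nat_lit 4) (nat_lit 4) (nat_lit 493) (nat_lit 404) (nat_lit 303)) (XT.nd (nat_lit 78) (nat_lit 76) (nat_lit 0) (XT.lf (nat_lit 0) (nat_lit 422599905586) (nat_lit 152) (nat_lit 17043964926) (nat_lit 0) (nat_lit 411819585570) (nat_lit 4) (nat_lit 5) (nat_lit 6) (nat_lit 4) (nat_lit 4) (nat_lit 4) (nat_lit 494) (nat_lit 404) (nat_lit 302)) (XT.lf (nat_lit 0) (nat_lit 65391069413) (nat_lit 76) (nat_lit 430856731567) (nat_lit 76) (nat_lit 420076100205) (nat_lit 3) (nat_lit 4) (nat_lit 4) (nat_lit 5) (nat_lit 4) (nat_lit 4) (nat_lit 495) (nat_lit 404) (nat_lit 301)))) (XT.nd (nat_lit 78) (nat_lit 0) (nat_lit 0) (XT.lf (nat_lit 0) (nat_lit 155385502244) (nat_lit 76) (nat_lit 420865750664) (nat_lit 76) (nat_lit 410084831018) (nat_lit 3) (nat_lit 4) (nat_lit 4) (nat_lit 5) (nat_lit 4) (nat_lit 4) (nat_lit 496) (nat_lit 404) (nat_lit 300)) (XT.nd (nat_lit 78) (nat_lit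 0) (nat_lit 0) (XT.lf (nat_lit 0) (nat_lit 252575128920) (nat_lit 76) (nat_lit 410077734197) (nat_lit 76) (nat_lit 399296547621) (nat_lit 3) (nat_lit 4) (nat_lit 4) (nat_lit 5) (nat_lit 4) (nat_lit 4) (nat_lit 497) (nat_lit 404) (nat_lit 299)) (XT.lf (nat_lit 0) (nat_lit 357535887970) (nat_lit 76) (nat_lit 398428753179) (nat_lit 76) (nat_lit 387647319446) (nat_lit 3) (nat_lit 4) (nat_lit 4) (nat_lit 5) (nat_lit 4) (nat_lit 4) (nat_lit 498) (nat_lit 404) (nat_lit 298))))) (XT.nd (nat_lit 234) (nat_lit 0) (nat_lit 0) (XT.nd (nat_lit 78) (nat_lit 0) (nat_lit 0) (XT.lf (nat_lit 0) (nat_lit 470889769076) (nat_lit 76) (nat_lit 385849776612) (nat_lit 76) (nat_lit 375068114030) (nat_lit 3) (nat_lit 4) (nat_lit 4) (nat_lit 5) (nat_lit 4) (nat_lit 4) (nat_lit 499) (nat_lit 404) (nat_lit 297)) (XT.nd (nat_lit 78) (nat_lit 0) (nat_lit 0) (XT.lf (nat_lit 0) (nat_lit 593308498942) (nat_lit 76) (nat_lit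 372266262412) (nat_lit 76) (nat_lit 361484387932) (nat_lit 3) (nat_lit 4) (nat_lit 4) (nat_lit 5) (nat_lit 4) (nat_lit 4) (nat_lit 500) (nat_lit 404) (nat_lit 296)) (XT.lf (nat_lit 0) (nat_lit 725517521892) (nat_lit 76) (nat_lit 357597715680) (nat_lit 76) (nat_lit 346815644999) (nat_lit 3) (nat_lit 4) (nat_lit 4) (nat_lit 5) (nat_lit 4) (nat_lit 4) (nat_lit 501) (nat_lit 404) (nat_lit 295)))) (XT.nd (nat_lit 78) (nat_lit 0) (nat_lit 0) (XT.lf (nat_lit 0) (nat_lit 868300298803) (nat_lit 76) (nat_lit 341757211695) (nat_lit 76) (nat_lit 330974959347) (nat_lit 3) (nat_lit 4) (nat_lit 4) (nat_lit 5) (nat_lit 4) (nat_lit 4) (nat_lit 502) (nat_lit 404) (nat_lit 294)) (XT.nd (nat_lit 78) (nat_lit 0) (nat_lit 0) (XT.lf (nat_lit 0) (nat_lit 1022502949836) (nat_lit 76) (nat_lit 324650880804) (nat_lit 76) (nat_lit 313868460244) (nat_lit 3) (nat_lit 4) (nat_lit 4) (nat_lit 5) (nat_lit 4) (nat_lit 4)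 (nat_lit 503) (nat_lit 404) (nat_lit 293)) (XT.lf (nat_lit 0) (nat_lit 1189039268477) (nat_lit 76) (nat_lit 306177352156) (nat_lit 76) (nat_lit 295394775846) (nat_lit 3) (nat_lit 4) (nat_lit 4) (nat_lit 5) (nat_lit 4) (nat_lit 4) (nat_lit 504) (nat_lit 404) (nat_lit 292))))))) (XT.nd (nat_lit 936) (nat_lit 0) (nat_lit 0) (XT.nd (nat_lit 468) (nat_lit 152) (nat_lit 0) (XT.nd (nat_lit 234) (nat_lit 0) (nat_lit 0) (XT.nd (nat_lit 78) (nat_lit 0) (nat_lit 0) (XT.lf (nat_lit 0) (nat_lit 1368896136614) (nat_lit 76) (nat_lit 286227152991) (nat_lit 76) (nat_lit 275444432467) (nat_lit 3) (nat_lit 4) (nat_lit 4) (nat_lit 5) (nat_lit 4) (nat_lit 4) (nat_lit 505) (nat_lit 404) (nat_lit 291)) (XT.nd (nat_lit 78) (nat_lit 0) (nat_lit 0) (XT.lf (nat_lit 0) (nat_lit 1563139372726) (nat_lit 76) (nat_lit 264682059904) (nat_lit 76) (nat_lit 253899205849) (nat_lit 3) (nat_lit 4) (nat_lit 4) (nat_lit 5) (nat_lit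 4) (nat_lit 4) (nat_lit 506) (nat_lit 404) (nat_lit 290)) (XT.lf (nat_lit 0) (nat_lit 1772920047841) (nat_lit 76) (nat_lit 241414398271) (nat_lit 76) (nat_lit 230631420576) (nat_lit 3) (nat_lit 4) (nat_lit 4) (nat_lit 5) (nat_lit 4) (nat_lit 4) (nat_lit 507) (nat_lit 404) (nat_lit 289)))) (XT.nd (nat_lit 78) (nat_lit 0) (nat_lit 0) (XT.lf (nat_lit 0) (nat_lit 1999481306701) (nat_lit 76) (nat_lit 216286285652) (nat_lit 76) (nat_lit 205503193476) (nat_lit 3) (nat_lit 4) (nat_lit 4) (nat_lit 5) (nat_lit 4) (nat_lit 4) (nat_lit 508) (nat_lit 404) (nat_lit 288)) (XT.nd (nat_lit 78) (nat_lit 0) (nat_lit 0) (XT.lf (nat_lit 0) (nat_lit 2244165734544) (nat_lit 76) (nat_lit 189148814713) (nat_lit 76) (nat_lit 178365616535) (nat_lit 3) (nat_lit 4) (nat_lit 4) (nat_lit 5) (nat_lit 4) (nat_lit 4) (nat_lit 509) (nat_lit 404) (nat_lit 287)) (XT.lf (nat_lit 0) (nat_lit 2508423313163) (nat_lit 76) (nat_lit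 159841170812) (nat_lit 76) (nat_lit 149057874484) (nat_lit 3) (nat_lit 4) (nat_lit 4) (nat_lit 5) (nat_lit 4) (nat_lit 4) (nat_lit 510) (nat_lit 404) (nat_lit 286))))) (XT.nd (nat_lit 234) (nat_lit 152) (nat_lit 0) (XT.nd (nat_lit 78) (nat_lit 0) (nat_lit 0) (XT.lf (nat_lit 0) (nat_lit 2793820013396) (nat_lit 76) (nat_lit 128189679021) (nat_lit 76) (nat_lit 117406291815) (nat_lit 3) (nat_lit 4) (nat_lit 4) (nat_lit 5) (nat_lit 4) (nat_lit 4) (nat_lit 511) (nat_lit 404) (nat_lit 285)) (XT.nd (nat_lit 78) (nat_lit 0) (nat_lit 0) (XT.lf (nat_lit 0) (nat_lit 3102047074948) (nat_lit 76) (nat_lit 94006774945) (nat_lit 76) (nat_lit 83223303591) (nat_lit 3) (nat_lit 4) (nat_lit 4) (nat_lit 5) (nat_lit 4) (nat_lit 4) (nat_lit 512) (nat_lit 404) (nat_lit 284)) (XT.lf (nat_lit 0) (nat_lit 3434931028552) (nat_lit 76) (nat_lit 57089893226) (nat_lit 76) (nat_lit 46306343959) (nat_lit 3) (nat_lit 4) (nat_lit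 4) (nat_lit 5) (nat_lit 4) (nat_lit 4) (nat_lit 513) (nat_lit 404) (nat_lit 283)))) (XT.nd (nat_lit 78) (nat_lit 152) (nat_lit 0) (XT.lf (nat_lit 0) (nat_lit 3794444519862) (nat_lit 76) (nat_lit 17220267159) (nat_lit 76) (nat_lit 6436645748) (nat_lit 3) (nat_lit 4) (nat_lit 4) (nat_lit 5) (nat_lit 4) (nat_lit 4) (nat_lit 514) (nat_lit 404) (nat_lit 282)) (XT.nd (nat_lit 78) (nat_lit 0) (nat_lit 0) (XT.lf (nat_lit 0) (nat_lit 37033834390) (nat_lit 152) (nat_lit 4055924841409) (nat_lit 0) (nat_lit 27048937900) (nat_lit 1) (nat_lit 5) (nat_lit 3) (nat_lit 4) (nat_lit 1) (nat_lit 4) (nat_lit 515) (nat_lit 404) (nat_lit 281)) (XT.lf (nat_lit 0) (nat_lit 84744565791) (nat_lit 152) (nat_lit 4286459907725) (nat_lit 0) (nat_lit 74759612032) (nat_lit 1) (nat_lit 5) (nat_lit 3) (nat_lit 4) (nat_lit 1) (nat_lit 4) (nat_lit 516) (nat_lit 404) (nat_lit 280)))))) (XT.nd (nat_lit 468) (nat_lit 0) (nat_lit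 0) (XT.nd (nat_lit 234) (nat_lit 0) (nat_lit 0) (XT.nd (nat_lit 78) (nat_lit 0) (nat_lit 0) (XT.lf (nat_lit 0) (nat_lit 136271652693) (nat_lit 152) (nat_lit 4535438816791) (nat_lit 0) (nat_lit 126286645906) (nat_lit 1) (nat_lit 5) (nat_lit 3) (nat_lit 4) (nat_lit 1) (nat_lit 4) (nat_lit 517) (nat_lit 404) (nat_lit 279)) (XT.nd (nat_lit 78) (nat_lit 0) (nat_lit 0) (XT.lf (nat_lit 0) (nat_lit 191920440795) (nat_lit 152) (nat_lit 4804336999178) (nat_lit 0) (nat_lit 181935384910) (nat_lit 1) (nat_lit 5) (nat_lit 3) (nat_lit 4) (nat_lit 1) (nat_lit 4) (nat_lit 518) (nat_lit 404) (nat_lit 278)) (XT.lf (nat_lit 0) (nat_lit 252020700695) (nat_lit 152) (nat_lit 5094747925597) (nat_lit 0) (nat_lit 242035599347) (nat_lit 1) (nat_lit 5) (nat_lit 3) (nat_lit 4) (nat_lit 1) (nat_lit 4) (nat_lit 519) (nat_lit 404) (nat_lit 277)))) (XT.nd (nat_lit 78) (nat_lit 0) (nat_lit 0) (XT.lf (nat_lit 0) (nat_lit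 316928582080) (nat_lit 152) (nat_lit 5408392549687) (nat_lit 0) (nat_lit 306943438638) (nat_lit 1) (nat_lit 5) (nat_lit 3) (nat_lit 4) (nat_lit 1) (nat_lit 4) (nat_lit 520) (nat_lit 404) (nat_lit 276)) (XT.nd (nat_lit 78) (nat_lit 0) (nat_lit 0) (XT.lf (nat_lit 0) (nat_lit 387028724248) (nat_lit 152) (nat_lit 5747129506255) (nat_lit 0) (nat_lit 377043541829) (nat_lit 1) (nat_lit 5) (nat_lit 3) (nat_lit 4) (nat_lit 1) (nat_lit 4) (nat_lit 521) (nat_lit 404) (nat_lit 275)) (XT.lf (nat_lit 0) (nat_lit 462736535447) (nat_lit 152) (nat_lit 6112966125417) (nat_lit 0) (nat_lit 452751316939) (nat_lit 1) (nat_lit 5) (nat_lit 3) (nat_lit 4) (nat_lit 1) (nat_lit 4) (nat_lit 522) (nat_lit 404) (nat_lit 274))))) (XT.nd (nat_lit 234) (nat_lit 0) (nat_lit 0) (XT.nd (nat_lit 78) (nat_lit 0) (nat_lit 0) (XT.lf (nat_lit 0) (nat_lit 544500654561) (nat_lit 152) (nat_lit 6508070327877) (nat_lit 0) (nat_lit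 534515402637) (nat_lit 1) (nat_lit 5) (nat_lit 3) (nat_lit 4) (nat_lit 1) (nat_lit 4) (nat_lit 523) (nat_lit 404) (nat_lit 273)) (XT.nd (nat_lit 78) (nat_lit 0) (nat_lit 0) (XT.lf (nat_lit 0) (nat_lit 632805609701) (nat_lit 152) (nat_lit 6934783471872) (nat_lit 0) (nat_lit 622820326836) (nat_lit 1) (nat_lit 5) (nat_lit 3) (nat_lit 4) (nat_lit 1) (nat_lit 4) (nat_lit 524) (nat_lit 404) (nat_lit 272)) (XT.lf (nat_lit 0) (nat_lit 728174689491) (nat_lit 152) (nat_lit 7395634227886) (nat_lit 0) (nat_lit 718189377977) (nat_lit 1) (nat_lit 5) (nat_lit 3) (nat_lit 4) (nat_lit 1) (nat_lit 4) (nat_lit 525) (nat_lit 404) (nat_lit 271)))) (XT.nd (nat_lit 78) (nat_lit 0) (nat_lit 0) (XT.lf (nat_lit 0) (nat_lit 831173044034) (nat_lit 152) (nat_lit 7893353563362) (nat_lit 0) (nat_lit 821187705993) (nat_lit 1) (nat_lit 5) (nat_lit 3) (nat_lit 4) (nat_lit 1) (nat_lit 4) (nat_lit 526) (nat_lit 404) (nat_lit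 270)) (XT.nd (nat_lit 78) (nat_lit 0) (nat_lit 0) (XT.lf (nat_lit 0) (nat_lit 942411033948) (nat_lit 152) (nat_lit 8430890926212) (nat_lit 0) (nat_lit 932425671345) (nat_lit 1) (nat_lit 5) (nat_lit 3) (nat_lit 4) (nat_lit 1) (nat_lit 4) (nat_lit 527) (nat_lit 404) (nat_lit 269)) (XT.lf (nat_lit 0) (nat_lit 1062547847322) (nat_lit 152) (nat_lit 9011431723033) (nat_lit 0) (nat_lit 1052562461977) (nat_lit 1) (nat_lit 5) (nat_lit 3) (nat_lit 4) (nat_lit 1) (nat_lit 4) (nat_lit 528) (nat_lit 404) (nat_lit 268))))))))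
noncomputable def xc106 : XT := (XT.nd (nat_lit 54444) (nat_lit 0) (nat_lit 1900) (XT.nd (nat_lit 53508) (nat_lit 0) (nat_lit 3876) (XT.nd (nat_lit 53040) (nat_lit 0) (nat_lit 5624) (XT.nd (nat_lit 52806) (nat_lit 0) (nat_lit 6384) (XT.nd (nat_lit 78) (nat_lit 0) (nat_lit 0) (XT.lf (nat_lit 0) (nat_lit 1192295406014) (nat_lit 152) (nat_lit 9638416195583) (nat_lit 0) (nat_lit 1182309999611) (nat_lit 1) (nat_lit 5) (nat_lit 3) (nat_lit 4) (nat_lit 1) (nat_lit 4) (nat_lit 529) (nat_lit 404) (nat_lit 267)) (XT.lf (nat_lit 0) (nat_lit 1332422584445) (nat_lit 152) (nat_lit 10315559807403) (nat_lit 0) (nat_lit 1322437158544) (nat_lit 1) (nat_lit 5) (nat_lit 3) (nat_lit 4) (nat_lit 1) (nat_lit 4) (nat_lit 530) (nat_lit 404) (nat_lit 266))) (XT.nd (nat_lit 78) (nat_lit 380) (nat_lit 0) (XT.lf (nat_lit 0) (nat_lit 2137647575) (nat_lit 380) (nat_lit 720429805) (nat_lit 380) (nat_lit 720429805) (nat_lit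 90) (nat_lit 3) (nat_lit 95) (nat_lit 3) (nat_lit 95) (nat_lit 5) (nat_lit 405) (nat_lit 405) (nat_lit 390)) (XT.nd (nat_lit 78) (nat_lit 380) (nat_lit 0) (XT.lf (nat_lit 76) (nat_lit 2211881030) (nat_lit 0) (nat_lit 3887358769) (nat_lit 380) (nat_lit 1211009837) (nat_lit 91) (nat_lit 5) (nat_lit 90) (nat_lit 3) (nat_lit 95) (nat_lit 5) (nat_lit 406) (nat_lit 405) (nat_lit 389)) (XT.lf (nat_lit 0) (nat_lit 437562350) (nat_lit 380) (nat_lit 1348967149) (nat_lit 456) (nat_lit 5698236653) (nat_lit 85) (nat_lit 5) (nat_lit 90) (nat_lit 3) (nat_lit 91) (nat_lit 5) (nat_lit 407) (nat_lit 405) (nat_lit 388))))) (XT.nd (nat_lit 234) (nat_lit 836) (nat_lit 0) (XT.nd (nat_lit 78) (nat_lit 0) (nat_lit 0) (XT.lf (nat_lit 0) (nat_lit 2079222753) (nat_lit 380) (nat_lit 4981375668) (nat_lit 456) (nat_lit 616068446) (nat_lit 86) (nat_lit 5) (nat_lit 91) (nat_lit 5) (nat_lit 92) (nat_lit 5) (nat_lit 408)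 (nat_lit 405) (nat_lit 387)) (XT.nd (nat_lit 78) (nat_lit 0) (nat_lit 0) (XT.lf (nat_lit 0) (nat_lit 3792837920) (nat_lit 380) (nat_lit 891628172) (nat_lit 456) (nat_lit 3204268180) (nat_lit 86) (nat_lit 5) (nat_lit 91) (nat_lit 5) (nat_lit 92) (nat_lit 5) (nat_lit 409) (nat_lit 405) (nat_lit 386)) (XT.lf (nat_lit 76) (nat_lit 3610440391) (nat_lit 0) (nat_lit 1986949209) (nat_lit 456) (nat_lit 2524129300) (nat_lit 87) (nat_lit 5) (nat_lit 86) (nat_lit 5) (nat_lit 92) (nat_lit 5) (nat_lit 410) (nat_lit 405) (nat_lit 385)))) (XT.nd (nat_lit 78) (nat_lit 532) (nat_lit 0) (XT.lf (nat_lit 0) (nat_lit 26927872) (nat_lit 380) (nat_lit 7442722477) (nat_lit 456) (nat_lit 909463555) (nat_lit 82) (nat_lit 5) (nat_lit 87) (nat_lit 5) (nat_lit 88) (nat_lit 5) (nat_lit 411) (nat_lit 405) (nat_lit 384)) (XT.nd (nat_lit 78) (nat_lit 456) (nat_lit 0) (XT.lf (nat_lit 0) (nat_lit 849881458) (nat_lit 456)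 (nat_lit 3645501259) (nat_lit 76) (nat_lit 4155796189) (nat_lit 81) (nat_lit 5) (nat_lit 87) (nat_lit 5) (nat_lit 82) (nat_lit 5) (nat_lit 412) (nat_lit 405) (nat_lit 383)) (XT.lf (nat_lit 0) (nat_lit 1383589801) (nat_lit 456) (nat_lit 1238572429) (nat_lit 532) (nat_lit 6327295079) (nat_lit 75) (nat_lit 5) (nat_lit 81) (nat_lit 5) (nat_lit 82) (nat_lit 5) (nat_lit 413) (nat_lit 405) (nat_lit 382)))))) (XT.nd (nat_lit 468) (nat_lit 760) (nat_lit 0) (XT.nd (nat_lit 234) (nat_lit 532) (nat_lit 0) (XT.nd (nat_lit 78) (nat_lit 456) (nat_lit 0) (XT.lf (nat_lit 0) (nat_lit 4587508067) (nat_lit 532) (nat_lit 2404613093) (nat_lit 76) (nat_lit 2275414789) (nat_lit 75) (nat_lit 5) (nat_lit 82) (nat_lit 5) (nat_lit 76) (nat_lit 5) (nat_lit 414) (nat_lit 405) (nat_lit 381)) (XT.nd (nat_lit 78) (nat_lit 0) (nat_lit 0) (XT.lf (nat_lit 0) (nat_lit 3199334663) (nat_lit 456) (nat_lit 3521912076) (nat_lit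 532) (nat_lit 2888958496) (nat_lit 69) (nat_lit 5) (nat_lit 75) (nat_lit 5) (nat_lit 76) (nat_lit 5) (nat_lit 415) (nat_lit 405) (nat_lit 380)) (XT.lf (nat_lit 0) (nat_lit 9005515998) (nat_lit 532) (nat_lit 696827126) (nat_lit 76) (nat_lit 279593206) (nat_lit 69) (nat_lit 5) (nat_lit 76) (nat_lit 5) (nat_lit 70) (nat_lit 5) (nat_lit 416) (nat_lit 405) (nat_lit 379)))) (XT.nd (nat_lit 78) (nat_lit 228) (nat_lit 0) (XT.lf (nat_lit 0) (nat_lit 1177398779) (nat_lit 304) (nat_lit 4836198862) (nat_lit 76) (nat_lit 4356321814) (nat_lit 65) (nat_lit 5) (nat_lit 69) (nat_lit 5) (nat_lit 66) (nat_lit 5) (nat_lit 417) (nat_lit 405) (nat_lit 378)) (XT.nd (nat_lit 78) (nat_lit 0) (nat_lit 0) (XT.lf (nat_lit 0) (nat_lit 1464925586) (nat_lit 228) (nat_lit 1956449863) (nat_lit 304) (nat_lit 7367916142) (nat_lit 62) (nat_lit 5) (nat_lit 65) (nat_lit 5) (nat_lit 66) (nat_lit 5) (nat_lit 418) (nat_lit 405)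 (nat_lit 377)) (XT.lf (nat_lit 0) (nat_lit 5958285170) (nat_lit 304) (nat_lit 2849264941) (nat_lit 76) (nat_lit 2425615761) (nat_lit 62) (nat_lit 5) (nat_lit 66) (nat_lit 5) (nat_lit 63) (nat_lit 5) (nat_lit 419) (nat_lit 405) (nat_lit 376))))) (XT.nd (nat_lit 234) (nat_lit 304) (nat_lit 0) (XT.nd (nat_lit 78) (nat_lit 304) (nat_lit 0) (XT.lf (nat_lit 0) (nat_lit 4210070611) (nat_lit 152) (nat_lit 4565537276) (nat_lit 228) (nat_lit 2930769067) (nat_lit 60) (nat_lit 5) (nat_lit 62) (nat_lit 5) (nat_lit 63) (nat_lit 5) (nat_lit 420) (nat_lit 405) (nat_lit 375)) (XT.nd (nat_lit 78) (nat_lit 304) (nat_lit 0) (XT.lf (nat_lit 0) (nat_lit 11826870151) (nat_lit 228) (nat_lit 313861534) (nat_lit 76) (nat_lit 76050858) (nat_lit 60) (nat_lit 5) (nat_lit 63) (nat_lit 5) (nat_lit 61) (nat_lit 5) (nat_lit 421) (nat_lit 405) (nat_lit 374)) (XT.lf (nat_lit 0) (nat_lit 2477856528) (nat_lit 304) (nat_lit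 5195648734) (nat_lit 76) (nat_lit 5070691724) (nat_lit 56) (nat_lit 5) (nat_lit 60) (nat_lit 5) (nat_lit 57) (nat_lit 5) (nat_lit 422) (nat_lit 405) (nat_lit 373)))) (XT.nd (nat_lit 78) (nat_lit 152) (nat_lit 0) (XT.lf (nat_lit 0) (nat_lit 2783063301) (nat_lit 152) (nat_lit 2781374199) (nat_lit 228) (nat_lit 7747737803) (nat_lit 54) (nat_lit 5) (nat_lit 56) (nat_lit 5) (nat_lit 57) (nat_lit 5) (nat_lit 423) (nat_lit 405) (nat_lit 372)) (XT.nd (nat_lit 78) (nat_lit 152) (nat_lit 0) (XT.lf (nat_lit 0) (nat_lit 9040686069) (nat_lit 228) (nat_lit 2375142649) (nat_lit 76) (nat_lit 2498359991) (nat_lit 54) (nat_lit 5) (nat_lit 57) (nat_lit 5) (nat_lit 55) (nat_lit 5) (nat_lit 424) (nat_lit 405) (nat_lit 371)) (XT.lf (nat_lit 0) (nat_lit 6603490766) (nat_lit 152) (nat_lit 6364098417) (nat_lit 228) (nat_lit 1582984550) (nat_lit 52) (nat_lit 5) (nat_lit 54) (nat_lit 5) (nat_lit 55) (nat_lit 5) (nat_lit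 425) (nat_lit 405) (nat_lit 370))))))) (XT.nd (nat_lit 936) (nat_lit 912) (nat_lit 0) (XT.nd (nat_lit 468) (nat_lit 380) (nat_lit 0) (XT.nd (nat_lit 234) (nat_lit 304) (nat_lit 0) (XT.nd (nat_lit 78) (nat_lit 152) (nat_lit 0) (XT.lf (nat_lit 0) (nat_lit 1123304012) (nat_lit 152) (nat_lit 784876057) (nat_lit 228) (nat_lit 13323031208) (nat_lit 49) (nat_lit 5) (nat_lit 51) (nat_lit 5) (nat_lit 52) (nat_lit 5) (nat_lit 426) (nat_lit 405) (nat_lit 369)) (XT.nd (nat_lit 78) (nat_lit 152) (nat_lit 0) (XT.lf (nat_lit 0) (nat_lit 5885975816) (nat_lit 228) (nat_lit 4838611362) (nat_lit 76) (nat_lit 5215006351) (nat_lit 49) (nat_lit 5) (nat_lit 52) (nat_lit 5) (nat_lit 50) (nat_lit 5) (nat_lit 427) (nat_lit 405) (nat_lit 368)) (XT.lf (nat_lit 0) (nat_lit 5337185727) (nat_lit 152) (nat_lit 4941602090) (nat_lit 228) (nat_lit 6418126103) (nat_lit 47) (nat_lit 5) (nat_lit 49) (nat_lit 5) (nat_lit 50)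 (nat_lit 5) (nat_lit 428) (nat_lit 405) (nat_lit 367)))) (XT.nd (nat_lit 78) (nat_lit 304) (nat_lit 0) (XT.lf (nat_lit 0) (nat_lit 15139389461) (nat_lit 228) (nat_lit 1019689150) (nat_lit 76) (nat_lit 1346442310) (nat_lit 47) (nat_lit 5) (nat_lit 50) (nat_lit 5) (nat_lit 48) (nat_lit 4) (nat_lit 429) (nat_lit 405) (nat_lit 366)) (XT.nd (nat_lit 78) (nat_lit 152) (nat_lit 0) (XT.lf (nat_lit 0) (nat_lit 2251205388) (nat_lit 152) (nat_lit 7943157677) (nat_lit 76) (nat_lit 8153256266) (nat_lit 45) (nat_lit 5) (nat_lit 47) (nat_lit 5) (nat_lit 46) (nat_lit 5) (nat_lit 430) (nat_lit 405) (nat_lit 365)) (XT.lf (nat_lit 0) (nat_lit 3585613583) (nat_lit 152) (nat_lit 3592845487) (nat_lit 228) (nat_lit 12068248971) (nat_lit 43) (nat_lit 5) (nat_lit 45) (nat_lit 5) (nat_lit 46) (nat_lit 5) (nat_lit 431) (nat_lit 405) (nat_lit 364))))) (XT.nd (nat_lit 234) (nat_lit 76) (nat_lit 0) (XT.nd (nat_lit 78)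 (nat_lit 304) (nat_lit 0) (XT.lf (nat_lit 0) (nat_lit 12762197593) (nat_lit 228) (nat_lit 3880787564) (nat_lit 76) (nat_lit 3553761790) (nat_lit 43) (nat_lit 5) (nat_lit 46) (nat_lit 5) (nat_lit 44) (nat_lit 4) (nat_lit 432) (nat_lit 405) (nat_lit 363)) (XT.nd (nat_lit 78) (nat_lit 228) (nat_lit 0) (XT.lf (nat_lit 0) (nat_lit 9133130831) (nat_lit 76) (nat_lit 9930276611) (nat_lit 152) (nat_lit 2137726655) (nat_lit 42) (nat_lit 5) (nat_lit 43) (nat_lit 5) (nat_lit 44) (nat_lit 4) (nat_lit 433) (nat_lit 405) (nat_lit 362)) (XT.lf (nat_lit 0) (nat_lit 1020882732) (nat_lit 152) (nat_lit 2474310829) (nat_lit 228) (nat_lit 18776464791) (nat_lit 39) (nat_lit 5) (nat_lit 41) (nat_lit 5) (nat_lit 42) (nat_lit 5) (nat_lit 434) (nat_lit 405) (nat_lit 361)))) (XT.nd (nat_lit 78) (nat_lit 76) (nat_lit 0) (XT.lf (nat_lit 0) (nat_lit 9894765026) (nat_lit 228) (nat_lit 7829892039) (nat_lit 76) (nat_lit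 5664210106) (nat_lit 39) (nat_lit 5) (nat_lit 42) (nat_lit 5) (nat_lit 40) (nat_lit 4) (nat_lit 435) (nat_lit 405) (nat_lit 360)) (XT.nd (nat_lit 78) (nat_lit 0) (nat_lit 0) (XT.lf (nat_lit 0) (nat_lit 6876406014) (nat_lit 76) (nat_lit 10121416903) (nat_lit 152) (nat_lit 7582313203) (nat_lit 38) (nat_lit 5) (nat_lit 39) (nat_lit 5) (nat_lit 40) (nat_lit 4) (nat_lit 436) (nat_lit 405) (nat_lit 359)) (XT.lf (nat_lit 0) (nat_lit 23138247595) (nat_lit 76) (nat_lit 1708066805) (nat_lit 152) (nat_lit 1006221769) (nat_lit 38) (nat_lit 5) (nat_lit 39) (nat_lit 5) (nat_lit 40) (nat_lit 4) (nat_lit 437) (nat_lit 405) (nat_lit 358)))))) (XT.nd (nat_lit 468) (nat_lit 380) (nat_lit 0) (XT.nd (nat_lit 234) (nat_lit 228) (nat_lit 0) (XT.nd (nat_lit 78) (nat_lit 76) (nat_lit 0) (XT.lf (nat_lit 0) (nat_lit 6281073103) (nat_lit 228) (nat_lit 13417255778) (nat_lit 76) (nat_lit 7477469894) (nat_lit 35) (nat_lit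 5) (nat_lit 38) (nat_lit 5) (nat_lit 36) (nat_lit 4) (nat_lit 438) (nat_lit 405) (nat_lit 357)) (XT.nd (nat_lit 78) (nat_lit 0) (nat_lit 0) (XT.lf (nat_lit 0) (nat_lit 3124818115) (nat_lit 76) (nat_lit 11133226989) (nat_lit 152) (nat_lit 14331905719) (nat_lit 34) (nat_lit 5) (nat_lit 35) (nat_lit 5) (nat_lit 36) (nat_lit 4) (nat_lit 439) (nat_lit 405) (nat_lit 356)) (XT.lf (nat_lit 0) (nat_lit 21691271418) (nat_lit 76) (nat_lit 1515223398) (nat_lit 152) (nat_lit 6884078077) (nat_lit 34) (nat_lit 5) (nat_lit 35) (nat_lit 5) (nat_lit 36) (nat_lit 4) (nat_lit 440) (nat_lit 405) (nat_lit 355)))) (XT.nd (nat_lit 78) (nat_lit 76) (nat_lit 0) (XT.lf (nat_lit 0) (nat_lit 1541463702) (nat_lit 152) (nat_lit 21442948676) (nat_lit 76) (nat_lit 8689412720) (nat_lit 32) (nat_lit 5) (nat_lit 34) (nat_lit 5) (nat_lit 33) (nat_lit 4) (nat_lit 441) (nat_lit 405) (nat_lit 354)) (XT.nd (nat_lit 78) (nat_lit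 76) (nat_lit 0) (XT.lf (nat_lit 0) (nat_lit 10512576495) (nat_lit 152) (nat_lit 2819806043) (nat_lit 76) (nat_lit 20017577373) (nat_lit 32) (nat_lit 5) (nat_lit 34) (nat_lit 5) (nat_lit 33) (nat_lit 4) (nat_lit 442) (nat_lit 405) (nat_lit 353)) (XT.lf (nat_lit 0) (nat_lit 18145865537) (nat_lit 76) (nat_lit 2462730047) (nat_lit 152) (nat_lit 14519015084) (nat_lit 31) (nat_lit 5) (nat_lit 32) (nat_lit 5) (nat_lit 33) (nat_lit 4) (nat_lit 443) (nat_lit 405) (nat_lit 352))))) (XT.nd (nat_lit 234) (nat_lit 152) (nat_lit 0) (XT.nd (nat_lit 78) (nat_lit 152) (nat_lit 0) (XT.lf (nat_lit 0) (nat_lit 3818444776) (nat_lit 76) (nat_lit 28058957279) (nat_lit 76) (nat_lit 5140865315) (nat_lit 30) (nat_lit 4) (nat_lit 31) (nat_lit 5) (nat_lit 31) (nat_lit 4) (nat_lit 444) (nat_lit 405) (nat_lit 351)) (XT.nd (nat_lit 78) (nat_lit 76) (nat_lit 0) (XT.lf (nat_lit 0) (nat_lit 5249563596) (nat_lit 152) (nat_lit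 12026028181) (nat_lit 76) (nat_lit 21734068903) (nat_lit 29) (nat_lit 5) (nat_lit 31) (nat_lit 5) (nat_lit 30) (nat_lit 4) (nat_lit 445) (nat_lit 405) (nat_lit 350)) (XT.lf (nat_lit 0) (nat_lit 11217980160) (nat_lit 76) (nat_lit 5218619365) (nat_lit 152) (nat_lit 24693636446) (nat_lit 28) (nat_lit 5) (nat_lit 29) (nat_lit 5) (nat_lit 30) (nat_lit 4) (nat_lit 446) (nat_lit 405) (nat_lit 349)))) (XT.nd (nat_lit 78) (nat_lit 152) (nat_lit 0) (XT.lf (nat_lit 0) (nat_lit 29017125193) (nat_lit 152) (nat_lit 6636437064) (nat_lit 0) (nat_lit 7727014606) (nat_lit 28) (nat_lit 5) (nat_lit 30) (nat_lit 4) (nat_lit 28) (nat_lit 4) (nat_lit 447) (nat_lit 405) (nat_lit 348)) (XT.nd (nat_lit 78) (nat_lit 76) (nat_lit 0) (XT.lf (nat_lit 0) (nat_lit 19282794635) (nat_lit 76) (nat_lit 23896073652) (nat_lit 76) (nat_lit 2586096310) (nat_lit 27) (nat_lit 4) (nat_lit 28) (nat_lit 5) (nat_lit 28) (nat_lit 4)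 (nat_lit 448) (nat_lit 405) (nat_lit 347)) (XT.lf (nat_lit 0) (nat_lit 9788249583) (nat_lit 152) (nat_lit 968813350) (nat_lit 76) (nat_lit 37550607563) (nat_lit 26) (nat_lit 5) (nat_lit 28) (nat_lit 5) (nat_lit 27) (nat_lit 4) (nat_lit 449) (nat_lit 405) (nat_lit 346))))))))
noncomputable def xc107 : XT := (XT.nd (nat_lit 1794) (nat_lit 532) (nat_lit 0) (XT.nd (nat_lit 858) (nat_lit 608) (nat_lit 0) (XT.nd (nat_lit 390) (nat_lit 304) (nat_lit 0) (XT.nd (nat_lit 156) (nat_lit 152) (nat_lit 0) (XT.nd (nat_lit 78) (nat_lit 76) (nat_lit 0) (XT.lf (nat_lit 0) (nat_lit 23761622511) (nat_lit 152) (nat_lit 23229535661) (nat_lit 0) (nat_lit 3997358600) (nat_lit 25) (nat_lit 5) (nat_lit 27) (nat_lit 4) (nat_lit 25) (nat_lit 4) (nat_lit 450) (nat_lit 405) (nat_lit 345)) (XT.lf (nat_lit 0) (nat_lit 4877925128) (nat_lit 76) (nat_lit 34376331048) (nat_lit 76) (nat_lit 14597464480) (nat_lit 24) (nat_lit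 4) (nat_lit 25) (nat_lit 5) (nat_lit 25) (nat_lit 4) (nat_lit 451) (nat_lit 405) (nat_lit 344))) (XT.nd (nat_lit 78) (nat_lit 152) (nat_lit 0) (XT.lf (nat_lit 0) (nat_lit 36511809663) (nat_lit 76) (nat_lit 20087749564) (nat_lit 76) (nat_lit 295362017) (nat_lit 24) (nat_lit 4) (nat_lit 25) (nat_lit 5) (nat_lit 25) (nat_lit 4) (nat_lit 452) (nat_lit 405) (nat_lit 343)) (XT.nd (nat_lit 78) (nat_lit 0) (nat_lit 0) (XT.lf (nat_lit 0) (nat_lit 10620583407) (nat_lit 76) (nat_lit 4007056198) (nat_lit 152) (nat_lit 45506017570) (nat_lit 22) (nat_lit 5) (nat_lit 23) (nat_lit 5) (nat_lit 24) (nat_lit 4) (nat_lit 453) (nat_lit 405) (nat_lit 342)) (XT.lf (nat_lit 0) (nat_lit 31600932654) (nat_lit 152) (nat_lit 18707831331) (nat_lit 0) (nat_lit 13252322439) (nat_lit 22) (nat_lit 5) (nat_lit 24) (nat_lit 4) (nat_lit 22) (nat_lit 4) (nat_lit 454) (nat_lit 405) (nat_lit 341))))) (XT.nd (nat_lit 234) (nat_lit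 76) (nat_lit 0) (XT.nd (nat_lit 78) (nat_lit 152) (nat_lit 0) (XT.lf (nat_lit 0) (nat_lit 15178868962) (nat_lit 76) (nat_lit 35203196156) (nat_lit 76) (nat_lit 16844647618) (nat_lit 21) (nat_lit 4) (nat_lit 22) (nat_lit 5) (nat_lit 22) (nat_lit 4) (nat_lit 455) (nat_lit 405) (nat_lit 340)) (XT.nd (nat_lit 78) (nat_lit 76) (nat_lit 0) (XT.lf (nat_lit 0) (nat_lit 11781166) (nat_lit 152) (nat_lit 18343245863) (nat_lit 76) (nat_lit 52791109135) (nat_lit 20) (nat_lit 5) (nat_lit 22) (nat_lit 5) (nat_lit 21) (nat_lit 4) (nat_lit 456) (nat_lit 405) (nat_lit 339)) (XT.lf (nat_lit 0) (nat_lit 17752837785) (nat_lit 152) (nat_lit 56817809631) (nat_lit 0) (nat_lit 737771859) (nat_lit 19) (nat_lit 5) (nat_lit 21) (nat_lit 4) (nat_lit 19) (nat_lit 4) (nat_lit 457) (nat_lit 405) (nat_lit 338)))) (XT.nd (nat_lit 78) (nat_lit 76) (nat_lit 0) (XT.lf (nat_lit 0) (nat_lit 37886861847) (nat_lit 152) (nat_lit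 20974438186) (nat_lit 0) (nat_lit 20864490957) (nat_lit 19) (nat_lit 5) (nat_lit 21) (nat_lit 4) (nat_lit 19) (nat_lit 4) (nat_lit 458) (nat_lit 405) (nat_lit 337)) (XT.nd (nat_lit 78) (nat_lit 0) (nat_lit 0) (XT.lf (nat_lit 0) (nat_lit 18635802925) (nat_lit 76) (nat_lit 41427667885) (nat_lit 76) (nat_lit 24398533139) (nat_lit 18) (nat_lit 4) (nat_lit 19) (nat_lit 5) (nat_lit 19) (nat_lit 4) (nat_lit 459) (nat_lit 405) (nat_lit 336)) (XT.lf (nat_lit 0) (nat_lit 62575691175) (nat_lit 76) (nat_lit 21996106844) (nat_lit 76) (nat_lit 4960709268) (nat_lit 18) (nat_lit 4) (nat_lit 19) (nat_lit 5) (nat_lit 19) (nat_lit 4) (nat_lit 460) (nat_lit 405) (nat_lit 335)))))) (XT.nd (nat_lit 468) (nat_lit 228) (nat_lit 0) (XT.nd (nat_lit 234) (nat_lit 152) (nat_lit 0) (XT.nd (nat_lit 78) (nat_lit 76) (nat_lit 0) (XT.lf (nat_lit 0) (nat_lit 15375246926) (nat_lit 76) (nat_lit 209581639) (nat_lit 152) (nat_lit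 79364602438) (nat_lit 16) (nat_lit 5) (nat_lit 17) (nat_lit 5) (nat_lit 18) (nat_lit 4) (nat_lit 461) (nat_lit 405) (nat_lit 334)) (XT.nd (nat_lit 78) (nat_lit 76) (nat_lit 0) (XT.lf (nat_lit 0) (nat_lit 38807987102) (nat_lit 152) (nat_lit 38853125338) (nat_lit 0) (nat_lit 23024129826) (nat_lit 16) (nat_lit 5) (nat_lit 18) (nat_lit 4) (nat_lit 16) (nat_lit 4) (nat_lit 462) (nat_lit 405) (nat_lit 333)) (XT.lf (nat_lit 0) (nat_lit 5360088773) (nat_lit 76) (nat_lit 58649328573) (nat_lit 76) (nat_lit 42860867930) (nat_lit 15) (nat_lit 4) (nat_lit 16) (nat_lit 5) (nat_lit 16) (nat_lit 4) (nat_lit 463) (nat_lit 405) (nat_lit 332)))) (XT.nd (nat_lit 78) (nat_lit 152) (nat_lit 0) (XT.lf (nat_lit 0) (nat_lit 55292467088) (nat_lit 76) (nat_lit 36983244038) (nat_lit 76) (nat_lit 21190521018) (nat_lit 15) (nat_lit 4) (nat_lit 16) (nat_lit 5) (nat_lit 16) (nat_lit 4) (nat_lit 464) (nat_lit 405) (nat_lit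 331)) (XT.nd (nat_lit 78) (nat_lit 76) (nat_lit 0) (XT.lf (nat_lit 0) (nat_lit 2089841777) (nat_lit 152) (nat_lit 11449798767) (nat_lit 76) (nat_lit 107046986698) (nat_lit 14) (nat_lit 5) (nat_lit 16) (nat_lit 5) (nat_lit 15) (nat_lit 4) (nat_lit 465) (nat_lit 405) (nat_lit 330)) (XT.lf (nat_lit 0) (nat_lit 27371536514) (nat_lit 152) (nat_lit 88016779222) (nat_lit 0) (nat_lit 12741606916) (nat_lit 13) (nat_lit 5) (nat_lit 15) (nat_lit 4) (nat_lit 13) (nat_lit 4) (nat_lit 466) (nat_lit 405) (nat_lit 329))))) (XT.nd (nat_lit 234) (nat_lit 152) (nat_lit 0) (XT.nd (nat_lit 78) (nat_lit 76) (nat_lit 0) (XT.lf (nat_lit 0) (nat_lit 55336731692) (nat_lit 152) (nat_lit 40183403946) (nat_lit 0) (nat_lit 40703669121) (nat_lit 13) (nat_lit 5) (nat_lit 15) (nat_lit 4) (nat_lit 13) (nat_lit 4) (nat_lit 467) (nat_lit 405) (nat_lit 328)) (XT.nd (nat_lit 78) (nat_lit 0) (nat_lit 0) (XT.lf (nat_lit 0) (nat_lit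 12057356827) (nat_lit 76) (nat_lit 73760743830) (nat_lit 76) (nat_lit 59124780357) (nat_lit 12) (nat_lit 4) (nat_lit 13) (nat_lit 5) (nat_lit 13) (nat_lit 4) (nat_lit 468) (nat_lit 405) (nat_lit 327)) (XT.lf (nat_lit 0) (nat_lit 70740770066) (nat_lit 76) (nat_lit 49085163336) (nat_lit 76) (nat_lit 34446513843) (nat_lit 12) (nat_lit 4) (nat_lit 13) (nat_lit 5) (nat_lit 13) (nat_lit 4) (nat_lit 469) (nat_lit 405) (nat_lit 326)))) (XT.nd (nat_lit 78) (nat_lit 152) (nat_lit 0) (XT.lf (nat_lit 0) (nat_lit 134098602490) (nat_lit 76) (nat_lit 22445853970) (nat_lit 76) (nat_lit 7804717421) (nat_lit 12) (nat_lit 4) (nat_lit 13) (nat_lit 5) (nat_lit 13) (nat_lit 4) (nat_lit 470) (nat_lit 405) (nat_lit 325)) (XT.nd (nat_lit 78) (nat_lit 0) (nat_lit 0) (XT.lf (nat_lit 0) (nat_lit 20770338342) (nat_lit 152) (nat_lit 147141691727) (nat_lit 0) (nat_lit 7211598177) (nat_lit 10) (nat_lit 5) (nat_lit 12)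 (nat_lit 4) (nat_lit 10) (nat_lit 4) (nat_lit 471) (nat_lit 405) (nat_lit 324)) (XT.lf (nat_lit 0) (nat_lit 52631916077) (nat_lit 152) (nat_lit 94926929847) (nat_lit 0) (nat_lit 39071201607) (nat_lit 10) (nat_lit 5) (nat_lit 12) (nat_lit 4) (nat_lit 10) (nat_lit 4) (nat_lit 472) (nat_lit 405) (nat_lit 323))))))) (XT.nd (nat_lit 936) (nat_lit 228) (nat_lit 0) (XT.nd (nat_lit 468) (nat_lit 76) (nat_lit 0) (XT.nd (nat_lit 234) (nat_lit 152) (nat_lit 0) (XT.nd (nat_lit 78) (nat_lit 76) (nat_lit 0) (XT.lf (nat_lit 0) (nat_lit 87033696252) (nat_lit 152) (nat_lit 38552828434) (nat_lit 0) (nat_lit 73471153721) (nat_lit 10) (nat_lit 5) (nat_lit 12) (nat_lit 4) (nat_lit 10) (nat_lit 4) (nat_lit 473) (nat_lit 405) (nat_lit 322)) (XT.nd (nat_lit 78) (nat_lit 0) (nat_lit 0) (XT.lf (nat_lit 0) (nat_lit 23489732831) (nat_lit 76) (nat_lit 101254737076) (nat_lit 76) (nat_lit 87690501897) (nat_lit 9) (nat_lit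 4) (nat_lit 10) (nat_lit 5) (nat_lit 10) (nat_lit 4) (nat_lit 474) (nat_lit 405) (nat_lit 321)) (XT.lf (nat_lit 0) (nat_lit 92672130903) (nat_lit 76) (nat_lit 73846210724) (nat_lit 76) (nat_lit 60280408278) (nat_lit 9) (nat_lit 4) (nat_lit 10) (nat_lit 5) (nat_lit 10) (nat_lit 4) (nat_lit 475) (nat_lit 405) (nat_lit 320)))) (XT.nd (nat_lit 78) (nat_lit 152) (nat_lit 0) (XT.lf (nat_lit 0) (nat_lit 167374211925) (nat_lit 76) (nat_lit 44252627384) (nat_lit 76) (nat_lit 30685373765) (nat_lit 9) (nat_lit 4) (nat_lit 10) (nat_lit 5) (nat_lit 10) (nat_lit 4) (nat_lit 476) (nat_lit 405) (nat_lit 319)) (XT.nd (nat_lit 78) (nat_lit 76) (nat_lit 0) (XT.lf (nat_lit 0) (nat_lit 1206450100) (nat_lit 152) (nat_lit 11059181088) (nat_lit 76) (nat_lit 246799218312) (nat_lit 8) (nat_lit 5) (nat_lit 10) (nat_lit 5) (nat_lit 9) (nat_lit 4) (nat_lit 477) (nat_lit 405) (nat_lit 318)) (XT.lf (nat_lit 0) (nat_lit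 36025419740) (nat_lit 152) (nat_lit 217445075075) (nat_lit 0) (nat_lit 23460751736) (nat_lit 7) (nat_lit 5) (nat_lit 9) (nat_lit 4) (nat_lit 7) (nat_lit 4) (nat_lit 478) (nat_lit 405) (nat_lit 317))))) (XT.nd (nat_lit 234) (nat_lit 76) (nat_lit 0) (XT.nd (nat_lit 78) (nat_lit 0) (nat_lit 0) (XT.lf (nat_lit 0) (nat_lit 74252328979) (nat_lit 152) (nat_lit 160238238392) (nat_lit 0) (nat_lit 61686594319) (nat_lit 7) (nat_lit 5) (nat_lit 9) (nat_lit 4) (nat_lit 7) (nat_lit 4) (nat_lit 479) (nat_lit 405) (nat_lit 316)) (XT.nd (nat_lit 78) (nat_lit 0) (nat_lit 0) (XT.lf (nat_lit 0) (nat_lit 115531467467) (nat_lit 152) (nat_lit 98467011370) (nat_lit 0) (nat_lit 102964745163) (nat_lit 7) (nat_lit 5) (nat_lit 9) (nat_lit 4) (nat_lit 7) (nat_lit 4) (nat_lit 480) (nat_lit 405) (nat_lit 315)) (XT.lf (nat_lit 0) (nat_lit 160107452321) (nat_lit 152) (nat_lit 31765342292) (nat_lit 0) (nat_lit 147539815532)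 (nat_lit 7) (nat_lit 5) (nat_lit 9) (nat_lit 4) (nat_lit 7) (nat_lit 4) (nat_lit 481) (nat_lit 405) (nat_lit 314)))) (XT.nd (nat_lit 78) (nat_lit 0) (nat_lit 0) (XT.lf (nat_lit 0) (nat_lit 42382165561) (nat_lit 76) (nat_lit 166881564065) (nat_lit 76) (nat_lit 154313080531) (nat_lit 6) (nat_lit 4) (nat_lit 7) (nat_lit 5) (nat_lit 7) (nat_lit 4) (nat_lit 482) (nat_lit 405) (nat_lit 313)) (XT.nd (nat_lit 78) (nat_lit 0) (nat_lit 0) (XT.lf (nat_lit 0) (nat_lit 124257838741) (nat_lit 76) (nat_lit 138958244558) (nat_lit 76) (nat_lit 126388976999) (nat_lit 6) (nat_lit 4) (nat_lit 7) (nat_lit 5) (nat_lit 7) (nat_lit 4) (nat_lit 483) (nat_lit 405) (nat_lit 312)) (XT.lf (nat_lit 0) (nat_lit 212674159790) (nat_lit 76) (nat_lit 108805885319) (nat_lit 76) (nat_lit 96235891813) (nat_lit 6) (nat_lit 4) (nat_lit 7) (nat_lit 5) (nat_lit 7) (nat_lit 4) (nat_lit 484) (nat_lit 405) (nat_lit 311)))))) (XT.nd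 (nat_lit 468) (nat_lit 76) (nat_lit 0) (XT.nd (nat_lit 234) (nat_lit 0) (nat_lit 0) (XT.nd (nat_lit 78) (nat_lit 152) (nat_lit 0) (XT.lf (nat_lit 0) (nat_lit 308155077277) (nat_lit 76) (nat_lit 76245805702) (nat_lit 76) (nat_lit 63675140021) (nat_lit 6) (nat_lit 4) (nat_lit 7) (nat_lit 5) (nat_lit 7) (nat_lit 4) (nat_lit 485) (nat_lit 405) (nat_lit 310)) (XT.nd (nat_lit 78) (nat_lit 152) (nat_lit 0) (XT.lf (nat_lit 0) (nat_lit 411266404047) (nat_lit 76) (nat_lit 41085057086) (nat_lit 76) (nat_lit 28513769022) (nat_lit 6) (nat_lit 4) (nat_lit 7) (nat_lit 5) (nat_lit 7) (nat_lit 4) (nat_lit 486) (nat_lit 405) (nat_lit 309)) (XT.lf (nat_lit 0) (nat_lit 6435820075) (nat_lit 76) (nat_lit 2702489741) (nat_lit 152) (nat_lit 507108977965) (nat_lit 4) (nat_lit 5) (nat_lit 5) (nat_lit 5) (nat_lit 6) (nat_lit 4) (nat_lit 487) (nat_lit 405) (nat_lit 308)))) (XT.nd (nat_lit 78) (nat_lit 0) (nat_lit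 0) (XT.lf (nat_lit 0) (nat_lit 51142682415) (nat_lit 152) (nat_lit 463525956110) (nat_lit 0) (nat_lit 39501573214) (nat_lit 4) (nat_lit 5) (nat_lit 6) (nat_lit 4) (nat_lit 4) (nat_lit 4) (nat_lit 488) (nat_lit 405) (nat_lit 307)) (XT.nd (nat_lit 78) (nat_lit 0) (nat_lit 0) (XT.lf (nat_lit 0) (nat_lit 96574149438) (nat_lit 152) (nat_lit 413614897877) (nat_lit 0) (nat_lit 84932582766) (nat_lit 4) (nat_lit 5) (nat_lit 6) (nat_lit 4) (nat_lit 4) (nat_lit 4) (nat_lit 489) (nat_lit 405) (nat_lit 306)) (XT.lf (nat_lit 0) (nat_lit 145636939450) (nat_lit 152) (nat_lit 359717528830) (nat_lit 0) (nat_lit 133994949194) (nat_lit 4) (nat_lit 5) (nat_lit 6) (nat_lit 4) (nat_lit 4) (nat_lit 4) (nat_lit 490) (nat_lit 405) (nat_lit 305))))) (XT.nd (nat_lit 234) (nat_lit 76) (nat_lit 0) (XT.nd (nat_lit 78) (nat_lit 0) (nat_lit 0) (XT.lf (nat_lit 0) (nat_lit 198621794910) (nat_lit 152) (nat_lit 301514457154)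 (nat_lit 0) (nat_lit 186979412447) (nat_lit 4) (nat_lit 5) (nat_lit 6) (nat_lit 4) (nat_lit 4) (nat_lit 4) (nat_lit 491) (nat_lit 405) (nat_lit 304)) (XT.nd (nat_lit 78) (nat_lit 0) (nat_lit 0) (XT.lf (nat_lit 0) (nat_lit 255842700147) (nat_lit 152) (nat_lit 238660775756) (nat_lit 0) (nat_lit 244199954529) (nat_lit 4) (nat_lit 5) (nat_lit 6) (nat_lit 4) (nat_lit 4) (nat_lit 4) (nat_lit 492) (nat_lit 405) (nat_lit 303)) (XT.lf (nat_lit 0) (nat_lit 317638742006) (nat_lit 152) (nat_lit 170784018377) (nat_lit 0) (nat_lit 305995660135) (nat_lit 4) (nat_lit 5) (nat_lit 6) (nat_lit 4) (nat_lit 4) (nat_lit 4) (nat_lit 493) (nat_lit 405) (nat_lit 302)))) (XT.nd (nat_lit 78) (nat_lit 76) (nat_lit 0) (XT.lf (nat_lit 0) (nat_lit 384376119256) (nat_lit 152) (nat_lit 97481952380) (nat_lit 0) (nat_lit 372732726038) (nat_lit 4) (nat_lit 5) (nat_lit 6) (nat_lit 4) (nat_lit 4) (nat_lit 4) (nat_lit 494) (nat_lit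 405) (nat_lit 301)) (XT.nd (nat_lit 78) (nat_lit 76) (nat_lit 0) (XT.lf (nat_lit 0) (nat_lit 456450312648) (nat_lit 152) (nat_lit 18320195152) (nat_lit 0) (nat_lit 444806631146) (nat_lit 4) (nat_lit 5) (nat_lit 6) (nat_lit 4) (nat_lit 4) (nat_lit 4) (nat_lit 495) (nat_lit 405) (nat_lit 300)) (XT.lf (nat_lit 0) (nat_lit 70707432138) (nat_lit 76) (nat_lit 465281511821) (nat_lit 76) (nat_lit 453637563390) (nat_lit 3) (nat_lit 4) (nat_lit 4) (nat_lit 5) (nat_lit 4) (nat_lit 4) (nat_lit 496) (nat_lit 405) (nat_lit 299))))))))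
noncomputable def xc108 : XT := (XT.nd (nat_lit 1794) (nat_lit 0) (nat_lit 0) (XT.nd (nat_lit 858) (nat_lit 152) (nat_lit 0) (XT.nd (nat_lit 390) (nat_lit 0) (nat_lit 0) (XT.nd (nat_lit 156) (nat_lit 0) (nat_lit 0) (XT.nd (nat_lit 78) (nat_lit 0) (nat_lit 0) (XT.lf (nat_lit 0) (nat_lit 167895117583) (nat_lit 76) (nat_lit 454494493799) (nat_lit 76) (nat_lit 442850298211) (nat_lit 3) (nat_lit 4) (nat_lit 4) (nat_lit 5) (nat_lit 4) (nat_lit 4) (nat_lit 497) (nat_lit 405) (nat_lit 298)) (XT.lf (nat_lit 0) (nat_lit 272854079196) (nat_lit 76) (nat_lit 442846437268) (nat_lit 76) (nat_lit 431202012830) (nat_lit 3) (nat_lit 4) (nat_lit 4) (nat_lit 5) (nat_lit 4) (nat_lit 4) (nat_lit 498) (nat_lit 405) (nat_lit 297))) (XT.nd (nat_lit 78) (nat_lit 0) (nat_lit 0) (XT.lf (nat_lit 0) (nat_lit 386206296009) (nat_lit 76) (nat_lit 430268316707) (nat_lit 76) (nat_lit 418623680372) (nat_lit 3) (nat_lit 4)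 (nat_lit 4) (nat_lit 5) (nat_lit 4) (nat_lit 4) (nat_lit 499) (nat_lit 405) (nat_lit 296)) (XT.nd (nat_lit 78) (nat_lit 0) (nat_lit 0) (XT.lf (nat_lit 0) (nat_lit 508623484863) (nat_lit 76) (nat_lit 416685595105) (nat_lit 76) (nat_lit 405040762569) (nat_lit 3) (nat_lit 4) (nat_lit 4) (nat_lit 5) (nat_lit 4) (nat_lit 4) (nat_lit 500) (nat_lit 405) (nat_lit 295)) (XT.lf (nat_lit 0) (nat_lit 640831080950) (nat_lit 76) (nat_lit 402017782260) (nat_lit 76) (nat_lit 390372768056) (nat_lit 3) (nat_lit 4) (nat_lit 4) (nat_lit 5) (nat_lit 4) (nat_lit 4) (nat_lit 501) (nat_lit 405) (nat_lit 294))))) (XT.nd (nat_lit 234) (nat_lit 0) (nat_lit 0) (XT.nd (nat_lit 78) (nat_lit 0) (nat_lit 0) (XT.lf (nat_lit 0) (nat_lit 783612536693) (nat_lit 76) (nat_lit 386177957800) (nat_lit 76) (nat_lit 374532775386) (nat_lit 3) (nat_lit 4) (nat_lit 4) (nat_lit 5) (nat_lit 4) (nat_lit 4) (nat_lit 502) (nat_lit 405)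 (nat_lit 293)) (XT.nd (nat_lit 78) (nat_lit 0) (nat_lit 0) (XT.lf (nat_lit 0) (nat_lit 937813964420) (nat_lit 76) (nat_lit 369072256099) (nat_lit 76) (nat_lit 357426917934) (nat_lit 3) (nat_lit 4) (nat_lit 4) (nat_lit 5) (nat_lit 4) (nat_lit 4) (nat_lit 503) (nat_lit 405) (nat_lit 292)) (XT.lf (nat_lit 0) (nat_lit 1104349150371) (nat_lit 76) (nat_lit 350599310035) (nat_lit 76) (nat_lit 338953827656) (nat_lit 3) (nat_lit 4) (nat_lit 4) (nat_lit 5) (nat_lit 4) (nat_lit 4) (nat_lit 504) (nat_lit 405) (nat_lit 291)))) (XT.nd (nat_lit 78) (nat_lit 0) (nat_lit 0) (XT.lf (nat_lit 0) (nat_lit 1284204969722) (nat_lit 76) (nat_lit 330649650299) (nat_lit 76) (nat_lit 319004034388) (nat_lit 3) (nat_lit 4) (nat_lit 4) (nat_lit 5) (nat_lit 4) (nat_lit 4) (nat_lit 505) (nat_lit 405) (nat_lit 290)) (XT.nd (nat_lit 78) (nat_lit 0) (nat_lit 0) (XT.lf (nat_lit 0) (nat_lit 1478447234735) (nat_lit 76) (nat_lit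 309105056683) (nat_lit 76) (nat_lit 297459317133) (nat_lit 3) (nat_lit 4) (nat_lit 4) (nat_lit 5) (nat_lit 4) (nat_lit 4) (nat_lit 506) (nat_lit 405) (nat_lit 289)) (XT.lf (nat_lit 0) (nat_lit 1688227010685) (nat_lit 76) (nat_lit 285837857524) (nat_lit 76) (nat_lit 274192003492) (nat_lit 3) (nat_lit 4) (nat_lit 4) (nat_lit 5) (nat_lit 4) (nat_lit 4) (nat_lit 507) (nat_lit 405) (nat_lit 288)))))) (XT.nd (nat_lit 468) (nat_lit 152) (nat_lit 0) (XT.nd (nat_lit 234) (nat_lit 0) (nat_lit 0) (XT.nd (nat_lit 78) (nat_lit 0) (nat_lit 0) (XT.lf (nat_lit 0) (nat_lit 1914787436984) (nat_lit 76) (nat_lit 260710173121) (nat_lit 76) (nat_lit 249064213088) (nat_lit 3) (nat_lit 4) (nat_lit 4) (nat_lit 5) (nat_lit 4) (nat_lit 4) (nat_lit 508) (nat_lit 405) (nat_lit 287)) (XT.nd (nat_lit 78) (nat_lit 0) (nat_lit 0) (XT.lf (nat_lit 0) (nat_lit 2159471093937) (nat_lit 76) (nat_lit 233573098678) (nat_lit 76)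 (nat_lit 221927040496) (nat_lit 3) (nat_lit 4) (nat_lit 4) (nat_lit 5) (nat_lit 4) (nat_lit 4) (nat_lit 509) (nat_lit 405) (nat_lit 286)) (XT.lf (nat_lit 0) (nat_lit 2423727958770) (nat_lit 76) (nat_lit 204265821903) (nat_lit 76) (nat_lit 192619672842) (nat_lit 3) (nat_lit 4) (nat_lit 4) (nat_lit 5) (nat_lit 4) (nat_lit 4) (nat_lit 510) (nat_lit 405) (nat_lit 285)))) (XT.nd (nat_lit 78) (nat_lit 0) (nat_lit 0) (XT.lf (nat_lit 0) (nat_lit 2709123998089) (nat_lit 76) (nat_lit 172614670044) (nat_lit 76) (nat_lit 160968436835) (nat_lit 3) (nat_lit 4) (nat_lit 4) (nat_lit 5) (nat_lit 4) (nat_lit 4) (nat_lit 511) (nat_lit 405) (nat_lit 284)) (XT.nd (nat_lit 78) (nat_lit 0) (nat_lit 0) (XT.lf (nat_lit 0) (nat_lit 3017350447683) (nat_lit 76) (nat_lit 138432080720) (nat_lit 76) (nat_lit 126785769597) (nat_lit 3) (nat_lit 4) (nat_lit 4) (nat_lit 5) (nat_lit 4) (nat_lit 4) (nat_lit 512) (nat_lit 405)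 (nat_lit 283)) (XT.lf (nat_lit 0) (nat_lit 3350233834661) (nat_lit 76) (nat_lit 101515490438) (nat_lit 76) (nat_lit 89869107172) (nat_lit 3) (nat_lit 4) (nat_lit 4) (nat_lit 5) (nat_lit 4) (nat_lit 4) (nat_lit 513) (nat_lit 405) (nat_lit 282))))) (XT.nd (nat_lit 234) (nat_lit 0) (nat_lit 0) (XT.nd (nat_lit 78) (nat_lit 152) (nat_lit 0) (XT.lf (nat_lit 0) (nat_lit 3709746801316) (nat_lit 76) (nat_lit 61646134220) (nat_lit 76) (nat_lit 49999684155) (nat_lit 3) (nat_lit 4) (nat_lit 4) (nat_lit 5) (nat_lit 4) (nat_lit 4) (nat_lit 514) (nat_lit 405) (nat_lit 281)) (XT.nd (nat_lit 78) (nat_lit 152) (nat_lit 0) (XT.lf (nat_lit 0) (nat_lit 4098019794858) (nat_lit 76) (nat_lit 18587749212) (nat_lit 76) (nat_lit 6941237296) (nat_lit 3) (nat_lit 4) (nat_lit 4) (nat_lit 5) (nat_lit 4) (nat_lit 4) (nat_lit 515) (nat_lit 405) (nat_lit 280)) (XT.lf (nat_lit 0) (nat_lit 40006354699) (nat_lit 152) (nat_lit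 4380378588587) (nat_lit 0) (nat_lit 29222494342) (nat_lit 1) (nat_lit 5) (nat_lit 3) (nat_lit 4) (nat_lit 1) (nat_lit 4) (nat_lit 516) (nat_lit 405) (nat_lit 279)))) (XT.nd (nat_lit 78) (nat_lit 0) (nat_lit 0) (XT.lf (nat_lit 0) (nat_lit 91533217681) (nat_lit 152) (nat_lit 4629357959477) (nat_lit 0) (nat_lit 80749308226) (nat_lit 1) (nat_lit 5) (nat_lit 3) (nat_lit 4) (nat_lit 1) (nat_lit 4) (nat_lit 517) (nat_lit 405) (nat_lit 278)) (XT.nd (nat_lit 78) (nat_lit 0) (nat_lit 0) (XT.lf (nat_lit 0) (nat_lit 147181798452) (nat_lit 152) (nat_lit 4898256569481) (nat_lit 0) (nat_lit 136397843534) (nat_lit 1) (nat_lit 5) (nat_lit 3) (nat_lit 4) (nat_lit 1) (nat_lit 4) (nat_lit 518) (nat_lit 405) (nat_lit 277)) (XT.lf (nat_lit 0) (nat_lit 207281866377) (nat_lit 152) (nat_lit 5188667891840) (nat_lit 0) (nat_lit 196497869365) (nat_lit 1) (nat_lit 5) (nat_lit 3) (nat_lit 4) (nat_lit 1) (nat_lit 4)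 (nat_lit 519) (nat_lit 405) (nat_lit 276))))))) (XT.nd (nat_lit 53586) (nat_lit 0) (nat_lit 4864) (XT.nd (nat_lit 390) (nat_lit 0) (nat_lit 0) (XT.nd (nat_lit 156) (nat_lit 0) (nat_lit 0) (XT.nd (nat_lit 78) (nat_lit 0) (nat_lit 0) (XT.lf (nat_lit 0) (nat_lit 272189570008) (nat_lit 152) (nat_lit 5502312882541) (nat_lit 0) (nat_lit 261405534019) (nat_lit 1) (nat_lit 5) (nat_lit 3) (nat_lit 4) (nat_lit 1) (nat_lit 4) (nat_lit 520) (nat_lit 405) (nat_lit 275)) (XT.lf (nat_lit 0) (nat_lit 342289547589) (nat_lit 152) (nat_lit 5841050178566) (nat_lit 0) (nat_lit 331505475510) (nat_lit 1) (nat_lit 5) (nat_lit 3) (nat_lit 4) (nat_lit 1) (nat_lit 4) (nat_lit 521) (nat_lit 405) (nat_lit 274))) (XT.nd (nat_lit 78) (nat_lit 0) (nat_lit 0) (XT.lf (nat_lit 0) (nat_lit 417997206393) (nat_lit 152) (nat_lit 6206887112037) (nat_lit 0) (nat_lit 407213100899) (nat_lit 1) (nat_lit 5) (nat_lit 3) (nat_lit 4)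 (nat_lit 1) (nat_lit 4) (nat_lit 522) (nat_lit 405) (nat_lit 273)) (XT.nd (nat_lit 78) (nat_lit 0) (nat_lit 0) (XT.lf (nat_lit 0) (nat_lit 499761184400) (nat_lit 152) (nat_lit 6601991605526) (nat_lit 0) (nat_lit 488977047964) (nat_lit 1) (nat_lit 5) (nat_lit 3) (nat_lit 4) (nat_lit 1) (nat_lit 4) (nat_lit 523) (nat_lit 405) (nat_lit 272)) (XT.lf (nat_lit 0) (nat_lit 588066008885) (nat_lit 152) (nat_lit 7028705018992) (nat_lit 0) (nat_lit 577281843801) (nat_lit 1) (nat_lit 5) (nat_lit 3) (nat_lit 4) (nat_lit 1) (nat_lit 4) (nat_lit 524) (nat_lit 405) (nat_lit 271))))) (XT.nd (nat_lit 234) (nat_lit 0) (nat_lit 0) (XT.nd (nat_lit 78) (nat_lit 0) (nat_lit 0) (XT.lf (nat_lit 0) (nat_lit 683434967699) (nat_lit 152) (nat_lit 7489556024515) (nat_lit 0) (nat_lit 672650776088) (nat_lit 1) (nat_lit 5) (nat_lit 3) (nat_lit 4) (nat_lit 1) (nat_lit 4) (nat_lit 525) (nat_lit 405) (nat_lit 270)) (XT.nd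 (nat_lit 78) (nat_lit 0) (nat_lit 0) (XT.lf (nat_lit 0) (nat_lit 786433210226) (nat_lit 152) (nat_lit 7987275591018) (nat_lit 0) (nat_lit 775648994054) (nat_lit 1) (nat_lit 5) (nat_lit 3) (nat_lit 4) (nat_lit 1) (nat_lit 4) (nat_lit 526) (nat_lit 405) (nat_lit 269)) (XT.lf (nat_lit 0) (nat_lit 897671096423) (nat_lit 152) (nat_lit 8524813167784) (nat_lit 0) (nat_lit 886886857508) (nat_lit 1) (nat_lit 5) (nat_lit 3) (nat_lit 4) (nat_lit 1) (nat_lit 4) (nat_lit 527) (nat_lit 405) (nat_lit 268)))) (XT.nd (nat_lit 78) (nat_lit 0) (nat_lit 0) (XT.lf (nat_lit 0) (nat_lit 1017807813762) (nat_lit 152) (nat_lit 9105354162673) (nat_lit 0) (nat_lit 1007023553789) (nat_lit 1) (nat_lit 5) (nat_lit 3) (nat_lit 4) (nat_lit 1) (nat_lit 4) (nat_lit 528) (nat_lit 405) (nat_lit 267)) (XT.nd (nat_lit 78) (nat_lit 0) (nat_lit 0) (XT.lf (nat_lit 0) (nat_lit 1147555283533) (nat_lit 152) (nat_lit 9732338818620)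 (nat_lit 0) (nat_lit 1136771004062) (nat_lit 1) (nat_lit 5) (nat_lit 3) (nat_lit 4) (nat_lit 1) (nat_lit 4) (nat_lit 529) (nat_lit 405) (nat_lit 266)) (XT.lf (nat_lit 0) (nat_lit 1287682379629) (nat_lit 152) (nat_lit 10409482600252) (nat_lit 0) (nat_lit 1276898082105) (nat_lit 1) (nat_lit 5) (nat_lit 3) (nat_lit 4) (nat_lit 1) (nat_lit 4) (nat_lit 530) (nat_lit 405) (nat_lit 265)))))) (XT.nd (nat_lit 468) (nat_lit 1520) (nat_lit 0) (XT.nd (nat_lit 234) (nat_lit 0) (nat_lit 0) (XT.nd (nat_lit 78) (nat_lit 0) (nat_lit 0) (XT.lf (nat_lit 0) (nat_lit 63757564) (nat_lit 0) (nat_lit 63757564) (nat_lit 380) (nat_lit 3611070074) (nat_lit 85) (nat_lit 5) (nat_lit 85) (nat_lit 3) (nat_lit 90) (nat_lit 3) (nat_lit 406) (nat_lit 406) (nat_lit 388)) (XT.nd (nat_lit 78) (nat_lit 0) (nat_lit 0) (XT.lf (nat_lit 0) (nat_lit 1765823792) (nat_lit 380) (nat_lit 3670767676) (nat_lit 456) (nat_lit 2218974821)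 (nat_lit 85) (nat_lit 5) (nat_lit 90) (nat_lit 3) (nat_lit 91) (nat_lit 5) (nat_lit 407) (nat_lit 406) (nat_lit 387)) (XT.lf (nat_lit 76) (nat_lit 224742857) (nat_lit 0) (nat_lit 3038681802) (nat_lit 456) (nat_lit 4595598063) (nat_lit 86) (nat_lit 5) (nat_lit 85) (nat_lit 5) (nat_lit 91) (nat_lit 5) (nat_lit 408) (nat_lit 406) (nat_lit 386)))) (XT.nd (nat_lit 78) (nat_lit 0) (nat_lit 76) (XT.lf (nat_lit 76) (nat_lit 4557203059) (nat_lit 0) (nat_lit 289791328) (nat_lit 456) (nat_lit 3234528036) (nat_lit 86) (nat_lit 5) (nat_lit 85) (nat_lit 5) (nat_lit 91) (nat_lit 5) (nat_lit 409) (nat_lit 406) (nat_lit 385)) (XT.nd (nat_lit 78) (nat_lit 0) (nat_lit 0) (XT.lf (nat_lit 76) (nat_lit 801716929) (nat_lit 0) (nat_lit 5716111119) (nat_lit 456) (nat_lit 1807202984) (nat_lit 87) (nat_lit 5) (nat_lit 86) (nat_lit 5) (nat_lit 92) (nat_lit 5) (nat_lit 410) (nat_lit 406) (nat_lit 384)) (XT.lf (nat_lit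 76) (nat_lit 5580185844) (nat_lit 0) (nat_lit 2729755840) (nat_lit 456) (nat_lit 279120694) (nat_lit 87) (nat_lit 5) (nat_lit 86) (nat_lit 5) (nat_lit 92) (nat_lit 5) (nat_lit 411) (nat_lit 406) (nat_lit 383))))) (XT.nd (nat_lit 234) (nat_lit 760) (nat_lit 0) (XT.nd (nat_lit 78) (nat_lit 456) (nat_lit 0) (XT.lf (nat_lit 0) (nat_lit 1251065341) (nat_lit 456) (nat_lit 7051262438) (nat_lit 76) (nat_lit 573418021) (nat_lit 81) (nat_lit 5) (nat_lit 87) (nat_lit 5) (nat_lit 82) (nat_lit 5) (nat_lit 412) (nat_lit 406) (nat_lit 382)) (XT.nd (nat_lit 78) (nat_lit 456) (nat_lit 0) (XT.lf (nat_lit 0) (nat_lit 2940234315) (nat_lit 456) (nat_lit 2135774648) (nat_lit 76) (nat_lit 4104683690) (nat_lit 81) (nat_lit 5) (nat_lit 87) (nat_lit 5) (nat_lit 82) (nat_lit 5) (nat_lit 413) (nat_lit 406) (nat_lit 381)) (XT.lf (nat_lit 0) (nat_lit 3250039476) (nat_lit 456) (nat_lit 1496679585) (nat_lit 532) (nat_lit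 4764779181) (nat_lit 75) (nat_lit 5) (nat_lit 81) (nat_lit 5) (nat_lit 82) (nat_lit 5) (nat_lit 414) (nat_lit 406) (nat_lit 380)))) (XT.nd (nat_lit 78) (nat_lit 760) (nat_lit 0) (XT.lf (nat_lit 0) (nat_lit 6723915550) (nat_lit 532) (nat_lit 825220465) (nat_lit 76) (nat_lit 2317571612) (nat_lit 75) (nat_lit 5) (nat_lit 82) (nat_lit 5) (nat_lit 76) (nat_lit 5) (nat_lit 415) (nat_lit 406) (nat_lit 379)) (XT.nd (nat_lit 78) (nat_lit 304) (nat_lit 0) (XT.lf (nat_lit 0) (nat_lit 5182188386) (nat_lit 456) (nat_lit 3756629911) (nat_lit 532) (nat_lit 1305185231) (nat_lit 69) (nat_lit 5) (nat_lit 75) (nat_lit 5) (nat_lit 76) (nat_lit 5) (nat_lit 416) (nat_lit 406) (nat_lit 378)) (XT.lf (nat_lit 0) (nat_lit 620888043) (nat_lit 304) (nat_lit 9647661310) (nat_lit 76) (nat_lit 383618479) (nat_lit 65) (nat_lit 5) (nat_lit 69) (nat_lit 5) (nat_lit 66) (nat_lit 5) (nat_lit 417) (nat_lit 406) (nat_lit 377))))))))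
noncomputable def xc109 : XT := (XT.nd (nat_lit 1794) (nat_lit 1444) (nat_lit 0) (XT.nd (nat_lit 858) (nat_lit 1140) (nat_lit 0) (XT.nd (nat_lit 390) (nat_lit 532) (nat_lit 0) (XT.nd (nat_lit 156) (nat_lit 456) (nat_lit 0) (XT.nd (nat_lit 78) (nat_lit 228) (nat_lit 0) (XT.lf (nat_lit 0) (nat_lit 2792162257) (nat_lit 304) (nat_lit 3463187213) (nat_lit 76) (nat_lit 4822018987) (nat_lit 65) (nat_lit 5) (nat_lit 69) (nat_lit 5) (nat_lit 66) (nat_lit 5) (nat_lit 418) (nat_lit 406) (nat_lit 376)) (XT.lf (nat_lit 0) (nat_lit 3297472569) (nat_lit 228) (nat_lit 1846803839) (nat_lit 304) (nat_lit 6391761357) (nat_lit 62) (nat_lit 5) (nat_lit 65) (nat_lit 5) (nat_lit 66) (nat_lit 5) (nat_lit 419) (nat_lit 406) (nat_lit 375))) (XT.nd (nat_lit 78) (nat_lit 456) (nat_lit 0) (XT.lf (nat_lit 0) (nat_lit 7782718471) (nat_lit 304) (nat_lit 1387068279) (nat_lit 76) (nat_lit 2853783088) (nat_lit 62) (nat_lit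 5) (nat_lit 66) (nat_lit 5) (nat_lit 63) (nat_lit 5) (nat_lit 420) (nat_lit 406) (nat_lit 374)) (XT.nd (nat_lit 78) (nat_lit 304) (nat_lit 0) (XT.lf (nat_lit 0) (nat_lit 6194225817) (nat_lit 152) (nat_lit 4570985133) (nat_lit 228) (nat_lit 1774275818) (nat_lit 60) (nat_lit 5) (nat_lit 62) (nat_lit 5) (nat_lit 63) (nat_lit 5) (nat_lit 421) (nat_lit 406) (nat_lit 373)) (XT.lf (nat_lit 0) (nat_lit 864767332) (nat_lit 304) (nat_lit 11775882487) (nat_lit 76) (nat_lit 452761455) (nat_lit 56) (nat_lit 5) (nat_lit 60) (nat_lit 5) (nat_lit 57) (nat_lit 5) (nat_lit 422) (nat_lit 406) (nat_lit 372))))) (XT.nd (nat_lit 234) (nat_lit 380) (nat_lit 0) (XT.nd (nat_lit 78) (nat_lit 152) (nat_lit 0) (XT.lf (nat_lit 0) (nat_lit 3855355187) (nat_lit 304) (nat_lit 3976672177) (nat_lit 76) (nat_lit 5837049423) (nat_lit 56) (nat_lit 5) (nat_lit 60) (nat_lit 5) (nat_lit 57) (nat_lit 5) (nat_lit 423) (nat_lit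 406) (nat_lit 371)) (XT.nd (nat_lit 78) (nat_lit 0) (nat_lit 0) (XT.lf (nat_lit 0) (nat_lit 4598953822) (nat_lit 152) (nat_lit 2540873063) (nat_lit 228) (nat_lit 7146612630) (nat_lit 54) (nat_lit 5) (nat_lit 56) (nat_lit 5) (nat_lit 57) (nat_lit 5) (nat_lit 424) (nat_lit 406) (nat_lit 370)) (XT.lf (nat_lit 0) (nat_lit 10820764855) (nat_lit 228) (nat_lit 1016246800) (nat_lit 76) (nat_lit 3105496737) (nat_lit 54) (nat_lit 5) (nat_lit 57) (nat_lit 5) (nat_lit 55) (nat_lit 5) (nat_lit 425) (nat_lit 406) (nat_lit 369)))) (XT.nd (nat_lit 78) (nat_lit 228) (nat_lit 0) (XT.lf (nat_lit 0) (nat_lit 8641464446) (nat_lit 152) (nat_lit 6378380706) (nat_lit 228) (nat_lit 613337034) (nat_lit 52) (nat_lit 5) (nat_lit 54) (nat_lit 5) (nat_lit 55) (nat_lit 5) (nat_lit 426) (nat_lit 406) (nat_lit 368)) (XT.nd (nat_lit 78) (nat_lit 0) (nat_lit 0) (XT.lf (nat_lit 0) (nat_lit 2738320154) (nat_lit 152) (nat_lit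 323495742) (nat_lit 228) (nat_lit 13307599831) (nat_lit 49) (nat_lit 5) (nat_lit 51) (nat_lit 5) (nat_lit 52) (nat_lit 5) (nat_lit 427) (nat_lit 406) (nat_lit 367)) (XT.lf (nat_lit 0) (nat_lit 7295361040) (nat_lit 228) (nat_lit 3750850306) (nat_lit 76) (nat_lit 6093271002) (nat_lit 49) (nat_lit 5) (nat_lit 52) (nat_lit 5) (nat_lit 50) (nat_lit 5) (nat_lit 428) (nat_lit 406) (nat_lit 366)))))) (XT.nd (nat_lit 468) (nat_lit 608) (nat_lit 0) (XT.nd (nat_lit 234) (nat_lit 228) (nat_lit 0) (XT.nd (nat_lit 78) (nat_lit 152) (nat_lit 0) (XT.lf (nat_lit 0) (nat_lit 7201672577) (nat_lit 152) (nat_lit 4802978574) (nat_lit 228) (nat_lit 5955547640) (nat_lit 47) (nat_lit 5) (nat_lit 49) (nat_lit 5) (nat_lit 50) (nat_lit 5) (nat_lit 429) (nat_lit 406) (nat_lit 365)) (XT.nd (nat_lit 78) (nat_lit 76) (nat_lit 0) (XT.lf (nat_lit 0) (nat_lit 299981530) (nat_lit 76) (nat_lit 16906293889) (nat_lit 152) (nat_lit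 1631058559) (nat_lit 46) (nat_lit 5) (nat_lit 47) (nat_lit 5) (nat_lit 48) (nat_lit 4) (nat_lit 430) (nat_lit 406) (nat_lit 364)) (XT.lf (nat_lit 0) (nat_lit 3270864118) (nat_lit 152) (nat_lit 7183109974) (nat_lit 76) (nat_lit 9294144197) (nat_lit 45) (nat_lit 5) (nat_lit 47) (nat_lit 5) (nat_lit 46) (nat_lit 5) (nat_lit 431) (nat_lit 406) (nat_lit 363)))) (XT.nd (nat_lit 78) (nat_lit 76) (nat_lit 0) (XT.lf (nat_lit 0) (nat_lit 5232633865) (nat_lit 152) (nat_lit 3330186580) (nat_lit 228) (nat_lit 12158682649) (nat_lit 43) (nat_lit 5) (nat_lit 45) (nat_lit 5) (nat_lit 46) (nat_lit 5) (nat_lit 432) (nat_lit 406) (nat_lit 362)) (XT.nd (nat_lit 78) (nat_lit 76) (nat_lit 0) (XT.lf (nat_lit 0) (nat_lit 14545501405) (nat_lit 228) (nat_lit 2883951319) (nat_lit 76) (nat_lit 4321922908) (nat_lit 43) (nat_lit 5) (nat_lit 46) (nat_lit 5) (nat_lit 44) (nat_lit 4) (nat_lit 433) (nat_lit 406) (nat_lit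 361)) (XT.lf (nat_lit 0) (nat_lit 11137984364) (nat_lit 76) (nat_lit 10186999550) (nat_lit 152) (nat_lit 1513205015) (nat_lit 42) (nat_lit 5) (nat_lit 43) (nat_lit 5) (nat_lit 44) (nat_lit 4) (nat_lit 434) (nat_lit 406) (nat_lit 360))))) (XT.nd (nat_lit 234) (nat_lit 304) (nat_lit 0) (XT.nd (nat_lit 78) (nat_lit 76) (nat_lit 0) (XT.lf (nat_lit 0) (nat_lit 2383391050) (nat_lit 152) (nat_lit 2121984813) (nat_lit 228) (nat_lit 19489470716) (nat_lit 39) (nat_lit 5) (nat_lit 41) (nat_lit 5) (nat_lit 42) (nat_lit 5) (nat_lit 435) (nat_lit 406) (nat_lit 359)) (XT.nd (nat_lit 78) (nat_lit 76) (nat_lit 0) (XT.lf (nat_lit 0) (nat_lit 11375050714) (nat_lit 228) (nat_lit 7228368484) (nat_lit 76) (nat_lit 6601369233) (nat_lit 39) (nat_lit 5) (nat_lit 42) (nat_lit 5) (nat_lit 40) (nat_lit 4) (nat_lit 436) (nat_lit 406) (nat_lit 358)) (XT.lf (nat_lit 0) (nat_lit 8623346960) (nat_lit 76) (nat_lit 10400774883)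 (nat_lit 152) (nat_lit 7469022361) (nat_lit 38) (nat_lit 5) (nat_lit 39) (nat_lit 5) (nat_lit 40) (nat_lit 4) (nat_lit 437) (nat_lit 406) (nat_lit 357)))) (XT.nd (nat_lit 78) (nat_lit 304) (nat_lit 0) (XT.lf (nat_lit 0) (nat_lit 26097481907) (nat_lit 76) (nat_lit 1353642360) (nat_lit 152) (nat_lit 420167753) (nat_lit 38) (nat_lit 5) (nat_lit 39) (nat_lit 5) (nat_lit 40) (nat_lit 4) (nat_lit 438) (nat_lit 406) (nat_lit 356)) (XT.nd (nat_lit 78) (nat_lit 76) (nat_lit 0) (XT.lf (nat_lit 0) (nat_lit 7408639018) (nat_lit 228) (nat_lit 13340849764) (nat_lit 76) (nat_lit 8550300048) (nat_lit 35) (nat_lit 5) (nat_lit 38) (nat_lit 5) (nat_lit 36) (nat_lit 4) (nat_lit 439) (nat_lit 406) (nat_lit 355)) (XT.lf (nat_lit 0) (nat_lit 4495481522) (nat_lit 76) (nat_lit 11508937361) (nat_lit 152) (nat_lit 14824207145) (nat_lit 34) (nat_lit 5) (nat_lit 35) (nat_lit 5) (nat_lit 36) (nat_lit 4) (nat_lit 440)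 (nat_lit 406) (nat_lit 354))))))) (XT.nd (nat_lit 936) (nat_lit 684) (nat_lit 0) (XT.nd (nat_lit 468) (nat_lit 380) (nat_lit 0) (XT.nd (nat_lit 234) (nat_lit 228) (nat_lit 0) (XT.nd (nat_lit 78) (nat_lit 152) (nat_lit 0) (XT.lf (nat_lit 0) (nat_lit 24464237908) (nat_lit 76) (nat_lit 1159637763) (nat_lit 152) (nat_lit 6829016331) (nat_lit 34) (nat_lit 5) (nat_lit 35) (nat_lit 5) (nat_lit 36) (nat_lit 4) (nat_lit 441) (nat_lit 406) (nat_lit 353)) (XT.nd (nat_lit 78) (nat_lit 0) (nat_lit 0) (XT.lf (nat_lit 0) (nat_lit 2234290446) (nat_lit 152) (nat_lit 22084338338) (nat_lit 76) (nat_lit 9843491978) (nat_lit 32) (nat_lit 5) (nat_lit 34) (nat_lit 5) (nat_lit 33) (nat_lit 4) (nat_lit 442) (nat_lit 406) (nat_lit 352)) (XT.lf (nat_lit 0) (nat_lit 11880906362) (nat_lit 152) (nat_lit 2050903275) (nat_lit 76) (nat_lit 22043915267) (nat_lit 32) (nat_lit 5) (nat_lit 34) (nat_lit 5) (nat_lit 33) (nat_lit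 4) (nat_lit 443) (nat_lit 406) (nat_lit 351)))) (XT.nd (nat_lit 78) (nat_lit 152) (nat_lit 0) (XT.lf (nat_lit 0) (nat_lit 20566845139) (nat_lit 76) (nat_lit 2202012758) (nat_lit 152) (nat_lit 15127993151) (nat_lit 31) (nat_lit 5) (nat_lit 32) (nat_lit 5) (nat_lit 33) (nat_lit 4) (nat_lit 444) (nat_lit 406) (nat_lit 350)) (XT.nd (nat_lit 78) (nat_lit 76) (nat_lit 0) (XT.lf (nat_lit 0) (nat_lit 5097892654) (nat_lit 76) (nat_lit 29836998975) (nat_lit 76) (nat_lit 5004213986) (nat_lit 30) (nat_lit 4) (nat_lit 31) (nat_lit 5) (nat_lit 31) (nat_lit 4) (nat_lit 445) (nat_lit 406) (nat_lit 349)) (XT.lf (nat_lit 0) (nat_lit 6151483637) (nat_lit 152) (nat_lit 12060871604) (nat_lit 76) (nat_lit 23879488160) (nat_lit 29) (nat_lit 5) (nat_lit 31) (nat_lit 5) (nat_lit 30) (nat_lit 4) (nat_lit 446) (nat_lit 406) (nat_lit 348))))) (XT.nd (nat_lit 234) (nat_lit 228) (nat_lit 0) (XT.nd (nat_lit 78) (nat_lit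 76) (nat_lit 0) (XT.lf (nat_lit 0) (nat_lit 13019183004) (nat_lit 76) (nat_lit 5200334625) (nat_lit 152) (nat_lit 26163666769) (nat_lit 28) (nat_lit 5) (nat_lit 29) (nat_lit 5) (nat_lit 30) (nat_lit 4) (nat_lit 447) (nat_lit 406) (nat_lit 347)) (XT.nd (nat_lit 78) (nat_lit 76) (nat_lit 0) (XT.lf (nat_lit 0) (nat_lit 31781523472) (nat_lit 152) (nat_lit 6305542307) (nat_lit 0) (nat_lit 8728486046) (nat_lit 28) (nat_lit 5) (nat_lit 30) (nat_lit 4) (nat_lit 28) (nat_lit 4) (nat_lit 448) (nat_lit 406) (nat_lit 346)) (XT.lf (nat_lit 0) (nat_lit 21665409960) (nat_lit 76) (nat_lit 25398180967) (nat_lit 76) (nat_lit 2328111001) (nat_lit 27) (nat_lit 4) (nat_lit 28) (nat_lit 5) (nat_lit 28) (nat_lit 4) (nat_lit 449) (nat_lit 406) (nat_lit 345)))) (XT.nd (nat_lit 78) (nat_lit 152) (nat_lit 0) (XT.lf (nat_lit 0) (nat_lit 10980215274) (nat_lit 152) (nat_lit 246993063) (nat_lit 76) (nat_lit 40912340379)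 (nat_lit 26) (nat_lit 5) (nat_lit 28) (nat_lit 5) (nat_lit 27) (nat_lit 4) (nat_lit 450) (nat_lit 406) (nat_lit 344)) (XT.nd (nat_lit 78) (nat_lit 76) (nat_lit 0) (XT.lf (nat_lit 0) (nat_lit 26069086593) (nat_lit 152) (nat_lit 24286180455) (nat_lit 0) (nat_lit 4679787063) (nat_lit 25) (nat_lit 5) (nat_lit 27) (nat_lit 4) (nat_lit 25) (nat_lit 4) (nat_lit 451) (nat_lit 406) (nat_lit 343)) (XT.lf (nat_lit 0) (nat_lit 6049580538) (nat_lit 76) (nat_lit 36740229967) (nat_lit 76) (nat_lit 15338411012) (nat_lit 24) (nat_lit 4) (nat_lit 25) (nat_lit 5) (nat_lit 25) (nat_lit 4) (nat_lit 452) (nat_lit 406) (nat_lit 342)))))) (XT.nd (nat_lit 468) (nat_lit 304) (nat_lit 0) (XT.nd (nat_lit 234) (nat_lit 228) (nat_lit 0) (XT.nd (nat_lit 78) (nat_lit 76) (nat_lit 0) (XT.lf (nat_lit 0) (nat_lit 72427195) (nat_lit 152) (nat_lit 21262762449) (nat_lit 76) (nat_lit 40081885286) (nat_lit 23) (nat_lit 5) (nat_lit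 25) (nat_lit 5) (nat_lit 24) (nat_lit 4) (nat_lit 453) (nat_lit 406) (nat_lit 341)) (XT.nd (nat_lit 78) (nat_lit 0) (nat_lit 0) (XT.lf (nat_lit 0) (nat_lit 12194738010) (nat_lit 76) (nat_lit 3968186227) (nat_lit 152) (nat_lit 48752204007) (nat_lit 22) (nat_lit 5) (nat_lit 23) (nat_lit 5) (nat_lit 24) (nat_lit 4) (nat_lit 454) (nat_lit 406) (nat_lit 340)) (XT.lf (nat_lit 0) (nat_lit 34475042333) (nat_lit 152) (nat_lit 19514564293) (nat_lit 0) (nat_lit 14628669437) (nat_lit 22) (nat_lit 5) (nat_lit 24) (nat_lit 4) (nat_lit 22) (nat_lit 4) (nat_lit 455) (nat_lit 406) (nat_lit 339)))) (XT.nd (nat_lit 78) (nat_lit 152) (nat_lit 0) (XT.lf (nat_lit 0) (nat_lit 17065606364) (nat_lit 76) (nat_lit 37683598710) (nat_lit 76) (nat_lit 17828705304) (nat_lit 21) (nat_lit 4) (nat_lit 22) (nat_lit 5) (nat_lit 22) (nat_lit 4) (nat_lit 456) (nat_lit 406) (nat_lit 338)) (XT.nd (nat_lit 78) (nat_lit 76) (nat_lit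 0) (XT.lf (nat_lit 0) (nat_lit 332473358) (nat_lit 152) (nat_lit 19171238181) (nat_lit 76) (nat_lit 57308524056) (nat_lit 20) (nat_lit 5) (nat_lit 22) (nat_lit 5) (nat_lit 21) (nat_lit 4) (nat_lit 457) (nat_lit 406) (nat_lit 337)) (XT.lf (nat_lit 0) (nat_lit 19491628194) (nat_lit 152) (nat_lit 60722570103) (nat_lit 0) (nat_lit 1093398813) (nat_lit 19) (nat_lit 5) (nat_lit 21) (nat_lit 4) (nat_lit 19) (nat_lit 4) (nat_lit 458) (nat_lit 406) (nat_lit 336))))) (XT.nd (nat_lit 234) (nat_lit 228) (nat_lit 0) (XT.nd (nat_lit 78) (nat_lit 76) (nat_lit 0) (XT.lf (nat_lit 0) (nat_lit 41212776894) (nat_lit 152) (nat_lit 22059185557) (nat_lit 0) (nat_lit 22808284683) (nat_lit 19) (nat_lit 5) (nat_lit 21) (nat_lit 4) (nat_lit 19) (nat_lit 4) (nat_lit 459) (nat_lit 406) (nat_lit 335)) (XT.nd (nat_lit 78) (nat_lit 0) (nat_lit 0) (XT.lf (nat_lit 0) (nat_lit 20704856927) (nat_lit 76) (nat_lit 44450713784)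 (nat_lit 76) (nat_lit 26040422657) (nat_lit 18) (nat_lit 4) (nat_lit 19) (nat_lit 5) (nat_lit 19) (nat_lit 4) (nat_lit 460) (nat_lit 406) (nat_lit 334)) (XT.lf (nat_lit 0) (nat_lit 68117107366) (nat_lit 76) (nat_lit 23486195825) (nat_lit 76) (nat_lit 5070535331) (nat_lit 18) (nat_lit 4) (nat_lit 19) (nat_lit 5) (nat_lit 19) (nat_lit 4) (nat_lit 461) (nat_lit 406) (nat_lit 333)))) (XT.nd (nat_lit 78) (nat_lit 76) (nat_lit 0) (XT.lf (nat_lit 0) (nat_lit 17098036030) (nat_lit 152) (nat_lit 85384133352) (nat_lit 0) (nat_lit 41895169) (nat_lit 16) (nat_lit 5) (nat_lit 18) (nat_lit 4) (nat_lit 16) (nat_lit 4) (nat_lit 462) (nat_lit 406) (nat_lit 332)) (XT.nd (nat_lit 78) (nat_lit 76) (nat_lit 0) (XT.lf (nat_lit 0) (nat_lit 42164352790) (nat_lit 152) (nat_lit 41451614464) (nat_lit 0) (nat_lit 25103949553) (nat_lit 16) (nat_lit 5) (nat_lit 18) (nat_lit 4) (nat_lit 16) (nat_lit 4) (nat_lit 463)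 (nat_lit 406) (nat_lit 331)) (XT.lf (nat_lit 0) (nat_lit 6285751437) (nat_lit 76) (nat_lit 63089448982) (nat_lit 76) (nat_lit 46025099100) (nat_lit 15) (nat_lit 4) (nat_lit 16) (nat_lit 5) (nat_lit 16) (nat_lit 4) (nat_lit 464) (nat_lit 406) (nat_lit 330))))))))
noncomputable def xc110 : XT := (XT.nd (nat_lit 1794) (nat_lit 228) (nat_lit 0) (XT.nd (nat_lit 858) (nat_lit 228) (nat_lit 0) (XT.nd (nat_lit 390) (nat_lit 228) (nat_lit 0) (XT.nd (nat_lit 156) (nat_lit 152) (nat_lit 0) (XT.nd (nat_lit 78) (nat_lit 76) (nat_lit 0) (XT.lf (nat_lit 0) (nat_lit 60175915901) (nat_lit 76) (nat_lit 39708731452) (nat_lit 76) (nat_lit 22640727269) (nat_lit 15) (nat_lit 4) (nat_lit 16) (nat_lit 5) (nat_lit 16) (nat_lit 4) (nat_lit 465) (nat_lit 406) (nat_lit 329)) (XT.lf (nat_lit 0) (nat_lit 2472564088) (nat_lit 152) (nat_lit 11928454491) (nat_lit 76) (nat_lit 115815291118) (nat_lit 14) (nat_lit 5) (nat_lit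 16) (nat_lit 5) (nat_lit 15) (nat_lit 4) (nat_lit 466) (nat_lit 406) (nat_lit 328))) (XT.nd (nat_lit 78) (nat_lit 76) (nat_lit 0) (XT.lf (nat_lit 0) (nat_lit 29776285614) (nat_lit 152) (nat_lit 94620280032) (nat_lit 0) (nat_lit 13966544162) (nat_lit 13) (nat_lit 5) (nat_lit 15) (nat_lit 4) (nat_lit 13) (nat_lit 4) (nat_lit 467) (nat_lit 406) (nat_lit 327)) (XT.nd (nat_lit 78) (nat_lit 76) (nat_lit 0) (XT.lf (nat_lit 0) (nat_lit 59962768542) (nat_lit 152) (nat_lit 42992667440) (nat_lit 0) (nat_lit 44150341069) (nat_lit 13) (nat_lit 5) (nat_lit 15) (nat_lit 4) (nat_lit 13) (nat_lit 4) (nat_lit 468) (nat_lit 406) (nat_lit 326)) (XT.lf (nat_lit 0) (nat_lit 13417090681) (nat_lit 76) (nat_lit 79460311574) (nat_lit 76) (nat_lit 63645397046) (nat_lit 12) (nat_lit 4) (nat_lit 13) (nat_lit 5) (nat_lit 13) (nat_lit 4) (nat_lit 469) (nat_lit 406) (nat_lit 325))))) (XT.nd (nat_lit 234) (nat_lit 76)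 (nat_lit 0) (XT.nd (nat_lit 78) (nat_lit 152) (nat_lit 0) (XT.lf (nat_lit 0) (nat_lit 76765906956) (nat_lit 76) (nat_lit 52825595142) (nat_lit 76) (nat_lit 37008377784) (nat_lit 12) (nat_lit 4) (nat_lit 13) (nat_lit 5) (nat_lit 13) (nat_lit 4) (nat_lit 470) (nat_lit 406) (nat_lit 324)) (XT.nd (nat_lit 78) (nat_lit 152) (nat_lit 0) (XT.lf (nat_lit 0) (nat_lit 145165264100) (nat_lit 76) (nat_lit 24068947045) (nat_lit 76) (nat_lit 8249597438) (nat_lit 12) (nat_lit 4) (nat_lit 13) (nat_lit 5) (nat_lit 13) (nat_lit 4) (nat_lit 471) (nat_lit 406) (nat_lit 323)) (XT.lf (nat_lit 0) (nat_lit 22602162977) (nat_lit 152) (nat_lit 158564947866) (nat_lit 0) (nat_lit 7952788984) (nat_lit 10) (nat_lit 5) (nat_lit 12) (nat_lit 4) (nat_lit 10) (nat_lit 4) (nat_lit 472) (nat_lit 406) (nat_lit 322)))) (XT.nd (nat_lit 78) (nat_lit 76) (nat_lit 0) (XT.lf (nat_lit 0) (nat_lit 57000059703) (nat_lit 152) (nat_lit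 102198788679) (nat_lit 0) (nat_lit 42348993062) (nat_lit 10) (nat_lit 5) (nat_lit 12) (nat_lit 4) (nat_lit 10) (nat_lit 4) (nat_lit 473) (nat_lit 406) (nat_lit 321)) (XT.nd (nat_lit 78) (nat_lit 76) (nat_lit 0) (XT.lf (nat_lit 0) (nat_lit 94142308933) (nat_lit 152) (nat_lit 41338632898) (nat_lit 0) (nat_lit 79489675025) (nat_lit 10) (nat_lit 5) (nat_lit 12) (nat_lit 4) (nat_lit 10) (nat_lit 4) (nat_lit 474) (nat_lit 406) (nat_lit 320)) (XT.lf (nat_lit 0) (nat_lit 25659778285) (nat_lit 76) (nat_lit 109206352884) (nat_lit 76) (nat_lit 94552267803) (nat_lit 9) (nat_lit 4) (nat_lit 10) (nat_lit 5) (nat_lit 10) (nat_lit 4) (nat_lit 475) (nat_lit 406) (nat_lit 319)))))) (XT.nd (nat_lit 468) (nat_lit 76) (nat_lit 0) (XT.nd (nat_lit 234) (nat_lit 76) (nat_lit 0) (XT.nd (nat_lit 78) (nat_lit 76) (nat_lit 0) (XT.lf (nat_lit 0) (nat_lit 100355222512) (nat_lit 76) (nat_lit 79616163917) (nat_lit 76)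 (nat_lit 64960735157) (nat_lit 9) (nat_lit 4) (nat_lit 10) (nat_lit 5) (nat_lit 10) (nat_lit 4) (nat_lit 476) (nat_lit 406) (nat_lit 318)) (XT.nd (nat_lit 78) (nat_lit 76) (nat_lit 0) (XT.lf (nat_lit 0) (nat_lit 181013520302) (nat_lit 76) (nat_lit 47665297144) (nat_lit 76) (nat_lit 33008624237) (nat_lit 9) (nat_lit 4) (nat_lit 10) (nat_lit 5) (nat_lit 10) (nat_lit 4) (nat_lit 477) (nat_lit 406) (nat_lit 317)) (XT.lf (nat_lit 0) (nat_lit 1418704342) (nat_lit 152) (nat_lit 11706919862) (nat_lit 76) (nat_lit 266655152520) (nat_lit 8) (nat_lit 5) (nat_lit 10) (nat_lit 5) (nat_lit 9) (nat_lit 4) (nat_lit 478) (nat_lit 406) (nat_lit 316)))) (XT.nd (nat_lit 78) (nat_lit 0) (nat_lit 0) (XT.lf (nat_lit 0) (nat_lit 39023018331) (nat_lit 152) (nat_lit 234603510591) (nat_lit 0) (nat_lit 25449970599) (nat_lit 7) (nat_lit 5) (nat_lit 9) (nat_lit 4) (nat_lit 7) (nat_lit 4) (nat_lit 479) (nat_lit 406)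 (nat_lit 315)) (XT.nd (nat_lit 78) (nat_lit 0) (nat_lit 0) (XT.lf (nat_lit 0) (nat_lit 80299519938) (nat_lit 152) (nat_lit 172837695159) (nat_lit 0) (nat_lit 66725557720) (nat_lit 7) (nat_lit 5) (nat_lit 9) (nat_lit 4) (nat_lit 7) (nat_lit 4) (nat_lit 480) (nat_lit 406) (nat_lit 314)) (XT.lf (nat_lit 0) (nat_lit 124873063235) (nat_lit 152) (nat_lit 106141036812) (nat_lit 0) (nat_lit 111298254272) (nat_lit 7) (nat_lit 5) (nat_lit 9) (nat_lit 4) (nat_lit 7) (nat_lit 4) (nat_lit 481) (nat_lit 406) (nat_lit 313))))) (XT.nd (nat_lit 234) (nat_lit 0) (nat_lit 0) (XT.nd (nat_lit 78) (nat_lit 76) (nat_lit 0) (XT.lf (nat_lit 0) (nat_lit 173007787739) (nat_lit 152) (nat_lit 34118296094) (nat_lit 0) (nat_lit 159432194752) (nat_lit 7) (nat_lit 5) (nat_lit 9) (nat_lit 4) (nat_lit 7) (nat_lit 4) (nat_lit 482) (nat_lit 406) (nat_lit 312)) (XT.nd (nat_lit 78) (nat_lit 0) (nat_lit 0) (XT.lf (nat_lit 0)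 (nat_lit 45956245967) (nat_lit 76) (nat_lit 180137939114) (nat_lit 76) (nat_lit 166561620180) (nat_lit 6) (nat_lit 4) (nat_lit 7) (nat_lit 5) (nat_lit 7) (nat_lit 4) (nat_lit 483) (nat_lit 406) (nat_lit 311)) (XT.lf (nat_lit 0) (nat_lit 134368379879) (nat_lit 76) (nat_lit 149987728126) (nat_lit 76) (nat_lit 136410737017) (nat_lit 6) (nat_lit 4) (nat_lit 7) (nat_lit 5) (nat_lit 7) (nat_lit 4) (nat_lit 484) (nat_lit 406) (nat_lit 310)))) (XT.nd (nat_lit 78) (nat_lit 0) (nat_lit 0) (XT.lf (nat_lit 0) (nat_lit 229845420387) (nat_lit 76) (nat_lit 117429637629) (nat_lit 76) (nat_lit 103852024137) (nat_lit 6) (nat_lit 4) (nat_lit 7) (nat_lit 5) (nat_lit 7) (nat_lit 4) (nat_lit 485) (nat_lit 406) (nat_lit 309)) (XT.nd (nat_lit 78) (nat_lit 0) (nat_lit 0) (XT.lf (nat_lit 0) (nat_lit 332953157360) (nat_lit 76) (nat_lit 82270730792) (nat_lit 76) (nat_lit 68692541019) (nat_lit 6) (nat_lit 4) (nat_lit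 7) (nat_lit 5) (nat_lit 7) (nat_lit 4) (nat_lit 486) (nat_lit 406) (nat_lit 308)) (XT.lf (nat_lit 0) (nat_lit 444302599612) (nat_lit 76) (nat_lit 44302658536) (nat_lit 76) (nat_lit 30723935170) (nat_lit 6) (nat_lit 4) (nat_lit 7) (nat_lit 5) (nat_lit 7) (nat_lit 4) (nat_lit 487) (nat_lit 406) (nat_lit 307))))))) (XT.nd (nat_lit 936) (nat_lit 0) (nat_lit 0) (XT.nd (nat_lit 468) (nat_lit 76) (nat_lit 0) (XT.nd (nat_lit 234) (nat_lit 0) (nat_lit 0) (XT.nd (nat_lit 78) (nat_lit 0) (nat_lit 0) (XT.lf (nat_lit 0) (nat_lit 7085613554) (nat_lit 76) (nat_lit 2849401343) (nat_lit 152) (nat_lit 547606803963) (nat_lit 4) (nat_lit 5) (nat_lit 5) (nat_lit 5) (nat_lit 6) (nat_lit 4) (nat_lit 488) (nat_lit 406) (nat_lit 306)) (XT.nd (nat_lit 78) (nat_lit 0) (nat_lit 0) (XT.lf (nat_lit 0) (nat_lit 55296417994) (nat_lit 152) (nat_lit 500479779406) (nat_lit 0) (nat_lit 42722644934) (nat_lit 4) (nat_lit 5)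 (nat_lit 6) (nat_lit 4) (nat_lit 4) (nat_lit 4) (nat_lit 489) (nat_lit 406) (nat_lit 305)) (XT.lf (nat_lit 0) (nat_lit 104357786009) (nat_lit 152) (nat_lit 446585336751) (nat_lit 0) (nat_lit 91783620742) (nat_lit 4) (nat_lit 5) (nat_lit 6) (nat_lit 4) (nat_lit 4) (nat_lit 4) (nat_lit 490) (nat_lit 406) (nat_lit 304)))) (XT.nd (nat_lit 78) (nat_lit 0) (nat_lit 0) (XT.lf (nat_lit 0) (nat_lit 157341324805) (nat_lit 152) (nat_lit 388384974696) (nat_lit 0) (nat_lit 144766796384) (nat_lit 4) (nat_lit 5) (nat_lit 6) (nat_lit 4) (nat_lit 4) (nat_lit 4) (nat_lit 491) (nat_lit 406) (nat_lit 303)) (XT.nd (nat_lit 78) (nat_lit 0) (nat_lit 0) (XT.lf (nat_lit 0) (nat_lit 214561010910) (nat_lit 152) (nat_lit 325533802207) (nat_lit 0) (nat_lit 201986146234) (nat_lit 4) (nat_lit 5) (nat_lit 6) (nat_lit 4) (nat_lit 4) (nat_lit 4) (nat_lit 492) (nat_lit 406) (nat_lit 302)) (XT.lf (nat_lit 0) (nat_lit 276355923943)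 (nat_lit 152) (nat_lit 257659367892) (nat_lit 0) (nat_lit 263780747921) (nat_lit 4) (nat_lit 5) (nat_lit 6) (nat_lit 4) (nat_lit 4) (nat_lit 4) (nat_lit 493) (nat_lit 406) (nat_lit 301))))) (XT.nd (nat_lit 234) (nat_lit 76) (nat_lit 0) (XT.nd (nat_lit 78) (nat_lit 0) (nat_lit 0) (XT.lf (nat_lit 0) (nat_lit 343092255982) (nat_lit 152) (nat_lit 184359452880) (nat_lit 0) (nat_lit 330516791676) (nat_lit 4) (nat_lit 5) (nat_lit 6) (nat_lit 4) (nat_lit 4) (nat_lit 4) (nat_lit 494) (nat_lit 406) (nat_lit 300)) (XT.nd (nat_lit 78) (nat_lit 0) (nat_lit 0) (XT.lf (nat_lit 0) (nat_lit 415165481588) (nat_lit 152) (nat_lit 105199687304) (nat_lit 0) (nat_lit 402589750352) (nat_lit 4) (nat_lit 5) (nat_lit 6) (nat_lit 4) (nat_lit 4) (nat_lit 4) (nat_lit 495) (nat_lit 406) (nat_lit 299)) (XT.lf (nat_lit 0) (nat_lit 493002701356) (nat_lit 152) (nat_lit 19710976258) (nat_lit 0) (nat_lit 480426722964) (nat_lit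 4) (nat_lit 5) (nat_lit 6) (nat_lit 4) (nat_lit 4) (nat_lit 4) (nat_lit 496) (nat_lit 406) (nat_lit 298)))) (XT.nd (nat_lit 78) (nat_lit 0) (nat_lit 0) (XT.lf (nat_lit 0) (nat_lit 76436966670) (nat_lit 76) (nat_lit 502466517102) (nat_lit 76) (nat_lit 489890309860) (nat_lit 3) (nat_lit 4) (nat_lit 4) (nat_lit 5) (nat_lit 4) (nat_lit 4) (nat_lit 497) (nat_lit 406) (nat_lit 297)) (XT.nd (nat_lit 78) (nat_lit 0) (nat_lit 0) (XT.lf (nat_lit 0) (nat_lit 181394263991) (nat_lit 76) (nat_lit 490819316577) (nat_lit 76) (nat_lit 478242897438) (nat_lit 3) (nat_lit 4) (nat_lit 4) (nat_lit 5) (nat_lit 4) (nat_lit 4) (nat_lit 498) (nat_lit 406) (nat_lit 296)) (XT.lf (nat_lit 0) (nat_lit 294744939792) (nat_lit 76) (nat_lit 478241988614) (nat_lit 76) (nat_lit 465665373273) (nat_lit 3) (nat_lit 4) (nat_lit 4) (nat_lit 5) (nat_lit 4) (nat_lit 4) (nat_lit 499) (nat_lit 406) (nat_lit 295)))))) (XT.nd (nat_lit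 468) (nat_lit 0) (nat_lit 0) (XT.nd (nat_lit 234) (nat_lit 0) (nat_lit 0) (XT.nd (nat_lit 78) (nat_lit 0) (nat_lit 0) (XT.lf (nat_lit 0) (nat_lit 417160701783) (nat_lit 76) (nat_lit 464660000899) (nat_lit 76) (nat_lit 452083203891) (nat_lit 3) (nat_lit 4) (nat_lit 4) (nat_lit 5) (nat_lit 4) (nat_lit 4) (nat_lit 500) (nat_lit 406) (nat_lit 294)) (XT.nd (nat_lit 78) (nat_lit 0) (nat_lit 0) (XT.lf (nat_lit 0) (nat_lit 549366976701) (nat_lit 76) (nat_lit 449992867580) (nat_lit 76) (nat_lit 437415902361) (nat_lit 3) (nat_lit 4) (nat_lit 4) (nat_lit 5) (nat_lit 4) (nat_lit 4) (nat_lit 501) (nat_lit 406) (nat_lit 293)) (XT.lf (nat_lit 0) (nat_lit 692147209139) (nat_lit 76) (nat_lit 434153672310) (nat_lit 76) (nat_lit 421576551340) (nat_lit 3) (nat_lit 4) (nat_lit 4) (nat_lit 5) (nat_lit 4) (nat_lit 4) (nat_lit 502) (nat_lit 406) (nat_lit 292)))) (XT.nd (nat_lit 78) (nat_lit 0) (nat_lit 0) (XT.lf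 (nat_lit 0) (nat_lit 846347504176) (nat_lit 76) (nat_lit 417048553192) (nat_lit 76) (nat_lit 404471288009) (nat_lit 3) (nat_lit 4) (nat_lit 4) (nat_lit 5) (nat_lit 4) (nat_lit 4) (nat_lit 503) (nat_lit 406) (nat_lit 291)) (XT.nd (nat_lit 78) (nat_lit 0) (nat_lit 0) (XT.lf (nat_lit 0) (nat_lit 1012881641341) (nat_lit 76) (nat_lit 398576146557) (nat_lit 76) (nat_lit 385998747843) (nat_lit 3) (nat_lit 4) (nat_lit 4) (nat_lit 5) (nat_lit 4) (nat_lit 4) (nat_lit 504) (nat_lit 406) (nat_lit 290)) (XT.lf (nat_lit 0) (nat_lit 1192736489593) (nat_lit 76) (nat_lit 378626986292) (nat_lit 76) (nat_lit 366049463937) (nat_lit 3) (nat_lit 4) (nat_lit 4) (nat_lit 5) (nat_lit 4) (nat_lit 4) (nat_lit 505) (nat_lit 406) (nat_lit 289))))) (XT.nd (nat_lit 234) (nat_lit 0) (nat_lit 0) (XT.nd (nat_lit 78) (nat_lit 0) (nat_lit 0) (XT.lf (nat_lit 0) (nat_lit 1386977855440) (nat_lit 76) (nat_lit 357082855150) (nat_lit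 76) (nat_lit 344505218314) (nat_lit 3) (nat_lit 4) (nat_lit 4) (nat_lit 5) (nat_lit 4) (nat_lit 4) (nat_lit 506) (nat_lit 406) (nat_lit 288)) (XT.nd (nat_lit 78) (nat_lit 0) (nat_lit 0) (XT.lf (nat_lit 0) (nat_lit 1596756798829) (nat_lit 76) (nat_lit 333816084206) (nat_lit 76) (nat_lit 321238341369) (nat_lit 3) (nat_lit 4) (nat_lit 4) (nat_lit 5) (nat_lit 4) (nat_lit 4) (nat_lit 507) (nat_lit 406) (nat_lit 287)) (XT.lf (nat_lit 0) (nat_lit 1823316454239) (nat_lit 76) (nat_lit 308688796300) (nat_lit 76) (nat_lit 296110955313) (nat_lit 3) (nat_lit 4) (nat_lit 4) (nat_lit 5) (nat_lit 4) (nat_lit 4) (nat_lit 508) (nat_lit 406) (nat_lit 286)))) (XT.nd (nat_lit 78) (nat_lit 0) (nat_lit 0) (XT.lf (nat_lit 0) (nat_lit 2067999397405) (nat_lit 76) (nat_lit 281552088984) (nat_lit 76) (nat_lit 268974157118) (nat_lit 3) (nat_lit 4) (nat_lit 4) (nat_lit 5) (nat_lit 4) (nat_lit 4) (nat_lit 509) (nat_lit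 406) (nat_lit 285)) (XT.nd (nat_lit 78) (nat_lit 0) (nat_lit 0) (XT.lf (nat_lit 0) (nat_lit 2332255601324) (nat_lit 76) (nat_lit 252245152141) (nat_lit 76) (nat_lit 239667136127) (nat_lit 3) (nat_lit 4) (nat_lit 4) (nat_lit 5) (nat_lit 4) (nat_lit 4) (nat_lit 510) (nat_lit 406) (nat_lit 284)) (XT.lf (nat_lit 0) (nat_lit 2617651028687) (nat_lit 76) (nat_lit 220594315033) (nat_lit 76) (nat_lit 208016221106) (nat_lit 3) (nat_lit 4) (nat_lit 4) (nat_lit 5) (nat_lit 4) (nat_lit 4) (nat_lit 511) (nat_lit 406) (nat_lit 283))))))))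
noncomputable def xc111 : XT := (XT.nd (nat_lit 54600) (nat_lit 0) (nat_lit 3192) (XT.nd (nat_lit 858) (nat_lit 0) (nat_lit 0) (XT.nd (nat_lit 390) (nat_lit 152) (nat_lit 0) (XT.nd (nat_lit 156) (nat_lit 0) (nat_lit 0) (XT.nd (nat_lit 78) (nat_lit 0) (nat_lit 0) (XT.lf (nat_lit 0) (nat_lit 2925876911654) (nat_lit 76) (nat_lit 186412017146) (nat_lit 76) (nat_lit 173833851076) (nat_lit 3) (nat_lit 4) (nat_lit 4) (nat_lit 5) (nat_lit 4) (nat_lit 4) (nat_lit 512) (nat_lit 406) (nat_lit 282)) (XT.lf (nat_lit 0) (nat_lit 3258759773978) (nat_lit 76) (nat_lit 149495696713) (nat_lit 76) (nat_lit 136917463844) (nat_lit 3) (nat_lit 4) (nat_lit 4) (nat_lit 5) (nat_lit 4) (nat_lit 4) (nat_lit 513) (nat_lit 406) (nat_lit 281))) (XT.nd (nat_lit 78) (nat_lit 0) (nat_lit 0) (XT.lf (nat_lit 0) (nat_lit 3618272254841) (nat_lit 76) (nat_lit 109626590354) (nat_lit 76) (nat_lit 97048295634) (nat_lit 3) (nat_lit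 4) (nat_lit 4) (nat_lit 5) (nat_lit 4) (nat_lit 4) (nat_lit 514) (nat_lit 406) (nat_lit 280)) (XT.nd (nat_lit 78) (nat_lit 0) (nat_lit 0) (XT.lf (nat_lit 0) (nat_lit 4006544798576) (nat_lit 76) (nat_lit 66568436698) (nat_lit 76) (nat_lit 53990084709) (nat_lit 3) (nat_lit 4) (nat_lit 4) (nat_lit 5) (nat_lit 4) (nat_lit 4) (nat_lit 515) (nat_lit 406) (nat_lit 279)) (XT.lf (nat_lit 0) (nat_lit 4425878279516) (nat_lit 76) (nat_lit 20066076317) (nat_lit 76) (nat_lit 7487671301) (nat_lit 3) (nat_lit 4) (nat_lit 4) (nat_lit 5) (nat_lit 4) (nat_lit 4) (nat_lit 516) (nat_lit 406) (nat_lit 278))))) (XT.nd (nat_lit 234) (nat_lit 0) (nat_lit 0) (XT.nd (nat_lit 78) (nat_lit 0) (nat_lit 0) (XT.lf (nat_lit 0) (nat_lit 43215276618) (nat_lit 152) (nat_lit 4730791523020) (nat_lit 0) (nat_lit 31568559845) (nat_lit 1) (nat_lit 5) (nat_lit 3) (nat_lit 4) (nat_lit 1) (nat_lit 4) (nat_lit 517) (nat_lit 406) (nat_lit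 277)) (XT.nd (nat_lit 78) (nat_lit 0) (nat_lit 0) (XT.lf (nat_lit 0) (nat_lit 98863665414) (nat_lit 152) (nat_lit 4999690528964) (nat_lit 0) (nat_lit 87216906546) (nat_lit 1) (nat_lit 5) (nat_lit 3) (nat_lit 4) (nat_lit 1) (nat_lit 4) (nat_lit 518) (nat_lit 406) (nat_lit 276)) (XT.lf (nat_lit 0) (nat_lit 158963555585) (nat_lit 152) (nat_lit 5290102217935) (nat_lit 0) (nat_lit 147316757741) (nat_lit 1) (nat_lit 5) (nat_lit 3) (nat_lit 4) (nat_lit 1) (nat_lit 4) (nat_lit 519) (nat_lit 406) (nat_lit 275)))) (XT.nd (nat_lit 78) (nat_lit 0) (nat_lit 0) (XT.lf (nat_lit 0) (nat_lit 223871094629) (nat_lit 152) (nat_lit 5603747548092) (nat_lit 0) (nat_lit 212224260696) (nat_lit 1) (nat_lit 5) (nat_lit 3) (nat_lit 4) (nat_lit 1) (nat_lit 4) (nat_lit 520) (nat_lit 406) (nat_lit 274)) (XT.nd (nat_lit 78) (nat_lit 0) (nat_lit 0) (XT.lf (nat_lit 0) (nat_lit 293970919814) (nat_lit 152) (nat_lit 5942485158426)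 (nat_lit 0) (nat_lit 282324052465) (nat_lit 1) (nat_lit 5) (nat_lit 3) (nat_lit 4) (nat_lit 1) (nat_lit 4) (nat_lit 521) (nat_lit 406) (nat_lit 273)) (XT.lf (nat_lit 0) (nat_lit 369678437512) (nat_lit 152) (nat_lit 6308322382927) (nat_lit 0) (nat_lit 358031539221) (nat_lit 1) (nat_lit 5) (nat_lit 3) (nat_lit 4) (nat_lit 1) (nat_lit 4) (nat_lit 522) (nat_lit 406) (nat_lit 272)))))) (XT.nd (nat_lit 468) (nat_lit 0) (nat_lit 0) (XT.nd (nat_lit 234) (nat_lit 0) (nat_lit 0) (XT.nd (nat_lit 78) (nat_lit 0) (nat_lit 0) (XT.lf (nat_lit 0) (nat_lit 451442284864) (nat_lit 152) (nat_lit 6703427145885) (nat_lit 0) (nat_lit 439795357925) (nat_lit 1) (nat_lit 5) (nat_lit 3) (nat_lit 4) (nat_lit 1) (nat_lit 4) (nat_lit 523) (nat_lit 406) (nat_lit 271)) (XT.nd (nat_lit 78) (nat_lit 0) (nat_lit 0) (XT.lf (nat_lit 0) (nat_lit 539746988373) (nat_lit 152) (nat_lit 7130140808861) (nat_lit 0) (nat_lit 528100034907)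 (nat_lit 1) (nat_lit 5) (nat_lit 3) (nat_lit 4) (nat_lit 1) (nat_lit 4) (nat_lit 524) (nat_lit 406) (nat_lit 270)) (XT.lf (nat_lit 0) (nat_lit 635115835172) (nat_lit 152) (nat_lit 7590992045412) (nat_lit 0) (nat_lit 623468857144) (nat_lit 1) (nat_lit 5) (nat_lit 3) (nat_lit 4) (nat_lit 1) (nat_lit 4) (nat_lit 525) (nat_lit 406) (nat_lit 269)))) (XT.nd (nat_lit 78) (nat_lit 0) (nat_lit 0) (XT.lf (nat_lit 0) (nat_lit 738113973981) (nat_lit 152) (nat_lit 8088711825830) (nat_lit 0) (nat_lit 726466973211) (nat_lit 1) (nat_lit 5) (nat_lit 3) (nat_lit 4) (nat_lit 1) (nat_lit 4) (nat_lit 526) (nat_lit 406) (nat_lit 268)) (XT.nd (nat_lit 78) (nat_lit 0) (nat_lit 0) (XT.lf (nat_lit 0) (nat_lit 849351764143) (nat_lit 152) (nat_lit 8626249600664) (nat_lit 0) (nat_lit 837704742315) (nat_lit 1) (nat_lit 5) (nat_lit 3) (nat_lit 4) (nat_lit 1) (nat_lit 4) (nat_lit 527) (nat_lit 406) (nat_lit 267)) (XT.lf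 (nat_lit 0) (nat_lit 969488392561) (nat_lit 152) (nat_lit 9206790778951) (nat_lit 0) (nat_lit 957841351235) (nat_lit 1) (nat_lit 5) (nat_lit 3) (nat_lit 4) (nat_lit 1) (nat_lit 4) (nat_lit 528) (nat_lit 406) (nat_lit 266))))) (XT.nd (nat_lit 53040) (nat_lit 0) (nat_lit 6384) (XT.nd (nat_lit 78) (nat_lit 0) (nat_lit 0) (XT.lf (nat_lit 0) (nat_lit 1099235779997) (nat_lit 152) (nat_lit 9833775604710) (nat_lit 0) (nat_lit 1087588720617) (nat_lit 1) (nat_lit 5) (nat_lit 3) (nat_lit 4) (nat_lit 1) (nat_lit 4) (nat_lit 529) (nat_lit 406) (nat_lit 265)) (XT.nd (nat_lit 52884) (nat_lit 0) (nat_lit 6384) (XT.lf (nat_lit 0) (nat_lit 1239362799858) (nat_lit 152) (nat_lit 10510919543575) (nat_lit 0) (nat_lit 1227715723761) (nat_lit 1) (nat_lit 5) (nat_lit 3) (nat_lit 4) (nat_lit 1) (nat_lit 4) (nat_lit 530) (nat_lit 406) (nat_lit 264)) (XT.lf (nat_lit 0) (nat_lit 773696926) (nat_lit 0) (nat_lit 773696926)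 (nat_lit 380) (nat_lit 2376875896) (nat_lit 85) (nat_lit 5) (nat_lit 85) (nat_lit 3) (nat_lit 90) (nat_lit 3) (nat_lit 407) (nat_lit 407) (nat_lit 386)))) (XT.nd (nat_lit 78) (nat_lit 0) (nat_lit 0) (XT.lf (nat_lit 0) (nat_lit 4486212151) (nat_lit 380) (nat_lit 2417776468) (nat_lit 456) (nat_lit 1156530088) (nat_lit 85) (nat_lit 5) (nat_lit 90) (nat_lit 3) (nat_lit 91) (nat_lit 5) (nat_lit 408) (nat_lit 407) (nat_lit 385)) (XT.nd (nat_lit 78) (nat_lit 0) (nat_lit 0) (XT.lf (nat_lit 76) (nat_lit 1750219145) (nat_lit 0) (nat_lit 4198611170) (nat_lit 456) (nat_lit 2343890757) (nat_lit 86) (nat_lit 5) (nat_lit 85) (nat_lit 5) (nat_lit 91) (nat_lit 5) (nat_lit 409) (nat_lit 407) (nat_lit 384)) (XT.lf (nat_lit 76) (nat_lit 6317609729) (nat_lit 0) (nat_lit 1161895767) (nat_lit 456) (nat_lit 1067961435) (nat_lit 86) (nat_lit 5) (nat_lit 85) (nat_lit 5) (nat_lit 91) (nat_lit 5) (nat_lit 410) (nat_lit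 407) (nat_lit 383))))))) (XT.nd (nat_lit 936) (nat_lit 1292) (nat_lit 0) (XT.nd (nat_lit 468) (nat_lit 684) (nat_lit 0) (XT.nd (nat_lit 234) (nat_lit 836) (nat_lit 0) (XT.nd (nat_lit 78) (nat_lit 0) (nat_lit 0) (XT.lf (nat_lit 0) (nat_lit 298202191) (nat_lit 456) (nat_lit 6407646934) (nat_lit 532) (nat_lit 2115897069) (nat_lit 80) (nat_lit 5) (nat_lit 86) (nat_lit 5) (nat_lit 87) (nat_lit 5) (nat_lit 411) (nat_lit 407) (nat_lit 382)) (XT.nd (nat_lit 78) (nat_lit 0) (nat_lit 76) (XT.lf (nat_lit 0) (nat_lit 1706541929) (nat_lit 456) (nat_lit 1695492362) (nat_lit 532) (nat_lit 5714508489) (nat_lit 80) (nat_lit 5) (nat_lit 86) (nat_lit 5) (nat_lit 87) (nat_lit 5) (nat_lit 412) (nat_lit 407) (nat_lit 381)) (XT.lf (nat_lit 0) (nat_lit 3223708291) (nat_lit 456) (nat_lit 5947431293) (nat_lit 76) (nat_lit 264128319) (nat_lit 81) (nat_lit 5) (nat_lit 87) (nat_lit 5) (nat_lit 82) (nat_lit 5) (nat_lit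 413) (nat_lit 407) (nat_lit 380)))) (XT.nd (nat_lit 78) (nat_lit 912) (nat_lit 0) (XT.lf (nat_lit 0) (nat_lit 4909302803) (nat_lit 456) (nat_lit 762255009) (nat_lit 76) (nat_lit 4104203622) (nat_lit 81) (nat_lit 5) (nat_lit 87) (nat_lit 5) (nat_lit 82) (nat_lit 5) (nat_lit 414) (nat_lit 407) (nat_lit 379)) (XT.nd (nat_lit 78) (nat_lit 456) (nat_lit 0) (XT.lf (nat_lit 0) (nat_lit 5015325976) (nat_lit 456) (nat_lit 1752749139) (nat_lit 532) (nat_lit 3372385123) (nat_lit 75) (nat_lit 5) (nat_lit 81) (nat_lit 5) (nat_lit 82) (nat_lit 5) (nat_lit 415) (nat_lit 407) (nat_lit 378)) (XT.lf (nat_lit 0) (nat_lit 660818794) (nat_lit 456) (nat_lit 8133883878) (nat_lit 532) (nat_lit 1738129820) (nat_lit 69) (nat_lit 5) (nat_lit 75) (nat_lit 5) (nat_lit 76) (nat_lit 5) (nat_lit 416) (nat_lit 407) (nat_lit 377))))) (XT.nd (nat_lit 234) (nat_lit 380) (nat_lit 0) (XT.nd (nat_lit 78) (nat_lit 228) (nat_lit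 0) (XT.lf (nat_lit 0) (nat_lit 139053256) (nat_lit 532) (nat_lit 3873980041) (nat_lit 76) (nat_lit 6934452605) (nat_lit 68) (nat_lit 5) (nat_lit 75) (nat_lit 5) (nat_lit 69) (nat_lit 5) (nat_lit 417) (nat_lit 407) (nat_lit 376)) (XT.nd (nat_lit 78) (nat_lit 0) (nat_lit 0) (XT.lf (nat_lit 0) (nat_lit 2078495730) (nat_lit 304) (nat_lit 8789930179) (nat_lit 76) (nat_lit 522818538) (nat_lit 65) (nat_lit 5) (nat_lit 69) (nat_lit 5) (nat_lit 66) (nat_lit 5) (nat_lit 418) (nat_lit 407) (nat_lit 375)) (XT.lf (nat_lit 0) (nat_lit 4319180278) (nat_lit 304) (nat_lit 2231405120) (nat_lit 76) (nat_lit 5308253266) (nat_lit 65) (nat_lit 5) (nat_lit 69) (nat_lit 5) (nat_lit 66) (nat_lit 5) (nat_lit 419) (nat_lit 407) (nat_lit 374)))) (XT.nd (nat_lit 78) (nat_lit 152) (nat_lit 0) (XT.lf (nat_lit 0) (nat_lit 5031909037) (nat_lit 228) (nat_lit 1766357120) (nat_lit 304) (nat_lit 5560862832) (nat_lit 62) (nat_lit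 5) (nat_lit 65) (nat_lit 5) (nat_lit 66) (nat_lit 5) (nat_lit 420) (nat_lit 407) (nat_lit 373)) (XT.nd (nat_lit 78) (nat_lit 152) (nat_lit 0) (XT.lf (nat_lit 0) (nat_lit 9560831908) (nat_lit 304) (nat_lit 49012944) (nat_lit 76) (nat_lit 3282804241) (nat_lit 62) (nat_lit 5) (nat_lit 66) (nat_lit 5) (nat_lit 63) (nat_lit 5) (nat_lit 421) (nat_lit 407) (nat_lit 372)) (XT.lf (nat_lit 0) (nat_lit 8102100608) (nat_lit 152) (nat_lit 4628197616) (nat_lit 228) (nat_lit 723698359) (nat_lit 60) (nat_lit 5) (nat_lit 62) (nat_lit 5) (nat_lit 63) (nat_lit 5) (nat_lit 422) (nat_lit 407) (nat_lit 371)))))) (XT.nd (nat_lit 468) (nat_lit 456) (nat_lit 0) (XT.nd (nat_lit 234) (nat_lit 380) (nat_lit 0) (XT.nd (nat_lit 78) (nat_lit 152) (nat_lit 0) (XT.lf (nat_lit 0) (nat_lit 2025865512) (nat_lit 304) (nat_lit 11204408220) (nat_lit 76) (nat_lit 822966039) (nat_lit 56) (nat_lit 5) (nat_lit 60) (nat_lit 5) (nat_lit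 57) (nat_lit 5) (nat_lit 423) (nat_lit 407) (nat_lit 370)) (XT.nd (nat_lit 78) (nat_lit 152) (nat_lit 0) (XT.lf (nat_lit 0) (nat_lit 5174817670) (nat_lit 304) (nat_lit 2893375519) (nat_lit 76) (nat_lit 6613257514) (nat_lit 56) (nat_lit 5) (nat_lit 60) (nat_lit 5) (nat_lit 57) (nat_lit 5) (nat_lit 424) (nat_lit 407) (nat_lit 369)) (XT.lf (nat_lit 0) (nat_lit 6332821308) (nat_lit 152) (nat_lit 2347185541) (nat_lit 228) (nat_lit 6671578783) (nat_lit 54) (nat_lit 5) (nat_lit 56) (nat_lit 5) (nat_lit 57) (nat_lit 5) (nat_lit 425) (nat_lit 407) (nat_lit 368)))) (XT.nd (nat_lit 78) (nat_lit 228) (nat_lit 0) (XT.lf (nat_lit 0) (nat_lit 242523803) (nat_lit 152) (nat_lit 12355791099) (nat_lit 228) (nat_lit 3466411998) (nat_lit 52) (nat_lit 5) (nat_lit 54) (nat_lit 5) (nat_lit 55) (nat_lit 5) (nat_lit 426) (nat_lit 407) (nat_lit 367)) (XT.nd (nat_lit 78) (nat_lit 152) (nat_lit 0) (XT.lf (nat_lit 0)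 (nat_lit 263603877) (nat_lit 228) (nat_lit 6193589560) (nat_lit 76) (nat_lit 10356289961) (nat_lit 51) (nat_lit 5) (nat_lit 54) (nat_lit 5) (nat_lit 52) (nat_lit 5) (nat_lit 427) (nat_lit 407) (nat_lit 366)) (XT.lf (nat_lit 0) (nat_lit 4167346791) (nat_lit 228) (nat_lit 13347578912) (nat_lit 76) (nat_lit 95013013) (nat_lit 49) (nat_lit 5) (nat_lit 52) (nat_lit 5) (nat_lit 50) (nat_lit 5) (nat_lit 428) (nat_lit 407) (nat_lit 365))))) (XT.nd (nat_lit 234) (nat_lit 228) (nat_lit 0) (XT.nd (nat_lit 78) (nat_lit 228) (nat_lit 0) (XT.lf (nat_lit 0) (nat_lit 8683608543) (nat_lit 228) (nat_lit 2786472201) (nat_lit 76) (nat_lit 6976020870) (nat_lit 49) (nat_lit 5) (nat_lit 52) (nat_lit 5) (nat_lit 50) (nat_lit 5) (nat_lit 429) (nat_lit 407) (nat_lit 364)) (XT.nd (nat_lit 78) (nat_lit 76) (nat_lit 0) (XT.lf (nat_lit 0) (nat_lit 9010241218) (nat_lit 152) (nat_lit 4729439353) (nat_lit 228) (nat_lit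 5595204285) (nat_lit 47) (nat_lit 5) (nat_lit 49) (nat_lit 5) (nat_lit 50) (nat_lit 5) (nat_lit 430) (nat_lit 407) (nat_lit 363)) (XT.lf (nat_lit 0) (nat_lit 1575040099) (nat_lit 76) (nat_lit 17765294719) (nat_lit 152) (nat_lit 943235686) (nat_lit 46) (nat_lit 5) (nat_lit 47) (nat_lit 5) (nat_lit 48) (nat_lit 4) (nat_lit 431) (nat_lit 407) (nat_lit 362)))) (XT.nd (nat_lit 78) (nat_lit 152) (nat_lit 0) (XT.lf (nat_lit 0) (nat_lit 4252322600) (nat_lit 152) (nat_lit 6561342176) (nat_lit 76) (nat_lit 10456594998) (nat_lit 45) (nat_lit 5) (nat_lit 47) (nat_lit 5) (nat_lit 46) (nat_lit 5) (nat_lit 432) (nat_lit 407) (nat_lit 361)) (XT.nd (nat_lit 78) (nat_lit 0) (nat_lit 0) (XT.lf (nat_lit 0) (nat_lit 6817372142) (nat_lit 152) (nat_lit 3124990957) (nat_lit 228) (nat_lit 12381183297) (nat_lit 43) (nat_lit 5) (nat_lit 45) (nat_lit 5) (nat_lit 46) (nat_lit 5) (nat_lit 433) (nat_lit 407) (nat_lit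 360)) (XT.lf (nat_lit 0) (nat_lit 16362714909) (nat_lit 228) (nat_lit 1993869027) (nat_lit 76) (nat_lit 5082508851) (nat_lit 43) (nat_lit 5) (nat_lit 46) (nat_lit 5) (nat_lit 44) (nat_lit 4) (nat_lit 434) (nat_lit 407) (nat_lit 359))))))))
noncomputable def xc112 : XT := (XT.nd (nat_lit 1794) (nat_lit 1064) (nat_lit 0) (XT.nd (nat_lit 858) (nat_lit 760) (nat_lit 0) (XT.nd (nat_lit 390) (nat_lit 456) (nat_lit 0) (XT.nd (nat_lit 156) (nat_lit 152) (nat_lit 0) (XT.nd (nat_lit 78) (nat_lit 228) (nat_lit 0) (XT.lf (nat_lit 0) (nat_lit 13121446868) (nat_lit 76) (nat_lit 10540969126) (nat_lit 152) (nat_lit 952214287) (nat_lit 42) (nat_lit 5) (nat_lit 43) (nat_lit 5) (nat_lit 44) (nat_lit 4) (nat_lit 435) (nat_lit 407) (nat_lit 358)) (XT.lf (nat_lit 0) (nat_lit 3672174216) (nat_lit 152) (nat_lit 1819975009) (nat_lit 228) (nat_lit 20372092659) (nat_lit 39) (nat_lit 5) (nat_lit 41) (nat_lit 5) (nat_lit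 42) (nat_lit 5) (nat_lit 436) (nat_lit 407) (nat_lit 357))) (XT.nd (nat_lit 78) (nat_lit 152) (nat_lit 0) (XT.lf (nat_lit 0) (nat_lit 12875507863) (nat_lit 228) (nat_lit 6753898835) (nat_lit 76) (nat_lit 7544449896) (nat_lit 39) (nat_lit 5) (nat_lit 42) (nat_lit 5) (nat_lit 40) (nat_lit 4) (nat_lit 437) (nat_lit 407) (nat_lit 356)) (XT.nd (nat_lit 78) (nat_lit 76) (nat_lit 0) (XT.lf (nat_lit 0) (nat_lit 10339302221) (nat_lit 76) (nat_lit 10778142624) (nat_lit 152) (nat_lit 7449366597) (nat_lit 38) (nat_lit 5) (nat_lit 39) (nat_lit 5) (nat_lit 40) (nat_lit 4) (nat_lit 438) (nat_lit 407) (nat_lit 355)) (XT.lf (nat_lit 0) (nat_lit 111792717) (nat_lit 152) (nat_lit 926071227) (nat_lit 76) (nat_lit 29020512154) (nat_lit 37) (nat_lit 5) (nat_lit 39) (nat_lit 5) (nat_lit 38) (nat_lit 5) (nat_lit 439) (nat_lit 407) (nat_lit 354))))) (XT.nd (nat_lit 234) (nat_lit 228) (nat_lit 0) (XT.nd (nat_lit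 78) (nat_lit 76) (nat_lit 0) (XT.lf (nat_lit 0) (nat_lit 8537235546) (nat_lit 228) (nat_lit 13422361164) (nat_lit 76) (nat_lit 9641244973) (nat_lit 35) (nat_lit 5) (nat_lit 38) (nat_lit 5) (nat_lit 36) (nat_lit 4) (nat_lit 440) (nat_lit 407) (nat_lit 353)) (XT.nd (nat_lit 78) (nat_lit 0) (nat_lit 0) (XT.lf (nat_lit 0) (nat_lit 5815920762) (nat_lit 76) (nat_lit 11988167621) (nat_lit 152) (nat_lit 15449228909) (nat_lit 34) (nat_lit 5) (nat_lit 35) (nat_lit 5) (nat_lit 36) (nat_lit 4) (nat_lit 441) (nat_lit 407) (nat_lit 352)) (XT.lf (nat_lit 0) (nat_lit 27311007235) (nat_lit 76) (nat_lit 843626628) (nat_lit 152) (nat_lit 6855972075) (nat_lit 34) (nat_lit 5) (nat_lit 35) (nat_lit 5) (nat_lit 36) (nat_lit 4) (nat_lit 442) (nat_lit 407) (nat_lit 351)))) (XT.nd (nat_lit 78) (nat_lit 76) (nat_lit 0) (XT.lf (nat_lit 0) (nat_lit 2901296410) (nat_lit 152) (nat_lit 22930263877) (nat_lit 76) (nat_lit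 11024426618) (nat_lit 32) (nat_lit 5) (nat_lit 34) (nat_lit 5) (nat_lit 33) (nat_lit 4) (nat_lit 443) (nat_lit 407) (nat_lit 350)) (XT.nd (nat_lit 78) (nat_lit 76) (nat_lit 0) (XT.lf (nat_lit 0) (nat_lit 13283473990) (nat_lit 152) (nat_lit 1362363010) (nat_lit 76) (nat_lit 24171738935) (nat_lit 32) (nat_lit 5) (nat_lit 34) (nat_lit 5) (nat_lit 33) (nat_lit 4) (nat_lit 444) (nat_lit 407) (nat_lit 349)) (XT.lf (nat_lit 0) (nat_lit 23043220149) (nat_lit 76) (nat_lit 1985739200) (nat_lit 152) (nat_lit 15864515920) (nat_lit 31) (nat_lit 5) (nat_lit 32) (nat_lit 5) (nat_lit 33) (nat_lit 4) (nat_lit 445) (nat_lit 407) (nat_lit 348)))))) (XT.nd (nat_lit 468) (nat_lit 304) (nat_lit 0) (XT.nd (nat_lit 234) (nat_lit 228) (nat_lit 0) (XT.nd (nat_lit 78) (nat_lit 152) (nat_lit 0) (XT.lf (nat_lit 0) (nat_lit 6340748326) (nat_lit 76) (nat_lit 31823860396) (nat_lit 76) (nat_lit 4934797543) (nat_lit 30)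 (nat_lit 4) (nat_lit 31) (nat_lit 5) (nat_lit 31) (nat_lit 4) (nat_lit 446) (nat_lit 407) (nat_lit 347)) (XT.nd (nat_lit 78) (nat_lit 76) (nat_lit 0) (XT.lf (nat_lit 0) (nat_lit 7056801019) (nat_lit 152) (nat_lit 12230783486) (nat_lit 76) (nat_lit 26138521548) (nat_lit 29) (nat_lit 5) (nat_lit 31) (nat_lit 5) (nat_lit 30) (nat_lit 4) (nat_lit 447) (nat_lit 407) (nat_lit 346)) (XT.lf (nat_lit 0) (nat_lit 14835549975) (nat_lit 76) (nat_lit 5242755180) (nat_lit 152) (nat_lit 27823409122) (nat_lit 28) (nat_lit 5) (nat_lit 29) (nat_lit 5) (nat_lit 30) (nat_lit 4) (nat_lit 448) (nat_lit 407) (nat_lit 345)))) (XT.nd (nat_lit 78) (nat_lit 228) (nat_lit 0) (XT.lf (nat_lit 0) (nat_lit 34703870678) (nat_lit 152) (nat_lit 6071122761) (nat_lit 0) (nat_lit 9755391707) (nat_lit 28) (nat_lit 5) (nat_lit 30) (nat_lit 4) (nat_lit 28) (nat_lit 4) (nat_lit 449) (nat_lit 407) (nat_lit 344)) (XT.nd (nat_lit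 78) (nat_lit 152) (nat_lit 0) (XT.lf (nat_lit 0) (nat_lit 24118800297) (nat_lit 76) (nat_lit 27078887830) (nat_lit 76) (nat_lit 2115806201) (nat_lit 27) (nat_lit 4) (nat_lit 28) (nat_lit 5) (nat_lit 28) (nat_lit 4) (nat_lit 450) (nat_lit 407) (nat_lit 343)) (XT.lf (nat_lit 0) (nat_lit 440579730) (nat_lit 76) (nat_lit 11779219470) (nat_lit 152) (nat_lit 44062000391) (nat_lit 25) (nat_lit 5) (nat_lit 26) (nat_lit 5) (nat_lit 27) (nat_lit 4) (nat_lit 451) (nat_lit 407) (nat_lit 342))))) (XT.nd (nat_lit 234) (nat_lit 152) (nat_lit 0) (XT.nd (nat_lit 78) (nat_lit 152) (nat_lit 0) (XT.lf (nat_lit 0) (nat_lit 28503151142) (nat_lit 152) (nat_lit 25541730876) (nat_lit 0) (nat_lit 5365075185) (nat_lit 25) (nat_lit 5) (nat_lit 27) (nat_lit 4) (nat_lit 25) (nat_lit 4) (nat_lit 452) (nat_lit 407) (nat_lit 341)) (XT.nd (nat_lit 78) (nat_lit 76) (nat_lit 0) (XT.lf (nat_lit 0) (nat_lit 7203489881) (nat_lit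 76) (nat_lit 39348337626) (nat_lit 76) (nat_lit 16199528280) (nat_lit 24) (nat_lit 4) (nat_lit 25) (nat_lit 5) (nat_lit 25) (nat_lit 4) (nat_lit 453) (nat_lit 407) (nat_lit 340)) (XT.lf (nat_lit 0) (nat_lit 400118621) (nat_lit 152) (nat_lit 22326500935) (nat_lit 76) (nat_lit 43578055118) (nat_lit 23) (nat_lit 5) (nat_lit 25) (nat_lit 5) (nat_lit 24) (nat_lit 4) (nat_lit 454) (nat_lit 407) (nat_lit 339)))) (XT.nd (nat_lit 78) (nat_lit 76) (nat_lit 0) (XT.lf (nat_lit 0) (nat_lit 13791465826) (nat_lit 76) (nat_lit 3977484003) (nat_lit 152) (nat_lit 52314335945) (nat_lit 22) (nat_lit 5) (nat_lit 23) (nat_lit 5) (nat_lit 24) (nat_lit 4) (nat_lit 455) (nat_lit 407) (nat_lit 338)) (XT.nd (nat_lit 78) (nat_lit 76) (nat_lit 0) (XT.lf (nat_lit 0) (nat_lit 37529715015) (nat_lit 152) (nat_lit 20484256919) (nat_lit 0) (nat_lit 16070020265) (nat_lit 22) (nat_lit 5) (nat_lit 24) (nat_lit 4) (nat_lit 22)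 (nat_lit 4) (nat_lit 456) (nat_lit 407) (nat_lit 337)) (XT.lf (nat_lit 0) (nat_lit 19007353403) (nat_lit 76) (nat_lit 40410346673) (nat_lit 76) (nat_lit 18943346958) (nat_lit 21) (nat_lit 4) (nat_lit 22) (nat_lit 5) (nat_lit 22) (nat_lit 4) (nat_lit 457) (nat_lit 407) (nat_lit 336))))))) (XT.nd (nat_lit 858) (nat_lit 456) (nat_lit 0) (XT.nd (nat_lit 390) (nat_lit 380) (nat_lit 0) (XT.nd (nat_lit 156) (nat_lit 76) (nat_lit 0) (XT.nd (nat_lit 78) (nat_lit 76) (nat_lit 0) (XT.lf (nat_lit 0) (nat_lit 633205056) (nat_lit 152) (nat_lit 20156697051) (nat_lit 76) (nat_lit 62145371781) (nat_lit 20) (nat_lit 5) (nat_lit 22) (nat_lit 5) (nat_lit 21) (nat_lit 4) (nat_lit 458) (nat_lit 407) (nat_lit 335)) (XT.lf (nat_lit 0) (nat_lit 21324075208) (nat_lit 152) (nat_lit 65031109337) (nat_lit 0) (nat_lit 1435161875) (nat_lit 19) (nat_lit 5) (nat_lit 21) (nat_lit 4) (nat_lit 19) (nat_lit 4) (nat_lit 459)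 (nat_lit 407) (nat_lit 334))) (XT.nd (nat_lit 78) (nat_lit 76) (nat_lit 0) (XT.lf (nat_lit 0) (nat_lit 44762684932) (nat_lit 152) (nat_lit 23315340425) (nat_lit 0) (nat_lit 24868402232) (nat_lit 19) (nat_lit 5) (nat_lit 21) (nat_lit 4) (nat_lit 19) (nat_lit 4) (nat_lit 460) (nat_lit 407) (nat_lit 333)) (XT.nd (nat_lit 78) (nat_lit 0) (nat_lit 0) (XT.lf (nat_lit 0) (nat_lit 22856950015) (nat_lit 76) (nat_lit 47757141658) (nat_lit 76) (nat_lit 27857887322) (nat_lit 18) (nat_lit 4) (nat_lit 19) (nat_lit 5) (nat_lit 19) (nat_lit 4) (nat_lit 461) (nat_lit 407) (nat_lit 332)) (XT.lf (nat_lit 0) (nat_lit 74025461634) (nat_lit 76) (nat_lit 25133953316) (nat_lit 76) (nat_lit 5230095614) (nat_lit 18) (nat_lit 4) (nat_lit 19) (nat_lit 5) (nat_lit 19) (nat_lit 4) (nat_lit 462) (nat_lit 407) (nat_lit 331))))) (XT.nd (nat_lit 234) (nat_lit 152) (nat_lit 0) (XT.nd (nat_lit 78) (nat_lit 76) (nat_lit 0)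 (XT.lf (nat_lit 0) (nat_lit 18698959209) (nat_lit 152) (nat_lit 91742863186) (nat_lit 0) (nat_lit 265514692) (nat_lit 16) (nat_lit 5) (nat_lit 18) (nat_lit 4) (nat_lit 16) (nat_lit 4) (nat_lit 463) (nat_lit 407) (nat_lit 330)) (XT.nd (nat_lit 78) (nat_lit 76) (nat_lit 0) (XT.lf (nat_lit 0) (nat_lit 45753316103) (nat_lit 152) (nat_lit 44330705811) (nat_lit 0) (nat_lit 27316217284) (nat_lit 16) (nat_lit 5) (nat_lit 18) (nat_lit 4) (nat_lit 16) (nat_lit 4) (nat_lit 464) (nat_lit 407) (nat_lit 329)) (XT.lf (nat_lit 0) (nat_lit 7214585114) (nat_lit 76) (nat_lit 67920704800) (nat_lit 76) (nat_lit 49480222369) (nat_lit 15) (nat_lit 4) (nat_lit 16) (nat_lit 5) (nat_lit 16) (nat_lit 4) (nat_lit 465) (nat_lit 407) (nat_lit 328)))) (XT.nd (nat_lit 78) (nat_lit 152) (nat_lit 0) (XT.lf (nat_lit 0) (nat_lit 65384409137) (nat_lit 76) (nat_lit 42685522468) (nat_lit 76) (nat_lit 24241907063) (nat_lit 15)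 (nat_lit 4) (nat_lit 16) (nat_lit 5) (nat_lit 16) (nat_lit 4) (nat_lit 466) (nat_lit 407) (nat_lit 327)) (XT.nd (nat_lit 78) (nat_lit 76) (nat_lit 0) (XT.lf (nat_lit 0) (nat_lit 2855155710) (nat_lit 152) (nat_lit 12507792427) (nat_lit 76) (nat_lit 125255879192) (nat_lit 14) (nat_lit 5) (nat_lit 16) (nat_lit 5) (nat_lit 15) (nat_lit 4) (nat_lit 467) (nat_lit 407) (nat_lit 326)) (XT.lf (nat_lit 0) (nat_lit 32342738755) (nat_lit 152) (nat_lit 101814523896) (nat_lit 0) (nat_lit 15260144008) (nat_lit 13) (nat_lit 5) (nat_lit 15) (nat_lit 4) (nat_lit 13) (nat_lit 4) (nat_lit 468) (nat_lit 407) (nat_lit 325)))))) (XT.nd (nat_lit 468) (nat_lit 228) (nat_lit 0) (XT.nd (nat_lit 234) (nat_lit 152) (nat_lit 0) (XT.nd (nat_lit 78) (nat_lit 76) (nat_lit 0) (XT.lf (nat_lit 0) (nat_lit 64930484739) (nat_lit 152) (nat_lit 46084508114) (nat_lit 0) (nat_lit 47845587163) (nat_lit 13) (nat_lit 5) (nat_lit 15)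 (nat_lit 4) (nat_lit 13) (nat_lit 4) (nat_lit 469) (nat_lit 407) (nat_lit 324)) (XT.nd (nat_lit 78) (nat_lit 0) (nat_lit 0) (XT.lf (nat_lit 0) (nat_lit 14829231347) (nat_lit 76) (nat_lit 85644561258) (nat_lit 76) (nat_lit 68557531433) (nat_lit 12) (nat_lit 4) (nat_lit 13) (nat_lit 5) (nat_lit 13) (nat_lit 4) (nat_lit 470) (nat_lit 407) (nat_lit 323)) (XT.lf (nat_lit 0) (nat_lit 83220858598) (nat_lit 76) (nat_lit 56891850863) (nat_lit 76) (nat_lit 39802846732) (nat_lit 12) (nat_lit 4) (nat_lit 13) (nat_lit 5) (nat_lit 13) (nat_lit 4) (nat_lit 471) (nat_lit 407) (nat_lit 322)))) (XT.nd (nat_lit 78) (nat_lit 152) (nat_lit 0) (XT.lf (nat_lit 0) (nat_lit 157068928826) (nat_lit 76) (nat_lit 25846507355) (nat_lit 76) (nat_lit 8755675164) (nat_lit 12) (nat_lit 4) (nat_lit 13) (nat_lit 5) (nat_lit 13) (nat_lit 4) (nat_lit 472) (nat_lit 407) (nat_lit 321)) (XT.nd (nat_lit 78) (nat_lit 0) (nat_lit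 0) (XT.lf (nat_lit 0) (nat_lit 24556252997) (nat_lit 152) (nat_lit 170951721885) (nat_lit 0) (nat_lit 8729841109) (nat_lit 10) (nat_lit 5) (nat_lit 12) (nat_lit 4) (nat_lit 10) (nat_lit 4) (nat_lit 473) (nat_lit 407) (nat_lit 320)) (XT.lf (nat_lit 0) (nat_lit 61695172796) (nat_lit 152) (nat_lit 110098375283) (nat_lit 0) (nat_lit 45867309735) (nat_lit 10) (nat_lit 5) (nat_lit 12) (nat_lit 4) (nat_lit 10) (nat_lit 4) (nat_lit 474) (nat_lit 407) (nat_lit 319))))) (XT.nd (nat_lit 234) (nat_lit 152) (nat_lit 0) (XT.nd (nat_lit 78) (nat_lit 76) (nat_lit 0) (XT.lf (nat_lit 0) (nat_lit 101798793941) (nat_lit 152) (nat_lit 44389874927) (nat_lit 0) (nat_lit 85969587201) (nat_lit 10) (nat_lit 5) (nat_lit 12) (nat_lit 4) (nat_lit 10) (nat_lit 4) (nat_lit 475) (nat_lit 407) (nat_lit 318)) (XT.nd (nat_lit 78) (nat_lit 0) (nat_lit 0) (XT.lf (nat_lit 0) (nat_lit 27961931971) (nat_lit 76) (nat_lit 117815320685)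 (nat_lit 76) (nat_lit 101984869798) (nat_lit 9) (nat_lit 4) (nat_lit 10) (nat_lit 5) (nat_lit 10) (nat_lit 4) (nat_lit 476) (nat_lit 407) (nat_lit 317)) (XT.lf (nat_lit 0) (nat_lit 108614539779) (nat_lit 76) (nat_lit 85867364040) (nat_lit 76) (nat_lit 70035761165) (nat_lit 9) (nat_lit 4) (nat_lit 10) (nat_lit 5) (nat_lit 10) (nat_lit 4) (nat_lit 477) (nat_lit 407) (nat_lit 316)))) (XT.nd (nat_lit 78) (nat_lit 152) (nat_lit 0) (XT.lf (nat_lit 0) (nat_lit 195708397728) (nat_lit 76) (nat_lit 51369175554) (nat_lit 76) (nat_lit 35536506024) (nat_lit 9) (nat_lit 4) (nat_lit 10) (nat_lit 5) (nat_lit 10) (nat_lit 4) (nat_lit 478) (nat_lit 407) (nat_lit 315)) (XT.nd (nat_lit 78) (nat_lit 76) (nat_lit 0) (XT.lf (nat_lit 0) (nat_lit 1631427571) (nat_lit 152) (nat_lit 12440287825) (nat_lit 76) (nat_lit 288083583877) (nat_lit 8) (nat_lit 5) (nat_lit 10) (nat_lit 5) (nat_lit 9) (nat_lit 4) (nat_lit 479)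 (nat_lit 407) (nat_lit 314)) (XT.lf (nat_lit 0) (nat_lit 42243938168) (nat_lit 152) (nat_lit 253168455971) (nat_lit 0) (nat_lit 27582297743) (nat_lit 7) (nat_lit 5) (nat_lit 9) (nat_lit 4) (nat_lit 7) (nat_lit 4) (nat_lit 480) (nat_lit 407) (nat_lit 313))))))))
noncomputable def xc113 : XT := (XT.nd (nat_lit 1794) (nat_lit 152) (nat_lit 0) (XT.nd (nat_lit 858) (nat_lit 76) (nat_lit 0) (XT.nd (nat_lit 390) (nat_lit 152) (nat_lit 0) (XT.nd (nat_lit 156) (nat_lit 76) (nat_lit 0) (XT.nd (nat_lit 78) (nat_lit 0) (nat_lit 0) (XT.lf (nat_lit 0) (nat_lit 86815220765) (nat_lit 152) (nat_lit 186476437190) (nat_lit 0) (nat_lit 72152796316) (nat_lit 7) (nat_lit 5) (nat_lit 9) (nat_lit 4) (nat_lit 7) (nat_lit 4) (nat_lit 481) (nat_lit 407) (nat_lit 312)) (XT.lf (nat_lit 0) (nat_lit 134947852028) (nat_lit 152) (nat_lit 114457992367) (nat_lit 0) (nat_lit 120284701630) (nat_lit 7) (nat_lit 5) (nat_lit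 9) (nat_lit 4) (nat_lit 7) (nat_lit 4) (nat_lit 482) (nat_lit 407) (nat_lit 311))) (XT.nd (nat_lit 78) (nat_lit 76) (nat_lit 0) (XT.lf (nat_lit 0) (nat_lit 186927062363) (nat_lit 152) (nat_lit 36686345532) (nat_lit 0) (nat_lit 172263239792) (nat_lit 7) (nat_lit 5) (nat_lit 9) (nat_lit 4) (nat_lit 7) (nat_lit 4) (nat_lit 483) (nat_lit 407) (nat_lit 310)) (XT.nd (nat_lit 78) (nat_lit 0) (nat_lit 0) (XT.lf (nat_lit 0) (nat_lit 49790073458) (nat_lit 76) (nat_lit 194468255728) (nat_lit 76) (nat_lit 179803810774) (nat_lit 6) (nat_lit 4) (nat_lit 7) (nat_lit 5) (nat_lit 7) (nat_lit 4) (nat_lit 484) (nat_lit 407) (nat_lit 309)) (XT.lf (nat_lit 0) (nat_lit 145263524170) (nat_lit 76) (nat_lit 161912007010) (nat_lit 76) (nat_lit 147246985775) (nat_lit 6) (nat_lit 4) (nat_lit 7) (nat_lit 5) (nat_lit 7) (nat_lit 4) (nat_lit 485) (nat_lit 407) (nat_lit 308))))) (XT.nd (nat_lit 234) (nat_lit 152) (nat_lit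 0) (XT.nd (nat_lit 78) (nat_lit 0) (nat_lit 0) (XT.lf (nat_lit 0) (nat_lit 248367937259) (nat_lit 76) (nat_lit 126754805523) (nat_lit 76) (nat_lit 112089250694) (nat_lit 6) (nat_lit 4) (nat_lit 7) (nat_lit 5) (nat_lit 7) (nat_lit 4) (nat_lit 486) (nat_lit 407) (nat_lit 307)) (XT.nd (nat_lit 78) (nat_lit 0) (nat_lit 0) (XT.lf (nat_lit 0) (nat_lit 359714301840) (nat_lit 76) (nat_lit 88788312296) (nat_lit 76) (nat_lit 74122263399) (nat_lit 6) (nat_lit 4) (nat_lit 7) (nat_lit 5) (nat_lit 7) (nat_lit 4) (nat_lit 487) (nat_lit 407) (nat_lit 306)) (XT.lf (nat_lit 0) (nat_lit 479962448220) (nat_lit 76) (nat_lit 47787540701) (nat_lit 76) (nat_lit 33121034334) (nat_lit 6) (nat_lit 4) (nat_lit 7) (nat_lit 5) (nat_lit 7) (nat_lit 4) (nat_lit 488) (nat_lit 407) (nat_lit 305)))) (XT.nd (nat_lit 78) (nat_lit 0) (nat_lit 0) (XT.lf (nat_lit 0) (nat_lit 7768141542) (nat_lit 76) (nat_lit 3017950521) (nat_lit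 152) (nat_lit 591354569612) (nat_lit 4) (nat_lit 5) (nat_lit 5) (nat_lit 5) (nat_lit 6) (nat_lit 4) (nat_lit 489) (nat_lit 407) (nat_lit 304)) (XT.nd (nat_lit 78) (nat_lit 0) (nat_lit 0) (XT.lf (nat_lit 0) (nat_lit 59773561633) (nat_lit 152) (nat_lit 540408205317) (nat_lit 0) (nat_lit 46192707783) (nat_lit 4) (nat_lit 5) (nat_lit 6) (nat_lit 4) (nat_lit 4) (nat_lit 4) (nat_lit 490) (nat_lit 407) (nat_lit 303)) (XT.lf (nat_lit 0) (nat_lit 112755881297) (nat_lit 152) (nat_lit 482210352171) (nat_lit 0) (nat_lit 99174691193) (nat_lit 4) (nat_lit 5) (nat_lit 6) (nat_lit 4) (nat_lit 4) (nat_lit 4) (nat_lit 491) (nat_lit 407) (nat_lit 302)))))) (XT.nd (nat_lit 468) (nat_lit 76) (nat_lit 0) (XT.nd (nat_lit 234) (nat_lit 0) (nat_lit 0) (XT.nd (nat_lit 78) (nat_lit 0) (nat_lit 0) (XT.lf (nat_lit 0) (nat_lit 169974438574) (nat_lit 152) (nat_lit 419361502746) (nat_lit 0) (nat_lit 156392937124) (nat_lit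 4) (nat_lit 5) (nat_lit 6) (nat_lit 4) (nat_lit 4) (nat_lit 4) (nat_lit 492) (nat_lit 407) (nat_lit 301)) (XT.nd (nat_lit 78) (nat_lit 0) (nat_lit 0) (XT.lf (nat_lit 0) (nat_lit 231768306398) (nat_lit 152) (nat_lit 351489219416) (nat_lit 0) (nat_lit 218186516663) (nat_lit 4) (nat_lit 5) (nat_lit 6) (nat_lit 4) (nat_lit 4) (nat_lit 4) (nat_lit 493) (nat_lit 407) (nat_lit 300)) (XT.lf (nat_lit 0) (nat_lit 298503670650) (nat_lit 152) (nat_lit 278191296056) (nat_lit 0) (nat_lit 284921613986) (nat_lit 4) (nat_lit 5) (nat_lit 6) (nat_lit 4) (nat_lit 4) (nat_lit 4) (nat_lit 494) (nat_lit 407) (nat_lit 299)))) (XT.nd (nat_lit 78) (nat_lit 0) (nat_lit 0) (XT.lf (nat_lit 0) (nat_lit 370576000157) (nat_lit 152) (nat_lit 199033374604) (nat_lit 0) (nat_lit 356993696336) (nat_lit 4) (nat_lit 5) (nat_lit 6) (nat_lit 4) (nat_lit 4) (nat_lit 4) (nat_lit 495) (nat_lit 407) (nat_lit 298)) (XT.nd (nat_lit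 78) (nat_lit 0) (nat_lit 0) (XT.lf (nat_lit 0) (nat_lit 448412390204) (nat_lit 152) (nat_lit 113546371079) (nat_lit 0) (nat_lit 434829857534) (nat_lit 4) (nat_lit 5) (nat_lit 6) (nat_lit 4) (nat_lit 4) (nat_lit 4) (nat_lit 496) (nat_lit 407) (nat_lit 297)) (XT.lf (nat_lit 0) (nat_lit 532474093473) (nat_lit 152) (nat_lit 21223695832) (nat_lit 0) (nat_lit 518891348906) (nat_lit 4) (nat_lit 5) (nat_lit 6) (nat_lit 4) (nat_lit 4) (nat_lit 4) (nat_lit 497) (nat_lit 407) (nat_lit 296))))) (XT.nd (nat_lit 234) (nat_lit 0) (nat_lit 0) (XT.nd (nat_lit 78) (nat_lit 0) (nat_lit 0) (XT.lf (nat_lit 0) (nat_lit 82614458265) (nat_lit 76) (nat_lit 542631674834) (nat_lit 76) (nat_lit 529048734066) (nat_lit 3) (nat_lit 4) (nat_lit 4) (nat_lit 5) (nat_lit 4) (nat_lit 4) (nat_lit 498) (nat_lit 407) (nat_lit 295)) (XT.nd (nat_lit 78) (nat_lit 0) (nat_lit 0) (XT.lf (nat_lit 0) (nat_lit 195963707203) (nat_lit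 76) (nat_lit 530055080758) (nat_lit 76) (nat_lit 516471958322) (nat_lit 3) (nat_lit 4) (nat_lit 4) (nat_lit 5) (nat_lit 4) (nat_lit 4) (nat_lit 499) (nat_lit 407) (nat_lit 294)) (XT.lf (nat_lit 0) (nat_lit 318378148025) (nat_lit 76) (nat_lit 516473772569) (nat_lit 76) (nat_lit 502890481922) (nat_lit 3) (nat_lit 4) (nat_lit 4) (nat_lit 5) (nat_lit 4) (nat_lit 4) (nat_lit 500) (nat_lit 407) (nat_lit 293)))) (XT.nd (nat_lit 78) (nat_lit 0) (nat_lit 0) (XT.lf (nat_lit 0) (nat_lit 450583199638) (nat_lit 76) (nat_lit 501807268440) (nat_lit 76) (nat_lit 488223822042) (nat_lit 3) (nat_lit 4) (nat_lit 4) (nat_lit 5) (nat_lit 4) (nat_lit 4) (nat_lit 501) (nat_lit 407) (nat_lit 292)) (XT.nd (nat_lit 78) (nat_lit 0) (nat_lit 0) (XT.lf (nat_lit 0) (nat_lit 593362299386) (nat_lit 76) (nat_lit 485968655753) (nat_lit 76) (nat_lit 472385065142) (nat_lit 3) (nat_lit 4) (nat_lit 4) (nat_lit 5) (nat_lit 4)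 (nat_lit 4) (nat_lit 502) (nat_lit 407) (nat_lit 291)) (XT.lf (nat_lit 0) (nat_lit 747561545637) (nat_lit 76) (nat_lit 468864076065) (nat_lit 76) (nat_lit 455280351922) (nat_lit 3) (nat_lit 4) (nat_lit 4) (nat_lit 5) (nat_lit 4) (nat_lit 4) (nat_lit 503) (nat_lit 407) (nat_lit 290))))))) (XT.nd (nat_lit 936) (nat_lit 152) (nat_lit 0) (XT.nd (nat_lit 468) (nat_lit 0) (nat_lit 0) (XT.nd (nat_lit 234) (nat_lit 0) (nat_lit 0) (XT.nd (nat_lit 78) (nat_lit 0) (nat_lit 0) (XT.lf (nat_lit 0) (nat_lit 914094711702) (nat_lit 76) (nat_lit 450392168901) (nat_lit 76) (nat_lit 436808321118) (nat_lit 3) (nat_lit 4) (nat_lit 4) (nat_lit 5) (nat_lit 4) (nat_lit 4) (nat_lit 504) (nat_lit 407) (nat_lit 289)) (XT.nd (nat_lit 78) (nat_lit 0) (nat_lit 0) (XT.lf (nat_lit 0) (nat_lit 1093948660789) (nat_lit 76) (nat_lit 430443471109) (nat_lit 76) (nat_lit 416859508845) (nat_lit 3) (nat_lit 4) (nat_lit 4) (nat_lit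 5) (nat_lit 4) (nat_lit 4) (nat_lit 505) (nat_lit 407) (nat_lit 288)) (XT.lf (nat_lit 0) (nat_lit 1288189194075) (nat_lit 76) (nat_lit 408899768183) (nat_lit 76) (nat_lit 395315699918) (nat_lit 3) (nat_lit 4) (nat_lit 4) (nat_lit 5) (nat_lit 4) (nat_lit 4) (nat_lit 506) (nat_lit 407) (nat_lit 287)))) (XT.nd (nat_lit 78) (nat_lit 0) (nat_lit 0) (XT.lf (nat_lit 0) (nat_lit 1497967366575) (nat_lit 76) (nat_lit 385633393736) (nat_lit 76) (nat_lit 372049227321) (nat_lit 3) (nat_lit 4) (nat_lit 4) (nat_lit 5) (nat_lit 4) (nat_lit 4) (nat_lit 507) (nat_lit 407) (nat_lit 286)) (XT.nd (nat_lit 78) (nat_lit 0) (nat_lit 0) (XT.lf (nat_lit 0) (nat_lit 1724526308198) (nat_lit 76) (nat_lit 360506472956) (nat_lit 76) (nat_lit 346922215662) (nat_lit 3) (nat_lit 4) (nat_lit 4) (nat_lit 5) (nat_lit 4) (nat_lit 4) (nat_lit 508) (nat_lit 407) (nat_lit 285)) (XT.lf (nat_lit 0) (nat_lit 1969208590450) (nat_lit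 76) (nat_lit 333370105572) (nat_lit 76) (nat_lit 319785764130) (nat_lit 3) (nat_lit 4) (nat_lit 4) (nat_lit 5) (nat_lit 4) (nat_lit 4) (nat_lit 509) (nat_lit 407) (nat_lit 284))))) (XT.nd (nat_lit 234) (nat_lit 0) (nat_lit 0) (XT.nd (nat_lit 78) (nat_lit 0) (nat_lit 0) (XT.lf (nat_lit 0) (nat_lit 2233464182413) (nat_lit 76) (nat_lit 304063483480) (nat_lit 76) (nat_lit 290479064125) (nat_lit 3) (nat_lit 4) (nat_lit 4) (nat_lit 5) (nat_lit 4) (nat_lit 4) (nat_lit 510) (nat_lit 407) (nat_lit 283)) (XT.nd (nat_lit 78) (nat_lit 0) (nat_lit 0) (XT.lf (nat_lit 0) (nat_lit 2518859043148) (nat_lit 76) (nat_lit 272412937810) (nat_lit 76) (nat_lit 258828446311) (nat_lit 3) (nat_lit 4) (nat_lit 4) (nat_lit 5) (nat_lit 4) (nat_lit 4) (nat_lit 511) (nat_lit 407) (nat_lit 282)) (XT.lf (nat_lit 0) (nat_lit 2827084401461) (nat_lit 76) (nat_lit 238230909771) (nat_lit 76) (nat_lit 224646351474) (nat_lit 3)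 (nat_lit 4) (nat_lit 4) (nat_lit 5) (nat_lit 4) (nat_lit 4) (nat_lit 512) (nat_lit 407) (nat_lit 281)))) (XT.nd (nat_lit 78) (nat_lit 0) (nat_lit 0) (XT.lf (nat_lit 0) (nat_lit 3159966777994) (nat_lit 76) (nat_lit 201314839198) (nat_lit 76) (nat_lit 187730219050) (nat_lit 3) (nat_lit 4) (nat_lit 4) (nat_lit 5) (nat_lit 4) (nat_lit 4) (nat_lit 513) (nat_lit 407) (nat_lit 280)) (XT.nd (nat_lit 78) (nat_lit 0) (nat_lit 0) (XT.lf (nat_lit 0) (nat_lit 3519478809051) (nat_lit 76) (nat_lit 161445964191) (nat_lit 76) (nat_lit 147861286774) (nat_lit 3) (nat_lit 4) (nat_lit 4) (nat_lit 5) (nat_lit 4) (nat_lit 4) (nat_lit 514) (nat_lit 407) (nat_lit 279)) (XT.lf (nat_lit 0) (nat_lit 3907750936298) (nat_lit 76) (nat_lit 118388024750) (nat_lit 76) (nat_lit 104803294306) (nat_lit 3) (nat_lit 4) (nat_lit 4) (nat_lit 5) (nat_lit 4) (nat_lit 4) (nat_lit 515) (nat_lit 407) (nat_lit 278)))))) (XT.nd (nat_lit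 468) (nat_lit 0) (nat_lit 0) (XT.nd (nat_lit 234) (nat_lit 0) (nat_lit 0) (XT.nd (nat_lit 78) (nat_lit 152) (nat_lit 0) (XT.lf (nat_lit 0) (nat_lit 4327084031600) (nat_lit 76) (nat_lit 71885862716) (nat_lit 76) (nat_lit 58301083172) (nat_lit 3) (nat_lit 4) (nat_lit 4) (nat_lit 5) (nat_lit 4) (nat_lit 4) (nat_lit 516) (nat_lit 407) (nat_lit 277)) (XT.nd (nat_lit 78) (nat_lit 152) (nat_lit 0) (XT.lf (nat_lit 0) (nat_lit 4779963031819) (nat_lit 76) (nat_lit 21663909720) (nat_lit 76) (nat_lit 8079084714) (nat_lit 3) (nat_lit 4) (nat_lit 4) (nat_lit 5) (nat_lit 4) (nat_lit 4) (nat_lit 517) (nat_lit 407) (nat_lit 276)) (XT.lf (nat_lit 0) (nat_lit 46679712005) (nat_lit 152) (nat_lit 5109239967758) (nat_lit 0) (nat_lit 34101131356) (nat_lit 1) (nat_lit 5) (nat_lit 3) (nat_lit 4) (nat_lit 1) (nat_lit 4) (nat_lit 518) (nat_lit 407) (nat_lit 275)))) (XT.nd (nat_lit 78) (nat_lit 0) (nat_lit 0) (XT.lf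 (nat_lit 0) (nat_lit 106779437589) (nat_lit 152) (nat_lit 5399651996185) (nat_lit 0) (nat_lit 94200820851) (nat_lit 1) (nat_lit 5) (nat_lit 3) (nat_lit 4) (nat_lit 1) (nat_lit 4) (nat_lit 519) (nat_lit 407) (nat_lit 274)) (XT.nd (nat_lit 78) (nat_lit 0) (nat_lit 0) (XT.lf (nat_lit 0) (nat_lit 171686824238) (nat_lit 152) (nat_lit 5713297640652) (nat_lit 0) (nat_lit 159108174084) (nat_lit 1) (nat_lit 5) (nat_lit 3) (nat_lit 4) (nat_lit 1) (nat_lit 4) (nat_lit 520) (nat_lit 407) (nat_lit 273)) (XT.lf (nat_lit 0) (nat_lit 241786508316) (nat_lit 152) (nat_lit 6052035542015) (nat_lit 0) (nat_lit 229207827221) (nat_lit 1) (nat_lit 5) (nat_lit 3) (nat_lit 4) (nat_lit 1) (nat_lit 4) (nat_lit 521) (nat_lit 407) (nat_lit 272))))) (XT.nd (nat_lit 234) (nat_lit 0) (nat_lit 0) (XT.nd (nat_lit 78) (nat_lit 0) (nat_lit 0) (XT.lf (nat_lit 0) (nat_lit 317493895359) (nat_lit 152) (nat_lit 6417873035985) (nat_lit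 0) (nat_lit 304915185616) (nat_lit 1) (nat_lit 5) (nat_lit 3) (nat_lit 4) (nat_lit 1) (nat_lit 4) (nat_lit 522) (nat_lit 407) (nat_lit 271)) (XT.nd (nat_lit 78) (nat_lit 0) (nat_lit 0) (XT.lf (nat_lit 0) (nat_lit 399257621735) (nat_lit 152) (nat_lit 6812978048454) (nat_lit 0) (nat_lit 386678885464) (nat_lit 1) (nat_lit 5) (nat_lit 3) (nat_lit 4) (nat_lit 1) (nat_lit 4) (nat_lit 523) (nat_lit 407) (nat_lit 270)) (XT.lf (nat_lit 0) (nat_lit 487562213229) (nat_lit 152) (nat_lit 7239691942457) (nat_lit 0) (nat_lit 474983452397) (nat_lit 1) (nat_lit 5) (nat_lit 3) (nat_lit 4) (nat_lit 1) (nat_lit 4) (nat_lit 524) (nat_lit 407) (nat_lit 269)))) (XT.nd (nat_lit 78) (nat_lit 0) (nat_lit 0) (XT.lf (nat_lit 0) (nat_lit 582930956310) (nat_lit 152) (nat_lit 7700543392923) (nat_lit 0) (nat_lit 570352172735) (nat_lit 1) (nat_lit 5) (nat_lit 3) (nat_lit 4) (nat_lit 1) (nat_lit 4) (nat_lit 525) (nat_lit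 407) (nat_lit 268)) (XT.nd (nat_lit 78) (nat_lit 0) (nat_lit 0) (XT.lf (nat_lit 0) (nat_lit 685928999084) (nat_lit 152) (nat_lit 8198263371409) (nat_lit 0) (nat_lit 673350194452) (nat_lit 1) (nat_lit 5) (nat_lit 3) (nat_lit 4) (nat_lit 1) (nat_lit 4) (nat_lit 526) (nat_lit 407) (nat_lit 267)) (XT.lf (nat_lit 0) (nat_lit 797166700325) (nat_lit 152) (nat_lit 8735801329641) (nat_lit 0) (nat_lit 784587876194) (nat_lit 1) (nat_lit 5) (nat_lit 3) (nat_lit 4) (nat_lit 1) (nat_lit 4) (nat_lit 527) (nat_lit 407) (nat_lit 266))))))))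
noncomputable def xc114 : XT := (XT.nd (nat_lit 54678) (nat_lit 0) (nat_lit 1976) (XT.nd (nat_lit 53742) (nat_lit 0) (nat_lit 3876) (XT.nd (nat_lit 53274) (nat_lit 0) (nat_lit 5624) (XT.nd (nat_lit 156) (nat_lit 0) (nat_lit 0) (XT.nd (nat_lit 78) (nat_lit 0) (nat_lit 0) (XT.lf (nat_lit 0) (nat_lit 917303246408) (nat_lit 152) (nat_lit 9316342677739) (nat_lit 0) (nat_lit 904724404224) (nat_lit 1) (nat_lit 5) (nat_lit 3) (nat_lit 4) (nat_lit 1) (nat_lit 4) (nat_lit 528) (nat_lit 407) (nat_lit 265)) (XT.lf (nat_lit 0) (nat_lit 1047050557609) (nat_lit 152) (nat_lit 9943327660732) (nat_lit 0) (nat_lit 1034471698708) (nat_lit 1) (nat_lit 5) (nat_lit 3) (nat_lit 4) (nat_lit 1) (nat_lit 4) (nat_lit 529) (nat_lit 407) (nat_lit 264))) (XT.nd (nat_lit 52962) (nat_lit 0) (nat_lit 6384) (XT.lf (nat_lit 0) (nat_lit 1187177506881) (nat_lit 152) (nat_lit 10620471745184) (nat_lit 0) (nat_lit 1174598632502)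 (nat_lit 1) (nat_lit 5) (nat_lit 3) (nat_lit 4) (nat_lit 1) (nat_lit 4) (nat_lit 530) (nat_lit 407) (nat_lit 263)) (XT.nd (nat_lit 78) (nat_lit 0) (nat_lit 0) (XT.lf (nat_lit 0) (nat_lit 1439878309) (nat_lit 0) (nat_lit 1439878309) (nat_lit 380) (nat_lit 1261230543) (nat_lit 85) (nat_lit 5) (nat_lit 85) (nat_lit 3) (nat_lit 90) (nat_lit 3) (nat_lit 408) (nat_lit 408) (nat_lit 384)) (XT.lf (nat_lit 0) (nat_lit 7056290925) (nat_lit 380) (nat_lit 1285193252) (nat_lit 456) (nat_lit 185984321) (nat_lit 85) (nat_lit 5) (nat_lit 90) (nat_lit 3) (nat_lit 91) (nat_lit 5) (nat_lit 409) (nat_lit 408) (nat_lit 383))))) (XT.nd (nat_lit 234) (nat_lit 304) (nat_lit 0) (XT.nd (nat_lit 78) (nat_lit 456) (nat_lit 0) (XT.lf (nat_lit 76) (nat_lit 3182672255) (nat_lit 0) (nat_lit 5320538150) (nat_lit 456) (nat_lit 285727161) (nat_lit 86) (nat_lit 5) (nat_lit 85) (nat_lit 5) (nat_lit 91) (nat_lit 5) (nat_lit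 410) (nat_lit 408) (nat_lit 382)) (XT.nd (nat_lit 78) (nat_lit 0) (nat_lit 76) (XT.lf (nat_lit 0) (nat_lit 879611440) (nat_lit 456) (nat_lit 1078998895) (nat_lit 532) (nat_lit 7116056542) (nat_lit 79) (nat_lit 5) (nat_lit 85) (nat_lit 5) (nat_lit 86) (nat_lit 5) (nat_lit 411) (nat_lit 408) (nat_lit 381)) (XT.lf (nat_lit 0) (nat_lit 2167347729) (nat_lit 456) (nat_lit 5487995350) (nat_lit 532) (nat_lit 1723786719) (nat_lit 80) (nat_lit 5) (nat_lit 86) (nat_lit 5) (nat_lit 87) (nat_lit 5) (nat_lit 412) (nat_lit 408) (nat_lit 380)))) (XT.nd (nat_lit 78) (nat_lit 380) (nat_lit 0) (XT.lf (nat_lit 0) (nat_lit 3551666545) (nat_lit 456) (nat_lit 504961992) (nat_lit 532) (nat_lit 5651870912) (nat_lit 80) (nat_lit 5) (nat_lit 86) (nat_lit 5) (nat_lit 87) (nat_lit 5) (nat_lit 413) (nat_lit 408) (nat_lit 379)) (XT.nd (nat_lit 78) (nat_lit 380) (nat_lit 0) (XT.lf (nat_lit 76) (nat_lit 5067258856) (nat_lit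 0) (nat_lit 20249528) (nat_lit 532) (nat_lit 4973480296) (nat_lit 81) (nat_lit 5) (nat_lit 80) (nat_lit 5) (nat_lit 87) (nat_lit 5) (nat_lit 414) (nat_lit 408) (nat_lit 378)) (XT.lf (nat_lit 0) (nat_lit 527195344) (nat_lit 456) (nat_lit 6274027437) (nat_lit 532) (nat_lit 3636083674) (nat_lit 75) (nat_lit 5) (nat_lit 81) (nat_lit 5) (nat_lit 82) (nat_lit 5) (nat_lit 415) (nat_lit 408) (nat_lit 377)))))) (XT.nd (nat_lit 468) (nat_lit 760) (nat_lit 0) (XT.nd (nat_lit 234) (nat_lit 456) (nat_lit 0) (XT.nd (nat_lit 78) (nat_lit 532) (nat_lit 0) (XT.lf (nat_lit 0) (nat_lit 6707089899) (nat_lit 456) (nat_lit 2009854518) (nat_lit 532) (nat_lit 2121620041) (nat_lit 75) (nat_lit 5) (nat_lit 81) (nat_lit 5) (nat_lit 82) (nat_lit 5) (nat_lit 416) (nat_lit 408) (nat_lit 376)) (XT.nd (nat_lit 78) (nat_lit 76) (nat_lit 0) (XT.lf (nat_lit 0) (nat_lit 2084558712) (nat_lit 456) (nat_lit 8747256584) (nat_lit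 532) (nat_lit 436462053) (nat_lit 69) (nat_lit 5) (nat_lit 75) (nat_lit 5) (nat_lit 76) (nat_lit 5) (nat_lit 417) (nat_lit 408) (nat_lit 375)) (XT.lf (nat_lit 0) (nat_lit 1417443808) (nat_lit 532) (nat_lit 2847410621) (nat_lit 76) (nat_lit 7456621377) (nat_lit 68) (nat_lit 5) (nat_lit 75) (nat_lit 5) (nat_lit 69) (nat_lit 5) (nat_lit 418) (nat_lit 408) (nat_lit 374)))) (XT.nd (nat_lit 78) (nat_lit 228) (nat_lit 0) (XT.lf (nat_lit 0) (nat_lit 3451854130) (nat_lit 304) (nat_lit 8096053233) (nat_lit 76) (nat_lit 657674355) (nat_lit 65) (nat_lit 5) (nat_lit 69) (nat_lit 5) (nat_lit 66) (nat_lit 5) (nat_lit 419) (nat_lit 408) (nat_lit 373)) (XT.nd (nat_lit 78) (nat_lit 228) (nat_lit 0) (XT.lf (nat_lit 0) (nat_lit 5782380202) (nat_lit 304) (nat_lit 1116332937) (nat_lit 76) (nat_lit 5819052725) (nat_lit 65) (nat_lit 5) (nat_lit 69) (nat_lit 5) (nat_lit 66) (nat_lit 5) (nat_lit 420) (nat_lit 408)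 (nat_lit 372)) (XT.lf (nat_lit 0) (nat_lit 6695297377) (nat_lit 228) (nat_lit 1712028664) (nat_lit 304) (nat_lit 4854977885) (nat_lit 62) (nat_lit 5) (nat_lit 65) (nat_lit 5) (nat_lit 66) (nat_lit 5) (nat_lit 421) (nat_lit 408) (nat_lit 371))))) (XT.nd (nat_lit 234) (nat_lit 304) (nat_lit 0) (XT.nd (nat_lit 78) (nat_lit 304) (nat_lit 0) (XT.lf (nat_lit 0) (nat_lit 1251997801) (nat_lit 152) (nat_lit 10094462780) (nat_lit 228) (nat_lit 2495625124) (nat_lit 60) (nat_lit 5) (nat_lit 62) (nat_lit 5) (nat_lit 63) (nat_lit 5) (nat_lit 422) (nat_lit 408) (nat_lit 370)) (XT.nd (nat_lit 78) (nat_lit 228) (nat_lit 0) (XT.lf (nat_lit 0) (nat_lit 228753311) (nat_lit 228) (nat_lit 4498985436) (nat_lit 76) (nat_lit 9726111928) (nat_lit 59) (nat_lit 5) (nat_lit 62) (nat_lit 5) (nat_lit 60) (nat_lit 5) (nat_lit 423) (nat_lit 408) (nat_lit 369)) (XT.lf (nat_lit 0) (nat_lit 3124077408) (nat_lit 304) (nat_lit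 10803140107) (nat_lit 76) (nat_lit 1175140486) (nat_lit 56) (nat_lit 5) (nat_lit 60) (nat_lit 5) (nat_lit 57) (nat_lit 5) (nat_lit 424) (nat_lit 408) (nat_lit 368)))) (XT.nd (nat_lit 78) (nat_lit 304) (nat_lit 0) (XT.lf (nat_lit 0) (nat_lit 6455601839) (nat_lit 304) (nat_lit 1923344847) (nat_lit 76) (nat_lit 7407445119) (nat_lit 56) (nat_lit 5) (nat_lit 60) (nat_lit 5) (nat_lit 57) (nat_lit 5) (nat_lit 425) (nat_lit 408) (nat_lit 367)) (XT.nd (nat_lit 78) (nat_lit 152) (nat_lit 0) (XT.lf (nat_lit 0) (nat_lit 8010529987) (nat_lit 152) (nat_lit 2194633424) (nat_lit 228) (nat_lit 6307874651) (nat_lit 54) (nat_lit 5) (nat_lit 56) (nat_lit 5) (nat_lit 57) (nat_lit 5) (nat_lit 426) (nat_lit 408) (nat_lit 366)) (XT.lf (nat_lit 0) (nat_lit 1460369811) (nat_lit 152) (nat_lit 12951430009) (nat_lit 228) (nat_lit 2873457563) (nat_lit 52) (nat_lit 5) (nat_lit 54) (nat_lit 5) (nat_lit 55) (nat_lit 5)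 (nat_lit 427) (nat_lit 408) (nat_lit 365))))))) (XT.nd (nat_lit 936) (nat_lit 836) (nat_lit 0) (XT.nd (nat_lit 468) (nat_lit 532) (nat_lit 0) (XT.nd (nat_lit 234) (nat_lit 304) (nat_lit 0) (XT.nd (nat_lit 78) (nat_lit 152) (nat_lit 0) (XT.lf (nat_lit 0) (nat_lit 1050185794) (nat_lit 228) (nat_lit 5538926889) (nat_lit 76) (nat_lit 11508040066) (nat_lit 51) (nat_lit 5) (nat_lit 54) (nat_lit 5) (nat_lit 52) (nat_lit 5) (nat_lit 428) (nat_lit 408) (nat_lit 364)) (XT.nd (nat_lit 78) (nat_lit 0) (nat_lit 0) (XT.lf (nat_lit 0) (nat_lit 5245751775) (nat_lit 228) (nat_lit 13244601772) (nat_lit 76) (nat_lit 468621636) (nat_lit 49) (nat_lit 5) (nat_lit 52) (nat_lit 5) (nat_lit 50) (nat_lit 5) (nat_lit 429) (nat_lit 408) (nat_lit 363)) (XT.lf (nat_lit 0) (nat_lit 10068128005) (nat_lit 228) (nat_lit 1925331224) (nat_lit 76) (nat_lit 7872998448) (nat_lit 49) (nat_lit 5) (nat_lit 52) (nat_lit 5) (nat_lit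 50) (nat_lit 5) (nat_lit 430) (nat_lit 408) (nat_lit 362)))) (XT.nd (nat_lit 78) (nat_lit 152) (nat_lit 0) (XT.lf (nat_lit 0) (nat_lit 10787674743) (nat_lit 152) (nat_lit 4715324074) (nat_lit 228) (nat_lit 5325410506) (nat_lit 47) (nat_lit 5) (nat_lit 49) (nat_lit 5) (nat_lit 50) (nat_lit 5) (nat_lit 431) (nat_lit 408) (nat_lit 361)) (XT.nd (nat_lit 78) (nat_lit 76) (nat_lit 0) (XT.lf (nat_lit 0) (nat_lit 2773625652) (nat_lit 76) (nat_lit 18763419290) (nat_lit 152) (nat_lit 317127705) (nat_lit 46) (nat_lit 5) (nat_lit 47) (nat_lit 5) (nat_lit 48) (nat_lit 4) (nat_lit 432) (nat_lit 408) (nat_lit 360)) (XT.lf (nat_lit 0) (nat_lit 5209611761) (nat_lit 152) (nat_lit 6060515158) (nat_lit 76) (nat_lit 11652278345) (nat_lit 45) (nat_lit 5) (nat_lit 47) (nat_lit 5) (nat_lit 46) (nat_lit 5) (nat_lit 433) (nat_lit 408) (nat_lit 359))))) (XT.nd (nat_lit 234) (nat_lit 304) (nat_lit 0) (XT.nd (nat_lit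 78) (nat_lit 76) (nat_lit 0) (XT.lf (nat_lit 0) (nat_lit 8362528346) (nat_lit 152) (nat_lit 2970660201) (nat_lit 228) (nat_lit 12728507552) (nat_lit 43) (nat_lit 5) (nat_lit 45) (nat_lit 5) (nat_lit 46) (nat_lit 5) (nat_lit 434) (nat_lit 408) (nat_lit 358)) (XT.nd (nat_lit 78) (nat_lit 76) (nat_lit 0) (XT.lf (nat_lit 0) (nat_lit 18232065943) (nat_lit 228) (nat_lit 1192474574) (nat_lit 76) (nat_lit 5844761232) (nat_lit 43) (nat_lit 5) (nat_lit 46) (nat_lit 5) (nat_lit 44) (nat_lit 4) (nat_lit 435) (nat_lit 408) (nat_lit 357)) (XT.lf (nat_lit 0) (nat_lit 15107739910) (nat_lit 76) (nat_lit 10989021700) (nat_lit 152) (nat_lit 443645948) (nat_lit 42) (nat_lit 5) (nat_lit 43) (nat_lit 5) (nat_lit 44) (nat_lit 4) (nat_lit 436) (nat_lit 408) (nat_lit 356)))) (XT.nd (nat_lit 78) (nat_lit 76) (nat_lit 0) (XT.lf (nat_lit 0) (nat_lit 4907402099) (nat_lit 152) (nat_lit 1561107484) (nat_lit 228) (nat_lit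 21421839740) (nat_lit 39) (nat_lit 5) (nat_lit 41) (nat_lit 5) (nat_lit 42) (nat_lit 5) (nat_lit 437) (nat_lit 408) (nat_lit 355)) (XT.nd (nat_lit 78) (nat_lit 76) (nat_lit 0) (XT.lf (nat_lit 0) (nat_lit 14411766849) (nat_lit 228) (nat_lit 6391656620) (nat_lit 76) (nat_lit 8503776741) (nat_lit 39) (nat_lit 5) (nat_lit 42) (nat_lit 5) (nat_lit 40) (nat_lit 4) (nat_lit 438) (nat_lit 408) (nat_lit 354)) (XT.lf (nat_lit 0) (nat_lit 12046151049) (nat_lit 76) (nat_lit 11250567003) (nat_lit 152) (nat_lit 7516185649) (nat_lit 38) (nat_lit 5) (nat_lit 39) (nat_lit 5) (nat_lit 40) (nat_lit 4) (nat_lit 439) (nat_lit 408) (nat_lit 353)))))) (XT.nd (nat_lit 468) (nat_lit 380) (nat_lit 0) (XT.nd (nat_lit 234) (nat_lit 152) (nat_lit 0) (XT.nd (nat_lit 78) (nat_lit 228) (nat_lit 0) (XT.lf (nat_lit 0) (nat_lit 586163019) (nat_lit 152) (nat_lit 161053489) (nat_lit 76) (nat_lit 31678541989) (nat_lit 37) (nat_lit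 5) (nat_lit 39) (nat_lit 5) (nat_lit 38) (nat_lit 5) (nat_lit 440) (nat_lit 408) (nat_lit 352)) (XT.nd (nat_lit 78) (nat_lit 76) (nat_lit 0) (XT.lf (nat_lit 0) (nat_lit 9679666899) (nat_lit 228) (nat_lit 13651022673) (nat_lit 76) (nat_lit 10761413673) (nat_lit 35) (nat_lit 5) (nat_lit 38) (nat_lit 5) (nat_lit 36) (nat_lit 4) (nat_lit 441) (nat_lit 408) (nat_lit 351)) (XT.lf (nat_lit 0) (nat_lit 7104926178) (nat_lit 76) (nat_lit 12568719034) (nat_lit 152) (nat_lit 16204273182) (nat_lit 34) (nat_lit 5) (nat_lit 35) (nat_lit 5) (nat_lit 36) (nat_lit 4) (nat_lit 442) (nat_lit 408) (nat_lit 350)))) (XT.nd (nat_lit 78) (nat_lit 152) (nat_lit 0) (XT.lf (nat_lit 0) (nat_lit 30258602402) (nat_lit 76) (nat_lit 560651947) (nat_lit 152) (nat_lit 6959177582) (nat_lit 34) (nat_lit 5) (nat_lit 35) (nat_lit 5) (nat_lit 36) (nat_lit 4) (nat_lit 443) (nat_lit 408) (nat_lit 349)) (XT.nd (nat_lit 78) (nat_lit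 0) (nat_lit 0) (XT.lf (nat_lit 0) (nat_lit 3552006715) (nat_lit 152) (nat_lit 23975228943) (nat_lit 76) (nat_lit 12243705234) (nat_lit 32) (nat_lit 5) (nat_lit 34) (nat_lit 5) (nat_lit 33) (nat_lit 4) (nat_lit 444) (nat_lit 408) (nat_lit 348)) (XT.lf (nat_lit 0) (nat_lit 14733750605) (nat_lit 152) (nat_lit 740374233) (nat_lit 76) (nat_lit 26417815537) (nat_lit 32) (nat_lit 5) (nat_lit 34) (nat_lit 5) (nat_lit 33) (nat_lit 4) (nat_lit 445) (nat_lit 408) (nat_lit 347))))) (XT.nd (nat_lit 234) (nat_lit 152) (nat_lit 0) (XT.nd (nat_lit 78) (nat_lit 152) (nat_lit 0) (XT.lf (nat_lit 0) (nat_lit 25599149812) (nat_lit 76) (nat_lit 1808148938) (nat_lit 152) (nat_lit 16727541491) (nat_lit 31) (nat_lit 5) (nat_lit 32) (nat_lit 5) (nat_lit 33) (nat_lit 4) (nat_lit 446) (nat_lit 408) (nat_lit 346)) (XT.nd (nat_lit 78) (nat_lit 76) (nat_lit 0) (XT.lf (nat_lit 0) (nat_lit 7563906906) (nat_lit 76) (nat_lit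 34026749254) (nat_lit 76) (nat_lit 4926843382) (nat_lit 30) (nat_lit 4) (nat_lit 31) (nat_lit 5) (nat_lit 31) (nat_lit 4) (nat_lit 447) (nat_lit 408) (nat_lit 345)) (XT.lf (nat_lit 0) (nat_lit 7975596379) (nat_lit 152) (nat_lit 12527697942) (nat_lit 76) (nat_lit 28528535315) (nat_lit 29) (nat_lit 5) (nat_lit 31) (nat_lit 5) (nat_lit 30) (nat_lit 4) (nat_lit 448) (nat_lit 408) (nat_lit 344)))) (XT.nd (nat_lit 78) (nat_lit 76) (nat_lit 0) (XT.lf (nat_lit 0) (nat_lit 16686687810) (nat_lit 76) (nat_lit 5341868483) (nat_lit 152) (nat_lit 29677753226) (nat_lit 28) (nat_lit 5) (nat_lit 29) (nat_lit 5) (nat_lit 30) (nat_lit 4) (nat_lit 449) (nat_lit 408) (nat_lit 343)) (XT.nd (nat_lit 78) (nat_lit 76) (nat_lit 0) (XT.lf (nat_lit 0) (nat_lit 37805819332) (nat_lit 152) (nat_lit 5923356709) (nat_lit 0) (nat_lit 10817567536) (nat_lit 28) (nat_lit 5) (nat_lit 30) (nat_lit 4) (nat_lit 28) (nat_lit 4)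 (nat_lit 450) (nat_lit 408) (nat_lit 342)) (XT.lf (nat_lit 0) (nat_lit 26665723336) (nat_lit 76) (nat_lit 28944146375) (nat_lit 76) (nat_lit 1943375154) (nat_lit 27) (nat_lit 4) (nat_lit 28) (nat_lit 5) (nat_lit 28) (nat_lit 4) (nat_lit 451) (nat_lit 408) (nat_lit 341))))))))
noncomputable def xc115 : XT := (XT.nd (nat_lit 1794) (nat_lit 456) (nat_lit 0) (XT.nd (nat_lit 858) (nat_lit 608) (nat_lit 0) (XT.nd (nat_lit 390) (nat_lit 304) (nat_lit 0) (XT.nd (nat_lit 156) (nat_lit 228) (nat_lit 0) (XT.nd (nat_lit 78) (nat_lit 0) (nat_lit 0) (XT.lf (nat_lit 0) (nat_lit 1094292290) (nat_lit 76) (nat_lit 12418522888) (nat_lit 152) (nat_lit 47246276941) (nat_lit 25) (nat_lit 5) (nat_lit 26) (nat_lit 5) (nat_lit 27) (nat_lit 4) (nat_lit 452) (nat_lit 408) (nat_lit 340)) (XT.lf (nat_lit 0) (nat_lit 31082218066) (nat_lit 152) (nat_lit 26995782639) (nat_lit 0) (nat_lit 6060832260) (nat_lit 25) (nat_lit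 5) (nat_lit 27) (nat_lit 4) (nat_lit 25) (nat_lit 4) (nat_lit 453) (nat_lit 408) (nat_lit 339))) (XT.nd (nat_lit 78) (nat_lit 152) (nat_lit 0) (XT.lf (nat_lit 0) (nat_lit 8354137128) (nat_lit 76) (nat_lit 42212330546) (nat_lit 76) (nat_lit 17181742589) (nat_lit 24) (nat_lit 4) (nat_lit 25) (nat_lit 5) (nat_lit 25) (nat_lit 4) (nat_lit 454) (nat_lit 408) (nat_lit 338)) (XT.nd (nat_lit 78) (nat_lit 76) (nat_lit 0) (XT.lf (nat_lit 0) (nat_lit 708103120) (nat_lit 152) (nat_lit 23566253975) (nat_lit 76) (nat_lit 47312601146) (nat_lit 23) (nat_lit 5) (nat_lit 25) (nat_lit 5) (nat_lit 24) (nat_lit 4) (nat_lit 455) (nat_lit 408) (nat_lit 337)) (XT.lf (nat_lit 0) (nat_lit 15427318050) (nat_lit 76) (nat_lit 4031487660) (nat_lit 152) (nat_lit 56209664248) (nat_lit 22) (nat_lit 5) (nat_lit 23) (nat_lit 5) (nat_lit 24) (nat_lit 4) (nat_lit 456) (nat_lit 408) (nat_lit 336))))) (XT.nd (nat_lit 234) (nat_lit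 152) (nat_lit 0) (XT.nd (nat_lit 78) (nat_lit 152) (nat_lit 0) (XT.lf (nat_lit 0) (nat_lit 40786438320) (nat_lit 152) (nat_lit 21615905123) (nat_lit 0) (nat_lit 17588009808) (nat_lit 22) (nat_lit 5) (nat_lit 24) (nat_lit 4) (nat_lit 22) (nat_lit 4) (nat_lit 457) (nat_lit 408) (nat_lit 335)) (XT.nd (nat_lit 78) (nat_lit 76) (nat_lit 0) (XT.lf (nat_lit 0) (nat_lit 21022196244) (nat_lit 76) (nat_lit 43396312324) (nat_lit 76) (nat_lit 20191620982) (nat_lit 21) (nat_lit 4) (nat_lit 22) (nat_lit 5) (nat_lit 22) (nat_lit 4) (nat_lit 458) (nat_lit 408) (nat_lit 334)) (XT.lf (nat_lit 0) (nat_lit 918887035) (nat_lit 152) (nat_lit 21299205223) (nat_lit 76) (nat_lit 67333193053) (nat_lit 20) (nat_lit 5) (nat_lit 22) (nat_lit 5) (nat_lit 21) (nat_lit 4) (nat_lit 459) (nat_lit 408) (nat_lit 333)))) (XT.nd (nat_lit 78) (nat_lit 76) (nat_lit 0) (XT.lf (nat_lit 0) (nat_lit 23264154824) (nat_lit 152) (nat_lit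 69762690699) (nat_lit 0) (nat_lit 1767988505) (nat_lit 19) (nat_lit 5) (nat_lit 21) (nat_lit 4) (nat_lit 19) (nat_lit 4) (nat_lit 460) (nat_lit 408) (nat_lit 332)) (XT.nd (nat_lit 78) (nat_lit 76) (nat_lit 0) (XT.lf (nat_lit 0) (nat_lit 48560508615) (nat_lit 152) (nat_lit 24744542302) (nat_lit 0) (nat_lit 27059738930) (nat_lit 19) (nat_lit 5) (nat_lit 21) (nat_lit 4) (nat_lit 19) (nat_lit 4) (nat_lit 461) (nat_lit 408) (nat_lit 331)) (XT.lf (nat_lit 0) (nat_lit 25110492756) (nat_lit 76) (nat_lit 51363696163) (nat_lit 76) (nat_lit 29858664101) (nat_lit 18) (nat_lit 4) (nat_lit 19) (nat_lit 5) (nat_lit 19) (nat_lit 4) (nat_lit 462) (nat_lit 408) (nat_lit 330)))))) (XT.nd (nat_lit 468) (nat_lit 304) (nat_lit 0) (XT.nd (nat_lit 234) (nat_lit 152) (nat_lit 0) (XT.nd (nat_lit 78) (nat_lit 152) (nat_lit 0) (XT.lf (nat_lit 0) (nat_lit 80341004806) (nat_lit 76) (nat_lit 26946505852) (nat_lit 76)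 (nat_lit 5437527145) (nat_lit 18) (nat_lit 4) (nat_lit 19) (nat_lit 5) (nat_lit 19) (nat_lit 4) (nat_lit 463) (nat_lit 408) (nat_lit 329)) (XT.nd (nat_lit 78) (nat_lit 0) (nat_lit 0) (XT.lf (nat_lit 0) (nat_lit 20394704732) (nat_lit 152) (nat_lit 98677627602) (nat_lit 0) (nat_lit 475600096) (nat_lit 16) (nat_lit 5) (nat_lit 18) (nat_lit 4) (nat_lit 16) (nat_lit 4) (nat_lit 464) (nat_lit 408) (nat_lit 328)) (XT.lf (nat_lit 0) (nat_lit 49598608045) (nat_lit 152) (nat_lit 47502472796) (nat_lit 0) (nat_lit 29676370434) (nat_lit 16) (nat_lit 5) (nat_lit 18) (nat_lit 4) (nat_lit 16) (nat_lit 4) (nat_lit 465) (nat_lit 408) (nat_lit 327)))) (XT.nd (nat_lit 78) (nat_lit 76) (nat_lit 0) (XT.lf (nat_lit 0) (nat_lit 8156955593) (nat_lit 76) (nat_lit 73169261646) (nat_lit 76) (nat_lit 53244123134) (nat_lit 15) (nat_lit 4) (nat_lit 16) (nat_lit 5) (nat_lit 16) (nat_lit 4) (nat_lit 466) (nat_lit 408)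 (nat_lit 326)) (XT.nd (nat_lit 78) (nat_lit 76) (nat_lit 0) (XT.lf (nat_lit 0) (nat_lit 70953313415) (nat_lit 76) (nat_lit 45928975805) (nat_lit 76) (nat_lit 26001151272) (nat_lit 15) (nat_lit 4) (nat_lit 16) (nat_lit 5) (nat_lit 16) (nat_lit 4) (nat_lit 467) (nat_lit 408) (nat_lit 325)) (XT.lf (nat_lit 0) (nat_lit 3241992804) (nat_lit 152) (nat_lit 13186966556) (nat_lit 76) (nat_lit 135426696565) (nat_lit 14) (nat_lit 5) (nat_lit 16) (nat_lit 5) (nat_lit 15) (nat_lit 4) (nat_lit 468) (nat_lit 408) (nat_lit 324))))) (XT.nd (nat_lit 234) (nat_lit 152) (nat_lit 0) (XT.nd (nat_lit 78) (nat_lit 76) (nat_lit 0) (XT.lf (nat_lit 0) (nat_lit 35088208517) (nat_lit 152) (nat_lit 109637859214) (nat_lit 0) (nat_lit 16632084056) (nat_lit 13) (nat_lit 5) (nat_lit 15) (nat_lit 4) (nat_lit 13) (nat_lit 4) (nat_lit 469) (nat_lit 408) (nat_lit 323)) (XT.nd (nat_lit 78) (nat_lit 76) (nat_lit 0) (XT.lf (nat_lit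 0) (nat_lit 70271266724) (nat_lit 152) (nat_lit 49473281176) (nat_lit 0) (nat_lit 51813167958) (nat_lit 13) (nat_lit 5) (nat_lit 15) (nat_lit 4) (nat_lit 13) (nat_lit 4) (nat_lit 470) (nat_lit 408) (nat_lit 322)) (XT.lf (nat_lit 0) (nat_lit 16306013452) (nat_lit 76) (nat_lit 92348170705) (nat_lit 76) (nat_lit 73888243879) (nat_lit 12) (nat_lit 4) (nat_lit 13) (nat_lit 5) (nat_lit 13) (nat_lit 4) (nat_lit 471) (nat_lit 408) (nat_lit 321)))) (XT.nd (nat_lit 78) (nat_lit 152) (nat_lit 0) (XT.lf (nat_lit 0) (nat_lit 90147456542) (nat_lit 76) (nat_lit 61306203141) (nat_lit 76) (nat_lit 42844583666) (nat_lit 12) (nat_lit 4) (nat_lit 13) (nat_lit 5) (nat_lit 13) (nat_lit 4) (nat_lit 472) (nat_lit 408) (nat_lit 320)) (XT.nd (nat_lit 78) (nat_lit 152) (nat_lit 0) (XT.lf (nat_lit 0) (nat_lit 169883451703) (nat_lit 76) (nat_lit 27787379989) (nat_lit 76) (nat_lit 9324193247) (nat_lit 12) (nat_lit 4)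 (nat_lit 13) (nat_lit 5) (nat_lit 13) (nat_lit 4) (nat_lit 473) (nat_lit 408) (nat_lit 319)) (XT.lf (nat_lit 0) (nat_lit 26645853529) (nat_lit 152) (nat_lit 184372011033) (nat_lit 0) (nat_lit 9548966571) (nat_lit 10) (nat_lit 5) (nat_lit 12) (nat_lit 4) (nat_lit 10) (nat_lit 4) (nat_lit 474) (nat_lit 408) (nat_lit 318))))))) (XT.nd (nat_lit 936) (nat_lit 152) (nat_lit 0) (XT.nd (nat_lit 468) (nat_lit 152) (nat_lit 0) (XT.nd (nat_lit 234) (nat_lit 76) (nat_lit 0) (XT.nd (nat_lit 78) (nat_lit 76) (nat_lit 0) (XT.lf (nat_lit 0) (nat_lit 66746620224) (nat_lit 152) (nat_lit 118669348451) (nat_lit 0) (nat_lit 49648489119) (nat_lit 10) (nat_lit 5) (nat_lit 12) (nat_lit 4) (nat_lit 10) (nat_lit 4) (nat_lit 475) (nat_lit 408) (nat_lit 317)) (XT.nd (nat_lit 78) (nat_lit 76) (nat_lit 0) (XT.lf (nat_lit 0) (nat_lit 110049950794) (nat_lit 152) (nat_lit 47721715982) (nat_lit 0) (nat_lit 92950667701)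 (nat_lit 10) (nat_lit 5) (nat_lit 12) (nat_lit 4) (nat_lit 10) (nat_lit 4) (nat_lit 476) (nat_lit 408) (nat_lit 316)) (XT.lf (nat_lit 0) (nat_lit 30412682330) (nat_lit 76) (nat_lit 127131200979) (nat_lit 76) (nat_lit 110030851230) (nat_lit 9) (nat_lit 4) (nat_lit 10) (nat_lit 5) (nat_lit 10) (nat_lit 4) (nat_lit 477) (nat_lit 408) (nat_lit 315)))) (XT.nd (nat_lit 78) (nat_lit 76) (nat_lit 0) (XT.lf (nat_lit 0) (nat_lit 117501662037) (nat_lit 76) (nat_lit 92635507458) (nat_lit 76) (nat_lit 75534170065) (nat_lit 9) (nat_lit 4) (nat_lit 10) (nat_lit 5) (nat_lit 10) (nat_lit 4) (nat_lit 478) (nat_lit 408) (nat_lit 314)) (XT.nd (nat_lit 78) (nat_lit 76) (nat_lit 0) (XT.lf (nat_lit 0) (nat_lit 211548364987) (nat_lit 76) (nat_lit 55384963575) (nat_lit 76) (nat_lit 38282711697) (nat_lit 9) (nat_lit 4) (nat_lit 10) (nat_lit 5) (nat_lit 10) (nat_lit 4) (nat_lit 479) (nat_lit 408) (nat_lit 313)) (XT.lf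 (nat_lit 0) (nat_lit 1847012834) (nat_lit 152) (nat_lit 13261311927) (nat_lit 76) (nat_lit 311212591537) (nat_lit 8) (nat_lit 5) (nat_lit 10) (nat_lit 5) (nat_lit 9) (nat_lit 4) (nat_lit 480) (nat_lit 408) (nat_lit 312))))) (XT.nd (nat_lit 234) (nat_lit 76) (nat_lit 0) (XT.nd (nat_lit 78) (nat_lit 0) (nat_lit 0) (XT.lf (nat_lit 0) (nat_lit 45708396955) (nat_lit 152) (nat_lit 273247605059) (nat_lit 0) (nat_lit 29871468578) (nat_lit 7) (nat_lit 5) (nat_lit 9) (nat_lit 4) (nat_lit 7) (nat_lit 4) (nat_lit 481) (nat_lit 408) (nat_lit 311)) (XT.nd (nat_lit 78) (nat_lit 0) (nat_lit 0) (XT.lf (nat_lit 0) (nat_lit 93839090031) (nat_lit 152) (nat_lit 201233137916) (nat_lit 0) (nat_lit 78001489480) (nat_lit 7) (nat_lit 5) (nat_lit 9) (nat_lit 4) (nat_lit 7) (nat_lit 4) (nat_lit 482) (nat_lit 408) (nat_lit 310)) (XT.lf (nat_lit 0) (nat_lit 145816505750) (nat_lit 152) (nat_lit 123465174118) (nat_lit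 0) (nat_lit 129978282816) (nat_lit 7) (nat_lit 5) (nat_lit 9) (nat_lit 4) (nat_lit 7) (nat_lit 4) (nat_lit 483) (nat_lit 408) (nat_lit 309)))) (XT.nd (nat_lit 78) (nat_lit 76) (nat_lit 0) (XT.lf (nat_lit 0) (nat_lit 201948658427) (nat_lit 152) (nat_lit 39482866472) (nat_lit 0) (nat_lit 186109859212) (nat_lit 7) (nat_lit 5) (nat_lit 9) (nat_lit 4) (nat_lit 7) (nat_lit 4) (nat_lit 484) (nat_lit 408) (nat_lit 308)) (XT.nd (nat_lit 78) (nat_lit 0) (nat_lit 0) (XT.lf (nat_lit 0) (nat_lit 53908162576) (nat_lit 76) (nat_lit 209956513070) (nat_lit 76) (nat_lit 194117180262) (nat_lit 6) (nat_lit 4) (nat_lit 7) (nat_lit 5) (nat_lit 7) (nat_lit 4) (nat_lit 485) (nat_lit 408) (nat_lit 307)) (XT.lf (nat_lit 0) (nat_lit 157009497994) (nat_lit 76) (nat_lit 174800890611) (nat_lit 76) (nat_lit 158961063735) (nat_lit 6) (nat_lit 4) (nat_lit 7) (nat_lit 5) (nat_lit 7) (nat_lit 4) (nat_lit 486) (nat_lit 408)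 (nat_lit 306)))))) (XT.nd (nat_lit 468) (nat_lit 0) (nat_lit 0) (XT.nd (nat_lit 234) (nat_lit 152) (nat_lit 0) (XT.nd (nat_lit 78) (nat_lit 0) (nat_lit 0) (XT.lf (nat_lit 0) (nat_lit 268353012879) (nat_lit 76) (nat_lit 136835859447) (nat_lit 76) (nat_lit 120995575100) (nat_lit 6) (nat_lit 4) (nat_lit 7) (nat_lit 5) (nat_lit 7) (nat_lit 4) (nat_lit 487) (nat_lit 408) (nat_lit 305)) (XT.nd (nat_lit 78) (nat_lit 0) (nat_lit 0) (XT.lf (nat_lit 0) (nat_lit 388598520653) (nat_lit 76) (nat_lit 95836441614) (nat_lit 76) (nat_lit 79995733684) (nat_lit 6) (nat_lit 4) (nat_lit 7) (nat_lit 5) (nat_lit 7) (nat_lit 4) (nat_lit 488) (nat_lit 408) (nat_lit 304)) (XT.lf (nat_lit 0) (nat_lit 518458587287) (nat_lit 76) (nat_lit 51559677600) (nat_lit 76) (nat_lit 35718577463) (nat_lit 6) (nat_lit 4) (nat_lit 7) (nat_lit 5) (nat_lit 7) (nat_lit 4) (nat_lit 489) (nat_lit 408) (nat_lit 303)))) (XT.nd (nat_lit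 78) (nat_lit 0) (nat_lit 0) (XT.lf (nat_lit 0) (nat_lit 8488768880) (nat_lit 76) (nat_lit 3208458125) (nat_lit 152) (nat_lit 638610827269) (nat_lit 4) (nat_lit 5) (nat_lit 5) (nat_lit 5) (nat_lit 6) (nat_lit 4) (nat_lit 490) (nat_lit 408) (nat_lit 302)) (XT.nd (nat_lit 78) (nat_lit 0) (nat_lit 0) (XT.lf (nat_lit 0) (nat_lit 64601254348) (nat_lit 152) (nat_lit 583546591817) (nat_lit 0) (nat_lit 49932921435) (nat_lit 4) (nat_lit 5) (nat_lit 6) (nat_lit 4) (nat_lit 4) (nat_lit 4) (nat_lit 491) (nat_lit 408) (nat_lit 301)) (XT.lf (nat_lit 0) (nat_lit 121818766416) (nat_lit 152) (nat_lit 520699893377) (nat_lit 0) (nat_lit 107150145218) (nat_lit 4) (nat_lit 5) (nat_lit 6) (nat_lit 4) (nat_lit 4) (nat_lit 4) (nat_lit 492) (nat_lit 408) (nat_lit 300))))) (XT.nd (nat_lit 234) (nat_lit 0) (nat_lit 0) (XT.nd (nat_lit 78) (nat_lit 0) (nat_lit 0) (XT.lf (nat_lit 0) (nat_lit 183611666452) (nat_lit 152)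 (nat_lit 452829601699) (nat_lit 0) (nat_lit 168942778325) (nat_lit 4) (nat_lit 5) (nat_lit 6) (nat_lit 4) (nat_lit 4) (nat_lit 4) (nat_lit 493) (nat_lit 408) (nat_lit 299)) (XT.nd (nat_lit 78) (nat_lit 0) (nat_lit 0) (XT.lf (nat_lit 0) (nat_lit 250346134606) (nat_lit 152) (nat_lit 379533522463) (nat_lit 0) (nat_lit 235676999322) (nat_lit 4) (nat_lit 5) (nat_lit 6) (nat_lit 4) (nat_lit 4) (nat_lit 4) (nat_lit 494) (nat_lit 408) (nat_lit 298)) (XT.lf (nat_lit 0) (nat_lit 322417634391) (nat_lit 152) (nat_lit 300377308531) (nat_lit 0) (nat_lit 307748270258) (nat_lit 4) (nat_lit 5) (nat_lit 6) (nat_lit 4) (nat_lit 4) (nat_lit 4) (nat_lit 495) (nat_lit 408) (nat_lit 297)))) (XT.nd (nat_lit 78) (nat_lit 0) (nat_lit 0) (XT.lf (nat_lit 0) (nat_lit 400253256178) (nat_lit 152) (nat_lit 214891886045) (nat_lit 0) (nat_lit 385583680148) (nat_lit 4) (nat_lit 5) (nat_lit 6) (nat_lit 4) (nat_lit 4) (nat_lit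 4) (nat_lit 496) (nat_lit 408) (nat_lit 296)) (XT.nd (nat_lit 78) (nat_lit 0) (nat_lit 0) (XT.lf (nat_lit 0) (nat_lit 484314248095) (nat_lit 152) (nat_lit 122570674722) (nat_lit 0) (nat_lit 469644475864) (nat_lit 4) (nat_lit 5) (nat_lit 6) (nat_lit 4) (nat_lit 4) (nat_lit 4) (nat_lit 497) (nat_lit 408) (nat_lit 295)) (XT.lf (nat_lit 0) (nat_lit 575098749353) (nat_lit 152) (nat_lit 22866585902) (nat_lit 0) (nat_lit 560428795455) (nat_lit 4) (nat_lit 5) (nat_lit 6) (nat_lit 4) (nat_lit 4) (nat_lit 4) (nat_lit 498) (nat_lit 408) (nat_lit 294))))))))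
noncomputable def xc116 : XT := (XT.nd (nat_lit 1794) (nat_lit 0) (nat_lit 0) (XT.nd (nat_lit 858) (nat_lit 152) (nat_lit 0) (XT.nd (nat_lit 390) (nat_lit 0) (nat_lit 0) (XT.nd (nat_lit 156) (nat_lit 0) (nat_lit 0) (XT.nd (nat_lit 78) (nat_lit 0) (nat_lit 0) (XT.lf (nat_lit 0) (nat_lit 89277227975) (nat_lit 76) (nat_lit 586014633687) (nat_lit 76) (nat_lit 571344511578) (nat_lit 3) (nat_lit 4) (nat_lit 4) (nat_lit 5) (nat_lit 4) (nat_lit 4) (nat_lit 499) (nat_lit 408) (nat_lit 293)) (XT.lf (nat_lit 0) (nat_lit 211690445492) (nat_lit 76) (nat_lit 572433954688) (nat_lit 76) (nat_lit 557763676827) (nat_lit 3) (nat_lit 4) (nat_lit 4) (nat_lit 5) (nat_lit 4) (nat_lit 4) (nat_lit 500) (nat_lit 408) (nat_lit 292))) (XT.nd (nat_lit 78) (nat_lit 0) (nat_lit 0) (XT.lf (nat_lit 0) (nat_lit 343894364416) (nat_lit 76) (nat_lit 557768033142) (nat_lit 76) (nat_lit 543097611068) (nat_lit 3) (nat_lit 4)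 (nat_lit 4) (nat_lit 5) (nat_lit 4) (nat_lit 4) (nat_lit 501) (nat_lit 408) (nat_lit 291)) (XT.nd (nat_lit 78) (nat_lit 0) (nat_lit 0) (XT.lf (nat_lit 0) (nat_lit 486672415376) (nat_lit 76) (nat_lit 541929959885) (nat_lit 76) (nat_lit 527259404279) (nat_lit 3) (nat_lit 4) (nat_lit 4) (nat_lit 5) (nat_lit 4) (nat_lit 4) (nat_lit 502) (nat_lit 408) (nat_lit 290)) (XT.lf (nat_lit 0) (nat_lit 640870690529) (nat_lit 76) (nat_lit 524825879667) (nat_lit 76) (nat_lit 510155200422) (nat_lit 3) (nat_lit 4) (nat_lit 4) (nat_lit 5) (nat_lit 4) (nat_lit 4) (nat_lit 503) (nat_lit 408) (nat_lit 289))))) (XT.nd (nat_lit 234) (nat_lit 0) (nat_lit 0) (XT.nd (nat_lit 78) (nat_lit 0) (nat_lit 0) (XT.lf (nat_lit 0) (nat_lit 807402957428) (nat_lit 76) (nat_lit 506354434977) (nat_lit 76) (nat_lit 491683641250) (nat_lit 3) (nat_lit 4) (nat_lit 4) (nat_lit 5) (nat_lit 4) (nat_lit 4) (nat_lit 504) (nat_lit 408)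 (nat_lit 288)) (XT.nd (nat_lit 78) (nat_lit 0) (nat_lit 0) (XT.lf (nat_lit 0) (nat_lit 987256073954) (nat_lit 76) (nat_lit 486406165401) (nat_lit 76) (nat_lit 471735265673) (nat_lit 3) (nat_lit 4) (nat_lit 4) (nat_lit 5) (nat_lit 4) (nat_lit 4) (nat_lit 505) (nat_lit 408) (nat_lit 287)) (XT.lf (nat_lit 0) (nat_lit 1181495836351) (nat_lit 76) (nat_lit 464862858972) (nat_lit 76) (nat_lit 450191861094) (nat_lit 3) (nat_lit 4) (nat_lit 4) (nat_lit 5) (nat_lit 4) (nat_lit 4) (nat_lit 506) (nat_lit 408) (nat_lit 286)))) (XT.nd (nat_lit 78) (nat_lit 0) (nat_lit 0) (XT.lf (nat_lit 0) (nat_lit 1391273295064) (nat_lit 76) (nat_lit 441596851651) (nat_lit 76) (nat_lit 426925762895) (nat_lit 3) (nat_lit 4) (nat_lit 4) (nat_lit 5) (nat_lit 4) (nat_lit 4) (nat_lit 507) (nat_lit 408) (nat_lit 285)) (XT.nd (nat_lit 78) (nat_lit 0) (nat_lit 0) (XT.lf (nat_lit 0) (nat_lit 1617831575773) (nat_lit 76) (nat_lit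 416470270803) (nat_lit 76) (nat_lit 401799097899) (nat_lit 3) (nat_lit 4) (nat_lit 4) (nat_lit 5) (nat_lit 4) (nat_lit 4) (nat_lit 508) (nat_lit 408) (nat_lit 284)) (XT.lf (nat_lit 0) (nat_lit 1862513246069) (nat_lit 76) (nat_lit 389334218171) (nat_lit 76) (nat_lit 374662967352) (nat_lit 3) (nat_lit 4) (nat_lit 4) (nat_lit 5) (nat_lit 4) (nat_lit 4) (nat_lit 509) (nat_lit 408) (nat_lit 283)))))) (XT.nd (nat_lit 468) (nat_lit 152) (nat_lit 0) (XT.nd (nat_lit 234) (nat_lit 0) (nat_lit 0) (XT.nd (nat_lit 78) (nat_lit 0) (nat_lit 0) (XT.lf (nat_lit 0) (nat_lit 2126768271404) (nat_lit 76) (nat_lit 360027887516) (nat_lit 76) (nat_lit 345356564554) (nat_lit 3) (nat_lit 4) (nat_lit 4) (nat_lit 5) (nat_lit 4) (nat_lit 4) (nat_lit 510) (nat_lit 408) (nat_lit 282)) (XT.nd (nat_lit 78) (nat_lit 0) (nat_lit 0) (XT.lf (nat_lit 0) (nat_lit 2412162607485) (nat_lit 76) (nat_lit 328377611694) (nat_lit 76)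 (nat_lit 313706221934) (nat_lit 3) (nat_lit 4) (nat_lit 4) (nat_lit 5) (nat_lit 4) (nat_lit 4) (nat_lit 511) (nat_lit 408) (nat_lit 281)) (XT.lf (nat_lit 0) (nat_lit 2720387480007) (nat_lit 76) (nat_lit 294195833515) (nat_lit 76) (nat_lit 279524381904) (nat_lit 3) (nat_lit 4) (nat_lit 4) (nat_lit 5) (nat_lit 4) (nat_lit 4) (nat_lit 512) (nat_lit 408) (nat_lit 280)))) (XT.nd (nat_lit 78) (nat_lit 0) (nat_lit 0) (XT.lf (nat_lit 0) (nat_lit 3053269406733) (nat_lit 76) (nat_lit 257279994294) (nat_lit 76) (nat_lit 242608485414) (nat_lit 3) (nat_lit 4) (nat_lit 4) (nat_lit 5) (nat_lit 4) (nat_lit 4) (nat_lit 513) (nat_lit 408) (nat_lit 279)) (XT.nd (nat_lit 78) (nat_lit 0) (nat_lit 0) (XT.lf (nat_lit 0) (nat_lit 3412781021302) (nat_lit 76) (nat_lit 217411333502) (nat_lit 76) (nat_lit 202739771595) (nat_lit 3) (nat_lit 4) (nat_lit 4) (nat_lit 5) (nat_lit 4) (nat_lit 4) (nat_lit 514) (nat_lit 408)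 (nat_lit 278)) (XT.lf (nat_lit 0) (nat_lit 3801052762913) (nat_lit 76) (nat_lit 174353592408) (nat_lit 76) (nat_lit 159681981402) (nat_lit 3) (nat_lit 4) (nat_lit 4) (nat_lit 5) (nat_lit 4) (nat_lit 4) (nat_lit 515) (nat_lit 408) (nat_lit 277))))) (XT.nd (nat_lit 234) (nat_lit 152) (nat_lit 0) (XT.nd (nat_lit 78) (nat_lit 0) (nat_lit 0) (XT.lf (nat_lit 0) (nat_lit 4220385501144) (nat_lit 76) (nat_lit 127851614028) (nat_lit 76) (nat_lit 113179957559) (nat_lit 3) (nat_lit 4) (nat_lit 4) (nat_lit 5) (nat_lit 4) (nat_lit 4) (nat_lit 516) (nat_lit 408) (nat_lit 276)) (XT.nd (nat_lit 78) (nat_lit 0) (nat_lit 0) (XT.lf (nat_lit 0) (nat_lit 4673264170742) (nat_lit 76) (nat_lit 77629831083) (nat_lit 76) (nat_lit 62958132520) (nat_lit 3) (nat_lit 4) (nat_lit 4) (nat_lit 5) (nat_lit 4) (nat_lit 4) (nat_lit 517) (nat_lit 408) (nat_lit 275)) (XT.lf (nat_lit 0) (nat_lit 5162372497155) (nat_lit 76) (nat_lit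 23390633006) (nat_lit 76) (nat_lit 8718895467) (nat_lit 3) (nat_lit 4) (nat_lit 4) (nat_lit 5) (nat_lit 4) (nat_lit 4) (nat_lit 518) (nat_lit 408) (nat_lit 274)))) (XT.nd (nat_lit 78) (nat_lit 0) (nat_lit 0) (XT.lf (nat_lit 0) (nat_lit 50420273171) (nat_lit 152) (nat_lit 5517966410461) (nat_lit 0) (nat_lit 36835297589) (nat_lit 1) (nat_lit 5) (nat_lit 3) (nat_lit 4) (nat_lit 1) (nat_lit 4) (nat_lit 519) (nat_lit 408) (nat_lit 273)) (XT.nd (nat_lit 78) (nat_lit 0) (nat_lit 0) (XT.lf (nat_lit 0) (nat_lit 115327518713) (nat_lit 152) (nat_lit 5831612345956) (nat_lit 0) (nat_lit 101742512190) (nat_lit 1) (nat_lit 5) (nat_lit 3) (nat_lit 4) (nat_lit 1) (nat_lit 4) (nat_lit 520) (nat_lit 408) (nat_lit 272)) (XT.lf (nat_lit 0) (nat_lit 185427072137) (nat_lit 152) (nat_lit 6170350516789) (nat_lit 0) (nat_lit 171842036965) (nat_lit 1) (nat_lit 5) (nat_lit 3) (nat_lit 4) (nat_lit 1) (nat_lit 4) (nat_lit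 521) (nat_lit 408) (nat_lit 271))))))) (XT.nd (nat_lit 53898) (nat_lit 0) (nat_lit 4484) (XT.nd (nat_lit 390) (nat_lit 0) (nat_lit 0) (XT.nd (nat_lit 156) (nat_lit 0) (nat_lit 0) (XT.nd (nat_lit 78) (nat_lit 0) (nat_lit 0) (XT.lf (nat_lit 0) (nat_lit 261134338203) (nat_lit 152) (nat_lit 6536188260269) (nat_lit 0) (nat_lit 247549276504) (nat_lit 1) (nat_lit 5) (nat_lit 3) (nat_lit 4) (nat_lit 1) (nat_lit 4) (nat_lit 522) (nat_lit 408) (nat_lit 270)) (XT.lf (nat_lit 0) (nat_lit 342897952564) (nat_lit 152) (nat_lit 6931293503766) (nat_lit 0) (nat_lit 329312866303) (nat_lit 1) (nat_lit 5) (nat_lit 3) (nat_lit 4) (nat_lit 1) (nat_lit 4) (nat_lit 523) (nat_lit 408) (nat_lit 269))) (XT.nd (nat_lit 78) (nat_lit 0) (nat_lit 0) (XT.lf (nat_lit 0) (nat_lit 431202440340) (nat_lit 152) (nat_lit 7358007611683) (nat_lit 0) (nat_lit 417617331337) (nat_lit 1) (nat_lit 5) (nat_lit 3) (nat_lit 4) (nat_lit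 1) (nat_lit 4) (nat_lit 524) (nat_lit 408) (nat_lit 268)) (XT.nd (nat_lit 78) (nat_lit 0) (nat_lit 0) (XT.lf (nat_lit 0) (nat_lit 526571087386) (nat_lit 152) (nat_lit 7818859260218) (nat_lit 0) (nat_lit 512985957325) (nat_lit 1) (nat_lit 5) (nat_lit 3) (nat_lit 4) (nat_lit 1) (nat_lit 4) (nat_lit 525) (nat_lit 408) (nat_lit 267)) (XT.lf (nat_lit 0) (nat_lit 629569041239) (nat_lit 152) (nat_lit 8316579422101) (nat_lit 0) (nat_lit 615983891681) (nat_lit 1) (nat_lit 5) (nat_lit 3) (nat_lit 4) (nat_lit 1) (nat_lit 4) (nat_lit 526) (nat_lit 408) (nat_lit 266))))) (XT.nd (nat_lit 53274) (nat_lit 0) (nat_lit 5852) (XT.nd (nat_lit 78) (nat_lit 0) (nat_lit 0) (XT.lf (nat_lit 0) (nat_lit 740806660145) (nat_lit 152) (nat_lit 8854117550145) (nat_lit 0) (nat_lit 727221492533) (nat_lit 1) (nat_lit 5) (nat_lit 3) (nat_lit 4) (nat_lit 1) (nat_lit 4) (nat_lit 527) (nat_lit 408) (nat_lit 265)) (XT.nd (nat_lit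 78) (nat_lit 0) (nat_lit 0) (XT.lf (nat_lit 0) (nat_lit 860943129993) (nat_lit 152) (nat_lit 9434659055477) (nat_lit 0) (nat_lit 847357945664) (nat_lit 1) (nat_lit 5) (nat_lit 3) (nat_lit 4) (nat_lit 1) (nat_lit 4) (nat_lit 528) (nat_lit 408) (nat_lit 264)) (XT.lf (nat_lit 0) (nat_lit 990690370605) (nat_lit 152) (nat_lit 10061644184056) (nat_lit 0) (nat_lit 977105170798) (nat_lit 1) (nat_lit 5) (nat_lit 3) (nat_lit 4) (nat_lit 1) (nat_lit 4) (nat_lit 529) (nat_lit 408) (nat_lit 263)))) (XT.nd (nat_lit 78) (nat_lit 532) (nat_lit 0) (XT.lf (nat_lit 0) (nat_lit 2073146102) (nat_lit 0) (nat_lit 2073146102) (nat_lit 380) (nat_lit 242619877) (nat_lit 85) (nat_lit 5) (nat_lit 85) (nat_lit 3) (nat_lit 90) (nat_lit 3) (nat_lit 409) (nat_lit 409) (nat_lit 382)) (XT.nd (nat_lit 78) (nat_lit 0) (nat_lit 76) (XT.lf (nat_lit 0) (nat_lit 454849706) (nat_lit 532) (nat_lit 280676566) (nat_lit 532) (nat_lit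 8319265945) (nat_lit 78) (nat_lit 3) (nat_lit 85) (nat_lit 3) (nat_lit 85) (nat_lit 5) (nat_lit 410) (nat_lit 409) (nat_lit 381)) (XT.lf (nat_lit 0) (nat_lit 1535844069) (nat_lit 456) (nat_lit 4842245399) (nat_lit 532) (nat_lit 2967504462) (nat_lit 79) (nat_lit 5) (nat_lit 85) (nat_lit 5) (nat_lit 86) (nat_lit 5) (nat_lit 411) (nat_lit 409) (nat_lit 380)))))) (XT.nd (nat_lit 468) (nat_lit 1140) (nat_lit 0) (XT.nd (nat_lit 234) (nat_lit 304) (nat_lit 0) (XT.nd (nat_lit 78) (nat_lit 0) (nat_lit 76) (XT.lf (nat_lit 0) (nat_lit 2643492130) (nat_lit 456) (nat_lit 49485794) (nat_lit 532) (nat_lit 6971502709) (nat_lit 79) (nat_lit 5) (nat_lit 85) (nat_lit 5) (nat_lit 86) (nat_lit 5) (nat_lit 412) (nat_lit 409) (nat_lit 379)) (XT.nd (nat_lit 78) (nat_lit 0) (nat_lit 0) (XT.lf (nat_lit 0) (nat_lit 3922773753) (nat_lit 456) (nat_lit 4699100016) (nat_lit 532) (nat_lit 1380394976) (nat_lit 80) (nat_lit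 5) (nat_lit 86) (nat_lit 5) (nat_lit 87) (nat_lit 5) (nat_lit 413) (nat_lit 409) (nat_lit 378)) (XT.lf (nat_lit 76) (nat_lit 622771413) (nat_lit 0) (nat_lit 4692856313) (nat_lit 532) (nat_lit 5050583617) (nat_lit 81) (nat_lit 5) (nat_lit 80) (nat_lit 5) (nat_lit 87) (nat_lit 5) (nat_lit 414) (nat_lit 409) (nat_lit 377)))) (XT.nd (nat_lit 78) (nat_lit 380) (nat_lit 0) (XT.lf (nat_lit 76) (nat_lit 6580832158) (nat_lit 0) (nat_lit 296671724) (nat_lit 532) (nat_lit 3877185571) (nat_lit 81) (nat_lit 5) (nat_lit 80) (nat_lit 5) (nat_lit 87) (nat_lit 5) (nat_lit 415) (nat_lit 409) (nat_lit 376)) (XT.nd (nat_lit 78) (nat_lit 0) (nat_lit 0) (XT.lf (nat_lit 0) (nat_lit 1764313421) (nat_lit 456) (nat_lit 6884176898) (nat_lit 532) (nat_lit 2519048245) (nat_lit 75) (nat_lit 5) (nat_lit 81) (nat_lit 5) (nat_lit 82) (nat_lit 5) (nat_lit 416) (nat_lit 409) (nat_lit 375)) (XT.lf (nat_lit 0) (nat_lit 8350085285)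 (nat_lit 456) (nat_lit 2270853312) (nat_lit 532) (nat_lit 987718049) (nat_lit 75) (nat_lit 5) (nat_lit 81) (nat_lit 5) (nat_lit 82) (nat_lit 5) (nat_lit 417) (nat_lit 409) (nat_lit 374))))) (XT.nd (nat_lit 234) (nat_lit 380) (nat_lit 0) (XT.nd (nat_lit 78) (nat_lit 228) (nat_lit 0) (XT.lf (nat_lit 0) (nat_lit 725595984) (nat_lit 532) (nat_lit 8669590727) (nat_lit 76) (nat_lit 2681192198) (nat_lit 68) (nat_lit 5) (nat_lit 75) (nat_lit 5) (nat_lit 69) (nat_lit 5) (nat_lit 418) (nat_lit 409) (nat_lit 373)) (XT.nd (nat_lit 78) (nat_lit 228) (nat_lit 0) (XT.lf (nat_lit 0) (nat_lit 2617315900) (nat_lit 532) (nat_lit 1929380576) (nat_lit 76) (nat_lit 8025212613) (nat_lit 68) (nat_lit 5) (nat_lit 75) (nat_lit 5) (nat_lit 69) (nat_lit 5) (nat_lit 419) (nat_lit 409) (nat_lit 372)) (XT.lf (nat_lit 0) (nat_lit 4762877925) (nat_lit 304) (nat_lit 7545973979) (nat_lit 76) (nat_lit 790046819) (nat_lit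 65) (nat_lit 5) (nat_lit 69) (nat_lit 5) (nat_lit 66) (nat_lit 5) (nat_lit 420) (nat_lit 409) (nat_lit 371)))) (XT.nd (nat_lit 78) (nat_lit 380) (nat_lit 0) (XT.lf (nat_lit 0) (nat_lit 7203188640) (nat_lit 304) (nat_lit 96599282) (nat_lit 76) (nat_lit 6358427421) (nat_lit 65) (nat_lit 5) (nat_lit 69) (nat_lit 5) (nat_lit 66) (nat_lit 5) (nat_lit 421) (nat_lit 409) (nat_lit 370)) (XT.nd (nat_lit 78) (nat_lit 152) (nat_lit 0) (XT.lf (nat_lit 0) (nat_lit 8311884487) (nat_lit 228) (nat_lit 1681263741) (nat_lit 304) (nat_lit 4256790063) (nat_lit 62) (nat_lit 5) (nat_lit 65) (nat_lit 5) (nat_lit 66) (nat_lit 5) (nat_lit 422) (nat_lit 409) (nat_lit 369)) (XT.lf (nat_lit 0) (nat_lit 2473316053) (nat_lit 152) (nat_lit 10657149286) (nat_lit 228) (nat_lit 1748614687) (nat_lit 60) (nat_lit 5) (nat_lit 62) (nat_lit 5) (nat_lit 63) (nat_lit 5) (nat_lit 423) (nat_lit 409) (nat_lit 368))))))))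
noncomputable def xc117 : XT := (XT.nd (nat_lit 1794) (nat_lit 1444) (nat_lit 0) (XT.nd (nat_lit 858) (nat_lit 988) (nat_lit 0) (XT.nd (nat_lit 390) (nat_lit 532) (nat_lit 0) (XT.nd (nat_lit 156) (nat_lit 304) (nat_lit 0) (XT.nd (nat_lit 78) (nat_lit 228) (nat_lit 0) (XT.lf (nat_lit 0) (nat_lit 1079743073) (nat_lit 228) (nat_lit 3776715608) (nat_lit 76) (nat_lit 10686853834) (nat_lit 59) (nat_lit 5) (nat_lit 62) (nat_lit 5) (nat_lit 60) (nat_lit 5) (nat_lit 424) (nat_lit 409) (nat_lit 367)) (XT.lf (nat_lit 0) (nat_lit 4176595041) (nat_lit 304) (nat_lit 10554890655) (nat_lit 76) (nat_lit 1514639691) (nat_lit 56) (nat_lit 5) (nat_lit 60) (nat_lit 5) (nat_lit 57) (nat_lit 5) (nat_lit 425) (nat_lit 409) (nat_lit 366))) (XT.nd (nat_lit 78) (nat_lit 304) (nat_lit 0) (XT.lf (nat_lit 0) (nat_lit 7715190208) (nat_lit 304) (nat_lit 1047119231) (nat_lit 76) (nat_lit 8227344401) (nat_lit 56) (nat_lit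 5) (nat_lit 60) (nat_lit 5) (nat_lit 57) (nat_lit 5) (nat_lit 426) (nat_lit 409) (nat_lit 365)) (XT.nd (nat_lit 78) (nat_lit 152) (nat_lit 0) (XT.lf (nat_lit 0) (nat_lit 9655387281) (nat_lit 152) (nat_lit 2078428584) (nat_lit 228) (nat_lit 6043102674) (nat_lit 54) (nat_lit 5) (nat_lit 56) (nat_lit 5) (nat_lit 57) (nat_lit 5) (nat_lit 427) (nat_lit 409) (nat_lit 364)) (XT.lf (nat_lit 0) (nat_lit 2604672051) (nat_lit 152) (nat_lit 13650760820) (nat_lit 228) (nat_lit 2357220146) (nat_lit 52) (nat_lit 5) (nat_lit 54) (nat_lit 5) (nat_lit 55) (nat_lit 5) (nat_lit 428) (nat_lit 409) (nat_lit 363))))) (XT.nd (nat_lit 234) (nat_lit 304) (nat_lit 0) (XT.nd (nat_lit 78) (nat_lit 152) (nat_lit 0) (XT.lf (nat_lit 0) (nat_lit 1790488043) (nat_lit 228) (nat_lit 4995972937) (nat_lit 76) (nat_lit 12705815394) (nat_lit 51) (nat_lit 5) (nat_lit 54) (nat_lit 5) (nat_lit 52) (nat_lit 5) (nat_lit 429) (nat_lit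 409) (nat_lit 362)) (XT.nd (nat_lit 78) (nat_lit 0) (nat_lit 0) (XT.lf (nat_lit 0) (nat_lit 6304144119) (nat_lit 228) (nat_lit 13300411809) (nat_lit 76) (nat_lit 819903875) (nat_lit 49) (nat_lit 5) (nat_lit 52) (nat_lit 5) (nat_lit 50) (nat_lit 5) (nat_lit 430) (nat_lit 409) (nat_lit 361)) (XT.lf (nat_lit 0) (nat_lit 11464996952) (nat_lit 228) (nat_lit 1149952069) (nat_lit 76) (nat_lit 8793386942) (nat_lit 49) (nat_lit 5) (nat_lit 52) (nat_lit 5) (nat_lit 50) (nat_lit 5) (nat_lit 431) (nat_lit 409) (nat_lit 360)))) (XT.nd (nat_lit 78) (nat_lit 152) (nat_lit 0) (XT.lf (nat_lit 0) (nat_lit 12556565118) (nat_lit 152) (nat_lit 4756069866) (nat_lit 228) (nat_lit 5136379798) (nat_lit 47) (nat_lit 5) (nat_lit 49) (nat_lit 5) (nat_lit 50) (nat_lit 5) (nat_lit 432) (nat_lit 409) (nat_lit 359)) (XT.nd (nat_lit 78) (nat_lit 0) (nat_lit 0) (XT.lf (nat_lit 0) (nat_lit 246027205) (nat_lit 152) (nat_lit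 19648999604) (nat_lit 76) (nat_lit 3662328161) (nat_lit 45) (nat_lit 5) (nat_lit 47) (nat_lit 5) (nat_lit 46) (nat_lit 5) (nat_lit 433) (nat_lit 409) (nat_lit 358)) (XT.lf (nat_lit 0) (nat_lit 6155447363) (nat_lit 152) (nat_lit 5665954456) (nat_lit 76) (nat_lit 12892378778) (nat_lit 45) (nat_lit 5) (nat_lit 47) (nat_lit 5) (nat_lit 46) (nat_lit 5) (nat_lit 434) (nat_lit 409) (nat_lit 357)))))) (XT.nd (nat_lit 468) (nat_lit 456) (nat_lit 0) (XT.nd (nat_lit 234) (nat_lit 228) (nat_lit 0) (XT.nd (nat_lit 78) (nat_lit 152) (nat_lit 0) (XT.lf (nat_lit 0) (nat_lit 9888669188) (nat_lit 152) (nat_lit 2861665185) (nat_lit 228) (nat_lit 13195373198) (nat_lit 43) (nat_lit 5) (nat_lit 45) (nat_lit 5) (nat_lit 46) (nat_lit 5) (nat_lit 435) (nat_lit 409) (nat_lit 356)) (XT.nd (nat_lit 78) (nat_lit 152) (nat_lit 0) (XT.lf (nat_lit 0) (nat_lit 20171027172) (nat_lit 228) (nat_lit 464052259) (nat_lit 76)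 (nat_lit 6617256116) (nat_lit 43) (nat_lit 5) (nat_lit 46) (nat_lit 5) (nat_lit 44) (nat_lit 4) (nat_lit 436) (nat_lit 409) (nat_lit 355)) (XT.lf (nat_lit 0) (nat_lit 21077474) (nat_lit 152) (nat_lit 11507647968) (nat_lit 76) (nat_lit 17097669404) (nat_lit 41) (nat_lit 5) (nat_lit 43) (nat_lit 5) (nat_lit 42) (nat_lit 5) (nat_lit 437) (nat_lit 409) (nat_lit 354)))) (XT.nd (nat_lit 78) (nat_lit 76) (nat_lit 0) (XT.lf (nat_lit 0) (nat_lit 6107139282) (nat_lit 152) (nat_lit 1339232087) (nat_lit 228) (nat_lit 22638312972) (nat_lit 39) (nat_lit 5) (nat_lit 41) (nat_lit 5) (nat_lit 42) (nat_lit 5) (nat_lit 438) (nat_lit 409) (nat_lit 353)) (XT.nd (nat_lit 78) (nat_lit 76) (nat_lit 0) (XT.lf (nat_lit 0) (nat_lit 15998708847) (nat_lit 228) (nat_lit 6129194464) (nat_lit 76) (nat_lit 9489095044) (nat_lit 39) (nat_lit 5) (nat_lit 42) (nat_lit 5) (nat_lit 40) (nat_lit 4) (nat_lit 439) (nat_lit 409)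 (nat_lit 352)) (XT.lf (nat_lit 0) (nat_lit 13764048080) (nat_lit 76) (nat_lit 11816398516) (nat_lit 152) (nat_lit 7663836575) (nat_lit 38) (nat_lit 5) (nat_lit 39) (nat_lit 5) (nat_lit 40) (nat_lit 4) (nat_lit 440) (nat_lit 409) (nat_lit 351))))) (XT.nd (nat_lit 234) (nat_lit 152) (nat_lit 0) (XT.nd (nat_lit 78) (nat_lit 76) (nat_lit 0) (XT.lf (nat_lit 0) (nat_lit 574181042) (nat_lit 152) (nat_lit 471712623) (nat_lit 228) (nat_lit 33940852604) (nat_lit 35) (nat_lit 5) (nat_lit 37) (nat_lit 5) (nat_lit 38) (nat_lit 5) (nat_lit 441) (nat_lit 409) (nat_lit 350)) (XT.nd (nat_lit 78) (nat_lit 76) (nat_lit 0) (XT.lf (nat_lit 0) (nat_lit 10847946723) (nat_lit 228) (nat_lit 14018543972) (nat_lit 76) (nat_lit 11921425792) (nat_lit 35) (nat_lit 5) (nat_lit 38) (nat_lit 5) (nat_lit 36) (nat_lit 4) (nat_lit 442) (nat_lit 409) (nat_lit 349)) (XT.lf (nat_lit 0) (nat_lit 8379537483) (nat_lit 76) (nat_lit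 13249712102) (nat_lit 152) (nat_lit 17088325909) (nat_lit 34) (nat_lit 5) (nat_lit 35) (nat_lit 5) (nat_lit 36) (nat_lit 4) (nat_lit 443) (nat_lit 409) (nat_lit 348)))) (XT.nd (nat_lit 78) (nat_lit 152) (nat_lit 0) (XT.lf (nat_lit 0) (nat_lit 33333195419) (nat_lit 76) (nat_lit 305037015) (nat_lit 152) (nat_lit 7134162596) (nat_lit 34) (nat_lit 5) (nat_lit 35) (nat_lit 5) (nat_lit 36) (nat_lit 4) (nat_lit 444) (nat_lit 409) (nat_lit 347)) (XT.nd (nat_lit 78) (nat_lit 0) (nat_lit 0) (XT.lf (nat_lit 0) (nat_lit 4195054934) (nat_lit 152) (nat_lit 25216415946) (nat_lit 76) (nat_lit 13512403031) (nat_lit 32) (nat_lit 5) (nat_lit 34) (nat_lit 5) (nat_lit 33) (nat_lit 4) (nat_lit 445) (nat_lit 409) (nat_lit 346)) (XT.lf (nat_lit 0) (nat_lit 16244754063) (nat_lit 152) (nat_lit 172908512) (nat_lit 76) (nat_lit 28799019834) (nat_lit 32) (nat_lit 5) (nat_lit 34) (nat_lit 5) (nat_lit 33) (nat_lit 4)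 (nat_lit 446) (nat_lit 409) (nat_lit 345))))))) (XT.nd (nat_lit 936) (nat_lit 684) (nat_lit 0) (XT.nd (nat_lit 468) (nat_lit 380) (nat_lit 0) (XT.nd (nat_lit 234) (nat_lit 152) (nat_lit 0) (XT.nd (nat_lit 78) (nat_lit 152) (nat_lit 0) (XT.lf (nat_lit 0) (nat_lit 28257911744) (nat_lit 76) (nat_lit 1664349722) (nat_lit 152) (nat_lit 17717548906) (nat_lit 31) (nat_lit 5) (nat_lit 32) (nat_lit 5) (nat_lit 33) (nat_lit 4) (nat_lit 447) (nat_lit 409) (nat_lit 344)) (XT.nd (nat_lit 78) (nat_lit 76) (nat_lit 0) (XT.lf (nat_lit 0) (nat_lit 8782787217) (nat_lit 76) (nat_lit 36454804856) (nat_lit 76) (nat_lit 4975707961) (nat_lit 30) (nat_lit 4) (nat_lit 31) (nat_lit 5) (nat_lit 31) (nat_lit 4) (nat_lit 448) (nat_lit 409) (nat_lit 343)) (XT.lf (nat_lit 0) (nat_lit 8917357462) (nat_lit 152) (nat_lit 12945596029) (nat_lit 76) (nat_lit 31067104186) (nat_lit 29) (nat_lit 5) (nat_lit 31) (nat_lit 5) (nat_lit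 30) (nat_lit 4) (nat_lit 449) (nat_lit 409) (nat_lit 342)))) (XT.nd (nat_lit 78) (nat_lit 76) (nat_lit 0) (XT.lf (nat_lit 0) (nat_lit 18591147730) (nat_lit 76) (nat_lit 5494606241) (nat_lit 152) (nat_lit 31733447571) (nat_lit 28) (nat_lit 5) (nat_lit 29) (nat_lit 5) (nat_lit 30) (nat_lit 4) (nat_lit 450) (nat_lit 409) (nat_lit 341)) (XT.nd (nat_lit 78) (nat_lit 76) (nat_lit 0) (XT.lf (nat_lit 0) (nat_lit 41109467834) (nat_lit 152) (nat_lit 5854138935) (nat_lit 0) (nat_lit 11924523430) (nat_lit 28) (nat_lit 5) (nat_lit 30) (nat_lit 4) (nat_lit 28) (nat_lit 4) (nat_lit 451) (nat_lit 409) (nat_lit 340)) (XT.lf (nat_lit 0) (nat_lit 29328318493) (nat_lit 76) (nat_lit 31001574106) (nat_lit 76) (nat_lit 1805896313) (nat_lit 27) (nat_lit 4) (nat_lit 28) (nat_lit 5) (nat_lit 28) (nat_lit 4) (nat_lit 452) (nat_lit 409) (nat_lit 339))))) (XT.nd (nat_lit 234) (nat_lit 152) (nat_lit 0) (XT.nd (nat_lit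 78) (nat_lit 76) (nat_lit 0) (XT.lf (nat_lit 0) (nat_lit 1712070740) (nat_lit 76) (nat_lit 13152201786) (nat_lit 152) (nat_lit 50733897921) (nat_lit 25) (nat_lit 5) (nat_lit 26) (nat_lit 5) (nat_lit 27) (nat_lit 4) (nat_lit 453) (nat_lit 409) (nat_lit 338)) (XT.nd (nat_lit 78) (nat_lit 76) (nat_lit 0) (XT.lf (nat_lit 0) (nat_lit 33824981068) (nat_lit 152) (nat_lit 28650226880) (nat_lit 0) (nat_lit 6774223413) (nat_lit 25) (nat_lit 5) (nat_lit 27) (nat_lit 4) (nat_lit 25) (nat_lit 4) (nat_lit 454) (nat_lit 409) (nat_lit 337)) (XT.lf (nat_lit 0) (nat_lit 9514896130) (nat_lit 76) (nat_lit 45345940712) (nat_lit 76) (nat_lit 18287293696) (nat_lit 24) (nat_lit 4) (nat_lit 25) (nat_lit 5) (nat_lit 25) (nat_lit 4) (nat_lit 455) (nat_lit 409) (nat_lit 336)))) (XT.nd (nat_lit 78) (nat_lit 76) (nat_lit 0) (XT.lf (nat_lit 0) (nat_lit 1001355459) (nat_lit 152) (nat_lit 24983132625) (nat_lit 76) (nat_lit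 51310487855) (nat_lit 23) (nat_lit 5) (nat_lit 25) (nat_lit 5) (nat_lit 24) (nat_lit 4) (nat_lit 456) (nat_lit 409) (nat_lit 335)) (XT.nd (nat_lit 78) (nat_lit 0) (nat_lit 0) (XT.lf (nat_lit 0) (nat_lit 17118066386) (nat_lit 76) (nat_lit 4127501989) (nat_lit 152) (nat_lit 60457964675) (nat_lit 22) (nat_lit 5) (nat_lit 23) (nat_lit 5) (nat_lit 24) (nat_lit 4) (nat_lit 457) (nat_lit 409) (nat_lit 334)) (XT.lf (nat_lit 0) (nat_lit 44267414175) (nat_lit 152) (nat_lit 22910427575) (nat_lit 0) (nat_lit 19194285780) (nat_lit 22) (nat_lit 5) (nat_lit 24) (nat_lit 4) (nat_lit 22) (nat_lit 4) (nat_lit 458) (nat_lit 409) (nat_lit 333)))))) (XT.nd (nat_lit 468) (nat_lit 380) (nat_lit 0) (XT.nd (nat_lit 234) (nat_lit 76) (nat_lit 0) (XT.nd (nat_lit 78) (nat_lit 152) (nat_lit 0) (XT.lf (nat_lit 0) (nat_lit 23127715573) (nat_lit 76) (nat_lit 46656372862) (nat_lit 76) (nat_lit 21577875101) (nat_lit 21)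 (nat_lit 4) (nat_lit 22) (nat_lit 5) (nat_lit 22) (nat_lit 4) (nat_lit 459) (nat_lit 409) (nat_lit 332)) (XT.nd (nat_lit 78) (nat_lit 76) (nat_lit 0) (XT.lf (nat_lit 0) (nat_lit 1193894547) (nat_lit 152) (nat_lit 22600168739) (nat_lit 76) (nat_lit 72905197888) (nat_lit 20) (nat_lit 5) (nat_lit 22) (nat_lit 5) (nat_lit 21) (nat_lit 4) (nat_lit 460) (nat_lit 409) (nat_lit 331)) (XT.lf (nat_lit 0) (nat_lit 25326036181) (nat_lit 152) (nat_lit 74939978773) (nat_lit 0) (nat_lit 2096339177) (nat_lit 19) (nat_lit 5) (nat_lit 21) (nat_lit 4) (nat_lit 19) (nat_lit 4) (nat_lit 461) (nat_lit 409) (nat_lit 330)))) (XT.nd (nat_lit 78) (nat_lit 76) (nat_lit 0) (XT.lf (nat_lit 0) (nat_lit 52631227981) (nat_lit 152) (nat_lit 26350284222) (nat_lit 0) (nat_lit 29397584333) (nat_lit 19) (nat_lit 5) (nat_lit 21) (nat_lit 4) (nat_lit 19) (nat_lit 4) (nat_lit 462) (nat_lit 409) (nat_lit 329)) (XT.nd (nat_lit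 78) (nat_lit 0) (nat_lit 0) (XT.lf (nat_lit 0) (nat_lit 27483689807) (nat_lit 76) (nat_lit 55289306921) (nat_lit 76) (nat_lit 32052008972) (nat_lit 18) (nat_lit 4) (nat_lit 19) (nat_lit 5) (nat_lit 19) (nat_lit 4) (nat_lit 463) (nat_lit 409) (nat_lit 328)) (XT.lf (nat_lit 0) (nat_lit 87105653366) (nat_lit 76) (nat_lit 28932332862) (nat_lit 76) (nat_lit 5691651301) (nat_lit 18) (nat_lit 4) (nat_lit 19) (nat_lit 5) (nat_lit 19) (nat_lit 4) (nat_lit 464) (nat_lit 409) (nat_lit 327))))) (XT.nd (nat_lit 234) (nat_lit 152) (nat_lit 0) (XT.nd (nat_lit 78) (nat_lit 76) (nat_lit 0) (XT.lf (nat_lit 0) (nat_lit 22197602087) (nat_lit 152) (nat_lit 106224903106) (nat_lit 0) (nat_lit 675551592) (nat_lit 16) (nat_lit 5) (nat_lit 18) (nat_lit 4) (nat_lit 16) (nat_lit 4) (nat_lit 465) (nat_lit 409) (nat_lit 326)) (XT.nd (nat_lit 78) (nat_lit 76) (nat_lit 0) (XT.lf (nat_lit 0) (nat_lit 53725127222) (nat_lit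 152) (nat_lit 50981434783) (nat_lit 0) (nat_lit 32200390707) (nat_lit 16) (nat_lit 5) (nat_lit 18) (nat_lit 4) (nat_lit 16) (nat_lit 4) (nat_lit 466) (nat_lit 409) (nat_lit 325)) (XT.lf (nat_lit 0) (nat_lit 9122615325) (nat_lit 76) (nat_lit 78864109559) (nat_lit 76) (nat_lit 57336885988) (nat_lit 15) (nat_lit 4) (nat_lit 16) (nat_lit 5) (nat_lit 16) (nat_lit 4) (nat_lit 467) (nat_lit 409) (nat_lit 324)))) (XT.nd (nat_lit 78) (nat_lit 152) (nat_lit 0) (XT.lf (nat_lit 0) (nat_lit 76919488937) (nat_lit 76) (nat_lit 49456355888) (nat_lit 76) (nat_lit 27926829488) (nat_lit 15) (nat_lit 4) (nat_lit 16) (nat_lit 5) (nat_lit 16) (nat_lit 4) (nat_lit 468) (nat_lit 409) (nat_lit 323)) (XT.nd (nat_lit 78) (nat_lit 76) (nat_lit 0) (XT.lf (nat_lit 0) (nat_lit 3637175819) (nat_lit 152) (nat_lit 13966332946) (nat_lit 76) (nat_lit 146389730642) (nat_lit 14) (nat_lit 5) (nat_lit 16) (nat_lit 5) (nat_lit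 15) (nat_lit 4) (nat_lit 469) (nat_lit 409) (nat_lit 322)) (XT.lf (nat_lit 0) (nat_lit 38030768165) (nat_lit 152) (nat_lit 118132973519) (nat_lit 0) (nat_lit 18092219133) (nat_lit 13) (nat_lit 5) (nat_lit 15) (nat_lit 4) (nat_lit 13) (nat_lit 4) (nat_lit 470) (nat_lit 409) (nat_lit 321))))))))
noncomputable def xc118 : XT := (XT.nd (nat_lit 1794) (nat_lit 76) (nat_lit 0) (XT.nd (nat_lit 858) (nat_lit 304) (nat_lit 0) (XT.nd (nat_lit 390) (nat_lit 152) (nat_lit 0) (XT.nd (nat_lit 156) (nat_lit 152) (nat_lit 0) (XT.nd (nat_lit 78) (nat_lit 76) (nat_lit 0) (XT.lf (nat_lit 0) (nat_lit 76018433772) (nat_lit 152) (nat_lit 53175667344) (nat_lit 0) (nat_lit 56078192091) (nat_lit 13) (nat_lit 5) (nat_lit 15) (nat_lit 4) (nat_lit 13) (nat_lit 4) (nat_lit 471) (nat_lit 409) (nat_lit 320)) (XT.lf (nat_lit 0) (nat_lit 17859503099) (nat_lit 76) (nat_lit 99609176407) (nat_lit 76) (nat_lit 79667367459)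 (nat_lit 12) (nat_lit 4) (nat_lit 13) (nat_lit 5) (nat_lit 13) (nat_lit 4) (nat_lit 472) (nat_lit 409) (nat_lit 319))) (XT.nd (nat_lit 78) (nat_lit 152) (nat_lit 0) (XT.lf (nat_lit 0) (nat_lit 97589816557) (nat_lit 76) (nat_lit 66093247582) (nat_lit 76) (nat_lit 46149987461) (nat_lit 12) (nat_lit 4) (nat_lit 13) (nat_lit 5) (nat_lit 13) (nat_lit 4) (nat_lit 473) (nat_lit 409) (nat_lit 318)) (XT.nd (nat_lit 78) (nat_lit 152) (nat_lit 0) (XT.lf (nat_lit 0) (nat_lit 183687612553) (nat_lit 76) (nat_lit 29901618712) (nat_lit 76) (nat_lit 9957014912) (nat_lit 12) (nat_lit 4) (nat_lit 13) (nat_lit 5) (nat_lit 13) (nat_lit 4) (nat_lit 474) (nat_lit 409) (nat_lit 317)) (XT.lf (nat_lit 0) (nat_lit 28884775149) (nat_lit 152) (nat_lit 198902422976) (nat_lit 0) (nat_lit 10416397421) (nat_lit 10) (nat_lit 5) (nat_lit 12) (nat_lit 4) (nat_lit 10) (nat_lit 4) (nat_lit 475) (nat_lit 409) (nat_lit 316)))))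 (XT.nd (nat_lit 234) (nat_lit 76) (nat_lit 0) (XT.nd (nat_lit 78) (nat_lit 76) (nat_lit 0) (XT.lf (nat_lit 0) (nat_lit 72185658488) (nat_lit 152) (nat_lit 127959795457) (nat_lit 0) (nat_lit 53716214104) (nat_lit 10) (nat_lit 5) (nat_lit 12) (nat_lit 4) (nat_lit 10) (nat_lit 4) (nat_lit 476) (nat_lit 409) (nat_lit 315)) (XT.nd (nat_lit 78) (nat_lit 76) (nat_lit 0) (XT.lf (nat_lit 0) (nat_lit 118945899307) (nat_lit 152) (nat_lit 51351396899) (nat_lit 0) (nat_lit 100475467279) (nat_lit 10) (nat_lit 5) (nat_lit 12) (nat_lit 4) (nat_lit 10) (nat_lit 4) (nat_lit 477) (nat_lit 409) (nat_lit 314)) (XT.lf (nat_lit 0) (nat_lit 33028992357) (nat_lit 76) (nat_lit 137207951033) (nat_lit 76) (nat_lit 118736604520) (nat_lit 9) (nat_lit 4) (nat_lit 10) (nat_lit 5) (nat_lit 10) (nat_lit 4) (nat_lit 478) (nat_lit 409) (nat_lit 313)))) (XT.nd (nat_lit 78) (nat_lit 76) (nat_lit 0) (XT.lf (nat_lit 0) (nat_lit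 127071513001) (nat_lit 76) (nat_lit 99959546181) (nat_lit 76) (nat_lit 81487352922) (nat_lit 9) (nat_lit 4) (nat_lit 10) (nat_lit 5) (nat_lit 10) (nat_lit 4) (nat_lit 479) (nat_lit 409) (nat_lit 312)) (XT.nd (nat_lit 78) (nat_lit 76) (nat_lit 0) (XT.lf (nat_lit 0) (nat_lit 228629380483) (nat_lit 76) (nat_lit 59735388556) (nat_lit 76) (nat_lit 41262411273) (nat_lit 9) (nat_lit 4) (nat_lit 10) (nat_lit 5) (nat_lit 10) (nat_lit 4) (nat_lit 480) (nat_lit 409) (nat_lit 311)) (XT.lf (nat_lit 0) (nat_lit 2067708581) (nat_lit 152) (nat_lit 14172869381) (nat_lit 76) (nat_lit 336180175805) (nat_lit 8) (nat_lit 5) (nat_lit 10) (nat_lit 5) (nat_lit 9) (nat_lit 4) (nat_lit 481) (nat_lit 409) (nat_lit 310)))))) (XT.nd (nat_lit 468) (nat_lit 152) (nat_lit 0) (XT.nd (nat_lit 234) (nat_lit 76) (nat_lit 0) (XT.nd (nat_lit 78) (nat_lit 0) (nat_lit 0) (XT.lf (nat_lit 0) (nat_lit 49437894272) (nat_lit 152)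 (nat_lit 294957955825) (nat_lit 0) (nat_lit 32331991120) (nat_lit 7) (nat_lit 5) (nat_lit 9) (nat_lit 4) (nat_lit 7) (nat_lit 4) (nat_lit 482) (nat_lit 409) (nat_lit 309)) (XT.nd (nat_lit 78) (nat_lit 0) (nat_lit 0) (XT.lf (nat_lit 0) (nat_lit 101413648308) (nat_lit 152) (nat_lit 217193402247) (nat_lit 0) (nat_lit 84307168875) (nat_lit 7) (nat_lit 5) (nat_lit 9) (nat_lit 4) (nat_lit 7) (nat_lit 4) (nat_lit 483) (nat_lit 409) (nat_lit 308)) (XT.lf (nat_lit 0) (nat_lit 157544262390) (nat_lit 152) (nat_lit 133214252211) (nat_lit 0) (nat_lit 140437249363) (nat_lit 7) (nat_lit 5) (nat_lit 9) (nat_lit 4) (nat_lit 7) (nat_lit 4) (nat_lit 484) (nat_lit 409) (nat_lit 307)))) (XT.nd (nat_lit 78) (nat_lit 76) (nat_lit 0) (XT.lf (nat_lit 0) (nat_lit 218162362378) (nat_lit 152) (nat_lit 42522851497) (nat_lit 0) (nat_lit 201054855284) (nat_lit 7) (nat_lit 5) (nat_lit 9) (nat_lit 4) (nat_lit 7) (nat_lit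 4) (nat_lit 485) (nat_lit 409) (nat_lit 306)) (XT.nd (nat_lit 78) (nat_lit 0) (nat_lit 0) (XT.lf (nat_lit 0) (nat_lit 58336456221) (nat_lit 76) (nat_lit 226693703597) (nat_lit 76) (nat_lit 209585739033) (nat_lit 6) (nat_lit 4) (nat_lit 7) (nat_lit 5) (nat_lit 7) (nat_lit 4) (nat_lit 486) (nat_lit 409) (nat_lit 305)) (XT.lf (nat_lit 0) (nat_lit 169677332500) (nat_lit 76) (nat_lit 188730026195) (nat_lit 76) (nat_lit 171621638047) (nat_lit 6) (nat_lit 4) (nat_lit 7) (nat_lit 5) (nat_lit 7) (nat_lit 4) (nat_lit 487) (nat_lit 409) (nat_lit 304))))) (XT.nd (nat_lit 234) (nat_lit 152) (nat_lit 0) (XT.nd (nat_lit 78) (nat_lit 0) (nat_lit 0) (XT.lf (nat_lit 0) (nat_lit 289920397119) (nat_lit 76) (nat_lit 147731861846) (nat_lit 76) (nat_lit 130623081490) (nat_lit 6) (nat_lit 4) (nat_lit 7) (nat_lit 5) (nat_lit 7) (nat_lit 4) (nat_lit 488) (nat_lit 409) (nat_lit 303)) (XT.nd (nat_lit 78) (nat_lit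 0) (nat_lit 0) (XT.lf (nat_lit 0) (nat_lit 419778201573) (nat_lit 76) (nat_lit 103456258465) (nat_lit 76) (nat_lit 86347114955) (nat_lit 6) (nat_lit 4) (nat_lit 7) (nat_lit 5) (nat_lit 7) (nat_lit 4) (nat_lit 489) (nat_lit 409) (nat_lit 302)) (XT.lf (nat_lit 0) (nat_lit 560020273592) (nat_lit 76) (nat_lit 55640842106) (nat_lit 76) (nat_lit 38531362342) (nat_lit 6) (nat_lit 4) (nat_lit 7) (nat_lit 5) (nat_lit 7) (nat_lit 4) (nat_lit 490) (nat_lit 409) (nat_lit 301)))) (XT.nd (nat_lit 78) (nat_lit 0) (nat_lit 0) (XT.lf (nat_lit 0) (nat_lit 9252897838) (nat_lit 76) (nat_lit 3421471848) (nat_lit 152) (nat_lit 689655019315) (nat_lit 4) (nat_lit 5) (nat_lit 5) (nat_lit 5) (nat_lit 6) (nat_lit 4) (nat_lit 491) (nat_lit 409) (nat_lit 300)) (XT.nd (nat_lit 78) (nat_lit 0) (nat_lit 0) (XT.lf (nat_lit 0) (nat_lit 69808627487) (nat_lit 152) (nat_lit 630149497896) (nat_lit 0) (nat_lit 53965961381) (nat_lit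 4) (nat_lit 5) (nat_lit 6) (nat_lit 4) (nat_lit 4) (nat_lit 4) (nat_lit 492) (nat_lit 409) (nat_lit 299)) (XT.lf (nat_lit 0) (nat_lit 131600631425) (nat_lit 152) (nat_lit 562281050341) (nat_lit 0) (nat_lit 115757718162) (nat_lit 4) (nat_lit 5) (nat_lit 6) (nat_lit 4) (nat_lit 4) (nat_lit 4) (nat_lit 493) (nat_lit 409) (nat_lit 298))))))) (XT.nd (nat_lit 936) (nat_lit 0) (nat_lit 0) (XT.nd (nat_lit 468) (nat_lit 76) (nat_lit 0) (XT.nd (nat_lit 234) (nat_lit 0) (nat_lit 0) (XT.nd (nat_lit 78) (nat_lit 0) (nat_lit 0) (XT.lf (nat_lit 0) (nat_lit 198334269857) (nat_lit 152) (nat_lit 488986678626) (nat_lit 0) (nat_lit 182491127745) (nat_lit 4) (nat_lit 5) (nat_lit 6) (nat_lit 4) (nat_lit 4) (nat_lit 4) (nat_lit 494) (nat_lit 409) (nat_lit 297)) (XT.nd (nat_lit 78) (nat_lit 0) (nat_lit 0) (XT.lf (nat_lit 0) (nat_lit 270405001382) (nat_lit 152) (nat_lit 409832045733) (nat_lit 0) (nat_lit 254561647373)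 (nat_lit 4) (nat_lit 5) (nat_lit 6) (nat_lit 4) (nat_lit 4) (nat_lit 4) (nat_lit 495) (nat_lit 409) (nat_lit 296)) (XT.lf (nat_lit 0) (nat_lit 348239911817) (nat_lit 152) (nat_lit 324348087170) (nat_lit 0) (nat_lit 332396361606) (nat_lit 4) (nat_lit 5) (nat_lit 6) (nat_lit 4) (nat_lit 4) (nat_lit 4) (nat_lit 496) (nat_lit 409) (nat_lit 295)))) (XT.nd (nat_lit 78) (nat_lit 0) (nat_lit 0) (XT.lf (nat_lit 0) (nat_lit 432300245074) (nat_lit 152) (nat_lit 232028231333) (nat_lit 0) (nat_lit 416456513196) (nat_lit 4) (nat_lit 5) (nat_lit 6) (nat_lit 4) (nat_lit 4) (nat_lit 4) (nat_lit 497) (nat_lit 409) (nat_lit 294)) (XT.nd (nat_lit 78) (nat_lit 0) (nat_lit 0) (XT.lf (nat_lit 0) (nat_lit 523084136463) (nat_lit 152) (nat_lit 132325397592) (nat_lit 0) (nat_lit 507240236374) (nat_lit 4) (nat_lit 5) (nat_lit 6) (nat_lit 4) (nat_lit 4) (nat_lit 4) (nat_lit 498) (nat_lit 409) (nat_lit 293)) (XT.lf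 (nat_lit 0) (nat_lit 621129564599) (nat_lit 152) (nat_lit 24648754342) (nat_lit 0) (nat_lit 605285508758) (nat_lit 4) (nat_lit 5) (nat_lit 6) (nat_lit 4) (nat_lit 4) (nat_lit 4) (nat_lit 499) (nat_lit 409) (nat_lit 292))))) (XT.nd (nat_lit 234) (nat_lit 0) (nat_lit 0) (XT.nd (nat_lit 78) (nat_lit 0) (nat_lit 0) (XT.lf (nat_lit 0) (nat_lit 96465370762) (nat_lit 76) (nat_lit 632872163150) (nat_lit 76) (nat_lit 617027963096) (nat_lit 3) (nat_lit 4) (nat_lit 4) (nat_lit 5) (nat_lit 4) (nat_lit 4) (nat_lit 500) (nat_lit 409) (nat_lit 291)) (XT.nd (nat_lit 78) (nat_lit 0) (nat_lit 0) (XT.lf (nat_lit 0) (nat_lit 228668240899) (nat_lit 76) (nat_lit 618206781033) (nat_lit 76) (nat_lit 602362447448) (nat_lit 3) (nat_lit 4) (nat_lit 4) (nat_lit 5) (nat_lit 4) (nat_lit 4) (nat_lit 501) (nat_lit 409) (nat_lit 290)) (XT.lf (nat_lit 0) (nat_lit 371445320761) (nat_lit 76) (nat_lit 602369207247) (nat_lit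 76) (nat_lit 586524750022) (nat_lit 3) (nat_lit 4) (nat_lit 4) (nat_lit 5) (nat_lit 4) (nat_lit 4) (nat_lit 502) (nat_lit 409) (nat_lit 289)))) (XT.nd (nat_lit 78) (nat_lit 0) (nat_lit 0) (XT.lf (nat_lit 0) (nat_lit 525642696747) (nat_lit 76) (nat_lit 585265589503) (nat_lit 76) (nat_lit 569421017796) (nat_lit 3) (nat_lit 4) (nat_lit 4) (nat_lit 5) (nat_lit 4) (nat_lit 4) (nat_lit 503) (nat_lit 409) (nat_lit 288)) (XT.nd (nat_lit 78) (nat_lit 0) (nat_lit 0) (XT.lf (nat_lit 0) (nat_lit 692174131086) (nat_lit 76) (nat_lit 566794573029) (nat_lit 76) (nat_lit 550949895321) (nat_lit 3) (nat_lit 4) (nat_lit 4) (nat_lit 5) (nat_lit 4) (nat_lit 4) (nat_lit 504) (nat_lit 409) (nat_lit 287)) (XT.lf (nat_lit 0) (nat_lit 872026476722) (nat_lit 76) (nat_lit 546846699950) (nat_lit 76) (nat_lit 531001924092) (nat_lit 3) (nat_lit 4) (nat_lit 4) (nat_lit 5) (nat_lit 4) (nat_lit 4) (nat_lit 505) (nat_lit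 409) (nat_lit 286)))))) (XT.nd (nat_lit 468) (nat_lit 0) (nat_lit 0) (XT.nd (nat_lit 234) (nat_lit 0) (nat_lit 0) (XT.nd (nat_lit 78) (nat_lit 0) (nat_lit 0) (XT.lf (nat_lit 0) (nat_lit 1066265525333) (nat_lit 76) (nat_lit 525303760647) (nat_lit 76) (nat_lit 509458893910) (nat_lit 3) (nat_lit 4) (nat_lit 4) (nat_lit 5) (nat_lit 4) (nat_lit 4) (nat_lit 506) (nat_lit 409) (nat_lit 285)) (XT.nd (nat_lit 78) (nat_lit 0) (nat_lit 0) (XT.lf (nat_lit 0) (nat_lit 1276042323132) (nat_lit 76) (nat_lit 502038093258) (nat_lit 76) (nat_lit 486193142374) (nat_lit 3) (nat_lit 4) (nat_lit 4) (nat_lit 5) (nat_lit 4) (nat_lit 4) (nat_lit 507) (nat_lit 409) (nat_lit 284)) (XT.lf (nat_lit 0) (nat_lit 1502599991884) (nat_lit 76) (nat_lit 476911827161) (nat_lit 76) (nat_lit 461066798363) (nat_lit 3) (nat_lit 4) (nat_lit 4) (nat_lit 5) (nat_lit 4) (nat_lit 4) (nat_lit 508) (nat_lit 409) (nat_lit 283)))) (XT.nd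 (nat_lit 78) (nat_lit 0) (nat_lit 0) (XT.lf (nat_lit 0) (nat_lit 1747281095553) (nat_lit 76) (nat_lit 449776065965) (nat_lit 76) (nat_lit 433930965025) (nat_lit 3) (nat_lit 4) (nat_lit 4) (nat_lit 5) (nat_lit 4) (nat_lit 4) (nat_lit 509) (nat_lit 409) (nat_lit 282)) (XT.nd (nat_lit 78) (nat_lit 0) (nat_lit 0) (XT.lf (nat_lit 0) (nat_lit 2011535596234) (nat_lit 76) (nat_lit 420470005159) (nat_lit 76) (nat_lit 404624837420) (nat_lit 3) (nat_lit 4) (nat_lit 4) (nat_lit 5) (nat_lit 4) (nat_lit 4) (nat_lit 510) (nat_lit 409) (nat_lit 281)) (XT.lf (nat_lit 0) (nat_lit 2296929446524) (nat_lit 76) (nat_lit 388819979198) (nat_lit 76) (nat_lit 372974749607) (nat_lit 3) (nat_lit 4) (nat_lit 4) (nat_lit 5) (nat_lit 4) (nat_lit 4) (nat_lit 511) (nat_lit 409) (nat_lit 280))))) (XT.nd (nat_lit 234) (nat_lit 0) (nat_lit 0) (XT.nd (nat_lit 78) (nat_lit 0) (nat_lit 0) (XT.lf (nat_lit 0) (nat_lit 2605153869239)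 (nat_lit 76) (nat_lit 354638432371) (nat_lit 76) (nat_lit 338793145511) (nat_lit 3) (nat_lit 4) (nat_lit 4) (nat_lit 5) (nat_lit 4) (nat_lit 4) (nat_lit 512) (nat_lit 409) (nat_lit 279)) (XT.nd (nat_lit 78) (nat_lit 0) (nat_lit 0) (XT.lf (nat_lit 0) (nat_lit 2938035379477) (nat_lit 76) (nat_lit 317722807364) (nat_lit 76) (nat_lit 301877467477) (nat_lit 3) (nat_lit 4) (nat_lit 4) (nat_lit 5) (nat_lit 4) (nat_lit 4) (nat_lit 513) (nat_lit 409) (nat_lit 278)) (XT.lf (nat_lit 0) (nat_lit 3297546608409) (nat_lit 76) (nat_lit 277854344919) (nat_lit 76) (nat_lit 262008955933) (nat_lit 3) (nat_lit 4) (nat_lit 4) (nat_lit 5) (nat_lit 4) (nat_lit 4) (nat_lit 514) (nat_lit 409) (nat_lit 277)))) (XT.nd (nat_lit 78) (nat_lit 0) (nat_lit 0) (XT.lf (nat_lit 0) (nat_lit 3685817992949) (nat_lit 76) (nat_lit 234796787480) (nat_lit 76) (nat_lit 218951353031) (nat_lit 3) (nat_lit 4) (nat_lit 4) (nat_lit 5)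 (nat_lit 4) (nat_lit 4) (nat_lit 515) (nat_lit 409) (nat_lit 276)) (XT.nd (nat_lit 78) (nat_lit 0) (nat_lit 0) (XT.lf (nat_lit 0) (nat_lit 4105150400559) (nat_lit 76) (nat_lit 188294979150) (nat_lit 76) (nat_lit 172449502607) (nat_lit 3) (nat_lit 4) (nat_lit 4) (nat_lit 5) (nat_lit 4) (nat_lit 4) (nat_lit 516) (nat_lit 409) (nat_lit 275)) (XT.lf (nat_lit 0) (nat_lit 4558028764026) (nat_lit 76) (nat_lit 138073353659) (nat_lit 76) (nat_lit 122227838140) (nat_lit 3) (nat_lit 4) (nat_lit 4) (nat_lit 5) (nat_lit 4) (nat_lit 4) (nat_lit 517) (nat_lit 409) (nat_lit 274))))))))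
noncomputable def xc119 : XT := (XT.nd (nat_lit 54912) (nat_lit 0) (nat_lit 2508) (XT.nd (nat_lit 858) (nat_lit 0) (nat_lit 0) (XT.nd (nat_lit 390) (nat_lit 0) (nat_lit 0) (XT.nd (nat_lit 156) (nat_lit 152) (nat_lit 0) (XT.nd (nat_lit 78) (nat_lit 0) (nat_lit 0) (XT.lf (nat_lit 0) (nat_lit 5047136806985) (nat_lit 76) (nat_lit 83834301374) (nat_lit 76) (nat_lit 67988749765) (nat_lit 3) (nat_lit 4) (nat_lit 4) (nat_lit 5) (nat_lit 4) (nat_lit 4) (nat_lit 518) (nat_lit 409) (nat_lit 273)) (XT.lf (nat_lit 0) (nat_lit 5575372947468) (nat_lit 76) (nat_lit 25256405688) (nat_lit 76) (nat_lit 9410820664) (nat_lit 3) (nat_lit 4) (nat_lit 4) (nat_lit 5) (nat_lit 4) (nat_lit 4) (nat_lit 519) (nat_lit 409) (nat_lit 272))) (XT.nd (nat_lit 78) (nat_lit 0) (nat_lit 0) (XT.lf (nat_lit 0) (nat_lit 54459196984) (nat_lit 152) (nat_lit 5959392788182) (nat_lit 0) (nat_lit 39787330350) (nat_lit 1) (nat_lit 5)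 (nat_lit 3) (nat_lit 4) (nat_lit 1) (nat_lit 4) (nat_lit 520) (nat_lit 409) (nat_lit 271)) (XT.nd (nat_lit 78) (nat_lit 0) (nat_lit 0) (XT.lf (nat_lit 0) (nat_lit 124558629432) (nat_lit 152) (nat_lit 6298131208525) (nat_lit 0) (nat_lit 109886736270) (nat_lit 1) (nat_lit 5) (nat_lit 3) (nat_lit 4) (nat_lit 1) (nat_lit 4) (nat_lit 521) (nat_lit 409) (nat_lit 270)) (XT.lf (nat_lit 0) (nat_lit 200265783483) (nat_lit 152) (nat_lit 6663969183033) (nat_lit 0) (nat_lit 185593865760) (nat_lit 1) (nat_lit 5) (nat_lit 3) (nat_lit 4) (nat_lit 1) (nat_lit 4) (nat_lit 522) (nat_lit 409) (nat_lit 269))))) (XT.nd (nat_lit 234) (nat_lit 0) (nat_lit 0) (XT.nd (nat_lit 78) (nat_lit 0) (nat_lit 0) (XT.lf (nat_lit 0) (nat_lit 282029294126) (nat_lit 152) (nat_lit 7059074640444) (nat_lit 0) (nat_lit 267357353660) (nat_lit 1) (nat_lit 5) (nat_lit 3) (nat_lit 4) (nat_lit 1) (nat_lit 4) (nat_lit 523) (nat_lit 409)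 (nat_lit 268)) (XT.nd (nat_lit 78) (nat_lit 0) (nat_lit 0) (XT.lf (nat_lit 0) (nat_lit 370333685867) (nat_lit 152) (nat_lit 7485788946431) (nat_lit 0) (nat_lit 355661724344) (nat_lit 1) (nat_lit 5) (nat_lit 3) (nat_lit 4) (nat_lit 1) (nat_lit 4) (nat_lit 524) (nat_lit 409) (nat_lit 267)) (XT.lf (nat_lit 0) (nat_lit 465702243992) (nat_lit 152) (nat_lit 7946640778362) (nat_lit 0) (nat_lit 451030262971) (nat_lit 1) (nat_lit 5) (nat_lit 3) (nat_lit 4) (nat_lit 1) (nat_lit 4) (nat_lit 525) (nat_lit 409) (nat_lit 266)))) (XT.nd (nat_lit 78) (nat_lit 0) (nat_lit 0) (XT.lf (nat_lit 0) (nat_lit 568700115511) (nat_lit 152) (nat_lit 8444361110058) (nat_lit 0) (nat_lit 554028116436) (nat_lit 1) (nat_lit 5) (nat_lit 3) (nat_lit 4) (nat_lit 1) (nat_lit 4) (nat_lit 526) (nat_lit 409) (nat_lit 265)) (XT.nd (nat_lit 78) (nat_lit 0) (nat_lit 0) (XT.lf (nat_lit 0) (nat_lit 679937658181) (nat_lit 152) (nat_lit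 8981899395335) (nat_lit 0) (nat_lit 665265642389) (nat_lit 1) (nat_lit 5) (nat_lit 3) (nat_lit 4) (nat_lit 1) (nat_lit 4) (nat_lit 527) (nat_lit 409) (nat_lit 264)) (XT.lf (nat_lit 0) (nat_lit 800074057440) (nat_lit 152) (nat_lit 9562441046254) (nat_lit 0) (nat_lit 785402026171) (nat_lit 1) (nat_lit 5) (nat_lit 3) (nat_lit 4) (nat_lit 1) (nat_lit 4) (nat_lit 528) (nat_lit 409) (nat_lit 263)))))) (XT.nd (nat_lit 53586) (nat_lit 0) (nat_lit 5092) (XT.nd (nat_lit 53352) (nat_lit 0) (nat_lit 5928) (XT.nd (nat_lit 53196) (nat_lit 0) (nat_lit 5852) (XT.lf (nat_lit 0) (nat_lit 929821232692) (nat_lit 152) (nat_lit 10189426309635) (nat_lit 0) (nat_lit 915149187091) (nat_lit 1) (nat_lit 5) (nat_lit 3) (nat_lit 4) (nat_lit 1) (nat_lit 4) (nat_lit 529) (nat_lit 409) (nat_lit 262)) (XT.nd (nat_lit 78) (nat_lit 0) (nat_lit 0) (XT.lf (nat_lit 0) (nat_lit 662863912) (nat_lit 532) (nat_lit 2002177980) (nat_lit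 532) (nat_lit 2002177980) (nat_lit 78) (nat_lit 3) (nat_lit 85) (nat_lit 3) (nat_lit 85) (nat_lit 5) (nat_lit 410) (nat_lit 410) (nat_lit 380)) (XT.lf (nat_lit 76) (nat_lit 641062796) (nat_lit 0) (nat_lit 1554084322) (nat_lit 532) (nat_lit 7447037069) (nat_lit 79) (nat_lit 5) (nat_lit 78) (nat_lit 3) (nat_lit 85) (nat_lit 5) (nat_lit 411) (nat_lit 410) (nat_lit 379)))) (XT.nd (nat_lit 78) (nat_lit 0) (nat_lit 0) (XT.lf (nat_lit 0) (nat_lit 3226778053) (nat_lit 456) (nat_lit 4196446316) (nat_lit 532) (nat_lit 2543943378) (nat_lit 79) (nat_lit 5) (nat_lit 85) (nat_lit 5) (nat_lit 86) (nat_lit 5) (nat_lit 412) (nat_lit 410) (nat_lit 378)) (XT.nd (nat_lit 78) (nat_lit 0) (nat_lit 76) (XT.lf (nat_lit 76) (nat_lit 950763332) (nat_lit 0) (nat_lit 3378987436) (nat_lit 532) (nat_lit 5989324141) (nat_lit 80) (nat_lit 5) (nat_lit 79) (nat_lit 5) (nat_lit 86) (nat_lit 5) (nat_lit 413) (nat_lit 410)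 (nat_lit 377)) (XT.lf (nat_lit 0) (nat_lit 5592938422) (nat_lit 456) (nat_lit 4022271705) (nat_lit 532) (nat_lit 1078193960) (nat_lit 80) (nat_lit 5) (nat_lit 86) (nat_lit 5) (nat_lit 87) (nat_lit 5) (nat_lit 414) (nat_lit 410) (nat_lit 376))))) (XT.nd (nat_lit 234) (nat_lit 532) (nat_lit 0) (XT.nd (nat_lit 78) (nat_lit 380) (nat_lit 0) (XT.lf (nat_lit 76) (nat_lit 1698697379) (nat_lit 0) (nat_lit 5322731331) (nat_lit 532) (nat_lit 4071136650) (nat_lit 81) (nat_lit 5) (nat_lit 80) (nat_lit 5) (nat_lit 87) (nat_lit 5) (nat_lit 415) (nat_lit 410) (nat_lit 375)) (XT.nd (nat_lit 78) (nat_lit 380) (nat_lit 0) (XT.lf (nat_lit 76) (nat_lit 8057395261) (nat_lit 0) (nat_lit 556004085) (nat_lit 532) (nat_lit 2906347772) (nat_lit 81) (nat_lit 5) (nat_lit 80) (nat_lit 5) (nat_lit 87) (nat_lit 5) (nat_lit 416) (nat_lit 410) (nat_lit 374)) (XT.lf (nat_lit 0) (nat_lit 2929929044) (nat_lit 456) (nat_lit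 7527698487) (nat_lit 532) (nat_lit 1513505814) (nat_lit 75) (nat_lit 5) (nat_lit 81) (nat_lit 5) (nat_lit 82) (nat_lit 5) (nat_lit 417) (nat_lit 410) (nat_lit 373)))) (XT.nd (nat_lit 78) (nat_lit 456) (nat_lit 0) (XT.lf (nat_lit 0) (nat_lit 48371331) (nat_lit 532) (nat_lit 2488741982) (nat_lit 76) (nat_lit 9916982061) (nat_lit 74) (nat_lit 5) (nat_lit 81) (nat_lit 5) (nat_lit 75) (nat_lit 5) (nat_lit 418) (nat_lit 410) (nat_lit 372)) (XT.nd (nat_lit 78) (nat_lit 0) (nat_lit 0) (XT.lf (nat_lit 0) (nat_lit 1789640503) (nat_lit 532) (nat_lit 8302210861) (nat_lit 76) (nat_lit 2869818616) (nat_lit 68) (nat_lit 5) (nat_lit 75) (nat_lit 5) (nat_lit 69) (nat_lit 5) (nat_lit 419) (nat_lit 410) (nat_lit 371)) (XT.lf (nat_lit 0) (nat_lit 3758179728) (nat_lit 532) (nat_lit 1101372574) (nat_lit 76) (nat_lit 8643276883) (nat_lit 68) (nat_lit 5) (nat_lit 75) (nat_lit 5) (nat_lit 69) (nat_lit 5) (nat_lit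 420) (nat_lit 410) (nat_lit 370))))))) (XT.nd (nat_lit 936) (nat_lit 1140) (nat_lit 0) (XT.nd (nat_lit 468) (nat_lit 532) (nat_lit 0) (XT.nd (nat_lit 234) (nat_lit 456) (nat_lit 0) (XT.nd (nat_lit 78) (nat_lit 228) (nat_lit 0) (XT.lf (nat_lit 0) (nat_lit 6031147068) (nat_lit 304) (nat_lit 7122762741) (nat_lit 76) (nat_lit 921630637) (nat_lit 65) (nat_lit 5) (nat_lit 69) (nat_lit 5) (nat_lit 66) (nat_lit 5) (nat_lit 421) (nat_lit 410) (nat_lit 369)) (XT.nd (nat_lit 78) (nat_lit 0) (nat_lit 0) (XT.lf (nat_lit 0) (nat_lit 891071050) (nat_lit 228) (nat_lit 7731320470) (nat_lit 304) (nat_lit 6060775726) (nat_lit 62) (nat_lit 5) (nat_lit 65) (nat_lit 5) (nat_lit 66) (nat_lit 5) (nat_lit 422) (nat_lit 410) (nat_lit 368)) (XT.lf (nat_lit 0) (nat_lit 9903587063) (nat_lit 228) (nat_lit 1671965787) (nat_lit 304) (nat_lit 3751494744) (nat_lit 62) (nat_lit 5) (nat_lit 65) (nat_lit 5) (nat_lit 66) (nat_lit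 5) (nat_lit 423) (nat_lit 410) (nat_lit 367)))) (XT.nd (nat_lit 78) (nat_lit 304) (nat_lit 0) (XT.lf (nat_lit 0) (nat_lit 3632393982) (nat_lit 152) (nat_lit 11299784229) (nat_lit 228) (nat_lit 1076895112) (nat_lit 60) (nat_lit 5) (nat_lit 62) (nat_lit 5) (nat_lit 63) (nat_lit 5) (nat_lit 424) (nat_lit 410) (nat_lit 366)) (XT.nd (nat_lit 78) (nat_lit 228) (nat_lit 0) (XT.lf (nat_lit 0) (nat_lit 1880019551) (nat_lit 228) (nat_lit 3151050504) (nat_lit 76) (nat_lit 11698397607) (nat_lit 59) (nat_lit 5) (nat_lit 62) (nat_lit 5) (nat_lit 60) (nat_lit 5) (nat_lit 425) (nat_lit 410) (nat_lit 365)) (XT.lf (nat_lit 0) (nat_lit 5198815443) (nat_lit 304) (nat_lit 10445491903) (nat_lit 76) (nat_lit 1846277230) (nat_lit 56) (nat_lit 5) (nat_lit 60) (nat_lit 5) (nat_lit 57) (nat_lit 5) (nat_lit 426) (nat_lit 410) (nat_lit 364))))) (XT.nd (nat_lit 234) (nat_lit 228) (nat_lit 0) (XT.nd (nat_lit 78) (nat_lit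 304) (nat_lit 0) (XT.lf (nat_lit 0) (nat_lit 8969528386) (nat_lit 304) (nat_lit 247749877) (nat_lit 76) (nat_lit 9080408215) (nat_lit 56) (nat_lit 5) (nat_lit 60) (nat_lit 5) (nat_lit 57) (nat_lit 5) (nat_lit 427) (nat_lit 410) (nat_lit 363)) (XT.nd (nat_lit 78) (nat_lit 152) (nat_lit 0) (XT.lf (nat_lit 0) (nat_lit 11288599210) (nat_lit 152) (nat_lit 1994552395) (nat_lit 228) (nat_lit 5866912728) (nat_lit 54) (nat_lit 5) (nat_lit 56) (nat_lit 5) (nat_lit 57) (nat_lit 5) (nat_lit 428) (nat_lit 410) (nat_lit 362)) (XT.lf (nat_lit 0) (nat_lit 3693938008) (nat_lit 152) (nat_lit 14454084040) (nat_lit 228) (nat_lit 1906125242) (nat_lit 52) (nat_lit 5) (nat_lit 54) (nat_lit 5) (nat_lit 55) (nat_lit 5) (nat_lit 429) (nat_lit 410) (nat_lit 361)))) (XT.nd (nat_lit 78) (nat_lit 152) (nat_lit 0) (XT.lf (nat_lit 0) (nat_lit 2496387740) (nat_lit 228) (nat_lit 4550256308) (nat_lit 76) (nat_lit 13959876753)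 (nat_lit 51) (nat_lit 5) (nat_lit 54) (nat_lit 5) (nat_lit 52) (nat_lit 5) (nat_lit 430) (nat_lit 410) (nat_lit 360)) (XT.nd (nat_lit 78) (nat_lit 0) (nat_lit 0) (XT.lf (nat_lit 0) (nat_lit 7356085562) (nat_lit 228) (nat_lit 13503883965) (nat_lit 76) (nat_lit 1154522683) (nat_lit 49) (nat_lit 5) (nat_lit 52) (nat_lit 5) (nat_lit 50) (nat_lit 5) (nat_lit 431) (nat_lit 410) (nat_lit 359)) (XT.lf (nat_lit 0) (nat_lit 12889242924) (nat_lit 228) (nat_lit 445132689) (nat_lit 76) (nat_lit 9745956507) (nat_lit 49) (nat_lit 5) (nat_lit 52) (nat_lit 5) (nat_lit 50) (nat_lit 5) (nat_lit 432) (nat_lit 410) (nat_lit 358)))))) (XT.nd (nat_lit 468) (nat_lit 532) (nat_lit 0) (XT.nd (nat_lit 234) (nat_lit 304) (nat_lit 0) (XT.nd (nat_lit 78) (nat_lit 152) (nat_lit 0) (XT.lf (nat_lit 0) (nat_lit 14337733328) (nat_lit 152) (nat_lit 4848077975) (nat_lit 228) (nat_lit 5019972326) (nat_lit 47) (nat_lit 5) (nat_lit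 49) (nat_lit 5) (nat_lit 50) (nat_lit 5) (nat_lit 433) (nat_lit 410) (nat_lit 357)) (XT.nd (nat_lit 78) (nat_lit 0) (nat_lit 0) (XT.lf (nat_lit 0) (nat_lit 755585920) (nat_lit 152) (nat_lit 20406658541) (nat_lit 76) (nat_lit 4240423826) (nat_lit 45) (nat_lit 5) (nat_lit 47) (nat_lit 5) (nat_lit 46) (nat_lit 5) (nat_lit 434) (nat_lit 410) (nat_lit 356)) (XT.lf (nat_lit 0) (nat_lit 7101472540) (nat_lit 152) (nat_lit 5365285413) (nat_lit 76) (nat_lit 14187759277) (nat_lit 45) (nat_lit 5) (nat_lit 47) (nat_lit 5) (nat_lit 46) (nat_lit 5) (nat_lit 435) (nat_lit 410) (nat_lit 355)))) (XT.nd (nat_lit 78) (nat_lit 152) (nat_lit 0) (XT.lf (nat_lit 0) (nat_lit 11414620898) (nat_lit 152) (nat_lit 2793403755) (nat_lit 228) (nat_lit 13778253603) (nat_lit 43) (nat_lit 5) (nat_lit 45) (nat_lit 5) (nat_lit 46) (nat_lit 5) (nat_lit 436) (nat_lit 410) (nat_lit 354)) (XT.nd (nat_lit 78) (nat_lit 76) (nat_lit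 0) (XT.lf (nat_lit 0) (nat_lit 215917747) (nat_lit 76) (nat_lit 21985846526) (nat_lit 152) (nat_lit 7197326282) (nat_lit 42) (nat_lit 5) (nat_lit 43) (nat_lit 5) (nat_lit 44) (nat_lit 4) (nat_lit 437) (nat_lit 410) (nat_lit 353)) (XT.lf (nat_lit 0) (nat_lit 431068451) (nat_lit 152) (nat_lit 11718289109) (nat_lit 76) (nat_lit 18734426670) (nat_lit 41) (nat_lit 5) (nat_lit 43) (nat_lit 5) (nat_lit 42) (nat_lit 5) (nat_lit 438) (nat_lit 410) (nat_lit 352))))) (XT.nd (nat_lit 234) (nat_lit 304) (nat_lit 0) (XT.nd (nat_lit 78) (nat_lit 76) (nat_lit 0) (XT.lf (nat_lit 0) (nat_lit 7287707180) (nat_lit 152) (nat_lit 1149076418) (nat_lit 228) (nat_lit 24023045751) (nat_lit 39) (nat_lit 5) (nat_lit 41) (nat_lit 5) (nat_lit 42) (nat_lit 5) (nat_lit 439) (nat_lit 410) (nat_lit 351)) (XT.nd (nat_lit 78) (nat_lit 76) (nat_lit 0) (XT.lf (nat_lit 0) (nat_lit 17650691159) (nat_lit 228) (nat_lit 5956125798)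 (nat_lit 76) (nat_lit 10509724846) (nat_lit 39) (nat_lit 5) (nat_lit 42) (nat_lit 5) (nat_lit 40) (nat_lit 4) (nat_lit 440) (nat_lit 410) (nat_lit 350)) (XT.lf (nat_lit 0) (nat_lit 15511781106) (nat_lit 76) (nat_lit 12475175892) (nat_lit 152) (nat_lit 7888016952) (nat_lit 38) (nat_lit 5) (nat_lit 39) (nat_lit 5) (nat_lit 40) (nat_lit 4) (nat_lit 441) (nat_lit 410) (nat_lit 349)))) (XT.nd (nat_lit 78) (nat_lit 76) (nat_lit 0) (XT.lf (nat_lit 0) (nat_lit 1269359409) (nat_lit 152) (nat_lit 217922735) (nat_lit 228) (nat_lit 36269747115) (nat_lit 35) (nat_lit 5) (nat_lit 37) (nat_lit 5) (nat_lit 38) (nat_lit 5) (nat_lit 442) (nat_lit 410) (nat_lit 348)) (XT.nd (nat_lit 78) (nat_lit 76) (nat_lit 0) (XT.lf (nat_lit 0) (nat_lit 12053493771) (nat_lit 228) (nat_lit 14518833632) (nat_lit 76) (nat_lit 13131569060) (nat_lit 35) (nat_lit 5) (nat_lit 38) (nat_lit 5) (nat_lit 36) (nat_lit 4) (nat_lit 443)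 (nat_lit 410) (nat_lit 347)) (XT.lf (nat_lit 0) (nat_lit 9655367912) (nat_lit 76) (nat_lit 14031478804) (nat_lit 152) (nat_lit 18101920507) (nat_lit 34) (nat_lit 5) (nat_lit 35) (nat_lit 5) (nat_lit 36) (nat_lit 4) (nat_lit 444) (nat_lit 410) (nat_lit 346))))))))
noncomputable def xc120 : XT := (XT.nd (nat_lit 1794) (nat_lit 760) (nat_lit 0) (XT.nd (nat_lit 858) (nat_lit 684) (nat_lit 0) (XT.nd (nat_lit 390) (nat_lit 380) (nat_lit 0) (XT.nd (nat_lit 156) (nat_lit 152) (nat_lit 0) (XT.nd (nat_lit 78) (nat_lit 152) (nat_lit 0) (XT.lf (nat_lit 0) (nat_lit 36560469043) (nat_lit 76) (nat_lit 71837877) (nat_lit 152) (nat_lit 7377607201) (nat_lit 34) (nat_lit 5) (nat_lit 35) (nat_lit 5) (nat_lit 36) (nat_lit 4) (nat_lit 445) (nat_lit 410) (nat_lit 345)) (XT.lf (nat_lit 0) (nat_lit 4838347670) (nat_lit 152) (nat_lit 26653455462) (nat_lit 76) (nat_lit 14841338841) (nat_lit 32) (nat_lit 5) (nat_lit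 34) (nat_lit 5) (nat_lit 33) (nat_lit 4) (nat_lit 446) (nat_lit 410) (nat_lit 344))) (XT.nd (nat_lit 78) (nat_lit 76) (nat_lit 0) (XT.lf (nat_lit 0) (nat_lit 369008630) (nat_lit 76) (nat_lit 17469097036) (nat_lit 152) (nat_lit 30972384834) (nat_lit 31) (nat_lit 5) (nat_lit 32) (nat_lit 5) (nat_lit 33) (nat_lit 4) (nat_lit 447) (nat_lit 410) (nat_lit 343)) (XT.nd (nat_lit 78) (nat_lit 76) (nat_lit 0) (XT.lf (nat_lit 0) (nat_lit 31042232910) (nat_lit 76) (nat_lit 1550197348) (nat_lit 152) (nat_lit 18836430952) (nat_lit 31) (nat_lit 5) (nat_lit 32) (nat_lit 5) (nat_lit 33) (nat_lit 4) (nat_lit 448) (nat_lit 410) (nat_lit 342)) (XT.lf (nat_lit 0) (nat_lit 10011617121) (nat_lit 76) (nat_lit 39119059324) (nat_lit 76) (nat_lit 5077740171) (nat_lit 30) (nat_lit 4) (nat_lit 31) (nat_lit 5) (nat_lit 31) (nat_lit 4) (nat_lit 449) (nat_lit 410) (nat_lit 341))))) (XT.nd (nat_lit 234) (nat_lit 228) (nat_lit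 0) (XT.nd (nat_lit 78) (nat_lit 76) (nat_lit 0) (XT.lf (nat_lit 0) (nat_lit 9891131324) (nat_lit 152) (nat_lit 13480285422) (nat_lit 76) (nat_lit 33772196497) (nat_lit 29) (nat_lit 5) (nat_lit 31) (nat_lit 5) (nat_lit 30) (nat_lit 4) (nat_lit 450) (nat_lit 410) (nat_lit 340)) (XT.nd (nat_lit 78) (nat_lit 0) (nat_lit 0) (XT.lf (nat_lit 0) (nat_lit 20566715349) (nat_lit 76) (nat_lit 5698739451) (nat_lit 152) (nat_lit 33999038747) (nat_lit 28) (nat_lit 5) (nat_lit 29) (nat_lit 5) (nat_lit 30) (nat_lit 4) (nat_lit 451) (nat_lit 410) (nat_lit 339)) (XT.lf (nat_lit 0) (nat_lit 44637579647) (nat_lit 152) (nat_lit 5856861073) (nat_lit 0) (nat_lit 13085575918) (nat_lit 28) (nat_lit 5) (nat_lit 30) (nat_lit 4) (nat_lit 28) (nat_lit 4) (nat_lit 452) (nat_lit 410) (nat_lit 338)))) (XT.nd (nat_lit 78) (nat_lit 152) (nat_lit 0) (XT.lf (nat_lit 0) (nat_lit 32128405381) (nat_lit 76) (nat_lit 33260417473)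 (nat_lit 76) (nat_lit 1699211593) (nat_lit 27) (nat_lit 4) (nat_lit 28) (nat_lit 5) (nat_lit 28) (nat_lit 4) (nat_lit 453) (nat_lit 410) (nat_lit 337)) (XT.nd (nat_lit 78) (nat_lit 0) (nat_lit 0) (XT.lf (nat_lit 0) (nat_lit 2303627505) (nat_lit 76) (nat_lit 13981638790) (nat_lit 152) (nat_lit 54542197226) (nat_lit 25) (nat_lit 5) (nat_lit 26) (nat_lit 5) (nat_lit 27) (nat_lit 4) (nat_lit 454) (nat_lit 410) (nat_lit 336)) (XT.lf (nat_lit 0) (nat_lit 36750617376) (nat_lit 152) (nat_lit 30509101709) (nat_lit 0) (nat_lit 7512084273) (nat_lit 25) (nat_lit 5) (nat_lit 27) (nat_lit 4) (nat_lit 25) (nat_lit 4) (nat_lit 455) (nat_lit 410) (nat_lit 335)))))) (XT.nd (nat_lit 468) (nat_lit 304) (nat_lit 0) (XT.nd (nat_lit 234) (nat_lit 152) (nat_lit 0) (XT.nd (nat_lit 78) (nat_lit 152) (nat_lit 0) (XT.lf (nat_lit 0) (nat_lit 10698265489) (nat_lit 76) (nat_lit 48764960039) (nat_lit 76) (nat_lit 19519663080)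 (nat_lit 24) (nat_lit 4) (nat_lit 25) (nat_lit 5) (nat_lit 25) (nat_lit 4) (nat_lit 456) (nat_lit 410) (nat_lit 334)) (XT.nd (nat_lit 78) (nat_lit 76) (nat_lit 0) (XT.lf (nat_lit 0) (nat_lit 1284313766) (nat_lit 152) (nat_lit 26580187154) (nat_lit 76) (nat_lit 55597835987) (nat_lit 23) (nat_lit 5) (nat_lit 25) (nat_lit 5) (nat_lit 24) (nat_lit 4) (nat_lit 457) (nat_lit 410) (nat_lit 333)) (XT.lf (nat_lit 0) (nat_lit 18878940789) (nat_lit 76) (nat_lit 4263510890) (nat_lit 152) (nat_lit 65081576546) (nat_lit 22) (nat_lit 5) (nat_lit 23) (nat_lit 5) (nat_lit 24) (nat_lit 4) (nat_lit 458) (nat_lit 410) (nat_lit 332)))) (XT.nd (nat_lit 78) (nat_lit 152) (nat_lit 0) (XT.lf (nat_lit 0) (nat_lit 47995759288) (nat_lit 152) (nat_lit 24370533766) (nat_lit 0) (nat_lit 20900640703) (nat_lit 22) (nat_lit 5) (nat_lit 24) (nat_lit 4) (nat_lit 22) (nat_lit 4) (nat_lit 459) (nat_lit 410) (nat_lit 331)) (XT.nd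 (nat_lit 78) (nat_lit 76) (nat_lit 0) (XT.lf (nat_lit 0) (nat_lit 25341224683) (nat_lit 76) (nat_lit 50207431691) (nat_lit 76) (nat_lit 23107709739) (nat_lit 21) (nat_lit 4) (nat_lit 22) (nat_lit 5) (nat_lit 22) (nat_lit 4) (nat_lit 460) (nat_lit 410) (nat_lit 330)) (XT.lf (nat_lit 0) (nat_lit 1462156923) (nat_lit 152) (nat_lit 24062697925) (nat_lit 76) (nat_lit 78896520948) (nat_lit 20) (nat_lit 5) (nat_lit 22) (nat_lit 5) (nat_lit 21) (nat_lit 4) (nat_lit 461) (nat_lit 410) (nat_lit 329))))) (XT.nd (nat_lit 234) (nat_lit 152) (nat_lit 0) (XT.nd (nat_lit 78) (nat_lit 76) (nat_lit 0) (XT.lf (nat_lit 0) (nat_lit 27524228961) (nat_lit 152) (nat_lit 80589046088) (nat_lit 0) (nat_lit 2424292875) (nat_lit 19) (nat_lit 5) (nat_lit 21) (nat_lit 4) (nat_lit 19) (nat_lit 4) (nat_lit 462) (nat_lit 410) (nat_lit 328)) (XT.nd (nat_lit 78) (nat_lit 76) (nat_lit 0) (XT.lf (nat_lit 0) (nat_lit 57001087225)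 (nat_lit 152) (nat_lit 28137815306) (nat_lit 0) (nat_lit 31897767527) (nat_lit 19) (nat_lit 5) (nat_lit 21) (nat_lit 4) (nat_lit 19) (nat_lit 4) (nat_lit 463) (nat_lit 410) (nat_lit 327)) (XT.lf (nat_lit 0) (nat_lit 29994762933) (nat_lit 76) (nat_lit 59555142717) (nat_lit 76) (nat_lit 34448690045) (nat_lit 18) (nat_lit 4) (nat_lit 19) (nat_lit 5) (nat_lit 19) (nat_lit 4) (nat_lit 464) (nat_lit 410) (nat_lit 326)))) (XT.nd (nat_lit 78) (nat_lit 152) (nat_lit 0) (XT.lf (nat_lit 0) (nat_lit 94363344470) (nat_lit 76) (nat_lit 31101263234) (nat_lit 76) (nat_lit 5991909660) (nat_lit 18) (nat_lit 4) (nat_lit 19) (nat_lit 5) (nat_lit 19) (nat_lit 4) (nat_lit 465) (nat_lit 410) (nat_lit 325)) (XT.nd (nat_lit 78) (nat_lit 0) (nat_lit 0) (XT.lf (nat_lit 0) (nat_lit 24120290378) (nat_lit 152) (nat_lit 114425454765) (nat_lit 0) (nat_lit 868401865) (nat_lit 16) (nat_lit 5) (nat_lit 18) (nat_lit 4) (nat_lit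 16) (nat_lit 4) (nat_lit 466) (nat_lit 410) (nat_lit 324)) (XT.lf (nat_lit 0) (nat_lit 58159137514) (nat_lit 152) (nat_lit 54784541612) (nat_lit 0) (nat_lit 34904946172) (nat_lit 16) (nat_lit 5) (nat_lit 18) (nat_lit 4) (nat_lit 16) (nat_lit 4) (nat_lit 467) (nat_lit 410) (nat_lit 323))))))) (XT.nd (nat_lit 858) (nat_lit 304) (nat_lit 0) (XT.nd (nat_lit 390) (nat_lit 228) (nat_lit 0) (XT.nd (nat_lit 156) (nat_lit 152) (nat_lit 0) (XT.nd (nat_lit 78) (nat_lit 0) (nat_lit 0) (XT.lf (nat_lit 0) (nat_lit 10120860151) (nat_lit 76) (nat_lit 85037184638) (nat_lit 76) (nat_lit 61780861046) (nat_lit 15) (nat_lit 4) (nat_lit 16) (nat_lit 5) (nat_lit 16) (nat_lit 4) (nat_lit 468) (nat_lit 410) (nat_lit 322)) (XT.lf (nat_lit 0) (nat_lit 83321599533) (nat_lit 76) (nat_lit 53286888724) (nat_lit 76) (nat_lit 30028590828) (nat_lit 15) (nat_lit 4) (nat_lit 16) (nat_lit 5) (nat_lit 16) (nat_lit 4) (nat_lit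 469) (nat_lit 410) (nat_lit 321))) (XT.nd (nat_lit 78) (nat_lit 76) (nat_lit 0) (XT.lf (nat_lit 0) (nat_lit 4044596721) (nat_lit 152) (nat_lit 14847364775) (nat_lit 76) (nat_lit 158211418654) (nat_lit 14) (nat_lit 5) (nat_lit 16) (nat_lit 5) (nat_lit 15) (nat_lit 4) (nat_lit 470) (nat_lit 410) (nat_lit 320)) (XT.nd (nat_lit 78) (nat_lit 0) (nat_lit 0) (XT.lf (nat_lit 0) (nat_lit 41189401573) (nat_lit 152) (nat_lit 127347059247) (nat_lit 0) (nat_lit 19650680642) (nat_lit 13) (nat_lit 5) (nat_lit 15) (nat_lit 4) (nat_lit 13) (nat_lit 4) (nat_lit 471) (nat_lit 410) (nat_lit 319)) (XT.lf (nat_lit 0) (nat_lit 82207475098) (nat_lit 152) (nat_lit 57210690960) (nat_lit 0) (nat_lit 60667302994) (nat_lit 13) (nat_lit 5) (nat_lit 15) (nat_lit 4) (nat_lit 13) (nat_lit 4) (nat_lit 472) (nat_lit 410) (nat_lit 318))))) (XT.nd (nat_lit 234) (nat_lit 152) (nat_lit 0) (XT.nd (nat_lit 78) (nat_lit 0) (nat_lit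 0) (XT.lf (nat_lit 0) (nat_lit 19501748061) (nat_lit 76) (nat_lit 107469158844) (nat_lit 76) (nat_lit 85927643061) (nat_lit 12) (nat_lit 4) (nat_lit 13) (nat_lit 5) (nat_lit 13) (nat_lit 4) (nat_lit 473) (nat_lit 410) (nat_lit 317)) (XT.nd (nat_lit 78) (nat_lit 0) (nat_lit 0) (XT.lf (nat_lit 0) (nat_lit 105594672914) (nat_lit 76) (nat_lit 71280011393) (nat_lit 76) (nat_lit 49737251463) (nat_lit 12) (nat_lit 4) (nat_lit 13) (nat_lit 5) (nat_lit 13) (nat_lit 4) (nat_lit 474) (nat_lit 410) (nat_lit 316)) (XT.lf (nat_lit 0) (nat_lit 198565650291) (nat_lit 76) (nat_lit 32200511176) (nat_lit 76) (nat_lit 10656599258) (nat_lit 12) (nat_lit 4) (nat_lit 13) (nat_lit 5) (nat_lit 13) (nat_lit 4) (nat_lit 475) (nat_lit 410) (nat_lit 315)))) (XT.nd (nat_lit 78) (nat_lit 0) (nat_lit 0) (XT.lf (nat_lit 0) (nat_lit 31287509611) (nat_lit 152) (nat_lit 214626560453) (nat_lit 0) (nat_lit 11338455377) (nat_lit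 10) (nat_lit 5) (nat_lit 12) (nat_lit 4) (nat_lit 10) (nat_lit 4) (nat_lit 476) (nat_lit 410) (nat_lit 314)) (XT.nd (nat_lit 78) (nat_lit 0) (nat_lit 0) (XT.lf (nat_lit 0) (nat_lit 78045652324) (nat_lit 152) (nat_lit 138022452833) (nat_lit 0) (nat_lit 58095683604) (nat_lit 10) (nat_lit 5) (nat_lit 12) (nat_lit 4) (nat_lit 10) (nat_lit 4) (nat_lit 477) (nat_lit 410) (nat_lit 313)) (XT.lf (nat_lit 0) (nat_lit 128540405656) (nat_lit 152) (nat_lit 55298280633) (nat_lit 0) (nat_lit 108589590191) (nat_lit 10) (nat_lit 5) (nat_lit 12) (nat_lit 4) (nat_lit 10) (nat_lit 4) (nat_lit 478) (nat_lit 410) (nat_lit 312)))))) (XT.nd (nat_lit 468) (nat_lit 76) (nat_lit 0) (XT.nd (nat_lit 234) (nat_lit 152) (nat_lit 0) (XT.nd (nat_lit 78) (nat_lit 0) (nat_lit 0) (XT.lf (nat_lit 0) (nat_lit 35828458043) (nat_lit 76) (nat_lit 148104215011) (nat_lit 76) (nat_lit 128152615522) (nat_lit 9) (nat_lit 4) (nat_lit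 10) (nat_lit 5) (nat_lit 10) (nat_lit 4) (nat_lit 479) (nat_lit 410) (nat_lit 311)) (XT.nd (nat_lit 78) (nat_lit 0) (nat_lit 0) (XT.lf (nat_lit 0) (nat_lit 137382739871) (nat_lit 76) (nat_lit 107881891260) (nat_lit 76) (nat_lit 87929565823) (nat_lit 9) (nat_lit 4) (nat_lit 10) (nat_lit 5) (nat_lit 10) (nat_lit 4) (nat_lit 480) (nat_lit 410) (nat_lit 310)) (XT.lf (nat_lit 0) (nat_lit 247054458542) (nat_lit 76) (nat_lit 64445313515) (nat_lit 76) (nat_lit 44492315904) (nat_lit 9) (nat_lit 4) (nat_lit 10) (nat_lit 5) (nat_lit 10) (nat_lit 4) (nat_lit 481) (nat_lit 410) (nat_lit 309)))) (XT.nd (nat_lit 78) (nat_lit 76) (nat_lit 0) (XT.lf (nat_lit 0) (nat_lit 2295655034) (nat_lit 152) (nat_lit 15178657522) (nat_lit 76) (nat_lit 363135098225) (nat_lit 8) (nat_lit 5) (nat_lit 10) (nat_lit 5) (nat_lit 9) (nat_lit 4) (nat_lit 482) (nat_lit 410) (nat_lit 308)) (XT.nd (nat_lit 78) (nat_lit 0) (nat_lit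 0) (XT.lf (nat_lit 0) (nat_lit 53455361993) (nat_lit 152) (nat_lit 318426456456) (nat_lit 0) (nat_lit 34979254331) (nat_lit 7) (nat_lit 5) (nat_lit 9) (nat_lit 4) (nat_lit 7) (nat_lit 4) (nat_lit 483) (nat_lit 410) (nat_lit 307)) (XT.lf (nat_lit 0) (nat_lit 109584551450) (nat_lit 152) (nat_lit 234450230134) (nat_lit 0) (nat_lit 91107949720) (nat_lit 7) (nat_lit 5) (nat_lit 9) (nat_lit 4) (nat_lit 7) (nat_lit 4) (nat_lit 484) (nat_lit 410) (nat_lit 306))))) (XT.nd (nat_lit 234) (nat_lit 0) (nat_lit 0) (XT.nd (nat_lit 78) (nat_lit 76) (nat_lit 0) (XT.lf (nat_lit 0) (nat_lit 170201332342) (nat_lit 152) (nat_lit 143761536562) (nat_lit 0) (nat_lit 151724273142) (nat_lit 7) (nat_lit 5) (nat_lit 9) (nat_lit 4) (nat_lit 7) (nat_lit 4) (nat_lit 485) (nat_lit 410) (nat_lit 305)) (XT.nd (nat_lit 78) (nat_lit 76) (nat_lit 0) (XT.lf (nat_lit 0) (nat_lit 235664915221) (nat_lit 152) (nat_lit 45822961260)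 (nat_lit 0) (nat_lit 217187432438) (nat_lit 7) (nat_lit 5) (nat_lit 9) (nat_lit 4) (nat_lit 7) (nat_lit 4) (nat_lit 486) (nat_lit 410) (nat_lit 304)) (XT.lf (nat_lit 0) (nat_lit 63102515928) (nat_lit 76) (nat_lit 244778333529) (nat_lit 76) (nat_lit 226300458538) (nat_lit 6) (nat_lit 4) (nat_lit 7) (nat_lit 5) (nat_lit 7) (nat_lit 4) (nat_lit 487) (nat_lit 410) (nat_lit 303)))) (XT.nd (nat_lit 78) (nat_lit 0) (nat_lit 0) (XT.lf (nat_lit 0) (nat_lit 183343318368) (nat_lit 76) (nat_lit 203781329812) (nat_lit 76) (nat_lit 185303091667) (nat_lit 6) (nat_lit 4) (nat_lit 7) (nat_lit 5) (nat_lit 7) (nat_lit 4) (nat_lit 488) (nat_lit 410) (nat_lit 302)) (XT.nd (nat_lit 78) (nat_lit 0) (nat_lit 0) (XT.lf (nat_lit 0) (nat_lit 313199028211) (nat_lit 76) (nat_lit 159506801091) (nat_lit 76) (nat_lit 141028226692) (nat_lit 6) (nat_lit 4) (nat_lit 7) (nat_lit 5) (nat_lit 7) (nat_lit 4) (nat_lit 489) (nat_lit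 410) (nat_lit 301)) (XT.lf (nat_lit 0) (nat_lit 453439160775) (nat_lit 76) (nat_lit 111692379788) (nat_lit 76) (nat_lit 93213494042) (nat_lit 6) (nat_lit 4) (nat_lit 7) (nat_lit 5) (nat_lit 7) (nat_lit 4) (nat_lit 490) (nat_lit 410) (nat_lit 300))))))))
noncomputable def xc121 : XT := (XT.nd (nat_lit 1794) (nat_lit 152) (nat_lit 0) (XT.nd (nat_lit 858) (nat_lit 0) (nat_lit 0) (XT.nd (nat_lit 390) (nat_lit 76) (nat_lit 0) (XT.nd (nat_lit 156) (nat_lit 0) (nat_lit 0) (XT.nd (nat_lit 78) (nat_lit 152) (nat_lit 0) (XT.lf (nat_lit 0) (nat_lit 604894768698) (nat_lit 76) (nat_lit 60054721184) (nat_lit 76) (nat_lit 41575547154) (nat_lit 6) (nat_lit 4) (nat_lit 7) (nat_lit 5) (nat_lit 7) (nat_lit 4) (nat_lit 491) (nat_lit 410) (nat_lit 299)) (XT.lf (nat_lit 0) (nat_lit 10066026997) (nat_lit 76) (nat_lit 3657755674) (nat_lit 152) (nat_lit 744789119989) (nat_lit 4) (nat_lit 5) (nat_lit 5) (nat_lit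 5) (nat_lit 6) (nat_lit 4) (nat_lit 492) (nat_lit 410) (nat_lit 298))) (XT.nd (nat_lit 78) (nat_lit 0) (nat_lit 0) (XT.lf (nat_lit 0) (nat_lit 75426987775) (nat_lit 152) (nat_lit 680492166518) (nat_lit 0) (nat_lit 58316165445) (nat_lit 4) (nat_lit 5) (nat_lit 6) (nat_lit 4) (nat_lit 4) (nat_lit 4) (nat_lit 493) (nat_lit 410) (nat_lit 297)) (XT.nd (nat_lit 78) (nat_lit 0) (nat_lit 0) (XT.lf (nat_lit 0) (nat_lit 142159857947) (nat_lit 152) (nat_lit 607199375841) (nat_lit 0) (nat_lit 125048823720) (nat_lit 4) (nat_lit 5) (nat_lit 6) (nat_lit 4) (nat_lit 4) (nat_lit 4) (nat_lit 494) (nat_lit 410) (nat_lit 296)) (XT.lf (nat_lit 0) (nat_lit 214229878120) (nat_lit 152) (nat_lit 528046206872) (nat_lit 0) (nat_lit 197118647691) (nat_lit 4) (nat_lit 5) (nat_lit 6) (nat_lit 4) (nat_lit 4) (nat_lit 4) (nat_lit 495) (nat_lit 410) (nat_lit 295))))) (XT.nd (nat_lit 234) (nat_lit 76) (nat_lit 0) (XT.nd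 (nat_lit 78) (nat_lit 0) (nat_lit 0) (XT.lf (nat_lit 0) (nat_lit 292064129895) (nat_lit 152) (nat_lit 442563603795) (nat_lit 0) (nat_lit 274952717799) (nat_lit 4) (nat_lit 5) (nat_lit 6) (nat_lit 4) (nat_lit 4) (nat_lit 4) (nat_lit 496) (nat_lit 410) (nat_lit 294)) (XT.nd (nat_lit 78) (nat_lit 0) (nat_lit 0) (XT.lf (nat_lit 0) (nat_lit 376123853283) (nat_lit 152) (nat_lit 350245003036) (nat_lit 0) (nat_lit 359012272975) (nat_lit 4) (nat_lit 5) (nat_lit 6) (nat_lit 4) (nat_lit 4) (nat_lit 4) (nat_lit 497) (nat_lit 410) (nat_lit 293)) (XT.lf (nat_lit 0) (nat_lit 466907179977) (nat_lit 152) (nat_lit 250543331406) (nat_lit 0) (nat_lit 449795443919) (nat_lit 4) (nat_lit 5) (nat_lit 6) (nat_lit 4) (nat_lit 4) (nat_lit 4) (nat_lit 498) (nat_lit 410) (nat_lit 292)))) (XT.nd (nat_lit 78) (nat_lit 76) (nat_lit 0) (XT.lf (nat_lit 0) (nat_lit 564952085247) (nat_lit 152) (nat_lit 142867764184) (nat_lit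 0) (nat_lit 547840204976) (nat_lit 4) (nat_lit 5) (nat_lit 6) (nat_lit 4) (nat_lit 4) (nat_lit 4) (nat_lit 499) (nat_lit 410) (nat_lit 291)) (XT.nd (nat_lit 78) (nat_lit 76) (nat_lit 0) (XT.lf (nat_lit 0) (nat_lit 670839575940) (nat_lit 152) (nat_lit 26580223934) (nat_lit 0) (nat_lit 653727562137) (nat_lit 4) (nat_lit 5) (nat_lit 6) (nat_lit 4) (nat_lit 4) (nat_lit 4) (nat_lit 500) (nat_lit 410) (nat_lit 290)) (XT.lf (nat_lit 0) (nat_lit 104222007615) (nat_lit 76) (nat_lit 683481667656) (nat_lit 76) (nat_lit 666369530212) (nat_lit 3) (nat_lit 4) (nat_lit 4) (nat_lit 5) (nat_lit 4) (nat_lit 4) (nat_lit 501) (nat_lit 410) (nat_lit 289)))))) (XT.nd (nat_lit 468) (nat_lit 0) (nat_lit 0) (XT.nd (nat_lit 234) (nat_lit 0) (nat_lit 0) (XT.nd (nat_lit 78) (nat_lit 0) (nat_lit 0) (XT.lf (nat_lit 0) (nat_lit 246998188311) (nat_lit 76) (nat_lit 667644556343) (nat_lit 76) (nat_lit 650532304418) (nat_lit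 3) (nat_lit 4) (nat_lit 4) (nat_lit 5) (nat_lit 4) (nat_lit 4) (nat_lit 502) (nat_lit 410) (nat_lit 288)) (XT.nd (nat_lit 78) (nat_lit 0) (nat_lit 0) (XT.lf (nat_lit 0) (nat_lit 401194731737) (nat_lit 76) (nat_lit 650541366815) (nat_lit 76) (nat_lit 633429008889) (nat_lit 3) (nat_lit 4) (nat_lit 4) (nat_lit 5) (nat_lit 4) (nat_lit 4) (nat_lit 503) (nat_lit 410) (nat_lit 287)) (XT.lf (nat_lit 0) (nat_lit 567725395186) (nat_lit 76) (nat_lit 632070746838) (nat_lit 76) (nat_lit 614958290762) (nat_lit 3) (nat_lit 4) (nat_lit 4) (nat_lit 5) (nat_lit 4) (nat_lit 4) (nat_lit 504) (nat_lit 410) (nat_lit 286)))) (XT.nd (nat_lit 78) (nat_lit 0) (nat_lit 0) (XT.lf (nat_lit 0) (nat_lit 747577027036) (nat_lit 76) (nat_lit 612123240885) (nat_lit 76) (nat_lit 595010693930) (nat_lit 3) (nat_lit 4) (nat_lit 4) (nat_lit 5) (nat_lit 4) (nat_lit 4) (nat_lit 505) (nat_lit 410) (nat_lit 285)) (XT.nd (nat_lit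 78) (nat_lit 0) (nat_lit 0) (XT.lf (nat_lit 0) (nat_lit 941815414732) (nat_lit 76) (nat_lit 590580641514) (nat_lit 76) (nat_lit 573468010412) (nat_lit 3) (nat_lit 4) (nat_lit 4) (nat_lit 5) (nat_lit 4) (nat_lit 4) (nat_lit 506) (nat_lit 410) (nat_lit 284)) (XT.lf (nat_lit 0) (nat_lit 1151591600575) (nat_lit 76) (nat_lit 567315288876) (nat_lit 76) (nat_lit 550202579860) (nat_lit 3) (nat_lit 4) (nat_lit 4) (nat_lit 5) (nat_lit 4) (nat_lit 4) (nat_lit 507) (nat_lit 410) (nat_lit 283))))) (XT.nd (nat_lit 234) (nat_lit 0) (nat_lit 0) (XT.nd (nat_lit 78) (nat_lit 0) (nat_lit 0) (XT.lf (nat_lit 0) (nat_lit 1378148702700) (nat_lit 76) (nat_lit 542189314216) (nat_lit 76) (nat_lit 525076533058) (nat_lit 3) (nat_lit 4) (nat_lit 4) (nat_lit 5) (nat_lit 4) (nat_lit 4) (nat_lit 508) (nat_lit 410) (nat_lit 282)) (XT.nd (nat_lit 78) (nat_lit 0) (nat_lit 0) (XT.lf (nat_lit 0) (nat_lit 1622829281715) (nat_lit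 76) (nat_lit 515053822869) (nat_lit 76) (nat_lit 497940974912) (nat_lit 3) (nat_lit 4) (nat_lit 4) (nat_lit 5) (nat_lit 4) (nat_lit 4) (nat_lit 509) (nat_lit 410) (nat_lit 281)) (XT.lf (nat_lit 0) (nat_lit 1887083296604) (nat_lit 76) (nat_lit 485748011923) (nat_lit 76) (nat_lit 468635102115) (nat_lit 3) (nat_lit 4) (nat_lit 4) (nat_lit 5) (nat_lit 4) (nat_lit 4) (nat_lit 510) (nat_lit 410) (nat_lit 280)))) (XT.nd (nat_lit 78) (nat_lit 0) (nat_lit 0) (XT.lf (nat_lit 0) (nat_lit 2172476697087) (nat_lit 76) (nat_lit 454098217313) (nat_lit 76) (nat_lit 436985250236) (nat_lit 3) (nat_lit 4) (nat_lit 4) (nat_lit 5) (nat_lit 4) (nat_lit 4) (nat_lit 511) (nat_lit 410) (nat_lit 279)) (XT.nd (nat_lit 78) (nat_lit 0) (nat_lit 0) (XT.lf (nat_lit 0) (nat_lit 2480700703315) (nat_lit 76) (nat_lit 419916884701) (nat_lit 76) (nat_lit 402803864596) (nat_lit 3) (nat_lit 4) (nat_lit 4) (nat_lit 5) (nat_lit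 4) (nat_lit 4) (nat_lit 512) (nat_lit 410) (nat_lit 278)) (XT.lf (nat_lit 0) (nat_lit 2813581827916) (nat_lit 76) (nat_lit 383001458042) (nat_lit 76) (nat_lit 365888388838) (nat_lit 3) (nat_lit 4) (nat_lit 4) (nat_lit 5) (nat_lit 4) (nat_lit 4) (nat_lit 513) (nat_lit 410) (nat_lit 277))))))) (XT.nd (nat_lit 936) (nat_lit 0) (nat_lit 0) (XT.nd (nat_lit 468) (nat_lit 152) (nat_lit 0) (XT.nd (nat_lit 234) (nat_lit 0) (nat_lit 0) (XT.nd (nat_lit 78) (nat_lit 0) (nat_lit 0) (XT.lf (nat_lit 0) (nat_lit 3173092699778) (nat_lit 76) (nat_lit 343133179251) (nat_lit 76) (nat_lit 326020064585) (nat_lit 3) (nat_lit 4) (nat_lit 4) (nat_lit 5) (nat_lit 4) (nat_lit 4) (nat_lit 514) (nat_lit 410) (nat_lit 276)) (XT.nd (nat_lit 78) (nat_lit 0) (nat_lit 0) (XT.lf (nat_lit 0) (nat_lit 3561363753696) (nat_lit 76) (nat_lit 300075791862) (nat_lit 76) (nat_lit 282962635101) (nat_lit 3) (nat_lit 4) (nat_lit 4)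 (nat_lit 5) (nat_lit 4) (nat_lit 4) (nat_lit 515) (nat_lit 410) (nat_lit 275)) (XT.lf (nat_lit 0) (nat_lit 3980695855175) (nat_lit 76) (nat_lit 253574140987) (nat_lit 76) (nat_lit 236460945250) (nat_lit 3) (nat_lit 4) (nat_lit 4) (nat_lit 5) (nat_lit 4) (nat_lit 4) (nat_lit 516) (nat_lit 410) (nat_lit 274)))) (XT.nd (nat_lit 78) (nat_lit 0) (nat_lit 0) (XT.lf (nat_lit 0) (nat_lit 4433573935188) (nat_lit 76) (nat_lit 203352661287) (nat_lit 76) (nat_lit 186239429460) (nat_lit 3) (nat_lit 4) (nat_lit 4) (nat_lit 5) (nat_lit 4) (nat_lit 4) (nat_lit 517) (nat_lit 410) (nat_lit 273)) (XT.nd (nat_lit 78) (nat_lit 0) (nat_lit 0) (XT.lf (nat_lit 0) (nat_lit 4922681715689) (nat_lit 76) (nat_lit 149113743993) (nat_lit 76) (nat_lit 132000478750) (nat_lit 3) (nat_lit 4) (nat_lit 4) (nat_lit 5) (nat_lit 4) (nat_lit 4) (nat_lit 518) (nat_lit 410) (nat_lit 272)) (XT.lf (nat_lit 0) (nat_lit 5450917613155)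 (nat_lit 76) (nat_lit 90535973300) (nat_lit 76) (nat_lit 73422677116) (nat_lit 3) (nat_lit 4) (nat_lit 4) (nat_lit 5) (nat_lit 4) (nat_lit 4) (nat_lit 519) (nat_lit 410) (nat_lit 271))))) (XT.nd (nat_lit 234) (nat_lit 0) (nat_lit 0) (XT.nd (nat_lit 78) (nat_lit 152) (nat_lit 0) (XT.lf (nat_lit 0) (nat_lit 6021411914387) (nat_lit 76) (nat_lit 27272221677) (nat_lit 76) (nat_lit 10158896844) (nat_lit 3) (nat_lit 4) (nat_lit 4) (nat_lit 5) (nat_lit 4) (nat_lit 4) (nat_lit 520) (nat_lit 410) (nat_lit 270)) (XT.nd (nat_lit 78) (nat_lit 0) (nat_lit 0) (XT.lf (nat_lit 0) (nat_lit 58820478319) (nat_lit 152) (nat_lit 6436134836138) (nat_lit 0) (nat_lit 42974782616) (nat_lit 1) (nat_lit 5) (nat_lit 3) (nat_lit 4) (nat_lit 1) (nat_lit 4) (nat_lit 521) (nat_lit 410) (nat_lit 269)) (XT.lf (nat_lit 0) (nat_lit 134527528653) (nat_lit 152) (nat_lit 6801973024560) (nat_lit 0) (nat_lit 118681810207) (nat_lit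 1) (nat_lit 5) (nat_lit 3) (nat_lit 4) (nat_lit 1) (nat_lit 4) (nat_lit 522) (nat_lit 410) (nat_lit 268)))) (XT.nd (nat_lit 78) (nat_lit 0) (nat_lit 0) (XT.lf (nat_lit 0) (nat_lit 216290943260) (nat_lit 152) (nat_lit 7197078680040) (nat_lit 0) (nat_lit 200445203757) (nat_lit 1) (nat_lit 5) (nat_lit 3) (nat_lit 4) (nat_lit 1) (nat_lit 4) (nat_lit 523) (nat_lit 410) (nat_lit 267)) (XT.nd (nat_lit 78) (nat_lit 0) (nat_lit 0) (XT.lf (nat_lit 0) (nat_lit 304595246081) (nat_lit 152) (nat_lit 7623793169424) (nat_lit 0) (nat_lit 288749487080) (nat_lit 1) (nat_lit 5) (nat_lit 3) (nat_lit 4) (nat_lit 1) (nat_lit 4) (nat_lit 524) (nat_lit 410) (nat_lit 266)) (XT.lf (nat_lit 0) (nat_lit 399963721871) (nat_lit 152) (nat_lit 8084645171168) (nat_lit 0) (nat_lit 384117944816) (nat_lit 1) (nat_lit 5) (nat_lit 3) (nat_lit 4) (nat_lit 1) (nat_lit 4) (nat_lit 525) (nat_lit 410) (nat_lit 265)))))) (XT.nd (nat_lit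 53664) (nat_lit 0) (nat_lit 5624) (XT.nd (nat_lit 234) (nat_lit 0) (nat_lit 0) (XT.nd (nat_lit 78) (nat_lit 0) (nat_lit 0) (XT.lf (nat_lit 0) (nat_lit 502961517154) (nat_lit 152) (nat_lit 8582365660097) (nat_lit 0) (nat_lit 487115723383) (nat_lit 1) (nat_lit 5) (nat_lit 3) (nat_lit 4) (nat_lit 1) (nat_lit 4) (nat_lit 526) (nat_lit 410) (nat_lit 264)) (XT.nd (nat_lit 78) (nat_lit 0) (nat_lit 0) (XT.lf (nat_lit 0) (nat_lit 614198989235) (nat_lit 152) (nat_lit 9119904090960) (nat_lit 0) (nat_lit 598353179986) (nat_lit 1) (nat_lit 5) (nat_lit 3) (nat_lit 4) (nat_lit 1) (nat_lit 4) (nat_lit 527) (nat_lit 410) (nat_lit 263)) (XT.lf (nat_lit 0) (nat_lit 734335323135) (nat_lit 152) (nat_lit 9700445876682) (nat_lit 0) (nat_lit 718489499554) (nat_lit 1) (nat_lit 5) (nat_lit 3) (nat_lit 4) (nat_lit 1) (nat_lit 4) (nat_lit 528) (nat_lit 410) (nat_lit 262)))) (XT.nd (nat_lit 53274) (nat_lit 0) (nat_lit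 5852) (XT.lf (nat_lit 0) (nat_lit 864082437869) (nat_lit 152) (nat_lit 10327431264880) (nat_lit 0) (nat_lit 848236601018) (nat_lit 1) (nat_lit 5) (nat_lit 3) (nat_lit 4) (nat_lit 1) (nat_lit 4) (nat_lit 529) (nat_lit 410) (nat_lit 261)) (XT.nd (nat_lit 78) (nat_lit 0) (nat_lit 0) (XT.lf (nat_lit 0) (nat_lit 1497602220) (nat_lit 532) (nat_lit 1740072158) (nat_lit 532) (nat_lit 1740072158) (nat_lit 78) (nat_lit 3) (nat_lit 85) (nat_lit 3) (nat_lit 85) (nat_lit 5) (nat_lit 411) (nat_lit 411) (nat_lit 378)) (XT.lf (nat_lit 76) (nat_lit 1515526672) (nat_lit 0) (nat_lit 2322639308) (nat_lit 532) (nat_lit 6457418542) (nat_lit 79) (nat_lit 5) (nat_lit 78) (nat_lit 3) (nat_lit 85) (nat_lit 5) (nat_lit 412) (nat_lit 411) (nat_lit 377))))) (XT.nd (nat_lit 234) (nat_lit 304) (nat_lit 0) (XT.nd (nat_lit 78) (nat_lit 0) (nat_lit 0) (XT.lf (nat_lit 0) (nat_lit 4829284544) (nat_lit 456) (nat_lit 3646377800)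 (nat_lit 532) (nat_lit 2180790947) (nat_lit 79) (nat_lit 5) (nat_lit 85) (nat_lit 5) (nat_lit 86) (nat_lit 5) (nat_lit 413) (nat_lit 411) (nat_lit 376)) (XT.nd (nat_lit 78) (nat_lit 0) (nat_lit 76) (XT.lf (nat_lit 76) (nat_lit 1890183702) (nat_lit 0) (nat_lit 4051492649) (nat_lit 532) (nat_lit 5101182079) (nat_lit 80) (nat_lit 5) (nat_lit 79) (nat_lit 5) (nat_lit 86) (nat_lit 5) (nat_lit 414) (nat_lit 411) (nat_lit 375)) (XT.lf (nat_lit 0) (nat_lit 7203218805) (nat_lit 456) (nat_lit 3441484587) (nat_lit 532) (nat_lit 810683519) (nat_lit 80) (nat_lit 5) (nat_lit 86) (nat_lit 5) (nat_lit 87) (nat_lit 5) (nat_lit 415) (nat_lit 411) (nat_lit 374)))) (XT.nd (nat_lit 78) (nat_lit 380) (nat_lit 0) (XT.lf (nat_lit 76) (nat_lit 2714312179) (nat_lit 0) (nat_lit 5966696711) (nat_lit 532) (nat_lit 3210704762) (nat_lit 81) (nat_lit 5) (nat_lit 80) (nat_lit 5) (nat_lit 87) (nat_lit 5) (nat_lit 416) (nat_lit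 411) (nat_lit 373)) (XT.nd (nat_lit 78) (nat_lit 380) (nat_lit 0) (XT.lf (nat_lit 76) (nat_lit 9516541521) (nat_lit 0) (nat_lit 802472257) (nat_lit 532) (nat_lit 2040593724) (nat_lit 81) (nat_lit 5) (nat_lit 80) (nat_lit 5) (nat_lit 87) (nat_lit 5) (nat_lit 417) (nat_lit 411) (nat_lit 372)) (XT.lf (nat_lit 0) (nat_lit 4042641741) (nat_lit 456) (nat_lit 8209464638) (nat_lit 532) (nat_lit 599721489) (nat_lit 75) (nat_lit 5) (nat_lit 81) (nat_lit 5) (nat_lit 82) (nat_lit 5) (nat_lit 418) (nat_lit 411) (nat_lit 371))))))))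
noncomputable def xc122 : XT := (XT.nd (nat_lit 1794) (nat_lit 1596) (nat_lit 0) (XT.nd (nat_lit 858) (nat_lit 1140) (nat_lit 0) (XT.nd (nat_lit 390) (nat_lit 608) (nat_lit 0) (XT.nd (nat_lit 156) (nat_lit 456) (nat_lit 0) (XT.nd (nat_lit 78) (nat_lit 456) (nat_lit 0) (XT.lf (nat_lit 0) (nat_lit 962515724) (nat_lit 532) (nat_lit 1826335789) (nat_lit 76) (nat_lit 10588435168) (nat_lit 74) (nat_lit 5) (nat_lit 81) (nat_lit 5) (nat_lit 75) (nat_lit 5) (nat_lit 419) (nat_lit 411) (nat_lit 370)) (XT.lf (nat_lit 0) (nat_lit 2795291887) (nat_lit 532) (nat_lit 8056796574) (nat_lit 76) (nat_lit 3077225643) (nat_lit 68) (nat_lit 5) (nat_lit 75) (nat_lit 5) (nat_lit 69) (nat_lit 5) (nat_lit 420) (nat_lit 411) (nat_lit 369))) (XT.nd (nat_lit 78) (nat_lit 456) (nat_lit 0) (XT.lf (nat_lit 0) (nat_lit 4857426833) (nat_lit 532) (nat_lit 347268346) (nat_lit 76) (nat_lit 9314203421) (nat_lit 68) (nat_lit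 5) (nat_lit 75) (nat_lit 5) (nat_lit 69) (nat_lit 5) (nat_lit 421) (nat_lit 411) (nat_lit 368)) (XT.nd (nat_lit 78) (nat_lit 228) (nat_lit 0) (XT.lf (nat_lit 0) (nat_lit 7274303194) (nat_lit 304) (nat_lit 6812191822) (nat_lit 76) (nat_lit 1053985979) (nat_lit 65) (nat_lit 5) (nat_lit 69) (nat_lit 5) (nat_lit 66) (nat_lit 5) (nat_lit 422) (nat_lit 411) (nat_lit 367)) (XT.lf (nat_lit 0) (nat_lit 1820460269) (nat_lit 228) (nat_lit 8216678836) (nat_lit 304) (nat_lit 5762453966) (nat_lit 62) (nat_lit 5) (nat_lit 65) (nat_lit 5) (nat_lit 66) (nat_lit 5) (nat_lit 423) (nat_lit 411) (nat_lit 366))))) (XT.nd (nat_lit 234) (nat_lit 380) (nat_lit 0) (XT.nd (nat_lit 78) (nat_lit 228) (nat_lit 0) (XT.lf (nat_lit 0) (nat_lit 11490414338) (nat_lit 228) (nat_lit 1682438538) (nat_lit 304) (nat_lit 3326444122) (nat_lit 62) (nat_lit 5) (nat_lit 65) (nat_lit 5) (nat_lit 66) (nat_lit 5) (nat_lit 424) (nat_lit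 411) (nat_lit 365)) (XT.nd (nat_lit 78) (nat_lit 76) (nat_lit 0) (XT.lf (nat_lit 0) (nat_lit 4747070415) (nat_lit 152) (nat_lit 12023779828) (nat_lit 228) (nat_lit 467223031) (nat_lit 60) (nat_lit 5) (nat_lit 62) (nat_lit 5) (nat_lit 63) (nat_lit 5) (nat_lit 425) (nat_lit 411) (nat_lit 364)) (XT.lf (nat_lit 0) (nat_lit 2642472754) (nat_lit 228) (nat_lit 2607693571) (nat_lit 76) (nat_lit 12768524787) (nat_lit 59) (nat_lit 5) (nat_lit 62) (nat_lit 5) (nat_lit 60) (nat_lit 5) (nat_lit 426) (nat_lit 411) (nat_lit 363)))) (XT.nd (nat_lit 78) (nat_lit 152) (nat_lit 0) (XT.lf (nat_lit 0) (nat_lit 6204649346) (nat_lit 304) (nat_lit 10463410059) (nat_lit 76) (nat_lit 2174420392) (nat_lit 56) (nat_lit 5) (nat_lit 60) (nat_lit 5) (nat_lit 57) (nat_lit 5) (nat_lit 427) (nat_lit 411) (nat_lit 362)) (XT.nd (nat_lit 78) (nat_lit 0) (nat_lit 0) (XT.lf (nat_lit 0) (nat_lit 515359771) (nat_lit 152) (nat_lit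 9730355548) (nat_lit 228) (nat_lit 9470950500) (nat_lit 54) (nat_lit 5) (nat_lit 56) (nat_lit 5) (nat_lit 57) (nat_lit 5) (nat_lit 428) (nat_lit 411) (nat_lit 361)) (XT.lf (nat_lit 0) (nat_lit 12929668067) (nat_lit 152) (nat_lit 1939652873) (nat_lit 228) (nat_lit 5770732345) (nat_lit 54) (nat_lit 5) (nat_lit 56) (nat_lit 5) (nat_lit 57) (nat_lit 5) (nat_lit 429) (nat_lit 411) (nat_lit 360)))))) (XT.nd (nat_lit 468) (nat_lit 456) (nat_lit 0) (XT.nd (nat_lit 234) (nat_lit 304) (nat_lit 0) (XT.nd (nat_lit 78) (nat_lit 228) (nat_lit 0) (XT.lf (nat_lit 0) (nat_lit 4744676123) (nat_lit 152) (nat_lit 15362864771) (nat_lit 228) (nat_lit 1510199182) (nat_lit 52) (nat_lit 5) (nat_lit 54) (nat_lit 5) (nat_lit 55) (nat_lit 5) (nat_lit 430) (nat_lit 411) (nat_lit 359)) (XT.nd (nat_lit 78) (nat_lit 152) (nat_lit 0) (XT.lf (nat_lit 0) (nat_lit 3178489580) (nat_lit 228) (nat_lit 4189487319) (nat_lit 76)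 (nat_lit 15280367276) (nat_lit 51) (nat_lit 5) (nat_lit 54) (nat_lit 5) (nat_lit 52) (nat_lit 5) (nat_lit 431) (nat_lit 411) (nat_lit 358)) (XT.lf (nat_lit 0) (nat_lit 8414059644) (nat_lit 228) (nat_lit 13846402510) (nat_lit 76) (nat_lit 1477531359) (nat_lit 49) (nat_lit 5) (nat_lit 52) (nat_lit 5) (nat_lit 50) (nat_lit 5) (nat_lit 432) (nat_lit 411) (nat_lit 357)))) (XT.nd (nat_lit 78) (nat_lit 152) (nat_lit 0) (XT.lf (nat_lit 0) (nat_lit 213055493) (nat_lit 152) (nat_lit 14147161258) (nat_lit 228) (nat_lit 10531263432) (nat_lit 47) (nat_lit 5) (nat_lit 49) (nat_lit 5) (nat_lit 50) (nat_lit 5) (nat_lit 433) (nat_lit 411) (nat_lit 356)) (XT.nd (nat_lit 78) (nat_lit 152) (nat_lit 0) (XT.lf (nat_lit 0) (nat_lit 16150598188) (nat_lit 152) (nat_lit 4988601270) (nat_lit 228) (nat_lit 4969480043) (nat_lit 47) (nat_lit 5) (nat_lit 49) (nat_lit 5) (nat_lit 50) (nat_lit 5) (nat_lit 434) (nat_lit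 411) (nat_lit 355)) (XT.lf (nat_lit 0) (nat_lit 1236022967) (nat_lit 152) (nat_lit 21341093632) (nat_lit 76) (nat_lit 4824093099) (nat_lit 45) (nat_lit 5) (nat_lit 47) (nat_lit 5) (nat_lit 46) (nat_lit 5) (nat_lit 435) (nat_lit 411) (nat_lit 354))))) (XT.nd (nat_lit 234) (nat_lit 228) (nat_lit 0) (XT.nd (nat_lit 78) (nat_lit 228) (nat_lit 0) (XT.lf (nat_lit 0) (nat_lit 8058470133) (nat_lit 152) (nat_lit 5148121587) (nat_lit 76) (nat_lit 15549109062) (nat_lit 45) (nat_lit 5) (nat_lit 47) (nat_lit 5) (nat_lit 46) (nat_lit 5) (nat_lit 436) (nat_lit 411) (nat_lit 353)) (XT.nd (nat_lit 78) (nat_lit 76) (nat_lit 0) (XT.lf (nat_lit 0) (nat_lit 12957813010) (nat_lit 152) (nat_lit 2762079550) (nat_lit 228) (nat_lit 14475207435) (nat_lit 43) (nat_lit 5) (nat_lit 45) (nat_lit 5) (nat_lit 46) (nat_lit 5) (nat_lit 437) (nat_lit 411) (nat_lit 352)) (XT.lf (nat_lit 0) (nat_lit 870609935) (nat_lit 76)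 (nat_lit 23475730784) (nat_lit 152) (nat_lit 7375144435) (nat_lit 42) (nat_lit 5) (nat_lit 43) (nat_lit 5) (nat_lit 44) (nat_lit 4) (nat_lit 438) (nat_lit 411) (nat_lit 351)))) (XT.nd (nat_lit 78) (nat_lit 152) (nat_lit 0) (XT.lf (nat_lit 0) (nat_lit 815609465) (nat_lit 152) (nat_lit 12047066798) (nat_lit 76) (nat_lit 20463756690) (nat_lit 41) (nat_lit 5) (nat_lit 43) (nat_lit 5) (nat_lit 42) (nat_lit 5) (nat_lit 439) (nat_lit 411) (nat_lit 350)) (XT.nd (nat_lit 78) (nat_lit 0) (nat_lit 0) (XT.lf (nat_lit 0) (nat_lit 8463999436) (nat_lit 152) (nat_lit 986120642) (nat_lit 228) (nat_lit 25579378215) (nat_lit 39) (nat_lit 5) (nat_lit 41) (nat_lit 5) (nat_lit 42) (nat_lit 5) (nat_lit 440) (nat_lit 411) (nat_lit 349)) (XT.lf (nat_lit 0) (nat_lit 19381749885) (nat_lit 228) (nat_lit 5863853667) (nat_lit 76) (nat_lit 11574698819) (nat_lit 39) (nat_lit 5) (nat_lit 42) (nat_lit 5) (nat_lit 40) (nat_lit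 4) (nat_lit 441) (nat_lit 411) (nat_lit 348))))))) (XT.nd (nat_lit 936) (nat_lit 760) (nat_lit 0) (XT.nd (nat_lit 468) (nat_lit 304) (nat_lit 0) (XT.nd (nat_lit 234) (nat_lit 228) (nat_lit 0) (XT.nd (nat_lit 78) (nat_lit 228) (nat_lit 0) (XT.lf (nat_lit 0) (nat_lit 17307086746) (nat_lit 76) (nat_lit 13227532809) (nat_lit 152) (nat_lit 8185616480) (nat_lit 38) (nat_lit 5) (nat_lit 39) (nat_lit 5) (nat_lit 40) (nat_lit 4) (nat_lit 442) (nat_lit 411) (nat_lit 347)) (XT.nd (nat_lit 78) (nat_lit 0) (nat_lit 0) (XT.lf (nat_lit 0) (nat_lit 1913300043) (nat_lit 228) (nat_lit 38825843611) (nat_lit 76) (nat_lit 13851382) (nat_lit 35) (nat_lit 5) (nat_lit 38) (nat_lit 5) (nat_lit 36) (nat_lit 4) (nat_lit 443) (nat_lit 411) (nat_lit 346)) (XT.lf (nat_lit 0) (nat_lit 13307306288) (nat_lit 228) (nat_lit 15147766715) (nat_lit 76) (nat_lit 14401941298) (nat_lit 35) (nat_lit 5) (nat_lit 38) (nat_lit 5)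 (nat_lit 36) (nat_lit 4) (nat_lit 444) (nat_lit 411) (nat_lit 345)))) (XT.nd (nat_lit 78) (nat_lit 152) (nat_lit 0) (XT.lf (nat_lit 0) (nat_lit 10946888077) (nat_lit 76) (nat_lit 14915476647) (nat_lit 152) (nat_lit 19247029330) (nat_lit 34) (nat_lit 5) (nat_lit 35) (nat_lit 5) (nat_lit 36) (nat_lit 4) (nat_lit 445) (nat_lit 411) (nat_lit 344)) (XT.nd (nat_lit 78) (nat_lit 152) (nat_lit 0) (XT.lf (nat_lit 0) (nat_lit 39826124346) (nat_lit 152) (nat_lit 7547396936) (nat_lit 0) (nat_lit 136100557) (nat_lit 34) (nat_lit 5) (nat_lit 36) (nat_lit 4) (nat_lit 34) (nat_lit 4) (nat_lit 446) (nat_lit 411) (nat_lit 343)) (XT.lf (nat_lit 0) (nat_lit 5489208644) (nat_lit 152) (nat_lit 28288240679) (nat_lit 76) (nat_lit 16241217595) (nat_lit 32) (nat_lit 5) (nat_lit 34) (nat_lit 5) (nat_lit 33) (nat_lit 4) (nat_lit 447) (nat_lit 411) (nat_lit 342))))) (XT.nd (nat_lit 234) (nat_lit 152) (nat_lit 0) (XT.nd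 (nat_lit 78) (nat_lit 76) (nat_lit 0) (XT.lf (nat_lit 0) (nat_lit 883425827) (nat_lit 76) (nat_lit 18637642992) (nat_lit 152) (nat_lit 33173766486) (nat_lit 31) (nat_lit 5) (nat_lit 32) (nat_lit 5) (nat_lit 33) (nat_lit 4) (nat_lit 448) (nat_lit 411) (nat_lit 341)) (XT.nd (nat_lit 78) (nat_lit 76) (nat_lit 0) (XT.lf (nat_lit 0) (nat_lit 33974589789) (nat_lit 76) (nat_lit 1462192943) (nat_lit 152) (nat_lit 20087411044) (nat_lit 31) (nat_lit 5) (nat_lit 32) (nat_lit 5) (nat_lit 33) (nat_lit 4) (nat_lit 449) (nat_lit 411) (nat_lit 340)) (XT.lf (nat_lit 0) (nat_lit 11263684116) (nat_lit 76) (nat_lit 42032423301) (nat_lit 76) (nat_lit 5230166152) (nat_lit 30) (nat_lit 4) (nat_lit 31) (nat_lit 5) (nat_lit 31) (nat_lit 4) (nat_lit 450) (nat_lit 411) (nat_lit 339)))) (XT.nd (nat_lit 78) (nat_lit 76) (nat_lit 0) (XT.lf (nat_lit 0) (nat_lit 10905660226) (nat_lit 152) (nat_lit 14129217267) (nat_lit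 76) (nat_lit 36662350111) (nat_lit 29) (nat_lit 5) (nat_lit 31) (nat_lit 5) (nat_lit 30) (nat_lit 4) (nat_lit 451) (nat_lit 411) (nat_lit 338)) (XT.nd (nat_lit 78) (nat_lit 0) (nat_lit 0) (XT.lf (nat_lit 0) (nat_lit 22630670377) (nat_lit 76) (nat_lit 5952790795) (nat_lit 152) (nat_lit 36484835791) (nat_lit 28) (nat_lit 5) (nat_lit 29) (nat_lit 5) (nat_lit 30) (nat_lit 4) (nat_lit 452) (nat_lit 411) (nat_lit 337)) (XT.lf (nat_lit 0) (nat_lit 48413793825) (nat_lit 152) (nat_lit 5926225308) (nat_lit 0) (nat_lit 14309968814) (nat_lit 28) (nat_lit 5) (nat_lit 30) (nat_lit 4) (nat_lit 28) (nat_lit 4) (nat_lit 453) (nat_lit 411) (nat_lit 336)))))) (XT.nd (nat_lit 468) (nat_lit 304) (nat_lit 0) (XT.nd (nat_lit 234) (nat_lit 228) (nat_lit 0) (XT.nd (nat_lit 78) (nat_lit 152) (nat_lit 0) (XT.lf (nat_lit 0) (nat_lit 35087756522) (nat_lit 76) (nat_lit 35731536741) (nat_lit 76) (nat_lit 1619822368)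 (nat_lit 27) (nat_lit 4) (nat_lit 28) (nat_lit 5) (nat_lit 28) (nat_lit 4) (nat_lit 454) (nat_lit 411) (nat_lit 335)) (XT.nd (nat_lit 78) (nat_lit 0) (nat_lit 0) (XT.lf (nat_lit 0) (nat_lit 2877656308) (nat_lit 76) (nat_lit 14909206982) (nat_lit 152) (nat_lit 58690884621) (nat_lit 25) (nat_lit 5) (nat_lit 26) (nat_lit 5) (nat_lit 27) (nat_lit 4) (nat_lit 455) (nat_lit 411) (nat_lit 334)) (XT.lf (nat_lit 0) (nat_lit 39878970798) (nat_lit 152) (nat_lit 32578479261) (nat_lit 0) (nat_lit 8281023397) (nat_lit 25) (nat_lit 5) (nat_lit 27) (nat_lit 4) (nat_lit 25) (nat_lit 4) (nat_lit 456) (nat_lit 411) (nat_lit 333)))) (XT.nd (nat_lit 78) (nat_lit 152) (nat_lit 0) (XT.lf (nat_lit 0) (nat_lit 11916076032) (nat_lit 76) (nat_lit 52487268012) (nat_lit 76) (nat_lit 20883521695) (nat_lit 24) (nat_lit 4) (nat_lit 25) (nat_lit 5) (nat_lit 25) (nat_lit 4) (nat_lit 457) (nat_lit 411) (nat_lit 332)) (XT.nd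 (nat_lit 78) (nat_lit 76) (nat_lit 0) (XT.lf (nat_lit 0) (nat_lit 1560969936) (nat_lit 152) (nat_lit 28362298215) (nat_lit 76) (nat_lit 60202135004) (nat_lit 23) (nat_lit 5) (nat_lit 25) (nat_lit 5) (nat_lit 24) (nat_lit 4) (nat_lit 458) (nat_lit 411) (nat_lit 331)) (XT.lf (nat_lit 0) (nat_lit 20724843408) (nat_lit 76) (nat_lit 4438104057) (nat_lit 152) (nat_lit 70105467808) (nat_lit 22) (nat_lit 5) (nat_lit 23) (nat_lit 5) (nat_lit 24) (nat_lit 4) (nat_lit 459) (nat_lit 411) (nat_lit 330))))) (XT.nd (nat_lit 234) (nat_lit 152) (nat_lit 0) (XT.nd (nat_lit 78) (nat_lit 152) (nat_lit 0) (XT.lf (nat_lit 0) (nat_lit 51995701220) (nat_lit 152) (nat_lit 26000622270) (nat_lit 0) (nat_lit 22719135770) (nat_lit 22) (nat_lit 5) (nat_lit 24) (nat_lit 4) (nat_lit 22) (nat_lit 4) (nat_lit 460) (nat_lit 411) (nat_lit 329)) (XT.nd (nat_lit 78) (nat_lit 76) (nat_lit 0) (XT.lf (nat_lit 0) (nat_lit 27679986875)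 (nat_lit 76) (nat_lit 54068461239) (nat_lit 76) (nat_lit 24787949144) (nat_lit 21) (nat_lit 4) (nat_lit 22) (nat_lit 5) (nat_lit 22) (nat_lit 4) (nat_lit 461) (nat_lit 411) (nat_lit 328)) (XT.lf (nat_lit 0) (nat_lit 1727235456) (nat_lit 152) (nat_lit 25691516647) (nat_lit 76) (nat_lit 85344479959) (nat_lit 20) (nat_lit 5) (nat_lit 22) (nat_lit 5) (nat_lit 21) (nat_lit 4) (nat_lit 462) (nat_lit 411) (nat_lit 327)))) (XT.nd (nat_lit 78) (nat_lit 76) (nat_lit 0) (XT.lf (nat_lit 0) (nat_lit 29873723764) (nat_lit 152) (nat_lit 86739418244) (nat_lit 0) (nat_lit 2755621905) (nat_lit 19) (nat_lit 5) (nat_lit 21) (nat_lit 4) (nat_lit 19) (nat_lit 4) (nat_lit 463) (nat_lit 411) (nat_lit 326)) (XT.nd (nat_lit 78) (nat_lit 76) (nat_lit 0) (XT.lf (nat_lit 0) (nat_lit 61697800579) (nat_lit 152) (nat_lit 30114070594) (nat_lit 0) (nat_lit 34576797818) (nat_lit 19) (nat_lit 5) (nat_lit 21) (nat_lit 4) (nat_lit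 19) (nat_lit 4) (nat_lit 464) (nat_lit 411) (nat_lit 325)) (XT.lf (nat_lit 0) (nat_lit 32662157703) (nat_lit 76) (nat_lit 64184687229) (nat_lit 76) (nat_lit 37060998448) (nat_lit 18) (nat_lit 4) (nat_lit 19) (nat_lit 5) (nat_lit 19) (nat_lit 4) (nat_lit 465) (nat_lit 411) (nat_lit 324))))))))
noncomputable def xc123 : XT := (XT.nd (nat_lit 1794) (nat_lit 228) (nat_lit 0) (XT.nd (nat_lit 858) (nat_lit 456) (nat_lit 0) (XT.nd (nat_lit 390) (nat_lit 228) (nat_lit 0) (XT.nd (nat_lit 156) (nat_lit 76) (nat_lit 0) (XT.nd (nat_lit 78) (nat_lit 152) (nat_lit 0) (XT.lf (nat_lit 0) (nat_lit 102160387708) (nat_lit 76) (nat_lit 33464487529) (nat_lit 76) (nat_lit 6338311692) (nat_lit 18) (nat_lit 4) (nat_lit 19) (nat_lit 5) (nat_lit 19) (nat_lit 4) (nat_lit 466) (nat_lit 411) (nat_lit 323)) (XT.lf (nat_lit 0) (nat_lit 26175839640) (nat_lit 152) (nat_lit 123324483782) (nat_lit 0) (nat_lit 1056877911)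 (nat_lit 16) (nat_lit 5) (nat_lit 18) (nat_lit 4) (nat_lit 16) (nat_lit 4) (nat_lit 467) (nat_lit 411) (nat_lit 322))) (XT.nd (nat_lit 78) (nat_lit 76) (nat_lit 0) (XT.lf (nat_lit 0) (nat_lit 62928466693) (nat_lit 152) (nat_lit 58931187011) (nat_lit 0) (nat_lit 37807530660) (nat_lit 16) (nat_lit 5) (nat_lit 18) (nat_lit 4) (nat_lit 16) (nat_lit 4) (nat_lit 468) (nat_lit 411) (nat_lit 321)) (XT.nd (nat_lit 78) (nat_lit 0) (nat_lit 0) (XT.lf (nat_lit 0) (nat_lit 11160669224) (nat_lit 76) (nat_lit 91723515303) (nat_lit 76) (nat_lit 66600751209) (nat_lit 15) (nat_lit 4) (nat_lit 16) (nat_lit 5) (nat_lit 16) (nat_lit 4) (nat_lit 469) (nat_lit 411) (nat_lit 320)) (XT.lf (nat_lit 0) (nat_lit 90200420330) (nat_lit 76) (nat_lit 57441836020) (nat_lit 76) (nat_lit 32317379278) (nat_lit 15) (nat_lit 4) (nat_lit 16) (nat_lit 5) (nat_lit 16) (nat_lit 4) (nat_lit 470) (nat_lit 411) (nat_lit 319))))) (XT.nd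 (nat_lit 234) (nat_lit 76) (nat_lit 0) (XT.nd (nat_lit 78) (nat_lit 76) (nat_lit 0) (XT.lf (nat_lit 0) (nat_lit 4467998853) (nat_lit 152) (nat_lit 15832586393) (nat_lit 76) (nat_lit 170963076283) (nat_lit 14) (nat_lit 5) (nat_lit 16) (nat_lit 5) (nat_lit 15) (nat_lit 4) (nat_lit 471) (nat_lit 411) (nat_lit 318)) (XT.nd (nat_lit 78) (nat_lit 0) (nat_lit 0) (XT.lf (nat_lit 0) (nat_lit 44584152425) (nat_lit 152) (nat_lit 137332018642) (nat_lit 0) (nat_lit 21317971701) (nat_lit 13) (nat_lit 5) (nat_lit 15) (nat_lit 4) (nat_lit 13) (nat_lit 4) (nat_lit 472) (nat_lit 411) (nat_lit 317)) (XT.lf (nat_lit 0) (nat_lit 88876294149) (nat_lit 152) (nat_lit 61599763510) (nat_lit 0) (nat_lit 65608869278) (nat_lit 13) (nat_lit 5) (nat_lit 15) (nat_lit 4) (nat_lit 13) (nat_lit 4) (nat_lit 473) (nat_lit 411) (nat_lit 316)))) (XT.nd (nat_lit 78) (nat_lit 0) (nat_lit 0) (XT.lf (nat_lit 0) (nat_lit 21244916640)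 (nat_lit 76) (nat_lit 115973454518) (nat_lit 76) (nat_lit 92704877659) (nat_lit 12) (nat_lit 4) (nat_lit 13) (nat_lit 5) (nat_lit 13) (nat_lit 4) (nat_lit 474) (nat_lit 411) (nat_lit 315)) (XT.nd (nat_lit 78) (nat_lit 0) (nat_lit 0) (XT.lf (nat_lit 0) (nat_lit 114211717796) (nat_lit 76) (nat_lit 76896081718) (nat_lit 76) (nat_lit 53626438203) (nat_lit 12) (nat_lit 4) (nat_lit 13) (nat_lit 5) (nat_lit 13) (nat_lit 4) (nat_lit 475) (nat_lit 411) (nat_lit 314)) (XT.lf (nat_lit 0) (nat_lit 214607819953) (nat_lit 76) (nat_lit 34696616342) (nat_lit 76) (nat_lit 11425985183) (nat_lit 12) (nat_lit 4) (nat_lit 13) (nat_lit 5) (nat_lit 13) (nat_lit 4) (nat_lit 476) (nat_lit 411) (nat_lit 313)))))) (XT.nd (nat_lit 468) (nat_lit 228) (nat_lit 0) (XT.nd (nat_lit 234) (nat_lit 76) (nat_lit 0) (XT.nd (nat_lit 78) (nat_lit 0) (nat_lit 0) (XT.lf (nat_lit 0) (nat_lit 33869344785) (nat_lit 152) (nat_lit 231635457271)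 (nat_lit 0) (nat_lit 12321617337) (nat_lit 10) (nat_lit 5) (nat_lit 12) (nat_lit 4) (nat_lit 10) (nat_lit 4) (nat_lit 477) (nat_lit 411) (nat_lit 312)) (XT.nd (nat_lit 78) (nat_lit 0) (nat_lit 0) (XT.lf (nat_lit 0) (nat_lit 84362299329) (nat_lit 152) (nat_lit 148914963858) (nat_lit 0) (nat_lit 62813787857) (nat_lit 10) (nat_lit 5) (nat_lit 12) (nat_lit 4) (nat_lit 10) (nat_lit 4) (nat_lit 478) (nat_lit 411) (nat_lit 311)) (XT.lf (nat_lit 0) (nat_lit 138891225905) (nat_lit 152) (nat_lit 59583916044) (nat_lit 0) (nat_lit 117341988485) (nat_lit 10) (nat_lit 5) (nat_lit 12) (nat_lit 4) (nat_lit 10) (nat_lit 4) (nat_lit 479) (nat_lit 411) (nat_lit 310)))) (XT.nd (nat_lit 78) (nat_lit 0) (nat_lit 0) (XT.lf (nat_lit 0) (nat_lit 38829462307) (nat_lit 76) (nat_lit 159883646086) (nat_lit 76) (nat_lit 138333736492) (nat_lit 9) (nat_lit 4) (nat_lit 10) (nat_lit 5) (nat_lit 10) (nat_lit 4) (nat_lit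 480) (nat_lit 411) (nat_lit 309)) (XT.nd (nat_lit 78) (nat_lit 0) (nat_lit 0) (XT.lf (nat_lit 0) (nat_lit 148498106858) (nat_lit 76) (nat_lit 116448640592) (nat_lit 76) (nat_lit 94898108616) (nat_lit 9) (nat_lit 4) (nat_lit 10) (nat_lit 5) (nat_lit 10) (nat_lit 4) (nat_lit 481) (nat_lit 411) (nat_lit 308)) (XT.lf (nat_lit 0) (nat_lit 266934322445) (nat_lit 76) (nat_lit 69541862699) (nat_lit 76) (nat_lit 47990754442) (nat_lit 9) (nat_lit 4) (nat_lit 10) (nat_lit 5) (nat_lit 10) (nat_lit 4) (nat_lit 482) (nat_lit 411) (nat_lit 307))))) (XT.nd (nat_lit 234) (nat_lit 76) (nat_lit 0) (XT.nd (nat_lit 78) (nat_lit 76) (nat_lit 0) (XT.lf (nat_lit 0) (nat_lit 2532916633) (nat_lit 152) (nat_lit 16283175252) (nat_lit 76) (nat_lit 392237782246) (nat_lit 8) (nat_lit 5) (nat_lit 10) (nat_lit 5) (nat_lit 9) (nat_lit 4) (nat_lit 483) (nat_lit 411) (nat_lit 306)) (XT.nd (nat_lit 78) (nat_lit 0) (nat_lit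 0) (XT.lf (nat_lit 0) (nat_lit 57785319914) (nat_lit 152) (nat_lit 343790717146) (nat_lit 0) (nat_lit 37829638507) (nat_lit 7) (nat_lit 5) (nat_lit 9) (nat_lit 4) (nat_lit 7) (nat_lit 4) (nat_lit 484) (nat_lit 411) (nat_lit 305)) (XT.lf (nat_lit 0) (nat_lit 118400879419) (nat_lit 152) (nat_lit 253104530187) (nat_lit 0) (nat_lit 98444774429) (nat_lit 7) (nat_lit 5) (nat_lit 9) (nat_lit 4) (nat_lit 7) (nat_lit 4) (nat_lit 485) (nat_lit 411) (nat_lit 304)))) (XT.nd (nat_lit 78) (nat_lit 76) (nat_lit 0) (XT.lf (nat_lit 0) (nat_lit 183863331385) (nat_lit 152) (nat_lit 155168275823) (nat_lit 0) (nat_lit 163906834188) (nat_lit 7) (nat_lit 5) (nat_lit 9) (nat_lit 4) (nat_lit 7) (nat_lit 4) (nat_lit 486) (nat_lit 411) (nat_lit 303)) (XT.nd (nat_lit 78) (nat_lit 76) (nat_lit 0) (XT.lf (nat_lit 0) (nat_lit 254560601454) (nat_lit 152) (nat_lit 49401591064) (nat_lit 0) (nat_lit 234603741102) (nat_lit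 7) (nat_lit 5) (nat_lit 9) (nat_lit 4) (nat_lit 7) (nat_lit 4) (nat_lit 487) (nat_lit 411) (nat_lit 302)) (XT.lf (nat_lit 0) (nat_lit 68235716525) (nat_lit 76) (nat_lit 264316990509) (nat_lit 76) (nat_lit 244359793903) (nat_lit 6) (nat_lit 4) (nat_lit 7) (nat_lit 5) (nat_lit 7) (nat_lit 4) (nat_lit 488) (nat_lit 411) (nat_lit 301))))))) (XT.nd (nat_lit 936) (nat_lit 76) (nat_lit 0) (XT.nd (nat_lit 468) (nat_lit 0) (nat_lit 0) (XT.nd (nat_lit 234) (nat_lit 152) (nat_lit 0) (XT.nd (nat_lit 78) (nat_lit 0) (nat_lit 0) (XT.lf (nat_lit 0) (nat_lit 198089486913) (nat_lit 76) (nat_lit 220043456843) (nat_lit 76) (nat_lit 200085948891) (nat_lit 6) (nat_lit 4) (nat_lit 7) (nat_lit 5) (nat_lit 7) (nat_lit 4) (nat_lit 489) (nat_lit 411) (nat_lit 300)) (XT.nd (nat_lit 78) (nat_lit 0) (nat_lit 0) (XT.lf (nat_lit 0) (nat_lit 338327823686) (nat_lit 76) (nat_lit 172229956888) (nat_lit 76) (nat_lit 152272160651)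 (nat_lit 6) (nat_lit 4) (nat_lit 7) (nat_lit 5) (nat_lit 7) (nat_lit 4) (nat_lit 490) (nat_lit 411) (nat_lit 299)) (XT.lf (nat_lit 0) (nat_lit 489781768839) (nat_lit 76) (nat_lit 120593151384) (nat_lit 76) (nat_lit 100635088218) (nat_lit 6) (nat_lit 4) (nat_lit 7) (nat_lit 5) (nat_lit 7) (nat_lit 4) (nat_lit 491) (nat_lit 411) (nat_lit 298)))) (XT.nd (nat_lit 78) (nat_lit 152) (nat_lit 0) (XT.lf (nat_lit 0) (nat_lit 653348827233) (nat_lit 76) (nat_lit 64827044446) (nat_lit 76) (nat_lit 44868734123) (nat_lit 6) (nat_lit 4) (nat_lit 7) (nat_lit 5) (nat_lit 7) (nat_lit 4) (nat_lit 492) (nat_lit 411) (nat_lit 297)) (XT.nd (nat_lit 78) (nat_lit 0) (nat_lit 0) (XT.lf (nat_lit 0) (nat_lit 10933806869) (nat_lit 76) (nat_lit 3918282573) (nat_lit 152) (nat_lit 804339412765) (nat_lit 4) (nat_lit 5) (nat_lit 5) (nat_lit 5) (nat_lit 6) (nat_lit 4) (nat_lit 493) (nat_lit 411) (nat_lit 296)) (XT.lf (nat_lit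 0) (nat_lit 81490013472) (nat_lit 152) (nat_lit 734872133796) (nat_lit 0) (nat_lit 63009688408) (nat_lit 4) (nat_lit 5) (nat_lit 6) (nat_lit 4) (nat_lit 4) (nat_lit 4) (nat_lit 494) (nat_lit 411) (nat_lit 295))))) (XT.nd (nat_lit 234) (nat_lit 0) (nat_lit 0) (XT.nd (nat_lit 78) (nat_lit 0) (nat_lit 0) (XT.lf (nat_lit 0) (nat_lit 153559374985) (nat_lit 152) (nat_lit 655720320312) (nat_lit 0) (nat_lit 135078868253) (nat_lit 4) (nat_lit 5) (nat_lit 6) (nat_lit 4) (nat_lit 4) (nat_lit 4) (nat_lit 495) (nat_lit 411) (nat_lit 294)) (XT.nd (nat_lit 78) (nat_lit 0) (nat_lit 0) (XT.lf (nat_lit 0) (nat_lit 231393016890) (nat_lit 152) (nat_lit 570238972314) (nat_lit 0) (nat_lit 212912341948) (nat_lit 4) (nat_lit 5) (nat_lit 6) (nat_lit 4) (nat_lit 4) (nat_lit 4) (nat_lit 496) (nat_lit 411) (nat_lit 293)) (XT.lf (nat_lit 0) (nat_lit 315452175584) (nat_lit 152) (nat_lit 477921533666) (nat_lit 0) (nat_lit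 296971344890) (nat_lit 4) (nat_lit 5) (nat_lit 6) (nat_lit 4) (nat_lit 4) (nat_lit 4) (nat_lit 497) (nat_lit 411) (nat_lit 292)))) (XT.nd (nat_lit 78) (nat_lit 0) (nat_lit 0) (XT.lf (nat_lit 0) (nat_lit 406234979413) (nat_lit 152) (nat_lit 378220938064) (nat_lit 0) (nat_lit 387754004505) (nat_lit 4) (nat_lit 5) (nat_lit 6) (nat_lit 4) (nat_lit 4) (nat_lit 4) (nat_lit 498) (nat_lit 411) (nat_lit 291)) (XT.nd (nat_lit 78) (nat_lit 0) (nat_lit 0) (XT.lf (nat_lit 0) (nat_lit 504279400549) (nat_lit 152) (nat_lit 270546367164) (nat_lit 0) (nat_lit 485798292110) (nat_lit 4) (nat_lit 5) (nat_lit 6) (nat_lit 4) (nat_lit 4) (nat_lit 4) (nat_lit 499) (nat_lit 411) (nat_lit 290)) (XT.lf (nat_lit 0) (nat_lit 610166442969) (nat_lit 152) (nat_lit 154259749434) (nat_lit 0) (nat_lit 591685210890) (nat_lit 4) (nat_lit 5) (nat_lit 6) (nat_lit 4) (nat_lit 4) (nat_lit 4) (nat_lit 500) (nat_lit 411) (nat_lit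 289)))))) (XT.nd (nat_lit 468) (nat_lit 0) (nat_lit 0) (XT.nd (nat_lit 234) (nat_lit 0) (nat_lit 0) (XT.nd (nat_lit 78) (nat_lit 76) (nat_lit 0) (XT.lf (nat_lit 0) (nat_lit 724523585442) (nat_lit 152) (nat_lit 28671978993) (nat_lit 0) (nat_lit 706042238882) (nat_lit 4) (nat_lit 5) (nat_lit 6) (nat_lit 4) (nat_lit 4) (nat_lit 4) (nat_lit 501) (nat_lit 411) (nat_lit 288)) (XT.nd (nat_lit 78) (nat_lit 0) (nat_lit 0) (XT.lf (nat_lit 0) (nat_lit 112593553539) (nat_lit 76) (nat_lit 738142824056) (nat_lit 76) (nat_lit 719661371495) (nat_lit 3) (nat_lit 4) (nat_lit 4) (nat_lit 5) (nat_lit 4) (nat_lit 4) (nat_lit 502) (nat_lit 411) (nat_lit 287)) (XT.lf (nat_lit 0) (nat_lit 266789326075) (nat_lit 76) (nat_lit 721040031025) (nat_lit 76) (nat_lit 702558480314) (nat_lit 3) (nat_lit 4) (nat_lit 4) (nat_lit 5) (nat_lit 4) (nat_lit 4) (nat_lit 503) (nat_lit 411) (nat_lit 286)))) (XT.nd (nat_lit 78) (nat_lit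 0) (nat_lit 0) (XT.lf (nat_lit 0) (nat_lit 433319275738) (nat_lit 76) (nat_lit 702569778174) (nat_lit 76) (nat_lit 684088136584) (nat_lit 3) (nat_lit 4) (nat_lit 4) (nat_lit 5) (nat_lit 4) (nat_lit 4) (nat_lit 504) (nat_lit 411) (nat_lit 285)) (XT.nd (nat_lit 78) (nat_lit 0) (nat_lit 0) (XT.lf (nat_lit 0) (nat_lit 613170246674) (nat_lit 76) (nat_lit 682622612153) (nat_lit 76) (nat_lit 664140886415) (nat_lit 3) (nat_lit 4) (nat_lit 4) (nat_lit 5) (nat_lit 4) (nat_lit 4) (nat_lit 505) (nat_lit 411) (nat_lit 284)) (XT.lf (nat_lit 0) (nat_lit 807408022414) (nat_lit 76) (nat_lit 661080327533) (nat_lit 76) (nat_lit 642598523882) (nat_lit 3) (nat_lit 4) (nat_lit 4) (nat_lit 5) (nat_lit 4) (nat_lit 4) (nat_lit 506) (nat_lit 411) (nat_lit 283))))) (XT.nd (nat_lit 234) (nat_lit 0) (nat_lit 0) (XT.nd (nat_lit 78) (nat_lit 0) (nat_lit 0) (XT.lf (nat_lit 0) (nat_lit 1017183641629) (nat_lit 76) (nat_lit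 637815266333) (nat_lit 76) (nat_lit 619333390538) (nat_lit 3) (nat_lit 4) (nat_lit 4) (nat_lit 5) (nat_lit 4) (nat_lit 4) (nat_lit 507) (nat_lit 411) (nat_lit 282)) (XT.nd (nat_lit 78) (nat_lit 0) (nat_lit 0) (XT.lf (nat_lit 0) (nat_lit 1243740219100) (nat_lit 76) (nat_lit 612689561522) (nat_lit 76) (nat_lit 594207618928) (nat_lit 3) (nat_lit 4) (nat_lit 4) (nat_lit 5) (nat_lit 4) (nat_lit 4) (nat_lit 508) (nat_lit 411) (nat_lit 281)) (XT.lf (nat_lit 0) (nat_lit 1488420312323) (nat_lit 76) (nat_lit 585554320034) (nat_lit 76) (nat_lit 567072315590) (nat_lit 3) (nat_lit 4) (nat_lit 4) (nat_lit 5) (nat_lit 4) (nat_lit 4) (nat_lit 509) (nat_lit 411) (nat_lit 280)))) (XT.nd (nat_lit 78) (nat_lit 0) (nat_lit 0) (XT.lf (nat_lit 0) (nat_lit 1752673877406) (nat_lit 76) (nat_lit 556248740440) (nat_lit 76) (nat_lit 537766678727) (nat_lit 3) (nat_lit 4) (nat_lit 4) (nat_lit 5) (nat_lit 4) (nat_lit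 4) (nat_lit 510) (nat_lit 411) (nat_lit 279)) (XT.nd (nat_lit 78) (nat_lit 0) (nat_lit 0) (XT.lf (nat_lit 0) (nat_lit 2038066861402) (nat_lit 76) (nat_lit 524599160045) (nat_lit 76) (nat_lit 506117045305) (nat_lit 3) (nat_lit 4) (nat_lit 4) (nat_lit 5) (nat_lit 4) (nat_lit 4) (nat_lit 511) (nat_lit 411) (nat_lit 278)) (XT.lf (nat_lit 0) (nat_lit 2346290481993) (nat_lit 76) (nat_lit 490418025780) (nat_lit 76) (nat_lit 471935861940) (nat_lit 3) (nat_lit 4) (nat_lit 4) (nat_lit 5) (nat_lit 4) (nat_lit 4) (nat_lit 512) (nat_lit 411) (nat_lit 277))))))))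
noncomputable def xc124 : XT := (XT.nd (nat_lit 55068) (nat_lit 0) (nat_lit 3040) (XT.nd (nat_lit 858) (nat_lit 0) (nat_lit 0) (XT.nd (nat_lit 390) (nat_lit 152) (nat_lit 0) (XT.nd (nat_lit 156) (nat_lit 0) (nat_lit 0) (XT.nd (nat_lit 78) (nat_lit 0) (nat_lit 0) (XT.lf (nat_lit 0) (nat_lit 2679171249523) (nat_lit 76) (nat_lit 453502782775) (nat_lit 76) (nat_lit 435020573473) (nat_lit 3) (nat_lit 4) (nat_lit 4) (nat_lit 5) (nat_lit 4) (nat_lit 4) (nat_lit 513) (nat_lit 411) (nat_lit 276)) (XT.lf (nat_lit 0) (nat_lit 3038681790763) (nat_lit 76) (nat_lit 413634674035) (nat_lit 76) (nat_lit 395152422638) (nat_lit 3) (nat_lit 4) (nat_lit 4) (nat_lit 5) (nat_lit 4) (nat_lit 4) (nat_lit 514) (nat_lit 411) (nat_lit 275))) (XT.nd (nat_lit 78) (nat_lit 0) (nat_lit 0) (XT.lf (nat_lit 0) (nat_lit 3426952538550) (nat_lit 76) (nat_lit 370577444100) (nat_lit 76) (nat_lit 352095153727) (nat_lit 3) (nat_lit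 4) (nat_lit 4) (nat_lit 5) (nat_lit 4) (nat_lit 4) (nat_lit 515) (nat_lit 411) (nat_lit 274)) (XT.nd (nat_lit 78) (nat_lit 0) (nat_lit 0) (XT.lf (nat_lit 0) (nat_lit 3846284356575) (nat_lit 76) (nat_lit 324075939016) (nat_lit 76) (nat_lit 305593612554) (nat_lit 3) (nat_lit 4) (nat_lit 4) (nat_lit 5) (nat_lit 4) (nat_lit 4) (nat_lit 516) (nat_lit 411) (nat_lit 273)) (XT.lf (nat_lit 0) (nat_lit 4299162174130) (nat_lit 76) (nat_lit 273854594307) (nat_lit 76) (nat_lit 255372234429) (nat_lit 3) (nat_lit 4) (nat_lit 4) (nat_lit 5) (nat_lit 4) (nat_lit 4) (nat_lit 517) (nat_lit 411) (nat_lit 272))))) (XT.nd (nat_lit 234) (nat_lit 152) (nat_lit 0) (XT.nd (nat_lit 78) (nat_lit 0) (nat_lit 0) (XT.lf (nat_lit 0) (nat_lit 4788269711614) (nat_lit 76) (nat_lit 219615802006) (nat_lit 76) (nat_lit 201133411187) (nat_lit 3) (nat_lit 4) (nat_lit 4) (nat_lit 5) (nat_lit 4) (nat_lit 4) (nat_lit 518) (nat_lit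 411) (nat_lit 271)) (XT.nd (nat_lit 78) (nat_lit 0) (nat_lit 0) (XT.lf (nat_lit 0) (nat_lit 5316505384065) (nat_lit 76) (nat_lit 161038147046) (nat_lit 76) (nat_lit 142555727578) (nat_lit 3) (nat_lit 4) (nat_lit 4) (nat_lit 5) (nat_lit 4) (nat_lit 4) (nat_lit 519) (nat_lit 411) (nat_lit 270)) (XT.lf (nat_lit 0) (nat_lit 5886999476950) (nat_lit 76) (nat_lit 97774502583) (nat_lit 76) (nat_lit 79292056589) (nat_lit 3) (nat_lit 4) (nat_lit 4) (nat_lit 5) (nat_lit 4) (nat_lit 4) (nat_lit 520) (nat_lit 411) (nat_lit 269)))) (XT.nd (nat_lit 78) (nat_lit 152) (nat_lit 0) (XT.lf (nat_lit 0) (nat_lit 6503132696004) (nat_lit 76) (nat_lit 29449972947) (nat_lit 76) (nat_lit 10967502391) (nat_lit 3) (nat_lit 4) (nat_lit 4) (nat_lit 5) (nat_lit 4) (nat_lit 4) (nat_lit 521) (nat_lit 411) (nat_lit 268)) (XT.nd (nat_lit 78) (nat_lit 0) (nat_lit 0) (XT.lf (nat_lit 0) (nat_lit 63530013683) (nat_lit 152) (nat_lit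 6951017585393) (nat_lit 0) (nat_lit 46416593962) (nat_lit 1) (nat_lit 5) (nat_lit 3) (nat_lit 4) (nat_lit 1) (nat_lit 4) (nat_lit 522) (nat_lit 411) (nat_lit 267)) (XT.lf (nat_lit 0) (nat_lit 145293339370) (nat_lit 152) (nat_lit 7346123424270) (nat_lit 0) (nat_lit 128179900151) (nat_lit 1) (nat_lit 5) (nat_lit 3) (nat_lit 4) (nat_lit 1) (nat_lit 4) (nat_lit 523) (nat_lit 411) (nat_lit 266)))))) (XT.nd (nat_lit 53742) (nat_lit 0) (nat_lit 5852) (XT.nd (nat_lit 234) (nat_lit 0) (nat_lit 0) (XT.nd (nat_lit 78) (nat_lit 0) (nat_lit 0) (XT.lf (nat_lit 0) (nat_lit 233597559855) (nat_lit 152) (nat_lit 7772838083466) (nat_lit 0) (nat_lit 216484102583) (nat_lit 1) (nat_lit 5) (nat_lit 3) (nat_lit 4) (nat_lit 1) (nat_lit 4) (nat_lit 524) (nat_lit 411) (nat_lit 265)) (XT.nd (nat_lit 78) (nat_lit 0) (nat_lit 0) (XT.lf (nat_lit 0) (nat_lit 328965959410) (nat_lit 152) (nat_lit 8233690242443) (nat_lit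 0) (nat_lit 311852485421) (nat_lit 1) (nat_lit 5) (nat_lit 3) (nat_lit 4) (nat_lit 1) (nat_lit 4) (nat_lit 525) (nat_lit 411) (nat_lit 264)) (XT.lf (nat_lit 0) (nat_lit 431963684104) (nat_lit 152) (nat_lit 8731410876959) (nat_lit 0) (nat_lit 414850194637) (nat_lit 1) (nat_lit 5) (nat_lit 3) (nat_lit 4) (nat_lit 1) (nat_lit 4) (nat_lit 526) (nat_lit 411) (nat_lit 263)))) (XT.nd (nat_lit 78) (nat_lit 0) (nat_lit 0) (XT.lf (nat_lit 0) (nat_lit 543201090826) (nat_lit 152) (nat_lit 9268949442624) (nat_lit 0) (nat_lit 526087587027) (nat_lit 1) (nat_lit 5) (nat_lit 3) (nat_lit 4) (nat_lit 1) (nat_lit 4) (nat_lit 527) (nat_lit 411) (nat_lit 262)) (XT.nd (nat_lit 78) (nat_lit 0) (nat_lit 0) (XT.lf (nat_lit 0) (nat_lit 663337364207) (nat_lit 152) (nat_lit 9849491353163) (nat_lit 0) (nat_lit 646223847139) (nat_lit 1) (nat_lit 5) (nat_lit 3) (nat_lit 4) (nat_lit 1) (nat_lit 4) (nat_lit 528) (nat_lit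 411) (nat_lit 261)) (XT.lf (nat_lit 0) (nat_lit 793084422906) (nat_lit 152) (nat_lit 10476476856933) (nat_lit 0) (nat_lit 775970893550) (nat_lit 1) (nat_lit 5) (nat_lit 3) (nat_lit 4) (nat_lit 1) (nat_lit 4) (nat_lit 529) (nat_lit 411) (nat_lit 260))))) (XT.nd (nat_lit 234) (nat_lit 0) (nat_lit 76) (XT.nd (nat_lit 78) (nat_lit 0) (nat_lit 0) (XT.lf (nat_lit 0) (nat_lit 2287600037) (nat_lit 532) (nat_lit 1517240841) (nat_lit 532) (nat_lit 1517240841) (nat_lit 78) (nat_lit 3) (nat_lit 85) (nat_lit 3) (nat_lit 85) (nat_lit 5) (nat_lit 412) (nat_lit 412) (nat_lit 376)) (XT.nd (nat_lit 78) (nat_lit 0) (nat_lit 76) (XT.lf (nat_lit 76) (nat_lit 2342511992) (nat_lit 0) (nat_lit 3060772331) (nat_lit 532) (nat_lit 5614802926) (nat_lit 79) (nat_lit 5) (nat_lit 78) (nat_lit 3) (nat_lit 85) (nat_lit 5) (nat_lit 413) (nat_lit 412) (nat_lit 375)) (XT.lf (nat_lit 0) (nat_lit 6368202965) (nat_lit 456) (nat_lit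 3178670826) (nat_lit 532) (nat_lit 1869427833) (nat_lit 79) (nat_lit 5) (nat_lit 85) (nat_lit 5) (nat_lit 86) (nat_lit 5) (nat_lit 414) (nat_lit 412) (nat_lit 374)))) (XT.nd (nat_lit 78) (nat_lit 0) (nat_lit 76) (XT.lf (nat_lit 76) (nat_lit 2781589845) (nat_lit 0) (nat_lit 4720421919) (nat_lit 532) (nat_lit 4337047571) (nat_lit 80) (nat_lit 5) (nat_lit 79) (nat_lit 5) (nat_lit 86) (nat_lit 5) (nat_lit 415) (nat_lit 412) (nat_lit 373)) (XT.nd (nat_lit 78) (nat_lit 0) (nat_lit 0) (XT.lf (nat_lit 0) (nat_lit 8776428736) (nat_lit 456) (nat_lit 2942996037) (nat_lit 532) (nat_lit 572240911) (nat_lit 80) (nat_lit 5) (nat_lit 86) (nat_lit 5) (nat_lit 87) (nat_lit 5) (nat_lit 416) (nat_lit 412) (nat_lit 372)) (XT.lf (nat_lit 76) (nat_lit 3685674412) (nat_lit 0) (nat_lit 6631058230) (nat_lit 532) (nat_lit 2450652005) (nat_lit 81) (nat_lit 5) (nat_lit 80) (nat_lit 5) (nat_lit 87) (nat_lit 5) (nat_lit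 417) (nat_lit 412) (nat_lit 371))))))) (XT.nd (nat_lit 858) (nat_lit 1140) (nat_lit 0) (XT.nd (nat_lit 390) (nat_lit 684) (nat_lit 0) (XT.nd (nat_lit 156) (nat_lit 684) (nat_lit 0) (XT.nd (nat_lit 78) (nat_lit 456) (nat_lit 0) (XT.lf (nat_lit 76) (nat_lit 10976214156) (nat_lit 0) (nat_lit 1039842059) (nat_lit 532) (nat_lit 1262258686) (nat_lit 81) (nat_lit 5) (nat_lit 80) (nat_lit 5) (nat_lit 87) (nat_lit 5) (nat_lit 418) (nat_lit 412) (nat_lit 370)) (XT.lf (nat_lit 0) (nat_lit 227548261) (nat_lit 532) (nat_lit 8700653511) (nat_lit 76) (nat_lit 4885299683) (nat_lit 74) (nat_lit 5) (nat_lit 81) (nat_lit 5) (nat_lit 75) (nat_lit 5) (nat_lit 419) (nat_lit 412) (nat_lit 369))) (XT.nd (nat_lit 78) (nat_lit 684) (nat_lit 0) (XT.lf (nat_lit 0) (nat_lit 1819930809) (nat_lit 532) (nat_lit 1233840499) (nat_lit 76) (nat_lit 11330995700) (nat_lit 74) (nat_lit 5) (nat_lit 81) (nat_lit 5) (nat_lit 75)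 (nat_lit 5) (nat_lit 420) (nat_lit 412) (nat_lit 368)) (XT.nd (nat_lit 78) (nat_lit 228) (nat_lit 0) (XT.lf (nat_lit 0) (nat_lit 3758352948) (nat_lit 532) (nat_lit 7921512491) (nat_lit 76) (nat_lit 3304389238) (nat_lit 68) (nat_lit 5) (nat_lit 75) (nat_lit 5) (nat_lit 69) (nat_lit 5) (nat_lit 421) (nat_lit 412) (nat_lit 367)) (XT.lf (nat_lit 0) (nat_lit 365286059) (nat_lit 228) (nat_lit 5574184604) (nat_lit 304) (nat_lit 9685232795) (nat_lit 65) (nat_lit 5) (nat_lit 68) (nat_lit 5) (nat_lit 69) (nat_lit 5) (nat_lit 422) (nat_lit 412) (nat_lit 366))))) (XT.nd (nat_lit 234) (nat_lit 456) (nat_lit 0) (XT.nd (nat_lit 78) (nat_lit 228) (nat_lit 0) (XT.lf (nat_lit 0) (nat_lit 8508394535) (nat_lit 304) (nat_lit 6602372982) (nat_lit 76) (nat_lit 1188566252) (nat_lit 65) (nat_lit 5) (nat_lit 69) (nat_lit 5) (nat_lit 66) (nat_lit 5) (nat_lit 423) (nat_lit 412) (nat_lit 365)) (XT.nd (nat_lit 78) (nat_lit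 0) (nat_lit 0) (XT.lf (nat_lit 0) (nat_lit 2701782562) (nat_lit 228) (nat_lit 8759860818) (nat_lit 304) (nat_lit 5551996393) (nat_lit 62) (nat_lit 5) (nat_lit 65) (nat_lit 5) (nat_lit 66) (nat_lit 5) (nat_lit 424) (nat_lit 412) (nat_lit 364)) (XT.lf (nat_lit 0) (nat_lit 13090837737) (nat_lit 228) (nat_lit 1711337024) (nat_lit 304) (nat_lit 2970843086) (nat_lit 62) (nat_lit 5) (nat_lit 65) (nat_lit 5) (nat_lit 66) (nat_lit 5) (nat_lit 425) (nat_lit 412) (nat_lit 363)))) (XT.nd (nat_lit 78) (nat_lit 228) (nat_lit 0) (XT.lf (nat_lit 0) (nat_lit 87355785) (nat_lit 228) (nat_lit 12741628006) (nat_lit 76) (nat_lit 5743611789) (nat_lit 59) (nat_lit 5) (nat_lit 62) (nat_lit 5) (nat_lit 60) (nat_lit 5) (nat_lit 426) (nat_lit 412) (nat_lit 362)) (XT.nd (nat_lit 78) (nat_lit 228) (nat_lit 0) (XT.lf (nat_lit 0) (nat_lit 3378606204) (nat_lit 228) (nat_lit 2134346630) (nat_lit 76) (nat_lit 13905109113)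 (nat_lit 59) (nat_lit 5) (nat_lit 62) (nat_lit 5) (nat_lit 60) (nat_lit 5) (nat_lit 427) (nat_lit 412) (nat_lit 361)) (XT.lf (nat_lit 0) (nat_lit 7206790042) (nat_lit 304) (nat_lit 10599418737) (nat_lit 76) (nat_lit 2503073084) (nat_lit 56) (nat_lit 5) (nat_lit 60) (nat_lit 5) (nat_lit 57) (nat_lit 5) (nat_lit 428) (nat_lit 412) (nat_lit 360)))))) (XT.nd (nat_lit 468) (nat_lit 456) (nat_lit 0) (XT.nd (nat_lit 234) (nat_lit 380) (nat_lit 0) (XT.nd (nat_lit 78) (nat_lit 152) (nat_lit 0) (XT.lf (nat_lit 0) (nat_lit 1239904220) (nat_lit 152) (nat_lit 10310206479) (nat_lit 228) (nat_lit 9704984502) (nat_lit 54) (nat_lit 5) (nat_lit 56) (nat_lit 5) (nat_lit 57) (nat_lit 5) (nat_lit 429) (nat_lit 412) (nat_lit 359)) (XT.nd (nat_lit 78) (nat_lit 152) (nat_lit 0) (XT.lf (nat_lit 0) (nat_lit 14596741204) (nat_lit 152) (nat_lit 1910957036) (nat_lit 228) (nat_lit 5747537193) (nat_lit 54) (nat_lit 5)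 (nat_lit 56) (nat_lit 5) (nat_lit 57) (nat_lit 5) (nat_lit 430) (nat_lit 412) (nat_lit 358)) (XT.lf (nat_lit 0) (nat_lit 5771732272) (nat_lit 152) (nat_lit 16379663164) (nat_lit 228) (nat_lit 1160836721) (nat_lit 52) (nat_lit 5) (nat_lit 54) (nat_lit 5) (nat_lit 55) (nat_lit 5) (nat_lit 431) (nat_lit 412) (nat_lit 357)))) (XT.nd (nat_lit 78) (nat_lit 304) (nat_lit 0) (XT.lf (nat_lit 0) (nat_lit 3846341124) (nat_lit 228) (nat_lit 3903256136) (nat_lit 76) (nat_lit 16677436905) (nat_lit 51) (nat_lit 5) (nat_lit 54) (nat_lit 5) (nat_lit 52) (nat_lit 5) (nat_lit 432) (nat_lit 412) (nat_lit 356)) (XT.nd (nat_lit 78) (nat_lit 152) (nat_lit 0) (XT.lf (nat_lit 0) (nat_lit 9489694049) (nat_lit 228) (nat_lit 14321576840) (nat_lit 76) (nat_lit 1793476375) (nat_lit 49) (nat_lit 5) (nat_lit 52) (nat_lit 5) (nat_lit 50) (nat_lit 5) (nat_lit 433) (nat_lit 412) (nat_lit 355)) (XT.lf (nat_lit 0) (nat_lit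 846624186) (nat_lit 152) (nat_lit 15049931434) (nat_lit 228) (nat_lit 10955162591) (nat_lit 47) (nat_lit 5) (nat_lit 49) (nat_lit 5) (nat_lit 50) (nat_lit 5) (nat_lit 434) (nat_lit 412) (nat_lit 354))))) (XT.nd (nat_lit 234) (nat_lit 304) (nat_lit 0) (XT.nd (nat_lit 78) (nat_lit 152) (nat_lit 0) (XT.lf (nat_lit 0) (nat_lit 18013501833) (nat_lit 152) (nat_lit 5175649812) (nat_lit 228) (nat_lit 4979444080) (nat_lit 47) (nat_lit 5) (nat_lit 49) (nat_lit 5) (nat_lit 50) (nat_lit 5) (nat_lit 435) (nat_lit 412) (nat_lit 353)) (XT.nd (nat_lit 78) (nat_lit 0) (nat_lit 0) (XT.lf (nat_lit 0) (nat_lit 1694978684) (nat_lit 152) (nat_lit 22449874956) (nat_lit 76) (nat_lit 5419584476) (nat_lit 45) (nat_lit 5) (nat_lit 47) (nat_lit 5) (nat_lit 46) (nat_lit 5) (nat_lit 436) (nat_lit 412) (nat_lit 352)) (XT.lf (nat_lit 0) (nat_lit 9036549484) (nat_lit 152) (nat_lit 5005798938) (nat_lit 76) (nat_lit 16987078462)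 (nat_lit 45) (nat_lit 5) (nat_lit 47) (nat_lit 5) (nat_lit 46) (nat_lit 5) (nat_lit 437) (nat_lit 412) (nat_lit 351)))) (XT.nd (nat_lit 78) (nat_lit 152) (nat_lit 0) (XT.lf (nat_lit 0) (nat_lit 14534580746) (nat_lit 152) (nat_lit 2764598979) (nat_lit 228) (nat_lit 15285739071) (nat_lit 43) (nat_lit 5) (nat_lit 45) (nat_lit 5) (nat_lit 46) (nat_lit 5) (nat_lit 438) (nat_lit 412) (nat_lit 350)) (XT.nd (nat_lit 78) (nat_lit 76) (nat_lit 0) (XT.lf (nat_lit 0) (nat_lit 1486742584) (nat_lit 76) (nat_lit 25123179280) (nat_lit 152) (nat_lit 7623962618) (nat_lit 42) (nat_lit 5) (nat_lit 43) (nat_lit 5) (nat_lit 44) (nat_lit 4) (nat_lit 439) (nat_lit 412) (nat_lit 349)) (XT.lf (nat_lit 0) (nat_lit 1180974424) (nat_lit 152) (nat_lit 12488982485) (nat_lit 76) (nat_lit 22298538884) (nat_lit 41) (nat_lit 5) (nat_lit 43) (nat_lit 5) (nat_lit 42) (nat_lit 5) (nat_lit 440) (nat_lit 412) (nat_lit 348))))))))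
noncomputable def xc125 : XT := (XT.nd (nat_lit 1794) (nat_lit 988) (nat_lit 0) (XT.nd (nat_lit 858) (nat_lit 760) (nat_lit 0) (XT.nd (nat_lit 390) (nat_lit 380) (nat_lit 0) (XT.nd (nat_lit 156) (nat_lit 304) (nat_lit 0) (XT.nd (nat_lit 78) (nat_lit 0) (nat_lit 0) (XT.lf (nat_lit 0) (nat_lit 9649757664) (nat_lit 152) (nat_lit 846490155) (nat_lit 228) (nat_lit 27312361535) (nat_lit 39) (nat_lit 5) (nat_lit 41) (nat_lit 5) (nat_lit 42) (nat_lit 5) (nat_lit 441) (nat_lit 412) (nat_lit 347)) (XT.lf (nat_lit 0) (nat_lit 21205783903) (nat_lit 228) (nat_lit 5845340052) (nat_lit 76) (nat_lit 12692886647) (nat_lit 39) (nat_lit 5) (nat_lit 42) (nat_lit 5) (nat_lit 40) (nat_lit 4) (nat_lit 442) (nat_lit 412) (nat_lit 346))) (XT.nd (nat_lit 78) (nat_lit 228) (nat_lit 0) (XT.lf (nat_lit 0) (nat_lit 19166930736) (nat_lit 76) (nat_lit 14075124018) (nat_lit 152) (nat_lit 8554593175) (nat_lit 38) (nat_lit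 5) (nat_lit 39) (nat_lit 5) (nat_lit 40) (nat_lit 4) (nat_lit 443) (nat_lit 412) (nat_lit 345)) (XT.nd (nat_lit 78) (nat_lit 0) (nat_lit 0) (XT.lf (nat_lit 0) (nat_lit 2334450172) (nat_lit 228) (nat_lit 41438787388) (nat_lit 76) (nat_lit 218521263) (nat_lit 35) (nat_lit 5) (nat_lit 38) (nat_lit 5) (nat_lit 36) (nat_lit 4) (nat_lit 444) (nat_lit 412) (nat_lit 344)) (XT.lf (nat_lit 0) (nat_lit 14620118686) (nat_lit 228) (nat_lit 15902992022) (nat_lit 76) (nat_lit 15742579722) (nat_lit 35) (nat_lit 5) (nat_lit 38) (nat_lit 5) (nat_lit 36) (nat_lit 4) (nat_lit 445) (nat_lit 412) (nat_lit 343))))) (XT.nd (nat_lit 234) (nat_lit 152) (nat_lit 0) (XT.nd (nat_lit 78) (nat_lit 152) (nat_lit 0) (XT.lf (nat_lit 0) (nat_lit 12267675760) (nat_lit 76) (nat_lit 15904221927) (nat_lit 152) (nat_lit 20526979590) (nat_lit 34) (nat_lit 5) (nat_lit 35) (nat_lit 5) (nat_lit 36) (nat_lit 4) (nat_lit 446) (nat_lit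 412) (nat_lit 342)) (XT.nd (nat_lit 78) (nat_lit 152) (nat_lit 0) (XT.lf (nat_lit 0) (nat_lit 43239493778) (nat_lit 152) (nat_lit 7725830470) (nat_lit 0) (nat_lit 326862019) (nat_lit 34) (nat_lit 5) (nat_lit 36) (nat_lit 4) (nat_lit 34) (nat_lit 4) (nat_lit 447) (nat_lit 412) (nat_lit 341)) (XT.lf (nat_lit 0) (nat_lit 6154505452) (nat_lit 152) (nat_lit 30124781397) (nat_lit 76) (nat_lit 17722760927) (nat_lit 32) (nat_lit 5) (nat_lit 34) (nat_lit 5) (nat_lit 33) (nat_lit 4) (nat_lit 448) (nat_lit 412) (nat_lit 340)))) (XT.nd (nat_lit 78) (nat_lit 76) (nat_lit 0) (XT.lf (nat_lit 0) (nat_lit 1369820491) (nat_lit 76) (nat_lit 19932339438) (nat_lit 152) (nat_lit 35590691523) (nat_lit 31) (nat_lit 5) (nat_lit 32) (nat_lit 5) (nat_lit 33) (nat_lit 4) (nat_lit 449) (nat_lit 412) (nat_lit 339)) (XT.nd (nat_lit 78) (nat_lit 76) (nat_lit 0) (XT.lf (nat_lit 0) (nat_lit 37077483452) (nat_lit 76) (nat_lit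 1397395238) (nat_lit 152) (nat_lit 21474981445) (nat_lit 31) (nat_lit 5) (nat_lit 32) (nat_lit 5) (nat_lit 33) (nat_lit 4) (nat_lit 450) (nat_lit 412) (nat_lit 338)) (XT.lf (nat_lit 0) (nat_lit 12551556644) (nat_lit 76) (nat_lit 45209694147) (nat_lit 76) (nat_lit 5430992653) (nat_lit 30) (nat_lit 4) (nat_lit 31) (nat_lit 5) (nat_lit 31) (nat_lit 4) (nat_lit 451) (nat_lit 412) (nat_lit 337)))))) (XT.nd (nat_lit 468) (nat_lit 380) (nat_lit 0) (XT.nd (nat_lit 234) (nat_lit 228) (nat_lit 0) (XT.nd (nat_lit 78) (nat_lit 76) (nat_lit 0) (XT.lf (nat_lit 0) (nat_lit 11969503987) (nat_lit 152) (nat_lit 14891335350) (nat_lit 76) (nat_lit 39756841801) (nat_lit 29) (nat_lit 5) (nat_lit 31) (nat_lit 5) (nat_lit 30) (nat_lit 4) (nat_lit 452) (nat_lit 412) (nat_lit 336)) (XT.nd (nat_lit 78) (nat_lit 0) (nat_lit 0) (XT.lf (nat_lit 0) (nat_lit 24800021297) (nat_lit 76) (nat_lit 6255962093) (nat_lit 152)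 (nat_lit 39202897299) (nat_lit 28) (nat_lit 5) (nat_lit 29) (nat_lit 5) (nat_lit 30) (nat_lit 4) (nat_lit 453) (nat_lit 412) (nat_lit 335)) (XT.lf (nat_lit 0) (nat_lit 52462829950) (nat_lit 152) (nat_lit 6058086835) (nat_lit 0) (nat_lit 15606984102) (nat_lit 28) (nat_lit 5) (nat_lit 30) (nat_lit 4) (nat_lit 28) (nat_lit 4) (nat_lit 454) (nat_lit 412) (nat_lit 334)))) (XT.nd (nat_lit 78) (nat_lit 152) (nat_lit 0) (XT.lf (nat_lit 0) (nat_lit 38228349326) (nat_lit 76) (nat_lit 38427410393) (nat_lit 76) (nat_lit 1564800688) (nat_lit 27) (nat_lit 4) (nat_lit 28) (nat_lit 5) (nat_lit 28) (nat_lit 4) (nat_lit 455) (nat_lit 412) (nat_lit 333)) (XT.nd (nat_lit 78) (nat_lit 0) (nat_lit 0) (XT.lf (nat_lit 0) (nat_lit 3442006847) (nat_lit 76) (nat_lit 15938223624) (nat_lit 152) (nat_lit 63202094706) (nat_lit 25) (nat_lit 5) (nat_lit 26) (nat_lit 5) (nat_lit 27) (nat_lit 4) (nat_lit 456) (nat_lit 412)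 (nat_lit 332)) (XT.lf (nat_lit 0) (nat_lit 43230728818) (nat_lit 152) (nat_lit 34866384330) (nat_lit 0) (nat_lit 9087514513) (nat_lit 25) (nat_lit 5) (nat_lit 27) (nat_lit 4) (nat_lit 25) (nat_lit 4) (nat_lit 457) (nat_lit 412) (nat_lit 331))))) (XT.nd (nat_lit 234) (nat_lit 152) (nat_lit 0) (XT.nd (nat_lit 78) (nat_lit 152) (nat_lit 0) (XT.lf (nat_lit 0) (nat_lit 13179675303) (nat_lit 76) (nat_lit 56532881116) (nat_lit 76) (nat_lit 22384695174) (nat_lit 24) (nat_lit 4) (nat_lit 25) (nat_lit 5) (nat_lit 25) (nat_lit 4) (nat_lit 458) (nat_lit 412) (nat_lit 330)) (XT.nd (nat_lit 78) (nat_lit 76) (nat_lit 0) (XT.lf (nat_lit 0) (nat_lit 1834948241) (nat_lit 152) (nat_lit 30336096964) (nat_lit 76) (nat_lit 65152455443) (nat_lit 23) (nat_lit 5) (nat_lit 25) (nat_lit 5) (nat_lit 24) (nat_lit 4) (nat_lit 459) (nat_lit 412) (nat_lit 329)) (XT.lf (nat_lit 0) (nat_lit 22670542948) (nat_lit 76) (nat_lit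 4650416009) (nat_lit 152) (nat_lit 75557325275) (nat_lit 22) (nat_lit 5) (nat_lit 23) (nat_lit 5) (nat_lit 24) (nat_lit 4) (nat_lit 460) (nat_lit 412) (nat_lit 328)))) (XT.nd (nat_lit 78) (nat_lit 152) (nat_lit 0) (XT.lf (nat_lit 0) (nat_lit 56292772604) (nat_lit 152) (nat_lit 27806705833) (nat_lit 0) (nat_lit 24662218595) (nat_lit 22) (nat_lit 5) (nat_lit 24) (nat_lit 4) (nat_lit 22) (nat_lit 4) (nat_lit 461) (nat_lit 412) (nat_lit 327)) (XT.nd (nat_lit 78) (nat_lit 76) (nat_lit 0) (XT.lf (nat_lit 0) (nat_lit 30161416190) (nat_lit 76) (nat_lit 58260566236) (nat_lit 76) (nat_lit 26626628615) (nat_lit 21) (nat_lit 4) (nat_lit 22) (nat_lit 5) (nat_lit 22) (nat_lit 4) (nat_lit 462) (nat_lit 412) (nat_lit 326)) (XT.lf (nat_lit 0) (nat_lit 1992391297) (nat_lit 152) (nat_lit 27492896695) (nat_lit 76) (nat_lit 92288839913) (nat_lit 20) (nat_lit 5) (nat_lit 22) (nat_lit 5) (nat_lit 21) (nat_lit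 4) (nat_lit 463) (nat_lit 412) (nat_lit 325))))))) (XT.nd (nat_lit 936) (nat_lit 380) (nat_lit 0) (XT.nd (nat_lit 468) (nat_lit 304) (nat_lit 0) (XT.nd (nat_lit 234) (nat_lit 152) (nat_lit 0) (XT.nd (nat_lit 78) (nat_lit 76) (nat_lit 0) (XT.lf (nat_lit 0) (nat_lit 32390127569) (nat_lit 152) (nat_lit 93424155096) (nat_lit 0) (nat_lit 3093857665) (nat_lit 19) (nat_lit 5) (nat_lit 21) (nat_lit 4) (nat_lit 19) (nat_lit 4) (nat_lit 464) (nat_lit 412) (nat_lit 324)) (XT.nd (nat_lit 78) (nat_lit 76) (nat_lit 0) (XT.lf (nat_lit 0) (nat_lit 66750759722) (nat_lit 152) (nat_lit 32287625309) (nat_lit 0) (nat_lit 37452002762) (nat_lit 19) (nat_lit 5) (nat_lit 21) (nat_lit 4) (nat_lit 19) (nat_lit 4) (nat_lit 465) (nat_lit 412) (nat_lit 323)) (XT.lf (nat_lit 0) (nat_lit 35504737431) (nat_lit 76) (nat_lit 69203835575) (nat_lit 76) (nat_lit 39902775786) (nat_lit 18) (nat_lit 4) (nat_lit 19) (nat_lit 5)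 (nat_lit 19) (nat_lit 4) (nat_lit 466) (nat_lit 412) (nat_lit 322)))) (XT.nd (nat_lit 78) (nat_lit 152) (nat_lit 0) (XT.lf (nat_lit 0) (nat_lit 110545817903) (nat_lit 76) (nat_lit 36034584834) (nat_lit 76) (nat_lit 6731392795) (nat_lit 18) (nat_lit 4) (nat_lit 19) (nat_lit 5) (nat_lit 19) (nat_lit 4) (nat_lit 467) (nat_lit 412) (nat_lit 321)) (XT.nd (nat_lit 78) (nat_lit 0) (nat_lit 0) (XT.lf (nat_lit 0) (nat_lit 28377868086) (nat_lit 152) (nat_lit 132971814772) (nat_lit 0) (nat_lit 1243454805) (nat_lit 16) (nat_lit 5) (nat_lit 18) (nat_lit 4) (nat_lit 16) (nat_lit 4) (nat_lit 468) (nat_lit 412) (nat_lit 320)) (XT.lf (nat_lit 0) (nat_lit 68062708173) (nat_lit 152) (nat_lit 63443248904) (nat_lit 0) (nat_lit 40926602243) (nat_lit 16) (nat_lit 5) (nat_lit 18) (nat_lit 4) (nat_lit 16) (nat_lit 4) (nat_lit 469) (nat_lit 412) (nat_lit 319))))) (XT.nd (nat_lit 234) (nat_lit 152) (nat_lit 0) (XT.nd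 (nat_lit 78) (nat_lit 76) (nat_lit 0) (XT.lf (nat_lit 0) (nat_lit 12250830942) (nat_lit 76) (nat_lit 98961393006) (nat_lit 76) (nat_lit 71823719810) (nat_lit 15) (nat_lit 4) (nat_lit 16) (nat_lit 5) (nat_lit 16) (nat_lit 4) (nat_lit 470) (nat_lit 412) (nat_lit 318)) (XT.nd (nat_lit 78) (nat_lit 76) (nat_lit 0) (XT.lf (nat_lit 0) (nat_lit 97599146716) (nat_lit 76) (nat_lit 61944587049) (nat_lit 76) (nat_lit 34805462680) (nat_lit 15) (nat_lit 4) (nat_lit 16) (nat_lit 5) (nat_lit 16) (nat_lit 4) (nat_lit 471) (nat_lit 412) (nat_lit 317)) (XT.lf (nat_lit 0) (nat_lit 4911030663) (nat_lit 152) (nat_lit 16925524268) (nat_lit 76) (nat_lit 184721350212) (nat_lit 14) (nat_lit 5) (nat_lit 16) (nat_lit 5) (nat_lit 15) (nat_lit 4) (nat_lit 472) (nat_lit 412) (nat_lit 316)))) (XT.nd (nat_lit 78) (nat_lit 76) (nat_lit 0) (XT.lf (nat_lit 0) (nat_lit 48236274473) (nat_lit 152) (nat_lit 148144707239) (nat_lit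 0) (nat_lit 23105059478) (nat_lit 13) (nat_lit 5) (nat_lit 15) (nat_lit 4) (nat_lit 13) (nat_lit 4) (nat_lit 473) (nat_lit 412) (nat_lit 315)) (XT.nd (nat_lit 78) (nat_lit 76) (nat_lit 0) (XT.lf (nat_lit 0) (nat_lit 96065462361) (nat_lit 152) (nat_lit 66366751170) (nat_lit 0) (nat_lit 70933180709) (nat_lit 13) (nat_lit 5) (nat_lit 15) (nat_lit 4) (nat_lit 13) (nat_lit 4) (nat_lit 474) (nat_lit 412) (nat_lit 314)) (XT.lf (nat_lit 0) (nat_lit 23101427609) (nat_lit 76) (nat_lit 125171395151) (nat_lit 76) (nat_lit 100038125856) (nat_lit 12) (nat_lit 4) (nat_lit 13) (nat_lit 5) (nat_lit 13) (nat_lit 4) (nat_lit 475) (nat_lit 412) (nat_lit 313)))))) (XT.nd (nat_lit 468) (nat_lit 152) (nat_lit 0) (XT.nd (nat_lit 234) (nat_lit 76) (nat_lit 0) (XT.nd (nat_lit 78) (nat_lit 152) (nat_lit 0) (XT.lf (nat_lit 0) (nat_lit 123493949329) (nat_lit 76) (nat_lit 82973753692) (nat_lit 76) (nat_lit 57839569912)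 (nat_lit 12) (nat_lit 4) (nat_lit 13) (nat_lit 5) (nat_lit 13) (nat_lit 4) (nat_lit 476) (nat_lit 412) (nat_lit 312)) (XT.nd (nat_lit 78) (nat_lit 152) (nat_lit 0) (XT.lf (nat_lit 0) (nat_lit 231910977132) (nat_lit 76) (nat_lit 37403813646) (nat_lit 76) (nat_lit 12268783120) (nat_lit 12) (nat_lit 4) (nat_lit 13) (nat_lit 5) (nat_lit 13) (nat_lit 4) (nat_lit 477) (nat_lit 412) (nat_lit 311)) (XT.lf (nat_lit 0) (nat_lit 36646480163) (nat_lit 152) (nat_lit 250028066813) (nat_lit 0) (nat_lit 13372577802) (nat_lit 10) (nat_lit 5) (nat_lit 12) (nat_lit 4) (nat_lit 10) (nat_lit 4) (nat_lit 478) (nat_lit 412) (nat_lit 310)))) (XT.nd (nat_lit 78) (nat_lit 76) (nat_lit 0) (XT.lf (nat_lit 0) (nat_lit 91173864568) (nat_lit 152) (nat_lit 160700172967) (nat_lit 0) (nat_lit 67899290033) (nat_lit 10) (nat_lit 5) (nat_lit 12) (nat_lit 4) (nat_lit 10) (nat_lit 4) (nat_lit 479) (nat_lit 412) (nat_lit 309))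 (XT.nd (nat_lit 78) (nat_lit 76) (nat_lit 0) (XT.lf (nat_lit 0) (nat_lit 150060469618) (nat_lit 152) (nat_lit 64232121921) (nat_lit 0) (nat_lit 126785272700) (nat_lit 10) (nat_lit 5) (nat_lit 12) (nat_lit 4) (nat_lit 10) (nat_lit 4) (nat_lit 480) (nat_lit 412) (nat_lit 308)) (XT.lf (nat_lit 0) (nat_lit 42051326510) (nat_lit 76) (nat_lit 172615261876) (nat_lit 76) (nat_lit 149339488677) (nat_lit 9) (nat_lit 4) (nat_lit 10) (nat_lit 5) (nat_lit 10) (nat_lit 4) (nat_lit 481) (nat_lit 412) (nat_lit 307))))) (XT.nd (nat_lit 234) (nat_lit 76) (nat_lit 0) (XT.nd (nat_lit 78) (nat_lit 76) (nat_lit 0) (XT.lf (nat_lit 0) (nat_lit 160484906535) (nat_lit 76) (nat_lit 125709831936) (nat_lit 76) (nat_lit 102433525143) (nat_lit 9) (nat_lit 4) (nat_lit 10) (nat_lit 5) (nat_lit 10) (nat_lit 4) (nat_lit 482) (nat_lit 412) (nat_lit 306)) (XT.nd (nat_lit 78) (nat_lit 76) (nat_lit 0) (XT.lf (nat_lit 0) (nat_lit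 288388097063) (nat_lit 76) (nat_lit 75054563656) (nat_lit 76) (nat_lit 51777762795) (nat_lit 9) (nat_lit 4) (nat_lit 10) (nat_lit 5) (nat_lit 10) (nat_lit 4) (nat_lit 483) (nat_lit 412) (nat_lit 305)) (XT.lf (nat_lit 0) (nat_lit 2781511209) (nat_lit 152) (nat_lit 17491715014) (nat_lit 76) (nat_lit 423661280273) (nat_lit 8) (nat_lit 5) (nat_lit 10) (nat_lit 5) (nat_lit 9) (nat_lit 4) (nat_lit 484) (nat_lit 412) (nat_lit 304)))) (XT.nd (nat_lit 78) (nat_lit 0) (nat_lit 0) (XT.lf (nat_lit 0) (nat_lit 62454037963) (nat_lit 152) (nat_lit 371199790854) (nat_lit 0) (nat_lit 40900628783) (nat_lit 7) (nat_lit 5) (nat_lit 9) (nat_lit 4) (nat_lit 7) (nat_lit 4) (nat_lit 485) (nat_lit 412) (nat_lit 303)) (XT.nd (nat_lit 78) (nat_lit 0) (nat_lit 0) (XT.lf (nat_lit 0) (nat_lit 127915442787) (nat_lit 152) (nat_lit 273265685506) (nat_lit 0) (nat_lit 106361670453) (nat_lit 7) (nat_lit 5) (nat_lit 9) (nat_lit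 4) (nat_lit 7) (nat_lit 4) (nat_lit 486) (nat_lit 412) (nat_lit 302)) (XT.lf (nat_lit 0) (nat_lit 198611743280) (nat_lit 152) (nat_lit 167500990577) (nat_lit 0) (nat_lit 177057634691) (nat_lit 7) (nat_lit 5) (nat_lit 9) (nat_lit 4) (nat_lit 7) (nat_lit 4) (nat_lit 487) (nat_lit 412) (nat_lit 301))))))))
noncomputable def xc126 : XT := (XT.nd (nat_lit 1794) (nat_lit 152) (nat_lit 0) (XT.nd (nat_lit 858) (nat_lit 76) (nat_lit 0) (XT.nd (nat_lit 390) (nat_lit 152) (nat_lit 0) (XT.nd (nat_lit 156) (nat_lit 0) (nat_lit 0) (XT.nd (nat_lit 78) (nat_lit 76) (nat_lit 0) (XT.lf (nat_lit 0) (nat_lit 274961880482) (nat_lit 152) (nat_lit 53278952320) (nat_lit 0) (nat_lit 253407460546) (nat_lit 7) (nat_lit 5) (nat_lit 9) (nat_lit 4) (nat_lit 7) (nat_lit 4) (nat_lit 488) (nat_lit 412) (nat_lit 300)) (XT.lf (nat_lit 0) (nat_lit 73767447065) (nat_lit 76) (nat_lit 285424961459) (nat_lit 76) (nat_lit 263870253240)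 (nat_lit 6) (nat_lit 4) (nat_lit 7) (nat_lit 5) (nat_lit 7) (nat_lit 4) (nat_lit 489) (nat_lit 412) (nat_lit 299))) (XT.nd (nat_lit 78) (nat_lit 0) (nat_lit 0) (XT.lf (nat_lit 0) (nat_lit 214004121068) (nat_lit 76) (nat_lit 237612314603) (nat_lit 76) (nat_lit 216057339454) (nat_lit 6) (nat_lit 4) (nat_lit 7) (nat_lit 5) (nat_lit 7) (nat_lit 4) (nat_lit 490) (nat_lit 412) (nat_lit 298)) (XT.nd (nat_lit 78) (nat_lit 0) (nat_lit 0) (XT.lf (nat_lit 0) (nat_lit 365456526620) (nat_lit 76) (nat_lit 185976299006) (nat_lit 76) (nat_lit 164421076700) (nat_lit 6) (nat_lit 4) (nat_lit 7) (nat_lit 5) (nat_lit 7) (nat_lit 4) (nat_lit 491) (nat_lit 412) (nat_lit 297)) (XT.lf (nat_lit 0) (nat_lit 529022159457) (nat_lit 76) (nat_lit 130210923464) (nat_lit 76) (nat_lit 108655472309) (nat_lit 6) (nat_lit 4) (nat_lit 7) (nat_lit 5) (nat_lit 7) (nat_lit 4) (nat_lit 492) (nat_lit 412) (nat_lit 296))))) (XT.nd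 (nat_lit 234) (nat_lit 0) (nat_lit 0) (XT.nd (nat_lit 78) (nat_lit 152) (nat_lit 0) (XT.lf (nat_lit 0) (nat_lit 705670297403) (nat_lit 76) (nat_lit 69985726492) (nat_lit 76) (nat_lit 48430063440) (nat_lit 6) (nat_lit 4) (nat_lit 7) (nat_lit 5) (nat_lit 7) (nat_lit 4) (nat_lit 493) (nat_lit 412) (nat_lit 295)) (XT.nd (nat_lit 78) (nat_lit 0) (nat_lit 0) (XT.lf (nat_lit 0) (nat_lit 11862093133) (nat_lit 76) (nat_lit 4204230129) (nat_lit 152) (nat_lit 868658413503) (nat_lit 4) (nat_lit 5) (nat_lit 5) (nat_lit 5) (nat_lit 6) (nat_lit 4) (nat_lit 494) (nat_lit 412) (nat_lit 294)) (XT.lf (nat_lit 0) (nat_lit 88033963070) (nat_lit 152) (nat_lit 793610973392) (nat_lit 0) (nat_lit 68074665921) (nat_lit 4) (nat_lit 5) (nat_lit 6) (nat_lit 4) (nat_lit 4) (nat_lit 4) (nat_lit 495) (nat_lit 412) (nat_lit 293)))) (XT.nd (nat_lit 78) (nat_lit 0) (nat_lit 0) (XT.lf (nat_lit 0) (nat_lit 165867040281) (nat_lit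 152) (nat_lit 708130787504) (nat_lit 0) (nat_lit 145907587381) (nat_lit 4) (nat_lit 5) (nat_lit 6) (nat_lit 4) (nat_lit 4) (nat_lit 4) (nat_lit 496) (nat_lit 412) (nat_lit 292)) (XT.nd (nat_lit 78) (nat_lit 0) (nat_lit 0) (XT.lf (nat_lit 0) (nat_lit 249925676109) (nat_lit 152) (nat_lit 615814424884) (nat_lit 0) (nat_lit 229966078995) (nat_lit 4) (nat_lit 5) (nat_lit 6) (nat_lit 4) (nat_lit 4) (nat_lit 4) (nat_lit 497) (nat_lit 412) (nat_lit 291)) (XT.lf (nat_lit 0) (nat_lit 340707995804) (nat_lit 152) (nat_lit 516114825604) (nat_lit 0) (nat_lit 320748265159) (nat_lit 4) (nat_lit 5) (nat_lit 6) (nat_lit 4) (nat_lit 4) (nat_lit 4) (nat_lit 498) (nat_lit 412) (nat_lit 290)))))) (XT.nd (nat_lit 468) (nat_lit 0) (nat_lit 0) (XT.nd (nat_lit 234) (nat_lit 76) (nat_lit 0) (XT.nd (nat_lit 78) (nat_lit 0) (nat_lit 0) (XT.lf (nat_lit 0) (nat_lit 438751968667) (nat_lit 152) (nat_lit 408441177225) (nat_lit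 0) (nat_lit 418792114382) (nat_lit 4) (nat_lit 5) (nat_lit 6) (nat_lit 4) (nat_lit 4) (nat_lit 4) (nat_lit 499) (nat_lit 412) (nat_lit 289)) (XT.nd (nat_lit 78) (nat_lit 0) (nat_lit 0) (XT.lf (nat_lit 0) (nat_lit 544638596020) (nat_lit 152) (nat_lit 292155413681) (nat_lit 0) (nat_lit 524678627254) (nat_lit 4) (nat_lit 5) (nat_lit 6) (nat_lit 4) (nat_lit 4) (nat_lit 4) (nat_lit 500) (nat_lit 412) (nat_lit 288)) (XT.lf (nat_lit 0) (nat_lit 658995354172) (nat_lit 152) (nat_lit 166568434152) (nat_lit 0) (nat_lit 639035279404) (nat_lit 4) (nat_lit 5) (nat_lit 6) (nat_lit 4) (nat_lit 4) (nat_lit 4) (nat_lit 501) (nat_lit 412) (nat_lit 287)))) (XT.nd (nat_lit 78) (nat_lit 76) (nat_lit 0) (XT.lf (nat_lit 0) (nat_lit 782499912802) (nat_lit 152) (nat_lit 30936019500) (nat_lit 0) (nat_lit 762539739885) (nat_lit 4) (nat_lit 5) (nat_lit 6) (nat_lit 4) (nat_lit 4) (nat_lit 4) (nat_lit 502) (nat_lit 412)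 (nat_lit 286)) (XT.nd (nat_lit 78) (nat_lit 0) (nat_lit 0) (XT.lf (nat_lit 0) (nat_lit 121630003285) (nat_lit 76) (nat_lit 797179351994) (nat_lit 76) (nat_lit 777219088198) (nat_lit 3) (nat_lit 4) (nat_lit 4) (nat_lit 5) (nat_lit 4) (nat_lit 4) (nat_lit 503) (nat_lit 412) (nat_lit 285)) (XT.lf (nat_lit 0) (nat_lit 288159292034) (nat_lit 76) (nat_lit 778709439075) (nat_lit 76) (nat_lit 758749091131) (nat_lit 3) (nat_lit 4) (nat_lit 4) (nat_lit 5) (nat_lit 4) (nat_lit 4) (nat_lit 504) (nat_lit 412) (nat_lit 284))))) (XT.nd (nat_lit 234) (nat_lit 0) (nat_lit 0) (XT.nd (nat_lit 78) (nat_lit 0) (nat_lit 0) (XT.lf (nat_lit 0) (nat_lit 468009651013) (nat_lit 76) (nat_lit 758762587805) (nat_lit 76) (nat_lit 738802161947) (nat_lit 3) (nat_lit 4) (nat_lit 4) (nat_lit 5) (nat_lit 4) (nat_lit 4) (nat_lit 505) (nat_lit 412) (nat_lit 283)) (XT.nd (nat_lit 78) (nat_lit 0) (nat_lit 0) (XT.lf (nat_lit 0)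 (nat_lit 662246860126) (nat_lit 76) (nat_lit 737220594623) (nat_lit 76) (nat_lit 717260096622) (nat_lit 3) (nat_lit 4) (nat_lit 4) (nat_lit 5) (nat_lit 4) (nat_lit 4) (nat_lit 506) (nat_lit 412) (nat_lit 282)) (XT.lf (nat_lit 0) (nat_lit 872021954686) (nat_lit 76) (nat_lit 713955803271) (nat_lit 76) (nat_lit 693995238471) (nat_lit 3) (nat_lit 4) (nat_lit 4) (nat_lit 5) (nat_lit 4) (nat_lit 4) (nat_lit 507) (nat_lit 412) (nat_lit 281)))) (XT.nd (nat_lit 78) (nat_lit 0) (nat_lit 0) (XT.lf (nat_lit 0) (nat_lit 1098578046366) (nat_lit 76) (nat_lit 688830348320) (nat_lit 76) (nat_lit 668869721670) (nat_lit 3) (nat_lit 4) (nat_lit 4) (nat_lit 5) (nat_lit 4) (nat_lit 4) (nat_lit 508) (nat_lit 412) (nat_lit 280)) (XT.nd (nat_lit 78) (nat_lit 0) (nat_lit 0) (XT.lf (nat_lit 0) (nat_lit 1343257689783) (nat_lit 76) (nat_lit 661695338185) (nat_lit 76) (nat_lit 641734654265) (nat_lit 3) (nat_lit 4) (nat_lit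 4) (nat_lit 5) (nat_lit 4) (nat_lit 4) (nat_lit 509) (nat_lit 412) (nat_lit 279)) (XT.lf (nat_lit 0) (nat_lit 1607510838378) (nat_lit 76) (nat_lit 632389972805) (nat_lit 76) (nat_lit 612429235858) (nat_lit 3) (nat_lit 4) (nat_lit 4) (nat_lit 5) (nat_lit 4) (nat_lit 4) (nat_lit 510) (nat_lit 412) (nat_lit 278))))))) (XT.nd (nat_lit 936) (nat_lit 152) (nat_lit 0) (XT.nd (nat_lit 468) (nat_lit 0) (nat_lit 0) (XT.nd (nat_lit 234) (nat_lit 0) (nat_lit 0) (XT.nd (nat_lit 78) (nat_lit 0) (nat_lit 0) (XT.lf (nat_lit 0) (nat_lit 1892903436737) (nat_lit 76) (nat_lit 600740590757) (nat_lit 76) (nat_lit 580779804711) (nat_lit 3) (nat_lit 4) (nat_lit 4) (nat_lit 5) (nat_lit 4) (nat_lit 4) (nat_lit 511) (nat_lit 412) (nat_lit 277)) (XT.nd (nat_lit 78) (nat_lit 0) (nat_lit 0) (XT.lf (nat_lit 0) (nat_lit 2201126700257) (nat_lit 76) (nat_lit 566559640146) (nat_lit 76) (nat_lit 546598808638) (nat_lit 3)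 (nat_lit 4) (nat_lit 4) (nat_lit 5) (nat_lit 4) (nat_lit 4) (nat_lit 512) (nat_lit 412) (nat_lit 276)) (XT.lf (nat_lit 0) (nat_lit 2534007137165) (nat_lit 76) (nat_lit 529644567192) (nat_lit 76) (nat_lit 509683693589) (nat_lit 3) (nat_lit 4) (nat_lit 4) (nat_lit 5) (nat_lit 4) (nat_lit 4) (nat_lit 513) (nat_lit 412) (nat_lit 275)))) (XT.nd (nat_lit 78) (nat_lit 0) (nat_lit 0) (XT.lf (nat_lit 0) (nat_lit 2893517372275) (nat_lit 76) (nat_lit 489776615906) (nat_lit 76) (nat_lit 469815703327) (nat_lit 3) (nat_lit 4) (nat_lit 4) (nat_lit 5) (nat_lit 4) (nat_lit 4) (nat_lit 514) (nat_lit 412) (nat_lit 274)) (XT.nd (nat_lit 78) (nat_lit 0) (nat_lit 0) (XT.lf (nat_lit 0) (nat_lit 3281787836608) (nat_lit 76) (nat_lit 446719531762) (nat_lit 76) (nat_lit 426758583094) (nat_lit 3) (nat_lit 4) (nat_lit 4) (nat_lit 5) (nat_lit 4) (nat_lit 4) (nat_lit 515) (nat_lit 412) (nat_lit 273)) (XT.lf (nat_lit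 0) (nat_lit 3701119392175) (nat_lit 76) (nat_lit 400218161669) (nat_lit 76) (nat_lit 380257179585) (nat_lit 3) (nat_lit 4) (nat_lit 4) (nat_lit 5) (nat_lit 4) (nat_lit 4) (nat_lit 516) (nat_lit 412) (nat_lit 272))))) (XT.nd (nat_lit 234) (nat_lit 0) (nat_lit 0) (XT.nd (nat_lit 78) (nat_lit 0) (nat_lit 0) (XT.lf (nat_lit 0) (nat_lit 4153996966713) (nat_lit 76) (nat_lit 349996941953) (nat_lit 76) (nat_lit 330035928928) (nat_lit 3) (nat_lit 4) (nat_lit 4) (nat_lit 5) (nat_lit 4) (nat_lit 4) (nat_lit 517) (nat_lit 412) (nat_lit 271)) (XT.nd (nat_lit 78) (nat_lit 0) (nat_lit 0) (XT.lf (nat_lit 0) (nat_lit 4643104279182) (nat_lit 76) (nat_lit 295758265385) (nat_lit 76) (nat_lit 275797223711) (nat_lit 3) (nat_lit 4) (nat_lit 4) (nat_lit 5) (nat_lit 4) (nat_lit 4) (nat_lit 518) (nat_lit 412) (nat_lit 270)) (XT.lf (nat_lit 0) (nat_lit 5171339743286) (nat_lit 76) (nat_lit 237180717586) (nat_lit 76)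 (nat_lit 217219649385) (nat_lit 3) (nat_lit 4) (nat_lit 4) (nat_lit 5) (nat_lit 4) (nat_lit 4) (nat_lit 519) (nat_lit 412) (nat_lit 269)))) (XT.nd (nat_lit 78) (nat_lit 0) (nat_lit 0) (XT.lf (nat_lit 0) (nat_lit 5741833643256) (nat_lit 76) (nat_lit 173917172346) (nat_lit 76) (nat_lit 153956079584) (nat_lit 3) (nat_lit 4) (nat_lit 4) (nat_lit 5) (nat_lit 4) (nat_lit 4) (nat_lit 520) (nat_lit 412) (nat_lit 268)) (XT.nd (nat_lit 78) (nat_lit 0) (nat_lit 0) (XT.lf (nat_lit 0) (nat_lit 6357966683685) (nat_lit 76) (nat_lit 105592734583) (nat_lit 76) (nat_lit 85631619078) (nat_lit 3) (nat_lit 4) (nat_lit 4) (nat_lit 5) (nat_lit 4) (nat_lit 4) (nat_lit 521) (nat_lit 412) (nat_lit 267)) (XT.lf (nat_lit 0) (nat_lit 7023390023331) (nat_lit 76) (nat_lit 31802518740) (nat_lit 76) (nat_lit 11841382177) (nat_lit 3) (nat_lit 4) (nat_lit 4) (nat_lit 5) (nat_lit 4) (nat_lit 4) (nat_lit 522) (nat_lit 412)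 (nat_lit 266)))))) (XT.nd (nat_lit 468) (nat_lit 0) (nat_lit 0) (XT.nd (nat_lit 234) (nat_lit 0) (nat_lit 0) (XT.nd (nat_lit 78) (nat_lit 0) (nat_lit 0) (XT.lf (nat_lit 0) (nat_lit 68615755912) (nat_lit 152) (nat_lit 7507092101247) (nat_lit 0) (nat_lit 50133204003) (nat_lit 1) (nat_lit 5) (nat_lit 3) (nat_lit 4) (nat_lit 1) (nat_lit 4) (nat_lit 523) (nat_lit 412) (nat_lit 265)) (XT.nd (nat_lit 78) (nat_lit 0) (nat_lit 0) (XT.lf (nat_lit 0) (nat_lit 156919900162) (nat_lit 152) (nat_lit 7933806917677) (nat_lit 0) (nat_lit 138437331537) (nat_lit 1) (nat_lit 5) (nat_lit 3) (nat_lit 4) (nat_lit 1) (nat_lit 4) (nat_lit 524) (nat_lit 412) (nat_lit 264)) (XT.lf (nat_lit 0) (nat_lit 252288229127) (nat_lit 152) (nat_lit 8394659222241) (nat_lit 0) (nat_lit 233805645025) (nat_lit 1) (nat_lit 5) (nat_lit 3) (nat_lit 4) (nat_lit 1) (nat_lit 4) (nat_lit 525) (nat_lit 412) (nat_lit 263)))) (XT.nd (nat_lit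 78) (nat_lit 0) (nat_lit 0) (XT.lf (nat_lit 0) (nat_lit 355285888462) (nat_lit 152) (nat_lit 8892379991558) (nat_lit 0) (nat_lit 336803290028) (nat_lit 1) (nat_lit 5) (nat_lit 3) (nat_lit 4) (nat_lit 1) (nat_lit 4) (nat_lit 526) (nat_lit 412) (nat_lit 262)) (XT.nd (nat_lit 78) (nat_lit 0) (nat_lit 0) (XT.lf (nat_lit 0) (nat_lit 466523234666) (nat_lit 152) (nat_lit 9429918682041) (nat_lit 0) (nat_lit 448040622962) (nat_lit 1) (nat_lit 5) (nat_lit 3) (nat_lit 4) (nat_lit 1) (nat_lit 4) (nat_lit 527) (nat_lit 412) (nat_lit 261)) (XT.lf (nat_lit 0) (nat_lit 586659452012) (nat_lit 152) (nat_lit 10010460708151) (nat_lit 0) (nat_lit 568176828021) (nat_lit 1) (nat_lit 5) (nat_lit 3) (nat_lit 4) (nat_lit 1) (nat_lit 4) (nat_lit 528) (nat_lit 412) (nat_lit 260))))) (XT.nd (nat_lit 53586) (nat_lit 0) (nat_lit 5928) (XT.nd (nat_lit 53430) (nat_lit 0) (nat_lit 5852) (XT.lf (nat_lit 0) (nat_lit 716406458825)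 (nat_lit 152) (nat_lit 10637446318931) (nat_lit 0) (nat_lit 697923823457) (nat_lit 1) (nat_lit 5) (nat_lit 3) (nat_lit 4) (nat_lit 1) (nat_lit 4) (nat_lit 529) (nat_lit 412) (nat_lit 259)) (XT.nd (nat_lit 78) (nat_lit 0) (nat_lit 0) (XT.lf (nat_lit 0) (nat_lit 3045187634) (nat_lit 532) (nat_lit 1328231658) (nat_lit 532) (nat_lit 1328231658) (nat_lit 78) (nat_lit 3) (nat_lit 85) (nat_lit 3) (nat_lit 85) (nat_lit 5) (nat_lit 413) (nat_lit 413) (nat_lit 374)) (XT.lf (nat_lit 76) (nat_lit 3134973982) (nat_lit 0) (nat_lit 3779161105) (nat_lit 532) (nat_lit 4898684435) (nat_lit 79) (nat_lit 5) (nat_lit 78) (nat_lit 3) (nat_lit 85) (nat_lit 5) (nat_lit 414) (nat_lit 413) (nat_lit 373)))) (XT.nd (nat_lit 78) (nat_lit 0) (nat_lit 0) (XT.lf (nat_lit 0) (nat_lit 7865807057) (nat_lit 456) (nat_lit 2781886646) (nat_lit 532) (nat_lit 1602464235) (nat_lit 79) (nat_lit 5) (nat_lit 85) (nat_lit 5) (nat_lit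 86) (nat_lit 5) (nat_lit 415) (nat_lit 413) (nat_lit 372)) (XT.nd (nat_lit 78) (nat_lit 0) (nat_lit 76) (XT.lf (nat_lit 76) (nat_lit 3638711895) (nat_lit 0) (nat_lit 5393674550) (nat_lit 532) (nat_lit 3679013884) (nat_lit 80) (nat_lit 5) (nat_lit 79) (nat_lit 5) (nat_lit 86) (nat_lit 5) (nat_lit 416) (nat_lit 413) (nat_lit 371)) (XT.lf (nat_lit 0) (nat_lit 10333269051) (nat_lit 456) (nat_lit 2515020668) (nat_lit 532) (nat_lit 357991643) (nat_lit 80) (nat_lit 5) (nat_lit 86) (nat_lit 5) (nat_lit 87) (nat_lit 5) (nat_lit 417) (nat_lit 413) (nat_lit 370))))))))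
noncomputable def xc127 : XT := (XT.nd (nat_lit 1794) (nat_lit 1672) (nat_lit 0) (XT.nd (nat_lit 858) (nat_lit 1292) (nat_lit 0) (XT.nd (nat_lit 390) (nat_lit 684) (nat_lit 0) (XT.nd (nat_lit 156) (nat_lit 912) (nat_lit 0) (XT.nd (nat_lit 78) (nat_lit 0) (nat_lit 0) (XT.lf (nat_lit 76) (nat_lit 4627148099) (nat_lit 0) (nat_lit 7321887353) (nat_lit 532) (nat_lit 1774868484) (nat_lit 81) (nat_lit 5) (nat_lit 80) (nat_lit 5) (nat_lit 87) (nat_lit 5) (nat_lit 418) (nat_lit 413) (nat_lit 369)) (XT.lf (nat_lit 76) (nat_lit 12453033265) (nat_lit 0) (nat_lit 1271496520) (nat_lit 532) (nat_lit 555984121) (nat_lit 81) (nat_lit 5) (nat_lit 80) (nat_lit 5) (nat_lit 87) (nat_lit 5) (nat_lit 419) (nat_lit 413) (nat_lit 368))) (XT.nd (nat_lit 78) (nat_lit 456) (nat_lit 0) (XT.lf (nat_lit 0) (nat_lit 968357517) (nat_lit 532) (nat_lit 8712814910) (nat_lit 76) (nat_lit 5179351174) (nat_lit 74) (nat_lit 5)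 (nat_lit 81) (nat_lit 5) (nat_lit 75) (nat_lit 5) (nat_lit 420) (nat_lit 413) (nat_lit 367)) (XT.nd (nat_lit 78) (nat_lit 456) (nat_lit 0) (XT.lf (nat_lit 0) (nat_lit 2634604343) (nat_lit 532) (nat_lit 699315441) (nat_lit 76) (nat_lit 12147871205) (nat_lit 74) (nat_lit 5) (nat_lit 81) (nat_lit 5) (nat_lit 75) (nat_lit 5) (nat_lit 421) (nat_lit 413) (nat_lit 366)) (XT.lf (nat_lit 0) (nat_lit 4692969837) (nat_lit 532) (nat_lit 7886656837) (nat_lit 76) (nat_lit 3552438546) (nat_lit 68) (nat_lit 5) (nat_lit 75) (nat_lit 5) (nat_lit 69) (nat_lit 5) (nat_lit 422) (nat_lit 413) (nat_lit 365))))) (XT.nd (nat_lit 234) (nat_lit 228) (nat_lit 0) (XT.nd (nat_lit 78) (nat_lit 228) (nat_lit 0) (XT.lf (nat_lit 0) (nat_lit 1046159606) (nat_lit 228) (nat_lit 5971130419) (nat_lit 304) (nat_lit 9808978682) (nat_lit 65) (nat_lit 5) (nat_lit 68) (nat_lit 5) (nat_lit 69) (nat_lit 5) (nat_lit 423) (nat_lit 413)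 (nat_lit 364)) (XT.nd (nat_lit 78) (nat_lit 228) (nat_lit 0) (XT.lf (nat_lit 0) (nat_lit 9748177110) (nat_lit 304) (nat_lit 6483448464) (nat_lit 76) (nat_lit 1326742596) (nat_lit 65) (nat_lit 5) (nat_lit 69) (nat_lit 5) (nat_lit 66) (nat_lit 5) (nat_lit 424) (nat_lit 413) (nat_lit 363)) (XT.lf (nat_lit 0) (nat_lit 3548656882) (nat_lit 228) (nat_lit 9362782463) (nat_lit 304) (nat_lit 5420492618) (nat_lit 62) (nat_lit 5) (nat_lit 65) (nat_lit 5) (nat_lit 66) (nat_lit 5) (nat_lit 425) (nat_lit 413) (nat_lit 362)))) (XT.nd (nat_lit 78) (nat_lit 228) (nat_lit 0) (XT.lf (nat_lit 0) (nat_lit 14722115603) (nat_lit 228) (nat_lit 1757626190) (nat_lit 304) (nat_lit 2675488787) (nat_lit 62) (nat_lit 5) (nat_lit 65) (nat_lit 5) (nat_lit 66) (nat_lit 5) (nat_lit 426) (nat_lit 413) (nat_lit 361)) (XT.nd (nat_lit 78) (nat_lit 0) (nat_lit 0) (XT.lf (nat_lit 0) (nat_lit 580210572) (nat_lit 228) (nat_lit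 13129511555) (nat_lit 76) (nat_lit 6309676975) (nat_lit 59) (nat_lit 5) (nat_lit 62) (nat_lit 5) (nat_lit 60) (nat_lit 5) (nat_lit 427) (nat_lit 413) (nat_lit 360)) (XT.lf (nat_lit 0) (nat_lit 4098770926) (nat_lit 228) (nat_lit 1720421498) (nat_lit 76) (nat_lit 15116199548) (nat_lit 59) (nat_lit 5) (nat_lit 62) (nat_lit 5) (nat_lit 60) (nat_lit 5) (nat_lit 428) (nat_lit 413) (nat_lit 359)))))) (XT.nd (nat_lit 468) (nat_lit 532) (nat_lit 0) (XT.nd (nat_lit 234) (nat_lit 380) (nat_lit 0) (XT.nd (nat_lit 78) (nat_lit 152) (nat_lit 0) (XT.lf (nat_lit 0) (nat_lit 8216948427) (nat_lit 304) (nat_lit 10846322746) (nat_lit 76) (nat_lit 2835948440) (nat_lit 56) (nat_lit 5) (nat_lit 60) (nat_lit 5) (nat_lit 57) (nat_lit 5) (nat_lit 429) (nat_lit 413) (nat_lit 358)) (XT.nd (nat_lit 78) (nat_lit 0) (nat_lit 0) (XT.lf (nat_lit 0) (nat_lit 1924929606) (nat_lit 152) (nat_lit 10964774787) (nat_lit 228)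 (nat_lit 10032444615) (nat_lit 54) (nat_lit 5) (nat_lit 56) (nat_lit 5) (nat_lit 57) (nat_lit 5) (nat_lit 430) (nat_lit 413) (nat_lit 357)) (XT.lf (nat_lit 0) (nat_lit 16306918508) (nat_lit 152) (nat_lit 1906196367) (nat_lit 228) (nat_lit 5791656236) (nat_lit 54) (nat_lit 5) (nat_lit 56) (nat_lit 5) (nat_lit 57) (nat_lit 5) (nat_lit 431) (nat_lit 413) (nat_lit 356)))) (XT.nd (nat_lit 78) (nat_lit 228) (nat_lit 0) (XT.lf (nat_lit 0) (nat_lit 6788582359) (nat_lit 152) (nat_lit 17508082523) (nat_lit 228) (nat_lit 850601469) (nat_lit 52) (nat_lit 5) (nat_lit 54) (nat_lit 5) (nat_lit 55) (nat_lit 5) (nat_lit 432) (nat_lit 413) (nat_lit 355)) (XT.nd (nat_lit 78) (nat_lit 152) (nat_lit 0) (XT.lf (nat_lit 0) (nat_lit 4508620068) (nat_lit 228) (nat_lit 3682774713) (nat_lit 76) (nat_lit 18161357720) (nat_lit 51) (nat_lit 5) (nat_lit 54) (nat_lit 5) (nat_lit 52) (nat_lit 5) (nat_lit 433) (nat_lit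 413) (nat_lit 354)) (XT.lf (nat_lit 0) (nat_lit 10593956707) (nat_lit 228) (nat_lit 14925003716) (nat_lit 76) (nat_lit 2106486813) (nat_lit 49) (nat_lit 5) (nat_lit 52) (nat_lit 5) (nat_lit 50) (nat_lit 5) (nat_lit 434) (nat_lit 413) (nat_lit 353))))) (XT.nd (nat_lit 234) (nat_lit 228) (nat_lit 0) (XT.nd (nat_lit 78) (nat_lit 152) (nat_lit 0) (XT.lf (nat_lit 0) (nat_lit 1442924297) (nat_lit 152) (nat_lit 16057593022) (nat_lit 228) (nat_lit 11472691926) (nat_lit 47) (nat_lit 5) (nat_lit 49) (nat_lit 5) (nat_lit 50) (nat_lit 5) (nat_lit 435) (nat_lit 413) (nat_lit 352)) (XT.nd (nat_lit 78) (nat_lit 152) (nat_lit 0) (XT.lf (nat_lit 0) (nat_lit 19943998809) (nat_lit 152) (nat_lit 5407912050) (nat_lit 228) (nat_lit 5045499910) (nat_lit 47) (nat_lit 5) (nat_lit 49) (nat_lit 5) (nat_lit 50) (nat_lit 5) (nat_lit 436) (nat_lit 413) (nat_lit 351)) (XT.lf (nat_lit 0) (nat_lit 2139282294) (nat_lit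 152) (nat_lit 23732742383) (nat_lit 76) (nat_lit 6032818526) (nat_lit 45) (nat_lit 5) (nat_lit 47) (nat_lit 5) (nat_lit 46) (nat_lit 5) (nat_lit 437) (nat_lit 413) (nat_lit 350)))) (XT.nd (nat_lit 78) (nat_lit 228) (nat_lit 0) (XT.lf (nat_lit 0) (nat_lit 10045311698) (nat_lit 152) (nat_lit 4931149362) (nat_lit 76) (nat_lit 18512403343) (nat_lit 45) (nat_lit 5) (nat_lit 47) (nat_lit 5) (nat_lit 46) (nat_lit 5) (nat_lit 438) (nat_lit 413) (nat_lit 349)) (XT.nd (nat_lit 78) (nat_lit 76) (nat_lit 0) (XT.lf (nat_lit 0) (nat_lit 16160432507) (nat_lit 152) (nat_lit 2798483859) (nat_lit 228) (nat_lit 16210685852) (nat_lit 43) (nat_lit 5) (nat_lit 45) (nat_lit 5) (nat_lit 46) (nat_lit 5) (nat_lit 439) (nat_lit 413) (nat_lit 348)) (XT.lf (nat_lit 0) (nat_lit 2074203814) (nat_lit 76) (nat_lit 26935322747) (nat_lit 152) (nat_lit 7941361304) (nat_lit 42) (nat_lit 5) (nat_lit 43) (nat_lit 5) (nat_lit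 44) (nat_lit 4) (nat_lit 440) (nat_lit 413) (nat_lit 347))))))) (XT.nd (nat_lit 936) (nat_lit 760) (nat_lit 0) (XT.nd (nat_lit 468) (nat_lit 380) (nat_lit 0) (XT.nd (nat_lit 234) (nat_lit 304) (nat_lit 0) (XT.nd (nat_lit 78) (nat_lit 152) (nat_lit 0) (XT.lf (nat_lit 0) (nat_lit 1532753649) (nat_lit 152) (nat_lit 13040699115) (nat_lit 76) (nat_lit 24251902154) (nat_lit 41) (nat_lit 5) (nat_lit 43) (nat_lit 5) (nat_lit 42) (nat_lit 5) (nat_lit 441) (nat_lit 413) (nat_lit 346)) (XT.nd (nat_lit 78) (nat_lit 0) (nat_lit 0) (XT.lf (nat_lit 0) (nat_lit 10857813614) (nat_lit 152) (nat_lit 726863570) (nat_lit 228) (nat_lit 29228688817) (nat_lit 39) (nat_lit 5) (nat_lit 41) (nat_lit 5) (nat_lit 42) (nat_lit 5) (nat_lit 442) (nat_lit 413) (nat_lit 345)) (XT.lf (nat_lit 0) (nat_lit 23136723662) (nat_lit 228) (nat_lit 5894910064) (nat_lit 76) (nat_lit 13873108321) (nat_lit 39) (nat_lit 5) (nat_lit 42)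 (nat_lit 5) (nat_lit 40) (nat_lit 4) (nat_lit 443) (nat_lit 413) (nat_lit 344)))) (XT.nd (nat_lit 78) (nat_lit 228) (nat_lit 0) (XT.lf (nat_lit 0) (nat_lit 21107758660) (nat_lit 76) (nat_lit 15020568597) (nat_lit 152) (nat_lit 8993870931) (nat_lit 38) (nat_lit 5) (nat_lit 39) (nat_lit 5) (nat_lit 40) (nat_lit 4) (nat_lit 444) (nat_lit 413) (nat_lit 343)) (XT.nd (nat_lit 78) (nat_lit 0) (nat_lit 0) (XT.lf (nat_lit 0) (nat_lit 2751046829) (nat_lit 228) (nat_lit 44331116278) (nat_lit 76) (nat_lit 410524372) (nat_lit 35) (nat_lit 5) (nat_lit 38) (nat_lit 5) (nat_lit 36) (nat_lit 4) (nat_lit 445) (nat_lit 413) (nat_lit 342)) (XT.lf (nat_lit 0) (nat_lit 16002543591) (nat_lit 228) (nat_lit 16783773883) (nat_lit 76) (nat_lit 17163579997) (nat_lit 35) (nat_lit 5) (nat_lit 38) (nat_lit 5) (nat_lit 36) (nat_lit 4) (nat_lit 446) (nat_lit 413) (nat_lit 341))))) (XT.nd (nat_lit 234) (nat_lit 152) (nat_lit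 0) (XT.nd (nat_lit 78) (nat_lit 152) (nat_lit 0) (XT.lf (nat_lit 0) (nat_lit 13630637005) (nat_lit 76) (nat_lit 17001240021) (nat_lit 152) (nat_lit 21946390970) (nat_lit 34) (nat_lit 5) (nat_lit 35) (nat_lit 5) (nat_lit 36) (nat_lit 4) (nat_lit 447) (nat_lit 413) (nat_lit 340)) (XT.nd (nat_lit 78) (nat_lit 152) (nat_lit 0) (XT.lf (nat_lit 0) (nat_lit 46893508805) (nat_lit 152) (nat_lit 7979220791) (nat_lit 0) (nat_lit 507223443) (nat_lit 34) (nat_lit 5) (nat_lit 36) (nat_lit 4) (nat_lit 34) (nat_lit 4) (nat_lit 448) (nat_lit 413) (nat_lit 339)) (XT.lf (nat_lit 0) (nat_lit 6840761736) (nat_lit 152) (nat_lit 32169093011) (nat_lit 76) (nat_lit 19296828307) (nat_lit 32) (nat_lit 5) (nat_lit 34) (nat_lit 5) (nat_lit 33) (nat_lit 4) (nat_lit 449) (nat_lit 413) (nat_lit 338)))) (XT.nd (nat_lit 78) (nat_lit 76) (nat_lit 0) (XT.lf (nat_lit 0) (nat_lit 1835819538) (nat_lit 76) (nat_lit 21358618129)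 (nat_lit 152) (nat_lit 38234777879) (nat_lit 31) (nat_lit 5) (nat_lit 32) (nat_lit 5) (nat_lit 33) (nat_lit 4) (nat_lit 450) (nat_lit 413) (nat_lit 337)) (XT.nd (nat_lit 78) (nat_lit 76) (nat_lit 0) (XT.lf (nat_lit 0) (nat_lit 40373694542) (nat_lit 76) (nat_lit 1353345686) (nat_lit 152) (nat_lit 23004860548) (nat_lit 31) (nat_lit 5) (nat_lit 32) (nat_lit 5) (nat_lit 33) (nat_lit 4) (nat_lit 451) (nat_lit 413) (nat_lit 336)) (XT.lf (nat_lit 0) (nat_lit 13887280798) (nat_lit 76) (nat_lit 48667585061) (nat_lit 76) (nat_lit 5678926463) (nat_lit 30) (nat_lit 4) (nat_lit 31) (nat_lit 5) (nat_lit 31) (nat_lit 4) (nat_lit 452) (nat_lit 413) (nat_lit 335)))))) (XT.nd (nat_lit 468) (nat_lit 380) (nat_lit 0) (XT.nd (nat_lit 234) (nat_lit 228) (nat_lit 0) (XT.nd (nat_lit 78) (nat_lit 76) (nat_lit 0) (XT.lf (nat_lit 0) (nat_lit 13091151191) (nat_lit 152) (nat_lit 15766953480) (nat_lit 76) (nat_lit 43075852521)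 (nat_lit 29) (nat_lit 5) (nat_lit 31) (nat_lit 5) (nat_lit 30) (nat_lit 4) (nat_lit 453) (nat_lit 413) (nat_lit 334)) (XT.nd (nat_lit 78) (nat_lit 0) (nat_lit 0) (XT.lf (nat_lit 0) (nat_lit 27091719580) (nat_lit 76) (nat_lit 6608074892) (nat_lit 152) (nat_lit 42167039443) (nat_lit 28) (nat_lit 5) (nat_lit 29) (nat_lit 5) (nat_lit 30) (nat_lit 4) (nat_lit 454) (nat_lit 413) (nat_lit 333)) (XT.lf (nat_lit 0) (nat_lit 56810690210) (nat_lit 152) (nat_lit 6249321146) (nat_lit 0) (nat_lit 16986045044) (nat_lit 28) (nat_lit 5) (nat_lit 30) (nat_lit 4) (nat_lit 28) (nat_lit 4) (nat_lit 455) (nat_lit 413) (nat_lit 332)))) (XT.nd (nat_lit 78) (nat_lit 152) (nat_lit 0) (XT.lf (nat_lit 0) (nat_lit 41572601740) (nat_lit 76) (nat_lit 41362157675) (nat_lit 76) (nat_lit 1531713593) (nat_lit 27) (nat_lit 4) (nat_lit 28) (nat_lit 5) (nat_lit 28) (nat_lit 4) (nat_lit 456) (nat_lit 413) (nat_lit 331)) (XT.nd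 (nat_lit 78) (nat_lit 0) (nat_lit 0) (XT.lf (nat_lit 0) (nat_lit 4003836902) (nat_lit 76) (nat_lit 17072918074) (nat_lit 152) (nat_lit 68100459912) (nat_lit 25) (nat_lit 5) (nat_lit 26) (nat_lit 5) (nat_lit 27) (nat_lit 4) (nat_lit 457) (nat_lit 413) (nat_lit 330)) (XT.lf (nat_lit 0) (nat_lit 46827596208) (nat_lit 152) (nat_lit 37382741311) (nat_lit 0) (nat_lit 9937980389) (nat_lit 25) (nat_lit 5) (nat_lit 27) (nat_lit 4) (nat_lit 25) (nat_lit 4) (nat_lit 458) (nat_lit 413) (nat_lit 329))))) (XT.nd (nat_lit 234) (nat_lit 152) (nat_lit 0) (XT.nd (nat_lit 78) (nat_lit 152) (nat_lit 0) (XT.lf (nat_lit 0) (nat_lit 14500092871) (nat_lit 76) (nat_lit 60924022975) (nat_lit 76) (nat_lit 24030144779) (nat_lit 24) (nat_lit 4) (nat_lit 25) (nat_lit 5) (nat_lit 25) (nat_lit 4) (nat_lit 459) (nat_lit 413) (nat_lit 328)) (XT.nd (nat_lit 78) (nat_lit 76) (nat_lit 0) (XT.lf (nat_lit 0) (nat_lit 2109573928)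 (nat_lit 152) (nat_lit 32509911069) (nat_lit 76) (nat_lit 70479663572) (nat_lit 23) (nat_lit 5) (nat_lit 25) (nat_lit 5) (nat_lit 24) (nat_lit 4) (nat_lit 460) (nat_lit 413) (nat_lit 327)) (XT.lf (nat_lit 0) (nat_lit 24730853109) (nat_lit 76) (nat_lit 4900075857) (nat_lit 152) (nat_lit 81467669222) (nat_lit 22) (nat_lit 5) (nat_lit 23) (nat_lit 5) (nat_lit 24) (nat_lit 4) (nat_lit 461) (nat_lit 413) (nat_lit 326)))) (XT.nd (nat_lit 78) (nat_lit 152) (nat_lit 0) (XT.lf (nat_lit 0) (nat_lit 60914005871) (nat_lit 152) (nat_lit 29796360425) (nat_lit 0) (nat_lit 26742836655) (nat_lit 22) (nat_lit 5) (nat_lit 24) (nat_lit 4) (nat_lit 22) (nat_lit 4) (nat_lit 462) (nat_lit 413) (nat_lit 325)) (XT.nd (nat_lit 78) (nat_lit 76) (nat_lit 0) (XT.lf (nat_lit 0) (nat_lit 32803264983) (nat_lit 76) (nat_lit 62807066625) (nat_lit 76) (nat_lit 28632996508) (nat_lit 21) (nat_lit 4) (nat_lit 22) (nat_lit 5)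 (nat_lit 22) (nat_lit 4) (nat_lit 463) (nat_lit 413) (nat_lit 324)) (XT.lf (nat_lit 0) (nat_lit 2260644916) (nat_lit 152) (nat_lit 29474614711) (nat_lit 76) (nat_lit 99772085615) (nat_lit 20) (nat_lit 5) (nat_lit 22) (nat_lit 5) (nat_lit 21) (nat_lit 4) (nat_lit 464) (nat_lit 413) (nat_lit 323))))))))
noncomputable def xc128 : XT := (XT.nd (nat_lit 1794) (nat_lit 304) (nat_lit 0) (XT.nd (nat_lit 858) (nat_lit 456) (nat_lit 0) (XT.nd (nat_lit 390) (nat_lit 228) (nat_lit 0) (XT.nd (nat_lit 156) (nat_lit 228) (nat_lit 0) (XT.nd (nat_lit 78) (nat_lit 0) (nat_lit 0) (XT.lf (nat_lit 0) (nat_lit 35089796197) (nat_lit 152) (nat_lit 100679966270) (nat_lit 0) (nat_lit 3442348795) (nat_lit 19) (nat_lit 5) (nat_lit 21) (nat_lit 4) (nat_lit 19) (nat_lit 4) (nat_lit 465) (nat_lit 413) (nat_lit 322)) (XT.lf (nat_lit 0) (nat_lit 72191244965) (nat_lit 152) (nat_lit 34668671227) (nat_lit 0) (nat_lit 40541665313)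 (nat_lit 19) (nat_lit 5) (nat_lit 21) (nat_lit 4) (nat_lit 19) (nat_lit 4) (nat_lit 466) (nat_lit 413) (nat_lit 321))) (XT.nd (nat_lit 78) (nat_lit 152) (nat_lit 0) (XT.lf (nat_lit 0) (nat_lit 38541967516) (nat_lit 76) (nat_lit 74641011220) (nat_lit 76) (nat_lit 42989457264) (nat_lit 18) (nat_lit 4) (nat_lit 19) (nat_lit 5) (nat_lit 19) (nat_lit 4) (nat_lit 467) (nat_lit 413) (nat_lit 320)) (XT.nd (nat_lit 78) (nat_lit 152) (nat_lit 0) (XT.lf (nat_lit 0) (nat_lit 119571752863) (nat_lit 76) (nat_lit 38825563471) (nat_lit 76) (nat_lit 7172181455) (nat_lit 18) (nat_lit 4) (nat_lit 19) (nat_lit 5) (nat_lit 19) (nat_lit 4) (nat_lit 468) (nat_lit 413) (nat_lit 319)) (XT.lf (nat_lit 0) (nat_lit 30740656926) (nat_lit 152) (nat_lit 143422121928) (nat_lit 0) (nat_lit 1430402607) (nat_lit 16) (nat_lit 5) (nat_lit 18) (nat_lit 4) (nat_lit 16) (nat_lit 4) (nat_lit 469) (nat_lit 413) (nat_lit 318)))))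 (XT.nd (nat_lit 234) (nat_lit 152) (nat_lit 0) (XT.nd (nat_lit 78) (nat_lit 76) (nat_lit 0) (XT.lf (nat_lit 0) (nat_lit 73593427968) (nat_lit 152) (nat_lit 68345155090) (nat_lit 0) (nat_lit 44281722475) (nat_lit 16) (nat_lit 5) (nat_lit 18) (nat_lit 4) (nat_lit 16) (nat_lit 4) (nat_lit 470) (nat_lit 413) (nat_lit 317)) (XT.nd (nat_lit 78) (nat_lit 0) (nat_lit 0) (XT.lf (nat_lit 0) (nat_lit 13400057379) (nat_lit 76) (nat_lit 106792567546) (nat_lit 76) (nat_lit 77479518375) (nat_lit 15) (nat_lit 4) (nat_lit 16) (nat_lit 5) (nat_lit 16) (nat_lit 4) (nat_lit 471) (nat_lit 413) (nat_lit 316)) (XT.lf (nat_lit 0) (nat_lit 105563708047) (nat_lit 76) (nat_lit 66820767994) (nat_lit 76) (nat_lit 37506474676) (nat_lit 15) (nat_lit 4) (nat_lit 16) (nat_lit 5) (nat_lit 16) (nat_lit 4) (nat_lit 472) (nat_lit 413) (nat_lit 315)))) (XT.nd (nat_lit 78) (nat_lit 76) (nat_lit 0) (XT.lf (nat_lit 0) (nat_lit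 5377294376) (nat_lit 152) (nat_lit 18130673003) (nat_lit 76) (nat_lit 199568697998) (nat_lit 14) (nat_lit 5) (nat_lit 16) (nat_lit 5) (nat_lit 15) (nat_lit 4) (nat_lit 473) (nat_lit 413) (nat_lit 314)) (XT.nd (nat_lit 78) (nat_lit 0) (nat_lit 0) (XT.lf (nat_lit 0) (nat_lit 52168384468) (nat_lit 152) (nat_lit 159847215836) (nat_lit 0) (nat_lit 25023465985) (nat_lit 13) (nat_lit 5) (nat_lit 15) (nat_lit 4) (nat_lit 13) (nat_lit 4) (nat_lit 474) (nat_lit 413) (nat_lit 313)) (XT.lf (nat_lit 0) (nat_lit 103818484569) (nat_lit 152) (nat_lit 71538065354) (nat_lit 0) (nat_lit 76672651601) (nat_lit 13) (nat_lit 5) (nat_lit 15) (nat_lit 4) (nat_lit 13) (nat_lit 4) (nat_lit 475) (nat_lit 413) (nat_lit 312)))))) (XT.nd (nat_lit 468) (nat_lit 228) (nat_lit 0) (XT.nd (nat_lit 234) (nat_lit 152) (nat_lit 0) (XT.nd (nat_lit 78) (nat_lit 0) (nat_lit 0) (XT.lf (nat_lit 0) (nat_lit 25084073401) (nat_lit 76)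 (nat_lit 135116574760) (nat_lit 76) (nat_lit 107969895046) (nat_lit 12) (nat_lit 4) (nat_lit 13) (nat_lit 5) (nat_lit 13) (nat_lit 4) (nat_lit 476) (nat_lit 413) (nat_lit 311)) (XT.nd (nat_lit 78) (nat_lit 0) (nat_lit 0) (XT.lf (nat_lit 0) (nat_lit 133498031556) (nat_lit 76) (nat_lit 89548198429) (nat_lit 76) (nat_lit 62400734692) (nat_lit 12) (nat_lit 4) (nat_lit 13) (nat_lit 5) (nat_lit 13) (nat_lit 4) (nat_lit 477) (nat_lit 413) (nat_lit 310)) (XT.lf (nat_lit 0) (nat_lit 250579194451) (nat_lit 76) (nat_lit 40337363591) (nat_lit 76) (nat_lit 13189173906) (nat_lit 12) (nat_lit 4) (nat_lit 13) (nat_lit 5) (nat_lit 13) (nat_lit 4) (nat_lit 478) (nat_lit 413) (nat_lit 309)))) (XT.nd (nat_lit 78) (nat_lit 0) (nat_lit 0) (XT.lf (nat_lit 0) (nat_lit 39636144217) (nat_lit 152) (nat_lit 269911804752) (nat_lit 0) (nat_lit 14498309162) (nat_lit 10) (nat_lit 5) (nat_lit 12) (nat_lit 4) (nat_lit 10)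 (nat_lit 4) (nat_lit 479) (nat_lit 413) (nat_lit 308)) (XT.nd (nat_lit 78) (nat_lit 0) (nat_lit 0) (XT.lf (nat_lit 0) (nat_lit 98521427105) (nat_lit 152) (nat_lit 173446457724) (nat_lit 0) (nat_lit 73383015769) (nat_lit 10) (nat_lit 5) (nat_lit 12) (nat_lit 4) (nat_lit 10) (nat_lit 4) (nat_lit 480) (nat_lit 413) (nat_lit 307)) (XT.lf (nat_lit 0) (nat_lit 162114986235) (nat_lit 152) (nat_lit 69269090674) (nat_lit 0) (nat_lit 136976041306) (nat_lit 10) (nat_lit 5) (nat_lit 12) (nat_lit 4) (nat_lit 10) (nat_lit 4) (nat_lit 481) (nat_lit 413) (nat_lit 306))))) (XT.nd (nat_lit 234) (nat_lit 152) (nat_lit 0) (XT.nd (nat_lit 78) (nat_lit 0) (nat_lit 0) (XT.lf (nat_lit 0) (nat_lit 45514461454) (nat_lit 76) (nat_lit 186373834767) (nat_lit 76) (nat_lit 161234395770) (nat_lit 9) (nat_lit 4) (nat_lit 10) (nat_lit 5) (nat_lit 10) (nat_lit 4) (nat_lit 482) (nat_lit 413) (nat_lit 305)) (XT.nd (nat_lit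 78) (nat_lit 0) (nat_lit 0) (XT.lf (nat_lit 0) (nat_lit 173415392413) (nat_lit 76) (nat_lit 135719722139) (nat_lit 76) (nat_lit 110579825672) (nat_lit 9) (nat_lit 4) (nat_lit 10) (nat_lit 5) (nat_lit 10) (nat_lit 4) (nat_lit 483) (nat_lit 413) (nat_lit 304)) (XT.lf (nat_lit 0) (nat_lit 311544046083) (nat_lit 76) (nat_lit 81015506201) (nat_lit 76) (nat_lit 55875186150) (nat_lit 9) (nat_lit 4) (nat_lit 10) (nat_lit 5) (nat_lit 10) (nat_lit 4) (nat_lit 484) (nat_lit 413) (nat_lit 303)))) (XT.nd (nat_lit 78) (nat_lit 76) (nat_lit 0) (XT.lf (nat_lit 0) (nat_lit 3043436466) (nat_lit 152) (nat_lit 18810364408) (nat_lit 76) (nat_lit 457592313223) (nat_lit 8) (nat_lit 5) (nat_lit 10) (nat_lit 5) (nat_lit 9) (nat_lit 4) (nat_lit 485) (nat_lit 413) (nat_lit 302)) (XT.nd (nat_lit 78) (nat_lit 0) (nat_lit 0) (XT.lf (nat_lit 0) (nat_lit 67489706384) (nat_lit 152) (nat_lit 400815026810) (nat_lit 0) (nat_lit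 44210932854) (nat_lit 7) (nat_lit 5) (nat_lit 9) (nat_lit 4) (nat_lit 7) (nat_lit 4) (nat_lit 486) (nat_lit 413) (nat_lit 301)) (XT.lf (nat_lit 0) (nat_lit 138185109122) (nat_lit 152) (nat_lit 295052174317) (nat_lit 0) (nat_lit 114906024245) (nat_lit 7) (nat_lit 5) (nat_lit 9) (nat_lit 4) (nat_lit 7) (nat_lit 4) (nat_lit 487) (nat_lit 413) (nat_lit 300))))))) (XT.nd (nat_lit 858) (nat_lit 76) (nat_lit 0) (XT.nd (nat_lit 390) (nat_lit 152) (nat_lit 0) (XT.nd (nat_lit 156) (nat_lit 76) (nat_lit 0) (XT.nd (nat_lit 78) (nat_lit 0) (nat_lit 0) (XT.lf (nat_lit 0) (nat_lit 214534415068) (nat_lit 152) (nat_lit 180831842018) (nat_lit 0) (nat_lit 191255041907) (nat_lit 7) (nat_lit 5) (nat_lit 9) (nat_lit 4) (nat_lit 7) (nat_lit 4) (nat_lit 488) (nat_lit 413) (nat_lit 299)) (XT.lf (nat_lit 0) (nat_lit 296990064555) (nat_lit 152) (nat_lit 57477168686) (nat_lit 0) (nat_lit 273710424464) (nat_lit 7)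 (nat_lit 5) (nat_lit 9) (nat_lit 4) (nat_lit 7) (nat_lit 4) (nat_lit 489) (nat_lit 413) (nat_lit 298))) (XT.nd (nat_lit 78) (nat_lit 0) (nat_lit 0) (XT.lf (nat_lit 0) (nat_lit 79731319870) (nat_lit 76) (nat_lit 308226903943) (nat_lit 76) (nat_lit 284947016695) (nat_lit 6) (nat_lit 4) (nat_lit 7) (nat_lit 5) (nat_lit 7) (nat_lit 4) (nat_lit 490) (nat_lit 413) (nat_lit 297)) (XT.nd (nat_lit 78) (nat_lit 0) (nat_lit 0) (XT.lf (nat_lit 0) (nat_lit 231182299864) (nat_lit 76) (nat_lit 256591619741) (nat_lit 76) (nat_lit 233311503645) (nat_lit 6) (nat_lit 4) (nat_lit 7) (nat_lit 5) (nat_lit 7) (nat_lit 4) (nat_lit 491) (nat_lit 413) (nat_lit 296)) (XT.lf (nat_lit 0) (nat_lit 394746612741) (nat_lit 76) (nat_lit 200826921417) (nat_lit 76) (nat_lit 177546593423) (nat_lit 6) (nat_lit 4) (nat_lit 7) (nat_lit 5) (nat_lit 7) (nat_lit 4) (nat_lit 492) (nat_lit 413) (nat_lit 295))))) (XT.nd (nat_lit 234)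 (nat_lit 0) (nat_lit 0) (XT.nd (nat_lit 78) (nat_lit 152) (nat_lit 0) (XT.lf (nat_lit 0) (nat_lit 571393528502) (nat_lit 76) (nat_lit 140602351499) (nat_lit 76) (nat_lit 117321827304) (nat_lit 6) (nat_lit 4) (nat_lit 7) (nat_lit 5) (nat_lit 7) (nat_lit 4) (nat_lit 493) (nat_lit 413) (nat_lit 294)) (XT.nd (nat_lit 78) (nat_lit 152) (nat_lit 0) (XT.lf (nat_lit 0) (nat_lit 762169843684) (nat_lit 76) (nat_lit 75561023646) (nat_lit 76) (nat_lit 52280317784) (nat_lit 6) (nat_lit 4) (nat_lit 7) (nat_lit 5) (nat_lit 7) (nat_lit 4) (nat_lit 494) (nat_lit 413) (nat_lit 293)) (XT.lf (nat_lit 0) (nat_lit 12856998268) (nat_lit 76) (nat_lit 4516978818) (nat_lit 152) (nat_lit 938126950538) (nat_lit 4) (nat_lit 5) (nat_lit 5) (nat_lit 5) (nat_lit 6) (nat_lit 4) (nat_lit 495) (nat_lit 413) (nat_lit 292)))) (XT.nd (nat_lit 78) (nat_lit 0) (nat_lit 0) (XT.lf (nat_lit 0) (nat_lit 95097897983) (nat_lit 152)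 (nat_lit 857056186048) (nat_lit 0) (nat_lit 73541388887) (nat_lit 4) (nat_lit 5) (nat_lit 6) (nat_lit 4) (nat_lit 4) (nat_lit 4) (nat_lit 496) (nat_lit 413) (nat_lit 291)) (XT.nd (nat_lit 78) (nat_lit 0) (nat_lit 0) (XT.lf (nat_lit 0) (nat_lit 179156049677) (nat_lit 152) (nat_lit 764740819750) (nat_lit 0) (nat_lit 157599407049) (nat_lit 4) (nat_lit 5) (nat_lit 6) (nat_lit 4) (nat_lit 4) (nat_lit 4) (nat_lit 497) (nat_lit 413) (nat_lit 290)) (XT.lf (nat_lit 0) (nat_lit 269937921099) (nat_lit 152) (nat_lit 665042142990) (nat_lit 0) (nat_lit 248381154831) (nat_lit 4) (nat_lit 5) (nat_lit 6) (nat_lit 4) (nat_lit 4) (nat_lit 4) (nat_lit 498) (nat_lit 413) (nat_lit 289)))))) (XT.nd (nat_lit 468) (nat_lit 0) (nat_lit 0) (XT.nd (nat_lit 234) (nat_lit 76) (nat_lit 0) (XT.nd (nat_lit 78) (nat_lit 0) (nat_lit 0) (XT.lf (nat_lit 0) (nat_lit 367981478895) (nat_lit 152) (nat_lit 557369348796) (nat_lit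 0) (nat_lit 346424598146) (nat_lit 4) (nat_lit 5) (nat_lit 6) (nat_lit 4) (nat_lit 4) (nat_lit 4) (nat_lit 499) (nat_lit 413) (nat_lit 288)) (XT.nd (nat_lit 78) (nat_lit 0) (nat_lit 0) (XT.lf (nat_lit 0) (nat_lit 473867721927) (nat_lit 152) (nat_lit 441084376166) (nat_lit 0) (nat_lit 452310735176) (nat_lit 4) (nat_lit 5) (nat_lit 6) (nat_lit 4) (nat_lit 4) (nat_lit 4) (nat_lit 500) (nat_lit 413) (nat_lit 287)) (XT.lf (nat_lit 0) (nat_lit 588224124226) (nat_lit 152) (nat_lit 315498128963) (nat_lit 0) (nat_lit 566667039326) (nat_lit 4) (nat_lit 5) (nat_lit 6) (nat_lit 4) (nat_lit 4) (nat_lit 4) (nat_lit 501) (nat_lit 413) (nat_lit 286)))) (XT.nd (nat_lit 78) (nat_lit 76) (nat_lit 0) (XT.lf (nat_lit 0) (nat_lit 711728353362) (nat_lit 152) (nat_lit 179866392392) (nat_lit 0) (nat_lit 690171177582) (nat_lit 4) (nat_lit 5) (nat_lit 6) (nat_lit 4) (nat_lit 4) (nat_lit 4) (nat_lit 502) (nat_lit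 413) (nat_lit 285)) (XT.nd (nat_lit 78) (nat_lit 76) (nat_lit 0) (XT.lf (nat_lit 0) (nat_lit 845112286248) (nat_lit 152) (nat_lit 33385422827) (nat_lit 0) (nat_lit 823555026321) (nat_lit 4) (nat_lit 5) (nat_lit 6) (nat_lit 4) (nat_lit 4) (nat_lit 4) (nat_lit 503) (nat_lit 413) (nat_lit 284)) (XT.lf (nat_lit 0) (nat_lit 131385236763) (nat_lit 76) (nat_lit 860940927531) (nat_lit 76) (nat_lit 839383589691) (nat_lit 3) (nat_lit 4) (nat_lit 4) (nat_lit 5) (nat_lit 4) (nat_lit 4) (nat_lit 504) (nat_lit 413) (nat_lit 283))))) (XT.nd (nat_lit 234) (nat_lit 0) (nat_lit 0) (XT.nd (nat_lit 78) (nat_lit 0) (nat_lit 0) (XT.lf (nat_lit 0) (nat_lit 311235029115) (nat_lit 76) (nat_lit 840994367699) (nat_lit 76) (nat_lit 819436957715) (nat_lit 3) (nat_lit 4) (nat_lit 4) (nat_lit 5) (nat_lit 4) (nat_lit 4) (nat_lit 505) (nat_lit 413) (nat_lit 282)) (XT.nd (nat_lit 78) (nat_lit 0) (nat_lit 0) (XT.lf (nat_lit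 0) (nat_lit 505471713573) (nat_lit 76) (nat_lit 819452644365) (nat_lit 76) (nat_lit 797895167582) (nat_lit 3) (nat_lit 4) (nat_lit 4) (nat_lit 5) (nat_lit 4) (nat_lit 4) (nat_lit 506) (nat_lit 413) (nat_lit 281)) (XT.lf (nat_lit 0) (nat_lit 715246322343) (nat_lit 76) (nat_lit 796188102873) (nat_lit 76) (nat_lit 774630564240) (nat_lit 3) (nat_lit 4) (nat_lit 4) (nat_lit 5) (nat_lit 4) (nat_lit 4) (nat_lit 507) (nat_lit 413) (nat_lit 280)))) (XT.nd (nat_lit 78) (nat_lit 0) (nat_lit 0) (XT.lf (nat_lit 0) (nat_lit 941801964216) (nat_lit 76) (nat_lit 771062879274) (nat_lit 76) (nat_lit 749505283372) (nat_lit 3) (nat_lit 4) (nat_lit 4) (nat_lit 5) (nat_lit 4) (nat_lit 4) (nat_lit 508) (nat_lit 413) (nat_lit 279)) (XT.nd (nat_lit 78) (nat_lit 0) (nat_lit 0) (XT.lf (nat_lit 0) (nat_lit 1186481191145) (nat_lit 76) (nat_lit 743928083353) (nat_lit 76) (nat_lit 722370434424) (nat_lit 3) (nat_lit 4)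 (nat_lit 4) (nat_lit 5) (nat_lit 4) (nat_lit 4) (nat_lit 509) (nat_lit 413) (nat_lit 278)) (XT.lf (nat_lit 0) (nat_lit 1450733954103) (nat_lit 76) (nat_lit 714622916321) (nat_lit 76) (nat_lit 693065218292) (nat_lit 3) (nat_lit 4) (nat_lit 4) (nat_lit 5) (nat_lit 4) (nat_lit 4) (nat_lit 510) (nat_lit 413) (nat_lit 277))))))))
noncomputable def xc129 : XT := (XT.nd (nat_lit 55224) (nat_lit 0) (nat_lit 3116) (XT.nd (nat_lit 858) (nat_lit 152) (nat_lit 0) (XT.nd (nat_lit 390) (nat_lit 0) (nat_lit 0) (XT.nd (nat_lit 156) (nat_lit 0) (nat_lit 0) (XT.nd (nat_lit 78) (nat_lit 0) (nat_lit 0) (XT.lf (nat_lit 0) (nat_lit 1736126195391) (nat_lit 76) (nat_lit 682973717927) (nat_lit 76) (nat_lit 661415974436) (nat_lit 3) (nat_lit 4) (nat_lit 4) (nat_lit 5) (nat_lit 4) (nat_lit 4) (nat_lit 511) (nat_lit 413) (nat_lit 276)) (XT.lf (nat_lit 0) (nat_lit 2044349128290) (nat_lit 76) (nat_lit 648792937367)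 (nat_lit 76) (nat_lit 627235151782) (nat_lit 3) (nat_lit 4) (nat_lit 4) (nat_lit 5) (nat_lit 4) (nat_lit 4) (nat_lit 512) (nat_lit 413) (nat_lit 275))) (XT.nd (nat_lit 78) (nat_lit 0) (nat_lit 0) (XT.lf (nat_lit 0) (nat_lit 2377229259068) (nat_lit 76) (nat_lit 611878021867) (nat_lit 76) (nat_lit 590320197305) (nat_lit 3) (nat_lit 4) (nat_lit 4) (nat_lit 5) (nat_lit 4) (nat_lit 4) (nat_lit 513) (nat_lit 413) (nat_lit 274)) (XT.nd (nat_lit 78) (nat_lit 0) (nat_lit 0) (XT.lf (nat_lit 0) (nat_lit 2736739210722) (nat_lit 76) (nat_lit 572010216372) (nat_lit 76) (nat_lit 550452355720) (nat_lit 3) (nat_lit 4) (nat_lit 4) (nat_lit 5) (nat_lit 4) (nat_lit 4) (nat_lit 514) (nat_lit 413) (nat_lit 273)) (XT.lf (nat_lit 0) (nat_lit 3125009412597) (nat_lit 76) (nat_lit 528953267219) (nat_lit 76) (nat_lit 507395373152) (nat_lit 3) (nat_lit 4) (nat_lit 4) (nat_lit 5) (nat_lit 4) (nat_lit 4) (nat_lit 515)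 (nat_lit 413) (nat_lit 272))))) (XT.nd (nat_lit 234) (nat_lit 0) (nat_lit 0) (XT.nd (nat_lit 78) (nat_lit 0) (nat_lit 0) (XT.lf (nat_lit 0) (nat_lit 3544340725148) (nat_lit 76) (nat_lit 482452022119) (nat_lit 76) (nat_lit 460894097111) (nat_lit 3) (nat_lit 4) (nat_lit 4) (nat_lit 5) (nat_lit 4) (nat_lit 4) (nat_lit 516) (nat_lit 413) (nat_lit 271)) (XT.nd (nat_lit 78) (nat_lit 0) (nat_lit 0) (XT.lf (nat_lit 0) (nat_lit 3997218074670) (nat_lit 76) (nat_lit 432230918136) (nat_lit 76) (nat_lit 410672964479) (nat_lit 3) (nat_lit 4) (nat_lit 4) (nat_lit 5) (nat_lit 4) (nat_lit 4) (nat_lit 517) (nat_lit 413) (nat_lit 270)) (XT.lf (nat_lit 0) (nat_lit 4486325178792) (nat_lit 76) (nat_lit 377992348729) (nat_lit 76) (nat_lit 356434368545) (nat_lit 3) (nat_lit 4) (nat_lit 4) (nat_lit 5) (nat_lit 4) (nat_lit 4) (nat_lit 518) (nat_lit 413) (nat_lit 269)))) (XT.nd (nat_lit 78) (nat_lit 0) (nat_lit 0)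 (XT.lf (nat_lit 0) (nat_lit 5014560449982) (nat_lit 76) (nat_lit 319414900153) (nat_lit 76) (nat_lit 297856895407) (nat_lit 3) (nat_lit 4) (nat_lit 4) (nat_lit 5) (nat_lit 4) (nat_lit 4) (nat_lit 519) (nat_lit 413) (nat_lit 268)) (XT.nd (nat_lit 78) (nat_lit 0) (nat_lit 0) (XT.lf (nat_lit 0) (nat_lit 5585054171327) (nat_lit 76) (nat_lit 256151446786) (nat_lit 76) (nat_lit 234593419298) (nat_lit 3) (nat_lit 4) (nat_lit 4) (nat_lit 5) (nat_lit 4) (nat_lit 4) (nat_lit 520) (nat_lit 413) (nat_lit 267)) (XT.lf (nat_lit 0) (nat_lit 6201187046363) (nat_lit 76) (nat_lit 187827094091) (nat_lit 76) (nat_lit 166269045545) (nat_lit 3) (nat_lit 4) (nat_lit 4) (nat_lit 5) (nat_lit 4) (nat_lit 4) (nat_lit 521) (nat_lit 413) (nat_lit 266)))))) (XT.nd (nat_lit 468) (nat_lit 0) (nat_lit 0) (XT.nd (nat_lit 234) (nat_lit 0) (nat_lit 0) (XT.nd (nat_lit 78) (nat_lit 152) (nat_lit 0) (XT.lf (nat_lit 0) (nat_lit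 6866610232868) (nat_lit 76) (nat_lit 114036957014) (nat_lit 76) (nat_lit 92478888970) (nat_lit 3) (nat_lit 4) (nat_lit 4) (nat_lit 5) (nat_lit 4) (nat_lit 4) (nat_lit 522) (nat_lit 413) (nat_lit 265)) (XT.nd (nat_lit 78) (nat_lit 152) (nat_lit 0) (XT.lf (nat_lit 0) (nat_lit 7585266979353) (nat_lit 76) (nat_lit 34343760669) (nat_lit 76) (nat_lit 12785674571) (nat_lit 3) (nat_lit 4) (nat_lit 4) (nat_lit 5) (nat_lit 4) (nat_lit 4) (nat_lit 523) (nat_lit 413) (nat_lit 264)) (XT.lf (nat_lit 0) (nat_lit 74107880868) (nat_lit 152) (nat_lit 8107653561444) (nat_lit 0) (nat_lit 54146674559) (nat_lit 1) (nat_lit 5) (nat_lit 3) (nat_lit 4) (nat_lit 1) (nat_lit 4) (nat_lit 524) (nat_lit 413) (nat_lit 263)))) (XT.nd (nat_lit 78) (nat_lit 0) (nat_lit 0) (XT.lf (nat_lit 0) (nat_lit 169476144474) (nat_lit 152) (nat_lit 8568506000811) (nat_lit 0) (nat_lit 149514923834) (nat_lit 1) (nat_lit 5) (nat_lit 3)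 (nat_lit 4) (nat_lit 1) (nat_lit 4) (nat_lit 525) (nat_lit 413) (nat_lit 262)) (XT.nd (nat_lit 78) (nat_lit 0) (nat_lit 0) (XT.lf (nat_lit 0) (nat_lit 272473743291) (nat_lit 152) (nat_lit 9066226894946) (nat_lit 0) (nat_lit 252512509380) (nat_lit 1) (nat_lit 5) (nat_lit 3) (nat_lit 4) (nat_lit 1) (nat_lit 4) (nat_lit 526) (nat_lit 413) (nat_lit 261)) (XT.lf (nat_lit 0) (nat_lit 383711033459) (nat_lit 152) (nat_lit 9603765701000) (nat_lit 0) (nat_lit 363749787261) (nat_lit 1) (nat_lit 5) (nat_lit 3) (nat_lit 4) (nat_lit 1) (nat_lit 4) (nat_lit 527) (nat_lit 413) (nat_lit 260))))) (XT.nd (nat_lit 53664) (nat_lit 0) (nat_lit 5852) (XT.nd (nat_lit 78) (nat_lit 0) (nat_lit 0) (XT.lf (nat_lit 0) (nat_lit 503847198920) (nat_lit 152) (nat_lit 10184307834120) (nat_lit 0) (nat_lit 483885941346) (nat_lit 1) (nat_lit 5) (nat_lit 3) (nat_lit 4) (nat_lit 1) (nat_lit 4) (nat_lit 528) (nat_lit 413) (nat_lit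 259)) (XT.nd (nat_lit 53508) (nat_lit 0) (nat_lit 5852) (XT.lf (nat_lit 0) (nat_lit 633594157692) (nat_lit 152) (nat_lit 10811293543984) (nat_lit 0) (nat_lit 613632889584) (nat_lit 1) (nat_lit 5) (nat_lit 3) (nat_lit 4) (nat_lit 1) (nat_lit 4) (nat_lit 529) (nat_lit 413) (nat_lit 258)) (XT.lf (nat_lit 0) (nat_lit 3781412037) (nat_lit 532) (nat_lit 1168382123) (nat_lit 532) (nat_lit 1168382123) (nat_lit 78) (nat_lit 3) (nat_lit 85) (nat_lit 3) (nat_lit 85) (nat_lit 5) (nat_lit 414) (nat_lit 414) (nat_lit 372)))) (XT.nd (nat_lit 78) (nat_lit 0) (nat_lit 76) (XT.lf (nat_lit 76) (nat_lit 3904514211) (nat_lit 0) (nat_lit 4487467063) (nat_lit 532) (nat_lit 4291519925) (nat_lit 79) (nat_lit 5) (nat_lit 78) (nat_lit 3) (nat_lit 85) (nat_lit 5) (nat_lit 415) (nat_lit 414) (nat_lit 371)) (XT.nd (nat_lit 78) (nat_lit 0) (nat_lit 0) (XT.lf (nat_lit 0) (nat_lit 9342249138) (nat_lit 456) (nat_lit 2446243266)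 (nat_lit 532) (nat_lit 1373564474) (nat_lit 79) (nat_lit 5) (nat_lit 85) (nat_lit 5) (nat_lit 86) (nat_lit 5) (nat_lit 416) (nat_lit 414) (nat_lit 370)) (XT.lf (nat_lit 76) (nat_lit 4473871657) (nat_lit 0) (nat_lit 6078614053) (nat_lit 532) (nat_lit 3111711630) (nat_lit 80) (nat_lit 5) (nat_lit 79) (nat_lit 5) (nat_lit 86) (nat_lit 5) (nat_lit 417) (nat_lit 414) (nat_lit 369))))))) (XT.nd (nat_lit 936) (nat_lit 1292) (nat_lit 0) (XT.nd (nat_lit 468) (nat_lit 684) (nat_lit 0) (XT.nd (nat_lit 234) (nat_lit 380) (nat_lit 0) (XT.nd (nat_lit 78) (nat_lit 532) (nat_lit 0) (XT.lf (nat_lit 0) (nat_lit 11892720370) (nat_lit 456) (nat_lit 2147450843) (nat_lit 532) (nat_lit 163698413) (nat_lit 80) (nat_lit 5) (nat_lit 86) (nat_lit 5) (nat_lit 87) (nat_lit 5) (nat_lit 418) (nat_lit 414) (nat_lit 368)) (XT.nd (nat_lit 78) (nat_lit 532) (nat_lit 0) (XT.lf (nat_lit 76) (nat_lit 5551692148) (nat_lit 0)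 (nat_lit 8045107875) (nat_lit 532) (nat_lit 1169399388) (nat_lit 81) (nat_lit 5) (nat_lit 80) (nat_lit 5) (nat_lit 87) (nat_lit 5) (nat_lit 419) (nat_lit 414) (nat_lit 367)) (XT.lf (nat_lit 0) (nat_lit 87044797) (nat_lit 532) (nat_lit 1411078091) (nat_lit 608) (nat_lit 13873158762) (nat_lit 73) (nat_lit 5) (nat_lit 80) (nat_lit 5) (nat_lit 81) (nat_lit 5) (nat_lit 420) (nat_lit 414) (nat_lit 366)))) (XT.nd (nat_lit 78) (nat_lit 456) (nat_lit 0) (XT.lf (nat_lit 0) (nat_lit 1665343776) (nat_lit 532) (nat_lit 8823513900) (nat_lit 76) (nat_lit 5510732462) (nat_lit 74) (nat_lit 5) (nat_lit 81) (nat_lit 5) (nat_lit 75) (nat_lit 5) (nat_lit 421) (nat_lit 414) (nat_lit 365)) (XT.nd (nat_lit 78) (nat_lit 456) (nat_lit 0) (XT.lf (nat_lit 0) (nat_lit 3419000150) (nat_lit 532) (nat_lit 212366045) (nat_lit 76) (nat_lit 13042879785) (nat_lit 74) (nat_lit 5) (nat_lit 81) (nat_lit 5) (nat_lit 75) (nat_lit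 5) (nat_lit 422) (nat_lit 414) (nat_lit 364)) (XT.lf (nat_lit 0) (nat_lit 5611916215) (nat_lit 532) (nat_lit 7944392665) (nat_lit 76) (nat_lit 3822657437) (nat_lit 68) (nat_lit 5) (nat_lit 75) (nat_lit 5) (nat_lit 69) (nat_lit 5) (nat_lit 423) (nat_lit 414) (nat_lit 363))))) (XT.nd (nat_lit 234) (nat_lit 228) (nat_lit 0) (XT.nd (nat_lit 78) (nat_lit 228) (nat_lit 0) (XT.lf (nat_lit 0) (nat_lit 1688537784) (nat_lit 228) (nat_lit 6406820720) (nat_lit 304) (nat_lit 10035507045) (nat_lit 65) (nat_lit 5) (nat_lit 68) (nat_lit 5) (nat_lit 69) (nat_lit 5) (nat_lit 424) (nat_lit 414) (nat_lit 362)) (XT.nd (nat_lit 78) (nat_lit 228) (nat_lit 0) (XT.lf (nat_lit 0) (nat_lit 11007378855) (nat_lit 304) (nat_lit 6447328082) (nat_lit 76) (nat_lit 1469825630) (nat_lit 65) (nat_lit 5) (nat_lit 69) (nat_lit 5) (nat_lit 66) (nat_lit 5) (nat_lit 425) (nat_lit 414) (nat_lit 361)) (XT.lf (nat_lit 0) (nat_lit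 4373300217) (nat_lit 228) (nat_lit 10027899694) (nat_lit 304) (nat_lit 5360593373) (nat_lit 62) (nat_lit 5) (nat_lit 65) (nat_lit 5) (nat_lit 66) (nat_lit 5) (nat_lit 426) (nat_lit 414) (nat_lit 360)))) (XT.nd (nat_lit 78) (nat_lit 228) (nat_lit 0) (XT.lf (nat_lit 0) (nat_lit 16400580022) (nat_lit 228) (nat_lit 1820546131) (nat_lit 304) (nat_lit 2432547654) (nat_lit 62) (nat_lit 5) (nat_lit 65) (nat_lit 5) (nat_lit 66) (nat_lit 5) (nat_lit 427) (nat_lit 414) (nat_lit 359)) (XT.nd (nat_lit 78) (nat_lit 0) (nat_lit 0) (XT.lf (nat_lit 0) (nat_lit 1043179479) (nat_lit 228) (nat_lit 13638508718) (nat_lit 76) (nat_lit 6905823084) (nat_lit 59) (nat_lit 5) (nat_lit 62) (nat_lit 5) (nat_lit 60) (nat_lit 5) (nat_lit 428) (nat_lit 414) (nat_lit 358)) (XT.lf (nat_lit 0) (nat_lit 4812368953) (nat_lit 228) (nat_lit 1356792477) (nat_lit 76) (nat_lit 16410099170) (nat_lit 59) (nat_lit 5) (nat_lit 62) (nat_lit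 5) (nat_lit 60) (nat_lit 5) (nat_lit 429) (nat_lit 414) (nat_lit 357)))))) (XT.nd (nat_lit 468) (nat_lit 532) (nat_lit 0) (XT.nd (nat_lit 234) (nat_lit 380) (nat_lit 0) (XT.nd (nat_lit 78) (nat_lit 152) (nat_lit 0) (XT.lf (nat_lit 0) (nat_lit 9246059430) (nat_lit 304) (nat_lit 11198725504) (nat_lit 76) (nat_lit 3176532743) (nat_lit 56) (nat_lit 5) (nat_lit 60) (nat_lit 5) (nat_lit 57) (nat_lit 5) (nat_lit 430) (nat_lit 414) (nat_lit 356)) (XT.nd (nat_lit 78) (nat_lit 0) (nat_lit 0) (XT.lf (nat_lit 0) (nat_lit 2581181389) (nat_lit 152) (nat_lit 11695996370) (nat_lit 228) (nat_lit 10450147653) (nat_lit 54) (nat_lit 5) (nat_lit 56) (nat_lit 5) (nat_lit 57) (nat_lit 5) (nat_lit 431) (nat_lit 414) (nat_lit 355)) (XT.lf (nat_lit 0) (nat_lit 18076525150) (nat_lit 152) (nat_lit 1923543558) (nat_lit 228) (nat_lit 5898606762) (nat_lit 54) (nat_lit 5) (nat_lit 56) (nat_lit 5) (nat_lit 57) (nat_lit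 5) (nat_lit 432) (nat_lit 414) (nat_lit 354)))) (XT.nd (nat_lit 78) (nat_lit 228) (nat_lit 0) (XT.lf (nat_lit 0) (nat_lit 7807587590) (nat_lit 152) (nat_lit 18752733159) (nat_lit 228) (nat_lit 573054430) (nat_lit 52) (nat_lit 5) (nat_lit 54) (nat_lit 5) (nat_lit 55) (nat_lit 5) (nat_lit 433) (nat_lit 414) (nat_lit 353)) (XT.nd (nat_lit 78) (nat_lit 152) (nat_lit 0) (XT.lf (nat_lit 0) (nat_lit 5173297716) (nat_lit 228) (nat_lit 3520656366) (nat_lit 76) (nat_lit 19742632132) (nat_lit 51) (nat_lit 5) (nat_lit 54) (nat_lit 5) (nat_lit 52) (nat_lit 5) (nat_lit 434) (nat_lit 414) (nat_lit 352)) (XT.lf (nat_lit 0) (nat_lit 11737329841) (nat_lit 228) (nat_lit 15654069796) (nat_lit 76) (nat_lit 2420352405) (nat_lit 49) (nat_lit 5) (nat_lit 52) (nat_lit 5) (nat_lit 50) (nat_lit 5) (nat_lit 435) (nat_lit 414) (nat_lit 351))))) (XT.nd (nat_lit 234) (nat_lit 228) (nat_lit 0) (XT.nd (nat_lit 78) (nat_lit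 152) (nat_lit 0) (XT.lf (nat_lit 0) (nat_lit 2011521972) (nat_lit 152) (nat_lit 17173876625) (nat_lit 228) (nat_lit 12082822376) (nat_lit 47) (nat_lit 5) (nat_lit 49) (nat_lit 5) (nat_lit 50) (nat_lit 5) (nat_lit 436) (nat_lit 414) (nat_lit 350)) (XT.nd (nat_lit 78) (nat_lit 152) (nat_lit 0) (XT.lf (nat_lit 0) (nat_lit 21959114762) (nat_lit 152) (nat_lit 5684689608) (nat_lit 228) (nat_lit 5164246472) (nat_lit 47) (nat_lit 5) (nat_lit 49) (nat_lit 5) (nat_lit 50) (nat_lit 5) (nat_lit 437) (nat_lit 414) (nat_lit 349)) (XT.lf (nat_lit 0) (nat_lit 2575089928) (nat_lit 152) (nat_lit 25191441874) (nat_lit 76) (nat_lit 6669479752) (nat_lit 45) (nat_lit 5) (nat_lit 47) (nat_lit 5) (nat_lit 46) (nat_lit 5) (nat_lit 438) (nat_lit 414) (nat_lit 348)))) (XT.nd (nat_lit 78) (nat_lit 228) (nat_lit 0) (XT.lf (nat_lit 0) (nat_lit 11093996866) (nat_lit 152) (nat_lit 4918308071) (nat_lit 76) (nat_lit 20136021299)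 (nat_lit 45) (nat_lit 5) (nat_lit 47) (nat_lit 5) (nat_lit 46) (nat_lit 5) (nat_lit 439) (nat_lit 414) (nat_lit 347)) (XT.nd (nat_lit 78) (nat_lit 76) (nat_lit 0) (XT.lf (nat_lit 0) (nat_lit 17850288114) (nat_lit 152) (nat_lit 2861797549) (nat_lit 228) (nat_lit 17252128902) (nat_lit 43) (nat_lit 5) (nat_lit 45) (nat_lit 5) (nat_lit 46) (nat_lit 5) (nat_lit 440) (nat_lit 414) (nat_lit 346)) (XT.lf (nat_lit 0) (nat_lit 2641822067) (nat_lit 76) (nat_lit 28920643357) (nat_lit 152) (nat_lit 8325882894) (nat_lit 42) (nat_lit 5) (nat_lit 43) (nat_lit 5) (nat_lit 44) (nat_lit 4) (nat_lit 441) (nat_lit 414) (nat_lit 345))))))))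
noncomputable def xc130 : XT := (XT.nd (nat_lit 1794) (nat_lit 1064) (nat_lit 0) (XT.nd (nat_lit 858) (nat_lit 760) (nat_lit 0) (XT.nd (nat_lit 390) (nat_lit 304) (nat_lit 0) (XT.nd (nat_lit 156) (nat_lit 304) (nat_lit 0) (XT.nd (nat_lit 78) (nat_lit 152) (nat_lit 0) (XT.lf (nat_lit 0) (nat_lit 1875968308) (nat_lit 152) (nat_lit 13700379968) (nat_lit 76) (nat_lit 26337356247) (nat_lit 41) (nat_lit 5) (nat_lit 43) (nat_lit 5) (nat_lit 42) (nat_lit 5) (nat_lit 442) (nat_lit 414) (nat_lit 344)) (XT.lf (nat_lit 0) (nat_lit 12100303018) (nat_lit 152) (nat_lit 624393831) (nat_lit 228) (nat_lit 31336649868) (nat_lit 39) (nat_lit 5) (nat_lit 41) (nat_lit 5) (nat_lit 42) (nat_lit 5) (nat_lit 443) (nat_lit 414) (nat_lit 343))) (XT.nd (nat_lit 78) (nat_lit 304) (nat_lit 0) (XT.lf (nat_lit 0) (nat_lit 25188687829) (nat_lit 228) (nat_lit 6008086210) (nat_lit 76) (nat_lit 15124238488) (nat_lit 39) (nat_lit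 5) (nat_lit 42) (nat_lit 5) (nat_lit 40) (nat_lit 4) (nat_lit 444) (nat_lit 414) (nat_lit 342)) (XT.nd (nat_lit 78) (nat_lit 228) (nat_lit 0) (XT.lf (nat_lit 0) (nat_lit 23145722173) (nat_lit 76) (nat_lit 16067408407) (nat_lit 152) (nat_lit 9503255693) (nat_lit 38) (nat_lit 5) (nat_lit 39) (nat_lit 5) (nat_lit 40) (nat_lit 4) (nat_lit 445) (nat_lit 414) (nat_lit 341)) (XT.lf (nat_lit 0) (nat_lit 3168181881) (nat_lit 228) (nat_lit 47515144931) (nat_lit 76) (nat_lit 592990300) (nat_lit 35) (nat_lit 5) (nat_lit 38) (nat_lit 5) (nat_lit 36) (nat_lit 4) (nat_lit 446) (nat_lit 414) (nat_lit 340))))) (XT.nd (nat_lit 234) (nat_lit 228) (nat_lit 0) (XT.nd (nat_lit 78) (nat_lit 76) (nat_lit 0) (XT.lf (nat_lit 0) (nat_lit 17465201991) (nat_lit 228) (nat_lit 17790864082) (nat_lit 76) (nat_lit 18675207117) (nat_lit 35) (nat_lit 5) (nat_lit 38) (nat_lit 5) (nat_lit 36) (nat_lit 4) (nat_lit 447) (nat_lit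 414) (nat_lit 339)) (XT.nd (nat_lit 78) (nat_lit 0) (nat_lit 0) (XT.lf (nat_lit 0) (nat_lit 15048203179) (nat_lit 76) (nat_lit 18211030873) (nat_lit 152) (nat_lit 23511132608) (nat_lit 34) (nat_lit 5) (nat_lit 35) (nat_lit 5) (nat_lit 36) (nat_lit 4) (nat_lit 448) (nat_lit 414) (nat_lit 338)) (XT.lf (nat_lit 0) (nat_lit 50812046716) (nat_lit 152) (nat_lit 8304907463) (nat_lit 0) (nat_lit 680013650) (nat_lit 34) (nat_lit 5) (nat_lit 36) (nat_lit 4) (nat_lit 34) (nat_lit 4) (nat_lit 449) (nat_lit 414) (nat_lit 337)))) (XT.nd (nat_lit 78) (nat_lit 76) (nat_lit 0) (XT.lf (nat_lit 0) (nat_lit 7554257112) (nat_lit 152) (nat_lit 34429116595) (nat_lit 76) (nat_lit 20974530766) (nat_lit 32) (nat_lit 5) (nat_lit 34) (nat_lit 5) (nat_lit 33) (nat_lit 4) (nat_lit 450) (nat_lit 414) (nat_lit 336)) (XT.nd (nat_lit 78) (nat_lit 0) (nat_lit 0) (XT.lf (nat_lit 0) (nat_lit 2288252151) (nat_lit 76) (nat_lit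 22923010199) (nat_lit 152) (nat_lit 41119375468) (nat_lit 31) (nat_lit 5) (nat_lit 32) (nat_lit 5) (nat_lit 33) (nat_lit 4) (nat_lit 451) (nat_lit 414) (nat_lit 335)) (XT.lf (nat_lit 0) (nat_lit 43886522560) (nat_lit 76) (nat_lit 1328004656) (nat_lit 152) (nat_lit 24683967316) (nat_lit 31) (nat_lit 5) (nat_lit 32) (nat_lit 5) (nat_lit 33) (nat_lit 4) (nat_lit 452) (nat_lit 414) (nat_lit 334)))))) (XT.nd (nat_lit 468) (nat_lit 304) (nat_lit 0) (XT.nd (nat_lit 234) (nat_lit 228) (nat_lit 0) (XT.nd (nat_lit 78) (nat_lit 152) (nat_lit 0) (XT.lf (nat_lit 0) (nat_lit 15282556491) (nat_lit 76) (nat_lit 52424773915) (nat_lit 76) (nat_lit 5973307793) (nat_lit 30) (nat_lit 4) (nat_lit 31) (nat_lit 5) (nat_lit 31) (nat_lit 4) (nat_lit 453) (nat_lit 414) (nat_lit 333)) (XT.nd (nat_lit 78) (nat_lit 76) (nat_lit 0) (XT.lf (nat_lit 0) (nat_lit 14279121343) (nat_lit 152) (nat_lit 16757657582) (nat_lit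 76) (nat_lit 46640630750) (nat_lit 29) (nat_lit 5) (nat_lit 31) (nat_lit 5) (nat_lit 30) (nat_lit 4) (nat_lit 454) (nat_lit 414) (nat_lit 332)) (XT.lf (nat_lit 0) (nat_lit 29522857369) (nat_lit 76) (nat_lit 7009522522) (nat_lit 152) (nat_lit 45392863469) (nat_lit 28) (nat_lit 5) (nat_lit 29) (nat_lit 5) (nat_lit 30) (nat_lit 4) (nat_lit 455) (nat_lit 414) (nat_lit 331)))) (XT.nd (nat_lit 78) (nat_lit 228) (nat_lit 0) (XT.lf (nat_lit 0) (nat_lit 61484861154) (nat_lit 152) (nat_lit 6497712795) (nat_lit 0) (nat_lit 18456813262) (nat_lit 28) (nat_lit 5) (nat_lit 30) (nat_lit 4) (nat_lit 28) (nat_lit 4) (nat_lit 456) (nat_lit 414) (nat_lit 330)) (XT.nd (nat_lit 78) (nat_lit 152) (nat_lit 0) (XT.lf (nat_lit 0) (nat_lit 45143595465) (nat_lit 76) (nat_lit 44551578207) (nat_lit 76) (nat_lit 1518558679) (nat_lit 27) (nat_lit 4) (nat_lit 28) (nat_lit 5) (nat_lit 28) (nat_lit 4) (nat_lit 457) (nat_lit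 414) (nat_lit 329)) (XT.lf (nat_lit 0) (nat_lit 4569745284) (nat_lit 76) (nat_lit 18318412493) (nat_lit 152) (nat_lit 73413206607) (nat_lit 25) (nat_lit 5) (nat_lit 26) (nat_lit 5) (nat_lit 27) (nat_lit 4) (nat_lit 458) (nat_lit 414) (nat_lit 328))))) (XT.nd (nat_lit 234) (nat_lit 152) (nat_lit 0) (XT.nd (nat_lit 78) (nat_lit 152) (nat_lit 0) (XT.lf (nat_lit 0) (nat_lit 50692467386) (nat_lit 152) (nat_lit 40139346757) (nat_lit 0) (nat_lit 10838869914) (nat_lit 25) (nat_lit 5) (nat_lit 27) (nat_lit 4) (nat_lit 25) (nat_lit 4) (nat_lit 459) (nat_lit 414) (nat_lit 327)) (XT.nd (nat_lit 78) (nat_lit 76) (nat_lit 0) (XT.lf (nat_lit 0) (nat_lit 15888189758) (nat_lit 76) (nat_lit 65685214506) (nat_lit 76) (nat_lit 25827962733) (nat_lit 24) (nat_lit 4) (nat_lit 25) (nat_lit 5) (nat_lit 25) (nat_lit 4) (nat_lit 460) (nat_lit 414) (nat_lit 326)) (XT.lf (nat_lit 0) (nat_lit 2387933315) (nat_lit 152)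 (nat_lit 34893734088) (nat_lit 76) (nat_lit 76216640647) (nat_lit 23) (nat_lit 5) (nat_lit 25) (nat_lit 5) (nat_lit 24) (nat_lit 4) (nat_lit 461) (nat_lit 414) (nat_lit 325)))) (XT.nd (nat_lit 78) (nat_lit 76) (nat_lit 0) (XT.lf (nat_lit 0) (nat_lit 26920798316) (nat_lit 76) (nat_lit 5187166431) (nat_lit 152) (nat_lit 87869991817) (nat_lit 22) (nat_lit 5) (nat_lit 23) (nat_lit 5) (nat_lit 24) (nat_lit 4) (nat_lit 462) (nat_lit 414) (nat_lit 324)) (XT.nd (nat_lit 78) (nat_lit 76) (nat_lit 0) (XT.lf (nat_lit 0) (nat_lit 65888130678) (nat_lit 152) (nat_lit 31978695910) (nat_lit 0) (nat_lit 28974548029) (nat_lit 22) (nat_lit 5) (nat_lit 24) (nat_lit 4) (nat_lit 22) (nat_lit 4) (nat_lit 463) (nat_lit 414) (nat_lit 323)) (XT.lf (nat_lit 0) (nat_lit 35623801471) (nat_lit 76) (nat_lit 67733599626) (nat_lit 76) (nat_lit 30817529921) (nat_lit 21) (nat_lit 4) (nat_lit 22) (nat_lit 5) (nat_lit 22)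 (nat_lit 4) (nat_lit 464) (nat_lit 414) (nat_lit 322))))))) (XT.nd (nat_lit 936) (nat_lit 456) (nat_lit 0) (XT.nd (nat_lit 468) (nat_lit 228) (nat_lit 0) (XT.nd (nat_lit 234) (nat_lit 228) (nat_lit 0) (XT.nd (nat_lit 78) (nat_lit 76) (nat_lit 0) (XT.lf (nat_lit 0) (nat_lit 2534828399) (nat_lit 152) (nat_lit 31645929464) (nat_lit 76) (nat_lit 107839705095) (nat_lit 20) (nat_lit 5) (nat_lit 22) (nat_lit 5) (nat_lit 21) (nat_lit 4) (nat_lit 465) (nat_lit 414) (nat_lit 321)) (XT.nd (nat_lit 78) (nat_lit 0) (nat_lit 0) (XT.lf (nat_lit 0) (nat_lit 37989965509) (nat_lit 152) (nat_lit 108547359770) (nat_lit 0) (nat_lit 3804312931) (nat_lit 19) (nat_lit 5) (nat_lit 21) (nat_lit 4) (nat_lit 19) (nat_lit 4) (nat_lit 466) (nat_lit 414) (nat_lit 320)) (XT.lf (nat_lit 0) (nat_lit 78052642354) (nat_lit 152) (nat_lit 37269013257) (nat_lit 0) (nat_lit 43865161716) (nat_lit 19) (nat_lit 5) (nat_lit 21) (nat_lit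 4) (nat_lit 19) (nat_lit 4) (nat_lit 467) (nat_lit 414) (nat_lit 319)))) (XT.nd (nat_lit 78) (nat_lit 152) (nat_lit 0) (XT.lf (nat_lit 0) (nat_lit 41794092999) (nat_lit 76) (nat_lit 80527303090) (nat_lit 76) (nat_lit 46338129804) (nat_lit 18) (nat_lit 4) (nat_lit 19) (nat_lit 5) (nat_lit 19) (nat_lit 4) (nat_lit 468) (nat_lit 414) (nat_lit 318)) (XT.nd (nat_lit 78) (nat_lit 152) (nat_lit 0) (XT.lf (nat_lit 0) (nat_lit 129293759835) (nat_lit 76) (nat_lit 41852915006) (nat_lit 76) (nat_lit 7662174452) (nat_lit 18) (nat_lit 4) (nat_lit 19) (nat_lit 5) (nat_lit 19) (nat_lit 4) (nat_lit 469) (nat_lit 414) (nat_lit 317)) (XT.lf (nat_lit 0) (nat_lit 33279264240) (nat_lit 152) (nat_lit 154735193786) (nat_lit 0) (nat_lit 1619827457) (nat_lit 16) (nat_lit 5) (nat_lit 18) (nat_lit 4) (nat_lit 16) (nat_lit 4) (nat_lit 470) (nat_lit 414) (nat_lit 316))))) (XT.nd (nat_lit 234) (nat_lit 152) (nat_lit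 0) (XT.nd (nat_lit 78) (nat_lit 76) (nat_lit 0) (XT.lf (nat_lit 0) (nat_lit 79554378835) (nat_lit 152) (nat_lit 73663973149) (nat_lit 0) (nat_lit 47893697904) (nat_lit 16) (nat_lit 5) (nat_lit 18) (nat_lit 4) (nat_lit 16) (nat_lit 4) (nat_lit 471) (nat_lit 414) (nat_lit 315)) (XT.nd (nat_lit 78) (nat_lit 0) (nat_lit 0) (XT.lf (nat_lit 0) (nat_lit 14617089372) (nat_lit 76) (nat_lit 115262467377) (nat_lit 76) (nat_lit 83600634458) (nat_lit 15) (nat_lit 4) (nat_lit 16) (nat_lit 5) (nat_lit 16) (nat_lit 4) (nat_lit 472) (nat_lit 414) (nat_lit 314)) (XT.lf (nat_lit 0) (nat_lit 114143089323) (nat_lit 76) (nat_lit 72098368718) (nat_lit 76) (nat_lit 40435469144) (nat_lit 15) (nat_lit 4) (nat_lit 16) (nat_lit 5) (nat_lit 16) (nat_lit 4) (nat_lit 473) (nat_lit 414) (nat_lit 313)))) (XT.nd (nat_lit 78) (nat_lit 76) (nat_lit 0) (XT.lf (nat_lit 0) (nat_lit 5870390529) (nat_lit 152) (nat_lit 19453474917)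 (nat_lit 76) (nat_lit 215593898715) (nat_lit 14) (nat_lit 5) (nat_lit 16) (nat_lit 5) (nat_lit 15) (nat_lit 4) (nat_lit 474) (nat_lit 414) (nat_lit 312)) (XT.nd (nat_lit 78) (nat_lit 0) (nat_lit 0) (XT.lf (nat_lit 0) (nat_lit 56404619318) (nat_lit 152) (nat_lit 172507191334) (nat_lit 0) (nat_lit 27085358481) (nat_lit 13) (nat_lit 5) (nat_lit 15) (nat_lit 4) (nat_lit 13) (nat_lit 4) (nat_lit 475) (nat_lit 414) (nat_lit 311)) (XT.lf (nat_lit 0) (nat_lit 112182078235) (nat_lit 152) (nat_lit 77142775612) (nat_lit 0) (nat_lit 82862033375) (nat_lit 13) (nat_lit 5) (nat_lit 15) (nat_lit 4) (nat_lit 13) (nat_lit 4) (nat_lit 476) (nat_lit 414) (nat_lit 310)))))) (XT.nd (nat_lit 468) (nat_lit 228) (nat_lit 0) (XT.nd (nat_lit 234) (nat_lit 152) (nat_lit 0) (XT.nd (nat_lit 78) (nat_lit 0) (nat_lit 0) (XT.lf (nat_lit 0) (nat_lit 27206138421) (nat_lit 76) (nat_lit 145867145595) (nat_lit 76) (nat_lit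 116546374787) (nat_lit 12) (nat_lit 4) (nat_lit 13) (nat_lit 5) (nat_lit 13) (nat_lit 4) (nat_lit 477) (nat_lit 414) (nat_lit 309)) (XT.nd (nat_lit 78) (nat_lit 0) (nat_lit 0) (XT.lf (nat_lit 0) (nat_lit 144284669588) (nat_lit 76) (nat_lit 96657651390) (nat_lit 76) (nat_lit 67336208408) (nat_lit 12) (nat_lit 4) (nat_lit 13) (nat_lit 5) (nat_lit 13) (nat_lit 4) (nat_lit 478) (nat_lit 414) (nat_lit 308)) (XT.lf (nat_lit 0) (nat_lit 270724414736) (nat_lit 76) (nat_lit 43513979611) (nat_lit 76) (nat_lit 14191914245) (nat_lit 12) (nat_lit 4) (nat_lit 13) (nat_lit 5) (nat_lit 13) (nat_lit 4) (nat_lit 479) (nat_lit 414) (nat_lit 307)))) (XT.nd (nat_lit 78) (nat_lit 0) (nat_lit 0) (XT.lf (nat_lit 0) (nat_lit 42856714802) (nat_lit 152) (nat_lit 291403148131) (nat_lit 0) (nat_lit 15706120685) (nat_lit 10) (nat_lit 5) (nat_lit 12) (nat_lit 4) (nat_lit 10) (nat_lit 4) (nat_lit 480) (nat_lit 414) (nat_lit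 306)) (XT.nd (nat_lit 78) (nat_lit 0) (nat_lit 0) (XT.lf (nat_lit 0) (nat_lit 106449140391) (nat_lit 152) (nat_lit 187228099342) (nat_lit 0) (nat_lit 79298052206) (nat_lit 10) (nat_lit 5) (nat_lit 12) (nat_lit 4) (nat_lit 10) (nat_lit 4) (nat_lit 481) (nat_lit 414) (nat_lit 305)) (XT.lf (nat_lit 0) (nat_lit 175126776910) (nat_lit 152) (nat_lit 74723511446) (nat_lit 0) (nat_lit 147975231255) (nat_lit 10) (nat_lit 5) (nat_lit 12) (nat_lit 4) (nat_lit 10) (nat_lit 4) (nat_lit 482) (nat_lit 414) (nat_lit 304))))) (XT.nd (nat_lit 234) (nat_lit 152) (nat_lit 0) (XT.nd (nat_lit 78) (nat_lit 0) (nat_lit 0) (XT.lf (nat_lit 0) (nat_lit 49240519625) (nat_lit 76) (nat_lit 201240319001) (nat_lit 76) (nat_lit 174088349762) (nat_lit 9) (nat_lit 4) (nat_lit 10) (nat_lit 5) (nat_lit 10) (nat_lit 4) (nat_lit 483) (nat_lit 414) (nat_lit 303)) (XT.nd (nat_lit 78) (nat_lit 0) (nat_lit 0) (XT.lf (nat_lit 0)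 (nat_lit 187367236078) (nat_lit 76) (nat_lit 146537093848) (nat_lit 76) (nat_lit 119384732402) (nat_lit 9) (nat_lit 4) (nat_lit 10) (nat_lit 5) (nat_lit 10) (nat_lit 4) (nat_lit 484) (nat_lit 414) (nat_lit 302)) (XT.lf (nat_lit 0) (nat_lit 336540358911) (nat_lit 76) (nat_lit 87459518861) (nat_lit 76) (nat_lit 60306794261) (nat_lit 9) (nat_lit 4) (nat_lit 10) (nat_lit 5) (nat_lit 10) (nat_lit 4) (nat_lit 485) (nat_lit 414) (nat_lit 301)))) (XT.nd (nat_lit 78) (nat_lit 76) (nat_lit 0) (XT.lf (nat_lit 0) (nat_lit 3320694270) (nat_lit 152) (nat_lit 20246016771) (nat_lit 76) (nat_lit 494232389062) (nat_lit 8) (nat_lit 5) (nat_lit 10) (nat_lit 5) (nat_lit 9) (nat_lit 4) (nat_lit 486) (nat_lit 414) (nat_lit 300)) (XT.nd (nat_lit 78) (nat_lit 0) (nat_lit 0) (XT.lf (nat_lit 0) (nat_lit 72922615220) (nat_lit 152) (nat_lit 432811001150) (nat_lit 0) (nat_lit 47780603923) (nat_lit 7) (nat_lit 5) (nat_lit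 9) (nat_lit 4) (nat_lit 7) (nat_lit 4) (nat_lit 487) (nat_lit 414) (nat_lit 299)) (XT.lf (nat_lit 0) (nat_lit 149271151486) (nat_lit 152) (nat_lit 318592248443) (nat_lit 0) (nat_lit 124128873259) (nat_lit 7) (nat_lit 5) (nat_lit 9) (nat_lit 4) (nat_lit 7) (nat_lit 4) (nat_lit 488) (nat_lit 414) (nat_lit 298))))))))
noncomputable def xc131 : XT := (XT.nd (nat_lit 1794) (nat_lit 152) (nat_lit 0) (XT.nd (nat_lit 858) (nat_lit 76) (nat_lit 0) (XT.nd (nat_lit 390) (nat_lit 152) (nat_lit 0) (XT.nd (nat_lit 156) (nat_lit 76) (nat_lit 0) (XT.nd (nat_lit 78) (nat_lit 0) (nat_lit 0) (XT.lf (nat_lit 0) (nat_lit 231726088305) (nat_lit 152) (nat_lit 195239037695) (nat_lit 0) (nat_lit 206583562921) (nat_lit 7) (nat_lit 5) (nat_lit 9) (nat_lit 4) (nat_lit 7) (nat_lit 4) (nat_lit 489) (nat_lit 414) (nat_lit 297)) (XT.lf (nat_lit 0) (nat_lit 320776047526) (nat_lit 152) (nat_lit 62020386917) (nat_lit 0)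 (nat_lit 295633293293) (nat_lit 7) (nat_lit 5) (nat_lit 9) (nat_lit 4) (nat_lit 7) (nat_lit 4) (nat_lit 490) (nat_lit 414) (nat_lit 296))) (XT.nd (nat_lit 78) (nat_lit 0) (nat_lit 0) (XT.lf (nat_lit 0) (nat_lit 86163389450) (nat_lit 76) (nat_lit 332857574748) (nat_lit 76) (nat_lit 307714608618) (nat_lit 6) (nat_lit 4) (nat_lit 7) (nat_lit 5) (nat_lit 7) (nat_lit 4) (nat_lit 491) (nat_lit 414) (nat_lit 295)) (XT.nd (nat_lit 78) (nat_lit 0) (nat_lit 0) (XT.lf (nat_lit 0) (nat_lit 249726480141) (nat_lit 76) (nat_lit 277093503478) (nat_lit 76) (nat_lit 251950341147) (nat_lit 6) (nat_lit 4) (nat_lit 7) (nat_lit 5) (nat_lit 7) (nat_lit 4) (nat_lit 492) (nat_lit 414) (nat_lit 294)) (XT.lf (nat_lit 0) (nat_lit 426372264249) (nat_lit 76) (nat_lit 216869514165) (nat_lit 76) (nat_lit 191726170166) (nat_lit 6) (nat_lit 4) (nat_lit 7) (nat_lit 5) (nat_lit 7) (nat_lit 4) (nat_lit 493) (nat_lit 414) (nat_lit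 293))))) (XT.nd (nat_lit 234) (nat_lit 0) (nat_lit 0) (XT.nd (nat_lit 78) (nat_lit 152) (nat_lit 0) (XT.lf (nat_lit 0) (nat_lit 617147531605) (nat_lit 76) (nat_lit 151828723910) (nat_lit 76) (nat_lit 126685211700) (nat_lit 6) (nat_lit 4) (nat_lit 7) (nat_lit 5) (nat_lit 7) (nat_lit 4) (nat_lit 494) (nat_lit 414) (nat_lit 292)) (XT.nd (nat_lit 78) (nat_lit 152) (nat_lit 0) (XT.lf (nat_lit 0) (nat_lit 823182802312) (nat_lit 76) (nat_lit 81585705808) (nat_lit 76) (nat_lit 56442037847) (nat_lit 6) (nat_lit 4) (nat_lit 7) (nat_lit 5) (nat_lit 7) (nat_lit 4) (nat_lit 495) (nat_lit 414) (nat_lit 291)) (XT.lf (nat_lit 0) (nat_lit 13924942289) (nat_lit 76) (nat_lit 4858112741) (nat_lit 152) (nat_lit 1013156413812) (nat_lit 4) (nat_lit 5) (nat_lit 5) (nat_lit 5) (nat_lit 6) (nat_lit 4) (nat_lit 496) (nat_lit 414) (nat_lit 290)))) (XT.nd (nat_lit 78) (nat_lit 0) (nat_lit 0) (XT.lf (nat_lit 0) (nat_lit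 102723920723) (nat_lit 152) (nat_lit 925583245047) (nat_lit 0) (nat_lit 79442489514) (nat_lit 4) (nat_lit 5) (nat_lit 6) (nat_lit 4) (nat_lit 4) (nat_lit 4) (nat_lit 497) (nat_lit 414) (nat_lit 289)) (XT.nd (nat_lit 78) (nat_lit 0) (nat_lit 0) (XT.lf (nat_lit 0) (nat_lit 193505377078) (nat_lit 152) (nat_lit 825885422474) (nat_lit 0) (nat_lit 170223831388) (nat_lit 4) (nat_lit 5) (nat_lit 6) (nat_lit 4) (nat_lit 4) (nat_lit 4) (nat_lit 498) (nat_lit 414) (nat_lit 288)) (XT.lf (nat_lit 0) (nat_lit 291548550553) (nat_lit 152) (nat_lit 718213419193) (nat_lit 0) (nat_lit 268266898861) (nat_lit 4) (nat_lit 5) (nat_lit 6) (nat_lit 4) (nat_lit 4) (nat_lit 4) (nat_lit 499) (nat_lit 414) (nat_lit 287)))))) (XT.nd (nat_lit 468) (nat_lit 0) (nat_lit 0) (XT.nd (nat_lit 234) (nat_lit 76) (nat_lit 0) (XT.nd (nat_lit 78) (nat_lit 0) (nat_lit 0) (XT.lf (nat_lit 0) (nat_lit 397434437731) (nat_lit 152) (nat_lit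 601929178888) (nat_lit 0) (nat_lit 374152687890) (nat_lit 4) (nat_lit 5) (nat_lit 6) (nat_lit 4) (nat_lit 4) (nat_lit 4) (nat_lit 500) (nat_lit 414) (nat_lit 286)) (XT.nd (nat_lit 78) (nat_lit 0) (nat_lit 0) (XT.lf (nat_lit 0) (nat_lit 511790510536) (nat_lit 152) (nat_lit 476343609766) (nat_lit 0) (nat_lit 488508669816) (nat_lit 4) (nat_lit 5) (nat_lit 6) (nat_lit 4) (nat_lit 4) (nat_lit 4) (nat_lit 501) (nat_lit 414) (nat_lit 285)) (XT.lf (nat_lit 0) (nat_lit 635294434586) (nat_lit 152) (nat_lit 340712501047) (nat_lit 0) (nat_lit 612012509718) (nat_lit 4) (nat_lit 5) (nat_lit 6) (nat_lit 4) (nat_lit 4) (nat_lit 4) (nat_lit 502) (nat_lit 414) (nat_lit 284)))) (XT.nd (nat_lit 78) (nat_lit 76) (nat_lit 0) (XT.lf (nat_lit 0) (nat_lit 768678084984) (nat_lit 152) (nat_lit 194232112826) (nat_lit 0) (nat_lit 745396082202) (nat_lit 4) (nat_lit 5) (nat_lit 6) (nat_lit 4) (nat_lit 4) (nat_lit 4)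 (nat_lit 503) (nat_lit 414) (nat_lit 283)) (XT.nd (nat_lit 78) (nat_lit 76) (nat_lit 0) (XT.lf (nat_lit 0) (nat_lit 912731883364) (nat_lit 152) (nat_lit 36034413174) (nat_lit 0) (nat_lit 889449808439) (nat_lit 4) (nat_lit 5) (nat_lit 6) (nat_lit 4) (nat_lit 4) (nat_lit 4) (nat_lit 504) (nat_lit 414) (nat_lit 282)) (XT.lf (nat_lit 0) (nat_lit 141917346183) (nat_lit 76) (nat_lit 929805251269) (nat_lit 76) (nat_lit 906523109545) (nat_lit 3) (nat_lit 4) (nat_lit 4) (nat_lit 5) (nat_lit 4) (nat_lit 4) (nat_lit 505) (nat_lit 414) (nat_lit 281))))) (XT.nd (nat_lit 234) (nat_lit 0) (nat_lit 0) (XT.nd (nat_lit 78) (nat_lit 0) (nat_lit 0) (XT.lf (nat_lit 0) (nat_lit 336153544851) (nat_lit 76) (nat_lit 908263777795) (nat_lit 76) (nat_lit 884981574221) (nat_lit 3) (nat_lit 4) (nat_lit 4) (nat_lit 5) (nat_lit 4) (nat_lit 4) (nat_lit 506) (nat_lit 414) (nat_lit 280)) (XT.nd (nat_lit 78) (nat_lit 0) (nat_lit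 0) (XT.lf (nat_lit 0) (nat_lit 545927703814) (nat_lit 76) (nat_lit 884999467655) (nat_lit 76) (nat_lit 861717206812) (nat_lit 3) (nat_lit 4) (nat_lit 4) (nat_lit 5) (nat_lit 4) (nat_lit 4) (nat_lit 507) (nat_lit 414) (nat_lit 279)) (XT.lf (nat_lit 0) (nat_lit 772482929199) (nat_lit 76) (nat_lit 859874458271) (nat_lit 76) (nat_lit 836592144400) (nat_lit 3) (nat_lit 4) (nat_lit 4) (nat_lit 5) (nat_lit 4) (nat_lit 4) (nat_lit 508) (nat_lit 414) (nat_lit 278)))) (XT.nd (nat_lit 78) (nat_lit 0) (nat_lit 0) (XT.lf (nat_lit 0) (nat_lit 1017161770491) (nat_lit 76) (nat_lit 832739860697) (nat_lit 76) (nat_lit 809457497727) (nat_lit 3) (nat_lit 4) (nat_lit 4) (nat_lit 5) (nat_lit 4) (nat_lit 4) (nat_lit 509) (nat_lit 414) (nat_lit 277)) (XT.nd (nat_lit 78) (nat_lit 0) (nat_lit 0) (XT.lf (nat_lit 0) (nat_lit 1281414176379) (nat_lit 76) (nat_lit 803434877319) (nat_lit 76) (nat_lit 780152468887) (nat_lit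 3) (nat_lit 4) (nat_lit 4) (nat_lit 5) (nat_lit 4) (nat_lit 4) (nat_lit 510) (nat_lit 414) (nat_lit 276)) (XT.lf (nat_lit 0) (nat_lit 1566806087045) (nat_lit 76) (nat_lit 771785848976) (nat_lit 76) (nat_lit 748503398449) (nat_lit 3) (nat_lit 4) (nat_lit 4) (nat_lit 5) (nat_lit 4) (nat_lit 4) (nat_lit 511) (nat_lit 414) (nat_lit 275))))))) (XT.nd (nat_lit 936) (nat_lit 152) (nat_lit 0) (XT.nd (nat_lit 468) (nat_lit 0) (nat_lit 0) (XT.nd (nat_lit 234) (nat_lit 0) (nat_lit 0) (XT.nd (nat_lit 78) (nat_lit 0) (nat_lit 0) (XT.lf (nat_lit 0) (nat_lit 1875028713813) (nat_lit 76) (nat_lit 737605225870) (nat_lit 76) (nat_lit 714322736367) (nat_lit 3) (nat_lit 4) (nat_lit 4) (nat_lit 5) (nat_lit 4) (nat_lit 4) (nat_lit 512) (nat_lit 414) (nat_lit 274)) (XT.nd (nat_lit 78) (nat_lit 0) (nat_lit 0) (XT.lf (nat_lit 0) (nat_lit 2207908561136) (nat_lit 76) (nat_lit 700690456161) (nat_lit 76) (nat_lit 677407930568)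 (nat_lit 3) (nat_lit 4) (nat_lit 4) (nat_lit 5) (nat_lit 4) (nat_lit 4) (nat_lit 513) (nat_lit 414) (nat_lit 273)) (XT.lf (nat_lit 0) (nat_lit 2567418250333) (nat_lit 76) (nat_lit 660822785657) (nat_lit 76) (nat_lit 637540226649) (nat_lit 3) (nat_lit 4) (nat_lit 4) (nat_lit 5) (nat_lit 4) (nat_lit 4) (nat_lit 514) (nat_lit 414) (nat_lit 272)))) (XT.nd (nat_lit 78) (nat_lit 0) (nat_lit 0) (XT.lf (nat_lit 0) (nat_lit 2955688209192) (nat_lit 76) (nat_lit 617765961497) (nat_lit 76) (nat_lit 594483371548) (nat_lit 3) (nat_lit 4) (nat_lit 4) (nat_lit 5) (nat_lit 4) (nat_lit 4) (nat_lit 515) (nat_lit 414) (nat_lit 271)) (XT.nd (nat_lit 78) (nat_lit 0) (nat_lit 0) (XT.lf (nat_lit 0) (nat_lit 3375019296727) (nat_lit 76) (nat_lit 571264832130) (nat_lit 76) (nat_lit 547982213532) (nat_lit 3) (nat_lit 4) (nat_lit 4) (nat_lit 5) (nat_lit 4) (nat_lit 4) (nat_lit 516) (nat_lit 414) (nat_lit 270)) (XT.lf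 (nat_lit 0) (nat_lit 3827896437902) (nat_lit 76) (nat_lit 521043835308) (nat_lit 76) (nat_lit 497761190183) (nat_lit 3) (nat_lit 4) (nat_lit 4) (nat_lit 5) (nat_lit 4) (nat_lit 4) (nat_lit 517) (nat_lit 414) (nat_lit 269))))) (XT.nd (nat_lit 234) (nat_lit 0) (nat_lit 0) (XT.nd (nat_lit 78) (nat_lit 0) (nat_lit 0) (XT.lf (nat_lit 0) (nat_lit 4317003349109) (nat_lit 76) (nat_lit 466805365124) (nat_lit 76) (nat_lit 443522695437) (nat_lit 3) (nat_lit 4) (nat_lit 4) (nat_lit 5) (nat_lit 4) (nat_lit 4) (nat_lit 518) (nat_lit 414) (nat_lit 268)) (XT.nd (nat_lit 78) (nat_lit 0) (nat_lit 0) (XT.lf (nat_lit 0) (nat_lit 4845238441674) (nat_lit 76) (nat_lit 408228008421) (nat_lit 76) (nat_lit 384945315991) (nat_lit 3) (nat_lit 4) (nat_lit 4) (nat_lit 5) (nat_lit 4) (nat_lit 4) (nat_lit 519) (nat_lit 414) (nat_lit 267)) (XT.lf (nat_lit 0) (nat_lit 5415731997627) (nat_lit 76) (nat_lit 344964640122) (nat_lit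 76) (nat_lit 321681926634) (nat_lit 3) (nat_lit 4) (nat_lit 4) (nat_lit 5) (nat_lit 4) (nat_lit 4) (nat_lit 520) (nat_lit 414) (nat_lit 266)))) (XT.nd (nat_lit 78) (nat_lit 0) (nat_lit 0) (XT.lf (nat_lit 0) (nat_lit 6031864719522) (nat_lit 76) (nat_lit 276640366193) (nat_lit 76) (nat_lit 253357633208) (nat_lit 3) (nat_lit 4) (nat_lit 4) (nat_lit 5) (nat_lit 4) (nat_lit 4) (nat_lit 521) (nat_lit 414) (nat_lit 265)) (XT.nd (nat_lit 78) (nat_lit 0) (nat_lit 0) (XT.lf (nat_lit 0) (nat_lit 6697287764228) (nat_lit 76) (nat_lit 202850302047) (nat_lit 76) (nat_lit 179567551009) (nat_lit 3) (nat_lit 4) (nat_lit 4) (nat_lit 5) (nat_lit 4) (nat_lit 4) (nat_lit 522) (nat_lit 414) (nat_lit 264)) (XT.lf (nat_lit 0) (nat_lit 7415944379419) (nat_lit 76) (nat_lit 123157173232) (nat_lit 76) (nat_lit 99874405477) (nat_lit 3) (nat_lit 4) (nat_lit 4) (nat_lit 5) (nat_lit 4) (nat_lit 4) (nat_lit 523) (nat_lit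 414) (nat_lit 263)))))) (XT.nd (nat_lit 53976) (nat_lit 0) (nat_lit 5852) (XT.nd (nat_lit 234) (nat_lit 0) (nat_lit 0) (XT.nd (nat_lit 78) (nat_lit 152) (nat_lit 0) (XT.lf (nat_lit 0) (nat_lit 8192093270962) (nat_lit 76) (nat_lit 37088724167) (nat_lit 76) (nat_lit 13805940934) (nat_lit 3) (nat_lit 4) (nat_lit 4) (nat_lit 5) (nat_lit 4) (nat_lit 4) (nat_lit 524) (nat_lit 414) (nat_lit 262)) (XT.nd (nat_lit 78) (nat_lit 0) (nat_lit 0) (XT.lf (nat_lit 0) (nat_lit 80038967171) (nat_lit 152) (nat_lit 8756260781286) (nat_lit 0) (nat_lit 58480821278) (nat_lit 1) (nat_lit 5) (nat_lit 3) (nat_lit 4) (nat_lit 1) (nat_lit 4) (nat_lit 525) (nat_lit 414) (nat_lit 261)) (XT.lf (nat_lit 0) (nat_lit 183036509952) (nat_lit 152) (nat_lit 9253981790992) (nat_lit 0) (nat_lit 161478351772) (nat_lit 1) (nat_lit 5) (nat_lit 3) (nat_lit 4) (nat_lit 1) (nat_lit 4) (nat_lit 526) (nat_lit 414) (nat_lit 260)))) (XT.nd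 (nat_lit 78) (nat_lit 0) (nat_lit 0) (XT.lf (nat_lit 0) (nat_lit 294273748235) (nat_lit 152) (nat_lit 9791520704057) (nat_lit 0) (nat_lit 272715578678) (nat_lit 1) (nat_lit 5) (nat_lit 3) (nat_lit 4) (nat_lit 1) (nat_lit 4) (nat_lit 527) (nat_lit 414) (nat_lit 259)) (XT.nd (nat_lit 78) (nat_lit 0) (nat_lit 0) (XT.lf (nat_lit 0) (nat_lit 414409865655) (nat_lit 152) (nat_lit 10372062936261) (nat_lit 0) (nat_lit 392851685564) (nat_lit 1) (nat_lit 5) (nat_lit 3) (nat_lit 4) (nat_lit 1) (nat_lit 4) (nat_lit 528) (nat_lit 414) (nat_lit 258)) (XT.lf (nat_lit 0) (nat_lit 544156779944) (nat_lit 152) (nat_lit 10999048737869) (nat_lit 0) (nat_lit 522598590099) (nat_lit 1) (nat_lit 5) (nat_lit 3) (nat_lit 4) (nat_lit 1) (nat_lit 4) (nat_lit 529) (nat_lit 414) (nat_lit 257))))) (XT.nd (nat_lit 234) (nat_lit 0) (nat_lit 76) (XT.nd (nat_lit 78) (nat_lit 0) (nat_lit 0) (XT.lf (nat_lit 0) (nat_lit 4506258155)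 (nat_lit 532) (nat_lit 1033707915) (nat_lit 532) (nat_lit 1033707915) (nat_lit 78) (nat_lit 3) (nat_lit 85) (nat_lit 3) (nat_lit 85) (nat_lit 5) (nat_lit 415) (nat_lit 415) (nat_lit 370)) (XT.nd (nat_lit 78) (nat_lit 0) (nat_lit 76) (XT.lf (nat_lit 76) (nat_lit 4661613268) (nat_lit 0) (nat_lit 5194520900) (nat_lit 532) (nat_lit 3778309229) (nat_lit 79) (nat_lit 5) (nat_lit 78) (nat_lit 3) (nat_lit 85) (nat_lit 5) (nat_lit 416) (nat_lit 415) (nat_lit 369)) (XT.lf (nat_lit 0) (nat_lit 10815947241) (nat_lit 456) (nat_lit 2163381075) (nat_lit 532) (nat_lit 1177296597) (nat_lit 79) (nat_lit 5) (nat_lit 85) (nat_lit 5) (nat_lit 86) (nat_lit 5) (nat_lit 417) (nat_lit 415) (nat_lit 368)))) (XT.nd (nat_lit 78) (nat_lit 0) (nat_lit 0) (XT.lf (nat_lit 76) (nat_lit 5298227557) (nat_lit 0) (nat_lit 6782191877) (nat_lit 532) (nat_lit 2621945402) (nat_lit 80) (nat_lit 5) (nat_lit 79) (nat_lit 5) (nat_lit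 86) (nat_lit 5) (nat_lit 418) (nat_lit 415) (nat_lit 367)) (XT.nd (nat_lit 78) (nat_lit 0) (nat_lit 76) (XT.lf (nat_lit 76) (nat_lit 13457660755) (nat_lit 0) (nat_lit 15089280) (nat_lit 532) (nat_lit 1816890660) (nat_lit 80) (nat_lit 5) (nat_lit 79) (nat_lit 5) (nat_lit 86) (nat_lit 5) (nat_lit 419) (nat_lit 415) (nat_lit 366)) (XT.lf (nat_lit 76) (nat_lit 6471112328) (nat_lit 0) (nat_lit 8806574473) (nat_lit 532) (nat_lit 622126087) (nat_lit 81) (nat_lit 5) (nat_lit 80) (nat_lit 5) (nat_lit 87) (nat_lit 5) (nat_lit 420) (nat_lit 415) (nat_lit 365))))))))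
noncomputable def xc132 : XT := (XT.nd (nat_lit 1794) (nat_lit 1596) (nat_lit 0) (XT.nd (nat_lit 858) (nat_lit 1140) (nat_lit 0) (XT.nd (nat_lit 390) (nat_lit 684) (nat_lit 0) (XT.nd (nat_lit 156) (nat_lit 608) (nat_lit 0) (XT.nd (nat_lit 78) (nat_lit 0) (nat_lit 76) (XT.lf (nat_lit 0) (nat_lit 657682990) (nat_lit 532) (nat_lit 1054005614) (nat_lit 608) (nat_lit 14844003518) (nat_lit 73) (nat_lit 5) (nat_lit 80) (nat_lit 5) (nat_lit 81) (nat_lit 5) (nat_lit 421) (nat_lit 415) (nat_lit 364)) (XT.lf (nat_lit 0) (nat_lit 2329707815) (nat_lit 532) (nat_lit 9026714798) (nat_lit 76) (nat_lit 5880460395) (nat_lit 74) (nat_lit 5) (nat_lit 81) (nat_lit 5) (nat_lit 75) (nat_lit 5) (nat_lit 422) (nat_lit 415) (nat_lit 363))) (XT.nd (nat_lit 78) (nat_lit 228) (nat_lit 0) (XT.lf (nat_lit 0) (nat_lit 248521359) (nat_lit 456) (nat_lit 3941768838) (nat_lit 532) (nat_lit 13777904027) (nat_lit 68) (nat_lit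 5) (nat_lit 74) (nat_lit 5) (nat_lit 75) (nat_lit 5) (nat_lit 423) (nat_lit 415) (nat_lit 362)) (XT.nd (nat_lit 78) (nat_lit 228) (nat_lit 0) (XT.lf (nat_lit 0) (nat_lit 6526840698) (nat_lit 532) (nat_lit 8088520279) (nat_lit 76) (nat_lit 4116487699) (nat_lit 68) (nat_lit 5) (nat_lit 75) (nat_lit 5) (nat_lit 69) (nat_lit 5) (nat_lit 424) (nat_lit 415) (nat_lit 361)) (XT.lf (nat_lit 0) (nat_lit 2302603497) (nat_lit 228) (nat_lit 6883358034) (nat_lit 304) (nat_lit 10359789711) (nat_lit 65) (nat_lit 5) (nat_lit 68) (nat_lit 5) (nat_lit 69) (nat_lit 5) (nat_lit 425) (nat_lit 415) (nat_lit 360))))) (XT.nd (nat_lit 234) (nat_lit 456) (nat_lit 0) (XT.nd (nat_lit 78) (nat_lit 228) (nat_lit 0) (XT.lf (nat_lit 0) (nat_lit 12298932449) (nat_lit 304) (nat_lit 6487465959) (nat_lit 76) (nat_lit 1619084884) (nat_lit 65) (nat_lit 5) (nat_lit 69) (nat_lit 5) (nat_lit 66) (nat_lit 5) (nat_lit 426) (nat_lit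 415) (nat_lit 359)) (XT.nd (nat_lit 78) (nat_lit 0) (nat_lit 0) (XT.lf (nat_lit 0) (nat_lit 5186770874) (nat_lit 228) (nat_lit 10758196341) (nat_lit 304) (nat_lit 5366310995) (nat_lit 62) (nat_lit 5) (nat_lit 65) (nat_lit 5) (nat_lit 66) (nat_lit 5) (nat_lit 427) (nat_lit 415) (nat_lit 358)) (XT.lf (nat_lit 0) (nat_lit 18141891831) (nat_lit 228) (nat_lit 1899583036) (nat_lit 304) (nat_lit 2235364570) (nat_lit 62) (nat_lit 5) (nat_lit 65) (nat_lit 5) (nat_lit 66) (nat_lit 5) (nat_lit 428) (nat_lit 415) (nat_lit 357)))) (XT.nd (nat_lit 78) (nat_lit 228) (nat_lit 0) (XT.lf (nat_lit 0) (nat_lit 1483760090) (nat_lit 228) (nat_lit 14265457248) (nat_lit 76) (nat_lit 7536625651) (nat_lit 59) (nat_lit 5) (nat_lit 62) (nat_lit 5) (nat_lit 60) (nat_lit 5) (nat_lit 429) (nat_lit 415) (nat_lit 356)) (XT.nd (nat_lit 78) (nat_lit 228) (nat_lit 0) (XT.lf (nat_lit 0) (nat_lit 5528030926) (nat_lit 228) (nat_lit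 1035583867) (nat_lit 76) (nat_lit 17795441104) (nat_lit 59) (nat_lit 5) (nat_lit 62) (nat_lit 5) (nat_lit 60) (nat_lit 5) (nat_lit 430) (nat_lit 415) (nat_lit 355)) (XT.lf (nat_lit 0) (nat_lit 10304464288) (nat_lit 304) (nat_lit 11652834225) (nat_lit 76) (nat_lit 3528142011) (nat_lit 56) (nat_lit 5) (nat_lit 60) (nat_lit 5) (nat_lit 57) (nat_lit 5) (nat_lit 431) (nat_lit 415) (nat_lit 354)))))) (XT.nd (nat_lit 468) (nat_lit 456) (nat_lit 0) (XT.nd (nat_lit 234) (nat_lit 380) (nat_lit 0) (XT.nd (nat_lit 78) (nat_lit 152) (nat_lit 0) (XT.lf (nat_lit 0) (nat_lit 3218280679) (nat_lit 152) (nat_lit 12506538563) (nat_lit 228) (nat_lit 10956176158) (nat_lit 54) (nat_lit 5) (nat_lit 56) (nat_lit 5) (nat_lit 57) (nat_lit 5) (nat_lit 432) (nat_lit 415) (nat_lit 353)) (XT.nd (nat_lit 78) (nat_lit 152) (nat_lit 0) (XT.lf (nat_lit 0) (nat_lit 19921355291) (nat_lit 152) (nat_lit 1961558971) (nat_lit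 228) (nat_lit 6064955203) (nat_lit 54) (nat_lit 5) (nat_lit 56) (nat_lit 5) (nat_lit 57) (nat_lit 5) (nat_lit 433) (nat_lit 415) (nat_lit 352)) (XT.lf (nat_lit 0) (nat_lit 8840218126) (nat_lit 152) (nat_lit 20119210415) (nat_lit 228) (nat_lit 322606641) (nat_lit 52) (nat_lit 5) (nat_lit 54) (nat_lit 5) (nat_lit 55) (nat_lit 5) (nat_lit 434) (nat_lit 415) (nat_lit 351)))) (XT.nd (nat_lit 78) (nat_lit 304) (nat_lit 0) (XT.lf (nat_lit 0) (nat_lit 5847782284) (nat_lit 228) (nat_lit 3410727665) (nat_lit 76) (nat_lit 21432095682) (nat_lit 51) (nat_lit 5) (nat_lit 54) (nat_lit 5) (nat_lit 52) (nat_lit 5) (nat_lit 435) (nat_lit 415) (nat_lit 350)) (XT.nd (nat_lit 78) (nat_lit 152) (nat_lit 0) (XT.lf (nat_lit 0) (nat_lit 12929965574) (nat_lit 228) (nat_lit 16507789226) (nat_lit 76) (nat_lit 2738591920) (nat_lit 49) (nat_lit 5) (nat_lit 52) (nat_lit 5) (nat_lit 50) (nat_lit 5) (nat_lit 436) (nat_lit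 415) (nat_lit 349)) (XT.lf (nat_lit 0) (nat_lit 2560958589) (nat_lit 152) (nat_lit 18403476193) (nat_lit 228) (nat_lit 12785657953) (nat_lit 47) (nat_lit 5) (nat_lit 49) (nat_lit 5) (nat_lit 50) (nat_lit 5) (nat_lit 437) (nat_lit 415) (nat_lit 348))))) (XT.nd (nat_lit 234) (nat_lit 304) (nat_lit 0) (XT.nd (nat_lit 78) (nat_lit 152) (nat_lit 0) (XT.lf (nat_lit 0) (nat_lit 24075579923) (nat_lit 152) (nat_lit 6005843886) (nat_lit 228) (nat_lit 5333135993) (nat_lit 47) (nat_lit 5) (nat_lit 49) (nat_lit 5) (nat_lit 50) (nat_lit 5) (nat_lit 438) (nat_lit 415) (nat_lit 347)) (XT.nd (nat_lit 78) (nat_lit 0) (nat_lit 0) (XT.lf (nat_lit 0) (nat_lit 3008004745) (nat_lit 152) (nat_lit 26829596817) (nat_lit 76) (nat_lit 7335098956) (nat_lit 45) (nat_lit 5) (nat_lit 47) (nat_lit 5) (nat_lit 46) (nat_lit 5) (nat_lit 439) (nat_lit 415) (nat_lit 346)) (XT.lf (nat_lit 0) (nat_lit 12191616266) (nat_lit 152)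 (nat_lit 4962550117) (nat_lit 76) (nat_lit 21869181543) (nat_lit 45) (nat_lit 5) (nat_lit 47) (nat_lit 5) (nat_lit 46) (nat_lit 5) (nat_lit 440) (nat_lit 415) (nat_lit 345)))) (XT.nd (nat_lit 78) (nat_lit 152) (nat_lit 0) (XT.lf (nat_lit 0) (nat_lit 19618692684) (nat_lit 152) (nat_lit 2953082729) (nat_lit 228) (nat_lit 18413324747) (nat_lit 43) (nat_lit 5) (nat_lit 45) (nat_lit 5) (nat_lit 46) (nat_lit 5) (nat_lit 441) (nat_lit 415) (nat_lit 344)) (XT.nd (nat_lit 78) (nat_lit 76) (nat_lit 0) (XT.lf (nat_lit 0) (nat_lit 3197545359) (nat_lit 76) (nat_lit 31088971430) (nat_lit 152) (nat_lit 8776943826) (nat_lit 42) (nat_lit 5) (nat_lit 43) (nat_lit 5) (nat_lit 44) (nat_lit 4) (nat_lit 442) (nat_lit 415) (nat_lit 343)) (XT.lf (nat_lit 0) (nat_lit 2215169888) (nat_lit 152) (nat_lit 14467556562) (nat_lit 76) (nat_lit 28568917724) (nat_lit 41) (nat_lit 5) (nat_lit 43) (nat_lit 5) (nat_lit 42)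 (nat_lit 5) (nat_lit 443) (nat_lit 415) (nat_lit 342))))))) (XT.nd (nat_lit 858) (nat_lit 760) (nat_lit 0) (XT.nd (nat_lit 390) (nat_lit 380) (nat_lit 0) (XT.nd (nat_lit 156) (nat_lit 304) (nat_lit 0) (XT.nd (nat_lit 78) (nat_lit 0) (nat_lit 0) (XT.lf (nat_lit 0) (nat_lit 13388855651) (nat_lit 152) (nat_lit 536640583) (nat_lit 228) (nat_lit 33646107531) (nat_lit 39) (nat_lit 5) (nat_lit 41) (nat_lit 5) (nat_lit 42) (nat_lit 5) (nat_lit 444) (nat_lit 415) (nat_lit 341)) (XT.lf (nat_lit 0) (nat_lit 27376130485) (nat_lit 228) (nat_lit 6181448591) (nat_lit 76) (nat_lit 16455303682) (nat_lit 39) (nat_lit 5) (nat_lit 42) (nat_lit 5) (nat_lit 40) (nat_lit 4) (nat_lit 445) (nat_lit 415) (nat_lit 340))) (XT.nd (nat_lit 78) (nat_lit 228) (nat_lit 0) (XT.lf (nat_lit 0) (nat_lit 25296885108) (nat_lit 76) (nat_lit 17220080163) (nat_lit 152) (nat_lit 10083367904) (nat_lit 38) (nat_lit 5) (nat_lit 39)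 (nat_lit 5) (nat_lit 40) (nat_lit 4) (nat_lit 446) (nat_lit 415) (nat_lit 339)) (XT.nd (nat_lit 78) (nat_lit 0) (nat_lit 0) (XT.lf (nat_lit 0) (nat_lit 3590576166) (nat_lit 228) (nat_lit 51005604940) (nat_lit 76) (nat_lit 768707969) (nat_lit 35) (nat_lit 5) (nat_lit 38) (nat_lit 5) (nat_lit 36) (nat_lit 4) (nat_lit 447) (nat_lit 415) (nat_lit 338)) (XT.lf (nat_lit 0) (nat_lit 19018843830) (nat_lit 228) (nat_lit 18926400259) (nat_lit 76) (nat_lit 20288000024) (nat_lit 35) (nat_lit 5) (nat_lit 38) (nat_lit 5) (nat_lit 36) (nat_lit 4) (nat_lit 448) (nat_lit 415) (nat_lit 337))))) (XT.nd (nat_lit 234) (nat_lit 152) (nat_lit 0) (XT.nd (nat_lit 78) (nat_lit 152) (nat_lit 0) (XT.lf (nat_lit 0) (nat_lit 16532508004) (nat_lit 76) (nat_lit 19539048159) (nat_lit 152) (nat_lit 25228297531) (nat_lit 34) (nat_lit 5) (nat_lit 35) (nat_lit 5) (nat_lit 36) (nat_lit 4) (nat_lit 449) (nat_lit 415) (nat_lit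 336)) (XT.nd (nat_lit 78) (nat_lit 152) (nat_lit 0) (XT.lf (nat_lit 0) (nat_lit 55020235081) (nat_lit 152) (nat_lit 8701252229) (nat_lit 0) (nat_lit 847765507) (nat_lit 34) (nat_lit 5) (nat_lit 36) (nat_lit 4) (nat_lit 34) (nat_lit 4) (nat_lit 450) (nat_lit 415) (nat_lit 335)) (XT.lf (nat_lit 0) (nat_lit 8301116917) (nat_lit 152) (nat_lit 36914666896) (nat_lit 76) (nat_lit 22767339074) (nat_lit 32) (nat_lit 5) (nat_lit 34) (nat_lit 5) (nat_lit 33) (nat_lit 4) (nat_lit 451) (nat_lit 415) (nat_lit 334)))) (XT.nd (nat_lit 78) (nat_lit 76) (nat_lit 0) (XT.lf (nat_lit 0) (nat_lit 2733286817) (nat_lit 76) (nat_lit 24633139270) (nat_lit 152) (nat_lit 44259590250) (nat_lit 31) (nat_lit 5) (nat_lit 32) (nat_lit 5) (nat_lit 33) (nat_lit 4) (nat_lit 452) (nat_lit 415) (nat_lit 333)) (XT.nd (nat_lit 78) (nat_lit 76) (nat_lit 0) (XT.lf (nat_lit 0) (nat_lit 47640013341) (nat_lit 76) (nat_lit 1319697116)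 (nat_lit 152) (nat_lit 26520411317) (nat_lit 31) (nat_lit 5) (nat_lit 32) (nat_lit 5) (nat_lit 33) (nat_lit 4) (nat_lit 453) (nat_lit 415) (nat_lit 332)) (XT.lf (nat_lit 0) (nat_lit 16748896632) (nat_lit 76) (nat_lit 56501970891) (nat_lit 76) (nat_lit 6314055830) (nat_lit 30) (nat_lit 4) (nat_lit 31) (nat_lit 5) (nat_lit 31) (nat_lit 4) (nat_lit 454) (nat_lit 415) (nat_lit 331)))))) (XT.nd (nat_lit 468) (nat_lit 380) (nat_lit 0) (XT.nd (nat_lit 234) (nat_lit 228) (nat_lit 0) (XT.nd (nat_lit 78) (nat_lit 76) (nat_lit 0) (XT.lf (nat_lit 0) (nat_lit 15542059810) (nat_lit 152) (nat_lit 17866229571) (nat_lit 76) (nat_lit 50473655925) (nat_lit 29) (nat_lit 5) (nat_lit 31) (nat_lit 5) (nat_lit 30) (nat_lit 4) (nat_lit 455) (nat_lit 415) (nat_lit 330)) (XT.nd (nat_lit 78) (nat_lit 0) (nat_lit 0) (XT.lf (nat_lit 0) (nat_lit 32110852130) (nat_lit 76) (nat_lit 7461232232) (nat_lit 152) (nat_lit 48897801524)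 (nat_lit 28) (nat_lit 5) (nat_lit 29) (nat_lit 5) (nat_lit 30) (nat_lit 4) (nat_lit 456) (nat_lit 415) (nat_lit 329)) (XT.lf (nat_lit 0) (nat_lit 66514517439) (nat_lit 152) (nat_lit 6801862773) (nat_lit 0) (nat_lit 20029281347) (nat_lit 28) (nat_lit 5) (nat_lit 30) (nat_lit 4) (nat_lit 28) (nat_lit 4) (nat_lit 457) (nat_lit 415) (nat_lit 328)))) (XT.nd (nat_lit 78) (nat_lit 152) (nat_lit 0) (XT.lf (nat_lit 0) (nat_lit 48965290223) (nat_lit 76) (nat_lit 48013207822) (nat_lit 76) (nat_lit 1523709353) (nat_lit 27) (nat_lit 4) (nat_lit 28) (nat_lit 5) (nat_lit 28) (nat_lit 4) (nat_lit 458) (nat_lit 415) (nat_lit 327)) (XT.nd (nat_lit 78) (nat_lit 0) (nat_lit 0) (XT.lf (nat_lit 0) (nat_lit 5145888547) (nat_lit 76) (nat_lit 19680714174) (nat_lit 152) (nat_lit 79170273683) (nat_lit 25) (nat_lit 5) (nat_lit 26) (nat_lit 5) (nat_lit 27) (nat_lit 4) (nat_lit 459) (nat_lit 415) (nat_lit 326)) (XT.lf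 (nat_lit 0) (nat_lit 54849599587) (nat_lit 152) (nat_lit 43149865331) (nat_lit 0) (nat_lit 11796729758) (nat_lit 25) (nat_lit 5) (nat_lit 27) (nat_lit 4) (nat_lit 25) (nat_lit 4) (nat_lit 460) (nat_lit 415) (nat_lit 325))))) (XT.nd (nat_lit 234) (nat_lit 152) (nat_lit 0) (XT.nd (nat_lit 78) (nat_lit 152) (nat_lit 0) (XT.lf (nat_lit 0) (nat_lit 17354794886) (nat_lit 76) (nat_lit 70843383598) (nat_lit 76) (nat_lit 27787380796) (nat_lit 24) (nat_lit 4) (nat_lit 25) (nat_lit 5) (nat_lit 25) (nat_lit 4) (nat_lit 461) (nat_lit 415) (nat_lit 324)) (XT.nd (nat_lit 78) (nat_lit 76) (nat_lit 0) (XT.lf (nat_lit 0) (nat_lit 2672926720) (nat_lit 152) (nat_lit 37499216125) (nat_lit 76) (nat_lit 82398508927) (nat_lit 23) (nat_lit 5) (nat_lit 25) (nat_lit 5) (nat_lit 24) (nat_lit 4) (nat_lit 462) (nat_lit 415) (nat_lit 323)) (XT.lf (nat_lit 0) (nat_lit 29255769588) (nat_lit 76) (nat_lit 5512191619) (nat_lit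 152) (nat_lit 94800919229) (nat_lit 22) (nat_lit 5) (nat_lit 23) (nat_lit 5) (nat_lit 24) (nat_lit 4) (nat_lit 463) (nat_lit 415) (nat_lit 322)))) (XT.nd (nat_lit 78) (nat_lit 152) (nat_lit 0) (XT.lf (nat_lit 0) (nat_lit 71245776072) (nat_lit 152) (nat_lit 34364346393) (nat_lit 0) (nat_lit 31371630905) (nat_lit 22) (nat_lit 5) (nat_lit 24) (nat_lit 4) (nat_lit 22) (nat_lit 4) (nat_lit 464) (nat_lit 415) (nat_lit 321)) (XT.nd (nat_lit 78) (nat_lit 76) (nat_lit 0) (XT.lf (nat_lit 0) (nat_lit 38641980014) (nat_lit 76) (nat_lit 73068240674) (nat_lit 76) (nat_lit 33191963258) (nat_lit 21) (nat_lit 4) (nat_lit 22) (nat_lit 5) (nat_lit 22) (nat_lit 4) (nat_lit 465) (nat_lit 415) (nat_lit 320)) (XT.lf (nat_lit 0) (nat_lit 2817631722) (nat_lit 152) (nat_lit 34017577737) (nat_lit 76) (nat_lit 116540486296) (nat_lit 20) (nat_lit 5) (nat_lit 22) (nat_lit 5) (nat_lit 21) (nat_lit 4) (nat_lit 466) (nat_lit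 415) (nat_lit 319))))))))
noncomputable def xc133 : XT := (XT.nd (nat_lit 1794) (nat_lit 304) (nat_lit 0) (XT.nd (nat_lit 858) (nat_lit 456) (nat_lit 0) (XT.nd (nat_lit 390) (nat_lit 228) (nat_lit 0) (XT.nd (nat_lit 156) (nat_lit 228) (nat_lit 0) (XT.nd (nat_lit 78) (nat_lit 0) (nat_lit 0) (XT.lf (nat_lit 0) (nat_lit 41108882928) (nat_lit 152) (nat_lit 117070822932) (nat_lit 0) (nat_lit 4182883130) (nat_lit 19) (nat_lit 5) (nat_lit 21) (nat_lit 4) (nat_lit 19) (nat_lit 4) (nat_lit 467) (nat_lit 415) (nat_lit 318)) (XT.lf (nat_lit 0) (nat_lit 84370668723) (nat_lit 152) (nat_lit 40102084671) (nat_lit 0) (nat_lit 47443101658) (nat_lit 19) (nat_lit 5) (nat_lit 21) (nat_lit 4) (nat_lit 19) (nat_lit 4) (nat_lit 468) (nat_lit 415) (nat_lit 317))) (XT.nd (nat_lit 78) (nat_lit 152) (nat_lit 0) (XT.lf (nat_lit 0) (nat_lit 45282311867) (nat_lit 76) (nat_lit 86896622945) (nat_lit 76) (nat_lit 49967604708)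 (nat_lit 18) (nat_lit 4) (nat_lit 19) (nat_lit 5) (nat_lit 19) (nat_lit 4) (nat_lit 469) (nat_lit 415) (nat_lit 316)) (XT.nd (nat_lit 78) (nat_lit 152) (nat_lit 0) (XT.lf (nat_lit 0) (nat_lit 139771234166) (nat_lit 76) (nat_lit 45133681176) (nat_lit 76) (nat_lit 8203319260) (nat_lit 18) (nat_lit 4) (nat_lit 19) (nat_lit 5) (nat_lit 19) (nat_lit 4) (nat_lit 470) (nat_lit 415) (nat_lit 315)) (XT.lf (nat_lit 0) (nat_lit 36009639296) (nat_lit 152) (nat_lit 166976236745) (nat_lit 0) (nat_lit 1813707756) (nat_lit 16) (nat_lit 5) (nat_lit 18) (nat_lit 4) (nat_lit 16) (nat_lit 4) (nat_lit 471) (nat_lit 415) (nat_lit 314))))) (XT.nd (nat_lit 234) (nat_lit 152) (nat_lit 0) (XT.nd (nat_lit 78) (nat_lit 76) (nat_lit 0) (XT.lf (nat_lit 0) (nat_lit 85981723509) (nat_lit 152) (nat_lit 79429523830) (nat_lit 0) (nat_lit 51784725313) (nat_lit 16) (nat_lit 5) (nat_lit 18) (nat_lit 4) (nat_lit 16) (nat_lit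 4) (nat_lit 472) (nat_lit 415) (nat_lit 313)) (XT.nd (nat_lit 78) (nat_lit 0) (nat_lit 0) (XT.lf (nat_lit 0) (nat_lit 15910794144) (nat_lit 76) (nat_lit 124420445586) (nat_lit 76) (nat_lit 90222459746) (nat_lit 15) (nat_lit 4) (nat_lit 16) (nat_lit 5) (nat_lit 16) (nat_lit 4) (nat_lit 473) (nat_lit 415) (nat_lit 312)) (XT.lf (nat_lit 0) (nat_lit 123389663897) (nat_lit 76) (nat_lit 77807887122) (nat_lit 76) (nat_lit 43608986797) (nat_lit 15) (nat_lit 4) (nat_lit 16) (nat_lit 5) (nat_lit 16) (nat_lit 4) (nat_lit 474) (nat_lit 415) (nat_lit 311)))) (XT.nd (nat_lit 78) (nat_lit 76) (nat_lit 0) (XT.lf (nat_lit 0) (nat_lit 6393959188) (nat_lit 152) (nat_lit 20900311959) (nat_lit 76) (nat_lit 232892597921) (nat_lit 14) (nat_lit 5) (nat_lit 16) (nat_lit 5) (nat_lit 15) (nat_lit 4) (nat_lit 475) (nat_lit 415) (nat_lit 310)) (XT.nd (nat_lit 78) (nat_lit 0) (nat_lit 0) (XT.lf (nat_lit 0) (nat_lit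 60970798956) (nat_lit 152) (nat_lit 186198197224) (nat_lit 0) (nat_lit 29303640535) (nat_lit 13) (nat_lit 5) (nat_lit 15) (nat_lit 4) (nat_lit 13) (nat_lit 4) (nat_lit 476) (nat_lit 415) (nat_lit 309)) (XT.lf (nat_lit 0) (nat_lit 121206468654) (nat_lit 152) (nat_lit 83212744497) (nat_lit 0) (nat_lit 89538638059) (nat_lit 13) (nat_lit 5) (nat_lit 15) (nat_lit 4) (nat_lit 13) (nat_lit 4) (nat_lit 477) (nat_lit 415) (nat_lit 308)))))) (XT.nd (nat_lit 468) (nat_lit 228) (nat_lit 0) (XT.nd (nat_lit 234) (nat_lit 152) (nat_lit 0) (XT.nd (nat_lit 78) (nat_lit 0) (nat_lit 0) (XT.lf (nat_lit 0) (nat_lit 29481514225) (nat_lit 76) (nat_lit 157486144174) (nat_lit 76) (nat_lit 125817691196) (nat_lit 12) (nat_lit 4) (nat_lit 13) (nat_lit 5) (nat_lit 13) (nat_lit 4) (nat_lit 478) (nat_lit 415) (nat_lit 307)) (XT.nd (nat_lit 78) (nat_lit 0) (nat_lit 0) (XT.lf (nat_lit 0) (nat_lit 155919003090) (nat_lit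 76) (nat_lit 104343621772) (nat_lit 76) (nat_lit 72674592513) (nat_lit 12) (nat_lit 4) (nat_lit 13) (nat_lit 5) (nat_lit 13) (nat_lit 4) (nat_lit 479) (nat_lit 415) (nat_lit 306)) (XT.lf (nat_lit 0) (nat_lit 292467145633) (nat_lit 76) (nat_lit 46951911193) (nat_lit 76) (nat_lit 15282348341) (nat_lit 12) (nat_lit 4) (nat_lit 13) (nat_lit 5) (nat_lit 13) (nat_lit 4) (nat_lit 480) (nat_lit 415) (nat_lit 305)))) (XT.nd (nat_lit 78) (nat_lit 0) (nat_lit 0) (XT.lf (nat_lit 0) (nat_lit 46327843762) (nat_lit 152) (nat_lit 314628293500) (nat_lit 0) (nat_lit 17003716985) (nat_lit 10) (nat_lit 5) (nat_lit 12) (nat_lit 4) (nat_lit 10) (nat_lit 4) (nat_lit 481) (nat_lit 415) (nat_lit 304)) (XT.nd (nat_lit 78) (nat_lit 0) (nat_lit 0) (XT.lf (nat_lit 0) (nat_lit 115004508452) (nat_lit 152) (nat_lit 202125693139) (nat_lit 0) (nat_lit 85679958090) (nat_lit 10) (nat_lit 5) (nat_lit 12) (nat_lit 4) (nat_lit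 10) (nat_lit 4) (nat_lit 482) (nat_lit 415) (nat_lit 303)) (XT.lf (nat_lit 0) (nat_lit 189173434646) (nat_lit 152) (nat_lit 80626712594) (nat_lit 0) (nat_lit 159848492077) (nat_lit 10) (nat_lit 5) (nat_lit 12) (nat_lit 4) (nat_lit 10) (nat_lit 4) (nat_lit 483) (nat_lit 415) (nat_lit 302))))) (XT.nd (nat_lit 234) (nat_lit 152) (nat_lit 0) (XT.nd (nat_lit 78) (nat_lit 0) (nat_lit 0) (XT.lf (nat_lit 0) (nat_lit 53252550337) (nat_lit 76) (nat_lit 217302316685) (nat_lit 76) (nat_lit 187977010962) (nat_lit 9) (nat_lit 4) (nat_lit 10) (nat_lit 5) (nat_lit 10) (nat_lit 4) (nat_lit 484) (nat_lit 415) (nat_lit 301)) (XT.nd (nat_lit 78) (nat_lit 0) (nat_lit 0) (XT.lf (nat_lit 0) (nat_lit 202424012318) (nat_lit 76) (nat_lit 158225591137) (nat_lit 76) (nat_lit 128899949160) (nat_lit 9) (nat_lit 4) (nat_lit 10) (nat_lit 5) (nat_lit 10) (nat_lit 4) (nat_lit 485) (nat_lit 415) (nat_lit 300)) (XT.lf (nat_lit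 0) (nat_lit 363525992580) (nat_lit 76) (nat_lit 94424363501) (nat_lit 76) (nat_lit 65098410177) (nat_lit 9) (nat_lit 4) (nat_lit 10) (nat_lit 5) (nat_lit 10) (nat_lit 4) (nat_lit 486) (nat_lit 415) (nat_lit 299)))) (XT.nd (nat_lit 78) (nat_lit 76) (nat_lit 0) (XT.lf (nat_lit 0) (nat_lit 3615313193) (nat_lit 152) (nat_lit 21806390165) (nat_lit 76) (nat_lit 533799007263) (nat_lit 8) (nat_lit 5) (nat_lit 10) (nat_lit 5) (nat_lit 9) (nat_lit 4) (nat_lit 487) (nat_lit 415) (nat_lit 298)) (XT.nd (nat_lit 78) (nat_lit 0) (nat_lit 0) (XT.lf (nat_lit 0) (nat_lit 78785344470) (nat_lit 152) (nat_lit 467376529557) (nat_lit 0) (nat_lit 51631169898) (nat_lit 7) (nat_lit 5) (nat_lit 9) (nat_lit 4) (nat_lit 7) (nat_lit 4) (nat_lit 488) (nat_lit 415) (nat_lit 297)) (XT.lf (nat_lit 0) (nat_lit 161239621412) (nat_lit 152) (nat_lit 344024673055) (nat_lit 0) (nat_lit 134085217991) (nat_lit 7) (nat_lit 5) (nat_lit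 9) (nat_lit 4) (nat_lit 7) (nat_lit 4) (nat_lit 489) (nat_lit 415) (nat_lit 296))))))) (XT.nd (nat_lit 936) (nat_lit 76) (nat_lit 0) (XT.nd (nat_lit 468) (nat_lit 152) (nat_lit 0) (XT.nd (nat_lit 234) (nat_lit 0) (nat_lit 0) (XT.nd (nat_lit 78) (nat_lit 76) (nat_lit 0) (XT.lf (nat_lit 0) (nat_lit 250288969636) (nat_lit 152) (nat_lit 210807276207) (nat_lit 0) (nat_lit 223134354318) (nat_lit 7) (nat_lit 5) (nat_lit 9) (nat_lit 4) (nat_lit 7) (nat_lit 4) (nat_lit 490) (nat_lit 415) (nat_lit 295)) (XT.nd (nat_lit 78) (nat_lit 76) (nat_lit 0) (XT.lf (nat_lit 0) (nat_lit 346461088982) (nat_lit 152) (nat_lit 66934902590) (nat_lit 0) (nat_lit 319306277463) (nat_lit 7) (nat_lit 5) (nat_lit 9) (nat_lit 4) (nat_lit 7) (nat_lit 4) (nat_lit 491) (nat_lit 415) (nat_lit 294)) (XT.lf (nat_lit 0) (nat_lit 93102383095) (nat_lit 76) (nat_lit 359462619763) (nat_lit 76) (nat_lit 332307626576) (nat_lit 6) (nat_lit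 4) (nat_lit 7) (nat_lit 5) (nat_lit 7) (nat_lit 4) (nat_lit 492) (nat_lit 415) (nat_lit 293)))) (XT.nd (nat_lit 78) (nat_lit 0) (nat_lit 0) (XT.lf (nat_lit 0) (nat_lit 269747119376) (nat_lit 76) (nat_lit 299239168048) (nat_lit 76) (nat_lit 272084006650) (nat_lit 6) (nat_lit 4) (nat_lit 7) (nat_lit 5) (nat_lit 7) (nat_lit 4) (nat_lit 493) (nat_lit 415) (nat_lit 292)) (XT.nd (nat_lit 78) (nat_lit 0) (nat_lit 0) (XT.lf (nat_lit 0) (nat_lit 460521416521) (nat_lit 76) (nat_lit 234198875568) (nat_lit 76) (nat_lit 207043558420) (nat_lit 6) (nat_lit 4) (nat_lit 7) (nat_lit 5) (nat_lit 7) (nat_lit 4) (nat_lit 494) (nat_lit 415) (nat_lit 291)) (XT.lf (nat_lit 0) (nat_lit 666555788885) (nat_lit 76) (nat_lit 163956318369) (nat_lit 76) (nat_lit 136800857007) (nat_lit 6) (nat_lit 4) (nat_lit 7) (nat_lit 5) (nat_lit 7) (nat_lit 4) (nat_lit 495) (nat_lit 415) (nat_lit 290))))) (XT.nd (nat_lit 234) (nat_lit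 0) (nat_lit 0) (XT.nd (nat_lit 78) (nat_lit 152) (nat_lit 0) (XT.lf (nat_lit 0) (nat_lit 889071180897) (nat_lit 76) (nat_lit 88095244260) (nat_lit 76) (nat_lit 60939649366) (nat_lit 6) (nat_lit 4) (nat_lit 7) (nat_lit 5) (nat_lit 7) (nat_lit 4) (nat_lit 496) (nat_lit 415) (nat_lit 289)) (XT.nd (nat_lit 78) (nat_lit 0) (nat_lit 0) (XT.lf (nat_lit 0) (nat_lit 15072703242) (nat_lit 76) (nat_lit 5229422611) (nat_lit 152) (nat_lit 1094191186203) (nat_lit 4) (nat_lit 5) (nat_lit 5) (nat_lit 5) (nat_lit 6) (nat_lit 4) (nat_lit 497) (nat_lit 415) (nat_lit 288)) (XT.lf (nat_lit 0) (nat_lit 110957430147) (nat_lit 152) (nat_lit 999597809414) (nat_lit 0) (nat_lit 85813140318) (nat_lit 4) (nat_lit 5) (nat_lit 6) (nat_lit 4) (nat_lit 4) (nat_lit 4) (nat_lit 498) (nat_lit 415) (nat_lit 287)))) (XT.nd (nat_lit 78) (nat_lit 0) (nat_lit 0) (XT.lf (nat_lit 0) (nat_lit 209000247769) (nat_lit 152) (nat_lit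 891926538460) (nat_lit 0) (nat_lit 183855859791) (nat_lit 4) (nat_lit 5) (nat_lit 6) (nat_lit 4) (nat_lit 4) (nat_lit 4) (nat_lit 499) (nat_lit 415) (nat_lit 286)) (XT.nd (nat_lit 78) (nat_lit 0) (nat_lit 0) (XT.lf (nat_lit 0) (nat_lit 314885805453) (nat_lit 152) (nat_lit 775642976235) (nat_lit 0) (nat_lit 289741326596) (nat_lit 4) (nat_lit 5) (nat_lit 6) (nat_lit 4) (nat_lit 4) (nat_lit 4) (nat_lit 500) (nat_lit 415) (nat_lit 285)) (XT.lf (nat_lit 0) (nat_lit 429241573172) (nat_lit 152) (nat_lit 650058034965) (nat_lit 0) (nat_lit 404097010167) (nat_lit 4) (nat_lit 5) (nat_lit 6) (nat_lit 4) (nat_lit 4) (nat_lit 4) (nat_lit 501) (nat_lit 415) (nat_lit 284)))))) (XT.nd (nat_lit 468) (nat_lit 0) (nat_lit 0) (XT.nd (nat_lit 234) (nat_lit 76) (nat_lit 0) (XT.nd (nat_lit 78) (nat_lit 0) (nat_lit 0) (XT.lf (nat_lit 0) (nat_lit 552745214733) (nat_lit 152) (nat_lit 514427507590) (nat_lit 0) (nat_lit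 527600573814) (nat_lit 4) (nat_lit 5) (nat_lit 6) (nat_lit 4) (nat_lit 4) (nat_lit 4) (nat_lit 502) (nat_lit 415) (nat_lit 283)) (XT.nd (nat_lit 78) (nat_lit 0) (nat_lit 0) (XT.lf (nat_lit 0) (nat_lit 686128603569) (nat_lit 152) (nat_lit 367947657651) (nat_lit 0) (nat_lit 660983890507) (nat_lit 4) (nat_lit 5) (nat_lit 6) (nat_lit 4) (nat_lit 4) (nat_lit 4) (nat_lit 503) (nat_lit 415) (nat_lit 282)) (XT.lf (nat_lit 0) (nat_lit 830182159761) (nat_lit 152) (nat_lit 209750456408) (nat_lit 0) (nat_lit 805037379901) (nat_lit 4) (nat_lit 5) (nat_lit 6) (nat_lit 4) (nat_lit 4) (nat_lit 4) (nat_lit 504) (nat_lit 415) (nat_lit 281)))) (XT.nd (nat_lit 78) (nat_lit 76) (nat_lit 0) (XT.lf (nat_lit 0) (nat_lit 985759534013) (nat_lit 152) (nat_lit 38898438965) (nat_lit 0) (nat_lit 960614692302) (nat_lit 4) (nat_lit 5) (nat_lit 6) (nat_lit 4) (nat_lit 4) (nat_lit 4) (nat_lit 505) (nat_lit 415) (nat_lit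 280)) (XT.nd (nat_lit 78) (nat_lit 0) (nat_lit 0) (XT.lf (nat_lit 0) (nat_lit 153288987033) (nat_lit 76) (nat_lit 1004180283112) (nat_lit 76) (nat_lit 979035384131) (nat_lit 3) (nat_lit 4) (nat_lit 4) (nat_lit 5) (nat_lit 4) (nat_lit 4) (nat_lit 506) (nat_lit 415) (nat_lit 279)) (XT.lf (nat_lit 0) (nat_lit 363062729508) (nat_lit 76) (nat_lit 980916187187) (nat_lit 76) (nat_lit 955771235179) (nat_lit 3) (nat_lit 4) (nat_lit 4) (nat_lit 5) (nat_lit 4) (nat_lit 4) (nat_lit 507) (nat_lit 415) (nat_lit 278))))) (XT.nd (nat_lit 234) (nat_lit 0) (nat_lit 0) (XT.nd (nat_lit 78) (nat_lit 0) (nat_lit 0) (XT.lf (nat_lit 0) (nat_lit 589617569257) (nat_lit 76) (nat_lit 955791376149) (nat_lit 76) (nat_lit 930646375042) (nat_lit 3) (nat_lit 4) (nat_lit 4) (nat_lit 5) (nat_lit 4) (nat_lit 4) (nat_lit 508) (nat_lit 415) (nat_lit 277)) (XT.nd (nat_lit 78) (nat_lit 0) (nat_lit 0) (XT.lf (nat_lit 0) (nat_lit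 834296053478) (nat_lit 76) (nat_lit 928656962230) (nat_lit 76) (nat_lit 903511915661) (nat_lit 3) (nat_lit 4) (nat_lit 4) (nat_lit 5) (nat_lit 4) (nat_lit 4) (nat_lit 509) (nat_lit 415) (nat_lit 276)) (XT.lf (nat_lit 0) (nat_lit 1098548128744) (nat_lit 76) (nat_lit 899352148903) (nat_lit 76) (nat_lit 874207060239) (nat_lit 3) (nat_lit 4) (nat_lit 4) (nat_lit 5) (nat_lit 4) (nat_lit 4) (nat_lit 510) (nat_lit 415) (nat_lit 275)))) (XT.nd (nat_lit 78) (nat_lit 0) (nat_lit 0) (XT.lf (nat_lit 0) (nat_lit 1383939733280) (nat_lit 76) (nat_lit 867703278014) (nat_lit 76) (nat_lit 842558150374) (nat_lit 3) (nat_lit 4) (nat_lit 4) (nat_lit 5) (nat_lit 4) (nat_lit 4) (nat_lit 511) (nat_lit 415) (nat_lit 274)) (XT.nd (nat_lit 78) (nat_lit 0) (nat_lit 0) (XT.lf (nat_lit 0) (nat_lit 1692162076593) (nat_lit 76) (nat_lit 833522800699) (nat_lit 76) (nat_lit 808377636969) (nat_lit 3) (nat_lit 4) (nat_lit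 4) (nat_lit 5) (nat_lit 4) (nat_lit 4) (nat_lit 512) (nat_lit 415) (nat_lit 273)) (XT.lf (nat_lit 0) (nat_lit 2025041661458) (nat_lit 76) (nat_lit 796608165981) (nat_lit 76) (nat_lit 771462968836) (nat_lit 3) (nat_lit 4) (nat_lit 4) (nat_lit 5) (nat_lit 4) (nat_lit 4) (nat_lit 513) (nat_lit 415) (nat_lit 272))))))))
noncomputable def xc134 : XT := (XT.nd (nat_lit 55380) (nat_lit 0) (nat_lit 2888) (XT.nd (nat_lit 858) (nat_lit 152) (nat_lit 0) (XT.nd (nat_lit 390) (nat_lit 0) (nat_lit 0) (XT.nd (nat_lit 156) (nat_lit 0) (nat_lit 0) (XT.nd (nat_lit 78) (nat_lit 0) (nat_lit 0) (XT.lf (nat_lit 0) (nat_lit 2384551107639) (nat_lit 76) (nat_lit 756740620470) (nat_lit 76) (nat_lit 731595392383) (nat_lit 3) (nat_lit 4) (nat_lit 4) (nat_lit 5) (nat_lit 4) (nat_lit 4) (nat_lit 514) (nat_lit 415) (nat_lit 271)) (XT.lf (nat_lit 0) (nat_lit 2772820841482) (nat_lit 76) (nat_lit 713683912043) (nat_lit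 76) (nat_lit 688538655308) (nat_lit 3) (nat_lit 4) (nat_lit 4) (nat_lit 5) (nat_lit 4) (nat_lit 4) (nat_lit 515) (nat_lit 415) (nat_lit 270))) (XT.nd (nat_lit 78) (nat_lit 0) (nat_lit 0) (XT.lf (nat_lit 0) (nat_lit 3192151720669) (nat_lit 76) (nat_lit 667182889837) (nat_lit 76) (nat_lit 642037606575) (nat_lit 3) (nat_lit 4) (nat_lit 4) (nat_lit 5) (nat_lit 4) (nat_lit 4) (nat_lit 516) (nat_lit 415) (nat_lit 269)) (XT.nd (nat_lit 78) (nat_lit 0) (nat_lit 0) (XT.lf (nat_lit 0) (nat_lit 3645028668930) (nat_lit 76) (nat_lit 616961992238) (nat_lit 76) (nat_lit 591816684414) (nat_lit 3) (nat_lit 4) (nat_lit 4) (nat_lit 5) (nat_lit 4) (nat_lit 4) (nat_lit 517) (nat_lit 415) (nat_lit 268)) (XT.lf (nat_lit 0) (nat_lit 4134135401513) (nat_lit 76) (nat_lit 562723613926) (nat_lit 76) (nat_lit 537578283360) (nat_lit 3) (nat_lit 4) (nat_lit 4) (nat_lit 5) (nat_lit 4) (nat_lit 4) (nat_lit 518) (nat_lit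 415) (nat_lit 267))))) (XT.nd (nat_lit 234) (nat_lit 0) (nat_lit 0) (XT.nd (nat_lit 78) (nat_lit 0) (nat_lit 0) (XT.lf (nat_lit 0) (nat_lit 4662370328685) (nat_lit 76) (nat_lit 504146342290) (nat_lit 76) (nat_lit 479000990667) (nat_lit 3) (nat_lit 4) (nat_lit 4) (nat_lit 5) (nat_lit 4) (nat_lit 4) (nat_lit 519) (nat_lit 415) (nat_lit 266)) (XT.nd (nat_lit 78) (nat_lit 0) (nat_lit 0) (XT.lf (nat_lit 0) (nat_lit 5232863731496) (nat_lit 76) (nat_lit 440883052758) (nat_lit 76) (nat_lit 415737681636) (nat_lit 3) (nat_lit 4) (nat_lit 4) (nat_lit 5) (nat_lit 4) (nat_lit 4) (nat_lit 520) (nat_lit 415) (nat_lit 265)) (XT.lf (nat_lit 0) (nat_lit 5848996311593) (nat_lit 76) (nat_lit 372558851761) (nat_lit 76) (nat_lit 347413462585) (nat_lit 3) (nat_lit 4) (nat_lit 4) (nat_lit 5) (nat_lit 4) (nat_lit 4) (nat_lit 521) (nat_lit 415) (nat_lit 264)))) (XT.nd (nat_lit 78) (nat_lit 0) (nat_lit 0) (XT.lf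 (nat_lit 0) (nat_lit 6514419225005) (nat_lit 76) (nat_lit 298768855145) (nat_lit 76) (nat_lit 273623449253) (nat_lit 3) (nat_lit 4) (nat_lit 4) (nat_lit 5) (nat_lit 4) (nat_lit 4) (nat_lit 522) (nat_lit 415) (nat_lit 263)) (XT.nd (nat_lit 78) (nat_lit 0) (nat_lit 0) (XT.lf (nat_lit 0) (nat_lit 7233075718627) (nat_lit 76) (nat_lit 219075788856) (nat_lit 76) (nat_lit 193930367486) (nat_lit 3) (nat_lit 4) (nat_lit 4) (nat_lit 5) (nat_lit 4) (nat_lit 4) (nat_lit 523) (nat_lit 415) (nat_lit 262)) (XT.lf (nat_lit 0) (nat_lit 8009224497607) (nat_lit 76) (nat_lit 133007397688) (nat_lit 76) (nat_lit 107861961986) (nat_lit 3) (nat_lit 4) (nat_lit 4) (nat_lit 5) (nat_lit 4) (nat_lit 4) (nat_lit 524) (nat_lit 415) (nat_lit 261)))))) (XT.nd (nat_lit 54054) (nat_lit 0) (nat_lit 5472) (XT.nd (nat_lit 234) (nat_lit 0) (nat_lit 0) (XT.nd (nat_lit 78) (nat_lit 152) (nat_lit 0) (XT.lf (nat_lit 0) (nat_lit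 8847464962116) (nat_lit 76) (nat_lit 40053646728) (nat_lit 76) (nat_lit 14908197757) (nat_lit 3) (nat_lit 4) (nat_lit 4) (nat_lit 5) (nat_lit 4) (nat_lit 4) (nat_lit 525) (nat_lit 415) (nat_lit 260)) (XT.nd (nat_lit 78) (nat_lit 0) (nat_lit 0) (XT.lf (nat_lit 0) (nat_lit 86444190026) (nat_lit 152) (nat_lit 9456757301304) (nat_lit 0) (nat_lit 63161355527) (nat_lit 1) (nat_lit 5) (nat_lit 3) (nat_lit 4) (nat_lit 1) (nat_lit 4) (nat_lit 526) (nat_lit 415) (nat_lit 259)) (XT.lf (nat_lit 0) (nat_lit 197681380268) (nat_lit 152) (nat_lit 9994296313452) (nat_lit 0) (nat_lit 174398535235) (nat_lit 1) (nat_lit 5) (nat_lit 3) (nat_lit 4) (nat_lit 1) (nat_lit 4) (nat_lit 527) (nat_lit 415) (nat_lit 258)))) (XT.nd (nat_lit 78) (nat_lit 0) (nat_lit 0) (XT.lf (nat_lit 0) (nat_lit 317817453205) (nat_lit 152) (nat_lit 10574838637401) (nat_lit 0) (nat_lit 294534598418) (nat_lit 1) (nat_lit 5) (nat_lit 3)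 (nat_lit 4) (nat_lit 1) (nat_lit 4) (nat_lit 528) (nat_lit 415) (nat_lit 257)) (XT.nd (nat_lit 53664) (nat_lit 0) (nat_lit 5852) (XT.lf (nat_lit 0) (nat_lit 447564326306) (nat_lit 152) (nat_lit 11201824523957) (nat_lit 0) (nat_lit 424281462488) (nat_lit 1) (nat_lit 5) (nat_lit 3) (nat_lit 4) (nat_lit 1) (nat_lit 4) (nat_lit 529) (nat_lit 415) (nat_lit 256)) (XT.lf (nat_lit 0) (nat_lit 5228841416) (nat_lit 532) (nat_lit 920807174) (nat_lit 532) (nat_lit 920807174) (nat_lit 78) (nat_lit 3) (nat_lit 85) (nat_lit 3) (nat_lit 85) (nat_lit 5) (nat_lit 416) (nat_lit 416) (nat_lit 368))))) (XT.nd (nat_lit 234) (nat_lit 380) (nat_lit 0) (XT.nd (nat_lit 78) (nat_lit 0) (nat_lit 76) (XT.lf (nat_lit 76) (nat_lit 5415833413) (nat_lit 0) (nat_lit 5908484898) (nat_lit 532) (nat_lit 3346235583) (nat_lit 79) (nat_lit 5) (nat_lit 78) (nat_lit 3) (nat_lit 85) (nat_lit 5) (nat_lit 417) (nat_lit 416) (nat_lit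 367)) (XT.nd (nat_lit 78) (nat_lit 0) (nat_lit 0) (XT.lf (nat_lit 0) (nat_lit 12303923785) (nat_lit 456) (nat_lit 1926162078) (nat_lit 532) (nat_lit 1009003442) (nat_lit 79) (nat_lit 5) (nat_lit 85) (nat_lit 5) (nat_lit 86) (nat_lit 5) (nat_lit 418) (nat_lit 416) (nat_lit 366)) (XT.lf (nat_lit 76) (nat_lit 6121988169) (nat_lit 0) (nat_lit 7511057265) (nat_lit 532) (nat_lit 2198382139) (nat_lit 80) (nat_lit 5) (nat_lit 79) (nat_lit 5) (nat_lit 86) (nat_lit 5) (nat_lit 419) (nat_lit 416) (nat_lit 365)))) (XT.nd (nat_lit 78) (nat_lit 456) (nat_lit 0) (XT.lf (nat_lit 76) (nat_lit 14904553622) (nat_lit 0) (nat_lit 188787198) (nat_lit 532) (nat_lit 1375835529) (nat_lit 80) (nat_lit 5) (nat_lit 79) (nat_lit 5) (nat_lit 86) (nat_lit 5) (nat_lit 420) (nat_lit 416) (nat_lit 364)) (XT.nd (nat_lit 78) (nat_lit 532) (nat_lit 0) (XT.lf (nat_lit 76) (nat_lit 7396281431) (nat_lit 0) (nat_lit 9612144642)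 (nat_lit 532) (nat_lit 122491808) (nat_lit 81) (nat_lit 5) (nat_lit 80) (nat_lit 5) (nat_lit 87) (nat_lit 5) (nat_lit 421) (nat_lit 416) (nat_lit 363)) (XT.lf (nat_lit 0) (nat_lit 1193557753) (nat_lit 532) (nat_lit 735412206) (nat_lit 608) (nat_lit 15912346891) (nat_lit 73) (nat_lit 5) (nat_lit 80) (nat_lit 5) (nat_lit 81) (nat_lit 5) (nat_lit 422) (nat_lit 416) (nat_lit 362))))))) (XT.nd (nat_lit 936) (nat_lit 1140) (nat_lit 0) (XT.nd (nat_lit 468) (nat_lit 608) (nat_lit 0) (XT.nd (nat_lit 234) (nat_lit 456) (nat_lit 0) (XT.nd (nat_lit 78) (nat_lit 456) (nat_lit 0) (XT.lf (nat_lit 0) (nat_lit 2971448412) (nat_lit 532) (nat_lit 9317884720) (nat_lit 76) (nat_lit 6289914147) (nat_lit 74) (nat_lit 5) (nat_lit 81) (nat_lit 5) (nat_lit 75) (nat_lit 5) (nat_lit 423) (nat_lit 416) (nat_lit 361)) (XT.nd (nat_lit 78) (nat_lit 0) (nat_lit 0) (XT.lf (nat_lit 0) (nat_lit 688459766) (nat_lit 456) (nat_lit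 4268789327) (nat_lit 532) (nat_lit 14413716210) (nat_lit 68) (nat_lit 5) (nat_lit 74) (nat_lit 5) (nat_lit 75) (nat_lit 5) (nat_lit 424) (nat_lit 416) (nat_lit 360)) (XT.lf (nat_lit 0) (nat_lit 7448483140) (nat_lit 532) (nat_lit 8314285201) (nat_lit 76) (nat_lit 4435533795) (nat_lit 68) (nat_lit 5) (nat_lit 75) (nat_lit 5) (nat_lit 69) (nat_lit 5) (nat_lit 425) (nat_lit 416) (nat_lit 359)))) (XT.nd (nat_lit 78) (nat_lit 228) (nat_lit 0) (XT.lf (nat_lit 0) (nat_lit 2897462232) (nat_lit 228) (nat_lit 7403155326) (nat_lit 304) (nat_lit 10778286624) (nat_lit 65) (nat_lit 5) (nat_lit 68) (nat_lit 5) (nat_lit 69) (nat_lit 5) (nat_lit 426) (nat_lit 416) (nat_lit 358)) (XT.nd (nat_lit 78) (nat_lit 228) (nat_lit 0) (XT.lf (nat_lit 0) (nat_lit 13635181823) (nat_lit 304) (nat_lit 6598671423) (nat_lit 76) (nat_lit 1775766343) (nat_lit 65) (nat_lit 5) (nat_lit 69) (nat_lit 5) (nat_lit 66) (nat_lit 5)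 (nat_lit 427) (nat_lit 416) (nat_lit 357)) (XT.lf (nat_lit 0) (nat_lit 5999180513) (nat_lit 228) (nat_lit 11557179099) (nat_lit 304) (nat_lit 5432850230) (nat_lit 62) (nat_lit 5) (nat_lit 65) (nat_lit 5) (nat_lit 66) (nat_lit 5) (nat_lit 428) (nat_lit 416) (nat_lit 356))))) (XT.nd (nat_lit 234) (nat_lit 380) (nat_lit 0) (XT.nd (nat_lit 78) (nat_lit 228) (nat_lit 0) (XT.lf (nat_lit 0) (nat_lit 19961269075) (nat_lit 228) (nat_lit 1994445096) (nat_lit 304) (nat_lit 2078299621) (nat_lit 62) (nat_lit 5) (nat_lit 65) (nat_lit 5) (nat_lit 66) (nat_lit 5) (nat_lit 429) (nat_lit 416) (nat_lit 355)) (XT.nd (nat_lit 78) (nat_lit 0) (nat_lit 0) (XT.lf (nat_lit 0) (nat_lit 1908639097) (nat_lit 228) (nat_lit 15008775302) (nat_lit 76) (nat_lit 8206716814) (nat_lit 59) (nat_lit 5) (nat_lit 62) (nat_lit 5) (nat_lit 60) (nat_lit 5) (nat_lit 430) (nat_lit 416) (nat_lit 354)) (XT.lf (nat_lit 0) (nat_lit 6253771733)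 (nat_lit 228) (nat_lit 749987497) (nat_lit 76) (nat_lit 19281262607) (nat_lit 59) (nat_lit 5) (nat_lit 62) (nat_lit 5) (nat_lit 60) (nat_lit 5) (nat_lit 431) (nat_lit 416) (nat_lit 353)))) (XT.nd (nat_lit 78) (nat_lit 152) (nat_lit 0) (XT.lf (nat_lit 0) (nat_lit 11402072548) (nat_lit 304) (nat_lit 12206297830) (nat_lit 76) (nat_lit 3893972461) (nat_lit 56) (nat_lit 5) (nat_lit 60) (nat_lit 5) (nat_lit 57) (nat_lit 5) (nat_lit 432) (nat_lit 416) (nat_lit 352)) (XT.nd (nat_lit 78) (nat_lit 0) (nat_lit 0) (XT.lf (nat_lit 0) (nat_lit 3844917327) (nat_lit 152) (nat_lit 13399776397) (nat_lit 228) (nat_lit 11549762750) (nat_lit 54) (nat_lit 5) (nat_lit 56) (nat_lit 5) (nat_lit 57) (nat_lit 5) (nat_lit 433) (nat_lit 416) (nat_lit 351)) (XT.lf (nat_lit 0) (nat_lit 21856891671) (nat_lit 152) (nat_lit 2019145494) (nat_lit 228) (nat_lit 6288200230) (nat_lit 54) (nat_lit 5) (nat_lit 56) (nat_lit 5)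 (nat_lit 57) (nat_lit 5) (nat_lit 434) (nat_lit 416) (nat_lit 350)))))) (XT.nd (nat_lit 468) (nat_lit 456) (nat_lit 0) (XT.nd (nat_lit 234) (nat_lit 304) (nat_lit 0) (XT.nd (nat_lit 78) (nat_lit 228) (nat_lit 0) (XT.lf (nat_lit 0) (nat_lit 9897249986) (nat_lit 152) (nat_lit 21614085556) (nat_lit 228) (nat_lit 94392415) (nat_lit 52) (nat_lit 5) (nat_lit 54) (nat_lit 5) (nat_lit 55) (nat_lit 5) (nat_lit 435) (nat_lit 416) (nat_lit 349)) (XT.nd (nat_lit 78) (nat_lit 152) (nat_lit 0) (XT.lf (nat_lit 0) (nat_lit 6539045154) (nat_lit 228) (nat_lit 3347868105) (nat_lit 76) (nat_lit 23241016028) (nat_lit 51) (nat_lit 5) (nat_lit 54) (nat_lit 5) (nat_lit 52) (nat_lit 5) (nat_lit 436) (nat_lit 416) (nat_lit 348)) (XT.lf (nat_lit 0) (nat_lit 14181826250) (nat_lit 228) (nat_lit 17486671834) (nat_lit 76) (nat_lit 3064513397) (nat_lit 49) (nat_lit 5) (nat_lit 52) (nat_lit 5) (nat_lit 50) (nat_lit 5)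 (nat_lit 437) (nat_lit 416) (nat_lit 347)))) (XT.nd (nat_lit 78) (nat_lit 152) (nat_lit 0) (XT.lf (nat_lit 0) (nat_lit 3098924146) (nat_lit 152) (nat_lit 19752031242) (nat_lit 228) (nat_lit 13582352999) (nat_lit 47) (nat_lit 5) (nat_lit 49) (nat_lit 5) (nat_lit 50) (nat_lit 5) (nat_lit 438) (nat_lit 416) (nat_lit 346)) (XT.nd (nat_lit 78) (nat_lit 152) (nat_lit 0) (XT.lf (nat_lit 0) (nat_lit 26310041938) (nat_lit 152) (nat_lit 6371753020) (nat_lit 228) (nat_lit 5550381696) (nat_lit 47) (nat_lit 5) (nat_lit 49) (nat_lit 5) (nat_lit 50) (nat_lit 5) (nat_lit 439) (nat_lit 416) (nat_lit 345)) (XT.lf (nat_lit 0) (nat_lit 3443181838) (nat_lit 152) (nat_lit 28652610303) (nat_lit 76) (nat_lit 8035127742) (nat_lit 45) (nat_lit 5) (nat_lit 47) (nat_lit 5) (nat_lit 46) (nat_lit 5) (nat_lit 440) (nat_lit 416) (nat_lit 344))))) (XT.nd (nat_lit 234) (nat_lit 228) (nat_lit 0) (XT.nd (nat_lit 78) (nat_lit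 228) (nat_lit 0) (XT.lf (nat_lit 0) (nat_lit 13347072153) (nat_lit 152) (nat_lit 5060152035) (nat_lit 76) (nat_lit 23723550206) (nat_lit 45) (nat_lit 5) (nat_lit 47) (nat_lit 5) (nat_lit 46) (nat_lit 5) (nat_lit 441) (nat_lit 416) (nat_lit 343)) (XT.nd (nat_lit 78) (nat_lit 76) (nat_lit 0) (XT.lf (nat_lit 0) (nat_lit 21480010391) (nat_lit 152) (nat_lit 3071309265) (nat_lit 228) (nat_lit 19698655416) (nat_lit 43) (nat_lit 5) (nat_lit 45) (nat_lit 5) (nat_lit 46) (nat_lit 5) (nat_lit 442) (nat_lit 416) (nat_lit 342)) (XT.lf (nat_lit 0) (nat_lit 3748597210) (nat_lit 76) (nat_lit 33451497756) (nat_lit 152) (nat_lit 9294763169) (nat_lit 42) (nat_lit 5) (nat_lit 43) (nat_lit 5) (nat_lit 44) (nat_lit 4) (nat_lit 443) (nat_lit 416) (nat_lit 341)))) (XT.nd (nat_lit 78) (nat_lit 152) (nat_lit 0) (XT.lf (nat_lit 0) (nat_lit 2554526925) (nat_lit 152) (nat_lit 15343021955) (nat_lit 76) (nat_lit 30961232391)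 (nat_lit 41) (nat_lit 5) (nat_lit 43) (nat_lit 5) (nat_lit 42) (nat_lit 5) (nat_lit 444) (nat_lit 416) (nat_lit 340)) (XT.nd (nat_lit 78) (nat_lit 0) (nat_lit 0) (XT.lf (nat_lit 0) (nat_lit 14734765535) (nat_lit 152) (nat_lit 461512199) (nat_lit 228) (nat_lit 36168493728) (nat_lit 39) (nat_lit 5) (nat_lit 41) (nat_lit 5) (nat_lit 42) (nat_lit 5) (nat_lit 445) (nat_lit 416) (nat_lit 339)) (XT.lf (nat_lit 0) (nat_lit 29713981236) (nat_lit 228) (nat_lit 6412517533) (nat_lit 76) (nat_lit 17875574098) (nat_lit 39) (nat_lit 5) (nat_lit 42) (nat_lit 5) (nat_lit 40) (nat_lit 4) (nat_lit 446) (nat_lit 416) (nat_lit 338))))))))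
noncomputable def xc135 : XT := (XT.nd (nat_lit 1794) (nat_lit 988) (nat_lit 0) (XT.nd (nat_lit 858) (nat_lit 684) (nat_lit 0) (XT.nd (nat_lit 390) (nat_lit 456) (nat_lit 0) (XT.nd (nat_lit 156) (nat_lit 76) (nat_lit 0) (XT.nd (nat_lit 78) (nat_lit 228) (nat_lit 0) (XT.lf (nat_lit 0) (nat_lit 27577413319) (nat_lit 76) (nat_lit 18483899782) (nat_lit 152) (nat_lit 10735589253) (nat_lit 38) (nat_lit 5) (nat_lit 39) (nat_lit 5) (nat_lit 40) (nat_lit 4) (nat_lit 447) (nat_lit 416) (nat_lit 337)) (XT.lf (nat_lit 0) (nat_lit 4022660852) (nat_lit 228) (nat_lit 54819633938) (nat_lit 76) (nat_lit 940182698) (nat_lit 35) (nat_lit 5) (nat_lit 38) (nat_lit 5) (nat_lit 36) (nat_lit 4) (nat_lit 448) (nat_lit 416) (nat_lit 336))) (XT.nd (nat_lit 78) (nat_lit 76) (nat_lit 0) (XT.lf (nat_lit 0) (nat_lit 20674461145) (nat_lit 228) (nat_lit 20193827652) (nat_lit 76) (nat_lit 22012871592) (nat_lit 35) (nat_lit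 5) (nat_lit 38) (nat_lit 5) (nat_lit 36) (nat_lit 4) (nat_lit 449) (nat_lit 416) (nat_lit 335)) (XT.nd (nat_lit 78) (nat_lit 0) (nat_lit 0) (XT.lf (nat_lit 0) (nat_lit 18095548092) (nat_lit 76) (nat_lit 20991690887) (nat_lit 152) (nat_lit 27106192948) (nat_lit 34) (nat_lit 5) (nat_lit 35) (nat_lit 5) (nat_lit 36) (nat_lit 4) (nat_lit 450) (nat_lit 416) (nat_lit 334)) (XT.lf (nat_lit 0) (nat_lit 59544645920) (nat_lit 152) (nat_lit 9167544595) (nat_lit 0) (nat_lit 1012766758) (nat_lit 34) (nat_lit 5) (nat_lit 36) (nat_lit 4) (nat_lit 34) (nat_lit 4) (nat_lit 451) (nat_lit 416) (nat_lit 333))))) (XT.nd (nat_lit 234) (nat_lit 228) (nat_lit 0) (XT.nd (nat_lit 78) (nat_lit 76) (nat_lit 0) (XT.lf (nat_lit 0) (nat_lit 9087393544) (nat_lit 152) (nat_lit 39637405554) (nat_lit 76) (nat_lit 24687188002) (nat_lit 32) (nat_lit 5) (nat_lit 34) (nat_lit 5) (nat_lit 33) (nat_lit 4) (nat_lit 452) (nat_lit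 416) (nat_lit 332)) (XT.nd (nat_lit 78) (nat_lit 0) (nat_lit 0) (XT.lf (nat_lit 0) (nat_lit 3176550667) (nat_lit 76) (nat_lit 26497727529) (nat_lit 152) (nat_lit 47672326559) (nat_lit 31) (nat_lit 5) (nat_lit 32) (nat_lit 5) (nat_lit 33) (nat_lit 4) (nat_lit 453) (nat_lit 416) (nat_lit 331)) (XT.lf (nat_lit 0) (nat_lit 51659178208) (nat_lit 76) (nat_lit 1327066513) (nat_lit 152) (nat_lit 28523497082) (nat_lit 31) (nat_lit 5) (nat_lit 32) (nat_lit 5) (nat_lit 33) (nat_lit 4) (nat_lit 454) (nat_lit 416) (nat_lit 330)))) (XT.nd (nat_lit 78) (nat_lit 152) (nat_lit 0) (XT.lf (nat_lit 0) (nat_lit 18297772373) (nat_lit 76) (nat_lit 60922004302) (nat_lit 76) (nat_lit 6701624924) (nat_lit 30) (nat_lit 4) (nat_lit 31) (nat_lit 5) (nat_lit 31) (nat_lit 4) (nat_lit 455) (nat_lit 416) (nat_lit 329)) (XT.nd (nat_lit 78) (nat_lit 76) (nat_lit 0) (XT.lf (nat_lit 0) (nat_lit 16888827166) (nat_lit 152) (nat_lit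 19096590508) (nat_lit 76) (nat_lit 54598803813) (nat_lit 29) (nat_lit 5) (nat_lit 31) (nat_lit 5) (nat_lit 30) (nat_lit 4) (nat_lit 456) (nat_lit 416) (nat_lit 328)) (XT.lf (nat_lit 0) (nat_lit 34873621339) (nat_lit 76) (nat_lit 7964636218) (nat_lit 152) (nat_lit 52701179982) (nat_lit 28) (nat_lit 5) (nat_lit 29) (nat_lit 5) (nat_lit 30) (nat_lit 4) (nat_lit 457) (nat_lit 416) (nat_lit 327)))))) (XT.nd (nat_lit 468) (nat_lit 304) (nat_lit 0) (XT.nd (nat_lit 234) (nat_lit 152) (nat_lit 0) (XT.nd (nat_lit 78) (nat_lit 228) (nat_lit 0) (XT.lf (nat_lit 0) (nat_lit 71930729754) (nat_lit 152) (nat_lit 7161112064) (nat_lit 0) (nat_lit 21713862387) (nat_lit 28) (nat_lit 5) (nat_lit 30) (nat_lit 4) (nat_lit 28) (nat_lit 4) (nat_lit 458) (nat_lit 416) (nat_lit 326)) (XT.nd (nat_lit 78) (nat_lit 152) (nat_lit 0) (XT.lf (nat_lit 0) (nat_lit 53062732166) (nat_lit 76) (nat_lit 51766390098) (nat_lit 76)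 (nat_lit 1545868430) (nat_lit 27) (nat_lit 4) (nat_lit 28) (nat_lit 5) (nat_lit 28) (nat_lit 4) (nat_lit 459) (nat_lit 416) (nat_lit 325)) (XT.lf (nat_lit 0) (nat_lit 5738084014) (nat_lit 76) (nat_lit 21166718531) (nat_lit 152) (nat_lit 85404453317) (nat_lit 25) (nat_lit 5) (nat_lit 26) (nat_lit 5) (nat_lit 27) (nat_lit 4) (nat_lit 460) (nat_lit 416) (nat_lit 324)))) (XT.nd (nat_lit 78) (nat_lit 152) (nat_lit 0) (XT.lf (nat_lit 0) (nat_lit 59324788755) (nat_lit 152) (nat_lit 46429847385) (nat_lit 0) (nat_lit 12818271853) (nat_lit 25) (nat_lit 5) (nat_lit 27) (nat_lit 4) (nat_lit 25) (nat_lit 4) (nat_lit 461) (nat_lit 416) (nat_lit 323)) (XT.nd (nat_lit 78) (nat_lit 76) (nat_lit 0) (XT.lf (nat_lit 0) (nat_lit 18910831037) (nat_lit 76) (nat_lit 76427994146) (nat_lit 76) (nat_lit 29918791223) (nat_lit 24) (nat_lit 4) (nat_lit 25) (nat_lit 5) (nat_lit 25) (nat_lit 4) (nat_lit 462) (nat_lit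 416) (nat_lit 322)) (XT.lf (nat_lit 0) (nat_lit 2967315332) (nat_lit 152) (nat_lit 40339674086) (nat_lit 76) (nat_lit 89062866517) (nat_lit 23) (nat_lit 5) (nat_lit 25) (nat_lit 5) (nat_lit 24) (nat_lit 4) (nat_lit 463) (nat_lit 416) (nat_lit 321))))) (XT.nd (nat_lit 234) (nat_lit 152) (nat_lit 0) (XT.nd (nat_lit 78) (nat_lit 76) (nat_lit 0) (XT.lf (nat_lit 0) (nat_lit 31751673033) (nat_lit 76) (nat_lit 5876050928) (nat_lit 152) (nat_lit 102300397489) (nat_lit 22) (nat_lit 5) (nat_lit 23) (nat_lit 5) (nat_lit 24) (nat_lit 4) (nat_lit 464) (nat_lit 416) (nat_lit 320)) (XT.nd (nat_lit 78) (nat_lit 76) (nat_lit 0) (XT.lf (nat_lit 0) (nat_lit 77019679361) (nat_lit 152) (nat_lit 36965478681) (nat_lit 0) (nat_lit 33949193197) (nat_lit 22) (nat_lit 5) (nat_lit 24) (nat_lit 4) (nat_lit 22) (nat_lit 4) (nat_lit 465) (nat_lit 416) (nat_lit 319)) (XT.lf (nat_lit 0) (nat_lit 41877606613) (nat_lit 76)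 (nat_lit 78841643239) (nat_lit 76) (nat_lit 35769329015) (nat_lit 21) (nat_lit 4) (nat_lit 22) (nat_lit 5) (nat_lit 22) (nat_lit 4) (nat_lit 466) (nat_lit 416) (nat_lit 318)))) (XT.nd (nat_lit 78) (nat_lit 76) (nat_lit 0) (XT.lf (nat_lit 0) (nat_lit 3111643985) (nat_lit 152) (nat_lit 36601787382) (nat_lit 76) (nat_lit 125926829446) (nat_lit 20) (nat_lit 5) (nat_lit 22) (nat_lit 5) (nat_lit 21) (nat_lit 4) (nat_lit 467) (nat_lit 416) (nat_lit 317)) (XT.nd (nat_lit 78) (nat_lit 0) (nat_lit 0) (XT.lf (nat_lit 0) (nat_lit 44465940766) (nat_lit 152) (nat_lit 126299035390) (nat_lit 0) (nat_lit 4581149896) (nat_lit 19) (nat_lit 5) (nat_lit 21) (nat_lit 4) (nat_lit 19) (nat_lit 4) (nat_lit 468) (nat_lit 416) (nat_lit 316)) (XT.lf (nat_lit 0) (nat_lit 91183606668) (nat_lit 152) (nat_lit 43182979800) (nat_lit 0) (nat_lit 51297472120) (nat_lit 19) (nat_lit 5) (nat_lit 21) (nat_lit 4) (nat_lit 19)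 (nat_lit 4) (nat_lit 469) (nat_lit 416) (nat_lit 315))))))) (XT.nd (nat_lit 936) (nat_lit 456) (nat_lit 0) (XT.nd (nat_lit 468) (nat_lit 228) (nat_lit 0) (XT.nd (nat_lit 234) (nat_lit 76) (nat_lit 0) (XT.nd (nat_lit 78) (nat_lit 152) (nat_lit 0) (XT.lf (nat_lit 0) (nat_lit 49028946395) (nat_lit 76) (nat_lit 93785883309) (nat_lit 76) (nat_lit 53898504613) (nat_lit 18) (nat_lit 4) (nat_lit 19) (nat_lit 5) (nat_lit 19) (nat_lit 4) (nat_lit 470) (nat_lit 416) (nat_lit 314)) (XT.nd (nat_lit 78) (nat_lit 152) (nat_lit 0) (XT.lf (nat_lit 0) (nat_lit 151067793620) (nat_lit 76) (nat_lit 48686533567) (nat_lit 76) (nat_lit 8798002883) (nat_lit 18) (nat_lit 4) (nat_lit 19) (nat_lit 5) (nat_lit 19) (nat_lit 4) (nat_lit 471) (nat_lit 416) (nat_lit 313)) (XT.lf (nat_lit 0) (nat_lit 38948738558) (nat_lit 152) (nat_lit 180216217934) (nat_lit 0) (nat_lit 2013926207) (nat_lit 16) (nat_lit 5) (nat_lit 18)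 (nat_lit 4) (nat_lit 16) (nat_lit 4) (nat_lit 472) (nat_lit 416) (nat_lit 312)))) (XT.nd (nat_lit 78) (nat_lit 76) (nat_lit 0) (XT.lf (nat_lit 0) (nat_lit 92914268907) (nat_lit 152) (nat_lit 85674517449) (nat_lit 0) (nat_lit 55978542070) (nat_lit 16) (nat_lit 5) (nat_lit 18) (nat_lit 4) (nat_lit 16) (nat_lit 4) (nat_lit 473) (nat_lit 416) (nat_lit 311)) (XT.nd (nat_lit 78) (nat_lit 0) (nat_lit 0) (XT.lf (nat_lit 0) (nat_lit 17290257145) (nat_lit 76) (nat_lit 134320052442) (nat_lit 76) (nat_lit 97383478860) (nat_lit 15) (nat_lit 4) (nat_lit 16) (nat_lit 5) (nat_lit 16) (nat_lit 4) (nat_lit 474) (nat_lit 416) (nat_lit 310)) (XT.lf (nat_lit 0) (nat_lit 133359540222) (nat_lit 76) (nat_lit 83982491434) (nat_lit 76) (nat_lit 47045133828) (nat_lit 15) (nat_lit 4) (nat_lit 16) (nat_lit 5) (nat_lit 16) (nat_lit 4) (nat_lit 475) (nat_lit 416) (nat_lit 309))))) (XT.nd (nat_lit 234) (nat_lit 76) (nat_lit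 0) (XT.nd (nat_lit 78) (nat_lit 76) (nat_lit 0) (XT.lf (nat_lit 0) (nat_lit 6951718564) (nat_lit 152) (nat_lit 22478508939) (nat_lit 76) (nat_lit 251567890622) (nat_lit 14) (nat_lit 5) (nat_lit 16) (nat_lit 5) (nat_lit 15) (nat_lit 4) (nat_lit 476) (nat_lit 416) (nat_lit 308)) (XT.nd (nat_lit 78) (nat_lit 0) (nat_lit 0) (XT.lf (nat_lit 0) (nat_lit 65894596354) (nat_lit 152) (nat_lit 201000114887) (nat_lit 0) (nat_lit 31692044755) (nat_lit 13) (nat_lit 5) (nat_lit 15) (nat_lit 4) (nat_lit 13) (nat_lit 4) (nat_lit 477) (nat_lit 416) (nat_lit 307)) (XT.lf (nat_lit 0) (nat_lit 130945702333) (nat_lit 152) (nat_lit 89782784321) (nat_lit 0) (nat_lit 96742574452) (nat_lit 13) (nat_lit 5) (nat_lit 15) (nat_lit 4) (nat_lit 13) (nat_lit 4) (nat_lit 478) (nat_lit 416) (nat_lit 306)))) (XT.nd (nat_lit 78) (nat_lit 0) (nat_lit 0) (XT.lf (nat_lit 0) (nat_lit 31924813080) (nat_lit 76) (nat_lit 170041848922)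 (nat_lit 76) (nat_lit 135838187448) (nat_lit 12) (nat_lit 4) (nat_lit 13) (nat_lit 5) (nat_lit 13) (nat_lit 4) (nat_lit 479) (nat_lit 416) (nat_lit 305)) (XT.nd (nat_lit 78) (nat_lit 0) (nat_lit 0) (XT.lf (nat_lit 0) (nat_lit 168471021224) (nat_lit 76) (nat_lit 112651123748) (nat_lit 76) (nat_lit 78446968207) (nat_lit 12) (nat_lit 4) (nat_lit 13) (nat_lit 5) (nat_lit 13) (nat_lit 4) (nat_lit 480) (nat_lit 416) (nat_lit 304)) (XT.lf (nat_lit 0) (nat_lit 315937200512) (nat_lit 76) (nat_lit 50671038380) (nat_lit 76) (nat_lit 16466425368) (nat_lit 12) (nat_lit 4) (nat_lit 13) (nat_lit 5) (nat_lit 13) (nat_lit 4) (nat_lit 481) (nat_lit 416) (nat_lit 303)))))) (XT.nd (nat_lit 468) (nat_lit 228) (nat_lit 0) (XT.nd (nat_lit 234) (nat_lit 76) (nat_lit 0) (XT.nd (nat_lit 78) (nat_lit 0) (nat_lit 0) (XT.lf (nat_lit 0) (nat_lit 50070586846) (nat_lit 152) (nat_lit 339723877212) (nat_lit 0) (nat_lit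 18399256665) (nat_lit 10) (nat_lit 5) (nat_lit 12) (nat_lit 4) (nat_lit 10) (nat_lit 4) (nat_lit 482) (nat_lit 416) (nat_lit 302)) (XT.nd (nat_lit 78) (nat_lit 0) (nat_lit 0) (XT.lf (nat_lit 0) (nat_lit 124238679853) (nat_lit 152) (nat_lit 218226600657) (nat_lit 0) (nat_lit 92566986517) (nat_lit 10) (nat_lit 5) (nat_lit 12) (nat_lit 4) (nat_lit 10) (nat_lit 4) (nat_lit 483) (nat_lit 416) (nat_lit 301)) (XT.lf (nat_lit 0) (nat_lit 204338615644) (nat_lit 152) (nat_lit 87012823737) (nat_lit 0) (nat_lit 172666586054) (nat_lit 10) (nat_lit 5) (nat_lit 12) (nat_lit 4) (nat_lit 10) (nat_lit 4) (nat_lit 484) (nat_lit 416) (nat_lit 300)))) (XT.nd (nat_lit 78) (nat_lit 0) (nat_lit 0) (XT.lf (nat_lit 0) (nat_lit 57575159320) (nat_lit 76) (nat_lit 234654585151) (nat_lit 76) (nat_lit 202982244215) (nat_lit 9) (nat_lit 4) (nat_lit 10) (nat_lit 5) (nat_lit 10) (nat_lit 4) (nat_lit 485) (nat_lit 416) (nat_lit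 299)) (XT.nd (nat_lit 78) (nat_lit 0) (nat_lit 0) (XT.lf (nat_lit 0) (nat_lit 218675715670) (nat_lit 76) (nat_lit 170854085772) (nat_lit 76) (nat_lit 139181456552) (nat_lit 9) (nat_lit 4) (nat_lit 10) (nat_lit 5) (nat_lit 10) (nat_lit 4) (nat_lit 486) (nat_lit 416) (nat_lit 298)) (XT.lf (nat_lit 0) (nat_lit 392661574179) (nat_lit 76) (nat_lit 101950949011) (nat_lit 76) (nat_lit 70278052861) (nat_lit 9) (nat_lit 4) (nat_lit 10) (nat_lit 5) (nat_lit 10) (nat_lit 4) (nat_lit 487) (nat_lit 416) (nat_lit 297))))) (XT.nd (nat_lit 234) (nat_lit 76) (nat_lit 0) (XT.nd (nat_lit 78) (nat_lit 76) (nat_lit 0) (XT.lf (nat_lit 0) (nat_lit 3929369679) (nat_lit 152) (nat_lit 23500054373) (nat_lit 76) (nat_lit 576526956545) (nat_lit 8) (nat_lit 5) (nat_lit 10) (nat_lit 5) (nat_lit 9) (nat_lit 4) (nat_lit 488) (nat_lit 416) (nat_lit 296)) (XT.nd (nat_lit 78) (nat_lit 0) (nat_lit 0) (XT.lf (nat_lit 0) (nat_lit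 85112966293) (nat_lit 152) (nat_lit 504715767419) (nat_lit 0) (nat_lit 55785769853) (nat_lit 7) (nat_lit 5) (nat_lit 9) (nat_lit 4) (nat_lit 7) (nat_lit 4) (nat_lit 489) (nat_lit 416) (nat_lit 295)) (XT.lf (nat_lit 0) (nat_lit 174161748779) (nat_lit 152) (nat_lit 371499531618) (nat_lit 0) (nat_lit 144834356137) (nat_lit 7) (nat_lit 5) (nat_lit 9) (nat_lit 4) (nat_lit 7) (nat_lit 4) (nat_lit 490) (nat_lit 416) (nat_lit 294)))) (XT.nd (nat_lit 78) (nat_lit 76) (nat_lit 0) (XT.lf (nat_lit 0) (nat_lit 270333344294) (nat_lit 152) (nat_lit 227628233044) (nat_lit 0) (nat_lit 241005769984) (nat_lit 7) (nat_lit 5) (nat_lit 9) (nat_lit 4) (nat_lit 7) (nat_lit 4) (nat_lit 491) (nat_lit 416) (nat_lit 293)) (XT.nd (nat_lit 78) (nat_lit 76) (nat_lit 0) (XT.lf (nat_lit 0) (nat_lit 374197658589) (nat_lit 152) (nat_lit 72249301038) (nat_lit 0) (nat_lit 344869916068) (nat_lit 7) (nat_lit 5) (nat_lit 9) (nat_lit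 4) (nat_lit 7) (nat_lit 4) (nat_lit 492) (nat_lit 416) (nat_lit 292)) (XT.lf (nat_lit 0) (nat_lit 100589944875) (nat_lit 76) (nat_lit 388199429614) (nat_lit 76) (nat_lit 358871531343) (nat_lit 6) (nat_lit 4) (nat_lit 7) (nat_lit 5) (nat_lit 7) (nat_lit 4) (nat_lit 493) (nat_lit 416) (nat_lit 291))))))))
noncomputable def xc136 : XT := (XT.nd (nat_lit 1794) (nat_lit 152) (nat_lit 0) (XT.nd (nat_lit 858) (nat_lit 76) (nat_lit 0) (XT.nd (nat_lit 390) (nat_lit 0) (nat_lit 0) (XT.nd (nat_lit 156) (nat_lit 152) (nat_lit 0) (XT.nd (nat_lit 78) (nat_lit 0) (nat_lit 0) (XT.lf (nat_lit 0) (nat_lit 291363343678) (nat_lit 76) (nat_lit 323159598038) (nat_lit 76) (nat_lit 293831555553) (nat_lit 6) (nat_lit 4) (nat_lit 7) (nat_lit 5) (nat_lit 7) (nat_lit 4) (nat_lit 494) (nat_lit 416) (nat_lit 290)) (XT.lf (nat_lit 0) (nat_lit 497396884243) (nat_lit 76) (nat_lit 252917467601) (nat_lit 76) (nat_lit 223589291585)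 (nat_lit 6) (nat_lit 4) (nat_lit 7) (nat_lit 5) (nat_lit 7) (nat_lit 4) (nat_lit 495) (nat_lit 416) (nat_lit 289))) (XT.nd (nat_lit 78) (nat_lit 152) (nat_lit 0) (XT.lf (nat_lit 0) (nat_lit 719911506071) (nat_lit 76) (nat_lit 177056788642) (nat_lit 76) (nat_lit 147728488986) (nat_lit 6) (nat_lit 4) (nat_lit 7) (nat_lit 5) (nat_lit 7) (nat_lit 4) (nat_lit 496) (nat_lit 416) (nat_lit 288)) (XT.nd (nat_lit 78) (nat_lit 152) (nat_lit 0) (XT.lf (nat_lit 0) (nat_lit 960225814326) (nat_lit 76) (nat_lit 95128016396) (nat_lit 76) (nat_lit 65799602258) (nat_lit 6) (nat_lit 4) (nat_lit 7) (nat_lit 5) (nat_lit 7) (nat_lit 4) (nat_lit 497) (nat_lit 416) (nat_lit 287)) (XT.lf (nat_lit 0) (nat_lit 16307468035) (nat_lit 76) (nat_lit 5632910894) (nat_lit 152) (nat_lit 1181711271297) (nat_lit 4) (nat_lit 5) (nat_lit 5) (nat_lit 5) (nat_lit 6) (nat_lit 4) (nat_lit 498) (nat_lit 416) (nat_lit 286))))) (XT.nd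 (nat_lit 234) (nat_lit 0) (nat_lit 0) (XT.nd (nat_lit 78) (nat_lit 0) (nat_lit 0) (XT.lf (nat_lit 0) (nat_lit 119847395415) (nat_lit 152) (nat_lit 1079538117675) (nat_lit 0) (nat_lit 92691267370) (nat_lit 4) (nat_lit 5) (nat_lit 6) (nat_lit 4) (nat_lit 4) (nat_lit 4) (nat_lit 499) (nat_lit 416) (nat_lit 285)) (XT.nd (nat_lit 78) (nat_lit 0) (nat_lit 0) (XT.lf (nat_lit 0) (nat_lit 225732648012) (nat_lit 152) (nat_lit 963255183303) (nat_lit 0) (nat_lit 198576435820) (nat_lit 4) (nat_lit 5) (nat_lit 6) (nat_lit 4) (nat_lit 4) (nat_lit 4) (nat_lit 500) (nat_lit 416) (nat_lit 284)) (XT.lf (nat_lit 0) (nat_lit 340088133243) (nat_lit 152) (nat_lit 837670823377) (nat_lit 0) (nat_lit 312931843136) (nat_lit 4) (nat_lit 5) (nat_lit 6) (nat_lit 4) (nat_lit 4) (nat_lit 4) (nat_lit 501) (nat_lit 416) (nat_lit 283)))) (XT.nd (nat_lit 78) (nat_lit 0) (nat_lit 0) (XT.lf (nat_lit 0) (nat_lit 463591513242)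 (nat_lit 152) (nat_lit 702040834284) (nat_lit 0) (nat_lit 436435150992) (nat_lit 4) (nat_lit 5) (nat_lit 6) (nat_lit 4) (nat_lit 4) (nat_lit 4) (nat_lit 502) (nat_lit 416) (nat_lit 282)) (XT.nd (nat_lit 78) (nat_lit 0) (nat_lit 0) (XT.lf (nat_lit 0) (nat_lit 596974659890) (nat_lit 152) (nat_lit 555561482754) (nat_lit 0) (nat_lit 569818230842) (nat_lit 4) (nat_lit 5) (nat_lit 6) (nat_lit 4) (nat_lit 4) (nat_lit 4) (nat_lit 503) (nat_lit 416) (nat_lit 281)) (XT.lf (nat_lit 0) (nat_lit 741027991834) (nat_lit 152) (nat_lit 397364743001) (nat_lit 0) (nat_lit 713871500935) (nat_lit 4) (nat_lit 5) (nat_lit 6) (nat_lit 4) (nat_lit 4) (nat_lit 4) (nat_lit 504) (nat_lit 416) (nat_lit 280)))))) (XT.nd (nat_lit 468) (nat_lit 0) (nat_lit 0) (XT.nd (nat_lit 234) (nat_lit 0) (nat_lit 0) (XT.nd (nat_lit 78) (nat_lit 76) (nat_lit 0) (XT.lf (nat_lit 0) (nat_lit 896605158449) (nat_lit 152) (nat_lit 226513152863)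 (nat_lit 0) (nat_lit 869448610281) (nat_lit 4) (nat_lit 5) (nat_lit 6) (nat_lit 4) (nat_lit 4) (nat_lit 4) (nat_lit 505) (nat_lit 416) (nat_lit 279)) (XT.nd (nat_lit 78) (nat_lit 76) (nat_lit 0) (XT.lf (nat_lit 0) (nat_lit 1064628098500) (nat_lit 152) (nat_lit 41994258473) (nat_lit 0) (nat_lit 1037471497305) (nat_lit 4) (nat_lit 5) (nat_lit 6) (nat_lit 4) (nat_lit 4) (nat_lit 4) (nat_lit 506) (nat_lit 416) (nat_lit 278)) (XT.lf (nat_lit 0) (nat_lit 165567755133) (nat_lit 76) (nat_lit 1084506656842) (nat_lit 76) (nat_lit 1057350006548) (nat_lit 3) (nat_lit 4) (nat_lit 4) (nat_lit 5) (nat_lit 4) (nat_lit 4) (nat_lit 507) (nat_lit 416) (nat_lit 277)))) (XT.nd (nat_lit 78) (nat_lit 0) (nat_lit 0) (XT.lf (nat_lit 0) (nat_lit 392122237811) (nat_lit 76) (nat_lit 1059382029459) (nat_lit 76) (nat_lit 1032225333703) (nat_lit 3) (nat_lit 4) (nat_lit 4) (nat_lit 5) (nat_lit 4) (nat_lit 4) (nat_lit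 508) (nat_lit 416) (nat_lit 276)) (XT.nd (nat_lit 78) (nat_lit 0) (nat_lit 0) (XT.lf (nat_lit 0) (nat_lit 636800391411) (nat_lit 76) (nat_lit 1032247785591) (nat_lit 76) (nat_lit 1005091047739) (nat_lit 3) (nat_lit 4) (nat_lit 4) (nat_lit 5) (nat_lit 4) (nat_lit 4) (nat_lit 509) (nat_lit 416) (nat_lit 275)) (XT.lf (nat_lit 0) (nat_lit 901052160546) (nat_lit 76) (nat_lit 1002943129717) (nat_lit 76) (nat_lit 975786352890) (nat_lit 3) (nat_lit 4) (nat_lit 4) (nat_lit 5) (nat_lit 4) (nat_lit 4) (nat_lit 510) (nat_lit 416) (nat_lit 274))))) (XT.nd (nat_lit 234) (nat_lit 0) (nat_lit 0) (XT.nd (nat_lit 78) (nat_lit 0) (nat_lit 0) (XT.lf (nat_lit 0) (nat_lit 1186443481627) (nat_lit 76) (nat_lit 971294404619) (nat_lit 76) (nat_lit 944137591702) (nat_lit 3) (nat_lit 4) (nat_lit 4) (nat_lit 5) (nat_lit 4) (nat_lit 4) (nat_lit 511) (nat_lit 416) (nat_lit 273)) (XT.nd (nat_lit 78) (nat_lit 0) (nat_lit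 0) (XT.lf (nat_lit 0) (nat_lit 1494665562482) (nat_lit 76) (nat_lit 937114062296) (nat_lit 76) (nat_lit 909957215963) (nat_lit 3) (nat_lit 4) (nat_lit 4) (nat_lit 5) (nat_lit 4) (nat_lit 4) (nat_lit 512) (nat_lit 416) (nat_lit 272)) (XT.lf (nat_lit 0) (nat_lit 1827544904332) (nat_lit 76) (nat_lit 900199552570) (nat_lit 76) (nat_lit 873042675297) (nat_lit 3) (nat_lit 4) (nat_lit 4) (nat_lit 5) (nat_lit 4) (nat_lit 4) (nat_lit 513) (nat_lit 416) (nat_lit 271)))) (XT.nd (nat_lit 78) (nat_lit 0) (nat_lit 0) (XT.lf (nat_lit 0) (nat_lit 2187054125497) (nat_lit 76) (nat_lit 860332122793) (nat_lit 76) (nat_lit 833175216870) (nat_lit 3) (nat_lit 4) (nat_lit 4) (nat_lit 5) (nat_lit 4) (nat_lit 4) (nat_lit 514) (nat_lit 416) (nat_lit 270)) (XT.nd (nat_lit 78) (nat_lit 0) (nat_lit 0) (XT.lf (nat_lit 0) (nat_lit 2575323650992) (nat_lit 76) (nat_lit 817275521527) (nat_lit 76) (nat_lit 790118589077) (nat_lit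 3) (nat_lit 4) (nat_lit 4) (nat_lit 5) (nat_lit 4) (nat_lit 4) (nat_lit 515) (nat_lit 416) (nat_lit 269)) (XT.lf (nat_lit 0) (nat_lit 2994654337266) (nat_lit 76) (nat_lit 770774598543) (nat_lit 76) (nat_lit 743617641532) (nat_lit 3) (nat_lit 4) (nat_lit 4) (nat_lit 5) (nat_lit 4) (nat_lit 4) (nat_lit 516) (nat_lit 416) (nat_lit 268))))))) (XT.nd (nat_lit 858) (nat_lit 0) (nat_lit 0) (XT.nd (nat_lit 390) (nat_lit 152) (nat_lit 0) (XT.nd (nat_lit 156) (nat_lit 0) (nat_lit 0) (XT.nd (nat_lit 78) (nat_lit 0) (nat_lit 0) (XT.lf (nat_lit 0) (nat_lit 3447531106902) (nat_lit 76) (nat_lit 720553792817) (nat_lit 76) (nat_lit 693396813063) (nat_lit 3) (nat_lit 4) (nat_lit 4) (nat_lit 5) (nat_lit 4) (nat_lit 4) (nat_lit 517) (nat_lit 416) (nat_lit 267)) (XT.lf (nat_lit 0) (nat_lit 3936637674092) (nat_lit 76) (nat_lit 666315499573) (nat_lit 76) (nat_lit 639158498762) (nat_lit 3) (nat_lit 4) (nat_lit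 4) (nat_lit 5) (nat_lit 4) (nat_lit 4) (nat_lit 518) (nat_lit 416) (nat_lit 266))) (XT.nd (nat_lit 78) (nat_lit 0) (nat_lit 0) (XT.lf (nat_lit 0) (nat_lit 4464872448122) (nat_lit 76) (nat_lit 607738306704) (nat_lit 76) (nat_lit 580581286394) (nat_lit 3) (nat_lit 4) (nat_lit 4) (nat_lit 5) (nat_lit 4) (nat_lit 4) (nat_lit 519) (nat_lit 416) (nat_lit 265)) (XT.nd (nat_lit 78) (nat_lit 0) (nat_lit 0) (XT.lf (nat_lit 0) (nat_lit 5035365709136) (nat_lit 76) (nat_lit 544475090103) (nat_lit 76) (nat_lit 517318051740) (nat_lit 3) (nat_lit 4) (nat_lit 4) (nat_lit 5) (nat_lit 4) (nat_lit 4) (nat_lit 520) (nat_lit 416) (nat_lit 264)) (XT.lf (nat_lit 0) (nat_lit 5651498157938) (nat_lit 76) (nat_lit 476150956635) (nat_lit 76) (nat_lit 448993901556) (nat_lit 3) (nat_lit 4) (nat_lit 4) (nat_lit 5) (nat_lit 4) (nat_lit 4) (nat_lit 521) (nat_lit 416) (nat_lit 263))))) (XT.nd (nat_lit 234) (nat_lit 152)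 (nat_lit 0) (XT.nd (nat_lit 78) (nat_lit 0) (nat_lit 0) (XT.lf (nat_lit 0) (nat_lit 6316920949781) (nat_lit 76) (nat_lit 402361022547) (nat_lit 76) (nat_lit 375203951989) (nat_lit 3) (nat_lit 4) (nat_lit 4) (nat_lit 5) (nat_lit 4) (nat_lit 4) (nat_lit 522) (nat_lit 416) (nat_lit 262)) (XT.nd (nat_lit 78) (nat_lit 0) (nat_lit 0) (XT.lf (nat_lit 0) (nat_lit 7035577330840) (nat_lit 76) (nat_lit 322668014154) (nat_lit 76) (nat_lit 295510929265) (nat_lit 3) (nat_lit 4) (nat_lit 4) (nat_lit 5) (nat_lit 4) (nat_lit 4) (nat_lit 523) (nat_lit 416) (nat_lit 261)) (XT.lf (nat_lit 0) (nat_lit 7811726005594) (nat_lit 76) (nat_lit 236599676592) (nat_lit 76) (nat_lit 209442578433) (nat_lit 3) (nat_lit 4) (nat_lit 4) (nat_lit 5) (nat_lit 4) (nat_lit 4) (nat_lit 524) (nat_lit 416) (nat_lit 260)))) (XT.nd (nat_lit 78) (nat_lit 152) (nat_lit 0) (XT.lf (nat_lit 0) (nat_lit 8649966373597) (nat_lit 76) (nat_lit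 143645975269) (nat_lit 76) (nat_lit 116488864822) (nat_lit 3) (nat_lit 4) (nat_lit 4) (nat_lit 5) (nat_lit 4) (nat_lit 4) (nat_lit 525) (nat_lit 416) (nat_lit 259)) (XT.nd (nat_lit 78) (nat_lit 152) (nat_lit 0) (XT.lf (nat_lit 0) (nat_lit 9555265785179) (nat_lit 76) (nat_lit 43256073435) (nat_lit 76) (nat_lit 16098951612) (nat_lit 3) (nat_lit 4) (nat_lit 4) (nat_lit 5) (nat_lit 4) (nat_lit 4) (nat_lit 526) (nat_lit 416) (nat_lit 258)) (XT.lf (nat_lit 0) (nat_lit 93361530339) (nat_lit 152) (nat_lit 10213294162428) (nat_lit 0) (nat_lit 68216037415) (nat_lit 1) (nat_lit 5) (nat_lit 3) (nat_lit 4) (nat_lit 1) (nat_lit 4) (nat_lit 527) (nat_lit 416) (nat_lit 257)))))) (XT.nd (nat_lit 54132) (nat_lit 0) (nat_lit 5092) (XT.nd (nat_lit 53898) (nat_lit 0) (nat_lit 5852) (XT.nd (nat_lit 78) (nat_lit 0) (nat_lit 0) (XT.lf (nat_lit 0) (nat_lit 213497562088) (nat_lit 152) (nat_lit 10793836571324) (nat_lit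 0) (nat_lit 188352060133) (nat_lit 1) (nat_lit 5) (nat_lit 3) (nat_lit 4) (nat_lit 1) (nat_lit 4) (nat_lit 528) (nat_lit 416) (nat_lit 256)) (XT.nd (nat_lit 53742) (nat_lit 0) (nat_lit 5852) (XT.lf (nat_lit 0) (nat_lit 343244397053) (nat_lit 152) (nat_lit 11420822536537) (nat_lit 0) (nat_lit 318098886736) (nat_lit 1) (nat_lit 5) (nat_lit 3) (nat_lit 4) (nat_lit 1) (nat_lit 4) (nat_lit 529) (nat_lit 416) (nat_lit 255)) (XT.lf (nat_lit 0) (nat_lit 5957576206) (nat_lit 532) (nat_lit 826778526) (nat_lit 532) (nat_lit 826778526) (nat_lit 78) (nat_lit 3) (nat_lit 85) (nat_lit 3) (nat_lit 85) (nat_lit 5) (nat_lit 417) (nat_lit 417) (nat_lit 366)))) (XT.nd (nat_lit 78) (nat_lit 0) (nat_lit 76) (XT.lf (nat_lit 76) (nat_lit 6175995734) (nat_lit 0) (nat_lit 6636995587) (nat_lit 532) (nat_lit 2984357627) (nat_lit 79) (nat_lit 5) (nat_lit 78) (nat_lit 3) (nat_lit 85) (nat_lit 5) (nat_lit 418) (nat_lit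 417) (nat_lit 365)) (XT.nd (nat_lit 78) (nat_lit 0) (nat_lit 0) (XT.lf (nat_lit 0) (nat_lit 13822103227) (nat_lit 456) (nat_lit 1728497943) (nat_lit 532) (nat_lit 864692098) (nat_lit 79) (nat_lit 5) (nat_lit 85) (nat_lit 5) (nat_lit 86) (nat_lit 5) (nat_lit 419) (nat_lit 417) (nat_lit 364)) (XT.lf (nat_lit 76) (nat_lit 6954599081) (nat_lit 0) (nat_lit 8271655527) (nat_lit 532) (nat_lit 1831283836) (nat_lit 80) (nat_lit 5) (nat_lit 79) (nat_lit 5) (nat_lit 86) (nat_lit 5) (nat_lit 420) (nat_lit 417) (nat_lit 363))))) (XT.nd (nat_lit 234) (nat_lit 380) (nat_lit 0) (XT.nd (nat_lit 78) (nat_lit 456) (nat_lit 0) (XT.lf (nat_lit 76) (nat_lit 16414373336) (nat_lit 0) (nat_lit 351773211) (nat_lit 532) (nat_lit 983153414) (nat_lit 80) (nat_lit 5) (nat_lit 79) (nat_lit 5) (nat_lit 86) (nat_lit 5) (nat_lit 421) (nat_lit 417) (nat_lit 362)) (XT.nd (nat_lit 78) (nat_lit 0) (nat_lit 0) (XT.lf (nat_lit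 0) (nat_lit 321789664) (nat_lit 532) (nat_lit 10137157374) (nat_lit 608) (nat_lit 8006744504) (nat_lit 73) (nat_lit 5) (nat_lit 80) (nat_lit 5) (nat_lit 81) (nat_lit 5) (nat_lit 422) (nat_lit 417) (nat_lit 361)) (XT.lf (nat_lit 0) (nat_lit 1703360039) (nat_lit 532) (nat_lit 448811490) (nat_lit 608) (nat_lit 17083159652) (nat_lit 73) (nat_lit 5) (nat_lit 80) (nat_lit 5) (nat_lit 81) (nat_lit 5) (nat_lit 423) (nat_lit 417) (nat_lit 360)))) (XT.nd (nat_lit 78) (nat_lit 456) (nat_lit 0) (XT.lf (nat_lit 0) (nat_lit 3599565496) (nat_lit 532) (nat_lit 9693830533) (nat_lit 76) (nat_lit 6740824118) (nat_lit 74) (nat_lit 5) (nat_lit 81) (nat_lit 5) (nat_lit 75) (nat_lit 5) (nat_lit 424) (nat_lit 417) (nat_lit 359)) (XT.nd (nat_lit 78) (nat_lit 0) (nat_lit 0) (XT.lf (nat_lit 0) (nat_lit 1103667462) (nat_lit 456) (nat_lit 4620305319) (nat_lit 532) (nat_lit 15166933415) (nat_lit 68) (nat_lit 5) (nat_lit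 74) (nat_lit 5) (nat_lit 75) (nat_lit 5) (nat_lit 425) (nat_lit 417) (nat_lit 358)) (XT.lf (nat_lit 0) (nat_lit 8386864523) (nat_lit 532) (nat_lit 8618216854) (nat_lit 76) (nat_lit 4781569127) (nat_lit 68) (nat_lit 5) (nat_lit 75) (nat_lit 5) (nat_lit 69) (nat_lit 5) (nat_lit 426) (nat_lit 417) (nat_lit 357))))))))
noncomputable def xc137 : XT := (XT.nd (nat_lit 1794) (nat_lit 1444) (nat_lit 0) (XT.nd (nat_lit 858) (nat_lit 1216) (nat_lit 0) (XT.nd (nat_lit 390) (nat_lit 608) (nat_lit 0) (XT.nd (nat_lit 156) (nat_lit 456) (nat_lit 0) (XT.nd (nat_lit 78) (nat_lit 0) (nat_lit 0) (XT.lf (nat_lit 0) (nat_lit 3481325787) (nat_lit 228) (nat_lit 7968940544) (nat_lit 304) (nat_lit 11288795213) (nat_lit 65) (nat_lit 5) (nat_lit 68) (nat_lit 5) (nat_lit 69) (nat_lit 5) (nat_lit 427) (nat_lit 417) (nat_lit 356)) (XT.lf (nat_lit 0) (nat_lit 15028066652) (nat_lit 304) (nat_lit 6776949385) (nat_lit 76)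 (nat_lit 1941108401) (nat_lit 65) (nat_lit 5) (nat_lit 69) (nat_lit 5) (nat_lit 66) (nat_lit 5) (nat_lit 428) (nat_lit 417) (nat_lit 355))) (XT.nd (nat_lit 78) (nat_lit 228) (nat_lit 0) (XT.lf (nat_lit 0) (nat_lit 6819879674) (nat_lit 228) (nat_lit 12428878813) (nat_lit 304) (nat_lit 5556465179) (nat_lit 62) (nat_lit 5) (nat_lit 65) (nat_lit 5) (nat_lit 66) (nat_lit 5) (nat_lit 429) (nat_lit 417) (nat_lit 354)) (XT.nd (nat_lit 78) (nat_lit 228) (nat_lit 0) (XT.lf (nat_lit 0) (nat_lit 21873693489) (nat_lit 228) (nat_lit 2105042728) (nat_lit 304) (nat_lit 1956588526) (nat_lit 62) (nat_lit 5) (nat_lit 65) (nat_lit 5) (nat_lit 66) (nat_lit 5) (nat_lit 430) (nat_lit 417) (nat_lit 353)) (XT.lf (nat_lit 0) (nat_lit 2323828682) (nat_lit 228) (nat_lit 15868326327) (nat_lit 76) (nat_lit 8920833987) (nat_lit 59) (nat_lit 5) (nat_lit 62) (nat_lit 5) (nat_lit 60) (nat_lit 5) (nat_lit 431) (nat_lit 417)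 (nat_lit 352))))) (XT.nd (nat_lit 234) (nat_lit 228) (nat_lit 0) (XT.nd (nat_lit 78) (nat_lit 380) (nat_lit 0) (XT.lf (nat_lit 0) (nat_lit 6997127599) (nat_lit 228) (nat_lit 494105942) (nat_lit 76) (nat_lit 20877078271) (nat_lit 59) (nat_lit 5) (nat_lit 62) (nat_lit 5) (nat_lit 60) (nat_lit 5) (nat_lit 432) (nat_lit 417) (nat_lit 351)) (XT.nd (nat_lit 78) (nat_lit 152) (nat_lit 0) (XT.lf (nat_lit 0) (nat_lit 12548507143) (nat_lit 304) (nat_lit 12858073318) (nat_lit 76) (nat_lit 4277145855) (nat_lit 56) (nat_lit 5) (nat_lit 60) (nat_lit 5) (nat_lit 57) (nat_lit 5) (nat_lit 433) (nat_lit 417) (nat_lit 350)) (XT.lf (nat_lit 0) (nat_lit 4469018080) (nat_lit 152) (nat_lit 14379778698) (nat_lit 228) (nat_lit 12231196188) (nat_lit 54) (nat_lit 5) (nat_lit 56) (nat_lit 5) (nat_lit 57) (nat_lit 5) (nat_lit 434) (nat_lit 417) (nat_lit 349)))) (XT.nd (nat_lit 78) (nat_lit 228) (nat_lit 0) (XT.lf (nat_lit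 0) (nat_lit 23898505382) (nat_lit 152) (nat_lit 2095510642) (nat_lit 228) (nat_lit 6566675154) (nat_lit 54) (nat_lit 5) (nat_lit 56) (nat_lit 5) (nat_lit 57) (nat_lit 5) (nat_lit 435) (nat_lit 417) (nat_lit 348)) (XT.nd (nat_lit 78) (nat_lit 0) (nat_lit 0) (XT.lf (nat_lit 0) (nat_lit 110044987) (nat_lit 228) (nat_lit 23131854669) (nat_lit 76) (nat_lit 10875885645) (nat_lit 51) (nat_lit 5) (nat_lit 54) (nat_lit 5) (nat_lit 52) (nat_lit 5) (nat_lit 436) (nat_lit 417) (nat_lit 347)) (XT.lf (nat_lit 0) (nat_lit 7253732798) (nat_lit 228) (nat_lit 3327873673) (nat_lit 76) (nat_lit 25181189535) (nat_lit 51) (nat_lit 5) (nat_lit 54) (nat_lit 5) (nat_lit 52) (nat_lit 5) (nat_lit 437) (nat_lit 417) (nat_lit 346)))))) (XT.nd (nat_lit 468) (nat_lit 608) (nat_lit 0) (XT.nd (nat_lit 234) (nat_lit 304) (nat_lit 0) (XT.nd (nat_lit 78) (nat_lit 152) (nat_lit 0) (XT.lf (nat_lit 0) (nat_lit 15502812192) (nat_lit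 228) (nat_lit 18592618159) (nat_lit 76) (nat_lit 3401267511) (nat_lit 49) (nat_lit 5) (nat_lit 52) (nat_lit 5) (nat_lit 50) (nat_lit 5) (nat_lit 438) (nat_lit 417) (nat_lit 345)) (XT.nd (nat_lit 78) (nat_lit 0) (nat_lit 0) (XT.lf (nat_lit 0) (nat_lit 3632408097) (nat_lit 152) (nat_lit 21226121171) (nat_lit 228) (nat_lit 14475047557) (nat_lit 47) (nat_lit 5) (nat_lit 49) (nat_lit 5) (nat_lit 50) (nat_lit 5) (nat_lit 439) (nat_lit 417) (nat_lit 344)) (XT.lf (nat_lit 0) (nat_lit 28679261977) (nat_lit 152) (nat_lit 6783277918) (nat_lit 228) (nat_lit 5814881046) (nat_lit 47) (nat_lit 5) (nat_lit 49) (nat_lit 5) (nat_lit 50) (nat_lit 5) (nat_lit 440) (nat_lit 417) (nat_lit 343)))) (XT.nd (nat_lit 78) (nat_lit 152) (nat_lit 0) (XT.lf (nat_lit 0) (nat_lit 3885420262) (nat_lit 152) (nat_lit 30667594969) (nat_lit 76) (nat_lit 8775006609) (nat_lit 45) (nat_lit 5) (nat_lit 47) (nat_lit 5) (nat_lit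 46) (nat_lit 5) (nat_lit 441) (nat_lit 417) (nat_lit 342)) (XT.nd (nat_lit 78) (nat_lit 152) (nat_lit 0) (XT.lf (nat_lit 0) (nat_lit 14569267441) (nat_lit 152) (nat_lit 5208275162) (nat_lit 76) (nat_lit 25711312600) (nat_lit 45) (nat_lit 5) (nat_lit 47) (nat_lit 5) (nat_lit 46) (nat_lit 5) (nat_lit 442) (nat_lit 417) (nat_lit 341)) (XT.lf (nat_lit 0) (nat_lit 23448601801) (nat_lit 152) (nat_lit 3215830808) (nat_lit 228) (nat_lit 21113595079) (nat_lit 43) (nat_lit 5) (nat_lit 45) (nat_lit 5) (nat_lit 46) (nat_lit 5) (nat_lit 443) (nat_lit 417) (nat_lit 340))))) (XT.nd (nat_lit 234) (nat_lit 304) (nat_lit 0) (XT.nd (nat_lit 78) (nat_lit 228) (nat_lit 0) (XT.lf (nat_lit 0) (nat_lit 4301612750) (nat_lit 76) (nat_lit 36020800542) (nat_lit 152) (nat_lit 9880305674) (nat_lit 42) (nat_lit 5) (nat_lit 43) (nat_lit 5) (nat_lit 44) (nat_lit 4) (nat_lit 444) (nat_lit 417) (nat_lit 339)) (XT.nd (nat_lit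 78) (nat_lit 152) (nat_lit 0) (XT.lf (nat_lit 0) (nat_lit 2897900949) (nat_lit 152) (nat_lit 16328746349) (nat_lit 76) (nat_lit 33529695839) (nat_lit 41) (nat_lit 5) (nat_lit 43) (nat_lit 5) (nat_lit 42) (nat_lit 5) (nat_lit 445) (nat_lit 417) (nat_lit 338)) (XT.lf (nat_lit 0) (nat_lit 16149144714) (nat_lit 152) (nat_lit 397216070) (nat_lit 228) (nat_lit 38916823702) (nat_lit 39) (nat_lit 5) (nat_lit 41) (nat_lit 5) (nat_lit 42) (nat_lit 5) (nat_lit 446) (nat_lit 417) (nat_lit 337)))) (XT.nd (nat_lit 78) (nat_lit 304) (nat_lit 0) (XT.lf (nat_lit 0) (nat_lit 32217780388) (nat_lit 228) (nat_lit 6699655643) (nat_lit 76) (nat_lit 19394651336) (nat_lit 39) (nat_lit 5) (nat_lit 42) (nat_lit 5) (nat_lit 40) (nat_lit 4) (nat_lit 447) (nat_lit 417) (nat_lit 336)) (XT.nd (nat_lit 78) (nat_lit 228) (nat_lit 0) (XT.lf (nat_lit 0) (nat_lit 30003751619) (nat_lit 76) (nat_lit 19865057928) (nat_lit 152)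 (nat_lit 11462022055) (nat_lit 38) (nat_lit 5) (nat_lit 39) (nat_lit 5) (nat_lit 40) (nat_lit 4) (nat_lit 448) (nat_lit 417) (nat_lit 335)) (XT.lf (nat_lit 0) (nat_lit 4468649468) (nat_lit 228) (nat_lit 58976792961) (nat_lit 76) (nat_lit 1109685800) (nat_lit 35) (nat_lit 5) (nat_lit 38) (nat_lit 5) (nat_lit 36) (nat_lit 4) (nat_lit 449) (nat_lit 417) (nat_lit 334))))))) (XT.nd (nat_lit 936) (nat_lit 684) (nat_lit 0) (XT.nd (nat_lit 468) (nat_lit 456) (nat_lit 0) (XT.nd (nat_lit 234) (nat_lit 228) (nat_lit 0) (XT.nd (nat_lit 78) (nat_lit 76) (nat_lit 0) (XT.lf (nat_lit 0) (nat_lit 22443395580) (nat_lit 228) (nat_lit 21597841557) (nat_lit 76) (nat_lit 23861205473) (nat_lit 35) (nat_lit 5) (nat_lit 38) (nat_lit 5) (nat_lit 36) (nat_lit 4) (nat_lit 450) (nat_lit 417) (nat_lit 333)) (XT.nd (nat_lit 78) (nat_lit 0) (nat_lit 0) (XT.lf (nat_lit 0) (nat_lit 19749330011) (nat_lit 76) (nat_lit 22576306401)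 (nat_lit 152) (nat_lit 29154345117) (nat_lit 34) (nat_lit 5) (nat_lit 35) (nat_lit 5) (nat_lit 36) (nat_lit 4) (nat_lit 451) (nat_lit 417) (nat_lit 332)) (XT.lf (nat_lit 0) (nat_lit 64413491971) (nat_lit 152) (nat_lit 9703925004) (nat_lit 0) (nat_lit 1177104294) (nat_lit 34) (nat_lit 5) (nat_lit 36) (nat_lit 4) (nat_lit 34) (nat_lit 4) (nat_lit 452) (nat_lit 417) (nat_lit 331)))) (XT.nd (nat_lit 78) (nat_lit 76) (nat_lit 0) (XT.lf (nat_lit 0) (nat_lit 9919140921) (nat_lit 152) (nat_lit 42610837390) (nat_lit 76) (nat_lit 26746578167) (nat_lit 32) (nat_lit 5) (nat_lit 34) (nat_lit 5) (nat_lit 33) (nat_lit 4) (nat_lit 453) (nat_lit 417) (nat_lit 330)) (XT.nd (nat_lit 78) (nat_lit 0) (nat_lit 0) (XT.lf (nat_lit 0) (nat_lit 3623233794) (nat_lit 76) (nat_lit 28526613906) (nat_lit 152) (nat_lit 51376346813) (nat_lit 31) (nat_lit 5) (nat_lit 32) (nat_lit 5) (nat_lit 33) (nat_lit 4) (nat_lit 454)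 (nat_lit 417) (nat_lit 329)) (XT.lf (nat_lit 0) (nat_lit 55970207903) (nat_lit 76) (nat_lit 1349035698) (nat_lit 152) (nat_lit 30703741784) (nat_lit 31) (nat_lit 5) (nat_lit 32) (nat_lit 5) (nat_lit 33) (nat_lit 4) (nat_lit 455) (nat_lit 417) (nat_lit 328))))) (XT.nd (nat_lit 234) (nat_lit 228) (nat_lit 0) (XT.nd (nat_lit 78) (nat_lit 152) (nat_lit 0) (XT.lf (nat_lit 0) (nat_lit 19940747121) (nat_lit 76) (nat_lit 65709924230) (nat_lit 76) (nat_lit 7136970133) (nat_lit 30) (nat_lit 4) (nat_lit 31) (nat_lit 5) (nat_lit 31) (nat_lit 4) (nat_lit 456) (nat_lit 417) (nat_lit 327)) (XT.nd (nat_lit 78) (nat_lit 76) (nat_lit 0) (XT.lf (nat_lit 0) (nat_lit 18328584378) (nat_lit 152) (nat_lit 20453760967) (nat_lit 76) (nat_lit 59041515572) (nat_lit 29) (nat_lit 5) (nat_lit 31) (nat_lit 5) (nat_lit 30) (nat_lit 4) (nat_lit 457) (nat_lit 417) (nat_lit 326)) (XT.lf (nat_lit 0) (nat_lit 37829749934) (nat_lit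 76) (nat_lit 8521650571) (nat_lit 152) (nat_lit 56824299703) (nat_lit 28) (nat_lit 5) (nat_lit 29) (nat_lit 5) (nat_lit 30) (nat_lit 4) (nat_lit 458) (nat_lit 417) (nat_lit 325)))) (XT.nd (nat_lit 78) (nat_lit 228) (nat_lit 0) (XT.lf (nat_lit 0) (nat_lit 77766678978) (nat_lit 152) (nat_lit 7575479312) (nat_lit 0) (nat_lit 23521477663) (nat_lit 28) (nat_lit 5) (nat_lit 30) (nat_lit 4) (nat_lit 28) (nat_lit 4) (nat_lit 459) (nat_lit 417) (nat_lit 324)) (XT.nd (nat_lit 78) (nat_lit 152) (nat_lit 0) (XT.lf (nat_lit 0) (nat_lit 57462259249) (nat_lit 76) (nat_lit 55832363215) (nat_lit 76) (nat_lit 1584028926) (nat_lit 27) (nat_lit 4) (nat_lit 28) (nat_lit 5) (nat_lit 28) (nat_lit 4) (nat_lit 460) (nat_lit 417) (nat_lit 323)) (XT.lf (nat_lit 0) (nat_lit 6351901296) (nat_lit 76) (nat_lit 22784222014) (nat_lit 152) (nat_lit 92151553871) (nat_lit 25) (nat_lit 5) (nat_lit 26) (nat_lit 5) (nat_lit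 27) (nat_lit 4) (nat_lit 461) (nat_lit 417) (nat_lit 322)))))) (XT.nd (nat_lit 468) (nat_lit 380) (nat_lit 0) (XT.nd (nat_lit 234) (nat_lit 152) (nat_lit 0) (XT.nd (nat_lit 78) (nat_lit 152) (nat_lit 0) (XT.lf (nat_lit 0) (nat_lit 64145549977) (nat_lit 152) (nat_lit 49996766750) (nat_lit 0) (nat_lit 13910437745) (nat_lit 25) (nat_lit 5) (nat_lit 27) (nat_lit 4) (nat_lit 25) (nat_lit 4) (nat_lit 462) (nat_lit 417) (nat_lit 321)) (XT.nd (nat_lit 78) (nat_lit 76) (nat_lit 0) (XT.lf (nat_lit 0) (nat_lit 20567432569) (nat_lit 76) (nat_lit 82471194462) (nat_lit 76) (nat_lit 32233779400) (nat_lit 24) (nat_lit 4) (nat_lit 25) (nat_lit 5) (nat_lit 25) (nat_lit 4) (nat_lit 463) (nat_lit 417) (nat_lit 320)) (XT.lf (nat_lit 0) (nat_lit 3273763037) (nat_lit 152) (nat_lit 43430120193) (nat_lit 76) (nat_lit 96250033077) (nat_lit 23) (nat_lit 5) (nat_lit 25) (nat_lit 5) (nat_lit 24) (nat_lit 4) (nat_lit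 464) (nat_lit 417) (nat_lit 319)))) (XT.nd (nat_lit 78) (nat_lit 76) (nat_lit 0) (XT.lf (nat_lit 0) (nat_lit 34425073232) (nat_lit 76) (nat_lit 6280020444) (nat_lit 152) (nat_lit 110411902472) (nat_lit 22) (nat_lit 5) (nat_lit 23) (nat_lit 5) (nat_lit 24) (nat_lit 4) (nat_lit 465) (nat_lit 417) (nat_lit 318)) (XT.nd (nat_lit 78) (nat_lit 76) (nat_lit 0) (XT.lf (nat_lit 0) (nat_lit 83244903575) (nat_lit 152) (nat_lit 39795817608) (nat_lit 0) (nat_lit 36723283505) (nat_lit 22) (nat_lit 5) (nat_lit 24) (nat_lit 4) (nat_lit 22) (nat_lit 4) (nat_lit 466) (nat_lit 417) (nat_lit 317)) (XT.lf (nat_lit 0) (nat_lit 45351501868) (nat_lit 76) (nat_lit 85087197701) (nat_lit 76) (nat_lit 38564010364) (nat_lit 21) (nat_lit 4) (nat_lit 22) (nat_lit 5) (nat_lit 22) (nat_lit 4) (nat_lit 467) (nat_lit 417) (nat_lit 316))))) (XT.nd (nat_lit 234) (nat_lit 228) (nat_lit 0) (XT.nd (nat_lit 78) (nat_lit 76) (nat_lit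 0) (XT.lf (nat_lit 0) (nat_lit 3419390426) (nat_lit 152) (nat_lit 39412306424) (nat_lit 76) (nat_lit 136055077522) (nat_lit 20) (nat_lit 5) (nat_lit 22) (nat_lit 5) (nat_lit 21) (nat_lit 4) (nat_lit 468) (nat_lit 417) (nat_lit 315)) (XT.nd (nat_lit 78) (nat_lit 0) (nat_lit 0) (XT.lf (nat_lit 0) (nat_lit 48081812738) (nat_lit 152) (nat_lit 136285114105) (nat_lit 0) (nat_lit 5002199600) (nat_lit 19) (nat_lit 5) (nat_lit 21) (nat_lit 4) (nat_lit 19) (nat_lit 4) (nat_lit 469) (nat_lit 417) (nat_lit 314)) (XT.lf (nat_lit 0) (nat_lit 98532551416) (nat_lit 152) (nat_lit 46528503261) (nat_lit 0) (nat_lit 55451786289) (nat_lit 19) (nat_lit 5) (nat_lit 21) (nat_lit 4) (nat_lit 19) (nat_lit 4) (nat_lit 470) (nat_lit 417) (nat_lit 313)))) (XT.nd (nat_lit 78) (nat_lit 152) (nat_lit 0) (XT.lf (nat_lit 0) (nat_lit 53057614626) (nat_lit 76) (nat_lit 101235196470) (nat_lit 76) (nat_lit 58153364688) (nat_lit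 18) (nat_lit 4) (nat_lit 19) (nat_lit 5) (nat_lit 19) (nat_lit 4) (nat_lit 471) (nat_lit 417) (nat_lit 312)) (XT.nd (nat_lit 78) (nat_lit 152) (nat_lit 0) (XT.lf (nat_lit 0) (nat_lit 163251691665) (nat_lit 76) (nat_lit 52531865971) (nat_lit 76) (nat_lit 9449046545) (nat_lit 18) (nat_lit 4) (nat_lit 19) (nat_lit 5) (nat_lit 19) (nat_lit 4) (nat_lit 472) (nat_lit 417) (nat_lit 311)) (XT.lf (nat_lit 0) (nat_lit 42114644602) (nat_lit 152) (nat_lit 194532248436) (nat_lit 0) (nat_lit 2222298388) (nat_lit 16) (nat_lit 5) (nat_lit 18) (nat_lit 4) (nat_lit 16) (nat_lit 4) (nat_lit 473) (nat_lit 417) (nat_lit 310))))))))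
noncomputable def xc138 : XT := (XT.nd (nat_lit 1794) (nat_lit 228) (nat_lit 0) (XT.nd (nat_lit 858) (nat_lit 304) (nat_lit 0) (XT.nd (nat_lit 390) (nat_lit 228) (nat_lit 0) (XT.nd (nat_lit 156) (nat_lit 152) (nat_lit 0) (XT.nd (nat_lit 78) (nat_lit 76) (nat_lit 0) (XT.lf (nat_lit 0) (nat_lit 100393713160) (nat_lit 152) (nat_lit 92434713167) (nat_lit 0) (nat_lit 60500582922) (nat_lit 16) (nat_lit 5) (nat_lit 18) (nat_lit 4) (nat_lit 16) (nat_lit 4) (nat_lit 474) (nat_lit 417) (nat_lit 309)) (XT.lf (nat_lit 0) (nat_lit 18764869581) (nat_lit 76) (nat_lit 145019335658) (nat_lit 76) (nat_lit 105125479472) (nat_lit 15) (nat_lit 4) (nat_lit 16) (nat_lit 5) (nat_lit 16) (nat_lit 4) (nat_lit 475) (nat_lit 417) (nat_lit 308))) (XT.nd (nat_lit 78) (nat_lit 152) (nat_lit 0) (XT.lf (nat_lit 0) (nat_lit 144112925536) (nat_lit 76) (nat_lit 90658200953) (nat_lit 76) (nat_lit 50763672593) (nat_lit 15)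 (nat_lit 4) (nat_lit 16) (nat_lit 5) (nat_lit 16) (nat_lit 4) (nat_lit 476) (nat_lit 417) (nat_lit 307)) (XT.nd (nat_lit 78) (nat_lit 76) (nat_lit 0) (XT.lf (nat_lit 0) (nat_lit 7547501660) (nat_lit 152) (nat_lit 24196347288) (nat_lit 76) (nat_lit 271730946072) (nat_lit 14) (nat_lit 5) (nat_lit 16) (nat_lit 5) (nat_lit 15) (nat_lit 4) (nat_lit 477) (nat_lit 417) (nat_lit 306)) (XT.lf (nat_lit 0) (nat_lit 71205716087) (nat_lit 152) (nat_lit 216999587285) (nat_lit 0) (nat_lit 34265228102) (nat_lit 13) (nat_lit 5) (nat_lit 15) (nat_lit 4) (nat_lit 13) (nat_lit 4) (nat_lit 478) (nat_lit 417) (nat_lit 305))))) (XT.nd (nat_lit 234) (nat_lit 152) (nat_lit 0) (XT.nd (nat_lit 78) (nat_lit 76) (nat_lit 0) (XT.lf (nat_lit 0) (nat_lit 141457980764) (nat_lit 152) (nat_lit 96890835962) (nat_lit 0) (nat_lit 104516998711) (nat_lit 13) (nat_lit 5) (nat_lit 15) (nat_lit 4) (nat_lit 13) (nat_lit 4) (nat_lit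 479) (nat_lit 417) (nat_lit 304)) (XT.nd (nat_lit 78) (nat_lit 0) (nat_lit 0) (XT.lf (nat_lit 0) (nat_lit 34551481355) (nat_lit 76) (nat_lit 183608171127) (nat_lit 76) (nat_lit 146666731604) (nat_lit 12) (nat_lit 4) (nat_lit 13) (nat_lit 5) (nat_lit 13) (nat_lit 4) (nat_lit 480) (nat_lit 417) (nat_lit 303)) (XT.lf (nat_lit 0) (nat_lit 182016002207) (nat_lit 76) (nat_lit 121628930585) (nat_lit 76) (nat_lit 84687067478) (nat_lit 12) (nat_lit 4) (nat_lit 13) (nat_lit 5) (nat_lit 13) (nat_lit 4) (nat_lit 481) (nat_lit 417) (nat_lit 302)))) (XT.nd (nat_lit 78) (nat_lit 152) (nat_lit 0) (XT.lf (nat_lit 0) (nat_lit 341274490706) (nat_lit 76) (nat_lit 54692977873) (nat_lit 76) (nat_lit 17750722559) (nat_lit 12) (nat_lit 4) (nat_lit 13) (nat_lit 5) (nat_lit 13) (nat_lit 4) (nat_lit 482) (nat_lit 417) (nat_lit 301)) (XT.nd (nat_lit 78) (nat_lit 0) (nat_lit 0) (XT.lf (nat_lit 0) (nat_lit 54107540021)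 (nat_lit 152) (nat_lit 366837761524) (nat_lit 0) (nat_lit 19901411809) (nat_lit 10) (nat_lit 5) (nat_lit 12) (nat_lit 4) (nat_lit 10) (nat_lit 4) (nat_lit 483) (nat_lit 417) (nat_lit 300)) (XT.lf (nat_lit 0) (nat_lit 134206761488) (nat_lit 152) (nat_lit 235625445501) (nat_lit 0) (nat_lit 100000321930) (nat_lit 10) (nat_lit 5) (nat_lit 12) (nat_lit 4) (nat_lit 10) (nat_lit 4) (nat_lit 484) (nat_lit 417) (nat_lit 299)))))) (XT.nd (nat_lit 468) (nat_lit 76) (nat_lit 0) (XT.nd (nat_lit 234) (nat_lit 152) (nat_lit 0) (XT.nd (nat_lit 78) (nat_lit 76) (nat_lit 0) (XT.lf (nat_lit 0) (nat_lit 220712544939) (nat_lit 152) (nat_lit 93918957776) (nat_lit 0) (nat_lit 186505817097) (nat_lit 10) (nat_lit 5) (nat_lit 12) (nat_lit 4) (nat_lit 10) (nat_lit 4) (nat_lit 485) (nat_lit 417) (nat_lit 298)) (XT.nd (nat_lit 78) (nat_lit 0) (nat_lit 0) (XT.lf (nat_lit 0) (nat_lit 62234674258) (nat_lit 76) (nat_lit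 253399588393) (nat_lit 76) (nat_lit 219192593621) (nat_lit 9) (nat_lit 4) (nat_lit 10) (nat_lit 5) (nat_lit 10) (nat_lit 4) (nat_lit 486) (nat_lit 417) (nat_lit 297)) (XT.lf (nat_lit 0) (nat_lit 236219311990) (nat_lit 76) (nat_lit 184497075994) (nat_lit 76) (nat_lit 150289834066) (nat_lit 9) (nat_lit 4) (nat_lit 10) (nat_lit 5) (nat_lit 10) (nat_lit 4) (nat_lit 487) (nat_lit 417) (nat_lit 296)))) (XT.nd (nat_lit 78) (nat_lit 152) (nat_lit 0) (XT.lf (nat_lit 0) (nat_lit 424120369619) (nat_lit 76) (nat_lit 110083565080) (nat_lit 76) (nat_lit 75876094303) (nat_lit 9) (nat_lit 4) (nat_lit 10) (nat_lit 5) (nat_lit 10) (nat_lit 4) (nat_lit 488) (nat_lit 417) (nat_lit 295)) (XT.nd (nat_lit 78) (nat_lit 76) (nat_lit 0) (XT.lf (nat_lit 0) (nat_lit 4265008203) (nat_lit 152) (nat_lit 25336465611) (nat_lit 76) (nat_lit 622669713806) (nat_lit 8) (nat_lit 5) (nat_lit 10) (nat_lit 5) (nat_lit 9) (nat_lit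 4) (nat_lit 489) (nat_lit 417) (nat_lit 294)) (XT.lf (nat_lit 0) (nat_lit 91943260684) (nat_lit 152) (nat_lit 545049403552) (nat_lit 0) (nat_lit 60269298761) (nat_lit 7) (nat_lit 5) (nat_lit 9) (nat_lit 4) (nat_lit 7) (nat_lit 4) (nat_lit 490) (nat_lit 417) (nat_lit 293))))) (XT.nd (nat_lit 234) (nat_lit 76) (nat_lit 0) (XT.nd (nat_lit 78) (nat_lit 0) (nat_lit 0) (XT.lf (nat_lit 0) (nat_lit 188114371169) (nat_lit 152) (nat_lit 401179100389) (nat_lit 0) (nat_lit 156440241036) (nat_lit 7) (nat_lit 5) (nat_lit 9) (nat_lit 4) (nat_lit 7) (nat_lit 4) (nat_lit 491) (nat_lit 417) (nat_lit 292)) (XT.nd (nat_lit 78) (nat_lit 0) (nat_lit 0) (XT.lf (nat_lit 0) (nat_lit 291978236363) (nat_lit 152) (nat_lit 245801090059) (nat_lit 0) (nat_lit 260303950479) (nat_lit 7) (nat_lit 5) (nat_lit 9) (nat_lit 4) (nat_lit 7) (nat_lit 4) (nat_lit 492) (nat_lit 417) (nat_lit 291)) (XT.lf (nat_lit 0) (nat_lit 404150345837)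 (nat_lit 152) (nat_lit 77994613983) (nat_lit 0) (nat_lit 372475915739) (nat_lit 7) (nat_lit 5) (nat_lit 9) (nat_lit 4) (nat_lit 7) (nat_lit 4) (nat_lit 493) (nat_lit 417) (nat_lit 290)))) (XT.nd (nat_lit 78) (nat_lit 0) (nat_lit 0) (XT.lf (nat_lit 0) (nat_lit 108670894866) (nat_lit 76) (nat_lit 419238065971) (nat_lit 76) (nat_lit 387563502342) (nat_lit 6) (nat_lit 4) (nat_lit 7) (nat_lit 5) (nat_lit 7) (nat_lit 4) (nat_lit 494) (nat_lit 417) (nat_lit 289)) (XT.nd (nat_lit 78) (nat_lit 0) (nat_lit 0) (XT.lf (nat_lit 0) (nat_lit 314703665247) (nat_lit 76) (nat_lit 348996330684) (nat_lit 76) (nat_lit 317321643415) (nat_lit 6) (nat_lit 4) (nat_lit 7) (nat_lit 5) (nat_lit 7) (nat_lit 4) (nat_lit 495) (nat_lit 417) (nat_lit 288)) (XT.lf (nat_lit 0) (nat_lit 537217573941) (nat_lit 76) (nat_lit 273136017605) (nat_lit 76) (nat_lit 241461215854) (nat_lit 6) (nat_lit 4) (nat_lit 7) (nat_lit 5) (nat_lit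 7) (nat_lit 4) (nat_lit 496) (nat_lit 417) (nat_lit 287))))))) (XT.nd (nat_lit 936) (nat_lit 0) (nat_lit 0) (XT.nd (nat_lit 468) (nat_lit 76) (nat_lit 0) (XT.nd (nat_lit 234) (nat_lit 0) (nat_lit 0) (XT.nd (nat_lit 78) (nat_lit 152) (nat_lit 0) (XT.lf (nat_lit 0) (nat_lit 777531221888) (nat_lit 76) (nat_lit 191207584136) (nat_lit 76) (nat_lit 159532676385) (nat_lit 6) (nat_lit 4) (nat_lit 7) (nat_lit 5) (nat_lit 7) (nat_lit 4) (nat_lit 497) (nat_lit 417) (nat_lit 286)) (XT.nd (nat_lit 78) (nat_lit 152) (nat_lit 0) (XT.lf (nat_lit 0) (nat_lit 1037068689964) (nat_lit 76) (nat_lit 102725528451) (nat_lit 76) (nat_lit 71050522550) (nat_lit 6) (nat_lit 4) (nat_lit 7) (nat_lit 5) (nat_lit 7) (nat_lit 4) (nat_lit 498) (nat_lit 417) (nat_lit 285)) (XT.lf (nat_lit 0) (nat_lit 17636884179) (nat_lit 76) (nat_lit 6070798974) (nat_lit 152) (nat_lit 1276235133046) (nat_lit 4) (nat_lit 5) (nat_lit 5) (nat_lit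 5) (nat_lit 6) (nat_lit 4) (nat_lit 499) (nat_lit 417) (nat_lit 284)))) (XT.nd (nat_lit 78) (nat_lit 0) (nat_lit 0) (XT.lf (nat_lit 0) (nat_lit 129446650402) (nat_lit 152) (nat_lit 1165877576131) (nat_lit 0) (nat_lit 100117779172) (nat_lit 4) (nat_lit 5) (nat_lit 6) (nat_lit 4) (nat_lit 4) (nat_lit 4) (nat_lit 500) (nat_lit 417) (nat_lit 283)) (XT.nd (nat_lit 78) (nat_lit 0) (nat_lit 0) (XT.lf (nat_lit 0) (nat_lit 243801874069) (nat_lit 152) (nat_lit 1040293754488) (nat_lit 0) (nat_lit 214472930697) (nat_lit 4) (nat_lit 5) (nat_lit 6) (nat_lit 4) (nat_lit 4) (nat_lit 4) (nat_lit 501) (nat_lit 417) (nat_lit 282)) (XT.lf (nat_lit 0) (nat_lit 367305011880) (nat_lit 152) (nat_lit 904664263804) (nat_lit 0) (nat_lit 337976001710) (nat_lit 4) (nat_lit 5) (nat_lit 6) (nat_lit 4) (nat_lit 4) (nat_lit 4) (nat_lit 502) (nat_lit 417) (nat_lit 281))))) (XT.nd (nat_lit 234) (nat_lit 76) (nat_lit 0) (XT.nd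 (nat_lit 78) (nat_lit 0) (nat_lit 0) (XT.lf (nat_lit 0) (nat_lit 500687934281) (nat_lit 152) (nat_lit 758185373764) (nat_lit 0) (nat_lit 471358862259) (nat_lit 4) (nat_lit 5) (nat_lit 6) (nat_lit 4) (nat_lit 4) (nat_lit 4) (nat_lit 503) (nat_lit 417) (nat_lit 280)) (XT.nd (nat_lit 78) (nat_lit 0) (nat_lit 0) (XT.lf (nat_lit 0) (nat_lit 644741058588) (nat_lit 152) (nat_lit 599989061316) (nat_lit 0) (nat_lit 615411929297) (nat_lit 4) (nat_lit 5) (nat_lit 6) (nat_lit 4) (nat_lit 4) (nat_lit 4) (nat_lit 504) (nat_lit 417) (nat_lit 279)) (XT.lf (nat_lit 0) (nat_lit 800318032947) (nat_lit 152) (nat_lit 429137866832) (nat_lit 0) (nat_lit 770988850629) (nat_lit 4) (nat_lit 5) (nat_lit 6) (nat_lit 4) (nat_lit 4) (nat_lit 4) (nat_lit 505) (nat_lit 417) (nat_lit 278)))) (XT.nd (nat_lit 78) (nat_lit 76) (nat_lit 0) (XT.lf (nat_lit 0) (nat_lit 968340794982) (nat_lit 152) (nat_lit 244619338788) (nat_lit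 0) (nat_lit 939011563565) (nat_lit 4) (nat_lit 5) (nat_lit 6) (nat_lit 4) (nat_lit 4) (nat_lit 4) (nat_lit 506) (nat_lit 417) (nat_lit 277)) (XT.nd (nat_lit 78) (nat_lit 76) (nat_lit 0) (XT.lf (nat_lit 0) (nat_lit 1149805035137) (nat_lit 152) (nat_lit 45340034054) (nat_lit 0) (nat_lit 1120475758257) (nat_lit 4) (nat_lit 5) (nat_lit 6) (nat_lit 4) (nat_lit 4) (nat_lit 4) (nat_lit 507) (nat_lit 417) (nat_lit 276)) (XT.lf (nat_lit 0) (nat_lit 178826592158) (nat_lit 76) (nat_lit 1171260288739) (nat_lit 76) (nat_lit 1141930969765) (nat_lit 3) (nat_lit 4) (nat_lit 4) (nat_lit 5) (nat_lit 4) (nat_lit 4) (nat_lit 508) (nat_lit 417) (nat_lit 275)))))) (XT.nd (nat_lit 468) (nat_lit 0) (nat_lit 0) (XT.nd (nat_lit 234) (nat_lit 0) (nat_lit 0) (XT.nd (nat_lit 78) (nat_lit 0) (nat_lit 0) (XT.lf (nat_lit 0) (nat_lit 423504439626) (nat_lit 76) (nat_lit 1144126202325) (nat_lit 76) (nat_lit 1114796844374)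 (nat_lit 3) (nat_lit 4) (nat_lit 4) (nat_lit 5) (nat_lit 4) (nat_lit 4) (nat_lit 509) (nat_lit 417) (nat_lit 274)) (XT.nd (nat_lit 78) (nat_lit 0) (nat_lit 0) (XT.lf (nat_lit 0) (nat_lit 687755925307) (nat_lit 76) (nat_lit 1114821692242) (nat_lit 76) (nat_lit 1085492298203) (nat_lit 3) (nat_lit 4) (nat_lit 4) (nat_lit 5) (nat_lit 4) (nat_lit 4) (nat_lit 510) (nat_lit 417) (nat_lit 273)) (XT.lf (nat_lit 0) (nat_lit 973146983931) (nat_lit 76) (nat_lit 1083173102136) (nat_lit 76) (nat_lit 1053843674680) (nat_lit 3) (nat_lit 4) (nat_lit 4) (nat_lit 5) (nat_lit 4) (nat_lit 4) (nat_lit 511) (nat_lit 417) (nat_lit 272)))) (XT.nd (nat_lit 78) (nat_lit 0) (nat_lit 0) (XT.lf (nat_lit 0) (nat_lit 1281368821769) (nat_lit 76) (nat_lit 1048992884805) (nat_lit 76) (nat_lit 1019663426408) (nat_lit 3) (nat_lit 4) (nat_lit 4) (nat_lit 5) (nat_lit 4) (nat_lit 4) (nat_lit 512) (nat_lit 417) (nat_lit 271))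 (XT.nd (nat_lit 78) (nat_lit 0) (nat_lit 0) (XT.lf (nat_lit 0) (nat_lit 1614247938603) (nat_lit 76) (nat_lit 1012078490813) (nat_lit 76) (nat_lit 982749003767) (nat_lit 3) (nat_lit 4) (nat_lit 4) (nat_lit 5) (nat_lit 4) (nat_lit 4) (nat_lit 513) (nat_lit 417) (nat_lit 270)) (XT.lf (nat_lit 0) (nat_lit 1973756951420) (nat_lit 76) (nat_lit 972211168196) (nat_lit 76) (nat_lit 942881654624) (nat_lit 3) (nat_lit 4) (nat_lit 4) (nat_lit 5) (nat_lit 4) (nat_lit 4) (nat_lit 514) (nat_lit 417) (nat_lit 269))))) (XT.nd (nat_lit 234) (nat_lit 0) (nat_lit 0) (XT.nd (nat_lit 78) (nat_lit 0) (nat_lit 0) (XT.lf (nat_lit 0) (nat_lit 2362026284002) (nat_lit 76) (nat_lit 929154666153) (nat_lit 76) (nat_lit 899825128019) (nat_lit 3) (nat_lit 4) (nat_lit 4) (nat_lit 5) (nat_lit 4) (nat_lit 4) (nat_lit 515) (nat_lit 417) (nat_lit 268)) (XT.nd (nat_lit 78) (nat_lit 0) (nat_lit 0) (XT.lf (nat_lit 0) (nat_lit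 2781356791650) (nat_lit 76) (nat_lit 882653835042) (nat_lit 76) (nat_lit 853324274166) (nat_lit 3) (nat_lit 4) (nat_lit 4) (nat_lit 5) (nat_lit 4) (nat_lit 4) (nat_lit 516) (nat_lit 417) (nat_lit 267)) (XT.lf (nat_lit 0) (nat_lit 3234233395894) (nat_lit 76) (nat_lit 832433114384) (nat_lit 76) (nat_lit 803103532450) (nat_lit 3) (nat_lit 4) (nat_lit 4) (nat_lit 5) (nat_lit 4) (nat_lit 4) (nat_lit 517) (nat_lit 417) (nat_lit 266)))) (XT.nd (nat_lit 78) (nat_lit 0) (nat_lit 0) (XT.lf (nat_lit 0) (nat_lit 3723339809942) (nat_lit 76) (nat_lit 778194899906) (nat_lit 76) (nat_lit 748865298474) (nat_lit 3) (nat_lit 4) (nat_lit 4) (nat_lit 5) (nat_lit 4) (nat_lit 4) (nat_lit 518) (nat_lit 417) (nat_lit 265)) (XT.nd (nat_lit 78) (nat_lit 0) (nat_lit 0) (XT.lf (nat_lit 0) (nat_lit 4251574442175) (nat_lit 76) (nat_lit 719617779969) (nat_lit 76) (nat_lit 690288160483) (nat_lit 3) (nat_lit 4) (nat_lit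 4) (nat_lit 5) (nat_lit 4) (nat_lit 4) (nat_lit 519) (nat_lit 417) (nat_lit 264)) (XT.lf (nat_lit 0) (nat_lit 4822067571894) (nat_lit 76) (nat_lit 656354630897) (nat_lit 76) (nat_lit 627024994695) (nat_lit 3) (nat_lit 4) (nat_lit 4) (nat_lit 5) (nat_lit 4) (nat_lit 4) (nat_lit 520) (nat_lit 417) (nat_lit 263))))))))
noncomputable def xc139 : XT := (XT.nd (nat_lit 55614) (nat_lit 0) (nat_lit 2280) (XT.nd (nat_lit 54678) (nat_lit 0) (nat_lit 4408) (XT.nd (nat_lit 390) (nat_lit 152) (nat_lit 0) (XT.nd (nat_lit 156) (nat_lit 0) (nat_lit 0) (XT.nd (nat_lit 78) (nat_lit 0) (nat_lit 0) (XT.lf (nat_lit 0) (nat_lit 5438199899127) (nat_lit 76) (nat_lit 588030559957) (nat_lit 76) (nat_lit 558700908276) (nat_lit 3) (nat_lit 4) (nat_lit 4) (nat_lit 5) (nat_lit 4) (nat_lit 4) (nat_lit 521) (nat_lit 417) (nat_lit 262)) (XT.lf (nat_lit 0) (nat_lit 6103622578407) (nat_lit 76) (nat_lit 514240683764) (nat_lit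 76) (nat_lit 484911017752) (nat_lit 3) (nat_lit 4) (nat_lit 4) (nat_lit 5) (nat_lit 4) (nat_lit 4) (nat_lit 522) (nat_lit 417) (nat_lit 261))) (XT.nd (nat_lit 78) (nat_lit 0) (nat_lit 0) (XT.lf (nat_lit 0) (nat_lit 6822278855240) (nat_lit 76) (nat_lit 434547728978) (nat_lit 76) (nat_lit 405218049696) (nat_lit 3) (nat_lit 4) (nat_lit 4) (nat_lit 5) (nat_lit 4) (nat_lit 4) (nat_lit 523) (nat_lit 417) (nat_lit 260)) (XT.nd (nat_lit 78) (nat_lit 0) (nat_lit 0) (XT.lf (nat_lit 0) (nat_lit 7598427433489) (nat_lit 76) (nat_lit 348479441052) (nat_lit 76) (nat_lit 319149749483) (nat_lit 3) (nat_lit 4) (nat_lit 4) (nat_lit 5) (nat_lit 4) (nat_lit 4) (nat_lit 524) (nat_lit 417) (nat_lit 259)) (XT.lf (nat_lit 0) (nat_lit 8436667712135) (nat_lit 76) (nat_lit 255525785688) (nat_lit 76) (nat_lit 226196082742) (nat_lit 3) (nat_lit 4) (nat_lit 4) (nat_lit 5) (nat_lit 4) (nat_lit 4) (nat_lit 525) (nat_lit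 417) (nat_lit 258))))) (XT.nd (nat_lit 54054) (nat_lit 0) (nat_lit 5852) (XT.nd (nat_lit 78) (nat_lit 152) (nat_lit 0) (XT.lf (nat_lit 0) (nat_lit 9341967040979) (nat_lit 76) (nat_lit 155135926409) (nat_lit 76) (nat_lit 125806212929) (nat_lit 3) (nat_lit 4) (nat_lit 4) (nat_lit 5) (nat_lit 4) (nat_lit 4) (nat_lit 526) (nat_lit 417) (nat_lit 257)) (XT.nd (nat_lit 78) (nat_lit 152) (nat_lit 0) (XT.lf (nat_lit 0) (nat_lit 10319690156784) (nat_lit 76) (nat_lit 46714960346) (nat_lit 76) (nat_lit 17385237112) (nat_lit 3) (nat_lit 4) (nat_lit 4) (nat_lit 5) (nat_lit 4) (nat_lit 4) (nat_lit 527) (nat_lit 417) (nat_lit 256)) (XT.lf (nat_lit 0) (nat_lit 100832000357) (nat_lit 152) (nat_lit 11030354503566) (nat_lit 0) (nat_lit 73674840852) (nat_lit 1) (nat_lit 5) (nat_lit 3) (nat_lit 4) (nat_lit 1) (nat_lit 4) (nat_lit 528) (nat_lit 417) (nat_lit 255)))) (XT.nd (nat_lit 78) (nat_lit 0) (nat_lit 0)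 (XT.lf (nat_lit 0) (nat_lit 6700323829) (nat_lit 532) (nat_lit 749150899) (nat_lit 532) (nat_lit 749150899) (nat_lit 78) (nat_lit 3) (nat_lit 85) (nat_lit 3) (nat_lit 85) (nat_lit 5) (nat_lit 418) (nat_lit 418) (nat_lit 364)) (XT.nd (nat_lit 78) (nat_lit 0) (nat_lit 76) (XT.lf (nat_lit 76) (nat_lit 6950335722) (nat_lit 0) (nat_lit 7387289852) (nat_lit 532) (nat_lit 2683345603) (nat_lit 79) (nat_lit 5) (nat_lit 78) (nat_lit 3) (nat_lit 85) (nat_lit 5) (nat_lit 419) (nat_lit 418) (nat_lit 363)) (XT.lf (nat_lit 0) (nat_lit 15385575137) (nat_lit 456) (nat_lit 1565202760) (nat_lit 532) (nat_lit 740939121) (nat_lit 79) (nat_lit 5) (nat_lit 85) (nat_lit 5) (nat_lit 86) (nat_lit 5) (nat_lit 420) (nat_lit 418) (nat_lit 362)))))) (XT.nd (nat_lit 468) (nat_lit 684) (nat_lit 0) (XT.nd (nat_lit 234) (nat_lit 380) (nat_lit 0) (XT.nd (nat_lit 78) (nat_lit 456) (nat_lit 0) (XT.lf (nat_lit 76) (nat_lit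 7804907215) (nat_lit 0) (nat_lit 9070316708) (nat_lit 532) (nat_lit 1512278249) (nat_lit 80) (nat_lit 5) (nat_lit 79) (nat_lit 5) (nat_lit 86) (nat_lit 5) (nat_lit 421) (nat_lit 418) (nat_lit 361)) (XT.nd (nat_lit 78) (nat_lit 456) (nat_lit 0) (XT.lf (nat_lit 76) (nat_lit 17999690062) (nat_lit 0) (nat_lit 506700938) (nat_lit 532) (nat_lit 630779489) (nat_lit 80) (nat_lit 5) (nat_lit 79) (nat_lit 5) (nat_lit 86) (nat_lit 5) (nat_lit 422) (nat_lit 418) (nat_lit 360)) (XT.lf (nat_lit 0) (nat_lit 731160305) (nat_lit 532) (nat_lit 10628283953) (nat_lit 608) (nat_lit 8552677592) (nat_lit 73) (nat_lit 5) (nat_lit 80) (nat_lit 5) (nat_lit 81) (nat_lit 5) (nat_lit 423) (nat_lit 418) (nat_lit 359)))) (XT.nd (nat_lit 78) (nat_lit 380) (nat_lit 0) (XT.lf (nat_lit 0) (nat_lit 2194839460) (nat_lit 532) (nat_lit 188562696) (nat_lit 608) (nat_lit 18362213839) (nat_lit 73) (nat_lit 5) (nat_lit 80) (nat_lit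 5) (nat_lit 81) (nat_lit 5) (nat_lit 424) (nat_lit 418) (nat_lit 358)) (XT.nd (nat_lit 78) (nat_lit 456) (nat_lit 0) (XT.lf (nat_lit 0) (nat_lit 4222236849) (nat_lit 532) (nat_lit 10152563173) (nat_lit 76) (nat_lit 7235265663) (nat_lit 74) (nat_lit 5) (nat_lit 81) (nat_lit 5) (nat_lit 75) (nat_lit 5) (nat_lit 425) (nat_lit 418) (nat_lit 357)) (XT.lf (nat_lit 0) (nat_lit 1500715072) (nat_lit 456) (nat_lit 4998514145) (nat_lit 532) (nat_lit 16037455362) (nat_lit 68) (nat_lit 5) (nat_lit 74) (nat_lit 5) (nat_lit 75) (nat_lit 5) (nat_lit 426) (nat_lit 418) (nat_lit 356))))) (XT.nd (nat_lit 234) (nat_lit 456) (nat_lit 0) (XT.nd (nat_lit 78) (nat_lit 228) (nat_lit 0) (XT.lf (nat_lit 0) (nat_lit 9351454573) (nat_lit 532) (nat_lit 8997993850) (nat_lit 76) (nat_lit 5156543755) (nat_lit 68) (nat_lit 5) (nat_lit 75) (nat_lit 5) (nat_lit 69) (nat_lit 5) (nat_lit 427) (nat_lit 418) (nat_lit 355)) (XT.nd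 (nat_lit 78) (nat_lit 0) (nat_lit 0) (XT.lf (nat_lit 0) (nat_lit 4061672193) (nat_lit 228) (nat_lit 8583764423) (nat_lit 304) (nat_lit 11890326178) (nat_lit 65) (nat_lit 5) (nat_lit 68) (nat_lit 5) (nat_lit 69) (nat_lit 5) (nat_lit 428) (nat_lit 418) (nat_lit 354)) (XT.lf (nat_lit 0) (nat_lit 16489288564) (nat_lit 304) (nat_lit 7019366180) (nat_lit 76) (nat_lit 2116356564) (nat_lit 65) (nat_lit 5) (nat_lit 69) (nat_lit 5) (nat_lit 66) (nat_lit 5) (nat_lit 429) (nat_lit 418) (nat_lit 353)))) (XT.nd (nat_lit 78) (nat_lit 228) (nat_lit 0) (XT.lf (nat_lit 0) (nat_lit 7657620871) (nat_lit 228) (nat_lit 13377857659) (nat_lit 304) (nat_lit 5734338815) (nat_lit 62) (nat_lit 5) (nat_lit 65) (nat_lit 5) (nat_lit 66) (nat_lit 5) (nat_lit 430) (nat_lit 418) (nat_lit 352)) (XT.nd (nat_lit 78) (nat_lit 228) (nat_lit 0) (XT.lf (nat_lit 0) (nat_lit 23894098990) (nat_lit 228) (nat_lit 2231472574) (nat_lit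 304) (nat_lit 1866223406) (nat_lit 62) (nat_lit 5) (nat_lit 65) (nat_lit 5) (nat_lit 66) (nat_lit 5) (nat_lit 431) (nat_lit 418) (nat_lit 351)) (XT.lf (nat_lit 0) (nat_lit 2734785094) (nat_lit 228) (nat_lit 16845310437) (nat_lit 76) (nat_lit 9683866128) (nat_lit 59) (nat_lit 5) (nat_lit 62) (nat_lit 5) (nat_lit 60) (nat_lit 5) (nat_lit 432) (nat_lit 418) (nat_lit 350))))))) (XT.nd (nat_lit 936) (nat_lit 912) (nat_lit 0) (XT.nd (nat_lit 468) (nat_lit 608) (nat_lit 0) (XT.nd (nat_lit 234) (nat_lit 228) (nat_lit 0) (XT.nd (nat_lit 78) (nat_lit 380) (nat_lit 0) (XT.lf (nat_lit 0) (nat_lit 7765277545) (nat_lit 228) (nat_lit 262817755) (nat_lit 76) (nat_lit 22592953256) (nat_lit 59) (nat_lit 5) (nat_lit 62) (nat_lit 5) (nat_lit 60) (nat_lit 5) (nat_lit 433) (nat_lit 418) (nat_lit 349)) (XT.nd (nat_lit 78) (nat_lit 152) (nat_lit 0) (XT.lf (nat_lit 0) (nat_lit 13753235443) (nat_lit 304) (nat_lit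 13608316974) (nat_lit 76) (nat_lit 4680750649) (nat_lit 56) (nat_lit 5) (nat_lit 60) (nat_lit 5) (nat_lit 57) (nat_lit 5) (nat_lit 434) (nat_lit 418) (nat_lit 348)) (XT.lf (nat_lit 0) (nat_lit 5097893580) (nat_lit 152) (nat_lit 15451303132) (nat_lit 228) (nat_lit 13001746425) (nat_lit 54) (nat_lit 5) (nat_lit 56) (nat_lit 5) (nat_lit 57) (nat_lit 5) (nat_lit 435) (nat_lit 418) (nat_lit 347)))) (XT.nd (nat_lit 78) (nat_lit 228) (nat_lit 0) (XT.lf (nat_lit 0) (nat_lit 26061639566) (nat_lit 152) (nat_lit 2190134954) (nat_lit 228) (nat_lit 6899467075) (nat_lit 54) (nat_lit 5) (nat_lit 56) (nat_lit 5) (nat_lit 57) (nat_lit 5) (nat_lit 436) (nat_lit 418) (nat_lit 346)) (XT.nd (nat_lit 78) (nat_lit 0) (nat_lit 0) (XT.lf (nat_lit 0) (nat_lit 296222690) (nat_lit 228) (nat_lit 24715899450) (nat_lit 76) (nat_lit 11820856705) (nat_lit 51) (nat_lit 5) (nat_lit 54) (nat_lit 5) (nat_lit 52) (nat_lit 5)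 (nat_lit 437) (nat_lit 418) (nat_lit 345)) (XT.lf (nat_lit 0) (nat_lit 7998266703) (nat_lit 228) (nat_lit 3347340982) (nat_lit 76) (nat_lit 27265036742) (nat_lit 51) (nat_lit 5) (nat_lit 54) (nat_lit 5) (nat_lit 52) (nat_lit 5) (nat_lit 438) (nat_lit 418) (nat_lit 344))))) (XT.nd (nat_lit 234) (nat_lit 304) (nat_lit 0) (XT.nd (nat_lit 78) (nat_lit 152) (nat_lit 0) (XT.lf (nat_lit 0) (nat_lit 16902879281) (nat_lit 228) (nat_lit 19828838120) (nat_lit 76) (nat_lit 3751895182) (nat_lit 49) (nat_lit 5) (nat_lit 52) (nat_lit 5) (nat_lit 50) (nat_lit 5) (nat_lit 439) (nat_lit 418) (nat_lit 343)) (XT.nd (nat_lit 78) (nat_lit 0) (nat_lit 0) (XT.lf (nat_lit 0) (nat_lit 4167831009) (nat_lit 152) (nat_lit 22833270732) (nat_lit 228) (nat_lit 15466818782) (nat_lit 47) (nat_lit 5) (nat_lit 49) (nat_lit 5) (nat_lit 50) (nat_lit 5) (nat_lit 440) (nat_lit 418) (nat_lit 342)) (XT.lf (nat_lit 0) (nat_lit 31200297624)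 (nat_lit 152) (nat_lit 7241736325) (nat_lit 228) (nat_lit 6126152474) (nat_lit 47) (nat_lit 5) (nat_lit 49) (nat_lit 5) (nat_lit 50) (nat_lit 5) (nat_lit 441) (nat_lit 418) (nat_lit 341)))) (XT.nd (nat_lit 78) (nat_lit 152) (nat_lit 0) (XT.lf (nat_lit 0) (nat_lit 4339244174) (nat_lit 152) (nat_lit 32883327533) (nat_lit 76) (nat_lit 9560227858) (nat_lit 45) (nat_lit 5) (nat_lit 47) (nat_lit 5) (nat_lit 46) (nat_lit 5) (nat_lit 442) (nat_lit 418) (nat_lit 340)) (XT.nd (nat_lit 78) (nat_lit 152) (nat_lit 0) (XT.lf (nat_lit 0) (nat_lit 15867207254) (nat_lit 152) (nat_lit 5404867700) (nat_lit 76) (nat_lit 27845273830) (nat_lit 45) (nat_lit 5) (nat_lit 47) (nat_lit 5) (nat_lit 46) (nat_lit 5) (nat_lit 443) (nat_lit 418) (nat_lit 339)) (XT.lf (nat_lit 0) (nat_lit 25538988042) (nat_lit 152) (nat_lit 3386348989) (nat_lit 228) (nat_lit 22664691627) (nat_lit 43) (nat_lit 5) (nat_lit 45) (nat_lit 5)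 (nat_lit 46) (nat_lit 5) (nat_lit 444) (nat_lit 418) (nat_lit 338)))))) (XT.nd (nat_lit 468) (nat_lit 304) (nat_lit 0) (XT.nd (nat_lit 234) (nat_lit 304) (nat_lit 0) (XT.nd (nat_lit 78) (nat_lit 228) (nat_lit 0) (XT.lf (nat_lit 0) (nat_lit 4862758028) (nat_lit 76) (nat_lit 38810886195) (nat_lit 152) (nat_lit 10535237546) (nat_lit 42) (nat_lit 5) (nat_lit 43) (nat_lit 5) (nat_lit 44) (nat_lit 4) (nat_lit 445) (nat_lit 418) (nat_lit 337)) (XT.nd (nat_lit 78) (nat_lit 152) (nat_lit 0) (XT.lf (nat_lit 0) (nat_lit 3248913298) (nat_lit 152) (nat_lit 17427812378) (nat_lit 76) (nat_lit 36290573613) (nat_lit 41) (nat_lit 5) (nat_lit 43) (nat_lit 5) (nat_lit 42) (nat_lit 5) (nat_lit 446) (nat_lit 418) (nat_lit 336)) (XT.lf (nat_lit 0) (nat_lit 17643063547) (nat_lit 152) (nat_lit 342216002) (nat_lit 228) (nat_lit 41905727275) (nat_lit 39) (nat_lit 5) (nat_lit 41) (nat_lit 5) (nat_lit 42) (nat_lit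 5) (nat_lit 447) (nat_lit 418) (nat_lit 335)))) (XT.nd (nat_lit 78) (nat_lit 304) (nat_lit 0) (XT.lf (nat_lit 0) (nat_lit 34903811060) (nat_lit 228) (nat_lit 7041986726) (nat_lit 76) (nat_lit 21022553442) (nat_lit 39) (nat_lit 5) (nat_lit 42) (nat_lit 5) (nat_lit 40) (nat_lit 4) (nat_lit 448) (nat_lit 418) (nat_lit 334)) (XT.nd (nat_lit 78) (nat_lit 228) (nat_lit 0) (XT.lf (nat_lit 0) (nat_lit 32592790804) (nat_lit 76) (nat_lit 21370625872) (nat_lit 152) (nat_lit 12265459868) (nat_lit 38) (nat_lit 5) (nat_lit 39) (nat_lit 5) (nat_lit 40) (nat_lit 4) (nat_lit 449) (nat_lit 418) (nat_lit 333)) (XT.lf (nat_lit 0) (nat_lit 4932602114) (nat_lit 228) (nat_lit 63499110187) (nat_lit 76) (nat_lit 1279297844) (nat_lit 35) (nat_lit 5) (nat_lit 38) (nat_lit 5) (nat_lit 36) (nat_lit 4) (nat_lit 450) (nat_lit 418) (nat_lit 332))))) (XT.nd (nat_lit 234) (nat_lit 228) (nat_lit 0) (XT.nd (nat_lit 78) (nat_lit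 76) (nat_lit 0) (XT.lf (nat_lit 0) (nat_lit 24337441939) (nat_lit 228) (nat_lit 23144348316) (nat_lit 76) (nat_lit 25844951152) (nat_lit 35) (nat_lit 5) (nat_lit 38) (nat_lit 5) (nat_lit 36) (nat_lit 4) (nat_lit 451) (nat_lit 418) (nat_lit 331)) (XT.nd (nat_lit 78) (nat_lit 0) (nat_lit 0) (XT.lf (nat_lit 0) (nat_lit 21506006583) (nat_lit 76) (nat_lit 24301203988) (nat_lit 152) (nat_lit 31383517773) (nat_lit 34) (nat_lit 5) (nat_lit 35) (nat_lit 5) (nat_lit 36) (nat_lit 4) (nat_lit 452) (nat_lit 418) (nat_lit 330)) (XT.lf (nat_lit 0) (nat_lit 69656827139) (nat_lit 152) (nat_lit 10311323403) (nat_lit 0) (nat_lit 1342702846) (nat_lit 34) (nat_lit 5) (nat_lit 36) (nat_lit 4) (nat_lit 34) (nat_lit 4) (nat_lit 453) (nat_lit 418) (nat_lit 329)))) (XT.nd (nat_lit 78) (nat_lit 76) (nat_lit 0) (XT.lf (nat_lit 0) (nat_lit 10802483488) (nat_lit 152) (nat_lit 45850328002) (nat_lit 76) (nat_lit 28958676785)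 (nat_lit 32) (nat_lit 5) (nat_lit 34) (nat_lit 5) (nat_lit 33) (nat_lit 4) (nat_lit 454) (nat_lit 418) (nat_lit 328)) (XT.nd (nat_lit 78) (nat_lit 0) (nat_lit 0) (XT.lf (nat_lit 0) (nat_lit 4078180867) (nat_lit 76) (nat_lit 30730783633) (nat_lit 152) (nat_lit 55392348016) (nat_lit 31) (nat_lit 5) (nat_lit 32) (nat_lit 5) (nat_lit 33) (nat_lit 4) (nat_lit 455) (nat_lit 418) (nat_lit 327)) (XT.lf (nat_lit 0) (nat_lit 60600684137) (nat_lit 76) (nat_lit 1384773939) (nat_lit 152) (nat_lit 33072905439) (nat_lit 31) (nat_lit 5) (nat_lit 32) (nat_lit 5) (nat_lit 33) (nat_lit 4) (nat_lit 456) (nat_lit 418) (nat_lit 326))))))))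
noncomputable def xc140 : XT := (XT.nd (nat_lit 1794) (nat_lit 684) (nat_lit 0) (XT.nd (nat_lit 858) (nat_lit 684) (nat_lit 0) (XT.nd (nat_lit 390) (nat_lit 380) (nat_lit 0) (XT.nd (nat_lit 156) (nat_lit 152) (nat_lit 0) (XT.nd (nat_lit 78) (nat_lit 76) (nat_lit 0) (XT.lf (nat_lit 0) (nat_lit 21689601676) (nat_lit 76) (nat_lit 70893123849) (nat_lit 76) (nat_lit 7621521035) (nat_lit 30) (nat_lit 4) (nat_lit 31) (nat_lit 5) (nat_lit 31) (nat_lit 4) (nat_lit 457) (nat_lit 418) (nat_lit 325)) (XT.lf (nat_lit 0) (nat_lit 19870875104) (nat_lit 152) (nat_lit 21943836895) (nat_lit 76) (nat_lit 63828972152) (nat_lit 29) (nat_lit 5) (nat_lit 31) (nat_lit 5) (nat_lit 30) (nat_lit 4) (nat_lit 458) (nat_lit 418) (nat_lit 324))) (XT.nd (nat_lit 78) (nat_lit 76) (nat_lit 0) (XT.lf (nat_lit 0) (nat_lit 40998652981) (nat_lit 76) (nat_lit 9134661301) (nat_lit 152) (nat_lit 61290532879) (nat_lit 28) (nat_lit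 5) (nat_lit 29) (nat_lit 5) (nat_lit 30) (nat_lit 4) (nat_lit 459) (nat_lit 418) (nat_lit 323)) (XT.nd (nat_lit 78) (nat_lit 76) (nat_lit 0) (XT.lf (nat_lit 0) (nat_lit 84057878560) (nat_lit 152) (nat_lit 8045610835) (nat_lit 0) (nat_lit 25463643652) (nat_lit 28) (nat_lit 5) (nat_lit 30) (nat_lit 4) (nat_lit 28) (nat_lit 4) (nat_lit 460) (nat_lit 418) (nat_lit 322)) (XT.lf (nat_lit 0) (nat_lit 62191706131) (nat_lit 76) (nat_lit 60234362002) (nat_lit 76) (nat_lit 1637441074) (nat_lit 27) (nat_lit 4) (nat_lit 28) (nat_lit 5) (nat_lit 28) (nat_lit 4) (nat_lit 461) (nat_lit 418) (nat_lit 321))))) (XT.nd (nat_lit 234) (nat_lit 152) (nat_lit 0) (XT.nd (nat_lit 78) (nat_lit 76) (nat_lit 0) (XT.lf (nat_lit 0) (nat_lit 6992744211) (nat_lit 76) (nat_lit 24541944343) (nat_lit 152) (nat_lit 99450585151) (nat_lit 25) (nat_lit 5) (nat_lit 26) (nat_lit 5) (nat_lit 27) (nat_lit 4) (nat_lit 462) (nat_lit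 418) (nat_lit 320)) (XT.nd (nat_lit 78) (nat_lit 76) (nat_lit 0) (XT.lf (nat_lit 0) (nat_lit 69341304162) (nat_lit 152) (nat_lit 53870077683) (nat_lit 0) (nat_lit 15080460817) (nat_lit 25) (nat_lit 5) (nat_lit 27) (nat_lit 4) (nat_lit 25) (nat_lit 4) (nat_lit 463) (nat_lit 418) (nat_lit 319)) (XT.lf (nat_lit 0) (nat_lit 22336056811) (nat_lit 76) (nat_lit 89007985342) (nat_lit 76) (nat_lit 34745167691) (nat_lit 24) (nat_lit 4) (nat_lit 25) (nat_lit 5) (nat_lit 25) (nat_lit 4) (nat_lit 464) (nat_lit 418) (nat_lit 318)))) (XT.nd (nat_lit 78) (nat_lit 76) (nat_lit 0) (XT.lf (nat_lit 0) (nat_lit 3594874023) (nat_lit 152) (nat_lit 46787307741) (nat_lit 76) (nat_lit 104003308391) (nat_lit 23) (nat_lit 5) (nat_lit 25) (nat_lit 5) (nat_lit 24) (nat_lit 4) (nat_lit 465) (nat_lit 418) (nat_lit 317)) (XT.nd (nat_lit 78) (nat_lit 0) (nat_lit 0) (XT.lf (nat_lit 0) (nat_lit 37293333511) (nat_lit 76) (nat_lit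 6725739503) (nat_lit 152) (nat_lit 119182674614) (nat_lit 22) (nat_lit 5) (nat_lit 23) (nat_lit 5) (nat_lit 24) (nat_lit 4) (nat_lit 466) (nat_lit 418) (nat_lit 316)) (XT.lf (nat_lit 0) (nat_lit 89959065362) (nat_lit 152) (nat_lit 42870687262) (nat_lit 0) (nat_lit 39711004597) (nat_lit 22) (nat_lit 5) (nat_lit 24) (nat_lit 4) (nat_lit 22) (nat_lit 4) (nat_lit 467) (nat_lit 418) (nat_lit 315)))))) (XT.nd (nat_lit 468) (nat_lit 380) (nat_lit 0) (XT.nd (nat_lit 234) (nat_lit 76) (nat_lit 0) (XT.nd (nat_lit 78) (nat_lit 152) (nat_lit 0) (XT.lf (nat_lit 0) (nat_lit 49085663449) (nat_lit 76) (nat_lit 91841209700) (nat_lit 76) (nat_lit 41591805257) (nat_lit 21) (nat_lit 4) (nat_lit 22) (nat_lit 5) (nat_lit 22) (nat_lit 4) (nat_lit 468) (nat_lit 418) (nat_lit 314)) (XT.nd (nat_lit 78) (nat_lit 76) (nat_lit 0) (XT.lf (nat_lit 0) (nat_lit 3743365975) (nat_lit 152) (nat_lit 42464447360) (nat_lit 76)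 (nat_lit 146985867229) (nat_lit 20) (nat_lit 5) (nat_lit 22) (nat_lit 5) (nat_lit 21) (nat_lit 4) (nat_lit 469) (nat_lit 418) (nat_lit 313)) (XT.lf (nat_lit 0) (nat_lit 51978594992) (nat_lit 152) (nat_lit 147086890899) (nat_lit 0) (nat_lit 5449150012) (nat_lit 19) (nat_lit 5) (nat_lit 21) (nat_lit 4) (nat_lit 19) (nat_lit 4) (nat_lit 470) (nat_lit 418) (nat_lit 312)))) (XT.nd (nat_lit 78) (nat_lit 76) (nat_lit 0) (XT.lf (nat_lit 0) (nat_lit 106461671487) (nat_lit 152) (nat_lit 50157235064) (nat_lit 0) (nat_lit 59931238863) (nat_lit 19) (nat_lit 5) (nat_lit 21) (nat_lit 4) (nat_lit 19) (nat_lit 4) (nat_lit 471) (nat_lit 418) (nat_lit 311)) (XT.nd (nat_lit 78) (nat_lit 0) (nat_lit 0) (XT.lf (nat_lit 0) (nat_lit 57393403939) (nat_lit 76) (nat_lit 109288095261) (nat_lit 76) (nat_lit 62756748152) (nat_lit 18) (nat_lit 4) (nat_lit 19) (nat_lit 5) (nat_lit 19) (nat_lit 4) (nat_lit 472) (nat_lit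 418) (nat_lit 310)) (XT.lf (nat_lit 0) (nat_lit 176396253056) (nat_lit 76) (nat_lit 56691899576) (nat_lit 76) (nat_lit 10159705721) (nat_lit 18) (nat_lit 4) (nat_lit 19) (nat_lit 5) (nat_lit 19) (nat_lit 4) (nat_lit 473) (nat_lit 418) (nat_lit 309))))) (XT.nd (nat_lit 234) (nat_lit 152) (nat_lit 0) (XT.nd (nat_lit 78) (nat_lit 76) (nat_lit 0) (XT.lf (nat_lit 0) (nat_lit 45526689079) (nat_lit 152) (nat_lit 210008008238) (nat_lit 0) (nat_lit 2440598450) (nat_lit 16) (nat_lit 5) (nat_lit 18) (nat_lit 4) (nat_lit 16) (nat_lit 4) (nat_lit 474) (nat_lit 418) (nat_lit 308)) (XT.nd (nat_lit 78) (nat_lit 76) (nat_lit 0) (XT.lf (nat_lit 0) (nat_lit 108464907350) (nat_lit 152) (nat_lit 99749101264) (nat_lit 0) (nat_lit 65378144547) (nat_lit 16) (nat_lit 5) (nat_lit 18) (nat_lit 4) (nat_lit 16) (nat_lit 4) (nat_lit 475) (nat_lit 418) (nat_lit 307)) (XT.lf (nat_lit 0) (nat_lit 20344412940) (nat_lit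 76) (nat_lit 156581169737) (nat_lit 76) (nat_lit 113493784551) (nat_lit 15) (nat_lit 4) (nat_lit 16) (nat_lit 5) (nat_lit 16) (nat_lit 4) (nat_lit 476) (nat_lit 418) (nat_lit 306)))) (XT.nd (nat_lit 78) (nat_lit 152) (nat_lit 0) (XT.lf (nat_lit 0) (nat_lit 155714509387) (nat_lit 76) (nat_lit 97874085942) (nat_lit 76) (nat_lit 54786124475) (nat_lit 15) (nat_lit 4) (nat_lit 16) (nat_lit 5) (nat_lit 16) (nat_lit 4) (nat_lit 477) (nat_lit 418) (nat_lit 305)) (XT.nd (nat_lit 78) (nat_lit 76) (nat_lit 0) (XT.lf (nat_lit 0) (nat_lit 8185291515) (nat_lit 152) (nat_lit 26063088707) (nat_lit 76) (nat_lit 293501678445) (nat_lit 14) (nat_lit 5) (nat_lit 16) (nat_lit 5) (nat_lit 15) (nat_lit 4) (nat_lit 478) (nat_lit 418) (nat_lit 304)) (XT.lf (nat_lit 0) (nat_lit 76936082860) (nat_lit 152) (nat_lit 234290506950) (nat_lit 0) (nat_lit 37038870705) (nat_lit 13) (nat_lit 5) (nat_lit 15) (nat_lit 4) (nat_lit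 13) (nat_lit 4) (nat_lit 479) (nat_lit 418) (nat_lit 303))))))) (XT.nd (nat_lit 858) (nat_lit 304) (nat_lit 0) (XT.nd (nat_lit 390) (nat_lit 152) (nat_lit 0) (XT.nd (nat_lit 156) (nat_lit 152) (nat_lit 0) (XT.nd (nat_lit 78) (nat_lit 76) (nat_lit 0) (XT.lf (nat_lit 0) (nat_lit 152806016898) (nat_lit 152) (nat_lit 104578170137) (nat_lit 0) (nat_lit 112908381159) (nat_lit 13) (nat_lit 5) (nat_lit 15) (nat_lit 4) (nat_lit 13) (nat_lit 4) (nat_lit 480) (nat_lit 418) (nat_lit 302)) (XT.lf (nat_lit 0) (nat_lit 37377914016) (nat_lit 76) (nat_lit 198265081239) (nat_lit 76) (nat_lit 158367053293) (nat_lit 12) (nat_lit 4) (nat_lit 13) (nat_lit 5) (nat_lit 13) (nat_lit 4) (nat_lit 481) (nat_lit 418) (nat_lit 301))) (XT.nd (nat_lit 78) (nat_lit 152) (nat_lit 0) (XT.lf (nat_lit 0) (nat_lit 196634980674) (nat_lit 76) (nat_lit 131329852830) (nat_lit 76) (nat_lit 91431461729) (nat_lit 12) (nat_lit 4) (nat_lit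 13) (nat_lit 5) (nat_lit 13) (nat_lit 4) (nat_lit 482) (nat_lit 418) (nat_lit 300)) (XT.nd (nat_lit 78) (nat_lit 152) (nat_lit 0) (XT.lf (nat_lit 0) (nat_lit 368629874305) (nat_lit 76) (nat_lit 59041201101) (nat_lit 76) (nat_lit 19142473746) (nat_lit 12) (nat_lit 4) (nat_lit 13) (nat_lit 5) (nat_lit 13) (nat_lit 4) (nat_lit 483) (nat_lit 418) (nat_lit 299)) (XT.lf (nat_lit 0) (nat_lit 58462983266) (nat_lit 152) (nat_lit 396129890587) (nat_lit 0) (nat_lit 21519428913) (nat_lit 10) (nat_lit 5) (nat_lit 12) (nat_lit 4) (nat_lit 10) (nat_lit 4) (nat_lit 484) (nat_lit 418) (nat_lit 298))))) (XT.nd (nat_lit 234) (nat_lit 76) (nat_lit 0) (XT.nd (nat_lit 78) (nat_lit 76) (nat_lit 0) (XT.lf (nat_lit 0) (nat_lit 144968154300) (nat_lit 152) (nat_lit 254424655346) (nat_lit 0) (nat_lit 108024333017) (nat_lit 10) (nat_lit 5) (nat_lit 12) (nat_lit 4) (nat_lit 10) (nat_lit 4) (nat_lit 485) (nat_lit 418)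 (nat_lit 297)) (XT.nd (nat_lit 78) (nat_lit 76) (nat_lit 0) (XT.lf (nat_lit 0) (nat_lit 238392559546) (nat_lit 152) (nat_lit 101385413477) (nat_lit 0) (nat_lit 201448491106) (nat_lit 10) (nat_lit 5) (nat_lit 12) (nat_lit 4) (nat_lit 10) (nat_lit 4) (nat_lit 486) (nat_lit 418) (nat_lit 296)) (XT.lf (nat_lit 0) (nat_lit 67259317704) (nat_lit 76) (nat_lit 273648095613) (nat_lit 76) (nat_lit 236703798324) (nat_lit 9) (nat_lit 4) (nat_lit 10) (nat_lit 5) (nat_lit 10) (nat_lit 4) (nat_lit 487) (nat_lit 418) (nat_lit 295)))) (XT.nd (nat_lit 78) (nat_lit 76) (nat_lit 0) (XT.lf (nat_lit 0) (nat_lit 255159328715) (nat_lit 76) (nat_lit 199235119989) (nat_lit 76) (nat_lit 162290610803) (nat_lit 9) (nat_lit 4) (nat_lit 10) (nat_lit 5) (nat_lit 10) (nat_lit 4) (nat_lit 488) (nat_lit 418) (nat_lit 294)) (XT.nd (nat_lit 78) (nat_lit 76) (nat_lit 0) (XT.lf (nat_lit 0) (nat_lit 458089324897) (nat_lit 76)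 (nat_lit 118870137246) (nat_lit 76) (nat_lit 81925431858) (nat_lit 9) (nat_lit 4) (nat_lit 10) (nat_lit 5) (nat_lit 10) (nat_lit 4) (nat_lit 489) (nat_lit 418) (nat_lit 293)) (XT.lf (nat_lit 0) (nat_lit 4624460702) (nat_lit 152) (nat_lit 27326008793) (nat_lit 76) (nat_lit 672500952723) (nat_lit 8) (nat_lit 5) (nat_lit 10) (nat_lit 5) (nat_lit 9) (nat_lit 4) (nat_lit 490) (nat_lit 418) (nat_lit 292)))))) (XT.nd (nat_lit 468) (nat_lit 152) (nat_lit 0) (XT.nd (nat_lit 234) (nat_lit 76) (nat_lit 0) (XT.nd (nat_lit 78) (nat_lit 0) (nat_lit 0) (XT.lf (nat_lit 0) (nat_lit 99316946064) (nat_lit 152) (nat_lit 588615954208) (nat_lit 0) (nat_lit 65108561559) (nat_lit 7) (nat_lit 5) (nat_lit 9) (nat_lit 4) (nat_lit 7) (nat_lit 4) (nat_lit 491) (nat_lit 418) (nat_lit 291)) (XT.nd (nat_lit 78) (nat_lit 0) (nat_lit 0) (XT.lf (nat_lit 0) (nat_lit 203180395424) (nat_lit 152) (nat_lit 433238797282) (nat_lit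 0) (nat_lit 168971866704) (nat_lit 7) (nat_lit 5) (nat_lit 9) (nat_lit 4) (nat_lit 7) (nat_lit 4) (nat_lit 492) (nat_lit 418) (nat_lit 290)) (XT.lf (nat_lit 0) (nat_lit 315352119865) (nat_lit 152) (nat_lit 265433111395) (nat_lit 0) (nat_lit 281143457615) (nat_lit 7) (nat_lit 5) (nat_lit 9) (nat_lit 4) (nat_lit 7) (nat_lit 4) (nat_lit 493) (nat_lit 418) (nat_lit 289)))) (XT.nd (nat_lit 78) (nat_lit 76) (nat_lit 0) (XT.lf (nat_lit 0) (nat_lit 436496840720) (nat_lit 152) (nat_lit 84204492483) (nat_lit 0) (nat_lit 402288054829) (nat_lit 7) (nat_lit 5) (nat_lit 9) (nat_lit 4) (nat_lit 7) (nat_lit 4) (nat_lit 494) (nat_lit 418) (nat_lit 288)) (XT.nd (nat_lit 78) (nat_lit 0) (nat_lit 0) (XT.lf (nat_lit 0) (nat_lit 117393505413) (nat_lit 76) (nat_lit 452762263844) (nat_lit 76) (nat_lit 418553363472) (nat_lit 6) (nat_lit 4) (nat_lit 7) (nat_lit 5) (nat_lit 7) (nat_lit 4) (nat_lit 495) (nat_lit 418)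 (nat_lit 287)) (XT.lf (nat_lit 0) (nat_lit 339906753798) (nat_lit 76) (nat_lit 376902289542) (nat_lit 76) (nat_lit 342693283169) (nat_lit 6) (nat_lit 4) (nat_lit 7) (nat_lit 5) (nat_lit 7) (nat_lit 4) (nat_lit 496) (nat_lit 418) (nat_lit 286))))) (XT.nd (nat_lit 234) (nat_lit 152) (nat_lit 0) (XT.nd (nat_lit 78) (nat_lit 0) (nat_lit 0) (XT.lf (nat_lit 0) (nat_lit 580219790348) (nat_lit 76) (nat_lit 294974169757) (nat_lit 76) (nat_lit 260765065234) (nat_lit 6) (nat_lit 4) (nat_lit 7) (nat_lit 5) (nat_lit 7) (nat_lit 4) (nat_lit 497) (nat_lit 418) (nat_lit 285)) (XT.nd (nat_lit 78) (nat_lit 0) (nat_lit 0) (XT.lf (nat_lit 0) (nat_lit 839756692316) (nat_lit 76) (nat_lit 206492404519) (nat_lit 76) (nat_lit 172283209117) (nat_lit 6) (nat_lit 4) (nat_lit 7) (nat_lit 5) (nat_lit 7) (nat_lit 4) (nat_lit 498) (nat_lit 418) (nat_lit 284)) (XT.lf (nat_lit 0) (nat_lit 1120055456159) (nat_lit 76) (nat_lit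 110932657442) (nat_lit 76) (nat_lit 76723377893) (nat_lit 6) (nat_lit 4) (nat_lit 7) (nat_lit 5) (nat_lit 7) (nat_lit 4) (nat_lit 499) (nat_lit 418) (nat_lit 283)))) (XT.nd (nat_lit 78) (nat_lit 0) (nat_lit 0) (XT.lf (nat_lit 0) (nat_lit 19069112949) (nat_lit 76) (nat_lit 6545536287) (nat_lit 152) (nat_lit 1378322764031) (nat_lit 4) (nat_lit 5) (nat_lit 5) (nat_lit 5) (nat_lit 6) (nat_lit 4) (nat_lit 500) (nat_lit 418) (nat_lit 282)) (XT.nd (nat_lit 78) (nat_lit 0) (nat_lit 0) (XT.lf (nat_lit 0) (nat_lit 139812210412) (nat_lit 152) (nat_lit 1259127556779) (nat_lit 0) (nat_lit 108136812628) (nat_lit 4) (nat_lit 5) (nat_lit 6) (nat_lit 4) (nat_lit 4) (nat_lit 4) (nat_lit 501) (nat_lit 418) (nat_lit 281)) (XT.lf (nat_lit 0) (nat_lit 263315123975) (nat_lit 152) (nat_lit 1123498527584) (nat_lit 0) (nat_lit 231639664341) (nat_lit 4) (nat_lit 5) (nat_lit 6) (nat_lit 4) (nat_lit 4) (nat_lit 4)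 (nat_lit 502) (nat_lit 418) (nat_lit 280))))))))
noncomputable def xc141 : XT := (XT.nd (nat_lit 1794) (nat_lit 0) (nat_lit 0) (XT.nd (nat_lit 858) (nat_lit 0) (nat_lit 0) (XT.nd (nat_lit 390) (nat_lit 76) (nat_lit 0) (XT.nd (nat_lit 156) (nat_lit 0) (nat_lit 0) (XT.nd (nat_lit 78) (nat_lit 0) (nat_lit 0) (XT.lf (nat_lit 0) (nat_lit 396697838738) (nat_lit 152) (nat_lit 977020064850) (nat_lit 0) (nat_lit 365022321835) (nat_lit 4) (nat_lit 5) (nat_lit 6) (nat_lit 4) (nat_lit 4) (nat_lit 4) (nat_lit 503) (nat_lit 418) (nat_lit 279)) (XT.lf (nat_lit 0) (nat_lit 540750770789) (nat_lit 152) (nat_lit 818824148056) (nat_lit 0) (nat_lit 509075200858) (nat_lit 4) (nat_lit 5) (nat_lit 6) (nat_lit 4) (nat_lit 4) (nat_lit 4) (nat_lit 504) (nat_lit 418) (nat_lit 278))) (XT.nd (nat_lit 78) (nat_lit 0) (nat_lit 0) (XT.lf (nat_lit 0) (nat_lit 696327567132) (nat_lit 152) (nat_lit 647973319917) (nat_lit 0)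 (nat_lit 664651948103) (nat_lit 4) (nat_lit 5) (nat_lit 6) (nat_lit 4) (nat_lit 4) (nat_lit 4) (nat_lit 505) (nat_lit 418) (nat_lit 277)) (XT.nd (nat_lit 78) (nat_lit 0) (nat_lit 0) (XT.lf (nat_lit 0) (nat_lit 864350164339) (nat_lit 152) (nat_lit 463455131082) (nat_lit 0) (nat_lit 832674499847) (nat_lit 4) (nat_lit 5) (nat_lit 6) (nat_lit 4) (nat_lit 4) (nat_lit 4) (nat_lit 506) (nat_lit 418) (nat_lit 276)) (XT.lf (nat_lit 0) (nat_lit 1045814251874) (nat_lit 152) (nat_lit 264176140430) (nat_lit 0) (nat_lit 1014138545288) (nat_lit 4) (nat_lit 5) (nat_lit 6) (nat_lit 4) (nat_lit 4) (nat_lit 4) (nat_lit 507) (nat_lit 418) (nat_lit 275))))) (XT.nd (nat_lit 234) (nat_lit 0) (nat_lit 0) (XT.nd (nat_lit 78) (nat_lit 76) (nat_lit 0) (XT.lf (nat_lit 0) (nat_lit 1241795172478) (nat_lit 152) (nat_lit 48955435426) (nat_lit 0) (nat_lit 1210119426915) (nat_lit 4) (nat_lit 5) (nat_lit 6) (nat_lit 4) (nat_lit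 4) (nat_lit 4) (nat_lit 508) (nat_lit 418) (nat_lit 274)) (XT.nd (nat_lit 78) (nat_lit 0) (nat_lit 0) (XT.lf (nat_lit 0) (nat_lit 193144222114) (nat_lit 76) (nat_lit 1264955195643) (nat_lit 76) (nat_lit 1233279413991) (nat_lit 3) (nat_lit 4) (nat_lit 4) (nat_lit 5) (nat_lit 4) (nat_lit 4) (nat_lit 509) (nat_lit 418) (nat_lit 273)) (XT.lf (nat_lit 0) (nat_lit 457395445337) (nat_lit 76) (nat_lit 1235650820552) (nat_lit 76) (nat_lit 1203975005484) (nat_lit 3) (nat_lit 4) (nat_lit 4) (nat_lit 5) (nat_lit 4) (nat_lit 4) (nat_lit 510) (nat_lit 418) (nat_lit 272)))) (XT.nd (nat_lit 78) (nat_lit 0) (nat_lit 0) (XT.lf (nat_lit 0) (nat_lit 742786260944) (nat_lit 76) (nat_lit 1204002355438) (nat_lit 76) (nat_lit 1172326509429) (nat_lit 3) (nat_lit 4) (nat_lit 4) (nat_lit 5) (nat_lit 4) (nat_lit 4) (nat_lit 511) (nat_lit 418) (nat_lit 271)) (XT.nd (nat_lit 78) (nat_lit 0) (nat_lit 0) (XT.lf (nat_lit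 0) (nat_lit 1051007873767) (nat_lit 76) (nat_lit 1169822253840) (nat_lit 76) (nat_lit 1138146379182) (nat_lit 3) (nat_lit 4) (nat_lit 4) (nat_lit 5) (nat_lit 4) (nat_lit 4) (nat_lit 512) (nat_lit 418) (nat_lit 270)) (XT.lf (nat_lit 0) (nat_lit 1383886782253) (nat_lit 76) (nat_lit 1132907967009) (nat_lit 76) (nat_lit 1101232065824) (nat_lit 3) (nat_lit 4) (nat_lit 4) (nat_lit 5) (nat_lit 4) (nat_lit 4) (nat_lit 513) (nat_lit 418) (nat_lit 269)))))) (XT.nd (nat_lit 468) (nat_lit 0) (nat_lit 0) (XT.nd (nat_lit 234) (nat_lit 0) (nat_lit 0) (XT.nd (nat_lit 78) (nat_lit 0) (nat_lit 0) (XT.lf (nat_lit 0) (nat_lit 1743395602156) (nat_lit 76) (nat_lit 1093040743615) (nat_lit 76) (nat_lit 1061364817868) (nat_lit 3) (nat_lit 4) (nat_lit 4) (nat_lit 5) (nat_lit 4) (nat_lit 4) (nat_lit 514) (nat_lit 418) (nat_lit 268)) (XT.nd (nat_lit 78) (nat_lit 0) (nat_lit 0) (XT.lf (nat_lit 0) (nat_lit 2131664756113)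 (nat_lit 76) (nat_lit 1049984333445) (nat_lit 76) (nat_lit 1018308384956) (nat_lit 3) (nat_lit 4) (nat_lit 4) (nat_lit 5) (nat_lit 4) (nat_lit 4) (nat_lit 515) (nat_lit 418) (nat_lit 267)) (XT.lf (nat_lit 0) (nat_lit 2550995098369) (nat_lit 76) (nat_lit 1003483587402) (nat_lit 76) (nat_lit 971807617855) (nat_lit 3) (nat_lit 4) (nat_lit 4) (nat_lit 5) (nat_lit 4) (nat_lit 4) (nat_lit 516) (nat_lit 418) (nat_lit 266)))) (XT.nd (nat_lit 78) (nat_lit 0) (nat_lit 0) (XT.lf (nat_lit 0) (nat_lit 3003871549471) (nat_lit 76) (nat_lit 953262945510) (nat_lit 76) (nat_lit 921586956465) (nat_lit 3) (nat_lit 4) (nat_lit 4) (nat_lit 5) (nat_lit 4) (nat_lit 4) (nat_lit 517) (nat_lit 418) (nat_lit 265)) (XT.nd (nat_lit 78) (nat_lit 0) (nat_lit 0) (XT.lf (nat_lit 0) (nat_lit 3492977821721) (nat_lit 76) (nat_lit 899024803964) (nat_lit 76) (nat_lit 867348796865) (nat_lit 3) (nat_lit 4) (nat_lit 4) (nat_lit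 5) (nat_lit 4) (nat_lit 4) (nat_lit 518) (nat_lit 418) (nat_lit 264)) (XT.lf (nat_lit 0) (nat_lit 4021212322659) (nat_lit 76) (nat_lit 840447751556) (nat_lit 76) (nat_lit 808771727741) (nat_lit 3) (nat_lit 4) (nat_lit 4) (nat_lit 5) (nat_lit 4) (nat_lit 4) (nat_lit 519) (nat_lit 418) (nat_lit 263))))) (XT.nd (nat_lit 234) (nat_lit 0) (nat_lit 0) (XT.nd (nat_lit 78) (nat_lit 0) (nat_lit 0) (XT.lf (nat_lit 0) (nat_lit 4591705330810) (nat_lit 76) (nat_lit 777184665011) (nat_lit 76) (nat_lit 745508625718) (nat_lit 3) (nat_lit 4) (nat_lit 4) (nat_lit 5) (nat_lit 4) (nat_lit 4) (nat_lit 520) (nat_lit 418) (nat_lit 262)) (XT.nd (nat_lit 78) (nat_lit 0) (nat_lit 0) (XT.lf (nat_lit 0) (nat_lit 5207837545480) (nat_lit 76) (nat_lit 708860651966) (nat_lit 76) (nat_lit 677184598342) (nat_lit 3) (nat_lit 4) (nat_lit 4) (nat_lit 5) (nat_lit 4) (nat_lit 4) (nat_lit 521) (nat_lit 418) (nat_lit 261)) (XT.lf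 (nat_lit 0) (nat_lit 5873260120534) (nat_lit 76) (nat_lit 635070829380) (nat_lit 76) (nat_lit 603394762486) (nat_lit 3) (nat_lit 4) (nat_lit 4) (nat_lit 5) (nat_lit 4) (nat_lit 4) (nat_lit 522) (nat_lit 418) (nat_lit 260)))) (XT.nd (nat_lit 78) (nat_lit 0) (nat_lit 0) (XT.lf (nat_lit 0) (nat_lit 6591916300861) (nat_lit 76) (nat_lit 555377924231) (nat_lit 76) (nat_lit 523701845049) (nat_lit 3) (nat_lit 4) (nat_lit 4) (nat_lit 5) (nat_lit 4) (nat_lit 4) (nat_lit 523) (nat_lit 418) (nat_lit 259)) (XT.nd (nat_lit 78) (nat_lit 0) (nat_lit 0) (XT.lf (nat_lit 0) (nat_lit 7368064789753) (nat_lit 76) (nat_lit 469309682264) (nat_lit 76) (nat_lit 437633591706) (nat_lit 3) (nat_lit 4) (nat_lit 4) (nat_lit 5) (nat_lit 4) (nat_lit 4) (nat_lit 524) (nat_lit 418) (nat_lit 258)) (XT.lf (nat_lit 0) (nat_lit 8206304985662) (nat_lit 76) (nat_lit 376356069455) (nat_lit 76) (nat_lit 344679968363) (nat_lit 3)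 (nat_lit 4) (nat_lit 4) (nat_lit 5) (nat_lit 4) (nat_lit 4) (nat_lit 525) (nat_lit 418) (nat_lit 257))))))) (XT.nd (nat_lit 54834) (nat_lit 0) (nat_lit 3648) (XT.nd (nat_lit 54366) (nat_lit 0) (nat_lit 4940) (XT.nd (nat_lit 54132) (nat_lit 0) (nat_lit 5700) (XT.nd (nat_lit 78) (nat_lit 0) (nat_lit 0) (XT.lf (nat_lit 0) (nat_lit 9111604237898) (nat_lit 76) (nat_lit 275966249579) (nat_lit 76) (nat_lit 244290138733) (nat_lit 3) (nat_lit 4) (nat_lit 4) (nat_lit 5) (nat_lit 4) (nat_lit 4) (nat_lit 526) (nat_lit 418) (nat_lit 256)) (XT.nd (nat_lit 78) (nat_lit 0) (nat_lit 0) (XT.lf (nat_lit 0) (nat_lit 10089327282768) (nat_lit 76) (nat_lit 167545320000) (nat_lit 76) (nat_lit 135869200122) (nat_lit 3) (nat_lit 4) (nat_lit 4) (nat_lit 5) (nat_lit 4) (nat_lit 4) (nat_lit 527) (nat_lit 418) (nat_lit 255)) (XT.lf (nat_lit 0) (nat_lit 11145268034615) (nat_lit 76) (nat_lit 50450786319) (nat_lit 76)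 (nat_lit 18774658080) (nat_lit 3) (nat_lit 4) (nat_lit 4) (nat_lit 5) (nat_lit 4) (nat_lit 4) (nat_lit 528) (nat_lit 418) (nat_lit 254)))) (XT.nd (nat_lit 78) (nat_lit 0) (nat_lit 0) (XT.lf (nat_lit 0) (nat_lit 7464523198) (nat_lit 532) (nat_lit 685823447) (nat_lit 532) (nat_lit 685823447) (nat_lit 78) (nat_lit 3) (nat_lit 85) (nat_lit 3) (nat_lit 85) (nat_lit 5) (nat_lit 419) (nat_lit 419) (nat_lit 362)) (XT.nd (nat_lit 78) (nat_lit 0) (nat_lit 76) (XT.lf (nat_lit 76) (nat_lit 7746640640) (nat_lit 0) (nat_lit 8166317122) (nat_lit 532) (nat_lit 2435255506) (nat_lit 79) (nat_lit 5) (nat_lit 78) (nat_lit 3) (nat_lit 85) (nat_lit 5) (nat_lit 420) (nat_lit 419) (nat_lit 361)) (XT.lf (nat_lit 0) (nat_lit 17008828256) (nat_lit 456) (nat_lit 1431867011) (nat_lit 532) (nat_lit 634809293) (nat_lit 79) (nat_lit 5) (nat_lit 85) (nat_lit 5) (nat_lit 86) (nat_lit 5) (nat_lit 421) (nat_lit 419) (nat_lit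 360))))) (XT.nd (nat_lit 234) (nat_lit 380) (nat_lit 0) (XT.nd (nat_lit 78) (nat_lit 456) (nat_lit 0) (XT.lf (nat_lit 76) (nat_lit 8681306143) (nat_lit 0) (nat_lit 9913336368) (nat_lit 532) (nat_lit 1234162178) (nat_lit 80) (nat_lit 5) (nat_lit 79) (nat_lit 5) (nat_lit 86) (nat_lit 5) (nat_lit 422) (nat_lit 419) (nat_lit 359)) (XT.nd (nat_lit 78) (nat_lit 456) (nat_lit 0) (XT.lf (nat_lit 76) (nat_lit 19673004481) (nat_lit 0) (nat_lit 655935460) (nat_lit 532) (nat_lit 311706356) (nat_lit 80) (nat_lit 5) (nat_lit 79) (nat_lit 5) (nat_lit 86) (nat_lit 5) (nat_lit 423) (nat_lit 419) (nat_lit 358)) (XT.lf (nat_lit 0) (nat_lit 1118551850) (nat_lit 532) (nat_lit 11204330268) (nat_lit 608) (nat_lit 9155781998) (nat_lit 73) (nat_lit 5) (nat_lit 80) (nat_lit 5) (nat_lit 81) (nat_lit 5) (nat_lit 424) (nat_lit 419) (nat_lit 357)))) (XT.nd (nat_lit 78) (nat_lit 380) (nat_lit 0) (XT.lf (nat_lit 76) (nat_lit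 52902774) (nat_lit 0) (nat_lit 2623332008) (nat_lit 608) (nat_lit 19704458817) (nat_lit 74) (nat_lit 5) (nat_lit 73) (nat_lit 5) (nat_lit 81) (nat_lit 5) (nat_lit 425) (nat_lit 419) (nat_lit 356)) (XT.nd (nat_lit 78) (nat_lit 456) (nat_lit 0) (XT.lf (nat_lit 0) (nat_lit 4846972341) (nat_lit 532) (nat_lit 10693185748) (nat_lit 76) (nat_lit 7775657232) (nat_lit 74) (nat_lit 5) (nat_lit 81) (nat_lit 5) (nat_lit 75) (nat_lit 5) (nat_lit 426) (nat_lit 419) (nat_lit 355)) (XT.lf (nat_lit 0) (nat_lit 1885479251) (nat_lit 456) (nat_lit 5405755017) (nat_lit 532) (nat_lit 17026527986) (nat_lit 68) (nat_lit 5) (nat_lit 74) (nat_lit 5) (nat_lit 75) (nat_lit 5) (nat_lit 427) (nat_lit 419) (nat_lit 354)))))) (XT.nd (nat_lit 468) (nat_lit 608) (nat_lit 0) (XT.nd (nat_lit 234) (nat_lit 456) (nat_lit 0) (XT.nd (nat_lit 78) (nat_lit 228) (nat_lit 0) (XT.lf (nat_lit 0) (nat_lit 10351320672) (nat_lit 532)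 (nat_lit 9452332371) (nat_lit 76) (nat_lit 5562593574) (nat_lit 68) (nat_lit 5) (nat_lit 75) (nat_lit 5) (nat_lit 69) (nat_lit 5) (nat_lit 428) (nat_lit 419) (nat_lit 353)) (XT.nd (nat_lit 78) (nat_lit 0) (nat_lit 0) (XT.lf (nat_lit 0) (nat_lit 4645385412) (nat_lit 228) (nat_lit 9251011390) (nat_lit 304) (nat_lit 12583002331) (nat_lit 65) (nat_lit 5) (nat_lit 68) (nat_lit 5) (nat_lit 69) (nat_lit 5) (nat_lit 429) (nat_lit 419) (nat_lit 352)) (XT.lf (nat_lit 0) (nat_lit 18030462325) (nat_lit 304) (nat_lit 7323937460) (nat_lit 76) (nat_lit 2302777136) (nat_lit 65) (nat_lit 5) (nat_lit 69) (nat_lit 5) (nat_lit 66) (nat_lit 5) (nat_lit 430) (nat_lit 419) (nat_lit 351)))) (XT.nd (nat_lit 78) (nat_lit 228) (nat_lit 0) (XT.lf (nat_lit 0) (nat_lit 8520702783) (nat_lit 228) (nat_lit 14409221853) (nat_lit 304) (nat_lit 5964482029) (nat_lit 62) (nat_lit 5) (nat_lit 65) (nat_lit 5) (nat_lit 66) (nat_lit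 5) (nat_lit 431) (nat_lit 419) (nat_lit 350)) (XT.nd (nat_lit 78) (nat_lit 228) (nat_lit 0) (XT.lf (nat_lit 0) (nat_lit 26037545652) (nat_lit 228) (nat_lit 2374004806) (nat_lit 304) (nat_lit 1803851009) (nat_lit 62) (nat_lit 5) (nat_lit 65) (nat_lit 5) (nat_lit 66) (nat_lit 5) (nat_lit 432) (nat_lit 419) (nat_lit 349)) (XT.lf (nat_lit 0) (nat_lit 3146512103) (nat_lit 228) (nat_lit 17942179104) (nat_lit 76) (nat_lit 10500898311) (nat_lit 59) (nat_lit 5) (nat_lit 62) (nat_lit 5) (nat_lit 60) (nat_lit 5) (nat_lit 433) (nat_lit 419) (nat_lit 348))))) (XT.nd (nat_lit 234) (nat_lit 228) (nat_lit 0) (XT.nd (nat_lit 78) (nat_lit 380) (nat_lit 0) (XT.lf (nat_lit 0) (nat_lit 8565151788) (nat_lit 228) (nat_lit 51661537) (nat_lit 76) (nat_lit 24439577380) (nat_lit 59) (nat_lit 5) (nat_lit 62) (nat_lit 5) (nat_lit 60) (nat_lit 5) (nat_lit 434) (nat_lit 419) (nat_lit 347)) (XT.nd (nat_lit 78) (nat_lit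 152) (nat_lit 0) (XT.lf (nat_lit 0) (nat_lit 15025688833) (nat_lit 304) (nat_lit 14458297309) (nat_lit 76) (nat_lit 5107879704) (nat_lit 56) (nat_lit 5) (nat_lit 60) (nat_lit 5) (nat_lit 57) (nat_lit 5) (nat_lit 435) (nat_lit 419) (nat_lit 346)) (XT.lf (nat_lit 0) (nat_lit 5738367430) (nat_lit 152) (nat_lit 16619799475) (nat_lit 228) (nat_lit 13863606425) (nat_lit 54) (nat_lit 5) (nat_lit 56) (nat_lit 5) (nat_lit 57) (nat_lit 5) (nat_lit 436) (nat_lit 419) (nat_lit 345)))) (XT.nd (nat_lit 78) (nat_lit 228) (nat_lit 0) (XT.lf (nat_lit 0) (nat_lit 28361980327) (nat_lit 152) (nat_lit 2302745836) (nat_lit 228) (nat_lit 7286350632) (nat_lit 54) (nat_lit 5) (nat_lit 56) (nat_lit 5) (nat_lit 57) (nat_lit 5) (nat_lit 437) (nat_lit 419) (nat_lit 344)) (XT.nd (nat_lit 78) (nat_lit 0) (nat_lit 0) (XT.lf (nat_lit 0) (nat_lit 471990210) (nat_lit 228) (nat_lit 26464687530) (nat_lit 76) (nat_lit 12830740098)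 (nat_lit 51) (nat_lit 5) (nat_lit 54) (nat_lit 5) (nat_lit 52) (nat_lit 5) (nat_lit 438) (nat_lit 419) (nat_lit 343)) (XT.lf (nat_lit 0) (nat_lit 8778933322) (nat_lit 228) (nat_lit 3403569117) (nat_lit 76) (nat_lit 29505697882) (nat_lit 51) (nat_lit 5) (nat_lit 54) (nat_lit 5) (nat_lit 52) (nat_lit 5) (nat_lit 439) (nat_lit 419) (nat_lit 342))))))))
noncomputable def xc142 : XT := (XT.nd (nat_lit 1794) (nat_lit 1292) (nat_lit 0) (XT.nd (nat_lit 858) (nat_lit 836) (nat_lit 0) (XT.nd (nat_lit 390) (nat_lit 532) (nat_lit 0) (XT.nd (nat_lit 156) (nat_lit 152) (nat_lit 0) (XT.nd (nat_lit 78) (nat_lit 152) (nat_lit 0) (XT.lf (nat_lit 0) (nat_lit 18392148472) (nat_lit 228) (nat_lit 21199790668) (nat_lit 76) (nat_lit 4119370417) (nat_lit 49) (nat_lit 5) (nat_lit 52) (nat_lit 5) (nat_lit 50) (nat_lit 5) (nat_lit 440) (nat_lit 419) (nat_lit 341)) (XT.lf (nat_lit 0) (nat_lit 4711159979) (nat_lit 152)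 (nat_lit 24581965884) (nat_lit 228) (nat_lit 16561646640) (nat_lit 47) (nat_lit 5) (nat_lit 49) (nat_lit 5) (nat_lit 50) (nat_lit 5) (nat_lit 441) (nat_lit 419) (nat_lit 340))) (XT.nd (nat_lit 78) (nat_lit 152) (nat_lit 0) (XT.lf (nat_lit 0) (nat_lit 33890675591) (nat_lit 152) (nat_lit 7748884022) (nat_lit 228) (nat_lit 6484283890) (nat_lit 47) (nat_lit 5) (nat_lit 49) (nat_lit 5) (nat_lit 50) (nat_lit 5) (nat_lit 442) (nat_lit 419) (nat_lit 339)) (XT.nd (nat_lit 78) (nat_lit 0) (nat_lit 0) (XT.lf (nat_lit 0) (nat_lit 4808974836) (nat_lit 152) (nat_lit 35310225703) (nat_lit 76) (nat_lit 10396394440) (nat_lit 45) (nat_lit 5) (nat_lit 47) (nat_lit 5) (nat_lit 46) (nat_lit 5) (nat_lit 443) (nat_lit 419) (nat_lit 338)) (XT.lf (nat_lit 0) (nat_lit 17250094138) (nat_lit 152) (nat_lit 5648583012) (nat_lit 76) (nat_lit 30138959026) (nat_lit 45) (nat_lit 5) (nat_lit 47) (nat_lit 5) (nat_lit 46)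 (nat_lit 5) (nat_lit 444) (nat_lit 419) (nat_lit 337))))) (XT.nd (nat_lit 234) (nat_lit 228) (nat_lit 0) (XT.nd (nat_lit 78) (nat_lit 152) (nat_lit 0) (XT.lf (nat_lit 0) (nat_lit 27766004630) (nat_lit 152) (nat_lit 3582884237) (nat_lit 228) (nat_lit 24359561866) (nat_lit 43) (nat_lit 5) (nat_lit 45) (nat_lit 5) (nat_lit 46) (nat_lit 5) (nat_lit 445) (nat_lit 419) (nat_lit 336)) (XT.nd (nat_lit 78) (nat_lit 76) (nat_lit 0) (XT.lf (nat_lit 0) (nat_lit 5437835132) (nat_lit 76) (nat_lit 41837243381) (nat_lit 152) (nat_lit 11261893499) (nat_lit 42) (nat_lit 5) (nat_lit 43) (nat_lit 5) (nat_lit 44) (nat_lit 4) (nat_lit 446) (nat_lit 419) (nat_lit 335)) (XT.lf (nat_lit 0) (nat_lit 3611004236) (nat_lit 152) (nat_lit 18644367891) (nat_lit 76) (nat_lit 39261122405) (nat_lit 41) (nat_lit 5) (nat_lit 43) (nat_lit 5) (nat_lit 42) (nat_lit 5) (nat_lit 447) (nat_lit 419) (nat_lit 334)))) (XT.nd (nat_lit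 78) (nat_lit 76) (nat_lit 0) (XT.lf (nat_lit 0) (nat_lit 19227680147) (nat_lit 152) (nat_lit 295195688) (nat_lit 228) (nat_lit 45151496223) (nat_lit 39) (nat_lit 5) (nat_lit 41) (nat_lit 5) (nat_lit 42) (nat_lit 5) (nat_lit 448) (nat_lit 419) (nat_lit 333)) (XT.nd (nat_lit 78) (nat_lit 76) (nat_lit 0) (XT.lf (nat_lit 0) (nat_lit 37789230006) (nat_lit 228) (nat_lit 7439329401) (nat_lit 76) (nat_lit 22769798389) (nat_lit 39) (nat_lit 5) (nat_lit 42) (nat_lit 5) (nat_lit 40) (nat_lit 4) (nat_lit 449) (nat_lit 419) (nat_lit 332)) (XT.lf (nat_lit 0) (nat_lit 35362027388) (nat_lit 76) (nat_lit 23008570960) (nat_lit 152) (nat_lit 13149368166) (nat_lit 38) (nat_lit 5) (nat_lit 39) (nat_lit 5) (nat_lit 40) (nat_lit 4) (nat_lit 450) (nat_lit 419) (nat_lit 331)))))) (XT.nd (nat_lit 468) (nat_lit 304) (nat_lit 0) (XT.nd (nat_lit 234) (nat_lit 228) (nat_lit 0) (XT.nd (nat_lit 78) (nat_lit 76) (nat_lit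 0) (XT.lf (nat_lit 0) (nat_lit 5418483165) (nat_lit 228) (nat_lit 68411149590) (nat_lit 76) (nat_lit 1450946524) (nat_lit 35) (nat_lit 5) (nat_lit 38) (nat_lit 5) (nat_lit 36) (nat_lit 4) (nat_lit 451) (nat_lit 419) (nat_lit 330)) (XT.nd (nat_lit 78) (nat_lit 76) (nat_lit 0) (XT.lf (nat_lit 0) (nat_lit 26368949222) (nat_lit 228) (nat_lit 24840443022) (nat_lit 76) (nat_lit 27976718403) (nat_lit 35) (nat_lit 5) (nat_lit 38) (nat_lit 5) (nat_lit 36) (nat_lit 4) (nat_lit 452) (nat_lit 419) (nat_lit 329)) (XT.lf (nat_lit 0) (nat_lit 23378004746) (nat_lit 76) (nat_lit 26175678458) (nat_lit 152) (nat_lit 33805743301) (nat_lit 34) (nat_lit 5) (nat_lit 35) (nat_lit 5) (nat_lit 36) (nat_lit 4) (nat_lit 453) (nat_lit 419) (nat_lit 328)))) (XT.nd (nat_lit 78) (nat_lit 228) (nat_lit 0) (XT.lf (nat_lit 0) (nat_lit 75306753120) (nat_lit 152) (nat_lit 10991411372) (nat_lit 0) (nat_lit 1511358965) (nat_lit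 34) (nat_lit 5) (nat_lit 36) (nat_lit 4) (nat_lit 34) (nat_lit 4) (nat_lit 454) (nat_lit 419) (nat_lit 327)) (XT.nd (nat_lit 78) (nat_lit 76) (nat_lit 0) (XT.lf (nat_lit 0) (nat_lit 11743680876) (nat_lit 152) (nat_lit 49373141298) (nat_lit 76) (nat_lit 31337418565) (nat_lit 32) (nat_lit 5) (nat_lit 34) (nat_lit 5) (nat_lit 33) (nat_lit 4) (nat_lit 455) (nat_lit 419) (nat_lit 326)) (XT.lf (nat_lit 0) (nat_lit 4545972004) (nat_lit 76) (nat_lit 33122408717) (nat_lit 152) (nat_lit 59743054666) (nat_lit 31) (nat_lit 5) (nat_lit 32) (nat_lit 5) (nat_lit 33) (nat_lit 4) (nat_lit 456) (nat_lit 419) (nat_lit 325))))) (XT.nd (nat_lit 234) (nat_lit 152) (nat_lit 0) (XT.nd (nat_lit 78) (nat_lit 152) (nat_lit 0) (XT.lf (nat_lit 0) (nat_lit 65579791338) (nat_lit 76) (nat_lit 1433669181) (nat_lit 152) (nat_lit 35644033067) (nat_lit 31) (nat_lit 5) (nat_lit 32) (nat_lit 5) (nat_lit 33) (nat_lit 4) (nat_lit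 457) (nat_lit 419) (nat_lit 324)) (XT.nd (nat_lit 78) (nat_lit 76) (nat_lit 0) (XT.lf (nat_lit 0) (nat_lit 23556452583) (nat_lit 76) (nat_lit 76501478489) (nat_lit 76) (nat_lit 8157162893) (nat_lit 30) (nat_lit 4) (nat_lit 31) (nat_lit 5) (nat_lit 31) (nat_lit 4) (nat_lit 458) (nat_lit 419) (nat_lit 323)) (XT.lf (nat_lit 0) (nat_lit 21525706273) (nat_lit 152) (nat_lit 23573979522) (nat_lit 76) (nat_lit 68990275635) (nat_lit 29) (nat_lit 5) (nat_lit 31) (nat_lit 5) (nat_lit 30) (nat_lit 4) (nat_lit 459) (nat_lit 419) (nat_lit 322)))) (XT.nd (nat_lit 78) (nat_lit 76) (nat_lit 0) (XT.lf (nat_lit 0) (nat_lit 44400735765) (nat_lit 76) (nat_lit 9806516752) (nat_lit 152) (nat_lit 66125436346) (nat_lit 28) (nat_lit 5) (nat_lit 29) (nat_lit 5) (nat_lit 30) (nat_lit 4) (nat_lit 460) (nat_lit 419) (nat_lit 321)) (XT.nd (nat_lit 78) (nat_lit 76) (nat_lit 0) (XT.lf (nat_lit 0) (nat_lit 90842407047)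 (nat_lit 152) (nat_lit 8572741507) (nat_lit 0) (nat_lit 27552559369) (nat_lit 28) (nat_lit 5) (nat_lit 30) (nat_lit 4) (nat_lit 28) (nat_lit 4) (nat_lit 461) (nat_lit 419) (nat_lit 320)) (XT.lf (nat_lit 0) (nat_lit 67280610989) (nat_lit 76) (nat_lit 64997735216) (nat_lit 76) (nat_lit 1705584709) (nat_lit 27) (nat_lit 4) (nat_lit 28) (nat_lit 5) (nat_lit 28) (nat_lit 4) (nat_lit 462) (nat_lit 419) (nat_lit 319))))))) (XT.nd (nat_lit 936) (nat_lit 608) (nat_lit 0) (XT.nd (nat_lit 468) (nat_lit 304) (nat_lit 0) (XT.nd (nat_lit 234) (nat_lit 152) (nat_lit 0) (XT.nd (nat_lit 78) (nat_lit 76) (nat_lit 0) (XT.lf (nat_lit 0) (nat_lit 7665924731) (nat_lit 76) (nat_lit 26449559638) (nat_lit 152) (nat_lit 107343966471) (nat_lit 25) (nat_lit 5) (nat_lit 26) (nat_lit 5) (nat_lit 27) (nat_lit 4) (nat_lit 463) (nat_lit 419) (nat_lit 318)) (XT.nd (nat_lit 78) (nat_lit 76) (nat_lit 0) (XT.lf (nat_lit 0)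 (nat_lit 74943572647) (nat_lit 152) (nat_lit 58071290202) (nat_lit 0) (nat_lit 16335927219) (nat_lit 25) (nat_lit 5) (nat_lit 27) (nat_lit 4) (nat_lit 25) (nat_lit 4) (nat_lit 464) (nat_lit 419) (nat_lit 317)) (XT.lf (nat_lit 0) (nat_lit 24228590907) (nat_lit 76) (nat_lit 96076408225) (nat_lit 76) (nat_lit 37467070149) (nat_lit 24) (nat_lit 4) (nat_lit 25) (nat_lit 5) (nat_lit 25) (nat_lit 4) (nat_lit 465) (nat_lit 419) (nat_lit 316)))) (XT.nd (nat_lit 78) (nat_lit 76) (nat_lit 0) (XT.lf (nat_lit 0) (nat_lit 3933226928) (nat_lit 152) (nat_lit 50429793331) (nat_lit 76) (nat_lit 112369245788) (nat_lit 23) (nat_lit 5) (nat_lit 25) (nat_lit 5) (nat_lit 24) (nat_lit 4) (nat_lit 466) (nat_lit 419) (nat_lit 315)) (XT.nd (nat_lit 78) (nat_lit 0) (nat_lit 0) (XT.lf (nat_lit 0) (nat_lit 40374754942) (nat_lit 76) (nat_lit 7215202489) (nat_lit 152) (nat_lit 128663979208) (nat_lit 22) (nat_lit 5) (nat_lit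 23) (nat_lit 5) (nat_lit 24) (nat_lit 4) (nat_lit 467) (nat_lit 419) (nat_lit 314)) (XT.lf (nat_lit 0) (nat_lit 97202575142) (nat_lit 152) (nat_lit 46207067419) (nat_lit 0) (nat_lit 42930630518) (nat_lit 22) (nat_lit 5) (nat_lit 24) (nat_lit 4) (nat_lit 22) (nat_lit 4) (nat_lit 468) (nat_lit 419) (nat_lit 313))))) (XT.nd (nat_lit 234) (nat_lit 76) (nat_lit 0) (XT.nd (nat_lit 78) (nat_lit 152) (nat_lit 0) (XT.lf (nat_lit 0) (nat_lit 53103429961) (nat_lit 76) (nat_lit 99143098540) (nat_lit 76) (nat_lit 44870001927) (nat_lit 21) (nat_lit 4) (nat_lit 22) (nat_lit 5) (nat_lit 22) (nat_lit 4) (nat_lit 469) (nat_lit 419) (nat_lit 312)) (XT.nd (nat_lit 78) (nat_lit 76) (nat_lit 0) (XT.lf (nat_lit 0) (nat_lit 4086065977) (nat_lit 152) (nat_lit 45775146036) (nat_lit 76) (nat_lit 158784502987) (nat_lit 20) (nat_lit 5) (nat_lit 22) (nat_lit 5) (nat_lit 21) (nat_lit 4) (nat_lit 470) (nat_lit 419) (nat_lit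 311)) (XT.lf (nat_lit 0) (nat_lit 56179952923) (nat_lit 152) (nat_lit 158767223227) (nat_lit 0) (nat_lit 5925183560) (nat_lit 19) (nat_lit 5) (nat_lit 21) (nat_lit 4) (nat_lit 19) (nat_lit 4) (nat_lit 471) (nat_lit 419) (nat_lit 310)))) (XT.nd (nat_lit 78) (nat_lit 76) (nat_lit 0) (XT.lf (nat_lit 0) (nat_lit 115018485143) (nat_lit 152) (nat_lit 54089611144) (nat_lit 0) (nat_lit 64762869034) (nat_lit 19) (nat_lit 5) (nat_lit 21) (nat_lit 4) (nat_lit 19) (nat_lit 4) (nat_lit 472) (nat_lit 419) (nat_lit 309)) (XT.nd (nat_lit 78) (nat_lit 0) (nat_lit 0) (XT.lf (nat_lit 0) (nat_lit 62063048530) (nat_lit 76) (nat_lit 117991776518) (nat_lit 76) (nat_lit 67735376386) (nat_lit 18) (nat_lit 4) (nat_lit 19) (nat_lit 5) (nat_lit 19) (nat_lit 4) (nat_lit 473) (nat_lit 419) (nat_lit 308)) (XT.lf (nat_lit 0) (nat_lit 190580335038) (nat_lit 76) (nat_lit 61190801205) (nat_lit 76) (nat_lit 10933675125) (nat_lit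 18) (nat_lit 4) (nat_lit 19) (nat_lit 5) (nat_lit 19) (nat_lit 4) (nat_lit 474) (nat_lit 419) (nat_lit 307)))))) (XT.nd (nat_lit 468) (nat_lit 228) (nat_lit 0) (XT.nd (nat_lit 234) (nat_lit 152) (nat_lit 0) (XT.nd (nat_lit 78) (nat_lit 76) (nat_lit 0) (XT.lf (nat_lit 0) (nat_lit 49205580813) (nat_lit 152) (nat_lit 226734214678) (nat_lit 0) (nat_lit 2670582429) (nat_lit 16) (nat_lit 5) (nat_lit 18) (nat_lit 4) (nat_lit 16) (nat_lit 4) (nat_lit 475) (nat_lit 419) (nat_lit 306)) (XT.nd (nat_lit 78) (nat_lit 76) (nat_lit 0) (XT.lf (nat_lit 0) (nat_lit 117176133834) (nat_lit 152) (nat_lit 107660108792) (nat_lit 0) (nat_lit 70640559170) (nat_lit 16) (nat_lit 5) (nat_lit 18) (nat_lit 4) (nat_lit 16) (nat_lit 4) (nat_lit 476) (nat_lit 419) (nat_lit 305)) (XT.lf (nat_lit 0) (nat_lit 22039141724) (nat_lit 76) (nat_lit 169073616013) (nat_lit 76) (nat_lit 122537507755) (nat_lit 15) (nat_lit 4) (nat_lit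 16) (nat_lit 5) (nat_lit 16) (nat_lit 4) (nat_lit 477) (nat_lit 419) (nat_lit 304)))) (XT.nd (nat_lit 78) (nat_lit 152) (nat_lit 0) (XT.lf (nat_lit 0) (nat_lit 168233869905) (nat_lit 76) (nat_lit 105672487537) (nat_lit 76) (nat_lit 59135885211) (nat_lit 15) (nat_lit 4) (nat_lit 16) (nat_lit 5) (nat_lit 16) (nat_lit 4) (nat_lit 478) (nat_lit 419) (nat_lit 303)) (XT.nd (nat_lit 78) (nat_lit 76) (nat_lit 0) (XT.lf (nat_lit 0) (nat_lit 8869255544) (nat_lit 152) (nat_lit 28089008263) (nat_lit 76) (nat_lit 317009467631) (nat_lit 14) (nat_lit 5) (nat_lit 16) (nat_lit 5) (nat_lit 15) (nat_lit 4) (nat_lit 479) (nat_lit 419) (nat_lit 302)) (XT.lf (nat_lit 0) (nat_lit 83120041408) (nat_lit 152) (nat_lit 252974550559) (nat_lit 0) (nat_lit 40029779019) (nat_lit 13) (nat_lit 5) (nat_lit 15) (nat_lit 4) (nat_lit 13) (nat_lit 4) (nat_lit 480) (nat_lit 419) (nat_lit 301))))) (XT.nd (nat_lit 234) (nat_lit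 152) (nat_lit 0) (XT.nd (nat_lit 78) (nat_lit 76) (nat_lit 0) (XT.lf (nat_lit 0) (nat_lit 165057416693) (nat_lit 152) (nat_lit 112889611760) (nat_lit 0) (nat_lit 121966791149) (nat_lit 13) (nat_lit 5) (nat_lit 15) (nat_lit 4) (nat_lit 13) (nat_lit 4) (nat_lit 481) (nat_lit 419) (nat_lit 300)) (XT.nd (nat_lit 78) (nat_lit 0) (nat_lit 0) (XT.lf (nat_lit 0) (nat_lit 40421571480) (nat_lit 76) (nat_lit 214099072737) (nat_lit 76) (nat_lit 171008110940) (nat_lit 12) (nat_lit 4) (nat_lit 13) (nat_lit 5) (nat_lit 13) (nat_lit 4) (nat_lit 482) (nat_lit 419) (nat_lit 299)) (XT.lf (nat_lit 0) (nat_lit 212415246112) (nat_lit 76) (nat_lit 141811041981) (nat_lit 76) (nat_lit 98719768837) (nat_lit 12) (nat_lit 4) (nat_lit 13) (nat_lit 5) (nat_lit 13) (nat_lit 4) (nat_lit 483) (nat_lit 419) (nat_lit 298)))) (XT.nd (nat_lit 78) (nat_lit 152) (nat_lit 0) (XT.lf (nat_lit 0) (nat_lit 398166067012) (nat_lit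 76) (nat_lit 63741164712) (nat_lit 76) (nat_lit 20649603284) (nat_lit 12) (nat_lit 4) (nat_lit 13) (nat_lit 5) (nat_lit 13) (nat_lit 4) (nat_lit 484) (nat_lit 419) (nat_lit 297)) (XT.nd (nat_lit 78) (nat_lit 0) (nat_lit 0) (XT.lf (nat_lit 0) (nat_lit 63163032939) (nat_lit 152) (nat_lit 427773220913) (nat_lit 0) (nat_lit 23263191867) (nat_lit 10) (nat_lit 5) (nat_lit 12) (nat_lit 4) (nat_lit 10) (nat_lit 4) (nat_lit 485) (nat_lit 419) (nat_lit 296)) (XT.lf (nat_lit 0) (nat_lit 156586913136) (nat_lit 152) (nat_lit 274735052846) (nat_lit 0) (nat_lit 116686843215) (nat_lit 10) (nat_lit 5) (nat_lit 12) (nat_lit 4) (nat_lit 10) (nat_lit 4) (nat_lit 486) (nat_lit 419) (nat_lit 295))))))))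
noncomputable def xc143 : XT := (XT.nd (nat_lit 1794) (nat_lit 76) (nat_lit 0) (XT.nd (nat_lit 858) (nat_lit 152) (nat_lit 0) (XT.nd (nat_lit 390) (nat_lit 152) (nat_lit 0) (XT.nd (nat_lit 156) (nat_lit 76) (nat_lit 0) (XT.nd (nat_lit 78) (nat_lit 76) (nat_lit 0) (XT.lf (nat_lit 0) (nat_lit 257483692543) (nat_lit 152) (nat_lit 109455899400) (nat_lit 0) (nat_lit 217583410724) (nat_lit 10) (nat_lit 5) (nat_lit 12) (nat_lit 4) (nat_lit 10) (nat_lit 4) (nat_lit 487) (nat_lit 419) (nat_lit 294)) (XT.lf (nat_lit 0) (nat_lit 72679388829) (nat_lit 76) (nat_lit 295519830221) (nat_lit 76) (nat_lit 255619352201) (nat_lit 9) (nat_lit 4) (nat_lit 10) (nat_lit 5) (nat_lit 10) (nat_lit 4) (nat_lit 488) (nat_lit 419) (nat_lit 293))) (XT.nd (nat_lit 78) (nat_lit 76) (nat_lit 0) (XT.lf (nat_lit 0) (nat_lit 275608487704) (nat_lit 76) (nat_lit 215155306402) (nat_lit 76) (nat_lit 175254646715) (nat_lit 9) (nat_lit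 4) (nat_lit 10) (nat_lit 5) (nat_lit 10) (nat_lit 4) (nat_lit 489) (nat_lit 419) (nat_lit 292)) (XT.nd (nat_lit 78) (nat_lit 76) (nat_lit 0) (XT.lf (nat_lit 0) (nat_lit 494770186345) (nat_lit 76) (nat_lit 128362504534) (nat_lit 76) (nat_lit 88461676636) (nat_lit 9) (nat_lit 4) (nat_lit 10) (nat_lit 5) (nat_lit 10) (nat_lit 4) (nat_lit 490) (nat_lit 419) (nat_lit 291)) (XT.lf (nat_lit 0) (nat_lit 5010065572) (nat_lit 152) (nat_lit 29480047259) (nat_lit 76) (nat_lit 726316171098) (nat_lit 8) (nat_lit 5) (nat_lit 10) (nat_lit 5) (nat_lit 9) (nat_lit 4) (nat_lit 491) (nat_lit 419) (nat_lit 290))))) (XT.nd (nat_lit 234) (nat_lit 76) (nat_lit 0) (XT.nd (nat_lit 78) (nat_lit 0) (nat_lit 0) (XT.lf (nat_lit 0) (nat_lit 107277926343) (nat_lit 152) (nat_lit 635673164676) (nat_lit 0) (nat_lit 70332437581) (nat_lit 7) (nat_lit 5) (nat_lit 9) (nat_lit 4) (nat_lit 7) (nat_lit 4) (nat_lit 492) (nat_lit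 419) (nat_lit 289)) (XT.nd (nat_lit 78) (nat_lit 0) (nat_lit 0) (XT.lf (nat_lit 0) (nat_lit 219449294274) (nat_lit 152) (nat_lit 467868210445) (nat_lit 0) (nat_lit 182503681872) (nat_lit 7) (nat_lit 5) (nat_lit 9) (nat_lit 4) (nat_lit 7) (nat_lit 4) (nat_lit 493) (nat_lit 419) (nat_lit 288)) (XT.lf (nat_lit 0) (nat_lit 340593685025) (nat_lit 152) (nat_lit 286640268993) (nat_lit 0) (nat_lit 303647958142) (nat_lit 7) (nat_lit 5) (nat_lit 9) (nat_lit 4) (nat_lit 7) (nat_lit 4) (nat_lit 494) (nat_lit 419) (nat_lit 287)))) (XT.nd (nat_lit 78) (nat_lit 76) (nat_lit 0) (XT.lf (nat_lit 0) (nat_lit 471428991283) (nat_lit 152) (nat_lit 90915396961) (nat_lit 0) (nat_lit 434483158399) (nat_lit 7) (nat_lit 5) (nat_lit 9) (nat_lit 4) (nat_lit 7) (nat_lit 4) (nat_lit 495) (nat_lit 419) (nat_lit 286)) (XT.nd (nat_lit 78) (nat_lit 0) (nat_lit 0) (XT.lf (nat_lit 0) (nat_lit 126809796338) (nat_lit 76) (nat_lit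 488970515695) (nat_lit 76) (nat_lit 452024584661) (nat_lit 6) (nat_lit 4) (nat_lit 7) (nat_lit 5) (nat_lit 7) (nat_lit 4) (nat_lit 496) (nat_lit 419) (nat_lit 285)) (XT.lf (nat_lit 0) (nat_lit 367122266779) (nat_lit 76) (nat_lit 407042686357) (nat_lit 76) (nat_lit 370096664444) (nat_lit 6) (nat_lit 4) (nat_lit 7) (nat_lit 5) (nat_lit 7) (nat_lit 4) (nat_lit 497) (nat_lit 419) (nat_lit 284)))))) (XT.nd (nat_lit 468) (nat_lit 0) (nat_lit 0) (XT.nd (nat_lit 234) (nat_lit 152) (nat_lit 0) (XT.nd (nat_lit 78) (nat_lit 0) (nat_lit 0) (XT.lf (nat_lit 0) (nat_lit 626658644573) (nat_lit 76) (nat_lit 318561190052) (nat_lit 76) (nat_lit 281615083991) (nat_lit 6) (nat_lit 4) (nat_lit 7) (nat_lit 5) (nat_lit 7) (nat_lit 4) (nat_lit 498) (nat_lit 419) (nat_lit 283)) (XT.nd (nat_lit 78) (nat_lit 0) (nat_lit 0) (XT.lf (nat_lit 0) (nat_lit 906956923070) (nat_lit 76) (nat_lit 223001691986) (nat_lit 76) (nat_lit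 186055508012) (nat_lit 6) (nat_lit 4) (nat_lit 7) (nat_lit 5) (nat_lit 7) (nat_lit 4) (nat_lit 499) (nat_lit 419) (nat_lit 282)) (XT.lf (nat_lit 0) (nat_lit 1209678129104) (nat_lit 76) (nat_lit 119797913654) (nat_lit 76) (nat_lit 82851657537) (nat_lit 6) (nat_lit 4) (nat_lit 7) (nat_lit 5) (nat_lit 7) (nat_lit 4) (nat_lit 500) (nat_lit 419) (nat_lit 281)))) (XT.nd (nat_lit 78) (nat_lit 0) (nat_lit 0) (XT.lf (nat_lit 0) (nat_lit 20612884472) (nat_lit 76) (nat_lit 7059811387) (nat_lit 152) (nat_lit 1488579000398) (nat_lit 4) (nat_lit 5) (nat_lit 5) (nat_lit 5) (nat_lit 6) (nat_lit 4) (nat_lit 501) (nat_lit 419) (nat_lit 280)) (XT.nd (nat_lit 78) (nat_lit 0) (nat_lit 0) (XT.lf (nat_lit 0) (nat_lit 151005613152) (nat_lit 152) (nat_lit 1359840421263) (nat_lit 0) (nat_lit 116795997627) (nat_lit 4) (nat_lit 5) (nat_lit 6) (nat_lit 4) (nat_lit 4) (nat_lit 4) (nat_lit 502) (nat_lit 419) (nat_lit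 279)) (XT.lf (nat_lit 0) (nat_lit 284388135659) (nat_lit 152) (nat_lit 1213362354182) (nat_lit 0) (nat_lit 250178467107) (nat_lit 4) (nat_lit 5) (nat_lit 6) (nat_lit 4) (nat_lit 4) (nat_lit 4) (nat_lit 503) (nat_lit 419) (nat_lit 278))))) (XT.nd (nat_lit 234) (nat_lit 0) (nat_lit 0) (XT.nd (nat_lit 78) (nat_lit 0) (nat_lit 0) (XT.lf (nat_lit 0) (nat_lit 428440889694) (nat_lit 152) (nat_lit 1055166803733) (nat_lit 0) (nat_lit 394231172043) (nat_lit 4) (nat_lit 5) (nat_lit 6) (nat_lit 4) (nat_lit 4) (nat_lit 4) (nat_lit 504) (nat_lit 419) (nat_lit 277)) (XT.nd (nat_lit 78) (nat_lit 0) (nat_lit 0) (XT.lf (nat_lit 0) (nat_lit 584017521209) (nat_lit 152) (nat_lit 884316314803) (nat_lit 0) (nat_lit 549807758095) (nat_lit 4) (nat_lit 5) (nat_lit 6) (nat_lit 4) (nat_lit 4) (nat_lit 4) (nat_lit 505) (nat_lit 419) (nat_lit 276)) (XT.lf (nat_lit 0) (nat_lit 752039965796) (nat_lit 152) (nat_lit 699798440050)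 (nat_lit 0) (nat_lit 717830160588) (nat_lit 4) (nat_lit 5) (nat_lit 6) (nat_lit 4) (nat_lit 4) (nat_lit 4) (nat_lit 506) (nat_lit 419) (nat_lit 275)))) (XT.nd (nat_lit 78) (nat_lit 0) (nat_lit 0) (XT.lf (nat_lit 0) (nat_lit 933503912017) (nat_lit 152) (nat_lit 500519740216) (nat_lit 0) (nat_lit 899294067832) (nat_lit 4) (nat_lit 5) (nat_lit 6) (nat_lit 4) (nat_lit 4) (nat_lit 4) (nat_lit 507) (nat_lit 419) (nat_lit 274)) (XT.nd (nat_lit 78) (nat_lit 0) (nat_lit 0) (XT.lf (nat_lit 0) (nat_lit 1129484701775) (nat_lit 152) (nat_lit 285299304487) (nat_lit 0) (nat_lit 1095274821501) (nat_lit 4) (nat_lit 5) (nat_lit 6) (nat_lit 4) (nat_lit 4) (nat_lit 4) (nat_lit 508) (nat_lit 419) (nat_lit 273)) (XT.lf (nat_lit 0) (nat_lit 1341143702712) (nat_lit 152) (nat_lit 52861752503) (nat_lit 0) (nat_lit 1306933789023) (nat_lit 4) (nat_lit 5) (nat_lit 6) (nat_lit 4) (nat_lit 4) (nat_lit 4) (nat_lit 509)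 (nat_lit 419) (nat_lit 272))))))) (XT.nd (nat_lit 936) (nat_lit 0) (nat_lit 0) (XT.nd (nat_lit 468) (nat_lit 0) (nat_lit 0) (XT.nd (nat_lit 234) (nat_lit 0) (nat_lit 0) (XT.nd (nat_lit 78) (nat_lit 0) (nat_lit 0) (XT.lf (nat_lit 0) (nat_lit 208605621494) (nat_lit 76) (nat_lit 1366146539110) (nat_lit 76) (nat_lit 1331936594480) (nat_lit 3) (nat_lit 4) (nat_lit 4) (nat_lit 5) (nat_lit 4) (nat_lit 4) (nat_lit 510) (nat_lit 419) (nat_lit 271)) (XT.nd (nat_lit 78) (nat_lit 0) (nat_lit 0) (XT.lf (nat_lit 0) (nat_lit 493996212086) (nat_lit 76) (nat_lit 1334498189730) (nat_lit 76) (nat_lit 1300288216450) (nat_lit 3) (nat_lit 4) (nat_lit 4) (nat_lit 5) (nat_lit 4) (nat_lit 4) (nat_lit 511) (nat_lit 419) (nat_lit 270)) (XT.lf (nat_lit 0) (nat_lit 802217616561) (nat_lit 76) (nat_lit 1300318195293) (nat_lit 76) (nat_lit 1266108195486) (nat_lit 3) (nat_lit 4) (nat_lit 4) (nat_lit 5) (nat_lit 4) (nat_lit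 4) (nat_lit 512) (nat_lit 419) (nat_lit 269)))) (XT.nd (nat_lit 78) (nat_lit 0) (nat_lit 0) (XT.lf (nat_lit 0) (nat_lit 1135096332133) (nat_lit 76) (nat_lit 1263404007684) (nat_lit 76) (nat_lit 1229193983316) (nat_lit 3) (nat_lit 4) (nat_lit 4) (nat_lit 5) (nat_lit 4) (nat_lit 4) (nat_lit 513) (nat_lit 419) (nat_lit 268)) (XT.nd (nat_lit 78) (nat_lit 0) (nat_lit 0) (XT.lf (nat_lit 0) (nat_lit 1494604973412) (nat_lit 76) (nat_lit 1223536876163) (nat_lit 76) (nat_lit 1189326829052) (nat_lit 3) (nat_lit 4) (nat_lit 4) (nat_lit 5) (nat_lit 4) (nat_lit 4) (nat_lit 514) (nat_lit 419) (nat_lit 267)) (XT.lf (nat_lit 0) (nat_lit 1882873961976) (nat_lit 76) (nat_lit 1180480551061) (nat_lit 76) (nat_lit 1146270482892) (nat_lit 3) (nat_lit 4) (nat_lit 4) (nat_lit 5) (nat_lit 4) (nat_lit 4) (nat_lit 515) (nat_lit 419) (nat_lit 266))))) (XT.nd (nat_lit 234) (nat_lit 0) (nat_lit 0) (XT.nd (nat_lit 78)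 (nat_lit 0) (nat_lit 0) (XT.lf (nat_lit 0) (nat_lit 2302204151090) (nat_lit 76) (nat_lit 1133979883784) (nat_lit 76) (nat_lit 1099769796118) (nat_lit 3) (nat_lit 4) (nat_lit 4) (nat_lit 5) (nat_lit 4) (nat_lit 4) (nat_lit 516) (nat_lit 419) (nat_lit 265)) (XT.nd (nat_lit 78) (nat_lit 0) (nat_lit 0) (XT.lf (nat_lit 0) (nat_lit 2755080460394) (nat_lit 76) (nat_lit 1083759314823) (nat_lit 76) (nat_lit 1049549209104) (nat_lit 3) (nat_lit 4) (nat_lit 4) (nat_lit 5) (nat_lit 4) (nat_lit 4) (nat_lit 517) (nat_lit 419) (nat_lit 264)) (XT.lf (nat_lit 0) (nat_lit 3244186601350) (nat_lit 76) (nat_lit 1029521240807) (nat_lit 76) (nat_lit 995311118371) (nat_lit 3) (nat_lit 4) (nat_lit 4) (nat_lit 5) (nat_lit 4) (nat_lit 4) (nat_lit 518) (nat_lit 419) (nat_lit 263)))) (XT.nd (nat_lit 78) (nat_lit 0) (nat_lit 0) (XT.lf (nat_lit 0) (nat_lit 3772420980720) (nat_lit 76) (nat_lit 970944250926) (nat_lit 76)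 (nat_lit 936734113012) (nat_lit 3) (nat_lit 4) (nat_lit 4) (nat_lit 5) (nat_lit 4) (nat_lit 4) (nat_lit 519) (nat_lit 419) (nat_lit 262)) (XT.nd (nat_lit 78) (nat_lit 0) (nat_lit 0) (XT.lf (nat_lit 0) (nat_lit 4342913876306) (nat_lit 76) (nat_lit 907681222277) (nat_lit 76) (nat_lit 873471070032) (nat_lit 3) (nat_lit 4) (nat_lit 4) (nat_lit 5) (nat_lit 4) (nat_lit 4) (nat_lit 520) (nat_lit 419) (nat_lit 261)) (XT.lf (nat_lit 0) (nat_lit 4959045986751) (nat_lit 76) (nat_lit 839357262839) (nat_lit 76) (nat_lit 805147097324) (nat_lit 3) (nat_lit 4) (nat_lit 4) (nat_lit 5) (nat_lit 4) (nat_lit 4) (nat_lit 521) (nat_lit 419) (nat_lit 260)))))) (XT.nd (nat_lit 468) (nat_lit 0) (nat_lit 0) (XT.nd (nat_lit 234) (nat_lit 0) (nat_lit 0) (XT.nd (nat_lit 78) (nat_lit 0) (nat_lit 0) (XT.lf (nat_lit 0) (nat_lit 5624468465300) (nat_lit 76) (nat_lit 765567489890) (nat_lit 76) (nat_lit 731357312087) (nat_lit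 3) (nat_lit 4) (nat_lit 4) (nat_lit 5) (nat_lit 4) (nat_lit 4) (nat_lit 522) (nat_lit 419) (nat_lit 259)) (XT.nd (nat_lit 78) (nat_lit 0) (nat_lit 0) (XT.lf (nat_lit 0) (nat_lit 6343124556271) (nat_lit 76) (nat_lit 685874630699) (nat_lit 76) (nat_lit 651664441519) (nat_lit 3) (nat_lit 4) (nat_lit 4) (nat_lit 5) (nat_lit 4) (nat_lit 4) (nat_lit 523) (nat_lit 419) (nat_lit 258)) (XT.lf (nat_lit 0) (nat_lit 7119272962425) (nat_lit 76) (nat_lit 599806431288) (nat_lit 76) (nat_lit 565596231574) (nat_lit 3) (nat_lit 4) (nat_lit 4) (nat_lit 5) (nat_lit 4) (nat_lit 4) (nat_lit 524) (nat_lit 419) (nat_lit 257)))) (XT.nd (nat_lit 78) (nat_lit 0) (nat_lit 0) (XT.lf (nat_lit 0) (nat_lit 7957513081725) (nat_lit 76) (nat_lit 506852857882) (nat_lit 76) (nat_lit 472642648414) (nat_lit 3) (nat_lit 4) (nat_lit 4) (nat_lit 5) (nat_lit 4) (nat_lit 4) (nat_lit 525) (nat_lit 419) (nat_lit 256)) (XT.nd (nat_lit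 78) (nat_lit 0) (nat_lit 0) (XT.lf (nat_lit 0) (nat_lit 8862812263026) (nat_lit 76) (nat_lit 406463074489) (nat_lit 76) (nat_lit 372252855990) (nat_lit 3) (nat_lit 4) (nat_lit 4) (nat_lit 5) (nat_lit 4) (nat_lit 4) (nat_lit 526) (nat_lit 419) (nat_lit 255)) (XT.lf (nat_lit 0) (nat_lit 9840535242217) (nat_lit 76) (nat_lit 298042178692) (nat_lit 76) (nat_lit 263831951830) (nat_lit 3) (nat_lit 4) (nat_lit 4) (nat_lit 5) (nat_lit 4) (nat_lit 4) (nat_lit 527) (nat_lit 419) (nat_lit 254))))) (XT.nd (nat_lit 54210) (nat_lit 0) (nat_lit 5776) (XT.nd (nat_lit 54054) (nat_lit 0) (nat_lit 5700) (XT.lf (nat_lit 0) (nat_lit 10896475933248) (nat_lit 76) (nat_lit 180947676290) (nat_lit 76) (nat_lit 146737441686) (nat_lit 3) (nat_lit 4) (nat_lit 4) (nat_lit 5) (nat_lit 4) (nat_lit 4) (nat_lit 528) (nat_lit 419) (nat_lit 253)) (XT.nd (nat_lit 78) (nat_lit 0) (nat_lit 0) (XT.lf (nat_lit 0) (nat_lit 8257307021)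 (nat_lit 532) (nat_lit 635014147) (nat_lit 532) (nat_lit 635014147) (nat_lit 78) (nat_lit 3) (nat_lit 85) (nat_lit 3) (nat_lit 85) (nat_lit 5) (nat_lit 420) (nat_lit 420) (nat_lit 360)) (XT.lf (nat_lit 76) (nat_lit 8572371600) (nat_lit 0) (nat_lit 8980839983) (nat_lit 532) (nat_lit 2233335767) (nat_lit 79) (nat_lit 5) (nat_lit 78) (nat_lit 3) (nat_lit 85) (nat_lit 5) (nat_lit 421) (nat_lit 420) (nat_lit 359)))) (XT.nd (nat_lit 78) (nat_lit 0) (nat_lit 0) (XT.lf (nat_lit 0) (nat_lit 18705960365) (nat_lit 456) (nat_lit 1324749731) (nat_lit 532) (nat_lit 543785944) (nat_lit 79) (nat_lit 5) (nat_lit 85) (nat_lit 5) (nat_lit 86) (nat_lit 5) (nat_lit 422) (nat_lit 420) (nat_lit 358)) (XT.nd (nat_lit 78) (nat_lit 0) (nat_lit 0) (XT.lf (nat_lit 76) (nat_lit 9591865462) (nat_lit 0) (nat_lit 10807049988) (nat_lit 532) (nat_lit 990732659) (nat_lit 80) (nat_lit 5) (nat_lit 79) (nat_lit 5) (nat_lit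 86) (nat_lit 5) (nat_lit 423) (nat_lit 420) (nat_lit 357)) (XT.lf (nat_lit 76) (nat_lit 21446895605) (nat_lit 0) (nat_lit 801601696) (nat_lit 532) (nat_lit 19825741) (nat_lit 80) (nat_lit 5) (nat_lit 79) (nat_lit 5) (nat_lit 86) (nat_lit 5) (nat_lit 424) (nat_lit 420) (nat_lit 356))))))))
noncomputable def xc144 : XT := (XT.nd (nat_lit 1794) (nat_lit 1596) (nat_lit 0) (XT.nd (nat_lit 858) (nat_lit 1064) (nat_lit 0) (XT.nd (nat_lit 390) (nat_lit 912) (nat_lit 0) (XT.nd (nat_lit 156) (nat_lit 380) (nat_lit 0) (XT.nd (nat_lit 78) (nat_lit 0) (nat_lit 0) (XT.lf (nat_lit 0) (nat_lit 1490013639) (nat_lit 532) (nat_lit 11865580323) (nat_lit 608) (nat_lit 9818705977) (nat_lit 73) (nat_lit 5) (nat_lit 80) (nat_lit 5) (nat_lit 81) (nat_lit 5) (nat_lit 425) (nat_lit 420) (nat_lit 355)) (XT.lf (nat_lit 76) (nat_lit 286279555) (nat_lit 0) (nat_lit 2870655349) (nat_lit 608) (nat_lit 20992794320) (nat_lit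 74) (nat_lit 5) (nat_lit 73) (nat_lit 5) (nat_lit 81) (nat_lit 5) (nat_lit 426) (nat_lit 420) (nat_lit 354))) (XT.nd (nat_lit 78) (nat_lit 456) (nat_lit 0) (XT.lf (nat_lit 0) (nat_lit 5480749114) (nat_lit 532) (nat_lit 11315802406) (nat_lit 76) (nat_lit 8364762550) (nat_lit 74) (nat_lit 5) (nat_lit 81) (nat_lit 5) (nat_lit 75) (nat_lit 5) (nat_lit 427) (nat_lit 420) (nat_lit 353)) (XT.nd (nat_lit 78) (nat_lit 0) (nat_lit 0) (XT.lf (nat_lit 0) (nat_lit 2263261155) (nat_lit 456) (nat_lit 5844525209) (nat_lit 532) (nat_lit 18136657937) (nat_lit 68) (nat_lit 5) (nat_lit 74) (nat_lit 5) (nat_lit 75) (nat_lit 5) (nat_lit 428) (nat_lit 420) (nat_lit 352)) (XT.lf (nat_lit 0) (nat_lit 11395261144) (nat_lit 532) (nat_lit 9980894657) (nat_lit 76) (nat_lit 6002050921) (nat_lit 68) (nat_lit 5) (nat_lit 75) (nat_lit 5) (nat_lit 69) (nat_lit 5) (nat_lit 429) (nat_lit 420) (nat_lit 351))))) (XT.nd (nat_lit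 234) (nat_lit 456) (nat_lit 0) (XT.nd (nat_lit 78) (nat_lit 228) (nat_lit 0) (XT.lf (nat_lit 0) (nat_lit 5238877908) (nat_lit 228) (nat_lit 9974413470) (nat_lit 304) (nat_lit 13367977616) (nat_lit 65) (nat_lit 5) (nat_lit 68) (nat_lit 5) (nat_lit 69) (nat_lit 5) (nat_lit 430) (nat_lit 420) (nat_lit 350)) (XT.nd (nat_lit 78) (nat_lit 228) (nat_lit 0) (XT.lf (nat_lit 0) (nat_lit 19663254829) (nat_lit 304) (nat_lit 7689535229) (nat_lit 76) (nat_lit 2501670129) (nat_lit 65) (nat_lit 5) (nat_lit 69) (nat_lit 5) (nat_lit 66) (nat_lit 5) (nat_lit 431) (nat_lit 420) (nat_lit 349)) (XT.lf (nat_lit 0) (nat_lit 9417098582) (nat_lit 228) (nat_lit 15528639625) (nat_lit 304) (nat_lit 6245649602) (nat_lit 62) (nat_lit 5) (nat_lit 65) (nat_lit 5) (nat_lit 66) (nat_lit 5) (nat_lit 432) (nat_lit 420) (nat_lit 348)))) (XT.nd (nat_lit 78) (nat_lit 456) (nat_lit 0) (XT.lf (nat_lit 0) (nat_lit 28319382245) (nat_lit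 228) (nat_lit 2533073361) (nat_lit 304) (nat_lit 1766685951) (nat_lit 62) (nat_lit 5) (nat_lit 65) (nat_lit 5) (nat_lit 66) (nat_lit 5) (nat_lit 433) (nat_lit 420) (nat_lit 347)) (XT.nd (nat_lit 78) (nat_lit 228) (nat_lit 0) (XT.lf (nat_lit 0) (nat_lit 3563651626) (nat_lit 228) (nat_lit 19162570434) (nat_lit 76) (nat_lit 11377255234) (nat_lit 59) (nat_lit 5) (nat_lit 62) (nat_lit 5) (nat_lit 60) (nat_lit 5) (nat_lit 434) (nat_lit 420) (nat_lit 346)) (XT.lf (nat_lit 0) (nat_lit 150807892) (nat_lit 228) (nat_lit 9256348301) (nat_lit 304) (nat_lit 26281159888) (nat_lit 56) (nat_lit 5) (nat_lit 59) (nat_lit 5) (nat_lit 60) (nat_lit 5) (nat_lit 435) (nat_lit 420) (nat_lit 345)))))) (XT.nd (nat_lit 468) (nat_lit 532) (nat_lit 0) (XT.nd (nat_lit 234) (nat_lit 380) (nat_lit 0) (XT.nd (nat_lit 78) (nat_lit 152) (nat_lit 0) (XT.lf (nat_lit 0) (nat_lit 16375373016) (nat_lit 304) (nat_lit 15410327158)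 (nat_lit 76) (nat_lit 5561665261) (nat_lit 56) (nat_lit 5) (nat_lit 60) (nat_lit 5) (nat_lit 57) (nat_lit 5) (nat_lit 436) (nat_lit 420) (nat_lit 344)) (XT.nd (nat_lit 78) (nat_lit 0) (nat_lit 0) (XT.lf (nat_lit 0) (nat_lit 6396890154) (nat_lit 152) (nat_lit 17891420551) (nat_lit 228) (nat_lit 14819848820) (nat_lit 54) (nat_lit 5) (nat_lit 56) (nat_lit 5) (nat_lit 57) (nat_lit 5) (nat_lit 437) (nat_lit 420) (nat_lit 343)) (XT.lf (nat_lit 0) (nat_lit 30815617762) (nat_lit 152) (nat_lit 2433296167) (nat_lit 228) (nat_lit 7727734498) (nat_lit 54) (nat_lit 5) (nat_lit 56) (nat_lit 5) (nat_lit 57) (nat_lit 5) (nat_lit 438) (nat_lit 420) (nat_lit 342)))) (XT.nd (nat_lit 78) (nat_lit 152) (nat_lit 0) (XT.lf (nat_lit 0) (nat_lit 640124688) (nat_lit 228) (nat_lit 28385974437) (nat_lit 76) (nat_lit 13912253195) (nat_lit 51) (nat_lit 5) (nat_lit 54) (nat_lit 5) (nat_lit 52) (nat_lit 5) (nat_lit 439)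 (nat_lit 420) (nat_lit 341)) (XT.nd (nat_lit 78) (nat_lit 152) (nat_lit 0) (XT.lf (nat_lit 0) (nat_lit 9601965822) (nat_lit 228) (nat_lit 3494476779) (nat_lit 76) (nat_lit 31917129536) (nat_lit 51) (nat_lit 5) (nat_lit 54) (nat_lit 5) (nat_lit 52) (nat_lit 5) (nat_lit 440) (nat_lit 420) (nat_lit 340)) (XT.lf (nat_lit 0) (nat_lit 19981009075) (nat_lit 228) (nat_lit 22711142147) (nat_lit 76) (nat_lit 4506639203) (nat_lit 49) (nat_lit 5) (nat_lit 52) (nat_lit 5) (nat_lit 50) (nat_lit 5) (nat_lit 441) (nat_lit 420) (nat_lit 339))))) (XT.nd (nat_lit 234) (nat_lit 228) (nat_lit 0) (XT.nd (nat_lit 78) (nat_lit 152) (nat_lit 0) (XT.lf (nat_lit 0) (nat_lit 5268010330) (nat_lit 152) (nat_lit 26481679442) (nat_lit 228) (nat_lit 17764392463) (nat_lit 47) (nat_lit 5) (nat_lit 49) (nat_lit 5) (nat_lit 50) (nat_lit 5) (nat_lit 442) (nat_lit 420) (nat_lit 338)) (XT.nd (nat_lit 78) (nat_lit 152) (nat_lit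 0) (XT.lf (nat_lit 0) (nat_lit 36768557001) (nat_lit 152) (nat_lit 8306902417) (nat_lit 228) (nat_lit 6889891500) (nat_lit 47) (nat_lit 5) (nat_lit 49) (nat_lit 5) (nat_lit 50) (nat_lit 5) (nat_lit 443) (nat_lit 420) (nat_lit 337)) (XT.lf (nat_lit 0) (nat_lit 5298794956) (nat_lit 152) (nat_lit 37960345515) (nat_lit 76) (nat_lit 11289275708) (nat_lit 45) (nat_lit 5) (nat_lit 47) (nat_lit 5) (nat_lit 46) (nat_lit 5) (nat_lit 444) (nat_lit 420) (nat_lit 336)))) (XT.nd (nat_lit 78) (nat_lit 228) (nat_lit 0) (XT.lf (nat_lit 0) (nat_lit 18727418459) (nat_lit 152) (nat_lit 5938712019) (nat_lit 76) (nat_lit 32606714372) (nat_lit 45) (nat_lit 5) (nat_lit 47) (nat_lit 5) (nat_lit 46) (nat_lit 5) (nat_lit 445) (nat_lit 420) (nat_lit 335)) (XT.nd (nat_lit 78) (nat_lit 76) (nat_lit 0) (XT.lf (nat_lit 0) (nat_lit 30144947504) (nat_lit 152) (nat_lit 3805752398) (nat_lit 228) (nat_lit 26206899269) (nat_lit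 43) (nat_lit 5) (nat_lit 45) (nat_lit 5) (nat_lit 46) (nat_lit 5) (nat_lit 446) (nat_lit 420) (nat_lit 334)) (XT.lf (nat_lit 0) (nat_lit 6032375371) (nat_lit 76) (nat_lit 45116910001) (nat_lit 152) (nat_lit 12063253886) (nat_lit 42) (nat_lit 5) (nat_lit 43) (nat_lit 5) (nat_lit 44) (nat_lit 4) (nat_lit 447) (nat_lit 420) (nat_lit 333))))))) (XT.nd (nat_lit 858) (nat_lit 760) (nat_lit 0) (XT.nd (nat_lit 390) (nat_lit 304) (nat_lit 0) (XT.nd (nat_lit 156) (nat_lit 304) (nat_lit 0) (XT.nd (nat_lit 78) (nat_lit 152) (nat_lit 0) (XT.lf (nat_lit 0) (nat_lit 3987485634) (nat_lit 152) (nat_lit 19983594382) (nat_lit 76) (nat_lit 42459713590) (nat_lit 41) (nat_lit 5) (nat_lit 43) (nat_lit 5) (nat_lit 42) (nat_lit 5) (nat_lit 448) (nat_lit 420) (nat_lit 332)) (XT.lf (nat_lit 0) (nat_lit 20914361222) (nat_lit 152) (nat_lit 255027398) (nat_lit 228) (nat_lit 48672147099) (nat_lit 39) (nat_lit 5) (nat_lit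 41) (nat_lit 5) (nat_lit 42) (nat_lit 5) (nat_lit 449) (nat_lit 420) (nat_lit 331))) (XT.nd (nat_lit 78) (nat_lit 304) (nat_lit 0) (XT.lf (nat_lit 0) (nat_lit 40892198706) (nat_lit 228) (nat_lit 7892143566) (nat_lit 76) (nat_lit 24647487088) (nat_lit 39) (nat_lit 5) (nat_lit 42) (nat_lit 5) (nat_lit 40) (nat_lit 4) (nat_lit 450) (nat_lit 420) (nat_lit 330)) (XT.nd (nat_lit 78) (nat_lit 228) (nat_lit 0) (XT.lf (nat_lit 0) (nat_lit 38329718420) (nat_lit 76) (nat_lit 24787781172) (nat_lit 152) (nat_lit 14117874125) (nat_lit 38) (nat_lit 5) (nat_lit 39) (nat_lit 5) (nat_lit 40) (nat_lit 4) (nat_lit 451) (nat_lit 420) (nat_lit 329)) (XT.lf (nat_lit 0) (nat_lit 5930213603) (nat_lit 228) (nat_lit 73740103446) (nat_lit 76) (nat_lit 1626439986) (nat_lit 35) (nat_lit 5) (nat_lit 38) (nat_lit 5) (nat_lit 36) (nat_lit 4) (nat_lit 452) (nat_lit 420) (nat_lit 328))))) (XT.nd (nat_lit 234) (nat_lit 228)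 (nat_lit 0) (XT.nd (nat_lit 78) (nat_lit 76) (nat_lit 0) (XT.lf (nat_lit 0) (nat_lit 28550920516) (nat_lit 228) (nat_lit 26694402435) (nat_lit 76) (nat_lit 30269872302) (nat_lit 35) (nat_lit 5) (nat_lit 38) (nat_lit 5) (nat_lit 36) (nat_lit 4) (nat_lit 453) (nat_lit 420) (nat_lit 327)) (XT.nd (nat_lit 78) (nat_lit 0) (nat_lit 0) (XT.lf (nat_lit 0) (nat_lit 25378147078) (nat_lit 76) (nat_lit 28210043221) (nat_lit 152) (nat_lit 36434366094) (nat_lit 34) (nat_lit 5) (nat_lit 35) (nat_lit 5) (nat_lit 36) (nat_lit 4) (nat_lit 454) (nat_lit 420) (nat_lit 326)) (XT.lf (nat_lit 0) (nat_lit 81397634085) (nat_lit 152) (nat_lit 11746566271) (nat_lit 0) (nat_lit 1684771018) (nat_lit 34) (nat_lit 5) (nat_lit 36) (nat_lit 4) (nat_lit 34) (nat_lit 4) (nat_lit 455) (nat_lit 420) (nat_lit 325)))) (XT.nd (nat_lit 78) (nat_lit 76) (nat_lit 0) (XT.lf (nat_lit 0) (nat_lit 12749189328) (nat_lit 152) (nat_lit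 53198495907) (nat_lit 76) (nat_lit 33897607898) (nat_lit 32) (nat_lit 5) (nat_lit 34) (nat_lit 5) (nat_lit 33) (nat_lit 4) (nat_lit 456) (nat_lit 420) (nat_lit 324)) (XT.nd (nat_lit 78) (nat_lit 0) (nat_lit 0) (XT.lf (nat_lit 0) (nat_lit 5030994644) (nat_lit 76) (nat_lit 35714898940) (nat_lit 152) (nat_lit 64453327922) (nat_lit 31) (nat_lit 5) (nat_lit 32) (nat_lit 5) (nat_lit 33) (nat_lit 4) (nat_lit 457) (nat_lit 420) (nat_lit 323)) (XT.lf (nat_lit 0) (nat_lit 70938531015) (nat_lit 76) (nat_lit 1495304868) (nat_lit 152) (nat_lit 38431508382) (nat_lit 31) (nat_lit 5) (nat_lit 32) (nat_lit 5) (nat_lit 33) (nat_lit 4) (nat_lit 458) (nat_lit 420) (nat_lit 322)))))) (XT.nd (nat_lit 468) (nat_lit 304) (nat_lit 0) (XT.nd (nat_lit 234) (nat_lit 228) (nat_lit 0) (XT.nd (nat_lit 78) (nat_lit 152) (nat_lit 0) (XT.lf (nat_lit 0) (nat_lit 25553865542) (nat_lit 76) (nat_lit 82567502745) (nat_lit 76)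 (nat_lit 8746224414) (nat_lit 30) (nat_lit 4) (nat_lit 31) (nat_lit 5) (nat_lit 31) (nat_lit 4) (nat_lit 459) (nat_lit 420) (nat_lit 321)) (XT.nd (nat_lit 78) (nat_lit 76) (nat_lit 0) (XT.lf (nat_lit 0) (nat_lit 23303627966) (nat_lit 152) (nat_lit 25352418180) (nat_lit 76) (nat_lit 74556639071) (nat_lit 29) (nat_lit 5) (nat_lit 31) (nat_lit 5) (nat_lit 30) (nat_lit 4) (nat_lit 460) (nat_lit 420) (nat_lit 320)) (XT.lf (nat_lit 0) (nat_lit 48057553324) (nat_lit 76) (nat_lit 10540525873) (nat_lit 152) (nat_lit 71356881435) (nat_lit 28) (nat_lit 5) (nat_lit 29) (nat_lit 5) (nat_lit 30) (nat_lit 4) (nat_lit 461) (nat_lit 420) (nat_lit 319)))) (XT.nd (nat_lit 78) (nat_lit 228) (nat_lit 0) (XT.lf (nat_lit 0) (nat_lit 98161152666) (nat_lit 152) (nat_lit 9158665256) (nat_lit 0) (nat_lit 29801195039) (nat_lit 28) (nat_lit 5) (nat_lit 30) (nat_lit 4) (nat_lit 28) (nat_lit 4) (nat_lit 462) (nat_lit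 420) (nat_lit 318)) (XT.nd (nat_lit 78) (nat_lit 152) (nat_lit 0) (XT.lf (nat_lit 0) (nat_lit 72760426437) (nat_lit 76) (nat_lit 70150078257) (nat_lit 76) (nat_lit 1788146325) (nat_lit 27) (nat_lit 4) (nat_lit 28) (nat_lit 5) (nat_lit 28) (nat_lit 4) (nat_lit 463) (nat_lit 420) (nat_lit 317)) (XT.lf (nat_lit 0) (nat_lit 8376730416) (nat_lit 76) (nat_lit 28517736126) (nat_lit 152) (nat_lit 115877758229) (nat_lit 25) (nat_lit 5) (nat_lit 26) (nat_lit 5) (nat_lit 27) (nat_lit 4) (nat_lit 464) (nat_lit 420) (nat_lit 316))))) (XT.nd (nat_lit 234) (nat_lit 152) (nat_lit 0) (XT.nd (nat_lit 78) (nat_lit 152) (nat_lit 0) (XT.lf (nat_lit 0) (nat_lit 80986181360) (nat_lit 152) (nat_lit 62624063295) (nat_lit 0) (nat_lit 17684836322) (nat_lit 25) (nat_lit 5) (nat_lit 27) (nat_lit 4) (nat_lit 25) (nat_lit 4) (nat_lit 465) (nat_lit 420) (nat_lit 315)) (XT.nd (nat_lit 78) (nat_lit 76) (nat_lit 0) (XT.lf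 (nat_lit 0) (nat_lit 26257455642) (nat_lit 76) (nat_lit 103717754127) (nat_lit 76) (nat_lit 40414957917) (nat_lit 24) (nat_lit 4) (nat_lit 25) (nat_lit 5) (nat_lit 25) (nat_lit 4) (nat_lit 466) (nat_lit 420) (nat_lit 314)) (XT.lf (nat_lit 0) (nat_lit 4291406159) (nat_lit 152) (nat_lit 54378015078) (nat_lit 76) (nat_lit 121397942452) (nat_lit 23) (nat_lit 5) (nat_lit 25) (nat_lit 5) (nat_lit 24) (nat_lit 4) (nat_lit 467) (nat_lit 420) (nat_lit 313)))) (XT.nd (nat_lit 78) (nat_lit 76) (nat_lit 0) (XT.lf (nat_lit 0) (nat_lit 43688715747) (nat_lit 76) (nat_lit 7750755302) (nat_lit 152) (nat_lit 138911393348) (nat_lit 22) (nat_lit 5) (nat_lit 23) (nat_lit 5) (nat_lit 24) (nat_lit 4) (nat_lit 468) (nat_lit 420) (nat_lit 312)) (XT.nd (nat_lit 78) (nat_lit 76) (nat_lit 0) (XT.lf (nat_lit 0) (nat_lit 105018891366) (nat_lit 152) (nat_lit 49823664684) (nat_lit 0) (nat_lit 46401728380) (nat_lit 22)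 (nat_lit 5) (nat_lit 24) (nat_lit 4) (nat_lit 22) (nat_lit 4) (nat_lit 469) (nat_lit 420) (nat_lit 311)) (XT.lf (nat_lit 0) (nat_lit 57429647976) (nat_lit 76) (nat_lit 107035616436) (nat_lit 76) (nat_lit 48417465806) (nat_lit 21) (nat_lit 4) (nat_lit 22) (nat_lit 5) (nat_lit 22) (nat_lit 4) (nat_lit 470) (nat_lit 420) (nat_lit 310))))))))
noncomputable def xc145 : XT := (XT.nd (nat_lit 1794) (nat_lit 304) (nat_lit 0) (XT.nd (nat_lit 858) (nat_lit 456) (nat_lit 0) (XT.nd (nat_lit 390) (nat_lit 380) (nat_lit 0) (XT.nd (nat_lit 156) (nat_lit 76) (nat_lit 0) (XT.nd (nat_lit 78) (nat_lit 76) (nat_lit 0) (XT.lf (nat_lit 0) (nat_lit 4450014632) (nat_lit 152) (nat_lit 49363034678) (nat_lit 76) (nat_lit 171521356487) (nat_lit 20) (nat_lit 5) (nat_lit 22) (nat_lit 5) (nat_lit 21) (nat_lit 4) (nat_lit 471) (nat_lit 420) (nat_lit 309)) (XT.lf (nat_lit 0) (nat_lit 60711275024) (nat_lit 152) (nat_lit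 171394339303) (nat_lit 0) (nat_lit 6433578857) (nat_lit 19) (nat_lit 5) (nat_lit 21) (nat_lit 4) (nat_lit 19) (nat_lit 4) (nat_lit 472) (nat_lit 420) (nat_lit 308))) (XT.nd (nat_lit 78) (nat_lit 76) (nat_lit 0) (XT.lf (nat_lit 0) (nat_lit 124254154572) (nat_lit 152) (nat_lit 58348019125) (nat_lit 0) (nat_lit 69975732458) (nat_lit 19) (nat_lit 5) (nat_lit 21) (nat_lit 4) (nat_lit 19) (nat_lit 4) (nat_lit 473) (nat_lit 420) (nat_lit 307)) (XT.nd (nat_lit 78) (nat_lit 0) (nat_lit 0) (XT.lf (nat_lit 0) (nat_lit 67095112540) (nat_lit 76) (nat_lit 127397368328) (nat_lit 76) (nat_lit 73118274039) (nat_lit 18) (nat_lit 4) (nat_lit 19) (nat_lit 5) (nat_lit 19) (nat_lit 4) (nat_lit 474) (nat_lit 420) (nat_lit 306)) (XT.lf (nat_lit 0) (nat_lit 205888817515) (nat_lit 76) (nat_lit 66054815013) (nat_lit 76) (nat_lit 11775098341) (nat_lit 18) (nat_lit 4) (nat_lit 19) (nat_lit 5) (nat_lit 19) (nat_lit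 4) (nat_lit 475) (nat_lit 420) (nat_lit 305))))) (XT.nd (nat_lit 234) (nat_lit 152) (nat_lit 0) (XT.nd (nat_lit 78) (nat_lit 76) (nat_lit 0) (XT.lf (nat_lit 0) (nat_lit 53173540146) (nat_lit 152) (nat_lit 244809136507) (nat_lit 0) (nat_lit 2914009634) (nat_lit 16) (nat_lit 5) (nat_lit 18) (nat_lit 4) (nat_lit 16) (nat_lit 4) (nat_lit 476) (nat_lit 420) (nat_lit 304)) (XT.nd (nat_lit 78) (nat_lit 76) (nat_lit 0) (XT.lf (nat_lit 0) (nat_lit 126579403122) (nat_lit 152) (nat_lit 116213829212) (nat_lit 0) (nat_lit 76319378542) (nat_lit 16) (nat_lit 5) (nat_lit 18) (nat_lit 4) (nat_lit 16) (nat_lit 4) (nat_lit 477) (nat_lit 420) (nat_lit 303)) (XT.lf (nat_lit 0) (nat_lit 23859865439) (nat_lit 76) (nat_lit 182570315220) (nat_lit 76) (nat_lit 132309833169) (nat_lit 15) (nat_lit 4) (nat_lit 16) (nat_lit 5) (nat_lit 16) (nat_lit 4) (nat_lit 478) (nat_lit 420) (nat_lit 302)))) (XT.nd (nat_lit 78)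 (nat_lit 152) (nat_lit 0) (XT.lf (nat_lit 0) (nat_lit 181745905772) (nat_lit 76) (nat_lit 114099258693) (nat_lit 76) (nat_lit 63838353059) (nat_lit 15) (nat_lit 4) (nat_lit 16) (nat_lit 5) (nat_lit 16) (nat_lit 4) (nat_lit 479) (nat_lit 420) (nat_lit 301)) (XT.nd (nat_lit 78) (nat_lit 76) (nat_lit 0) (XT.lf (nat_lit 0) (nat_lit 9603779448) (nat_lit 152) (nat_lit 30285436588) (nat_lit 76) (nat_lit 342393934670) (nat_lit 14) (nat_lit 5) (nat_lit 16) (nat_lit 5) (nat_lit 15) (nat_lit 4) (nat_lit 480) (nat_lit 420) (nat_lit 300)) (XT.lf (nat_lit 0) (nat_lit 89794569205) (nat_lit 152) (nat_lit 273161762763) (nat_lit 0) (nat_lit 43255994209) (nat_lit 13) (nat_lit 5) (nat_lit 15) (nat_lit 4) (nat_lit 13) (nat_lit 4) (nat_lit 481) (nat_lit 420) (nat_lit 299)))))) (XT.nd (nat_lit 468) (nat_lit 228) (nat_lit 0) (XT.nd (nat_lit 234) (nat_lit 152) (nat_lit 0) (XT.nd (nat_lit 78) (nat_lit 76) (nat_lit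 0) (XT.lf (nat_lit 0) (nat_lit 178285088255) (nat_lit 152) (nat_lit 121873788256) (nat_lit 0) (nat_lit 131746201912) (nat_lit 13) (nat_lit 5) (nat_lit 15) (nat_lit 4) (nat_lit 13) (nat_lit 4) (nat_lit 482) (nat_lit 420) (nat_lit 298)) (XT.nd (nat_lit 78) (nat_lit 0) (nat_lit 0) (XT.lf (nat_lit 0) (nat_lit 43701099961) (nat_lit 76) (nat_lit 231203666079) (nat_lit 76) (nat_lit 184664491453) (nat_lit 12) (nat_lit 4) (nat_lit 13) (nat_lit 5) (nat_lit 13) (nat_lit 4) (nat_lit 483) (nat_lit 420) (nat_lit 297)) (XT.lf (nat_lit 0) (nat_lit 229450875766) (nat_lit 76) (nat_lit 153134321194) (nat_lit 76) (nat_lit 106594879639) (nat_lit 12) (nat_lit 4) (nat_lit 13) (nat_lit 5) (nat_lit 13) (nat_lit 4) (nat_lit 484) (nat_lit 420) (nat_lit 296)))) (XT.nd (nat_lit 78) (nat_lit 152) (nat_lit 0) (XT.lf (nat_lit 0) (nat_lit 430058620859) (nat_lit 76) (nat_lit 68820454051) (nat_lit 76) (nat_lit 22280765338)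 (nat_lit 12) (nat_lit 4) (nat_lit 13) (nat_lit 5) (nat_lit 13) (nat_lit 4) (nat_lit 485) (nat_lit 420) (nat_lit 295)) (XT.nd (nat_lit 78) (nat_lit 0) (nat_lit 0) (XT.lf (nat_lit 0) (nat_lit 68235803807) (nat_lit 152) (nat_lit 461954731430) (nat_lit 0) (nat_lit 25143287546) (nat_lit 10) (nat_lit 5) (nat_lit 12) (nat_lit 4) (nat_lit 10) (nat_lit 4) (nat_lit 486) (nat_lit 420) (nat_lit 294)) (XT.lf (nat_lit 0) (nat_lit 169132133069) (nat_lit 152) (nat_lit 296676498597) (nat_lit 0) (nat_lit 126039420607) (nat_lit 10) (nat_lit 5) (nat_lit 12) (nat_lit 4) (nat_lit 10) (nat_lit 4) (nat_lit 487) (nat_lit 420) (nat_lit 293))))) (XT.nd (nat_lit 234) (nat_lit 152) (nat_lit 0) (XT.nd (nat_lit 78) (nat_lit 76) (nat_lit 0) (XT.lf (nat_lit 0) (nat_lit 278099301726) (nat_lit 152) (nat_lit 118177780170) (nat_lit 0) (nat_lit 235006407597) (nat_lit 10) (nat_lit 5) (nat_lit 12) (nat_lit 4) (nat_lit 10) (nat_lit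 4) (nat_lit 488) (nat_lit 420) (nat_lit 292)) (XT.nd (nat_lit 78) (nat_lit 0) (nat_lit 0) (XT.lf (nat_lit 0) (nat_lit 78527455391) (nat_lit 76) (nat_lit 319144172947) (nat_lit 76) (nat_lit 276051110607) (nat_lit 9) (nat_lit 4) (nat_lit 10) (nat_lit 5) (nat_lit 10) (nat_lit 4) (nat_lit 489) (nat_lit 420) (nat_lit 291)) (XT.lf (nat_lit 0) (nat_lit 297688384736) (nat_lit 76) (nat_lit 232351764534) (nat_lit 76) (nat_lit 189258546442) (nat_lit 9) (nat_lit 4) (nat_lit 10) (nat_lit 5) (nat_lit 10) (nat_lit 4) (nat_lit 490) (nat_lit 420) (nat_lit 290)))) (XT.nd (nat_lit 78) (nat_lit 152) (nat_lit 0) (XT.lf (nat_lit 0) (nat_lit 534380706822) (nat_lit 76) (nat_lit 138616721211) (nat_lit 76) (nat_lit 95523358906) (nat_lit 9) (nat_lit 4) (nat_lit 10) (nat_lit 5) (nat_lit 10) (nat_lit 4) (nat_lit 491) (nat_lit 420) (nat_lit 289)) (XT.nd (nat_lit 78) (nat_lit 76) (nat_lit 0) (XT.lf (nat_lit 0) (nat_lit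 5424286467) (nat_lit 152) (nat_lit 31810979984) (nat_lit 76) (nat_lit 784434446745) (nat_lit 8) (nat_lit 5) (nat_lit 10) (nat_lit 5) (nat_lit 9) (nat_lit 4) (nat_lit 492) (nat_lit 420) (nat_lit 288)) (XT.lf (nat_lit 0) (nat_lit 115873556021) (nat_lit 152) (nat_lit 686499526536) (nat_lit 0) (nat_lit 75972056505) (nat_lit 7) (nat_lit 5) (nat_lit 9) (nat_lit 4) (nat_lit 7) (nat_lit 4) (nat_lit 493) (nat_lit 420) (nat_lit 287))))))) (XT.nd (nat_lit 936) (nat_lit 76) (nat_lit 0) (XT.nd (nat_lit 468) (nat_lit 152) (nat_lit 0) (XT.nd (nat_lit 234) (nat_lit 76) (nat_lit 0) (XT.nd (nat_lit 78) (nat_lit 0) (nat_lit 0) (XT.lf (nat_lit 0) (nat_lit 237017641121) (nat_lit 152) (nat_lit 505272212361) (nat_lit 0) (nat_lit 197116035605) (nat_lit 7) (nat_lit 5) (nat_lit 9) (nat_lit 4) (nat_lit 7) (nat_lit 4) (nat_lit 494) (nat_lit 420) (nat_lit 286)) (XT.nd (nat_lit 78) (nat_lit 0) (nat_lit 0) (XT.lf (nat_lit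 0) (nat_lit 367852664370) (nat_lit 152) (nat_lit 309547921142) (nat_lit 0) (nat_lit 327950960704) (nat_lit 7) (nat_lit 5) (nat_lit 9) (nat_lit 4) (nat_lit 7) (nat_lit 4) (nat_lit 495) (nat_lit 420) (nat_lit 285)) (XT.lf (nat_lit 0) (nat_lit 509153944422) (nat_lit 152) (nat_lit 98166805227) (nat_lit 0) (nat_lit 469252149877) (nat_lit 7) (nat_lit 5) (nat_lit 9) (nat_lit 4) (nat_lit 7) (nat_lit 4) (nat_lit 496) (nat_lit 420) (nat_lit 284)))) (XT.nd (nat_lit 78) (nat_lit 0) (nat_lit 0) (XT.lf (nat_lit 0) (nat_lit 136975851043) (nat_lit 76) (nat_lit 528077243665) (nat_lit 76) (nat_lit 488175364972) (nat_lit 6) (nat_lit 4) (nat_lit 7) (nat_lit 5) (nat_lit 7) (nat_lit 4) (nat_lit 497) (nat_lit 420) (nat_lit 283)) (XT.nd (nat_lit 78) (nat_lit 0) (nat_lit 0) (XT.lf (nat_lit 0) (nat_lit 396511743490) (nat_lit 76) (nat_lit 439595996371) (nat_lit 76) (nat_lit 399694039765) (nat_lit 6) (nat_lit 4) (nat_lit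 7) (nat_lit 5) (nat_lit 7) (nat_lit 4) (nat_lit 498) (nat_lit 420) (nat_lit 282)) (XT.lf (nat_lit 0) (nat_lit 676809572592) (nat_lit 76) (nat_lit 344036728872) (nat_lit 76) (nat_lit 304134700123) (nat_lit 6) (nat_lit 4) (nat_lit 7) (nat_lit 5) (nat_lit 7) (nat_lit 4) (nat_lit 499) (nat_lit 420) (nat_lit 281))))) (XT.nd (nat_lit 234) (nat_lit 0) (nat_lit 0) (XT.nd (nat_lit 78) (nat_lit 152) (nat_lit 0) (XT.lf (nat_lit 0) (nat_lit 979530362519) (nat_lit 76) (nat_lit 240833164027) (nat_lit 76) (nat_lit 200931068479) (nat_lit 6) (nat_lit 4) (nat_lit 7) (nat_lit 5) (nat_lit 7) (nat_lit 4) (nat_lit 500) (nat_lit 420) (nat_lit 280)) (XT.nd (nat_lit 78) (nat_lit 152) (nat_lit 0) (XT.lf (nat_lit 0) (nat_lit 1306468014251) (nat_lit 76) (nat_lit 129373725156) (nat_lit 76) (nat_lit 89471567756) (nat_lit 6) (nat_lit 4) (nat_lit 7) (nat_lit 5) (nat_lit 7) (nat_lit 4) (nat_lit 501) (nat_lit 420) (nat_lit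 279)) (XT.lf (nat_lit 0) (nat_lit 22277555221) (nat_lit 76) (nat_lit 7616564917) (nat_lit 152) (nat_lit 1607657103046) (nat_lit 4) (nat_lit 5) (nat_lit 5) (nat_lit 5) (nat_lit 6) (nat_lit 4) (nat_lit 502) (nat_lit 420) (nat_lit 278)))) (XT.nd (nat_lit 78) (nat_lit 0) (nat_lit 0) (XT.lf (nat_lit 0) (nat_lit 163093286061) (nat_lit 152) (nat_lit 1468612788659) (nat_lit 0) (nat_lit 126146741899) (nat_lit 4) (nat_lit 5) (nat_lit 6) (nat_lit 4) (nat_lit 4) (nat_lit 4) (nat_lit 503) (nat_lit 420) (nat_lit 277)) (XT.nd (nat_lit 78) (nat_lit 0) (nat_lit 0) (XT.lf (nat_lit 0) (nat_lit 307145875268) (nat_lit 152) (nat_lit 1310417577420) (nat_lit 0) (nat_lit 270199285643) (nat_lit 4) (nat_lit 5) (nat_lit 6) (nat_lit 4) (nat_lit 4) (nat_lit 4) (nat_lit 504) (nat_lit 420) (nat_lit 276)) (XT.lf (nat_lit 0) (nat_lit 462722354163) (nat_lit 152) (nat_lit 1139567402572) (nat_lit 0) (nat_lit 425775722444)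 (nat_lit 4) (nat_lit 5) (nat_lit 6) (nat_lit 4) (nat_lit 4) (nat_lit 4) (nat_lit 505) (nat_lit 420) (nat_lit 275)))))) (XT.nd (nat_lit 468) (nat_lit 0) (nat_lit 0) (XT.nd (nat_lit 234) (nat_lit 76) (nat_lit 0) (XT.nd (nat_lit 78) (nat_lit 0) (nat_lit 0) (XT.lf (nat_lit 0) (nat_lit 630744657436) (nat_lit 152) (nat_lit 955049818636) (nat_lit 0) (nat_lit 593797986741) (nat_lit 4) (nat_lit 5) (nat_lit 6) (nat_lit 4) (nat_lit 4) (nat_lit 4) (nat_lit 506) (nat_lit 420) (nat_lit 274)) (XT.nd (nat_lit 78) (nat_lit 0) (nat_lit 0) (XT.lf (nat_lit 0) (nat_lit 812208472811) (nat_lit 152) (nat_lit 755771388076) (nat_lit 0) (nat_lit 775261766026) (nat_lit 4) (nat_lit 5) (nat_lit 6) (nat_lit 4) (nat_lit 4) (nat_lit 4) (nat_lit 507) (nat_lit 420) (nat_lit 273)) (XT.lf (nat_lit 0) (nat_lit 1008189141414) (nat_lit 152) (nat_lit 540551201676) (nat_lit 0) (nat_lit 971242401213) (nat_lit 4) (nat_lit 5) (nat_lit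 6) (nat_lit 4) (nat_lit 4) (nat_lit 4) (nat_lit 508) (nat_lit 420) (nat_lit 272)))) (XT.nd (nat_lit 78) (nat_lit 76) (nat_lit 0) (XT.lf (nat_lit 0) (nat_lit 1219848030172) (nat_lit 152) (nat_lit 308113880552) (nat_lit 0) (nat_lit 1182901259030) (nat_lit 4) (nat_lit 5) (nat_lit 6) (nat_lit 4) (nat_lit 4) (nat_lit 4) (nat_lit 509) (nat_lit 420) (nat_lit 271)) (XT.nd (nat_lit 78) (nat_lit 76) (nat_lit 0) (XT.lf (nat_lit 0) (nat_lit 1448439413981) (nat_lit 152) (nat_lit 57082018358) (nat_lit 0) (nat_lit 1411492614190) (nat_lit 4) (nat_lit 5) (nat_lit 6) (nat_lit 4) (nat_lit 4) (nat_lit 4) (nat_lit 510) (nat_lit 420) (nat_lit 270)) (XT.lf (nat_lit 0) (nat_lit 225302525956) (nat_lit 76) (nat_lit 1475433913659) (nat_lit 76) (nat_lit 1438487087341) (nat_lit 3) (nat_lit 4) (nat_lit 4) (nat_lit 5) (nat_lit 4) (nat_lit 4) (nat_lit 511) (nat_lit 420) (nat_lit 269))))) (XT.nd (nat_lit 234) (nat_lit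 0) (nat_lit 0) (XT.nd (nat_lit 78) (nat_lit 0) (nat_lit 0) (XT.lf (nat_lit 0) (nat_lit 533523737518) (nat_lit 76) (nat_lit 1441254018445) (nat_lit 76) (nat_lit 1404307167565) (nat_lit 3) (nat_lit 4) (nat_lit 4) (nat_lit 5) (nat_lit 4) (nat_lit 4) (nat_lit 512) (nat_lit 420) (nat_lit 268)) (XT.nd (nat_lit 78) (nat_lit 0) (nat_lit 0) (XT.lf (nat_lit 0) (nat_lit 866402274465) (nat_lit 76) (nat_lit 1404339922709) (nat_lit 76) (nat_lit 1367393049088) (nat_lit 3) (nat_lit 4) (nat_lit 4) (nat_lit 5) (nat_lit 4) (nat_lit 4) (nat_lit 513) (nat_lit 420) (nat_lit 267)) (XT.lf (nat_lit 0) (nat_lit 1225910750351) (nat_lit 76) (nat_lit 1364472876256) (nat_lit 76) (nat_lit 1327525981576) (nat_lit 3) (nat_lit 4) (nat_lit 4) (nat_lit 5) (nat_lit 4) (nat_lit 4) (nat_lit 514) (nat_lit 420) (nat_lit 266)))) (XT.nd (nat_lit 78) (nat_lit 0) (nat_lit 0) (XT.lf (nat_lit 0) (nat_lit 1614179585773) (nat_lit 76)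 (nat_lit 1321416629920) (nat_lit 76) (nat_lit 1284469715742) (nat_lit 3) (nat_lit 4) (nat_lit 4) (nat_lit 5) (nat_lit 4) (nat_lit 4) (nat_lit 515) (nat_lit 420) (nat_lit 265)) (XT.nd (nat_lit 78) (nat_lit 0) (nat_lit 0) (XT.lf (nat_lit 0) (nat_lit 2033509633090) (nat_lit 76) (nat_lit 1274916035575) (nat_lit 76) (nat_lit 1237969103344) (nat_lit 3) (nat_lit 4) (nat_lit 4) (nat_lit 5) (nat_lit 4) (nat_lit 4) (nat_lit 516) (nat_lit 420) (nat_lit 264)) (XT.lf (nat_lit 0) (nat_lit 2486385811099) (nat_lit 76) (nat_lit 1224695534144) (nat_lit 76) (nat_lit 1187748585196) (nat_lit 3) (nat_lit 4) (nat_lit 4) (nat_lit 5) (nat_lit 4) (nat_lit 4) (nat_lit 517) (nat_lit 420) (nat_lit 263))))))))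
noncomputable def xc146 : XT := (XT.nd (nat_lit 55848) (nat_lit 0) (nat_lit 2356) (XT.nd (nat_lit 54912) (nat_lit 0) (nat_lit 4712) (XT.nd (nat_lit 390) (nat_lit 0) (nat_lit 0) (XT.nd (nat_lit 156) (nat_lit 0) (nat_lit 0) (XT.nd (nat_lit 78) (nat_lit 0) (nat_lit 0) (XT.lf (nat_lit 0) (nat_lit 2975491830487) (nat_lit 76) (nat_lit 1170457522655) (nat_lit 76) (nat_lit 1133510558229) (nat_lit 3) (nat_lit 4) (nat_lit 4) (nat_lit 5) (nat_lit 4) (nat_lit 4) (nat_lit 518) (nat_lit 420) (nat_lit 262)) (XT.lf (nat_lit 0) (nat_lit 3503726097292) (nat_lit 76) (nat_lit 1111880590669) (nat_lit 76) (nat_lit 1074933611912) (nat_lit 3) (nat_lit 4) (nat_lit 4) (nat_lit 5) (nat_lit 4) (nat_lit 4) (nat_lit 519) (nat_lit 420) (nat_lit 261))) (XT.nd (nat_lit 78) (nat_lit 0) (nat_lit 0) (XT.lf (nat_lit 0) (nat_lit 4074218888653) (nat_lit 76) (nat_lit 1048617615627) (nat_lit 76) (nat_lit 1011670623600) (nat_lit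 3) (nat_lit 4) (nat_lit 4) (nat_lit 5) (nat_lit 4) (nat_lit 4) (nat_lit 520) (nat_lit 420) (nat_lit 260)) (XT.nd (nat_lit 78) (nat_lit 0) (nat_lit 0) (XT.lf (nat_lit 0) (nat_lit 4690350902592) (nat_lit 76) (nat_lit 980293705826) (nat_lit 76) (nat_lit 943346701511) (nat_lit 3) (nat_lit 4) (nat_lit 4) (nat_lit 5) (nat_lit 4) (nat_lit 4) (nat_lit 521) (nat_lit 420) (nat_lit 259)) (XT.lf (nat_lit 0) (nat_lit 5355773291785) (nat_lit 76) (nat_lit 906503978835) (nat_lit 76) (nat_lit 869556963144) (nat_lit 3) (nat_lit 4) (nat_lit 4) (nat_lit 5) (nat_lit 4) (nat_lit 4) (nat_lit 522) (nat_lit 420) (nat_lit 258))))) (XT.nd (nat_lit 234) (nat_lit 0) (nat_lit 0) (XT.nd (nat_lit 78) (nat_lit 0) (nat_lit 0) (XT.lf (nat_lit 0) (nat_lit 6074429300018) (nat_lit 76) (nat_lit 826811162200) (nat_lit 76) (nat_lit 789864135975) (nat_lit 3) (nat_lit 4) (nat_lit 4) (nat_lit 5) (nat_lit 4) (nat_lit 4) (nat_lit 523)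 (nat_lit 420) (nat_lit 257)) (XT.nd (nat_lit 78) (nat_lit 0) (nat_lit 0) (XT.lf (nat_lit 0) (nat_lit 6850577629563) (nat_lit 76) (nat_lit 740743002191) (nat_lit 76) (nat_lit 703795966212) (nat_lit 3) (nat_lit 4) (nat_lit 4) (nat_lit 5) (nat_lit 4) (nat_lit 4) (nat_lit 524) (nat_lit 420) (nat_lit 256)) (XT.lf (nat_lit 0) (nat_lit 7688817677929) (nat_lit 76) (nat_lit 647789465269) (nat_lit 76) (nat_lit 610842420259) (nat_lit 3) (nat_lit 4) (nat_lit 4) (nat_lit 5) (nat_lit 4) (nat_lit 4) (nat_lit 525) (nat_lit 420) (nat_lit 255)))) (XT.nd (nat_lit 78) (nat_lit 0) (nat_lit 0) (XT.lf (nat_lit 0) (nat_lit 8594116793550) (nat_lit 76) (nat_lit 547399715658) (nat_lit 76) (nat_lit 510452662286) (nat_lit 3) (nat_lit 4) (nat_lit 4) (nat_lit 5) (nat_lit 4) (nat_lit 4) (nat_lit 526) (nat_lit 420) (nat_lit 254)) (XT.nd (nat_lit 78) (nat_lit 0) (nat_lit 0) (XT.lf (nat_lit 0) (nat_lit 9571839711927) (nat_lit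 76) (nat_lit 438978851140) (nat_lit 76) (nat_lit 402031790024) (nat_lit 3) (nat_lit 4) (nat_lit 4) (nat_lit 5) (nat_lit 4) (nat_lit 4) (nat_lit 527) (nat_lit 420) (nat_lit 253)) (XT.lf (nat_lit 0) (nat_lit 10627780346648) (nat_lit 76) (nat_lit 321884377701) (nat_lit 76) (nat_lit 284937309416) (nat_lit 3) (nat_lit 4) (nat_lit 4) (nat_lit 5) (nat_lit 4) (nat_lit 4) (nat_lit 528) (nat_lit 420) (nat_lit 252)))))) (XT.nd (nat_lit 468) (nat_lit 532) (nat_lit 0) (XT.nd (nat_lit 234) (nat_lit 456) (nat_lit 0) (XT.nd (nat_lit 78) (nat_lit 0) (nat_lit 0) (XT.lf (nat_lit 0) (nat_lit 9085605889) (nat_lit 532) (nat_lit 595215849) (nat_lit 532) (nat_lit 595215849) (nat_lit 78) (nat_lit 3) (nat_lit 85) (nat_lit 3) (nat_lit 85) (nat_lit 5) (nat_lit 421) (nat_lit 421) (nat_lit 358)) (XT.nd (nat_lit 78) (nat_lit 0) (nat_lit 76) (XT.lf (nat_lit 76) (nat_lit 9434772875) (nat_lit 0) (nat_lit 9837525196) (nat_lit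 532) (nat_lit 2071861871) (nat_lit 79) (nat_lit 5) (nat_lit 78) (nat_lit 3) (nat_lit 85) (nat_lit 5) (nat_lit 422) (nat_lit 421) (nat_lit 357)) (XT.lf (nat_lit 0) (nat_lit 20490868133) (nat_lit 456) (nat_lit 1240686292) (nat_lit 532) (nat_lit 465711237) (nat_lit 79) (nat_lit 5) (nat_lit 85) (nat_lit 5) (nat_lit 86) (nat_lit 5) (nat_lit 423) (nat_lit 421) (nat_lit 356)))) (XT.nd (nat_lit 78) (nat_lit 532) (nat_lit 0) (XT.lf (nat_lit 76) (nat_lit 10544446890) (nat_lit 0) (nat_lit 11757902320) (nat_lit 532) (nat_lit 776642084) (nat_lit 80) (nat_lit 5) (nat_lit 79) (nat_lit 5) (nat_lit 86) (nat_lit 5) (nat_lit 424) (nat_lit 421) (nat_lit 355)) (XT.nd (nat_lit 78) (nat_lit 0) (nat_lit 76) (XT.lf (nat_lit 0) (nat_lit 237691409) (nat_lit 532) (nat_lit 701436122) (nat_lit 608) (nat_lit 23089968228) (nat_lit 72) (nat_lit 5) (nat_lit 79) (nat_lit 5) (nat_lit 80) (nat_lit 5) (nat_lit 425) (nat_lit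 421) (nat_lit 354)) (XT.lf (nat_lit 0) (nat_lit 1850965108) (nat_lit 532) (nat_lit 12613269507) (nat_lit 608) (nat_lit 10544584329) (nat_lit 73) (nat_lit 5) (nat_lit 80) (nat_lit 5) (nat_lit 81) (nat_lit 5) (nat_lit 426) (nat_lit 421) (nat_lit 353))))) (XT.nd (nat_lit 234) (nat_lit 228) (nat_lit 0) (XT.nd (nat_lit 78) (nat_lit 380) (nat_lit 0) (XT.lf (nat_lit 76) (nat_lit 505636446) (nat_lit 0) (nat_lit 3132420930) (nat_lit 608) (nat_lit 22425286107) (nat_lit 74) (nat_lit 5) (nat_lit 73) (nat_lit 5) (nat_lit 81) (nat_lit 5) (nat_lit 427) (nat_lit 421) (nat_lit 352)) (XT.nd (nat_lit 78) (nat_lit 456) (nat_lit 0) (XT.lf (nat_lit 0) (nat_lit 6130130669) (nat_lit 532) (nat_lit 12021445369) (nat_lit 76) (nat_lit 9005696589) (nat_lit 74) (nat_lit 5) (nat_lit 81) (nat_lit 5) (nat_lit 75) (nat_lit 5) (nat_lit 428) (nat_lit 421) (nat_lit 351)) (XT.lf (nat_lit 0) (nat_lit 2638889575) (nat_lit 456)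 (nat_lit 6317496855) (nat_lit 532) (nat_lit 19371547801) (nat_lit 68) (nat_lit 5) (nat_lit 74) (nat_lit 5) (nat_lit 75) (nat_lit 5) (nat_lit 429) (nat_lit 421) (nat_lit 350)))) (XT.nd (nat_lit 78) (nat_lit 228) (nat_lit 0) (XT.lf (nat_lit 0) (nat_lit 12491925605) (nat_lit 532) (nat_lit 10584215077) (nat_lit 76) (nat_lit 6477456645) (nat_lit 68) (nat_lit 5) (nat_lit 75) (nat_lit 5) (nat_lit 69) (nat_lit 5) (nat_lit 430) (nat_lit 421) (nat_lit 349)) (XT.nd (nat_lit 78) (nat_lit 0) (nat_lit 0) (XT.lf (nat_lit 0) (nat_lit 5848198758) (nat_lit 228) (nat_lit 10758067139) (nat_lit 304) (nat_lit 14247373899) (nat_lit 65) (nat_lit 5) (nat_lit 68) (nat_lit 5) (nat_lit 69) (nat_lit 5) (nat_lit 431) (nat_lit 421) (nat_lit 348)) (XT.lf (nat_lit 0) (nat_lit 21399514390) (nat_lit 304) (nat_lit 8115811535) (nat_lit 76) (nat_lit 2714381604) (nat_lit 65) (nat_lit 5) (nat_lit 69) (nat_lit 5) (nat_lit 66)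 (nat_lit 5) (nat_lit 432) (nat_lit 421) (nat_lit 347))))))) (XT.nd (nat_lit 936) (nat_lit 988) (nat_lit 0) (XT.nd (nat_lit 468) (nat_lit 532) (nat_lit 0) (XT.nd (nat_lit 234) (nat_lit 380) (nat_lit 0) (XT.nd (nat_lit 78) (nat_lit 228) (nat_lit 0) (XT.lf (nat_lit 0) (nat_lit 10354571044) (nat_lit 228) (nat_lit 16742364287) (nat_lit 304) (nat_lit 6577270886) (nat_lit 62) (nat_lit 5) (nat_lit 65) (nat_lit 5) (nat_lit 66) (nat_lit 5) (nat_lit 433) (nat_lit 421) (nat_lit 346)) (XT.nd (nat_lit 78) (nat_lit 228) (nat_lit 0) (XT.lf (nat_lit 0) (nat_lit 30755400024) (nat_lit 228) (nat_lit 2709268759) (nat_lit 304) (nat_lit 1752436861) (nat_lit 62) (nat_lit 5) (nat_lit 65) (nat_lit 5) (nat_lit 66) (nat_lit 5) (nat_lit 434) (nat_lit 421) (nat_lit 345)) (XT.lf (nat_lit 0) (nat_lit 3990563505) (nat_lit 228) (nat_lit 20511262799) (nat_lit 76) (nat_lit 12318544243) (nat_lit 59) (nat_lit 5) (nat_lit 62)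 (nat_lit 5) (nat_lit 60) (nat_lit 5) (nat_lit 435) (nat_lit 421) (nat_lit 344)))) (XT.nd (nat_lit 78) (nat_lit 152) (nat_lit 0) (XT.lf (nat_lit 0) (nat_lit 342519634) (nat_lit 228) (nat_lit 9952844153) (nat_lit 304) (nat_lit 28237130335) (nat_lit 56) (nat_lit 5) (nat_lit 59) (nat_lit 5) (nat_lit 60) (nat_lit 5) (nat_lit 436) (nat_lit 421) (nat_lit 343)) (XT.nd (nat_lit 78) (nat_lit 152) (nat_lit 0) (XT.lf (nat_lit 0) (nat_lit 17811970995) (nat_lit 304) (nat_lit 16467712714) (nat_lit 76) (nat_lit 6045311772) (nat_lit 56) (nat_lit 5) (nat_lit 60) (nat_lit 5) (nat_lit 57) (nat_lit 5) (nat_lit 437) (nat_lit 421) (nat_lit 342)) (XT.lf (nat_lit 0) (nat_lit 7079640449) (nat_lit 152) (nat_lit 19273040365) (nat_lit 228) (nat_lit 15874395813) (nat_lit 54) (nat_lit 5) (nat_lit 56) (nat_lit 5) (nat_lit 57) (nat_lit 5) (nat_lit 438) (nat_lit 421) (nat_lit 341))))) (XT.nd (nat_lit 234) (nat_lit 304)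 (nat_lit 0) (XT.nd (nat_lit 78) (nat_lit 228) (nat_lit 0) (XT.lf (nat_lit 0) (nat_lit 33439199667) (nat_lit 152) (nat_lit 2581947055) (nat_lit 228) (nat_lit 8224619081) (nat_lit 54) (nat_lit 5) (nat_lit 56) (nat_lit 5) (nat_lit 57) (nat_lit 5) (nat_lit 439) (nat_lit 421) (nat_lit 340)) (XT.nd (nat_lit 78) (nat_lit 0) (nat_lit 0) (XT.lf (nat_lit 0) (nat_lit 803110436) (nat_lit 228) (nat_lit 30488909922) (nat_lit 76) (nat_lit 15072433287) (nat_lit 51) (nat_lit 5) (nat_lit 54) (nat_lit 5) (nat_lit 52) (nat_lit 5) (nat_lit 440) (nat_lit 421) (nat_lit 339)) (XT.lf (nat_lit 0) (nat_lit 10473619174) (nat_lit 228) (nat_lit 3618532635) (nat_lit 76) (nat_lit 34514203451) (nat_lit 51) (nat_lit 5) (nat_lit 54) (nat_lit 5) (nat_lit 52) (nat_lit 5) (nat_lit 441) (nat_lit 421) (nat_lit 338)))) (XT.nd (nat_lit 78) (nat_lit 152) (nat_lit 0) (XT.lf (nat_lit 0) (nat_lit 21680217446) (nat_lit 228) (nat_lit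 24369741530) (nat_lit 76) (nat_lit 4916655210) (nat_lit 49) (nat_lit 5) (nat_lit 52) (nat_lit 5) (nat_lit 50) (nat_lit 5) (nat_lit 442) (nat_lit 421) (nat_lit 337)) (XT.nd (nat_lit 78) (nat_lit 0) (nat_lit 0) (XT.lf (nat_lit 0) (nat_lit 5843735752) (nat_lit 152) (nat_lit 28542906088) (nat_lit 228) (nat_lit 19080789137) (nat_lit 47) (nat_lit 5) (nat_lit 49) (nat_lit 5) (nat_lit 50) (nat_lit 5) (nat_lit 443) (nat_lit 421) (nat_lit 336)) (XT.lf (nat_lit 0) (nat_lit 39852897669) (nat_lit 152) (nat_lit 8918391917) (nat_lit 228) (nat_lit 7344087707) (nat_lit 47) (nat_lit 5) (nat_lit 49) (nat_lit 5) (nat_lit 50) (nat_lit 5) (nat_lit 444) (nat_lit 421) (nat_lit 335)))))) (XT.nd (nat_lit 468) (nat_lit 380) (nat_lit 0) (XT.nd (nat_lit 234) (nat_lit 304) (nat_lit 0) (XT.nd (nat_lit 78) (nat_lit 152) (nat_lit 0) (XT.lf (nat_lit 0) (nat_lit 5812806692) (nat_lit 152) (nat_lit 40847397569) (nat_lit 76)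 (nat_lit 12244860935) (nat_lit 45) (nat_lit 5) (nat_lit 47) (nat_lit 5) (nat_lit 46) (nat_lit 5) (nat_lit 445) (nat_lit 421) (nat_lit 334)) (XT.nd (nat_lit 78) (nat_lit 152) (nat_lit 0) (XT.lf (nat_lit 0) (nat_lit 20309045398) (nat_lit 152) (nat_lit 6275127881) (nat_lit 76) (nat_lit 35263810012) (nat_lit 45) (nat_lit 5) (nat_lit 47) (nat_lit 5) (nat_lit 46) (nat_lit 5) (nat_lit 446) (nat_lit 421) (nat_lit 333)) (XT.lf (nat_lit 0) (nat_lit 32691713490) (nat_lit 152) (nat_lit 4055546456) (nat_lit 228) (nat_lit 28216493437) (nat_lit 43) (nat_lit 5) (nat_lit 45) (nat_lit 5) (nat_lit 46) (nat_lit 5) (nat_lit 447) (nat_lit 421) (nat_lit 332)))) (XT.nd (nat_lit 78) (nat_lit 228) (nat_lit 0) (XT.lf (nat_lit 0) (nat_lit 6651722454) (nat_lit 76) (nat_lit 48668552881) (nat_lit 152) (nat_lit 12942930887) (nat_lit 42) (nat_lit 5) (nat_lit 43) (nat_lit 5) (nat_lit 44) (nat_lit 4) (nat_lit 448) (nat_lit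 421) (nat_lit 331)) (XT.nd (nat_lit 78) (nat_lit 152) (nat_lit 0) (XT.lf (nat_lit 0) (nat_lit 4381588273) (nat_lit 152) (nat_lit 21451689562) (nat_lit 76) (nat_lit 45905960320) (nat_lit 41) (nat_lit 5) (nat_lit 43) (nat_lit 5) (nat_lit 42) (nat_lit 5) (nat_lit 449) (nat_lit 421) (nat_lit 330)) (XT.lf (nat_lit 0) (nat_lit 22714796354) (nat_lit 152) (nat_lit 220745137) (nat_lit 228) (nat_lit 52487499096) (nat_lit 39) (nat_lit 5) (nat_lit 41) (nat_lit 5) (nat_lit 42) (nat_lit 5) (nat_lit 450) (nat_lit 421) (nat_lit 329))))) (XT.nd (nat_lit 234) (nat_lit 76) (nat_lit 0) (XT.nd (nat_lit 78) (nat_lit 304) (nat_lit 0) (XT.lf (nat_lit 0) (nat_lit 44232016217) (nat_lit 228) (nat_lit 8401488142) (nat_lit 76) (nat_lit 26667386902) (nat_lit 39) (nat_lit 5) (nat_lit 42) (nat_lit 5) (nat_lit 40) (nat_lit 4) (nat_lit 451) (nat_lit 421) (nat_lit 328)) (XT.nd (nat_lit 78) (nat_lit 228) (nat_lit 0) (XT.lf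 (nat_lit 0) (nat_lit 41515033514) (nat_lit 76) (nat_lit 26718098363) (nat_lit 152) (nat_lit 15175764709) (nat_lit 38) (nat_lit 5) (nat_lit 39) (nat_lit 5) (nat_lit 40) (nat_lit 4) (nat_lit 452) (nat_lit 421) (nat_lit 327)) (XT.lf (nat_lit 0) (nat_lit 6471718984) (nat_lit 228) (nat_lit 79515907992) (nat_lit 76) (nat_lit 1807496321) (nat_lit 35) (nat_lit 5) (nat_lit 38) (nat_lit 5) (nat_lit 36) (nat_lit 4) (nat_lit 453) (nat_lit 421) (nat_lit 326)))) (XT.nd (nat_lit 78) (nat_lit 76) (nat_lit 0) (XT.lf (nat_lit 0) (nat_lit 30897112947) (nat_lit 228) (nat_lit 28715691917) (nat_lit 76) (nat_lit 32738629804) (nat_lit 35) (nat_lit 5) (nat_lit 38) (nat_lit 5) (nat_lit 36) (nat_lit 4) (nat_lit 454) (nat_lit 421) (nat_lit 325)) (XT.nd (nat_lit 78) (nat_lit 0) (nat_lit 0) (XT.lf (nat_lit 0) (nat_lit 27519768830) (nat_lit 76) (nat_lit 30415672541) (nat_lit 152) (nat_lit 39284097659) (nat_lit 34) (nat_lit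 5) (nat_lit 35) (nat_lit 5) (nat_lit 36) (nat_lit 4) (nat_lit 455) (nat_lit 421) (nat_lit 324)) (XT.lf (nat_lit 0) (nat_lit 87966321282) (nat_lit 152) (nat_lit 12579846091) (nat_lit 0) (nat_lit 1864565848) (nat_lit 34) (nat_lit 5) (nat_lit 36) (nat_lit 4) (nat_lit 34) (nat_lit 4) (nat_lit 456) (nat_lit 421) (nat_lit 323))))))))
noncomputable def xc147 : XT := (XT.nd (nat_lit 1794) (nat_lit 836) (nat_lit 0) (XT.nd (nat_lit 858) (nat_lit 684) (nat_lit 0) (XT.nd (nat_lit 390) (nat_lit 380) (nat_lit 0) (XT.nd (nat_lit 156) (nat_lit 152) (nat_lit 0) (XT.nd (nat_lit 78) (nat_lit 76) (nat_lit 0) (XT.lf (nat_lit 0) (nat_lit 13825720824) (nat_lit 152) (nat_lit 57347639730) (nat_lit 76) (nat_lit 36655023395) (nat_lit 32) (nat_lit 5) (nat_lit 34) (nat_lit 5) (nat_lit 33) (nat_lit 4) (nat_lit 457) (nat_lit 421) (nat_lit 322)) (XT.lf (nat_lit 0) (nat_lit 5537507892) (nat_lit 76) (nat_lit 38522963219)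 (nat_lit 152) (nat_lit 69550291071) (nat_lit 31) (nat_lit 5) (nat_lit 32) (nat_lit 5) (nat_lit 33) (nat_lit 4) (nat_lit 458) (nat_lit 421) (nat_lit 321))) (XT.nd (nat_lit 78) (nat_lit 152) (nat_lit 0) (XT.lf (nat_lit 0) (nat_lit 76709940975) (nat_lit 76) (nat_lit 1569440705) (nat_lit 152) (nat_lit 41451118789) (nat_lit 31) (nat_lit 5) (nat_lit 32) (nat_lit 5) (nat_lit 33) (nat_lit 4) (nat_lit 459) (nat_lit 421) (nat_lit 320)) (XT.nd (nat_lit 78) (nat_lit 76) (nat_lit 0) (XT.lf (nat_lit 0) (nat_lit 27694965554) (nat_lit 76) (nat_lit 89126526060) (nat_lit 76) (nat_lit 9391471484) (nat_lit 30) (nat_lit 4) (nat_lit 31) (nat_lit 5) (nat_lit 31) (nat_lit 4) (nat_lit 460) (nat_lit 421) (nat_lit 319)) (XT.lf (nat_lit 0) (nat_lit 25215813601) (nat_lit 152) (nat_lit 27288465113) (nat_lit 76) (nat_lit 80561586337) (nat_lit 29) (nat_lit 5) (nat_lit 31) (nat_lit 5) (nat_lit 30) (nat_lit 4) (nat_lit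 461) (nat_lit 421) (nat_lit 318))))) (XT.nd (nat_lit 234) (nat_lit 228) (nat_lit 0) (XT.nd (nat_lit 78) (nat_lit 76) (nat_lit 0) (XT.lf (nat_lit 0) (nat_lit 51991971288) (nat_lit 76) (nat_lit 11340461857) (nat_lit 152) (nat_lit 77015200625) (nat_lit 28) (nat_lit 5) (nat_lit 29) (nat_lit 5) (nat_lit 30) (nat_lit 4) (nat_lit 462) (nat_lit 421) (nat_lit 317)) (XT.nd (nat_lit 78) (nat_lit 76) (nat_lit 0) (XT.lf (nat_lit 0) (nat_lit 106058071846) (nat_lit 152) (nat_lit 9805714125) (nat_lit 0) (nat_lit 32223382994) (nat_lit 28) (nat_lit 5) (nat_lit 30) (nat_lit 4) (nat_lit 28) (nat_lit 4) (nat_lit 463) (nat_lit 421) (nat_lit 316)) (XT.lf (nat_lit 0) (nat_lit 78664736692) (nat_lit 76) (nat_lit 75721381691) (nat_lit 76) (nat_lit 1885000191) (nat_lit 27) (nat_lit 4) (nat_lit 28) (nat_lit 5) (nat_lit 28) (nat_lit 4) (nat_lit 464) (nat_lit 421) (nat_lit 315)))) (XT.nd (nat_lit 78) (nat_lit 76) (nat_lit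 0) (XT.lf (nat_lit 0) (nat_lit 9130486568) (nat_lit 76) (nat_lit 30758184265) (nat_lit 152) (nat_lit 125101917880) (nat_lit 25) (nat_lit 5) (nat_lit 26) (nat_lit 5) (nat_lit 27) (nat_lit 4) (nat_lit 465) (nat_lit 421) (nat_lit 314)) (XT.nd (nat_lit 78) (nat_lit 76) (nat_lit 0) (XT.lf (nat_lit 0) (nat_lit 87505476161) (nat_lit 152) (nat_lit 67554315757) (nat_lit 0) (nat_lit 19135661402) (nat_lit 25) (nat_lit 5) (nat_lit 27) (nat_lit 4) (nat_lit 25) (nat_lit 4) (nat_lit 466) (nat_lit 421) (nat_lit 313)) (XT.lf (nat_lit 0) (nat_lit 28435707667) (nat_lit 76) (nat_lit 111976794180) (nat_lit 76) (nat_lit 43605735274) (nat_lit 24) (nat_lit 4) (nat_lit 25) (nat_lit 5) (nat_lit 25) (nat_lit 4) (nat_lit 467) (nat_lit 421) (nat_lit 312)))))) (XT.nd (nat_lit 468) (nat_lit 304) (nat_lit 0) (XT.nd (nat_lit 234) (nat_lit 228) (nat_lit 0) (XT.nd (nat_lit 78) (nat_lit 76) (nat_lit 0) (XT.lf (nat_lit 0)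 (nat_lit 4672030959) (nat_lit 152) (nat_lit 58654386497) (nat_lit 76) (nat_lit 131143348665) (nat_lit 23) (nat_lit 5) (nat_lit 25) (nat_lit 5) (nat_lit 24) (nat_lit 4) (nat_lit 468) (nat_lit 421) (nat_lit 311)) (XT.nd (nat_lit 78) (nat_lit 0) (nat_lit 0) (XT.lf (nat_lit 0) (nat_lit 47255812673) (nat_lit 76) (nat_lit 8335096087) (nat_lit 152) (nat_lit 149985120834) (nat_lit 22) (nat_lit 5) (nat_lit 23) (nat_lit 5) (nat_lit 24) (nat_lit 4) (nat_lit 469) (nat_lit 421) (nat_lit 310)) (XT.lf (nat_lit 0) (nat_lit 113454790717) (nat_lit 152) (nat_lit 53740998079) (nat_lit 0) (nat_lit 50145285908) (nat_lit 22) (nat_lit 5) (nat_lit 24) (nat_lit 4) (nat_lit 22) (nat_lit 4) (nat_lit 470) (nat_lit 421) (nat_lit 309)))) (XT.nd (nat_lit 78) (nat_lit 152) (nat_lit 0) (XT.lf (nat_lit 0) (nat_lit 62090843904) (nat_lit 76) (nat_lit 115565089562) (nat_lit 76) (nat_lit 52254738007) (nat_lit 21) (nat_lit 4)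 (nat_lit 22) (nat_lit 5) (nat_lit 22) (nat_lit 4) (nat_lit 471) (nat_lit 421) (nat_lit 308)) (XT.nd (nat_lit 78) (nat_lit 76) (nat_lit 0) (XT.lf (nat_lit 0) (nat_lit 4837791675) (nat_lit 152) (nat_lit 53248528893) (nat_lit 76) (nat_lit 185272294483) (nat_lit 20) (nat_lit 5) (nat_lit 22) (nat_lit 5) (nat_lit 21) (nat_lit 4) (nat_lit 472) (nat_lit 421) (nat_lit 307)) (XT.lf (nat_lit 0) (nat_lit 65599835006) (nat_lit 152) (nat_lit 185042218938) (nat_lit 0) (nat_lit 6977741000) (nat_lit 19) (nat_lit 5) (nat_lit 21) (nat_lit 4) (nat_lit 19) (nat_lit 4) (nat_lit 473) (nat_lit 421) (nat_lit 306))))) (XT.nd (nat_lit 234) (nat_lit 228) (nat_lit 0) (XT.nd (nat_lit 78) (nat_lit 76) (nat_lit 0) (XT.lf (nat_lit 0) (nat_lit 134223799882) (nat_lit 152) (nat_lit 62956909258) (nat_lit 0) (nat_lit 75601083493) (nat_lit 19) (nat_lit 5) (nat_lit 21) (nat_lit 4) (nat_lit 19) (nat_lit 4) (nat_lit 474) (nat_lit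 421) (nat_lit 305)) (XT.nd (nat_lit 78) (nat_lit 0) (nat_lit 0) (XT.lf (nat_lit 0) (nat_lit 72520180500) (nat_lit 76) (nat_lit 137560222341) (nat_lit 76) (nat_lit 78936929671) (nat_lit 18) (nat_lit 4) (nat_lit 19) (nat_lit 5) (nat_lit 19) (nat_lit 4) (nat_lit 475) (nat_lit 421) (nat_lit 304)) (XT.lf (nat_lit 0) (nat_lit 222413125654) (nat_lit 76) (nat_lit 71312408128) (nat_lit 76) (nat_lit 12688581865) (nat_lit 18) (nat_lit 4) (nat_lit 19) (nat_lit 5) (nat_lit 19) (nat_lit 4) (nat_lit 476) (nat_lit 421) (nat_lit 303)))) (XT.nd (nat_lit 78) (nat_lit 76) (nat_lit 0) (XT.lf (nat_lit 0) (nat_lit 57454440562) (nat_lit 152) (nat_lit 264339156055) (nat_lit 0) (nat_lit 3172662477) (nat_lit 16) (nat_lit 5) (nat_lit 18) (nat_lit 4) (nat_lit 16) (nat_lit 4) (nat_lit 477) (nat_lit 421) (nat_lit 302)) (XT.nd (nat_lit 78) (nat_lit 76) (nat_lit 0) (XT.lf (nat_lit 0) (nat_lit 136730771302) (nat_lit 152)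 (nat_lit 125460276871) (nat_lit 0) (nat_lit 82448569633) (nat_lit 16) (nat_lit 5) (nat_lit 18) (nat_lit 4) (nat_lit 16) (nat_lit 4) (nat_lit 478) (nat_lit 421) (nat_lit 301)) (XT.lf (nat_lit 0) (nat_lit 25818030854) (nat_lit 76) (nat_lit 197150914653) (nat_lit 76) (nat_lit 142868320778) (nat_lit 15) (nat_lit 4) (nat_lit 16) (nat_lit 5) (nat_lit 16) (nat_lit 4) (nat_lit 479) (nat_lit 421) (nat_lit 300))))))) (XT.nd (nat_lit 936) (nat_lit 380) (nat_lit 0) (XT.nd (nat_lit 468) (nat_lit 228) (nat_lit 0) (XT.nd (nat_lit 234) (nat_lit 76) (nat_lit 0) (XT.nd (nat_lit 78) (nat_lit 152) (nat_lit 0) (XT.lf (nat_lit 0) (nat_lit 196331296919) (nat_lit 76) (nat_lit 123204027366) (nat_lit 76) (nat_lit 68921070337) (nat_lit 15) (nat_lit 4) (nat_lit 16) (nat_lit 5) (nat_lit 16) (nat_lit 4) (nat_lit 480) (nat_lit 421) (nat_lit 299)) (XT.nd (nat_lit 78) (nat_lit 76) (nat_lit 0) (XT.lf (nat_lit 0) (nat_lit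 10393501094) (nat_lit 152) (nat_lit 32664811007) (nat_lit 76) (nat_lit 369805776628) (nat_lit 14) (nat_lit 5) (nat_lit 16) (nat_lit 5) (nat_lit 15) (nat_lit 4) (nat_lit 481) (nat_lit 421) (nat_lit 298)) (XT.lf (nat_lit 0) (nat_lit 96999503470) (nat_lit 152) (nat_lit 294971192261) (nat_lit 0) (nat_lit 46736906589) (nat_lit 13) (nat_lit 5) (nat_lit 15) (nat_lit 4) (nat_lit 13) (nat_lit 4) (nat_lit 482) (nat_lit 421) (nat_lit 297)))) (XT.nd (nat_lit 78) (nat_lit 76) (nat_lit 0) (XT.lf (nat_lit 0) (nat_lit 192567681174) (nat_lit 152) (nat_lit 131583402869) (nat_lit 0) (nat_lit 142304817365) (nat_lit 13) (nat_lit 5) (nat_lit 15) (nat_lit 4) (nat_lit 13) (nat_lit 4) (nat_lit 483) (nat_lit 421) (nat_lit 296)) (XT.nd (nat_lit 78) (nat_lit 0) (nat_lit 0) (XT.lf (nat_lit 0) (nat_lit 47236456445) (nat_lit 76) (nat_lit 249679955527) (nat_lit 76) (nat_lit 199416844561) (nat_lit 12) (nat_lit 4) (nat_lit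 13) (nat_lit 5) (nat_lit 13) (nat_lit 4) (nat_lit 484) (nat_lit 421) (nat_lit 295)) (XT.lf (nat_lit 0) (nat_lit 247843305537) (nat_lit 76) (nat_lit 165366544817) (nat_lit 76) (nat_lit 115103205002) (nat_lit 12) (nat_lit 4) (nat_lit 13) (nat_lit 5) (nat_lit 13) (nat_lit 4) (nat_lit 485) (nat_lit 421) (nat_lit 294))))) (XT.nd (nat_lit 234) (nat_lit 76) (nat_lit 0) (XT.nd (nat_lit 78) (nat_lit 152) (nat_lit 0) (XT.lf (nat_lit 0) (nat_lit 464496976926) (nat_lit 76) (nat_lit 74308940308) (nat_lit 76) (nat_lit 24045388595) (nat_lit 12) (nat_lit 4) (nat_lit 13) (nat_lit 5) (nat_lit 13) (nat_lit 4) (nat_lit 486) (nat_lit 421) (nat_lit 293)) (XT.nd (nat_lit 78) (nat_lit 0) (nat_lit 0) (XT.lf (nat_lit 0) (nat_lit 73711581892) (nat_lit 152) (nat_lit 498876518763) (nat_lit 0) (nat_lit 27171074564) (nat_lit 10) (nat_lit 5) (nat_lit 12) (nat_lit 4) (nat_lit 10) (nat_lit 4) (nat_lit 487) (nat_lit 421)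 (nat_lit 292)) (XT.lf (nat_lit 0) (nat_lit 182678364623) (nat_lit 152) (nat_lit 320378589612) (nat_lit 0) (nat_lit 136137689084) (nat_lit 10) (nat_lit 5) (nat_lit 12) (nat_lit 4) (nat_lit 10) (nat_lit 4) (nat_lit 488) (nat_lit 421) (nat_lit 291)))) (XT.nd (nat_lit 78) (nat_lit 76) (nat_lit 0) (XT.lf (nat_lit 0) (nat_lit 300361746705) (nat_lit 152) (nat_lit 127602346220) (nat_lit 0) (nat_lit 253820915415) (nat_lit 10) (nat_lit 5) (nat_lit 12) (nat_lit 4) (nat_lit 10) (nat_lit 4) (nat_lit 489) (nat_lit 421) (nat_lit 290)) (XT.nd (nat_lit 78) (nat_lit 0) (nat_lit 0) (XT.lf (nat_lit 0) (nat_lit 84838557392) (nat_lit 76) (nat_lit 344660923098) (nat_lit 76) (nat_lit 298119947594) (nat_lit 9) (nat_lit 4) (nat_lit 10) (nat_lit 5) (nat_lit 10) (nat_lit 4) (nat_lit 490) (nat_lit 421) (nat_lit 289)) (XT.lf (nat_lit 0) (nat_lit 321530219931) (nat_lit 76) (nat_lit 250926217099) (nat_lit 76) (nat_lit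 204385108064) (nat_lit 9) (nat_lit 4) (nat_lit 10) (nat_lit 5) (nat_lit 10) (nat_lit 4) (nat_lit 491) (nat_lit 421) (nat_lit 288)))))) (XT.nd (nat_lit 468) (nat_lit 228) (nat_lit 0) (XT.nd (nat_lit 234) (nat_lit 0) (nat_lit 0) (XT.nd (nat_lit 78) (nat_lit 152) (nat_lit 0) (XT.lf (nat_lit 0) (nat_lit 577155945234) (nat_lit 76) (nat_lit 149693384280) (nat_lit 76) (nat_lit 103152151606) (nat_lit 9) (nat_lit 4) (nat_lit 10) (nat_lit 5) (nat_lit 10) (nat_lit 4) (nat_lit 492) (nat_lit 421) (nat_lit 287)) (XT.nd (nat_lit 78) (nat_lit 76) (nat_lit 0) (XT.lf (nat_lit 0) (nat_lit 5869731141) (nat_lit 152) (nat_lit 34332306381) (nat_lit 76) (nat_lit 847200332422) (nat_lit 8) (nat_lit 5) (nat_lit 10) (nat_lit 5) (nat_lit 9) (nat_lit 4) (nat_lit 493) (nat_lit 421) (nat_lit 286)) (XT.lf (nat_lit 0) (nat_lit 125154925045) (nat_lit 152) (nat_lit 741395919288) (nat_lit 0) (nat_lit 82060986936) (nat_lit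 7) (nat_lit 5) (nat_lit 9) (nat_lit 4) (nat_lit 7) (nat_lit 4) (nat_lit 494) (nat_lit 421) (nat_lit 285)))) (XT.nd (nat_lit 78) (nat_lit 0) (nat_lit 0) (XT.lf (nat_lit 0) (nat_lit 255989686247) (nat_lit 152) (nat_lit 545672165858) (nat_lit 0) (nat_lit 212895657259) (nat_lit 7) (nat_lit 5) (nat_lit 9) (nat_lit 4) (nat_lit 7) (nat_lit 4) (nat_lit 495) (nat_lit 421) (nat_lit 284)) (XT.nd (nat_lit 78) (nat_lit 0) (nat_lit 0) (XT.lf (nat_lit 0) (nat_lit 397290723664) (nat_lit 152) (nat_lit 334291547897) (nat_lit 0) (nat_lit 354196610528) (nat_lit 7) (nat_lit 5) (nat_lit 9) (nat_lit 4) (nat_lit 7) (nat_lit 4) (nat_lit 496) (nat_lit 421) (nat_lit 283)) (XT.lf (nat_lit 0) (nat_lit 549895376776) (nat_lit 152) (nat_lit 106001439519) (nat_lit 0) (nat_lit 506801185726) (nat_lit 7) (nat_lit 5) (nat_lit 9) (nat_lit 4) (nat_lit 7) (nat_lit 4) (nat_lit 497) (nat_lit 421) (nat_lit 282))))) (XT.nd (nat_lit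 234) (nat_lit 152) (nat_lit 0) (XT.nd (nat_lit 78) (nat_lit 0) (nat_lit 0) (XT.lf (nat_lit 0) (nat_lit 147952155578) (nat_lit 76) (nat_lit 570314066775) (nat_lit 76) (nat_lit 527219803583) (nat_lit 6) (nat_lit 4) (nat_lit 7) (nat_lit 5) (nat_lit 7) (nat_lit 4) (nat_lit 498) (nat_lit 421) (nat_lit 281)) (XT.nd (nat_lit 78) (nat_lit 0) (nat_lit 0) (XT.lf (nat_lit 0) (nat_lit 428249568573) (nat_lit 76) (nat_lit 474755012763) (nat_lit 76) (nat_lit 431660682772) (nat_lit 6) (nat_lit 4) (nat_lit 7) (nat_lit 5) (nat_lit 7) (nat_lit 4) (nat_lit 499) (nat_lit 421) (nat_lit 280)) (XT.lf (nat_lit 0) (nat_lit 730969973217) (nat_lit 76) (nat_lit 371551645592) (nat_lit 76) (nat_lit 328457253750) (nat_lit 6) (nat_lit 4) (nat_lit 7) (nat_lit 5) (nat_lit 7) (nat_lit 4) (nat_lit 500) (nat_lit 421) (nat_lit 279)))) (XT.nd (nat_lit 78) (nat_lit 152) (nat_lit 0) (XT.lf (nat_lit 0) (nat_lit 1057907268205) (nat_lit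 76) (nat_lit 260092389751) (nat_lit 76) (nat_lit 216997940640) (nat_lit 6) (nat_lit 4) (nat_lit 7) (nat_lit 5) (nat_lit 7) (nat_lit 4) (nat_lit 501) (nat_lit 421) (nat_lit 278)) (XT.nd (nat_lit 78) (nat_lit 152) (nat_lit 0) (XT.lf (nat_lit 0) (nat_lit 1410998859728) (nat_lit 76) (nat_lit 139716745947) (nat_lit 76) (nat_lit 96622243809) (nat_lit 6) (nat_lit 4) (nat_lit 7) (nat_lit 5) (nat_lit 7) (nat_lit 4) (nat_lit 502) (nat_lit 421) (nat_lit 277)) (XT.lf (nat_lit 0) (nat_lit 24073168411) (nat_lit 76) (nat_lit 8219004496) (nat_lit 152) (nat_lit 1736262626209) (nat_lit 4) (nat_lit 5) (nat_lit 5) (nat_lit 5) (nat_lit 6) (nat_lit 4) (nat_lit 503) (nat_lit 421) (nat_lit 276))))))))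
noncomputable def xc148 : XT := (XT.nd (nat_lit 1794) (nat_lit 0) (nat_lit 0) (XT.nd (nat_lit 858) (nat_lit 0) (nat_lit 0) (XT.nd (nat_lit 390) (nat_lit 76) (nat_lit 0) (XT.nd (nat_lit 156) (nat_lit 0) (nat_lit 0) (XT.nd (nat_lit 78) (nat_lit 0) (nat_lit 0) (XT.lf (nat_lit 0) (nat_lit 176146942239) (nat_lit 152) (nat_lit 1586089066292) (nat_lit 0) (nat_lit 136244537888) (nat_lit 4) (nat_lit 5) (nat_lit 6) (nat_lit 4) (nat_lit 4) (nat_lit 4) (nat_lit 504) (nat_lit 421) (nat_lit 275)) (XT.lf (nat_lit 0) (nat_lit 331723279820) (nat_lit 152) (nat_lit 1415239182261) (nat_lit 0) (nat_lit 291820836492) (nat_lit 4) (nat_lit 5) (nat_lit 6) (nat_lit 4) (nat_lit 4) (nat_lit 4) (nat_lit 505) (nat_lit 421) (nat_lit 274))) (XT.nd (nat_lit 78) (nat_lit 0) (nat_lit 0) (XT.lf (nat_lit 0) (nat_lit 499745452247) (nat_lit 152) (nat_lit 1230721867600) (nat_lit 0) (nat_lit 459842972830) (nat_lit 4) (nat_lit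 5) (nat_lit 6) (nat_lit 4) (nat_lit 4) (nat_lit 4) (nat_lit 506) (nat_lit 421) (nat_lit 273)) (XT.nd (nat_lit 78) (nat_lit 0) (nat_lit 0) (XT.lf (nat_lit 0) (nat_lit 681209146467) (nat_lit 152) (nat_lit 1031443686369) (nat_lit 0) (nat_lit 641306633634) (nat_lit 4) (nat_lit 5) (nat_lit 6) (nat_lit 4) (nat_lit 4) (nat_lit 4) (nat_lit 507) (nat_lit 421) (nat_lit 272)) (XT.lf (nat_lit 0) (nat_lit 877189702891) (nat_lit 152) (nat_lit 816223730829) (nat_lit 0) (nat_lit 837287159117) (nat_lit 4) (nat_lit 5) (nat_lit 6) (nat_lit 4) (nat_lit 4) (nat_lit 4) (nat_lit 508) (nat_lit 421) (nat_lit 271))))) (XT.nd (nat_lit 234) (nat_lit 76) (nat_lit 0) (XT.nd (nat_lit 78) (nat_lit 0) (nat_lit 0) (XT.lf (nat_lit 0) (nat_lit 1088848487779) (nat_lit 152) (nat_lit 583786623464) (nat_lit 0) (nat_lit 1048945915356) (nat_lit 4) (nat_lit 5) (nat_lit 6) (nat_lit 4) (nat_lit 4) (nat_lit 4) (nat_lit 509) (nat_lit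 421) (nat_lit 270)) (XT.nd (nat_lit 78) (nat_lit 0) (nat_lit 0) (XT.lf (nat_lit 0) (nat_lit 1317439775411) (nat_lit 152) (nat_lit 332754959195) (nat_lit 0) (nat_lit 1277537176462) (nat_lit 4) (nat_lit 5) (nat_lit 6) (nat_lit 4) (nat_lit 4) (nat_lit 4) (nat_lit 510) (nat_lit 421) (nat_lit 269)) (XT.lf (nat_lit 0) (nat_lit 1564318180826) (nat_lit 152) (nat_lit 61641142973) (nat_lit 0) (nat_lit 1524415557315) (nat_lit 4) (nat_lit 5) (nat_lit 6) (nat_lit 4) (nat_lit 4) (nat_lit 4) (nat_lit 511) (nat_lit 421) (nat_lit 268)))) (XT.nd (nat_lit 78) (nat_lit 0) (nat_lit 0) (XT.lf (nat_lit 0) (nat_lit 243333976612) (nat_lit 76) (nat_lit 1593464898545) (nat_lit 76) (nat_lit 1553562252291) (nat_lit 3) (nat_lit 4) (nat_lit 4) (nat_lit 5) (nat_lit 4) (nat_lit 4) (nat_lit 512) (nat_lit 421) (nat_lit 267)) (XT.nd (nat_lit 78) (nat_lit 0) (nat_lit 0) (XT.lf (nat_lit 0) (nat_lit 576212348166) (nat_lit 76)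 (nat_lit 1556550887877) (nat_lit 76) (nat_lit 1516648220565) (nat_lit 3) (nat_lit 4) (nat_lit 4) (nat_lit 5) (nat_lit 4) (nat_lit 4) (nat_lit 513) (nat_lit 421) (nat_lit 266)) (XT.lf (nat_lit 0) (nat_lit 935720670910) (nat_lit 76) (nat_lit 1516683920190) (nat_lit 76) (nat_lit 1476781233380) (nat_lit 3) (nat_lit 4) (nat_lit 4) (nat_lit 5) (nat_lit 4) (nat_lit 4) (nat_lit 514) (nat_lit 421) (nat_lit 265)))))) (XT.nd (nat_lit 468) (nat_lit 0) (nat_lit 0) (XT.nd (nat_lit 234) (nat_lit 0) (nat_lit 0) (XT.nd (nat_lit 78) (nat_lit 0) (nat_lit 0) (XT.lf (nat_lit 0) (nat_lit 1323989364535) (nat_lit 76) (nat_lit 1473627746786) (nat_lit 76) (nat_lit 1433725041922) (nat_lit 3) (nat_lit 4) (nat_lit 4) (nat_lit 5) (nat_lit 4) (nat_lit 4) (nat_lit 515) (nat_lit 421) (nat_lit 264)) (XT.nd (nat_lit 78) (nat_lit 0) (nat_lit 0) (XT.lf (nat_lit 0) (nat_lit 1743319280557) (nat_lit 76) (nat_lit 1427127219970)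 (nat_lit 76) (nat_lit 1387224498390) (nat_lit 3) (nat_lit 4) (nat_lit 4) (nat_lit 5) (nat_lit 4) (nat_lit 4) (nat_lit 516) (nat_lit 421) (nat_lit 263)) (XT.lf (nat_lit 0) (nat_lit 2196195336998) (nat_lit 76) (nat_lit 1376906781066) (nat_lit 76) (nat_lit 1337004044008) (nat_lit 3) (nat_lit 4) (nat_lit 4) (nat_lit 5) (nat_lit 4) (nat_lit 4) (nat_lit 517) (nat_lit 421) (nat_lit 262)))) (XT.nd (nat_lit 78) (nat_lit 0) (nat_lit 0) (XT.lf (nat_lit 0) (nat_lit 2685301243821) (nat_lit 76) (nat_lit 1322668827473) (nat_lit 76) (nat_lit 1282766076083) (nat_lit 3) (nat_lit 4) (nat_lit 4) (nat_lit 5) (nat_lit 4) (nat_lit 4) (nat_lit 518) (nat_lit 421) (nat_lit 261)) (XT.nd (nat_lit 78) (nat_lit 0) (nat_lit 0) (XT.lf (nat_lit 0) (nat_lit 3213535406402) (nat_lit 76) (nat_lit 1264091949094) (nat_lit 76) (nat_lit 1224189184435) (nat_lit 3) (nat_lit 4) (nat_lit 4) (nat_lit 5) (nat_lit 4) (nat_lit 4) (nat_lit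 519) (nat_lit 421) (nat_lit 260)) (XT.lf (nat_lit 0) (nat_lit 3784028101257) (nat_lit 76) (nat_lit 1200829023689) (nat_lit 76) (nat_lit 1160926246742) (nat_lit 3) (nat_lit 4) (nat_lit 4) (nat_lit 5) (nat_lit 4) (nat_lit 4) (nat_lit 520) (nat_lit 421) (nat_lit 259))))) (XT.nd (nat_lit 234) (nat_lit 0) (nat_lit 0) (XT.nd (nat_lit 78) (nat_lit 0) (nat_lit 0) (XT.lf (nat_lit 0) (nat_lit 4400160025840) (nat_lit 76) (nat_lit 1132505159846) (nat_lit 76) (nat_lit 1092602371523) (nat_lit 3) (nat_lit 4) (nat_lit 4) (nat_lit 5) (nat_lit 4) (nat_lit 4) (nat_lit 521) (nat_lit 421) (nat_lit 258)) (XT.nd (nat_lit 78) (nat_lit 0) (nat_lit 0) (XT.lf (nat_lit 0) (nat_lit 5065582332294) (nat_lit 76) (nat_lit 1058715475411) (nat_lit 76) (nat_lit 1018812676553) (nat_lit 3) (nat_lit 4) (nat_lit 4) (nat_lit 5) (nat_lit 4) (nat_lit 4) (nat_lit 522) (nat_lit 421) (nat_lit 257)) (XT.lf (nat_lit 0) (nat_lit 5784238263919)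 (nat_lit 76) (nat_lit 979022698178) (nat_lit 76) (nat_lit 939119889567) (nat_lit 3) (nat_lit 4) (nat_lit 4) (nat_lit 5) (nat_lit 4) (nat_lit 4) (nat_lit 523) (nat_lit 421) (nat_lit 256)))) (XT.nd (nat_lit 78) (nat_lit 0) (nat_lit 0) (XT.lf (nat_lit 0) (nat_lit 6560386522530) (nat_lit 76) (nat_lit 892954574654) (nat_lit 76) (nat_lit 853051757011) (nat_lit 3) (nat_lit 4) (nat_lit 4) (nat_lit 5) (nat_lit 4) (nat_lit 4) (nat_lit 524) (nat_lit 421) (nat_lit 255)) (XT.nd (nat_lit 78) (nat_lit 0) (nat_lit 0) (XT.lf (nat_lit 0) (nat_lit 7398626505216) (nat_lit 76) (nat_lit 800001071513) (nat_lit 76) (nat_lit 760098245508) (nat_lit 3) (nat_lit 4) (nat_lit 4) (nat_lit 5) (nat_lit 4) (nat_lit 4) (nat_lit 525) (nat_lit 421) (nat_lit 254)) (XT.lf (nat_lit 0) (nat_lit 8303925560022) (nat_lit 76) (nat_lit 699611353181) (nat_lit 76) (nat_lit 659708519434) (nat_lit 3) (nat_lit 4) (nat_lit 4) (nat_lit 5)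 (nat_lit 4) (nat_lit 4) (nat_lit 526) (nat_lit 421) (nat_lit 253))))))) (XT.nd (nat_lit 54990) (nat_lit 0) (nat_lit 3648) (XT.nd (nat_lit 54522) (nat_lit 0) (nat_lit 4940) (XT.nd (nat_lit 54288) (nat_lit 0) (nat_lit 5700) (XT.nd (nat_lit 78) (nat_lit 0) (nat_lit 0) (XT.lf (nat_lit 0) (nat_lit 9281648422089) (nat_lit 76) (nat_lit 591190517625) (nat_lit 76) (nat_lit 551287676708) (nat_lit 3) (nat_lit 4) (nat_lit 4) (nat_lit 5) (nat_lit 4) (nat_lit 4) (nat_lit 527) (nat_lit 421) (nat_lit 252)) (XT.lf (nat_lit 0) (nat_lit 10337589004672) (nat_lit 76) (nat_lit 474096071003) (nat_lit 76) (nat_lit 434193223447) (nat_lit 3) (nat_lit 4) (nat_lit 4) (nat_lit 5) (nat_lit 4) (nat_lit 4) (nat_lit 528) (nat_lit 421) (nat_lit 251))) (XT.nd (nat_lit 78) (nat_lit 0) (nat_lit 0) (XT.lf (nat_lit 0) (nat_lit 9956242346) (nat_lit 532) (nat_lit 565158709) (nat_lit 532) (nat_lit 565158709) (nat_lit 78) (nat_lit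 3) (nat_lit 85) (nat_lit 3) (nat_lit 85) (nat_lit 5) (nat_lit 422) (nat_lit 422) (nat_lit 356)) (XT.nd (nat_lit 78) (nat_lit 0) (nat_lit 76) (XT.lf (nat_lit 76) (nat_lit 10340970640) (nat_lit 0) (nat_lit 10743026880) (nat_lit 532) (nat_lit 1945994945) (nat_lit 79) (nat_lit 5) (nat_lit 78) (nat_lit 3) (nat_lit 85) (nat_lit 5) (nat_lit 423) (nat_lit 422) (nat_lit 355)) (XT.lf (nat_lit 0) (nat_lit 22377420625) (nat_lit 456) (nat_lit 1177009597) (nat_lit 532) (nat_lit 398734955) (nat_lit 79) (nat_lit 5) (nat_lit 85) (nat_lit 5) (nat_lit 86) (nat_lit 5) (nat_lit 424) (nat_lit 422) (nat_lit 354))))) (XT.nd (nat_lit 234) (nat_lit 304) (nat_lit 0) (XT.nd (nat_lit 78) (nat_lit 532) (nat_lit 0) (XT.lf (nat_lit 76) (nat_lit 11546809390) (nat_lit 0) (nat_lit 12772512842) (nat_lit 532) (nat_lit 587273804) (nat_lit 80) (nat_lit 5) (nat_lit 79) (nat_lit 5) (nat_lit 86) (nat_lit 5) (nat_lit 425) (nat_lit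 422) (nat_lit 353)) (XT.nd (nat_lit 78) (nat_lit 0) (nat_lit 76) (XT.lf (nat_lit 0) (nat_lit 477927662) (nat_lit 532) (nat_lit 598779959) (nat_lit 608) (nat_lit 24856939459) (nat_lit 72) (nat_lit 5) (nat_lit 79) (nat_lit 5) (nat_lit 80) (nat_lit 5) (nat_lit 426) (nat_lit 422) (nat_lit 352)) (XT.lf (nat_lit 0) (nat_lit 2206304301) (nat_lit 532) (nat_lit 13449528220) (nat_lit 608) (nat_lit 11337038143) (nat_lit 73) (nat_lit 5) (nat_lit 80) (nat_lit 5) (nat_lit 81) (nat_lit 5) (nat_lit 427) (nat_lit 422) (nat_lit 351)))) (XT.nd (nat_lit 78) (nat_lit 380) (nat_lit 0) (XT.lf (nat_lit 76) (nat_lit 714515454) (nat_lit 0) (nat_lit 3410546456) (nat_lit 608) (nat_lit 24007604814) (nat_lit 74) (nat_lit 5) (nat_lit 73) (nat_lit 5) (nat_lit 81) (nat_lit 5) (nat_lit 428) (nat_lit 422) (nat_lit 350)) (XT.nd (nat_lit 78) (nat_lit 456) (nat_lit 0) (XT.lf (nat_lit 0) (nat_lit 6801372421) (nat_lit 532) (nat_lit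 12812017969) (nat_lit 76) (nat_lit 9701935096) (nat_lit 74) (nat_lit 5) (nat_lit 81) (nat_lit 5) (nat_lit 75) (nat_lit 5) (nat_lit 429) (nat_lit 422) (nat_lit 349)) (XT.lf (nat_lit 0) (nat_lit 3016811035) (nat_lit 456) (nat_lit 6827534488) (nat_lit 532) (nat_lit 20736049770) (nat_lit 68) (nat_lit 5) (nat_lit 74) (nat_lit 5) (nat_lit 75) (nat_lit 5) (nat_lit 430) (nat_lit 422) (nat_lit 348)))))) (XT.nd (nat_lit 468) (nat_lit 608) (nat_lit 0) (XT.nd (nat_lit 234) (nat_lit 456) (nat_lit 0) (XT.nd (nat_lit 78) (nat_lit 228) (nat_lit 0) (XT.lf (nat_lit 0) (nat_lit 13649924688) (nat_lit 532) (nat_lit 11263641625) (nat_lit 76) (nat_lit 6991573660) (nat_lit 68) (nat_lit 5) (nat_lit 75) (nat_lit 5) (nat_lit 69) (nat_lit 5) (nat_lit 431) (nat_lit 422) (nat_lit 347)) (XT.nd (nat_lit 78) (nat_lit 0) (nat_lit 0) (XT.lf (nat_lit 0) (nat_lit 6479129604) (nat_lit 228) (nat_lit 11606453072) (nat_lit 304)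 (nat_lit 15224233491) (nat_lit 65) (nat_lit 5) (nat_lit 68) (nat_lit 5) (nat_lit 69) (nat_lit 5) (nat_lit 432) (nat_lit 422) (nat_lit 346)) (XT.lf (nat_lit 0) (nat_lit 23251392530) (nat_lit 304) (nat_lit 8603136718) (nat_lit 76) (nat_lit 2942315625) (nat_lit 65) (nat_lit 5) (nat_lit 69) (nat_lit 5) (nat_lit 66) (nat_lit 5) (nat_lit 433) (nat_lit 422) (nat_lit 345)))) (XT.nd (nat_lit 78) (nat_lit 228) (nat_lit 0) (XT.lf (nat_lit 0) (nat_lit 11340776727) (nat_lit 228) (nat_lit 18057262253) (nat_lit 304) (nat_lit 6959393328) (nat_lit 62) (nat_lit 5) (nat_lit 65) (nat_lit 5) (nat_lit 66) (nat_lit 5) (nat_lit 434) (nat_lit 422) (nat_lit 344)) (XT.nd (nat_lit 78) (nat_lit 228) (nat_lit 0) (XT.lf (nat_lit 0) (nat_lit 33361980173) (nat_lit 228) (nat_lit 2903333245) (nat_lit 304) (nat_lit 1759243635) (nat_lit 62) (nat_lit 5) (nat_lit 65) (nat_lit 5) (nat_lit 66) (nat_lit 5) (nat_lit 435) (nat_lit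 422) (nat_lit 343)) (XT.lf (nat_lit 0) (nat_lit 4431396161) (nat_lit 228) (nat_lit 21994144901) (nat_lit 76) (nat_lit 13330698383) (nat_lit 59) (nat_lit 5) (nat_lit 62) (nat_lit 5) (nat_lit 60) (nat_lit 5) (nat_lit 436) (nat_lit 422) (nat_lit 342))))) (XT.nd (nat_lit 234) (nat_lit 228) (nat_lit 0) (XT.nd (nat_lit 78) (nat_lit 152) (nat_lit 0) (XT.lf (nat_lit 0) (nat_lit 523939647) (nat_lit 228) (nat_lit 10711338479) (nat_lit 304) (nat_lit 30370481468) (nat_lit 56) (nat_lit 5) (nat_lit 59) (nat_lit 5) (nat_lit 60) (nat_lit 5) (nat_lit 437) (nat_lit 422) (nat_lit 341)) (XT.nd (nat_lit 78) (nat_lit 152) (nat_lit 0) (XT.lf (nat_lit 0) (nat_lit 19345440453) (nat_lit 304) (nat_lit 17634717680) (nat_lit 76) (nat_lit 6562127119) (nat_lit 56) (nat_lit 5) (nat_lit 60) (nat_lit 5) (nat_lit 57) (nat_lit 5) (nat_lit 438) (nat_lit 422) (nat_lit 340)) (XT.lf (nat_lit 0) (nat_lit 7792615836) (nat_lit 152)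 (nat_lit 20772279145) (nat_lit 228) (nat_lit 17032001018) (nat_lit 54) (nat_lit 5) (nat_lit 56) (nat_lit 5) (nat_lit 57) (nat_lit 5) (nat_lit 439) (nat_lit 422) (nat_lit 339)))) (XT.nd (nat_lit 78) (nat_lit 228) (nat_lit 0) (XT.lf (nat_lit 0) (nat_lit 36250080225) (nat_lit 152) (nat_lit 2749054256) (nat_lit 228) (nat_lit 8778564107) (nat_lit 54) (nat_lit 5) (nat_lit 56) (nat_lit 5) (nat_lit 57) (nat_lit 5) (nat_lit 440) (nat_lit 422) (nat_lit 338)) (XT.nd (nat_lit 78) (nat_lit 0) (nat_lit 0) (XT.lf (nat_lit 0) (nat_lit 963188980) (nat_lit 228) (nat_lit 32784039118) (nat_lit 76) (nat_lit 16318694202) (nat_lit 51) (nat_lit 5) (nat_lit 54) (nat_lit 5) (nat_lit 52) (nat_lit 5) (nat_lit 441) (nat_lit 422) (nat_lit 337)) (XT.lf (nat_lit 0) (nat_lit 11400239920) (nat_lit 228) (nat_lit 3774697099) (nat_lit 76) (nat_lit 37312808479) (nat_lit 51) (nat_lit 5) (nat_lit 54) (nat_lit 5) (nat_lit 52)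 (nat_lit 5) (nat_lit 442) (nat_lit 422) (nat_lit 336))))))))
noncomputable def xc149 : XT := (XT.nd (nat_lit 1794) (nat_lit 1292) (nat_lit 0) (XT.nd (nat_lit 858) (nat_lit 836) (nat_lit 0) (XT.nd (nat_lit 390) (nat_lit 532) (nat_lit 0) (XT.nd (nat_lit 156) (nat_lit 152) (nat_lit 0) (XT.nd (nat_lit 78) (nat_lit 152) (nat_lit 0) (XT.lf (nat_lit 0) (nat_lit 23500992562) (nat_lit 228) (nat_lit 26183610987) (nat_lit 76) (nat_lit 5352412928) (nat_lit 49) (nat_lit 5) (nat_lit 52) (nat_lit 5) (nat_lit 50) (nat_lit 5) (nat_lit 443) (nat_lit 422) (nat_lit 335)) (XT.lf (nat_lit 0) (nat_lit 6443508786) (nat_lit 152) (nat_lit 30777206451) (nat_lit 228) (nat_lit 20517441977) (nat_lit 47) (nat_lit 5) (nat_lit 49) (nat_lit 5) (nat_lit 50) (nat_lit 5) (nat_lit 444) (nat_lit 422) (nat_lit 334))) (XT.nd (nat_lit 78) (nat_lit 152) (nat_lit 0) (XT.lf (nat_lit 0) (nat_lit 43163605569) (nat_lit 152) (nat_lit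 9586370562) (nat_lit 228) (nat_lit 7848457047) (nat_lit 47) (nat_lit 5) (nat_lit 49) (nat_lit 5) (nat_lit 50) (nat_lit 5) (nat_lit 445) (nat_lit 422) (nat_lit 333)) (XT.nd (nat_lit 78) (nat_lit 0) (nat_lit 0) (XT.lf (nat_lit 0) (nat_lit 6355084433) (nat_lit 152) (nat_lit 43986780950) (nat_lit 76) (nat_lit 13269411375) (nat_lit 45) (nat_lit 5) (nat_lit 47) (nat_lit 5) (nat_lit 46) (nat_lit 5) (nat_lit 446) (nat_lit 422) (nat_lit 332)) (XT.lf (nat_lit 0) (nat_lit 22005299776) (nat_lit 152) (nat_lit 6658241422) (nat_lit 76) (nat_lit 38126545892) (nat_lit 45) (nat_lit 5) (nat_lit 47) (nat_lit 5) (nat_lit 46) (nat_lit 5) (nat_lit 447) (nat_lit 422) (nat_lit 331))))) (XT.nd (nat_lit 234) (nat_lit 228) (nat_lit 0) (XT.nd (nat_lit 78) (nat_lit 152) (nat_lit 0) (XT.lf (nat_lit 0) (nat_lit 35422937216) (nat_lit 152) (nat_lit 4333122774) (nat_lit 228) (nat_lit 30399260636) (nat_lit 43) (nat_lit 5)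 (nat_lit 45) (nat_lit 5) (nat_lit 46) (nat_lit 5) (nat_lit 448) (nat_lit 422) (nat_lit 330)) (XT.nd (nat_lit 78) (nat_lit 76) (nat_lit 0) (XT.lf (nat_lit 0) (nat_lit 7301107382) (nat_lit 76) (nat_lit 52512560157) (nat_lit 152) (nat_lit 13905162931) (nat_lit 42) (nat_lit 5) (nat_lit 43) (nat_lit 5) (nat_lit 44) (nat_lit 4) (nat_lit 449) (nat_lit 422) (nat_lit 329)) (XT.lf (nat_lit 0) (nat_lit 4796504728) (nat_lit 152) (nat_lit 23055862819) (nat_lit 76) (nat_lit 49620849391) (nat_lit 41) (nat_lit 5) (nat_lit 43) (nat_lit 5) (nat_lit 42) (nat_lit 5) (nat_lit 450) (nat_lit 422) (nat_lit 328)))) (XT.nd (nat_lit 78) (nat_lit 76) (nat_lit 0) (XT.lf (nat_lit 0) (nat_lit 24641107492) (nat_lit 152) (nat_lit 191521644) (nat_lit 228) (nat_lit 56619266708) (nat_lit 39) (nat_lit 5) (nat_lit 41) (nat_lit 5) (nat_lit 42) (nat_lit 5) (nat_lit 451) (nat_lit 422) (nat_lit 327)) (XT.nd (nat_lit 78) (nat_lit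 76) (nat_lit 0) (XT.lf (nat_lit 0) (nat_lit 47829255168) (nat_lit 228) (nat_lit 8968988787) (nat_lit 76) (nat_lit 28842016577) (nat_lit 39) (nat_lit 5) (nat_lit 42) (nat_lit 5) (nat_lit 40) (nat_lit 4) (nat_lit 452) (nat_lit 422) (nat_lit 326)) (XT.lf (nat_lit 0) (nat_lit 44938206034) (nat_lit 76) (nat_lit 28810359931) (nat_lit 152) (nat_lit 16328492427) (nat_lit 38) (nat_lit 5) (nat_lit 39) (nat_lit 5) (nat_lit 40) (nat_lit 4) (nat_lit 453) (nat_lit 422) (nat_lit 325)))))) (XT.nd (nat_lit 468) (nat_lit 304) (nat_lit 0) (XT.nd (nat_lit 234) (nat_lit 228) (nat_lit 0) (XT.nd (nat_lit 78) (nat_lit 76) (nat_lit 0) (XT.lf (nat_lit 0) (nat_lit 7046973901) (nat_lit 228) (nat_lit 85771381823) (nat_lit 76) (nat_lit 1995769839) (nat_lit 35) (nat_lit 5) (nat_lit 38) (nat_lit 5) (nat_lit 36) (nat_lit 4) (nat_lit 454) (nat_lit 422) (nat_lit 324)) (XT.nd (nat_lit 78) (nat_lit 76) (nat_lit 0) (XT.lf (nat_lit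 0) (nat_lit 33422138832) (nat_lit 228) (nat_lit 30914985411) (nat_lit 76) (nat_lit 35398158904) (nat_lit 35) (nat_lit 5) (nat_lit 38) (nat_lit 5) (nat_lit 36) (nat_lit 4) (nat_lit 455) (nat_lit 422) (nat_lit 323)) (XT.lf (nat_lit 0) (nat_lit 29816832149) (nat_lit 76) (nat_lit 32805052770) (nat_lit 152) (nat_lit 42371083255) (nat_lit 34) (nat_lit 5) (nat_lit 35) (nat_lit 5) (nat_lit 36) (nat_lit 4) (nat_lit 456) (nat_lit 422) (nat_lit 322)))) (XT.nd (nat_lit 78) (nat_lit 228) (nat_lit 0) (XT.lf (nat_lit 0) (nat_lit 95052389390) (nat_lit 152) (nat_lit 13494973934) (nat_lit 0) (nat_lit 2052322635) (nat_lit 34) (nat_lit 5) (nat_lit 36) (nat_lit 4) (nat_lit 34) (nat_lit 4) (nat_lit 457) (nat_lit 422) (nat_lit 321)) (XT.nd (nat_lit 78) (nat_lit 76) (nat_lit 0) (XT.lf (nat_lit 0) (nat_lit 14980300738) (nat_lit 152) (nat_lit 61843942121) (nat_lit 76) (nat_lit 39626525803) (nat_lit 32) (nat_lit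 5) (nat_lit 34) (nat_lit 5) (nat_lit 33) (nat_lit 4) (nat_lit 458) (nat_lit 422) (nat_lit 320)) (XT.lf (nat_lit 0) (nat_lit 6069700633) (nat_lit 76) (nat_lit 41562681246) (nat_lit 152) (nat_lit 75063471521) (nat_lit 31) (nat_lit 5) (nat_lit 32) (nat_lit 5) (nat_lit 33) (nat_lit 4) (nat_lit 459) (nat_lit 422) (nat_lit 319))))) (XT.nd (nat_lit 234) (nat_lit 152) (nat_lit 0) (XT.nd (nat_lit 78) (nat_lit 152) (nat_lit 0) (XT.lf (nat_lit 0) (nat_lit 82929321539) (nat_lit 76) (nat_lit 1655996860) (nat_lit 152) (nat_lit 44720131592) (nat_lit 31) (nat_lit 5) (nat_lit 32) (nat_lit 5) (nat_lit 33) (nat_lit 4) (nat_lit 460) (nat_lit 422) (nat_lit 318)) (XT.nd (nat_lit 78) (nat_lit 76) (nat_lit 0) (XT.lf (nat_lit 0) (nat_lit 29993545282) (nat_lit 76) (nat_lit 96216887423) (nat_lit 76) (nat_lit 10096106347) (nat_lit 30) (nat_lit 4) (nat_lit 31) (nat_lit 5) (nat_lit 31) (nat_lit 4) (nat_lit 461) (nat_lit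 422) (nat_lit 317)) (XT.lf (nat_lit 0) (nat_lit 27274141273) (nat_lit 152) (nat_lit 29392541532) (nat_lit 76) (nat_lit 87041163569) (nat_lit 29) (nat_lit 5) (nat_lit 31) (nat_lit 5) (nat_lit 30) (nat_lit 4) (nat_lit 462) (nat_lit 422) (nat_lit 316)))) (XT.nd (nat_lit 78) (nat_lit 76) (nat_lit 0) (XT.lf (nat_lit 0) (nat_lit 56228329761) (nat_lit 76) (nat_lit 12210570816) (nat_lit 152) (nat_lit 83133351410) (nat_lit 28) (nat_lit 5) (nat_lit 29) (nat_lit 5) (nat_lit 30) (nat_lit 4) (nat_lit 463) (nat_lit 422) (nat_lit 315)) (XT.nd (nat_lit 78) (nat_lit 76) (nat_lit 0) (XT.lf (nat_lit 0) (nat_lit 114580463622) (nat_lit 152) (nat_lit 10516745028) (nat_lit 0) (nat_lit 34833911686) (nat_lit 28) (nat_lit 5) (nat_lit 30) (nat_lit 4) (nat_lit 28) (nat_lit 4) (nat_lit 464) (nat_lit 422) (nat_lit 314)) (XT.lf (nat_lit 0) (nat_lit 85029482963) (nat_lit 76) (nat_lit 81744196113) (nat_lit 76) (nat_lit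 1996193005) (nat_lit 27) (nat_lit 4) (nat_lit 28) (nat_lit 5) (nat_lit 28) (nat_lit 4) (nat_lit 465) (nat_lit 422) (nat_lit 313))))))) (XT.nd (nat_lit 936) (nat_lit 608) (nat_lit 0) (XT.nd (nat_lit 468) (nat_lit 304) (nat_lit 0) (XT.nd (nat_lit 234) (nat_lit 152) (nat_lit 0) (XT.nd (nat_lit 78) (nat_lit 76) (nat_lit 0) (XT.lf (nat_lit 0) (nat_lit 9932614209) (nat_lit 76) (nat_lit 33183713192) (nat_lit 152) (nat_lit 135070581420) (nat_lit 25) (nat_lit 5) (nat_lit 26) (nat_lit 5) (nat_lit 27) (nat_lit 4) (nat_lit 466) (nat_lit 422) (nat_lit 312)) (XT.nd (nat_lit 78) (nat_lit 76) (nat_lit 0) (XT.lf (nat_lit 0) (nat_lit 94540550993) (nat_lit 152) (nat_lit 72890354603) (nat_lit 0) (nat_lit 20697411239) (nat_lit 25) (nat_lit 5) (nat_lit 27) (nat_lit 4) (nat_lit 25) (nat_lit 4) (nat_lit 467) (nat_lit 422) (nat_lit 311)) (XT.lf (nat_lit 0) (nat_lit 30777141419) (nat_lit 76) (nat_lit 120902032812)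 (nat_lit 76) (nat_lit 47057826403) (nat_lit 24) (nat_lit 4) (nat_lit 25) (nat_lit 5) (nat_lit 25) (nat_lit 4) (nat_lit 468) (nat_lit 422) (nat_lit 310)))) (XT.nd (nat_lit 78) (nat_lit 76) (nat_lit 0) (XT.lf (nat_lit 0) (nat_lit 5077782726) (nat_lit 152) (nat_lit 63283405981) (nat_lit 76) (nat_lit 141663598122) (nat_lit 23) (nat_lit 5) (nat_lit 25) (nat_lit 5) (nat_lit 24) (nat_lit 4) (nat_lit 469) (nat_lit 422) (nat_lit 309)) (XT.nd (nat_lit 78) (nat_lit 0) (nat_lit 0) (XT.lf (nat_lit 0) (nat_lit 51098005795) (nat_lit 76) (nat_lit 8971279942) (nat_lit 152) (nat_lit 161950336552) (nat_lit 22) (nat_lit 5) (nat_lit 23) (nat_lit 5) (nat_lit 24) (nat_lit 4) (nat_lit 470) (nat_lit 422) (nat_lit 308)) (XT.lf (nat_lit 0) (nat_lit 122560656178) (nat_lit 152) (nat_lit 57981498964) (nat_lit 0) (nat_lit 54183845729) (nat_lit 22) (nat_lit 5) (nat_lit 24) (nat_lit 4) (nat_lit 22) (nat_lit 4) (nat_lit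 471) (nat_lit 422) (nat_lit 307))))) (XT.nd (nat_lit 234) (nat_lit 76) (nat_lit 0) (XT.nd (nat_lit 78) (nat_lit 152) (nat_lit 0) (XT.lf (nat_lit 0) (nat_lit 67115402302) (nat_lit 76) (nat_lit 124781682024) (nat_lit 76) (nat_lit 56404145628) (nat_lit 21) (nat_lit 4) (nat_lit 22) (nat_lit 5) (nat_lit 22) (nat_lit 4) (nat_lit 472) (nat_lit 422) (nat_lit 306)) (XT.nd (nat_lit 78) (nat_lit 76) (nat_lit 0) (XT.lf (nat_lit 0) (nat_lit 5252057698) (nat_lit 152) (nat_lit 57453928558) (nat_lit 76) (nat_lit 200119137606) (nat_lit 20) (nat_lit 5) (nat_lit 22) (nat_lit 5) (nat_lit 21) (nat_lit 4) (nat_lit 473) (nat_lit 422) (nat_lit 305)) (XT.lf (nat_lit 0) (nat_lit 70874963422) (nat_lit 152) (nat_lit 199791011826) (nat_lit 0) (nat_lit 7561231057) (nat_lit 19) (nat_lit 5) (nat_lit 21) (nat_lit 4) (nat_lit 19) (nat_lit 4) (nat_lit 474) (nat_lit 422) (nat_lit 304)))) (XT.nd (nat_lit 78) (nat_lit 76) (nat_lit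 0) (XT.lf (nat_lit 0) (nat_lit 144986834998) (nat_lit 152) (nat_lit 67942920678) (nat_lit 0) (nat_lit 81672569040) (nat_lit 19) (nat_lit 5) (nat_lit 21) (nat_lit 4) (nat_lit 19) (nat_lit 4) (nat_lit 475) (nat_lit 422) (nat_lit 303)) (XT.nd (nat_lit 78) (nat_lit 0) (nat_lit 0) (XT.lf (nat_lit 0) (nat_lit 78371056735) (nat_lit 76) (nat_lit 148540232642) (nat_lit 76) (nat_lit 85225472616) (nat_lit 18) (nat_lit 4) (nat_lit 19) (nat_lit 5) (nat_lit 19) (nat_lit 4) (nat_lit 476) (nat_lit 422) (nat_lit 302)) (XT.lf (nat_lit 0) (nat_lit 240251788479) (nat_lit 76) (nat_lit 76994430883) (nat_lit 76) (nat_lit 13679213387) (nat_lit 18) (nat_lit 4) (nat_lit 19) (nat_lit 5) (nat_lit 19) (nat_lit 4) (nat_lit 477) (nat_lit 422) (nat_lit 301)))))) (XT.nd (nat_lit 468) (nat_lit 228) (nat_lit 0) (XT.nd (nat_lit 234) (nat_lit 152) (nat_lit 0) (XT.nd (nat_lit 78) (nat_lit 76) (nat_lit 0) (XT.lf (nat_lit 0)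 (nat_lit 62073958705) (nat_lit 152) (nat_lit 285439382356) (nat_lit 0) (nat_lit 3448365113) (nat_lit 16) (nat_lit 5) (nat_lit 18) (nat_lit 4) (nat_lit 16) (nat_lit 4) (nat_lit 478) (nat_lit 422) (nat_lit 300)) (XT.nd (nat_lit 78) (nat_lit 76) (nat_lit 0) (XT.lf (nat_lit 0) (nat_lit 147690680134) (nat_lit 152) (nat_lit 135453667369) (nat_lit 0) (nat_lit 89064723387) (nat_lit 16) (nat_lit 5) (nat_lit 18) (nat_lit 4) (nat_lit 16) (nat_lit 4) (nat_lit 479) (nat_lit 422) (nat_lit 299)) (XT.lf (nat_lit 0) (nat_lit 27925805439) (nat_lit 76) (nat_lit 212901532249) (nat_lit 76) (nat_lit 154275239248) (nat_lit 15) (nat_lit 4) (nat_lit 16) (nat_lit 5) (nat_lit 16) (nat_lit 4) (nat_lit 480) (nat_lit 422) (nat_lit 298)))) (XT.nd (nat_lit 78) (nat_lit 152) (nat_lit 0) (XT.lf (nat_lit 0) (nat_lit 212076997077) (nat_lit 76) (nat_lit 133040483282) (nat_lit 76) (nat_lit 74413878934) (nat_lit 15) (nat_lit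 4) (nat_lit 16) (nat_lit 5) (nat_lit 16) (nat_lit 4) (nat_lit 481) (nat_lit 422) (nat_lit 297)) (XT.nd (nat_lit 78) (nat_lit 76) (nat_lit 0) (XT.lf (nat_lit 0) (nat_lit 11243344771) (nat_lit 152) (nat_lit 35240735507) (nat_lit 76) (nat_lit 399407666043) (nat_lit 14) (nat_lit 5) (nat_lit 16) (nat_lit 5) (nat_lit 15) (nat_lit 4) (nat_lit 482) (nat_lit 422) (nat_lit 296)) (XT.lf (nat_lit 0) (nat_lit 104777783987) (nat_lit 152) (nat_lit 318531583524) (nat_lit 0) (nat_lit 50493376986) (nat_lit 13) (nat_lit 5) (nat_lit 15) (nat_lit 4) (nat_lit 13) (nat_lit 4) (nat_lit 483) (nat_lit 422) (nat_lit 295))))) (XT.nd (nat_lit 234) (nat_lit 152) (nat_lit 0) (XT.nd (nat_lit 78) (nat_lit 76) (nat_lit 0) (XT.lf (nat_lit 0) (nat_lit 207990058854) (nat_lit 152) (nat_lit 142075534249) (nat_lit 0) (nat_lit 153705423004) (nat_lit 13) (nat_lit 5) (nat_lit 15) (nat_lit 4) (nat_lit 13) (nat_lit 4) (nat_lit 484)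 (nat_lit 422) (nat_lit 294)) (XT.nd (nat_lit 78) (nat_lit 0) (nat_lit 0) (XT.lf (nat_lit 0) (nat_lit 51049039358) (nat_lit 76) (nat_lit 269637201902) (nat_lit 76) (nat_lit 215352354155) (nat_lit 12) (nat_lit 4) (nat_lit 13) (nat_lit 5) (nat_lit 13) (nat_lit 4) (nat_lit 485) (nat_lit 422) (nat_lit 293)) (XT.lf (nat_lit 0) (nat_lit 267701942571) (nat_lit 76) (nat_lit 178579988711) (nat_lit 76) (nat_lit 124294944762) (nat_lit 12) (nat_lit 4) (nat_lit 13) (nat_lit 5) (nat_lit 13) (nat_lit 4) (nat_lit 486) (nat_lit 422) (nat_lit 292)))) (XT.nd (nat_lit 78) (nat_lit 152) (nat_lit 0) (XT.lf (nat_lit 0) (nat_lit 501685598590) (nat_lit 76) (nat_lit 80238952114) (nat_lit 76) (nat_lit 25953726498) (nat_lit 12) (nat_lit 4) (nat_lit 13) (nat_lit 5) (nat_lit 13) (nat_lit 4) (nat_lit 487) (nat_lit 422) (nat_lit 291)) (XT.nd (nat_lit 78) (nat_lit 0) (nat_lit 0) (XT.lf (nat_lit 0) (nat_lit 79623009284)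 (nat_lit 152) (nat_lit 538756983900) (nat_lit 0) (nat_lit 29358755740) (nat_lit 10) (nat_lit 5) (nat_lit 12) (nat_lit 4) (nat_lit 10) (nat_lit 4) (nat_lit 488) (nat_lit 422) (nat_lit 290)) (XT.lf (nat_lit 0) (nat_lit 197306060496) (nat_lit 152) (nat_lit 345981417185) (nat_lit 0) (nat_lit 147041662739) (nat_lit 10) (nat_lit 5) (nat_lit 12) (nat_lit 4) (nat_lit 10) (nat_lit 4) (nat_lit 489) (nat_lit 422) (nat_lit 289))))))))
noncomputable def xc150 : XT := (XT.nd (nat_lit 1794) (nat_lit 76) (nat_lit 0) (XT.nd (nat_lit 858) (nat_lit 152) (nat_lit 0) (XT.nd (nat_lit 390) (nat_lit 152) (nat_lit 0) (XT.nd (nat_lit 156) (nat_lit 76) (nat_lit 0) (XT.nd (nat_lit 78) (nat_lit 76) (nat_lit 0) (XT.lf (nat_lit 0) (nat_lit 324403118575) (nat_lit 152) (nat_lit 137785108366) (nat_lit 0) (nat_lit 274138587286) (nat_lit 10) (nat_lit 5) (nat_lit 12) (nat_lit 4) (nat_lit 10) (nat_lit 4) (nat_lit 490) (nat_lit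 422) (nat_lit 288)) (XT.lf (nat_lit 0) (nat_lit 91650423850) (nat_lit 76) (nat_lit 372221122318) (nat_lit 76) (nat_lit 321956467389) (nat_lit 9) (nat_lit 4) (nat_lit 10) (nat_lit 5) (nat_lit 10) (nat_lit 4) (nat_lit 491) (nat_lit 422) (nat_lit 287))) (XT.nd (nat_lit 78) (nat_lit 76) (nat_lit 0) (XT.lf (nat_lit 0) (nat_lit 347275583699) (nat_lit 76) (nat_lit 270988578700) (nat_lit 76) (nat_lit 220723809290) (nat_lit 9) (nat_lit 4) (nat_lit 10) (nat_lit 5) (nat_lit 10) (nat_lit 4) (nat_lit 492) (nat_lit 422) (nat_lit 286)) (XT.nd (nat_lit 78) (nat_lit 76) (nat_lit 0) (XT.lf (nat_lit 0) (nat_lit 623349667310) (nat_lit 76) (nat_lit 161657988573) (nat_lit 76) (nat_lit 111393113161) (nat_lit 9) (nat_lit 4) (nat_lit 10) (nat_lit 5) (nat_lit 10) (nat_lit 4) (nat_lit 493) (nat_lit 422) (nat_lit 285)) (XT.lf (nat_lit 0) (nat_lit 6349170535) (nat_lit 152) (nat_lit 37058698846) (nat_lit 76) (nat_lit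 914985901144) (nat_lit 8) (nat_lit 5) (nat_lit 10) (nat_lit 5) (nat_lit 9) (nat_lit 4) (nat_lit 494) (nat_lit 422) (nat_lit 284))))) (XT.nd (nat_lit 234) (nat_lit 76) (nat_lit 0) (XT.nd (nat_lit 78) (nat_lit 0) (nat_lit 0) (XT.lf (nat_lit 0) (nat_lit 135177165193) (nat_lit 152) (nat_lit 800687385895) (nat_lit 0) (nat_lit 88635438859) (nat_lit 7) (nat_lit 5) (nat_lit 9) (nat_lit 4) (nat_lit 7) (nat_lit 4) (nat_lit 495) (nat_lit 422) (nat_lit 283)) (XT.nd (nat_lit 78) (nat_lit 0) (nat_lit 0) (XT.lf (nat_lit 0) (nat_lit 276477977947) (nat_lit 152) (nat_lit 589307229001) (nat_lit 0) (nat_lit 229936173699) (nat_lit 7) (nat_lit 5) (nat_lit 9) (nat_lit 4) (nat_lit 7) (nat_lit 4) (nat_lit 496) (nat_lit 422) (nat_lit 282)) (XT.lf (nat_lit 0) (nat_lit 429082423038) (nat_lit 152) (nat_lit 361017547537) (nat_lit 0) (nat_lit 382540546648) (nat_lit 7) (nat_lit 5) (nat_lit 9) (nat_lit 4) (nat_lit 7) (nat_lit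 4) (nat_lit 497) (nat_lit 422) (nat_lit 281)))) (XT.nd (nat_lit 78) (nat_lit 76) (nat_lit 0) (XT.lf (nat_lit 0) (nat_lit 593894823104) (nat_lit 152) (nat_lit 114465513763) (nat_lit 0) (nat_lit 547352879915) (nat_lit 7) (nat_lit 5) (nat_lit 9) (nat_lit 4) (nat_lit 7) (nat_lit 4) (nat_lit 498) (nat_lit 422) (nat_lit 280)) (XT.nd (nat_lit 78) (nat_lit 0) (nat_lit 0) (XT.lf (nat_lit 0) (nat_lit 159803962843) (nat_lit 76) (nat_lit 615931170526) (nat_lit 76) (nat_lit 569389165486) (nat_lit 6) (nat_lit 4) (nat_lit 7) (nat_lit 5) (nat_lit 7) (nat_lit 4) (nat_lit 499) (nat_lit 422) (nat_lit 279)) (XT.lf (nat_lit 0) (nat_lit 462524010743) (nat_lit 76) (nat_lit 512727986385) (nat_lit 76) (nat_lit 466185924076) (nat_lit 6) (nat_lit 4) (nat_lit 7) (nat_lit 5) (nat_lit 7) (nat_lit 4) (nat_lit 500) (nat_lit 422) (nat_lit 278)))))) (XT.nd (nat_lit 468) (nat_lit 0) (nat_lit 0) (XT.nd (nat_lit 234) (nat_lit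 152) (nat_lit 0) (XT.nd (nat_lit 78) (nat_lit 0) (nat_lit 0) (XT.lf (nat_lit 0) (nat_lit 789460975411) (nat_lit 76) (nat_lit 401268900018) (nat_lit 76) (nat_lit 354726784681) (nat_lit 6) (nat_lit 4) (nat_lit 7) (nat_lit 5) (nat_lit 7) (nat_lit 4) (nat_lit 501) (nat_lit 422) (nat_lit 277)) (XT.nd (nat_lit 78) (nat_lit 0) (nat_lit 0) (XT.lf (nat_lit 0) (nat_lit 1142552261084) (nat_lit 76) (nat_lit 280893413134) (nat_lit 76) (nat_lit 234351248698) (nat_lit 6) (nat_lit 4) (nat_lit 7) (nat_lit 5) (nat_lit 7) (nat_lit 4) (nat_lit 502) (nat_lit 422) (nat_lit 276)) (XT.lf (nat_lit 0) (nat_lit 1523890260565) (nat_lit 76) (nat_lit 150888189514) (nat_lit 76) (nat_lit 104345979616) (nat_lit 6) (nat_lit 4) (nat_lit 7) (nat_lit 5) (nat_lit 7) (nat_lit 4) (nat_lit 503) (nat_lit 422) (nat_lit 275)))) (XT.nd (nat_lit 78) (nat_lit 0) (nat_lit 0) (XT.lf (nat_lit 0) (nat_lit 26010517745) (nat_lit 76) (nat_lit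 8870621551) (nat_lit 152) (nat_lit 1875157596283) (nat_lit 4) (nat_lit 5) (nat_lit 5) (nat_lit 5) (nat_lit 6) (nat_lit 4) (nat_lit 504) (nat_lit 422) (nat_lit 274)) (XT.nd (nat_lit 78) (nat_lit 0) (nat_lit 0) (XT.lf (nat_lit 0) (nat_lit 190244007369) (nat_lit 152) (nat_lit 1712965264417) (nat_lit 0) (nat_lit 147149293509) (nat_lit 4) (nat_lit 5) (nat_lit 6) (nat_lit 4) (nat_lit 4) (nat_lit 4) (nat_lit 505) (nat_lit 422) (nat_lit 273)) (XT.lf (nat_lit 0) (nat_lit 358266058642) (nat_lit 152) (nat_lit 1528448199085) (nat_lit 0) (nat_lit 315171311366) (nat_lit 4) (nat_lit 5) (nat_lit 6) (nat_lit 4) (nat_lit 4) (nat_lit 4) (nat_lit 506) (nat_lit 422) (nat_lit 272))))) (XT.nd (nat_lit 234) (nat_lit 0) (nat_lit 0) (XT.nd (nat_lit 78) (nat_lit 0) (nat_lit 0) (XT.lf (nat_lit 0) (nat_lit 539729640682) (nat_lit 152) (nat_lit 1329170248714) (nat_lit 0) (nat_lit 496634862465) (nat_lit 4) (nat_lit 5)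 (nat_lit 6) (nat_lit 4) (nat_lit 4) (nat_lit 4) (nat_lit 507) (nat_lit 422) (nat_lit 271)) (XT.nd (nat_lit 78) (nat_lit 0) (nat_lit 0) (XT.lf (nat_lit 0) (nat_lit 735710093236) (nat_lit 152) (nat_lit 1113950506933) (nat_lit 0) (nat_lit 692615286370) (nat_lit 4) (nat_lit 5) (nat_lit 6) (nat_lit 4) (nat_lit 4) (nat_lit 4) (nat_lit 508) (nat_lit 422) (nat_lit 270)) (XT.lf (nat_lit 0) (nat_lit 947368781948) (nat_lit 152) (nat_lit 881513597493) (nat_lit 0) (nat_lit 904273948555) (nat_lit 4) (nat_lit 5) (nat_lit 6) (nat_lit 4) (nat_lit 4) (nat_lit 4) (nat_lit 509) (nat_lit 422) (nat_lit 269)))) (XT.nd (nat_lit 78) (nat_lit 0) (nat_lit 0) (XT.lf (nat_lit 0) (nat_lit 1175959980528) (nat_lit 152) (nat_lit 630482116488) (nat_lit 0) (nat_lit 1132865122574) (nat_lit 4) (nat_lit 5) (nat_lit 6) (nat_lit 4) (nat_lit 4) (nat_lit 4) (nat_lit 510) (nat_lit 422) (nat_lit 268)) (XT.nd (nat_lit 78) (nat_lit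 0) (nat_lit 0) (XT.lf (nat_lit 0) (nat_lit 1422838303488) (nat_lit 152) (nat_lit 359368469955) (nat_lit 0) (nat_lit 1379743422791) (nat_lit 4) (nat_lit 5) (nat_lit 6) (nat_lit 4) (nat_lit 4) (nat_lit 4) (nat_lit 511) (nat_lit 422) (nat_lit 267)) (XT.lf (nat_lit 0) (nat_lit 1689466733481) (nat_lit 152) (nat_lit 66566058507) (nat_lit 0) (nat_lit 1646371831727) (nat_lit 4) (nat_lit 5) (nat_lit 6) (nat_lit 4) (nat_lit 4) (nat_lit 4) (nat_lit 512) (nat_lit 422) (nat_lit 266))))))) (XT.nd (nat_lit 936) (nat_lit 0) (nat_lit 0) (XT.nd (nat_lit 468) (nat_lit 0) (nat_lit 0) (XT.nd (nat_lit 234) (nat_lit 0) (nat_lit 0) (XT.nd (nat_lit 78) (nat_lit 0) (nat_lit 0) (XT.lf (nat_lit 0) (nat_lit 262806909229) (nat_lit 76) (nat_lit 1720938894092) (nat_lit 76) (nat_lit 1677843972840) (nat_lit 3) (nat_lit 4) (nat_lit 4) (nat_lit 5) (nat_lit 4) (nat_lit 4) (nat_lit 513) (nat_lit 422) (nat_lit 265)) (XT.nd (nat_lit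 78) (nat_lit 0) (nat_lit 0) (XT.lf (nat_lit 0) (nat_lit 622315090175) (nat_lit 76) (nat_lit 1681071999337) (nat_lit 76) (nat_lit 1637977060031) (nat_lit 3) (nat_lit 4) (nat_lit 4) (nat_lit 5) (nat_lit 4) (nat_lit 4) (nat_lit 514) (nat_lit 422) (nat_lit 264)) (XT.lf (nat_lit 0) (nat_lit 1010583652505) (nat_lit 76) (nat_lit 1638015893462) (nat_lit 76) (nat_lit 1594920937439) (nat_lit 3) (nat_lit 4) (nat_lit 4) (nat_lit 5) (nat_lit 4) (nat_lit 4) (nat_lit 515) (nat_lit 422) (nat_lit 263)))) (XT.nd (nat_lit 78) (nat_lit 0) (nat_lit 0) (XT.lf (nat_lit 0) (nat_lit 1429913446958) (nat_lit 76) (nat_lit 1591515429174) (nat_lit 76) (nat_lit 1548420457673) (nat_lit 3) (nat_lit 4) (nat_lit 4) (nat_lit 5) (nat_lit 4) (nat_lit 4) (nat_lit 516) (nat_lit 422) (nat_lit 262)) (XT.nd (nat_lit 78) (nat_lit 0) (nat_lit 0) (XT.lf (nat_lit 0) (nat_lit 1882789390836) (nat_lit 76) (nat_lit 1541295048165) (nat_lit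 76) (nat_lit 1498200062333) (nat_lit 3) (nat_lit 4) (nat_lit 4) (nat_lit 5) (nat_lit 4) (nat_lit 4) (nat_lit 517) (nat_lit 422) (nat_lit 261)) (XT.lf (nat_lit 0) (nat_lit 2371895193434) (nat_lit 76) (nat_lit 1487057148179) (nat_lit 76) (nat_lit 1443962149077) (nat_lit 3) (nat_lit 4) (nat_lit 4) (nat_lit 5) (nat_lit 4) (nat_lit 4) (nat_lit 518) (nat_lit 422) (nat_lit 260))))) (XT.nd (nat_lit 234) (nat_lit 0) (nat_lit 0) (XT.nd (nat_lit 78) (nat_lit 0) (nat_lit 0) (XT.lf (nat_lit 0) (nat_lit 2900129259509) (nat_lit 76) (nat_lit 1428480319436) (nat_lit 76) (nat_lit 1385385308047) (nat_lit 3) (nat_lit 4) (nat_lit 4) (nat_lit 5) (nat_lit 4) (nat_lit 4) (nat_lit 519) (nat_lit 422) (nat_lit 259)) (XT.nd (nat_lit 78) (nat_lit 0) (nat_lit 0) (XT.lf (nat_lit 0) (nat_lit 3470621865008) (nat_lit 76) (nat_lit 1365217439990) (nat_lit 76) (nat_lit 1322122417224) (nat_lit 3) (nat_lit 4) (nat_lit 4) (nat_lit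 5) (nat_lit 4) (nat_lit 4) (nat_lit 520) (nat_lit 422) (nat_lit 258)) (XT.lf (nat_lit 0) (nat_lit 4086753706853) (nat_lit 76) (nat_lit 1296893618703) (nat_lit 76) (nat_lit 1253798585403) (nat_lit 3) (nat_lit 4) (nat_lit 4) (nat_lit 5) (nat_lit 4) (nat_lit 4) (nat_lit 521) (nat_lit 422) (nat_lit 257)))) (XT.nd (nat_lit 78) (nat_lit 0) (nat_lit 0) (XT.lf (nat_lit 0) (nat_lit 4752175936698) (nat_lit 76) (nat_lit 1223103973670) (nat_lit 76) (nat_lit 1180008930616) (nat_lit 3) (nat_lit 4) (nat_lit 4) (nat_lit 5) (nat_lit 4) (nat_lit 4) (nat_lit 522) (nat_lit 422) (nat_lit 256)) (XT.nd (nat_lit 78) (nat_lit 0) (nat_lit 0) (XT.lf (nat_lit 0) (nat_lit 5470831797388) (nat_lit 76) (nat_lit 1143411232921) (nat_lit 76) (nat_lit 1100316180836) (nat_lit 3) (nat_lit 4) (nat_lit 4) (nat_lit 5) (nat_lit 4) (nat_lit 4) (nat_lit 523) (nat_lit 422) (nat_lit 255)) (XT.lf (nat_lit 0) (nat_lit 6246979990320)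 (nat_lit 76) (nat_lit 1057343143178) (nat_lit 76) (nat_lit 1014248082731) (nat_lit 3) (nat_lit 4) (nat_lit 4) (nat_lit 5) (nat_lit 4) (nat_lit 4) (nat_lit 524) (nat_lit 422) (nat_lit 254)))))) (XT.nd (nat_lit 54678) (nat_lit 0) (nat_lit 5244) (XT.nd (nat_lit 234) (nat_lit 0) (nat_lit 0) (XT.nd (nat_lit 78) (nat_lit 0) (nat_lit 0) (XT.lf (nat_lit 0) (nat_lit 7085219912191) (nat_lit 76) (nat_lit 964389671317) (nat_lit 76) (nat_lit 921294603126) (nat_lit 3) (nat_lit 4) (nat_lit 4) (nat_lit 5) (nat_lit 4) (nat_lit 4) (nat_lit 525) (nat_lit 422) (nat_lit 253)) (XT.nd (nat_lit 78) (nat_lit 0) (nat_lit 0) (XT.lf (nat_lit 0) (nat_lit 7990518910688) (nat_lit 76) (nat_lit 863999981948) (nat_lit 76) (nat_lit 820904906588) (nat_lit 3) (nat_lit 4) (nat_lit 4) (nat_lit 5) (nat_lit 4) (nat_lit 4) (nat_lit 526) (nat_lit 422) (nat_lit 252)) (XT.lf (nat_lit 0) (nat_lit 8968241720615) (nat_lit 76) (nat_lit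 755579173208) (nat_lit 76) (nat_lit 712484091210) (nat_lit 3) (nat_lit 4) (nat_lit 4) (nat_lit 5) (nat_lit 4) (nat_lit 4) (nat_lit 527) (nat_lit 422) (nat_lit 251)))) (XT.nd (nat_lit 54288) (nat_lit 0) (nat_lit 5700) (XT.lf (nat_lit 0) (nat_lit 10024182254922) (nat_lit 76) (nat_lit 638484751416) (nat_lit 76) (nat_lit 595389663272) (nat_lit 3) (nat_lit 4) (nat_lit 4) (nat_lit 5) (nat_lit 4) (nat_lit 4) (nat_lit 528) (nat_lit 422) (nat_lit 250)) (XT.nd (nat_lit 78) (nat_lit 0) (nat_lit 0) (XT.lf (nat_lit 0) (nat_lit 10876016755) (nat_lit 532) (nat_lit 543778120) (nat_lit 532) (nat_lit 543778120) (nat_lit 78) (nat_lit 3) (nat_lit 85) (nat_lit 3) (nat_lit 85) (nat_lit 5) (nat_lit 423) (nat_lit 423) (nat_lit 354)) (XT.lf (nat_lit 76) (nat_lit 11298063051) (nat_lit 0) (nat_lit 11704063397) (nat_lit 532) (nat_lit 1851660929) (nat_lit 79) (nat_lit 5) (nat_lit 78) (nat_lit 3) (nat_lit 85) (nat_lit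 5) (nat_lit 424) (nat_lit 423) (nat_lit 353))))) (XT.nd (nat_lit 234) (nat_lit 0) (nat_lit 76) (XT.nd (nat_lit 78) (nat_lit 532) (nat_lit 0) (XT.lf (nat_lit 0) (nat_lit 24379619626) (nat_lit 456) (nat_lit 1131482780) (nat_lit 532) (nat_lit 341270599) (nat_lit 79) (nat_lit 5) (nat_lit 85) (nat_lit 5) (nat_lit 86) (nat_lit 5) (nat_lit 425) (nat_lit 423) (nat_lit 352)) (XT.nd (nat_lit 78) (nat_lit 532) (nat_lit 0) (XT.lf (nat_lit 76) (nat_lit 12606705331) (nat_lit 0) (nat_lit 13857738370) (nat_lit 532) (nat_lit 418635298) (nat_lit 80) (nat_lit 5) (nat_lit 79) (nat_lit 5) (nat_lit 86) (nat_lit 5) (nat_lit 426) (nat_lit 423) (nat_lit 351)) (XT.lf (nat_lit 0) (nat_lit 705823175) (nat_lit 532) (nat_lit 510561769) (nat_lit 608) (nat_lit 26776713556) (nat_lit 72) (nat_lit 5) (nat_lit 79) (nat_lit 5) (nat_lit 80) (nat_lit 5) (nat_lit 427) (nat_lit 423) (nat_lit 350)))) (XT.nd (nat_lit 78) (nat_lit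 0) (nat_lit 0) (XT.lf (nat_lit 0) (nat_lit 2560502389) (nat_lit 532) (nat_lit 14377339889) (nat_lit 608) (nat_lit 12200180092) (nat_lit 73) (nat_lit 5) (nat_lit 80) (nat_lit 5) (nat_lit 81) (nat_lit 5) (nat_lit 428) (nat_lit 423) (nat_lit 349)) (XT.nd (nat_lit 78) (nat_lit 0) (nat_lit 76) (XT.lf (nat_lit 76) (nat_lit 916076632) (nat_lit 0) (nat_lit 3706994299) (nat_lit 608) (nat_lit 25746710985) (nat_lit 74) (nat_lit 5) (nat_lit 73) (nat_lit 5) (nat_lit 81) (nat_lit 5) (nat_lit 429) (nat_lit 423) (nat_lit 348)) (XT.lf (nat_lit 0) (nat_lit 7500515907) (nat_lit 532) (nat_lit 13690251844) (nat_lit 76) (nat_lit 10457327541) (nat_lit 74) (nat_lit 5) (nat_lit 81) (nat_lit 5) (nat_lit 75) (nat_lit 5) (nat_lit 430) (nat_lit 423) (nat_lit 347))))))))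
noncomputable def xc151 : XT := (XT.nd (nat_lit 1794) (nat_lit 1596) (nat_lit 0) (XT.nd (nat_lit 858) (nat_lit 1140) (nat_lit 0) (XT.nd (nat_lit 390) (nat_lit 608) (nat_lit 0) (XT.nd (nat_lit 156) (nat_lit 456) (nat_lit 0) (XT.nd (nat_lit 78) (nat_lit 0) (nat_lit 0) (XT.lf (nat_lit 0) (nat_lit 3401168859) (nat_lit 456) (nat_lit 7377713486) (nat_lit 532) (nat_lit 22236135866) (nat_lit 68) (nat_lit 5) (nat_lit 74) (nat_lit 5) (nat_lit 75) (nat_lit 5) (nat_lit 431) (nat_lit 423) (nat_lit 346)) (XT.lf (nat_lit 0) (nat_lit 14877931210) (nat_lit 532) (nat_lit 12021291033) (nat_lit 76) (nat_lit 7547402024) (nat_lit 68) (nat_lit 5) (nat_lit 75) (nat_lit 5) (nat_lit 69) (nat_lit 5) (nat_lit 432) (nat_lit 423) (nat_lit 345))) (XT.nd (nat_lit 78) (nat_lit 228) (nat_lit 0) (XT.lf (nat_lit 0) (nat_lit 7137270454) (nat_lit 228) (nat_lit 12524458826) (nat_lit 304) (nat_lit 16302485682) (nat_lit 65) (nat_lit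 5) (nat_lit 68) (nat_lit 5) (nat_lit 69) (nat_lit 5) (nat_lit 433) (nat_lit 423) (nat_lit 344)) (XT.nd (nat_lit 78) (nat_lit 228) (nat_lit 0) (XT.lf (nat_lit 0) (nat_lit 25231460197) (nat_lit 304) (nat_lit 9152550430) (nat_lit 76) (nat_lit 3186945981) (nat_lit 65) (nat_lit 5) (nat_lit 69) (nat_lit 5) (nat_lit 66) (nat_lit 5) (nat_lit 434) (nat_lit 423) (nat_lit 343)) (XT.lf (nat_lit 0) (nat_lit 12383361224) (nat_lit 228) (nat_lit 19480845997) (nat_lit 304) (nat_lit 7392637225) (nat_lit 62) (nat_lit 5) (nat_lit 65) (nat_lit 5) (nat_lit 66) (nat_lit 5) (nat_lit 435) (nat_lit 423) (nat_lit 342))))) (XT.nd (nat_lit 234) (nat_lit 152) (nat_lit 0) (XT.nd (nat_lit 78) (nat_lit 456) (nat_lit 0) (XT.lf (nat_lit 0) (nat_lit 36156237067) (nat_lit 228) (nat_lit 3116158019) (nat_lit 304) (nat_lit 1785624265) (nat_lit 62) (nat_lit 5) (nat_lit 65) (nat_lit 5) (nat_lit 66) (nat_lit 5) (nat_lit 436) (nat_lit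 423) (nat_lit 341)) (XT.nd (nat_lit 78) (nat_lit 228) (nat_lit 0) (XT.lf (nat_lit 0) (nat_lit 4890149603) (nat_lit 228) (nat_lit 23618200738) (nat_lit 76) (nat_lit 14420019996) (nat_lit 59) (nat_lit 5) (nat_lit 62) (nat_lit 5) (nat_lit 60) (nat_lit 5) (nat_lit 437) (nat_lit 423) (nat_lit 340)) (XT.lf (nat_lit 0) (nat_lit 697900809) (nat_lit 228) (nat_lit 11535895415) (nat_lit 304) (nat_lit 32692421688) (nat_lit 56) (nat_lit 5) (nat_lit 59) (nat_lit 5) (nat_lit 60) (nat_lit 5) (nat_lit 438) (nat_lit 423) (nat_lit 339)))) (XT.nd (nat_lit 78) (nat_lit 152) (nat_lit 0) (XT.lf (nat_lit 0) (nat_lit 20986107049) (nat_lit 304) (nat_lit 18916541003) (nat_lit 76) (nat_lit 7115552713) (nat_lit 56) (nat_lit 5) (nat_lit 60) (nat_lit 5) (nat_lit 57) (nat_lit 5) (nat_lit 439) (nat_lit 423) (nat_lit 338)) (XT.nd (nat_lit 78) (nat_lit 0) (nat_lit 0) (XT.lf (nat_lit 0) (nat_lit 8541714533) (nat_lit 152)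 (nat_lit 22397535028) (nat_lit 228) (nat_lit 18298242117) (nat_lit 54) (nat_lit 5) (nat_lit 56) (nat_lit 5) (nat_lit 57) (nat_lit 5) (nat_lit 440) (nat_lit 423) (nat_lit 337)) (XT.lf (nat_lit 0) (nat_lit 39266465745) (nat_lit 152) (nat_lit 2935157811) (nat_lit 228) (nat_lit 9391664992) (nat_lit 54) (nat_lit 5) (nat_lit 56) (nat_lit 5) (nat_lit 57) (nat_lit 5) (nat_lit 441) (nat_lit 423) (nat_lit 336)))))) (XT.nd (nat_lit 468) (nat_lit 456) (nat_lit 0) (XT.nd (nat_lit 234) (nat_lit 304) (nat_lit 0) (XT.nd (nat_lit 78) (nat_lit 152) (nat_lit 0) (XT.lf (nat_lit 0) (nat_lit 1122402628) (nat_lit 228) (nat_lit 35283319518) (nat_lit 76) (nat_lit 17658883026) (nat_lit 51) (nat_lit 5) (nat_lit 54) (nat_lit 5) (nat_lit 52) (nat_lit 5) (nat_lit 442) (nat_lit 423) (nat_lit 335)) (XT.nd (nat_lit 78) (nat_lit 152) (nat_lit 0) (XT.lf (nat_lit 0) (nat_lit 12388331826) (nat_lit 228) (nat_lit 3962374044)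 (nat_lit 76) (nat_lit 40329956573) (nat_lit 51) (nat_lit 5) (nat_lit 54) (nat_lit 5) (nat_lit 52) (nat_lit 5) (nat_lit 443) (nat_lit 423) (nat_lit 334)) (XT.lf (nat_lit 0) (nat_lit 25455109794) (nat_lit 228) (nat_lit 28161950529) (nat_lit 76) (nat_lit 5816978819) (nat_lit 49) (nat_lit 5) (nat_lit 52) (nat_lit 5) (nat_lit 50) (nat_lit 5) (nat_lit 444) (nat_lit 423) (nat_lit 333)))) (XT.nd (nat_lit 78) (nat_lit 152) (nat_lit 0) (XT.lf (nat_lit 0) (nat_lit 7072393272) (nat_lit 152) (nat_lit 33197260090) (nat_lit 228) (nat_lit 22081839487) (nat_lit 47) (nat_lit 5) (nat_lit 49) (nat_lit 5) (nat_lit 50) (nat_lit 5) (nat_lit 445) (nat_lit 423) (nat_lit 332)) (XT.nd (nat_lit 78) (nat_lit 152) (nat_lit 0) (XT.lf (nat_lit 0) (nat_lit 46721697518) (nat_lit 152) (nat_lit 10314277543) (nat_lit 228) (nat_lit 8405039306) (nat_lit 47) (nat_lit 5) (nat_lit 49) (nat_lit 5) (nat_lit 50) (nat_lit 5) (nat_lit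 446) (nat_lit 423) (nat_lit 331)) (XT.lf (nat_lit 0) (nat_lit 6929723359) (nat_lit 152) (nat_lit 47395633898) (nat_lit 76) (nat_lit 14369511580) (nat_lit 45) (nat_lit 5) (nat_lit 47) (nat_lit 5) (nat_lit 46) (nat_lit 5) (nat_lit 447) (nat_lit 423) (nat_lit 330))))) (XT.nd (nat_lit 234) (nat_lit 228) (nat_lit 0) (XT.nd (nat_lit 78) (nat_lit 228) (nat_lit 0) (XT.lf (nat_lit 0) (nat_lit 23827049843) (nat_lit 152) (nat_lit 7088965988) (nat_lit 76) (nat_lit 41212361504) (nat_lit 45) (nat_lit 5) (nat_lit 47) (nat_lit 5) (nat_lit 46) (nat_lit 5) (nat_lit 448) (nat_lit 423) (nat_lit 329)) (XT.nd (nat_lit 78) (nat_lit 76) (nat_lit 0) (XT.lf (nat_lit 0) (nat_lit 38356126314) (nat_lit 152) (nat_lit 4639591356) (nat_lit 228) (nat_lit 32767284928) (nat_lit 43) (nat_lit 5) (nat_lit 45) (nat_lit 5) (nat_lit 46) (nat_lit 5) (nat_lit 449) (nat_lit 423) (nat_lit 328)) (XT.lf (nat_lit 0) (nat_lit 7985716490)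 (nat_lit 76) (nat_lit 56671146455) (nat_lit 152) (nat_lit 14954816684) (nat_lit 42) (nat_lit 5) (nat_lit 43) (nat_lit 5) (nat_lit 44) (nat_lit 4) (nat_lit 450) (nat_lit 423) (nat_lit 327)))) (XT.nd (nat_lit 78) (nat_lit 152) (nat_lit 0) (XT.lf (nat_lit 0) (nat_lit 5235428632) (nat_lit 152) (nat_lit 24804342554) (nat_lit 76) (nat_lit 53626879007) (nat_lit 41) (nat_lit 5) (nat_lit 43) (nat_lit 5) (nat_lit 42) (nat_lit 5) (nat_lit 451) (nat_lit 423) (nat_lit 326)) (XT.nd (nat_lit 78) (nat_lit 0) (nat_lit 0) (XT.lf (nat_lit 0) (nat_lit 26705955273) (nat_lit 152) (nat_lit 166648671) (nat_lit 228) (nat_lit 61091167172) (nat_lit 39) (nat_lit 5) (nat_lit 41) (nat_lit 5) (nat_lit 42) (nat_lit 5) (nat_lit 452) (nat_lit 423) (nat_lit 325)) (XT.lf (nat_lit 0) (nat_lit 51705902212) (nat_lit 228) (nat_lit 9596814469) (nat_lit 76) (nat_lit 31184733462) (nat_lit 39) (nat_lit 5) (nat_lit 42) (nat_lit 5)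 (nat_lit 40) (nat_lit 4) (nat_lit 453) (nat_lit 423) (nat_lit 324))))))) (XT.nd (nat_lit 936) (nat_lit 760) (nat_lit 0) (XT.nd (nat_lit 468) (nat_lit 304) (nat_lit 0) (XT.nd (nat_lit 234) (nat_lit 228) (nat_lit 0) (XT.nd (nat_lit 78) (nat_lit 228) (nat_lit 0) (XT.lf (nat_lit 0) (nat_lit 48620685218) (nat_lit 76) (nat_lit 31076448755) (nat_lit 152) (nat_lit 17582188266) (nat_lit 38) (nat_lit 5) (nat_lit 39) (nat_lit 5) (nat_lit 40) (nat_lit 4) (nat_lit 454) (nat_lit 423) (nat_lit 323)) (XT.nd (nat_lit 78) (nat_lit 0) (nat_lit 0) (XT.lf (nat_lit 0) (nat_lit 7660043711) (nat_lit 228) (nat_lit 92542386943) (nat_lit 76) (nat_lit 2192874682) (nat_lit 35) (nat_lit 5) (nat_lit 38) (nat_lit 5) (nat_lit 36) (nat_lit 4) (nat_lit 455) (nat_lit 423) (nat_lit 322)) (XT.lf (nat_lit 0) (nat_lit 36141569104) (nat_lit 228) (nat_lit 33304197738) (nat_lit 76) (nat_lit 38264681297) (nat_lit 35) (nat_lit 5)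 (nat_lit 38) (nat_lit 5) (nat_lit 36) (nat_lit 4) (nat_lit 456) (nat_lit 423) (nat_lit 321)))) (XT.nd (nat_lit 78) (nat_lit 152) (nat_lit 0) (XT.lf (nat_lit 0) (nat_lit 32284038986) (nat_lit 76) (nat_lit 35391842473) (nat_lit 152) (nat_lit 45712979948) (nat_lit 34) (nat_lit 5) (nat_lit 35) (nat_lit 5) (nat_lit 36) (nat_lit 4) (nat_lit 457) (nat_lit 423) (nat_lit 320)) (XT.nd (nat_lit 78) (nat_lit 152) (nat_lit 0) (XT.lf (nat_lit 0) (nat_lit 102698386445) (nat_lit 152) (nat_lit 14496331242) (nat_lit 0) (nat_lit 2249594453) (nat_lit 34) (nat_lit 5) (nat_lit 36) (nat_lit 4) (nat_lit 34) (nat_lit 4) (nat_lit 458) (nat_lit 423) (nat_lit 319)) (XT.lf (nat_lit 0) (nat_lit 16220324804) (nat_lit 152) (nat_lit 66713003455) (nat_lit 76) (nat_lit 42830170275) (nat_lit 32) (nat_lit 5) (nat_lit 34) (nat_lit 5) (nat_lit 33) (nat_lit 4) (nat_lit 459) (nat_lit 423) (nat_lit 318))))) (XT.nd (nat_lit 234)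 (nat_lit 152) (nat_lit 0) (XT.nd (nat_lit 78) (nat_lit 76) (nat_lit 0) (XT.lf (nat_lit 0) (nat_lit 6631744541) (nat_lit 76) (nat_lit 44851585467) (nat_lit 152) (nat_lit 81024959705) (nat_lit 31) (nat_lit 5) (nat_lit 32) (nat_lit 5) (nat_lit 33) (nat_lit 4) (nat_lit 460) (nat_lit 423) (nat_lit 317)) (XT.nd (nat_lit 78) (nat_lit 76) (nat_lit 0) (XT.lf (nat_lit 0) (nat_lit 89634470834) (nat_lit 76) (nat_lit 1755041165) (nat_lit 152) (nat_lit 48257381436) (nat_lit 31) (nat_lit 5) (nat_lit 32) (nat_lit 5) (nat_lit 33) (nat_lit 4) (nat_lit 461) (nat_lit 423) (nat_lit 316)) (XT.lf (nat_lit 0) (nat_lit 32464173009) (nat_lit 76) (nat_lit 103880150007) (nat_lit 76) (nat_lit 10863771830) (nat_lit 30) (nat_lit 4) (nat_lit 31) (nat_lit 5) (nat_lit 31) (nat_lit 4) (nat_lit 462) (nat_lit 423) (nat_lit 315)))) (XT.nd (nat_lit 78) (nat_lit 76) (nat_lit 0) (XT.lf (nat_lit 0) (nat_lit 29491277122) (nat_lit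 152) (nat_lit 31676214410) (nat_lit 76) (nat_lit 94034163724) (nat_lit 29) (nat_lit 5) (nat_lit 31) (nat_lit 5) (nat_lit 30) (nat_lit 4) (nat_lit 463) (nat_lit 423) (nat_lit 314)) (XT.nd (nat_lit 78) (nat_lit 0) (nat_lit 0) (XT.lf (nat_lit 0) (nat_lit 60792611892) (nat_lit 76) (nat_lit 13155585215) (nat_lit 152) (nat_lit 89747097999) (nat_lit 28) (nat_lit 5) (nat_lit 29) (nat_lit 5) (nat_lit 30) (nat_lit 4) (nat_lit 464) (nat_lit 423) (nat_lit 313)) (XT.lf (nat_lit 0) (nat_lit 123779261846) (nat_lit 152) (nat_lit 11295133476) (nat_lit 0) (nat_lit 37648623638) (nat_lit 28) (nat_lit 5) (nat_lit 30) (nat_lit 4) (nat_lit 28) (nat_lit 4) (nat_lit 465) (nat_lit 423) (nat_lit 312)))))) (XT.nd (nat_lit 468) (nat_lit 304) (nat_lit 0) (XT.nd (nat_lit 234) (nat_lit 228) (nat_lit 0) (XT.nd (nat_lit 78) (nat_lit 152) (nat_lit 0) (XT.lf (nat_lit 0) (nat_lit 91893199055) (nat_lit 76) (nat_lit 88253814010)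 (nat_lit 76) (nat_lit 2121931654) (nat_lit 27) (nat_lit 4) (nat_lit 28) (nat_lit 5) (nat_lit 28) (nat_lit 4) (nat_lit 466) (nat_lit 423) (nat_lit 311)) (XT.nd (nat_lit 78) (nat_lit 0) (nat_lit 0) (XT.lf (nat_lit 0) (nat_lit 10788684866) (nat_lit 76) (nat_lit 35808295523) (nat_lit 152) (nat_lit 145842371718) (nat_lit 25) (nat_lit 5) (nat_lit 26) (nat_lit 5) (nat_lit 27) (nat_lit 4) (nat_lit 467) (nat_lit 423) (nat_lit 310)) (XT.lf (nat_lit 0) (nat_lit 102133490493) (nat_lit 152) (nat_lit 78663021230) (nat_lit 0) (nat_lit 22379693272) (nat_lit 25) (nat_lit 5) (nat_lit 27) (nat_lit 4) (nat_lit 25) (nat_lit 4) (nat_lit 468) (nat_lit 423) (nat_lit 309)))) (XT.nd (nat_lit 78) (nat_lit 152) (nat_lit 0) (XT.lf (nat_lit 0) (nat_lit 33296391898) (nat_lit 76) (nat_lit 130545984787) (nat_lit 76) (nat_lit 50791273080) (nat_lit 24) (nat_lit 4) (nat_lit 25) (nat_lit 5) (nat_lit 25) (nat_lit 4) (nat_lit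 469) (nat_lit 423) (nat_lit 308)) (XT.nd (nat_lit 78) (nat_lit 76) (nat_lit 0) (XT.lf (nat_lit 0) (nat_lit 5511431005) (nat_lit 152) (nat_lit 68291781961) (nat_lit 76) (nat_lit 153021361525) (nat_lit 23) (nat_lit 5) (nat_lit 25) (nat_lit 5) (nat_lit 24) (nat_lit 4) (nat_lit 470) (nat_lit 423) (nat_lit 307)) (XT.lf (nat_lit 0) (nat_lit 55238768162) (nat_lit 76) (nat_lit 9662727336) (nat_lit 152) (nat_lit 174877562079) (nat_lit 22) (nat_lit 5) (nat_lit 23) (nat_lit 5) (nat_lit 24) (nat_lit 4) (nat_lit 471) (nat_lit 423) (nat_lit 306))))) (XT.nd (nat_lit 234) (nat_lit 152) (nat_lit 0) (XT.nd (nat_lit 78) (nat_lit 152) (nat_lit 0) (XT.lf (nat_lit 0) (nat_lit 132390784909) (nat_lit 152) (nat_lit 62569625396) (nat_lit 0) (nat_lit 58541647480) (nat_lit 22) (nat_lit 5) (nat_lit 24) (nat_lit 4) (nat_lit 22) (nat_lit 4) (nat_lit 472) (nat_lit 423) (nat_lit 305)) (XT.nd (nat_lit 78) (nat_lit 76) (nat_lit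 0) (XT.lf (nat_lit 0) (nat_lit 72533752187) (nat_lit 76) (nat_lit 134739684091) (nat_lit 76) (nat_lit 60889924278) (nat_lit 21) (nat_lit 4) (nat_lit 22) (nat_lit 5) (nat_lit 22) (nat_lit 4) (nat_lit 473) (nat_lit 423) (nat_lit 304)) (XT.lf (nat_lit 0) (nat_lit 5695578528) (nat_lit 152) (nat_lit 62003532754) (nat_lit 76) (nat_lit 216150153152) (nat_lit 20) (nat_lit 5) (nat_lit 22) (nat_lit 5) (nat_lit 21) (nat_lit 4) (nat_lit 474) (nat_lit 423) (nat_lit 303)))) (XT.nd (nat_lit 78) (nat_lit 76) (nat_lit 0) (XT.lf (nat_lit 0) (nat_lit 76568230055) (nat_lit 152) (nat_lit 215727495253) (nat_lit 0) (nat_lit 8187795160) (nat_lit 19) (nat_lit 5) (nat_lit 21) (nat_lit 4) (nat_lit 19) (nat_lit 4) (nat_lit 475) (nat_lit 423) (nat_lit 302)) (XT.nd (nat_lit 78) (nat_lit 76) (nat_lit 0) (XT.lf (nat_lit 0) (nat_lit 156607327687) (nat_lit 152) (nat_lit 73335023295) (nat_lit 0) (nat_lit 88226435321) (nat_lit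 19) (nat_lit 5) (nat_lit 21) (nat_lit 4) (nat_lit 19) (nat_lit 4) (nat_lit 476) (nat_lit 423) (nat_lit 301)) (XT.lf (nat_lit 0) (nat_lit 84682975322) (nat_lit 76) (nat_lit 160402182832) (nat_lit 76) (nat_lit 92020866882) (nat_lit 18) (nat_lit 4) (nat_lit 19) (nat_lit 5) (nat_lit 19) (nat_lit 4) (nat_lit 477) (nat_lit 423) (nat_lit 300))))))))
noncomputable def xc152 : XT := (XT.nd (nat_lit 1794) (nat_lit 228) (nat_lit 0) (XT.nd (nat_lit 858) (nat_lit 456) (nat_lit 0) (XT.nd (nat_lit 390) (nat_lit 228) (nat_lit 0) (XT.nd (nat_lit 156) (nat_lit 76) (nat_lit 0) (XT.nd (nat_lit 78) (nat_lit 152) (nat_lit 0) (XT.lf (nat_lit 0) (nat_lit 259511037158) (nat_lit 76) (nat_lit 83134292371) (nat_lit 76) (nat_lit 14752584214) (nat_lit 18) (nat_lit 4) (nat_lit 19) (nat_lit 5) (nat_lit 19) (nat_lit 4) (nat_lit 478) (nat_lit 423) (nat_lit 299)) (XT.lf (nat_lit 0) (nat_lit 67059733853) (nat_lit 152) (nat_lit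 308234318452) (nat_lit 0) (nat_lit 3743001157) (nat_lit 16) (nat_lit 5) (nat_lit 18) (nat_lit 4) (nat_lit 16) (nat_lit 4) (nat_lit 479) (nat_lit 423) (nat_lit 298))) (XT.nd (nat_lit 78) (nat_lit 76) (nat_lit 0) (XT.lf (nat_lit 0) (nat_lit 159524322000) (nat_lit 152) (nat_lit 146252725117) (nat_lit 0) (nat_lit 96207277957) (nat_lit 16) (nat_lit 5) (nat_lit 18) (nat_lit 4) (nat_lit 16) (nat_lit 4) (nat_lit 480) (nat_lit 423) (nat_lit 297)) (XT.nd (nat_lit 78) (nat_lit 0) (nat_lit 0) (XT.lf (nat_lit 0) (nat_lit 30196162841) (nat_lit 76) (nat_lit 229915260131) (nat_lit 76) (nat_lit 166597927805) (nat_lit 15) (nat_lit 4) (nat_lit 16) (nat_lit 5) (nat_lit 16) (nat_lit 4) (nat_lit 481) (nat_lit 423) (nat_lit 296)) (XT.lf (nat_lit 0) (nat_lit 229076761442) (nat_lit 76) (nat_lit 143666689816) (nat_lit 76) (nat_lit 80349090561) (nat_lit 15) (nat_lit 4) (nat_lit 16) (nat_lit 5) (nat_lit 16) (nat_lit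 4) (nat_lit 482) (nat_lit 423) (nat_lit 295))))) (XT.nd (nat_lit 234) (nat_lit 76) (nat_lit 0) (XT.nd (nat_lit 78) (nat_lit 76) (nat_lit 0) (XT.lf (nat_lit 0) (nat_lit 12158556170) (nat_lit 152) (nat_lit 38028049577) (nat_lit 76) (nat_lit 431375220414) (nat_lit 14) (nat_lit 5) (nat_lit 16) (nat_lit 5) (nat_lit 15) (nat_lit 4) (nat_lit 483) (nat_lit 423) (nat_lit 294)) (XT.nd (nat_lit 78) (nat_lit 0) (nat_lit 0) (XT.lf (nat_lit 0) (nat_lit 113175713360) (nat_lit 152) (nat_lit 343982127938) (nat_lit 0) (nat_lit 54547865895) (nat_lit 13) (nat_lit 5) (nat_lit 15) (nat_lit 4) (nat_lit 13) (nat_lit 4) (nat_lit 484) (nat_lit 423) (nat_lit 293)) (XT.lf (nat_lit 0) (nat_lit 224643806759) (nat_lit 152) (nat_lit 153411963777) (nat_lit 0) (nat_lit 166015763094) (nat_lit 13) (nat_lit 5) (nat_lit 15) (nat_lit 4) (nat_lit 13) (nat_lit 4) (nat_lit 485) (nat_lit 423) (nat_lit 292)))) (XT.nd (nat_lit 78)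 (nat_lit 0) (nat_lit 0) (XT.lf (nat_lit 0) (nat_lit 55161826017) (nat_lit 76) (nat_lit 291193474636) (nat_lit 76) (nat_lit 232565249303) (nat_lit 12) (nat_lit 4) (nat_lit 13) (nat_lit 5) (nat_lit 13) (nat_lit 4) (nat_lit 486) (nat_lit 423) (nat_lit 291)) (XT.nd (nat_lit 78) (nat_lit 0) (nat_lit 0) (XT.lf (nat_lit 0) (nat_lit 289144823449) (nat_lit 76) (nat_lit 192852773532) (nat_lit 76) (nat_lit 134224379987) (nat_lit 12) (nat_lit 4) (nat_lit 13) (nat_lit 5) (nat_lit 13) (nat_lit 4) (nat_lit 487) (nat_lit 423) (nat_lit 290)) (XT.lf (nat_lit 0) (nat_lit 541845192285) (nat_lit 76) (nat_lit 86645462472) (nat_lit 76) (nat_lit 28016913177) (nat_lit 12) (nat_lit 4) (nat_lit 13) (nat_lit 5) (nat_lit 13) (nat_lit 4) (nat_lit 488) (nat_lit 423) (nat_lit 289)))))) (XT.nd (nat_lit 468) (nat_lit 228) (nat_lit 0) (XT.nd (nat_lit 234) (nat_lit 76) (nat_lit 0) (XT.nd (nat_lit 78) (nat_lit 0) (nat_lit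 0) (XT.lf (nat_lit 0) (nat_lit 86005282160) (nat_lit 152) (nat_lit 581832117060) (nat_lit 0) (nat_lit 31719454837) (nat_lit 10) (nat_lit 5) (nat_lit 12) (nat_lit 4) (nat_lit 10) (nat_lit 4) (nat_lit 489) (nat_lit 423) (nat_lit 288)) (XT.nd (nat_lit 78) (nat_lit 0) (nat_lit 0) (XT.lf (nat_lit 0) (nat_lit 213102056571) (nat_lit 152) (nat_lit 373636388383) (nat_lit 0) (nat_lit 158816105608) (nat_lit 10) (nat_lit 5) (nat_lit 12) (nat_lit 4) (nat_lit 10) (nat_lit 4) (nat_lit 490) (nat_lit 423) (nat_lit 287)) (XT.lf (nat_lit 0) (nat_lit 350366026611) (nat_lit 152) (nat_lit 148786118722) (nat_lit 0) (nat_lit 296079961167) (nat_lit 10) (nat_lit 5) (nat_lit 12) (nat_lit 4) (nat_lit 10) (nat_lit 4) (nat_lit 491) (nat_lit 423) (nat_lit 286)))) (XT.nd (nat_lit 78) (nat_lit 0) (nat_lit 0) (XT.lf (nat_lit 0) (nat_lit 99003704215) (nat_lit 76) (nat_lit 401987945653) (nat_lit 76) (nat_lit 347701774207)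 (nat_lit 9) (nat_lit 4) (nat_lit 10) (nat_lit 5) (nat_lit 10) (nat_lit 4) (nat_lit 492) (nat_lit 423) (nat_lit 285)) (XT.nd (nat_lit 78) (nat_lit 0) (nat_lit 0) (XT.lf (nat_lit 0) (nat_lit 375077303039) (nat_lit 76) (nat_lit 292657603468) (nat_lit 76) (nat_lit 238371333873) (nat_lit 9) (nat_lit 4) (nat_lit 10) (nat_lit 5) (nat_lit 10) (nat_lit 4) (nat_lit 493) (nat_lit 423) (nat_lit 284)) (XT.lf (nat_lit 0) (nat_lit 673235856107) (nat_lit 76) (nat_lit 174581311429) (nat_lit 76) (nat_lit 120294950954) (nat_lit 9) (nat_lit 4) (nat_lit 10) (nat_lit 5) (nat_lit 10) (nat_lit 4) (nat_lit 494) (nat_lit 423) (nat_lit 283))))) (XT.nd (nat_lit 234) (nat_lit 76) (nat_lit 0) (XT.nd (nat_lit 78) (nat_lit 76) (nat_lit 0) (XT.lf (nat_lit 0) (nat_lit 6865558313) (nat_lit 152) (nat_lit 40006083330) (nat_lit 76) (nat_lit 988192954072) (nat_lit 8) (nat_lit 5) (nat_lit 10) (nat_lit 5) (nat_lit 9) (nat_lit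 4) (nat_lit 495) (nat_lit 423) (nat_lit 282)) (XT.nd (nat_lit 78) (nat_lit 0) (nat_lit 0) (XT.lf (nat_lit 0) (nat_lit 145999779890) (nat_lit 152) (nat_lit 864725052576) (nat_lit 0) (nat_lit 95734481246) (nat_lit 7) (nat_lit 5) (nat_lit 9) (nat_lit 4) (nat_lit 7) (nat_lit 4) (nat_lit 496) (nat_lit 423) (nat_lit 281)) (XT.lf (nat_lit 0) (nat_lit 298604032369) (nat_lit 152) (nat_lit 636435766403) (nat_lit 0) (nat_lit 248338666926) (nat_lit 7) (nat_lit 5) (nat_lit 9) (nat_lit 4) (nat_lit 7) (nat_lit 4) (nat_lit 497) (nat_lit 423) (nat_lit 280)))) (XT.nd (nat_lit 78) (nat_lit 76) (nat_lit 0) (XT.lf (nat_lit 0) (nat_lit 463416254091) (nat_lit 152) (nat_lit 389884098639) (nat_lit 0) (nat_lit 413150826797) (nat_lit 7) (nat_lit 5) (nat_lit 9) (nat_lit 4) (nat_lit 7) (nat_lit 4) (nat_lit 498) (nat_lit 423) (nat_lit 279)) (XT.nd (nat_lit 78) (nat_lit 76) (nat_lit 0) (XT.lf (nat_lit 0) (nat_lit 641413110073)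 (nat_lit 152) (nat_lit 123609002362) (nat_lit 0) (nat_lit 591147625510) (nat_lit 7) (nat_lit 5) (nat_lit 9) (nat_lit 4) (nat_lit 7) (nat_lit 4) (nat_lit 499) (nat_lit 423) (nat_lit 278)) (XT.lf (nat_lit 0) (nat_lit 172601684207) (nat_lit 76) (nat_lit 665198786947) (nat_lit 76) (nat_lit 614933249357) (nat_lit 6) (nat_lit 4) (nat_lit 7) (nat_lit 5) (nat_lit 7) (nat_lit 4) (nat_lit 500) (nat_lit 423) (nat_lit 277))))))) (XT.nd (nat_lit 858) (nat_lit 76) (nat_lit 0) (XT.nd (nat_lit 390) (nat_lit 0) (nat_lit 0) (XT.nd (nat_lit 156) (nat_lit 152) (nat_lit 0) (XT.nd (nat_lit 78) (nat_lit 0) (nat_lit 0) (XT.lf (nat_lit 0) (nat_lit 499538343025) (nat_lit 76) (nat_lit 553739857499) (nat_lit 76) (nat_lit 503474270810) (nat_lit 6) (nat_lit 4) (nat_lit 7) (nat_lit 5) (nat_lit 7) (nat_lit 4) (nat_lit 501) (nat_lit 423) (nat_lit 276)) (XT.lf (nat_lit 0) (nat_lit 852629345503) (nat_lit 76) (nat_lit 433364515911)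 (nat_lit 76) (nat_lit 383098883759) (nat_lit 6) (nat_lit 4) (nat_lit 7) (nat_lit 5) (nat_lit 7) (nat_lit 4) (nat_lit 502) (nat_lit 423) (nat_lit 275))) (XT.nd (nat_lit 78) (nat_lit 152) (nat_lit 0) (XT.lf (nat_lit 0) (nat_lit 1233967082766) (nat_lit 76) (nat_lit 303359426824) (nat_lit 76) (nat_lit 253093752578) (nat_lit 6) (nat_lit 4) (nat_lit 7) (nat_lit 5) (nat_lit 7) (nat_lit 4) (nat_lit 503) (nat_lit 423) (nat_lit 274)) (XT.nd (nat_lit 78) (nat_lit 152) (nat_lit 0) (XT.lf (nat_lit 0) (nat_lit 1645811333998) (nat_lit 76) (nat_lit 162954189712) (nat_lit 76) (nat_lit 112688476490) (nat_lit 6) (nat_lit 4) (nat_lit 7) (nat_lit 5) (nat_lit 7) (nat_lit 4) (nat_lit 504) (nat_lit 423) (nat_lit 273)) (XT.lf (nat_lit 0) (nat_lit 28101215012) (nat_lit 76) (nat_lit 9575210143) (nat_lit 152) (nat_lit 2025165025641) (nat_lit 4) (nat_lit 5) (nat_lit 5) (nat_lit 5) (nat_lit 6) (nat_lit 4) (nat_lit 505)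 (nat_lit 423) (nat_lit 272))))) (XT.nd (nat_lit 234) (nat_lit 0) (nat_lit 0) (XT.nd (nat_lit 78) (nat_lit 0) (nat_lit 0) (XT.lf (nat_lit 0) (nat_lit 205468080214) (nat_lit 152) (nat_lit 1849993117277) (nat_lit 0) (nat_lit 158925688799) (nat_lit 4) (nat_lit 5) (nat_lit 6) (nat_lit 4) (nat_lit 4) (nat_lit 4) (nat_lit 506) (nat_lit 423) (nat_lit 271)) (XT.nd (nat_lit 78) (nat_lit 0) (nat_lit 0) (XT.lf (nat_lit 0) (nat_lit 386931558384) (nat_lit 152) (nat_lit 1650715380666) (nat_lit 0) (nat_lit 340389138321) (nat_lit 4) (nat_lit 5) (nat_lit 6) (nat_lit 4) (nat_lit 4) (nat_lit 4) (nat_lit 507) (nat_lit 423) (nat_lit 270)) (XT.lf (nat_lit 0) (nat_lit 582911914762) (nat_lit 152) (nat_lit 1435495836809) (nat_lit 0) (nat_lit 536369468171) (nat_lit 4) (nat_lit 5) (nat_lit 6) (nat_lit 4) (nat_lit 4) (nat_lit 4) (nat_lit 508) (nat_lit 423) (nat_lit 269)))) (XT.nd (nat_lit 78) (nat_lit 0) (nat_lit 0)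 (XT.lf (nat_lit 0) (nat_lit 794570514422) (nat_lit 152) (nat_lit 1203059110634) (nat_lit 0) (nat_lit 748028043269) (nat_lit 4) (nat_lit 5) (nat_lit 6) (nat_lit 4) (nat_lit 4) (nat_lit 4) (nat_lit 509) (nat_lit 423) (nat_lit 268)) (XT.nd (nat_lit 78) (nat_lit 0) (nat_lit 0) (XT.lf (nat_lit 0) (nat_lit 1023161630547) (nat_lit 152) (nat_lit 952027799317) (nat_lit 0) (nat_lit 976619136652) (nat_lit 4) (nat_lit 5) (nat_lit 6) (nat_lit 4) (nat_lit 4) (nat_lit 4) (nat_lit 510) (nat_lit 423) (nat_lit 267)) (XT.lf (nat_lit 0) (nat_lit 1270039877159) (nat_lit 152) (nat_lit 680914309904) (nat_lit 0) (nat_lit 1223497362206) (nat_lit 4) (nat_lit 5) (nat_lit 6) (nat_lit 4) (nat_lit 4) (nat_lit 4) (nat_lit 511) (nat_lit 423) (nat_lit 266)))))) (XT.nd (nat_lit 468) (nat_lit 0) (nat_lit 0) (XT.nd (nat_lit 234) (nat_lit 0) (nat_lit 0) (XT.nd (nat_lit 78) (nat_lit 76) (nat_lit 0) (XT.lf (nat_lit 0) (nat_lit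 1536668236460) (nat_lit 152) (nat_lit 388112043937) (nat_lit 0) (nat_lit 1490125702010) (nat_lit 4) (nat_lit 5) (nat_lit 6) (nat_lit 4) (nat_lit 4) (nat_lit 4) (nat_lit 512) (nat_lit 423) (nat_lit 265)) (XT.nd (nat_lit 78) (nat_lit 76) (nat_lit 0) (XT.lf (nat_lit 0) (nat_lit 1824626728357) (nat_lit 152) (nat_lit 71885876878) (nat_lit 0) (nat_lit 1778084175853) (nat_lit 4) (nat_lit 5) (nat_lit 6) (nat_lit 4) (nat_lit 4) (nat_lit 4) (nat_lit 513) (nat_lit 423) (nat_lit 264)) (XT.lf (nat_lit 0) (nat_lit 283836789889) (nat_lit 76) (nat_lit 1858611265276) (nat_lit 76) (nat_lit 1812068696056) (nat_lit 3) (nat_lit 4) (nat_lit 4) (nat_lit 5) (nat_lit 4) (nat_lit 4) (nat_lit 514) (nat_lit 423) (nat_lit 263)))) (XT.nd (nat_lit 78) (nat_lit 0) (nat_lit 0) (XT.lf (nat_lit 0) (nat_lit 672105230650) (nat_lit 76) (nat_lit 1815555221929) (nat_lit 76) (nat_lit 1769012637230) (nat_lit 3) (nat_lit 4) (nat_lit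 4) (nat_lit 5) (nat_lit 4) (nat_lit 4) (nat_lit 515) (nat_lit 423) (nat_lit 262)) (XT.nd (nat_lit 78) (nat_lit 0) (nat_lit 0) (XT.lf (nat_lit 0) (nat_lit 1091434912540) (nat_lit 76) (nat_lit 1769054815536) (nat_lit 76) (nat_lit 1722512216506) (nat_lit 3) (nat_lit 4) (nat_lit 4) (nat_lit 5) (nat_lit 4) (nat_lit 4) (nat_lit 516) (nat_lit 423) (nat_lit 261)) (XT.lf (nat_lit 0) (nat_lit 1544310752191) (nat_lit 76) (nat_lit 1718834488135) (nat_lit 76) (nat_lit 1672291875835) (nat_lit 3) (nat_lit 4) (nat_lit 4) (nat_lit 5) (nat_lit 4) (nat_lit 4) (nat_lit 517) (nat_lit 423) (nat_lit 260))))) (XT.nd (nat_lit 234) (nat_lit 0) (nat_lit 0) (XT.nd (nat_lit 78) (nat_lit 0) (nat_lit 0) (XT.lf (nat_lit 0) (nat_lit 2033416458284) (nat_lit 76) (nat_lit 1664596637784) (nat_lit 76) (nat_lit 1618054013197) (nat_lit 3) (nat_lit 4) (nat_lit 4) (nat_lit 5) (nat_lit 4) (nat_lit 4) (nat_lit 518) (nat_lit 423)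 (nat_lit 259)) (XT.nd (nat_lit 78) (nat_lit 0) (nat_lit 0) (XT.lf (nat_lit 0) (nat_lit 2561650435003) (nat_lit 76) (nat_lit 1606019855001) (nat_lit 76) (nat_lit 1559477219037) (nat_lit 3) (nat_lit 4) (nat_lit 4) (nat_lit 5) (nat_lit 4) (nat_lit 4) (nat_lit 519) (nat_lit 423) (nat_lit 258)) (XT.lf (nat_lit 0) (nat_lit 3132142957764) (nat_lit 76) (nat_lit 1542757018110) (nat_lit 76) (nat_lit 1496214371612) (nat_lit 3) (nat_lit 4) (nat_lit 4) (nat_lit 5) (nat_lit 4) (nat_lit 4) (nat_lit 520) (nat_lit 423) (nat_lit 257)))) (XT.nd (nat_lit 78) (nat_lit 0) (nat_lit 0) (XT.lf (nat_lit 0) (nat_lit 3748274723000) (nat_lit 76) (nat_lit 1474433236226) (nat_lit 76) (nat_lit 1427890579973) (nat_lit 3) (nat_lit 4) (nat_lit 4) (nat_lit 5) (nat_lit 4) (nat_lit 4) (nat_lit 521) (nat_lit 423) (nat_lit 256)) (XT.nd (nat_lit 78) (nat_lit 0) (nat_lit 0) (XT.lf (nat_lit 0) (nat_lit 4413696881911) (nat_lit 76)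 (nat_lit 1400643627677) (nat_lit 76) (nat_lit 1354100962393) (nat_lit 3) (nat_lit 4) (nat_lit 4) (nat_lit 5) (nat_lit 4) (nat_lit 4) (nat_lit 522) (nat_lit 423) (nat_lit 255)) (XT.lf (nat_lit 0) (nat_lit 5132352676922) (nat_lit 76) (nat_lit 1320950920710) (nat_lit 76) (nat_lit 1274408247064) (nat_lit 3) (nat_lit 4) (nat_lit 4) (nat_lit 5) (nat_lit 4) (nat_lit 4) (nat_lit 523) (nat_lit 423) (nat_lit 254))))))))
noncomputable def xc153 : XT := (XT.nd (nat_lit 56082) (nat_lit 0) (nat_lit 1900) (XT.nd (nat_lit 55146) (nat_lit 0) (nat_lit 3876) (XT.nd (nat_lit 54678) (nat_lit 0) (nat_lit 5244) (XT.nd (nat_lit 156) (nat_lit 0) (nat_lit 0) (XT.nd (nat_lit 78) (nat_lit 0) (nat_lit 0) (XT.lf (nat_lit 0) (nat_lit 5908500809038) (nat_lit 76) (nat_lit 1234882862246) (nat_lit 76) (nat_lit 1188340180857) (nat_lit 3) (nat_lit 4) (nat_lit 4) (nat_lit 5) (nat_lit 4) (nat_lit 4) (nat_lit 524) (nat_lit 423)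 (nat_lit 253)) (XT.lf (nat_lit 0) (nat_lit 6746740674600) (nat_lit 76) (nat_lit 1141929419346) (nat_lit 76) (nat_lit 1095386730789) (nat_lit 3) (nat_lit 4) (nat_lit 4) (nat_lit 5) (nat_lit 4) (nat_lit 4) (nat_lit 525) (nat_lit 423) (nat_lit 252))) (XT.nd (nat_lit 78) (nat_lit 0) (nat_lit 0) (XT.lf (nat_lit 0) (nat_lit 7652039620957) (nat_lit 76) (nat_lit 1041539756794) (nat_lit 76) (nat_lit 994997061598) (nat_lit 3) (nat_lit 4) (nat_lit 4) (nat_lit 5) (nat_lit 4) (nat_lit 4) (nat_lit 526) (nat_lit 423) (nat_lit 251)) (XT.nd (nat_lit 78) (nat_lit 0) (nat_lit 0) (XT.lf (nat_lit 0) (nat_lit 8629762382609) (nat_lit 76) (nat_lit 933118972885) (nat_lit 76) (nat_lit 886576271542) (nat_lit 3) (nat_lit 4) (nat_lit 4) (nat_lit 5) (nat_lit 4) (nat_lit 4) (nat_lit 527) (nat_lit 423) (nat_lit 250)) (XT.lf (nat_lit 0) (nat_lit 9685702872214) (nat_lit 76) (nat_lit 816024574084) (nat_lit 76) (nat_lit 769481867050)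 (nat_lit 3) (nat_lit 4) (nat_lit 4) (nat_lit 5) (nat_lit 4) (nat_lit 4) (nat_lit 528) (nat_lit 423) (nat_lit 249))))) (XT.nd (nat_lit 234) (nat_lit 456) (nat_lit 0) (XT.nd (nat_lit 78) (nat_lit 0) (nat_lit 0) (XT.lf (nat_lit 0) (nat_lit 11851786558) (nat_lit 532) (nat_lit 530187360) (nat_lit 532) (nat_lit 530187360) (nat_lit 78) (nat_lit 3) (nat_lit 85) (nat_lit 3) (nat_lit 85) (nat_lit 5) (nat_lit 424) (nat_lit 424) (nat_lit 352)) (XT.nd (nat_lit 78) (nat_lit 0) (nat_lit 76) (XT.lf (nat_lit 76) (nat_lit 12313203328) (nat_lit 0) (nat_lit 12727489263) (nat_lit 532) (nat_lit 1785447430) (nat_lit 79) (nat_lit 5) (nat_lit 78) (nat_lit 3) (nat_lit 85) (nat_lit 5) (nat_lit 425) (nat_lit 424) (nat_lit 351)) (XT.lf (nat_lit 0) (nat_lit 26511749614) (nat_lit 456) (nat_lit 1102241814) (nat_lit 532) (nat_lit 291957747) (nat_lit 79) (nat_lit 5) (nat_lit 85) (nat_lit 5) (nat_lit 86) (nat_lit 5) (nat_lit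 426) (nat_lit 424) (nat_lit 350)))) (XT.nd (nat_lit 78) (nat_lit 532) (nat_lit 0) (XT.lf (nat_lit 76) (nat_lit 13731969458) (nat_lit 0) (nat_lit 15020733726) (nat_lit 532) (nat_lit 267266374) (nat_lit 80) (nat_lit 5) (nat_lit 79) (nat_lit 5) (nat_lit 86) (nat_lit 5) (nat_lit 427) (nat_lit 424) (nat_lit 349)) (XT.nd (nat_lit 78) (nat_lit 0) (nat_lit 76) (XT.lf (nat_lit 0) (nat_lit 924893025) (nat_lit 532) (nat_lit 434705246) (nat_lit 608) (nat_lit 28859881968) (nat_lit 72) (nat_lit 5) (nat_lit 79) (nat_lit 5) (nat_lit 80) (nat_lit 5) (nat_lit 428) (nat_lit 424) (nat_lit 348)) (XT.lf (nat_lit 0) (nat_lit 2917686326) (nat_lit 532) (nat_lit 15400511828) (nat_lit 608) (nat_lit 13138624968) (nat_lit 73) (nat_lit 5) (nat_lit 80) (nat_lit 5) (nat_lit 81) (nat_lit 5) (nat_lit 429) (nat_lit 424) (nat_lit 347)))))) (XT.nd (nat_lit 468) (nat_lit 836) (nat_lit 0) (XT.nd (nat_lit 234) (nat_lit 228) (nat_lit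 0) (XT.nd (nat_lit 78) (nat_lit 380) (nat_lit 0) (XT.lf (nat_lit 76) (nat_lit 1113162438) (nat_lit 0) (nat_lit 4023790576) (nat_lit 608) (nat_lit 27650838970) (nat_lit 74) (nat_lit 5) (nat_lit 73) (nat_lit 5) (nat_lit 81) (nat_lit 5) (nat_lit 430) (nat_lit 424) (nat_lit 346)) (XT.nd (nat_lit 78) (nat_lit 456) (nat_lit 0) (XT.lf (nat_lit 0) (nat_lit 8233473583) (nat_lit 532) (nat_lit 14659676755) (nat_lit 76) (nat_lit 11276113365) (nat_lit 74) (nat_lit 5) (nat_lit 81) (nat_lit 5) (nat_lit 75) (nat_lit 5) (nat_lit 431) (nat_lit 424) (nat_lit 345)) (XT.lf (nat_lit 0) (nat_lit 3795872914) (nat_lit 456) (nat_lit 7971339548) (nat_lit 532) (nat_lit 23878883143) (nat_lit 68) (nat_lit 5) (nat_lit 74) (nat_lit 5) (nat_lit 75) (nat_lit 5) (nat_lit 432) (nat_lit 424) (nat_lit 344)))) (XT.nd (nat_lit 78) (nat_lit 228) (nat_lit 0) (XT.lf (nat_lit 0) (nat_lit 16184774544) (nat_lit 532) (nat_lit 12860015987)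 (nat_lit 76) (nat_lit 8148195618) (nat_lit 68) (nat_lit 5) (nat_lit 75) (nat_lit 5) (nat_lit 69) (nat_lit 5) (nat_lit 433) (nat_lit 424) (nat_lit 343)) (XT.nd (nat_lit 78) (nat_lit 0) (nat_lit 0) (XT.lf (nat_lit 0) (nat_lit 7828117043) (nat_lit 228) (nat_lit 13517404479) (nat_lit 304) (nat_lit 17486925887) (nat_lit 65) (nat_lit 5) (nat_lit 68) (nat_lit 5) (nat_lit 69) (nat_lit 5) (nat_lit 434) (nat_lit 424) (nat_lit 342)) (XT.lf (nat_lit 0) (nat_lit 27352820176) (nat_lit 304) (nat_lit 9765723922) (nat_lit 76) (nat_lit 3449827848) (nat_lit 65) (nat_lit 5) (nat_lit 69) (nat_lit 5) (nat_lit 66) (nat_lit 5) (nat_lit 435) (nat_lit 424) (nat_lit 341))))) (XT.nd (nat_lit 234) (nat_lit 380) (nat_lit 0) (XT.nd (nat_lit 78) (nat_lit 228) (nat_lit 0) (XT.lf (nat_lit 0) (nat_lit 13490047233) (nat_lit 228) (nat_lit 21021311931) (nat_lit 304) (nat_lit 7878160370) (nat_lit 62) (nat_lit 5) (nat_lit 65)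 (nat_lit 5) (nat_lit 66) (nat_lit 5) (nat_lit 436) (nat_lit 424) (nat_lit 340)) (XT.nd (nat_lit 78) (nat_lit 228) (nat_lit 0) (XT.lf (nat_lit 0) (nat_lit 39156159284) (nat_lit 228) (nat_lit 3348782377) (nat_lit 304) (nat_lit 1830429916) (nat_lit 62) (nat_lit 5) (nat_lit 65) (nat_lit 5) (nat_lit 66) (nat_lit 5) (nat_lit 437) (nat_lit 424) (nat_lit 339)) (XT.lf (nat_lit 0) (nat_lit 5370732070) (nat_lit 228) (nat_lit 25391508172) (nat_lit 76) (nat_lit 15593225284) (nat_lit 59) (nat_lit 5) (nat_lit 62) (nat_lit 5) (nat_lit 60) (nat_lit 5) (nat_lit 438) (nat_lit 424) (nat_lit 338)))) (XT.nd (nat_lit 78) (nat_lit 152) (nat_lit 0) (XT.lf (nat_lit 0) (nat_lit 866941026) (nat_lit 228) (nat_lit 12431032015) (nat_lit 304) (nat_lit 35215481493) (nat_lit 56) (nat_lit 5) (nat_lit 59) (nat_lit 5) (nat_lit 60) (nat_lit 5) (nat_lit 439) (nat_lit 424) (nat_lit 337)) (XT.nd (nat_lit 78) (nat_lit 152) (nat_lit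 0) (XT.lf (nat_lit 0) (nat_lit 22744755010) (nat_lit 304) (nat_lit 20319306936) (nat_lit 76) (nat_lit 7709192869) (nat_lit 56) (nat_lit 5) (nat_lit 60) (nat_lit 5) (nat_lit 57) (nat_lit 5) (nat_lit 440) (nat_lit 424) (nat_lit 336)) (XT.lf (nat_lit 0) (nat_lit 9332810124) (nat_lit 152) (nat_lit 24158022288) (nat_lit 228) (nat_lit 19679523484) (nat_lit 54) (nat_lit 5) (nat_lit 56) (nat_lit 5) (nat_lit 57) (nat_lit 5) (nat_lit 441) (nat_lit 424) (nat_lit 335))))))) (XT.nd (nat_lit 936) (nat_lit 836) (nat_lit 0) (XT.nd (nat_lit 468) (nat_lit 608) (nat_lit 0) (XT.nd (nat_lit 234) (nat_lit 304) (nat_lit 0) (XT.nd (nat_lit 78) (nat_lit 228) (nat_lit 0) (XT.lf (nat_lit 0) (nat_lit 42507559327) (nat_lit 152) (nat_lit 3140974563) (nat_lit 228) (nat_lit 10066537079) (nat_lit 54) (nat_lit 5) (nat_lit 56) (nat_lit 5) (nat_lit 57) (nat_lit 5) (nat_lit 442) (nat_lit 424) (nat_lit 334)) (XT.nd (nat_lit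 78) (nat_lit 0) (nat_lit 0) (XT.lf (nat_lit 0) (nat_lit 1282632535) (nat_lit 228) (nat_lit 38000152837) (nat_lit 76) (nat_lit 19101337572) (nat_lit 51) (nat_lit 5) (nat_lit 54) (nat_lit 5) (nat_lit 52) (nat_lit 5) (nat_lit 443) (nat_lit 424) (nat_lit 333)) (XT.lf (nat_lit 0) (nat_lit 13444618462) (nat_lit 228) (nat_lit 4181371150) (nat_lit 76) (nat_lit 43583893750) (nat_lit 51) (nat_lit 5) (nat_lit 54) (nat_lit 5) (nat_lit 52) (nat_lit 5) (nat_lit 444) (nat_lit 424) (nat_lit 332)))) (XT.nd (nat_lit 78) (nat_lit 152) (nat_lit 0) (XT.lf (nat_lit 0) (nat_lit 27554994080) (nat_lit 228) (nat_lit 30315155769) (nat_lit 76) (nat_lit 6313520987) (nat_lit 49) (nat_lit 5) (nat_lit 52) (nat_lit 5) (nat_lit 50) (nat_lit 5) (nat_lit 445) (nat_lit 424) (nat_lit 331)) (XT.nd (nat_lit 78) (nat_lit 0) (nat_lit 0) (XT.lf (nat_lit 0) (nat_lit 7735410200) (nat_lit 152) (nat_lit 35816927319) (nat_lit 228) (nat_lit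 23782373401) (nat_lit 47) (nat_lit 5) (nat_lit 49) (nat_lit 5) (nat_lit 50) (nat_lit 5) (nat_lit 446) (nat_lit 424) (nat_lit 330)) (XT.lf (nat_lit 0) (nat_lit 50549456899) (nat_lit 152) (nat_lit 11105981249) (nat_lit 228) (nat_lit 9016319076) (nat_lit 47) (nat_lit 5) (nat_lit 49) (nat_lit 5) (nat_lit 50) (nat_lit 5) (nat_lit 447) (nat_lit 424) (nat_lit 329))))) (XT.nd (nat_lit 234) (nat_lit 304) (nat_lit 0) (XT.nd (nat_lit 78) (nat_lit 152) (nat_lit 0) (XT.lf (nat_lit 0) (nat_lit 7540884640) (nat_lit 152) (nat_lit 51092900584) (nat_lit 76) (nat_lit 15552120600) (nat_lit 45) (nat_lit 5) (nat_lit 47) (nat_lit 5) (nat_lit 46) (nat_lit 5) (nat_lit 448) (nat_lit 424) (nat_lit 328)) (XT.nd (nat_lit 78) (nat_lit 152) (nat_lit 0) (XT.lf (nat_lit 0) (nat_lit 25785791064) (nat_lit 152) (nat_lit 7568690651) (nat_lit 76) (nat_lit 44539950510) (nat_lit 45) (nat_lit 5) (nat_lit 47) (nat_lit 5) (nat_lit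 46) (nat_lit 5) (nat_lit 449) (nat_lit 424) (nat_lit 327)) (XT.lf (nat_lit 0) (nat_lit 41509796565) (nat_lit 152) (nat_lit 4976309728) (nat_lit 228) (nat_lit 35333869574) (nat_lit 43) (nat_lit 5) (nat_lit 45) (nat_lit 5) (nat_lit 46) (nat_lit 5) (nat_lit 450) (nat_lit 424) (nat_lit 326)))) (XT.nd (nat_lit 78) (nat_lit 228) (nat_lit 0) (XT.lf (nat_lit 0) (nat_lit 8710753951) (nat_lit 76) (nat_lit 61168471133) (nat_lit 152) (nat_lit 16097396050) (nat_lit 42) (nat_lit 5) (nat_lit 43) (nat_lit 5) (nat_lit 44) (nat_lit 4) (nat_lit 451) (nat_lit 424) (nat_lit 325)) (XT.nd (nat_lit 78) (nat_lit 152) (nat_lit 0) (XT.lf (nat_lit 0) (nat_lit 5701591049) (nat_lit 152) (nat_lit 26706394613) (nat_lit 76) (nat_lit 57948203594) (nat_lit 41) (nat_lit 5) (nat_lit 43) (nat_lit 5) (nat_lit 42) (nat_lit 5) (nat_lit 452) (nat_lit 424) (nat_lit 324)) (XT.lf (nat_lit 0) (nat_lit 28922643614) (nat_lit 152) (nat_lit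 145520084) (nat_lit 228) (nat_lit 65929042787) (nat_lit 39) (nat_lit 5) (nat_lit 41) (nat_lit 5) (nat_lit 42) (nat_lit 5) (nat_lit 453) (nat_lit 424) (nat_lit 323)))))) (XT.nd (nat_lit 468) (nat_lit 456) (nat_lit 0) (XT.nd (nat_lit 234) (nat_lit 76) (nat_lit 0) (XT.nd (nat_lit 78) (nat_lit 304) (nat_lit 0) (XT.lf (nat_lit 0) (nat_lit 55885504215) (nat_lit 228) (nat_lit 10287661975) (nat_lit 76) (nat_lit 33709823832) (nat_lit 39) (nat_lit 5) (nat_lit 42) (nat_lit 5) (nat_lit 40) (nat_lit 4) (nat_lit 454) (nat_lit 424) (nat_lit 322)) (XT.nd (nat_lit 78) (nat_lit 228) (nat_lit 0) (XT.lf (nat_lit 0) (nat_lit 52585290912) (nat_lit 76) (nat_lit 33529351375) (nat_lit 152) (nat_lit 18943681404) (nat_lit 38) (nat_lit 5) (nat_lit 39) (nat_lit 5) (nat_lit 40) (nat_lit 4) (nat_lit 455) (nat_lit 424) (nat_lit 321)) (XT.lf (nat_lit 0) (nat_lit 8315124212) (nat_lit 228) (nat_lit 99868012616) (nat_lit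 76) (nat_lit 2400406212) (nat_lit 35) (nat_lit 5) (nat_lit 38) (nat_lit 5) (nat_lit 36) (nat_lit 4) (nat_lit 456) (nat_lit 424) (nat_lit 320)))) (XT.nd (nat_lit 78) (nat_lit 76) (nat_lit 0) (XT.lf (nat_lit 0) (nat_lit 39072040006) (nat_lit 228) (nat_lit 35896528666) (nat_lit 76) (nat_lit 41355579465) (nat_lit 35) (nat_lit 5) (nat_lit 38) (nat_lit 5) (nat_lit 36) (nat_lit 4) (nat_lit 457) (nat_lit 424) (nat_lit 319)) (XT.nd (nat_lit 78) (nat_lit 0) (nat_lit 0) (XT.lf (nat_lit 0) (nat_lit 34936944087) (nat_lit 76) (nat_lit 38190941483) (nat_lit 152) (nat_lit 49329046150) (nat_lit 34) (nat_lit 5) (nat_lit 35) (nat_lit 5) (nat_lit 36) (nat_lit 4) (nat_lit 458) (nat_lit 424) (nat_lit 318)) (XT.lf (nat_lit 0) (nat_lit 110950099185) (nat_lit 152) (nat_lit 15588959032) (nat_lit 0) (nat_lit 2457927928) (nat_lit 34) (nat_lit 5) (nat_lit 36) (nat_lit 4) (nat_lit 34) (nat_lit 4) (nat_lit 459) (nat_lit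 424) (nat_lit 317))))) (XT.nd (nat_lit 234) (nat_lit 228) (nat_lit 0) (XT.nd (nat_lit 78) (nat_lit 76) (nat_lit 0) (XT.lf (nat_lit 0) (nat_lit 17553616088) (nat_lit 152) (nat_lit 71982782041) (nat_lit 76) (nat_lit 46285323959) (nat_lit 32) (nat_lit 5) (nat_lit 34) (nat_lit 5) (nat_lit 33) (nat_lit 4) (nat_lit 460) (nat_lit 424) (nat_lit 316)) (XT.nd (nat_lit 78) (nat_lit 0) (nat_lit 0) (XT.lf (nat_lit 0) (nat_lit 7227842967) (nat_lit 76) (nat_lit 48408753560) (nat_lit 152) (nat_lit 87469585479) (nat_lit 31) (nat_lit 5) (nat_lit 32) (nat_lit 5) (nat_lit 33) (nat_lit 4) (nat_lit 461) (nat_lit 424) (nat_lit 315)) (XT.lf (nat_lit 0) (nat_lit 96865931151) (nat_lit 76) (nat_lit 1866778955) (nat_lit 152) (nat_lit 52083369171) (nat_lit 31) (nat_lit 5) (nat_lit 32) (nat_lit 5) (nat_lit 33) (nat_lit 4) (nat_lit 462) (nat_lit 424) (nat_lit 314)))) (XT.nd (nat_lit 78) (nat_lit 152) (nat_lit 0) (XT.lf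 (nat_lit 0) (nat_lit 35122301453) (nat_lit 76) (nat_lit 112161336690) (nat_lit 76) (nat_lit 11698560284) (nat_lit 30) (nat_lit 4) (nat_lit 31) (nat_lit 5) (nat_lit 31) (nat_lit 4) (nat_lit 463) (nat_lit 424) (nat_lit 313)) (XT.nd (nat_lit 78) (nat_lit 76) (nat_lit 0) (XT.lf (nat_lit 0) (nat_lit 31880761517) (nat_lit 152) (nat_lit 34152243624) (nat_lit 76) (nat_lit 101582365845) (nat_lit 29) (nat_lit 5) (nat_lit 31) (nat_lit 5) (nat_lit 30) (nat_lit 4) (nat_lit 464) (nat_lit 424) (nat_lit 312)) (XT.lf (nat_lit 0) (nat_lit 65712618708) (nat_lit 76) (nat_lit 14180741852) (nat_lit 152) (nat_lit 96895211583) (nat_lit 28) (nat_lit 5) (nat_lit 29) (nat_lit 5) (nat_lit 30) (nat_lit 4) (nat_lit 465) (nat_lit 424) (nat_lit 311))))))))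
noncomputable def xc154 : XT := (XT.nd (nat_lit 1794) (nat_lit 608) (nat_lit 0) (XT.nd (nat_lit 858) (nat_lit 532) (nat_lit 0) (XT.nd (nat_lit 390) (nat_lit 380) (nat_lit 0) (XT.nd (nat_lit 156) (nat_lit 228) (nat_lit 0) (XT.nd (nat_lit 78) (nat_lit 76) (nat_lit 0) (XT.lf (nat_lit 0) (nat_lit 133709347252) (nat_lit 152) (nat_lit 12144773685) (nat_lit 0) (nat_lit 40684518172) (nat_lit 28) (nat_lit 5) (nat_lit 30) (nat_lit 4) (nat_lit 28) (nat_lit 4) (nat_lit 466) (nat_lit 424) (nat_lit 310)) (XT.lf (nat_lit 0) (nat_lit 99297259107) (nat_lit 76) (nat_lit 95288469445) (nat_lit 76) (nat_lit 2262573710) (nat_lit 27) (nat_lit 4) (nat_lit 28) (nat_lit 5) (nat_lit 28) (nat_lit 4) (nat_lit 467) (nat_lit 424) (nat_lit 309))) (XT.nd (nat_lit 78) (nat_lit 76) (nat_lit 0) (XT.lf (nat_lit 0) (nat_lit 11704473001) (nat_lit 76) (nat_lit 38647140642) (nat_lit 152) (nat_lit 157480735208) (nat_lit 25) (nat_lit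 5) (nat_lit 26) (nat_lit 5) (nat_lit 27) (nat_lit 4) (nat_lit 468) (nat_lit 424) (nat_lit 308)) (XT.nd (nat_lit 78) (nat_lit 76) (nat_lit 0) (XT.lf (nat_lit 0) (nat_lit 110329628770) (nat_lit 152) (nat_lit 84905855674) (nat_lit 0) (nat_lit 24192778896) (nat_lit 25) (nat_lit 5) (nat_lit 27) (nat_lit 4) (nat_lit 25) (nat_lit 4) (nat_lit 469) (nat_lit 424) (nat_lit 307)) (XT.lf (nat_lit 0) (nat_lit 36009039434) (nat_lit 76) (nat_lit 140965477485) (nat_lit 76) (nat_lit 54827843587) (nat_lit 24) (nat_lit 4) (nat_lit 25) (nat_lit 5) (nat_lit 25) (nat_lit 4) (nat_lit 470) (nat_lit 424) (nat_lit 306))))) (XT.nd (nat_lit 234) (nat_lit 228) (nat_lit 0) (XT.nd (nat_lit 78) (nat_lit 76) (nat_lit 0) (XT.lf (nat_lit 0) (nat_lit 5975858568) (nat_lit 152) (nat_lit 73708574022) (nat_lit 76) (nat_lit 165284225756) (nat_lit 23) (nat_lit 5) (nat_lit 25) (nat_lit 5) (nat_lit 24) (nat_lit 4) (nat_lit 471) (nat_lit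 424) (nat_lit 305)) (XT.nd (nat_lit 78) (nat_lit 0) (nat_lit 0) (XT.lf (nat_lit 0) (nat_lit 59703241618) (nat_lit 76) (nat_lit 10413236092) (nat_lit 152) (nat_lit 188843074490) (nat_lit 22) (nat_lit 5) (nat_lit 23) (nat_lit 5) (nat_lit 24) (nat_lit 4) (nat_lit 472) (nat_lit 424) (nat_lit 304)) (XT.lf (nat_lit 0) (nat_lit 143003718002) (nat_lit 152) (nat_lit 67531991137) (nat_lit 0) (nat_lit 63244778739) (nat_lit 22) (nat_lit 5) (nat_lit 24) (nat_lit 4) (nat_lit 22) (nat_lit 4) (nat_lit 473) (nat_lit 424) (nat_lit 303)))) (XT.nd (nat_lit 78) (nat_lit 152) (nat_lit 0) (XT.lf (nat_lit 0) (nat_lit 78378562874) (nat_lit 76) (nat_lit 145497826157) (nat_lit 76) (nat_lit 65738353302) (nat_lit 21) (nat_lit 4) (nat_lit 22) (nat_lit 5) (nat_lit 22) (nat_lit 4) (nat_lit 474) (nat_lit 424) (nat_lit 302)) (XT.nd (nat_lit 78) (nat_lit 76) (nat_lit 0) (XT.lf (nat_lit 0) (nat_lit 6171249000) (nat_lit 152)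 (nat_lit 66923769002) (nat_lit 76) (nat_lit 233460584932) (nat_lit 20) (nat_lit 5) (nat_lit 22) (nat_lit 5) (nat_lit 21) (nat_lit 4) (nat_lit 475) (nat_lit 424) (nat_lit 301)) (XT.lf (nat_lit 0) (nat_lit 82713638357) (nat_lit 152) (nat_lit 232945573542) (nat_lit 0) (nat_lit 8861393548) (nat_lit 19) (nat_lit 5) (nat_lit 21) (nat_lit 4) (nat_lit 19) (nat_lit 4) (nat_lit 476) (nat_lit 424) (nat_lit 300)))))) (XT.nd (nat_lit 468) (nat_lit 228) (nat_lit 0) (XT.nd (nat_lit 234) (nat_lit 228) (nat_lit 0) (XT.nd (nat_lit 78) (nat_lit 76) (nat_lit 0) (XT.lf (nat_lit 0) (nat_lit 169154386029) (nat_lit 152) (nat_lit 79164675778) (nat_lit 0) (nat_lit 95301749013) (nat_lit 19) (nat_lit 5) (nat_lit 21) (nat_lit 4) (nat_lit 19) (nat_lit 4) (nat_lit 477) (nat_lit 424) (nat_lit 299)) (XT.nd (nat_lit 78) (nat_lit 0) (nat_lit 0) (XT.lf (nat_lit 0) (nat_lit 91493822237) (nat_lit 76) (nat_lit 173216123215)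 (nat_lit 76) (nat_lit 99363123044) (nat_lit 18) (nat_lit 4) (nat_lit 19) (nat_lit 5) (nat_lit 19) (nat_lit 4) (nat_lit 478) (nat_lit 424) (nat_lit 298)) (XT.lf (nat_lit 0) (nat_lit 280305446880) (nat_lit 76) (nat_lit 89768152202) (nat_lit 76) (nat_lit 15914815777) (nat_lit 18) (nat_lit 4) (nat_lit 19) (nat_lit 5) (nat_lit 19) (nat_lit 4) (nat_lit 479) (nat_lit 424) (nat_lit 297)))) (XT.nd (nat_lit 78) (nat_lit 76) (nat_lit 0) (XT.lf (nat_lit 0) (nat_lit 72441537983) (nat_lit 152) (nat_lit 332858586483) (nat_lit 0) (nat_lit 4058530787) (nat_lit 16) (nat_lit 5) (nat_lit 18) (nat_lit 4) (nat_lit 16) (nat_lit 4) (nat_lit 480) (nat_lit 424) (nat_lit 296)) (XT.nd (nat_lit 78) (nat_lit 76) (nat_lit 0) (XT.lf (nat_lit 0) (nat_lit 172302032039) (nat_lit 152) (nat_lit 157921019566) (nat_lit 0) (nat_lit 103918757913) (nat_lit 16) (nat_lit 5) (nat_lit 18) (nat_lit 4) (nat_lit 16) (nat_lit 4) (nat_lit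 481) (nat_lit 424) (nat_lit 295)) (XT.lf (nat_lit 0) (nat_lit 32642971237) (nat_lit 76) (nat_lit 248292710453) (nat_lit 76) (nat_lit 179909189170) (nat_lit 15) (nat_lit 4) (nat_lit 16) (nat_lit 5) (nat_lit 16) (nat_lit 4) (nat_lit 482) (nat_lit 424) (nat_lit 294))))) (XT.nd (nat_lit 234) (nat_lit 76) (nat_lit 0) (XT.nd (nat_lit 78) (nat_lit 152) (nat_lit 0) (XT.lf (nat_lit 0) (nat_lit 247431712884) (nat_lit 76) (nat_lit 155145422697) (nat_lit 76) (nat_lit 86761672565) (nat_lit 15) (nat_lit 4) (nat_lit 16) (nat_lit 5) (nat_lit 16) (nat_lit 4) (nat_lit 483) (nat_lit 424) (nat_lit 293)) (XT.nd (nat_lit 78) (nat_lit 76) (nat_lit 0) (XT.lf (nat_lit 0) (nat_lit 13144738450) (nat_lit 152) (nat_lit 41042906052) (nat_lit 76) (nat_lit 465898047622) (nat_lit 14) (nat_lit 5) (nat_lit 16) (nat_lit 5) (nat_lit 15) (nat_lit 4) (nat_lit 484) (nat_lit 424) (nat_lit 292)) (XT.lf (nat_lit 0) (nat_lit 122243236352)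 (nat_lit 152) (nat_lit 371473278532) (nat_lit 0) (nat_lit 58924571324) (nat_lit 13) (nat_lit 5) (nat_lit 15) (nat_lit 4) (nat_lit 13) (nat_lit 4) (nat_lit 485) (nat_lit 424) (nat_lit 291)))) (XT.nd (nat_lit 78) (nat_lit 76) (nat_lit 0) (XT.lf (nat_lit 0) (nat_lit 242627779748) (nat_lit 152) (nat_lit 165659532323) (nat_lit 0) (nat_lit 179308946509) (nat_lit 13) (nat_lit 5) (nat_lit 15) (nat_lit 4) (nat_lit 13) (nat_lit 4) (nat_lit 486) (nat_lit 424) (nat_lit 290)) (XT.nd (nat_lit 78) (nat_lit 0) (nat_lit 0) (XT.lf (nat_lit 0) (nat_lit 59599517906) (nat_lit 76) (nat_lit 314476346796) (nat_lit 76) (nat_lit 251157357806) (nat_lit 12) (nat_lit 4) (nat_lit 13) (nat_lit 5) (nat_lit 13) (nat_lit 4) (nat_lit 487) (nat_lit 424) (nat_lit 289)) (XT.lf (nat_lit 0) (nat_lit 312299322110) (nat_lit 76) (nat_lit 208269323367) (nat_lit 76) (nat_lit 144950190163) (nat_lit 12) (nat_lit 4) (nat_lit 13) (nat_lit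 5) (nat_lit 13) (nat_lit 4) (nat_lit 488) (nat_lit 424) (nat_lit 288))))))) (XT.nd (nat_lit 936) (nat_lit 228) (nat_lit 0) (XT.nd (nat_lit 468) (nat_lit 152) (nat_lit 0) (XT.nd (nat_lit 234) (nat_lit 76) (nat_lit 0) (XT.nd (nat_lit 78) (nat_lit 152) (nat_lit 0) (XT.lf (nat_lit 0) (nat_lit 585214023209) (nat_lit 76) (nat_lit 93566292018) (nat_lit 76) (nat_lit 30247025284) (nat_lit 12) (nat_lit 4) (nat_lit 13) (nat_lit 5) (nat_lit 13) (nat_lit 4) (nat_lit 489) (nat_lit 424) (nat_lit 287)) (XT.nd (nat_lit 78) (nat_lit 0) (nat_lit 0) (XT.lf (nat_lit 0) (nat_lit 92896363284) (nat_lit 152) (nat_lit 628356888113) (nat_lit 0) (nat_lit 34267298122) (nat_lit 10) (nat_lit 5) (nat_lit 12) (nat_lit 4) (nat_lit 10) (nat_lit 4) (nat_lit 490) (nat_lit 424) (nat_lit 286)) (XT.lf (nat_lit 0) (nat_lit 230160090125) (nat_lit 152) (nat_lit 403507115831) (nat_lit 0) (nat_lit 171530918962) (nat_lit 10) (nat_lit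 5) (nat_lit 12) (nat_lit 4) (nat_lit 10) (nat_lit 4) (nat_lit 491) (nat_lit 424) (nat_lit 285)))) (XT.nd (nat_lit 78) (nat_lit 76) (nat_lit 0) (XT.lf (nat_lit 0) (nat_lit 378404446730) (nat_lit 152) (nat_lit 160670319681) (nat_lit 0) (nat_lit 319775177417) (nat_lit 10) (nat_lit 5) (nat_lit 12) (nat_lit 4) (nat_lit 10) (nat_lit 4) (nat_lit 492) (nat_lit 424) (nat_lit 284)) (XT.nd (nat_lit 78) (nat_lit 0) (nat_lit 0) (XT.lf (nat_lit 0) (nat_lit 106942215964) (nat_lit 76) (nat_lit 434137665075) (nat_lit 76) (nat_lit 375508304884) (nat_lit 9) (nat_lit 4) (nat_lit 10) (nat_lit 5) (nat_lit 10) (nat_lit 4) (nat_lit 493) (nat_lit 424) (nat_lit 283)) (XT.lf (nat_lit 0) (nat_lit 405100353405) (nat_lit 76) (nat_lit 316061585607) (nat_lit 76) (nat_lit 257432141268) (nat_lit 9) (nat_lit 4) (nat_lit 10) (nat_lit 5) (nat_lit 10) (nat_lit 4) (nat_lit 494) (nat_lit 424) (nat_lit 282))))) (XT.nd (nat_lit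 234) (nat_lit 0) (nat_lit 0) (XT.nd (nat_lit 78) (nat_lit 152) (nat_lit 0) (XT.lf (nat_lit 0) (nat_lit 727110341375) (nat_lit 76) (nat_lit 188539829178) (nat_lit 76) (nat_lit 129910306925) (nat_lit 9) (nat_lit 4) (nat_lit 10) (nat_lit 5) (nat_lit 10) (nat_lit 4) (nat_lit 495) (nat_lit 424) (nat_lit 281)) (XT.nd (nat_lit 78) (nat_lit 76) (nat_lit 0) (XT.lf (nat_lit 0) (nat_lit 7422051036) (nat_lit 152) (nat_lit 43191728240) (nat_lit 76) (nat_lit 1067255404146) (nat_lit 8) (nat_lit 5) (nat_lit 10) (nat_lit 5) (nat_lit 9) (nat_lit 4) (nat_lit 496) (nat_lit 424) (nat_lit 280)) (XT.lf (nat_lit 0) (nat_lit 157686999491) (nat_lit 152) (nat_lit 933888204080) (nat_lit 0) (nat_lit 103400276163) (nat_lit 7) (nat_lit 5) (nat_lit 9) (nat_lit 4) (nat_lit 7) (nat_lit 4) (nat_lit 497) (nat_lit 424) (nat_lit 279)))) (XT.nd (nat_lit 78) (nat_lit 0) (nat_lit 0) (XT.lf (nat_lit 0) (nat_lit 322499056079) (nat_lit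 152) (nat_lit 687336875214) (nat_lit 0) (nat_lit 268212275482) (nat_lit 7) (nat_lit 5) (nat_lit 9) (nat_lit 4) (nat_lit 7) (nat_lit 4) (nat_lit 498) (nat_lit 424) (nat_lit 278)) (XT.nd (nat_lit 78) (nat_lit 0) (nat_lit 0) (XT.lf (nat_lit 0) (nat_lit 500495759160) (nat_lit 152) (nat_lit 421062092733) (nat_lit 0) (nat_lit 446208925535) (nat_lit 7) (nat_lit 5) (nat_lit 9) (nat_lit 4) (nat_lit 7) (nat_lit 4) (nat_lit 499) (nat_lit 424) (nat_lit 277)) (XT.lf (nat_lit 0) (nat_lit 692731904010) (nat_lit 152) (nat_lit 133485931998) (nat_lit 0) (nat_lit 638445021286) (nat_lit 7) (nat_lit 5) (nat_lit 9) (nat_lit 4) (nat_lit 7) (nat_lit 4) (nat_lit 500) (nat_lit 424) (nat_lit 276)))))) (XT.nd (nat_lit 468) (nat_lit 0) (nat_lit 0) (XT.nd (nat_lit 234) (nat_lit 152) (nat_lit 0) (XT.nd (nat_lit 78) (nat_lit 0) (nat_lit 0) (XT.lf (nat_lit 0) (nat_lit 186421311002) (nat_lit 76) (nat_lit 718408793794) (nat_lit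 76) (nat_lit 664121865608) (nat_lit 6) (nat_lit 4) (nat_lit 7) (nat_lit 5) (nat_lit 7) (nat_lit 4) (nat_lit 501) (nat_lit 424) (nat_lit 275)) (XT.nd (nat_lit 78) (nat_lit 0) (nat_lit 0) (XT.lf (nat_lit 0) (nat_lit 539512051262) (nat_lit 76) (nat_lit 598033586739) (nat_lit 76) (nat_lit 543746616459) (nat_lit 6) (nat_lit 4) (nat_lit 7) (nat_lit 5) (nat_lit 7) (nat_lit 4) (nat_lit 502) (nat_lit 424) (nat_lit 274)) (XT.lf (nat_lit 0) (nat_lit 920849545731) (nat_lit 76) (nat_lit 468028622221) (nat_lit 76) (nat_lit 413741612964) (nat_lit 6) (nat_lit 4) (nat_lit 7) (nat_lit 5) (nat_lit 7) (nat_lit 4) (nat_lit 503) (nat_lit 424) (nat_lit 273)))) (XT.nd (nat_lit 78) (nat_lit 152) (nat_lit 0) (XT.lf (nat_lit 0) (nat_lit 1332693572153) (nat_lit 76) (nat_lit 327623500449) (nat_lit 76) (nat_lit 273336455103) (nat_lit 6) (nat_lit 4) (nat_lit 7) (nat_lit 5) (nat_lit 7) (nat_lit 4) (nat_lit 504) (nat_lit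 424) (nat_lit 272)) (XT.nd (nat_lit 78) (nat_lit 152) (nat_lit 0) (XT.lf (nat_lit 0) (nat_lit 1777484687723) (nat_lit 76) (nat_lit 175986191074) (nat_lit 76) (nat_lit 121699112311) (nat_lit 6) (nat_lit 4) (nat_lit 7) (nat_lit 5) (nat_lit 7) (nat_lit 4) (nat_lit 505) (nat_lit 424) (nat_lit 271)) (XT.lf (nat_lit 0) (nat_lit 30357762014) (nat_lit 76) (nat_lit 10336887849) (nat_lit 152) (nat_lit 2187173788096) (nat_lit 4) (nat_lit 5) (nat_lit 5) (nat_lit 5) (nat_lit 6) (nat_lit 4) (nat_lit 506) (nat_lit 424) (nat_lit 270))))) (XT.nd (nat_lit 234) (nat_lit 0) (nat_lit 0) (XT.nd (nat_lit 78) (nat_lit 0) (nat_lit 0) (XT.lf (nat_lit 0) (nat_lit 221909429457) (nat_lit 152) (nat_lit 1997984534857) (nat_lit 0) (nat_lit 171643560612) (nat_lit 4) (nat_lit 5) (nat_lit 6) (nat_lit 4) (nat_lit 4) (nat_lit 4) (nat_lit 507) (nat_lit 424) (nat_lit 269)) (XT.nd (nat_lit 78) (nat_lit 0) (nat_lit 0) (XT.lf (nat_lit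 0) (nat_lit 417889696782) (nat_lit 152) (nat_lit 1782765174265) (nat_lit 0) (nat_lit 367623803376) (nat_lit 4) (nat_lit 5) (nat_lit 6) (nat_lit 4) (nat_lit 4) (nat_lit 4) (nat_lit 508) (nat_lit 424) (nat_lit 268)) (XT.lf (nat_lit 0) (nat_lit 629548213987) (nat_lit 152) (nat_lit 1550328617779) (nat_lit 0) (nat_lit 579282297838) (nat_lit 4) (nat_lit 5) (nat_lit 6) (nat_lit 4) (nat_lit 4) (nat_lit 4) (nat_lit 509) (nat_lit 424) (nat_lit 267)))) (XT.nd (nat_lit 78) (nat_lit 0) (nat_lit 0) (XT.lf (nat_lit 0) (nat_lit 858139253764) (nat_lit 152) (nat_lit 1299297463581) (nat_lit 0) (nat_lit 807873316558) (nat_lit 4) (nat_lit 5) (nat_lit 6) (nat_lit 4) (nat_lit 4) (nat_lit 4) (nat_lit 510) (nat_lit 424) (nat_lit 266)) (XT.nd (nat_lit 78) (nat_lit 0) (nat_lit 0) (XT.lf (nat_lit 0) (nat_lit 1105017429684) (nat_lit 152) (nat_lit 1028184119649) (nat_lit 0) (nat_lit 1054751472979) (nat_lit 4) (nat_lit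 5) (nat_lit 6) (nat_lit 4) (nat_lit 4) (nat_lit 4) (nat_lit 511) (nat_lit 424) (nat_lit 265)) (XT.lf (nat_lit 0) (nat_lit 1371645723529) (nat_lit 152) (nat_lit 735381988386) (nat_lit 0) (nat_lit 1321379748771) (nat_lit 4) (nat_lit 5) (nat_lit 6) (nat_lit 4) (nat_lit 4) (nat_lit 4) (nat_lit 512) (nat_lit 424) (nat_lit 264))))))))
noncomputable def xc155 : XT := (XT.nd (nat_lit 56160) (nat_lit 0) (nat_lit 2736) (XT.nd (nat_lit 858) (nat_lit 0) (nat_lit 0) (XT.nd (nat_lit 390) (nat_lit 0) (nat_lit 0) (XT.nd (nat_lit 156) (nat_lit 76) (nat_lit 0) (XT.nd (nat_lit 78) (nat_lit 0) (nat_lit 0) (XT.lf (nat_lit 0) (nat_lit 1659604154819) (nat_lit 152) (nat_lit 419155946054) (nat_lit 0) (nat_lit 1609338163344) (nat_lit 4) (nat_lit 5) (nat_lit 6) (nat_lit 4) (nat_lit 4) (nat_lit 4) (nat_lit 513) (nat_lit 424) (nat_lit 263)) (XT.lf (nat_lit 0) (nat_lit 1970599143887) (nat_lit 152) (nat_lit 77632060550)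 (nat_lit 0) (nat_lit 1920333136934) (nat_lit 4) (nat_lit 5) (nat_lit 6) (nat_lit 4) (nat_lit 4) (nat_lit 4) (nat_lit 514) (nat_lit 424) (nat_lit 262))) (XT.nd (nat_lit 78) (nat_lit 0) (nat_lit 0) (XT.lf (nat_lit 0) (nat_lit 306548300914) (nat_lit 76) (nat_lit 2007297817096) (nat_lit 76) (nat_lit 1957031795812) (nat_lit 3) (nat_lit 4) (nat_lit 4) (nat_lit 5) (nat_lit 4) (nat_lit 4) (nat_lit 515) (nat_lit 424) (nat_lit 261)) (XT.nd (nat_lit 78) (nat_lit 0) (nat_lit 0) (XT.lf (nat_lit 0) (nat_lit 725877878578) (nat_lit 76) (nat_lit 1960797464310) (nat_lit 76) (nat_lit 1910531429756) (nat_lit 3) (nat_lit 4) (nat_lit 4) (nat_lit 5) (nat_lit 4) (nat_lit 4) (nat_lit 516) (nat_lit 424) (nat_lit 260)) (XT.lf (nat_lit 0) (nat_lit 1178753621725) (nat_lit 76) (nat_lit 1910577186545) (nat_lit 76) (nat_lit 1860311139704) (nat_lit 3) (nat_lit 4) (nat_lit 4) (nat_lit 5) (nat_lit 4) (nat_lit 4) (nat_lit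 517) (nat_lit 424) (nat_lit 259))))) (XT.nd (nat_lit 234) (nat_lit 0) (nat_lit 0) (XT.nd (nat_lit 78) (nat_lit 0) (nat_lit 0) (XT.lf (nat_lit 0) (nat_lit 1667859238461) (nat_lit 76) (nat_lit 1856339382154) (nat_lit 76) (nat_lit 1806073323936) (nat_lit 3) (nat_lit 4) (nat_lit 4) (nat_lit 5) (nat_lit 4) (nat_lit 4) (nat_lit 518) (nat_lit 424) (nat_lit 258)) (XT.nd (nat_lit 78) (nat_lit 0) (nat_lit 0) (XT.lf (nat_lit 0) (nat_lit 2196093132441) (nat_lit 76) (nat_lit 1797762641926) (nat_lit 76) (nat_lit 1747496573174) (nat_lit 3) (nat_lit 4) (nat_lit 4) (nat_lit 5) (nat_lit 4) (nat_lit 4) (nat_lit 519) (nat_lit 424) (nat_lit 257)) (XT.lf (nat_lit 0) (nat_lit 2766585578594) (nat_lit 76) (nat_lit 1734499844438) (nat_lit 76) (nat_lit 1684233765932) (nat_lit 3) (nat_lit 4) (nat_lit 4) (nat_lit 5) (nat_lit 4) (nat_lit 4) (nat_lit 520) (nat_lit 424) (nat_lit 256)))) (XT.nd (nat_lit 78) (nat_lit 0)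 (nat_lit 0) (XT.lf (nat_lit 0) (nat_lit 3382717272896) (nat_lit 76) (nat_lit 1666176099037) (nat_lit 76) (nat_lit 1615910011500) (nat_lit 3) (nat_lit 4) (nat_lit 4) (nat_lit 5) (nat_lit 4) (nat_lit 4) (nat_lit 521) (nat_lit 424) (nat_lit 255)) (XT.nd (nat_lit 78) (nat_lit 0) (nat_lit 0) (XT.lf (nat_lit 0) (nat_lit 4048139366127) (nat_lit 76) (nat_lit 1592386524270) (nat_lit 76) (nat_lit 1542120428370) (nat_lit 3) (nat_lit 4) (nat_lit 4) (nat_lit 5) (nat_lit 4) (nat_lit 4) (nat_lit 522) (nat_lit 424) (nat_lit 254)) (XT.lf (nat_lit 0) (nat_lit 4766795100323) (nat_lit 76) (nat_lit 1512693848582) (nat_lit 76) (nat_lit 1462427744939) (nat_lit 3) (nat_lit 4) (nat_lit 4) (nat_lit 5) (nat_lit 4) (nat_lit 4) (nat_lit 523) (nat_lit 424) (nat_lit 253)))))) (XT.nd (nat_lit 54834) (nat_lit 0) (nat_lit 5244) (XT.nd (nat_lit 234) (nat_lit 0) (nat_lit 0) (XT.nd (nat_lit 78) (nat_lit 0) (nat_lit 0) (XT.lf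 (nat_lit 0) (nat_lit 5542943176130) (nat_lit 76) (nat_lit 1426625819080) (nat_lit 76) (nat_lit 1376359708268) (nat_lit 3) (nat_lit 4) (nat_lit 4) (nat_lit 5) (nat_lit 4) (nat_lit 4) (nat_lit 524) (nat_lit 424) (nat_lit 252)) (XT.nd (nat_lit 78) (nat_lit 0) (nat_lit 0) (XT.lf (nat_lit 0) (nat_lit 6381182989552) (nat_lit 76) (nat_lit 1333672402998) (nat_lit 76) (nat_lit 1283406285547) (nat_lit 3) (nat_lit 4) (nat_lit 4) (nat_lit 5) (nat_lit 4) (nat_lit 4) (nat_lit 525) (nat_lit 424) (nat_lit 251)) (XT.lf (nat_lit 0) (nat_lit 7286481887634) (nat_lit 76) (nat_lit 1233282765276) (nat_lit 76) (nat_lit 1183016641679) (nat_lit 3) (nat_lit 4) (nat_lit 4) (nat_lit 5) (nat_lit 4) (nat_lit 4) (nat_lit 526) (nat_lit 424) (nat_lit 250)))) (XT.nd (nat_lit 78) (nat_lit 0) (nat_lit 0) (XT.lf (nat_lit 0) (nat_lit 8264204604584) (nat_lit 76) (nat_lit 1124862004358) (nat_lit 76) (nat_lit 1074595875070) (nat_lit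 3) (nat_lit 4) (nat_lit 4) (nat_lit 5) (nat_lit 4) (nat_lit 4) (nat_lit 527) (nat_lit 424) (nat_lit 249)) (XT.nd (nat_lit 54444) (nat_lit 0) (nat_lit 5700) (XT.lf (nat_lit 0) (nat_lit 9320145052800) (nat_lit 76) (nat_lit 1007767626845) (nat_lit 76) (nat_lit 957501492288) (nat_lit 3) (nat_lit 4) (nat_lit 4) (nat_lit 5) (nat_lit 4) (nat_lit 4) (nat_lit 528) (nat_lit 424) (nat_lit 248)) (XT.lf (nat_lit 0) (nat_lit 12890540304) (nat_lit 532) (nat_lit 523654296) (nat_lit 532) (nat_lit 523654296) (nat_lit 78) (nat_lit 3) (nat_lit 85) (nat_lit 3) (nat_lit 85) (nat_lit 5) (nat_lit 425) (nat_lit 425) (nat_lit 350))))) (XT.nd (nat_lit 234) (nat_lit 456) (nat_lit 0) (XT.nd (nat_lit 78) (nat_lit 0) (nat_lit 76) (XT.lf (nat_lit 76) (nat_lit 13393677318) (nat_lit 0) (nat_lit 13820363296) (nat_lit 532) (nat_lit 1744515757) (nat_lit 79) (nat_lit 5) (nat_lit 78) (nat_lit 3) (nat_lit 85) (nat_lit 5) (nat_lit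 426) (nat_lit 425) (nat_lit 349)) (XT.nd (nat_lit 78) (nat_lit 0) (nat_lit 0) (XT.lf (nat_lit 0) (nat_lit 28788519845) (nat_lit 456) (nat_lit 1087746614) (nat_lit 532) (nat_lit 249629782) (nat_lit 79) (nat_lit 5) (nat_lit 85) (nat_lit 5) (nat_lit 86) (nat_lit 5) (nat_lit 427) (nat_lit 425) (nat_lit 348)) (XT.lf (nat_lit 76) (nat_lit 14930602204) (nat_lit 0) (nat_lit 16269011325) (nat_lit 532) (nat_lit 130160245) (nat_lit 80) (nat_lit 5) (nat_lit 79) (nat_lit 5) (nat_lit 86) (nat_lit 5) (nat_lit 428) (nat_lit 425) (nat_lit 347)))) (XT.nd (nat_lit 78) (nat_lit 0) (nat_lit 76) (XT.lf (nat_lit 0) (nat_lit 1138291184) (nat_lit 532) (nat_lit 369428971) (nat_lit 608) (nat_lit 31118116393) (nat_lit 72) (nat_lit 5) (nat_lit 79) (nat_lit 5) (nat_lit 80) (nat_lit 5) (nat_lit 429) (nat_lit 425) (nat_lit 346)) (XT.nd (nat_lit 78) (nat_lit 0) (nat_lit 0) (XT.lf (nat_lit 0) (nat_lit 3281711439) (nat_lit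 532) (nat_lit 16523657669) (nat_lit 608) (nat_lit 14157505147) (nat_lit 73) (nat_lit 5) (nat_lit 80) (nat_lit 5) (nat_lit 81) (nat_lit 5) (nat_lit 430) (nat_lit 425) (nat_lit 345)) (XT.lf (nat_lit 76) (nat_lit 1308353701) (nat_lit 0) (nat_lit 4363043559) (nat_lit 608) (nat_lit 29729496542) (nat_lit 74) (nat_lit 5) (nat_lit 73) (nat_lit 5) (nat_lit 81) (nat_lit 5) (nat_lit 431) (nat_lit 425) (nat_lit 344))))))) (XT.nd (nat_lit 936) (nat_lit 1140) (nat_lit 0) (XT.nd (nat_lit 468) (nat_lit 608) (nat_lit 0) (XT.nd (nat_lit 234) (nat_lit 456) (nat_lit 0) (XT.nd (nat_lit 78) (nat_lit 456) (nat_lit 0) (XT.lf (nat_lit 0) (nat_lit 9006105861) (nat_lit 532) (nat_lit 15724601757) (nat_lit 76) (nat_lit 12162941478) (nat_lit 74) (nat_lit 5) (nat_lit 81) (nat_lit 5) (nat_lit 75) (nat_lit 5) (nat_lit 432) (nat_lit 425) (nat_lit 343)) (XT.nd (nat_lit 78) (nat_lit 0) (nat_lit 0) (XT.lf (nat_lit 0) (nat_lit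 4204661528) (nat_lit 456) (nat_lit 8611969366) (nat_lit 532) (nat_lit 25672472607) (nat_lit 68) (nat_lit 5) (nat_lit 74) (nat_lit 5) (nat_lit 75) (nat_lit 5) (nat_lit 433) (nat_lit 425) (nat_lit 342)) (XT.lf (nat_lit 0) (nat_lit 17579529790) (nat_lit 532) (nat_lit 13783383170) (nat_lit 76) (nat_lit 8797480480) (nat_lit 68) (nat_lit 5) (nat_lit 75) (nat_lit 5) (nat_lit 69) (nat_lit 5) (nat_lit 434) (nat_lit 425) (nat_lit 341)))) (XT.nd (nat_lit 78) (nat_lit 228) (nat_lit 0) (XT.lf (nat_lit 0) (nat_lit 8557131284) (nat_lit 228) (nat_lit 14591071312) (nat_lit 304) (nat_lit 18783206219) (nat_lit 65) (nat_lit 5) (nat_lit 68) (nat_lit 5) (nat_lit 69) (nat_lit 5) (nat_lit 435) (nat_lit 425) (nat_lit 340)) (XT.nd (nat_lit 78) (nat_lit 228) (nat_lit 0) (XT.lf (nat_lit 0) (nat_lit 29629217227) (nat_lit 304) (nat_lit 10444932331) (nat_lit 76) (nat_lit 3732609505) (nat_lit 65) (nat_lit 5) (nat_lit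 69) (nat_lit 5) (nat_lit 66) (nat_lit 5) (nat_lit 436) (nat_lit 425) (nat_lit 339)) (XT.lf (nat_lit 0) (nat_lit 14668716985) (nat_lit 228) (nat_lit 22687583289) (nat_lit 304) (nat_lit 8417631449) (nat_lit 62) (nat_lit 5) (nat_lit 65) (nat_lit 5) (nat_lit 66) (nat_lit 5) (nat_lit 437) (nat_lit 425) (nat_lit 338))))) (XT.nd (nat_lit 234) (nat_lit 152) (nat_lit 0) (XT.nd (nat_lit 78) (nat_lit 456) (nat_lit 0) (XT.lf (nat_lit 0) (nat_lit 42380750151) (nat_lit 228) (nat_lit 3602394601) (nat_lit 304) (nat_lit 1892807133) (nat_lit 62) (nat_lit 5) (nat_lit 65) (nat_lit 5) (nat_lit 66) (nat_lit 5) (nat_lit 438) (nat_lit 425) (nat_lit 337)) (XT.nd (nat_lit 78) (nat_lit 228) (nat_lit 0) (XT.lf (nat_lit 0) (nat_lit 5877011433) (nat_lit 228) (nat_lit 27323250101) (nat_lit 76) (nat_lit 16857490310) (nat_lit 59) (nat_lit 5) (nat_lit 62) (nat_lit 5) (nat_lit 60) (nat_lit 5) (nat_lit 439) (nat_lit 425)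 (nat_lit 336)) (XT.lf (nat_lit 0) (nat_lit 1033354053) (nat_lit 228) (nat_lit 13401736256) (nat_lit 304) (nat_lit 37953558548) (nat_lit 56) (nat_lit 5) (nat_lit 59) (nat_lit 5) (nat_lit 60) (nat_lit 5) (nat_lit 440) (nat_lit 425) (nat_lit 335)))) (XT.nd (nat_lit 78) (nat_lit 152) (nat_lit 0) (XT.lf (nat_lit 0) (nat_lit 24632716238) (nat_lit 304) (nat_lit 21850066384) (nat_lit 76) (nat_lit 8346843884) (nat_lit 56) (nat_lit 5) (nat_lit 60) (nat_lit 5) (nat_lit 57) (nat_lit 5) (nat_lit 441) (nat_lit 425) (nat_lit 334)) (XT.nd (nat_lit 78) (nat_lit 0) (nat_lit 0) (XT.lf (nat_lit 0) (nat_lit 10171820417) (nat_lit 152) (nat_lit 26063816041) (nat_lit 228) (nat_lit 21183088036) (nat_lit 54) (nat_lit 5) (nat_lit 56) (nat_lit 5) (nat_lit 57) (nat_lit 5) (nat_lit 442) (nat_lit 425) (nat_lit 333)) (XT.lf (nat_lit 0) (nat_lit 45993706187) (nat_lit 152) (nat_lit 3367393241) (nat_lit 228) (nat_lit 10806306964)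 (nat_lit 54) (nat_lit 5) (nat_lit 56) (nat_lit 5) (nat_lit 57) (nat_lit 5) (nat_lit 443) (nat_lit 425) (nat_lit 332)))))) (XT.nd (nat_lit 468) (nat_lit 456) (nat_lit 0) (XT.nd (nat_lit 234) (nat_lit 304) (nat_lit 0) (XT.nd (nat_lit 78) (nat_lit 152) (nat_lit 0) (XT.lf (nat_lit 0) (nat_lit 1445632110) (nat_lit 228) (nat_lit 40949430973) (nat_lit 76) (nat_lit 20654945181) (nat_lit 51) (nat_lit 5) (nat_lit 54) (nat_lit 5) (nat_lit 52) (nat_lit 5) (nat_lit 444) (nat_lit 425) (nat_lit 331)) (XT.nd (nat_lit 78) (nat_lit 152) (nat_lit 0) (XT.lf (nat_lit 0) (nat_lit 14576103654) (nat_lit 228) (nat_lit 4431867795) (nat_lit 76) (nat_lit 47094216919) (nat_lit 51) (nat_lit 5) (nat_lit 54) (nat_lit 5) (nat_lit 52) (nat_lit 5) (nat_lit 445) (nat_lit 425) (nat_lit 330)) (XT.lf (nat_lit 0) (nat_lit 29813813618) (nat_lit 228) (nat_lit 32654847994) (nat_lit 76) (nat_lit 6845337802) (nat_lit 49) (nat_lit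 5) (nat_lit 52) (nat_lit 5) (nat_lit 50) (nat_lit 5) (nat_lit 446) (nat_lit 425) (nat_lit 329)))) (XT.nd (nat_lit 78) (nat_lit 152) (nat_lit 0) (XT.lf (nat_lit 0) (nat_lit 8437598183) (nat_lit 152) (nat_lit 38651319932) (nat_lit 228) (nat_lit 25628367556) (nat_lit 47) (nat_lit 5) (nat_lit 49) (nat_lit 5) (nat_lit 50) (nat_lit 5) (nat_lit 447) (nat_lit 425) (nat_lit 328)) (XT.nd (nat_lit 78) (nat_lit 152) (nat_lit 0) (XT.lf (nat_lit 0) (nat_lit 54670594161) (nat_lit 152) (nat_lit 11965791626) (nat_lit 228) (nat_lit 9685221160) (nat_lit 47) (nat_lit 5) (nat_lit 49) (nat_lit 5) (nat_lit 50) (nat_lit 5) (nat_lit 448) (nat_lit 425) (nat_lit 327)) (XT.lf (nat_lit 0) (nat_lit 8192838035) (nat_lit 152) (nat_lit 55099413541) (nat_lit 76) (nat_lit 16824623661) (nat_lit 45) (nat_lit 5) (nat_lit 47) (nat_lit 5) (nat_lit 46) (nat_lit 5) (nat_lit 449) (nat_lit 425) (nat_lit 326))))) (XT.nd (nat_lit 234)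 (nat_lit 228) (nat_lit 0) (XT.nd (nat_lit 78) (nat_lit 228) (nat_lit 0) (XT.lf (nat_lit 0) (nat_lit 27893730853) (nat_lit 152) (nat_lit 8099260820) (nat_lit 76) (nat_lit 48129381193) (nat_lit 45) (nat_lit 5) (nat_lit 47) (nat_lit 5) (nat_lit 46) (nat_lit 5) (nat_lit 450) (nat_lit 425) (nat_lit 325)) (XT.nd (nat_lit 78) (nat_lit 76) (nat_lit 0) (XT.lf (nat_lit 0) (nat_lit 44903608535) (nat_lit 152) (nat_lit 5344880095) (nat_lit 228) (nat_lit 38113598561) (nat_lit 43) (nat_lit 5) (nat_lit 45) (nat_lit 5) (nat_lit 46) (nat_lit 5) (nat_lit 451) (nat_lit 425) (nat_lit 324)) (XT.lf (nat_lit 0) (nat_lit 9481499848) (nat_lit 76) (nat_lit 66030769950) (nat_lit 152) (nat_lit 17339057788) (nat_lit 42) (nat_lit 5) (nat_lit 43) (nat_lit 5) (nat_lit 44) (nat_lit 4) (nat_lit 452) (nat_lit 425) (nat_lit 323)))) (XT.nd (nat_lit 78) (nat_lit 152) (nat_lit 0) (XT.lf (nat_lit 0) (nat_lit 6198294573) (nat_lit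 152) (nat_lit 28772351188) (nat_lit 76) (nat_lit 62610786790) (nat_lit 41) (nat_lit 5) (nat_lit 43) (nat_lit 5) (nat_lit 42) (nat_lit 5) (nat_lit 453) (nat_lit 425) (nat_lit 322)) (XT.nd (nat_lit 78) (nat_lit 0) (nat_lit 0) (XT.lf (nat_lit 0) (nat_lit 31305223895) (nat_lit 152) (nat_lit 127617382) (nat_lit 228) (nat_lit 71160998448) (nat_lit 39) (nat_lit 5) (nat_lit 41) (nat_lit 5) (nat_lit 42) (nat_lit 5) (nat_lit 454) (nat_lit 425) (nat_lit 321)) (XT.lf (nat_lit 0) (nat_lit 60393321428) (nat_lit 228) (nat_lit 11044747591) (nat_lit 76) (nat_lit 36432597129) (nat_lit 39) (nat_lit 5) (nat_lit 42) (nat_lit 5) (nat_lit 40) (nat_lit 4) (nat_lit 455) (nat_lit 425) (nat_lit 320))))))))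
noncomputable def xc156 : XT := (XT.nd (nat_lit 1794) (nat_lit 912) (nat_lit 0) (XT.nd (nat_lit 858) (nat_lit 684) (nat_lit 0) (XT.nd (nat_lit 390) (nat_lit 456) (nat_lit 0) (XT.nd (nat_lit 156) (nat_lit 76) (nat_lit 0) (XT.nd (nat_lit 78) (nat_lit 228) (nat_lit 0) (XT.lf (nat_lit 0) (nat_lit 56856372480) (nat_lit 76) (nat_lit 36183224450) (nat_lit 152) (nat_lit 20420525433) (nat_lit 38) (nat_lit 5) (nat_lit 39) (nat_lit 5) (nat_lit 40) (nat_lit 4) (nat_lit 456) (nat_lit 425) (nat_lit 319)) (XT.lf (nat_lit 0) (nat_lit 9016579866) (nat_lit 228) (nat_lit 107790782430) (nat_lit 76) (nat_lit 2619960620) (nat_lit 35) (nat_lit 5) (nat_lit 38) (nat_lit 5) (nat_lit 36) (nat_lit 4) (nat_lit 457) (nat_lit 425) (nat_lit 318))) (XT.nd (nat_lit 78) (nat_lit 76) (nat_lit 0) (XT.lf (nat_lit 0) (nat_lit 42231364056) (nat_lit 228) (nat_lit 38706518371) (nat_lit 76) (nat_lit 44689509072) (nat_lit 35) (nat_lit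 5) (nat_lit 38) (nat_lit 5) (nat_lit 36) (nat_lit 4) (nat_lit 458) (nat_lit 425) (nat_lit 317)) (XT.nd (nat_lit 78) (nat_lit 0) (nat_lit 0) (XT.lf (nat_lit 0) (nat_lit 37792069352) (nat_lit 76) (nat_lit 41218569008) (nat_lit 152) (nat_lit 53240242790) (nat_lit 34) (nat_lit 5) (nat_lit 35) (nat_lit 5) (nat_lit 36) (nat_lit 4) (nat_lit 459) (nat_lit 425) (nat_lit 316)) (XT.lf (nat_lit 0) (nat_lit 119856835707) (nat_lit 152) (nat_lit 16778566573) (nat_lit 0) (nat_lit 2678881366) (nat_lit 34) (nat_lit 5) (nat_lit 36) (nat_lit 4) (nat_lit 34) (nat_lit 4) (nat_lit 460) (nat_lit 425) (nat_lit 315))))) (XT.nd (nat_lit 234) (nat_lit 228) (nat_lit 0) (XT.nd (nat_lit 78) (nat_lit 76) (nat_lit 0) (XT.lf (nat_lit 0) (nat_lit 18988482622) (nat_lit 152) (nat_lit 77683738546) (nat_lit 76) (nat_lit 50012789846) (nat_lit 32) (nat_lit 5) (nat_lit 34) (nat_lit 5) (nat_lit 33) (nat_lit 4) (nat_lit 461) (nat_lit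 425) (nat_lit 314)) (XT.nd (nat_lit 78) (nat_lit 0) (nat_lit 0) (XT.lf (nat_lit 0) (nat_lit 7862276563) (nat_lit 76) (nat_lit 52254911711) (nat_lit 152) (nat_lit 94435112706) (nat_lit 31) (nat_lit 5) (nat_lit 32) (nat_lit 5) (nat_lit 33) (nat_lit 4) (nat_lit 462) (nat_lit 425) (nat_lit 313)) (XT.lf (nat_lit 0) (nat_lit 104667248383) (nat_lit 76) (nat_lit 1991545222) (nat_lit 152) (nat_lit 56220372398) (nat_lit 31) (nat_lit 5) (nat_lit 32) (nat_lit 5) (nat_lit 33) (nat_lit 4) (nat_lit 463) (nat_lit 425) (nat_lit 312)))) (XT.nd (nat_lit 78) (nat_lit 152) (nat_lit 0) (XT.lf (nat_lit 0) (nat_lit 37984378610) (nat_lit 76) (nat_lit 121109187627) (nat_lit 76) (nat_lit 12605026988) (nat_lit 30) (nat_lit 4) (nat_lit 31) (nat_lit 5) (nat_lit 31) (nat_lit 4) (nat_lit 464) (nat_lit 425) (nat_lit 311)) (XT.nd (nat_lit 78) (nat_lit 76) (nat_lit 0) (XT.lf (nat_lit 0) (nat_lit 34457098831) (nat_lit 152)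 (nat_lit 36834639215) (nat_lit 76) (nat_lit 109730790695) (nat_lit 29) (nat_lit 5) (nat_lit 31) (nat_lit 5) (nat_lit 30) (nat_lit 4) (nat_lit 465) (nat_lit 425) (nat_lit 310)) (XT.lf (nat_lit 0) (nat_lit 71018151751) (nat_lit 76) (nat_lit 15291804269) (nat_lit 152) (nat_lit 104619690088) (nat_lit 28) (nat_lit 5) (nat_lit 29) (nat_lit 5) (nat_lit 30) (nat_lit 4) (nat_lit 466) (nat_lit 425) (nat_lit 309)))))) (XT.nd (nat_lit 468) (nat_lit 304) (nat_lit 0) (XT.nd (nat_lit 234) (nat_lit 152) (nat_lit 0) (XT.nd (nat_lit 78) (nat_lit 228) (nat_lit 0) (XT.lf (nat_lit 0) (nat_lit 144429881432) (nat_lit 152) (nat_lit 13070084602) (nat_lit 0) (nat_lit 43959859739) (nat_lit 28) (nat_lit 5) (nat_lit 30) (nat_lit 4) (nat_lit 28) (nat_lit 4) (nat_lit 467) (nat_lit 425) (nat_lit 308)) (XT.nd (nat_lit 78) (nat_lit 152) (nat_lit 0) (XT.lf (nat_lit 0) (nat_lit 107286139397) (nat_lit 76) (nat_lit 102889556530)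 (nat_lit 76) (nat_lit 2418620352) (nat_lit 27) (nat_lit 4) (nat_lit 28) (nat_lit 5) (nat_lit 28) (nat_lit 4) (nat_lit 468) (nat_lit 425) (nat_lit 307)) (XT.lf (nat_lit 0) (nat_lit 12686006893) (nat_lit 76) (nat_lit 41716776672) (nat_lit 152) (nat_lit 170054308695) (nat_lit 25) (nat_lit 5) (nat_lit 26) (nat_lit 5) (nat_lit 27) (nat_lit 4) (nat_lit 469) (nat_lit 425) (nat_lit 306)))) (XT.nd (nat_lit 78) (nat_lit 152) (nat_lit 0) (XT.lf (nat_lit 0) (nat_lit 119177826093) (nat_lit 152) (nat_lit 91655279501) (nat_lit 0) (nat_lit 26147671511) (nat_lit 25) (nat_lit 5) (nat_lit 27) (nat_lit 4) (nat_lit 25) (nat_lit 4) (nat_lit 470) (nat_lit 425) (nat_lit 305)) (XT.nd (nat_lit 78) (nat_lit 76) (nat_lit 0) (XT.lf (nat_lit 0) (nat_lit 38931717480) (nat_lit 76) (nat_lit 152221980014) (nat_lit 76) (nat_lit 59191153259) (nat_lit 24) (nat_lit 4) (nat_lit 25) (nat_lit 5) (nat_lit 25) (nat_lit 4) (nat_lit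 471) (nat_lit 425) (nat_lit 304)) (XT.lf (nat_lit 0) (nat_lit 6474085933) (nat_lit 152) (nat_lit 79565350397) (nat_lit 76) (nat_lit 178525101084) (nat_lit 23) (nat_lit 5) (nat_lit 25) (nat_lit 5) (nat_lit 24) (nat_lit 4) (nat_lit 472) (nat_lit 425) (nat_lit 303))))) (XT.nd (nat_lit 234) (nat_lit 152) (nat_lit 0) (XT.nd (nat_lit 78) (nat_lit 76) (nat_lit 0) (XT.lf (nat_lit 0) (nat_lit 64518400126) (nat_lit 76) (nat_lit 11226996770) (nat_lit 152) (nat_lit 203929350563) (nat_lit 22) (nat_lit 5) (nat_lit 23) (nat_lit 5) (nat_lit 24) (nat_lit 4) (nat_lit 473) (nat_lit 425) (nat_lit 302)) (XT.nd (nat_lit 78) (nat_lit 76) (nat_lit 0) (XT.lf (nat_lit 0) (nat_lit 154462594231) (nat_lit 152) (nat_lit 72897509712) (nat_lit 0) (nat_lit 68321335885) (nat_lit 22) (nat_lit 5) (nat_lit 24) (nat_lit 4) (nat_lit 22) (nat_lit 4) (nat_lit 474) (nat_lit 425) (nat_lit 301)) (XT.lf (nat_lit 0) (nat_lit 84684950880)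 (nat_lit 76) (nat_lit 157119620134) (nat_lit 76) (nat_lit 70977904318) (nat_lit 21) (nat_lit 4) (nat_lit 22) (nat_lit 5) (nat_lit 22) (nat_lit 4) (nat_lit 475) (nat_lit 425) (nat_lit 300)))) (XT.nd (nat_lit 78) (nat_lit 76) (nat_lit 0) (XT.lf (nat_lit 0) (nat_lit 6682116435) (nat_lit 152) (nat_lit 72243337213) (nat_lit 76) (nat_lit 252153223503) (nat_lit 20) (nat_lit 5) (nat_lit 22) (nat_lit 5) (nat_lit 21) (nat_lit 4) (nat_lit 476) (nat_lit 425) (nat_lit 299)) (XT.nd (nat_lit 78) (nat_lit 0) (nat_lit 0) (XT.lf (nat_lit 0) (nat_lit 89347833247) (nat_lit 152) (nat_lit 251546821852) (nat_lit 0) (nat_lit 9586229908) (nat_lit 19) (nat_lit 5) (nat_lit 21) (nat_lit 4) (nat_lit 19) (nat_lit 4) (nat_lit 477) (nat_lit 425) (nat_lit 298)) (XT.lf (nat_lit 0) (nat_lit 182702573783) (nat_lit 152) (nat_lit 85466000235) (nat_lit 0) (nat_lit 102940634189) (nat_lit 19) (nat_lit 5) (nat_lit 21) (nat_lit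 4) (nat_lit 19) (nat_lit 4) (nat_lit 478) (nat_lit 425) (nat_lit 297))))))) (XT.nd (nat_lit 858) (nat_lit 380) (nat_lit 0) (XT.nd (nat_lit 390) (nat_lit 228) (nat_lit 0) (XT.nd (nat_lit 156) (nat_lit 228) (nat_lit 0) (XT.nd (nat_lit 78) (nat_lit 0) (nat_lit 0) (XT.lf (nat_lit 0) (nat_lit 98844371303) (nat_lit 76) (nat_lit 187057780148) (nat_lit 76) (nat_lit 107295529208) (nat_lit 18) (nat_lit 4) (nat_lit 19) (nat_lit 5) (nat_lit 19) (nat_lit 4) (nat_lit 479) (nat_lit 425) (nat_lit 296)) (XT.lf (nat_lit 0) (nat_lit 302758626414) (nat_lit 76) (nat_lit 96935129448) (nat_lit 76) (nat_lit 17172590224) (nat_lit 18) (nat_lit 4) (nat_lit 19) (nat_lit 5) (nat_lit 19) (nat_lit 4) (nat_lit 480) (nat_lit 425) (nat_lit 295))) (XT.nd (nat_lit 78) (nat_lit 76) (nat_lit 0) (XT.lf (nat_lit 0) (nat_lit 78251457576) (nat_lit 152) (nat_lit 359457714549) (nat_lit 0) (nat_lit 4397007434) (nat_lit 16) (nat_lit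 5) (nat_lit 18) (nat_lit 4) (nat_lit 16) (nat_lit 4) (nat_lit 481) (nat_lit 425) (nat_lit 294)) (XT.nd (nat_lit 78) (nat_lit 76) (nat_lit 0) (XT.lf (nat_lit 0) (nat_lit 186099709931) (nat_lit 152) (nat_lit 170527331824) (nat_lit 0) (nat_lit 112245030940) (nat_lit 16) (nat_lit 5) (nat_lit 18) (nat_lit 4) (nat_lit 16) (nat_lit 4) (nat_lit 482) (nat_lit 425) (nat_lit 293)) (XT.lf (nat_lit 0) (nat_lit 35281085350) (nat_lit 76) (nat_lit 268142606637) (nat_lit 76) (nat_lit 194287715748) (nat_lit 15) (nat_lit 4) (nat_lit 16) (nat_lit 5) (nat_lit 16) (nat_lit 4) (nat_lit 483) (nat_lit 425) (nat_lit 292))))) (XT.nd (nat_lit 234) (nat_lit 76) (nat_lit 0) (XT.nd (nat_lit 78) (nat_lit 152) (nat_lit 0) (XT.lf (nat_lit 0) (nat_lit 267250950298) (nat_lit 76) (nat_lit 167544537390) (nat_lit 76) (nat_lit 93689450301) (nat_lit 15) (nat_lit 4) (nat_lit 16) (nat_lit 5) (nat_lit 16) (nat_lit 4) (nat_lit 484)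 (nat_lit 425) (nat_lit 291)) (XT.nd (nat_lit 78) (nat_lit 76) (nat_lit 0) (XT.lf (nat_lit 0) (nat_lit 14207889702) (nat_lit 152) (nat_lit 44302858176) (nat_lit 76) (nat_lit 503180873577) (nat_lit 14) (nat_lit 5) (nat_lit 16) (nat_lit 5) (nat_lit 15) (nat_lit 4) (nat_lit 485) (nat_lit 425) (nat_lit 290)) (XT.lf (nat_lit 0) (nat_lit 132034240119) (nat_lit 152) (nat_lit 401167632893) (nat_lit 0) (nat_lit 63649576259) (nat_lit 13) (nat_lit 5) (nat_lit 15) (nat_lit 4) (nat_lit 13) (nat_lit 4) (nat_lit 486) (nat_lit 425) (nat_lit 289)))) (XT.nd (nat_lit 78) (nat_lit 76) (nat_lit 0) (XT.lf (nat_lit 0) (nat_lit 262048691812) (nat_lit 152) (nat_lit 178890528315) (nat_lit 0) (nat_lit 193663883739) (nat_lit 13) (nat_lit 5) (nat_lit 15) (nat_lit 4) (nat_lit 13) (nat_lit 4) (nat_lit 487) (nat_lit 425) (nat_lit 288)) (XT.nd (nat_lit 78) (nat_lit 0) (nat_lit 0) (XT.lf (nat_lit 0) (nat_lit 64388694880)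 (nat_lit 76) (nat_lit 339623647088) (nat_lit 76) (nat_lit 271238705484) (nat_lit 12) (nat_lit 4) (nat_lit 13) (nat_lit 5) (nat_lit 13) (nat_lit 4) (nat_lit 488) (nat_lit 425) (nat_lit 287)) (XT.lf (nat_lit 0) (nat_lit 337302911898) (nat_lit 76) (nat_lit 224920862337) (nat_lit 76) (nat_lit 156535797092) (nat_lit 12) (nat_lit 4) (nat_lit 13) (nat_lit 5) (nat_lit 13) (nat_lit 4) (nat_lit 489) (nat_lit 425) (nat_lit 286)))))) (XT.nd (nat_lit 468) (nat_lit 152) (nat_lit 0) (XT.nd (nat_lit 234) (nat_lit 76) (nat_lit 0) (XT.nd (nat_lit 78) (nat_lit 152) (nat_lit 0) (XT.lf (nat_lit 0) (nat_lit 632049333973) (nat_lit 76) (nat_lit 101042329732) (nat_lit 76) (nat_lit 32657150006) (nat_lit 12) (nat_lit 4) (nat_lit 13) (nat_lit 5) (nat_lit 13) (nat_lit 4) (nat_lit 490) (nat_lit 425) (nat_lit 285)) (XT.nd (nat_lit 78) (nat_lit 0) (nat_lit 0) (XT.lf (nat_lit 0) (nat_lit 100337210335) (nat_lit 152) (nat_lit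 678606750622) (nat_lit 0) (nat_lit 37017501329) (nat_lit 10) (nat_lit 5) (nat_lit 12) (nat_lit 4) (nat_lit 10) (nat_lit 4) (nat_lit 491) (nat_lit 425) (nat_lit 284)) (XT.lf (nat_lit 0) (nat_lit 248581358436) (nat_lit 152) (nat_lit 435770380894) (nat_lit 0) (nat_lit 185261558550) (nat_lit 10) (nat_lit 5) (nat_lit 12) (nat_lit 4) (nat_lit 10) (nat_lit 4) (nat_lit 492) (nat_lit 425) (nat_lit 283)))) (XT.nd (nat_lit 78) (nat_lit 76) (nat_lit 0) (XT.lf (nat_lit 0) (nat_lit 408684636821) (nat_lit 152) (nat_lit 173507922845) (nat_lit 0) (nat_lit 345364752788) (nat_lit 10) (nat_lit 5) (nat_lit 12) (nat_lit 4) (nat_lit 10) (nat_lit 4) (nat_lit 493) (nat_lit 425) (nat_lit 282)) (XT.nd (nat_lit 78) (nat_lit 0) (nat_lit 0) (XT.lf (nat_lit 0) (nat_lit 115513210021) (nat_lit 76) (nat_lit 468860691116) (nat_lit 76) (nat_lit 405540729169) (nat_lit 9) (nat_lit 4) (nat_lit 10) (nat_lit 5) (nat_lit 10) (nat_lit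 4) (nat_lit 494) (nat_lit 425) (nat_lit 281)) (XT.lf (nat_lit 0) (nat_lit 437522841658) (nat_lit 76) (nat_lit 341339116932) (nat_lit 76) (nat_lit 278019082842) (nat_lit 9) (nat_lit 4) (nat_lit 10) (nat_lit 5) (nat_lit 10) (nat_lit 4) (nat_lit 495) (nat_lit 425) (nat_lit 280))))) (XT.nd (nat_lit 234) (nat_lit 0) (nat_lit 0) (XT.nd (nat_lit 78) (nat_lit 152) (nat_lit 0) (XT.lf (nat_lit 0) (nat_lit 785292557556) (nat_lit 76) (nat_lit 203616167805) (nat_lit 76) (nat_lit 140296066916) (nat_lit 9) (nat_lit 4) (nat_lit 10) (nat_lit 5) (nat_lit 10) (nat_lit 4) (nat_lit 496) (nat_lit 425) (nat_lit 279)) (XT.nd (nat_lit 78) (nat_lit 76) (nat_lit 0) (XT.lf (nat_lit 0) (nat_lit 8022029160) (nat_lit 152) (nat_lit 46634342085) (nat_lit 76) (nat_lit 1152641849637) (nat_lit 8) (nat_lit 5) (nat_lit 10) (nat_lit 5) (nat_lit 9) (nat_lit 4) (nat_lit 497) (nat_lit 425) (nat_lit 278)) (XT.lf (nat_lit 0) (nat_lit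 170308164191) (nat_lit 152) (nat_lit 1008586526609) (nat_lit 0) (nat_lit 111678330850) (nat_lit 7) (nat_lit 5) (nat_lit 9) (nat_lit 4) (nat_lit 7) (nat_lit 4) (nat_lit 498) (nat_lit 425) (nat_lit 277)))) (XT.nd (nat_lit 78) (nat_lit 0) (nat_lit 0) (XT.lf (nat_lit 0) (nat_lit 348304725696) (nat_lit 152) (nat_lit 742312034678) (nat_lit 0) (nat_lit 289674843255) (nat_lit 7) (nat_lit 5) (nat_lit 9) (nat_lit 4) (nat_lit 7) (nat_lit 4) (nat_lit 499) (nat_lit 425) (nat_lit 276)) (XT.nd (nat_lit 78) (nat_lit 0) (nat_lit 0) (XT.lf (nat_lit 0) (nat_lit 540540739458) (nat_lit 152) (nat_lit 454736142972) (nat_lit 0) (nat_lit 481910811555) (nat_lit 7) (nat_lit 5) (nat_lit 9) (nat_lit 4) (nat_lit 7) (nat_lit 4) (nat_lit 500) (nat_lit 425) (nat_lit 275)) (XT.lf (nat_lit 0) (nat_lit 748155381854) (nat_lit 152) (nat_lit 144154698059) (nat_lit 0) (nat_lit 689525411856) (nat_lit 7) (nat_lit 5) (nat_lit 9)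 (nat_lit 4) (nat_lit 7) (nat_lit 4) (nat_lit 501) (nat_lit 425) (nat_lit 274))))))))
noncomputable def xc157 : XT := (XT.nd (nat_lit 1794) (nat_lit 0) (nat_lit 0) (XT.nd (nat_lit 858) (nat_lit 76) (nat_lit 0) (XT.nd (nat_lit 390) (nat_lit 152) (nat_lit 0) (XT.nd (nat_lit 156) (nat_lit 0) (nat_lit 0) (XT.nd (nat_lit 78) (nat_lit 0) (nat_lit 0) (XT.lf (nat_lit 0) (nat_lit 201344868470) (nat_lit 76) (nat_lit 775876442335) (nat_lit 76) (nat_lit 717246433361) (nat_lit 6) (nat_lit 4) (nat_lit 7) (nat_lit 5) (nat_lit 7) (nat_lit 4) (nat_lit 502) (nat_lit 425) (nat_lit 273)) (XT.lf (nat_lit 0) (nat_lit 582682138129) (nat_lit 76) (nat_lit 645871593157) (nat_lit 76) (nat_lit 587241548094) (nat_lit 6) (nat_lit 4) (nat_lit 7) (nat_lit 5) (nat_lit 7) (nat_lit 4) (nat_lit 503) (nat_lit 425) (nat_lit 272))) (XT.nd (nat_lit 78) (nat_lit 0) (nat_lit 0) (XT.lf (nat_lit 0) (nat_lit 994525956395) (nat_lit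 76) (nat_lit 505466578182) (nat_lit 76) (nat_lit 446836499703) (nat_lit 6) (nat_lit 4) (nat_lit 7) (nat_lit 5) (nat_lit 7) (nat_lit 4) (nat_lit 504) (nat_lit 425) (nat_lit 271)) (XT.nd (nat_lit 78) (nat_lit 0) (nat_lit 0) (XT.lf (nat_lit 0) (nat_lit 1439316879227) (nat_lit 76) (nat_lit 353829367693) (nat_lit 76) (nat_lit 295199258272) (nat_lit 6) (nat_lit 4) (nat_lit 7) (nat_lit 5) (nat_lit 7) (nat_lit 4) (nat_lit 505) (nat_lit 425) (nat_lit 270)) (XT.lf (nat_lit 0) (nat_lit 1919690704687) (nat_lit 76) (nat_lit 190061370811) (nat_lit 76) (nat_lit 131431232742) (nat_lit 6) (nat_lit 4) (nat_lit 7) (nat_lit 5) (nat_lit 7) (nat_lit 4) (nat_lit 506) (nat_lit 425) (nat_lit 269))))) (XT.nd (nat_lit 234) (nat_lit 0) (nat_lit 0) (XT.nd (nat_lit 78) (nat_lit 0) (nat_lit 0) (XT.lf (nat_lit 0) (nat_lit 32793627318) (nat_lit 76) (nat_lit 11160118794) (nat_lit 152) (nat_lit 2362143884905) (nat_lit 4)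 (nat_lit 5) (nat_lit 5) (nat_lit 5) (nat_lit 6) (nat_lit 4) (nat_lit 507) (nat_lit 425) (nat_lit 268)) (XT.nd (nat_lit 78) (nat_lit 0) (nat_lit 0) (XT.lf (nat_lit 0) (nat_lit 239665529857) (nat_lit 152) (nat_lit 2157816411671) (nat_lit 0) (nat_lit 185378317674) (nat_lit 4) (nat_lit 5) (nat_lit 6) (nat_lit 4) (nat_lit 4) (nat_lit 4) (nat_lit 508) (nat_lit 425) (nat_lit 267)) (XT.lf (nat_lit 0) (nat_lit 451323970714) (nat_lit 152) (nat_lit 1925380012303) (nat_lit 0) (nat_lit 397036737473) (nat_lit 4) (nat_lit 5) (nat_lit 6) (nat_lit 4) (nat_lit 4) (nat_lit 4) (nat_lit 509) (nat_lit 425) (nat_lit 266)))) (XT.nd (nat_lit 78) (nat_lit 0) (nat_lit 0) (XT.lf (nat_lit 0) (nat_lit 679914939799) (nat_lit 152) (nat_lit 1674349003587) (nat_lit 0) (nat_lit 625627687060) (nat_lit 4) (nat_lit 5) (nat_lit 6) (nat_lit 4) (nat_lit 4) (nat_lit 4) (nat_lit 510) (nat_lit 425) (nat_lit 265)) (XT.nd (nat_lit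 78) (nat_lit 0) (nat_lit 0) (XT.lf (nat_lit 0) (nat_lit 926793050263) (nat_lit 152) (nat_lit 1403235794359) (nat_lit 0) (nat_lit 872505779470) (nat_lit 4) (nat_lit 5) (nat_lit 6) (nat_lit 4) (nat_lit 4) (nat_lit 4) (nat_lit 511) (nat_lit 425) (nat_lit 264)) (XT.lf (nat_lit 0) (nat_lit 1193421283501) (nat_lit 152) (nat_lit 1110433787823) (nat_lit 0) (nat_lit 1139133995992) (nat_lit 4) (nat_lit 5) (nat_lit 6) (nat_lit 4) (nat_lit 4) (nat_lit 4) (nat_lit 512) (nat_lit 425) (nat_lit 263)))))) (XT.nd (nat_lit 468) (nat_lit 0) (nat_lit 0) (XT.nd (nat_lit 234) (nat_lit 76) (nat_lit 0) (XT.nd (nat_lit 78) (nat_lit 0) (nat_lit 0) (XT.lf (nat_lit 0) (nat_lit 1481379658673) (nat_lit 152) (nat_lit 794207860978) (nat_lit 0) (nat_lit 1427092355686) (nat_lit 4) (nat_lit 5) (nat_lit 6) (nat_lit 4) (nat_lit 4) (nat_lit 4) (nat_lit 513) (nat_lit 425) (nat_lit 262)) (XT.nd (nat_lit 78) (nat_lit 0) (nat_lit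 0) (XT.lf (nat_lit 0) (nat_lit 1792374595779) (nat_lit 152) (nat_lit 452684082406) (nat_lit 0) (nat_lit 1738087278461) (nat_lit 4) (nat_lit 5) (nat_lit 6) (nat_lit 4) (nat_lit 4) (nat_lit 4) (nat_lit 514) (nat_lit 425) (nat_lit 261)) (XT.lf (nat_lit 0) (nat_lit 2128249027782) (nat_lit 152) (nat_lit 83838607493) (nat_lit 0) (nat_lit 2073961697193) (nat_lit 4) (nat_lit 5) (nat_lit 6) (nat_lit 4) (nat_lit 4) (nat_lit 4) (nat_lit 515) (nat_lit 425) (nat_lit 260)))) (XT.nd (nat_lit 78) (nat_lit 0) (nat_lit 0) (XT.lf (nat_lit 0) (nat_lit 331076081169) (nat_lit 76) (nat_lit 2167879628230) (nat_lit 76) (nat_lit 2113592285354) (nat_lit 3) (nat_lit 4) (nat_lit 4) (nat_lit 5) (nat_lit 4) (nat_lit 4) (nat_lit 516) (nat_lit 425) (nat_lit 259)) (XT.nd (nat_lit 78) (nat_lit 0) (nat_lit 0) (XT.lf (nat_lit 0) (nat_lit 783951734959) (nat_lit 76) (nat_lit 2117659396424) (nat_lit 76) (nat_lit 2063372042171)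 (nat_lit 3) (nat_lit 4) (nat_lit 4) (nat_lit 5) (nat_lit 4) (nat_lit 4) (nat_lit 517) (nat_lit 425) (nat_lit 258)) (XT.lf (nat_lit 0) (nat_lit 1273057268957) (nat_lit 76) (nat_lit 2063421634588) (nat_lit 76) (nat_lit 2009134269801) (nat_lit 3) (nat_lit 4) (nat_lit 4) (nat_lit 5) (nat_lit 4) (nat_lit 4) (nat_lit 518) (nat_lit 425) (nat_lit 257))))) (XT.nd (nat_lit 234) (nat_lit 0) (nat_lit 0) (XT.nd (nat_lit 78) (nat_lit 0) (nat_lit 0) (XT.lf (nat_lit 0) (nat_lit 1801291086329) (nat_lit 76) (nat_lit 2004844933762) (nat_lit 76) (nat_lit 1950557559222) (nat_lit 3) (nat_lit 4) (nat_lit 4) (nat_lit 5) (nat_lit 4) (nat_lit 4) (nat_lit 519) (nat_lit 425) (nat_lit 256)) (XT.nd (nat_lit 78) (nat_lit 0) (nat_lit 0) (XT.lf (nat_lit 0) (nat_lit 2371783461547) (nat_lit 76) (nat_lit 1941582172758) (nat_lit 76) (nat_lit 1887294789186) (nat_lit 3) (nat_lit 4) (nat_lit 4) (nat_lit 5) (nat_lit 4) (nat_lit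 4) (nat_lit 520) (nat_lit 425) (nat_lit 255)) (XT.lf (nat_lit 0) (nat_lit 2987915090169) (nat_lit 76) (nat_lit 1873258461139) (nat_lit 76) (nat_lit 1818971069205) (nat_lit 3) (nat_lit 4) (nat_lit 4) (nat_lit 5) (nat_lit 4) (nat_lit 4) (nat_lit 521) (nat_lit 425) (nat_lit 254)))) (XT.nd (nat_lit 78) (nat_lit 0) (nat_lit 0) (XT.lf (nat_lit 0) (nat_lit 3653337122586) (nat_lit 76) (nat_lit 1799468917651) (nat_lit 76) (nat_lit 1745181517974) (nat_lit 3) (nat_lit 4) (nat_lit 4) (nat_lit 5) (nat_lit 4) (nat_lit 4) (nat_lit 522) (nat_lit 425) (nat_lit 253)) (XT.nd (nat_lit 78) (nat_lit 0) (nat_lit 0) (XT.lf (nat_lit 0) (nat_lit 4371992800472) (nat_lit 76) (nat_lit 1719776270925) (nat_lit 76) (nat_lit 1665488864079) (nat_lit 3) (nat_lit 4) (nat_lit 4) (nat_lit 5) (nat_lit 4) (nat_lit 4) (nat_lit 523) (nat_lit 425) (nat_lit 252)) (XT.lf (nat_lit 0) (nat_lit 5148140824140) (nat_lit 76) (nat_lit 1633708268240)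 (nat_lit 76) (nat_lit 1579420854756) (nat_lit 3) (nat_lit 4) (nat_lit 4) (nat_lit 5) (nat_lit 4) (nat_lit 4) (nat_lit 524) (nat_lit 425) (nat_lit 251))))))) (XT.nd (nat_lit 55458) (nat_lit 0) (nat_lit 3648) (XT.nd (nat_lit 54990) (nat_lit 0) (nat_lit 4940) (XT.nd (nat_lit 54756) (nat_lit 0) (nat_lit 5700) (XT.nd (nat_lit 78) (nat_lit 0) (nat_lit 0) (XT.lf (nat_lit 0) (nat_lit 5986380589286) (nat_lit 76) (nat_lit 1540754876988) (nat_lit 76) (nat_lit 1486467457357) (nat_lit 3) (nat_lit 4) (nat_lit 4) (nat_lit 5) (nat_lit 4) (nat_lit 4) (nat_lit 525) (nat_lit 425) (nat_lit 250)) (XT.nd (nat_lit 78) (nat_lit 0) (nat_lit 0) (XT.lf (nat_lit 0) (nat_lit 6891679442666) (nat_lit 76) (nat_lit 1440365262257) (nat_lit 76) (nat_lit 1386077836935) (nat_lit 3) (nat_lit 4) (nat_lit 4) (nat_lit 5) (nat_lit 4) (nat_lit 4) (nat_lit 526) (nat_lit 425) (nat_lit 249)) (XT.lf (nat_lit 0) (nat_lit 7869402118227)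 (nat_lit 76) (nat_lit 1331944522627) (nat_lit 76) (nat_lit 1277657092035) (nat_lit 3) (nat_lit 4) (nat_lit 4) (nat_lit 5) (nat_lit 4) (nat_lit 4) (nat_lit 527) (nat_lit 425) (nat_lit 248)))) (XT.nd (nat_lit 78) (nat_lit 0) (nat_lit 0) (XT.lf (nat_lit 0) (nat_lit 13999467703) (nat_lit 532) (nat_lit 523581574) (nat_lit 532) (nat_lit 523581574) (nat_lit 78) (nat_lit 3) (nat_lit 85) (nat_lit 3) (nat_lit 85) (nat_lit 5) (nat_lit 426) (nat_lit 426) (nat_lit 348)) (XT.nd (nat_lit 78) (nat_lit 0) (nat_lit 76) (XT.lf (nat_lit 76) (nat_lit 14546976822) (nat_lit 0) (nat_lit 14990014044) (nat_lit 532) (nat_lit 1726526033) (nat_lit 79) (nat_lit 5) (nat_lit 78) (nat_lit 3) (nat_lit 85) (nat_lit 5) (nat_lit 427) (nat_lit 426) (nat_lit 347)) (XT.lf (nat_lit 0) (nat_lit 31225200765) (nat_lit 456) (nat_lit 1086739470) (nat_lit 532) (nat_lit 213286220) (nat_lit 79) (nat_lit 5) (nat_lit 85) (nat_lit 5) (nat_lit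 86) (nat_lit 5) (nat_lit 428) (nat_lit 426) (nat_lit 346))))) (XT.nd (nat_lit 234) (nat_lit 304) (nat_lit 0) (XT.nd (nat_lit 78) (nat_lit 532) (nat_lit 0) (XT.lf (nat_lit 76) (nat_lit 16210848725) (nat_lit 0) (nat_lit 17610500424) (nat_lit 532) (nat_lit 4695631) (nat_lit 80) (nat_lit 5) (nat_lit 79) (nat_lit 5) (nat_lit 86) (nat_lit 5) (nat_lit 429) (nat_lit 426) (nat_lit 345)) (XT.nd (nat_lit 78) (nat_lit 0) (nat_lit 76) (XT.lf (nat_lit 0) (nat_lit 1348873270) (nat_lit 532) (nat_lit 313204229) (nat_lit 608) (nat_lit 33564221970) (nat_lit 72) (nat_lit 5) (nat_lit 79) (nat_lit 5) (nat_lit 80) (nat_lit 5) (nat_lit 430) (nat_lit 426) (nat_lit 344)) (XT.lf (nat_lit 0) (nat_lit 3656225556) (nat_lit 532) (nat_lit 17752190280) (nat_lit 608) (nat_lit 15262490832) (nat_lit 73) (nat_lit 5) (nat_lit 80) (nat_lit 5) (nat_lit 81) (nat_lit 5) (nat_lit 431) (nat_lit 426) (nat_lit 343)))) (XT.nd (nat_lit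 78) (nat_lit 380) (nat_lit 0) (XT.lf (nat_lit 76) (nat_lit 1504018454) (nat_lit 0) (nat_lit 4726961647) (nat_lit 608) (nat_lit 31993479083) (nat_lit 74) (nat_lit 5) (nat_lit 73) (nat_lit 5) (nat_lit 81) (nat_lit 5) (nat_lit 432) (nat_lit 426) (nat_lit 342)) (XT.nd (nat_lit 78) (nat_lit 456) (nat_lit 0) (XT.lf (nat_lit 0) (nat_lit 9824291854) (nat_lit 532) (nat_lit 16890106644) (nat_lit 76) (nat_lit 13122892985) (nat_lit 74) (nat_lit 5) (nat_lit 81) (nat_lit 5) (nat_lit 75) (nat_lit 5) (nat_lit 433) (nat_lit 426) (nat_lit 341)) (XT.lf (nat_lit 0) (nat_lit 4631156862) (nat_lit 456) (nat_lit 9303432620) (nat_lit 532) (nat_lit 27626200811) (nat_lit 68) (nat_lit 5) (nat_lit 74) (nat_lit 5) (nat_lit 75) (nat_lit 5) (nat_lit 434) (nat_lit 426) (nat_lit 340)))))) (XT.nd (nat_lit 468) (nat_lit 608) (nat_lit 0) (XT.nd (nat_lit 234) (nat_lit 456) (nat_lit 0) (XT.nd (nat_lit 78) (nat_lit 228) (nat_lit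 0) (XT.lf (nat_lit 0) (nat_lit 19071603149) (nat_lit 532) (nat_lit 14795661081) (nat_lit 76) (nat_lit 9499074882) (nat_lit 68) (nat_lit 5) (nat_lit 75) (nat_lit 5) (nat_lit 69) (nat_lit 5) (nat_lit 435) (nat_lit 426) (nat_lit 339)) (XT.nd (nat_lit 78) (nat_lit 0) (nat_lit 0) (XT.lf (nat_lit 0) (nat_lit 9329806106) (nat_lit 228) (nat_lit 15751733624) (nat_lit 304) (nat_lit 20197836535) (nat_lit 65) (nat_lit 5) (nat_lit 68) (nat_lit 5) (nat_lit 69) (nat_lit 5) (nat_lit 436) (nat_lit 426) (nat_lit 338)) (XT.lf (nat_lit 0) (nat_lit 32075147400) (nat_lit 304) (nat_lit 11193035915) (nat_lit 76) (nat_lit 4037044251) (nat_lit 65) (nat_lit 5) (nat_lit 69) (nat_lit 5) (nat_lit 66) (nat_lit 5) (nat_lit 437) (nat_lit 426) (nat_lit 337)))) (XT.nd (nat_lit 78) (nat_lit 228) (nat_lit 0) (XT.lf (nat_lit 0) (nat_lit 15927490384) (nat_lit 228) (nat_lit 24489358132) (nat_lit 304) (nat_lit 9013211246) (nat_lit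 62) (nat_lit 5) (nat_lit 65) (nat_lit 5) (nat_lit 66) (nat_lit 5) (nat_lit 438) (nat_lit 426) (nat_lit 336)) (XT.nd (nat_lit 78) (nat_lit 228) (nat_lit 0) (XT.lf (nat_lit 0) (nat_lit 45850169459) (nat_lit 228) (nat_lit 3878334483) (nat_lit 304) (nat_lit 1972166224) (nat_lit 62) (nat_lit 5) (nat_lit 65) (nat_lit 5) (nat_lit 66) (nat_lit 5) (nat_lit 439) (nat_lit 426) (nat_lit 335)) (XT.lf (nat_lit 0) (nat_lit 6412862331) (nat_lit 228) (nat_lit 29423737403) (nat_lit 76) (nat_lit 18220498830) (nat_lit 59) (nat_lit 5) (nat_lit 62) (nat_lit 5) (nat_lit 60) (nat_lit 5) (nat_lit 440) (nat_lit 426) (nat_lit 334))))) (XT.nd (nat_lit 234) (nat_lit 228) (nat_lit 0) (XT.nd (nat_lit 78) (nat_lit 152) (nat_lit 0) (XT.lf (nat_lit 0) (nat_lit 1199233749) (nat_lit 228) (nat_lit 14453489079) (nat_lit 304) (nat_lit 40921975037) (nat_lit 56) (nat_lit 5) (nat_lit 59) (nat_lit 5) (nat_lit 60) (nat_lit 5) (nat_lit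 441) (nat_lit 426) (nat_lit 333)) (XT.nd (nat_lit 78) (nat_lit 152) (nat_lit 0) (XT.lf (nat_lit 0) (nat_lit 26661959074) (nat_lit 304) (nat_lit 23516808744) (nat_lit 76) (nat_lit 9032523139) (nat_lit 56) (nat_lit 5) (nat_lit 60) (nat_lit 5) (nat_lit 57) (nat_lit 5) (nat_lit 442) (nat_lit 426) (nat_lit 332)) (XT.lf (nat_lit 0) (nat_lit 11064771712) (nat_lit 152) (nat_lit 28125903466) (nat_lit 228) (nat_lit 22817037782) (nat_lit 54) (nat_lit 5) (nat_lit 56) (nat_lit 5) (nat_lit 57) (nat_lit 5) (nat_lit 443) (nat_lit 426) (nat_lit 331)))) (XT.nd (nat_lit 78) (nat_lit 228) (nat_lit 0) (XT.lf (nat_lit 0) (nat_lit 49746541258) (nat_lit 152) (nat_lit 3615471869) (nat_lit 228) (nat_lit 11614610320) (nat_lit 54) (nat_lit 5) (nat_lit 56) (nat_lit 5) (nat_lit 57) (nat_lit 5) (nat_lit 444) (nat_lit 426) (nat_lit 330)) (XT.nd (nat_lit 78) (nat_lit 0) (nat_lit 0) (XT.lf (nat_lit 0) (nat_lit 1613056489)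 (nat_lit 228) (nat_lit 44147595593) (nat_lit 76) (nat_lit 22329203452) (nat_lit 51) (nat_lit 5) (nat_lit 54) (nat_lit 5) (nat_lit 52) (nat_lit 5) (nat_lit 445) (nat_lit 426) (nat_lit 329)) (XT.lf (nat_lit 0) (nat_lit 15790130660) (nat_lit 228) (nat_lit 4714389573) (nat_lit 76) (nat_lit 50881997473) (nat_lit 51) (nat_lit 5) (nat_lit 54) (nat_lit 5) (nat_lit 52) (nat_lit 5) (nat_lit 446) (nat_lit 426) (nat_lit 328))))))))
noncomputable def xc158 : XT := (XT.nd (nat_lit 1794) (nat_lit 1292) (nat_lit 0) (XT.nd (nat_lit 858) (nat_lit 836) (nat_lit 0) (XT.nd (nat_lit 390) (nat_lit 532) (nat_lit 0) (XT.nd (nat_lit 156) (nat_lit 152) (nat_lit 0) (XT.nd (nat_lit 78) (nat_lit 152) (nat_lit 0) (XT.lf (nat_lit 0) (nat_lit 32245575097) (nat_lit 228) (nat_lit 35193916016) (nat_lit 76) (nat_lit 7415885896) (nat_lit 49) (nat_lit 5) (nat_lit 52) (nat_lit 5) (nat_lit 50) (nat_lit 5) (nat_lit 447) (nat_lit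 426) (nat_lit 327)) (XT.lf (nat_lit 0) (nat_lit 9184069658) (nat_lit 152) (nat_lit 41716880969) (nat_lit 228) (nat_lit 27630115255) (nat_lit 47) (nat_lit 5) (nat_lit 49) (nat_lit 5) (nat_lit 50) (nat_lit 5) (nat_lit 448) (nat_lit 426) (nat_lit 326))) (XT.nd (nat_lit 78) (nat_lit 152) (nat_lit 0) (XT.lf (nat_lit 0) (nat_lit 59110411712) (nat_lit 152) (nat_lit 12898476662) (nat_lit 228) (nat_lit 10415111348) (nat_lit 47) (nat_lit 5) (nat_lit 49) (nat_lit 5) (nat_lit 50) (nat_lit 5) (nat_lit 449) (nat_lit 426) (nat_lit 325)) (XT.nd (nat_lit 78) (nat_lit 0) (nat_lit 0) (XT.lf (nat_lit 0) (nat_lit 8890002581) (nat_lit 152) (nat_lit 59437991548) (nat_lit 76) (nat_lit 18194884888) (nat_lit 45) (nat_lit 5) (nat_lit 47) (nat_lit 5) (nat_lit 46) (nat_lit 5) (nat_lit 450) (nat_lit 426) (nat_lit 324)) (XT.lf (nat_lit 0) (nat_lit 30163875157) (nat_lit 152) (nat_lit 8682965504) (nat_lit 76) (nat_lit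 52002223665) (nat_lit 45) (nat_lit 5) (nat_lit 47) (nat_lit 5) (nat_lit 46) (nat_lit 5) (nat_lit 451) (nat_lit 426) (nat_lit 323))))) (XT.nd (nat_lit 234) (nat_lit 228) (nat_lit 0) (XT.nd (nat_lit 78) (nat_lit 152) (nat_lit 0) (XT.lf (nat_lit 0) (nat_lit 48558507168) (nat_lit 152) (nat_lit 5747149506) (nat_lit 228) (nat_lit 41122408171) (nat_lit 43) (nat_lit 5) (nat_lit 45) (nat_lit 5) (nat_lit 46) (nat_lit 5) (nat_lit 452) (nat_lit 426) (nat_lit 322)) (XT.nd (nat_lit 78) (nat_lit 76) (nat_lit 0) (XT.lf (nat_lit 0) (nat_lit 10303364813) (nat_lit 76) (nat_lit 71286500686) (nat_lit 152) (nat_lit 18686633418) (nat_lit 42) (nat_lit 5) (nat_lit 43) (nat_lit 5) (nat_lit 44) (nat_lit 4) (nat_lit 453) (nat_lit 426) (nat_lit 321)) (XT.lf (nat_lit 0) (nat_lit 6728945724) (nat_lit 152) (nat_lit 31013649748) (nat_lit 76) (nat_lit 67642563750) (nat_lit 41) (nat_lit 5) (nat_lit 43) (nat_lit 5) (nat_lit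 42) (nat_lit 5) (nat_lit 454) (nat_lit 426) (nat_lit 320)))) (XT.nd (nat_lit 78) (nat_lit 76) (nat_lit 0) (XT.lf (nat_lit 0) (nat_lit 33868599961) (nat_lit 152) (nat_lit 112497291) (nat_lit 228) (nat_lit 76817554796) (nat_lit 39) (nat_lit 5) (nat_lit 41) (nat_lit 5) (nat_lit 42) (nat_lit 5) (nat_lit 455) (nat_lit 426) (nat_lit 319)) (XT.nd (nat_lit 78) (nat_lit 76) (nat_lit 0) (XT.lf (nat_lit 0) (nat_lit 65256488852) (nat_lit 228) (nat_lit 11871805329) (nat_lit 76) (nat_lit 39369484898) (nat_lit 39) (nat_lit 5) (nat_lit 42) (nat_lit 5) (nat_lit 40) (nat_lit 4) (nat_lit 456) (nat_lit 426) (nat_lit 318)) (XT.lf (nat_lit 0) (nat_lit 61459973410) (nat_lit 76) (nat_lit 39053469653) (nat_lit 152) (nat_lit 22021030908) (nat_lit 38) (nat_lit 5) (nat_lit 39) (nat_lit 5) (nat_lit 40) (nat_lit 4) (nat_lit 457) (nat_lit 426) (nat_lit 317)))))) (XT.nd (nat_lit 468) (nat_lit 304) (nat_lit 0) (XT.nd (nat_lit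 234) (nat_lit 228) (nat_lit 0) (XT.nd (nat_lit 78) (nat_lit 76) (nat_lit 0) (XT.lf (nat_lit 0) (nat_lit 9768981116) (nat_lit 228) (nat_lit 116356885220) (nat_lit 76) (nat_lit 2853153072) (nat_lit 35) (nat_lit 5) (nat_lit 38) (nat_lit 5) (nat_lit 36) (nat_lit 4) (nat_lit 458) (nat_lit 426) (nat_lit 316)) (XT.nd (nat_lit 78) (nat_lit 76) (nat_lit 0) (XT.lf (nat_lit 0) (nat_lit 45638646199) (nat_lit 228) (nat_lit 41750114096) (nat_lit 76) (nat_lit 48286517578) (nat_lit 35) (nat_lit 5) (nat_lit 38) (nat_lit 5) (nat_lit 36) (nat_lit 4) (nat_lit 459) (nat_lit 426) (nat_lit 315)) (XT.lf (nat_lit 0) (nat_lit 40867020753) (nat_lit 76) (nat_lit 44492351001) (nat_lit 152) (nat_lit 57469346428) (nat_lit 34) (nat_lit 5) (nat_lit 35) (nat_lit 5) (nat_lit 36) (nat_lit 4) (nat_lit 460) (nat_lit 426) (nat_lit 314)))) (XT.nd (nat_lit 78) (nat_lit 228) (nat_lit 0) (XT.lf (nat_lit 0) (nat_lit 129471727374)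 (nat_lit 152) (nat_lit 18071547044) (nat_lit 0) (nat_lit 2914041672) (nat_lit 34) (nat_lit 5) (nat_lit 36) (nat_lit 4) (nat_lit 34) (nat_lit 4) (nat_lit 461) (nat_lit 426) (nat_lit 313)) (XT.nd (nat_lit 78) (nat_lit 76) (nat_lit 0) (XT.lf (nat_lit 0) (nat_lit 20533776292) (nat_lit 152) (nat_lit 83848998279) (nat_lit 76) (nat_lit 54034937837) (nat_lit 32) (nat_lit 5) (nat_lit 34) (nat_lit 5) (nat_lit 33) (nat_lit 4) (nat_lit 462) (nat_lit 426) (nat_lit 312)) (XT.lf (nat_lit 0) (nat_lit 8539446409) (nat_lit 76) (nat_lit 56412549047) (nat_lit 152) (nat_lit 101962452920) (nat_lit 31) (nat_lit 5) (nat_lit 32) (nat_lit 5) (nat_lit 33) (nat_lit 4) (nat_lit 463) (nat_lit 426) (nat_lit 311))))) (XT.nd (nat_lit 234) (nat_lit 152) (nat_lit 0) (XT.nd (nat_lit 78) (nat_lit 152) (nat_lit 0) (XT.lf (nat_lit 0) (nat_lit 113085246514) (nat_lit 76) (nat_lit 2129798839) (nat_lit 152) (nat_lit 60692568113)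 (nat_lit 31) (nat_lit 5) (nat_lit 32) (nat_lit 5) (nat_lit 33) (nat_lit 4) (nat_lit 464) (nat_lit 426) (nat_lit 310)) (XT.nd (nat_lit 78) (nat_lit 76) (nat_lit 0) (XT.lf (nat_lit 0) (nat_lit 41067961752) (nat_lit 76) (nat_lit 130776441156) (nat_lit 76) (nat_lit 13588207853) (nat_lit 30) (nat_lit 4) (nat_lit 31) (nat_lit 5) (nat_lit 31) (nat_lit 4) (nat_lit 465) (nat_lit 426) (nat_lit 309)) (XT.lf (nat_lit 0) (nat_lit 37235851574) (nat_lit 152) (nat_lit 39738728684) (nat_lit 76) (nat_lit 118527974444) (nat_lit 29) (nat_lit 5) (nat_lit 31) (nat_lit 5) (nat_lit 30) (nat_lit 4) (nat_lit 466) (nat_lit 426) (nat_lit 308)))) (XT.nd (nat_lit 78) (nat_lit 76) (nat_lit 0) (XT.lf (nat_lit 0) (nat_lit 76741205012) (nat_lit 76) (nat_lit 16495089514) (nat_lit 152) (nat_lit 112965998472) (nat_lit 28) (nat_lit 5) (nat_lit 29) (nat_lit 5) (nat_lit 30) (nat_lit 4) (nat_lit 467) (nat_lit 426) (nat_lit 307))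 (XT.nd (nat_lit 78) (nat_lit 76) (nat_lit 0) (XT.lf (nat_lit 0) (nat_lit 156004664951) (nat_lit 152) (nat_lit 14076021464) (nat_lit 0) (nat_lit 47494292647) (nat_lit 28) (nat_lit 5) (nat_lit 30) (nat_lit 4) (nat_lit 28) (nat_lit 4) (nat_lit 468) (nat_lit 426) (nat_lit 306)) (XT.lf (nat_lit 0) (nat_lit 115907696153) (nat_lit 76) (nat_lit 111101867769) (nat_lit 76) (nat_lit 2590711441) (nat_lit 27) (nat_lit 4) (nat_lit 28) (nat_lit 5) (nat_lit 28) (nat_lit 4) (nat_lit 469) (nat_lit 426) (nat_lit 305))))))) (XT.nd (nat_lit 936) (nat_lit 608) (nat_lit 0) (XT.nd (nat_lit 468) (nat_lit 304) (nat_lit 0) (XT.nd (nat_lit 234) (nat_lit 152) (nat_lit 0) (XT.nd (nat_lit 78) (nat_lit 76) (nat_lit 0) (XT.lf (nat_lit 0) (nat_lit 13739618627) (nat_lit 76) (nat_lit 45035141421) (nat_lit 152) (nat_lit 183637318232) (nat_lit 25) (nat_lit 5) (nat_lit 26) (nat_lit 5) (nat_lit 27) (nat_lit 4) (nat_lit 470) (nat_lit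 426) (nat_lit 304)) (XT.nd (nat_lit 78) (nat_lit 76) (nat_lit 0) (XT.lf (nat_lit 0) (nat_lit 128730765333) (nat_lit 152) (nat_lit 98950798030) (nat_lit 0) (nat_lit 28256177880) (nat_lit 25) (nat_lit 5) (nat_lit 27) (nat_lit 4) (nat_lit 25) (nat_lit 4) (nat_lit 471) (nat_lit 426) (nat_lit 303)) (XT.lf (nat_lit 0) (nat_lit 42082224434) (nat_lit 76) (nat_lit 164381960921) (nat_lit 76) (nat_lit 63906797187) (nat_lit 24) (nat_lit 4) (nat_lit 25) (nat_lit 5) (nat_lit 25) (nat_lit 4) (nat_lit 472) (nat_lit 426) (nat_lit 302)))) (XT.nd (nat_lit 78) (nat_lit 76) (nat_lit 0) (XT.lf (nat_lit 0) (nat_lit 7009295626) (nat_lit 152) (nat_lit 85896362424) (nat_lit 76) (nat_lit 192822658955) (nat_lit 23) (nat_lit 5) (nat_lit 25) (nat_lit 5) (nat_lit 24) (nat_lit 4) (nat_lit 473) (nat_lit 426) (nat_lit 301)) (XT.nd (nat_lit 78) (nat_lit 0) (nat_lit 0) (XT.lf (nat_lit 0) (nat_lit 69713221912) (nat_lit 76)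 (nat_lit 12108611408) (nat_lit 152) (nat_lit 220225548843) (nat_lit 22) (nat_lit 5) (nat_lit 23) (nat_lit 5) (nat_lit 24) (nat_lit 4) (nat_lit 474) (nat_lit 426) (nat_lit 300)) (XT.lf (nat_lit 0) (nat_lit 166835530086) (nat_lit 152) (nat_lit 78697554046) (nat_lit 0) (nat_lit 73801595952) (nat_lit 22) (nat_lit 5) (nat_lit 24) (nat_lit 4) (nat_lit 22) (nat_lit 4) (nat_lit 475) (nat_lit 426) (nat_lit 299))))) (XT.nd (nat_lit 234) (nat_lit 76) (nat_lit 0) (XT.nd (nat_lit 78) (nat_lit 152) (nat_lit 0) (XT.lf (nat_lit 0) (nat_lit 91490699433) (nat_lit 76) (nat_lit 169673730111) (nat_lit 76) (nat_lit 76639403769) (nat_lit 21) (nat_lit 4) (nat_lit 22) (nat_lit 5) (nat_lit 22) (nat_lit 4) (nat_lit 476) (nat_lit 426) (nat_lit 298)) (XT.nd (nat_lit 78) (nat_lit 76) (nat_lit 0) (XT.lf (nat_lit 0) (nat_lit 7231404127) (nat_lit 152) (nat_lit 77993368911) (nat_lit 76) (nat_lit 272339020287) (nat_lit 20)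 (nat_lit 5) (nat_lit 22) (nat_lit 5) (nat_lit 21) (nat_lit 4) (nat_lit 477) (nat_lit 426) (nat_lit 297)) (XT.lf (nat_lit 0) (nat_lit 96510323677) (nat_lit 152) (nat_lit 271641077224) (nat_lit 0) (nat_lit 10366781315) (nat_lit 19) (nat_lit 5) (nat_lit 21) (nat_lit 4) (nat_lit 19) (nat_lit 4) (nat_lit 478) (nat_lit 426) (nat_lit 296)))) (XT.nd (nat_lit 78) (nat_lit 76) (nat_lit 0) (XT.lf (nat_lit 0) (nat_lit 197332357250) (nat_lit 152) (nat_lit 92275974351) (nat_lit 0) (nat_lit 111188526605) (nat_lit 19) (nat_lit 5) (nat_lit 21) (nat_lit 4) (nat_lit 19) (nat_lit 4) (nat_lit 479) (nat_lit 426) (nat_lit 295)) (XT.nd (nat_lit 78) (nat_lit 0) (nat_lit 0) (XT.lf (nat_lit 0) (nat_lit 106778535622) (nat_lit 76) (nat_lit 202008999846) (nat_lit 76) (nat_lit 115864902271) (nat_lit 18) (nat_lit 4) (nat_lit 19) (nat_lit 5) (nat_lit 19) (nat_lit 4) (nat_lit 480) (nat_lit 426) (nat_lit 294)) (XT.lf (nat_lit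 0) (nat_lit 327003959689) (nat_lit 76) (nat_lit 104677529884) (nat_lit 76) (nat_lit 18533185152) (nat_lit 18) (nat_lit 4) (nat_lit 19) (nat_lit 5) (nat_lit 19) (nat_lit 4) (nat_lit 481) (nat_lit 426) (nat_lit 293)))))) (XT.nd (nat_lit 468) (nat_lit 228) (nat_lit 0) (XT.nd (nat_lit 234) (nat_lit 152) (nat_lit 0) (XT.nd (nat_lit 78) (nat_lit 76) (nat_lit 0) (XT.lf (nat_lit 0) (nat_lit 84524088376) (nat_lit 152) (nat_lit 388188989761) (nat_lit 0) (nat_lit 4760594319) (nat_lit 16) (nat_lit 5) (nat_lit 18) (nat_lit 4) (nat_lit 16) (nat_lit 4) (nat_lit 482) (nat_lit 426) (nat_lit 292)) (XT.nd (nat_lit 78) (nat_lit 76) (nat_lit 0) (XT.lf (nat_lit 0) (nat_lit 200999273941) (nat_lit 152) (nat_lit 184146053599) (nat_lit 0) (nat_lit 121235583683) (nat_lit 16) (nat_lit 5) (nat_lit 18) (nat_lit 4) (nat_lit 16) (nat_lit 4) (nat_lit 483) (nat_lit 426) (nat_lit 291)) (XT.lf (nat_lit 0) (nat_lit 38126442904)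 (nat_lit 76) (nat_lit 289582423387) (nat_lit 76) (nat_lit 209818551462) (nat_lit 15) (nat_lit 4) (nat_lit 16) (nat_lit 5) (nat_lit 16) (nat_lit 4) (nat_lit 484) (nat_lit 426) (nat_lit 290)))) (XT.nd (nat_lit 78) (nat_lit 152) (nat_lit 0) (XT.lf (nat_lit 0) (nat_lit 288652202920) (nat_lit 76) (nat_lit 180937367252) (nat_lit 76) (nat_lit 101173327115) (nat_lit 15) (nat_lit 4) (nat_lit 16) (nat_lit 5) (nat_lit 16) (nat_lit 4) (nat_lit 485) (nat_lit 426) (nat_lit 289)) (XT.nd (nat_lit 78) (nat_lit 76) (nat_lit 0) (XT.lf (nat_lit 0) (nat_lit 15354442154) (nat_lit 152) (nat_lit 47826956206) (nat_lit 76) (nat_lit 543444758883) (nat_lit 14) (nat_lit 5) (nat_lit 16) (nat_lit 5) (nat_lit 15) (nat_lit 4) (nat_lit 486) (nat_lit 426) (nat_lit 288)) (XT.lf (nat_lit 0) (nat_lit 142606877184) (nat_lit 152) (nat_lit 433240889270) (nat_lit 0) (nat_lit 68751006720) (nat_lit 13) (nat_lit 5) (nat_lit 15) (nat_lit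 4) (nat_lit 13) (nat_lit 4) (nat_lit 487) (nat_lit 426) (nat_lit 287))))) (XT.nd (nat_lit 234) (nat_lit 152) (nat_lit 0) (XT.nd (nat_lit 78) (nat_lit 76) (nat_lit 0) (XT.lf (nat_lit 0) (nat_lit 283021751838) (nat_lit 152) (nat_lit 193183109234) (nat_lit 0) (nat_lit 209165757734) (nat_lit 13) (nat_lit 5) (nat_lit 15) (nat_lit 4) (nat_lit 13) (nat_lit 4) (nat_lit 488) (nat_lit 426) (nat_lit 286)) (XT.nd (nat_lit 78) (nat_lit 0) (nat_lit 0) (XT.lf (nat_lit 0) (nat_lit 69557979378) (nat_lit 76) (nat_lit 366784273207) (nat_lit 76) (nat_lit 292928164622) (nat_lit 12) (nat_lit 4) (nat_lit 13) (nat_lit 5) (nat_lit 13) (nat_lit 4) (nat_lit 489) (nat_lit 426) (nat_lit 285)) (XT.lf (nat_lit 0) (nat_lit 364303986431) (nat_lit 76) (nat_lit 242905952020) (nat_lit 76) (nat_lit 169049737433) (nat_lit 12) (nat_lit 4) (nat_lit 13) (nat_lit 5) (nat_lit 13) (nat_lit 4) (nat_lit 490) (nat_lit 426) (nat_lit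 284)))) (XT.nd (nat_lit 78) (nat_lit 152) (nat_lit 0) (XT.lf (nat_lit 0) (nat_lit 682628874748) (nat_lit 76) (nat_lit 109117772311) (nat_lit 76) (nat_lit 35261459575) (nat_lit 12) (nat_lit 4) (nat_lit 13) (nat_lit 5) (nat_lit 13) (nat_lit 4) (nat_lit 491) (nat_lit 426) (nat_lit 283)) (XT.nd (nat_lit 78) (nat_lit 0) (nat_lit 0) (XT.lf (nat_lit 0) (nat_lit 108372021515) (nat_lit 152) (nat_lit 732879268262) (nat_lit 0) (nat_lit 39986462612) (nat_lit 10) (nat_lit 5) (nat_lit 12) (nat_lit 4) (nat_lit 10) (nat_lit 4) (nat_lit 492) (nat_lit 426) (nat_lit 282)) (XT.lf (nat_lit 0) (nat_lit 268475121141) (nat_lit 152) (nat_lit 470617175800) (nat_lit 0) (nat_lit 200089484324) (nat_lit 10) (nat_lit 5) (nat_lit 12) (nat_lit 4) (nat_lit 10) (nat_lit 4) (nat_lit 493) (nat_lit 426) (nat_lit 281))))))))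
noncomputable def xc159 : XT := (XT.nd (nat_lit 1794) (nat_lit 76) (nat_lit 0) (XT.nd (nat_lit 858) (nat_lit 152) (nat_lit 0) (XT.nd (nat_lit 390) (nat_lit 152) (nat_lit 0) (XT.nd (nat_lit 156) (nat_lit 76) (nat_lit 0) (XT.nd (nat_lit 78) (nat_lit 76) (nat_lit 0) (XT.lf (nat_lit 0) (nat_lit 441386124461) (nat_lit 152) (nat_lit 187374820038) (nat_lit 0) (nat_lit 373000415501) (nat_lit 10) (nat_lit 5) (nat_lit 12) (nat_lit 4) (nat_lit 10) (nat_lit 4) (nat_lit 494) (nat_lit 426) (nat_lit 280)) (XT.lf (nat_lit 0) (nat_lit 124767655694) (nat_lit 76) (nat_lit 506362698698) (nat_lit 76) (nat_lit 437976922939) (nat_lit 9) (nat_lit 4) (nat_lit 10) (nat_lit 5) (nat_lit 10) (nat_lit 4) (nat_lit 495) (nat_lit 426) (nat_lit 279))) (XT.nd (nat_lit 78) (nat_lit 76) (nat_lit 0) (XT.lf (nat_lit 0) (nat_lit 472537066094) (nat_lit 76) (nat_lit 368639905817) (nat_lit 76) (nat_lit 300254068207) (nat_lit 9)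 (nat_lit 4) (nat_lit 10) (nat_lit 5) (nat_lit 10) (nat_lit 4) (nat_lit 496) (nat_lit 426) (nat_lit 278)) (XT.nd (nat_lit 78) (nat_lit 76) (nat_lit 0) (XT.lf (nat_lit 0) (nat_lit 848127440960) (nat_lit 76) (nat_lit 219899590424) (nat_lit 76) (nat_lit 151513695545) (nat_lit 9) (nat_lit 4) (nat_lit 10) (nat_lit 5) (nat_lit 10) (nat_lit 4) (nat_lit 497) (nat_lit 426) (nat_lit 277)) (XT.lf (nat_lit 0) (nat_lit 8669119032) (nat_lit 152) (nat_lit 50354180318) (nat_lit 76) (nat_lit 1244858352922) (nat_lit 8) (nat_lit 5) (nat_lit 10) (nat_lit 5) (nat_lit 9) (nat_lit 4) (nat_lit 498) (nat_lit 426) (nat_lit 276))))) (XT.nd (nat_lit 234) (nat_lit 76) (nat_lit 0) (XT.nd (nat_lit 78) (nat_lit 0) (nat_lit 0) (XT.lf (nat_lit 0) (nat_lit 183938136892) (nat_lit 152) (nat_lit 1089262531559) (nat_lit 0) (nat_lit 120617769295) (nat_lit 7) (nat_lit 5) (nat_lit 9) (nat_lit 4) (nat_lit 7) (nat_lit 4) (nat_lit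 499) (nat_lit 426) (nat_lit 275)) (XT.nd (nat_lit 78) (nat_lit 0) (nat_lit 0) (XT.lf (nat_lit 0) (nat_lit 376174029275) (nat_lit 152) (nat_lit 801686888954) (nat_lit 0) (nat_lit 312853619583) (nat_lit 7) (nat_lit 5) (nat_lit 9) (nat_lit 4) (nat_lit 7) (nat_lit 4) (nat_lit 500) (nat_lit 426) (nat_lit 274)) (XT.lf (nat_lit 0) (nat_lit 583788559284) (nat_lit 152) (nat_lit 491105674689) (nat_lit 0) (nat_lit 520468110616) (nat_lit 7) (nat_lit 5) (nat_lit 9) (nat_lit 4) (nat_lit 7) (nat_lit 4) (nat_lit 501) (nat_lit 426) (nat_lit 273)))) (XT.nd (nat_lit 78) (nat_lit 76) (nat_lit 0) (XT.lf (nat_lit 0) (nat_lit 808012035245) (nat_lit 152) (nat_lit 155678407495) (nat_lit 0) (nat_lit 744691550487) (nat_lit 7) (nat_lit 5) (nat_lit 9) (nat_lit 4) (nat_lit 7) (nat_lit 4) (nat_lit 502) (nat_lit 426) (nat_lit 272)) (XT.nd (nat_lit 78) (nat_lit 0) (nat_lit 0) (XT.lf (nat_lit 0) (nat_lit 217460904954) (nat_lit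 76) (nat_lit 837942223906) (nat_lit 76) (nat_lit 774621705732) (nat_lit 6) (nat_lit 4) (nat_lit 7) (nat_lit 5) (nat_lit 7) (nat_lit 4) (nat_lit 503) (nat_lit 426) (nat_lit 271)) (XT.lf (nat_lit 0) (nat_lit 629304530481) (nat_lit 76) (nat_lit 697537307817) (nat_lit 76) (nat_lit 634216758703) (nat_lit 6) (nat_lit 4) (nat_lit 7) (nat_lit 5) (nat_lit 7) (nat_lit 4) (nat_lit 504) (nat_lit 426) (nat_lit 270)))))) (XT.nd (nat_lit 468) (nat_lit 0) (nat_lit 0) (XT.nd (nat_lit 234) (nat_lit 152) (nat_lit 0) (XT.nd (nat_lit 78) (nat_lit 0) (nat_lit 0) (XT.lf (nat_lit 0) (nat_lit 1074095274853) (nat_lit 76) (nat_lit 545900188889) (nat_lit 76) (nat_lit 482579611125) (nat_lit 6) (nat_lit 4) (nat_lit 7) (nat_lit 5) (nat_lit 7) (nat_lit 4) (nat_lit 505) (nat_lit 426) (nat_lit 269)) (XT.nd (nat_lit 78) (nat_lit 0) (nat_lit 0) (XT.lf (nat_lit 0) (nat_lit 1554468935071) (nat_lit 76) (nat_lit 382132276785)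 (nat_lit 76) (nat_lit 318811672495) (nat_lit 6) (nat_lit 4) (nat_lit 7) (nat_lit 5) (nat_lit 7) (nat_lit 4) (nat_lit 506) (nat_lit 426) (nat_lit 268)) (XT.lf (nat_lit 0) (nat_lit 2073272169864) (nat_lit 76) (nat_lit 205263094992) (nat_lit 76) (nat_lit 141942466140) (nat_lit 6) (nat_lit 4) (nat_lit 7) (nat_lit 5) (nat_lit 7) (nat_lit 4) (nat_lit 507) (nat_lit 426) (nat_lit 267)))) (XT.nd (nat_lit 78) (nat_lit 0) (nat_lit 0) (XT.lf (nat_lit 0) (nat_lit 35423328359) (nat_lit 76) (nat_lit 12049738925) (nat_lit 152) (nat_lit 2551112132462) (nat_lit 4) (nat_lit 5) (nat_lit 5) (nat_lit 5) (nat_lit 6) (nat_lit 4) (nat_lit 508) (nat_lit 426) (nat_lit 266)) (XT.nd (nat_lit 78) (nat_lit 0) (nat_lit 0) (XT.lf (nat_lit 0) (nat_lit 258841640939) (nat_lit 152) (nat_lit 2330435820990) (nat_lit 0) (nat_lit 200211388483) (nat_lit 4) (nat_lit 5) (nat_lit 6) (nat_lit 4) (nat_lit 4) (nat_lit 4) (nat_lit 509)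 (nat_lit 426) (nat_lit 265)) (XT.lf (nat_lit 0) (nat_lit 487432544568) (nat_lit 152) (nat_lit 2079404946978) (nat_lit 0) (nat_lit 428802274059) (nat_lit 4) (nat_lit 5) (nat_lit 6) (nat_lit 4) (nat_lit 4) (nat_lit 4) (nat_lit 510) (nat_lit 426) (nat_lit 264))))) (XT.nd (nat_lit 234) (nat_lit 0) (nat_lit 0) (XT.nd (nat_lit 78) (nat_lit 0) (nat_lit 0) (XT.lf (nat_lit 0) (nat_lit 734310594425) (nat_lit 152) (nat_lit 1808291862476) (nat_lit 0) (nat_lit 675680307199) (nat_lit 4) (nat_lit 5) (nat_lit 6) (nat_lit 4) (nat_lit 4) (nat_lit 4) (nat_lit 511) (nat_lit 426) (nat_lit 263)) (XT.nd (nat_lit 78) (nat_lit 0) (nat_lit 0) (XT.lf (nat_lit 0) (nat_lit 1000938771545) (nat_lit 152) (nat_lit 1515489971428) (nat_lit 0) (nat_lit 942308468841) (nat_lit 4) (nat_lit 5) (nat_lit 6) (nat_lit 4) (nat_lit 4) (nat_lit 4) (nat_lit 512) (nat_lit 426) (nat_lit 262)) (XT.lf (nat_lit 0) (nat_lit 1288897094756)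 (nat_lit 152) (nat_lit 1199264151516) (nat_lit 0) (nat_lit 1230266777720) (nat_lit 4) (nat_lit 5) (nat_lit 6) (nat_lit 4) (nat_lit 4) (nat_lit 4) (nat_lit 513) (nat_lit 426) (nat_lit 261)))) (XT.nd (nat_lit 78) (nat_lit 0) (nat_lit 0) (XT.lf (nat_lit 0) (nat_lit 1599891983751) (nat_lit 152) (nat_lit 857740471956) (nat_lit 0) (nat_lit 1541261653445) (nat_lit 4) (nat_lit 5) (nat_lit 6) (nat_lit 4) (nat_lit 4) (nat_lit 4) (nat_lit 514) (nat_lit 426) (nat_lit 260)) (XT.nd (nat_lit 78) (nat_lit 0) (nat_lit 0) (XT.lf (nat_lit 0) (nat_lit 1935766371205) (nat_lit 152) (nat_lit 488895088720) (nat_lit 0) (nat_lit 1877136028613) (nat_lit 4) (nat_lit 5) (nat_lit 6) (nat_lit 4) (nat_lit 4) (nat_lit 4) (nat_lit 515) (nat_lit 426) (nat_lit 259)) (XT.lf (nat_lit 0) (nat_lit 2298510623859) (nat_lit 152) (nat_lit 90542251390) (nat_lit 0) (nat_lit 2239880269890) (nat_lit 4) (nat_lit 5) (nat_lit 6) (nat_lit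 4) (nat_lit 4) (nat_lit 4) (nat_lit 516) (nat_lit 426) (nat_lit 258))))))) (XT.nd (nat_lit 55536) (nat_lit 0) (nat_lit 4484) (XT.nd (nat_lit 468) (nat_lit 0) (nat_lit 0) (XT.nd (nat_lit 234) (nat_lit 0) (nat_lit 0) (XT.nd (nat_lit 78) (nat_lit 0) (nat_lit 0) (XT.lf (nat_lit 0) (nat_lit 357565525157) (nat_lit 76) (nat_lit 2341308271607) (nat_lit 76) (nat_lit 2282677907103) (nat_lit 3) (nat_lit 4) (nat_lit 4) (nat_lit 5) (nat_lit 4) (nat_lit 4) (nat_lit 517) (nat_lit 426) (nat_lit 257)) (XT.nd (nat_lit 78) (nat_lit 0) (nat_lit 0) (XT.lf (nat_lit 0) (nat_lit 846670982547) (nat_lit 76) (nat_lit 2287070549174) (nat_lit 76) (nat_lit 2228440174916) (nat_lit 3) (nat_lit 4) (nat_lit 4) (nat_lit 5) (nat_lit 4) (nat_lit 4) (nat_lit 518) (nat_lit 426) (nat_lit 256)) (XT.lf (nat_lit 0) (nat_lit 1374904728984) (nat_lit 76) (nat_lit 2228493884832) (nat_lit 76) (nat_lit 2169863501544) (nat_lit 3) (nat_lit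 4) (nat_lit 4) (nat_lit 5) (nat_lit 4) (nat_lit 4) (nat_lit 519) (nat_lit 426) (nat_lit 255)))) (XT.nd (nat_lit 78) (nat_lit 0) (nat_lit 0) (XT.lf (nat_lit 0) (nat_lit 1945397038523) (nat_lit 76) (nat_lit 2165231157610) (nat_lit 76) (nat_lit 2106600765959) (nat_lit 3) (nat_lit 4) (nat_lit 4) (nat_lit 5) (nat_lit 4) (nat_lit 4) (nat_lit 520) (nat_lit 426) (nat_lit 254)) (XT.nd (nat_lit 78) (nat_lit 0) (nat_lit 0) (XT.lf (nat_lit 0) (nat_lit 2561528606330) (nat_lit 76) (nat_lit 2096907477270) (nat_lit 76) (nat_lit 2038277077876) (nat_lit 3) (nat_lit 4) (nat_lit 4) (nat_lit 5) (nat_lit 4) (nat_lit 4) (nat_lit 521) (nat_lit 426) (nat_lit 253)) (XT.lf (nat_lit 0) (nat_lit 3226950582437) (nat_lit 76) (nat_lit 2023117962744) (nat_lit 76) (nat_lit 1964487556180) (nat_lit 3) (nat_lit 4) (nat_lit 4) (nat_lit 5) (nat_lit 4) (nat_lit 4) (nat_lit 522) (nat_lit 426) (nat_lit 252))))) (XT.nd (nat_lit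 234) (nat_lit 0) (nat_lit 0) (XT.nd (nat_lit 78) (nat_lit 0) (nat_lit 0) (XT.lf (nat_lit 0) (nat_lit 3945606208184) (nat_lit 76) (nat_lit 1943425342835) (nat_lit 76) (nat_lit 1884794929633) (nat_lit 3) (nat_lit 4) (nat_lit 4) (nat_lit 5) (nat_lit 4) (nat_lit 4) (nat_lit 523) (nat_lit 426) (nat_lit 251)) (XT.nd (nat_lit 78) (nat_lit 0) (nat_lit 0) (XT.lf (nat_lit 0) (nat_lit 4721754183575) (nat_lit 76) (nat_lit 1857357364981) (nat_lit 76) (nat_lit 1798726945632) (nat_lit 3) (nat_lit 4) (nat_lit 4) (nat_lit 5) (nat_lit 4) (nat_lit 4) (nat_lit 524) (nat_lit 426) (nat_lit 250)) (XT.lf (nat_lit 0) (nat_lit 5559993904021) (nat_lit 76) (nat_lit 1764403996720) (nat_lit 76) (nat_lit 1705773571680) (nat_lit 3) (nat_lit 4) (nat_lit 4) (nat_lit 5) (nat_lit 4) (nat_lit 4) (nat_lit 525) (nat_lit 426) (nat_lit 249)))) (XT.nd (nat_lit 78) (nat_lit 0) (nat_lit 0) (XT.lf (nat_lit 0) (nat_lit 6465292716012)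 (nat_lit 76) (nat_lit 1664014403277) (nat_lit 76) (nat_lit 1605383972968) (nat_lit 3) (nat_lit 4) (nat_lit 4) (nat_lit 5) (nat_lit 4) (nat_lit 4) (nat_lit 526) (nat_lit 426) (nat_lit 248)) (XT.nd (nat_lit 54678) (nat_lit 0) (nat_lit 5700) (XT.lf (nat_lit 0) (nat_lit 7443015353249) (nat_lit 76) (nat_lit 1555593683358) (nat_lit 76) (nat_lit 1496963248170) (nat_lit 3) (nat_lit 4) (nat_lit 4) (nat_lit 5) (nat_lit 4) (nat_lit 4) (nat_lit 527) (nat_lit 426) (nat_lit 247)) (XT.lf (nat_lit 0) (nat_lit 15186026777) (nat_lit 532) (nat_lit 529489820) (nat_lit 532) (nat_lit 529489820) (nat_lit 78) (nat_lit 3) (nat_lit 85) (nat_lit 3) (nat_lit 85) (nat_lit 5) (nat_lit 427) (nat_lit 427) (nat_lit 346)))))) (XT.nd (nat_lit 468) (nat_lit 760) (nat_lit 0) (XT.nd (nat_lit 234) (nat_lit 0) (nat_lit 0) (XT.nd (nat_lit 78) (nat_lit 456) (nat_lit 0) (XT.lf (nat_lit 76) (nat_lit 15780869843) (nat_lit 0) (nat_lit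 16244103443) (nat_lit 532) (nat_lit 1729573541) (nat_lit 79) (nat_lit 5) (nat_lit 78) (nat_lit 3) (nat_lit 85) (nat_lit 5) (nat_lit 428) (nat_lit 427) (nat_lit 345)) (XT.nd (nat_lit 78) (nat_lit 532) (nat_lit 0) (XT.lf (nat_lit 0) (nat_lit 33837756721) (nat_lit 456) (nat_lit 1098209772) (nat_lit 532) (nat_lit 182068986) (nat_lit 79) (nat_lit 5) (nat_lit 85) (nat_lit 5) (nat_lit 86) (nat_lit 5) (nat_lit 429) (nat_lit 427) (nat_lit 344)) (XT.lf (nat_lit 0) (nat_lit 105847951) (nat_lit 532) (nat_lit 18944864721) (nat_lit 608) (nat_lit 17472532853) (nat_lit 72) (nat_lit 5) (nat_lit 79) (nat_lit 5) (nat_lit 80) (nat_lit 5) (nat_lit 430) (nat_lit 427) (nat_lit 343)))) (XT.nd (nat_lit 78) (nat_lit 0) (nat_lit 76) (XT.lf (nat_lit 0) (nat_lit 1559251230) (nat_lit 532) (nat_lit 264718850) (nat_lit 608) (nat_lit 36212199462) (nat_lit 72) (nat_lit 5) (nat_lit 79) (nat_lit 5) (nat_lit 80) (nat_lit 5)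 (nat_lit 431) (nat_lit 427) (nat_lit 342)) (XT.nd (nat_lit 78) (nat_lit 0) (nat_lit 0) (XT.lf (nat_lit 0) (nat_lit 4044726001) (nat_lit 532) (nat_lit 19092324349) (nat_lit 608) (nat_lit 16459814921) (nat_lit 73) (nat_lit 5) (nat_lit 80) (nat_lit 5) (nat_lit 81) (nat_lit 5) (nat_lit 432) (nat_lit 427) (nat_lit 341)) (XT.lf (nat_lit 76) (nat_lit 1702354726) (nat_lit 0) (nat_lit 5117871153) (nat_lit 608) (nat_lit 34454897411) (nat_lit 74) (nat_lit 5) (nat_lit 73) (nat_lit 5) (nat_lit 81) (nat_lit 5) (nat_lit 433) (nat_lit 427) (nat_lit 340))))) (XT.nd (nat_lit 234) (nat_lit 456) (nat_lit 0) (XT.nd (nat_lit 78) (nat_lit 456) (nat_lit 0) (XT.lf (nat_lit 0) (nat_lit 10693995082) (nat_lit 532) (nat_lit 18162042839) (nat_lit 76) (nat_lit 14161507166) (nat_lit 74) (nat_lit 5) (nat_lit 81) (nat_lit 5) (nat_lit 75) (nat_lit 5) (nat_lit 434) (nat_lit 427) (nat_lit 339)) (XT.nd (nat_lit 78) (nat_lit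 0) (nat_lit 0) (XT.lf (nat_lit 0) (nat_lit 5078914853) (nat_lit 456) (nat_lit 10049855468) (nat_lit 532) (nat_lit 29750503319) (nat_lit 68) (nat_lit 5) (nat_lit 74) (nat_lit 5) (nat_lit 75) (nat_lit 5) (nat_lit 435) (nat_lit 427) (nat_lit 338)) (XT.lf (nat_lit 0) (nat_lit 20670814749) (nat_lit 532) (nat_lit 15901816760) (nat_lit 76) (nat_lit 10257111266) (nat_lit 68) (nat_lit 5) (nat_lit 75) (nat_lit 5) (nat_lit 69) (nat_lit 5) (nat_lit 436) (nat_lit 427) (nat_lit 337)))) (XT.nd (nat_lit 78) (nat_lit 228) (nat_lit 0) (XT.lf (nat_lit 0) (nat_lit 10151725847) (nat_lit 228) (nat_lit 17006193822) (nat_lit 304) (nat_lit 21738195194) (nat_lit 65) (nat_lit 5) (nat_lit 68) (nat_lit 5) (nat_lit 69) (nat_lit 5) (nat_lit 437) (nat_lit 427) (nat_lit 336)) (XT.nd (nat_lit 78) (nat_lit 228) (nat_lit 0) (XT.lf (nat_lit 0) (nat_lit 34705967830) (nat_lit 304) (nat_lit 12013469355) (nat_lit 76) (nat_lit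 4365002634) (nat_lit 65) (nat_lit 5) (nat_lit 69) (nat_lit 5) (nat_lit 66) (nat_lit 5) (nat_lit 438) (nat_lit 427) (nat_lit 335)) (XT.lf (nat_lit 0) (nat_lit 17274800075) (nat_lit 228) (nat_lit 26437162629) (nat_lit 304) (nat_lit 9667540849) (nat_lit 62) (nat_lit 5) (nat_lit 65) (nat_lit 5) (nat_lit 66) (nat_lit 5) (nat_lit 439) (nat_lit 427) (nat_lit 334))))))))
noncomputable def xc160 : XT := (XT.nd (nat_lit 1794) (nat_lit 1444) (nat_lit 0) (XT.nd (nat_lit 858) (nat_lit 988) (nat_lit 0) (XT.nd (nat_lit 390) (nat_lit 532) (nat_lit 0) (XT.nd (nat_lit 156) (nat_lit 380) (nat_lit 0) (XT.nd (nat_lit 78) (nat_lit 228) (nat_lit 0) (XT.lf (nat_lit 0) (nat_lit 49585877886) (nat_lit 228) (nat_lit 4178097396) (nat_lit 304) (nat_lit 2068154988) (nat_lit 62) (nat_lit 5) (nat_lit 65) (nat_lit 5) (nat_lit 66) (nat_lit 5) (nat_lit 440) (nat_lit 427) (nat_lit 333)) (XT.lf (nat_lit 0) (nat_lit 6982209891)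 (nat_lit 228) (nat_lit 31704443060) (nat_lit 76) (nat_lit 19690492386) (nat_lit 59) (nat_lit 5) (nat_lit 62) (nat_lit 5) (nat_lit 60) (nat_lit 5) (nat_lit 441) (nat_lit 427) (nat_lit 332))) (XT.nd (nat_lit 78) (nat_lit 152) (nat_lit 0) (XT.lf (nat_lit 0) (nat_lit 1366512789) (nat_lit 228) (nat_lit 15592290430) (nat_lit 304) (nat_lit 44137547001) (nat_lit 56) (nat_lit 5) (nat_lit 59) (nat_lit 5) (nat_lit 60) (nat_lit 5) (nat_lit 442) (nat_lit 427) (nat_lit 331)) (XT.nd (nat_lit 78) (nat_lit 152) (nat_lit 0) (XT.lf (nat_lit 0) (nat_lit 28845177749) (nat_lit 304) (nat_lit 25328483560) (nat_lit 76) (nat_lit 9770498570) (nat_lit 56) (nat_lit 5) (nat_lit 60) (nat_lit 5) (nat_lit 57) (nat_lit 5) (nat_lit 443) (nat_lit 427) (nat_lit 330)) (XT.lf (nat_lit 0) (nat_lit 12017859538) (nat_lit 152) (nat_lit 30356241640) (nat_lit 228) (nat_lit 24590362655) (nat_lit 54) (nat_lit 5) (nat_lit 56) (nat_lit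 5) (nat_lit 57) (nat_lit 5) (nat_lit 444) (nat_lit 427) (nat_lit 329))))) (XT.nd (nat_lit 234) (nat_lit 304) (nat_lit 0) (XT.nd (nat_lit 78) (nat_lit 228) (nat_lit 0) (XT.lf (nat_lit 0) (nat_lit 53789140566) (nat_lit 152) (nat_lit 3886437300) (nat_lit 228) (nat_lit 12495595675) (nat_lit 54) (nat_lit 5) (nat_lit 56) (nat_lit 5) (nat_lit 57) (nat_lit 5) (nat_lit 445) (nat_lit 427) (nat_lit 328)) (XT.nd (nat_lit 78) (nat_lit 0) (nat_lit 0) (XT.lf (nat_lit 0) (nat_lit 1786488706) (nat_lit 228) (nat_lit 47612710975) (nat_lit 76) (nat_lit 24134283432) (nat_lit 51) (nat_lit 5) (nat_lit 54) (nat_lit 5) (nat_lit 52) (nat_lit 5) (nat_lit 446) (nat_lit 427) (nat_lit 327)) (XT.lf (nat_lit 0) (nat_lit 17094440832) (nat_lit 228) (nat_lit 5029788641) (nat_lit 76) (nat_lit 54969912553) (nat_lit 51) (nat_lit 5) (nat_lit 54) (nat_lit 5) (nat_lit 52) (nat_lit 5) (nat_lit 447) (nat_lit 427) (nat_lit 326))))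 (XT.nd (nat_lit 78) (nat_lit 152) (nat_lit 0) (XT.lf (nat_lit 0) (nat_lit 34865221439) (nat_lit 228) (nat_lit 37946569371) (nat_lit 76) (nat_lit 8028807891) (nat_lit 49) (nat_lit 5) (nat_lit 52) (nat_lit 5) (nat_lit 50) (nat_lit 5) (nat_lit 448) (nat_lit 427) (nat_lit 325)) (XT.nd (nat_lit 78) (nat_lit 0) (nat_lit 0) (XT.lf (nat_lit 0) (nat_lit 9980063766) (nat_lit 152) (nat_lit 45031473767) (nat_lit 228) (nat_lit 29798924933) (nat_lit 47) (nat_lit 5) (nat_lit 49) (nat_lit 5) (nat_lit 50) (nat_lit 5) (nat_lit 449) (nat_lit 427) (nat_lit 324)) (XT.lf (nat_lit 0) (nat_lit 63895974775) (nat_lit 152) (nat_lit 13909282869) (nat_lit 228) (nat_lit 11209802161) (nat_lit 47) (nat_lit 5) (nat_lit 49) (nat_lit 5) (nat_lit 50) (nat_lit 5) (nat_lit 450) (nat_lit 427) (nat_lit 323)))))) (XT.nd (nat_lit 468) (nat_lit 380) (nat_lit 0) (XT.nd (nat_lit 234) (nat_lit 304) (nat_lit 0) (XT.nd (nat_lit 78) (nat_lit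 152) (nat_lit 0) (XT.lf (nat_lit 0) (nat_lit 9636985969) (nat_lit 152) (nat_lit 64133552926) (nat_lit 76) (nat_lit 19671301584) (nat_lit 45) (nat_lit 5) (nat_lit 47) (nat_lit 5) (nat_lit 46) (nat_lit 5) (nat_lit 451) (nat_lit 427) (nat_lit 322)) (XT.nd (nat_lit 78) (nat_lit 152) (nat_lit 0) (XT.lf (nat_lit 0) (nat_lit 32610117745) (nat_lit 152) (nat_lit 9322530571) (nat_lit 76) (nat_lit 56181684802) (nat_lit 45) (nat_lit 5) (nat_lit 47) (nat_lit 5) (nat_lit 46) (nat_lit 5) (nat_lit 452) (nat_lit 427) (nat_lit 321)) (XT.lf (nat_lit 0) (nat_lit 52496865681) (nat_lit 152) (nat_lit 6185212792) (nat_lit 228) (nat_lit 44377668697) (nat_lit 43) (nat_lit 5) (nat_lit 45) (nat_lit 5) (nat_lit 46) (nat_lit 5) (nat_lit 453) (nat_lit 427) (nat_lit 320)))) (XT.nd (nat_lit 78) (nat_lit 228) (nat_lit 0) (XT.lf (nat_lit 0) (nat_lit 11181942106) (nat_lit 76) (nat_lit 76966503338) (nat_lit 152) (nat_lit 20147657204)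 (nat_lit 42) (nat_lit 5) (nat_lit 43) (nat_lit 5) (nat_lit 44) (nat_lit 4) (nat_lit 454) (nat_lit 427) (nat_lit 319)) (XT.nd (nat_lit 78) (nat_lit 152) (nat_lit 0) (XT.lf (nat_lit 0) (nat_lit 7297086130) (nat_lit 152) (nat_lit 33442881701) (nat_lit 76) (nat_lit 73073613926) (nat_lit 41) (nat_lit 5) (nat_lit 43) (nat_lit 5) (nat_lit 42) (nat_lit 5) (nat_lit 455) (nat_lit 427) (nat_lit 318)) (XT.lf (nat_lit 0) (nat_lit 36628635073) (nat_lit 152) (nat_lit 99781126) (nat_lit 228) (nat_lit 82931817609) (nat_lit 39) (nat_lit 5) (nat_lit 41) (nat_lit 5) (nat_lit 42) (nat_lit 5) (nat_lit 456) (nat_lit 427) (nat_lit 317))))) (XT.nd (nat_lit 234) (nat_lit 76) (nat_lit 0) (XT.nd (nat_lit 78) (nat_lit 304) (nat_lit 0) (XT.lf (nat_lit 0) (nat_lit 70504187067) (nat_lit 228) (nat_lit 12773091190) (nat_lit 76) (nat_lit 42538145199) (nat_lit 39) (nat_lit 5) (nat_lit 42) (nat_lit 5) (nat_lit 40) (nat_lit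 4) (nat_lit 457) (nat_lit 427) (nat_lit 316)) (XT.nd (nat_lit 78) (nat_lit 228) (nat_lit 0) (XT.lf (nat_lit 0) (nat_lit 66424003048) (nat_lit 76) (nat_lit 42156817225) (nat_lit 152) (nat_lit 23754304122) (nat_lit 38) (nat_lit 5) (nat_lit 39) (nat_lit 5) (nat_lit 40) (nat_lit 4) (nat_lit 458) (nat_lit 427) (nat_lit 315)) (XT.lf (nat_lit 0) (nat_lit 10577141289) (nat_lit 228) (nat_lit 125616430719) (nat_lit 76) (nat_lit 3101634743) (nat_lit 35) (nat_lit 5) (nat_lit 38) (nat_lit 5) (nat_lit 36) (nat_lit 4) (nat_lit 459) (nat_lit 427) (nat_lit 314)))) (XT.nd (nat_lit 78) (nat_lit 76) (nat_lit 0) (XT.lf (nat_lit 0) (nat_lit 49314406122) (nat_lit 228) (nat_lit 45044747928) (nat_lit 76) (nat_lit 52168169934) (nat_lit 35) (nat_lit 5) (nat_lit 38) (nat_lit 5) (nat_lit 36) (nat_lit 4) (nat_lit 460) (nat_lit 427) (nat_lit 313)) (XT.nd (nat_lit 78) (nat_lit 0) (nat_lit 0) (XT.lf (nat_lit 0) (nat_lit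 44180608967) (nat_lit 76) (nat_lit 48031417127) (nat_lit 152) (nat_lit 62041074710) (nat_lit 34) (nat_lit 5) (nat_lit 35) (nat_lit 5) (nat_lit 36) (nat_lit 4) (nat_lit 461) (nat_lit 427) (nat_lit 312)) (XT.lf (nat_lit 0) (nat_lit 139852051993) (nat_lit 152) (nat_lit 19474999842) (nat_lit 0) (nat_lit 3165040346) (nat_lit 34) (nat_lit 5) (nat_lit 36) (nat_lit 4) (nat_lit 34) (nat_lit 4) (nat_lit 462) (nat_lit 427) (nat_lit 311))))))) (XT.nd (nat_lit 858) (nat_lit 684) (nat_lit 0) (XT.nd (nat_lit 390) (nat_lit 380) (nat_lit 0) (XT.nd (nat_lit 156) (nat_lit 152) (nat_lit 0) (XT.nd (nat_lit 78) (nat_lit 76) (nat_lit 0) (XT.lf (nat_lit 0) (nat_lit 22198953585) (nat_lit 152) (nat_lit 90514531867) (nat_lit 76) (nat_lit 58375843978) (nat_lit 32) (nat_lit 5) (nat_lit 34) (nat_lit 5) (nat_lit 33) (nat_lit 4) (nat_lit 463) (nat_lit 427) (nat_lit 310)) (XT.lf (nat_lit 0) (nat_lit 9263915326) (nat_lit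 76) (nat_lit 60906043711) (nat_lit 152) (nat_lit 110095899082) (nat_lit 31) (nat_lit 5) (nat_lit 32) (nat_lit 5) (nat_lit 33) (nat_lit 4) (nat_lit 464) (nat_lit 427) (nat_lit 309))) (XT.nd (nat_lit 78) (nat_lit 152) (nat_lit 0) (XT.lf (nat_lit 0) (nat_lit 122170319202) (nat_lit 76) (nat_lit 2282118616) (nat_lit 152) (nat_lit 65526167941) (nat_lit 31) (nat_lit 5) (nat_lit 32) (nat_lit 5) (nat_lit 33) (nat_lit 4) (nat_lit 465) (nat_lit 427) (nat_lit 308)) (XT.nd (nat_lit 78) (nat_lit 76) (nat_lit 0) (XT.lf (nat_lit 0) (nat_lit 44391835639) (nat_lit 76) (nat_lit 141220139542) (nat_lit 76) (nat_lit 14653641286) (nat_lit 30) (nat_lit 4) (nat_lit 31) (nat_lit 5) (nat_lit 31) (nat_lit 4) (nat_lit 466) (nat_lit 427) (nat_lit 307)) (XT.lf (nat_lit 0) (nat_lit 40233739621) (nat_lit 152) (nat_lit 42881234327) (nat_lit 76) (nat_lit 128026262204) (nat_lit 29) (nat_lit 5) (nat_lit 31) (nat_lit 5) (nat_lit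 30) (nat_lit 4) (nat_lit 467) (nat_lit 427) (nat_lit 306))))) (XT.nd (nat_lit 234) (nat_lit 228) (nat_lit 0) (XT.nd (nat_lit 78) (nat_lit 76) (nat_lit 0) (XT.lf (nat_lit 0) (nat_lit 82916167668) (nat_lit 76) (nat_lit 17797499232) (nat_lit 152) (nat_lit 121983330799) (nat_lit 28) (nat_lit 5) (nat_lit 29) (nat_lit 5) (nat_lit 30) (nat_lit 4) (nat_lit 468) (nat_lit 427) (nat_lit 305)) (XT.nd (nat_lit 78) (nat_lit 76) (nat_lit 0) (XT.lf (nat_lit 0) (nat_lit 168502521862) (nat_lit 152) (nat_lit 15168092631) (nat_lit 0) (nat_lit 51308963056) (nat_lit 28) (nat_lit 5) (nat_lit 30) (nat_lit 4) (nat_lit 28) (nat_lit 4) (nat_lit 469) (nat_lit 427) (nat_lit 304)) (XT.lf (nat_lit 0) (nat_lit 125213461369) (nat_lit 76) (nat_lit 119973853538) (nat_lit 76) (nat_lit 2779622559) (nat_lit 27) (nat_lit 4) (nat_lit 28) (nat_lit 5) (nat_lit 28) (nat_lit 4) (nat_lit 470) (nat_lit 427) (nat_lit 303)))) (XT.nd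 (nat_lit 78) (nat_lit 76) (nat_lit 0) (XT.lf (nat_lit 0) (nat_lit 14871993864) (nat_lit 76) (nat_lit 48621682686) (nat_lit 152) (nat_lit 198310012231) (nat_lit 25) (nat_lit 5) (nat_lit 26) (nat_lit 5) (nat_lit 27) (nat_lit 4) (nat_lit 471) (nat_lit 427) (nat_lit 302)) (XT.nd (nat_lit 78) (nat_lit 76) (nat_lit 0) (XT.lf (nat_lit 0) (nat_lit 139045270071) (nat_lit 152) (nat_lit 106835222786) (nat_lit 0) (nat_lit 30530983364) (nat_lit 25) (nat_lit 5) (nat_lit 27) (nat_lit 4) (nat_lit 25) (nat_lit 4) (nat_lit 472) (nat_lit 427) (nat_lit 301)) (XT.lf (nat_lit 0) (nat_lit 45479640486) (nat_lit 76) (nat_lit 177517276458) (nat_lit 76) (nat_lit 69002495683) (nat_lit 24) (nat_lit 4) (nat_lit 25) (nat_lit 5) (nat_lit 25) (nat_lit 4) (nat_lit 473) (nat_lit 427) (nat_lit 300)))))) (XT.nd (nat_lit 468) (nat_lit 304) (nat_lit 0) (XT.nd (nat_lit 234) (nat_lit 228) (nat_lit 0) (XT.nd (nat_lit 78) (nat_lit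 76) (nat_lit 0) (XT.lf (nat_lit 0) (nat_lit 7584856507) (nat_lit 152) (nat_lit 92738736710) (nat_lit 76) (nat_lit 208261803104) (nat_lit 23) (nat_lit 5) (nat_lit 25) (nat_lit 5) (nat_lit 24) (nat_lit 4) (nat_lit 474) (nat_lit 427) (nat_lit 299)) (XT.nd (nat_lit 78) (nat_lit 0) (nat_lit 0) (XT.lf (nat_lit 0) (nat_lit 75318871723) (nat_lit 76) (nat_lit 13063115561) (nat_lit 152) (nat_lit 237828032252) (nat_lit 22) (nat_lit 5) (nat_lit 23) (nat_lit 5) (nat_lit 24) (nat_lit 4) (nat_lit 475) (nat_lit 427) (nat_lit 298)) (XT.lf (nat_lit 0) (nat_lit 180196028458) (nat_lit 152) (nat_lit 84966132337) (nat_lit 0) (nat_lit 79718200647) (nat_lit 22) (nat_lit 5) (nat_lit 24) (nat_lit 4) (nat_lit 22) (nat_lit 4) (nat_lit 476) (nat_lit 427) (nat_lit 297)))) (XT.nd (nat_lit 78) (nat_lit 152) (nat_lit 0) (XT.lf (nat_lit 0) (nat_lit 98836492153) (nat_lit 76) (nat_lit 183234374376) (nat_lit 76) (nat_lit 82756210311)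 (nat_lit 21) (nat_lit 4) (nat_lit 22) (nat_lit 5) (nat_lit 22) (nat_lit 4) (nat_lit 477) (nat_lit 427) (nat_lit 296)) (XT.nd (nat_lit 78) (nat_lit 76) (nat_lit 0) (XT.lf (nat_lit 0) (nat_lit 7822535093) (nat_lit 152) (nat_lit 84207602417) (nat_lit 76) (nat_lit 294137749337) (nat_lit 20) (nat_lit 5) (nat_lit 22) (nat_lit 5) (nat_lit 21) (nat_lit 4) (nat_lit 478) (nat_lit 427) (nat_lit 295)) (XT.lf (nat_lit 0) (nat_lit 104243721390) (nat_lit 152) (nat_lit 293347080158) (nat_lit 0) (nat_lit 11207829080) (nat_lit 19) (nat_lit 5) (nat_lit 21) (nat_lit 4) (nat_lit 19) (nat_lit 4) (nat_lit 479) (nat_lit 427) (nat_lit 294))))) (XT.nd (nat_lit 234) (nat_lit 228) (nat_lit 0) (XT.nd (nat_lit 78) (nat_lit 76) (nat_lit 0) (XT.lf (nat_lit 0) (nat_lit 213130586404) (nat_lit 152) (nat_lit 99634641888) (nat_lit 0) (nat_lit 120094446936) (nat_lit 19) (nat_lit 5) (nat_lit 21) (nat_lit 4) (nat_lit 19) (nat_lit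 4) (nat_lit 480) (nat_lit 427) (nat_lit 293)) (XT.nd (nat_lit 78) (nat_lit 0) (nat_lit 0) (XT.lf (nat_lit 0) (nat_lit 115343636214) (nat_lit 76) (nat_lit 218158229168) (nat_lit 76) (nat_lit 125121860851) (nat_lit 18) (nat_lit 4) (nat_lit 19) (nat_lit 5) (nat_lit 19) (nat_lit 4) (nat_lit 481) (nat_lit 427) (nat_lit 292)) (XT.lf (nat_lit 0) (nat_lit 353185404003) (nat_lit 76) (nat_lit 113041092769) (nat_lit 76) (nat_lit 20004512555) (nat_lit 18) (nat_lit 4) (nat_lit 19) (nat_lit 5) (nat_lit 19) (nat_lit 4) (nat_lit 482) (nat_lit 427) (nat_lit 291)))) (XT.nd (nat_lit 78) (nat_lit 76) (nat_lit 0) (XT.lf (nat_lit 0) (nat_lit 91296744349) (nat_lit 152) (nat_lit 419222382303) (nat_lit 0) (nat_lit 5151581002) (nat_lit 16) (nat_lit 5) (nat_lit 18) (nat_lit 4) (nat_lit 16) (nat_lit 4) (nat_lit 483) (nat_lit 427) (nat_lit 290)) (XT.nd (nat_lit 78) (nat_lit 76) (nat_lit 0) (XT.lf (nat_lit 0) (nat_lit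 217089150026) (nat_lit 152) (nat_lit 198857620629) (nat_lit 0) (nat_lit 130943818468) (nat_lit 16) (nat_lit 5) (nat_lit 18) (nat_lit 4) (nat_lit 16) (nat_lit 4) (nat_lit 484) (nat_lit 427) (nat_lit 289)) (XT.lf (nat_lit 0) (nat_lit 41196166297) (nat_lit 76) (nat_lit 312739079175) (nat_lit 76) (nat_lit 226593591866) (nat_lit 15) (nat_lit 4) (nat_lit 16) (nat_lit 5) (nat_lit 16) (nat_lit 4) (nat_lit 485) (nat_lit 427) (nat_lit 288))))))))
noncomputable def xc161 : XT := (XT.nd (nat_lit 1794) (nat_lit 228) (nat_lit 0) (XT.nd (nat_lit 858) (nat_lit 228) (nat_lit 0) (XT.nd (nat_lit 390) (nat_lit 228) (nat_lit 0) (XT.nd (nat_lit 156) (nat_lit 152) (nat_lit 0) (XT.nd (nat_lit 78) (nat_lit 76) (nat_lit 0) (XT.lf (nat_lit 0) (nat_lit 311762534672) (nat_lit 76) (nat_lit 195403154703) (nat_lit 76) (nat_lit 109257523180) (nat_lit 15) (nat_lit 4) (nat_lit 16) (nat_lit 5) (nat_lit 16) (nat_lit 4) (nat_lit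 486) (nat_lit 427) (nat_lit 287)) (XT.lf (nat_lit 0) (nat_lit 16591303421) (nat_lit 152) (nat_lit 51635853937) (nat_lit 76) (nat_lit 586928411798) (nat_lit 14) (nat_lit 5) (nat_lit 16) (nat_lit 5) (nat_lit 15) (nat_lit 4) (nat_lit 487) (nat_lit 427) (nat_lit 286))) (XT.nd (nat_lit 78) (nat_lit 76) (nat_lit 0) (XT.lf (nat_lit 0) (nat_lit 154023913175) (nat_lit 152) (nat_lit 467882881387) (nat_lit 0) (nat_lit 74259201421) (nat_lit 13) (nat_lit 5) (nat_lit 15) (nat_lit 4) (nat_lit 13) (nat_lit 4) (nat_lit 488) (nat_lit 427) (nat_lit 285)) (XT.nd (nat_lit 78) (nat_lit 76) (nat_lit 0) (XT.lf (nat_lit 0) (nat_lit 305671349222) (nat_lit 152) (nat_lit 208621758876) (nat_lit 0) (nat_lit 225906531467) (nat_lit 13) (nat_lit 5) (nat_lit 15) (nat_lit 4) (nat_lit 13) (nat_lit 4) (nat_lit 489) (nat_lit 427) (nat_lit 284)) (XT.lf (nat_lit 0) (nat_lit 75138211784) (nat_lit 76) (nat_lit 396119071265) (nat_lit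 76) (nat_lit 316354155360) (nat_lit 12) (nat_lit 4) (nat_lit 13) (nat_lit 5) (nat_lit 13) (nat_lit 4) (nat_lit 490) (nat_lit 427) (nat_lit 283))))) (XT.nd (nat_lit 234) (nat_lit 76) (nat_lit 0) (XT.nd (nat_lit 78) (nat_lit 152) (nat_lit 0) (XT.lf (nat_lit 0) (nat_lit 393462744287) (nat_lit 76) (nat_lit 262331072812) (nat_lit 76) (nat_lit 182566066028) (nat_lit 12) (nat_lit 4) (nat_lit 13) (nat_lit 5) (nat_lit 13) (nat_lit 4) (nat_lit 491) (nat_lit 427) (nat_lit 282)) (XT.nd (nat_lit 78) (nat_lit 152) (nat_lit 0) (XT.lf (nat_lit 0) (nat_lit 737252554117) (nat_lit 76) (nat_lit 117840383569) (nat_lit 76) (nat_lit 38075292638) (nat_lit 12) (nat_lit 4) (nat_lit 13) (nat_lit 5) (nat_lit 13) (nat_lit 4) (nat_lit 492) (nat_lit 427) (nat_lit 281)) (XT.lf (nat_lit 0) (nat_lit 117048499931) (nat_lit 152) (nat_lit 791495873088) (nat_lit 0) (nat_lit 43191862112) (nat_lit 10) (nat_lit 5) (nat_lit 12)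 (nat_lit 4) (nat_lit 10) (nat_lit 4) (nat_lit 493) (nat_lit 427) (nat_lit 280)))) (XT.nd (nat_lit 78) (nat_lit 76) (nat_lit 0) (XT.lf (nat_lit 0) (nat_lit 289959349995) (nat_lit 152) (nat_lit 508253830759) (nat_lit 0) (nat_lit 216102645376) (nat_lit 10) (nat_lit 5) (nat_lit 12) (nat_lit 4) (nat_lit 10) (nat_lit 4) (nat_lit 494) (nat_lit 427) (nat_lit 279)) (XT.nd (nat_lit 78) (nat_lit 76) (nat_lit 0) (XT.lf (nat_lit 0) (nat_lit 476702772902) (nat_lit 152) (nat_lit 202353028691) (nat_lit 0) (nat_lit 402846006432) (nat_lit 10) (nat_lit 5) (nat_lit 12) (nat_lit 4) (nat_lit 10) (nat_lit 4) (nat_lit 495) (nat_lit 427) (nat_lit 278)) (XT.lf (nat_lit 0) (nat_lit 134760546949) (nat_lit 76) (nat_lit 546865843789) (nat_lit 76) (nat_lit 473009020051) (nat_lit 9) (nat_lit 4) (nat_lit 10) (nat_lit 5) (nat_lit 10) (nat_lit 4) (nat_lit 496) (nat_lit 427) (nat_lit 277)))))) (XT.nd (nat_lit 468) (nat_lit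 76) (nat_lit 0) (XT.nd (nat_lit 234) (nat_lit 76) (nat_lit 0) (XT.nd (nat_lit 78) (nat_lit 76) (nat_lit 0) (XT.lf (nat_lit 0) (nat_lit 510350659900) (nat_lit 76) (nat_lit 398125662352) (nat_lit 76) (nat_lit 324268785586) (nat_lit 9) (nat_lit 4) (nat_lit 10) (nat_lit 5) (nat_lit 10) (nat_lit 4) (nat_lit 497) (nat_lit 427) (nat_lit 276)) (XT.nd (nat_lit 78) (nat_lit 76) (nat_lit 0) (XT.lf (nat_lit 0) (nat_lit 915987477457) (nat_lit 76) (nat_lit 237486524389) (nat_lit 76) (nat_lit 163629598524) (nat_lit 9) (nat_lit 4) (nat_lit 10) (nat_lit 5) (nat_lit 10) (nat_lit 4) (nat_lit 498) (nat_lit 427) (nat_lit 275)) (XT.lf (nat_lit 0) (nat_lit 9367216060) (nat_lit 152) (nat_lit 54373161920) (nat_lit 76) (nat_lit 1344451441007) (nat_lit 8) (nat_lit 5) (nat_lit 10) (nat_lit 5) (nat_lit 9) (nat_lit 4) (nat_lit 499) (nat_lit 427) (nat_lit 274)))) (XT.nd (nat_lit 78) (nat_lit 0) (nat_lit 0) (XT.lf (nat_lit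 0) (nat_lit 198657748513) (nat_lit 152) (nat_lit 1176394174363) (nat_lit 0) (nat_lit 130271624975) (nat_lit 7) (nat_lit 5) (nat_lit 9) (nat_lit 4) (nat_lit 7) (nat_lit 4) (nat_lit 500) (nat_lit 427) (nat_lit 273)) (XT.nd (nat_lit 78) (nat_lit 0) (nat_lit 0) (XT.lf (nat_lit 0) (nat_lit 406272174460) (nat_lit 152) (nat_lit 865813173661) (nat_lit 0) (nat_lit 337886014832) (nat_lit 7) (nat_lit 5) (nat_lit 9) (nat_lit 4) (nat_lit 7) (nat_lit 4) (nat_lit 501) (nat_lit 427) (nat_lit 272)) (XT.lf (nat_lit 0) (nat_lit 630495554066) (nat_lit 152) (nat_lit 530386104211) (nat_lit 0) (nat_lit 562109361023) (nat_lit 7) (nat_lit 5) (nat_lit 9) (nat_lit 4) (nat_lit 7) (nat_lit 4) (nat_lit 502) (nat_lit 427) (nat_lit 271))))) (XT.nd (nat_lit 234) (nat_lit 0) (nat_lit 0) (XT.nd (nat_lit 78) (nat_lit 76) (nat_lit 0) (XT.lf (nat_lit 0) (nat_lit 872656618471) (nat_lit 152) (nat_lit 168125250046) (nat_lit 0)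 (nat_lit 804270394486) (nat_lit 7) (nat_lit 5) (nat_lit 9) (nat_lit 4) (nat_lit 7) (nat_lit 4) (nat_lit 503) (nat_lit 427) (nat_lit 270)) (XT.nd (nat_lit 78) (nat_lit 0) (nat_lit 0) (XT.lf (nat_lit 0) (nat_lit 234865019296) (nat_lit 76) (nat_lit 904973886270) (nat_lit 76) (nat_lit 836587633636) (nat_lit 6) (nat_lit 4) (nat_lit 7) (nat_lit 5) (nat_lit 7) (nat_lit 4) (nat_lit 504) (nat_lit 427) (nat_lit 269)) (XT.lf (nat_lit 0) (nat_lit 679655598426) (nat_lit 76) (nat_lit 753336852120) (nat_lit 76) (nat_lit 684950572960) (nat_lit 6) (nat_lit 4) (nat_lit 7) (nat_lit 5) (nat_lit 7) (nat_lit 4) (nat_lit 505) (nat_lit 427) (nat_lit 268)))) (XT.nd (nat_lit 78) (nat_lit 0) (nat_lit 0) (XT.lf (nat_lit 0) (nat_lit 1160029105643) (nat_lit 76) (nat_lit 589569018516) (nat_lit 76) (nat_lit 521182714794) (nat_lit 6) (nat_lit 4) (nat_lit 7) (nat_lit 5) (nat_lit 7) (nat_lit 4) (nat_lit 506) (nat_lit 427)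 (nat_lit 267)) (XT.nd (nat_lit 78) (nat_lit 0) (nat_lit 0) (XT.lf (nat_lit 0) (nat_lit 1678832198767) (nat_lit 76) (nat_lit 412699909406) (nat_lit 76) (nat_lit 344313582942) (nat_lit 6) (nat_lit 4) (nat_lit 7) (nat_lit 5) (nat_lit 7) (nat_lit 4) (nat_lit 507) (nat_lit 427) (nat_lit 266)) (XT.lf (nat_lit 0) (nat_lit 2239139266500) (nat_lit 76) (nat_lit 221681411552) (nat_lit 76) (nat_lit 153295064030) (nat_lit 6) (nat_lit 4) (nat_lit 7) (nat_lit 5) (nat_lit 7) (nat_lit 4) (nat_lit 508) (nat_lit 427) (nat_lit 265))))))) (XT.nd (nat_lit 936) (nat_lit 0) (nat_lit 0) (XT.nd (nat_lit 468) (nat_lit 76) (nat_lit 0) (XT.nd (nat_lit 234) (nat_lit 0) (nat_lit 0) (XT.nd (nat_lit 78) (nat_lit 0) (nat_lit 0) (XT.lf (nat_lit 0) (nat_lit 38262519436) (nat_lit 76) (nat_lit 13010983667) (nat_lit 152) (nat_lit 2755198305360) (nat_lit 4) (nat_lit 5) (nat_lit 5) (nat_lit 5) (nat_lit 6) (nat_lit 4) (nat_lit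 509) (nat_lit 427) (nat_lit 264)) (XT.nd (nat_lit 78) (nat_lit 0) (nat_lit 0) (XT.lf (nat_lit 0) (nat_lit 279551431656) (nat_lit 152) (nat_lit 2516865625272) (nat_lit 0) (nat_lit 216230704735) (nat_lit 4) (nat_lit 5) (nat_lit 6) (nat_lit 4) (nat_lit 4) (nat_lit 4) (nat_lit 510) (nat_lit 427) (nat_lit 263)) (XT.lf (nat_lit 0) (nat_lit 526429425395) (nat_lit 152) (nat_lit 2245752656257) (nat_lit 0) (nat_lit 463108682996) (nat_lit 4) (nat_lit 5) (nat_lit 6) (nat_lit 4) (nat_lit 4) (nat_lit 4) (nat_lit 511) (nat_lit 427) (nat_lit 262)))) (XT.nd (nat_lit 78) (nat_lit 0) (nat_lit 0) (XT.lf (nat_lit 0) (nat_lit 793057550554) (nat_lit 152) (nat_lit 1952950872142) (nat_lit 0) (nat_lit 729736793824) (nat_lit 4) (nat_lit 5) (nat_lit 6) (nat_lit 4) (nat_lit 4) (nat_lit 4) (nat_lit 512) (nat_lit 427) (nat_lit 261)) (XT.nd (nat_lit 78) (nat_lit 0) (nat_lit 0) (XT.lf (nat_lit 0) (nat_lit 1081015825653)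 (nat_lit 152) (nat_lit 1636725151242) (nat_lit 0) (nat_lit 1017695055653) (nat_lit 4) (nat_lit 5) (nat_lit 6) (nat_lit 4) (nat_lit 4) (nat_lit 4) (nat_lit 513) (nat_lit 427) (nat_lit 260)) (XT.lf (nat_lit 0) (nat_lit 1392010670100) (nat_lit 152) (nat_lit 1295201563359) (nat_lit 0) (nat_lit 1328689887813) (nat_lit 4) (nat_lit 5) (nat_lit 6) (nat_lit 4) (nat_lit 4) (nat_lit 4) (nat_lit 514) (nat_lit 427) (nat_lit 259))))) (XT.nd (nat_lit 234) (nat_lit 76) (nat_lit 0) (XT.nd (nat_lit 78) (nat_lit 0) (nat_lit 0) (XT.lf (nat_lit 0) (nat_lit 1727885016306) (nat_lit 152) (nat_lit 926356265010) (nat_lit 0) (nat_lit 1664564222642) (nat_lit 4) (nat_lit 5) (nat_lit 6) (nat_lit 4) (nat_lit 4) (nat_lit 4) (nat_lit 515) (nat_lit 427) (nat_lit 258)) (XT.nd (nat_lit 78) (nat_lit 0) (nat_lit 0) (XT.lf (nat_lit 0) (nat_lit 2090629230767) (nat_lit 152) (nat_lit 528003506279) (nat_lit 0) (nat_lit 2027308426569)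 (nat_lit 4) (nat_lit 5) (nat_lit 6) (nat_lit 4) (nat_lit 4) (nat_lit 4) (nat_lit 516) (nat_lit 427) (nat_lit 257)) (XT.lf (nat_lit 0) (nat_lit 2482392908829) (nat_lit 152) (nat_lit 97782678225) (nat_lit 0) (nat_lit 2419072094877) (nat_lit 4) (nat_lit 5) (nat_lit 6) (nat_lit 4) (nat_lit 4) (nat_lit 4) (nat_lit 517) (nat_lit 427) (nat_lit 256)))) (XT.nd (nat_lit 78) (nat_lit 0) (nat_lit 0) (XT.lf (nat_lit 0) (nat_lit 386173645680) (nat_lit 76) (nat_lit 2528611452813) (nat_lit 76) (nat_lit 2465290629830) (nat_lit 3) (nat_lit 4) (nat_lit 4) (nat_lit 5) (nat_lit 4) (nat_lit 4) (nat_lit 518) (nat_lit 427) (nat_lit 255)) (XT.nd (nat_lit 78) (nat_lit 0) (nat_lit 0) (XT.lf (nat_lit 0) (nat_lit 914407326438) (nat_lit 76) (nat_lit 2470034822254) (nat_lit 76) (nat_lit 2406713990908) (nat_lit 3) (nat_lit 4) (nat_lit 4) (nat_lit 5) (nat_lit 4) (nat_lit 4) (nat_lit 519) (nat_lit 427) (nat_lit 254)) (XT.lf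 (nat_lit 0) (nat_lit 1484899575162) (nat_lit 76) (nat_lit 2406772126310) (nat_lit 76) (nat_lit 2343451287222) (nat_lit 3) (nat_lit 4) (nat_lit 4) (nat_lit 5) (nat_lit 4) (nat_lit 4) (nat_lit 520) (nat_lit 427) (nat_lit 253)))))) (XT.nd (nat_lit 468) (nat_lit 0) (nat_lit 0) (XT.nd (nat_lit 234) (nat_lit 0) (nat_lit 0) (XT.nd (nat_lit 78) (nat_lit 0) (nat_lit 0) (XT.lf (nat_lit 0) (nat_lit 2101031086659) (nat_lit 76) (nat_lit 2338448474932) (nat_lit 76) (nat_lit 2275127628674) (nat_lit 3) (nat_lit 4) (nat_lit 4) (nat_lit 5) (nat_lit 4) (nat_lit 4) (nat_lit 521) (nat_lit 427) (nat_lit 252)) (XT.nd (nat_lit 78) (nat_lit 0) (nat_lit 0) (XT.lf (nat_lit 0) (nat_lit 2766453010627) (nat_lit 76) (nat_lit 2264658987223) (nat_lit 76) (nat_lit 2201338134327) (nat_lit 3) (nat_lit 4) (nat_lit 4) (nat_lit 5) (nat_lit 4) (nat_lit 4) (nat_lit 522) (nat_lit 427) (nat_lit 251)) (XT.lf (nat_lit 0) (nat_lit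 3485108588098) (nat_lit 76) (nat_lit 2184966392145) (nat_lit 76) (nat_lit 2121645533102) (nat_lit 3) (nat_lit 4) (nat_lit 4) (nat_lit 5) (nat_lit 4) (nat_lit 4) (nat_lit 523) (nat_lit 427) (nat_lit 250)))) (XT.nd (nat_lit 78) (nat_lit 0) (nat_lit 0) (XT.lf (nat_lit 0) (nat_lit 4261256518788) (nat_lit 76) (nat_lit 2098898437282) (nat_lit 76) (nat_lit 2035577572548) (nat_lit 3) (nat_lit 4) (nat_lit 4) (nat_lit 5) (nat_lit 4) (nat_lit 4) (nat_lit 524) (nat_lit 427) (nat_lit 249)) (XT.nd (nat_lit 78) (nat_lit 0) (nat_lit 0) (XT.lf (nat_lit 0) (nat_lit 5099496197845) (nat_lit 76) (nat_lit 2005945090309) (nat_lit 76) (nat_lit 1942624220305) (nat_lit 3) (nat_lit 4) (nat_lit 4) (nat_lit 5) (nat_lit 4) (nat_lit 4) (nat_lit 525) (nat_lit 427) (nat_lit 248)) (XT.lf (nat_lit 0) (nat_lit 6004794971512) (nat_lit 76) (nat_lit 1905555516577) (nat_lit 76) (nat_lit 1842234641694) (nat_lit 3) (nat_lit 4)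 (nat_lit 4) (nat_lit 5) (nat_lit 4) (nat_lit 4) (nat_lit 526) (nat_lit 427) (nat_lit 247))))) (XT.nd (nat_lit 54912) (nat_lit 0) (nat_lit 5244) (XT.nd (nat_lit 54756) (nat_lit 0) (nat_lit 5700) (XT.lf (nat_lit 0) (nat_lit 6982517573265) (nat_lit 76) (nat_lit 1797134814909) (nat_lit 76) (nat_lit 1733813935509) (nat_lit 3) (nat_lit 4) (nat_lit 4) (nat_lit 5) (nat_lit 4) (nat_lit 4) (nat_lit 527) (nat_lit 427) (nat_lit 246)) (XT.nd (nat_lit 78) (nat_lit 0) (nat_lit 0) (XT.lf (nat_lit 0) (nat_lit 16458009107) (nat_lit 532) (nat_lit 541003429) (nat_lit 532) (nat_lit 541003429) (nat_lit 78) (nat_lit 3) (nat_lit 85) (nat_lit 3) (nat_lit 85) (nat_lit 5) (nat_lit 428) (nat_lit 428) (nat_lit 344)) (XT.lf (nat_lit 76) (nat_lit 17103468781) (nat_lit 0) (nat_lit 17590689567) (nat_lit 532) (nat_lit 1752134748) (nat_lit 79) (nat_lit 5) (nat_lit 78) (nat_lit 3) (nat_lit 85) (nat_lit 5) (nat_lit 429) (nat_lit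 428) (nat_lit 343)))) (XT.nd (nat_lit 78) (nat_lit 532) (nat_lit 0) (XT.lf (nat_lit 0) (nat_lit 36642976756) (nat_lit 456) (nat_lit 1121364175) (nat_lit 532) (nat_lit 155242075) (nat_lit 79) (nat_lit 5) (nat_lit 85) (nat_lit 5) (nat_lit 86) (nat_lit 5) (nat_lit 430) (nat_lit 428) (nat_lit 342)) (XT.nd (nat_lit 78) (nat_lit 0) (nat_lit 0) (XT.lf (nat_lit 0) (nat_lit 209193656) (nat_lit 532) (nat_lit 20392359715) (nat_lit 608) (nat_lit 18835927827) (nat_lit 72) (nat_lit 5) (nat_lit 79) (nat_lit 5) (nat_lit 80) (nat_lit 5) (nat_lit 431) (nat_lit 428) (nat_lit 341)) (XT.lf (nat_lit 0) (nat_lit 1771841208) (nat_lit 532) (nat_lit 222846188) (nat_lit 608) (nat_lit 39077316480) (nat_lit 72) (nat_lit 5) (nat_lit 79) (nat_lit 5) (nat_lit 80) (nat_lit 5) (nat_lit 432) (nat_lit 428) (nat_lit 340))))))))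
noncomputable def xc162 : XT := (XT.nd (nat_lit 1794) (nat_lit 1672) (nat_lit 0) (XT.nd (nat_lit 858) (nat_lit 1064) (nat_lit 0) (XT.nd (nat_lit 390) (nat_lit 912) (nat_lit 0) (XT.nd (nat_lit 156) (nat_lit 380) (nat_lit 0) (XT.nd (nat_lit 78) (nat_lit 0) (nat_lit 0) (XT.lf (nat_lit 0) (nat_lit 4450610667) (nat_lit 532) (nat_lit 20551087909) (nat_lit 608) (nat_lit 17756302465) (nat_lit 73) (nat_lit 5) (nat_lit 80) (nat_lit 5) (nat_lit 81) (nat_lit 5) (nat_lit 433) (nat_lit 428) (nat_lit 339)) (XT.lf (nat_lit 76) (nat_lit 1905428217) (nat_lit 0) (nat_lit 5538234123) (nat_lit 608) (nat_lit 37127218560) (nat_lit 74) (nat_lit 5) (nat_lit 73) (nat_lit 5) (nat_lit 81) (nat_lit 5) (nat_lit 434) (nat_lit 428) (nat_lit 338))) (XT.nd (nat_lit 78) (nat_lit 456) (nat_lit 0) (XT.lf (nat_lit 0) (nat_lit 11621325286) (nat_lit 532) (nat_lit 19547043014) (nat_lit 76) (nat_lit 15284810748) (nat_lit 74) (nat_lit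 5) (nat_lit 81) (nat_lit 5) (nat_lit 75) (nat_lit 5) (nat_lit 435) (nat_lit 428) (nat_lit 337)) (XT.nd (nat_lit 78) (nat_lit 0) (nat_lit 0) (XT.lf (nat_lit 0) (nat_lit 5551470704) (nat_lit 456) (nat_lit 10855685673) (nat_lit 532) (nat_lit 32056989438) (nat_lit 68) (nat_lit 5) (nat_lit 74) (nat_lit 5) (nat_lit 75) (nat_lit 5) (nat_lit 436) (nat_lit 428) (nat_lit 336)) (XT.lf (nat_lit 0) (nat_lit 22387480055) (nat_lit 532) (nat_lit 17107520737) (nat_lit 76) (nat_lit 11076060135) (nat_lit 68) (nat_lit 5) (nat_lit 75) (nat_lit 5) (nat_lit 69) (nat_lit 5) (nat_lit 437) (nat_lit 428) (nat_lit 335))))) (XT.nd (nat_lit 234) (nat_lit 456) (nat_lit 0) (XT.nd (nat_lit 78) (nat_lit 228) (nat_lit 0) (XT.lf (nat_lit 0) (nat_lit 11028623220) (nat_lit 228) (nat_lit 18361820936) (nat_lit 304) (nat_lit 23412548938) (nat_lit 65) (nat_lit 5) (nat_lit 68) (nat_lit 5) (nat_lit 69) (nat_lit 5) (nat_lit 438) (nat_lit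 428) (nat_lit 334)) (XT.nd (nat_lit 78) (nat_lit 228) (nat_lit 0) (XT.lf (nat_lit 0) (nat_lit 37538008217) (nat_lit 304) (nat_lit 12910238405) (nat_lit 76) (nat_lit 4718485118) (nat_lit 65) (nat_lit 5) (nat_lit 69) (nat_lit 5) (nat_lit 66) (nat_lit 5) (nat_lit 439) (nat_lit 428) (nat_lit 333)) (XT.lf (nat_lit 0) (nat_lit 18719464516) (nat_lit 228) (nat_lit 28542409856) (nat_lit 304) (nat_lit 10383736215) (nat_lit 62) (nat_lit 5) (nat_lit 65) (nat_lit 5) (nat_lit 66) (nat_lit 5) (nat_lit 440) (nat_lit 428) (nat_lit 332)))) (XT.nd (nat_lit 78) (nat_lit 456) (nat_lit 0) (XT.lf (nat_lit 0) (nat_lit 53610785557) (nat_lit 228) (nat_lit 4503339832) (nat_lit 304) (nat_lit 2180637108) (nat_lit 62) (nat_lit 5) (nat_lit 65) (nat_lit 5) (nat_lit 66) (nat_lit 5) (nat_lit 441) (nat_lit 428) (nat_lit 331)) (XT.nd (nat_lit 78) (nat_lit 228) (nat_lit 0) (XT.lf (nat_lit 0) (nat_lit 7589070782) (nat_lit 228)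 (nat_lit 34178047017) (nat_lit 76) (nat_lit 21276323039) (nat_lit 59) (nat_lit 5) (nat_lit 62) (nat_lit 5) (nat_lit 60) (nat_lit 5) (nat_lit 442) (nat_lit 428) (nat_lit 330)) (XT.lf (nat_lit 0) (nat_lit 1536996654) (nat_lit 228) (nat_lit 16824689289) (nat_lit 304) (nat_lit 47618665611) (nat_lit 56) (nat_lit 5) (nat_lit 59) (nat_lit 5) (nat_lit 60) (nat_lit 5) (nat_lit 443) (nat_lit 428) (nat_lit 329)))))) (XT.nd (nat_lit 468) (nat_lit 532) (nat_lit 0) (XT.nd (nat_lit 234) (nat_lit 380) (nat_lit 0) (XT.nd (nat_lit 78) (nat_lit 152) (nat_lit 0) (XT.lf (nat_lit 0) (nat_lit 31195883489) (nat_lit 304) (nat_lit 27295031550) (nat_lit 76) (nat_lit 10565318822) (nat_lit 56) (nat_lit 5) (nat_lit 60) (nat_lit 5) (nat_lit 57) (nat_lit 5) (nat_lit 444) (nat_lit 428) (nat_lit 328)) (XT.nd (nat_lit 78) (nat_lit 0) (nat_lit 0) (XT.lf (nat_lit 0) (nat_lit 13037506826) (nat_lit 152) (nat_lit 32767822158)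 (nat_lit 228) (nat_lit 26512977342) (nat_lit 54) (nat_lit 5) (nat_lit 56) (nat_lit 5) (nat_lit 57) (nat_lit 5) (nat_lit 445) (nat_lit 428) (nat_lit 327)) (XT.lf (nat_lit 0) (nat_lit 58146177854) (nat_lit 152) (nat_lit 4181686717) (nat_lit 228) (nat_lit 13453933768) (nat_lit 54) (nat_lit 5) (nat_lit 56) (nat_lit 5) (nat_lit 57) (nat_lit 5) (nat_lit 446) (nat_lit 428) (nat_lit 326)))) (XT.nd (nat_lit 78) (nat_lit 152) (nat_lit 0) (XT.lf (nat_lit 0) (nat_lit 1967463098) (nat_lit 228) (nat_lit 51364549985) (nat_lit 76) (nat_lit 26081095812) (nat_lit 51) (nat_lit 5) (nat_lit 54) (nat_lit 5) (nat_lit 52) (nat_lit 5) (nat_lit 447) (nat_lit 428) (nat_lit 325)) (XT.nd (nat_lit 78) (nat_lit 152) (nat_lit 0) (XT.lf (nat_lit 0) (nat_lit 18497232484) (nat_lit 228) (nat_lit 5379229262) (nat_lit 76) (nat_lit 59382384914) (nat_lit 51) (nat_lit 5) (nat_lit 54) (nat_lit 5) (nat_lit 52) (nat_lit 5) (nat_lit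 448) (nat_lit 428) (nat_lit 324)) (XT.lf (nat_lit 0) (nat_lit 37688732993) (nat_lit 228) (nat_lit 40928402666) (nat_lit 76) (nat_lit 8687960193) (nat_lit 49) (nat_lit 5) (nat_lit 52) (nat_lit 5) (nat_lit 50) (nat_lit 5) (nat_lit 449) (nat_lit 428) (nat_lit 323))))) (XT.nd (nat_lit 234) (nat_lit 228) (nat_lit 0) (XT.nd (nat_lit 78) (nat_lit 152) (nat_lit 0) (XT.lf (nat_lit 0) (nat_lit 10830996761) (nat_lit 152) (nat_lit 48614480626) (nat_lit 228) (nat_lit 32147174026) (nat_lit 47) (nat_lit 5) (nat_lit 49) (nat_lit 5) (nat_lit 50) (nat_lit 5) (nat_lit 450) (nat_lit 428) (nat_lit 322)) (XT.nd (nat_lit 78) (nat_lit 152) (nat_lit 0) (XT.lf (nat_lit 0) (nat_lit 69056289696) (nat_lit 152) (nat_lit 15003959719) (nat_lit 228) (nat_lit 12073563277) (nat_lit 47) (nat_lit 5) (nat_lit 49) (nat_lit 5) (nat_lit 50) (nat_lit 5) (nat_lit 451) (nat_lit 428) (nat_lit 321)) (XT.lf (nat_lit 0) (nat_lit 10438623158)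 (nat_lit 152) (nat_lit 69213244408) (nat_lit 76) (nat_lit 21262860567) (nat_lit 45) (nat_lit 5) (nat_lit 47) (nat_lit 5) (nat_lit 46) (nat_lit 5) (nat_lit 452) (nat_lit 428) (nat_lit 320)))) (XT.nd (nat_lit 78) (nat_lit 228) (nat_lit 0) (XT.lf (nat_lit 0) (nat_lit 35247333008) (nat_lit 152) (nat_lit 10021117506) (nat_lit 76) (nat_lit 60692751861) (nat_lit 45) (nat_lit 5) (nat_lit 47) (nat_lit 5) (nat_lit 46) (nat_lit 5) (nat_lit 453) (nat_lit 428) (nat_lit 319)) (XT.nd (nat_lit 78) (nat_lit 76) (nat_lit 0) (XT.lf (nat_lit 0) (nat_lit 56742635118) (nat_lit 152) (nat_lit 6661418127) (nat_lit 228) (nat_lit 47898276459) (nat_lit 43) (nat_lit 5) (nat_lit 45) (nat_lit 5) (nat_lit 46) (nat_lit 5) (nat_lit 454) (nat_lit 428) (nat_lit 318)) (XT.lf (nat_lit 0) (nat_lit 12123057923) (nat_lit 76) (nat_lit 83104175626) (nat_lit 152) (nat_lit 21730400090) (nat_lit 42) (nat_lit 5) (nat_lit 43) (nat_lit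 5) (nat_lit 44) (nat_lit 4) (nat_lit 455) (nat_lit 428) (nat_lit 317))))))) (XT.nd (nat_lit 936) (nat_lit 760) (nat_lit 0) (XT.nd (nat_lit 468) (nat_lit 380) (nat_lit 0) (XT.nd (nat_lit 234) (nat_lit 304) (nat_lit 0) (XT.nd (nat_lit 78) (nat_lit 152) (nat_lit 0) (XT.lf (nat_lit 0) (nat_lit 7906422934) (nat_lit 152) (nat_lit 36073850623) (nat_lit 76) (nat_lit 78936345527) (nat_lit 41) (nat_lit 5) (nat_lit 43) (nat_lit 5) (nat_lit 42) (nat_lit 5) (nat_lit 456) (nat_lit 428) (nat_lit 316)) (XT.nd (nat_lit 78) (nat_lit 0) (nat_lit 0) (XT.lf (nat_lit 0) (nat_lit 39602261882) (nat_lit 152) (nat_lit 89145690) (nat_lit 228) (nat_lit 89539664141) (nat_lit 39) (nat_lit 5) (nat_lit 41) (nat_lit 5) (nat_lit 42) (nat_lit 5) (nat_lit 457) (nat_lit 428) (nat_lit 315)) (XT.lf (nat_lit 0) (nat_lit 76167823736) (nat_lit 228) (nat_lit 13753393077) (nat_lit 76) (nat_lit 45957573279) (nat_lit 39) (nat_lit 5)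 (nat_lit 42) (nat_lit 5) (nat_lit 40) (nat_lit 4) (nat_lit 458) (nat_lit 428) (nat_lit 314)))) (XT.nd (nat_lit 78) (nat_lit 228) (nat_lit 0) (XT.lf (nat_lit 0) (nat_lit 71778416918) (nat_lit 76) (nat_lit 45511418501) (nat_lit 152) (nat_lit 25630292092) (nat_lit 38) (nat_lit 5) (nat_lit 39) (nat_lit 5) (nat_lit 40) (nat_lit 4) (nat_lit 459) (nat_lit 428) (nat_lit 313)) (XT.nd (nat_lit 78) (nat_lit 0) (nat_lit 0) (XT.lf (nat_lit 0) (nat_lit 11446153543) (nat_lit 228) (nat_lit 135623731014) (nat_lit 76) (nat_lit 3367108995) (nat_lit 35) (nat_lit 5) (nat_lit 38) (nat_lit 5) (nat_lit 36) (nat_lit 4) (nat_lit 460) (nat_lit 428) (nat_lit 312)) (XT.lf (nat_lit 0) (nat_lit 53280707639) (nat_lit 228) (nat_lit 48609425760) (nat_lit 76) (nat_lit 56357682299) (nat_lit 35) (nat_lit 5) (nat_lit 38) (nat_lit 5) (nat_lit 36) (nat_lit 4) (nat_lit 461) (nat_lit 428) (nat_lit 311))))) (XT.nd (nat_lit 234)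 (nat_lit 152) (nat_lit 0) (XT.nd (nat_lit 78) (nat_lit 152) (nat_lit 0) (XT.lf (nat_lit 0) (nat_lit 47752974826) (nat_lit 76) (nat_lit 51856507698) (nat_lit 152) (nat_lit 66982224685) (nat_lit 34) (nat_lit 5) (nat_lit 35) (nat_lit 5) (nat_lit 36) (nat_lit 4) (nat_lit 462) (nat_lit 428) (nat_lit 310)) (XT.nd (nat_lit 78) (nat_lit 152) (nat_lit 0) (XT.lf (nat_lit 0) (nat_lit 151059580374) (nat_lit 152) (nat_lit 20996759290) (nat_lit 0) (nat_lit 3433568797) (nat_lit 34) (nat_lit 5) (nat_lit 36) (nat_lit 4) (nat_lit 34) (nat_lit 4) (nat_lit 463) (nat_lit 428) (nat_lit 309)) (XT.lf (nat_lit 0) (nat_lit 23994138724) (nat_lit 152) (nat_lit 97719355018) (nat_lit 76) (nat_lit 63061438857) (nat_lit 32) (nat_lit 5) (nat_lit 34) (nat_lit 5) (nat_lit 33) (nat_lit 4) (nat_lit 464) (nat_lit 428) (nat_lit 308)))) (XT.nd (nat_lit 78) (nat_lit 76) (nat_lit 0) (XT.lf (nat_lit 0) (nat_lit 10040447966) (nat_lit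 76) (nat_lit 65761801161) (nat_lit 152) (nat_lit 118883380619) (nat_lit 31) (nat_lit 5) (nat_lit 32) (nat_lit 5) (nat_lit 33) (nat_lit 4) (nat_lit 465) (nat_lit 428) (nat_lit 307)) (XT.nd (nat_lit 78) (nat_lit 76) (nat_lit 0) (XT.lf (nat_lit 0) (nat_lit 131976740491) (nat_lit 76) (nat_lit 2449201025) (nat_lit 152) (nat_lit 70749566571) (nat_lit 31) (nat_lit 5) (nat_lit 32) (nat_lit 5) (nat_lit 33) (nat_lit 4) (nat_lit 466) (nat_lit 428) (nat_lit 306)) (XT.lf (nat_lit 0) (nat_lit 47976135976) (nat_lit 76) (nat_lit 152501961176) (nat_lit 76) (nat_lit 15807394185) (nat_lit 30) (nat_lit 4) (nat_lit 31) (nat_lit 5) (nat_lit 31) (nat_lit 4) (nat_lit 467) (nat_lit 428) (nat_lit 305)))))) (XT.nd (nat_lit 468) (nat_lit 380) (nat_lit 0) (XT.nd (nat_lit 234) (nat_lit 228) (nat_lit 0) (XT.nd (nat_lit 78) (nat_lit 76) (nat_lit 0) (XT.lf (nat_lit 0) (nat_lit 43468745308) (nat_lit 152) (nat_lit 46280360772)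 (nat_lit 76) (nat_lit 138282123301) (nat_lit 29) (nat_lit 5) (nat_lit 31) (nat_lit 5) (nat_lit 30) (nat_lit 4) (nat_lit 468) (nat_lit 428) (nat_lit 304)) (XT.nd (nat_lit 78) (nat_lit 0) (nat_lit 0) (XT.lf (nat_lit 0) (nat_lit 89580039147) (nat_lit 76) (nat_lit 19206555136) (nat_lit 152) (nat_lit 131724895454) (nat_lit 28) (nat_lit 5) (nat_lit 29) (nat_lit 5) (nat_lit 30) (nat_lit 4) (nat_lit 469) (nat_lit 428) (nat_lit 303)) (XT.lf (nat_lit 0) (nat_lit 181997713078) (nat_lit 152) (nat_lit 16352381476) (nat_lit 0) (nat_lit 55426649063) (nat_lit 28) (nat_lit 5) (nat_lit 30) (nat_lit 4) (nat_lit 28) (nat_lit 4) (nat_lit 470) (nat_lit 428) (nat_lit 302)))) (XT.nd (nat_lit 78) (nat_lit 152) (nat_lit 0) (XT.lf (nat_lit 0) (nat_lit 135258958652) (nat_lit 76) (nat_lit 129557904094) (nat_lit 76) (nat_lit 2986263799) (nat_lit 27) (nat_lit 4) (nat_lit 28) (nat_lit 5) (nat_lit 28) (nat_lit 4) (nat_lit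 471) (nat_lit 428) (nat_lit 301)) (XT.nd (nat_lit 78) (nat_lit 0) (nat_lit 0) (XT.lf (nat_lit 0) (nat_lit 16090221949) (nat_lit 76) (nat_lit 52497468357) (nat_lit 152) (nat_lit 214159131230) (nat_lit 25) (nat_lit 5) (nat_lit 26) (nat_lit 5) (nat_lit 27) (nat_lit 4) (nat_lit 472) (nat_lit 428) (nat_lit 300)) (XT.lf (nat_lit 0) (nat_lit 150182646403) (nat_lit 152) (nat_lit 115354915192) (nat_lit 0) (nat_lit 32985731628) (nat_lit 25) (nat_lit 5) (nat_lit 27) (nat_lit 4) (nat_lit 25) (nat_lit 4) (nat_lit 473) (nat_lit 428) (nat_lit 299))))) (XT.nd (nat_lit 234) (nat_lit 152) (nat_lit 0) (XT.nd (nat_lit 78) (nat_lit 152) (nat_lit 0) (XT.lf (nat_lit 0) (nat_lit 49144450423) (nat_lit 76) (nat_lit 191705591586) (nat_lit 76) (nat_lit 74508253227) (nat_lit 24) (nat_lit 4) (nat_lit 25) (nat_lit 5) (nat_lit 25) (nat_lit 4) (nat_lit 474) (nat_lit 428) (nat_lit 298)) (XT.nd (nat_lit 78) (nat_lit 76)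 (nat_lit 0) (XT.lf (nat_lit 0) (nat_lit 8204348414) (nat_lit 152) (nat_lit 100132685862) (nat_lit 76) (nat_lit 224934176908) (nat_lit 23) (nat_lit 5) (nat_lit 25) (nat_lit 5) (nat_lit 24) (nat_lit 4) (nat_lit 475) (nat_lit 428) (nat_lit 297)) (XT.lf (nat_lit 0) (nat_lit 81368894542) (nat_lit 76) (nat_lit 14096003660) (nat_lit 152) (nat_lit 256840934213) (nat_lit 22) (nat_lit 5) (nat_lit 23) (nat_lit 5) (nat_lit 24) (nat_lit 4) (nat_lit 476) (nat_lit 428) (nat_lit 296)))) (XT.nd (nat_lit 78) (nat_lit 152) (nat_lit 0) (XT.lf (nat_lit 0) (nat_lit 194623418523) (nat_lit 152) (nat_lit 91740080990) (nat_lit 0) (nat_lit 86106353732) (nat_lit 22) (nat_lit 5) (nat_lit 24) (nat_lit 4) (nat_lit 22) (nat_lit 4) (nat_lit 477) (nat_lit 428) (nat_lit 295)) (XT.nd (nat_lit 78) (nat_lit 76) (nat_lit 0) (XT.lf (nat_lit 0) (nat_lit 106766162525) (nat_lit 76) (nat_lit 197881761034) (nat_lit 76) (nat_lit 89364407959)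 (nat_lit 21) (nat_lit 4) (nat_lit 22) (nat_lit 5) (nat_lit 22) (nat_lit 4) (nat_lit 478) (nat_lit 428) (nat_lit 294)) (XT.lf (nat_lit 0) (nat_lit 8459156347) (nat_lit 152) (nat_lit 90922574801) (nat_lit 76) (nat_lit 317678720782) (nat_lit 20) (nat_lit 5) (nat_lit 22) (nat_lit 5) (nat_lit 21) (nat_lit 4) (nat_lit 479) (nat_lit 428) (nat_lit 293))))))))
noncomputable def xc163 : XT := (XT.nd (nat_lit 1794) (nat_lit 304) (nat_lit 0) (XT.nd (nat_lit 858) (nat_lit 456) (nat_lit 0) (XT.nd (nat_lit 390) (nat_lit 228) (nat_lit 0) (XT.nd (nat_lit 156) (nat_lit 228) (nat_lit 0) (XT.nd (nat_lit 78) (nat_lit 0) (nat_lit 0) (XT.lf (nat_lit 0) (nat_lit 112593997410) (nat_lit 152) (nat_lit 316793170265) (nat_lit 0) (nat_lit 12114490779) (nat_lit 19) (nat_lit 5) (nat_lit 21) (nat_lit 4) (nat_lit 19) (nat_lit 4) (nat_lit 480) (nat_lit 428) (nat_lit 292)) (XT.lf (nat_lit 0) (nat_lit 230191013232) (nat_lit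 152) (nat_lit 107585342585) (nat_lit 0) (nat_lit 129711294703) (nat_lit 19) (nat_lit 5) (nat_lit 21) (nat_lit 4) (nat_lit 19) (nat_lit 4) (nat_lit 481) (nat_lit 428) (nat_lit 291))) (XT.nd (nat_lit 78) (nat_lit 152) (nat_lit 0) (XT.lf (nat_lit 0) (nat_lit 124590689647) (nat_lit 76) (nat_lit 235601036107) (nat_lit 76) (nat_lit 135121121377) (nat_lit 18) (nat_lit 4) (nat_lit 19) (nat_lit 5) (nat_lit 19) (nat_lit 4) (nat_lit 482) (nat_lit 428) (nat_lit 290)) (XT.nd (nat_lit 78) (nat_lit 152) (nat_lit 0) (XT.lf (nat_lit 0) (nat_lit 381458349783) (nat_lit 76) (nat_lit 122075258529) (nat_lit 76) (nat_lit 21595162132) (nat_lit 18) (nat_lit 4) (nat_lit 19) (nat_lit 5) (nat_lit 19) (nat_lit 4) (nat_lit 483) (nat_lit 428) (nat_lit 289)) (XT.lf (nat_lit 0) (nat_lit 98609682203) (nat_lit 152) (nat_lit 452741545796) (nat_lit 0) (nat_lit 5572400158) (nat_lit 16) (nat_lit 5) (nat_lit 18) (nat_lit 4) (nat_lit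 16) (nat_lit 4) (nat_lit 484) (nat_lit 428) (nat_lit 288))))) (XT.nd (nat_lit 234) (nat_lit 152) (nat_lit 0) (XT.nd (nat_lit 78) (nat_lit 76) (nat_lit 0) (XT.lf (nat_lit 0) (nat_lit 234464798978) (nat_lit 152) (nat_lit 214748982973) (nat_lit 0) (nat_lit 141427372720) (nat_lit 16) (nat_lit 5) (nat_lit 18) (nat_lit 4) (nat_lit 16) (nat_lit 4) (nat_lit 485) (nat_lit 428) (nat_lit 287)) (XT.nd (nat_lit 78) (nat_lit 0) (nat_lit 0) (XT.lf (nat_lit 0) (nat_lit 44508670266) (nat_lit 76) (nat_lit 337749685205) (nat_lit 76) (nat_lit 244712125415) (nat_lit 15) (nat_lit 4) (nat_lit 16) (nat_lit 5) (nat_lit 16) (nat_lit 4) (nat_lit 486) (nat_lit 428) (nat_lit 286)) (XT.lf (nat_lit 0) (nat_lit 336719102877) (nat_lit 76) (nat_lit 211027517908) (nat_lit 76) (nat_lit 117989834479) (nat_lit 15) (nat_lit 4) (nat_lit 16) (nat_lit 5) (nat_lit 16) (nat_lit 4) (nat_lit 487) (nat_lit 428) (nat_lit 285)))) (XT.nd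 (nat_lit 78) (nat_lit 76) (nat_lit 0) (XT.lf (nat_lit 0) (nat_lit 17925900129) (nat_lit 152) (nat_lit 55751925642) (nat_lit 76) (nat_lit 633889605356) (nat_lit 14) (nat_lit 5) (nat_lit 16) (nat_lit 5) (nat_lit 15) (nat_lit 4) (nat_lit 488) (nat_lit 428) (nat_lit 284)) (XT.nd (nat_lit 78) (nat_lit 0) (nat_lit 0) (XT.lf (nat_lit 0) (nat_lit 166353101448) (nat_lit 152) (nat_lit 505298697920) (nat_lit 0) (nat_lit 80206894122) (nat_lit 13) (nat_lit 5) (nat_lit 15) (nat_lit 4) (nat_lit 13) (nat_lit 4) (nat_lit 489) (nat_lit 428) (nat_lit 283)) (XT.lf (nat_lit 0) (nat_lit 330131793474) (nat_lit 152) (nat_lit 225297782939) (nat_lit 0) (nat_lit 243985495269) (nat_lit 13) (nat_lit 5) (nat_lit 15) (nat_lit 4) (nat_lit 13) (nat_lit 4) (nat_lit 490) (nat_lit 428) (nat_lit 282)))))) (XT.nd (nat_lit 468) (nat_lit 228) (nat_lit 0) (XT.nd (nat_lit 234) (nat_lit 152) (nat_lit 0) (XT.nd (nat_lit 78) (nat_lit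 0) (nat_lit 0) (XT.lf (nat_lit 0) (nat_lit 81162638117) (nat_lit 76) (nat_lit 427801786438) (nat_lit 76) (nat_lit 341655404085) (nat_lit 12) (nat_lit 4) (nat_lit 13) (nat_lit 5) (nat_lit 13) (nat_lit 4) (nat_lit 491) (nat_lit 428) (nat_lit 281)) (XT.nd (nat_lit 78) (nat_lit 0) (nat_lit 0) (XT.lf (nat_lit 0) (nat_lit 424952142894) (nat_lit 76) (nat_lit 283311252593) (nat_lit 76) (nat_lit 197164792326) (nat_lit 12) (nat_lit 4) (nat_lit 13) (nat_lit 5) (nat_lit 13) (nat_lit 4) (nat_lit 492) (nat_lit 428) (nat_lit 280)) (XT.lf (nat_lit 0) (nat_lit 796244220544) (nat_lit 76) (nat_lit 127261775324) (nat_lit 76) (nat_lit 41115242915) (nat_lit 12) (nat_lit 4) (nat_lit 13) (nat_lit 5) (nat_lit 13) (nat_lit 4) (nat_lit 493) (nat_lit 428) (nat_lit 279)))) (XT.nd (nat_lit 78) (nat_lit 0) (nat_lit 0) (XT.lf (nat_lit 0) (nat_lit 126418138409) (nat_lit 152) (nat_lit 854803765985) (nat_lit 0) (nat_lit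 46652768771) (nat_lit 10) (nat_lit 5) (nat_lit 12) (nat_lit 4) (nat_lit 10) (nat_lit 4) (nat_lit 494) (nat_lit 428) (nat_lit 278)) (XT.nd (nat_lit 78) (nat_lit 0) (nat_lit 0) (XT.lf (nat_lit 0) (nat_lit 313161429923) (nat_lit 152) (nat_lit 548903232636) (nat_lit 0) (nat_lit 233396003016) (nat_lit 10) (nat_lit 5) (nat_lit 12) (nat_lit 4) (nat_lit 10) (nat_lit 4) (nat_lit 495) (nat_lit 428) (nat_lit 277)) (XT.lf (nat_lit 0) (nat_lit 514843931705) (nat_lit 152) (nat_lit 218531174150) (nat_lit 0) (nat_lit 435078451771) (nat_lit 10) (nat_lit 5) (nat_lit 12) (nat_lit 4) (nat_lit 10) (nat_lit 4) (nat_lit 496) (nat_lit 428) (nat_lit 276))))) (XT.nd (nat_lit 234) (nat_lit 152) (nat_lit 0) (XT.nd (nat_lit 78) (nat_lit 0) (nat_lit 0) (XT.lf (nat_lit 0) (nat_lit 145551231925) (nat_lit 76) (nat_lit 590610078023) (nat_lit 76) (nat_lit 510844548990) (nat_lit 9) (nat_lit 4) (nat_lit 10) (nat_lit 5) (nat_lit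 10) (nat_lit 4) (nat_lit 497) (nat_lit 428) (nat_lit 275)) (XT.nd (nat_lit 78) (nat_lit 0) (nat_lit 0) (XT.lf (nat_lit 0) (nat_lit 551187824933) (nat_lit 76) (nat_lit 429971054906) (nat_lit 76) (nat_lit 350205480411) (nat_lit 9) (nat_lit 4) (nat_lit 10) (nat_lit 5) (nat_lit 10) (nat_lit 4) (nat_lit 498) (nat_lit 428) (nat_lit 274)) (XT.lf (nat_lit 0) (nat_lit 989274912914) (nat_lit 76) (nat_lit 256481131123) (nat_lit 76) (nat_lit 176715514533) (nat_lit 9) (nat_lit 4) (nat_lit 10) (nat_lit 5) (nat_lit 10) (nat_lit 4) (nat_lit 499) (nat_lit 428) (nat_lit 273)))) (XT.nd (nat_lit 78) (nat_lit 76) (nat_lit 0) (XT.lf (nat_lit 0) (nat_lit 10120509245) (nat_lit 152) (nat_lit 58714996335) (nat_lit 76) (nat_lit 1452011345598) (nat_lit 8) (nat_lit 5) (nat_lit 10) (nat_lit 5) (nat_lit 9) (nat_lit 4) (nat_lit 500) (nat_lit 428) (nat_lit 272)) (XT.nd (nat_lit 78) (nat_lit 0) (nat_lit 0) (XT.lf (nat_lit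 0) (nat_lit 214554278434) (nat_lit 152) (nat_lit 1270497683859) (nat_lit 0) (nat_lit 140697156530) (nat_lit 7) (nat_lit 5) (nat_lit 9) (nat_lit 4) (nat_lit 7) (nat_lit 4) (nat_lit 501) (nat_lit 428) (nat_lit 271)) (XT.lf (nat_lit 0) (nat_lit 438777568824) (nat_lit 152) (nat_lit 935070797506) (nat_lit 0) (nat_lit 364920415979) (nat_lit 7) (nat_lit 5) (nat_lit 9) (nat_lit 4) (nat_lit 7) (nat_lit 4) (nat_lit 502) (nat_lit 428) (nat_lit 270))))))) (XT.nd (nat_lit 936) (nat_lit 76) (nat_lit 0) (XT.nd (nat_lit 468) (nat_lit 152) (nat_lit 0) (XT.nd (nat_lit 234) (nat_lit 0) (nat_lit 0) (XT.nd (nat_lit 78) (nat_lit 76) (nat_lit 0) (XT.lf (nat_lit 0) (nat_lit 680938550620) (nat_lit 152) (nat_lit 572810112874) (nat_lit 0) (nat_lit 607081369127) (nat_lit 7) (nat_lit 5) (nat_lit 9) (nat_lit 4) (nat_lit 7) (nat_lit 4) (nat_lit 503) (nat_lit 428) (nat_lit 269)) (XT.nd (nat_lit 78) (nat_lit 76) (nat_lit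 0) (XT.lf (nat_lit 0) (nat_lit 942472251864) (nat_lit 152) (nat_lit 181568899981) (nat_lit 0) (nat_lit 868615043844) (nat_lit 7) (nat_lit 5) (nat_lit 9) (nat_lit 4) (nat_lit 7) (nat_lit 4) (nat_lit 504) (nat_lit 428) (nat_lit 268)) (XT.lf (nat_lit 0) (nat_lit 253660429641) (nat_lit 76) (nat_lit 977368611687) (nat_lit 76) (nat_lit 903511379106) (nat_lit 6) (nat_lit 4) (nat_lit 7) (nat_lit 5) (nat_lit 7) (nat_lit 4) (nat_lit 505) (nat_lit 428) (nat_lit 267)))) (XT.nd (nat_lit 78) (nat_lit 0) (nat_lit 0) (XT.lf (nat_lit 0) (nat_lit 734033795190) (nat_lit 76) (nat_lit 813600850767) (nat_lit 76) (nat_lit 739743595443) (nat_lit 6) (nat_lit 4) (nat_lit 7) (nat_lit 5) (nat_lit 7) (nat_lit 4) (nat_lit 506) (nat_lit 428) (nat_lit 266)) (XT.nd (nat_lit 78) (nat_lit 0) (nat_lit 0) (XT.lf (nat_lit 0) (nat_lit 1252836757141) (nat_lit 76) (nat_lit 636731808958) (nat_lit 76) (nat_lit 562874532576) (nat_lit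 6) (nat_lit 4) (nat_lit 7) (nat_lit 5) (nat_lit 7) (nat_lit 4) (nat_lit 507) (nat_lit 428) (nat_lit 265)) (XT.lf (nat_lit 0) (nat_lit 1813143703415) (nat_lit 76) (nat_lit 445713373419) (nat_lit 76) (nat_lit 371856077539) (nat_lit 6) (nat_lit 4) (nat_lit 7) (nat_lit 5) (nat_lit 7) (nat_lit 4) (nat_lit 508) (nat_lit 428) (nat_lit 264))))) (XT.nd (nat_lit 234) (nat_lit 0) (nat_lit 0) (XT.nd (nat_lit 78) (nat_lit 152) (nat_lit 0) (XT.lf (nat_lit 0) (nat_lit 2418274971474) (nat_lit 76) (nat_lit 239413583050) (nat_lit 76) (nat_lit 165556269117) (nat_lit 6) (nat_lit 4) (nat_lit 7) (nat_lit 5) (nat_lit 7) (nat_lit 4) (nat_lit 509) (nat_lit 428) (nat_lit 263)) (XT.nd (nat_lit 78) (nat_lit 0) (nat_lit 0) (XT.lf (nat_lit 0) (nat_lit 41328086156) (nat_lit 76) (nat_lit 14049518077) (nat_lit 152) (nat_lit 2975611771213) (nat_lit 4) (nat_lit 5) (nat_lit 5) (nat_lit 5) (nat_lit 6) (nat_lit 4) (nat_lit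 510) (nat_lit 428) (nat_lit 262)) (XT.lf (nat_lit 0) (nat_lit 301917654763) (nat_lit 152) (nat_lit 2718210535961) (nat_lit 0) (nat_lit 233531223163) (nat_lit 4) (nat_lit 5) (nat_lit 6) (nat_lit 4) (nat_lit 4) (nat_lit 4) (nat_lit 511) (nat_lit 428) (nat_lit 261)))) (XT.nd (nat_lit 78) (nat_lit 0) (nat_lit 0) (XT.lf (nat_lit 0) (nat_lit 568545731810) (nat_lit 152) (nat_lit 2425408850857) (nat_lit 0) (nat_lit 500159286941) (nat_lit 4) (nat_lit 5) (nat_lit 6) (nat_lit 4) (nat_lit 4) (nat_lit 4) (nat_lit 512) (nat_lit 428) (nat_lit 260)) (XT.nd (nat_lit 78) (nat_lit 0) (nat_lit 0) (XT.lf (nat_lit 0) (nat_lit 856503962361) (nat_lit 152) (nat_lit 2109183221635) (nat_lit 0) (nat_lit 788117505204) (nat_lit 4) (nat_lit 5) (nat_lit 6) (nat_lit 4) (nat_lit 4) (nat_lit 4) (nat_lit 513) (nat_lit 428) (nat_lit 259)) (XT.lf (nat_lit 0) (nat_lit 1167498765560) (nat_lit 152) (nat_lit 1767659718639) (nat_lit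 0) (nat_lit 1099112297026) (nat_lit 4) (nat_lit 5) (nat_lit 6) (nat_lit 4) (nat_lit 4) (nat_lit 4) (nat_lit 514) (nat_lit 428) (nat_lit 258)))))) (XT.nd (nat_lit 468) (nat_lit 0) (nat_lit 0) (XT.nd (nat_lit 234) (nat_lit 76) (nat_lit 0) (XT.nd (nat_lit 78) (nat_lit 0) (nat_lit 0) (XT.lf (nat_lit 0) (nat_lit 1503373073573) (nat_lit 152) (nat_lit 1398814498889) (nat_lit 0) (nat_lit 1434986594505) (nat_lit 4) (nat_lit 5) (nat_lit 6) (nat_lit 4) (nat_lit 4) (nat_lit 4) (nat_lit 515) (nat_lit 428) (nat_lit 257)) (XT.nd (nat_lit 78) (nat_lit 0) (nat_lit 0) (XT.lf (nat_lit 0) (nat_lit 1866117252671) (nat_lit 152) (nat_lit 1000461812934) (nat_lit 0) (nat_lit 1797730763849) (nat_lit 4) (nat_lit 5) (nat_lit 6) (nat_lit 4) (nat_lit 4) (nat_lit 4) (nat_lit 516) (nat_lit 428) (nat_lit 256)) (XT.lf (nat_lit 0) (nat_lit 2257880897989) (nat_lit 152) (nat_lit 570241052266) (nat_lit 0) (nat_lit 2189494400135)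 (nat_lit 4) (nat_lit 5) (nat_lit 6) (nat_lit 4) (nat_lit 4) (nat_lit 4) (nat_lit 517) (nat_lit 428) (nat_lit 255)))) (XT.nd (nat_lit 78) (nat_lit 76) (nat_lit 0) (XT.lf (nat_lit 0) (nat_lit 2680985571869) (nat_lit 152) (nat_lit 105602760524) (nat_lit 0) (nat_lit 2612599065653) (nat_lit 4) (nat_lit 5) (nat_lit 6) (nat_lit 4) (nat_lit 4) (nat_lit 4) (nat_lit 518) (nat_lit 428) (nat_lit 254)) (XT.nd (nat_lit 78) (nat_lit 0) (nat_lit 0) (XT.lf (nat_lit 0) (nat_lit 417070005193) (nat_lit 76) (nat_lit 2730899099729) (nat_lit 76) (nat_lit 2662512585771) (nat_lit 3) (nat_lit 4) (nat_lit 4) (nat_lit 5) (nat_lit 4) (nat_lit 4) (nat_lit 519) (nat_lit 428) (nat_lit 253)) (XT.lf (nat_lit 0) (nat_lit 987562197607) (nat_lit 76) (nat_lit 2667636432748) (nat_lit 76) (nat_lit 2599249911620) (nat_lit 3) (nat_lit 4) (nat_lit 4) (nat_lit 5) (nat_lit 4) (nat_lit 4) (nat_lit 520) (nat_lit 428) (nat_lit 252)))))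 (XT.nd (nat_lit 234) (nat_lit 0) (nat_lit 0) (XT.nd (nat_lit 78) (nat_lit 0) (nat_lit 0) (XT.lf (nat_lit 0) (nat_lit 1603693656966) (nat_lit 76) (nat_lit 2599312808187) (nat_lit 76) (nat_lit 2530926280421) (nat_lit 3) (nat_lit 4) (nat_lit 4) (nat_lit 5) (nat_lit 4) (nat_lit 4) (nat_lit 521) (nat_lit 428) (nat_lit 251)) (XT.nd (nat_lit 78) (nat_lit 0) (nat_lit 0) (XT.lf (nat_lit 0) (nat_lit 2269115532657) (nat_lit 76) (nat_lit 2525523345308) (nat_lit 76) (nat_lit 2457136811396) (nat_lit 3) (nat_lit 4) (nat_lit 4) (nat_lit 5) (nat_lit 4) (nat_lit 4) (nat_lit 522) (nat_lit 428) (nat_lit 250)) (XT.lf (nat_lit 0) (nat_lit 2987771065427) (nat_lit 76) (nat_lit 2445830773221) (nat_lit 76) (nat_lit 2377444233617) (nat_lit 3) (nat_lit 4) (nat_lit 4) (nat_lit 5) (nat_lit 4) (nat_lit 4) (nat_lit 523) (nat_lit 428) (nat_lit 249)))) (XT.nd (nat_lit 78) (nat_lit 0) (nat_lit 0) (XT.lf (nat_lit 0) (nat_lit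 3763918954729) (nat_lit 76) (nat_lit 2359762839646) (nat_lit 76) (nat_lit 2291376294772) (nat_lit 3) (nat_lit 4) (nat_lit 4) (nat_lit 5) (nat_lit 4) (nat_lit 4) (nat_lit 524) (nat_lit 428) (nat_lit 248)) (XT.nd (nat_lit 78) (nat_lit 0) (nat_lit 0) (XT.lf (nat_lit 0) (nat_lit 4602158595461) (nat_lit 76) (nat_lit 2266809512384) (nat_lit 76) (nat_lit 2198422962631) (nat_lit 3) (nat_lit 4) (nat_lit 4) (nat_lit 5) (nat_lit 4) (nat_lit 4) (nat_lit 525) (nat_lit 428) (nat_lit 247)) (XT.lf (nat_lit 0) (nat_lit 5507457333644) (nat_lit 76) (nat_lit 2166419956904) (nat_lit 76) (nat_lit 2098033402633) (nat_lit 3) (nat_lit 4) (nat_lit 4) (nat_lit 5) (nat_lit 4) (nat_lit 4) (nat_lit 526) (nat_lit 428) (nat_lit 246))))))))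
noncomputable def xc164 : XT := (XT.nd (nat_lit 56550) (nat_lit 0) (nat_lit 1672) (XT.nd (nat_lit 55614) (nat_lit 0) (nat_lit 3496) (XT.nd (nat_lit 55146) (nat_lit 0) (nat_lit 4940) (XT.nd (nat_lit 54912) (nat_lit 0) (nat_lit 5244) (XT.nd (nat_lit 54834) (nat_lit 0) (nat_lit 5700) (XT.lf (nat_lit 0) (nat_lit 6485179902540) (nat_lit 76) (nat_lit 2057999272135) (nat_lit 76) (nat_lit 1989612713681) (nat_lit 3) (nat_lit 4) (nat_lit 4) (nat_lit 5) (nat_lit 4) (nat_lit 4) (nat_lit 527) (nat_lit 428) (nat_lit 245)) (XT.lf (nat_lit 0) (nat_lit 17823604043) (nat_lit 532) (nat_lit 557838594) (nat_lit 532) (nat_lit 557838594) (nat_lit 78) (nat_lit 3) (nat_lit 85) (nat_lit 3) (nat_lit 85) (nat_lit 5) (nat_lit 429) (nat_lit 429) (nat_lit 342))) (XT.nd (nat_lit 78) (nat_lit 456) (nat_lit 0) (XT.lf (nat_lit 76) (nat_lit 18523297511) (nat_lit 0) (nat_lit 19038289253) (nat_lit 532) (nat_lit 1793021683)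 (nat_lit 79) (nat_lit 5) (nat_lit 78) (nat_lit 3) (nat_lit 85) (nat_lit 5) (nat_lit 430) (nat_lit 429) (nat_lit 341)) (XT.nd (nat_lit 78) (nat_lit 532) (nat_lit 0) (XT.lf (nat_lit 0) (nat_lit 39658605139) (nat_lit 456) (nat_lit 1155601447) (nat_lit 532) (nat_lit 132174104) (nat_lit 79) (nat_lit 5) (nat_lit 85) (nat_lit 5) (nat_lit 86) (nat_lit 5) (nat_lit 431) (nat_lit 429) (nat_lit 340)) (XT.lf (nat_lit 0) (nat_lit 307271629) (nat_lit 532) (nat_lit 21965368706) (nat_lit 608) (nat_lit 20313303036) (nat_lit 72) (nat_lit 5) (nat_lit 79) (nat_lit 5) (nat_lit 80) (nat_lit 5) (nat_lit 432) (nat_lit 429) (nat_lit 339))))) (XT.nd (nat_lit 234) (nat_lit 304) (nat_lit 0) (XT.nd (nat_lit 78) (nat_lit 0) (nat_lit 76) (XT.lf (nat_lit 0) (nat_lit 1988905616) (nat_lit 532) (nat_lit 186618525) (nat_lit 608) (nat_lit 42176187893) (nat_lit 72) (nat_lit 5) (nat_lit 79) (nat_lit 5) (nat_lit 80) (nat_lit 5)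 (nat_lit 433) (nat_lit 429) (nat_lit 338)) (XT.nd (nat_lit 78) (nat_lit 0) (nat_lit 0) (XT.lf (nat_lit 0) (nat_lit 4877224151) (nat_lit 532) (nat_lit 22136342304) (nat_lit 608) (nat_lit 19159404700) (nat_lit 73) (nat_lit 5) (nat_lit 80) (nat_lit 5) (nat_lit 81) (nat_lit 5) (nat_lit 434) (nat_lit 429) (nat_lit 337)) (XT.lf (nat_lit 76) (nat_lit 2115205678) (nat_lit 0) (nat_lit 5990666376) (nat_lit 608) (nat_lit 40025319019) (nat_lit 74) (nat_lit 5) (nat_lit 73) (nat_lit 5) (nat_lit 81) (nat_lit 5) (nat_lit 435) (nat_lit 429) (nat_lit 336)))) (XT.nd (nat_lit 78) (nat_lit 456) (nat_lit 0) (XT.lf (nat_lit 0) (nat_lit 12612597321) (nat_lit 532) (nat_lit 21052538922) (nat_lit 76) (nat_lit 16499350588) (nat_lit 74) (nat_lit 5) (nat_lit 81) (nat_lit 5) (nat_lit 75) (nat_lit 5) (nat_lit 436) (nat_lit 429) (nat_lit 335)) (XT.nd (nat_lit 78) (nat_lit 0) (nat_lit 0) (XT.lf (nat_lit 0) (nat_lit 6052380767)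 (nat_lit 456) (nat_lit 11725719546) (nat_lit 532) (nat_lit 34558487767) (nat_lit 68) (nat_lit 5) (nat_lit 74) (nat_lit 5) (nat_lit 75) (nat_lit 5) (nat_lit 437) (nat_lit 429) (nat_lit 334)) (XT.lf (nat_lit 0) (nat_lit 24232490913) (nat_lit 532) (nat_lit 18419159635) (nat_lit 76) (nat_lit 11960756029) (nat_lit 68) (nat_lit 5) (nat_lit 75) (nat_lit 5) (nat_lit 69) (nat_lit 5) (nat_lit 438) (nat_lit 429) (nat_lit 333)))))) (XT.nd (nat_lit 468) (nat_lit 532) (nat_lit 0) (XT.nd (nat_lit 234) (nat_lit 456) (nat_lit 0) (XT.nd (nat_lit 78) (nat_lit 228) (nat_lit 0) (XT.lf (nat_lit 0) (nat_lit 11966433743) (nat_lit 228) (nat_lit 19826592750) (nat_lit 304) (nat_lit 25230081426) (nat_lit 65) (nat_lit 5) (nat_lit 68) (nat_lit 5) (nat_lit 69) (nat_lit 5) (nat_lit 439) (nat_lit 429) (nat_lit 332)) (XT.nd (nat_lit 78) (nat_lit 228) (nat_lit 0) (XT.lf (nat_lit 0) (nat_lit 40588685158) (nat_lit 304) (nat_lit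 13887923305) (nat_lit 76) (nat_lit 5099635287) (nat_lit 65) (nat_lit 5) (nat_lit 69) (nat_lit 5) (nat_lit 66) (nat_lit 5) (nat_lit 440) (nat_lit 429) (nat_lit 331)) (XT.lf (nat_lit 0) (nat_lit 20270760048) (nat_lit 228) (nat_lit 30817464353) (nat_lit 304) (nat_lit 11165388558) (nat_lit 62) (nat_lit 5) (nat_lit 65) (nat_lit 5) (nat_lit 66) (nat_lit 5) (nat_lit 441) (nat_lit 429) (nat_lit 330)))) (XT.nd (nat_lit 78) (nat_lit 456) (nat_lit 0) (XT.lf (nat_lit 0) (nat_lit 57949406152) (nat_lit 228) (nat_lit 4855886379) (nat_lit 304) (nat_lit 2309674599) (nat_lit 62) (nat_lit 5) (nat_lit 65) (nat_lit 5) (nat_lit 66) (nat_lit 5) (nat_lit 442) (nat_lit 429) (nat_lit 329)) (XT.nd (nat_lit 78) (nat_lit 228) (nat_lit 0) (XT.lf (nat_lit 0) (nat_lit 8237592277) (nat_lit 228) (nat_lit 36858491492) (nat_lit 76) (nat_lit 22987509183) (nat_lit 59) (nat_lit 5) (nat_lit 62) (nat_lit 5) (nat_lit 60) (nat_lit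 5) (nat_lit 443) (nat_lit 429) (nat_lit 328)) (XT.lf (nat_lit 0) (nat_lit 1712393666) (nat_lit 228) (nat_lit 18157817745) (nat_lit 304) (nat_lit 51385390384) (nat_lit 56) (nat_lit 5) (nat_lit 59) (nat_lit 5) (nat_lit 60) (nat_lit 5) (nat_lit 444) (nat_lit 429) (nat_lit 327))))) (XT.nd (nat_lit 234) (nat_lit 380) (nat_lit 0) (XT.nd (nat_lit 78) (nat_lit 152) (nat_lit 0) (XT.lf (nat_lit 0) (nat_lit 33728498201) (nat_lit 304) (nat_lit 29427424630) (nat_lit 76) (nat_lit 11421844368) (nat_lit 56) (nat_lit 5) (nat_lit 60) (nat_lit 5) (nat_lit 57) (nat_lit 5) (nat_lit 445) (nat_lit 429) (nat_lit 326)) (XT.nd (nat_lit 78) (nat_lit 0) (nat_lit 0) (XT.lf (nat_lit 0) (nat_lit 14130420375) (nat_lit 152) (nat_lit 35374742776) (nat_lit 228) (nat_lit 28595765937) (nat_lit 54) (nat_lit 5) (nat_lit 56) (nat_lit 5) (nat_lit 57) (nat_lit 5) (nat_lit 446) (nat_lit 429) (nat_lit 325)) (XT.lf (nat_lit 0) (nat_lit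 62844087825) (nat_lit 152) (nat_lit 4502790955) (nat_lit 228) (nat_lit 14494832180) (nat_lit 54) (nat_lit 5) (nat_lit 56) (nat_lit 5) (nat_lit 57) (nat_lit 5) (nat_lit 447) (nat_lit 429) (nat_lit 324)))) (XT.nd (nat_lit 78) (nat_lit 152) (nat_lit 0) (XT.lf (nat_lit 0) (nat_lit 2157486428) (nat_lit 228) (nat_lit 55424693178) (nat_lit 76) (nat_lit 28181360660) (nat_lit 51) (nat_lit 5) (nat_lit 54) (nat_lit 5) (nat_lit 52) (nat_lit 5) (nat_lit 448) (nat_lit 429) (nat_lit 323)) (XT.nd (nat_lit 78) (nat_lit 152) (nat_lit 0) (XT.lf (nat_lit 0) (nat_lit 20007220604) (nat_lit 228) (nat_lit 5764177968) (nat_lit 76) (nat_lit 64145732358) (nat_lit 51) (nat_lit 5) (nat_lit 54) (nat_lit 5) (nat_lit 52) (nat_lit 5) (nat_lit 449) (nat_lit 429) (nat_lit 322)) (XT.lf (nat_lit 0) (nat_lit 40733233072) (nat_lit 228) (nat_lit 44156470957) (nat_lit 76) (nat_lit 9397441170) (nat_lit 49) (nat_lit 5) (nat_lit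 52) (nat_lit 5) (nat_lit 50) (nat_lit 5) (nat_lit 450) (nat_lit 429) (nat_lit 321))))))) (XT.nd (nat_lit 858) (nat_lit 760) (nat_lit 0) (XT.nd (nat_lit 390) (nat_lit 608) (nat_lit 0) (XT.nd (nat_lit 156) (nat_lit 304) (nat_lit 0) (XT.nd (nat_lit 78) (nat_lit 0) (nat_lit 0) (XT.lf (nat_lit 0) (nat_lit 11742510705) (nat_lit 152) (nat_lit 52486911502) (nat_lit 228) (nat_lit 34688371043) (nat_lit 47) (nat_lit 5) (nat_lit 49) (nat_lit 5) (nat_lit 50) (nat_lit 5) (nat_lit 451) (nat_lit 429) (nat_lit 320)) (XT.lf (nat_lit 0) (nat_lit 74622491208) (nat_lit 152) (nat_lit 16188788001) (nat_lit 228) (nat_lit 13011136390) (nat_lit 47) (nat_lit 5) (nat_lit 49) (nat_lit 5) (nat_lit 50) (nat_lit 5) (nat_lit 452) (nat_lit 429) (nat_lit 319))) (XT.nd (nat_lit 78) (nat_lit 152) (nat_lit 0) (XT.lf (nat_lit 0) (nat_lit 11300014717) (nat_lit 152) (nat_lit 74706585894) (nat_lit 76) (nat_lit 22979197073) (nat_lit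 45) (nat_lit 5) (nat_lit 47) (nat_lit 5) (nat_lit 46) (nat_lit 5) (nat_lit 453) (nat_lit 429) (nat_lit 318)) (XT.nd (nat_lit 78) (nat_lit 152) (nat_lit 0) (XT.lf (nat_lit 0) (nat_lit 38091473081) (nat_lit 152) (nat_lit 10782327215) (nat_lit 76) (nat_lit 65562345770) (nat_lit 45) (nat_lit 5) (nat_lit 47) (nat_lit 5) (nat_lit 46) (nat_lit 5) (nat_lit 454) (nat_lit 429) (nat_lit 317)) (XT.lf (nat_lit 0) (nat_lit 61321500816) (nat_lit 152) (nat_lit 7178375054) (nat_lit 228) (nat_lit 51704756430) (nat_lit 43) (nat_lit 5) (nat_lit 45) (nat_lit 5) (nat_lit 46) (nat_lit 5) (nat_lit 455) (nat_lit 429) (nat_lit 316))))) (XT.nd (nat_lit 234) (nat_lit 304) (nat_lit 0) (XT.nd (nat_lit 78) (nat_lit 228) (nat_lit 0) (XT.lf (nat_lit 0) (nat_lit 13132820638) (nat_lit 76) (nat_lit 89735664700) (nat_lit 152) (nat_lit 23443909523) (nat_lit 42) (nat_lit 5) (nat_lit 43) (nat_lit 5) (nat_lit 44) (nat_lit 4) (nat_lit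 456) (nat_lit 429) (nat_lit 315)) (XT.nd (nat_lit 78) (nat_lit 152) (nat_lit 0) (XT.lf (nat_lit 0) (nat_lit 8560858849) (nat_lit 152) (nat_lit 38921640005) (nat_lit 76) (nat_lit 85265692886) (nat_lit 41) (nat_lit 5) (nat_lit 43) (nat_lit 5) (nat_lit 42) (nat_lit 5) (nat_lit 457) (nat_lit 429) (nat_lit 314)) (XT.lf (nat_lit 0) (nat_lit 42807596471) (nat_lit 152) (nat_lit 80315475) (nat_lit 228) (nat_lit 96679947288) (nat_lit 39) (nat_lit 5) (nat_lit 41) (nat_lit 5) (nat_lit 42) (nat_lit 5) (nat_lit 458) (nat_lit 429) (nat_lit 313)))) (XT.nd (nat_lit 78) (nat_lit 304) (nat_lit 0) (XT.lf (nat_lit 0) (nat_lit 82281227090) (nat_lit 228) (nat_lit 14818046032) (nat_lit 76) (nat_lit 49648219320) (nat_lit 39) (nat_lit 5) (nat_lit 42) (nat_lit 5) (nat_lit 40) (nat_lit 4) (nat_lit 459) (nat_lit 429) (nat_lit 312)) (XT.nd (nat_lit 78) (nat_lit 228) (nat_lit 0) (XT.lf (nat_lit 0) (nat_lit 77555407029)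 (nat_lit 76) (nat_lit 49136947806) (nat_lit 152) (nat_lit 27659833806) (nat_lit 38) (nat_lit 5) (nat_lit 39) (nat_lit 5) (nat_lit 40) (nat_lit 4) (nat_lit 460) (nat_lit 429) (nat_lit 311)) (XT.lf (nat_lit 0) (nat_lit 12381428259) (nat_lit 228) (nat_lit 146437609123) (nat_lit 76) (nat_lit 3651346946) (nat_lit 35) (nat_lit 5) (nat_lit 38) (nat_lit 5) (nat_lit 36) (nat_lit 4) (nat_lit 461) (nat_lit 429) (nat_lit 310)))))) (XT.nd (nat_lit 468) (nat_lit 456) (nat_lit 0) (XT.nd (nat_lit 234) (nat_lit 228) (nat_lit 0) (XT.nd (nat_lit 78) (nat_lit 76) (nat_lit 0) (XT.lf (nat_lit 0) (nat_lit 57561296133) (nat_lit 228) (nat_lit 52464827624) (nat_lit 76) (nat_lit 60880064690) (nat_lit 35) (nat_lit 5) (nat_lit 38) (nat_lit 5) (nat_lit 36) (nat_lit 4) (nat_lit 462) (nat_lit 429) (nat_lit 309)) (XT.nd (nat_lit 78) (nat_lit 0) (nat_lit 0) (XT.lf (nat_lit 0) (nat_lit 51605720649) (nat_lit 76) (nat_lit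 55990091070) (nat_lit 152) (nat_lit 72321824607) (nat_lit 34) (nat_lit 5) (nat_lit 35) (nat_lit 5) (nat_lit 36) (nat_lit 4) (nat_lit 463) (nat_lit 429) (nat_lit 308)) (XT.lf (nat_lit 0) (nat_lit 163160948504) (nat_lit 152) (nat_lit 22645429612) (nat_lit 0) (nat_lit 3721393210) (nat_lit 34) (nat_lit 5) (nat_lit 36) (nat_lit 4) (nat_lit 34) (nat_lit 4) (nat_lit 464) (nat_lit 429) (nat_lit 307)))) (XT.nd (nat_lit 78) (nat_lit 76) (nat_lit 0) (XT.lf (nat_lit 0) (nat_lit 25930189757) (nat_lit 152) (nat_lit 105505748242) (nat_lit 76) (nat_lit 68119666175) (nat_lit 32) (nat_lit 5) (nat_lit 34) (nat_lit 5) (nat_lit 33) (nat_lit 4) (nat_lit 465) (nat_lit 429) (nat_lit 306)) (XT.nd (nat_lit 78) (nat_lit 0) (nat_lit 0) (XT.lf (nat_lit 0) (nat_lit 10874050242) (nat_lit 76) (nat_lit 71008405366) (nat_lit 152) (nat_lit 128376741064) (nat_lit 31) (nat_lit 5) (nat_lit 32) (nat_lit 5) (nat_lit 33) (nat_lit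 4) (nat_lit 466) (nat_lit 429) (nat_lit 305)) (XT.lf (nat_lit 0) (nat_lit 142562996803) (nat_lit 76) (nat_lit 2631859432) (nat_lit 152) (nat_lit 76393504115) (nat_lit 31) (nat_lit 5) (nat_lit 32) (nat_lit 5) (nat_lit 33) (nat_lit 4) (nat_lit 467) (nat_lit 429) (nat_lit 304))))) (XT.nd (nat_lit 234) (nat_lit 228) (nat_lit 0) (XT.nd (nat_lit 78) (nat_lit 152) (nat_lit 0) (XT.lf (nat_lit 0) (nat_lit 51842479156) (nat_lit 76) (nat_lit 164688581093) (nat_lit 76) (nat_lit 17056092026) (nat_lit 30) (nat_lit 4) (nat_lit 31) (nat_lit 5) (nat_lit 31) (nat_lit 4) (nat_lit 468) (nat_lit 429) (nat_lit 303)) (XT.nd (nat_lit 78) (nat_lit 76) (nat_lit 0) (XT.lf (nat_lit 0) (nat_lit 46960225143) (nat_lit 152) (nat_lit 49955892943) (nat_lit 76) (nat_lit 149356490252) (nat_lit 29) (nat_lit 5) (nat_lit 31) (nat_lit 5) (nat_lit 30) (nat_lit 4) (nat_lit 469) (nat_lit 429) (nat_lit 302)) (XT.lf (nat_lit 0) (nat_lit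 96772658041) (nat_lit 76) (nat_lit 20730438913) (nat_lit 152) (nat_lit 142248225045) (nat_lit 28) (nat_lit 5) (nat_lit 29) (nat_lit 5) (nat_lit 30) (nat_lit 4) (nat_lit 470) (nat_lit 429) (nat_lit 301)))) (XT.nd (nat_lit 78) (nat_lit 228) (nat_lit 0) (XT.lf (nat_lit 0) (nat_lit 196570381176) (nat_lit 152) (nat_lit 17635573225) (nat_lit 0) (nat_lit 59871899783) (nat_lit 28) (nat_lit 5) (nat_lit 30) (nat_lit 4) (nat_lit 28) (nat_lit 4) (nat_lit 471) (nat_lit 429) (nat_lit 300)) (XT.nd (nat_lit 78) (nat_lit 152) (nat_lit 0) (XT.lf (nat_lit 0) (nat_lit 146104041234) (nat_lit 76) (nat_lit 139910655655) (nat_lit 76) (nat_lit 3211680193) (nat_lit 27) (nat_lit 4) (nat_lit 28) (nat_lit 5) (nat_lit 28) (nat_lit 4) (nat_lit 472) (nat_lit 429) (nat_lit 299)) (XT.lf (nat_lit 0) (nat_lit 17401846920) (nat_lit 76) (nat_lit 56685306854) (nat_lit 152) (nat_lit 231278416960) (nat_lit 25) (nat_lit 5) (nat_lit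 26) (nat_lit 5) (nat_lit 27) (nat_lit 4) (nat_lit 473) (nat_lit 429) (nat_lit 298))))))))
noncomputable def xc165 : XT := (XT.nd (nat_lit 1794) (nat_lit 532) (nat_lit 0) (XT.nd (nat_lit 858) (nat_lit 608) (nat_lit 0) (XT.nd (nat_lit 390) (nat_lit 304) (nat_lit 0) (XT.nd (nat_lit 156) (nat_lit 152) (nat_lit 0) (XT.nd (nat_lit 78) (nat_lit 76) (nat_lit 0) (XT.lf (nat_lit 0) (nat_lit 162209050575) (nat_lit 152) (nat_lit 124560052734) (nat_lit 0) (nat_lit 35635109357) (nat_lit 25) (nat_lit 5) (nat_lit 27) (nat_lit 4) (nat_lit 25) (nat_lit 4) (nat_lit 474) (nat_lit 429) (nat_lit 297)) (XT.lf (nat_lit 0) (nat_lit 53098673379) (nat_lit 76) (nat_lit 207030836075) (nat_lit 76) (nat_lit 80456531703) (nat_lit 24) (nat_lit 4) (nat_lit 25) (nat_lit 5) (nat_lit 25) (nat_lit 4) (nat_lit 475) (nat_lit 429) (nat_lit 296))) (XT.nd (nat_lit 78) (nat_lit 76) (nat_lit 0) (XT.lf (nat_lit 0) (nat_lit 8871587395)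 (nat_lit 152) (nat_lit 108121738844) (nat_lit 76) (nat_lit 242938710062) (nat_lit 23) (nat_lit 5) (nat_lit 25) (nat_lit 5) (nat_lit 24) (nat_lit 4) (nat_lit 476) (nat_lit 429) (nat_lit 295)) (XT.nd (nat_lit 78) (nat_lit 0) (nat_lit 0) (XT.lf (nat_lit 0) (nat_lit 87899422122) (nat_lit 76) (nat_lit 15213257731) (nat_lit 152) (nat_lit 277376771519) (nat_lit 22) (nat_lit 5) (nat_lit 23) (nat_lit 5) (nat_lit 24) (nat_lit 4) (nat_lit 477) (nat_lit 429) (nat_lit 294)) (XT.lf (nat_lit 0) (nat_lit 210203329547) (nat_lit 152) (nat_lit 99059275523) (nat_lit 0) (nat_lit 93004033012) (nat_lit 22) (nat_lit 5) (nat_lit 24) (nat_lit 4) (nat_lit 22) (nat_lit 4) (nat_lit 478) (nat_lit 429) (nat_lit 293))))) (XT.nd (nat_lit 234) (nat_lit 76) (nat_lit 0) (XT.nd (nat_lit 78) (nat_lit 152) (nat_lit 0) (XT.lf (nat_lit 0) (nat_lit 115326960842) (nat_lit 76) (nat_lit 213702559725) (nat_lit 76) (nat_lit 96503016034)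 (nat_lit 21) (nat_lit 4) (nat_lit 22) (nat_lit 5) (nat_lit 22) (nat_lit 4) (nat_lit 479) (nat_lit 429) (nat_lit 292)) (XT.nd (nat_lit 78) (nat_lit 76) (nat_lit 0) (XT.lf (nat_lit 0) (nat_lit 9145163929) (nat_lit 152) (nat_lit 98177831567) (nat_lit 76) (nat_lit 343101550250) (nat_lit 20) (nat_lit 5) (nat_lit 22) (nat_lit 5) (nat_lit 21) (nat_lit 4) (nat_lit 480) (nat_lit 429) (nat_lit 291)) (XT.lf (nat_lit 0) (nat_lit 121610757866) (nat_lit 152) (nat_lit 342118039947) (nat_lit 0) (nat_lit 13092253756) (nat_lit 19) (nat_lit 5) (nat_lit 21) (nat_lit 4) (nat_lit 19) (nat_lit 4) (nat_lit 481) (nat_lit 429) (nat_lit 290)))) (XT.nd (nat_lit 78) (nat_lit 76) (nat_lit 0) (XT.lf (nat_lit 0) (nat_lit 248614850459) (nat_lit 152) (nat_lit 116174962641) (nat_lit 0) (nat_lit 140096164682) (nat_lit 19) (nat_lit 5) (nat_lit 21) (nat_lit 4) (nat_lit 19) (nat_lit 4) (nat_lit 482) (nat_lit 429) (nat_lit 289))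 (XT.nd (nat_lit 78) (nat_lit 0) (nat_lit 0) (XT.lf (nat_lit 0) (nat_lit 134574716541) (nat_lit 76) (nat_lit 254440673012) (nat_lit 76) (nat_lit 145921819025) (nat_lit 18) (nat_lit 4) (nat_lit 19) (nat_lit 5) (nat_lit 19) (nat_lit 4) (nat_lit 483) (nat_lit 429) (nat_lit 288)) (XT.lf (nat_lit 0) (nat_lit 411990547137) (nat_lit 76) (nat_lit 131833458857) (nat_lit 76) (nat_lit 23314449118) (nat_lit 18) (nat_lit 4) (nat_lit 19) (nat_lit 5) (nat_lit 19) (nat_lit 4) (nat_lit 484) (nat_lit 429) (nat_lit 287)))))) (XT.nd (nat_lit 468) (nat_lit 228) (nat_lit 0) (XT.nd (nat_lit 234) (nat_lit 152) (nat_lit 0) (XT.nd (nat_lit 78) (nat_lit 76) (nat_lit 0) (XT.lf (nat_lit 0) (nat_lit 106506342844) (nat_lit 152) (nat_lit 488944899732) (nat_lit 0) (nat_lit 6025644740) (nat_lit 16) (nat_lit 5) (nat_lit 18) (nat_lit 4) (nat_lit 16) (nat_lit 4) (nat_lit 485) (nat_lit 429) (nat_lit 286)) (XT.nd (nat_lit 78)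 (nat_lit 76) (nat_lit 0) (XT.lf (nat_lit 0) (nat_lit 253229284808) (nat_lit 152) (nat_lit 231914114826) (nat_lit 0) (nat_lit 152748463064) (nat_lit 16) (nat_lit 5) (nat_lit 18) (nat_lit 4) (nat_lit 16) (nat_lit 4) (nat_lit 486) (nat_lit 429) (nat_lit 285)) (XT.lf (nat_lit 0) (nat_lit 48083776324) (nat_lit 76) (nat_lit 364762355233) (nat_lit 76) (nat_lit 264281419008) (nat_lit 15) (nat_lit 4) (nat_lit 16) (nat_lit 5) (nat_lit 16) (nat_lit 4) (nat_lit 487) (nat_lit 429) (nat_lit 284)))) (XT.nd (nat_lit 78) (nat_lit 152) (nat_lit 0) (XT.lf (nat_lit 0) (nat_lit 363669975956) (nat_lit 76) (nat_lit 227902955649) (nat_lit 76) (nat_lit 127421913422) (nat_lit 15) (nat_lit 4) (nat_lit 16) (nat_lit 5) (nat_lit 16) (nat_lit 4) (nat_lit 488) (nat_lit 429) (nat_lit 283)) (XT.nd (nat_lit 78) (nat_lit 76) (nat_lit 0) (XT.lf (nat_lit 0) (nat_lit 19366224226) (nat_lit 152) (nat_lit 60199393986) (nat_lit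 76) (nat_lit 684606707096) (nat_lit 14) (nat_lit 5) (nat_lit 16) (nat_lit 5) (nat_lit 15) (nat_lit 4) (nat_lit 489) (nat_lit 429) (nat_lit 282)) (XT.lf (nat_lit 0) (nat_lit 179667586892) (nat_lit 152) (nat_lit 545709893155) (nat_lit 0) (nat_lit 86629409804) (nat_lit 13) (nat_lit 5) (nat_lit 15) (nat_lit 4) (nat_lit 13) (nat_lit 4) (nat_lit 490) (nat_lit 429) (nat_lit 281))))) (XT.nd (nat_lit 234) (nat_lit 152) (nat_lit 0) (XT.nd (nat_lit 78) (nat_lit 76) (nat_lit 0) (XT.lf (nat_lit 0) (nat_lit 356548112256) (nat_lit 152) (nat_lit 243309845760) (nat_lit 0) (nat_lit 263509857254) (nat_lit 13) (nat_lit 5) (nat_lit 15) (nat_lit 4) (nat_lit 13) (nat_lit 4) (nat_lit 491) (nat_lit 429) (nat_lit 280)) (XT.nd (nat_lit 78) (nat_lit 0) (nat_lit 0) (XT.lf (nat_lit 0) (nat_lit 87667111263) (nat_lit 76) (nat_lit 462020090424) (nat_lit 76) (nat_lit 368981763278) (nat_lit 12) (nat_lit 4) (nat_lit 13) (nat_lit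 5) (nat_lit 13) (nat_lit 4) (nat_lit 492) (nat_lit 429) (nat_lit 279)) (XT.lf (nat_lit 0) (nat_lit 458958927379) (nat_lit 76) (nat_lit 305970746384) (nat_lit 76) (nat_lit 212932352440) (nat_lit 12) (nat_lit 4) (nat_lit 13) (nat_lit 5) (nat_lit 13) (nat_lit 4) (nat_lit 493) (nat_lit 429) (nat_lit 278)))) (XT.nd (nat_lit 78) (nat_lit 152) (nat_lit 0) (XT.lf (nat_lit 0) (nat_lit 859953585088) (nat_lit 76) (nat_lit 137437711409) (nat_lit 76) (nat_lit 44399255614) (nat_lit 12) (nat_lit 4) (nat_lit 13) (nat_lit 5) (nat_lit 13) (nat_lit 4) (nat_lit 494) (nat_lit 429) (nat_lit 277)) (XT.nd (nat_lit 78) (nat_lit 0) (nat_lit 0) (XT.lf (nat_lit 0) (nat_lit 136536526453) (nat_lit 152) (nat_lit 923177970428) (nat_lit 0) (nat_lit 50389755097) (nat_lit 10) (nat_lit 5) (nat_lit 12) (nat_lit 4) (nat_lit 10) (nat_lit 4) (nat_lit 495) (nat_lit 429) (nat_lit 276)) (XT.lf (nat_lit 0) (nat_lit 338218915587)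 (nat_lit 152) (nat_lit 592806142324) (nat_lit 0) (nat_lit 252072095132) (nat_lit 10) (nat_lit 5) (nat_lit 12) (nat_lit 4) (nat_lit 10) (nat_lit 4) (nat_lit 496) (nat_lit 429) (nat_lit 275))))))) (XT.nd (nat_lit 936) (nat_lit 228) (nat_lit 0) (XT.nd (nat_lit 468) (nat_lit 76) (nat_lit 0) (XT.nd (nat_lit 234) (nat_lit 152) (nat_lit 0) (XT.nd (nat_lit 78) (nat_lit 76) (nat_lit 0) (XT.lf (nat_lit 0) (nat_lit 556035678898) (nat_lit 152) (nat_lit 236005011672) (nat_lit 0) (nat_lit 469888812981) (nat_lit 10) (nat_lit 5) (nat_lit 12) (nat_lit 4) (nat_lit 10) (nat_lit 4) (nat_lit 497) (nat_lit 429) (nat_lit 274)) (XT.nd (nat_lit 78) (nat_lit 0) (nat_lit 0) (XT.lf (nat_lit 0) (nat_lit 157203767740) (nat_lit 76) (nat_lit 637854569048) (nat_lit 76) (nat_lit 551707661036) (nat_lit 9) (nat_lit 4) (nat_lit 10) (nat_lit 5) (nat_lit 10) (nat_lit 4) (nat_lit 498) (nat_lit 429) (nat_lit 273)) (XT.lf (nat_lit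 0) (nat_lit 595290663206) (nat_lit 76) (nat_lit 464364743727) (nat_lit 76) (nat_lit 378217796739) (nat_lit 9) (nat_lit 4) (nat_lit 10) (nat_lit 5) (nat_lit 10) (nat_lit 4) (nat_lit 499) (nat_lit 429) (nat_lit 272)))) (XT.nd (nat_lit 78) (nat_lit 152) (nat_lit 0) (XT.lf (nat_lit 0) (nat_lit 1068424139538) (nat_lit 76) (nat_lit 276995922010) (nat_lit 76) (nat_lit 190848938933) (nat_lit 9) (nat_lit 4) (nat_lit 10) (nat_lit 5) (nat_lit 10) (nat_lit 4) (nat_lit 500) (nat_lit 429) (nat_lit 271)) (XT.nd (nat_lit 78) (nat_lit 76) (nat_lit 0) (XT.lf (nat_lit 0) (nat_lit 10933507238) (nat_lit 152) (nat_lit 63405321437) (nat_lit 76) (nat_lit 1568175501969) (nat_lit 8) (nat_lit 5) (nat_lit 10) (nat_lit 5) (nat_lit 9) (nat_lit 4) (nat_lit 501) (nat_lit 429) (nat_lit 270)) (XT.lf (nat_lit 0) (nat_lit 231721972937) (nat_lit 152) (nat_lit 1372130618893) (nat_lit 0) (nat_lit 151956188275) (nat_lit 7) (nat_lit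 5) (nat_lit 9) (nat_lit 4) (nat_lit 7) (nat_lit 4) (nat_lit 502) (nat_lit 429) (nat_lit 269))))) (XT.nd (nat_lit 234) (nat_lit 76) (nat_lit 0) (XT.nd (nat_lit 78) (nat_lit 0) (nat_lit 0) (XT.lf (nat_lit 0) (nat_lit 473882878245) (nat_lit 152) (nat_lit 1009870091237) (nat_lit 0) (nat_lit 394117067057) (nat_lit 7) (nat_lit 5) (nat_lit 9) (nat_lit 4) (nat_lit 7) (nat_lit 4) (nat_lit 503) (nat_lit 429) (nat_lit 268)) (XT.nd (nat_lit 78) (nat_lit 0) (nat_lit 0) (XT.lf (nat_lit 0) (nat_lit 735416508666) (nat_lit 152) (nat_lit 618629023692) (nat_lit 0) (nat_lit 655650672916) (nat_lit 7) (nat_lit 5) (nat_lit 9) (nat_lit 4) (nat_lit 7) (nat_lit 4) (nat_lit 504) (nat_lit 429) (nat_lit 267)) (XT.lf (nat_lit 0) (nat_lit 1017872693120) (nat_lit 152) (nat_lit 196088950672) (nat_lit 0) (nat_lit 938106834628) (nat_lit 7) (nat_lit 5) (nat_lit 9) (nat_lit 4) (nat_lit 7) (nat_lit 4) (nat_lit 505) (nat_lit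 429) (nat_lit 266)))) (XT.nd (nat_lit 78) (nat_lit 0) (nat_lit 0) (XT.lf (nat_lit 0) (nat_lit 273958587059) (nat_lit 76) (nat_lit 1055555369583) (nat_lit 76) (nat_lit 975789490033) (nat_lit 6) (nat_lit 4) (nat_lit 7) (nat_lit 5) (nat_lit 7) (nat_lit 4) (nat_lit 506) (nat_lit 429) (nat_lit 265)) (XT.nd (nat_lit 78) (nat_lit 0) (nat_lit 0) (XT.lf (nat_lit 0) (nat_lit 792761427552) (nat_lit 76) (nat_lit 878686390089) (nat_lit 76) (nat_lit 798920491041) (nat_lit 6) (nat_lit 4) (nat_lit 7) (nat_lit 5) (nat_lit 7) (nat_lit 4) (nat_lit 507) (nat_lit 429) (nat_lit 264)) (XT.lf (nat_lit 0) (nat_lit 1353068261366) (nat_lit 76) (nat_lit 687668012249) (nat_lit 76) (nat_lit 607902095147) (nat_lit 6) (nat_lit 4) (nat_lit 7) (nat_lit 5) (nat_lit 7) (nat_lit 4) (nat_lit 508) (nat_lit 429) (nat_lit 263)))))) (XT.nd (nat_lit 468) (nat_lit 76) (nat_lit 0) (XT.nd (nat_lit 234) (nat_lit 0) (nat_lit 0) (XT.nd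 (nat_lit 78) (nat_lit 152) (nat_lit 0) (XT.lf (nat_lit 0) (nat_lit 1958199425295) (nat_lit 76) (nat_lit 481368275305) (nat_lit 76) (nat_lit 401602341487) (nat_lit 6) (nat_lit 4) (nat_lit 7) (nat_lit 5) (nat_lit 7) (nat_lit 4) (nat_lit 509) (nat_lit 429) (nat_lit 262)) (XT.nd (nat_lit 78) (nat_lit 152) (nat_lit 0) (XT.lf (nat_lit 0) (nat_lit 2611740881790) (nat_lit 76) (nat_lit 258564662299) (nat_lit 76) (nat_lit 178798713003) (nat_lit 6) (nat_lit 4) (nat_lit 7) (nat_lit 5) (nat_lit 7) (nat_lit 4) (nat_lit 510) (nat_lit 429) (nat_lit 261)) (XT.lf (nat_lit 0) (nat_lit 44638246941) (nat_lit 76) (nat_lit 15171469678) (nat_lit 152) (nat_lit 3213658656518) (nat_lit 4) (nat_lit 5) (nat_lit 5) (nat_lit 5) (nat_lit 6) (nat_lit 4) (nat_lit 511) (nat_lit 429) (nat_lit 260)))) (XT.nd (nat_lit 78) (nat_lit 0) (nat_lit 0) (XT.lf (nat_lit 0) (nat_lit 326072874908) (nat_lit 152) (nat_lit 2935663658559)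 (nat_lit 0) (nat_lit 252215488891) (nat_lit 4) (nat_lit 5) (nat_lit 6) (nat_lit 4) (nat_lit 4) (nat_lit 4) (nat_lit 512) (nat_lit 429) (nat_lit 259)) (XT.nd (nat_lit 78) (nat_lit 0) (nat_lit 0) (XT.lf (nat_lit 0) (nat_lit 614031064210) (nat_lit 152) (nat_lit 2619438114224) (nat_lit 0) (nat_lit 540173666817) (nat_lit 4) (nat_lit 5) (nat_lit 6) (nat_lit 4) (nat_lit 4) (nat_lit 4) (nat_lit 513) (nat_lit 429) (nat_lit 258)) (XT.lf (nat_lit 0) (nat_lit 925025829216) (nat_lit 152) (nat_lit 2277914689827) (nat_lit 0) (nat_lit 851168421288) (nat_lit 4) (nat_lit 5) (nat_lit 6) (nat_lit 4) (nat_lit 4) (nat_lit 4) (nat_lit 514) (nat_lit 429) (nat_lit 257))))) (XT.nd (nat_lit 234) (nat_lit 76) (nat_lit 0) (XT.nd (nat_lit 78) (nat_lit 0) (nat_lit 0) (XT.lf (nat_lit 0) (nat_lit 1260900101865) (nat_lit 152) (nat_lit 1909069542853) (nat_lit 0) (nat_lit 1187042684184) (nat_lit 4) (nat_lit 5) (nat_lit 6)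 (nat_lit 4) (nat_lit 4) (nat_lit 4) (nat_lit 515) (nat_lit 429) (nat_lit 256)) (XT.nd (nat_lit 78) (nat_lit 0) (nat_lit 0) (XT.lf (nat_lit 0) (nat_lit 1623644248219) (nat_lit 152) (nat_lit 1510716924284) (nat_lit 0) (nat_lit 1549786821506) (nat_lit 4) (nat_lit 5) (nat_lit 6) (nat_lit 4) (nat_lit 4) (nat_lit 4) (nat_lit 516) (nat_lit 429) (nat_lit 255)) (XT.lf (nat_lit 0) (nat_lit 2015407863218) (nat_lit 152) (nat_lit 1080496226010) (nat_lit 0) (nat_lit 1941550428143) (nat_lit 4) (nat_lit 5) (nat_lit 6) (nat_lit 4) (nat_lit 4) (nat_lit 4) (nat_lit 517) (nat_lit 429) (nat_lit 254)))) (XT.nd (nat_lit 78) (nat_lit 76) (nat_lit 0) (XT.lf (nat_lit 0) (nat_lit 2438512509025) (nat_lit 152) (nat_lit 615857992041) (nat_lit 0) (nat_lit 2364655066207) (nat_lit 4) (nat_lit 5) (nat_lit 6) (nat_lit 4) (nat_lit 4) (nat_lit 4) (nat_lit 518) (nat_lit 429) (nat_lit 253)) (XT.nd (nat_lit 78) (nat_lit 76) (nat_lit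 0) (XT.lf (nat_lit 0) (nat_lit 2895465472431) (nat_lit 152) (nat_lit 114048810619) (nat_lit 0) (nat_lit 2821608022443) (nat_lit 4) (nat_lit 5) (nat_lit 6) (nat_lit 4) (nat_lit 4) (nat_lit 4) (nat_lit 519) (nat_lit 429) (nat_lit 252)) (XT.lf (nat_lit 0) (nat_lit 450437721400) (nat_lit 76) (nat_lit 2949369939480) (nat_lit 76) (nat_lit 2875512482854) (nat_lit 3) (nat_lit 4) (nat_lit 4) (nat_lit 5) (nat_lit 4) (nat_lit 4) (nat_lit 520) (nat_lit 429) (nat_lit 251))))))))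
noncomputable def xc166 : XT := (XT.nd (nat_lit 56628) (nat_lit 0) (nat_lit 2052) (XT.nd (nat_lit 55692) (nat_lit 0) (nat_lit 4028) (XT.nd (nat_lit 390) (nat_lit 0) (nat_lit 0) (XT.nd (nat_lit 156) (nat_lit 0) (nat_lit 0) (XT.nd (nat_lit 78) (nat_lit 0) (nat_lit 0) (XT.lf (nat_lit 0) (nat_lit 1066569132482) (nat_lit 76) (nat_lit 2881046339749) (nat_lit 76) (nat_lit 2807188876977) (nat_lit 3) (nat_lit 4) (nat_lit 4) (nat_lit 5) (nat_lit 4) (nat_lit 4) (nat_lit 521) (nat_lit 429) (nat_lit 250)) (XT.lf (nat_lit 0) (nat_lit 1731990963473) (nat_lit 76) (nat_lit 2807256899862) (nat_lit 76) (nat_lit 2733399431398) (nat_lit 3) (nat_lit 4) (nat_lit 4) (nat_lit 5) (nat_lit 4) (nat_lit 4) (nat_lit 522) (nat_lit 429) (nat_lit 249))) (XT.nd (nat_lit 78) (nat_lit 0) (nat_lit 0) (XT.lf (nat_lit 0) (nat_lit 2450646454853) (nat_lit 76) (nat_lit 2727564349062) (nat_lit 76) (nat_lit 2653706875329) (nat_lit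 3) (nat_lit 4) (nat_lit 4) (nat_lit 5) (nat_lit 4) (nat_lit 4) (nat_lit 523) (nat_lit 429) (nat_lit 248)) (XT.nd (nat_lit 78) (nat_lit 0) (nat_lit 0) (XT.lf (nat_lit 0) (nat_lit 3226794305831) (nat_lit 76) (nat_lit 2641496435199) (nat_lit 76) (nat_lit 2567638956586) (nat_lit 3) (nat_lit 4) (nat_lit 4) (nat_lit 5) (nat_lit 4) (nat_lit 4) (nat_lit 524) (nat_lit 429) (nat_lit 247)) (XT.lf (nat_lit 0) (nat_lit 4065033911079) (nat_lit 76) (nat_lit 2548543126188) (nat_lit 76) (nat_lit 2474685643058) (nat_lit 3) (nat_lit 4) (nat_lit 4) (nat_lit 5) (nat_lit 4) (nat_lit 4) (nat_lit 525) (nat_lit 429) (nat_lit 246))))) (XT.nd (nat_lit 55068) (nat_lit 0) (nat_lit 5244) (XT.nd (nat_lit 78) (nat_lit 0) (nat_lit 0) (XT.lf (nat_lit 0) (nat_lit 4970332616405) (nat_lit 76) (nat_lit 2448153587607) (nat_lit 76) (nat_lit 2374296100293) (nat_lit 3) (nat_lit 4) (nat_lit 4) (nat_lit 5) (nat_lit 4) (nat_lit 4)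 (nat_lit 526) (nat_lit 429) (nat_lit 245)) (XT.nd (nat_lit 54912) (nat_lit 0) (nat_lit 5700) (XT.lf (nat_lit 0) (nat_lit 5948055154879) (nat_lit 76) (nat_lit 2339732918485) (nat_lit 76) (nat_lit 2265875427298) (nat_lit 3) (nat_lit 4) (nat_lit 4) (nat_lit 5) (nat_lit 4) (nat_lit 4) (nat_lit 527) (nat_lit 429) (nat_lit 244)) (XT.lf (nat_lit 0) (nat_lit 19291462709) (nat_lit 532) (nat_lit 579793262) (nat_lit 532) (nat_lit 579793262) (nat_lit 78) (nat_lit 3) (nat_lit 85) (nat_lit 3) (nat_lit 85) (nat_lit 5) (nat_lit 430) (nat_lit 430) (nat_lit 340)))) (XT.nd (nat_lit 78) (nat_lit 456) (nat_lit 0) (XT.lf (nat_lit 76) (nat_lit 20049358180) (nat_lit 0) (nat_lit 20595941317) (nat_lit 532) (nat_lit 1851343524) (nat_lit 79) (nat_lit 5) (nat_lit 78) (nat_lit 3) (nat_lit 85) (nat_lit 5) (nat_lit 431) (nat_lit 430) (nat_lit 339)) (XT.nd (nat_lit 78) (nat_lit 532) (nat_lit 0) (XT.lf (nat_lit 0) (nat_lit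 42903473112) (nat_lit 456) (nat_lit 1200491382) (nat_lit 532) (nat_lit 112323360) (nat_lit 79) (nat_lit 5) (nat_lit 85) (nat_lit 5) (nat_lit 86) (nat_lit 5) (nat_lit 432) (nat_lit 430) (nat_lit 338)) (XT.lf (nat_lit 0) (nat_lit 401591426) (nat_lit 532) (nat_lit 23672546945) (nat_lit 608) (nat_lit 21913076626) (nat_lit 72) (nat_lit 5) (nat_lit 79) (nat_lit 5) (nat_lit 80) (nat_lit 5) (nat_lit 433) (nat_lit 430) (nat_lit 337)))))) (XT.nd (nat_lit 468) (nat_lit 912) (nat_lit 0) (XT.nd (nat_lit 234) (nat_lit 304) (nat_lit 0) (XT.nd (nat_lit 78) (nat_lit 0) (nat_lit 76) (XT.lf (nat_lit 0) (nat_lit 2212590350) (nat_lit 532) (nat_lit 155204250) (nat_lit 608) (nat_lit 45526865653) (nat_lit 72) (nat_lit 5) (nat_lit 79) (nat_lit 5) (nat_lit 80) (nat_lit 5) (nat_lit 434) (nat_lit 430) (nat_lit 336)) (XT.nd (nat_lit 78) (nat_lit 0) (nat_lit 0) (XT.lf (nat_lit 0) (nat_lit 5327899881) (nat_lit 532) (nat_lit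 23856810185) (nat_lit 608) (nat_lit 20677237698) (nat_lit 73) (nat_lit 5) (nat_lit 80) (nat_lit 5) (nat_lit 81) (nat_lit 5) (nat_lit 435) (nat_lit 430) (nat_lit 335)) (XT.lf (nat_lit 76) (nat_lit 2333584686) (nat_lit 0) (nat_lit 6477955971) (nat_lit 608) (nat_lit 43165550108) (nat_lit 74) (nat_lit 5) (nat_lit 73) (nat_lit 5) (nat_lit 81) (nat_lit 5) (nat_lit 436) (nat_lit 430) (nat_lit 334)))) (XT.nd (nat_lit 78) (nat_lit 456) (nat_lit 0) (XT.lf (nat_lit 0) (nat_lit 13674388039) (nat_lit 532) (nat_lit 22686787017) (nat_lit 76) (nat_lit 17812229859) (nat_lit 74) (nat_lit 5) (nat_lit 81) (nat_lit 5) (nat_lit 75) (nat_lit 5) (nat_lit 437) (nat_lit 430) (nat_lit 333)) (XT.nd (nat_lit 78) (nat_lit 0) (nat_lit 0) (XT.lf (nat_lit 0) (nat_lit 6585261564) (nat_lit 456) (nat_lit 12665130864) (nat_lit 532) (nat_lit 37269102295) (nat_lit 68) (nat_lit 5) (nat_lit 74) (nat_lit 5) (nat_lit 75) (nat_lit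 5) (nat_lit 438) (nat_lit 430) (nat_lit 332)) (XT.lf (nat_lit 0) (nat_lit 26217397159) (nat_lit 532) (nat_lit 19843856019) (nat_lit 76) (nat_lit 12916425739) (nat_lit 68) (nat_lit 5) (nat_lit 75) (nat_lit 5) (nat_lit 69) (nat_lit 5) (nat_lit 439) (nat_lit 430) (nat_lit 331))))) (XT.nd (nat_lit 234) (nat_lit 456) (nat_lit 0) (XT.nd (nat_lit 78) (nat_lit 228) (nat_lit 0) (XT.lf (nat_lit 0) (nat_lit 12971348465) (nat_lit 228) (nat_lit 21409141756) (nat_lit 304) (nat_lit 27200930133) (nat_lit 65) (nat_lit 5) (nat_lit 68) (nat_lit 5) (nat_lit 69) (nat_lit 5) (nat_lit 440) (nat_lit 430) (nat_lit 330)) (XT.nd (nat_lit 78) (nat_lit 228) (nat_lit 0) (XT.lf (nat_lit 0) (nat_lit 43876620406) (nat_lit 304) (nat_lit 14951688503) (nat_lit 76) (nat_lit 5510753708) (nat_lit 65) (nat_lit 5) (nat_lit 69) (nat_lit 5) (nat_lit 66) (nat_lit 5) (nat_lit 441) (nat_lit 430) (nat_lit 329)) (XT.lf (nat_lit 0) (nat_lit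 21938492843) (nat_lit 228) (nat_lit 33275712760) (nat_lit 304) (nat_lit 12016570127) (nat_lit 62) (nat_lit 5) (nat_lit 65) (nat_lit 5) (nat_lit 66) (nat_lit 5) (nat_lit 442) (nat_lit 430) (nat_lit 328)))) (XT.nd (nat_lit 78) (nat_lit 456) (nat_lit 0) (XT.lf (nat_lit 0) (nat_lit 62628017896) (nat_lit 228) (nat_lit 5237738085) (nat_lit 304) (nat_lit 2455513831) (nat_lit 62) (nat_lit 5) (nat_lit 65) (nat_lit 5) (nat_lit 66) (nat_lit 5) (nat_lit 443) (nat_lit 430) (nat_lit 327)) (XT.nd (nat_lit 78) (nat_lit 228) (nat_lit 0) (XT.lf (nat_lit 0) (nat_lit 8932089914) (nat_lit 228) (nat_lit 39761046595) (nat_lit 76) (nat_lit 24834294812) (nat_lit 59) (nat_lit 5) (nat_lit 62) (nat_lit 5) (nat_lit 60) (nat_lit 5) (nat_lit 444) (nat_lit 430) (nat_lit 326)) (XT.lf (nat_lit 0) (nat_lit 1894341674) (nat_lit 228) (nat_lit 19599429201) (nat_lit 304) (nat_lit 55459554540) (nat_lit 56) (nat_lit 5) (nat_lit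 59) (nat_lit 5) (nat_lit 60) (nat_lit 5) (nat_lit 445) (nat_lit 430) (nat_lit 325))))))) (XT.nd (nat_lit 936) (nat_lit 912) (nat_lit 0) (XT.nd (nat_lit 468) (nat_lit 532) (nat_lit 0) (XT.nd (nat_lit 234) (nat_lit 380) (nat_lit 0) (XT.nd (nat_lit 78) (nat_lit 152) (nat_lit 0) (XT.lf (nat_lit 0) (nat_lit 36458451611) (nat_lit 304) (nat_lit 31737714757) (nat_lit 76) (nat_lit 12345279881) (nat_lit 56) (nat_lit 5) (nat_lit 60) (nat_lit 5) (nat_lit 57) (nat_lit 5) (nat_lit 446) (nat_lit 430) (nat_lit 324)) (XT.nd (nat_lit 78) (nat_lit 0) (nat_lit 0) (XT.lf (nat_lit 0) (nat_lit 15303646359) (nat_lit 152) (nat_lit 38192286365) (nat_lit 228) (nat_lit 30850634351) (nat_lit 54) (nat_lit 5) (nat_lit 56) (nat_lit 5) (nat_lit 57) (nat_lit 5) (nat_lit 447) (nat_lit 430) (nat_lit 323)) (XT.lf (nat_lit 0) (nat_lit 67911237401) (nat_lit 152) (nat_lit 4851499572) (nat_lit 228) (nat_lit 15624054994) (nat_lit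 54) (nat_lit 5) (nat_lit 56) (nat_lit 5) (nat_lit 57) (nat_lit 5) (nat_lit 448) (nat_lit 430) (nat_lit 322)))) (XT.nd (nat_lit 78) (nat_lit 152) (nat_lit 0) (XT.lf (nat_lit 0) (nat_lit 2358057121) (nat_lit 228) (nat_lit 59816641193) (nat_lit 76) (nat_lit 30447681226) (nat_lit 51) (nat_lit 5) (nat_lit 54) (nat_lit 5) (nat_lit 52) (nat_lit 5) (nat_lit 449) (nat_lit 430) (nat_lit 321)) (XT.nd (nat_lit 78) (nat_lit 152) (nat_lit 0) (XT.lf (nat_lit 0) (nat_lit 21633698047) (nat_lit 228) (nat_lit 6186397909) (nat_lit 76) (nat_lit 69288327718) (nat_lit 51) (nat_lit 5) (nat_lit 54) (nat_lit 5) (nat_lit 52) (nat_lit 5) (nat_lit 450) (nat_lit 430) (nat_lit 320)) (XT.lf (nat_lit 0) (nat_lit 44017098713) (nat_lit 228) (nat_lit 47649376217) (nat_lit 76) (nat_lit 10161620004) (nat_lit 49) (nat_lit 5) (nat_lit 52) (nat_lit 5) (nat_lit 50) (nat_lit 5) (nat_lit 451) (nat_lit 430) (nat_lit 319))))) (XT.nd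 (nat_lit 234) (nat_lit 228) (nat_lit 0) (XT.nd (nat_lit 78) (nat_lit 152) (nat_lit 0) (XT.lf (nat_lit 0) (nat_lit 12720521132) (nat_lit 152) (nat_lit 56671523223) (nat_lit 228) (nat_lit 37437225959) (nat_lit 47) (nat_lit 5) (nat_lit 49) (nat_lit 5) (nat_lit 50) (nat_lit 5) (nat_lit 452) (nat_lit 430) (nat_lit 318)) (XT.nd (nat_lit 78) (nat_lit 152) (nat_lit 0) (XT.lf (nat_lit 0) (nat_lit 80628040107) (nat_lit 152) (nat_lit 17470612154) (nat_lit 228) (nat_lit 14027754368) (nat_lit 47) (nat_lit 5) (nat_lit 49) (nat_lit 5) (nat_lit 50) (nat_lit 5) (nat_lit 453) (nat_lit 430) (nat_lit 317)) (XT.lf (nat_lit 0) (nat_lit 12226565369) (nat_lit 152) (nat_lit 80645631570) (nat_lit 76) (nat_lit 24830656692) (nat_lit 45) (nat_lit 5) (nat_lit 47) (nat_lit 5) (nat_lit 46) (nat_lit 5) (nat_lit 454) (nat_lit 430) (nat_lit 316)))) (XT.nd (nat_lit 78) (nat_lit 228) (nat_lit 0) (XT.lf (nat_lit 0) (nat_lit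 41159670071) (nat_lit 152) (nat_lit 11610208582) (nat_lit 76) (nat_lit 70819485147) (nat_lit 45) (nat_lit 5) (nat_lit 47) (nat_lit 5) (nat_lit 46) (nat_lit 5) (nat_lit 455) (nat_lit 430) (nat_lit 315)) (XT.nd (nat_lit 78) (nat_lit 76) (nat_lit 0) (XT.lf (nat_lit 0) (nat_lit 66261047089) (nat_lit 152) (nat_lit 7738964912) (nat_lit 228) (nat_lit 55819375846) (nat_lit 43) (nat_lit 5) (nat_lit 45) (nat_lit 5) (nat_lit 46) (nat_lit 5) (nat_lit 456) (nat_lit 430) (nat_lit 314)) (XT.lf (nat_lit 0) (nat_lit 14217669609) (nat_lit 76) (nat_lit 96900076025) (nat_lit 152) (nat_lit 25298055194) (nat_lit 42) (nat_lit 5) (nat_lit 43) (nat_lit 5) (nat_lit 44) (nat_lit 4) (nat_lit 457) (nat_lit 430) (nat_lit 313)))))) (XT.nd (nat_lit 468) (nat_lit 380) (nat_lit 0) (XT.nd (nat_lit 234) (nat_lit 304) (nat_lit 0) (XT.nd (nat_lit 78) (nat_lit 152) (nat_lit 0) (XT.lf (nat_lit 0) (nat_lit 9264522207) (nat_lit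 152) (nat_lit 42002690591) (nat_lit 76) (nat_lit 92099328047) (nat_lit 41) (nat_lit 5) (nat_lit 43) (nat_lit 5) (nat_lit 42) (nat_lit 5) (nat_lit 458) (nat_lit 430) (nat_lit 312)) (XT.nd (nat_lit 78) (nat_lit 0) (nat_lit 0) (XT.lf (nat_lit 0) (nat_lit 46264057446) (nat_lit 152) (nat_lit 73055982) (nat_lit 228) (nat_lit 104394718599) (nat_lit 39) (nat_lit 5) (nat_lit 41) (nat_lit 5) (nat_lit 42) (nat_lit 5) (nat_lit 459) (nat_lit 430) (nat_lit 311)) (XT.lf (nat_lit 0) (nat_lit 88880852705) (nat_lit 228) (nat_lit 15972952599) (nat_lit 76) (nat_lit 53632114056) (nat_lit 39) (nat_lit 5) (nat_lit 42) (nat_lit 5) (nat_lit 40) (nat_lit 4) (nat_lit 460) (nat_lit 430) (nat_lit 310)))) (XT.nd (nat_lit 78) (nat_lit 228) (nat_lit 0) (XT.lf (nat_lit 0) (nat_lit 83789603616) (nat_lit 76) (nat_lit 53054714179) (nat_lit 152) (nat_lit 29854717858) (nat_lit 38) (nat_lit 5) (nat_lit 39) (nat_lit 5) (nat_lit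 40) (nat_lit 4) (nat_lit 461) (nat_lit 430) (nat_lit 309)) (XT.nd (nat_lit 78) (nat_lit 0) (nat_lit 0) (XT.lf (nat_lit 0) (nat_lit 13388731300) (nat_lit 228) (nat_lit 158121736189) (nat_lit 76) (nat_lit 3956202672) (nat_lit 35) (nat_lit 5) (nat_lit 38) (nat_lit 5) (nat_lit 36) (nat_lit 4) (nat_lit 462) (nat_lit 430) (nat_lit 308)) (XT.lf (nat_lit 0) (nat_lit 62181744990) (nat_lit 228) (nat_lit 56633419701) (nat_lit 76) (nat_lit 65762273541) (nat_lit 35) (nat_lit 5) (nat_lit 38) (nat_lit 5) (nat_lit 36) (nat_lit 4) (nat_lit 463) (nat_lit 430) (nat_lit 307))))) (XT.nd (nat_lit 234) (nat_lit 152) (nat_lit 0) (XT.nd (nat_lit 78) (nat_lit 152) (nat_lit 0) (XT.lf (nat_lit 0) (nat_lit 55762048532) (nat_lit 76) (nat_lit 60456492078) (nat_lit 152) (nat_lit 78091299953) (nat_lit 34) (nat_lit 5) (nat_lit 35) (nat_lit 5) (nat_lit 36) (nat_lit 4) (nat_lit 464) (nat_lit 430) (nat_lit 306)) (XT.nd (nat_lit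 78) (nat_lit 152) (nat_lit 0) (XT.lf (nat_lit 0) (nat_lit 176228057666) (nat_lit 152) (nat_lit 24430426102) (nat_lit 0) (nat_lit 4030369163) (nat_lit 34) (nat_lit 5) (nat_lit 36) (nat_lit 4) (nat_lit 34) (nat_lit 4) (nat_lit 465) (nat_lit 430) (nat_lit 305)) (XT.lf (nat_lit 0) (nat_lit 28018768119) (nat_lit 152) (nat_lit 113919497559) (nat_lit 76) (nat_lit 73580652543) (nat_lit 32) (nat_lit 5) (nat_lit 34) (nat_lit 5) (nat_lit 33) (nat_lit 4) (nat_lit 466) (nat_lit 430) (nat_lit 304)))) (XT.nd (nat_lit 78) (nat_lit 76) (nat_lit 0) (XT.lf (nat_lit 0) (nat_lit 11770008587) (nat_lit 76) (nat_lit 76676783652) (nat_lit 152) (nat_lit 138632039810) (nat_lit 31) (nat_lit 5) (nat_lit 32) (nat_lit 5) (nat_lit 33) (nat_lit 4) (nat_lit 467) (nat_lit 430) (nat_lit 303)) (XT.nd (nat_lit 78) (nat_lit 76) (nat_lit 0) (XT.lf (nat_lit 0) (nat_lit 153992142405) (nat_lit 76) (nat_lit 2831024721) (nat_lit 152)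 (nat_lit 82491243204) (nat_lit 31) (nat_lit 5) (nat_lit 32) (nat_lit 5) (nat_lit 33) (nat_lit 4) (nat_lit 468) (nat_lit 430) (nat_lit 302)) (XT.lf (nat_lit 0) (nat_lit 56014099285) (nat_lit 76) (nat_lit 177852061805) (nat_lit 76) (nat_lit 18406953108) (nat_lit 30) (nat_lit 4) (nat_lit 31) (nat_lit 5) (nat_lit 31) (nat_lit 4) (nat_lit 469) (nat_lit 430) (nat_lit 301))))))))
noncomputable def xc167 : XT := (XT.nd (nat_lit 1794) (nat_lit 684) (nat_lit 0) (XT.nd (nat_lit 858) (nat_lit 608) (nat_lit 0) (XT.nd (nat_lit 390) (nat_lit 304) (nat_lit 0) (XT.nd (nat_lit 156) (nat_lit 228) (nat_lit 0) (XT.nd (nat_lit 78) (nat_lit 76) (nat_lit 0) (XT.lf (nat_lit 0) (nat_lit 50729028931) (nat_lit 152) (nat_lit 53929304800) (nat_lit 76) (nat_lit 161315123571) (nat_lit 29) (nat_lit 5) (nat_lit 31) (nat_lit 5) (nat_lit 30) (nat_lit 4) (nat_lit 470) (nat_lit 430) (nat_lit 300)) (XT.lf (nat_lit 0) (nat_lit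 104536946475) (nat_lit 76) (nat_lit 22378036720) (nat_lit 152) (nat_lit 153615512708) (nat_lit 28) (nat_lit 5) (nat_lit 29) (nat_lit 5) (nat_lit 30) (nat_lit 4) (nat_lit 471) (nat_lit 430) (nat_lit 299))) (XT.nd (nat_lit 78) (nat_lit 228) (nat_lit 0) (XT.lf (nat_lit 0) (nat_lit 212307029376) (nat_lit 152) (nat_lit 19024986667) (nat_lit 0) (nat_lit 64671184339) (nat_lit 28) (nat_lit 5) (nat_lit 30) (nat_lit 4) (nat_lit 28) (nat_lit 4) (nat_lit 472) (nat_lit 430) (nat_lit 298)) (XT.nd (nat_lit 78) (nat_lit 152) (nat_lit 0) (XT.lf (nat_lit 0) (nat_lit 157813254356) (nat_lit 76) (nat_lit 151093322264) (nat_lit 76) (nat_lit 3457053644) (nat_lit 27) (nat_lit 4) (nat_lit 28) (nat_lit 5) (nat_lit 28) (nat_lit 4) (nat_lit 473) (nat_lit 430) (nat_lit 297)) (XT.lf (nat_lit 0) (nat_lit 18814919926) (nat_lit 76) (nat_lit 61209878512) (nat_lit 152) (nat_lit 249769163594) (nat_lit 25) (nat_lit 5) (nat_lit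 26) (nat_lit 5) (nat_lit 27) (nat_lit 4) (nat_lit 474) (nat_lit 430) (nat_lit 296))))) (XT.nd (nat_lit 234) (nat_lit 152) (nat_lit 0) (XT.nd (nat_lit 78) (nat_lit 152) (nat_lit 0) (XT.lf (nat_lit 0) (nat_lit 175195884755) (nat_lit 152) (nat_lit 134504918962) (nat_lit 0) (nat_lit 38494936624) (nat_lit 25) (nat_lit 5) (nat_lit 27) (nat_lit 4) (nat_lit 25) (nat_lit 4) (nat_lit 475) (nat_lit 430) (nat_lit 295)) (XT.nd (nat_lit 78) (nat_lit 76) (nat_lit 0) (XT.lf (nat_lit 0) (nat_lit 57366000481) (nat_lit 76) (nat_lit 223583698334) (nat_lit 76) (nat_lit 86882438856) (nat_lit 24) (nat_lit 4) (nat_lit 25) (nat_lit 5) (nat_lit 25) (nat_lit 4) (nat_lit 476) (nat_lit 430) (nat_lit 294)) (XT.lf (nat_lit 0) (nat_lit 9590651755) (nat_lit 152) (nat_lit 116752992110) (nat_lit 76) (nat_lit 262382207932) (nat_lit 23) (nat_lit 5) (nat_lit 25) (nat_lit 5) (nat_lit 24) (nat_lit 4) (nat_lit 477) (nat_lit 430)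 (nat_lit 293)))) (XT.nd (nat_lit 78) (nat_lit 76) (nat_lit 0) (XT.lf (nat_lit 0) (nat_lit 94949393738) (nat_lit 76) (nat_lit 16421379545) (nat_lit 152) (nat_lit 299557107487) (nat_lit 22) (nat_lit 5) (nat_lit 23) (nat_lit 5) (nat_lit 24) (nat_lit 4) (nat_lit 478) (nat_lit 430) (nat_lit 292)) (XT.nd (nat_lit 78) (nat_lit 76) (nat_lit 0) (XT.lf (nat_lit 0) (nat_lit 227028201484) (nat_lit 152) (nat_lit 106966860546) (nat_lit 0) (nat_lit 100452218292) (nat_lit 22) (nat_lit 5) (nat_lit 24) (nat_lit 4) (nat_lit 22) (nat_lit 4) (nat_lit 479) (nat_lit 430) (nat_lit 291)) (XT.lf (nat_lit 0) (nat_lit 124569840372) (nat_lit 76) (nat_lit 230790412144) (nat_lit 76) (nat_lit 104214217054) (nat_lit 21) (nat_lit 4) (nat_lit 22) (nat_lit 5) (nat_lit 22) (nat_lit 4) (nat_lit 480) (nat_lit 430) (nat_lit 290)))))) (XT.nd (nat_lit 468) (nat_lit 228) (nat_lit 0) (XT.nd (nat_lit 234) (nat_lit 228) (nat_lit 0)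 (XT.nd (nat_lit 78) (nat_lit 76) (nat_lit 0) (XT.lf (nat_lit 0) (nat_lit 9884728925) (nat_lit 152) (nat_lit 106016155127) (nat_lit 76) (nat_lit 370556988918) (nat_lit 20) (nat_lit 5) (nat_lit 22) (nat_lit 5) (nat_lit 21) (nat_lit 4) (nat_lit 481) (nat_lit 430) (nat_lit 289)) (XT.nd (nat_lit 78) (nat_lit 0) (nat_lit 0) (XT.lf (nat_lit 0) (nat_lit 131347540874) (nat_lit 152) (nat_lit 369471550410) (nat_lit 0) (nat_lit 14147010356) (nat_lit 19) (nat_lit 5) (nat_lit 21) (nat_lit 4) (nat_lit 19) (nat_lit 4) (nat_lit 482) (nat_lit 430) (nat_lit 288)) (XT.lf (nat_lit 0) (nat_lit 268511374032) (nat_lit 152) (nat_lit 125454207122) (nat_lit 0) (nat_lit 151310687763) (nat_lit 19) (nat_lit 5) (nat_lit 21) (nat_lit 4) (nat_lit 19) (nat_lit 4) (nat_lit 483) (nat_lit 430) (nat_lit 287)))) (XT.nd (nat_lit 78) (nat_lit 152) (nat_lit 0) (XT.lf (nat_lit 0) (nat_lit 145355072912) (nat_lit 76) (nat_lit 274788685785)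 (nat_lit 76) (nat_lit 157587855302) (nat_lit 18) (nat_lit 4) (nat_lit 19) (nat_lit 5) (nat_lit 19) (nat_lit 4) (nat_lit 484) (nat_lit 430) (nat_lit 286)) (XT.nd (nat_lit 78) (nat_lit 152) (nat_lit 0) (XT.lf (nat_lit 0) (nat_lit 444963104842) (nat_lit 76) (nat_lit 142373430872) (nat_lit 76) (nat_lit 25172466859) (nat_lit 18) (nat_lit 4) (nat_lit 19) (nat_lit 5) (nat_lit 19) (nat_lit 4) (nat_lit 485) (nat_lit 430) (nat_lit 285)) (XT.lf (nat_lit 0) (nat_lit 115033611300) (nat_lit 152) (nat_lit 528046800242) (nat_lit 0) (nat_lit 6514085695) (nat_lit 16) (nat_lit 5) (nat_lit 18) (nat_lit 4) (nat_lit 16) (nat_lit 4) (nat_lit 486) (nat_lit 430) (nat_lit 284))))) (XT.nd (nat_lit 234) (nat_lit 152) (nat_lit 0) (XT.nd (nat_lit 78) (nat_lit 76) (nat_lit 0) (XT.lf (nat_lit 0) (nat_lit 273493887805) (nat_lit 152) (nat_lit 250454566727) (nat_lit 0) (nat_lit 164974256198) (nat_lit 16) (nat_lit 5) (nat_lit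 18) (nat_lit 4) (nat_lit 16) (nat_lit 4) (nat_lit 487) (nat_lit 430) (nat_lit 283)) (XT.nd (nat_lit 78) (nat_lit 0) (nat_lit 0) (XT.lf (nat_lit 0) (nat_lit 51942834771) (nat_lit 76) (nat_lit 393937080974) (nat_lit 76) (nat_lit 285417351218) (nat_lit 15) (nat_lit 4) (nat_lit 16) (nat_lit 5) (nat_lit 16) (nat_lit 4) (nat_lit 488) (nat_lit 430) (nat_lit 282)) (XT.lf (nat_lit 0) (nat_lit 392775015089) (nat_lit 76) (nat_lit 246129393325) (nat_lit 76) (nat_lit 137609572690) (nat_lit 15) (nat_lit 4) (nat_lit 16) (nat_lit 5) (nat_lit 16) (nat_lit 4) (nat_lit 489) (nat_lit 430) (nat_lit 281)))) (XT.nd (nat_lit 78) (nat_lit 76) (nat_lit 0) (XT.lf (nat_lit 0) (nat_lit 20920882320) (nat_lit 152) (nat_lit 65004469555) (nat_lit 76) (nat_lit 739380330522) (nat_lit 14) (nat_lit 5) (nat_lit 16) (nat_lit 5) (nat_lit 15) (nat_lit 4) (nat_lit 490) (nat_lit 430) (nat_lit 280)) (XT.nd (nat_lit 78) (nat_lit 0)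 (nat_lit 0) (XT.lf (nat_lit 0) (nat_lit 194046341347) (nat_lit 152) (nat_lit 589355795891) (nat_lit 0) (nat_lit 93564875888) (nat_lit 13) (nat_lit 5) (nat_lit 15) (nat_lit 4) (nat_lit 13) (nat_lit 4) (nat_lit 491) (nat_lit 430) (nat_lit 279)) (XT.lf (nat_lit 0) (nat_lit 385076912629) (nat_lit 152) (nat_lit 262764551277) (nat_lit 0) (nat_lit 284595380370) (nat_lit 13) (nat_lit 5) (nat_lit 15) (nat_lit 4) (nat_lit 13) (nat_lit 4) (nat_lit 492) (nat_lit 430) (nat_lit 278))))))) (XT.nd (nat_lit 936) (nat_lit 228) (nat_lit 0) (XT.nd (nat_lit 468) (nat_lit 228) (nat_lit 0) (XT.nd (nat_lit 234) (nat_lit 152) (nat_lit 0) (XT.nd (nat_lit 78) (nat_lit 0) (nat_lit 0) (XT.lf (nat_lit 0) (nat_lit 94690307065) (nat_lit 76) (nat_lit 498976691716) (nat_lit 76) (nat_lit 398495097607) (nat_lit 12) (nat_lit 4) (nat_lit 13) (nat_lit 5) (nat_lit 13) (nat_lit 4) (nat_lit 493) (nat_lit 430) (nat_lit 277)) (XT.nd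 (nat_lit 78) (nat_lit 0) (nat_lit 0) (XT.lf (nat_lit 0) (nat_lit 495684740551) (nat_lit 76) (nat_lit 330443770964) (nat_lit 76) (nat_lit 229962119585) (nat_lit 12) (nat_lit 4) (nat_lit 13) (nat_lit 5) (nat_lit 13) (nat_lit 4) (nat_lit 494) (nat_lit 430) (nat_lit 276)) (XT.lf (nat_lit 0) (nat_lit 928758296878) (nat_lit 76) (nat_lit 148428436534) (nat_lit 76) (nat_lit 47946732129) (nat_lit 12) (nat_lit 4) (nat_lit 13) (nat_lit 5) (nat_lit 13) (nat_lit 4) (nat_lit 495) (nat_lit 430) (nat_lit 275)))) (XT.nd (nat_lit 78) (nat_lit 0) (nat_lit 0) (XT.lf (nat_lit 0) (nat_lit 147463681226) (nat_lit 152) (nat_lit 997023551652) (nat_lit 0) (nat_lit 54425020574) (nat_lit 10) (nat_lit 5) (nat_lit 12) (nat_lit 4) (nat_lit 10) (nat_lit 4) (nat_lit 496) (nat_lit 430) (nat_lit 274)) (XT.nd (nat_lit 78) (nat_lit 0) (nat_lit 0) (XT.lf (nat_lit 0) (nat_lit 365280347961) (nat_lit 152) (nat_lit 640222618516)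 (nat_lit 0) (nat_lit 272241645213) (nat_lit 10) (nat_lit 5) (nat_lit 12) (nat_lit 4) (nat_lit 10) (nat_lit 4) (nat_lit 497) (nat_lit 430) (nat_lit 273)) (XT.lf (nat_lit 0) (nat_lit 600522162032) (nat_lit 152) (nat_lit 254877991130) (nat_lit 0) (nat_lit 507483420308) (nat_lit 10) (nat_lit 5) (nat_lit 12) (nat_lit 4) (nat_lit 10) (nat_lit 4) (nat_lit 498) (nat_lit 430) (nat_lit 272))))) (XT.nd (nat_lit 234) (nat_lit 152) (nat_lit 0) (XT.nd (nat_lit 78) (nat_lit 0) (nat_lit 0) (XT.lf (nat_lit 0) (nat_lit 169787302750) (nat_lit 76) (nat_lit 688879234969) (nat_lit 76) (nat_lit 595840457156) (nat_lit 9) (nat_lit 4) (nat_lit 10) (nat_lit 5) (nat_lit 10) (nat_lit 4) (nat_lit 499) (nat_lit 430) (nat_lit 271)) (XT.nd (nat_lit 78) (nat_lit 0) (nat_lit 0) (XT.lf (nat_lit 0) (nat_lit 642920614031) (nat_lit 76) (nat_lit 501510497667) (nat_lit 76) (nat_lit 408471686438) (nat_lit 9) (nat_lit 4) (nat_lit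 10) (nat_lit 5) (nat_lit 10) (nat_lit 4) (nat_lit 500) (nat_lit 430) (nat_lit 270)) (XT.lf (nat_lit 0) (nat_lit 1153904272339) (nat_lit 76) (nat_lit 299152423958) (nat_lit 76) (nat_lit 206113581788) (nat_lit 9) (nat_lit 4) (nat_lit 10) (nat_lit 5) (nat_lit 10) (nat_lit 4) (nat_lit 501) (nat_lit 430) (nat_lit 269)))) (XT.nd (nat_lit 78) (nat_lit 76) (nat_lit 0) (XT.lf (nat_lit 0) (nat_lit 11811066121) (nat_lit 152) (nat_lit 68471853286) (nat_lit 76) (nat_lit 1693632327382) (nat_lit 8) (nat_lit 5) (nat_lit 10) (nat_lit 5) (nat_lit 9) (nat_lit 4) (nat_lit 502) (nat_lit 430) (nat_lit 268)) (XT.nd (nat_lit 78) (nat_lit 0) (nat_lit 0) (XT.lf (nat_lit 0) (nat_lit 250262604768) (nat_lit 152) (nat_lit 1481895170193) (nat_lit 0) (nat_lit 164115477596) (nat_lit 7) (nat_lit 5) (nat_lit 9) (nat_lit 4) (nat_lit 7) (nat_lit 4) (nat_lit 503) (nat_lit 430) (nat_lit 267)) (XT.lf (nat_lit 0) (nat_lit 511796169611)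 (nat_lit 152) (nat_lit 1090654237229) (nat_lit 0) (nat_lit 425649019697) (nat_lit 7) (nat_lit 5) (nat_lit 9) (nat_lit 4) (nat_lit 7) (nat_lit 4) (nat_lit 504) (nat_lit 430) (nat_lit 266)))))) (XT.nd (nat_lit 468) (nat_lit 152) (nat_lit 0) (XT.nd (nat_lit 234) (nat_lit 0) (nat_lit 0) (XT.nd (nat_lit 78) (nat_lit 76) (nat_lit 0) (XT.lf (nat_lit 0) (nat_lit 794252293347) (nat_lit 152) (nat_lit 668114288821) (nat_lit 0) (nat_lit 708105122375) (nat_lit 7) (nat_lit 5) (nat_lit 9) (nat_lit 4) (nat_lit 7) (nat_lit 4) (nat_lit 505) (nat_lit 430) (nat_lit 265)) (XT.nd (nat_lit 78) (nat_lit 76) (nat_lit 0) (XT.lf (nat_lit 0) (nat_lit 1099304790040) (nat_lit 152) (nat_lit 211771384534) (nat_lit 0) (nat_lit 1013157599570) (nat_lit 7) (nat_lit 5) (nat_lit 9) (nat_lit 4) (nat_lit 7) (nat_lit 4) (nat_lit 506) (nat_lit 430) (nat_lit 264)) (XT.lf (nat_lit 0) (nat_lit 295879837678) (nat_lit 76) (nat_lit 1139997457724)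 (nat_lit 76) (nat_lit 1053850249200) (nat_lit 6) (nat_lit 4) (nat_lit 7) (nat_lit 5) (nat_lit 7) (nat_lit 4) (nat_lit 507) (nat_lit 430) (nat_lit 263)))) (XT.nd (nat_lit 78) (nat_lit 0) (nat_lit 0) (XT.lf (nat_lit 0) (nat_lit 856186567362) (nat_lit 76) (nat_lit 948979133309) (nat_lit 76) (nat_lit 862831908069) (nat_lit 6) (nat_lit 4) (nat_lit 7) (nat_lit 5) (nat_lit 7) (nat_lit 4) (nat_lit 508) (nat_lit 430) (nat_lit 262)) (XT.nd (nat_lit 78) (nat_lit 0) (nat_lit 0) (XT.lf (nat_lit 0) (nat_lit 1461317634874) (nat_lit 76) (nat_lit 742679445833) (nat_lit 76) (nat_lit 656532205115) (nat_lit 6) (nat_lit 4) (nat_lit 7) (nat_lit 5) (nat_lit 7) (nat_lit 4) (nat_lit 509) (nat_lit 430) (nat_lit 261)) (XT.lf (nat_lit 0) (nat_lit 2114859002094) (nat_lit 76) (nat_lit 519875878630) (nat_lit 76) (nat_lit 433728623581) (nat_lit 6) (nat_lit 4) (nat_lit 7) (nat_lit 5) (nat_lit 7) (nat_lit 4) (nat_lit 510)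 (nat_lit 430) (nat_lit 260))))) (XT.nd (nat_lit 234) (nat_lit 0) (nat_lit 0) (XT.nd (nat_lit 78) (nat_lit 152) (nat_lit 0) (XT.lf (nat_lit 0) (nat_lit 2820683506756) (nat_lit 76) (nat_lit 279248114265) (nat_lit 76) (nat_lit 193100845946) (nat_lit 6) (nat_lit 4) (nat_lit 7) (nat_lit 5) (nat_lit 7) (nat_lit 4) (nat_lit 511) (nat_lit 430) (nat_lit 259)) (XT.nd (nat_lit 78) (nat_lit 0) (nat_lit 0) (XT.lf (nat_lit 0) (nat_lit 48212662228) (nat_lit 76) (nat_lit 16383464134) (nat_lit 152) (nat_lit 3470749586014) (nat_lit 4) (nat_lit 5) (nat_lit 5) (nat_lit 5) (nat_lit 6) (nat_lit 4) (nat_lit 512) (nat_lit 430) (nat_lit 258)) (XT.lf (nat_lit 0) (nat_lit 352160254766) (nat_lit 152) (nat_lit 3170513561705) (nat_lit 0) (nat_lit 272394243670) (nat_lit 4) (nat_lit 5) (nat_lit 6) (nat_lit 4) (nat_lit 4) (nat_lit 4) (nat_lit 513) (nat_lit 430) (nat_lit 257)))) (XT.nd (nat_lit 78) (nat_lit 0) (nat_lit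 0) (XT.lf (nat_lit 0) (nat_lit 663154984408) (nat_lit 152) (nat_lit 2828990210085) (nat_lit 0) (nat_lit 583388963558) (nat_lit 4) (nat_lit 5) (nat_lit 6) (nat_lit 4) (nat_lit 4) (nat_lit 4) (nat_lit 514) (nat_lit 430) (nat_lit 256)) (XT.nd (nat_lit 78) (nat_lit 0) (nat_lit 0) (XT.lf (nat_lit 0) (nat_lit 999029224313) (nat_lit 152) (nat_lit 2460145130497) (nat_lit 0) (nat_lit 919263194432) (nat_lit 4) (nat_lit 5) (nat_lit 6) (nat_lit 4) (nat_lit 4) (nat_lit 4) (nat_lit 515) (nat_lit 430) (nat_lit 255)) (XT.lf (nat_lit 0) (nat_lit 1361773340348) (nat_lit 152) (nat_lit 2061792574323) (nat_lit 0) (nat_lit 1282007302105) (nat_lit 4) (nat_lit 5) (nat_lit 6) (nat_lit 4) (nat_lit 4) (nat_lit 4) (nat_lit 516) (nat_lit 430) (nat_lit 254))))))))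
noncomputable def xc168 : XT := (XT.nd (nat_lit 56706) (nat_lit 0) (nat_lit 2356) (XT.nd (nat_lit 55770) (nat_lit 0) (nat_lit 4712) (XT.nd (nat_lit 390) (nat_lit 0) (nat_lit 0) (XT.nd (nat_lit 156) (nat_lit 76) (nat_lit 0) (XT.nd (nat_lit 78) (nat_lit 0) (nat_lit 0) (XT.lf (nat_lit 0) (nat_lit 1753536927274) (nat_lit 152) (nat_lit 1631571933821) (nat_lit 0) (nat_lit 1673770881288) (nat_lit 4) (nat_lit 5) (nat_lit 6) (nat_lit 4) (nat_lit 4) (nat_lit 4) (nat_lit 517) (nat_lit 430) (nat_lit 253)) (XT.lf (nat_lit 0) (nat_lit 2176641547088) (nat_lit 152) (nat_lit 1166933753344) (nat_lit 0) (nat_lit 2096875493932) (nat_lit 4) (nat_lit 5) (nat_lit 6) (nat_lit 4) (nat_lit 4) (nat_lit 4) (nat_lit 518) (nat_lit 430) (nat_lit 252))) (XT.nd (nat_lit 78) (nat_lit 76) (nat_lit 0) (XT.lf (nat_lit 0) (nat_lit 2633594486425) (nat_lit 152) (nat_lit 665124621453) (nat_lit 0) (nat_lit 2553828426632) (nat_lit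 4) (nat_lit 5) (nat_lit 6) (nat_lit 4) (nat_lit 4) (nat_lit 4) (nat_lit 519) (nat_lit 430) (nat_lit 251)) (XT.nd (nat_lit 78) (nat_lit 76) (nat_lit 0) (XT.lf (nat_lit 0) (nat_lit 3127103614557) (nat_lit 152) (nat_lit 123170854403) (nat_lit 0) (nat_lit 3047337548616) (nat_lit 4) (nat_lit 5) (nat_lit 6) (nat_lit 4) (nat_lit 4) (nat_lit 4) (nat_lit 520) (nat_lit 430) (nat_lit 250)) (XT.lf (nat_lit 0) (nat_lit 486474553062) (nat_lit 76) (nat_lit 3185318601658) (nat_lit 76) (nat_lit 3105552530026) (nat_lit 3) (nat_lit 4) (nat_lit 4) (nat_lit 5) (nat_lit 4) (nat_lit 4) (nat_lit 521) (nat_lit 430) (nat_lit 249))))) (XT.nd (nat_lit 234) (nat_lit 0) (nat_lit 0) (XT.nd (nat_lit 78) (nat_lit 0) (nat_lit 0) (XT.lf (nat_lit 0) (nat_lit 1151896342663) (nat_lit 76) (nat_lit 3111529183059) (nat_lit 76) (nat_lit 3031763106157) (nat_lit 3) (nat_lit 4) (nat_lit 4) (nat_lit 5) (nat_lit 4) (nat_lit 4) (nat_lit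 522) (nat_lit 430) (nat_lit 248)) (XT.nd (nat_lit 78) (nat_lit 0) (nat_lit 0) (XT.lf (nat_lit 0) (nat_lit 1870551795720) (nat_lit 76) (nat_lit 3031836651971) (nat_lit 76) (nat_lit 2952070570190) (nat_lit 3) (nat_lit 4) (nat_lit 4) (nat_lit 5) (nat_lit 4) (nat_lit 4) (nat_lit 523) (nat_lit 430) (nat_lit 247)) (XT.lf (nat_lit 0) (nat_lit 2646699611213) (nat_lit 76) (nat_lit 2945768756358) (nat_lit 76) (nat_lit 2866002670059) (nat_lit 3) (nat_lit 4) (nat_lit 4) (nat_lit 5) (nat_lit 4) (nat_lit 4) (nat_lit 524) (nat_lit 430) (nat_lit 246)))) (XT.nd (nat_lit 78) (nat_lit 0) (nat_lit 0) (XT.lf (nat_lit 0) (nat_lit 3484939183605) (nat_lit 76) (nat_lit 2852815464246) (nat_lit 76) (nat_lit 2773049373764) (nat_lit 3) (nat_lit 4) (nat_lit 4) (nat_lit 5) (nat_lit 4) (nat_lit 4) (nat_lit 525) (nat_lit 430) (nat_lit 245)) (XT.nd (nat_lit 78) (nat_lit 0) (nat_lit 0) (XT.lf (nat_lit 0) (nat_lit 4390237858509)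 (nat_lit 76) (nat_lit 2752425941312) (nat_lit 76) (nat_lit 2672659846957) (nat_lit 3) (nat_lit 4) (nat_lit 4) (nat_lit 5) (nat_lit 4) (nat_lit 4) (nat_lit 526) (nat_lit 430) (nat_lit 244)) (XT.lf (nat_lit 0) (nat_lit 5367960368814) (nat_lit 76) (nat_lit 2644005286679) (nat_lit 76) (nat_lit 2564239188738) (nat_lit 3) (nat_lit 4) (nat_lit 4) (nat_lit 5) (nat_lit 4) (nat_lit 4) (nat_lit 527) (nat_lit 430) (nat_lit 243)))))) (XT.nd (nat_lit 468) (nat_lit 532) (nat_lit 0) (XT.nd (nat_lit 234) (nat_lit 456) (nat_lit 0) (XT.nd (nat_lit 78) (nat_lit 0) (nat_lit 0) (XT.lf (nat_lit 0) (nat_lit 20870762530) (nat_lit 532) (nat_lit 606738777) (nat_lit 532) (nat_lit 606738777) (nat_lit 78) (nat_lit 3) (nat_lit 85) (nat_lit 3) (nat_lit 85) (nat_lit 5) (nat_lit 431) (nat_lit 431) (nat_lit 338)) (XT.nd (nat_lit 78) (nat_lit 0) (nat_lit 76) (XT.lf (nat_lit 76) (nat_lit 21691198525) (nat_lit 0) (nat_lit 22273271050)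 (nat_lit 532) (nat_lit 1926474416) (nat_lit 79) (nat_lit 5) (nat_lit 78) (nat_lit 3) (nat_lit 85) (nat_lit 5) (nat_lit 432) (nat_lit 431) (nat_lit 337)) (XT.lf (nat_lit 0) (nat_lit 46397633302) (nat_lit 456) (nat_lit 1255757218) (nat_lit 532) (nat_lit 95224977) (nat_lit 79) (nat_lit 5) (nat_lit 85) (nat_lit 5) (nat_lit 86) (nat_lit 5) (nat_lit 433) (nat_lit 431) (nat_lit 336)))) (XT.nd (nat_lit 78) (nat_lit 0) (nat_lit 0) (XT.lf (nat_lit 0) (nat_lit 493507892) (nat_lit 532) (nat_lit 25523439814) (nat_lit 608) (nat_lit 23644440098) (nat_lit 72) (nat_lit 5) (nat_lit 79) (nat_lit 5) (nat_lit 80) (nat_lit 5) (nat_lit 434) (nat_lit 431) (nat_lit 335)) (XT.nd (nat_lit 78) (nat_lit 0) (nat_lit 76) (XT.lf (nat_lit 0) (nat_lit 2444957903) (nat_lit 532) (nat_lit 127888288) (nat_lit 608) (nat_lit 49148938370) (nat_lit 72) (nat_lit 5) (nat_lit 79) (nat_lit 5) (nat_lit 80) (nat_lit 5) (nat_lit 435)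 (nat_lit 431) (nat_lit 334)) (XT.lf (nat_lit 0) (nat_lit 5805998982) (nat_lit 532) (nat_lit 25722111255) (nat_lit 608) (nat_lit 22318625752) (nat_lit 73) (nat_lit 5) (nat_lit 80) (nat_lit 5) (nat_lit 81) (nat_lit 5) (nat_lit 436) (nat_lit 431) (nat_lit 333))))) (XT.nd (nat_lit 234) (nat_lit 228) (nat_lit 0) (XT.nd (nat_lit 78) (nat_lit 380) (nat_lit 0) (XT.lf (nat_lit 76) (nat_lit 2562420428) (nat_lit 0) (nat_lit 7003082268) (nat_lit 608) (nat_lit 46565815350) (nat_lit 74) (nat_lit 5) (nat_lit 73) (nat_lit 5) (nat_lit 81) (nat_lit 5) (nat_lit 437) (nat_lit 431) (nat_lit 332)) (XT.nd (nat_lit 78) (nat_lit 456) (nat_lit 0) (XT.lf (nat_lit 0) (nat_lit 14813591939) (nat_lit 532) (nat_lit 24458901601) (nat_lit 76) (nat_lit 19231147912) (nat_lit 74) (nat_lit 5) (nat_lit 81) (nat_lit 5) (nat_lit 75) (nat_lit 5) (nat_lit 438) (nat_lit 431) (nat_lit 331)) (XT.lf (nat_lit 0) (nat_lit 7153826603)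 (nat_lit 456) (nat_lit 13679501960) (nat_lit 532) (nat_lit 40204278889) (nat_lit 68) (nat_lit 5) (nat_lit 74) (nat_lit 5) (nat_lit 75) (nat_lit 5) (nat_lit 439) (nat_lit 431) (nat_lit 330)))) (XT.nd (nat_lit 78) (nat_lit 228) (nat_lit 0) (XT.lf (nat_lit 0) (nat_lit 28354489698) (nat_lit 532) (nat_lit 21389495171) (nat_lit 76) (nat_lit 13948718903) (nat_lit 68) (nat_lit 5) (nat_lit 75) (nat_lit 5) (nat_lit 69) (nat_lit 5) (nat_lit 440) (nat_lit 431) (nat_lit 329)) (XT.nd (nat_lit 78) (nat_lit 0) (nat_lit 0) (XT.lf (nat_lit 0) (nat_lit 14049865689) (nat_lit 228) (nat_lit 23118805185) (nat_lit 304) (nat_lit 29336231389) (nat_lit 65) (nat_lit 5) (nat_lit 68) (nat_lit 5) (nat_lit 69) (nat_lit 5) (nat_lit 441) (nat_lit 431) (nat_lit 328)) (XT.lf (nat_lit 0) (nat_lit 47421764129) (nat_lit 304) (nat_lit 16107298321) (nat_lit 76) (nat_lit 5954312563) (nat_lit 65) (nat_lit 5) (nat_lit 69) (nat_lit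 5) (nat_lit 66) (nat_lit 5) (nat_lit 442) (nat_lit 431) (nat_lit 327))))))) (XT.nd (nat_lit 858) (nat_lit 988) (nat_lit 0) (XT.nd (nat_lit 390) (nat_lit 684) (nat_lit 0) (XT.nd (nat_lit 156) (nat_lit 456) (nat_lit 0) (XT.nd (nat_lit 78) (nat_lit 0) (nat_lit 0) (XT.lf (nat_lit 0) (nat_lit 23733071577) (nat_lit 228) (nat_lit 35931640888) (nat_lit 304) (nat_lit 12941845055) (nat_lit 62) (nat_lit 5) (nat_lit 65) (nat_lit 5) (nat_lit 66) (nat_lit 5) (nat_lit 443) (nat_lit 431) (nat_lit 326)) (XT.lf (nat_lit 0) (nat_lit 67674832759) (nat_lit 228) (nat_lit 5651082230) (nat_lit 304) (nat_lit 2618574676) (nat_lit 62) (nat_lit 5) (nat_lit 65) (nat_lit 5) (nat_lit 66) (nat_lit 5) (nat_lit 444) (nat_lit 431) (nat_lit 325))) (XT.nd (nat_lit 78) (nat_lit 228) (nat_lit 0) (XT.lf (nat_lit 0) (nat_lit 9677084280) (nat_lit 228) (nat_lit 42902386241) (nat_lit 76) (nat_lit 26827712689) (nat_lit 59) (nat_lit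 5) (nat_lit 62) (nat_lit 5) (nat_lit 60) (nat_lit 5) (nat_lit 445) (nat_lit 431) (nat_lit 324)) (XT.nd (nat_lit 78) (nat_lit 0) (nat_lit 0) (XT.lf (nat_lit 0) (nat_lit 2084431974) (nat_lit 228) (nat_lit 21157940839) (nat_lit 304) (nat_lit 59864882797) (nat_lit 56) (nat_lit 5) (nat_lit 59) (nat_lit 5) (nat_lit 60) (nat_lit 5) (nat_lit 446) (nat_lit 431) (nat_lit 323)) (XT.lf (nat_lit 0) (nat_lit 39402282707) (nat_lit 304) (nat_lit 34239091468) (nat_lit 76) (nat_lit 13341208138) (nat_lit 56) (nat_lit 5) (nat_lit 60) (nat_lit 5) (nat_lit 57) (nat_lit 5) (nat_lit 447) (nat_lit 431) (nat_lit 322))))) (XT.nd (nat_lit 234) (nat_lit 304) (nat_lit 0) (XT.nd (nat_lit 78) (nat_lit 228) (nat_lit 0) (XT.lf (nat_lit 0) (nat_lit 16564625614) (nat_lit 152) (nat_lit 41237007553) (nat_lit 228) (nat_lit 33290570506) (nat_lit 54) (nat_lit 5) (nat_lit 56) (nat_lit 5) (nat_lit 57) (nat_lit 5) (nat_lit 448) (nat_lit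 431) (nat_lit 321)) (XT.nd (nat_lit 78) (nat_lit 228) (nat_lit 0) (XT.lf (nat_lit 0) (nat_lit 73378106344) (nat_lit 152) (nat_lit 5229747572) (nat_lit 228) (nat_lit 16847947364) (nat_lit 54) (nat_lit 5) (nat_lit 56) (nat_lit 5) (nat_lit 57) (nat_lit 5) (nat_lit 449) (nat_lit 431) (nat_lit 320)) (XT.lf (nat_lit 0) (nat_lit 2570682983) (nat_lit 228) (nat_lit 64565940732) (nat_lit 76) (nat_lit 32893622364) (nat_lit 51) (nat_lit 5) (nat_lit 54) (nat_lit 5) (nat_lit 52) (nat_lit 5) (nat_lit 450) (nat_lit 431) (nat_lit 319)))) (XT.nd (nat_lit 78) (nat_lit 304) (nat_lit 0) (XT.lf (nat_lit 0) (nat_lit 23386598790) (nat_lit 228) (nat_lit 6647947005) (nat_lit 76) (nat_lit 74840770454) (nat_lit 51) (nat_lit 5) (nat_lit 54) (nat_lit 5) (nat_lit 52) (nat_lit 5) (nat_lit 451) (nat_lit 431) (nat_lit 318)) (XT.nd (nat_lit 78) (nat_lit 152) (nat_lit 0) (XT.lf (nat_lit 0) (nat_lit 47560077546) (nat_lit 228)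 (nat_lit 51427365052) (nat_lit 76) (nat_lit 10985166495) (nat_lit 49) (nat_lit 5) (nat_lit 52) (nat_lit 5) (nat_lit 50) (nat_lit 5) (nat_lit 452) (nat_lit 431) (nat_lit 317)) (XT.lf (nat_lit 0) (nat_lit 13771264306) (nat_lit 152) (nat_lit 61192949815) (nat_lit 228) (nat_lit 40409729097) (nat_lit 47) (nat_lit 5) (nat_lit 49) (nat_lit 5) (nat_lit 50) (nat_lit 5) (nat_lit 453) (nat_lit 431) (nat_lit 316)))))) (XT.nd (nat_lit 468) (nat_lit 532) (nat_lit 0) (XT.nd (nat_lit 234) (nat_lit 304) (nat_lit 0) (XT.nd (nat_lit 78) (nat_lit 152) (nat_lit 0) (XT.lf (nat_lit 0) (nat_lit 87108932837) (nat_lit 152) (nat_lit 18856876620) (nat_lit 228) (nat_lit 15129164590) (nat_lit 47) (nat_lit 5) (nat_lit 49) (nat_lit 5) (nat_lit 50) (nat_lit 5) (nat_lit 454) (nat_lit 431) (nat_lit 315)) (XT.nd (nat_lit 78) (nat_lit 0) (nat_lit 0) (XT.lf (nat_lit 0) (nat_lit 13224023138) (nat_lit 152) (nat_lit 87065148012)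 (nat_lit 76) (nat_lit 26828360815) (nat_lit 45) (nat_lit 5) (nat_lit 47) (nat_lit 5) (nat_lit 46) (nat_lit 5) (nat_lit 455) (nat_lit 431) (nat_lit 314)) (XT.lf (nat_lit 0) (nat_lit 44470344176) (nat_lit 152) (nat_lit 12509271488) (nat_lit 76) (nat_lit 76495462096) (nat_lit 45) (nat_lit 5) (nat_lit 47) (nat_lit 5) (nat_lit 46) (nat_lit 5) (nat_lit 456) (nat_lit 431) (nat_lit 313)))) (XT.nd (nat_lit 78) (nat_lit 152) (nat_lit 0) (XT.lf (nat_lit 0) (nat_lit 71590931377) (nat_lit 152) (nat_lit 8346353584) (nat_lit 228) (nat_lit 60266269279) (nat_lit 43) (nat_lit 5) (nat_lit 45) (nat_lit 5) (nat_lit 46) (nat_lit 5) (nat_lit 457) (nat_lit 431) (nat_lit 312)) (XT.nd (nat_lit 78) (nat_lit 76) (nat_lit 0) (XT.lf (nat_lit 0) (nat_lit 15384424158) (nat_lit 76) (nat_lit 104639700547) (nat_lit 152) (nat_lit 27303580773) (nat_lit 42) (nat_lit 5) (nat_lit 43) (nat_lit 5) (nat_lit 44) (nat_lit 4) (nat_lit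 458) (nat_lit 431) (nat_lit 311)) (XT.lf (nat_lit 0) (nat_lit 10021797366) (nat_lit 152) (nat_lit 45334887480) (nat_lit 76) (nat_lit 99477887914) (nat_lit 41) (nat_lit 5) (nat_lit 43) (nat_lit 5) (nat_lit 42) (nat_lit 5) (nat_lit 459) (nat_lit 431) (nat_lit 310))))) (XT.nd (nat_lit 234) (nat_lit 304) (nat_lit 0) (XT.nd (nat_lit 78) (nat_lit 76) (nat_lit 0) (XT.lf (nat_lit 0) (nat_lit 49992491075) (nat_lit 152) (nat_lit 67168009) (nat_lit 228) (nat_lit 112729471266) (nat_lit 39) (nat_lit 5) (nat_lit 41) (nat_lit 5) (nat_lit 42) (nat_lit 5) (nat_lit 460) (nat_lit 431) (nat_lit 309)) (XT.nd (nat_lit 78) (nat_lit 76) (nat_lit 0) (XT.lf (nat_lit 0) (nat_lit 96006004947) (nat_lit 228) (nat_lit 17224608152) (nat_lit 76) (nat_lit 57933003131) (nat_lit 39) (nat_lit 5) (nat_lit 42) (nat_lit 5) (nat_lit 40) (nat_lit 4) (nat_lit 461) (nat_lit 431) (nat_lit 308)) (XT.lf (nat_lit 0) (nat_lit 90518289758)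 (nat_lit 76) (nat_lit 57287783486) (nat_lit 152) (nat_lit 32227746648) (nat_lit 38) (nat_lit 5) (nat_lit 39) (nat_lit 5) (nat_lit 40) (nat_lit 4) (nat_lit 462) (nat_lit 431) (nat_lit 307)))) (XT.nd (nat_lit 78) (nat_lit 76) (nat_lit 0) (XT.lf (nat_lit 0) (nat_lit 14474223477) (nat_lit 228) (nat_lit 170744999035) (nat_lit 76) (nat_lit 4283628215) (nat_lit 35) (nat_lit 5) (nat_lit 38) (nat_lit 5) (nat_lit 36) (nat_lit 4) (nat_lit 463) (nat_lit 431) (nat_lit 306)) (XT.nd (nat_lit 78) (nat_lit 76) (nat_lit 0) (XT.lf (nat_lit 0) (nat_lit 67169612064) (nat_lit 228) (nat_lit 61139578417) (nat_lit 76) (nat_lit 71033375174) (nat_lit 35) (nat_lit 5) (nat_lit 38) (nat_lit 5) (nat_lit 36) (nat_lit 4) (nat_lit 464) (nat_lit 431) (nat_lit 305)) (XT.lf (nat_lit 0) (nat_lit 60246906646) (nat_lit 76) (nat_lit 65282032125) (nat_lit 152) (nat_lit 84324654514) (nat_lit 34) (nat_lit 5) (nat_lit 35) (nat_lit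 5) (nat_lit 36) (nat_lit 4) (nat_lit 465) (nat_lit 431) (nat_lit 304))))))))
noncomputable def xc169 : XT := (XT.nd (nat_lit 1794) (nat_lit 760) (nat_lit 0) (XT.nd (nat_lit 858) (nat_lit 684) (nat_lit 0) (XT.nd (nat_lit 390) (nat_lit 380) (nat_lit 0) (XT.nd (nat_lit 156) (nat_lit 152) (nat_lit 0) (XT.nd (nat_lit 78) (nat_lit 152) (nat_lit 0) (XT.lf (nat_lit 0) (nat_lit 190338505024) (nat_lit 152) (nat_lit 26362022503) (nat_lit 0) (nat_lit 4362456187) (nat_lit 34) (nat_lit 5) (nat_lit 36) (nat_lit 4) (nat_lit 34) (nat_lit 4) (nat_lit 466) (nat_lit 431) (nat_lit 303)) (XT.lf (nat_lit 0) (nat_lit 30272412214) (nat_lit 152) (nat_lit 123010157378) (nat_lit 76) (nat_lit 79476889618) (nat_lit 32) (nat_lit 5) (nat_lit 34) (nat_lit 5) (nat_lit 33) (nat_lit 4) (nat_lit 467) (nat_lit 431) (nat_lit 302))) (XT.nd (nat_lit 78) (nat_lit 76) (nat_lit 0) (XT.lf (nat_lit 0) (nat_lit 12733929513) (nat_lit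 76) (nat_lit 82800386098) (nat_lit 152) (nat_lit 149709879624) (nat_lit 31) (nat_lit 5) (nat_lit 32) (nat_lit 5) (nat_lit 33) (nat_lit 4) (nat_lit 468) (nat_lit 431) (nat_lit 301)) (XT.nd (nat_lit 78) (nat_lit 76) (nat_lit 0) (XT.lf (nat_lit 0) (nat_lit 166332180686) (nat_lit 76) (nat_lit 3047747212) (nat_lit 152) (nat_lit 89078761762) (nat_lit 31) (nat_lit 5) (nat_lit 32) (nat_lit 5) (nat_lit 33) (nat_lit 4) (nat_lit 469) (nat_lit 431) (nat_lit 300)) (XT.lf (nat_lit 0) (nat_lit 60515993514) (nat_lit 76) (nat_lit 192070276668) (nat_lit 76) (nat_lit 19867827017) (nat_lit 30) (nat_lit 4) (nat_lit 31) (nat_lit 5) (nat_lit 31) (nat_lit 4) (nat_lit 470) (nat_lit 431) (nat_lit 299))))) (XT.nd (nat_lit 234) (nat_lit 228) (nat_lit 0) (XT.nd (nat_lit 78) (nat_lit 76) (nat_lit 0) (XT.lf (nat_lit 0) (nat_lit 54797627117) (nat_lit 152) (nat_lit 58223879313) (nat_lit 76) (nat_lit 174229004667) (nat_lit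 29) (nat_lit 5) (nat_lit 31) (nat_lit 5) (nat_lit 30) (nat_lit 4) (nat_lit 471) (nat_lit 431) (nat_lit 298)) (XT.nd (nat_lit 78) (nat_lit 0) (nat_lit 0) (XT.lf (nat_lit 0) (nat_lit 112919171561) (nat_lit 76) (nat_lit 24158988414) (nat_lit 152) (nat_lit 165893976684) (nat_lit 28) (nat_lit 5) (nat_lit 29) (nat_lit 5) (nat_lit 30) (nat_lit 4) (nat_lit 472) (nat_lit 431) (nat_lit 297)) (XT.lf (nat_lit 0) (nat_lit 229301037633) (nat_lit 152) (nat_lit 20528610758) (nat_lit 0) (nat_lit 69853051733) (nat_lit 28) (nat_lit 5) (nat_lit 30) (nat_lit 4) (nat_lit 28) (nat_lit 4) (nat_lit 473) (nat_lit 431) (nat_lit 296)))) (XT.nd (nat_lit 78) (nat_lit 152) (nat_lit 0) (XT.lf (nat_lit 0) (nat_lit 170456224360) (nat_lit 76) (nat_lit 163172055327) (nat_lit 76) (nat_lit 3723706272) (nat_lit 27) (nat_lit 4) (nat_lit 28) (nat_lit 5) (nat_lit 28) (nat_lit 4) (nat_lit 474) (nat_lit 431) (nat_lit 295)) (XT.nd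 (nat_lit 78) (nat_lit 0) (nat_lit 0) (XT.lf (nat_lit 0) (nat_lit 20338053552) (nat_lit 76) (nat_lit 66097878592) (nat_lit 152) (nat_lit 269740814375) (nat_lit 25) (nat_lit 5) (nat_lit 26) (nat_lit 5) (nat_lit 27) (nat_lit 4) (nat_lit 475) (nat_lit 431) (nat_lit 294)) (XT.lf (nat_lit 0) (nat_lit 189220223346) (nat_lit 152) (nat_lit 145248218865) (nat_lit 0) (nat_lit 41582263479) (nat_lit 25) (nat_lit 5) (nat_lit 27) (nat_lit 4) (nat_lit 25) (nat_lit 4) (nat_lit 476) (nat_lit 431) (nat_lit 293)))))) (XT.nd (nat_lit 468) (nat_lit 304) (nat_lit 0) (XT.nd (nat_lit 234) (nat_lit 152) (nat_lit 0) (XT.nd (nat_lit 78) (nat_lit 152) (nat_lit 0) (XT.lf (nat_lit 0) (nat_lit 61971941384) (nat_lit 76) (nat_lit 241462159781) (nat_lit 76) (nat_lit 93823932985) (nat_lit 24) (nat_lit 4) (nat_lit 25) (nat_lit 5) (nat_lit 25) (nat_lit 4) (nat_lit 477) (nat_lit 431) (nat_lit 292)) (XT.nd (nat_lit 78) (nat_lit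 76) (nat_lit 0) (XT.lf (nat_lit 0) (nat_lit 10365909184) (nat_lit 152) (nat_lit 126077382848) (nat_lit 76) (nat_lit 283379987125) (nat_lit 23) (nat_lit 5) (nat_lit 25) (nat_lit 5) (nat_lit 24) (nat_lit 4) (nat_lit 478) (nat_lit 431) (nat_lit 291)) (XT.lf (nat_lit 0) (nat_lit 102560792636) (nat_lit 76) (nat_lit 17727426324) (nat_lit 152) (nat_lit 323513269233) (nat_lit 22) (nat_lit 5) (nat_lit 23) (nat_lit 5) (nat_lit 24) (nat_lit 4) (nat_lit 479) (nat_lit 431) (nat_lit 290)))) (XT.nd (nat_lit 78) (nat_lit 152) (nat_lit 0) (XT.lf (nat_lit 0) (nat_lit 245197835496) (nat_lit 152) (nat_lit 115509500012) (nat_lit 0) (nat_lit 108495136700) (nat_lit 22) (nat_lit 5) (nat_lit 24) (nat_lit 4) (nat_lit 22) (nat_lit 4) (nat_lit 480) (nat_lit 431) (nat_lit 289)) (XT.nd (nat_lit 78) (nat_lit 76) (nat_lit 0) (XT.lf (nat_lit 0) (nat_lit 134549764591) (nat_lit 76) (nat_lit 249246484314) (nat_lit 76) (nat_lit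 112543603851) (nat_lit 21) (nat_lit 4) (nat_lit 22) (nat_lit 5) (nat_lit 22) (nat_lit 4) (nat_lit 481) (nat_lit 431) (nat_lit 288)) (XT.lf (nat_lit 0) (nat_lit 10682324695) (nat_lit 152) (nat_lit 114483813307) (nat_lit 76) (nat_lit 400207819163) (nat_lit 20) (nat_lit 5) (nat_lit 22) (nat_lit 5) (nat_lit 21) (nat_lit 4) (nat_lit 482) (nat_lit 431) (nat_lit 287))))) (XT.nd (nat_lit 234) (nat_lit 152) (nat_lit 0) (XT.nd (nat_lit 78) (nat_lit 76) (nat_lit 0) (XT.lf (nat_lit 0) (nat_lit 141862136306) (nat_lit 152) (nat_lit 399015614693) (nat_lit 0) (nat_lit 15285095172) (nat_lit 19) (nat_lit 5) (nat_lit 21) (nat_lit 4) (nat_lit 19) (nat_lit 4) (nat_lit 483) (nat_lit 431) (nat_lit 286)) (XT.nd (nat_lit 78) (nat_lit 76) (nat_lit 0) (XT.lf (nat_lit 0) (nat_lit 289998572994) (nat_lit 152) (nat_lit 135477895775) (nat_lit 0) (nat_lit 163421398328) (nat_lit 19) (nat_lit 5) (nat_lit 21) (nat_lit 4)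 (nat_lit 19) (nat_lit 4) (nat_lit 484) (nat_lit 431) (nat_lit 285)) (XT.lf (nat_lit 0) (nat_lit 156995806461) (nat_lit 76) (nat_lit 296765572598) (nat_lit 76) (nat_lit 170188274292) (nat_lit 18) (nat_lit 4) (nat_lit 19) (nat_lit 5) (nat_lit 19) (nat_lit 4) (nat_lit 485) (nat_lit 431) (nat_lit 284)))) (XT.nd (nat_lit 78) (nat_lit 152) (nat_lit 0) (XT.lf (nat_lit 0) (nat_lit 480571567781) (nat_lit 76) (nat_lit 153757557148) (nat_lit 76) (nat_lit 27180144361) (nat_lit 18) (nat_lit 4) (nat_lit 19) (nat_lit 5) (nat_lit 19) (nat_lit 4) (nat_lit 486) (nat_lit 431) (nat_lit 283)) (XT.nd (nat_lit 78) (nat_lit 0) (nat_lit 0) (XT.lf (nat_lit 0) (nat_lit 124242096697) (nat_lit 152) (nat_lit 570278806035) (nat_lit 0) (nat_lit 7040690411) (nat_lit 16) (nat_lit 5) (nat_lit 18) (nat_lit 4) (nat_lit 16) (nat_lit 4) (nat_lit 487) (nat_lit 431) (nat_lit 282)) (XT.lf (nat_lit 0) (nat_lit 295378765952) (nat_lit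 152) (nat_lit 270480063336) (nat_lit 0) (nat_lit 178177268787) (nat_lit 16) (nat_lit 5) (nat_lit 18) (nat_lit 4) (nat_lit 16) (nat_lit 4) (nat_lit 488) (nat_lit 431) (nat_lit 281))))))) (XT.nd (nat_lit 936) (nat_lit 228) (nat_lit 0) (XT.nd (nat_lit 468) (nat_lit 228) (nat_lit 0) (XT.nd (nat_lit 234) (nat_lit 152) (nat_lit 0) (XT.nd (nat_lit 78) (nat_lit 76) (nat_lit 0) (XT.lf (nat_lit 0) (nat_lit 56108855124) (nat_lit 76) (nat_lit 425446678215) (nat_lit 76) (nat_lit 308245096903) (nat_lit 15) (nat_lit 4) (nat_lit 16) (nat_lit 5) (nat_lit 16) (nat_lit 4) (nat_lit 489) (nat_lit 431) (nat_lit 280)) (XT.nd (nat_lit 78) (nat_lit 76) (nat_lit 0) (XT.lf (nat_lit 0) (nat_lit 424206825158) (nat_lit 76) (nat_lit 265814773275) (nat_lit 76) (nat_lit 148613114048) (nat_lit 15) (nat_lit 4) (nat_lit 16) (nat_lit 5) (nat_lit 16) (nat_lit 4) (nat_lit 490) (nat_lit 431) (nat_lit 279)) (XT.lf (nat_lit 0)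 (nat_lit 22599148376) (nat_lit 152) (nat_lit 70195502745) (nat_lit 76) (nat_lit 798535118125) (nat_lit 14) (nat_lit 5) (nat_lit 16) (nat_lit 5) (nat_lit 15) (nat_lit 4) (nat_lit 491) (nat_lit 431) (nat_lit 278)))) (XT.nd (nat_lit 78) (nat_lit 76) (nat_lit 0) (XT.lf (nat_lit 0) (nat_lit 209574633277) (nat_lit 152) (nat_lit 636494924243) (nat_lit 0) (nat_lit 101054449789) (nat_lit 13) (nat_lit 5) (nat_lit 15) (nat_lit 4) (nat_lit 13) (nat_lit 4) (nat_lit 492) (nat_lit 431) (nat_lit 277)) (XT.nd (nat_lit 78) (nat_lit 76) (nat_lit 0) (XT.lf (nat_lit 0) (nat_lit 415887310660) (nat_lit 152) (nat_lit 283777071565) (nat_lit 0) (nat_lit 307367069902) (nat_lit 13) (nat_lit 5) (nat_lit 15) (nat_lit 4) (nat_lit 13) (nat_lit 4) (nat_lit 493) (nat_lit 431) (nat_lit 276)) (XT.lf (nat_lit 0) (nat_lit 102273956614) (nat_lit 76) (nat_lit 538890535266) (nat_lit 76) (nat_lit 430370241481) (nat_lit 12) (nat_lit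 4) (nat_lit 13) (nat_lit 5) (nat_lit 13) (nat_lit 4) (nat_lit 494) (nat_lit 431) (nat_lit 275))))) (XT.nd (nat_lit 234) (nat_lit 76) (nat_lit 0) (XT.nd (nat_lit 78) (nat_lit 152) (nat_lit 0) (XT.lf (nat_lit 0) (nat_lit 535347320706) (nat_lit 76) (nat_lit 356875298764) (nat_lit 76) (nat_lit 248354955879) (nat_lit 12) (nat_lit 4) (nat_lit 13) (nat_lit 5) (nat_lit 13) (nat_lit 4) (nat_lit 495) (nat_lit 431) (nat_lit 274)) (XT.nd (nat_lit 78) (nat_lit 152) (nat_lit 0) (XT.lf (nat_lit 0) (nat_lit 1003066183694) (nat_lit 76) (nat_lit 160299031941) (nat_lit 76) (nat_lit 51778643594) (nat_lit 12) (nat_lit 4) (nat_lit 13) (nat_lit 5) (nat_lit 13) (nat_lit 4) (nat_lit 496) (nat_lit 431) (nat_lit 273)) (XT.lf (nat_lit 0) (nat_lit 159264404546) (nat_lit 152) (nat_lit 1076778014309) (nat_lit 0) (nat_lit 58782524508) (nat_lit 10) (nat_lit 5) (nat_lit 12) (nat_lit 4) (nat_lit 10) (nat_lit 4) (nat_lit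 497) (nat_lit 431) (nat_lit 272)))) (XT.nd (nat_lit 78) (nat_lit 76) (nat_lit 0) (XT.lf (nat_lit 0) (nat_lit 394506135817) (nat_lit 152) (nat_lit 691433556260) (nat_lit 0) (nat_lit 294024219690) (nat_lit 10) (nat_lit 5) (nat_lit 12) (nat_lit 4) (nat_lit 10) (nat_lit 4) (nat_lit 498) (nat_lit 431) (nat_lit 271)) (XT.nd (nat_lit 78) (nat_lit 76) (nat_lit 0) (XT.lf (nat_lit 0) (nat_lit 648567046124) (nat_lit 152) (nat_lit 275261867700) (nat_lit 0) (nat_lit 548085096580) (nat_lit 10) (nat_lit 5) (nat_lit 12) (nat_lit 4) (nat_lit 10) (nat_lit 4) (nat_lit 499) (nat_lit 431) (nat_lit 270)) (XT.lf (nat_lit 0) (nat_lit 183376488608) (nat_lit 76) (nat_lit 743986401953) (nat_lit 76) (nat_lit 643504421469) (nat_lit 9) (nat_lit 4) (nat_lit 10) (nat_lit 5) (nat_lit 10) (nat_lit 4) (nat_lit 500) (nat_lit 431) (nat_lit 269)))))) (XT.nd (nat_lit 468) (nat_lit 76) (nat_lit 0) (XT.nd (nat_lit 234) (nat_lit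 76) (nat_lit 0) (XT.nd (nat_lit 78) (nat_lit 76) (nat_lit 0) (XT.lf (nat_lit 0) (nat_lit 694360005411) (nat_lit 76) (nat_lit 541628400616) (nat_lit 76) (nat_lit 441146391483) (nat_lit 9) (nat_lit 4) (nat_lit 10) (nat_lit 5) (nat_lit 10) (nat_lit 4) (nat_lit 501) (nat_lit 431) (nat_lit 268)) (XT.nd (nat_lit 78) (nat_lit 76) (nat_lit 0) (XT.lf (nat_lit 0) (nat_lit 1246221931032) (nat_lit 76) (nat_lit 323081898556) (nat_lit 76) (nat_lit 222599862896) (nat_lit 9) (nat_lit 4) (nat_lit 10) (nat_lit 5) (nat_lit 10) (nat_lit 4) (nat_lit 502) (nat_lit 431) (nat_lit 267)) (XT.lf (nat_lit 0) (nat_lit 12758419092) (nat_lit 152) (nat_lit 73944548509) (nat_lit 76) (nat_lit 1829125301481) (nat_lit 8) (nat_lit 5) (nat_lit 10) (nat_lit 5) (nat_lit 9) (nat_lit 4) (nat_lit 503) (nat_lit 431) (nat_lit 266)))) (XT.nd (nat_lit 78) (nat_lit 0) (nat_lit 0) (XT.lf (nat_lit 0) (nat_lit 270286077137) (nat_lit 152)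 (nat_lit 1600441727042) (nat_lit 0) (nat_lit 177247111429) (nat_lit 7) (nat_lit 5) (nat_lit 9) (nat_lit 4) (nat_lit 7) (nat_lit 4) (nat_lit 504) (nat_lit 431) (nat_lit 265)) (XT.nd (nat_lit 78) (nat_lit 0) (nat_lit 0) (XT.lf (nat_lit 0) (nat_lit 552742144651) (nat_lit 152) (nat_lit 1177901894016) (nat_lit 0) (nat_lit 459703159445) (nat_lit 7) (nat_lit 5) (nat_lit 9) (nat_lit 4) (nat_lit 7) (nat_lit 4) (nat_lit 505) (nat_lit 431) (nat_lit 264)) (XT.lf (nat_lit 0) (nat_lit 857794589287) (nat_lit 152) (nat_lit 721559096565) (nat_lit 0) (nat_lit 764755586028) (nat_lit 7) (nat_lit 5) (nat_lit 9) (nat_lit 4) (nat_lit 7) (nat_lit 4) (nat_lit 506) (nat_lit 431) (nat_lit 263))))) (XT.nd (nat_lit 234) (nat_lit 0) (nat_lit 0) (XT.nd (nat_lit 78) (nat_lit 76) (nat_lit 0) (XT.lf (nat_lit 0) (nat_lit 1187251129237) (nat_lit 152) (nat_lit 228709081073) (nat_lit 0) (nat_lit 1094212109261) (nat_lit 7) (nat_lit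 5) (nat_lit 9) (nat_lit 4) (nat_lit 7) (nat_lit 4) (nat_lit 507) (nat_lit 431) (nat_lit 262)) (XT.nd (nat_lit 78) (nat_lit 0) (nat_lit 0) (XT.lf (nat_lit 0) (nat_lit 319554137291) (nat_lit 76) (nat_lit 1231195246947) (nat_lit 76) (nat_lit 1138156211493) (nat_lit 6) (nat_lit 4) (nat_lit 7) (nat_lit 5) (nat_lit 7) (nat_lit 4) (nat_lit 508) (nat_lit 431) (nat_lit 261)) (XT.lf (nat_lit 0) (nat_lit 924685115527) (nat_lit 76) (nat_lit 1024895605274) (nat_lit 76) (nat_lit 931856555489) (nat_lit 6) (nat_lit 4) (nat_lit 7) (nat_lit 5) (nat_lit 7) (nat_lit 4) (nat_lit 509) (nat_lit 431) (nat_lit 260)))) (XT.nd (nat_lit 78) (nat_lit 0) (nat_lit 0) (XT.lf (nat_lit 0) (nat_lit 1578226400086) (nat_lit 76) (nat_lit 802092080482) (nat_lit 76) (nat_lit 709053017427) (nat_lit 6) (nat_lit 4) (nat_lit 7) (nat_lit 5) (nat_lit 7) (nat_lit 4) (nat_lit 510) (nat_lit 431) (nat_lit 259)) (XT.nd (nat_lit 78) (nat_lit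 0) (nat_lit 0) (XT.lf (nat_lit 0) (nat_lit 2284050828208) (nat_lit 76) (nat_lit 561464355386) (nat_lit 76) (nat_lit 468425280044) (nat_lit 6) (nat_lit 4) (nat_lit 7) (nat_lit 5) (nat_lit 7) (nat_lit 4) (nat_lit 511) (nat_lit 431) (nat_lit 258)) (XT.lf (nat_lit 0) (nat_lit 3046341063173) (nat_lit 76) (nat_lit 301586487911) (nat_lit 76) (nat_lit 208547401192) (nat_lit 6) (nat_lit 4) (nat_lit 7) (nat_lit 5) (nat_lit 7) (nat_lit 4) (nat_lit 512) (nat_lit 431) (nat_lit 257))))))))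
noncomputable def xc170 : XT := (XT.nd (nat_lit 56784) (nat_lit 0) (nat_lit 2660) (XT.nd (nat_lit 858) (nat_lit 0) (nat_lit 0) (XT.nd (nat_lit 390) (nat_lit 76) (nat_lit 0) (XT.nd (nat_lit 156) (nat_lit 0) (nat_lit 0) (XT.nd (nat_lit 78) (nat_lit 0) (nat_lit 0) (XT.lf (nat_lit 0) (nat_lit 52072552035) (nat_lit 76) (nat_lit 17692663968) (nat_lit 152) (nat_lit 3748408041386) (nat_lit 4) (nat_lit 5) (nat_lit 5) (nat_lit 5) (nat_lit 6) (nat_lit 4) (nat_lit 513) (nat_lit 431) (nat_lit 256)) (XT.lf (nat_lit 0) (nat_lit 380334403907) (nat_lit 152) (nat_lit 3424151912126) (nat_lit 0) (nat_lit 294187082604) (nat_lit 4) (nat_lit 5) (nat_lit 6) (nat_lit 4) (nat_lit 4) (nat_lit 4) (nat_lit 514) (nat_lit 431) (nat_lit 255))) (XT.nd (nat_lit 78) (nat_lit 0) (nat_lit 0) (XT.lf (nat_lit 0) (nat_lit 716208613494) (nat_lit 152) (nat_lit 3055306894933) (nat_lit 0) (nat_lit 630061283829) (nat_lit 4) (nat_lit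 5) (nat_lit 6) (nat_lit 4) (nat_lit 4) (nat_lit 4) (nat_lit 515) (nat_lit 431) (nat_lit 254)) (XT.nd (nat_lit 78) (nat_lit 0) (nat_lit 0) (XT.lf (nat_lit 0) (nat_lit 1078952701456) (nat_lit 152) (nat_lit 2656954396530) (nat_lit 0) (nat_lit 992805364048) (nat_lit 4) (nat_lit 5) (nat_lit 6) (nat_lit 4) (nat_lit 4) (nat_lit 4) (nat_lit 516) (nat_lit 431) (nat_lit 253)) (XT.lf (nat_lit 0) (nat_lit 1470716262388) (nat_lit 152) (nat_lit 2226733809522) (nat_lit 0) (nat_lit 1384568917811) (nat_lit 4) (nat_lit 5) (nat_lit 6) (nat_lit 4) (nat_lit 4) (nat_lit 4) (nat_lit 517) (nat_lit 431) (nat_lit 252))))) (XT.nd (nat_lit 234) (nat_lit 76) (nat_lit 0) (XT.nd (nat_lit 78) (nat_lit 0) (nat_lit 0) (XT.lf (nat_lit 0) (nat_lit 1893820858134) (nat_lit 152) (nat_lit 1762095678576) (nat_lit 0) (nat_lit 1807673506919) (nat_lit 4) (nat_lit 5) (nat_lit 6) (nat_lit 4) (nat_lit 4) (nat_lit 4) (nat_lit 518) (nat_lit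 431) (nat_lit 251)) (XT.nd (nat_lit 78) (nat_lit 0) (nat_lit 0) (XT.lf (nat_lit 0) (nat_lit 2350773775187) (nat_lit 152) (nat_lit 1260286592546) (nat_lit 0) (nat_lit 2264626417824) (nat_lit 4) (nat_lit 5) (nat_lit 6) (nat_lit 4) (nat_lit 4) (nat_lit 4) (nat_lit 519) (nat_lit 431) (nat_lit 250)) (XT.lf (nat_lit 0) (nat_lit 2844282882684) (nat_lit 152) (nat_lit 718332867961) (nat_lit 0) (nat_lit 2758135519630) (nat_lit 4) (nat_lit 5) (nat_lit 6) (nat_lit 4) (nat_lit 4) (nat_lit 4) (nat_lit 520) (nat_lit 431) (nat_lit 249)))) (XT.nd (nat_lit 78) (nat_lit 76) (nat_lit 0) (XT.lf (nat_lit 0) (nat_lit 3377272679040) (nat_lit 152) (nat_lit 133022927192) (nat_lit 0) (nat_lit 3291125310717) (nat_lit 4) (nat_lit 5) (nat_lit 6) (nat_lit 4) (nat_lit 4) (nat_lit 4) (nat_lit 521) (nat_lit 431) (nat_lit 248)) (XT.nd (nat_lit 78) (nat_lit 0) (nat_lit 0) (XT.lf (nat_lit 0) (nat_lit 525394072476) (nat_lit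 76) (nat_lit 3440143289910) (nat_lit 76) (nat_lit 3353995916708) (nat_lit 3) (nat_lit 4) (nat_lit 4) (nat_lit 5) (nat_lit 4) (nat_lit 4) (nat_lit 522) (nat_lit 431) (nat_lit 247)) (XT.lf (nat_lit 0) (nat_lit 1244049490048) (nat_lit 76) (nat_lit 3360450777074) (nat_lit 76) (nat_lit 3274303399353) (nat_lit 3) (nat_lit 4) (nat_lit 4) (nat_lit 5) (nat_lit 4) (nat_lit 4) (nat_lit 523) (nat_lit 431) (nat_lit 246)))))) (XT.nd (nat_lit 55458) (nat_lit 0) (nat_lit 5244) (XT.nd (nat_lit 234) (nat_lit 0) (nat_lit 0) (XT.nd (nat_lit 78) (nat_lit 0) (nat_lit 0) (XT.lf (nat_lit 0) (nat_lit 2020197272685) (nat_lit 76) (nat_lit 3274382898360) (nat_lit 76) (nat_lit 3188235516456) (nat_lit 3) (nat_lit 4) (nat_lit 4) (nat_lit 5) (nat_lit 4) (nat_lit 4) (nat_lit 524) (nat_lit 431) (nat_lit 245)) (XT.nd (nat_lit 78) (nat_lit 0) (nat_lit 0) (XT.lf (nat_lit 0) (nat_lit 2858436814654) (nat_lit 76) (nat_lit 3181429621896)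 (nat_lit 76) (nat_lit 3095282236119) (nat_lit 3) (nat_lit 4) (nat_lit 4) (nat_lit 5) (nat_lit 4) (nat_lit 4) (nat_lit 525) (nat_lit 431) (nat_lit 244)) (XT.lf (nat_lit 0) (nat_lit 3763735461389) (nat_lit 76) (nat_lit 3081040113450) (nat_lit 76) (nat_lit 2994892724087) (nat_lit 3) (nat_lit 4) (nat_lit 4) (nat_lit 5) (nat_lit 4) (nat_lit 4) (nat_lit 526) (nat_lit 431) (nat_lit 243)))) (XT.nd (nat_lit 55068) (nat_lit 0) (nat_lit 5700) (XT.lf (nat_lit 0) (nat_lit 4741457945612) (nat_lit 76) (nat_lit 2972619472233) (nat_lit 76) (nat_lit 2886472079548) (nat_lit 3) (nat_lit 4) (nat_lit 4) (nat_lit 5) (nat_lit 4) (nat_lit 4) (nat_lit 527) (nat_lit 431) (nat_lit 242)) (XT.nd (nat_lit 78) (nat_lit 0) (nat_lit 0) (XT.lf (nat_lit 0) (nat_lit 22571272987) (nat_lit 532) (nat_lit 638612975) (nat_lit 532) (nat_lit 638612975) (nat_lit 78) (nat_lit 3) (nat_lit 85) (nat_lit 3) (nat_lit 85) (nat_lit 5) (nat_lit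 432) (nat_lit 432) (nat_lit 336)) (XT.lf (nat_lit 76) (nat_lit 23458980425) (nat_lit 0) (nat_lit 24080556626) (nat_lit 532) (nat_lit 2018026706) (nat_lit 79) (nat_lit 5) (nat_lit 78) (nat_lit 3) (nat_lit 85) (nat_lit 5) (nat_lit 433) (nat_lit 432) (nat_lit 335))))) (XT.nd (nat_lit 234) (nat_lit 0) (nat_lit 76) (XT.nd (nat_lit 78) (nat_lit 532) (nat_lit 0) (XT.lf (nat_lit 0) (nat_lit 50162498100) (nat_lit 456) (nat_lit 1321261114) (nat_lit 532) (nat_lit 80479933) (nat_lit 79) (nat_lit 5) (nat_lit 85) (nat_lit 5) (nat_lit 86) (nat_lit 5) (nat_lit 434) (nat_lit 432) (nat_lit 334)) (XT.nd (nat_lit 78) (nat_lit 0) (nat_lit 0) (XT.lf (nat_lit 0) (nat_lit 584248084) (nat_lit 532) (nat_lit 27528525831) (nat_lit 608) (nat_lit 25517405921) (nat_lit 72) (nat_lit 5) (nat_lit 79) (nat_lit 5) (nat_lit 80) (nat_lit 5) (nat_lit 435) (nat_lit 432) (nat_lit 333)) (XT.lf (nat_lit 0) (nat_lit 2688017092) (nat_lit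 532) (nat_lit 104055307) (nat_lit 608) (nat_lit 53063641046) (nat_lit 72) (nat_lit 5) (nat_lit 79) (nat_lit 5) (nat_lit 80) (nat_lit 5) (nat_lit 436) (nat_lit 432) (nat_lit 332)))) (XT.nd (nat_lit 78) (nat_lit 0) (nat_lit 0) (XT.lf (nat_lit 0) (nat_lit 6314946587) (nat_lit 532) (nat_lit 27742805614) (nat_lit 608) (nat_lit 24093149624) (nat_lit 73) (nat_lit 5) (nat_lit 80) (nat_lit 5) (nat_lit 81) (nat_lit 5) (nat_lit 437) (nat_lit 432) (nat_lit 331)) (XT.nd (nat_lit 78) (nat_lit 0) (nat_lit 76) (XT.lf (nat_lit 76) (nat_lit 2803550007) (nat_lit 0) (nat_lit 7569235760) (nat_lit 608) (nat_lit 50245659826) (nat_lit 74) (nat_lit 5) (nat_lit 73) (nat_lit 5) (nat_lit 81) (nat_lit 5) (nat_lit 438) (nat_lit 432) (nat_lit 330)) (XT.lf (nat_lit 0) (nat_lit 16037476325) (nat_lit 532) (nat_lit 26378895299) (nat_lit 76) (nat_lit 20764443984) (nat_lit 74) (nat_lit 5) (nat_lit 81) (nat_lit 5) (nat_lit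 75) (nat_lit 5) (nat_lit 439) (nat_lit 432) (nat_lit 329))))))) (XT.nd (nat_lit 936) (nat_lit 988) (nat_lit 0) (XT.nd (nat_lit 468) (nat_lit 836) (nat_lit 0) (XT.nd (nat_lit 234) (nat_lit 228) (nat_lit 0) (XT.nd (nat_lit 78) (nat_lit 228) (nat_lit 0) (XT.lf (nat_lit 0) (nat_lit 7761921581) (nat_lit 456) (nat_lit 14774857166) (nat_lit 532) (nat_lit 43380882184) (nat_lit 68) (nat_lit 5) (nat_lit 74) (nat_lit 5) (nat_lit 75) (nat_lit 5) (nat_lit 440) (nat_lit 432) (nat_lit 328)) (XT.nd (nat_lit 78) (nat_lit 228) (nat_lit 0) (XT.lf (nat_lit 0) (nat_lit 30656885882) (nat_lit 532) (nat_lit 23064758583) (nat_lit 76) (nat_lit 15063741162) (nat_lit 68) (nat_lit 5) (nat_lit 75) (nat_lit 5) (nat_lit 69) (nat_lit 5) (nat_lit 441) (nat_lit 432) (nat_lit 327)) (XT.lf (nat_lit 0) (nat_lit 15208842381) (nat_lit 228) (nat_lit 24965679359) (nat_lit 304) (nat_lit 31648173492) (nat_lit 65) (nat_lit 5) (nat_lit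 68) (nat_lit 5) (nat_lit 69) (nat_lit 5) (nat_lit 442) (nat_lit 432) (nat_lit 326)))) (XT.nd (nat_lit 78) (nat_lit 228) (nat_lit 0) (XT.lf (nat_lit 0) (nat_lit 51245524198) (nat_lit 304) (nat_lit 17361138306) (nat_lit 76) (nat_lit 6432971147) (nat_lit 65) (nat_lit 5) (nat_lit 69) (nat_lit 5) (nat_lit 66) (nat_lit 5) (nat_lit 443) (nat_lit 432) (nat_lit 325)) (XT.nd (nat_lit 78) (nat_lit 0) (nat_lit 0) (XT.lf (nat_lit 0) (nat_lit 25665581592) (nat_lit 228) (nat_lit 38800917621) (nat_lit 304) (nat_lit 13946285010) (nat_lit 62) (nat_lit 5) (nat_lit 65) (nat_lit 5) (nat_lit 66) (nat_lit 5) (nat_lit 444) (nat_lit 432) (nat_lit 324)) (XT.lf (nat_lit 0) (nat_lit 73120175203) (nat_lit 228) (nat_lit 6098303496) (nat_lit 304) (nat_lit 2799442457) (nat_lit 62) (nat_lit 5) (nat_lit 65) (nat_lit 5) (nat_lit 66) (nat_lit 5) (nat_lit 445) (nat_lit 432) (nat_lit 323))))) (XT.nd (nat_lit 234) (nat_lit 380)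 (nat_lit 0) (XT.nd (nat_lit 78) (nat_lit 228) (nat_lit 0) (XT.lf (nat_lit 0) (nat_lit 10477337418) (nat_lit 228) (nat_lit 46300674464) (nat_lit 76) (nat_lit 28979651834) (nat_lit 59) (nat_lit 5) (nat_lit 62) (nat_lit 5) (nat_lit 60) (nat_lit 5) (nat_lit 446) (nat_lit 432) (nat_lit 322)) (XT.nd (nat_lit 78) (nat_lit 0) (nat_lit 0) (XT.lf (nat_lit 0) (nat_lit 2284230913) (nat_lit 228) (nat_lit 22842480515) (nat_lit 304) (nat_lit 64627122027) (nat_lit 56) (nat_lit 5) (nat_lit 59) (nat_lit 5) (nat_lit 60) (nat_lit 5) (nat_lit 447) (nat_lit 432) (nat_lit 321)) (XT.lf (nat_lit 0) (nat_lit 42577746331) (nat_lit 304) (nat_lit 36945948149) (nat_lit 76) (nat_lit 14415625731) (nat_lit 56) (nat_lit 5) (nat_lit 60) (nat_lit 5) (nat_lit 57) (nat_lit 5) (nat_lit 448) (nat_lit 432) (nat_lit 320)))) (XT.nd (nat_lit 78) (nat_lit 228) (nat_lit 0) (XT.lf (nat_lit 0) (nat_lit 17921249321) (nat_lit 152) (nat_lit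 44526827449) (nat_lit 228) (nat_lit 35929712415) (nat_lit 54) (nat_lit 5) (nat_lit 56) (nat_lit 5) (nat_lit 57) (nat_lit 5) (nat_lit 449) (nat_lit 432) (nat_lit 319)) (XT.nd (nat_lit 78) (nat_lit 228) (nat_lit 0) (XT.lf (nat_lit 0) (nat_lit 79277478608) (nat_lit 152) (nat_lit 5639663760) (nat_lit 228) (nat_lit 18173464883) (nat_lit 54) (nat_lit 5) (nat_lit 56) (nat_lit 5) (nat_lit 57) (nat_lit 5) (nat_lit 450) (nat_lit 432) (nat_lit 318)) (XT.lf (nat_lit 0) (nat_lit 2796897714) (nat_lit 228) (nat_lit 69700324568) (nat_lit 76) (nat_lit 35533794115) (nat_lit 51) (nat_lit 5) (nat_lit 54) (nat_lit 5) (nat_lit 52) (nat_lit 5) (nat_lit 451) (nat_lit 432) (nat_lit 317)))))) (XT.nd (nat_lit 468) (nat_lit 532) (nat_lit 0) (XT.nd (nat_lit 234) (nat_lit 152) (nat_lit 0) (XT.nd (nat_lit 78) (nat_lit 304) (nat_lit 0) (XT.lf (nat_lit 0) (nat_lit 25276563816) (nat_lit 228) (nat_lit 7151179596) (nat_lit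 76) (nat_lit 80836070944) (nat_lit 51) (nat_lit 5) (nat_lit 54) (nat_lit 5) (nat_lit 52) (nat_lit 5) (nat_lit 452) (nat_lit 432) (nat_lit 316)) (XT.nd (nat_lit 78) (nat_lit 152) (nat_lit 0) (XT.lf (nat_lit 0) (nat_lit 51383411643) (nat_lit 228) (nat_lit 55512437948) (nat_lit 76) (nat_lit 11873082087) (nat_lit 49) (nat_lit 5) (nat_lit 52) (nat_lit 5) (nat_lit 50) (nat_lit 5) (nat_lit 453) (nat_lit 432) (nat_lit 315)) (XT.lf (nat_lit 0) (nat_lit 14901344637) (nat_lit 152) (nat_lit 66077844591) (nat_lit 228) (nat_lit 43623238788) (nat_lit 47) (nat_lit 5) (nat_lit 49) (nat_lit 5) (nat_lit 50) (nat_lit 5) (nat_lit 454) (nat_lit 432) (nat_lit 314)))) (XT.nd (nat_lit 78) (nat_lit 152) (nat_lit 0) (XT.lf (nat_lit 0) (nat_lit 94103924489) (nat_lit 152) (nat_lit 20355666371) (nat_lit 228) (nat_lit 16321656427) (nat_lit 47) (nat_lit 5) (nat_lit 49) (nat_lit 5) (nat_lit 50) (nat_lit 5) (nat_lit 455)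 (nat_lit 432) (nat_lit 313)) (XT.nd (nat_lit 78) (nat_lit 0) (nat_lit 0) (XT.lf (nat_lit 0) (nat_lit 14298519526) (nat_lit 152) (nat_lit 94002810056) (nat_lit 76) (nat_lit 28984276103) (nat_lit 45) (nat_lit 5) (nat_lit 47) (nat_lit 5) (nat_lit 46) (nat_lit 5) (nat_lit 456) (nat_lit 432) (nat_lit 312)) (XT.lf (nat_lit 0) (nat_lit 48043318503) (nat_lit 152) (nat_lit 13484504135) (nat_lit 76) (nat_lit 82624030937) (nat_lit 45) (nat_lit 5) (nat_lit 47) (nat_lit 5) (nat_lit 46) (nat_lit 5) (nat_lit 457) (nat_lit 432) (nat_lit 311))))) (XT.nd (nat_lit 234) (nat_lit 228) (nat_lit 0) (XT.nd (nat_lit 78) (nat_lit 152) (nat_lit 0) (XT.lf (nat_lit 0) (nat_lit 77343069159) (nat_lit 152) (nat_lit 9004006554) (nat_lit 228) (nat_lit 65071575765) (nat_lit 43) (nat_lit 5) (nat_lit 45) (nat_lit 5) (nat_lit 46) (nat_lit 5) (nat_lit 458) (nat_lit 432) (nat_lit 310)) (XT.nd (nat_lit 78) (nat_lit 76) (nat_lit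 0) (XT.lf (nat_lit 0) (nat_lit 16640333253) (nat_lit 76) (nat_lit 113000261399) (nat_lit 152) (nat_lit 29472161786) (nat_lit 42) (nat_lit 5) (nat_lit 43) (nat_lit 5) (nat_lit 44) (nat_lit 4) (nat_lit 459) (nat_lit 432) (nat_lit 309)) (XT.lf (nat_lit 0) (nat_lit 10837355784) (nat_lit 152) (nat_lit 48937657252) (nat_lit 76) (nat_lit 107445218419) (nat_lit 41) (nat_lit 5) (nat_lit 43) (nat_lit 5) (nat_lit 42) (nat_lit 5) (nat_lit 460) (nat_lit 432) (nat_lit 308)))) (XT.nd (nat_lit 78) (nat_lit 76) (nat_lit 0) (XT.lf (nat_lit 0) (nat_lit 54015303455) (nat_lit 152) (nat_lit 62482764) (nat_lit 228) (nat_lit 121733404394) (nat_lit 39) (nat_lit 5) (nat_lit 41) (nat_lit 5) (nat_lit 42) (nat_lit 5) (nat_lit 461) (nat_lit 432) (nat_lit 307)) (XT.nd (nat_lit 78) (nat_lit 76) (nat_lit 0) (XT.lf (nat_lit 0) (nat_lit 103699074528) (nat_lit 228) (nat_lit 18580131113) (nat_lit 76) (nat_lit 62576491075)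 (nat_lit 39) (nat_lit 5) (nat_lit 42) (nat_lit 5) (nat_lit 40) (nat_lit 4) (nat_lit 462) (nat_lit 432) (nat_lit 306)) (XT.lf (nat_lit 0) (nat_lit 97781630385) (nat_lit 76) (nat_lit 61861111524) (nat_lit 152) (nat_lit 34792807397) (nat_lit 38) (nat_lit 5) (nat_lit 39) (nat_lit 5) (nat_lit 40) (nat_lit 4) (nat_lit 463) (nat_lit 432) (nat_lit 305))))))))
noncomputable def xc171 : XT := (XT.nd (nat_lit 1794) (nat_lit 912) (nat_lit 0) (XT.nd (nat_lit 858) (nat_lit 760) (nat_lit 0) (XT.nd (nat_lit 390) (nat_lit 304) (nat_lit 0) (XT.nd (nat_lit 156) (nat_lit 228) (nat_lit 0) (XT.nd (nat_lit 78) (nat_lit 0) (nat_lit 0) (XT.lf (nat_lit 0) (nat_lit 15644501610) (nat_lit 228) (nat_lit 184381900013) (nat_lit 76) (nat_lit 4635688610) (nat_lit 35) (nat_lit 5) (nat_lit 38) (nat_lit 5) (nat_lit 36) (nat_lit 4) (nat_lit 464) (nat_lit 432) (nat_lit 304)) (XT.lf (nat_lit 0) (nat_lit 72554607191) (nat_lit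 228) (nat_lit 66009727149) (nat_lit 76) (nat_lit 76724721242) (nat_lit 35) (nat_lit 5) (nat_lit 38) (nat_lit 5) (nat_lit 36) (nat_lit 4) (nat_lit 465) (nat_lit 432) (nat_lit 303))) (XT.nd (nat_lit 78) (nat_lit 152) (nat_lit 0) (XT.lf (nat_lit 0) (nat_lit 65087144629) (nat_lit 76) (nat_lit 70495181698) (nat_lit 152) (nat_lit 91058667482) (nat_lit 34) (nat_lit 5) (nat_lit 35) (nat_lit 5) (nat_lit 36) (nat_lit 4) (nat_lit 466) (nat_lit 432) (nat_lit 302)) (XT.nd (nat_lit 78) (nat_lit 152) (nat_lit 0) (XT.lf (nat_lit 0) (nat_lit 205576047312) (nat_lit 152) (nat_lit 28451404668) (nat_lit 0) (nat_lit 4719732423) (nat_lit 34) (nat_lit 5) (nat_lit 36) (nat_lit 4) (nat_lit 34) (nat_lit 4) (nat_lit 467) (nat_lit 432) (nat_lit 301)) (XT.lf (nat_lit 0) (nat_lit 32704615552) (nat_lit 152) (nat_lit 132831336922) (nat_lit 76) (nat_lit 85843429737) (nat_lit 32) (nat_lit 5) (nat_lit 34) (nat_lit 5) (nat_lit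 33) (nat_lit 4) (nat_lit 468) (nat_lit 432) (nat_lit 300))))) (XT.nd (nat_lit 234) (nat_lit 152) (nat_lit 0) (XT.nd (nat_lit 78) (nat_lit 76) (nat_lit 0) (XT.lf (nat_lit 0) (nat_lit 13771779881) (nat_lit 76) (nat_lit 89415380423) (nat_lit 152) (nat_lit 161675761755) (nat_lit 31) (nat_lit 5) (nat_lit 32) (nat_lit 5) (nat_lit 33) (nat_lit 4) (nat_lit 469) (nat_lit 432) (nat_lit 299)) (XT.nd (nat_lit 78) (nat_lit 76) (nat_lit 0) (XT.lf (nat_lit 0) (nat_lit 179656473666) (nat_lit 76) (nat_lit 3283199801) (nat_lit 152) (nat_lit 96194962481) (nat_lit 31) (nat_lit 5) (nat_lit 32) (nat_lit 5) (nat_lit 33) (nat_lit 4) (nat_lit 470) (nat_lit 432) (nat_lit 298)) (XT.lf (nat_lit 0) (nat_lit 65375076738) (nat_lit 76) (nat_lit 207427368210) (nat_lit 76) (nat_lit 21447237455) (nat_lit 30) (nat_lit 4) (nat_lit 31) (nat_lit 5) (nat_lit 31) (nat_lit 4) (nat_lit 471) (nat_lit 432) (nat_lit 297)))) (XT.nd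 (nat_lit 78) (nat_lit 76) (nat_lit 0) (XT.lf (nat_lit 0) (nat_lit 59190247190) (nat_lit 152) (nat_lit 62864840181) (nat_lit 76) (nat_lit 188174759206) (nat_lit 29) (nat_lit 5) (nat_lit 31) (nat_lit 5) (nat_lit 30) (nat_lit 4) (nat_lit 472) (nat_lit 432) (nat_lit 296)) (XT.nd (nat_lit 78) (nat_lit 0) (nat_lit 0) (XT.lf (nat_lit 0) (nat_lit 121969225663) (nat_lit 76) (nat_lit 26083741744) (nat_lit 152) (nat_lit 179156255243) (nat_lit 28) (nat_lit 5) (nat_lit 29) (nat_lit 5) (nat_lit 30) (nat_lit 4) (nat_lit 473) (nat_lit 432) (nat_lit 295)) (XT.lf (nat_lit 0) (nat_lit 247653218986) (nat_lit 152) (nat_lit 22155146154) (nat_lit 0) (nat_lit 75448302598) (nat_lit 28) (nat_lit 5) (nat_lit 30) (nat_lit 4) (nat_lit 28) (nat_lit 4) (nat_lit 474) (nat_lit 432) (nat_lit 294)))))) (XT.nd (nat_lit 468) (nat_lit 304) (nat_lit 0) (XT.nd (nat_lit 234) (nat_lit 228) (nat_lit 0) (XT.nd (nat_lit 78) (nat_lit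 152) (nat_lit 0) (XT.lf (nat_lit 0) (nat_lit 184108076953) (nat_lit 76) (nat_lit 176218332855) (nat_lit 76) (nat_lit 4013105120) (nat_lit 27) (nat_lit 4) (nat_lit 28) (nat_lit 5) (nat_lit 28) (nat_lit 4) (nat_lit 475) (nat_lit 432) (nat_lit 293)) (XT.nd (nat_lit 78) (nat_lit 0) (nat_lit 0) (XT.lf (nat_lit 0) (nat_lit 21980478522) (nat_lit 76) (nat_lit 71378172699) (nat_lit 152) (nat_lit 291311607040) (nat_lit 25) (nat_lit 5) (nat_lit 26) (nat_lit 5) (nat_lit 27) (nat_lit 4) (nat_lit 476) (nat_lit 432) (nat_lit 292)) (XT.lf (nat_lit 0) (nat_lit 204365272464) (nat_lit 152) (nat_lit 156853421355) (nat_lit 0) (nat_lit 44915473438) (nat_lit 25) (nat_lit 5) (nat_lit 27) (nat_lit 4) (nat_lit 25) (nat_lit 4) (nat_lit 477) (nat_lit 432) (nat_lit 291)))) (XT.nd (nat_lit 78) (nat_lit 152) (nat_lit 0) (XT.lf (nat_lit 0) (nat_lit 66943980700) (nat_lit 76) (nat_lit 260772072876) (nat_lit 76) (nat_lit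 101322045000) (nat_lit 24) (nat_lit 4) (nat_lit 25) (nat_lit 5) (nat_lit 25) (nat_lit 4) (nat_lit 478) (nat_lit 432) (nat_lit 290)) (XT.nd (nat_lit 78) (nat_lit 76) (nat_lit 0) (XT.lf (nat_lit 0) (nat_lit 11202045164) (nat_lit 152) (nat_lit 136149985830) (nat_lit 76) (nat_lit 306056561128) (nat_lit 23) (nat_lit 5) (nat_lit 25) (nat_lit 5) (nat_lit 24) (nat_lit 4) (nat_lit 479) (nat_lit 432) (nat_lit 289)) (XT.lf (nat_lit 0) (nat_lit 110778899702) (nat_lit 76) (nat_lit 19139050141) (nat_lit 152) (nat_lit 349387123250) (nat_lit 22) (nat_lit 5) (nat_lit 23) (nat_lit 5) (nat_lit 24) (nat_lit 4) (nat_lit 480) (nat_lit 432) (nat_lit 288))))) (XT.nd (nat_lit 234) (nat_lit 152) (nat_lit 0) (XT.nd (nat_lit 78) (nat_lit 152) (nat_lit 0) (XT.lf (nat_lit 0) (nat_lit 264819987690) (nat_lit 152) (nat_lit 124737649093) (nat_lit 0) (nat_lit 117180526910) (nat_lit 22) (nat_lit 5) (nat_lit 24) (nat_lit 4)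 (nat_lit 22) (nat_lit 4) (nat_lit 481) (nat_lit 432) (nat_lit 287)) (XT.nd (nat_lit 78) (nat_lit 76) (nat_lit 0) (XT.lf (nat_lit 0) (nat_lit 145326037415) (nat_lit 76) (nat_lit 269180063826) (nat_lit 76) (nat_lit 121540447296) (nat_lit 21) (nat_lit 4) (nat_lit 22) (nat_lit 5) (nat_lit 22) (nat_lit 4) (nat_lit 482) (nat_lit 432) (nat_lit 286)) (XT.lf (nat_lit 0) (nat_lit 11542755541) (nat_lit 152) (nat_lit 123630829218) (nat_lit 76) (nat_lit 432229821181) (nat_lit 20) (nat_lit 5) (nat_lit 22) (nat_lit 5) (nat_lit 21) (nat_lit 4) (nat_lit 483) (nat_lit 432) (nat_lit 285)))) (XT.nd (nat_lit 78) (nat_lit 76) (nat_lit 0) (XT.lf (nat_lit 0) (nat_lit 153216930396) (nat_lit 152) (nat_lit 430925152835) (nat_lit 0) (nat_lit 16513324585) (nat_lit 19) (nat_lit 5) (nat_lit 21) (nat_lit 4) (nat_lit 19) (nat_lit 4) (nat_lit 484) (nat_lit 432) (nat_lit 284)) (XT.nd (nat_lit 78) (nat_lit 76) (nat_lit 0)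 (XT.lf (nat_lit 0) (nat_lit 313203850671) (nat_lit 152) (nat_lit 146305283887) (nat_lit 0) (nat_lit 176500130379) (nat_lit 19) (nat_lit 5) (nat_lit 21) (nat_lit 4) (nat_lit 19) (nat_lit 4) (nat_lit 485) (nat_lit 432) (nat_lit 283)) (XT.lf (nat_lit 0) (nat_lit 169566040008) (nat_lit 76) (nat_lit 320501496004) (nat_lit 76) (nat_lit 183797669711) (nat_lit 18) (nat_lit 4) (nat_lit 19) (nat_lit 5) (nat_lit 19) (nat_lit 4) (nat_lit 486) (nat_lit 432) (nat_lit 282))))))) (XT.nd (nat_lit 936) (nat_lit 304) (nat_lit 0) (XT.nd (nat_lit 468) (nat_lit 304) (nat_lit 0) (XT.nd (nat_lit 234) (nat_lit 152) (nat_lit 0) (XT.nd (nat_lit 78) (nat_lit 152) (nat_lit 0) (XT.lf (nat_lit 0) (nat_lit 519027079343) (nat_lit 76) (nat_lit 166053233570) (nat_lit 76) (nat_lit 29349309127) (nat_lit 18) (nat_lit 4) (nat_lit 19) (nat_lit 5) (nat_lit 19) (nat_lit 4) (nat_lit 487) (nat_lit 432) (nat_lit 281)) (XT.nd (nat_lit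 78) (nat_lit 0) (nat_lit 0) (XT.lf (nat_lit 0) (nat_lit 134186433991) (nat_lit 152) (nat_lit 615891046880) (nat_lit 0) (nat_lit 7608642027) (nat_lit 16) (nat_lit 5) (nat_lit 18) (nat_lit 4) (nat_lit 16) (nat_lit 4) (nat_lit 488) (nat_lit 432) (nat_lit 280)) (XT.lf (nat_lit 0) (nat_lit 319013668671) (nat_lit 152) (nat_lit 292109150220) (nat_lit 0) (nat_lit 192435798792) (nat_lit 16) (nat_lit 5) (nat_lit 18) (nat_lit 4) (nat_lit 16) (nat_lit 4) (nat_lit 489) (nat_lit 432) (nat_lit 279)))) (XT.nd (nat_lit 78) (nat_lit 76) (nat_lit 0) (XT.lf (nat_lit 0) (nat_lit 60606645813) (nat_lit 76) (nat_lit 459477809217) (nat_lit 76) (nat_lit 332899867195) (nat_lit 15) (nat_lit 4) (nat_lit 16) (nat_lit 5) (nat_lit 16) (nat_lit 4) (nat_lit 490) (nat_lit 432) (nat_lit 278)) (XT.nd (nat_lit 78) (nat_lit 76) (nat_lit 0) (XT.lf (nat_lit 0) (nat_lit 458151780689) (nat_lit 76) (nat_lit 287075692863) (nat_lit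 76) (nat_lit 160497684043) (nat_lit 15) (nat_lit 4) (nat_lit 16) (nat_lit 5) (nat_lit 16) (nat_lit 4) (nat_lit 491) (nat_lit 432) (nat_lit 277)) (XT.lf (nat_lit 0) (nat_lit 24411020121) (nat_lit 152) (nat_lit 75803148817) (nat_lit 76) (nat_lit 862421666568) (nat_lit 14) (nat_lit 5) (nat_lit 16) (nat_lit 5) (nat_lit 15) (nat_lit 4) (nat_lit 492) (nat_lit 432) (nat_lit 276))))) (XT.nd (nat_lit 234) (nat_lit 152) (nat_lit 0) (XT.nd (nat_lit 78) (nat_lit 76) (nat_lit 0) (XT.lf (nat_lit 0) (nat_lit 226344534514) (nat_lit 152) (nat_lit 687406514651) (nat_lit 0) (nat_lit 109142564199) (nat_lit 13) (nat_lit 5) (nat_lit 15) (nat_lit 4) (nat_lit 13) (nat_lit 4) (nat_lit 493) (nat_lit 432) (nat_lit 275)) (XT.nd (nat_lit 78) (nat_lit 76) (nat_lit 0) (XT.lf (nat_lit 0) (nat_lit 449161934934) (nat_lit 152) (nat_lit 306471826612) (nat_lit 0) (nat_lit 331959915519) (nat_lit 13) (nat_lit 5) (nat_lit 15)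 (nat_lit 4) (nat_lit 13) (nat_lit 4) (nat_lit 494) (nat_lit 432) (nat_lit 274)) (XT.lf (nat_lit 0) (nat_lit 110463096208) (nat_lit 76) (nat_lit 581998098571) (nat_lit 76) (nat_lit 464796033695) (nat_lit 12) (nat_lit 4) (nat_lit 13) (nat_lit 5) (nat_lit 13) (nat_lit 4) (nat_lit 495) (nat_lit 432) (nat_lit 273)))) (XT.nd (nat_lit 78) (nat_lit 152) (nat_lit 0) (XT.lf (nat_lit 0) (nat_lit 578181794386) (nat_lit 76) (nat_lit 385421915705) (nat_lit 76) (nat_lit 268219808734) (nat_lit 12) (nat_lit 4) (nat_lit 13) (nat_lit 5) (nat_lit 13) (nat_lit 4) (nat_lit 496) (nat_lit 432) (nat_lit 272)) (XT.nd (nat_lit 78) (nat_lit 152) (nat_lit 0) (XT.lf (nat_lit 0) (nat_lit 1083317671004) (nat_lit 76) (nat_lit 173119799904) (nat_lit 76) (nat_lit 55917653957) (nat_lit 12) (nat_lit 4) (nat_lit 13) (nat_lit 5) (nat_lit 13) (nat_lit 4) (nat_lit 497) (nat_lit 432) (nat_lit 271)) (XT.lf (nat_lit 0) (nat_lit 172008668039)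 (nat_lit 152) (nat_lit 1162913892734) (nat_lit 0) (nat_lit 63488129116) (nat_lit 10) (nat_lit 5) (nat_lit 12) (nat_lit 4) (nat_lit 10) (nat_lit 4) (nat_lit 498) (nat_lit 432) (nat_lit 270)))))) (XT.nd (nat_lit 468) (nat_lit 152) (nat_lit 0) (XT.nd (nat_lit 234) (nat_lit 76) (nat_lit 0) (XT.nd (nat_lit 78) (nat_lit 76) (nat_lit 0) (XT.lf (nat_lit 0) (nat_lit 426069507358) (nat_lit 152) (nat_lit 746742349354) (nat_lit 0) (nat_lit 317548937494) (nat_lit 10) (nat_lit 5) (nat_lit 12) (nat_lit 4) (nat_lit 10) (nat_lit 4) (nat_lit 499) (nat_lit 432) (nat_lit 269)) (XT.nd (nat_lit 78) (nat_lit 76) (nat_lit 0) (XT.lf (nat_lit 0) (nat_lit 700455077105) (nat_lit 152) (nat_lit 297277362110) (nat_lit 0) (nat_lit 591934478593) (nat_lit 10) (nat_lit 5) (nat_lit 12) (nat_lit 4) (nat_lit 10) (nat_lit 4) (nat_lit 500) (nat_lit 432) (nat_lit 268)) (XT.lf (nat_lit 0) (nat_lit 198051924602) (nat_lit 76) (nat_lit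 803502594791) (nat_lit 76) (nat_lit 694981969751) (nat_lit 9) (nat_lit 4) (nat_lit 10) (nat_lit 5) (nat_lit 10) (nat_lit 4) (nat_lit 501) (nat_lit 432) (nat_lit 267)))) (XT.nd (nat_lit 78) (nat_lit 76) (nat_lit 0) (XT.lf (nat_lit 0) (nat_lit 749913728905) (nat_lit 76) (nat_lit 584956154778) (nat_lit 76) (nat_lit 476435505177) (nat_lit 9) (nat_lit 4) (nat_lit 10) (nat_lit 5) (nat_lit 10) (nat_lit 4) (nat_lit 502) (nat_lit 432) (nat_lit 266)) (XT.nd (nat_lit 78) (nat_lit 76) (nat_lit 0) (XT.lf (nat_lit 0) (nat_lit 1345924243903) (nat_lit 76) (nat_lit 348926119063) (nat_lit 76) (nat_lit 240405446719) (nat_lit 9) (nat_lit 4) (nat_lit 10) (nat_lit 5) (nat_lit 10) (nat_lit 4) (nat_lit 503) (nat_lit 432) (nat_lit 265)) (XT.lf (nat_lit 0) (nat_lit 13781208258) (nat_lit 152) (nat_lit 79855780223) (nat_lit 76) (nat_lit 1975457372846) (nat_lit 8) (nat_lit 5) (nat_lit 10) (nat_lit 5) (nat_lit 9) (nat_lit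 4) (nat_lit 504) (nat_lit 432) (nat_lit 264))))) (XT.nd (nat_lit 234) (nat_lit 76) (nat_lit 0) (XT.nd (nat_lit 78) (nat_lit 0) (nat_lit 0) (XT.lf (nat_lit 0) (nat_lit 291911075781) (nat_lit 152) (nat_lit 1728472729843) (nat_lit 0) (nat_lit 191428934207) (nat_lit 7) (nat_lit 5) (nat_lit 9) (nat_lit 4) (nat_lit 7) (nat_lit 4) (nat_lit 505) (nat_lit 432) (nat_lit 263)) (XT.nd (nat_lit 78) (nat_lit 0) (nat_lit 0) (XT.lf (nat_lit 0) (nat_lit 596963472216) (nat_lit 152) (nat_lit 1272130031313) (nat_lit 0) (nat_lit 496481313926) (nat_lit 7) (nat_lit 5) (nat_lit 9) (nat_lit 4) (nat_lit 7) (nat_lit 4) (nat_lit 506) (nat_lit 432) (nat_lit 262)) (XT.lf (nat_lit 0) (nat_lit 926419967535) (nat_lit 152) (nat_lit 779280107416) (nat_lit 0) (nat_lit 825937793767) (nat_lit 7) (nat_lit 5) (nat_lit 9) (nat_lit 4) (nat_lit 7) (nat_lit 4) (nat_lit 507) (nat_lit 432) (nat_lit 261)))) (XT.nd (nat_lit 78) (nat_lit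 76) (nat_lit 0) (XT.lf (nat_lit 0) (nat_lit 1282232896525) (nat_lit 152) (nat_lit 247002366009) (nat_lit 0) (nat_lit 1181750708425) (nat_lit 7) (nat_lit 5) (nat_lit 9) (nat_lit 4) (nat_lit 7) (nat_lit 4) (nat_lit 508) (nat_lit 432) (nat_lit 260)) (XT.nd (nat_lit 78) (nat_lit 0) (nat_lit 0) (XT.lf (nat_lit 0) (nat_lit 345121822696) (nat_lit 76) (nat_lit 1329689145685) (nat_lit 76) (nat_lit 1229206944315) (nat_lit 6) (nat_lit 4) (nat_lit 7) (nat_lit 5) (nat_lit 7) (nat_lit 4) (nat_lit 509) (nat_lit 432) (nat_lit 259)) (XT.lf (nat_lit 0) (nat_lit 998663030716) (nat_lit 76) (nat_lit 1106885660161) (nat_lit 76) (nat_lit 1006403446505) (nat_lit 6) (nat_lit 4) (nat_lit 7) (nat_lit 5) (nat_lit 7) (nat_lit 4) (nat_lit 510) (nat_lit 432) (nat_lit 258))))))))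
noncomputable def xc172 : XT := (XT.nd (nat_lit 56862) (nat_lit 0) (nat_lit 2888) (XT.nd (nat_lit 858) (nat_lit 76) (nat_lit 0) (XT.nd (nat_lit 390) (nat_lit 0) (nat_lit 0) (XT.nd (nat_lit 156) (nat_lit 152) (nat_lit 0) (XT.nd (nat_lit 78) (nat_lit 0) (nat_lit 0) (XT.lf (nat_lit 0) (nat_lit 1704487387969) (nat_lit 76) (nat_lit 866257971425) (nat_lit 76) (nat_lit 765775746392) (nat_lit 6) (nat_lit 4) (nat_lit 7) (nat_lit 5) (nat_lit 7) (nat_lit 4) (nat_lit 511) (nat_lit 432) (nat_lit 257)) (XT.lf (nat_lit 0) (nat_lit 2466777557314) (nat_lit 76) (nat_lit 606380137617) (nat_lit 76) (nat_lit 505897902050) (nat_lit 6) (nat_lit 4) (nat_lit 7) (nat_lit 5) (nat_lit 7) (nat_lit 4) (nat_lit 512) (nat_lit 432) (nat_lit 256))) (XT.nd (nat_lit 78) (nat_lit 152) (nat_lit 0) (XT.lf (nat_lit 0) (nat_lit 3290050813827) (nat_lit 76) (nat_lit 325712141944) (nat_lit 76) (nat_lit 225229896623) (nat_lit 6) (nat_lit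 4) (nat_lit 7) (nat_lit 5) (nat_lit 7) (nat_lit 4) (nat_lit 513) (nat_lit 432) (nat_lit 255)) (XT.nd (nat_lit 78) (nat_lit 0) (nat_lit 0) (XT.lf (nat_lit 0) (nat_lit 56240822614) (nat_lit 76) (nat_lit 19106810542) (nat_lit 152) (nat_lit 4048279388821) (nat_lit 4) (nat_lit 5) (nat_lit 5) (nat_lit 5) (nat_lit 6) (nat_lit 4) (nat_lit 514) (nat_lit 432) (nat_lit 254)) (XT.lf (nat_lit 0) (nat_lit 410762295417) (nat_lit 152) (nat_lit 3698081720690) (nat_lit 0) (nat_lit 317723163274) (nat_lit 4) (nat_lit 5) (nat_lit 6) (nat_lit 4) (nat_lit 4) (nat_lit 4) (nat_lit 515) (nat_lit 432) (nat_lit 253))))) (XT.nd (nat_lit 234) (nat_lit 0) (nat_lit 0) (XT.nd (nat_lit 78) (nat_lit 0) (nat_lit 0) (XT.lf (nat_lit 0) (nat_lit 773506357386) (nat_lit 152) (nat_lit 3299729275781) (nat_lit 0) (nat_lit 680467218073) (nat_lit 4) (nat_lit 5) (nat_lit 6) (nat_lit 4) (nat_lit 4) (nat_lit 4) (nat_lit 516) (nat_lit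 432) (nat_lit 252)) (XT.nd (nat_lit 78) (nat_lit 0) (nat_lit 0) (XT.lf (nat_lit 0) (nat_lit 1165269894251) (nat_lit 152) (nat_lit 2869508738302) (nat_lit 0) (nat_lit 1072230748299) (nat_lit 4) (nat_lit 5) (nat_lit 6) (nat_lit 4) (nat_lit 4) (nat_lit 4) (nat_lit 517) (nat_lit 432) (nat_lit 251)) (XT.lf (nat_lit 0) (nat_lit 1588374467711) (nat_lit 152) (nat_lit 2404870653218) (nat_lit 0) (nat_lit 1495335315613) (nat_lit 4) (nat_lit 5) (nat_lit 6) (nat_lit 4) (nat_lit 4) (nat_lit 4) (nat_lit 518) (nat_lit 432) (nat_lit 250)))) (XT.nd (nat_lit 78) (nat_lit 0) (nat_lit 0) (XT.lf (nat_lit 0) (nat_lit 2045327364129) (nat_lit 152) (nat_lit 1903061609653) (nat_lit 0) (nat_lit 1952288206340) (nat_lit 4) (nat_lit 5) (nat_lit 6) (nat_lit 4) (nat_lit 4) (nat_lit 4) (nat_lit 519) (nat_lit 432) (nat_lit 249)) (XT.nd (nat_lit 78) (nat_lit 0) (nat_lit 0) (XT.lf (nat_lit 0) (nat_lit 2538836452520) (nat_lit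 152) (nat_lit 1361107924387) (nat_lit 0) (nat_lit 2445797289462) (nat_lit 4) (nat_lit 5) (nat_lit 6) (nat_lit 4) (nat_lit 4) (nat_lit 4) (nat_lit 520) (nat_lit 432) (nat_lit 248)) (XT.lf (nat_lit 0) (nat_lit 3071826231186) (nat_lit 152) (nat_lit 775798020024) (nat_lit 0) (nat_lit 2978787063248) (nat_lit 4) (nat_lit 5) (nat_lit 6) (nat_lit 4) (nat_lit 4) (nat_lit 4) (nat_lit 521) (nat_lit 432) (nat_lit 247)))))) (XT.nd (nat_lit 55536) (nat_lit 0) (nat_lit 5244) (XT.nd (nat_lit 234) (nat_lit 0) (nat_lit 0) (XT.nd (nat_lit 78) (nat_lit 76) (nat_lit 0) (XT.lf (nat_lit 0) (nat_lit 3647455158074) (nat_lit 152) (nat_lit 143663393429) (nat_lit 0) (nat_lit 3554415985618) (nat_lit 4) (nat_lit 5) (nat_lit 6) (nat_lit 4) (nat_lit 4) (nat_lit 4) (nat_lit 522) (nat_lit 432) (nat_lit 246)) (XT.nd (nat_lit 78) (nat_lit 0) (nat_lit 0) (XT.lf (nat_lit 0) (nat_lit 567426931582) (nat_lit 76) (nat_lit 3715354067335)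 (nat_lit 76) (nat_lit 3622314890696) (nat_lit 3) (nat_lit 4) (nat_lit 4) (nat_lit 5) (nat_lit 4) (nat_lit 4) (nat_lit 523) (nat_lit 432) (nat_lit 245)) (XT.lf (nat_lit 0) (nat_lit 1343574683796) (nat_lit 76) (nat_lit 3629286204269) (nat_lit 76) (nat_lit 3536247023756) (nat_lit 3) (nat_lit 4) (nat_lit 4) (nat_lit 5) (nat_lit 4) (nat_lit 4) (nat_lit 524) (nat_lit 432) (nat_lit 244)))) (XT.nd (nat_lit 78) (nat_lit 0) (nat_lit 0) (XT.lf (nat_lit 0) (nat_lit 2181814197596) (nat_lit 76) (nat_lit 3536332942293) (nat_lit 76) (nat_lit 3443293758194) (nat_lit 3) (nat_lit 4) (nat_lit 4) (nat_lit 5) (nat_lit 4) (nat_lit 4) (nat_lit 525) (nat_lit 432) (nat_lit 243)) (XT.nd (nat_lit 78) (nat_lit 0) (nat_lit 0) (XT.lf (nat_lit 0) (nat_lit 3087112818249) (nat_lit 76) (nat_lit 3435943447263) (nat_lit 76) (nat_lit 3342904259843) (nat_lit 3) (nat_lit 4) (nat_lit 4) (nat_lit 5) (nat_lit 4) (nat_lit 4) (nat_lit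 526) (nat_lit 432) (nat_lit 242)) (XT.lf (nat_lit 0) (nat_lit 4064835278321) (nat_lit 76) (nat_lit 3327522818466) (nat_lit 76) (nat_lit 3234483627972) (nat_lit 3) (nat_lit 4) (nat_lit 4) (nat_lit 5) (nat_lit 4) (nat_lit 4) (nat_lit 527) (nat_lit 432) (nat_lit 241))))) (XT.nd (nat_lit 234) (nat_lit 456) (nat_lit 0) (XT.nd (nat_lit 78) (nat_lit 0) (nat_lit 0) (XT.lf (nat_lit 0) (nat_lit 24403423260) (nat_lit 532) (nat_lit 675414543) (nat_lit 532) (nat_lit 675414543) (nat_lit 78) (nat_lit 3) (nat_lit 85) (nat_lit 3) (nat_lit 85) (nat_lit 5) (nat_lit 433) (nat_lit 433) (nat_lit 334)) (XT.nd (nat_lit 78) (nat_lit 0) (nat_lit 76) (XT.lf (nat_lit 76) (nat_lit 25363550383) (nat_lit 0) (nat_lit 26028798045) (nat_lit 532) (nat_lit 2125828870) (nat_lit 79) (nat_lit 5) (nat_lit 78) (nat_lit 3) (nat_lit 85) (nat_lit 5) (nat_lit 434) (nat_lit 433) (nat_lit 333)) (XT.lf (nat_lit 0) (nat_lit 54220983316)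 (nat_lit 456) (nat_lit 1396992282) (nat_lit 532) (nat_lit 67745623) (nat_lit 79) (nat_lit 5) (nat_lit 85) (nat_lit 5) (nat_lit 86) (nat_lit 5) (nat_lit 435) (nat_lit 433) (nat_lit 332)))) (XT.nd (nat_lit 78) (nat_lit 0) (nat_lit 0) (XT.lf (nat_lit 0) (nat_lit 674934742) (nat_lit 532) (nat_lit 29699267116) (nat_lit 608) (nat_lit 27542860993) (nat_lit 72) (nat_lit 5) (nat_lit 79) (nat_lit 5) (nat_lit 80) (nat_lit 5) (nat_lit 436) (nat_lit 433) (nat_lit 331)) (XT.nd (nat_lit 78) (nat_lit 0) (nat_lit 76) (XT.lf (nat_lit 0) (nat_lit 2943749951) (nat_lit 532) (nat_lit 83175303) (nat_lit 608) (nat_lit 57293975477) (nat_lit 72) (nat_lit 5) (nat_lit 79) (nat_lit 5) (nat_lit 80) (nat_lit 5) (nat_lit 437) (nat_lit 433) (nat_lit 330)) (XT.lf (nat_lit 0) (nat_lit 6858266189) (nat_lit 532) (nat_lit 29930444620) (nat_lit 608) (nat_lit 26011199855) (nat_lit 73) (nat_lit 5) (nat_lit 80) (nat_lit 5) (nat_lit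 81) (nat_lit 5) (nat_lit 438) (nat_lit 433) (nat_lit 329))))))) (XT.nd (nat_lit 858) (nat_lit 1140) (nat_lit 0) (XT.nd (nat_lit 390) (nat_lit 684) (nat_lit 0) (XT.nd (nat_lit 156) (nat_lit 608) (nat_lit 0) (XT.nd (nat_lit 78) (nat_lit 0) (nat_lit 76) (XT.lf (nat_lit 76) (nat_lit 3058814757) (nat_lit 0) (nat_lit 8179838843) (nat_lit 608) (nat_lit 54226371637) (nat_lit 74) (nat_lit 5) (nat_lit 73) (nat_lit 5) (nat_lit 81) (nat_lit 5) (nat_lit 439) (nat_lit 433) (nat_lit 328)) (XT.lf (nat_lit 0) (nat_lit 17353736632) (nat_lit 532) (nat_lit 28457726787) (nat_lit 76) (nat_lit 22421144975) (nat_lit 74) (nat_lit 5) (nat_lit 81) (nat_lit 5) (nat_lit 75) (nat_lit 5) (nat_lit 440) (nat_lit 433) (nat_lit 327))) (XT.nd (nat_lit 78) (nat_lit 228) (nat_lit 0) (XT.lf (nat_lit 0) (nat_lit 8413558478) (nat_lit 456) (nat_lit 15957698835) (nat_lit 532) (nat_lit 46817282957) (nat_lit 68) (nat_lit 5) (nat_lit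 74) (nat_lit 5) (nat_lit 75) (nat_lit 5) (nat_lit 441) (nat_lit 433) (nat_lit 326)) (XT.nd (nat_lit 78) (nat_lit 228) (nat_lit 0) (XT.lf (nat_lit 0) (nat_lit 33138618001) (nat_lit 532) (nat_lit 24879164062) (nat_lit 76) (nat_lit 16268090067) (nat_lit 68) (nat_lit 5) (nat_lit 75) (nat_lit 5) (nat_lit 69) (nat_lit 5) (nat_lit 442) (nat_lit 433) (nat_lit 325)) (XT.lf (nat_lit 0) (nat_lit 16455545860) (nat_lit 228) (nat_lit 26960678700) (nat_lit 304) (nat_lit 34150057886) (nat_lit 65) (nat_lit 5) (nat_lit 68) (nat_lit 5) (nat_lit 69) (nat_lit 5) (nat_lit 443) (nat_lit 433) (nat_lit 324))))) (XT.nd (nat_lit 234) (nat_lit 456) (nat_lit 0) (XT.nd (nat_lit 78) (nat_lit 228) (nat_lit 0) (XT.lf (nat_lit 0) (nat_lit 55370902536) (nat_lit 304) (nat_lit 18720242093) (nat_lit 76) (nat_lit 6949592360) (nat_lit 65) (nat_lit 5) (nat_lit 69) (nat_lit 5) (nat_lit 66) (nat_lit 5) (nat_lit 444) (nat_lit 433)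 (nat_lit 323)) (XT.nd (nat_lit 78) (nat_lit 0) (nat_lit 0) (XT.lf (nat_lit 0) (nat_lit 27747861289) (nat_lit 228) (nat_lit 41900486111) (nat_lit 304) (nat_lit 15035489483) (nat_lit 62) (nat_lit 5) (nat_lit 65) (nat_lit 5) (nat_lit 66) (nat_lit 5) (nat_lit 445) (nat_lit 433) (nat_lit 322)) (XT.lf (nat_lit 0) (nat_lit 78996671784) (nat_lit 228) (nat_lit 6581996554) (nat_lit 304) (nat_lit 2998862365) (nat_lit 62) (nat_lit 5) (nat_lit 65) (nat_lit 5) (nat_lit 66) (nat_lit 5) (nat_lit 446) (nat_lit 433) (nat_lit 321)))) (XT.nd (nat_lit 78) (nat_lit 228) (nat_lit 0) (XT.lf (nat_lit 0) (nat_lit 11337889292) (nat_lit 228) (nat_lit 49975662340) (nat_lit 76) (nat_lit 31302929785) (nat_lit 59) (nat_lit 5) (nat_lit 62) (nat_lit 5) (nat_lit 60) (nat_lit 5) (nat_lit 447) (nat_lit 433) (nat_lit 320)) (XT.nd (nat_lit 78) (nat_lit 0) (nat_lit 0) (XT.lf (nat_lit 0) (nat_lit 2495299616) (nat_lit 228) (nat_lit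 24662938291) (nat_lit 304) (nat_lit 69774185312) (nat_lit 56) (nat_lit 5) (nat_lit 59) (nat_lit 5) (nat_lit 60) (nat_lit 5) (nat_lit 448) (nat_lit 433) (nat_lit 319)) (XT.lf (nat_lit 0) (nat_lit 46003925749) (nat_lit 304) (nat_lit 39873957132) (nat_lit 76) (nat_lit 15574980850) (nat_lit 56) (nat_lit 5) (nat_lit 60) (nat_lit 5) (nat_lit 57) (nat_lit 5) (nat_lit 449) (nat_lit 433) (nat_lit 318)))))) (XT.nd (nat_lit 468) (nat_lit 456) (nat_lit 0) (XT.nd (nat_lit 234) (nat_lit 304) (nat_lit 0) (XT.nd (nat_lit 78) (nat_lit 228) (nat_lit 0) (XT.lf (nat_lit 0) (nat_lit 19381915709) (nat_lit 152) (nat_lit 48081136960) (nat_lit 228) (nat_lit 38783424343) (nat_lit 54) (nat_lit 5) (nat_lit 56) (nat_lit 5) (nat_lit 57) (nat_lit 5) (nat_lit 450) (nat_lit 433) (nat_lit 317)) (XT.nd (nat_lit 78) (nat_lit 228) (nat_lit 0) (XT.lf (nat_lit 0) (nat_lit 85644645825) (nat_lit 152) (nat_lit 6083580671) (nat_lit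 228) (nat_lit 19608207754) (nat_lit 54) (nat_lit 5) (nat_lit 56) (nat_lit 5) (nat_lit 57) (nat_lit 5) (nat_lit 451) (nat_lit 433) (nat_lit 316)) (XT.lf (nat_lit 0) (nat_lit 3038276496) (nat_lit 228) (nat_lit 75249866117) (nat_lit 76) (nat_lit 38383941027) (nat_lit 51) (nat_lit 5) (nat_lit 54) (nat_lit 5) (nat_lit 52) (nat_lit 5) (nat_lit 452) (nat_lit 433) (nat_lit 315)))) (XT.nd (nat_lit 78) (nat_lit 304) (nat_lit 0) (XT.lf (nat_lit 0) (nat_lit 27315010186) (nat_lit 228) (nat_lit 7698751356) (nat_lit 76) (nat_lit 87309848641) (nat_lit 51) (nat_lit 5) (nat_lit 54) (nat_lit 5) (nat_lit 52) (nat_lit 5) (nat_lit 453) (nat_lit 433) (nat_lit 314)) (XT.nd (nat_lit 78) (nat_lit 152) (nat_lit 0) (XT.lf (nat_lit 0) (nat_lit 55509969258) (nat_lit 228) (nat_lit 59928470442) (nat_lit 76) (nat_lit 12830732385) (nat_lit 49) (nat_lit 5) (nat_lit 52) (nat_lit 5) (nat_lit 50) (nat_lit 5) (nat_lit 454) (nat_lit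 433) (nat_lit 313)) (XT.lf (nat_lit 0) (nat_lit 16117782787) (nat_lit 152) (nat_lit 71355034770) (nat_lit 228) (nat_lit 47096578141) (nat_lit 47) (nat_lit 5) (nat_lit 49) (nat_lit 5) (nat_lit 50) (nat_lit 5) (nat_lit 455) (nat_lit 433) (nat_lit 312))))) (XT.nd (nat_lit 234) (nat_lit 304) (nat_lit 0) (XT.nd (nat_lit 78) (nat_lit 152) (nat_lit 0) (XT.lf (nat_lit 0) (nat_lit 101654766761) (nat_lit 152) (nat_lit 21975751729) (nat_lit 228) (nat_lit 17612092876) (nat_lit 47) (nat_lit 5) (nat_lit 49) (nat_lit 5) (nat_lit 50) (nat_lit 5) (nat_lit 456) (nat_lit 433) (nat_lit 311)) (XT.nd (nat_lit 78) (nat_lit 0) (nat_lit 0) (XT.lf (nat_lit 0) (nat_lit 15456611082) (nat_lit 152) (nat_lit 101499415350) (nat_lit 76) (nat_lit 31311288445) (nat_lit 45) (nat_lit 5) (nat_lit 47) (nat_lit 5) (nat_lit 46) (nat_lit 5) (nat_lit 457) (nat_lit 433) (nat_lit 310)) (XT.lf (nat_lit 0) (nat_lit 51899941385) (nat_lit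 152) (nat_lit 14541394548) (nat_lit 76) (nat_lit 89241611054) (nat_lit 45) (nat_lit 5) (nat_lit 47) (nat_lit 5) (nat_lit 46) (nat_lit 5) (nat_lit 458) (nat_lit 433) (nat_lit 309)))) (XT.nd (nat_lit 78) (nat_lit 152) (nat_lit 0) (XT.lf (nat_lit 0) (nat_lit 83551830941) (nat_lit 152) (nat_lit 9715706265) (nat_lit 228) (nat_lit 70263588643) (nat_lit 43) (nat_lit 5) (nat_lit 45) (nat_lit 5) (nat_lit 46) (nat_lit 5) (nat_lit 459) (nat_lit 433) (nat_lit 308)) (XT.nd (nat_lit 78) (nat_lit 76) (nat_lit 0) (XT.lf (nat_lit 0) (nat_lit 17993126410) (nat_lit 76) (nat_lit 122031181495) (nat_lit 152) (nat_lit 31816469838) (nat_lit 42) (nat_lit 5) (nat_lit 43) (nat_lit 5) (nat_lit 44) (nat_lit 4) (nat_lit 460) (nat_lit 433) (nat_lit 307)) (XT.lf (nat_lit 0) (nat_lit 11716188065) (nat_lit 152) (nat_lit 52832075502) (nat_lit 76) (nat_lit 116048637222) (nat_lit 41) (nat_lit 5) (nat_lit 43) (nat_lit 5) (nat_lit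 42) (nat_lit 5) (nat_lit 461) (nat_lit 433) (nat_lit 306))))))))
noncomputable def xc173 : XT := (XT.nd (nat_lit 1794) (nat_lit 988) (nat_lit 0) (XT.nd (nat_lit 858) (nat_lit 760) (nat_lit 0) (XT.nd (nat_lit 390) (nat_lit 380) (nat_lit 0) (XT.nd (nat_lit 156) (nat_lit 304) (nat_lit 0) (XT.nd (nat_lit 78) (nat_lit 0) (nat_lit 0) (XT.lf (nat_lit 0) (nat_lit 58356600686) (nat_lit 152) (nat_lit 58857683) (nat_lit 228) (nat_lit 131459710000) (nat_lit 39) (nat_lit 5) (nat_lit 41) (nat_lit 5) (nat_lit 42) (nat_lit 5) (nat_lit 462) (nat_lit 433) (nat_lit 305)) (XT.lf (nat_lit 0) (nat_lit 112005793688) (nat_lit 228) (nat_lit 20047298039) (nat_lit 76) (nat_lit 67590195833) (nat_lit 39) (nat_lit 5) (nat_lit 42) (nat_lit 5) (nat_lit 40) (nat_lit 4) (nat_lit 463) (nat_lit 433) (nat_lit 304))) (XT.nd (nat_lit 78) (nat_lit 228) (nat_lit 0) (XT.lf (nat_lit 0) (nat_lit 105622917200) (nat_lit 76) (nat_lit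 66801688855) (nat_lit 152) (nat_lit 37564950281) (nat_lit 38) (nat_lit 5) (nat_lit 39) (nat_lit 5) (nat_lit 40) (nat_lit 4) (nat_lit 464) (nat_lit 433) (nat_lit 303)) (XT.nd (nat_lit 78) (nat_lit 0) (nat_lit 0) (XT.lf (nat_lit 0) (nat_lit 16906641518) (nat_lit 228) (nat_lit 199112991328) (nat_lit 76) (nat_lit 5014577083) (nat_lit 35) (nat_lit 5) (nat_lit 38) (nat_lit 5) (nat_lit 36) (nat_lit 4) (nat_lit 465) (nat_lit 433) (nat_lit 302)) (XT.lf (nat_lit 0) (nat_lit 78368771859) (nat_lit 228) (nat_lit 71272486167) (nat_lit 76) (nat_lit 82870137259) (nat_lit 35) (nat_lit 5) (nat_lit 38) (nat_lit 5) (nat_lit 36) (nat_lit 4) (nat_lit 466) (nat_lit 433) (nat_lit 301))))) (XT.nd (nat_lit 234) (nat_lit 152) (nat_lit 0) (XT.nd (nat_lit 78) (nat_lit 152) (nat_lit 0) (XT.lf (nat_lit 0) (nat_lit 70311679172) (nat_lit 76) (nat_lit 76126726106) (nat_lit 152) (nat_lit 98333107629) (nat_lit 34) (nat_lit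 5) (nat_lit 35) (nat_lit 5) (nat_lit 36) (nat_lit 4) (nat_lit 467) (nat_lit 433) (nat_lit 300)) (XT.nd (nat_lit 78) (nat_lit 152) (nat_lit 0) (XT.lf (nat_lit 0) (nat_lit 222031100479) (nat_lit 152) (nat_lit 30710730659) (nat_lit 0) (nat_lit 5104409560) (nat_lit 34) (nat_lit 5) (nat_lit 36) (nat_lit 4) (nat_lit 34) (nat_lit 4) (nat_lit 468) (nat_lit 433) (nat_lit 299)) (XT.lf (nat_lit 0) (nat_lit 35329910003) (nat_lit 152) (nat_lit 143441011703) (nat_lit 76) (nat_lit 92718096289) (nat_lit 32) (nat_lit 5) (nat_lit 34) (nat_lit 5) (nat_lit 33) (nat_lit 4) (nat_lit 469) (nat_lit 433) (nat_lit 298)))) (XT.nd (nat_lit 78) (nat_lit 76) (nat_lit 0) (XT.lf (nat_lit 0) (nat_lit 14889928314) (nat_lit 76) (nat_lit 96560863461) (nat_lit 152) (nat_lit 174600470638) (nat_lit 31) (nat_lit 5) (nat_lit 32) (nat_lit 5) (nat_lit 33) (nat_lit 4) (nat_lit 470) (nat_lit 433) (nat_lit 297)) (XT.nd (nat_lit 78)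 (nat_lit 76) (nat_lit 0) (XT.lf (nat_lit 0) (nat_lit 194044182338) (nat_lit 76) (nat_lit 3538682271) (nat_lit 152) (nat_lit 103881900167) (nat_lit 31) (nat_lit 5) (nat_lit 32) (nat_lit 5) (nat_lit 33) (nat_lit 4) (nat_lit 471) (nat_lit 433) (nat_lit 296)) (XT.lf (nat_lit 0) (nat_lit 70620346717) (nat_lit 76) (nat_lit 224014244059) (nat_lit 76) (nat_lit 23154429584) (nat_lit 30) (nat_lit 4) (nat_lit 31) (nat_lit 5) (nat_lit 31) (nat_lit 4) (nat_lit 472) (nat_lit 433) (nat_lit 295)))))) (XT.nd (nat_lit 468) (nat_lit 380) (nat_lit 0) (XT.nd (nat_lit 234) (nat_lit 228) (nat_lit 0) (XT.nd (nat_lit 78) (nat_lit 76) (nat_lit 0) (XT.lf (nat_lit 0) (nat_lit 63933020038) (nat_lit 152) (nat_lit 67879495950) (nat_lit 76) (nat_lit 203235113541) (nat_lit 29) (nat_lit 5) (nat_lit 31) (nat_lit 5) (nat_lit 30) (nat_lit 4) (nat_lit 473) (nat_lit 433) (nat_lit 294)) (XT.nd (nat_lit 78) (nat_lit 0) (nat_lit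 0) (XT.lf (nat_lit 0) (nat_lit 131740927277) (nat_lit 76) (nat_lit 28163611742) (nat_lit 152) (nat_lit 193480834216) (nat_lit 28) (nat_lit 5) (nat_lit 29) (nat_lit 5) (nat_lit 30) (nat_lit 4) (nat_lit 474) (nat_lit 433) (nat_lit 293)) (XT.lf (nat_lit 0) (nat_lit 267472419529) (nat_lit 152) (nat_lit 23914051788) (nat_lit 0) (nat_lit 81490173944) (nat_lit 28) (nat_lit 5) (nat_lit 30) (nat_lit 4) (nat_lit 28) (nat_lit 4) (nat_lit 475) (nat_lit 433) (nat_lit 292)))) (XT.nd (nat_lit 78) (nat_lit 152) (nat_lit 0) (XT.lf (nat_lit 0) (nat_lit 198849887241) (nat_lit 76) (nat_lit 190309380675) (nat_lit 76) (nat_lit 4326868161) (nat_lit 27) (nat_lit 4) (nat_lit 28) (nat_lit 5) (nat_lit 28) (nat_lit 4) (nat_lit 476) (nat_lit 433) (nat_lit 291)) (XT.nd (nat_lit 78) (nat_lit 0) (nat_lit 0) (XT.lf (nat_lit 0) (nat_lit 23752103262) (nat_lit 76) (nat_lit 77081965455) (nat_lit 152) (nat_lit 314609271813)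 (nat_lit 25) (nat_lit 5) (nat_lit 26) (nat_lit 5) (nat_lit 27) (nat_lit 4) (nat_lit 477) (nat_lit 433) (nat_lit 290)) (XT.lf (nat_lit 0) (nat_lit 220720865361) (nat_lit 152) (nat_lit 169389130747) (nat_lit 0) (nat_lit 48514394509) (nat_lit 25) (nat_lit 5) (nat_lit 27) (nat_lit 4) (nat_lit 25) (nat_lit 4) (nat_lit 478) (nat_lit 433) (nat_lit 289))))) (XT.nd (nat_lit 234) (nat_lit 152) (nat_lit 0) (XT.nd (nat_lit 78) (nat_lit 152) (nat_lit 0) (XT.lf (nat_lit 0) (nat_lit 72311745389) (nat_lit 76) (nat_lit 281627786162) (nat_lit 76) (nat_lit 109421119109) (nat_lit 24) (nat_lit 4) (nat_lit 25) (nat_lit 5) (nat_lit 25) (nat_lit 4) (nat_lit 479) (nat_lit 433) (nat_lit 288)) (XT.nd (nat_lit 78) (nat_lit 76) (nat_lit 0) (XT.lf (nat_lit 0) (nat_lit 12104092903) (nat_lit 152) (nat_lit 147030335480) (nat_lit 76) (nat_lit 330546380114) (nat_lit 23) (nat_lit 5) (nat_lit 25) (nat_lit 5) (nat_lit 24) (nat_lit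 4) (nat_lit 480) (nat_lit 433) (nat_lit 287)) (XT.lf (nat_lit 0) (nat_lit 119652565978) (nat_lit 76) (nat_lit 20664541189) (nat_lit 152) (nat_lit 377331913822) (nat_lit 22) (nat_lit 5) (nat_lit 23) (nat_lit 5) (nat_lit 24) (nat_lit 4) (nat_lit 481) (nat_lit 433) (nat_lit 286)))) (XT.nd (nat_lit 78) (nat_lit 152) (nat_lit 0) (XT.lf (nat_lit 0) (nat_lit 286011009676) (nat_lit 152) (nat_lit 134705849188) (nat_lit 0) (nat_lit 126559923859) (nat_lit 22) (nat_lit 5) (nat_lit 24) (nat_lit 4) (nat_lit 22) (nat_lit 4) (nat_lit 482) (nat_lit 433) (nat_lit 285)) (XT.nd (nat_lit 78) (nat_lit 76) (nat_lit 0) (XT.lf (nat_lit 0) (nat_lit 156962658523) (nat_lit 76) (nat_lit 290709205530) (nat_lit 76) (nat_lit 131257986181) (nat_lit 21) (nat_lit 4) (nat_lit 22) (nat_lit 5) (nat_lit 22) (nat_lit 4) (nat_lit 483) (nat_lit 433) (nat_lit 284)) (XT.lf (nat_lit 0) (nat_lit 12471187018) (nat_lit 152) (nat_lit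 133511273989) (nat_lit 76) (nat_lit 466812816344) (nat_lit 20) (nat_lit 5) (nat_lit 22) (nat_lit 5) (nat_lit 21) (nat_lit 4) (nat_lit 484) (nat_lit 433) (nat_lit 283))))))) (XT.nd (nat_lit 936) (nat_lit 380) (nat_lit 0) (XT.nd (nat_lit 468) (nat_lit 304) (nat_lit 0) (XT.nd (nat_lit 234) (nat_lit 152) (nat_lit 0) (XT.nd (nat_lit 78) (nat_lit 76) (nat_lit 0) (XT.lf (nat_lit 0) (nat_lit 165479277270) (nat_lit 152) (nat_lit 465389124738) (nat_lit 0) (nat_lit 17839038872) (nat_lit 19) (nat_lit 5) (nat_lit 21) (nat_lit 4) (nat_lit 19) (nat_lit 4) (nat_lit 485) (nat_lit 433) (nat_lit 282)) (XT.nd (nat_lit 78) (nat_lit 76) (nat_lit 0) (XT.lf (nat_lit 0) (nat_lit 338264781357) (nat_lit 152) (nat_lit 158000410002) (nat_lit 0) (nat_lit 190624444809) (nat_lit 19) (nat_lit 5) (nat_lit 21) (nat_lit 4) (nat_lit 19) (nat_lit 4) (nat_lit 486) (nat_lit 433) (nat_lit 281)) (XT.lf (nat_lit 0) (nat_lit 183140384448)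 (nat_lit 76) (nat_lit 346137052583) (nat_lit 76) (nat_lit 198496625156) (nat_lit 18) (nat_lit 4) (nat_lit 19) (nat_lit 5) (nat_lit 19) (nat_lit 4) (nat_lit 487) (nat_lit 433) (nat_lit 280)))) (XT.nd (nat_lit 78) (nat_lit 152) (nat_lit 0) (XT.lf (nat_lit 0) (nat_lit 560557635727) (nat_lit 76) (nat_lit 179333267161) (nat_lit 76) (nat_lit 31692755588) (nat_lit 18) (nat_lit 4) (nat_lit 19) (nat_lit 5) (nat_lit 19) (nat_lit 4) (nat_lit 488) (nat_lit 433) (nat_lit 279)) (XT.nd (nat_lit 78) (nat_lit 0) (nat_lit 0) (XT.lf (nat_lit 0) (nat_lit 144925609306) (nat_lit 152) (nat_lit 665153702683) (nat_lit 0) (nat_lit 8221359780) (nat_lit 16) (nat_lit 5) (nat_lit 18) (nat_lit 4) (nat_lit 16) (nat_lit 4) (nat_lit 489) (nat_lit 433) (nat_lit 278)) (XT.lf (nat_lit 0) (nat_lit 344538707160) (nat_lit 152) (nat_lit 315469893397) (nat_lit 0) (nat_lit 207834390836) (nat_lit 16) (nat_lit 5) (nat_lit 18) (nat_lit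 4) (nat_lit 16) (nat_lit 4) (nat_lit 490) (nat_lit 433) (nat_lit 277))))) (XT.nd (nat_lit 234) (nat_lit 152) (nat_lit 0) (XT.nd (nat_lit 78) (nat_lit 76) (nat_lit 0) (XT.lf (nat_lit 0) (nat_lit 65462964069) (nat_lit 76) (nat_lit 496232087405) (nat_lit 76) (nat_lit 359527709229) (nat_lit 15) (nat_lit 4) (nat_lit 16) (nat_lit 5) (nat_lit 16) (nat_lit 4) (nat_lit 491) (nat_lit 433) (nat_lit 276)) (XT.nd (nat_lit 78) (nat_lit 76) (nat_lit 0) (XT.lf (nat_lit 0) (nat_lit 494811132951) (nat_lit 76) (nat_lit 310038094080) (nat_lit 76) (nat_lit 173333658635) (nat_lit 15) (nat_lit 4) (nat_lit 16) (nat_lit 5) (nat_lit 16) (nat_lit 4) (nat_lit 492) (nat_lit 433) (nat_lit 275)) (XT.lf (nat_lit 0) (nat_lit 26367279539) (nat_lit 152) (nat_lit 81860547029) (nat_lit 76) (nat_lit 931418605477) (nat_lit 14) (nat_lit 5) (nat_lit 16) (nat_lit 5) (nat_lit 15) (nat_lit 4) (nat_lit 493) (nat_lit 433) (nat_lit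 274)))) (XT.nd (nat_lit 78) (nat_lit 76) (nat_lit 0) (XT.lf (nat_lit 0) (nat_lit 244455467110) (nat_lit 152) (nat_lit 742392174085) (nat_lit 0) (nat_lit 117877191581) (nat_lit 13) (nat_lit 5) (nat_lit 15) (nat_lit 4) (nat_lit 13) (nat_lit 4) (nat_lit 494) (nat_lit 433) (nat_lit 273)) (XT.nd (nat_lit 78) (nat_lit 76) (nat_lit 0) (XT.lf (nat_lit 0) (nat_lit 485098009945) (nat_lit 152) (nat_lit 330983219280) (nat_lit 0) (nat_lit 358519692322) (nat_lit 13) (nat_lit 5) (nat_lit 15) (nat_lit 4) (nat_lit 13) (nat_lit 4) (nat_lit 495) (nat_lit 433) (nat_lit 272)) (XT.lf (nat_lit 0) (nat_lit 119306336519) (nat_lit 76) (nat_lit 628554791865) (nat_lit 76) (nat_lit 501976435265) (nat_lit 12) (nat_lit 4) (nat_lit 13) (nat_lit 5) (nat_lit 13) (nat_lit 4) (nat_lit 496) (nat_lit 433) (nat_lit 271)))))) (XT.nd (nat_lit 468) (nat_lit 152) (nat_lit 0) (XT.nd (nat_lit 234) (nat_lit 76) (nat_lit 0) (XT.nd (nat_lit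 78) (nat_lit 152) (nat_lit 0) (XT.lf (nat_lit 0) (nat_lit 624442071839) (nat_lit 76) (nat_lit 416252748043) (nat_lit 76) (nat_lit 289674355354) (nat_lit 12) (nat_lit 4) (nat_lit 13) (nat_lit 5) (nat_lit 13) (nat_lit 4) (nat_lit 497) (nat_lit 433) (nat_lit 270)) (XT.nd (nat_lit 78) (nat_lit 152) (nat_lit 0) (XT.lf (nat_lit 0) (nat_lit 1169988393853) (nat_lit 76) (nat_lit 186966679342) (nat_lit 76) (nat_lit 60388253237) (nat_lit 12) (nat_lit 4) (nat_lit 13) (nat_lit 5) (nat_lit 13) (nat_lit 4) (nat_lit 498) (nat_lit 433) (nat_lit 269)) (XT.lf (nat_lit 0) (nat_lit 185772028774) (nat_lit 152) (nat_lit 1255941549146) (nat_lit 0) (nat_lit 68569753731) (nat_lit 10) (nat_lit 5) (nat_lit 12) (nat_lit 4) (nat_lit 10) (nat_lit 4) (nat_lit 499) (nat_lit 433) (nat_lit 268)))) (XT.nd (nat_lit 78) (nat_lit 76) (nat_lit 0) (XT.lf (nat_lit 0) (nat_lit 460157537661) (nat_lit 152) (nat_lit 806476686370) (nat_lit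 0) (nat_lit 342955236092) (nat_lit 10) (nat_lit 5) (nat_lit 12) (nat_lit 4) (nat_lit 10) (nat_lit 4) (nat_lit 500) (nat_lit 433) (nat_lit 267)) (XT.nd (nat_lit 78) (nat_lit 76) (nat_lit 0) (XT.lf (nat_lit 0) (nat_lit 756493770047) (nat_lit 152) (nat_lit 321054874290) (nat_lit 0) (nat_lit 639291443916) (nat_lit 10) (nat_lit 5) (nat_lit 12) (nat_lit 4) (nat_lit 10) (nat_lit 4) (nat_lit 501) (nat_lit 433) (nat_lit 266)) (XT.lf (nat_lit 0) (nat_lit 213900636959) (nat_lit 76) (nat_lit 867780470997) (nat_lit 76) (nat_lit 750578122123) (nat_lit 9) (nat_lit 4) (nat_lit 10) (nat_lit 5) (nat_lit 10) (nat_lit 4) (nat_lit 502) (nat_lit 433) (nat_lit 265))))) (XT.nd (nat_lit 234) (nat_lit 76) (nat_lit 0) (XT.nd (nat_lit 78) (nat_lit 76) (nat_lit 0) (XT.lf (nat_lit 0) (nat_lit 809911047948) (nat_lit 76) (nat_lit 631750488477) (nat_lit 76) (nat_lit 514548118546) (nat_lit 9) (nat_lit 4) (nat_lit 10) (nat_lit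 5) (nat_lit 10) (nat_lit 4) (nat_lit 503) (nat_lit 433) (nat_lit 264)) (XT.nd (nat_lit 78) (nat_lit 76) (nat_lit 0) (XT.lf (nat_lit 0) (nat_lit 1453602091500) (nat_lit 76) (nat_lit 376838209808) (nat_lit 76) (nat_lit 259635820378) (nat_lit 9) (nat_lit 4) (nat_lit 10) (nat_lit 5) (nat_lit 10) (nat_lit 4) (nat_lit 504) (nat_lit 433) (nat_lit 263)) (XT.lf (nat_lit 0) (nat_lit 14885518738) (nat_lit 152) (nat_lit 86240528505) (nat_lit 76) (nat_lit 2133495717858) (nat_lit 8) (nat_lit 5) (nat_lit 10) (nat_lit 5) (nat_lit 9) (nat_lit 4) (nat_lit 505) (nat_lit 433) (nat_lit 262)))) (XT.nd (nat_lit 78) (nat_lit 0) (nat_lit 0) (XT.lf (nat_lit 0) (nat_lit 315265772948) (nat_lit 152) (nat_lit 1866746831357) (nat_lit 0) (nat_lit 206745009800) (nat_lit 7) (nat_lit 5) (nat_lit 9) (nat_lit 4) (nat_lit 7) (nat_lit 4) (nat_lit 506) (nat_lit 433) (nat_lit 261)) (XT.nd (nat_lit 78) (nat_lit 0) (nat_lit 0) (XT.lf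 (nat_lit 0) (nat_lit 644722226942) (nat_lit 152) (nat_lit 1373896992268) (nat_lit 0) (nat_lit 536201449463) (nat_lit 7) (nat_lit 5) (nat_lit 9) (nat_lit 4) (nat_lit 7) (nat_lit 4) (nat_lit 507) (nat_lit 433) (nat_lit 260)) (XT.lf (nat_lit 0) (nat_lit 1000535117668) (nat_lit 152) (nat_lit 841619329388) (nat_lit 0) (nat_lit 892014326919) (nat_lit 7) (nat_lit 5) (nat_lit 9) (nat_lit 4) (nat_lit 7) (nat_lit 4) (nat_lit 508) (nat_lit 433) (nat_lit 259))))))))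
noncomputable def xc174 : XT := (XT.nd (nat_lit 56940) (nat_lit 0) (nat_lit 2964) (XT.nd (nat_lit 858) (nat_lit 76) (nat_lit 0) (XT.nd (nat_lit 390) (nat_lit 152) (nat_lit 0) (XT.nd (nat_lit 156) (nat_lit 0) (nat_lit 0) (XT.nd (nat_lit 78) (nat_lit 76) (nat_lit 0) (XT.lf (nat_lit 0) (nat_lit 1384812965960) (nat_lit 152) (nat_lit 266759604715) (nat_lit 0) (nat_lit 1276292162924) (nat_lit 7) (nat_lit 5) (nat_lit 9) (nat_lit 4) (nat_lit 7) (nat_lit 4) (nat_lit 509) (nat_lit 433) (nat_lit 258)) (XT.lf (nat_lit 0) (nat_lit 372734444388) (nat_lit 76) (nat_lit 1436062801844) (nat_lit 76) (nat_lit 1327541987431) (nat_lit 6) (nat_lit 4) (nat_lit 7) (nat_lit 5) (nat_lit 7) (nat_lit 4) (nat_lit 510) (nat_lit 433) (nat_lit 257))) (XT.nd (nat_lit 78) (nat_lit 0) (nat_lit 0) (XT.lf (nat_lit 0) (nat_lit 1078558736022) (nat_lit 76) (nat_lit 1195435146775) (nat_lit 76) (nat_lit 1086914321828) (nat_lit 6)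 (nat_lit 4) (nat_lit 7) (nat_lit 5) (nat_lit 7) (nat_lit 4) (nat_lit 511) (nat_lit 433) (nat_lit 256)) (XT.nd (nat_lit 78) (nat_lit 0) (nat_lit 0) (XT.lf (nat_lit 0) (nat_lit 1840848844607) (nat_lit 76) (nat_lit 935557344140) (nat_lit 76) (nat_lit 827036509439) (nat_lit 6) (nat_lit 4) (nat_lit 7) (nat_lit 5) (nat_lit 7) (nat_lit 4) (nat_lit 512) (nat_lit 433) (nat_lit 255)) (XT.lf (nat_lit 0) (nat_lit 2664122044862) (nat_lit 76) (nat_lit 654889377331) (nat_lit 76) (nat_lit 546368533598) (nat_lit 6) (nat_lit 4) (nat_lit 7) (nat_lit 5) (nat_lit 7) (nat_lit 4) (nat_lit 513) (nat_lit 433) (nat_lit 254))))) (XT.nd (nat_lit 234) (nat_lit 0) (nat_lit 0) (XT.nd (nat_lit 78) (nat_lit 152) (nat_lit 0) (XT.lf (nat_lit 0) (nat_lit 3553256992788) (nat_lit 76) (nat_lit 351768028767) (nat_lit 76) (nat_lit 243247176672) (nat_lit 6) (nat_lit 4) (nat_lit 7) (nat_lit 5) (nat_lit 7) (nat_lit 4) (nat_lit 514)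 (nat_lit 433) (nat_lit 253)) (XT.nd (nat_lit 78) (nat_lit 0) (nat_lit 0) (XT.lf (nat_lit 0) (nat_lit 60742202977) (nat_lit 76) (nat_lit 20634269529) (nat_lit 152) (nat_lit 4372140628922) (nat_lit 4) (nat_lit 5) (nat_lit 5) (nat_lit 5) (nat_lit 6) (nat_lit 4) (nat_lit 515) (nat_lit 433) (nat_lit 252)) (XT.lf (nat_lit 0) (nat_lit 443624255729) (nat_lit 152) (nat_lit 3993926248394) (nat_lit 0) (nat_lit 343141971463) (nat_lit 4) (nat_lit 5) (nat_lit 6) (nat_lit 4) (nat_lit 4) (nat_lit 4) (nat_lit 516) (nat_lit 433) (nat_lit 251)))) (XT.nd (nat_lit 78) (nat_lit 0) (nat_lit 0) (XT.lf (nat_lit 0) (nat_lit 835387770308) (nat_lit 152) (nat_lit 3563705756778) (nat_lit 0) (nat_lit 734905479896) (nat_lit 4) (nat_lit 5) (nat_lit 6) (nat_lit 4) (nat_lit 4) (nat_lit 4) (nat_lit 517) (nat_lit 433) (nat_lit 250)) (XT.nd (nat_lit 78) (nat_lit 0) (nat_lit 0) (XT.lf (nat_lit 0) (nat_lit 1258492323135) (nat_lit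 152) (nat_lit 3099067714158) (nat_lit 0) (nat_lit 1158010027031) (nat_lit 4) (nat_lit 5) (nat_lit 6) (nat_lit 4) (nat_lit 4) (nat_lit 4) (nat_lit 518) (nat_lit 433) (nat_lit 249)) (XT.lf (nat_lit 0) (nat_lit 1715445200447) (nat_lit 152) (nat_lit 2597258709912) (nat_lit 0) (nat_lit 1614962899074) (nat_lit 4) (nat_lit 5) (nat_lit 6) (nat_lit 4) (nat_lit 4) (nat_lit 4) (nat_lit 519) (nat_lit 433) (nat_lit 248)))))) (XT.nd (nat_lit 468) (nat_lit 0) (nat_lit 0) (XT.nd (nat_lit 234) (nat_lit 76) (nat_lit 0) (XT.nd (nat_lit 78) (nat_lit 0) (nat_lit 0) (XT.lf (nat_lit 0) (nat_lit 2208954271147) (nat_lit 152) (nat_lit 2055305061052) (nat_lit 0) (nat_lit 2108471964895) (nat_lit 4) (nat_lit 5) (nat_lit 6) (nat_lit 4) (nat_lit 4) (nat_lit 4) (nat_lit 520) (nat_lit 433) (nat_lit 247)) (XT.nd (nat_lit 78) (nat_lit 0) (nat_lit 0) (XT.lf (nat_lit 0) (nat_lit 2741944033433) (nat_lit 152) (nat_lit 1469995190399)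 (nat_lit 0) (nat_lit 2641461722662) (nat_lit 4) (nat_lit 5) (nat_lit 6) (nat_lit 4) (nat_lit 4) (nat_lit 4) (nat_lit 521) (nat_lit 433) (nat_lit 246)) (XT.lf (nat_lit 0) (nat_lit 3317572945154) (nat_lit 152) (nat_lit 837860595016) (nat_lit 0) (nat_lit 3217090630200) (nat_lit 4) (nat_lit 5) (nat_lit 6) (nat_lit 4) (nat_lit 4) (nat_lit 4) (nat_lit 522) (nat_lit 433) (nat_lit 245)))) (XT.nd (nat_lit 78) (nat_lit 76) (nat_lit 0) (XT.lf (nat_lit 0) (nat_lit 3939252140602) (nat_lit 152) (nat_lit 155155292116) (nat_lit 0) (nat_lit 3838769821776) (nat_lit 4) (nat_lit 5) (nat_lit 6) (nat_lit 4) (nat_lit 4) (nat_lit 4) (nat_lit 523) (nat_lit 433) (nat_lit 244)) (XT.nd (nat_lit 78) (nat_lit 0) (nat_lit 0) (XT.lf (nat_lit 0) (nat_lit 612822229204) (nat_lit 76) (nat_lit 4012581804786) (nat_lit 76) (nat_lit 3912099482373) (nat_lit 3) (nat_lit 4) (nat_lit 4) (nat_lit 5) (nat_lit 4) (nat_lit 4) (nat_lit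 524) (nat_lit 433) (nat_lit 243)) (XT.lf (nat_lit 0) (nat_lit 1451061716922) (nat_lit 76) (nat_lit 3919628556226) (nat_lit 76) (nat_lit 3819146230491) (nat_lit 3) (nat_lit 4) (nat_lit 4) (nat_lit 5) (nat_lit 4) (nat_lit 4) (nat_lit 525) (nat_lit 433) (nat_lit 242))))) (XT.nd (nat_lit 55380) (nat_lit 0) (nat_lit 5244) (XT.nd (nat_lit 78) (nat_lit 0) (nat_lit 0) (XT.lf (nat_lit 0) (nat_lit 2356360313424) (nat_lit 76) (nat_lit 3819239073616) (nat_lit 76) (nat_lit 3718756744807) (nat_lit 3) (nat_lit 4) (nat_lit 4) (nat_lit 5) (nat_lit 4) (nat_lit 4) (nat_lit 526) (nat_lit 433) (nat_lit 241)) (XT.nd (nat_lit 55224) (nat_lit 0) (nat_lit 5700) (XT.lf (nat_lit 0) (nat_lit 3334082751135) (nat_lit 76) (nat_lit 3710818456321) (nat_lit 76) (nat_lit 3610336124665) (nat_lit 3) (nat_lit 4) (nat_lit 4) (nat_lit 5) (nat_lit 4) (nat_lit 4) (nat_lit 527) (nat_lit 433) (nat_lit 240)) (XT.lf (nat_lit 0) (nat_lit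 26378372391) (nat_lit 532) (nat_lit 717198503) (nat_lit 532) (nat_lit 717198503) (nat_lit 78) (nat_lit 3) (nat_lit 85) (nat_lit 3) (nat_lit 85) (nat_lit 5) (nat_lit 434) (nat_lit 434) (nat_lit 332)))) (XT.nd (nat_lit 78) (nat_lit 456) (nat_lit 0) (XT.lf (nat_lit 76) (nat_lit 27416512606) (nat_lit 0) (nat_lit 28129789208) (nat_lit 532) (nat_lit 2249907550) (nat_lit 79) (nat_lit 5) (nat_lit 78) (nat_lit 3) (nat_lit 85) (nat_lit 5) (nat_lit 435) (nat_lit 434) (nat_lit 331)) (XT.nd (nat_lit 78) (nat_lit 532) (nat_lit 0) (XT.lf (nat_lit 0) (nat_lit 58597658353) (nat_lit 456) (nat_lit 1483057459) (nat_lit 532) (nat_lit 56727769) (nat_lit 79) (nat_lit 5) (nat_lit 85) (nat_lit 5) (nat_lit 86) (nat_lit 5) (nat_lit 436) (nat_lit 434) (nat_lit 330)) (XT.lf (nat_lit 0) (nat_lit 766606829) (nat_lit 532) (nat_lit 32048167348) (nat_lit 608) (nat_lit 29732626120) (nat_lit 72) (nat_lit 5) (nat_lit 79) (nat_lit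 5) (nat_lit 80) (nat_lit 5) (nat_lit 437) (nat_lit 434) (nat_lit 329))))))) (XT.nd (nat_lit 936) (nat_lit 1064) (nat_lit 0) (XT.nd (nat_lit 468) (nat_lit 912) (nat_lit 0) (XT.nd (nat_lit 234) (nat_lit 304) (nat_lit 0) (XT.nd (nat_lit 78) (nat_lit 0) (nat_lit 76) (XT.lf (nat_lit 0) (nat_lit 3214136343) (nat_lit 532) (nat_lit 64791238) (nat_lit 608) (nat_lit 61864841892) (nat_lit 72) (nat_lit 5) (nat_lit 79) (nat_lit 5) (nat_lit 80) (nat_lit 5) (nat_lit 438) (nat_lit 434) (nat_lit 328)) (XT.nd (nat_lit 78) (nat_lit 0) (nat_lit 0) (XT.lf (nat_lit 0) (nat_lit 7439612561) (nat_lit 532) (nat_lit 32297629295) (nat_lit 608) (nat_lit 28084035368) (nat_lit 73) (nat_lit 5) (nat_lit 80) (nat_lit 5) (nat_lit 81) (nat_lit 5) (nat_lit 439) (nat_lit 434) (nat_lit 327)) (XT.lf (nat_lit 76) (nat_lit 3330080936) (nat_lit 0) (nat_lit 8838567706) (nat_lit 608) (nat_lit 58531095759) (nat_lit 74) (nat_lit 5)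 (nat_lit 73) (nat_lit 5) (nat_lit 81) (nat_lit 5) (nat_lit 440) (nat_lit 434) (nat_lit 326)))) (XT.nd (nat_lit 78) (nat_lit 456) (nat_lit 0) (XT.lf (nat_lit 0) (nat_lit 18770552538) (nat_lit 532) (nat_lit 30707355788) (nat_lit 76) (nat_lit 24211017534) (nat_lit 74) (nat_lit 5) (nat_lit 81) (nat_lit 5) (nat_lit 75) (nat_lit 5) (nat_lit 441) (nat_lit 434) (nat_lit 325)) (XT.nd (nat_lit 78) (nat_lit 0) (nat_lit 0) (XT.lf (nat_lit 0) (nat_lit 9112949029) (nat_lit 456) (nat_lit 17235046133) (nat_lit 532) (nat_lit 50533456230) (nat_lit 68) (nat_lit 5) (nat_lit 74) (nat_lit 5) (nat_lit 75) (nat_lit 5) (nat_lit 442) (nat_lit 434) (nat_lit 324)) (XT.lf (nat_lit 0) (nat_lit 35814725658) (nat_lit 532) (nat_lit 26843112407) (nat_lit 76) (nat_lit 17568893935) (nat_lit 68) (nat_lit 5) (nat_lit 75) (nat_lit 5) (nat_lit 69) (nat_lit 5) (nat_lit 443) (nat_lit 434) (nat_lit 323))))) (XT.nd (nat_lit 234)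 (nat_lit 456) (nat_lit 0) (XT.nd (nat_lit 78) (nat_lit 228) (nat_lit 0) (XT.lf (nat_lit 0) (nat_lit 17797706339) (nat_lit 228) (nat_lit 29115599691) (nat_lit 304) (nat_lit 36856368513) (nat_lit 65) (nat_lit 5) (nat_lit 68) (nat_lit 5) (nat_lit 69) (nat_lit 5) (nat_lit 444) (nat_lit 434) (nat_lit 322)) (XT.nd (nat_lit 78) (nat_lit 228) (nat_lit 0) (XT.lf (nat_lit 0) (nat_lit 59822639555) (nat_lit 304) (nat_lit 20192323670) (nat_lit 76) (nat_lit 7507260299) (nat_lit 65) (nat_lit 5) (nat_lit 69) (nat_lit 5) (nat_lit 66) (nat_lit 5) (nat_lit 445) (nat_lit 434) (nat_lit 321)) (XT.lf (nat_lit 0) (nat_lit 29992581455) (nat_lit 228) (nat_lit 45248662758) (nat_lit 304) (nat_lit 16215610597) (nat_lit 62) (nat_lit 5) (nat_lit 65) (nat_lit 5) (nat_lit 66) (nat_lit 5) (nat_lit 446) (nat_lit 434) (nat_lit 320)))) (XT.nd (nat_lit 78) (nat_lit 456) (nat_lit 0) (XT.lf (nat_lit 0) (nat_lit 85339452993) (nat_lit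 228) (nat_lit 7104980128) (nat_lit 304) (nat_lit 3217736127) (nat_lit 62) (nat_lit 5) (nat_lit 65) (nat_lit 5) (nat_lit 66) (nat_lit 5) (nat_lit 447) (nat_lit 434) (nat_lit 319)) (XT.nd (nat_lit 78) (nat_lit 228) (nat_lit 0) (XT.lf (nat_lit 0) (nat_lit 12264094716) (nat_lit 228) (nat_lit 53948795848) (nat_lit 76) (nat_lit 33811370104) (nat_lit 59) (nat_lit 5) (nat_lit 62) (nat_lit 5) (nat_lit 60) (nat_lit 5) (nat_lit 448) (nat_lit 434) (nat_lit 318)) (XT.lf (nat_lit 0) (nat_lit 2719212192) (nat_lit 228) (nat_lit 26630022853) (nat_lit 304) (nat_lit 75336310058) (nat_lit 56) (nat_lit 5) (nat_lit 59) (nat_lit 5) (nat_lit 60) (nat_lit 5) (nat_lit 449) (nat_lit 434) (nat_lit 317)))))) (XT.nd (nat_lit 468) (nat_lit 532) (nat_lit 0) (XT.nd (nat_lit 234) (nat_lit 380) (nat_lit 0) (XT.nd (nat_lit 78) (nat_lit 152) (nat_lit 0) (XT.lf (nat_lit 0) (nat_lit 49701352045) (nat_lit 304) (nat_lit 43040153822)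 (nat_lit 76) (nat_lit 16826213423) (nat_lit 56) (nat_lit 5) (nat_lit 60) (nat_lit 5) (nat_lit 57) (nat_lit 5) (nat_lit 450) (nat_lit 434) (nat_lit 316)) (XT.nd (nat_lit 78) (nat_lit 0) (nat_lit 0) (XT.lf (nat_lit 0) (nat_lit 20955588343) (nat_lit 152) (nat_lit 51920909224) (nat_lit 228) (nat_lit 41868381328) (nat_lit 54) (nat_lit 5) (nat_lit 56) (nat_lit 5) (nat_lit 57) (nat_lit 5) (nat_lit 451) (nat_lit 434) (nat_lit 315)) (XT.lf (nat_lit 0) (nat_lit 92517624322) (nat_lit 152) (nat_lit 6564046113) (nat_lit 228) (nat_lit 21160459779) (nat_lit 54) (nat_lit 5) (nat_lit 56) (nat_lit 5) (nat_lit 57) (nat_lit 5) (nat_lit 452) (nat_lit 434) (nat_lit 314)))) (XT.nd (nat_lit 78) (nat_lit 152) (nat_lit 0) (XT.lf (nat_lit 0) (nat_lit 3296450897) (nat_lit 228) (nat_lit 81247149289) (nat_lit 76) (nat_lit 41461037811) (nat_lit 51) (nat_lit 5) (nat_lit 54) (nat_lit 5) (nat_lit 52) (nat_lit 5) (nat_lit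 453) (nat_lit 434) (nat_lit 313)) (XT.nd (nat_lit 78) (nat_lit 152) (nat_lit 0) (XT.lf (nat_lit 0) (nat_lit 29514203854) (nat_lit 228) (nat_lit 8293627282) (nat_lit 76) (nat_lit 94300545329) (nat_lit 51) (nat_lit 5) (nat_lit 54) (nat_lit 5) (nat_lit 52) (nat_lit 5) (nat_lit 454) (nat_lit 434) (nat_lit 312)) (XT.lf (nat_lit 0) (nat_lit 59964385354) (nat_lit 228) (nat_lit 64701346721) (nat_lit 76) (nat_lit 13863881418) (nat_lit 49) (nat_lit 5) (nat_lit 52) (nat_lit 5) (nat_lit 50) (nat_lit 5) (nat_lit 455) (nat_lit 434) (nat_lit 311))))) (XT.nd (nat_lit 234) (nat_lit 228) (nat_lit 0) (XT.nd (nat_lit 78) (nat_lit 152) (nat_lit 0) (XT.lf (nat_lit 0) (nat_lit 17428064959) (nat_lit 152) (nat_lit 77055689449) (nat_lit 228) (nat_lit 50850141369) (nat_lit 47) (nat_lit 5) (nat_lit 49) (nat_lit 5) (nat_lit 50) (nat_lit 5) (nat_lit 456) (nat_lit 434) (nat_lit 310)) (XT.nd (nat_lit 78) (nat_lit 152)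 (nat_lit 0) (XT.lf (nat_lit 0) (nat_lit 109806462500) (nat_lit 152) (nat_lit 23726637698) (nat_lit 228) (nat_lit 19007946395) (nat_lit 47) (nat_lit 5) (nat_lit 49) (nat_lit 5) (nat_lit 50) (nat_lit 5) (nat_lit 457) (nat_lit 434) (nat_lit 309)) (XT.lf (nat_lit 0) (nat_lit 16705322748) (nat_lit 152) (nat_lit 109599118654) (nat_lit 76) (nat_lit 33823281930) (nat_lit 45) (nat_lit 5) (nat_lit 47) (nat_lit 5) (nat_lit 46) (nat_lit 5) (nat_lit 458) (nat_lit 434) (nat_lit 308)))) (XT.nd (nat_lit 78) (nat_lit 228) (nat_lit 0) (XT.lf (nat_lit 0) (nat_lit 56063217047) (nat_lit 152) (nat_lit 15685956183) (nat_lit 76) (nat_lit 96387505132) (nat_lit 45) (nat_lit 5) (nat_lit 47) (nat_lit 5) (nat_lit 46) (nat_lit 5) (nat_lit 459) (nat_lit 434) (nat_lit 307)) (XT.nd (nat_lit 78) (nat_lit 76) (nat_lit 0) (XT.lf (nat_lit 0) (nat_lit 90254252664) (nat_lit 152) (nat_lit 10485571809) (nat_lit 228) (nat_lit 75872918890)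 (nat_lit 43) (nat_lit 5) (nat_lit 45) (nat_lit 5) (nat_lit 46) (nat_lit 5) (nat_lit 460) (nat_lit 434) (nat_lit 306)) (XT.lf (nat_lit 0) (nat_lit 19451066318) (nat_lit 76) (nat_lit 131785873531) (nat_lit 152) (nat_lit 34350243450) (nat_lit 42) (nat_lit 5) (nat_lit 43) (nat_lit 5) (nat_lit 44) (nat_lit 4) (nat_lit 461) (nat_lit 434) (nat_lit 305))))))))
noncomputable def xc175 : XT := (XT.nd (nat_lit 1794) (nat_lit 1064) (nat_lit 0) (XT.nd (nat_lit 858) (nat_lit 760) (nat_lit 0) (XT.nd (nat_lit 390) (nat_lit 304) (nat_lit 0) (XT.nd (nat_lit 156) (nat_lit 304) (nat_lit 0) (XT.nd (nat_lit 78) (nat_lit 152) (nat_lit 0) (XT.lf (nat_lit 0) (nat_lit 12663637275) (nat_lit 152) (nat_lit 57040985223) (nat_lit 76) (nat_lit 125339216583) (nat_lit 41) (nat_lit 5) (nat_lit 43) (nat_lit 5) (nat_lit 42) (nat_lit 5) (nat_lit 462) (nat_lit 434) (nat_lit 304)) (XT.lf (nat_lit 0) (nat_lit 63042338065) (nat_lit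 152) (nat_lit 56172864) (nat_lit 228) (nat_lit 141965884309) (nat_lit 39) (nat_lit 5) (nat_lit 41) (nat_lit 5) (nat_lit 42) (nat_lit 5) (nat_lit 463) (nat_lit 434) (nat_lit 303))) (XT.nd (nat_lit 78) (nat_lit 304) (nat_lit 0) (XT.lf (nat_lit 0) (nat_lit 120975510610) (nat_lit 228) (nat_lit 21634583629) (nat_lit 76) (nat_lit 73003914819) (nat_lit 39) (nat_lit 5) (nat_lit 42) (nat_lit 5) (nat_lit 40) (nat_lit 4) (nat_lit 464) (nat_lit 434) (nat_lit 302)) (XT.nd (nat_lit 78) (nat_lit 228) (nat_lit 0) (XT.lf (nat_lit 0) (nat_lit 114088831152) (nat_lit 76) (nat_lit 72138698114) (nat_lit 152) (nat_lit 40560474057) (nat_lit 38) (nat_lit 5) (nat_lit 39) (nat_lit 5) (nat_lit 40) (nat_lit 4) (nat_lit 465) (nat_lit 434) (nat_lit 301)) (XT.lf (nat_lit 0) (nat_lit 18268243295) (nat_lit 228) (nat_lit 215025346232) (nat_lit 76) (nat_lit 5422630581) (nat_lit 35) (nat_lit 5) (nat_lit 38) (nat_lit 5) (nat_lit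 36) (nat_lit 4) (nat_lit 466) (nat_lit 434) (nat_lit 300))))) (XT.nd (nat_lit 234) (nat_lit 228) (nat_lit 0) (XT.nd (nat_lit 78) (nat_lit 76) (nat_lit 0) (XT.lf (nat_lit 0) (nat_lit 84646672177) (nat_lit 228) (nat_lit 76958836540) (nat_lit 76) (nat_lit 89506125398) (nat_lit 35) (nat_lit 5) (nat_lit 38) (nat_lit 5) (nat_lit 36) (nat_lit 4) (nat_lit 467) (nat_lit 434) (nat_lit 299)) (XT.nd (nat_lit 78) (nat_lit 0) (nat_lit 0) (XT.lf (nat_lit 0) (nat_lit 75951670925) (nat_lit 76) (nat_lit 82209945361) (nat_lit 152) (nat_lit 106190965729) (nat_lit 34) (nat_lit 5) (nat_lit 35) (nat_lit 5) (nat_lit 36) (nat_lit 4) (nat_lit 468) (nat_lit 434) (nat_lit 298)) (XT.lf (nat_lit 0) (nat_lit 239801278316) (nat_lit 152) (nat_lit 33153197495) (nat_lit 0) (nat_lit 5518848182) (nat_lit 34) (nat_lit 5) (nat_lit 36) (nat_lit 4) (nat_lit 34) (nat_lit 4) (nat_lit 469) (nat_lit 434) (nat_lit 297)))) (XT.nd (nat_lit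 78) (nat_lit 76) (nat_lit 0) (XT.lf (nat_lit 0) (nat_lit 38163954730) (nat_lit 152) (nat_lit 154901861765) (nat_lit 76) (nat_lit 100141710120) (nat_lit 32) (nat_lit 5) (nat_lit 34) (nat_lit 5) (nat_lit 33) (nat_lit 4) (nat_lit 470) (nat_lit 434) (nat_lit 296)) (XT.nd (nat_lit 78) (nat_lit 0) (nat_lit 0) (XT.lf (nat_lit 0) (nat_lit 16095188115) (nat_lit 76) (nat_lit 104279090395) (nat_lit 152) (nat_lit 188560490407) (nat_lit 31) (nat_lit 5) (nat_lit 32) (nat_lit 5) (nat_lit 33) (nat_lit 4) (nat_lit 471) (nat_lit 434) (nat_lit 295)) (XT.lf (nat_lit 0) (nat_lit 209580740570) (nat_lit 76) (nat_lit 3815626720) (nat_lit 152) (nat_lit 112185028216) (nat_lit 31) (nat_lit 5) (nat_lit 32) (nat_lit 5) (nat_lit 33) (nat_lit 4) (nat_lit 472) (nat_lit 434) (nat_lit 294)))))) (XT.nd (nat_lit 468) (nat_lit 304) (nat_lit 0) (XT.nd (nat_lit 234) (nat_lit 228) (nat_lit 0) (XT.nd (nat_lit 78) (nat_lit 152)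 (nat_lit 0) (XT.lf (nat_lit 0) (nat_lit 76283060737) (nat_lit 76) (nat_lit 241929113344) (nat_lit 76) (nat_lit 24999422095) (nat_lit 30) (nat_lit 4) (nat_lit 31) (nat_lit 5) (nat_lit 31) (nat_lit 4) (nat_lit 473) (nat_lit 434) (nat_lit 293)) (XT.nd (nat_lit 78) (nat_lit 76) (nat_lit 0) (XT.lf (nat_lit 0) (nat_lit 69054137183) (nat_lit 152) (nat_lit 73297397253) (nat_lit 76) (nat_lit 219499386958) (nat_lit 29) (nat_lit 5) (nat_lit 31) (nat_lit 5) (nat_lit 30) (nat_lit 4) (nat_lit 474) (nat_lit 434) (nat_lit 292)) (XT.lf (nat_lit 0) (nat_lit 142292344430) (nat_lit 76) (nat_lit 30410845622) (nat_lit 152) (nat_lit 208952509590) (nat_lit 28) (nat_lit 5) (nat_lit 29) (nat_lit 5) (nat_lit 30) (nat_lit 4) (nat_lit 475) (nat_lit 434) (nat_lit 291)))) (XT.nd (nat_lit 78) (nat_lit 228) (nat_lit 0) (XT.lf (nat_lit 0) (nat_lit 288876165615) (nat_lit 152) (nat_lit 25815596664) (nat_lit 0) (nat_lit 88014538013)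 (nat_lit 28) (nat_lit 5) (nat_lit 30) (nat_lit 4) (nat_lit 28) (nat_lit 4) (nat_lit 476) (nat_lit 434) (nat_lit 290)) (XT.nd (nat_lit 78) (nat_lit 152) (nat_lit 0) (XT.lf (nat_lit 0) (nat_lit 214769164342) (nat_lit 76) (nat_lit 205528628035) (nat_lit 76) (nat_lit 4666771584) (nat_lit 27) (nat_lit 4) (nat_lit 28) (nat_lit 5) (nat_lit 28) (nat_lit 4) (nat_lit 477) (nat_lit 434) (nat_lit 289)) (XT.lf (nat_lit 0) (nat_lit 25663576786) (nat_lit 76) (nat_lit 83242983374) (nat_lit 152) (nat_lit 339771786029) (nat_lit 25) (nat_lit 5) (nat_lit 26) (nat_lit 5) (nat_lit 27) (nat_lit 4) (nat_lit 478) (nat_lit 434) (nat_lit 288))))) (XT.nd (nat_lit 234) (nat_lit 152) (nat_lit 0) (XT.nd (nat_lit 78) (nat_lit 152) (nat_lit 0) (XT.lf (nat_lit 0) (nat_lit 238383996780) (nat_lit 152) (nat_lit 182929489330) (nat_lit 0) (nat_lit 52400418494) (nat_lit 25) (nat_lit 5) (nat_lit 27) (nat_lit 4) (nat_lit 25) (nat_lit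 4) (nat_lit 479) (nat_lit 434) (nat_lit 287)) (XT.nd (nat_lit 78) (nat_lit 76) (nat_lit 0) (XT.lf (nat_lit 0) (nat_lit 78107184191) (nat_lit 76) (nat_lit 304152819973) (nat_lit 76) (nat_lit 118169073476) (nat_lit 24) (nat_lit 4) (nat_lit 25) (nat_lit 5) (nat_lit 25) (nat_lit 4) (nat_lit 480) (nat_lit 434) (nat_lit 286)) (XT.lf (nat_lit 0) (nat_lit 13077465026) (nat_lit 152) (nat_lit 158782774993) (nat_lit 76) (nat_lit 356994629357) (nat_lit 23) (nat_lit 5) (nat_lit 25) (nat_lit 5) (nat_lit 24) (nat_lit 4) (nat_lit 481) (nat_lit 434) (nat_lit 285)))) (XT.nd (nat_lit 78) (nat_lit 76) (nat_lit 0) (XT.lf (nat_lit 0) (nat_lit 129234505738) (nat_lit 76) (nat_lit 22312875126) (nat_lit 152) (nat_lit 407513169184) (nat_lit 22) (nat_lit 5) (nat_lit 23) (nat_lit 5) (nat_lit 24) (nat_lit 4) (nat_lit 482) (nat_lit 434) (nat_lit 284)) (XT.nd (nat_lit 78) (nat_lit 76) (nat_lit 0) (XT.lf (nat_lit 0) (nat_lit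 308896539774) (nat_lit 152) (nat_lit 145473047720) (nat_lit 0) (nat_lit 136688965707) (nat_lit 22) (nat_lit 5) (nat_lit 24) (nat_lit 4) (nat_lit 22) (nat_lit 4) (nat_lit 483) (nat_lit 434) (nat_lit 283)) (XT.lf (nat_lit 0) (nat_lit 169528705940) (nat_lit 76) (nat_lit 313961429452) (nat_lit 76) (nat_lit 141753740904) (nat_lit 21) (nat_lit 4) (nat_lit 22) (nat_lit 5) (nat_lit 22) (nat_lit 4) (nat_lit 484) (nat_lit 434) (nat_lit 282))))))) (XT.nd (nat_lit 936) (nat_lit 456) (nat_lit 0) (XT.nd (nat_lit 468) (nat_lit 228) (nat_lit 0) (XT.nd (nat_lit 234) (nat_lit 228) (nat_lit 0) (XT.nd (nat_lit 78) (nat_lit 76) (nat_lit 0) (XT.lf (nat_lit 0) (nat_lit 13473178133) (nat_lit 152) (nat_lit 144183584031) (nat_lit 76) (nat_lit 504161793528) (nat_lit 20) (nat_lit 5) (nat_lit 22) (nat_lit 5) (nat_lit 21) (nat_lit 4) (nat_lit 485) (nat_lit 434) (nat_lit 281)) (XT.nd (nat_lit 78) (nat_lit 0) (nat_lit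 0) (XT.lf (nat_lit 0) (nat_lit 178721899666) (nat_lit 152) (nat_lit 502611646757) (nat_lit 0) (nat_lit 19270147166) (nat_lit 19) (nat_lit 5) (nat_lit 21) (nat_lit 4) (nat_lit 19) (nat_lit 4) (nat_lit 486) (nat_lit 434) (nat_lit 280)) (XT.lf (nat_lit 0) (nat_lit 365329927027) (nat_lit 152) (nat_lit 170632472469) (nat_lit 0) (nat_lit 205878090380) (nat_lit 19) (nat_lit 5) (nat_lit 21) (nat_lit 4) (nat_lit 19) (nat_lit 4) (nat_lit 487) (nat_lit 434) (nat_lit 279)))) (XT.nd (nat_lit 78) (nat_lit 152) (nat_lit 0) (XT.lf (nat_lit 0) (nat_lit 197799383756) (nat_lit 76) (nat_lit 373824104665) (nat_lit 76) (nat_lit 214372190104) (nat_lit 18) (nat_lit 4) (nat_lit 19) (nat_lit 5) (nat_lit 19) (nat_lit 4) (nat_lit 488) (nat_lit 434) (nat_lit 278)) (XT.nd (nat_lit 78) (nat_lit 152) (nat_lit 0) (XT.lf (nat_lit 0) (nat_lit 605409439689) (nat_lit 76) (nat_lit 193676306197) (nat_lit 76) (nat_lit 34224319493)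 (nat_lit 18) (nat_lit 4) (nat_lit 19) (nat_lit 5) (nat_lit 19) (nat_lit 4) (nat_lit 489) (nat_lit 434) (nat_lit 277)) (XT.lf (nat_lit 0) (nat_lit 156523310824) (nat_lit 152) (nat_lit 718358601824) (nat_lit 0) (nat_lit 8882520543) (nat_lit 16) (nat_lit 5) (nat_lit 18) (nat_lit 4) (nat_lit 16) (nat_lit 4) (nat_lit 490) (nat_lit 434) (nat_lit 276))))) (XT.nd (nat_lit 234) (nat_lit 152) (nat_lit 0) (XT.nd (nat_lit 78) (nat_lit 76) (nat_lit 0) (XT.lf (nat_lit 0) (nat_lit 372105185931) (nat_lit 152) (nat_lit 340700635727) (nat_lit 0) (nat_lit 224464338382) (nat_lit 16) (nat_lit 5) (nat_lit 18) (nat_lit 4) (nat_lit 16) (nat_lit 4) (nat_lit 491) (nat_lit 434) (nat_lit 275)) (XT.nd (nat_lit 78) (nat_lit 0) (nat_lit 0) (XT.lf (nat_lit 0) (nat_lit 70706676942) (nat_lit 76) (nat_lit 535927270867) (nat_lit 76) (nat_lit 388286370290) (nat_lit 15) (nat_lit 4) (nat_lit 16) (nat_lit 5) (nat_lit 16) (nat_lit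 4) (nat_lit 492) (nat_lit 434) (nat_lit 274)) (XT.lf (nat_lit 0) (nat_lit 534402204834) (nat_lit 76) (nat_lit 334838008708) (nat_lit 76) (nat_lit 187197059032) (nat_lit 15) (nat_lit 4) (nat_lit 16) (nat_lit 5) (nat_lit 16) (nat_lit 4) (nat_lit 493) (nat_lit 434) (nat_lit 273)))) (XT.nd (nat_lit 78) (nat_lit 76) (nat_lit 0) (XT.lf (nat_lit 0) (nat_lit 28479557828) (nat_lit 152) (nat_lit 88403514854) (nat_lit 76) (nat_lit 1005934842186) (nat_lit 14) (nat_lit 5) (nat_lit 16) (nat_lit 5) (nat_lit 15) (nat_lit 4) (nat_lit 494) (nat_lit 434) (nat_lit 272)) (XT.nd (nat_lit 78) (nat_lit 0) (nat_lit 0) (XT.lf (nat_lit 0) (nat_lit 264014793568) (nat_lit 152) (nat_lit 801777665177) (nat_lit 0) (nat_lit 127310129464) (nat_lit 13) (nat_lit 5) (nat_lit 15) (nat_lit 4) (nat_lit 13) (nat_lit 4) (nat_lit 495) (nat_lit 434) (nat_lit 271)) (XT.lf (nat_lit 0) (nat_lit 523908525824) (nat_lit 152) (nat_lit 357456429753)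 (nat_lit 0) (nat_lit 387203825630) (nat_lit 13) (nat_lit 5) (nat_lit 15) (nat_lit 4) (nat_lit 13) (nat_lit 4) (nat_lit 496) (nat_lit 434) (nat_lit 270)))))) (XT.nd (nat_lit 468) (nat_lit 228) (nat_lit 0) (XT.nd (nat_lit 234) (nat_lit 152) (nat_lit 0) (XT.nd (nat_lit 78) (nat_lit 0) (nat_lit 0) (XT.lf (nat_lit 0) (nat_lit 128856152609) (nat_lit 76) (nat_lit 678836470660) (nat_lit 76) (nat_lit 542131737050) (nat_lit 12) (nat_lit 4) (nat_lit 13) (nat_lit 5) (nat_lit 13) (nat_lit 4) (nat_lit 497) (nat_lit 434) (nat_lit 269)) (XT.nd (nat_lit 78) (nat_lit 0) (nat_lit 0) (XT.lf (nat_lit 0) (nat_lit 674402353483) (nat_lit 76) (nat_lit 449550463670) (nat_lit 76) (nat_lit 312845699119) (nat_lit 12) (nat_lit 4) (nat_lit 13) (nat_lit 5) (nat_lit 13) (nat_lit 4) (nat_lit 498) (nat_lit 434) (nat_lit 268)) (XT.lf (nat_lit 0) (nat_lit 1263592017118) (nat_lit 76) (nat_lit 201921694970) (nat_lit 76) (nat_lit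 65216901771) (nat_lit 12) (nat_lit 4) (nat_lit 13) (nat_lit 5) (nat_lit 13) (nat_lit 4) (nat_lit 499) (nat_lit 434) (nat_lit 267)))) (XT.nd (nat_lit 78) (nat_lit 0) (nat_lit 0) (XT.lf (nat_lit 0) (nat_lit 200636077849) (nat_lit 152) (nat_lit 1356412196289) (nat_lit 0) (nat_lit 74057541065) (nat_lit 10) (nat_lit 5) (nat_lit 12) (nat_lit 4) (nat_lit 10) (nat_lit 4) (nat_lit 500) (nat_lit 434) (nat_lit 266)) (XT.nd (nat_lit 78) (nat_lit 0) (nat_lit 0) (XT.lf (nat_lit 0) (nat_lit 496972258056) (nat_lit 152) (nat_lit 870990490920) (nat_lit 0) (nat_lit 370393698531) (nat_lit 10) (nat_lit 5) (nat_lit 12) (nat_lit 4) (nat_lit 10) (nat_lit 4) (nat_lit 501) (nat_lit 434) (nat_lit 265)) (XT.lf (nat_lit 0) (nat_lit 817015232190) (nat_lit 152) (nat_lit 346735254641) (nat_lit 0) (nat_lit 690436651606) (nat_lit 10) (nat_lit 5) (nat_lit 12) (nat_lit 4) (nat_lit 10) (nat_lit 4) (nat_lit 502) (nat_lit 434)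 (nat_lit 264))))) (XT.nd (nat_lit 234) (nat_lit 152) (nat_lit 0) (XT.nd (nat_lit 78) (nat_lit 0) (nat_lit 0) (XT.lf (nat_lit 0) (nat_lit 231016596000) (nat_lit 76) (nat_lit 937200909896) (nat_lit 76) (nat_lit 810622309815) (nat_lit 9) (nat_lit 4) (nat_lit 10) (nat_lit 5) (nat_lit 10) (nat_lit 4) (nat_lit 503) (nat_lit 434) (nat_lit 263)) (XT.nd (nat_lit 78) (nat_lit 0) (nat_lit 0) (XT.lf (nat_lit 0) (nat_lit 874707550380) (nat_lit 76) (nat_lit 682288676833) (nat_lit 76) (nat_lit 555710058698) (nat_lit 9) (nat_lit 4) (nat_lit 10) (nat_lit 5) (nat_lit 10) (nat_lit 4) (nat_lit 504) (nat_lit 434) (nat_lit 262)) (XT.lf (nat_lit 0) (nat_lit 1569893609372) (nat_lit 76) (nat_lit 406983552960) (nat_lit 76) (nat_lit 280404918109) (nat_lit 9) (nat_lit 4) (nat_lit 10) (nat_lit 5) (nat_lit 10) (nat_lit 4) (nat_lit 505) (nat_lit 434) (nat_lit 261)))) (XT.nd (nat_lit 78) (nat_lit 76) (nat_lit 0) (XT.lf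 (nat_lit 0) (nat_lit 16077915295) (nat_lit 152) (nat_lit 93136586514) (nat_lit 76) (nat_lit 2304176880074) (nat_lit 8) (nat_lit 5) (nat_lit 10) (nat_lit 5) (nat_lit 9) (nat_lit 4) (nat_lit 506) (nat_lit 434) (nat_lit 260)) (XT.nd (nat_lit 78) (nat_lit 0) (nat_lit 0) (XT.lf (nat_lit 0) (nat_lit 340488587514) (nat_lit 152) (nat_lit 2016083391245) (nat_lit 0) (nat_lit 223286120235) (nat_lit 7) (nat_lit 5) (nat_lit 9) (nat_lit 4) (nat_lit 7) (nat_lit 4) (nat_lit 507) (nat_lit 434) (nat_lit 259)) (XT.lf (nat_lit 0) (nat_lit 696301442811) (nat_lit 152) (nat_lit 1483805801075) (nat_lit 0) (nat_lit 579098963245) (nat_lit 7) (nat_lit 5) (nat_lit 9) (nat_lit 4) (nat_lit 7) (nat_lit 4) (nat_lit 508) (nat_lit 434) (nat_lit 258))))))))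
noncomputable def xc176 : XT := (XT.nd (nat_lit 57096) (nat_lit 0) (nat_lit 2964) (XT.nd (nat_lit 858) (nat_lit 76) (nat_lit 0) (XT.nd (nat_lit 390) (nat_lit 152) (nat_lit 0) (XT.nd (nat_lit 156) (nat_lit 76) (nat_lit 0) (XT.nd (nat_lit 78) (nat_lit 0) (nat_lit 0) (XT.lf (nat_lit 0) (nat_lit 1080579258298) (nat_lit 152) (nat_lit 908946143726) (nat_lit 0) (nat_lit 963376767355) (nat_lit 7) (nat_lit 5) (nat_lit 9) (nat_lit 4) (nat_lit 7) (nat_lit 4) (nat_lit 509) (nat_lit 434) (nat_lit 257)) (XT.lf (nat_lit 0) (nat_lit 1495599235844) (nat_lit 152) (nat_lit 288097843450) (nat_lit 0) (nat_lit 1378396734367) (nat_lit 7) (nat_lit 5) (nat_lit 9) (nat_lit 4) (nat_lit 7) (nat_lit 4) (nat_lit 510) (nat_lit 434) (nat_lit 256))) (XT.nd (nat_lit 78) (nat_lit 0) (nat_lit 0) (XT.lf (nat_lit 0) (nat_lit 402555665540) (nat_lit 76) (nat_lit 1550946560992) (nat_lit 76) (nat_lit 1433744049761) (nat_lit 6)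 (nat_lit 4) (nat_lit 7) (nat_lit 5) (nat_lit 7) (nat_lit 4) (nat_lit 511) (nat_lit 434) (nat_lit 255)) (XT.nd (nat_lit 78) (nat_lit 0) (nat_lit 0) (XT.lf (nat_lit 0) (nat_lit 1164845717867) (nat_lit 76) (nat_lit 1291068787221) (nat_lit 76) (nat_lit 1173866266959) (nat_lit 6) (nat_lit 4) (nat_lit 7) (nat_lit 5) (nat_lit 7) (nat_lit 4) (nat_lit 512) (nat_lit 434) (nat_lit 254)) (XT.lf (nat_lit 0) (nat_lit 1988118866031) (nat_lit 76) (nat_lit 1010400847138) (nat_lit 76) (nat_lit 893198318513) (nat_lit 6) (nat_lit 4) (nat_lit 7) (nat_lit 5) (nat_lit 7) (nat_lit 4) (nat_lit 513) (nat_lit 434) (nat_lit 253))))) (XT.nd (nat_lit 234) (nat_lit 0) (nat_lit 0) (XT.nd (nat_lit 78) (nat_lit 152) (nat_lit 0) (XT.lf (nat_lit 0) (nat_lit 2877253765724) (nat_lit 76) (nat_lit 707279523320) (nat_lit 76) (nat_lit 590076986952) (nat_lit 6) (nat_lit 4) (nat_lit 7) (nat_lit 5) (nat_lit 7) (nat_lit 4) (nat_lit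 514) (nat_lit 434) (nat_lit 252)) (XT.nd (nat_lit 78) (nat_lit 152) (nat_lit 0) (XT.lf (nat_lit 0) (nat_lit 3837519364501) (nat_lit 76) (nat_lit 379908541256) (nat_lit 76) (nat_lit 262705997719) (nat_lit 6) (nat_lit 4) (nat_lit 7) (nat_lit 5) (nat_lit 7) (nat_lit 4) (nat_lit 515) (nat_lit 434) (nat_lit 251)) (XT.lf (nat_lit 0) (nat_lit 65603392105) (nat_lit 76) (nat_lit 22284080144) (nat_lit 152) (nat_lit 4721910926728) (nat_lit 4) (nat_lit 5) (nat_lit 5) (nat_lit 5) (nat_lit 6) (nat_lit 4) (nat_lit 516) (nat_lit 434) (nat_lit 250)))) (XT.nd (nat_lit 78) (nat_lit 0) (nat_lit 0) (XT.lf (nat_lit 0) (nat_lit 479115033532) (nat_lit 152) (nat_lit 4313438625057) (nat_lit 0) (nat_lit 370594148049) (nat_lit 4) (nat_lit 5) (nat_lit 6) (nat_lit 4) (nat_lit 4) (nat_lit 4) (nat_lit 517) (nat_lit 434) (nat_lit 249)) (XT.nd (nat_lit 78) (nat_lit 0) (nat_lit 0) (XT.lf (nat_lit 0) (nat_lit 902219567252)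 (nat_lit 152) (nat_lit 3848800621756) (nat_lit 0) (nat_lit 793698676499) (nat_lit 4) (nat_lit 5) (nat_lit 6) (nat_lit 4) (nat_lit 4) (nat_lit 4) (nat_lit 518) (nat_lit 434) (nat_lit 248)) (XT.lf (nat_lit 0) (nat_lit 1359172426873) (nat_lit 152) (nat_lit 3346991653917) (nat_lit 0) (nat_lit 1250651531241) (nat_lit 4) (nat_lit 5) (nat_lit 6) (nat_lit 4) (nat_lit 4) (nat_lit 4) (nat_lit 519) (nat_lit 434) (nat_lit 247)))))) (XT.nd (nat_lit 468) (nat_lit 0) (nat_lit 0) (XT.nd (nat_lit 234) (nat_lit 76) (nat_lit 0) (XT.nd (nat_lit 78) (nat_lit 0) (nat_lit 0) (XT.lf (nat_lit 0) (nat_lit 1852681481193) (nat_lit 152) (nat_lit 2805038038766) (nat_lit 0) (nat_lit 1744160581044) (nat_lit 4) (nat_lit 5) (nat_lit 6) (nat_lit 4) (nat_lit 4) (nat_lit 4) (nat_lit 520) (nat_lit 434) (nat_lit 246)) (XT.nd (nat_lit 78) (nat_lit 0) (nat_lit 0) (XT.lf (nat_lit 0) (nat_lit 2385671228312) (nat_lit 152) (nat_lit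 2219728199326) (nat_lit 0) (nat_lit 2277150323979) (nat_lit 4) (nat_lit 5) (nat_lit 6) (nat_lit 4) (nat_lit 4) (nat_lit 4) (nat_lit 521) (nat_lit 434) (nat_lit 245)) (XT.lf (nat_lit 0) (nat_lit 2961300125990) (nat_lit 152) (nat_lit 1587593632844) (nat_lit 0) (nat_lit 2852779217783) (nat_lit 4) (nat_lit 5) (nat_lit 6) (nat_lit 4) (nat_lit 4) (nat_lit 4) (nat_lit 522) (nat_lit 434) (nat_lit 244)))) (XT.nd (nat_lit 78) (nat_lit 76) (nat_lit 0) (XT.lf (nat_lit 0) (nat_lit 3582979308435) (nat_lit 152) (nat_lit 904888356704) (nat_lit 0) (nat_lit 3474458396642) (nat_lit 4) (nat_lit 5) (nat_lit 6) (nat_lit 4) (nat_lit 4) (nat_lit 4) (nat_lit 523) (nat_lit 434) (nat_lit 243)) (XT.nd (nat_lit 78) (nat_lit 76) (nat_lit 0) (XT.lf (nat_lit 0) (nat_lit 4254392800433) (nat_lit 152) (nat_lit 167566710010) (nat_lit 0) (nat_lit 4145871885319) (nat_lit 4) (nat_lit 5) (nat_lit 6) (nat_lit 4) (nat_lit 4) (nat_lit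 4) (nat_lit 524) (nat_lit 434) (nat_lit 242)) (XT.lf (nat_lit 0) (nat_lit 661848987561) (nat_lit 76) (nat_lit 4333587845109) (nat_lit 76) (nat_lit 4225066926920) (nat_lit 3) (nat_lit 4) (nat_lit 4) (nat_lit 5) (nat_lit 4) (nat_lit 4) (nat_lit 525) (nat_lit 434) (nat_lit 241))))) (XT.nd (nat_lit 55536) (nat_lit 0) (nat_lit 5244) (XT.nd (nat_lit 55380) (nat_lit 0) (nat_lit 5700) (XT.lf (nat_lit 0) (nat_lit 1567147561702) (nat_lit 76) (nat_lit 4233198374001) (nat_lit 76) (nat_lit 4124677452966) (nat_lit 3) (nat_lit 4) (nat_lit 4) (nat_lit 5) (nat_lit 4) (nat_lit 4) (nat_lit 526) (nat_lit 434) (nat_lit 240)) (XT.nd (nat_lit 78) (nat_lit 0) (nat_lit 0) (XT.lf (nat_lit 0) (nat_lit 28508082572) (nat_lit 532) (nat_lit 764072667) (nat_lit 532) (nat_lit 764072667) (nat_lit 78) (nat_lit 3) (nat_lit 85) (nat_lit 3) (nat_lit 85) (nat_lit 5) (nat_lit 435) (nat_lit 435) (nat_lit 330)) (XT.lf (nat_lit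 76) (nat_lit 29630305317) (nat_lit 0) (nat_lit 30396193709) (nat_lit 532) (nat_lit 2390473173) (nat_lit 79) (nat_lit 5) (nat_lit 78) (nat_lit 3) (nat_lit 85) (nat_lit 5) (nat_lit 436) (nat_lit 435) (nat_lit 329)))) (XT.nd (nat_lit 78) (nat_lit 532) (nat_lit 0) (XT.lf (nat_lit 0) (nat_lit 63318904124) (nat_lit 456) (nat_lit 1579673416) (nat_lit 532) (nat_lit 47173481) (nat_lit 79) (nat_lit 5) (nat_lit 85) (nat_lit 5) (nat_lit 86) (nat_lit 5) (nat_lit 437) (nat_lit 435) (nat_lit 328)) (XT.nd (nat_lit 78) (nat_lit 0) (nat_lit 0) (XT.lf (nat_lit 0) (nat_lit 860237594) (nat_lit 532) (nat_lit 34588837319) (nat_lit 608) (nat_lit 32099521744) (nat_lit 72) (nat_lit 5) (nat_lit 79) (nat_lit 5) (nat_lit 80) (nat_lit 5) (nat_lit 438) (nat_lit 435) (nat_lit 327)) (XT.lf (nat_lit 0) (nat_lit 3501176712) (nat_lit 532) (nat_lit 48508410) (nat_lit 608) (nat_lit 66803182516) (nat_lit 72) (nat_lit 5) (nat_lit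 79) (nat_lit 5) (nat_lit 80) (nat_lit 5) (nat_lit 439) (nat_lit 435) (nat_lit 326))))))) (XT.nd (nat_lit 858) (nat_lit 1064) (nat_lit 0) (XT.nd (nat_lit 390) (nat_lit 912) (nat_lit 0) (XT.nd (nat_lit 156) (nat_lit 380) (nat_lit 0) (XT.nd (nat_lit 78) (nat_lit 0) (nat_lit 0) (XT.lf (nat_lit 0) (nat_lit 8062803752) (nat_lit 532) (nat_lit 34858076389) (nat_lit 608) (nat_lit 30323847639) (nat_lit 73) (nat_lit 5) (nat_lit 80) (nat_lit 5) (nat_lit 81) (nat_lit 5) (nat_lit 440) (nat_lit 435) (nat_lit 325)) (XT.lf (nat_lit 76) (nat_lit 3619259186) (nat_lit 0) (nat_lit 9549375477) (nat_lit 608) (nat_lit 63184960641) (nat_lit 74) (nat_lit 5) (nat_lit 73) (nat_lit 5) (nat_lit 81) (nat_lit 5) (nat_lit 441) (nat_lit 435) (nat_lit 324))) (XT.nd (nat_lit 78) (nat_lit 456) (nat_lit 0) (XT.lf (nat_lit 0) (nat_lit 20296645452) (nat_lit 532) (nat_lit 33140805412) (nat_lit 76) (nat_lit 26144624726) (nat_lit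 74) (nat_lit 5) (nat_lit 81) (nat_lit 5) (nat_lit 75) (nat_lit 5) (nat_lit 442) (nat_lit 435) (nat_lit 323)) (XT.nd (nat_lit 78) (nat_lit 0) (nat_lit 0) (XT.lf (nat_lit 0) (nat_lit 9864537997) (nat_lit 456) (nat_lit 18614476874) (nat_lit 532) (nat_lit 54551090407) (nat_lit 68) (nat_lit 5) (nat_lit 74) (nat_lit 5) (nat_lit 75) (nat_lit 5) (nat_lit 443) (nat_lit 435) (nat_lit 322)) (XT.lf (nat_lit 0) (nat_lit 38701352799) (nat_lit 532) (nat_lit 28967940704) (nat_lit 76) (nat_lit 18973853892) (nat_lit 68) (nat_lit 5) (nat_lit 75) (nat_lit 5) (nat_lit 69) (nat_lit 5) (nat_lit 444) (nat_lit 435) (nat_lit 321))))) (XT.nd (nat_lit 234) (nat_lit 456) (nat_lit 0) (XT.nd (nat_lit 78) (nat_lit 228) (nat_lit 0) (XT.lf (nat_lit 0) (nat_lit 19243570867) (nat_lit 228) (nat_lit 31443190169) (nat_lit 304) (nat_lit 39782849528) (nat_lit 65) (nat_lit 5) (nat_lit 68) (nat_lit 5) (nat_lit 69) (nat_lit 5) (nat_lit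 445) (nat_lit 435) (nat_lit 320)) (XT.nd (nat_lit 78) (nat_lit 228) (nat_lit 0) (XT.lf (nat_lit 0) (nat_lit 64627367743) (nat_lit 304) (nat_lit 21785815026) (nat_lit 76) (nat_lit 8109299070) (nat_lit 65) (nat_lit 5) (nat_lit 69) (nat_lit 5) (nat_lit 66) (nat_lit 5) (nat_lit 446) (nat_lit 435) (nat_lit 319)) (XT.lf (nat_lit 0) (nat_lit 32413328218) (nat_lit 228) (nat_lit 48865244528) (nat_lit 304) (nat_lit 17493382383) (nat_lit 62) (nat_lit 5) (nat_lit 65) (nat_lit 5) (nat_lit 66) (nat_lit 5) (nat_lit 447) (nat_lit 435) (nat_lit 318)))) (XT.nd (nat_lit 78) (nat_lit 456) (nat_lit 0) (XT.lf (nat_lit 0) (nat_lit 92186368719) (nat_lit 228) (nat_lit 7670312565) (nat_lit 304) (nat_lit 3457120701) (nat_lit 62) (nat_lit 5) (nat_lit 65) (nat_lit 5) (nat_lit 66) (nat_lit 5) (nat_lit 448) (nat_lit 435) (nat_lit 317)) (XT.nd (nat_lit 78) (nat_lit 228) (nat_lit 0) (XT.lf (nat_lit 0) (nat_lit 13261661148)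 (nat_lit 228) (nat_lit 58243335079) (nat_lit 76) (nat_lit 36519885625) (nat_lit 59) (nat_lit 5) (nat_lit 62) (nat_lit 5) (nat_lit 60) (nat_lit 5) (nat_lit 449) (nat_lit 435) (nat_lit 316)) (XT.lf (nat_lit 0) (nat_lit 2957572732) (nat_lit 228) (nat_lit 28755323085) (nat_lit 304) (nat_lit 81346230913) (nat_lit 56) (nat_lit 5) (nat_lit 59) (nat_lit 5) (nat_lit 60) (nat_lit 5) (nat_lit 450) (nat_lit 435) (nat_lit 315)))))) (XT.nd (nat_lit 468) (nat_lit 532) (nat_lit 0) (XT.nd (nat_lit 234) (nat_lit 380) (nat_lit 0) (XT.nd (nat_lit 78) (nat_lit 152) (nat_lit 0) (XT.lf (nat_lit 0) (nat_lit 53692131192) (nat_lit 304) (nat_lit 46463030153) (nat_lit 76) (nat_lit 18176797899) (nat_lit 56) (nat_lit 5) (nat_lit 60) (nat_lit 5) (nat_lit 57) (nat_lit 5) (nat_lit 451) (nat_lit 435) (nat_lit 314)) (XT.nd (nat_lit 78) (nat_lit 0) (nat_lit 0) (XT.lf (nat_lit 0) (nat_lit 22651856551) (nat_lit 152) (nat_lit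 56068821765) (nat_lit 228) (nat_lit 45202662395) (nat_lit 54) (nat_lit 5) (nat_lit 56) (nat_lit 5) (nat_lit 57) (nat_lit 5) (nat_lit 452) (nat_lit 435) (nat_lit 313)) (XT.lf (nat_lit 0) (nat_lit 99937387175) (nat_lit 152) (nat_lit 7083836286) (nat_lit 228) (nat_lit 22839232266) (nat_lit 54) (nat_lit 5) (nat_lit 56) (nat_lit 5) (nat_lit 57) (nat_lit 5) (nat_lit 453) (nat_lit 435) (nat_lit 312)))) (XT.nd (nat_lit 78) (nat_lit 152) (nat_lit 0) (XT.lf (nat_lit 0) (nat_lit 3573123315) (nat_lit 228) (nat_lit 87727454395) (nat_lit 76) (nat_lit 44783391944) (nat_lit 51) (nat_lit 5) (nat_lit 54) (nat_lit 5) (nat_lit 52) (nat_lit 5) (nat_lit 454) (nat_lit 435) (nat_lit 311)) (XT.nd (nat_lit 78) (nat_lit 152) (nat_lit 0) (XT.lf (nat_lit 0) (nat_lit 31887336779) (nat_lit 228) (nat_lit 8939092616) (nat_lit 76) (nat_lit 101849654797) (nat_lit 51) (nat_lit 5) (nat_lit 54) (nat_lit 5) (nat_lit 52) (nat_lit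 5) (nat_lit 455) (nat_lit 435) (nat_lit 310)) (XT.lf (nat_lit 0) (nat_lit 64773211898) (nat_lit 228) (nat_lit 69859106246) (nat_lit 76) (nat_lit 14978727907) (nat_lit 49) (nat_lit 5) (nat_lit 52) (nat_lit 5) (nat_lit 50) (nat_lit 5) (nat_lit 456) (nat_lit 435) (nat_lit 309))))) (XT.nd (nat_lit 234) (nat_lit 228) (nat_lit 0) (XT.nd (nat_lit 78) (nat_lit 152) (nat_lit 0) (XT.lf (nat_lit 0) (nat_lit 18840193858) (nat_lit 152) (nat_lit 83213501855) (nat_lit 228) (nat_lit 54906010169) (nat_lit 47) (nat_lit 5) (nat_lit 49) (nat_lit 5) (nat_lit 50) (nat_lit 5) (nat_lit 457) (nat_lit 435) (nat_lit 308)) (XT.nd (nat_lit 78) (nat_lit 152) (nat_lit 0) (XT.lf (nat_lit 0) (nat_lit 118607538483) (nat_lit 152) (nat_lit 25618618019) (nat_lit 228) (nat_lit 20517339042) (nat_lit 47) (nat_lit 5) (nat_lit 49) (nat_lit 5) (nat_lit 50) (nat_lit 5) (nat_lit 458) (nat_lit 435) (nat_lit 307)) (XT.lf (nat_lit 0)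 (nat_lit 18052193337) (nat_lit 152) (nat_lit 118349687101) (nat_lit 76) (nat_lit 36535223367) (nat_lit 45) (nat_lit 5) (nat_lit 47) (nat_lit 5) (nat_lit 46) (nat_lit 5) (nat_lit 459) (nat_lit 435) (nat_lit 306)))) (XT.nd (nat_lit 78) (nat_lit 228) (nat_lit 0) (XT.lf (nat_lit 0) (nat_lit 60557945494) (nat_lit 152) (nat_lit 16924757636) (nat_lit 76) (nat_lit 104104134138) (nat_lit 45) (nat_lit 5) (nat_lit 47) (nat_lit 5) (nat_lit 46) (nat_lit 5) (nat_lit 460) (nat_lit 435) (nat_lit 305)) (XT.nd (nat_lit 78) (nat_lit 76) (nat_lit 0) (XT.lf (nat_lit 0) (nat_lit 97490260956) (nat_lit 152) (nat_lit 11318080999) (nat_lit 228) (nat_lit 81932672802) (nat_lit 43) (nat_lit 5) (nat_lit 45) (nat_lit 5) (nat_lit 46) (nat_lit 5) (nat_lit 461) (nat_lit 435) (nat_lit 304)) (XT.lf (nat_lit 0) (nat_lit 21023003642) (nat_lit 76) (nat_lit 142322054042) (nat_lit 152) (nat_lit 37088365829) (nat_lit 42) (nat_lit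 5) (nat_lit 43) (nat_lit 5) (nat_lit 44) (nat_lit 4) (nat_lit 462) (nat_lit 435) (nat_lit 303))))))))
noncomputable def xc177 : XT := (XT.nd (nat_lit 1794) (nat_lit 1064) (nat_lit 0) (XT.nd (nat_lit 858) (nat_lit 760) (nat_lit 0) (XT.nd (nat_lit 390) (nat_lit 304) (nat_lit 0) (XT.nd (nat_lit 156) (nat_lit 304) (nat_lit 0) (XT.nd (nat_lit 78) (nat_lit 152) (nat_lit 0) (XT.lf (nat_lit 0) (nat_lit 13685433816) (nat_lit 152) (nat_lit 61589126593) (nat_lit 76) (nat_lit 135372088120) (nat_lit 41) (nat_lit 5) (nat_lit 43) (nat_lit 5) (nat_lit 42) (nat_lit 5) (nat_lit 463) (nat_lit 435) (nat_lit 302)) (XT.lf (nat_lit 0) (nat_lit 68100479331) (nat_lit 152) (nat_lit 54328014) (nat_lit 228) (nat_lit 153314065126) (nat_lit 39) (nat_lit 5) (nat_lit 41) (nat_lit 5) (nat_lit 42) (nat_lit 5) (nat_lit 464) (nat_lit 435) (nat_lit 301))) (XT.nd (nat_lit 78) (nat_lit 304) (nat_lit 0) (XT.lf (nat_lit 0) (nat_lit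 130661484781) (nat_lit 228) (nat_lit 23351205726) (nat_lit 76) (nat_lit 78849803553) (nat_lit 39) (nat_lit 5) (nat_lit 42) (nat_lit 5) (nat_lit 40) (nat_lit 4) (nat_lit 465) (nat_lit 435) (nat_lit 300)) (XT.nd (nat_lit 78) (nat_lit 228) (nat_lit 0) (XT.lf (nat_lit 0) (nat_lit 123229724146) (nat_lit 76) (nat_lit 77903684695) (nat_lit 152) (nat_lit 43797019590) (nat_lit 38) (nat_lit 5) (nat_lit 39) (nat_lit 5) (nat_lit 40) (nat_lit 4) (nat_lit 466) (nat_lit 435) (nat_lit 299)) (XT.lf (nat_lit 0) (nat_lit 19737479212) (nat_lit 228) (nat_lit 232213069745) (nat_lit 76) (nat_lit 5862345804) (nat_lit 35) (nat_lit 5) (nat_lit 38) (nat_lit 5) (nat_lit 36) (nat_lit 4) (nat_lit 467) (nat_lit 435) (nat_lit 298))))) (XT.nd (nat_lit 234) (nat_lit 228) (nat_lit 0) (XT.nd (nat_lit 78) (nat_lit 76) (nat_lit 0) (XT.lf (nat_lit 0) (nat_lit 91425606371) (nat_lit 228) (nat_lit 83102298847) (nat_lit 76) (nat_lit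 96672082816) (nat_lit 35) (nat_lit 5) (nat_lit 38) (nat_lit 5) (nat_lit 36) (nat_lit 4) (nat_lit 468) (nat_lit 435) (nat_lit 297)) (XT.nd (nat_lit 78) (nat_lit 0) (nat_lit 0) (XT.lf (nat_lit 0) (nat_lit 82040713908) (nat_lit 76) (nat_lit 88780809205) (nat_lit 152) (nat_lit 114678706541) (nat_lit 34) (nat_lit 5) (nat_lit 35) (nat_lit 5) (nat_lit 36) (nat_lit 4) (nat_lit 469) (nat_lit 435) (nat_lit 296)) (XT.lf (nat_lit 0) (nat_lit 258991973345) (nat_lit 152) (nat_lit 35793114803) (nat_lit 0) (nat_lit 5965573678) (nat_lit 34) (nat_lit 5) (nat_lit 36) (nat_lit 4) (nat_lit 34) (nat_lit 4) (nat_lit 470) (nat_lit 435) (nat_lit 295)))) (XT.nd (nat_lit 78) (nat_lit 76) (nat_lit 0) (XT.lf (nat_lit 0) (nat_lit 41223631402) (nat_lit 152) (nat_lit 167281638556) (nat_lit 76) (nat_lit 108158333392) (nat_lit 32) (nat_lit 5) (nat_lit 34) (nat_lit 5) (nat_lit 33) (nat_lit 4) (nat_lit 471) (nat_lit 435)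 (nat_lit 294)) (XT.nd (nat_lit 78) (nat_lit 0) (nat_lit 0) (XT.lf (nat_lit 0) (nat_lit 17394862095) (nat_lit 76) (nat_lit 112615723060) (nat_lit 152) (nat_lit 203638455599) (nat_lit 31) (nat_lit 5) (nat_lit 32) (nat_lit 5) (nat_lit 33) (nat_lit 4) (nat_lit 472) (nat_lit 435) (nat_lit 293)) (XT.lf (nat_lit 0) (nat_lit 226358365492) (nat_lit 76) (nat_lit 4115604110) (nat_lit 152) (nat_lit 121153465621) (nat_lit 31) (nat_lit 5) (nat_lit 32) (nat_lit 5) (nat_lit 33) (nat_lit 4) (nat_lit 473) (nat_lit 435) (nat_lit 292)))))) (XT.nd (nat_lit 468) (nat_lit 304) (nat_lit 0) (XT.nd (nat_lit 234) (nat_lit 228) (nat_lit 0) (XT.nd (nat_lit 78) (nat_lit 152) (nat_lit 0) (XT.lf (nat_lit 0) (nat_lit 82396924974) (nat_lit 76) (nat_lit 261278066692) (nat_lit 76) (nat_lit 26993064258) (nat_lit 30) (nat_lit 4) (nat_lit 31) (nat_lit 5) (nat_lit 31) (nat_lit 4) (nat_lit 474) (nat_lit 435) (nat_lit 291)) (XT.nd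 (nat_lit 78) (nat_lit 76) (nat_lit 0) (XT.lf (nat_lit 0) (nat_lit 74584019892) (nat_lit 152) (nat_lit 79150507987) (nat_lit 76) (nat_lit 237064022699) (nat_lit 29) (nat_lit 5) (nat_lit 31) (nat_lit 5) (nat_lit 30) (nat_lit 4) (nat_lit 475) (nat_lit 435) (nat_lit 290)) (XT.lf (nat_lit 0) (nat_lit 153686142624) (nat_lit 76) (nat_lit 32838693502) (nat_lit 152) (nat_lit 225662887857) (nat_lit 28) (nat_lit 5) (nat_lit 29) (nat_lit 5) (nat_lit 30) (nat_lit 4) (nat_lit 476) (nat_lit 435) (nat_lit 289)))) (XT.nd (nat_lit 78) (nat_lit 228) (nat_lit 0) (XT.lf (nat_lit 0) (nat_lit 311991362193) (nat_lit 152) (nat_lit 27870917042) (nat_lit 0) (nat_lit 95060116481) (nat_lit 28) (nat_lit 5) (nat_lit 30) (nat_lit 4) (nat_lit 28) (nat_lit 4) (nat_lit 477) (nat_lit 435) (nat_lit 288)) (XT.nd (nat_lit 78) (nat_lit 152) (nat_lit 0) (XT.lf (nat_lit 0) (nat_lit 231960373519) (nat_lit 76) (nat_lit 221966200261)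 (nat_lit 76) (nat_lit 5034758347) (nat_lit 27) (nat_lit 4) (nat_lit 28) (nat_lit 5) (nat_lit 28) (nat_lit 4) (nat_lit 478) (nat_lit 435) (nat_lit 287)) (XT.lf (nat_lit 0) (nat_lit 27726355370) (nat_lit 76) (nat_lit 89897672971) (nat_lit 152) (nat_lit 366948189808) (nat_lit 25) (nat_lit 5) (nat_lit 26) (nat_lit 5) (nat_lit 27) (nat_lit 4) (nat_lit 479) (nat_lit 435) (nat_lit 286))))) (XT.nd (nat_lit 234) (nat_lit 152) (nat_lit 0) (XT.nd (nat_lit 78) (nat_lit 152) (nat_lit 0) (XT.lf (nat_lit 0) (nat_lit 257459399471) (nat_lit 152) (nat_lit 197554613329) (nat_lit 0) (nat_lit 56596629292) (nat_lit 25) (nat_lit 5) (nat_lit 27) (nat_lit 4) (nat_lit 25) (nat_lit 4) (nat_lit 480) (nat_lit 435) (nat_lit 285)) (XT.nd (nat_lit 78) (nat_lit 76) (nat_lit 0) (XT.lf (nat_lit 0) (nat_lit 84364760273) (nat_lit 76) (nat_lit 328480596771) (nat_lit 76) (nat_lit 127617682378) (nat_lit 24) (nat_lit 4) (nat_lit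 25) (nat_lit 5) (nat_lit 25) (nat_lit 4) (nat_lit 481) (nat_lit 435) (nat_lit 284)) (XT.lf (nat_lit 0) (nat_lit 14127987236) (nat_lit 152) (nat_lit 171476834471) (nat_lit 76) (nat_lit 385558091023) (nat_lit 23) (nat_lit 5) (nat_lit 25) (nat_lit 5) (nat_lit 24) (nat_lit 4) (nat_lit 482) (nat_lit 435) (nat_lit 283)))) (XT.nd (nat_lit 78) (nat_lit 76) (nat_lit 0) (XT.lf (nat_lit 0) (nat_lit 139581611946) (nat_lit 76) (nat_lit 24093764740) (nat_lit 152) (nat_lit 440109680758) (nat_lit 22) (nat_lit 5) (nat_lit 23) (nat_lit 5) (nat_lit 24) (nat_lit 4) (nat_lit 483) (nat_lit 435) (nat_lit 282)) (XT.nd (nat_lit 78) (nat_lit 76) (nat_lit 0) (XT.lf (nat_lit 0) (nat_lit 333612249002) (nat_lit 152) (nat_lit 157102944518) (nat_lit 0) (nat_lit 147627724886) (nat_lit 22) (nat_lit 5) (nat_lit 24) (nat_lit 4) (nat_lit 22) (nat_lit 4) (nat_lit 484) (nat_lit 435) (nat_lit 281)) (XT.lf (nat_lit 0) (nat_lit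 183098748244) (nat_lit 76) (nat_lit 339074475050) (nat_lit 76) (nat_lit 153089852785) (nat_lit 21) (nat_lit 4) (nat_lit 22) (nat_lit 5) (nat_lit 22) (nat_lit 4) (nat_lit 485) (nat_lit 435) (nat_lit 280))))))) (XT.nd (nat_lit 936) (nat_lit 456) (nat_lit 0) (XT.nd (nat_lit 468) (nat_lit 228) (nat_lit 0) (XT.nd (nat_lit 234) (nat_lit 228) (nat_lit 0) (XT.nd (nat_lit 78) (nat_lit 76) (nat_lit 0) (XT.lf (nat_lit 0) (nat_lit 14554715644) (nat_lit 152) (nat_lit 155710904604) (nat_lit 76) (nat_lit 544498125108) (nat_lit 20) (nat_lit 5) (nat_lit 22) (nat_lit 5) (nat_lit 21) (nat_lit 4) (nat_lit 486) (nat_lit 435) (nat_lit 279)) (XT.nd (nat_lit 78) (nat_lit 0) (nat_lit 0) (XT.lf (nat_lit 0) (nat_lit 193023321234) (nat_lit 152) (nat_lit 542813198560) (nat_lit 0) (nat_lit 20815175593) (nat_lit 19) (nat_lit 5) (nat_lit 21) (nat_lit 4) (nat_lit 19) (nat_lit 4) (nat_lit 487) (nat_lit 435) (nat_lit 278))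 (XT.lf (nat_lit 0) (nat_lit 394559718962) (nat_lit 152) (nat_lit 184276236991) (nat_lit 0) (nat_lit 222351501179) (nat_lit 19) (nat_lit 5) (nat_lit 21) (nat_lit 4) (nat_lit 19) (nat_lit 4) (nat_lit 488) (nat_lit 435) (nat_lit 277)))) (XT.nd (nat_lit 78) (nat_lit 152) (nat_lit 0) (XT.lf (nat_lit 0) (nat_lit 213629994738) (nat_lit 76) (nat_lit 403726679022) (nat_lit 76) (nat_lit 231518394440) (nat_lit 18) (nat_lit 4) (nat_lit 19) (nat_lit 5) (nat_lit 19) (nat_lit 4) (nat_lit 489) (nat_lit 435) (nat_lit 276)) (XT.nd (nat_lit 78) (nat_lit 152) (nat_lit 0) (XT.lf (nat_lit 0) (nat_lit 653848361791) (nat_lit 76) (nat_lit 209167305122) (nat_lit 76) (nat_lit 36958958690) (nat_lit 18) (nat_lit 4) (nat_lit 19) (nat_lit 5) (nat_lit 19) (nat_lit 4) (nat_lit 490) (nat_lit 435) (nat_lit 275)) (XT.lf (nat_lit 0) (nat_lit 169048307354) (nat_lit 152) (nat_lit 775820948171) (nat_lit 0) (nat_lit 9596081705)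 (nat_lit 16) (nat_lit 5) (nat_lit 18) (nat_lit 4) (nat_lit 16) (nat_lit 4) (nat_lit 491) (nat_lit 435) (nat_lit 274))))) (XT.nd (nat_lit 234) (nat_lit 152) (nat_lit 0) (XT.nd (nat_lit 78) (nat_lit 76) (nat_lit 0) (XT.lf (nat_lit 0) (nat_lit 401876500495) (nat_lit 152) (nat_lit 367950814549) (nat_lit 0) (nat_lit 242424225746) (nat_lit 16) (nat_lit 5) (nat_lit 18) (nat_lit 4) (nat_lit 16) (nat_lit 4) (nat_lit 492) (nat_lit 435) (nat_lit 273)) (XT.nd (nat_lit 78) (nat_lit 0) (nat_lit 0) (XT.lf (nat_lit 0) (nat_lit 76368934474) (nat_lit 76) (nat_lit 578798551705) (nat_lit 76) (nat_lit 419346231493) (nat_lit 15) (nat_lit 4) (nat_lit 16) (nat_lit 5) (nat_lit 16) (nat_lit 4) (nat_lit 493) (nat_lit 435) (nat_lit 272)) (XT.lf (nat_lit 0) (nat_lit 577159680644) (nat_lit 76) (nat_lit 361622363449) (nat_lit 76) (nat_lit 202170001144) (nat_lit 15) (nat_lit 4) (nat_lit 16) (nat_lit 5) (nat_lit 16) (nat_lit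 4) (nat_lit 494) (nat_lit 435) (nat_lit 271)))) (XT.nd (nat_lit 78) (nat_lit 76) (nat_lit 0) (XT.lf (nat_lit 0) (nat_lit 30760405244) (nat_lit 152) (nat_lit 95470758373) (nat_lit 76) (nat_lit 1086411985761) (nat_lit 14) (nat_lit 5) (nat_lit 16) (nat_lit 5) (nat_lit 15) (nat_lit 4) (nat_lit 495) (nat_lit 435) (nat_lit 270)) (XT.nd (nat_lit 78) (nat_lit 0) (nat_lit 0) (XT.lf (nat_lit 0) (nat_lit 285138453983) (nat_lit 152) (nat_lit 865914834808) (nat_lit 0) (nat_lit 137497308268) (nat_lit 13) (nat_lit 5) (nat_lit 15) (nat_lit 4) (nat_lit 13) (nat_lit 4) (nat_lit 496) (nat_lit 435) (nat_lit 269)) (XT.lf (nat_lit 0) (nat_lit 565823501343) (nat_lit 152) (nat_lit 386048274150) (nat_lit 0) (nat_lit 418182324687) (nat_lit 13) (nat_lit 5) (nat_lit 15) (nat_lit 4) (nat_lit 13) (nat_lit 4) (nat_lit 497) (nat_lit 435) (nat_lit 268)))))) (XT.nd (nat_lit 468) (nat_lit 228) (nat_lit 0) (XT.nd (nat_lit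 234) (nat_lit 152) (nat_lit 0) (XT.nd (nat_lit 78) (nat_lit 0) (nat_lit 0) (XT.lf (nat_lit 0) (nat_lit 139169196575) (nat_lit 76) (nat_lit 733141069593) (nat_lit 76) (nat_lit 585499864289) (nat_lit 12) (nat_lit 4) (nat_lit 13) (nat_lit 5) (nat_lit 13) (nat_lit 4) (nat_lit 498) (nat_lit 435) (nat_lit 267)) (XT.nd (nat_lit 78) (nat_lit 0) (nat_lit 0) (XT.lf (nat_lit 0) (nat_lit 728358756351) (nat_lit 76) (nat_lit 485512353801) (nat_lit 76) (nat_lit 337871121970) (nat_lit 12) (nat_lit 4) (nat_lit 13) (nat_lit 5) (nat_lit 13) (nat_lit 4) (nat_lit 499) (nat_lit 435) (nat_lit 266)) (XT.lf (nat_lit 0) (nat_lit 1364683280885) (nat_lit 76) (nat_lit 218073442640) (nat_lit 76) (nat_lit 70432186247) (nat_lit 12) (nat_lit 4) (nat_lit 13) (nat_lit 5) (nat_lit 13) (nat_lit 4) (nat_lit 500) (nat_lit 435) (nat_lit 265)))) (XT.nd (nat_lit 78) (nat_lit 0) (nat_lit 0) (XT.lf (nat_lit 0) (nat_lit 216688924616)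 (nat_lit 152) (nat_lit 1464921162399) (nat_lit 0) (nat_lit 79984036528) (nat_lit 10) (nat_lit 5) (nat_lit 12) (nat_lit 4) (nat_lit 10) (nat_lit 4) (nat_lit 501) (nat_lit 435) (nat_lit 264)) (XT.nd (nat_lit 78) (nat_lit 0) (nat_lit 0) (XT.lf (nat_lit 0) (nat_lit 536731854015) (nat_lit 152) (nat_lit 940666017608) (nat_lit 0) (nat_lit 400026946429) (nat_lit 10) (nat_lit 5) (nat_lit 12) (nat_lit 4) (nat_lit 10) (nat_lit 4) (nat_lit 502) (nat_lit 435) (nat_lit 263)) (XT.lf (nat_lit 0) (nat_lit 882378131611) (nat_lit 152) (nat_lit 374470637432) (nat_lit 0) (nat_lit 745673205972) (nat_lit 10) (nat_lit 5) (nat_lit 12) (nat_lit 4) (nat_lit 10) (nat_lit 4) (nat_lit 503) (nat_lit 435) (nat_lit 262))))) (XT.nd (nat_lit 234) (nat_lit 152) (nat_lit 0) (XT.nd (nat_lit 78) (nat_lit 0) (nat_lit 0) (XT.lf (nat_lit 0) (nat_lit 249501274232) (nat_lit 76) (nat_lit 1012175269056) (nat_lit 76) (nat_lit 875470326700)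 (nat_lit 9) (nat_lit 4) (nat_lit 10) (nat_lit 5) (nat_lit 10) (nat_lit 4) (nat_lit 504) (nat_lit 435) (nat_lit 261)) (XT.nd (nat_lit 78) (nat_lit 0) (nat_lit 0) (XT.lf (nat_lit 0) (nat_lit 944687256773) (nat_lit 76) (nat_lit 736870184283) (nat_lit 76) (nat_lit 600165226449) (nat_lit 9) (nat_lit 4) (nat_lit 10) (nat_lit 5) (nat_lit 10) (nat_lit 4) (nat_lit 505) (nat_lit 435) (nat_lit 260)) (XT.lf (nat_lit 0) (nat_lit 1695487970680) (nat_lit 76) (nat_lit 439540768034) (nat_lit 76) (nat_lit 302835795868) (nat_lit 9) (nat_lit 4) (nat_lit 10) (nat_lit 5) (nat_lit 10) (nat_lit 4) (nat_lit 506) (nat_lit 435) (nat_lit 259)))) (XT.nd (nat_lit 78) (nat_lit 76) (nat_lit 0) (XT.lf (nat_lit 0) (nat_lit 17365481731) (nat_lit 152) (nat_lit 100584783435) (nat_lit 76) (nat_lit 2488512320592) (nat_lit 8) (nat_lit 5) (nat_lit 10) (nat_lit 5) (nat_lit 9) (nat_lit 4) (nat_lit 507) (nat_lit 435) (nat_lit 258))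 (XT.nd (nat_lit 78) (nat_lit 0) (nat_lit 0) (XT.lf (nat_lit 0) (nat_lit 367729005731) (nat_lit 152) (nat_lit 2177367330531) (nat_lit 0) (nat_lit 241150304136) (nat_lit 7) (nat_lit 5) (nat_lit 9) (nat_lit 4) (nat_lit 7) (nat_lit 4) (nat_lit 508) (nat_lit 435) (nat_lit 257)) (XT.lf (nat_lit 0) (nat_lit 752006790843) (nat_lit 152) (nat_lit 1602507735519) (nat_lit 0) (nat_lit 625428078714) (nat_lit 7) (nat_lit 5) (nat_lit 9) (nat_lit 4) (nat_lit 7) (nat_lit 4) (nat_lit 509) (nat_lit 435) (nat_lit 256))))))))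
noncomputable def xc178 : XT := (XT.nd (nat_lit 57174) (nat_lit 0) (nat_lit 2736) (XT.nd (nat_lit 858) (nat_lit 76) (nat_lit 0) (XT.nd (nat_lit 390) (nat_lit 152) (nat_lit 0) (XT.nd (nat_lit 156) (nat_lit 76) (nat_lit 0) (XT.nd (nat_lit 78) (nat_lit 0) (nat_lit 0) (XT.lf (nat_lit 0) (nat_lit 1167026740265) (nat_lit 152) (nat_lit 981659492963) (nat_lit 0) (nat_lit 1040448018382) (nat_lit 7) (nat_lit 5) (nat_lit 9) (nat_lit 4) (nat_lit 7) (nat_lit 4) (nat_lit 510) (nat_lit 435) (nat_lit 255)) (XT.lf (nat_lit 0) (nat_lit 1615248231474) (nat_lit 152) (nat_lit 311143502166) (nat_lit 0) (nat_lit 1488669500560) (nat_lit 7) (nat_lit 5) (nat_lit 9) (nat_lit 4) (nat_lit 7) (nat_lit 4) (nat_lit 511) (nat_lit 435) (nat_lit 254))) (XT.nd (nat_lit 78) (nat_lit 0) (nat_lit 0) (XT.lf (nat_lit 0) (nat_lit 434762232638) (nat_lit 76) (nat_lit 1675021201338) (nat_lit 76) (nat_lit 1548442462061) (nat_lit 6)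 (nat_lit 4) (nat_lit 7) (nat_lit 5) (nat_lit 7) (nat_lit 4) (nat_lit 512) (nat_lit 435) (nat_lit 253)) (XT.nd (nat_lit 78) (nat_lit 0) (nat_lit 0) (XT.lf (nat_lit 0) (nat_lit 1258035332570) (nat_lit 76) (nat_lit 1394353286001) (nat_lit 76) (nat_lit 1267774538981) (nat_lit 6) (nat_lit 4) (nat_lit 7) (nat_lit 5) (nat_lit 7) (nat_lit 4) (nat_lit 513) (nat_lit 435) (nat_lit 252)) (XT.lf (nat_lit 0) (nat_lit 2147170187603) (nat_lit 76) (nat_lit 1091231985096) (nat_lit 76) (nat_lit 964653230907) (nat_lit 6) (nat_lit 4) (nat_lit 7) (nat_lit 5) (nat_lit 7) (nat_lit 4) (nat_lit 514) (nat_lit 435) (nat_lit 251))))) (XT.nd (nat_lit 234) (nat_lit 0) (nat_lit 0) (XT.nd (nat_lit 78) (nat_lit 152) (nat_lit 0) (XT.lf (nat_lit 0) (nat_lit 3107435745029) (nat_lit 76) (nat_lit 763861024248) (nat_lit 76) (nat_lit 637282263421) (nat_lit 6) (nat_lit 4) (nat_lit 7) (nat_lit 5) (nat_lit 7) (nat_lit 4) (nat_lit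 515) (nat_lit 435) (nat_lit 250)) (XT.nd (nat_lit 78) (nat_lit 152) (nat_lit 0) (XT.lf (nat_lit 0) (nat_lit 4144522467408) (nat_lit 76) (nat_lit 410300427392) (nat_lit 76) (nat_lit 283721660418) (nat_lit 6) (nat_lit 4) (nat_lit 7) (nat_lit 5) (nat_lit 7) (nat_lit 4) (nat_lit 516) (nat_lit 435) (nat_lit 249)) (XT.lf (nat_lit 0) (nat_lit 70853217734) (nat_lit 76) (nat_lit 24066008418) (nat_lit 152) (nat_lit 5099662984245) (nat_lit 4) (nat_lit 5) (nat_lit 5) (nat_lit 5) (nat_lit 6) (nat_lit 4) (nat_lit 517) (nat_lit 435) (nat_lit 248)))) (XT.nd (nat_lit 78) (nat_lit 0) (nat_lit 0) (XT.lf (nat_lit 0) (nat_lit 517444954102) (nat_lit 152) (nat_lit 4658512237688) (nat_lit 0) (nat_lit 400242381940) (nat_lit 4) (nat_lit 5) (nat_lit 6) (nat_lit 4) (nat_lit 4) (nat_lit 4) (nat_lit 518) (nat_lit 435) (nat_lit 247)) (XT.nd (nat_lit 78) (nat_lit 0) (nat_lit 0) (XT.lf (nat_lit 0) (nat_lit 974397797343)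 (nat_lit 152) (nat_lit 4156703303558) (nat_lit 0) (nat_lit 857195220663) (nat_lit 4) (nat_lit 5) (nat_lit 6) (nat_lit 4) (nat_lit 4) (nat_lit 4) (nat_lit 519) (nat_lit 435) (nat_lit 246)) (XT.lf (nat_lit 0) (nat_lit 1467906836496) (nat_lit 152) (nat_lit 3614749719620) (nat_lit 0) (nat_lit 1350704255633) (nat_lit 4) (nat_lit 5) (nat_lit 6) (nat_lit 4) (nat_lit 4) (nat_lit 4) (nat_lit 520) (nat_lit 435) (nat_lit 245)))))) (XT.nd (nat_lit 55848) (nat_lit 0) (nat_lit 5244) (XT.nd (nat_lit 234) (nat_lit 76) (nat_lit 0) (XT.nd (nat_lit 78) (nat_lit 0) (nat_lit 0) (XT.lf (nat_lit 0) (nat_lit 2000896569571) (nat_lit 152) (nat_lit 3029439909081) (nat_lit 0) (nat_lit 1883693984835) (nat_lit 4) (nat_lit 5) (nat_lit 6) (nat_lit 4) (nat_lit 4) (nat_lit 4) (nat_lit 521) (nat_lit 435) (nat_lit 244)) (XT.nd (nat_lit 78) (nat_lit 0) (nat_lit 0) (XT.lf (nat_lit 0) (nat_lit 2576525454246) (nat_lit 152) (nat_lit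 2397305369358) (nat_lit 0) (nat_lit 2459322865923) (nat_lit 4) (nat_lit 5) (nat_lit 6) (nat_lit 4) (nat_lit 4) (nat_lit 4) (nat_lit 522) (nat_lit 435) (nat_lit 243)) (XT.lf (nat_lit 0) (nat_lit 3198204624651) (nat_lit 152) (nat_lit 1714600117996) (nat_lit 0) (nat_lit 3081002033008) (nat_lit 4) (nat_lit 5) (nat_lit 6) (nat_lit 4) (nat_lit 4) (nat_lit 4) (nat_lit 523) (nat_lit 435) (nat_lit 242)))) (XT.nd (nat_lit 78) (nat_lit 76) (nat_lit 0) (XT.lf (nat_lit 0) (nat_lit 3869618105501) (nat_lit 152) (nat_lit 977278494244) (nat_lit 0) (nat_lit 3752415510783) (nat_lit 4) (nat_lit 5) (nat_lit 6) (nat_lit 4) (nat_lit 4) (nat_lit 4) (nat_lit 524) (nat_lit 435) (nat_lit 241)) (XT.nd (nat_lit 78) (nat_lit 76) (nat_lit 0) (XT.lf (nat_lit 0) (nat_lit 4594744643348) (nat_lit 152) (nat_lit 180971184777) (nat_lit 0) (nat_lit 4477542045783) (nat_lit 4) (nat_lit 5) (nat_lit 6) (nat_lit 4) (nat_lit 4) (nat_lit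 4) (nat_lit 525) (nat_lit 435) (nat_lit 240)) (XT.lf (nat_lit 0) (nat_lit 714797746776) (nat_lit 76) (nat_lit 4680274440568) (nat_lit 76) (nat_lit 4563071840366) (nat_lit 3) (nat_lit 4) (nat_lit 4) (nat_lit 5) (nat_lit 4) (nat_lit 4) (nat_lit 526) (nat_lit 435) (nat_lit 239))))) (XT.nd (nat_lit 234) (nat_lit 456) (nat_lit 0) (XT.nd (nat_lit 78) (nat_lit 0) (nat_lit 0) (XT.lf (nat_lit 0) (nat_lit 30805396178) (nat_lit 532) (nat_lit 816194950) (nat_lit 532) (nat_lit 816194950) (nat_lit 78) (nat_lit 3) (nat_lit 85) (nat_lit 3) (nat_lit 85) (nat_lit 5) (nat_lit 436) (nat_lit 436) (nat_lit 328)) (XT.nd (nat_lit 78) (nat_lit 0) (nat_lit 76) (XT.lf (nat_lit 76) (nat_lit 32018280926) (nat_lit 0) (nat_lit 32841624943) (nat_lit 532) (nat_lit 2547908746) (nat_lit 79) (nat_lit 5) (nat_lit 78) (nat_lit 3) (nat_lit 85) (nat_lit 5) (nat_lit 437) (nat_lit 436) (nat_lit 327)) (XT.lf (nat_lit 0) (nat_lit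 68413079952) (nat_lit 456) (nat_lit 1687161282) (nat_lit 532) (nat_lit 38865304) (nat_lit 79) (nat_lit 5) (nat_lit 85) (nat_lit 5) (nat_lit 86) (nat_lit 5) (nat_lit 438) (nat_lit 436) (nat_lit 326)))) (XT.nd (nat_lit 78) (nat_lit 0) (nat_lit 0) (XT.lf (nat_lit 0) (nat_lit 956750547) (nat_lit 532) (nat_lit 37336068262) (nat_lit 608) (nat_lit 34657440217) (nat_lit 72) (nat_lit 5) (nat_lit 79) (nat_lit 5) (nat_lit 80) (nat_lit 5) (nat_lit 439) (nat_lit 436) (nat_lit 325)) (XT.nd (nat_lit 78) (nat_lit 0) (nat_lit 76) (XT.lf (nat_lit 0) (nat_lit 3806913391) (nat_lit 532) (nat_lit 33985340) (nat_lit 608) (nat_lit 72138137797) (nat_lit 72) (nat_lit 5) (nat_lit 79) (nat_lit 5) (nat_lit 80) (nat_lit 5) (nat_lit 440) (nat_lit 436) (nat_lit 324)) (XT.lf (nat_lit 0) (nat_lit 8731852560) (nat_lit 532) (nat_lit 37626692279) (nat_lit 608) (nat_lit 32743830760) (nat_lit 73) (nat_lit 5) (nat_lit 80) (nat_lit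 5) (nat_lit 81) (nat_lit 5) (nat_lit 441) (nat_lit 436) (nat_lit 323))))))) (XT.nd (nat_lit 936) (nat_lit 1140) (nat_lit 0) (XT.nd (nat_lit 468) (nat_lit 836) (nat_lit 0) (XT.nd (nat_lit 234) (nat_lit 228) (nat_lit 0) (XT.nd (nat_lit 78) (nat_lit 380) (nat_lit 0) (XT.lf (nat_lit 76) (nat_lit 3928323047) (nat_lit 0) (nat_lit 10316516835) (nat_lit 608) (nat_lit 68215218073) (nat_lit 74) (nat_lit 5) (nat_lit 73) (nat_lit 5) (nat_lit 81) (nat_lit 5) (nat_lit 442) (nat_lit 436) (nat_lit 322)) (XT.nd (nat_lit 78) (nat_lit 456) (nat_lit 0) (XT.lf (nat_lit 0) (nat_lit 21941337917) (nat_lit 532) (nat_lit 35772232019) (nat_lit 76) (nat_lit 28233387596) (nat_lit 74) (nat_lit 5) (nat_lit 81) (nat_lit 5) (nat_lit 75) (nat_lit 5) (nat_lit 443) (nat_lit 436) (nat_lit 321)) (XT.lf (nat_lit 0) (nat_lit 10673036639) (nat_lit 456) (nat_lit 20104172618) (nat_lit 532) (nat_lit 58893707885) (nat_lit 68) (nat_lit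 5) (nat_lit 74) (nat_lit 5) (nat_lit 75) (nat_lit 5) (nat_lit 444) (nat_lit 436) (nat_lit 320)))) (XT.nd (nat_lit 78) (nat_lit 228) (nat_lit 0) (XT.lf (nat_lit 0) (nat_lit 41815850159) (nat_lit 532) (nat_lit 31265982359) (nat_lit 76) (nat_lit 20491289331) (nat_lit 68) (nat_lit 5) (nat_lit 75) (nat_lit 5) (nat_lit 69) (nat_lit 5) (nat_lit 445) (nat_lit 436) (nat_lit 319)) (XT.nd (nat_lit 78) (nat_lit 0) (nat_lit 0) (XT.lf (nat_lit 0) (nat_lit 20801959160) (nat_lit 228) (nat_lit 33957224345) (nat_lit 304) (nat_lit 42946591630) (nat_lit 65) (nat_lit 5) (nat_lit 68) (nat_lit 5) (nat_lit 69) (nat_lit 5) (nat_lit 446) (nat_lit 436) (nat_lit 318)) (XT.lf (nat_lit 0) (nat_lit 69813775461) (nat_lit 304) (nat_lit 23509909190) (nat_lit 76) (nat_lit 8759292950) (nat_lit 65) (nat_lit 5) (nat_lit 69) (nat_lit 5) (nat_lit 66) (nat_lit 5) (nat_lit 447) (nat_lit 436) (nat_lit 317))))) (XT.nd (nat_lit 234)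 (nat_lit 380) (nat_lit 0) (XT.nd (nat_lit 78) (nat_lit 228) (nat_lit 0) (XT.lf (nat_lit 0) (nat_lit 35024690297) (nat_lit 228) (nat_lit 52771625227) (nat_lit 304) (nat_lit 18876154533) (nat_lit 62) (nat_lit 5) (nat_lit 65) (nat_lit 5) (nat_lit 66) (nat_lit 5) (nat_lit 448) (nat_lit 436) (nat_lit 316)) (XT.nd (nat_lit 78) (nat_lit 228) (nat_lit 0) (XT.lf (nat_lit 0) (nat_lit 99578218793) (nat_lit 228) (nat_lit 8281308993) (nat_lit 304) (nat_lit 3718228837) (nat_lit 62) (nat_lit 5) (nat_lit 65) (nat_lit 5) (nat_lit 66) (nat_lit 5) (nat_lit 449) (nat_lit 436) (nat_lit 315)) (XT.lf (nat_lit 0) (nat_lit 14336687708) (nat_lit 228) (nat_lit 62884485325) (nat_lit 76) (nat_lit 39444567963) (nat_lit 59) (nat_lit 5) (nat_lit 62) (nat_lit 5) (nat_lit 60) (nat_lit 5) (nat_lit 450) (nat_lit 436) (nat_lit 314)))) (XT.nd (nat_lit 78) (nat_lit 152) (nat_lit 0) (XT.lf (nat_lit 0) (nat_lit 3212031402) (nat_lit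 228) (nat_lit 31051375135) (nat_lit 304) (nat_lit 87839368386) (nat_lit 56) (nat_lit 5) (nat_lit 59) (nat_lit 5) (nat_lit 60) (nat_lit 5) (nat_lit 451) (nat_lit 436) (nat_lit 313)) (XT.nd (nat_lit 78) (nat_lit 152) (nat_lit 0) (XT.lf (nat_lit 0) (nat_lit 58000079692) (nat_lit 304) (nat_lit 50162637744) (nat_lit 76) (nat_lit 19634788954) (nat_lit 56) (nat_lit 5) (nat_lit 60) (nat_lit 5) (nat_lit 57) (nat_lit 5) (nat_lit 452) (nat_lit 436) (nat_lit 312)) (XT.lf (nat_lit 0) (nat_lit 24480998507) (nat_lit 152) (nat_lit 60549389066) (nat_lit 228) (nat_lit 48805852891) (nat_lit 54) (nat_lit 5) (nat_lit 56) (nat_lit 5) (nat_lit 57) (nat_lit 5) (nat_lit 453) (nat_lit 436) (nat_lit 311)))))) (XT.nd (nat_lit 468) (nat_lit 608) (nat_lit 0) (XT.nd (nat_lit 234) (nat_lit 304) (nat_lit 0) (XT.nd (nat_lit 78) (nat_lit 228) (nat_lit 0) (XT.lf (nat_lit 0) (nat_lit 107948112809) (nat_lit 152) (nat_lit 7645970559)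 (nat_lit 228) (nat_lit 24654312980) (nat_lit 54) (nat_lit 5) (nat_lit 56) (nat_lit 5) (nat_lit 57) (nat_lit 5) (nat_lit 454) (nat_lit 436) (nat_lit 310)) (XT.nd (nat_lit 78) (nat_lit 0) (nat_lit 0) (XT.lf (nat_lit 0) (nat_lit 3870081158) (nat_lit 228) (nat_lit 94728961072) (nat_lit 76) (nat_lit 48370753894) (nat_lit 51) (nat_lit 5) (nat_lit 54) (nat_lit 5) (nat_lit 52) (nat_lit 5) (nat_lit 455) (nat_lit 436) (nat_lit 309)) (XT.lf (nat_lit 0) (nat_lit 34448608886) (nat_lit 228) (nat_lit 9638766622) (nat_lit 76) (nat_lit 110001970323) (nat_lit 51) (nat_lit 5) (nat_lit 54) (nat_lit 5) (nat_lit 52) (nat_lit 5) (nat_lit 456) (nat_lit 436) (nat_lit 308)))) (XT.nd (nat_lit 78) (nat_lit 152) (nat_lit 0) (XT.lf (nat_lit 0) (nat_lit 69965078895) (nat_lit 228) (nat_lit 75432104110) (nat_lit 76) (nat_lit 16181943814) (nat_lit 49) (nat_lit 5) (nat_lit 52) (nat_lit 5) (nat_lit 50) (nat_lit 5) (nat_lit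 457) (nat_lit 436) (nat_lit 307)) (XT.nd (nat_lit 78) (nat_lit 0) (nat_lit 0) (XT.lf (nat_lit 0) (nat_lit 20362741758) (nat_lit 152) (nat_lit 89864886916) (nat_lit 228) (nat_lit 59288080738) (nat_lit 47) (nat_lit 5) (nat_lit 49) (nat_lit 5) (nat_lit 50) (nat_lit 5) (nat_lit 458) (nat_lit 436) (nat_lit 306)) (XT.lf (nat_lit 0) (nat_lit 128110338221) (nat_lit 152) (nat_lit 27662834232) (nat_lit 228) (nat_lit 22149087050) (nat_lit 47) (nat_lit 5) (nat_lit 49) (nat_lit 5) (nat_lit 50) (nat_lit 5) (nat_lit 459) (nat_lit 436) (nat_lit 305))))) (XT.nd (nat_lit 234) (nat_lit 304) (nat_lit 0) (XT.nd (nat_lit 78) (nat_lit 152) (nat_lit 0) (XT.lf (nat_lit 0) (nat_lit 19505323511) (nat_lit 152) (nat_lit 127802777771) (nat_lit 76) (nat_lit 39463252899) (nat_lit 45) (nat_lit 5) (nat_lit 47) (nat_lit 5) (nat_lit 46) (nat_lit 5) (nat_lit 460) (nat_lit 436) (nat_lit 304)) (XT.nd (nat_lit 78) (nat_lit 152)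 (nat_lit 0) (XT.lf (nat_lit 0) (nat_lit 65410872529) (nat_lit 152) (nat_lit 18264956489) (nat_lit 76) (nat_lit 112437290482) (nat_lit 45) (nat_lit 5) (nat_lit 47) (nat_lit 5) (nat_lit 46) (nat_lit 5) (nat_lit 461) (nat_lit 436) (nat_lit 303)) (XT.lf (nat_lit 0) (nat_lit 105302914685) (nat_lit 152) (nat_lit 12218094904) (nat_lit 228) (nat_lit 88478644995) (nat_lit 43) (nat_lit 5) (nat_lit 45) (nat_lit 5) (nat_lit 46) (nat_lit 5) (nat_lit 462) (nat_lit 436) (nat_lit 302)))) (XT.nd (nat_lit 78) (nat_lit 228) (nat_lit 0) (XT.lf (nat_lit 0) (nat_lit 22718434485) (nat_lit 76) (nat_lit 153702083308) (nat_lit 152) (nat_lit 40046949930) (nat_lit 42) (nat_lit 5) (nat_lit 43) (nat_lit 5) (nat_lit 44) (nat_lit 4) (nat_lit 463) (nat_lit 436) (nat_lit 301)) (XT.nd (nat_lit 78) (nat_lit 152) (nat_lit 0) (XT.lf (nat_lit 0) (nat_lit 14787732136) (nat_lit 152) (nat_lit 66503278800) (nat_lit 76) (nat_lit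 146206771331) (nat_lit 41) (nat_lit 5) (nat_lit 43) (nat_lit 5) (nat_lit 42) (nat_lit 5) (nat_lit 464) (nat_lit 436) (nat_lit 300)) (XT.lf (nat_lit 0) (nat_lit 73561167044) (nat_lit 152) (nat_lit 53239861) (nat_lit 228) (nat_lit 165571397188) (nat_lit 39) (nat_lit 5) (nat_lit 41) (nat_lit 5) (nat_lit 42) (nat_lit 5) (nat_lit 465) (nat_lit 436) (nat_lit 299))))))))
noncomputable def xc179 : XT := (XT.nd (nat_lit 1794) (nat_lit 912) (nat_lit 0) (XT.nd (nat_lit 858) (nat_lit 760) (nat_lit 0) (XT.nd (nat_lit 390) (nat_lit 380) (nat_lit 0) (XT.nd (nat_lit 156) (nat_lit 304) (nat_lit 0) (XT.nd (nat_lit 78) (nat_lit 76) (nat_lit 0) (XT.lf (nat_lit 0) (nat_lit 141121205108) (nat_lit 228) (nat_lit 25207175476) (nat_lit 76) (nat_lit 85162567971) (nat_lit 39) (nat_lit 5) (nat_lit 42) (nat_lit 5) (nat_lit 40) (nat_lit 4) (nat_lit 466) (nat_lit 436) (nat_lit 298)) (XT.lf (nat_lit 0) (nat_lit 133099921781)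 (nat_lit 76) (nat_lit 84130741759) (nat_lit 152) (nat_lit 47293671768) (nat_lit 38) (nat_lit 5) (nat_lit 39) (nat_lit 5) (nat_lit 40) (nat_lit 4) (nat_lit 467) (nat_lit 436) (nat_lit 297))) (XT.nd (nat_lit 78) (nat_lit 76) (nat_lit 0) (XT.lf (nat_lit 0) (nat_lit 21323144605) (nat_lit 228) (nat_lit 250777851791) (nat_lit 76) (nat_lit 6336395862) (nat_lit 35) (nat_lit 5) (nat_lit 38) (nat_lit 5) (nat_lit 36) (nat_lit 4) (nat_lit 468) (nat_lit 436) (nat_lit 296)) (XT.nd (nat_lit 78) (nat_lit 76) (nat_lit 0) (XT.lf (nat_lit 0) (nat_lit 98745828081) (nat_lit 228) (nat_lit 89739127632) (nat_lit 76) (nat_lit 104410536843) (nat_lit 35) (nat_lit 5) (nat_lit 38) (nat_lit 5) (nat_lit 36) (nat_lit 4) (nat_lit 469) (nat_lit 436) (nat_lit 295)) (XT.lf (nat_lit 0) (nat_lit 88615038673) (nat_lit 76) (nat_lit 95878188393) (nat_lit 152) (nat_lit 123846541777) (nat_lit 34) (nat_lit 5) (nat_lit 35) (nat_lit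 5) (nat_lit 36) (nat_lit 4) (nat_lit 470) (nat_lit 436) (nat_lit 294))))) (XT.nd (nat_lit 234) (nat_lit 152) (nat_lit 0) (XT.nd (nat_lit 78) (nat_lit 228) (nat_lit 0) (XT.lf (nat_lit 0) (nat_lit 279716983445) (nat_lit 152) (nat_lit 38645985719) (nat_lit 0) (nat_lit 6447292859) (nat_lit 34) (nat_lit 5) (nat_lit 36) (nat_lit 4) (nat_lit 34) (nat_lit 4) (nat_lit 471) (nat_lit 436) (nat_lit 293)) (XT.nd (nat_lit 78) (nat_lit 76) (nat_lit 0) (XT.lf (nat_lit 0) (nat_lit 44527146308) (nat_lit 152) (nat_lit 180653562517) (nat_lit 76) (nat_lit 116815532352) (nat_lit 32) (nat_lit 5) (nat_lit 34) (nat_lit 5) (nat_lit 33) (nat_lit 4) (nat_lit 472) (nat_lit 436) (nat_lit 292)) (XT.lf (nat_lit 0) (nat_lit 18796789652) (nat_lit 76) (nat_lit 121620098731) (nat_lit 152) (nat_lit 219923638664) (nat_lit 31) (nat_lit 5) (nat_lit 32) (nat_lit 5) (nat_lit 33) (nat_lit 4) (nat_lit 473) (nat_lit 436) (nat_lit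 291)))) (XT.nd (nat_lit 78) (nat_lit 152) (nat_lit 0) (XT.lf (nat_lit 0) (nat_lit 244476607500) (nat_lit 76) (nat_lit 4440331908) (nat_lit 152) (nat_lit 130840286035) (nat_lit 31) (nat_lit 5) (nat_lit 32) (nat_lit 5) (nat_lit 33) (nat_lit 4) (nat_lit 474) (nat_lit 436) (nat_lit 290)) (XT.nd (nat_lit 78) (nat_lit 76) (nat_lit 0) (XT.lf (nat_lit 0) (nat_lit 88998297781) (nat_lit 76) (nat_lit 282175703215) (nat_lit 76) (nat_lit 29147098215) (nat_lit 30) (nat_lit 4) (nat_lit 31) (nat_lit 5) (nat_lit 31) (nat_lit 4) (nat_lit 475) (nat_lit 436) (nat_lit 289)) (XT.lf (nat_lit 0) (nat_lit 80555501200) (nat_lit 152) (nat_lit 85473391351) (nat_lit 76) (nat_lit 256033160963) (nat_lit 29) (nat_lit 5) (nat_lit 31) (nat_lit 5) (nat_lit 30) (nat_lit 4) (nat_lit 476) (nat_lit 436) (nat_lit 288)))))) (XT.nd (nat_lit 468) (nat_lit 380) (nat_lit 0) (XT.nd (nat_lit 234) (nat_lit 228) (nat_lit 0) (XT.nd (nat_lit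 78) (nat_lit 76) (nat_lit 0) (XT.lf (nat_lit 0) (nat_lit 165989959480) (nat_lit 76) (nat_lit 35461485339) (nat_lit 152) (nat_lit 243710927030) (nat_lit 28) (nat_lit 5) (nat_lit 29) (nat_lit 5) (nat_lit 30) (nat_lit 4) (nat_lit 477) (nat_lit 436) (nat_lit 287)) (XT.nd (nat_lit 78) (nat_lit 76) (nat_lit 0) (XT.lf (nat_lit 0) (nat_lit 336955046452) (nat_lit 152) (nat_lit 30092079298) (nat_lit 0) (nat_lit 102668711315) (nat_lit 28) (nat_lit 5) (nat_lit 30) (nat_lit 4) (nat_lit 28) (nat_lit 4) (nat_lit 478) (nat_lit 436) (nat_lit 286)) (XT.lf (nat_lit 0) (nat_lit 250525499037) (nat_lit 76) (nat_lit 239719451344) (nat_lit 76) (nat_lit 5432947997) (nat_lit 27) (nat_lit 4) (nat_lit 28) (nat_lit 5) (nat_lit 28) (nat_lit 4) (nat_lit 479) (nat_lit 436) (nat_lit 285)))) (XT.nd (nat_lit 78) (nat_lit 76) (nat_lit 0) (XT.lf (nat_lit 0) (nat_lit 29952773506) (nat_lit 76) (nat_lit 97085415245) (nat_lit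 152) (nat_lit 396299467573) (nat_lit 25) (nat_lit 5) (nat_lit 26) (nat_lit 5) (nat_lit 27) (nat_lit 4) (nat_lit 480) (nat_lit 436) (nat_lit 284)) (XT.nd (nat_lit 78) (nat_lit 76) (nat_lit 0) (XT.lf (nat_lit 0) (nat_lit 278060166302) (nat_lit 152) (nat_lit 213351064745) (nat_lit 0) (nat_lit 61127941013) (nat_lit 25) (nat_lit 5) (nat_lit 27) (nat_lit 4) (nat_lit 25) (nat_lit 4) (nat_lit 481) (nat_lit 436) (nat_lit 283)) (XT.lf (nat_lit 0) (nat_lit 91121658298) (nat_lit 76) (nat_lit 354755230383) (nat_lit 76) (nat_lit 137822881454) (nat_lit 24) (nat_lit 4) (nat_lit 25) (nat_lit 5) (nat_lit 25) (nat_lit 4) (nat_lit 482) (nat_lit 436) (nat_lit 282))))) (XT.nd (nat_lit 234) (nat_lit 228) (nat_lit 0) (XT.nd (nat_lit 78) (nat_lit 76) (nat_lit 0) (XT.lf (nat_lit 0) (nat_lit 15261934213) (nat_lit 152) (nat_lit 185187640246) (nat_lit 76) (nat_lit 416406074484) (nat_lit 23) (nat_lit 5) (nat_lit 25)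 (nat_lit 5) (nat_lit 24) (nat_lit 4) (nat_lit 483) (nat_lit 436) (nat_lit 281)) (XT.nd (nat_lit 78) (nat_lit 0) (nat_lit 0) (XT.lf (nat_lit 0) (nat_lit 150755296037) (nat_lit 76) (nat_lit 26017716197) (nat_lit 152) (nat_lit 475314561219) (nat_lit 22) (nat_lit 5) (nat_lit 23) (nat_lit 5) (nat_lit 24) (nat_lit 4) (nat_lit 484) (nat_lit 436) (nat_lit 280)) (XT.lf (nat_lit 0) (nat_lit 360304646314) (nat_lit 152) (nat_lit 169664366792) (nat_lit 0) (nat_lit 159441065239) (nat_lit 22) (nat_lit 5) (nat_lit 24) (nat_lit 4) (nat_lit 22) (nat_lit 4) (nat_lit 485) (nat_lit 436) (nat_lit 279)))) (XT.nd (nat_lit 78) (nat_lit 152) (nat_lit 0) (XT.lf (nat_lit 0) (nat_lit 197753288903) (nat_lit 76) (nat_lit 366197116218) (nat_lit 76) (nat_lit 165333450996) (nat_lit 21) (nat_lit 4) (nat_lit 22) (nat_lit 5) (nat_lit 22) (nat_lit 4) (nat_lit 486) (nat_lit 436) (nat_lit 278)) (XT.nd (nat_lit 78) (nat_lit 76)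 (nat_lit 0) (XT.lf (nat_lit 0) (nat_lit 15722250697) (nat_lit 152) (nat_lit 168161461686) (nat_lit 76) (nat_lit 588060879864) (nat_lit 20) (nat_lit 5) (nat_lit 22) (nat_lit 5) (nat_lit 21) (nat_lit 4) (nat_lit 487) (nat_lit 436) (nat_lit 277)) (XT.lf (nat_lit 0) (nat_lit 208468333018) (nat_lit 152) (nat_lit 586231927338) (nat_lit 0) (nat_lit 22483318871) (nat_lit 19) (nat_lit 5) (nat_lit 21) (nat_lit 4) (nat_lit 19) (nat_lit 4) (nat_lit 488) (nat_lit 436) (nat_lit 276))))))) (XT.nd (nat_lit 936) (nat_lit 380) (nat_lit 0) (XT.nd (nat_lit 468) (nat_lit 228) (nat_lit 0) (XT.nd (nat_lit 234) (nat_lit 228) (nat_lit 0) (XT.nd (nat_lit 78) (nat_lit 76) (nat_lit 0) (XT.lf (nat_lit 0) (nat_lit 426127409521) (nat_lit 152) (nat_lit 199012477518) (nat_lit 0) (nat_lit 240142333523) (nat_lit 19) (nat_lit 5) (nat_lit 21) (nat_lit 4) (nat_lit 19) (nat_lit 4) (nat_lit 489) (nat_lit 436) (nat_lit 275)) (XT.nd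 (nat_lit 78) (nat_lit 0) (nat_lit 0) (XT.lf (nat_lit 0) (nat_lit 230726104435) (nat_lit 76) (nat_lit 436021937816) (nat_lit 76) (nat_lit 250036804549) (nat_lit 18) (nat_lit 4) (nat_lit 19) (nat_lit 5) (nat_lit 19) (nat_lit 4) (nat_lit 490) (nat_lit 436) (nat_lit 274)) (XT.lf (nat_lit 0) (nat_lit 706161517881) (nat_lit 76) (nat_lit 225898027006) (nat_lit 76) (nat_lit 39912840712) (nat_lit 18) (nat_lit 4) (nat_lit 19) (nat_lit 5) (nat_lit 19) (nat_lit 4) (nat_lit 491) (nat_lit 436) (nat_lit 273)))) (XT.nd (nat_lit 78) (nat_lit 76) (nat_lit 0) (XT.lf (nat_lit 0) (nat_lit 182574856841) (nat_lit 152) (nat_lit 837881186954) (nat_lit 0) (nat_lit 10366305550) (nat_lit 16) (nat_lit 5) (nat_lit 18) (nat_lit 4) (nat_lit 16) (nat_lit 4) (nat_lit 492) (nat_lit 436) (nat_lit 272)) (XT.nd (nat_lit 78) (nat_lit 76) (nat_lit 0) (XT.lf (nat_lit 0) (nat_lit 434029106551) (nat_lit 152) (nat_lit 397381845388)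 (nat_lit 0) (nat_lit 261820513166) (nat_lit 16) (nat_lit 5) (nat_lit 18) (nat_lit 4) (nat_lit 16) (nat_lit 4) (nat_lit 493) (nat_lit 436) (nat_lit 271)) (XT.lf (nat_lit 0) (nat_lit 82483356105) (nat_lit 76) (nat_lit 625099948845) (nat_lit 76) (nat_lit 452891316484) (nat_lit 15) (nat_lit 4) (nat_lit 16) (nat_lit 5) (nat_lit 16) (nat_lit 4) (nat_lit 494) (nat_lit 436) (nat_lit 270))))) (XT.nd (nat_lit 234) (nat_lit 76) (nat_lit 0) (XT.nd (nat_lit 78) (nat_lit 152) (nat_lit 0) (XT.lf (nat_lit 0) (nat_lit 623336998496) (nat_lit 76) (nat_lit 390549849752) (nat_lit 76) (nat_lit 218341181301) (nat_lit 15) (nat_lit 4) (nat_lit 16) (nat_lit 5) (nat_lit 16) (nat_lit 4) (nat_lit 495) (nat_lit 436) (nat_lit 269)) (XT.nd (nat_lit 78) (nat_lit 76) (nat_lit 0) (XT.lf (nat_lit 0) (nat_lit 33223366255) (nat_lit 152) (nat_lit 103104100054) (nat_lit 76) (nat_lit 1173326964683) (nat_lit 14) (nat_lit 5) (nat_lit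 16) (nat_lit 5) (nat_lit 15) (nat_lit 4) (nat_lit 496) (nat_lit 436) (nat_lit 268)) (XT.lf (nat_lit 0) (nat_lit 307951653869) (nat_lit 152) (nat_lit 935183697534) (nat_lit 0) (nat_lit 148499123491) (nat_lit 13) (nat_lit 5) (nat_lit 15) (nat_lit 4) (nat_lit 13) (nat_lit 4) (nat_lit 497) (nat_lit 436) (nat_lit 267)))) (XT.nd (nat_lit 78) (nat_lit 76) (nat_lit 0) (XT.lf (nat_lit 0) (nat_lit 611091347716) (nat_lit 152) (nat_lit 416928132323) (nat_lit 0) (nat_lit 451638790812) (nat_lit 13) (nat_lit 5) (nat_lit 15) (nat_lit 4) (nat_lit 13) (nat_lit 4) (nat_lit 498) (nat_lit 436) (nat_lit 266)) (XT.nd (nat_lit 78) (nat_lit 0) (nat_lit 0) (XT.lf (nat_lit 0) (nat_lit 150306634698) (nat_lit 76) (nat_lit 791790367233) (nat_lit 76) (nat_lit 632337785767) (nat_lit 12) (nat_lit 4) (nat_lit 13) (nat_lit 5) (nat_lit 13) (nat_lit 4) (nat_lit 499) (nat_lit 436) (nat_lit 265)) (XT.lf (nat_lit 0) (nat_lit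 786631070190) (nat_lit 76) (nat_lit 524351501431) (nat_lit 76) (nat_lit 364898897223) (nat_lit 12) (nat_lit 4) (nat_lit 13) (nat_lit 5) (nat_lit 13) (nat_lit 4) (nat_lit 500) (nat_lit 436) (nat_lit 264)))))) (XT.nd (nat_lit 468) (nat_lit 152) (nat_lit 0) (XT.nd (nat_lit 234) (nat_lit 76) (nat_lit 0) (XT.nd (nat_lit 78) (nat_lit 152) (nat_lit 0) (XT.lf (nat_lit 0) (nat_lit 1473861289032) (nat_lit 76) (nat_lit 235517613723) (nat_lit 76) (nat_lit 76064988457) (nat_lit 12) (nat_lit 4) (nat_lit 13) (nat_lit 5) (nat_lit 13) (nat_lit 4) (nat_lit 501) (nat_lit 436) (nat_lit 263)) (XT.nd (nat_lit 78) (nat_lit 0) (nat_lit 0) (XT.lf (nat_lit 0) (nat_lit 234025719432) (nat_lit 152) (nat_lit 1582111417812) (nat_lit 0) (nat_lit 86384381687) (nat_lit 10) (nat_lit 5) (nat_lit 12) (nat_lit 4) (nat_lit 10) (nat_lit 4) (nat_lit 502) (nat_lit 436) (nat_lit 262)) (XT.lf (nat_lit 0) (nat_lit 579671958676) (nat_lit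 152) (nat_lit 1015916116073) (nat_lit 0) (nat_lit 432030604215) (nat_lit 10) (nat_lit 5) (nat_lit 12) (nat_lit 4) (nat_lit 10) (nat_lit 4) (nat_lit 503) (nat_lit 436) (nat_lit 261)))) (XT.nd (nat_lit 78) (nat_lit 76) (nat_lit 0) (XT.lf (nat_lit 0) (nat_lit 952969823195) (nat_lit 152) (nat_lit 404425341257) (nat_lit 0) (nat_lit 805328453256) (nat_lit 10) (nat_lit 5) (nat_lit 12) (nat_lit 4) (nat_lit 10) (nat_lit 4) (nat_lit 504) (nat_lit 436) (nat_lit 260)) (XT.nd (nat_lit 78) (nat_lit 0) (nat_lit 0) (XT.lf (nat_lit 0) (nat_lit 269464248729) (nat_lit 76) (nat_lit 1093147821417) (nat_lit 76) (nat_lit 945506437147) (nat_lit 9) (nat_lit 4) (nat_lit 10) (nat_lit 5) (nat_lit 10) (nat_lit 4) (nat_lit 505) (nat_lit 436) (nat_lit 259)) (XT.lf (nat_lit 0) (nat_lit 1020264897091) (nat_lit 76) (nat_lit 795818438690) (nat_lit 76) (nat_lit 648177041149) (nat_lit 9) (nat_lit 4) (nat_lit 10) (nat_lit 5)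 (nat_lit 10) (nat_lit 4) (nat_lit 506) (nat_lit 436) (nat_lit 258))))) (XT.nd (nat_lit 234) (nat_lit 0) (nat_lit 0) (XT.nd (nat_lit 78) (nat_lit 152) (nat_lit 0) (XT.lf (nat_lit 0) (nat_lit 1831129471090) (nat_lit 76) (nat_lit 474702769906) (nat_lit 76) (nat_lit 327061360078) (nat_lit 9) (nat_lit 4) (nat_lit 10) (nat_lit 5) (nat_lit 10) (nat_lit 4) (nat_lit 507) (nat_lit 436) (nat_lit 257)) (XT.nd (nat_lit 78) (nat_lit 76) (nat_lit 0) (XT.lf (nat_lit 0) (nat_lit 18755863283) (nat_lit 152) (nat_lit 108629225574) (nat_lit 76) (nat_lit 2687594412303) (nat_lit 8) (nat_lit 5) (nat_lit 10) (nat_lit 5) (nat_lit 9) (nat_lit 4) (nat_lit 508) (nat_lit 436) (nat_lit 256)) (XT.lf (nat_lit 0) (nat_lit 397148467493) (nat_lit 152) (nat_lit 2351554374712) (nat_lit 0) (nat_lit 260443438105) (nat_lit 7) (nat_lit 5) (nat_lit 9) (nat_lit 4) (nat_lit 7) (nat_lit 4) (nat_lit 509) (nat_lit 436) (nat_lit 255))))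 (XT.nd (nat_lit 78) (nat_lit 0) (nat_lit 0) (XT.lf (nat_lit 0) (nat_lit 812168390873) (nat_lit 152) (nat_lit 1730706185600) (nat_lit 0) (nat_lit 675463352454) (nat_lit 7) (nat_lit 5) (nat_lit 9) (nat_lit 4) (nat_lit 7) (nat_lit 4) (nat_lit 510) (nat_lit 436) (nat_lit 254)) (XT.nd (nat_lit 78) (nat_lit 0) (nat_lit 0) (XT.lf (nat_lit 0) (nat_lit 1260389857970) (nat_lit 152) (nat_lit 1060190244289) (nat_lit 0) (nat_lit 1123684811189) (nat_lit 7) (nat_lit 5) (nat_lit 9) (nat_lit 4) (nat_lit 7) (nat_lit 4) (nat_lit 511) (nat_lit 436) (nat_lit 253)) (XT.lf (nat_lit 0) (nat_lit 1744468995995) (nat_lit 152) (nat_lit 336033122977) (nat_lit 0) (nat_lit 1607763941471) (nat_lit 7) (nat_lit 5) (nat_lit 9) (nat_lit 4) (nat_lit 7) (nat_lit 4) (nat_lit 512) (nat_lit 436) (nat_lit 252))))))))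
noncomputable def xc180 : XT := (XT.nd (nat_lit 57252) (nat_lit 0) (nat_lit 2584) (XT.nd (nat_lit 858) (nat_lit 0) (nat_lit 0) (XT.nd (nat_lit 390) (nat_lit 152) (nat_lit 0) (XT.nd (nat_lit 156) (nat_lit 0) (nat_lit 0) (XT.nd (nat_lit 78) (nat_lit 0) (nat_lit 0) (XT.lf (nat_lit 0) (nat_lit 469545023539) (nat_lit 76) (nat_lit 1809021967633) (nat_lit 76) (nat_lit 1672316905939) (nat_lit 6) (nat_lit 4) (nat_lit 7) (nat_lit 5) (nat_lit 7) (nat_lit 4) (nat_lit 513) (nat_lit 436) (nat_lit 251)) (XT.lf (nat_lit 0) (nat_lit 1358679837222) (nat_lit 76) (nat_lit 1505900687944) (nat_lit 76) (nat_lit 1369195619612) (nat_lit 6) (nat_lit 4) (nat_lit 7) (nat_lit 5) (nat_lit 7) (nat_lit 4) (nat_lit 514) (nat_lit 436) (nat_lit 250))) (XT.nd (nat_lit 78) (nat_lit 0) (nat_lit 0) (XT.lf (nat_lit 0) (nat_lit 2318945356358) (nat_lit 76) (nat_lit 1178529746740) (nat_lit 76) (nat_lit 1041824672261) (nat_lit 6)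 (nat_lit 4) (nat_lit 7) (nat_lit 5) (nat_lit 7) (nat_lit 4) (nat_lit 515) (nat_lit 436) (nat_lit 249)) (XT.nd (nat_lit 78) (nat_lit 0) (nat_lit 0) (XT.lf (nat_lit 0) (nat_lit 3356032043285) (nat_lit 76) (nat_lit 824969168073) (nat_lit 76) (nat_lit 688264087903) (nat_lit 6) (nat_lit 4) (nat_lit 7) (nat_lit 5) (nat_lit 7) (nat_lit 4) (nat_lit 516) (nat_lit 436) (nat_lit 248)) (XT.lf (nat_lit 0) (nat_lit 4476085596888) (nat_lit 76) (nat_lit 443123778143) (nat_lit 76) (nat_lit 306418692704) (nat_lit 6) (nat_lit 4) (nat_lit 7) (nat_lit 5) (nat_lit 7) (nat_lit 4) (nat_lit 517) (nat_lit 436) (nat_lit 247))))) (XT.nd (nat_lit 234) (nat_lit 0) (nat_lit 0) (XT.nd (nat_lit 78) (nat_lit 0) (nat_lit 0) (XT.lf (nat_lit 0) (nat_lit 76522807681) (nat_lit 76) (nat_lit 25990604818) (nat_lit 152) (nat_lit 5507635322863) (nat_lit 4) (nat_lit 5) (nat_lit 5) (nat_lit 5) (nat_lit 6) (nat_lit 4) (nat_lit 518)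 (nat_lit 436) (nat_lit 246)) (XT.nd (nat_lit 78) (nat_lit 0) (nat_lit 0) (XT.lf (nat_lit 0) (nat_lit 558841165903) (nat_lit 152) (nat_lit 5031191950093) (nat_lit 0) (nat_lit 432262374388) (nat_lit 4) (nat_lit 5) (nat_lit 6) (nat_lit 4) (nat_lit 4) (nat_lit 4) (nat_lit 519) (nat_lit 436) (nat_lit 245)) (XT.lf (nat_lit 0) (nat_lit 1052350191013) (nat_lit 152) (nat_lit 4489238395056) (nat_lit 0) (nat_lit 925771395624) (nat_lit 4) (nat_lit 5) (nat_lit 6) (nat_lit 4) (nat_lit 4) (nat_lit 4) (nat_lit 520) (nat_lit 436) (nat_lit 244)))) (XT.nd (nat_lit 78) (nat_lit 0) (nat_lit 0) (XT.lf (nat_lit 0) (nat_lit 1585339911085) (nat_lit 152) (nat_lit 3903928611276) (nat_lit 0) (nat_lit 1458761112110) (nat_lit 4) (nat_lit 5) (nat_lit 6) (nat_lit 4) (nat_lit 4) (nat_lit 4) (nat_lit 521) (nat_lit 436) (nat_lit 243)) (XT.nd (nat_lit 78) (nat_lit 0) (nat_lit 0) (XT.lf (nat_lit 0) (nat_lit 2160968783719)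 (nat_lit 152) (nat_lit 3271794096332) (nat_lit 0) (nat_lit 2034389981423) (nat_lit 4) (nat_lit 5) (nat_lit 6) (nat_lit 4) (nat_lit 4) (nat_lit 4) (nat_lit 522) (nat_lit 436) (nat_lit 242)) (XT.lf (nat_lit 0) (nat_lit 2782647942977) (nat_lit 152) (nat_lit 2589088867911) (nat_lit 0) (nat_lit 2656069137606) (nat_lit 4) (nat_lit 5) (nat_lit 6) (nat_lit 4) (nat_lit 4) (nat_lit 4) (nat_lit 523) (nat_lit 436) (nat_lit 241)))))) (XT.nd (nat_lit 55926) (nat_lit 0) (nat_lit 4864) (XT.nd (nat_lit 55692) (nat_lit 0) (nat_lit 5624) (XT.nd (nat_lit 78) (nat_lit 0) (nat_lit 0) (XT.lf (nat_lit 0) (nat_lit 3454061413504) (nat_lit 152) (nat_lit 1851767265402) (nat_lit 0) (nat_lit 3327482605286) (nat_lit 4) (nat_lit 5) (nat_lit 6) (nat_lit 4) (nat_lit 4) (nat_lit 4) (nat_lit 524) (nat_lit 436) (nat_lit 240)) (XT.nd (nat_lit 78) (nat_lit 0) (nat_lit 0) (XT.lf (nat_lit 0) (nat_lit 4179187941794) (nat_lit 152)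 (nat_lit 1055459975604) (nat_lit 0) (nat_lit 4052609130940) (nat_lit 4) (nat_lit 5) (nat_lit 6) (nat_lit 4) (nat_lit 4) (nat_lit 4) (nat_lit 525) (nat_lit 436) (nat_lit 239)) (XT.lf (nat_lit 0) (nat_lit 4962324573939) (nat_lit 152) (nat_lit 195448140504) (nat_lit 0) (nat_lit 4835745760644) (nat_lit 4) (nat_lit 5) (nat_lit 6) (nat_lit 4) (nat_lit 4) (nat_lit 4) (nat_lit 526) (nat_lit 436) (nat_lit 238)))) (XT.nd (nat_lit 78) (nat_lit 0) (nat_lit 0) (XT.lf (nat_lit 0) (nat_lit 33284117139) (nat_lit 532) (nat_lit 873771471) (nat_lit 532) (nat_lit 873771471) (nat_lit 78) (nat_lit 3) (nat_lit 85) (nat_lit 3) (nat_lit 85) (nat_lit 5) (nat_lit 437) (nat_lit 437) (nat_lit 326)) (XT.nd (nat_lit 78) (nat_lit 0) (nat_lit 76) (XT.lf (nat_lit 76) (nat_lit 34594790712) (nat_lit 0) (nat_lit 35480731120) (nat_lit 532) (nat_lit 2722761438) (nat_lit 79) (nat_lit 5) (nat_lit 78) (nat_lit 3) (nat_lit 85) (nat_lit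 5) (nat_lit 438) (nat_lit 437) (nat_lit 325)) (XT.lf (nat_lit 0) (nat_lit 73910700677) (nat_lit 456) (nat_lit 1805942477) (nat_lit 532) (nat_lit 31616113) (nat_lit 79) (nat_lit 5) (nat_lit 85) (nat_lit 5) (nat_lit 86) (nat_lit 5) (nat_lit 439) (nat_lit 437) (nat_lit 324))))) (XT.nd (nat_lit 234) (nat_lit 304) (nat_lit 0) (XT.nd (nat_lit 78) (nat_lit 0) (nat_lit 0) (XT.lf (nat_lit 0) (nat_lit 1057033686) (nat_lit 532) (nat_lit 40305913220) (nat_lit 608) (nat_lit 37421424953) (nat_lit 72) (nat_lit 5) (nat_lit 79) (nat_lit 5) (nat_lit 80) (nat_lit 5) (nat_lit 440) (nat_lit 437) (nat_lit 323)) (XT.nd (nat_lit 78) (nat_lit 0) (nat_lit 76) (XT.lf (nat_lit 0) (nat_lit 4133450809) (nat_lit 532) (nat_lit 20925923) (nat_lit 608) (nat_lit 77901216152) (nat_lit 72) (nat_lit 5) (nat_lit 79) (nat_lit 5) (nat_lit 80) (nat_lit 5) (nat_lit 441) (nat_lit 437) (nat_lit 322)) (XT.lf (nat_lit 0) (nat_lit 9450997908)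 (nat_lit 532) (nat_lit 40619654975) (nat_lit 608) (nat_lit 35358257754) (nat_lit 73) (nat_lit 5) (nat_lit 80) (nat_lit 5) (nat_lit 81) (nat_lit 5) (nat_lit 442) (nat_lit 437) (nat_lit 321)))) (XT.nd (nat_lit 78) (nat_lit 380) (nat_lit 0) (XT.lf (nat_lit 76) (nat_lit 4259326826) (nat_lit 0) (nat_lit 11144574224) (nat_lit 608) (nat_lit 73651396922) (nat_lit 74) (nat_lit 5) (nat_lit 73) (nat_lit 5) (nat_lit 81) (nat_lit 5) (nat_lit 443) (nat_lit 437) (nat_lit 320)) (XT.nd (nat_lit 78) (nat_lit 456) (nat_lit 0) (XT.lf (nat_lit 0) (nat_lit 23714615482) (nat_lit 532) (nat_lit 38617002843) (nat_lit 76) (nat_lit 30489651961) (nat_lit 74) (nat_lit 5) (nat_lit 81) (nat_lit 5) (nat_lit 75) (nat_lit 5) (nat_lit 444) (nat_lit 437) (nat_lit 319)) (XT.lf (nat_lit 0) (nat_lit 11543456732) (nat_lit 456) (nat_lit 21712967328) (nat_lit 532) (nat_lit 63586797662) (nat_lit 68) (nat_lit 5) (nat_lit 74) (nat_lit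 5) (nat_lit 75) (nat_lit 5) (nat_lit 445) (nat_lit 437) (nat_lit 318))))))) (XT.nd (nat_lit 858) (nat_lit 988) (nat_lit 0) (XT.nd (nat_lit 390) (nat_lit 836) (nat_lit 0) (XT.nd (nat_lit 156) (nat_lit 228) (nat_lit 0) (XT.nd (nat_lit 78) (nat_lit 228) (nat_lit 0) (XT.lf (nat_lit 0) (nat_lit 45176883892) (nat_lit 532) (nat_lit 33750634061) (nat_lit 76) (nat_lit 22130187066) (nat_lit 68) (nat_lit 5) (nat_lit 75) (nat_lit 5) (nat_lit 69) (nat_lit 5) (nat_lit 446) (nat_lit 437) (nat_lit 317)) (XT.lf (nat_lit 0) (nat_lit 22482321846) (nat_lit 228) (nat_lit 36672583983) (nat_lit 304) (nat_lit 46366127380) (nat_lit 65) (nat_lit 5) (nat_lit 68) (nat_lit 5) (nat_lit 69) (nat_lit 5) (nat_lit 447) (nat_lit 437) (nat_lit 316))) (XT.nd (nat_lit 78) (nat_lit 228) (nat_lit 0) (XT.lf (nat_lit 0) (nat_lit 75412782075) (nat_lit 304) (nat_lit 25374608786) (nat_lit 76) (nat_lit 9461108021) (nat_lit 65) (nat_lit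 5) (nat_lit 69) (nat_lit 5) (nat_lit 66) (nat_lit 5) (nat_lit 448) (nat_lit 437) (nat_lit 315)) (XT.nd (nat_lit 78) (nat_lit 0) (nat_lit 0) (XT.lf (nat_lit 0) (nat_lit 37842351239) (nat_lit 228) (nat_lit 56990921377) (nat_lit 304) (nat_lit 20371930674) (nat_lit 62) (nat_lit 5) (nat_lit 65) (nat_lit 5) (nat_lit 66) (nat_lit 5) (nat_lit 449) (nat_lit 437) (nat_lit 314)) (XT.lf (nat_lit 0) (nat_lit 107559000109) (nat_lit 228) (nat_lit 8941560132) (nat_lit 304) (nat_lit 4002431383) (nat_lit 62) (nat_lit 5) (nat_lit 65) (nat_lit 5) (nat_lit 66) (nat_lit 5) (nat_lit 450) (nat_lit 437) (nat_lit 313))))) (XT.nd (nat_lit 234) (nat_lit 380) (nat_lit 0) (XT.nd (nat_lit 78) (nat_lit 228) (nat_lit 0) (XT.lf (nat_lit 0) (nat_lit 15495705774) (nat_lit 228) (nat_lit 67899540652) (nat_lit 76) (nat_lit 42602783854) (nat_lit 59) (nat_lit 5) (nat_lit 62) (nat_lit 5) (nat_lit 60) (nat_lit 5) (nat_lit 451) (nat_lit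 437) (nat_lit 312)) (XT.nd (nat_lit 78) (nat_lit 0) (nat_lit 0) (XT.lf (nat_lit 0) (nat_lit 3484299856) (nat_lit 228) (nat_lit 33531735321) (nat_lit 304) (nat_lit 94854034147) (nat_lit 56) (nat_lit 5) (nat_lit 59) (nat_lit 5) (nat_lit 60) (nat_lit 5) (nat_lit 452) (nat_lit 437) (nat_lit 311)) (XT.lf (nat_lit 0) (nat_lit 62650869678) (nat_lit 304) (nat_lit 54160701216) (nat_lit 76) (nat_lit 21208870444) (nat_lit 56) (nat_lit 5) (nat_lit 60) (nat_lit 5) (nat_lit 57) (nat_lit 5) (nat_lit 453) (nat_lit 437) (nat_lit 310)))) (XT.nd (nat_lit 78) (nat_lit 228) (nat_lit 0) (XT.lf (nat_lit 0) (nat_lit 26454047518) (nat_lit 152) (nat_lit 65389106275) (nat_lit 228) (nat_lit 52699156430) (nat_lit 54) (nat_lit 5) (nat_lit 56) (nat_lit 5) (nat_lit 57) (nat_lit 5) (nat_lit 454) (nat_lit 437) (nat_lit 309)) (XT.nd (nat_lit 78) (nat_lit 228) (nat_lit 0) (XT.lf (nat_lit 0) (nat_lit 116597451769) (nat_lit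 152) (nat_lit 8253727911) (nat_lit 228) (nat_lit 26616320341) (nat_lit 54) (nat_lit 5) (nat_lit 56) (nat_lit 5) (nat_lit 57) (nat_lit 5) (nat_lit 455) (nat_lit 437) (nat_lit 308)) (XT.lf (nat_lit 0) (nat_lit 4189210952) (nat_lit 228) (nat_lit 102292969252) (nat_lit 76) (nat_lit 52244435633) (nat_lit 51) (nat_lit 5) (nat_lit 54) (nat_lit 5) (nat_lit 52) (nat_lit 5) (nat_lit 456) (nat_lit 437) (nat_lit 307)))))) (XT.nd (nat_lit 468) (nat_lit 532) (nat_lit 0) (XT.nd (nat_lit 234) (nat_lit 152) (nat_lit 0) (XT.nd (nat_lit 78) (nat_lit 304) (nat_lit 0) (XT.lf (nat_lit 0) (nat_lit 37213315468) (nat_lit 228) (nat_lit 10396619150) (nat_lit 76) (nat_lit 118805851494) (nat_lit 51) (nat_lit 5) (nat_lit 54) (nat_lit 5) (nat_lit 52) (nat_lit 5) (nat_lit 457) (nat_lit 437) (nat_lit 306)) (XT.nd (nat_lit 78) (nat_lit 152) (nat_lit 0) (XT.lf (nat_lit 0) (nat_lit 75570867206) (nat_lit 228) (nat_lit 81453185954)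 (nat_lit 76) (nat_lit 17480715432) (nat_lit 49) (nat_lit 5) (nat_lit 52) (nat_lit 5) (nat_lit 50) (nat_lit 5) (nat_lit 458) (nat_lit 437) (nat_lit 305)) (XT.lf (nat_lit 0) (nat_lit 22004906153) (nat_lit 152) (nat_lit 97049195250) (nat_lit 228) (nat_lit 64022202089) (nat_lit 47) (nat_lit 5) (nat_lit 49) (nat_lit 5) (nat_lit 50) (nat_lit 5) (nat_lit 459) (nat_lit 437) (nat_lit 304)))) (XT.nd (nat_lit 78) (nat_lit 152) (nat_lit 0) (XT.lf (nat_lit 0) (nat_lit 138371336625) (nat_lit 152) (nat_lit 29871340027) (nat_lit 228) (nat_lit 23912750026) (nat_lit 47) (nat_lit 5) (nat_lit 49) (nat_lit 5) (nat_lit 50) (nat_lit 5) (nat_lit 460) (nat_lit 437) (nat_lit 303)) (XT.nd (nat_lit 78) (nat_lit 0) (nat_lit 0) (XT.lf (nat_lit 0) (nat_lit 21073426609) (nat_lit 152) (nat_lit 138014239106) (nat_lit 76) (nat_lit 42624781291) (nat_lit 45) (nat_lit 5) (nat_lit 47) (nat_lit 5) (nat_lit 46) (nat_lit 5) (nat_lit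 461) (nat_lit 437) (nat_lit 302)) (XT.lf (nat_lit 0) (nat_lit 70650850866) (nat_lit 152) (nat_lit 19714337372) (nat_lit 76) (nat_lit 121436410906) (nat_lit 45) (nat_lit 5) (nat_lit 47) (nat_lit 5) (nat_lit 46) (nat_lit 5) (nat_lit 462) (nat_lit 437) (nat_lit 301))))) (XT.nd (nat_lit 234) (nat_lit 228) (nat_lit 0) (XT.nd (nat_lit 78) (nat_lit 152) (nat_lit 0) (XT.lf (nat_lit 0) (nat_lit 113738664365) (nat_lit 152) (nat_lit 13190884939) (nat_lit 228) (nat_lit 95549527788) (nat_lit 43) (nat_lit 5) (nat_lit 45) (nat_lit 5) (nat_lit 46) (nat_lit 5) (nat_lit 463) (nat_lit 437) (nat_lit 300)) (XT.nd (nat_lit 78) (nat_lit 76) (nat_lit 0) (XT.lf (nat_lit 0) (nat_lit 24547560951) (nat_lit 76) (nat_lit 165993333085) (nat_lit 152) (nat_lit 43243431263) (nat_lit 42) (nat_lit 5) (nat_lit 43) (nat_lit 5) (nat_lit 44) (nat_lit 4) (nat_lit 464) (nat_lit 437) (nat_lit 299)) (XT.lf (nat_lit 0) (nat_lit 15977149553)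 (nat_lit 152) (nat_lit 71812414628) (nat_lit 76) (nat_lit 157907527853) (nat_lit 41) (nat_lit 5) (nat_lit 43) (nat_lit 5) (nat_lit 42) (nat_lit 5) (nat_lit 465) (nat_lit 437) (nat_lit 298)))) (XT.nd (nat_lit 78) (nat_lit 76) (nat_lit 0) (XT.lf (nat_lit 0) (nat_lit 79456905200) (nat_lit 152) (nat_lit 52839932) (nat_lit 228) (nat_lit 178810427595) (nat_lit 39) (nat_lit 5) (nat_lit 41) (nat_lit 5) (nat_lit 42) (nat_lit 5) (nat_lit 466) (nat_lit 437) (nat_lit 297)) (XT.nd (nat_lit 78) (nat_lit 76) (nat_lit 0) (XT.lf (nat_lit 0) (nat_lit 152416732746) (nat_lit 228) (nat_lit 27213352816) (nat_lit 76) (nat_lit 91979671603) (nat_lit 39) (nat_lit 5) (nat_lit 42) (nat_lit 5) (nat_lit 40) (nat_lit 4) (nat_lit 467) (nat_lit 437) (nat_lit 296)) (XT.lf (nat_lit 0) (nat_lit 143758049014) (nat_lit 76) (nat_lit 90856710605) (nat_lit 152) (nat_lit 51071070354) (nat_lit 38) (nat_lit 5) (nat_lit 39) (nat_lit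 5) (nat_lit 40) (nat_lit 4) (nat_lit 468) (nat_lit 437) (nat_lit 295))))))))
noncomputable def xc181 : XT := (XT.nd (nat_lit 1794) (nat_lit 912) (nat_lit 0) (XT.nd (nat_lit 858) (nat_lit 760) (nat_lit 0) (XT.nd (nat_lit 390) (nat_lit 304) (nat_lit 0) (XT.nd (nat_lit 156) (nat_lit 228) (nat_lit 0) (XT.nd (nat_lit 78) (nat_lit 0) (nat_lit 0) (XT.lf (nat_lit 0) (nat_lit 23034712099) (nat_lit 228) (nat_lit 270829565931) (nat_lit 76) (nat_lit 6847647718) (nat_lit 35) (nat_lit 5) (nat_lit 38) (nat_lit 5) (nat_lit 36) (nat_lit 4) (nat_lit 469) (nat_lit 437) (nat_lit 294)) (XT.lf (nat_lit 0) (nat_lit 106650786851) (nat_lit 228) (nat_lit 96908522654) (nat_lit 76) (nat_lit 112767398482) (nat_lit 35) (nat_lit 5) (nat_lit 38) (nat_lit 5) (nat_lit 36) (nat_lit 4) (nat_lit 470) (nat_lit 437) (nat_lit 293))) (XT.nd (nat_lit 78) (nat_lit 152) (nat_lit 0) (XT.lf (nat_lit 0) (nat_lit 95713730495) (nat_lit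 76) (nat_lit 103544083425) (nat_lit 152) (nat_lit 133748725606) (nat_lit 34) (nat_lit 5) (nat_lit 35) (nat_lit 5) (nat_lit 36) (nat_lit 4) (nat_lit 471) (nat_lit 437) (nat_lit 292)) (XT.nd (nat_lit 78) (nat_lit 152) (nat_lit 0) (XT.lf (nat_lit 0) (nat_lit 302099187998) (nat_lit 152) (nat_lit 41728595417) (nat_lit 0) (nat_lit 6966911410) (nat_lit 34) (nat_lit 5) (nat_lit 36) (nat_lit 4) (nat_lit 34) (nat_lit 4) (nat_lit 472) (nat_lit 437) (nat_lit 291)) (XT.lf (nat_lit 0) (nat_lit 48094140024) (nat_lit 152) (nat_lit 195096753619) (nat_lit 76) (nat_lit 126164660647) (nat_lit 32) (nat_lit 5) (nat_lit 34) (nat_lit 5) (nat_lit 33) (nat_lit 4) (nat_lit 473) (nat_lit 437) (nat_lit 290))))) (XT.nd (nat_lit 234) (nat_lit 152) (nat_lit 0) (XT.nd (nat_lit 78) (nat_lit 76) (nat_lit 0) (XT.lf (nat_lit 0) (nat_lit 20309396498) (nat_lit 76) (nat_lit 131345520953) (nat_lit 152) (nat_lit 237512477132) (nat_lit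 31) (nat_lit 5) (nat_lit 32) (nat_lit 5) (nat_lit 33) (nat_lit 4) (nat_lit 474) (nat_lit 437) (nat_lit 289)) (XT.nd (nat_lit 78) (nat_lit 76) (nat_lit 0) (XT.lf (nat_lit 0) (nat_lit 264042943205) (nat_lit 76) (nat_lit 4791682834) (nat_lit 152) (nat_lit 141302830561) (nat_lit 31) (nat_lit 5) (nat_lit 32) (nat_lit 5) (nat_lit 33) (nat_lit 4) (nat_lit 475) (nat_lit 437) (nat_lit 288)) (XT.lf (nat_lit 0) (nat_lit 96126408181) (nat_lit 76) (nat_lit 304745808157) (nat_lit 76) (nat_lit 31474226855) (nat_lit 30) (nat_lit 4) (nat_lit 31) (nat_lit 5) (nat_lit 31) (nat_lit 4) (nat_lit 476) (nat_lit 437) (nat_lit 287)))) (XT.nd (nat_lit 78) (nat_lit 76) (nat_lit 0) (XT.lf (nat_lit 0) (nat_lit 87004021986) (nat_lit 152) (nat_lit 92303411771) (nat_lit 76) (nat_lit 276519257298) (nat_lit 29) (nat_lit 5) (nat_lit 31) (nat_lit 5) (nat_lit 30) (nat_lit 4) (nat_lit 477) (nat_lit 437) (nat_lit 286)) (XT.nd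 (nat_lit 78) (nat_lit 0) (nat_lit 0) (XT.lf (nat_lit 0) (nat_lit 179276808370) (nat_lit 76) (nat_lit 38294714486) (nat_lit 152) (nat_lit 263203521482) (nat_lit 28) (nat_lit 5) (nat_lit 29) (nat_lit 5) (nat_lit 30) (nat_lit 4) (nat_lit 478) (nat_lit 437) (nat_lit 285)) (XT.lf (nat_lit 0) (nat_lit 363915201267) (nat_lit 152) (nat_lit 32492148739) (nat_lit 0) (nat_lit 110885453691) (nat_lit 28) (nat_lit 5) (nat_lit 30) (nat_lit 4) (nat_lit 28) (nat_lit 4) (nat_lit 479) (nat_lit 437) (nat_lit 284)))))) (XT.nd (nat_lit 468) (nat_lit 304) (nat_lit 0) (XT.nd (nat_lit 234) (nat_lit 228) (nat_lit 0) (XT.nd (nat_lit 78) (nat_lit 152) (nat_lit 0) (XT.lf (nat_lit 0) (nat_lit 270574651131) (nat_lit 76) (nat_lit 258893539569) (nat_lit 76) (nat_lit 5863647779) (nat_lit 27) (nat_lit 4) (nat_lit 28) (nat_lit 5) (nat_lit 28) (nat_lit 4) (nat_lit 480) (nat_lit 437) (nat_lit 283)) (XT.nd (nat_lit 78) (nat_lit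 0) (nat_lit 0) (XT.lf (nat_lit 0) (nat_lit 32356119620) (nat_lit 76) (nat_lit 104848757755) (nat_lit 152) (nat_lit 427999500579) (nat_lit 25) (nat_lit 5) (nat_lit 26) (nat_lit 5) (nat_lit 27) (nat_lit 4) (nat_lit 481) (nat_lit 437) (nat_lit 282)) (XT.lf (nat_lit 0) (nat_lit 300308421713) (nat_lit 152) (nat_lit 230412361815) (nat_lit 0) (nat_lit 66021246749) (nat_lit 25) (nat_lit 5) (nat_lit 27) (nat_lit 4) (nat_lit 25) (nat_lit 4) (nat_lit 482) (nat_lit 437) (nat_lit 281)))) (XT.nd (nat_lit 78) (nat_lit 152) (nat_lit 0) (XT.lf (nat_lit 0) (nat_lit 98418007221) (nat_lit 76) (nat_lit 383132378812) (nat_lit 76) (nat_lit 148845097846) (nat_lit 24) (nat_lit 4) (nat_lit 25) (nat_lit 5) (nat_lit 25) (nat_lit 4) (nat_lit 483) (nat_lit 437) (nat_lit 280)) (XT.nd (nat_lit 78) (nat_lit 76) (nat_lit 0) (XT.lf (nat_lit 0) (nat_lit 16486067960) (nat_lit 152) (nat_lit 199996357756) (nat_lit 76) (nat_lit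 449721420677) (nat_lit 23) (nat_lit 5) (nat_lit 25) (nat_lit 5) (nat_lit 24) (nat_lit 4) (nat_lit 484) (nat_lit 437) (nat_lit 279)) (XT.lf (nat_lit 0) (nat_lit 162821854094) (nat_lit 76) (nat_lit 28096090178) (nat_lit 152) (nat_lit 513336387639) (nat_lit 22) (nat_lit 5) (nat_lit 23) (nat_lit 5) (nat_lit 24) (nat_lit 4) (nat_lit 485) (nat_lit 437) (nat_lit 278))))) (XT.nd (nat_lit 234) (nat_lit 152) (nat_lit 0) (XT.nd (nat_lit 78) (nat_lit 152) (nat_lit 0) (XT.lf (nat_lit 0) (nat_lit 389131947882) (nat_lit 152) (nat_lit 183231674839) (nat_lit 0) (nat_lit 172199027381) (nat_lit 22) (nat_lit 5) (nat_lit 24) (nat_lit 4) (nat_lit 22) (nat_lit 4) (nat_lit 486) (nat_lit 437) (nat_lit 277)) (XT.nd (nat_lit 78) (nat_lit 76) (nat_lit 0) (XT.lf (nat_lit 0) (nat_lit 213579245431) (nat_lit 76) (nat_lit 395490041862) (nat_lit 76) (nat_lit 178557049218) (nat_lit 21) (nat_lit 4) (nat_lit 22) (nat_lit 5)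 (nat_lit 22) (nat_lit 4) (nat_lit 487) (nat_lit 437) (nat_lit 276)) (XT.lf (nat_lit 0) (nat_lit 16982738058) (nat_lit 152) (nat_lit 181608964280) (nat_lit 76) (nat_lit 635108240606) (nat_lit 20) (nat_lit 5) (nat_lit 22) (nat_lit 5) (nat_lit 21) (nat_lit 4) (nat_lit 488) (nat_lit 437) (nat_lit 275)))) (XT.nd (nat_lit 78) (nat_lit 76) (nat_lit 0) (XT.lf (nat_lit 0) (nat_lit 225148496921) (nat_lit 152) (nat_lit 633125057050) (nat_lit 0) (nat_lit 24284495723) (nat_lit 19) (nat_lit 5) (nat_lit 21) (nat_lit 4) (nat_lit 19) (nat_lit 4) (nat_lit 489) (nat_lit 437) (nat_lit 274)) (XT.nd (nat_lit 78) (nat_lit 76) (nat_lit 0) (XT.lf (nat_lit 0) (nat_lit 460220099747) (nat_lit 152) (nat_lit 214928453058) (nat_lit 0) (nat_lit 259356045522) (nat_lit 19) (nat_lit 5) (nat_lit 21) (nat_lit 4) (nat_lit 19) (nat_lit 4) (nat_lit 490) (nat_lit 437) (nat_lit 273)) (XT.lf (nat_lit 0) (nat_lit 249189088296) (nat_lit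 76) (nat_lit 470901227539) (nat_lit 76) (nat_lit 270037124215) (nat_lit 18) (nat_lit 4) (nat_lit 19) (nat_lit 5) (nat_lit 19) (nat_lit 4) (nat_lit 491) (nat_lit 437) (nat_lit 272))))))) (XT.nd (nat_lit 936) (nat_lit 304) (nat_lit 0) (XT.nd (nat_lit 468) (nat_lit 304) (nat_lit 0) (XT.nd (nat_lit 234) (nat_lit 152) (nat_lit 0) (XT.nd (nat_lit 78) (nat_lit 152) (nat_lit 0) (XT.lf (nat_lit 0) (nat_lit 762658972187) (nat_lit 76) (nat_lit 243967586480) (nat_lit 76) (nat_lit 43103437694) (nat_lit 18) (nat_lit 4) (nat_lit 19) (nat_lit 5) (nat_lit 19) (nat_lit 4) (nat_lit 492) (nat_lit 437) (nat_lit 271)) (XT.nd (nat_lit 78) (nat_lit 0) (nat_lit 0) (XT.lf (nat_lit 0) (nat_lit 197183147255) (nat_lit 152) (nat_lit 904907020499) (nat_lit 0) (nat_lit 11197785328) (nat_lit 16) (nat_lit 5) (nat_lit 18) (nat_lit 4) (nat_lit 16) (nat_lit 4) (nat_lit 493) (nat_lit 437) (nat_lit 270)) (XT.lf (nat_lit 0) (nat_lit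 468753566434) (nat_lit 152) (nat_lit 429168076898) (nat_lit 0) (nat_lit 282768168418) (nat_lit 16) (nat_lit 5) (nat_lit 18) (nat_lit 4) (nat_lit 16) (nat_lit 4) (nat_lit 494) (nat_lit 437) (nat_lit 269)))) (XT.nd (nat_lit 78) (nat_lit 76) (nat_lit 0) (XT.lf (nat_lit 0) (nat_lit 89086231446) (nat_lit 76) (nat_lit 675105812555) (nat_lit 76) (nat_lit 489120381123) (nat_lit 15) (nat_lit 4) (nat_lit 16) (nat_lit 5) (nat_lit 16) (nat_lit 4) (nat_lit 495) (nat_lit 437) (nat_lit 268)) (XT.nd (nat_lit 78) (nat_lit 76) (nat_lit 0) (XT.lf (nat_lit 0) (nat_lit 673207853610) (nat_lit 76) (nat_lit 421791863475) (nat_lit 76) (nat_lit 235806401102) (nat_lit 15) (nat_lit 4) (nat_lit 16) (nat_lit 5) (nat_lit 16) (nat_lit 4) (nat_lit 496) (nat_lit 437) (nat_lit 267)) (XT.lf (nat_lit 0) (nat_lit 35883060480) (nat_lit 152) (nat_lit 111348725221) (nat_lit 76) (nat_lit 1267194853735) (nat_lit 14) (nat_lit 5)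 (nat_lit 16) (nat_lit 5) (nat_lit 15) (nat_lit 4) (nat_lit 497) (nat_lit 437) (nat_lit 266))))) (XT.nd (nat_lit 234) (nat_lit 152) (nat_lit 0) (XT.nd (nat_lit 78) (nat_lit 76) (nat_lit 0) (XT.lf (nat_lit 0) (nat_lit 332589606795) (nat_lit 152) (nat_lit 1009994686153) (nat_lit 0) (nat_lit 160380794250) (nat_lit 13) (nat_lit 5) (nat_lit 15) (nat_lit 4) (nat_lit 13) (nat_lit 4) (nat_lit 498) (nat_lit 437) (nat_lit 265)) (XT.nd (nat_lit 78) (nat_lit 76) (nat_lit 0) (XT.lf (nat_lit 0) (nat_lit 659980341289) (nat_lit 152) (nat_lit 450278950332) (nat_lit 0) (nat_lit 487771506002) (nat_lit 13) (nat_lit 5) (nat_lit 15) (nat_lit 4) (nat_lit 13) (nat_lit 4) (nat_lit 499) (nat_lit 437) (nat_lit 264)) (XT.lf (nat_lit 0) (nat_lit 162334511151) (nat_lit 76) (nat_lit 855131892284) (nat_lit 76) (nat_lit 682923035938) (nat_lit 12) (nat_lit 4) (nat_lit 13) (nat_lit 5) (nat_lit 13) (nat_lit 4) (nat_lit 500)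 (nat_lit 437) (nat_lit 263)))) (XT.nd (nat_lit 78) (nat_lit 152) (nat_lit 0) (XT.lf (nat_lit 0) (nat_lit 849564653654) (nat_lit 76) (nat_lit 566298043464) (nat_lit 76) (nat_lit 394089167621) (nat_lit 12) (nat_lit 4) (nat_lit 13) (nat_lit 5) (nat_lit 13) (nat_lit 4) (nat_lit 501) (nat_lit 437) (nat_lit 262)) (XT.nd (nat_lit 78) (nat_lit 152) (nat_lit 0) (XT.lf (nat_lit 0) (nat_lit 1591773060533) (nat_lit 76) (nat_lit 254357561635) (nat_lit 76) (nat_lit 82148667738) (nat_lit 12) (nat_lit 4) (nat_lit 13) (nat_lit 5) (nat_lit 13) (nat_lit 4) (nat_lit 502) (nat_lit 437) (nat_lit 261)) (XT.lf (nat_lit 0) (nat_lit 252749218041) (nat_lit 152) (nat_lit 1708677384066) (nat_lit 0) (nat_lit 93296523029) (nat_lit 10) (nat_lit 5) (nat_lit 12) (nat_lit 4) (nat_lit 10) (nat_lit 4) (nat_lit 503) (nat_lit 437) (nat_lit 260)))))) (XT.nd (nat_lit 468) (nat_lit 152) (nat_lit 0) (XT.nd (nat_lit 234) (nat_lit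 76) (nat_lit 0) (XT.nd (nat_lit 78) (nat_lit 76) (nat_lit 0) (XT.lf (nat_lit 0) (nat_lit 626047049680) (nat_lit 152) (nat_lit 1097186676497) (nat_lit 0) (nat_lit 466594340336) (nat_lit 10) (nat_lit 5) (nat_lit 12) (nat_lit 4) (nat_lit 10) (nat_lit 4) (nat_lit 504) (nat_lit 437) (nat_lit 259)) (XT.nd (nat_lit 78) (nat_lit 76) (nat_lit 0) (XT.lf (nat_lit 0) (nat_lit 1029208644523) (nat_lit 152) (nat_lit 436776841834) (nat_lit 0) (nat_lit 869755921909) (nat_lit 10) (nat_lit 5) (nat_lit 12) (nat_lit 4) (nat_lit 10) (nat_lit 4) (nat_lit 505) (nat_lit 437) (nat_lit 258)) (XT.lf (nat_lit 0) (nat_lit 291023851383) (nat_lit 76) (nat_lit 1180598387560) (nat_lit 76) (nat_lit 1021145652659) (nat_lit 9) (nat_lit 4) (nat_lit 10) (nat_lit 5) (nat_lit 10) (nat_lit 4) (nat_lit 506) (nat_lit 437) (nat_lit 257)))) (XT.nd (nat_lit 78) (nat_lit 76) (nat_lit 0) (XT.lf (nat_lit 0) (nat_lit 1101888369188) (nat_lit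 76) (nat_lit 859482747516) (nat_lit 76) (nat_lit 700030001238) (nat_lit 9) (nat_lit 4) (nat_lit 10) (nat_lit 5) (nat_lit 10) (nat_lit 4) (nat_lit 507) (nat_lit 437) (nat_lit 256)) (XT.nd (nat_lit 78) (nat_lit 76) (nat_lit 0) (XT.lf (nat_lit 0) (nat_lit 1977621940194) (nat_lit 76) (nat_lit 512677911619) (nat_lit 76) (nat_lit 353225154808) (nat_lit 9) (nat_lit 4) (nat_lit 10) (nat_lit 5) (nat_lit 10) (nat_lit 4) (nat_lit 508) (nat_lit 437) (nat_lit 255)) (XT.lf (nat_lit 0) (nat_lit 20257312296) (nat_lit 152) (nat_lit 117317556989) (nat_lit 76) (nat_lit 2902602913558) (nat_lit 8) (nat_lit 5) (nat_lit 10) (nat_lit 5) (nat_lit 9) (nat_lit 4) (nat_lit 509) (nat_lit 437) (nat_lit 254))))) (XT.nd (nat_lit 234) (nat_lit 76) (nat_lit 0) (XT.nd (nat_lit 78) (nat_lit 0) (nat_lit 0) (XT.lf (nat_lit 0) (nat_lit 428921323376) (nat_lit 152) (nat_lit 2539676716578) (nat_lit 0) (nat_lit 281279864490) (nat_lit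 7) (nat_lit 5) (nat_lit 9) (nat_lit 4) (nat_lit 7) (nat_lit 4) (nat_lit 510) (nat_lit 437) (nat_lit 253)) (XT.nd (nat_lit 78) (nat_lit 0) (nat_lit 0) (XT.lf (nat_lit 0) (nat_lit 877142768146) (nat_lit 152) (nat_lit 1869160821086) (nat_lit 0) (nat_lit 729501301517) (nat_lit 7) (nat_lit 5) (nat_lit 9) (nat_lit 4) (nat_lit 7) (nat_lit 4) (nat_lit 511) (nat_lit 437) (nat_lit 252)) (XT.lf (nat_lit 0) (nat_lit 1361221885499) (nat_lit 152) (nat_lit 1145003742200) (nat_lit 0) (nat_lit 1213580411701) (nat_lit 7) (nat_lit 5) (nat_lit 9) (nat_lit 4) (nat_lit 7) (nat_lit 4) (nat_lit 512) (nat_lit 437) (nat_lit 251)))) (XT.nd (nat_lit 78) (nat_lit 76) (nat_lit 0) (XT.lf (nat_lit 0) (nat_lit 1884027292427) (nat_lit 152) (nat_lit 362914178712) (nat_lit 0) (nat_lit 1736385811990) (nat_lit 7) (nat_lit 5) (nat_lit 9) (nat_lit 4) (nat_lit 7) (nat_lit 4) (nat_lit 513) (nat_lit 437) (nat_lit 250)) (XT.nd (nat_lit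 78) (nat_lit 0) (nat_lit 0) (XT.lf (nat_lit 0) (nat_lit 507110179169) (nat_lit 76) (nat_lit 1953742927879) (nat_lit 76) (nat_lit 1806101441296) (nat_lit 6) (nat_lit 4) (nat_lit 7) (nat_lit 5) (nat_lit 7) (nat_lit 4) (nat_lit 514) (nat_lit 437) (nat_lit 249)) (XT.lf (nat_lit 0) (nat_lit 1467375662854) (nat_lit 76) (nat_lit 1626372004864) (nat_lit 76) (nat_lit 1478730512590) (nat_lit 6) (nat_lit 4) (nat_lit 7) (nat_lit 5) (nat_lit 7) (nat_lit 4) (nat_lit 515) (nat_lit 437) (nat_lit 248))))))))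
noncomputable def xc182 : XT := (XT.nd (nat_lit 57330) (nat_lit 0) (nat_lit 2280) (XT.nd (nat_lit 56394) (nat_lit 0) (nat_lit 4636) (XT.nd (nat_lit 390) (nat_lit 0) (nat_lit 0) (XT.nd (nat_lit 156) (nat_lit 152) (nat_lit 0) (XT.nd (nat_lit 78) (nat_lit 0) (nat_lit 0) (XT.lf (nat_lit 0) (nat_lit 2504462316954) (nat_lit 76) (nat_lit 1272811443039) (nat_lit 76) (nat_lit 1125169945495) (nat_lit 6) (nat_lit 4) (nat_lit 7) (nat_lit 5) (nat_lit 7) (nat_lit 4) (nat_lit 516) (nat_lit 437) (nat_lit 247)) (XT.lf (nat_lit 0) (nat_lit 3624515840162) (nat_lit 76) (nat_lit 890966068704) (nat_lit 76) (nat_lit 743324566280) (nat_lit 6) (nat_lit 4) (nat_lit 7) (nat_lit 5) (nat_lit 7) (nat_lit 4) (nat_lit 517) (nat_lit 437) (nat_lit 246))) (XT.nd (nat_lit 78) (nat_lit 152) (nat_lit 0) (XT.lf (nat_lit 0) (nat_lit 4834173586689) (nat_lit 76) (nat_lit 478573094455) (nat_lit 76) (nat_lit 330931587514) (nat_lit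 6) (nat_lit 4) (nat_lit 7) (nat_lit 5) (nat_lit 7) (nat_lit 4) (nat_lit 518) (nat_lit 437) (nat_lit 245)) (XT.nd (nat_lit 78) (nat_lit 0) (nat_lit 0) (XT.lf (nat_lit 0) (nat_lit 82645774724) (nat_lit 76) (nat_lit 28069266549) (nat_lit 152) (nat_lit 5948245548451) (nat_lit 4) (nat_lit 5) (nat_lit 5) (nat_lit 5) (nat_lit 6) (nat_lit 4) (nat_lit 519) (nat_lit 437) (nat_lit 244)) (XT.lf (nat_lit 0) (nat_lit 603548986844) (nat_lit 152) (nat_lit 5433686220187) (nat_lit 0) (nat_lit 466843880364) (nat_lit 4) (nat_lit 5) (nat_lit 6) (nat_lit 4) (nat_lit 4) (nat_lit 4) (nat_lit 520) (nat_lit 437) (nat_lit 243))))) (XT.nd (nat_lit 234) (nat_lit 0) (nat_lit 0) (XT.nd (nat_lit 78) (nat_lit 0) (nat_lit 0) (XT.lf (nat_lit 0) (nat_lit 1136538694876) (nat_lit 152) (nat_lit 4848376461185) (nat_lit 0) (nat_lit 999833585076) (nat_lit 4) (nat_lit 5) (nat_lit 6) (nat_lit 4) (nat_lit 4) (nat_lit 4) (nat_lit 521)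 (nat_lit 437) (nat_lit 242)) (XT.nd (nat_lit 78) (nat_lit 0) (nat_lit 0) (XT.lf (nat_lit 0) (nat_lit 1712167556363) (nat_lit 152) (nat_lit 4216241969182) (nat_lit 0) (nat_lit 1575462443487) (nat_lit 4) (nat_lit 5) (nat_lit 6) (nat_lit 4) (nat_lit 4) (nat_lit 4) (nat_lit 522) (nat_lit 437) (nat_lit 241)) (XT.lf (nat_lit 0) (nat_lit 2333846705297) (nat_lit 152) (nat_lit 3533536762005) (nat_lit 0) (nat_lit 2197141589575) (nat_lit 4) (nat_lit 5) (nat_lit 6) (nat_lit 4) (nat_lit 4) (nat_lit 4) (nat_lit 523) (nat_lit 437) (nat_lit 240)))) (XT.nd (nat_lit 78) (nat_lit 0) (nat_lit 0) (XT.lf (nat_lit 0) (nat_lit 3005260166267) (nat_lit 152) (nat_lit 2796215179165) (nat_lit 0) (nat_lit 2868555047909) (nat_lit 4) (nat_lit 5) (nat_lit 6) (nat_lit 4) (nat_lit 4) (nat_lit 4) (nat_lit 524) (nat_lit 437) (nat_lit 239)) (XT.nd (nat_lit 78) (nat_lit 0) (nat_lit 0) (XT.lf (nat_lit 0) (nat_lit 3730386685707)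 (nat_lit 152) (nat_lit 1999907907580) (nat_lit 0) (nat_lit 3593681564908) (nat_lit 4) (nat_lit 5) (nat_lit 6) (nat_lit 4) (nat_lit 4) (nat_lit 4) (nat_lit 525) (nat_lit 437) (nat_lit 238)) (XT.lf (nat_lit 0) (nat_lit 4513523309658) (nat_lit 152) (nat_lit 1139896089343) (nat_lit 0) (nat_lit 4376818186598) (nat_lit 4) (nat_lit 5) (nat_lit 6) (nat_lit 4) (nat_lit 4) (nat_lit 4) (nat_lit 526) (nat_lit 437) (nat_lit 237)))))) (XT.nd (nat_lit 468) (nat_lit 532) (nat_lit 0) (XT.nd (nat_lit 234) (nat_lit 456) (nat_lit 0) (XT.nd (nat_lit 78) (nat_lit 0) (nat_lit 0) (XT.lf (nat_lit 0) (nat_lit 35959097253) (nat_lit 532) (nat_lit 937055325) (nat_lit 532) (nat_lit 937055325) (nat_lit 78) (nat_lit 3) (nat_lit 85) (nat_lit 3) (nat_lit 85) (nat_lit 5) (nat_lit 438) (nat_lit 438) (nat_lit 324)) (XT.nd (nat_lit 78) (nat_lit 0) (nat_lit 76) (XT.lf (nat_lit 76) (nat_lit 37375274614) (nat_lit 0) (nat_lit 38329285786)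 (nat_lit 532) (nat_lit 2915736667) (nat_lit 79) (nat_lit 5) (nat_lit 78) (nat_lit 3) (nat_lit 85) (nat_lit 5) (nat_lit 439) (nat_lit 438) (nat_lit 323)) (XT.lf (nat_lit 0) (nat_lit 79844625257) (nat_lit 456) (nat_lit 1936536096) (nat_lit 532) (nat_lit 25264730) (nat_lit 79) (nat_lit 5) (nat_lit 85) (nat_lit 5) (nat_lit 86) (nat_lit 5) (nat_lit 440) (nat_lit 438) (nat_lit 322)))) (XT.nd (nat_lit 78) (nat_lit 0) (nat_lit 0) (XT.lf (nat_lit 0) (nat_lit 1161952257) (nat_lit 532) (nat_lit 43515776792) (nat_lit 608) (nat_lit 40407756848) (nat_lit 72) (nat_lit 5) (nat_lit 79) (nat_lit 5) (nat_lit 80) (nat_lit 5) (nat_lit 441) (nat_lit 438) (nat_lit 321)) (XT.nd (nat_lit 78) (nat_lit 0) (nat_lit 76) (XT.lf (nat_lit 0) (nat_lit 4482974908) (nat_lit 532) (nat_lit 9072696) (nat_lit 608) (nat_lit 84126478166) (nat_lit 72) (nat_lit 5) (nat_lit 79) (nat_lit 5) (nat_lit 80) (nat_lit 5) (nat_lit 442) (nat_lit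 438) (nat_lit 320)) (XT.lf (nat_lit 0) (nat_lit 10224736471) (nat_lit 532) (nat_lit 43854504563) (nat_lit 608) (nat_lit 38182563550) (nat_lit 73) (nat_lit 5) (nat_lit 80) (nat_lit 5) (nat_lit 81) (nat_lit 5) (nat_lit 443) (nat_lit 438) (nat_lit 319))))) (XT.nd (nat_lit 234) (nat_lit 228) (nat_lit 0) (XT.nd (nat_lit 78) (nat_lit 380) (nat_lit 0) (XT.lf (nat_lit 76) (nat_lit 4614423053) (nat_lit 0) (nat_lit 12038485876) (nat_lit 608) (nat_lit 79525471470) (nat_lit 74) (nat_lit 5) (nat_lit 73) (nat_lit 5) (nat_lit 81) (nat_lit 5) (nat_lit 444) (nat_lit 438) (nat_lit 318)) (XT.nd (nat_lit 78) (nat_lit 456) (nat_lit 0) (XT.lf (nat_lit 0) (nat_lit 25627191555) (nat_lit 532) (nat_lit 41691781677) (nat_lit 76) (nat_lit 32926760809) (nat_lit 74) (nat_lit 5) (nat_lit 81) (nat_lit 5) (nat_lit 75) (nat_lit 5) (nat_lit 445) (nat_lit 438) (nat_lit 317)) (XT.lf (nat_lit 0) (nat_lit 12481145515) (nat_lit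 456) (nat_lit 23450399862) (nat_lit 532) (nat_lit 68657960564) (nat_lit 68) (nat_lit 5) (nat_lit 74) (nat_lit 5) (nat_lit 75) (nat_lit 5) (nat_lit 446) (nat_lit 438) (nat_lit 316)))) (XT.nd (nat_lit 78) (nat_lit 228) (nat_lit 0) (XT.lf (nat_lit 0) (nat_lit 48804551168) (nat_lit 532) (nat_lit 36436429910) (nat_lit 76) (nat_lit 23900254457) (nat_lit 68) (nat_lit 5) (nat_lit 75) (nat_lit 5) (nat_lit 69) (nat_lit 5) (nat_lit 447) (nat_lit 438) (nat_lit 315)) (XT.nd (nat_lit 78) (nat_lit 0) (nat_lit 0) (XT.lf (nat_lit 0) (nat_lit 24294801586) (nat_lit 228) (nat_lit 39605346196) (nat_lit 304) (nat_lit 50061535900) (nat_lit 65) (nat_lit 5) (nat_lit 68) (nat_lit 5) (nat_lit 69) (nat_lit 5) (nat_lit 448) (nat_lit 438) (nat_lit 314)) (XT.lf (nat_lit 0) (nat_lit 81457725575) (nat_lit 304) (nat_lit 27390780216) (nat_lit 76) (nat_lit 10218915416) (nat_lit 65) (nat_lit 5) (nat_lit 69) (nat_lit 5) (nat_lit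 66) (nat_lit 5) (nat_lit 449) (nat_lit 438) (nat_lit 313))))))) (XT.nd (nat_lit 936) (nat_lit 988) (nat_lit 0) (XT.nd (nat_lit 468) (nat_lit 532) (nat_lit 0) (XT.nd (nat_lit 234) (nat_lit 380) (nat_lit 0) (XT.nd (nat_lit 78) (nat_lit 228) (nat_lit 0) (XT.lf (nat_lit 0) (nat_lit 40883187313) (nat_lit 228) (nat_lit 61548108438) (nat_lit 304) (nat_lit 21989411275) (nat_lit 62) (nat_lit 5) (nat_lit 65) (nat_lit 5) (nat_lit 66) (nat_lit 5) (nat_lit 450) (nat_lit 438) (nat_lit 312)) (XT.nd (nat_lit 78) (nat_lit 228) (nat_lit 0) (XT.lf (nat_lit 0) (nat_lit 116176171947) (nat_lit 228) (nat_lit 9654952859) (nat_lit 304) (nat_lit 4311261216) (nat_lit 62) (nat_lit 5) (nat_lit 65) (nat_lit 5) (nat_lit 66) (nat_lit 5) (nat_lit 451) (nat_lit 438) (nat_lit 311)) (XT.lf (nat_lit 0) (nat_lit 16745721502) (nat_lit 228) (nat_lit 73318040685) (nat_lit 76) (nat_lit 46013278899) (nat_lit 59) (nat_lit 5) (nat_lit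 62) (nat_lit 5) (nat_lit 60) (nat_lit 5) (nat_lit 452) (nat_lit 438) (nat_lit 310)))) (XT.nd (nat_lit 78) (nat_lit 152) (nat_lit 0) (XT.lf (nat_lit 0) (nat_lit 3776166223) (nat_lit 228) (nat_lit 36211059275) (nat_lit 304) (nat_lit 102431654109) (nat_lit 56) (nat_lit 5) (nat_lit 59) (nat_lit 5) (nat_lit 60) (nat_lit 5) (nat_lit 453) (nat_lit 438) (nat_lit 309)) (XT.nd (nat_lit 78) (nat_lit 152) (nat_lit 0) (XT.lf (nat_lit 0) (nat_lit 67672184461) (nat_lit 304) (nat_lit 58480742199) (nat_lit 76) (nat_lit 22908407904) (nat_lit 56) (nat_lit 5) (nat_lit 60) (nat_lit 5) (nat_lit 57) (nat_lit 5) (nat_lit 454) (nat_lit 438) (nat_lit 308)) (XT.lf (nat_lit 0) (nat_lit 28582861999) (nat_lit 152) (nat_lit 70616604876) (nat_lit 228) (nat_lit 56905517021) (nat_lit 54) (nat_lit 5) (nat_lit 56) (nat_lit 5) (nat_lit 57) (nat_lit 5) (nat_lit 455) (nat_lit 438) (nat_lit 307))))) (XT.nd (nat_lit 234) (nat_lit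 304) (nat_lit 0) (XT.nd (nat_lit 78) (nat_lit 228) (nat_lit 0) (XT.lf (nat_lit 0) (nat_lit 125936813355) (nat_lit 152) (nat_lit 8910665125) (nat_lit 228) (nat_lit 28736763076) (nat_lit 54) (nat_lit 5) (nat_lit 56) (nat_lit 5) (nat_lit 57) (nat_lit 5) (nat_lit 456) (nat_lit 438) (nat_lit 306)) (XT.nd (nat_lit 78) (nat_lit 0) (nat_lit 0) (XT.lf (nat_lit 0) (nat_lit 4532512524) (nat_lit 228) (nat_lit 110464139383) (nat_lit 76) (nat_lit 56427438211) (nat_lit 51) (nat_lit 5) (nat_lit 54) (nat_lit 5) (nat_lit 52) (nat_lit 5) (nat_lit 457) (nat_lit 438) (nat_lit 305)) (XT.lf (nat_lit 0) (nat_lit 40197940609) (nat_lit 228) (nat_lit 11216989970) (nat_lit 76) (nat_lit 128313511953) (nat_lit 51) (nat_lit 5) (nat_lit 54) (nat_lit 5) (nat_lit 52) (nat_lit 5) (nat_lit 458) (nat_lit 438) (nat_lit 304)))) (XT.nd (nat_lit 78) (nat_lit 152) (nat_lit 0) (XT.lf (nat_lit 0) (nat_lit 81623894265) (nat_lit 228)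 (nat_lit 87957878344) (nat_lit 76) (nat_lit 18882787304) (nat_lit 49) (nat_lit 5) (nat_lit 52) (nat_lit 5) (nat_lit 50) (nat_lit 5) (nat_lit 459) (nat_lit 438) (nat_lit 303)) (XT.nd (nat_lit 78) (nat_lit 0) (nat_lit 0) (XT.lf (nat_lit 0) (nat_lit 23776568411) (nat_lit 152) (nat_lit 104808944810) (nat_lit 228) (nat_lit 69136326416) (nat_lit 47) (nat_lit 5) (nat_lit 49) (nat_lit 5) (nat_lit 50) (nat_lit 5) (nat_lit 460) (nat_lit 438) (nat_lit 302)) (XT.lf (nat_lit 0) (nat_lit 149451478523) (nat_lit 152) (nat_lit 32257171248) (nat_lit 228) (nat_lit 25818684990) (nat_lit 47) (nat_lit 5) (nat_lit 49) (nat_lit 5) (nat_lit 50) (nat_lit 5) (nat_lit 461) (nat_lit 438) (nat_lit 301)))))) (XT.nd (nat_lit 468) (nat_lit 380) (nat_lit 0) (XT.nd (nat_lit 234) (nat_lit 304) (nat_lit 0) (XT.nd (nat_lit 78) (nat_lit 152) (nat_lit 0) (XT.lf (nat_lit 0) (nat_lit 22765882714) (nat_lit 152) (nat_lit 149044437831)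 (nat_lit 76) (nat_lit 46038594522) (nat_lit 45) (nat_lit 5) (nat_lit 47) (nat_lit 5) (nat_lit 46) (nat_lit 5) (nat_lit 462) (nat_lit 438) (nat_lit 300)) (XT.nd (nat_lit 78) (nat_lit 152) (nat_lit 0) (XT.lf (nat_lit 0) (nat_lit 76309013358) (nat_lit 152) (nat_lit 21281354359) (nat_lit 76) (nat_lit 131154870749) (nat_lit 45) (nat_lit 5) (nat_lit 47) (nat_lit 5) (nat_lit 46) (nat_lit 5) (nat_lit 463) (nat_lit 438) (nat_lit 299)) (XT.lf (nat_lit 0) (nat_lit 122847631062) (nat_lit 152) (nat_lit 14242162630) (nat_lit 228) (nat_lit 103187138154) (nat_lit 43) (nat_lit 5) (nat_lit 45) (nat_lit 5) (nat_lit 46) (nat_lit 5) (nat_lit 464) (nat_lit 438) (nat_lit 298)))) (XT.nd (nat_lit 78) (nat_lit 228) (nat_lit 0) (XT.lf (nat_lit 0) (nat_lit 26521355288) (nat_lit 76) (nat_lit 179268584293) (nat_lit 152) (nat_lit 46696668914) (nat_lit 42) (nat_lit 5) (nat_lit 43) (nat_lit 5) (nat_lit 44) (nat_lit 4)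 (nat_lit 465) (nat_lit 438) (nat_lit 297)) (XT.nd (nat_lit 78) (nat_lit 152) (nat_lit 0) (XT.lf (nat_lit 0) (nat_lit 17260807496) (nat_lit 152) (nat_lit 77547868638) (nat_lit 76) (nat_lit 170543743606) (nat_lit 41) (nat_lit 5) (nat_lit 43) (nat_lit 5) (nat_lit 42) (nat_lit 5) (nat_lit 466) (nat_lit 438) (nat_lit 296)) (XT.lf (nat_lit 0) (nat_lit 85822755278) (nat_lit 152) (nat_lit 53072684) (nat_lit 228) (nat_lit 193109533606) (nat_lit 39) (nat_lit 5) (nat_lit 41) (nat_lit 5) (nat_lit 42) (nat_lit 5) (nat_lit 467) (nat_lit 438) (nat_lit 295))))) (XT.nd (nat_lit 234) (nat_lit 76) (nat_lit 0) (XT.nd (nat_lit 78) (nat_lit 304) (nat_lit 0) (XT.lf (nat_lit 0) (nat_lit 164615070704) (nat_lit 228) (nat_lit 29381507548) (nat_lit 76) (nat_lit 99341558872) (nat_lit 39) (nat_lit 5) (nat_lit 42) (nat_lit 5) (nat_lit 40) (nat_lit 4) (nat_lit 468) (nat_lit 438) (nat_lit 294)) (XT.nd (nat_lit 78) (nat_lit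 228) (nat_lit 0) (XT.lf (nat_lit 0) (nat_lit 155267380771) (nat_lit 76) (nat_lit 98121397579) (nat_lit 152) (nat_lit 55151530369) (nat_lit 38) (nat_lit 5) (nat_lit 39) (nat_lit 5) (nat_lit 40) (nat_lit 4) (nat_lit 469) (nat_lit 438) (nat_lit 293)) (XT.lf (nat_lit 0) (nat_lit 24882389552) (nat_lit 228) (nat_lit 292486917142) (nat_lit 76) (nat_lit 7399180546) (nat_lit 35) (nat_lit 5) (nat_lit 38) (nat_lit 5) (nat_lit 36) (nat_lit 4) (nat_lit 470) (nat_lit 438) (nat_lit 292)))) (XT.nd (nat_lit 78) (nat_lit 76) (nat_lit 0) (XT.lf (nat_lit 0) (nat_lit 115187387285) (nat_lit 228) (nat_lit 104652858111) (nat_lit 76) (nat_lit 121792235741) (nat_lit 35) (nat_lit 5) (nat_lit 38) (nat_lit 5) (nat_lit 36) (nat_lit 4) (nat_lit 471) (nat_lit 438) (nat_lit 291)) (XT.nd (nat_lit 78) (nat_lit 0) (nat_lit 0) (XT.lf (nat_lit 0) (nat_lit 103378963989) (nat_lit 76) (nat_lit 111823872069) (nat_lit 152) (nat_lit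 144443874415) (nat_lit 34) (nat_lit 5) (nat_lit 35) (nat_lit 5) (nat_lit 36) (nat_lit 4) (nat_lit 472) (nat_lit 438) (nat_lit 290)) (XT.lf (nat_lit 0) (nat_lit 326271277597) (nat_lit 152) (nat_lit 45059107707) (nat_lit 0) (nat_lit 7527552322) (nat_lit 34) (nat_lit 5) (nat_lit 36) (nat_lit 4) (nat_lit 34) (nat_lit 4) (nat_lit 473) (nat_lit 438) (nat_lit 289))))))))
noncomputable def xc183 : XT := (XT.nd (nat_lit 1794) (nat_lit 836) (nat_lit 0) (XT.nd (nat_lit 858) (nat_lit 684) (nat_lit 0) (XT.nd (nat_lit 390) (nat_lit 380) (nat_lit 0) (XT.nd (nat_lit 156) (nat_lit 152) (nat_lit 0) (XT.nd (nat_lit 78) (nat_lit 76) (nat_lit 0) (XT.lf (nat_lit 0) (nat_lit 51945805324) (nat_lit 152) (nat_lit 210696697356) (nat_lit 76) (nat_lit 136261164866) (nat_lit 32) (nat_lit 5) (nat_lit 34) (nat_lit 5) (nat_lit 33) (nat_lit 4) (nat_lit 474) (nat_lit 438) (nat_lit 288)) (XT.lf (nat_lit 0) (nat_lit 21941747390)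 (nat_lit 76) (nat_lit 141849574086) (nat_lit 152) (nat_lit 256509143491) (nat_lit 31) (nat_lit 5) (nat_lit 32) (nat_lit 5) (nat_lit 33) (nat_lit 4) (nat_lit 475) (nat_lit 438) (nat_lit 287))) (XT.nd (nat_lit 78) (nat_lit 152) (nat_lit 0) (XT.lf (nat_lit 0) (nat_lit 285173414932) (nat_lit 76) (nat_lit 5171694736) (nat_lit 152) (nat_lit 152603046069) (nat_lit 31) (nat_lit 5) (nat_lit 32) (nat_lit 5) (nat_lit 33) (nat_lit 4) (nat_lit 476) (nat_lit 438) (nat_lit 286)) (XT.nd (nat_lit 78) (nat_lit 76) (nat_lit 0) (XT.lf (nat_lit 0) (nat_lit 103823590947) (nat_lit 76) (nat_lit 329122085195) (nat_lit 76) (nat_lit 33988187622) (nat_lit 30) (nat_lit 4) (nat_lit 31) (nat_lit 5) (nat_lit 31) (nat_lit 4) (nat_lit 477) (nat_lit 438) (nat_lit 285)) (XT.lf (nat_lit 0) (nat_lit 93967842279) (nat_lit 152) (nat_lit 99680953842) (nat_lit 76) (nat_lit 298643750091) (nat_lit 29) (nat_lit 5) (nat_lit 31) (nat_lit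 5) (nat_lit 30) (nat_lit 4) (nat_lit 478) (nat_lit 438) (nat_lit 284))))) (XT.nd (nat_lit 234) (nat_lit 228) (nat_lit 0) (XT.nd (nat_lit 78) (nat_lit 76) (nat_lit 0) (XT.lf (nat_lit 0) (nat_lit 193625513508) (nat_lit 76) (nat_lit 41355128339) (nat_lit 152) (nat_lit 284256134038) (nat_lit 28) (nat_lit 5) (nat_lit 29) (nat_lit 5) (nat_lit 30) (nat_lit 4) (nat_lit 479) (nat_lit 438) (nat_lit 283)) (XT.nd (nat_lit 78) (nat_lit 76) (nat_lit 0) (XT.lf (nat_lit 0) (nat_lit 393031633332) (nat_lit 152) (nat_lit 35085264721) (nat_lit 0) (nat_lit 119759072454) (nat_lit 28) (nat_lit 5) (nat_lit 30) (nat_lit 4) (nat_lit 28) (nat_lit 4) (nat_lit 480) (nat_lit 438) (nat_lit 282)) (XT.lf (nat_lit 0) (nat_lit 292226720761) (nat_lit 76) (nat_lit 279602049584) (nat_lit 76) (nat_lit 6329365066) (nat_lit 27) (nat_lit 4) (nat_lit 28) (nat_lit 5) (nat_lit 28) (nat_lit 4) (nat_lit 481) (nat_lit 438) (nat_lit 281))))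 (XT.nd (nat_lit 78) (nat_lit 76) (nat_lit 0) (XT.lf (nat_lit 0) (nat_lit 34950717071) (nat_lit 76) (nat_lit 113233665655) (nat_lit 152) (nat_lit 462236096085) (nat_lit 25) (nat_lit 5) (nat_lit 26) (nat_lit 5) (nat_lit 27) (nat_lit 4) (nat_lit 482) (nat_lit 438) (nat_lit 280)) (XT.nd (nat_lit 78) (nat_lit 76) (nat_lit 0) (XT.lf (nat_lit 0) (nat_lit 324336046502) (nat_lit 152) (nat_lit 248839531051) (nat_lit 0) (nat_lit 71305578908) (nat_lit 25) (nat_lit 5) (nat_lit 27) (nat_lit 4) (nat_lit 25) (nat_lit 4) (nat_lit 483) (nat_lit 438) (nat_lit 279)) (XT.lf (nat_lit 0) (nat_lit 106297120173) (nat_lit 76) (nat_lit 413780165618) (nat_lit 76) (nat_lit 160749607145) (nat_lit 24) (nat_lit 4) (nat_lit 25) (nat_lit 5) (nat_lit 25) (nat_lit 4) (nat_lit 484) (nat_lit 438) (nat_lit 278)))))) (XT.nd (nat_lit 468) (nat_lit 304) (nat_lit 0) (XT.nd (nat_lit 234) (nat_lit 228) (nat_lit 0) (XT.nd (nat_lit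 78) (nat_lit 76) (nat_lit 0) (XT.lf (nat_lit 0) (nat_lit 17807678886) (nat_lit 152) (nat_lit 215990670536) (nat_lit 76) (nat_lit 485701586522) (nat_lit 23) (nat_lit 5) (nat_lit 25) (nat_lit 5) (nat_lit 24) (nat_lit 4) (nat_lit 485) (nat_lit 438) (nat_lit 277)) (XT.nd (nat_lit 78) (nat_lit 0) (nat_lit 0) (XT.lf (nat_lit 0) (nat_lit 175852861660) (nat_lit 76) (nat_lit 30341168241) (nat_lit 152) (nat_lit 554400436444) (nat_lit 22) (nat_lit 5) (nat_lit 23) (nat_lit 5) (nat_lit 24) (nat_lit 4) (nat_lit 486) (nat_lit 438) (nat_lit 276)) (XT.lf (nat_lit 0) (nat_lit 420265015598) (nat_lit 152) (nat_lit 197885200856) (nat_lit 0) (nat_lit 185977244600) (nat_lit 22) (nat_lit 5) (nat_lit 24) (nat_lit 4) (nat_lit 22) (nat_lit 4) (nat_lit 487) (nat_lit 438) (nat_lit 275)))) (XT.nd (nat_lit 78) (nat_lit 152) (nat_lit 0) (XT.lf (nat_lit 0) (nat_lit 230670466251) (nat_lit 76) (nat_lit 427126807238) (nat_lit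 76) (nat_lit 192838974389) (nat_lit 21) (nat_lit 4) (nat_lit 22) (nat_lit 5) (nat_lit 22) (nat_lit 4) (nat_lit 488) (nat_lit 438) (nat_lit 274)) (XT.nd (nat_lit 78) (nat_lit 76) (nat_lit 0) (XT.lf (nat_lit 0) (nat_lit 18343678181) (nat_lit 152) (nat_lit 196133039499) (nat_lit 76) (nat_lit 685919034930) (nat_lit 20) (nat_lit 5) (nat_lit 22) (nat_lit 5) (nat_lit 21) (nat_lit 4) (nat_lit 489) (nat_lit 438) (nat_lit 273)) (XT.lf (nat_lit 0) (nat_lit 243162689141) (nat_lit 152) (nat_lit 683770411001) (nat_lit 0) (nat_lit 26229408452) (nat_lit 19) (nat_lit 5) (nat_lit 21) (nat_lit 4) (nat_lit 19) (nat_lit 4) (nat_lit 490) (nat_lit 438) (nat_lit 272))))) (XT.nd (nat_lit 234) (nat_lit 228) (nat_lit 0) (XT.nd (nat_lit 78) (nat_lit 76) (nat_lit 0) (XT.lf (nat_lit 0) (nat_lit 497039848900) (nat_lit 152) (nat_lit 232118423180) (nat_lit 0) (nat_lit 280106522748) (nat_lit 19) (nat_lit 5) (nat_lit 21)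 (nat_lit 4) (nat_lit 19) (nat_lit 4) (nat_lit 491) (nat_lit 438) (nat_lit 271)) (XT.nd (nat_lit 78) (nat_lit 0) (nat_lit 0) (XT.lf (nat_lit 0) (nat_lit 269128412467) (nat_lit 76) (nat_lit 508571212144) (nat_lit 76) (nat_lit 291637843898) (nat_lit 18) (nat_lit 4) (nat_lit 19) (nat_lit 5) (nat_lit 19) (nat_lit 4) (nat_lit 492) (nat_lit 438) (nat_lit 270)) (XT.lf (nat_lit 0) (nat_lit 823675576172) (nat_lit 76) (nat_lit 263483036362) (nat_lit 76) (nat_lit 46549629140) (nat_lit 18) (nat_lit 4) (nat_lit 19) (nat_lit 5) (nat_lit 19) (nat_lit 4) (nat_lit 493) (nat_lit 438) (nat_lit 269)))) (XT.nd (nat_lit 78) (nat_lit 76) (nat_lit 0) (XT.lf (nat_lit 0) (nat_lit 212959772515) (nat_lit 152) (nat_lit 977295585730) (nat_lit 0) (nat_lit 12095473152) (nat_lit 16) (nat_lit 5) (nat_lit 18) (nat_lit 4) (nat_lit 16) (nat_lit 4) (nat_lit 494) (nat_lit 438) (nat_lit 268)) (XT.nd (nat_lit 78) (nat_lit 76) (nat_lit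 0) (XT.lf (nat_lit 0) (nat_lit 506255679045) (nat_lit 152) (nat_lit 463497822671) (nat_lit 0) (nat_lit 305391348741) (nat_lit 16) (nat_lit 5) (nat_lit 18) (nat_lit 4) (nat_lit 16) (nat_lit 4) (nat_lit 495) (nat_lit 438) (nat_lit 267)) (XT.lf (nat_lit 0) (nat_lit 96216736660) (nat_lit 76) (nat_lit 729112449543) (nat_lit 76) (nat_lit 528248090591) (nat_lit 15) (nat_lit 4) (nat_lit 16) (nat_lit 5) (nat_lit 16) (nat_lit 4) (nat_lit 496) (nat_lit 438) (nat_lit 266))))))) (XT.nd (nat_lit 936) (nat_lit 380) (nat_lit 0) (XT.nd (nat_lit 468) (nat_lit 228) (nat_lit 0) (XT.nd (nat_lit 234) (nat_lit 76) (nat_lit 0) (XT.nd (nat_lit 78) (nat_lit 152) (nat_lit 0) (XT.lf (nat_lit 0) (nat_lit 727067821434) (nat_lit 76) (nat_lit 455533519945) (nat_lit 76) (nat_lit 254669134466) (nat_lit 15) (nat_lit 4) (nat_lit 16) (nat_lit 5) (nat_lit 16) (nat_lit 4) (nat_lit 497) (nat_lit 438) (nat_lit 265)) (XT.nd (nat_lit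 78) (nat_lit 76) (nat_lit 0) (XT.lf (nat_lit 0) (nat_lit 38755269898) (nat_lit 152) (nat_lit 120253448653) (nat_lit 76) (nat_lit 1368571926839) (nat_lit 14) (nat_lit 5) (nat_lit 16) (nat_lit 5) (nat_lit 15) (nat_lit 4) (nat_lit 498) (nat_lit 438) (nat_lit 264)) (XT.lf (nat_lit 0) (nat_lit 359198336224) (nat_lit 152) (nat_lit 1090791082733) (nat_lit 0) (nat_lit 173212750313) (nat_lit 13) (nat_lit 5) (nat_lit 15) (nat_lit 4) (nat_lit 13) (nat_lit 4) (nat_lit 499) (nat_lit 438) (nat_lit 263)))) (XT.nd (nat_lit 78) (nat_lit 76) (nat_lit 0) (XT.lf (nat_lit 0) (nat_lit 712780213857) (nat_lit 152) (nat_lit 486298323476) (nat_lit 0) (nat_lit 526794608448) (nat_lit 13) (nat_lit 5) (nat_lit 15) (nat_lit 4) (nat_lit 13) (nat_lit 4) (nat_lit 500) (nat_lit 438) (nat_lit 262)) (XT.nd (nat_lit 78) (nat_lit 0) (nat_lit 0) (XT.lf (nat_lit 0) (nat_lit 175324140422) (nat_lit 76) (nat_lit 923540982480) (nat_lit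 76) (nat_lit 737555359018) (nat_lit 12) (nat_lit 4) (nat_lit 13) (nat_lit 5) (nat_lit 13) (nat_lit 4) (nat_lit 501) (nat_lit 438) (nat_lit 261)) (XT.lf (nat_lit 0) (nat_lit 917532481852) (nat_lit 76) (nat_lit 611600533991) (nat_lit 76) (nat_lit 425614893812) (nat_lit 12) (nat_lit 4) (nat_lit 13) (nat_lit 5) (nat_lit 13) (nat_lit 4) (nat_lit 502) (nat_lit 438) (nat_lit 260))))) (XT.nd (nat_lit 234) (nat_lit 76) (nat_lit 0) (XT.nd (nat_lit 78) (nat_lit 152) (nat_lit 0) (XT.lf (nat_lit 0) (nat_lit 1719117364548) (nat_lit 76) (nat_lit 274704913834) (nat_lit 76) (nat_lit 88719258177) (nat_lit 12) (nat_lit 4) (nat_lit 13) (nat_lit 5) (nat_lit 13) (nat_lit 4) (nat_lit 503) (nat_lit 438) (nat_lit 259)) (XT.nd (nat_lit 78) (nat_lit 0) (nat_lit 0) (XT.lf (nat_lit 0) (nat_lit 272970390957) (nat_lit 152) (nat_lit 1845369048068) (nat_lit 0) (nat_lit 100761437264) (nat_lit 10) (nat_lit 5) (nat_lit 12)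 (nat_lit 4) (nat_lit 10) (nat_lit 4) (nat_lit 504) (nat_lit 438) (nat_lit 258)) (XT.lf (nat_lit 0) (nat_lit 676131957610) (nat_lit 152) (nat_lit 1184959271058) (nat_lit 0) (nat_lit 503922991630) (nat_lit 10) (nat_lit 5) (nat_lit 12) (nat_lit 4) (nat_lit 10) (nat_lit 4) (nat_lit 505) (nat_lit 438) (nat_lit 257)))) (XT.nd (nat_lit 78) (nat_lit 76) (nat_lit 0) (XT.lf (nat_lit 0) (nat_lit 1111546395303) (nat_lit 152) (nat_lit 471716822922) (nat_lit 0) (nat_lit 939337417946) (nat_lit 10) (nat_lit 5) (nat_lit 12) (nat_lit 4) (nat_lit 10) (nat_lit 4) (nat_lit 506) (nat_lit 438) (nat_lit 256)) (XT.nd (nat_lit 78) (nat_lit 0) (nat_lit 0) (XT.lf (nat_lit 0) (nat_lit 314307870910) (nat_lit 76) (nat_lit 1275045178686) (nat_lit 76) (nat_lit 1102836190795) (nat_lit 9) (nat_lit 4) (nat_lit 10) (nat_lit 5) (nat_lit 10) (nat_lit 4) (nat_lit 507) (nat_lit 438) (nat_lit 255)) (XT.lf (nat_lit 0) (nat_lit 1190041393738)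 (nat_lit 76) (nat_lit 928240367429) (nat_lit 76) (nat_lit 756031369785) (nat_lit 9) (nat_lit 4) (nat_lit 10) (nat_lit 5) (nat_lit 10) (nat_lit 4) (nat_lit 508) (nat_lit 438) (nat_lit 254)))))) (XT.nd (nat_lit 468) (nat_lit 228) (nat_lit 0) (XT.nd (nat_lit 234) (nat_lit 0) (nat_lit 0) (XT.nd (nat_lit 78) (nat_lit 152) (nat_lit 0) (XT.lf (nat_lit 0) (nat_lit 2135833505608) (nat_lit 76) (nat_lit 553691218727) (nat_lit 76) (nat_lit 381482212051) (nat_lit 9) (nat_lit 4) (nat_lit 10) (nat_lit 5) (nat_lit 10) (nat_lit 4) (nat_lit 509) (nat_lit 438) (nat_lit 253)) (XT.nd (nat_lit 78) (nat_lit 76) (nat_lit 0) (XT.lf (nat_lit 0) (nat_lit 21878737429) (nat_lit 152) (nat_lit 126701241185) (nat_lit 76) (nat_lit 3134811959633) (nat_lit 8) (nat_lit 5) (nat_lit 10) (nat_lit 5) (nat_lit 9) (nat_lit 4) (nat_lit 510) (nat_lit 438) (nat_lit 252)) (XT.lf (nat_lit 0) (nat_lit 463235868138) (nat_lit 152) (nat_lit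 2742849132272) (nat_lit 0) (nat_lit 303783069267) (nat_lit 7) (nat_lit 5) (nat_lit 9) (nat_lit 4) (nat_lit 7) (nat_lit 4) (nat_lit 511) (nat_lit 438) (nat_lit 251)))) (XT.nd (nat_lit 78) (nat_lit 0) (nat_lit 0) (XT.lf (nat_lit 0) (nat_lit 947314966350) (nat_lit 152) (nat_lit 2018692092669) (nat_lit 0) (nat_lit 787862160840) (nat_lit 7) (nat_lit 5) (nat_lit 9) (nat_lit 4) (nat_lit 7) (nat_lit 4) (nat_lit 512) (nat_lit 438) (nat_lit 250)) (XT.nd (nat_lit 78) (nat_lit 0) (nat_lit 0) (XT.lf (nat_lit 0) (nat_lit 1470120355554) (nat_lit 152) (nat_lit 1236602565554) (nat_lit 0) (nat_lit 1310667543898) (nat_lit 7) (nat_lit 5) (nat_lit 9) (nat_lit 4) (nat_lit 7) (nat_lit 4) (nat_lit 513) (nat_lit 438) (nat_lit 249)) (XT.lf (nat_lit 0) (nat_lit 2034750141760) (nat_lit 152) (nat_lit 391945946322) (nat_lit 0) (nat_lit 1875297324413) (nat_lit 7) (nat_lit 5) (nat_lit 9) (nat_lit 4) (nat_lit 7) (nat_lit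 4) (nat_lit 514) (nat_lit 438) (nat_lit 248))))) (XT.nd (nat_lit 234) (nat_lit 152) (nat_lit 0) (XT.nd (nat_lit 78) (nat_lit 0) (nat_lit 0) (XT.lf (nat_lit 0) (nat_lit 547680325590) (nat_lit 76) (nat_lit 2110041678670) (nat_lit 76) (nat_lit 1950588856052) (nat_lit 6) (nat_lit 4) (nat_lit 7) (nat_lit 5) (nat_lit 7) (nat_lit 4) (nat_lit 515) (nat_lit 438) (nat_lit 247)) (XT.nd (nat_lit 78) (nat_lit 0) (nat_lit 0) (XT.lf (nat_lit 0) (nat_lit 1584766949296) (nat_lit 76) (nat_lit 1756481132439) (nat_lit 76) (nat_lit 1597028304942) (nat_lit 6) (nat_lit 4) (nat_lit 7) (nat_lit 5) (nat_lit 7) (nat_lit 4) (nat_lit 516) (nat_lit 438) (nat_lit 246)) (XT.lf (nat_lit 0) (nat_lit 2704820444361) (nat_lit 76) (nat_lit 1374635772543) (nat_lit 76) (nat_lit 1215182940528) (nat_lit 6) (nat_lit 4) (nat_lit 7) (nat_lit 5) (nat_lit 7) (nat_lit 4) (nat_lit 517) (nat_lit 438) (nat_lit 245)))) (XT.nd (nat_lit 78)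 (nat_lit 152) (nat_lit 0) (XT.lf (nat_lit 0) (nat_lit 3914478164829) (nat_lit 76) (nat_lit 962242811664) (nat_lit 76) (nat_lit 802789975466) (nat_lit 6) (nat_lit 4) (nat_lit 7) (nat_lit 5) (nat_lit 7) (nat_lit 4) (nat_lit 518) (nat_lit 438) (nat_lit 244)) (XT.nd (nat_lit 78) (nat_lit 152) (nat_lit 0) (XT.lf (nat_lit 0) (nat_lit 5220908452748) (nat_lit 76) (nat_lit 516858439663) (nat_lit 76) (nat_lit 357405599592) (nat_lit 6) (nat_lit 4) (nat_lit 7) (nat_lit 5) (nat_lit 7) (nat_lit 4) (nat_lit 519) (nat_lit 438) (nat_lit 243)) (XT.lf (nat_lit 0) (nat_lit 89258416149) (nat_lit 76) (nat_lit 30314304911) (nat_lit 152) (nat_lit 6424104677717) (nat_lit 4) (nat_lit 5) (nat_lit 5) (nat_lit 5) (nat_lit 6) (nat_lit 4) (nat_lit 520) (nat_lit 438) (nat_lit 242))))))))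
noncomputable def xc184 : XT := (XT.nd (nat_lit 57408) (nat_lit 0) (nat_lit 1976) (XT.nd (nat_lit 56472) (nat_lit 0) (nat_lit 3952) (XT.nd (nat_lit 390) (nat_lit 0) (nat_lit 0) (XT.nd (nat_lit 156) (nat_lit 0) (nat_lit 0) (XT.nd (nat_lit 78) (nat_lit 0) (nat_lit 0) (XT.lf (nat_lit 0) (nat_lit 651833358183) (nat_lit 152) (nat_lit 5868380186806) (nat_lit 0) (nat_lit 504191833202) (nat_lit 4) (nat_lit 5) (nat_lit 6) (nat_lit 4) (nat_lit 4) (nat_lit 4) (nat_lit 521) (nat_lit 438) (nat_lit 241)) (XT.lf (nat_lit 0) (nat_lit 1227462209347) (nat_lit 152) (nat_lit 5236245716046) (nat_lit 0) (nat_lit 1079820681520) (nat_lit 4) (nat_lit 5) (nat_lit 6) (nat_lit 4) (nat_lit 4) (nat_lit 4) (nat_lit 522) (nat_lit 438) (nat_lit 240))) (XT.nd (nat_lit 78) (nat_lit 0) (nat_lit 0) (XT.lf (nat_lit 0) (nat_lit 1849141348724) (nat_lit 152) (nat_lit 4553540528538) (nat_lit 0) (nat_lit 1701499818261) (nat_lit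 4) (nat_lit 5) (nat_lit 6) (nat_lit 4) (nat_lit 4) (nat_lit 4) (nat_lit 523) (nat_lit 438) (nat_lit 239)) (XT.nd (nat_lit 78) (nat_lit 0) (nat_lit 0) (XT.lf (nat_lit 0) (nat_lit 2520554800844) (nat_lit 152) (nat_lit 3816218963910) (nat_lit 0) (nat_lit 2372913267940) (nat_lit 4) (nat_lit 5) (nat_lit 6) (nat_lit 4) (nat_lit 4) (nat_lit 4) (nat_lit 524) (nat_lit 438) (nat_lit 238)) (XT.lf (nat_lit 0) (nat_lit 3245681312089) (nat_lit 152) (nat_lit 3019911709188) (nat_lit 0) (nat_lit 3098039776925) (nat_lit 4) (nat_lit 5) (nat_lit 6) (nat_lit 4) (nat_lit 4) (nat_lit 4) (nat_lit 525) (nat_lit 438) (nat_lit 237))))) (XT.nd (nat_lit 55848) (nat_lit 0) (nat_lit 5168) (XT.nd (nat_lit 55692) (nat_lit 0) (nat_lit 5624) (XT.lf (nat_lit 0) (nat_lit 4028817928453) (nat_lit 152) (nat_lit 2159899906566) (nat_lit 0) (nat_lit 3881176391196) (nat_lit 4) (nat_lit 5) (nat_lit 6) (nat_lit 4) (nat_lit 4) (nat_lit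 4) (nat_lit 526) (nat_lit 438) (nat_lit 236)) (XT.nd (nat_lit 78) (nat_lit 0) (nat_lit 0) (XT.lf (nat_lit 0) (nat_lit 38846328071) (nat_lit 532) (nat_lit 1006346001) (nat_lit 532) (nat_lit 1006346001) (nat_lit 78) (nat_lit 3) (nat_lit 85) (nat_lit 3) (nat_lit 85) (nat_lit 5) (nat_lit 439) (nat_lit 439) (nat_lit 322)) (XT.lf (nat_lit 76) (nat_lit 40376356806) (nat_lit 0) (nat_lit 41404284494) (nat_lit 532) (nat_lit 3127694429) (nat_lit 79) (nat_lit 5) (nat_lit 78) (nat_lit 3) (nat_lit 85) (nat_lit 5) (nat_lit 440) (nat_lit 439) (nat_lit 321)))) (XT.nd (nat_lit 78) (nat_lit 532) (nat_lit 0) (XT.lf (nat_lit 0) (nat_lit 86250258143) (nat_lit 456) (nat_lit 2079557595) (nat_lit 532) (nat_lit 19672164) (nat_lit 79) (nat_lit 5) (nat_lit 85) (nat_lit 5) (nat_lit 86) (nat_lit 5) (nat_lit 441) (nat_lit 439) (nat_lit 320)) (XT.nd (nat_lit 78) (nat_lit 0) (nat_lit 0) (XT.lf (nat_lit 0) (nat_lit 1272360321)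 (nat_lit 532) (nat_lit 46984513657) (nat_lit 608) (nat_lit 43634048435) (nat_lit 72) (nat_lit 5) (nat_lit 79) (nat_lit 5) (nat_lit 80) (nat_lit 5) (nat_lit 442) (nat_lit 439) (nat_lit 319)) (XT.lf (nat_lit 76) (nat_lit 1893698) (nat_lit 0) (nat_lit 4855923898) (nat_lit 608) (nat_lit 90848888116) (nat_lit 73) (nat_lit 5) (nat_lit 72) (nat_lit 5) (nat_lit 80) (nat_lit 5) (nat_lit 443) (nat_lit 439) (nat_lit 318)))))) (XT.nd (nat_lit 468) (nat_lit 684) (nat_lit 0) (XT.nd (nat_lit 234) (nat_lit 608) (nat_lit 0) (XT.nd (nat_lit 78) (nat_lit 0) (nat_lit 0) (XT.lf (nat_lit 0) (nat_lit 11057854904) (nat_lit 532) (nat_lit 47350242491) (nat_lit 608) (nat_lit 41233435074) (nat_lit 73) (nat_lit 5) (nat_lit 80) (nat_lit 5) (nat_lit 81) (nat_lit 5) (nat_lit 444) (nat_lit 439) (nat_lit 317)) (XT.nd (nat_lit 78) (nat_lit 0) (nat_lit 76) (XT.lf (nat_lit 76) (nat_lit 4995879778) (nat_lit 0) (nat_lit 13003575819)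 (nat_lit 608) (nat_lit 85872045190) (nat_lit 74) (nat_lit 5) (nat_lit 73) (nat_lit 5) (nat_lit 81) (nat_lit 5) (nat_lit 445) (nat_lit 439) (nat_lit 316)) (XT.lf (nat_lit 0) (nat_lit 27690575757) (nat_lit 532) (nat_lit 45014623016) (nat_lit 76) (nat_lit 35559132720) (nat_lit 74) (nat_lit 5) (nat_lit 81) (nat_lit 5) (nat_lit 75) (nat_lit 5) (nat_lit 446) (nat_lit 439) (nat_lit 315)))) (XT.nd (nat_lit 78) (nat_lit 228) (nat_lit 0) (XT.lf (nat_lit 0) (nat_lit 13491821865) (nat_lit 456) (nat_lit 25326770627) (nat_lit 532) (nat_lit 74137067823) (nat_lit 68) (nat_lit 5) (nat_lit 74) (nat_lit 5) (nat_lit 75) (nat_lit 5) (nat_lit 447) (nat_lit 439) (nat_lit 314)) (XT.nd (nat_lit 78) (nat_lit 228) (nat_lit 0) (XT.lf (nat_lit 0) (nat_lit 52720503537) (nat_lit 532) (nat_lit 39339123045) (nat_lit 76) (nat_lit 25811976824) (nat_lit 68) (nat_lit 5) (nat_lit 75) (nat_lit 5) (nat_lit 69) (nat_lit 5) (nat_lit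 448) (nat_lit 439) (nat_lit 313)) (XT.lf (nat_lit 0) (nat_lit 26250297572) (nat_lit 228) (nat_lit 42772878398) (nat_lit 304) (nat_lit 54054557477) (nat_lit 65) (nat_lit 5) (nat_lit 68) (nat_lit 5) (nat_lit 69) (nat_lit 5) (nat_lit 449) (nat_lit 439) (nat_lit 312))))) (XT.nd (nat_lit 234) (nat_lit 456) (nat_lit 0) (XT.nd (nat_lit 78) (nat_lit 228) (nat_lit 0) (XT.lf (nat_lit 0) (nat_lit 87984563900) (nat_lit 304) (nat_lit 29570213695) (nat_lit 76) (nat_lit 11037216333) (nat_lit 65) (nat_lit 5) (nat_lit 69) (nat_lit 5) (nat_lit 66) (nat_lit 5) (nat_lit 450) (nat_lit 439) (nat_lit 311)) (XT.nd (nat_lit 78) (nat_lit 0) (nat_lit 0) (XT.lf (nat_lit 0) (nat_lit 44165371770) (nat_lit 228) (nat_lit 66470168148) (nat_lit 304) (nat_lit 23738041326) (nat_lit 62) (nat_lit 5) (nat_lit 65) (nat_lit 5) (nat_lit 66) (nat_lit 5) (nat_lit 451) (nat_lit 439) (nat_lit 310)) (XT.lf (nat_lit 0) (nat_lit 125480941139)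 (nat_lit 228) (nat_lit 10425692639) (nat_lit 304) (nat_lit 4646418733) (nat_lit 62) (nat_lit 5) (nat_lit 65) (nat_lit 5) (nat_lit 66) (nat_lit 5) (nat_lit 452) (nat_lit 439) (nat_lit 309)))) (XT.nd (nat_lit 78) (nat_lit 228) (nat_lit 0) (XT.lf (nat_lit 0) (nat_lit 18094260624) (nat_lit 228) (nat_lit 79171941399) (nat_lit 76) (nat_lit 49696289373) (nat_lit 59) (nat_lit 5) (nat_lit 62) (nat_lit 5) (nat_lit 60) (nat_lit 5) (nat_lit 453) (nat_lit 439) (nat_lit 308)) (XT.nd (nat_lit 78) (nat_lit 0) (nat_lit 0) (XT.lf (nat_lit 0) (nat_lit 4089509845) (nat_lit 228) (nat_lit 39105187784) (nat_lit 304) (nat_lit 110617010538) (nat_lit 56) (nat_lit 5) (nat_lit 59) (nat_lit 5) (nat_lit 60) (nat_lit 5) (nat_lit 454) (nat_lit 439) (nat_lit 307)) (XT.lf (nat_lit 0) (nat_lit 73093885494) (nat_lit 304) (nat_lit 63148214681) (nat_lit 76) (nat_lit 24743504940) (nat_lit 56) (nat_lit 5) (nat_lit 60) (nat_lit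 5) (nat_lit 57) (nat_lit 5) (nat_lit 455) (nat_lit 439) (nat_lit 306))))))) (XT.nd (nat_lit 858) (nat_lit 912) (nat_lit 0) (XT.nd (nat_lit 390) (nat_lit 532) (nat_lit 0) (XT.nd (nat_lit 156) (nat_lit 380) (nat_lit 0) (XT.nd (nat_lit 78) (nat_lit 0) (nat_lit 0) (XT.lf (nat_lit 0) (nat_lit 30880199704) (nat_lit 152) (nat_lit 76262821211) (nat_lit 228) (nat_lit 61449752001) (nat_lit 54) (nat_lit 5) (nat_lit 56) (nat_lit 5) (nat_lit 57) (nat_lit 5) (nat_lit 456) (nat_lit 439) (nat_lit 305)) (XT.lf (nat_lit 0) (nat_lit 136021673928) (nat_lit 152) (nat_lit 9620636802) (nat_lit 228) (nat_lit 31028105621) (nat_lit 54) (nat_lit 5) (nat_lit 56) (nat_lit 5) (nat_lit 57) (nat_lit 5) (nat_lit 457) (nat_lit 439) (nat_lit 304))) (XT.nd (nat_lit 78) (nat_lit 152) (nat_lit 0) (XT.lf (nat_lit 0) (nat_lit 4902113436) (nat_lit 228) (nat_lit 119290753208) (nat_lit 76) (nat_lit 60944589137) (nat_lit 51) (nat_lit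 5) (nat_lit 54) (nat_lit 5) (nat_lit 52) (nat_lit 5) (nat_lit 458) (nat_lit 439) (nat_lit 303)) (XT.nd (nat_lit 78) (nat_lit 152) (nat_lit 0) (XT.lf (nat_lit 0) (nat_lit 43420257256) (nat_lit 228) (nat_lit 12104610903) (nat_lit 76) (nat_lit 138581329825) (nat_lit 51) (nat_lit 5) (nat_lit 54) (nat_lit 5) (nat_lit 52) (nat_lit 5) (nat_lit 459) (nat_lit 439) (nat_lit 302)) (XT.lf (nat_lit 0) (nat_lit 88160113832) (nat_lit 228) (nat_lit 94984595643) (nat_lit 76) (nat_lit 20396509258) (nat_lit 49) (nat_lit 5) (nat_lit 52) (nat_lit 5) (nat_lit 50) (nat_lit 5) (nat_lit 460) (nat_lit 439) (nat_lit 301))))) (XT.nd (nat_lit 234) (nat_lit 228) (nat_lit 0) (XT.nd (nat_lit 78) (nat_lit 152) (nat_lit 0) (XT.lf (nat_lit 0) (nat_lit 25688355891) (nat_lit 152) (nat_lit 113190071524) (nat_lit 228) (nat_lit 74660672309) (nat_lit 47) (nat_lit 5) (nat_lit 49) (nat_lit 5) (nat_lit 50) (nat_lit 5) (nat_lit 461)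 (nat_lit 439) (nat_lit 300)) (XT.nd (nat_lit 78) (nat_lit 152) (nat_lit 0) (XT.lf (nat_lit 0) (nat_lit 161416543108) (nat_lit 152) (nat_lit 34834421919) (nat_lit 228) (nat_lit 27878105512) (nat_lit 47) (nat_lit 5) (nat_lit 49) (nat_lit 5) (nat_lit 50) (nat_lit 5) (nat_lit 462) (nat_lit 439) (nat_lit 299)) (XT.lf (nat_lit 0) (nat_lit 24592796316) (nat_lit 152) (nat_lit 160958613225) (nat_lit 76) (nat_lit 49724966315) (nat_lit 45) (nat_lit 5) (nat_lit 47) (nat_lit 5) (nat_lit 46) (nat_lit 5) (nat_lit 463) (nat_lit 439) (nat_lit 298)))) (XT.nd (nat_lit 78) (nat_lit 228) (nat_lit 0) (XT.lf (nat_lit 0) (nat_lit 82418959412) (nat_lit 152) (nat_lit 22975177862) (nat_lit 76) (nat_lit 141650301364) (nat_lit 45) (nat_lit 5) (nat_lit 47) (nat_lit 5) (nat_lit 46) (nat_lit 5) (nat_lit 464) (nat_lit 439) (nat_lit 297)) (XT.nd (nat_lit 78) (nat_lit 76) (nat_lit 0) (XT.lf (nat_lit 0) (nat_lit 132683906523)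 (nat_lit 152) (nat_lit 15378112197) (nat_lit 228) (nat_lit 111436663512) (nat_lit 43) (nat_lit 5) (nat_lit 45) (nat_lit 5) (nat_lit 46) (nat_lit 5) (nat_lit 465) (nat_lit 439) (nat_lit 296)) (XT.lf (nat_lit 0) (nat_lit 28651628064) (nat_lit 76) (nat_lit 193606456977) (nat_lit 152) (nat_lit 50427055333) (nat_lit 42) (nat_lit 5) (nat_lit 43) (nat_lit 5) (nat_lit 44) (nat_lit 4) (nat_lit 466) (nat_lit 439) (nat_lit 295)))))) (XT.nd (nat_lit 468) (nat_lit 380) (nat_lit 0) (XT.nd (nat_lit 234) (nat_lit 304) (nat_lit 0) (XT.nd (nat_lit 78) (nat_lit 152) (nat_lit 0) (XT.lf (nat_lit 0) (nat_lit 18646375439) (nat_lit 152) (nat_lit 83743519838) (nat_lit 76) (nat_lit 184190341110) (nat_lit 41) (nat_lit 5) (nat_lit 43) (nat_lit 5) (nat_lit 42) (nat_lit 5) (nat_lit 467) (nat_lit 439) (nat_lit 294)) (XT.nd (nat_lit 78) (nat_lit 0) (nat_lit 0) (XT.lf (nat_lit 0) (nat_lit 92696546947) (nat_lit 152) (nat_lit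 53893908) (nat_lit 228) (nat_lit 208553385290) (nat_lit 39) (nat_lit 5) (nat_lit 41) (nat_lit 5) (nat_lit 42) (nat_lit 5) (nat_lit 468) (nat_lit 439) (nat_lit 293)) (XT.lf (nat_lit 0) (nat_lit 177788562488) (nat_lit 228) (nat_lit 31724386268) (nat_lit 76) (nat_lit 107291895878) (nat_lit 39) (nat_lit 5) (nat_lit 42) (nat_lit 5) (nat_lit 40) (nat_lit 4) (nat_lit 469) (nat_lit 439) (nat_lit 292)))) (XT.nd (nat_lit 78) (nat_lit 228) (nat_lit 0) (XT.lf (nat_lit 0) (nat_lit 167696219650) (nat_lit 76) (nat_lit 105967808738) (nat_lit 152) (nat_lit 59559172677) (nat_lit 38) (nat_lit 5) (nat_lit 39) (nat_lit 5) (nat_lit 40) (nat_lit 4) (nat_lit 470) (nat_lit 439) (nat_lit 291)) (XT.nd (nat_lit 78) (nat_lit 0) (nat_lit 0) (XT.lf (nat_lit 0) (nat_lit 26877182092) (nat_lit 228) (nat_lit 315878142407) (nat_lit 76) (nat_lit 7994305157) (nat_lit 35) (nat_lit 5) (nat_lit 38) (nat_lit 5) (nat_lit 36) (nat_lit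 4) (nat_lit 471) (nat_lit 439) (nat_lit 290)) (XT.lf (nat_lit 0) (nat_lit 124406268431) (nat_lit 228) (nat_lit 113017931106) (nat_lit 76) (nat_lit 131538568459) (nat_lit 35) (nat_lit 5) (nat_lit 38) (nat_lit 5) (nat_lit 36) (nat_lit 4) (nat_lit 472) (nat_lit 439) (nat_lit 289))))) (XT.nd (nat_lit 234) (nat_lit 152) (nat_lit 0) (XT.nd (nat_lit 78) (nat_lit 152) (nat_lit 0) (XT.lf (nat_lit 0) (nat_lit 111656255607) (nat_lit 76) (nat_lit 120766577076) (nat_lit 152) (nat_lit 155995312661) (nat_lit 34) (nat_lit 5) (nat_lit 35) (nat_lit 5) (nat_lit 36) (nat_lit 4) (nat_lit 473) (nat_lit 439) (nat_lit 288)) (XT.nd (nat_lit 78) (nat_lit 152) (nat_lit 0) (XT.lf (nat_lit 0) (nat_lit 352376541670) (nat_lit 152) (nat_lit 48657170221) (nat_lit 0) (nat_lit 8132575438) (nat_lit 34) (nat_lit 5) (nat_lit 36) (nat_lit 4) (nat_lit 34) (nat_lit 4) (nat_lit 474) (nat_lit 439) (nat_lit 287)) (XT.lf (nat_lit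 0) (nat_lit 56105014073) (nat_lit 152) (nat_lit 227545748857) (nat_lit 76) (nat_lit 147164914166) (nat_lit 32) (nat_lit 5) (nat_lit 34) (nat_lit 5) (nat_lit 33) (nat_lit 4) (nat_lit 475) (nat_lit 439) (nat_lit 286)))) (XT.nd (nat_lit 78) (nat_lit 76) (nat_lit 0) (XT.lf (nat_lit 0) (nat_lit 23703602246) (nat_lit 76) (nat_lit 153194463415) (nat_lit 152) (nat_lit 277026161139) (nat_lit 31) (nat_lit 5) (nat_lit 32) (nat_lit 5) (nat_lit 33) (nat_lit 4) (nat_lit 476) (nat_lit 439) (nat_lit 285)) (XT.nd (nat_lit 78) (nat_lit 76) (nat_lit 0) (XT.lf (nat_lit 0) (nat_lit 307993320594) (nat_lit 76) (nat_lit 5582581613) (nat_lit 152) (nat_lit 164807851022) (nat_lit 31) (nat_lit 5) (nat_lit 32) (nat_lit 5) (nat_lit 33) (nat_lit 4) (nat_lit 477) (nat_lit 439) (nat_lit 284)) (XT.lf (nat_lit 0) (nat_lit 112135539704) (nat_lit 76) (nat_lit 355448947676) (nat_lit 76) (nat_lit 36703832668) (nat_lit 30) (nat_lit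 4) (nat_lit 31) (nat_lit 5) (nat_lit 31) (nat_lit 4) (nat_lit 478) (nat_lit 439) (nat_lit 283))))))))
noncomputable def xc185 : XT := (XT.nd (nat_lit 1794) (nat_lit 684) (nat_lit 0) (XT.nd (nat_lit 858) (nat_lit 608) (nat_lit 0) (XT.nd (nat_lit 390) (nat_lit 304) (nat_lit 0) (XT.nd (nat_lit 156) (nat_lit 228) (nat_lit 0) (XT.nd (nat_lit 78) (nat_lit 76) (nat_lit 0) (XT.lf (nat_lit 0) (nat_lit 101488269090) (nat_lit 152) (nat_lit 107649659513) (nat_lit 76) (nat_lit 322537781142) (nat_lit 29) (nat_lit 5) (nat_lit 31) (nat_lit 5) (nat_lit 30) (nat_lit 4) (nat_lit 479) (nat_lit 439) (nat_lit 282)) (XT.lf (nat_lit 0) (nat_lit 209121179134) (nat_lit 76) (nat_lit 44660826580) (nat_lit 152) (nat_lit 306993479045) (nat_lit 28) (nat_lit 5) (nat_lit 29) (nat_lit 5) (nat_lit 30) (nat_lit 4) (nat_lit 480) (nat_lit 439) (nat_lit 281))) (XT.nd (nat_lit 78) (nat_lit 228) (nat_lit 0) (XT.lf (nat_lit 0)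 (nat_lit 424476921169) (nat_lit 152) (nat_lit 37886722457) (nat_lit 0) (nat_lit 129342183767) (nat_lit 28) (nat_lit 5) (nat_lit 30) (nat_lit 4) (nat_lit 28) (nat_lit 4) (nat_lit 481) (nat_lit 439) (nat_lit 280)) (XT.nd (nat_lit 78) (nat_lit 152) (nat_lit 0) (XT.lf (nat_lit 0) (nat_lit 315610086080) (nat_lit 76) (nat_lit 301967664554) (nat_lit 76) (nat_lit 6832821151) (nat_lit 27) (nat_lit 4) (nat_lit 28) (nat_lit 5) (nat_lit 28) (nat_lit 4) (nat_lit 482) (nat_lit 439) (nat_lit 279)) (XT.lf (nat_lit 0) (nat_lit 37752010961) (nat_lit 76) (nat_lit 122289793131) (nat_lit 152) (nat_lit 499212099220) (nat_lit 25) (nat_lit 5) (nat_lit 26) (nat_lit 5) (nat_lit 27) (nat_lit 4) (nat_lit 483) (nat_lit 439) (nat_lit 278))))) (XT.nd (nat_lit 234) (nat_lit 152) (nat_lit 0) (XT.nd (nat_lit 78) (nat_lit 152) (nat_lit 0) (XT.lf (nat_lit 0) (nat_lit 350285460273) (nat_lit 152) (nat_lit 268741704072) (nat_lit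 0) (nat_lit 77012282096) (nat_lit 25) (nat_lit 5) (nat_lit 27) (nat_lit 4) (nat_lit 25) (nat_lit 4) (nat_lit 484) (nat_lit 439) (nat_lit 277)) (XT.nd (nat_lit 78) (nat_lit 76) (nat_lit 0) (XT.lf (nat_lit 0) (nat_lit 114805752935) (nat_lit 76) (nat_lit 446880175319) (nat_lit 76) (nat_lit 173606919227) (nat_lit 24) (nat_lit 4) (nat_lit 25) (nat_lit 5) (nat_lit 25) (nat_lit 4) (nat_lit 485) (nat_lit 439) (nat_lit 276)) (XT.lf (nat_lit 0) (nat_lit 19234629864) (nat_lit 152) (nat_lit 233265298115) (nat_lit 76) (nat_lit 524559815802) (nat_lit 23) (nat_lit 5) (nat_lit 25) (nat_lit 5) (nat_lit 24) (nat_lit 4) (nat_lit 486) (nat_lit 439) (nat_lit 275)))) (XT.nd (nat_lit 78) (nat_lit 76) (nat_lit 0) (XT.lf (nat_lit 0) (nat_lit 189925599541) (nat_lit 76) (nat_lit 32766224773) (nat_lit 152) (nat_lit 598750017479) (nat_lit 22) (nat_lit 5) (nat_lit 23) (nat_lit 5) (nat_lit 24) (nat_lit 4) (nat_lit 487)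 (nat_lit 439) (nat_lit 274)) (XT.nd (nat_lit 78) (nat_lit 76) (nat_lit 0) (XT.lf (nat_lit 0) (nat_lit 453888370382) (nat_lit 152) (nat_lit 213711723397) (nat_lit 0) (nat_lit 200857391786) (nat_lit 22) (nat_lit 5) (nat_lit 24) (nat_lit 4) (nat_lit 22) (nat_lit 4) (nat_lit 488) (nat_lit 439) (nat_lit 273)) (XT.lf (nat_lit 0) (nat_lit 249128288382) (nat_lit 76) (nat_lit 461294861647) (nat_lit 76) (nat_lit 208263830024) (nat_lit 21) (nat_lit 4) (nat_lit 22) (nat_lit 5) (nat_lit 22) (nat_lit 4) (nat_lit 489) (nat_lit 439) (nat_lit 272)))))) (XT.nd (nat_lit 468) (nat_lit 228) (nat_lit 0) (XT.nd (nat_lit 234) (nat_lit 228) (nat_lit 0) (XT.nd (nat_lit 78) (nat_lit 76) (nat_lit 0) (XT.lf (nat_lit 0) (nat_lit 19813162386) (nat_lit 152) (nat_lit 211819702957) (nat_lit 76) (nat_lit 740794388209) (nat_lit 20) (nat_lit 5) (nat_lit 22) (nat_lit 5) (nat_lit 21) (nat_lit 4) (nat_lit 490) (nat_lit 439) (nat_lit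 271)) (XT.nd (nat_lit 78) (nat_lit 0) (nat_lit 0) (XT.lf (nat_lit 0) (nat_lit 262617686840) (nat_lit 152) (nat_lit 738468056731) (nat_lit 0) (nat_lit 28329607040) (nat_lit 19) (nat_lit 5) (nat_lit 21) (nat_lit 4) (nat_lit 19) (nat_lit 4) (nat_lit 491) (nat_lit 439) (nat_lit 270)) (XT.lf (nat_lit 0) (nat_lit 536804872522) (nat_lit 152) (nat_lit 250684205228) (nat_lit 0) (nat_lit 302516753745) (nat_lit 19) (nat_lit 5) (nat_lit 21) (nat_lit 4) (nat_lit 19) (nat_lit 4) (nat_lit 492) (nat_lit 439) (nat_lit 269)))) (XT.nd (nat_lit 78) (nat_lit 152) (nat_lit 0) (XT.lf (nat_lit 0) (nat_lit 290662283807) (nat_lit 76) (nat_lit 549255097045) (nat_lit 76) (nat_lit 314966942178) (nat_lit 18) (nat_lit 4) (nat_lit 19) (nat_lit 5) (nat_lit 19) (nat_lit 4) (nat_lit 493) (nat_lit 439) (nat_lit 268)) (XT.nd (nat_lit 78) (nat_lit 152) (nat_lit 0) (XT.lf (nat_lit 0) (nat_lit 889572954065) (nat_lit 76) (nat_lit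 284560001428) (nat_lit 76) (nat_lit 50271813146) (nat_lit 18) (nat_lit 4) (nat_lit 19) (nat_lit 5) (nat_lit 19) (nat_lit 4) (nat_lit 494) (nat_lit 439) (nat_lit 267)) (XT.lf (nat_lit 0) (nat_lit 229998246258) (nat_lit 152) (nat_lit 1055475806312) (nat_lit 0) (nat_lit 13064709940) (nat_lit 16) (nat_lit 5) (nat_lit 18) (nat_lit 4) (nat_lit 16) (nat_lit 4) (nat_lit 495) (nat_lit 439) (nat_lit 266))))) (XT.nd (nat_lit 234) (nat_lit 152) (nat_lit 0) (XT.nd (nat_lit 78) (nat_lit 76) (nat_lit 0) (XT.lf (nat_lit 0) (nat_lit 546757699980) (nat_lit 152) (nat_lit 500574476007) (nat_lit 0) (nat_lit 329824137136) (nat_lit 16) (nat_lit 5) (nat_lit 18) (nat_lit 4) (nat_lit 16) (nat_lit 4) (nat_lit 496) (nat_lit 439) (nat_lit 265)) (XT.nd (nat_lit 78) (nat_lit 0) (nat_lit 0) (XT.lf (nat_lit 0) (nat_lit 103917167755) (nat_lit 76) (nat_lit 787439878278) (nat_lit 76) (nat_lit 570506290872) (nat_lit 15) (nat_lit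 4) (nat_lit 16) (nat_lit 5) (nat_lit 16) (nat_lit 4) (nat_lit 497) (nat_lit 439) (nat_lit 264)) (XT.lf (nat_lit 0) (nat_lit 785236110263) (nat_lit 76) (nat_lit 491974750403) (nat_lit 76) (nat_lit 275041140254) (nat_lit 15) (nat_lit 4) (nat_lit 16) (nat_lit 5) (nat_lit 16) (nat_lit 4) (nat_lit 498) (nat_lit 439) (nat_lit 263)))) (XT.nd (nat_lit 78) (nat_lit 76) (nat_lit 0) (XT.lf (nat_lit 0) (nat_lit 41857032863) (nat_lit 152) (nat_lit 129871002849) (nat_lit 76) (nat_lit 1478058953968) (nat_lit 14) (nat_lit 5) (nat_lit 16) (nat_lit 5) (nat_lit 15) (nat_lit 4) (nat_lit 499) (nat_lit 439) (nat_lit 262)) (XT.nd (nat_lit 78) (nat_lit 0) (nat_lit 0) (XT.lf (nat_lit 0) (nat_lit 387935541329) (nat_lit 152) (nat_lit 1178051644461) (nat_lit 0) (nat_lit 187071049936) (nat_lit 13) (nat_lit 5) (nat_lit 15) (nat_lit 4) (nat_lit 13) (nat_lit 4) (nat_lit 500) (nat_lit 439) (nat_lit 261)) (XT.lf (nat_lit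 0) (nat_lit 769803870046) (nat_lit 152) (nat_lit 525199666307) (nat_lit 0) (nat_lit 568939361937) (nat_lit 13) (nat_lit 5) (nat_lit 15) (nat_lit 4) (nat_lit 13) (nat_lit 4) (nat_lit 501) (nat_lit 439) (nat_lit 260))))))) (XT.nd (nat_lit 936) (nat_lit 228) (nat_lit 0) (XT.nd (nat_lit 468) (nat_lit 228) (nat_lit 0) (XT.nd (nat_lit 234) (nat_lit 152) (nat_lit 0) (XT.nd (nat_lit 78) (nat_lit 0) (nat_lit 0) (XT.lf (nat_lit 0) (nat_lit 189352530828) (nat_lit 76) (nat_lit 997423008346) (nat_lit 76) (nat_lit 796558484759) (nat_lit 12) (nat_lit 4) (nat_lit 13) (nat_lit 5) (nat_lit 13) (nat_lit 4) (nat_lit 502) (nat_lit 439) (nat_lit 259)) (XT.nd (nat_lit 78) (nat_lit 0) (nat_lit 0) (XT.lf (nat_lit 0) (nat_lit 990937357412) (nat_lit 76) (nat_lit 660527416773) (nat_lit 76) (nat_lit 459662878854) (nat_lit 12) (nat_lit 4) (nat_lit 13) (nat_lit 5) (nat_lit 13) (nat_lit 4) (nat_lit 503) (nat_lit 439)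 (nat_lit 258)) (XT.lf (nat_lit 0) (nat_lit 1856648862056) (nat_lit 76) (nat_lit 296680232925) (nat_lit 76) (nat_lit 95815681736) (nat_lit 12) (nat_lit 4) (nat_lit 13) (nat_lit 5) (nat_lit 13) (nat_lit 4) (nat_lit 504) (nat_lit 439) (nat_lit 257)))) (XT.nd (nat_lit 78) (nat_lit 0) (nat_lit 0) (XT.lf (nat_lit 0) (nat_lit 294809081452) (nat_lit 152) (nat_lit 1992996405656) (nat_lit 0) (nat_lit 108823374529) (nat_lit 10) (nat_lit 5) (nat_lit 12) (nat_lit 4) (nat_lit 10) (nat_lit 4) (nat_lit 505) (nat_lit 439) (nat_lit 256)) (XT.nd (nat_lit 78) (nat_lit 0) (nat_lit 0) (XT.lf (nat_lit 0) (nat_lit 730223494976) (nat_lit 152) (nat_lit 1279754006948) (nat_lit 0) (nat_lit 544237777520) (nat_lit 10) (nat_lit 5) (nat_lit 12) (nat_lit 4) (nat_lit 10) (nat_lit 4) (nat_lit 506) (nat_lit 439) (nat_lit 255)) (XT.lf (nat_lit 0) (nat_lit 1200471015037) (nat_lit 152) (nat_lit 509452311539) (nat_lit 0) (nat_lit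 1014485287826) (nat_lit 10) (nat_lit 5) (nat_lit 12) (nat_lit 4) (nat_lit 10) (nat_lit 4) (nat_lit 507) (nat_lit 439) (nat_lit 254))))) (XT.nd (nat_lit 234) (nat_lit 152) (nat_lit 0) (XT.nd (nat_lit 78) (nat_lit 0) (nat_lit 0) (XT.lf (nat_lit 0) (nat_lit 339454310782) (nat_lit 76) (nat_lit 1377047867159) (nat_lit 76) (nat_lit 1191062130917) (nat_lit 9) (nat_lit 4) (nat_lit 10) (nat_lit 5) (nat_lit 10) (nat_lit 4) (nat_lit 508) (nat_lit 439) (nat_lit 253)) (XT.nd (nat_lit 78) (nat_lit 0) (nat_lit 0) (XT.lf (nat_lit 0) (nat_lit 1285246381348) (nat_lit 76) (nat_lit 1002498739581) (nat_lit 76) (nat_lit 816512994977) (nat_lit 9) (nat_lit 4) (nat_lit 10) (nat_lit 5) (nat_lit 10) (nat_lit 4) (nat_lit 509) (nat_lit 439) (nat_lit 252)) (XT.lf (nat_lit 0) (nat_lit 2306701738011) (nat_lit 76) (nat_lit 597985722482) (nat_lit 76) (nat_lit 411999970135) (nat_lit 9) (nat_lit 4) (nat_lit 10) (nat_lit 5)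 (nat_lit 10) (nat_lit 4) (nat_lit 510) (nat_lit 439) (nat_lit 251)))) (XT.nd (nat_lit 78) (nat_lit 76) (nat_lit 0) (XT.lf (nat_lit 0) (nat_lit 23629756716) (nat_lit 152) (nat_lit 136835865545) (nat_lit 76) (nat_lit 3385597613411) (nat_lit 8) (nat_lit 5) (nat_lit 10) (nat_lit 5) (nat_lit 9) (nat_lit 4) (nat_lit 511) (nat_lit 439) (nat_lit 250)) (XT.nd (nat_lit 78) (nat_lit 0) (nat_lit 0) (XT.lf (nat_lit 0) (nat_lit 500295456804) (nat_lit 152) (nat_lit 2962275586832) (nat_lit 0) (nat_lit 328086414068) (nat_lit 7) (nat_lit 5) (nat_lit 9) (nat_lit 4) (nat_lit 7) (nat_lit 4) (nat_lit 512) (nat_lit 439) (nat_lit 249)) (XT.lf (nat_lit 0) (nat_lit 1023100829597) (nat_lit 152) (nat_lit 2180186093396) (nat_lit 0) (nat_lit 850891781171) (nat_lit 7) (nat_lit 5) (nat_lit 9) (nat_lit 4) (nat_lit 7) (nat_lit 4) (nat_lit 513) (nat_lit 439) (nat_lit 248)))))) (XT.nd (nat_lit 468) (nat_lit 152) (nat_lit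 0) (XT.nd (nat_lit 234) (nat_lit 0) (nat_lit 0) (XT.nd (nat_lit 78) (nat_lit 76) (nat_lit 0) (XT.lf (nat_lit 0) (nat_lit 1587730600609) (nat_lit 152) (nat_lit 1335529505348) (nat_lit 0) (nat_lit 1415521546912) (nat_lit 7) (nat_lit 5) (nat_lit 9) (nat_lit 4) (nat_lit 7) (nat_lit 4) (nat_lit 514) (nat_lit 439) (nat_lit 247)) (XT.nd (nat_lit 78) (nat_lit 76) (nat_lit 0) (XT.lf (nat_lit 0) (nat_lit 2197530724037) (nat_lit 152) (nat_lit 423300450314) (nat_lit 0) (nat_lit 2025321665461) (nat_lit 7) (nat_lit 5) (nat_lit 9) (nat_lit 4) (nat_lit 7) (nat_lit 4) (nat_lit 515) (nat_lit 439) (nat_lit 246)) (XT.lf (nat_lit 0) (nat_lit 591495893687) (nat_lit 76) (nat_lit 2278844427024) (nat_lit 76) (nat_lit 2106635363930) (nat_lit 6) (nat_lit 4) (nat_lit 7) (nat_lit 5) (nat_lit 7) (nat_lit 4) (nat_lit 516) (nat_lit 439) (nat_lit 245)))) (XT.nd (nat_lit 78) (nat_lit 0) (nat_lit 0) (XT.lf (nat_lit 0) (nat_lit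 1711549362694) (nat_lit 76) (nat_lit 1896999080497) (nat_lit 76) (nat_lit 1724790013220) (nat_lit 6) (nat_lit 4) (nat_lit 7) (nat_lit 5) (nat_lit 7) (nat_lit 4) (nat_lit 517) (nat_lit 439) (nat_lit 244)) (XT.nd (nat_lit 78) (nat_lit 0) (nat_lit 0) (XT.lf (nat_lit 0) (nat_lit 2921207059033) (nat_lit 76) (nat_lit 1484606131997) (nat_lit 76) (nat_lit 1312397060847) (nat_lit 6) (nat_lit 4) (nat_lit 7) (nat_lit 5) (nat_lit 7) (nat_lit 4) (nat_lit 518) (nat_lit 439) (nat_lit 243)) (XT.lf (nat_lit 0) (nat_lit 4227637324612) (nat_lit 76) (nat_lit 1039221771459) (nat_lit 76) (nat_lit 867012696722) (nat_lit 6) (nat_lit 4) (nat_lit 7) (nat_lit 5) (nat_lit 7) (nat_lit 4) (nat_lit 519) (nat_lit 439) (nat_lit 242))))) (XT.nd (nat_lit 234) (nat_lit 0) (nat_lit 0) (XT.nd (nat_lit 78) (nat_lit 152) (nat_lit 0) (XT.lf (nat_lit 0) (nat_lit 5638581968409) (nat_lit 76) (nat_lit 558206684153) (nat_lit 76) (nat_lit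 385997606095) (nat_lit 6) (nat_lit 4) (nat_lit 7) (nat_lit 5) (nat_lit 7) (nat_lit 4) (nat_lit 520) (nat_lit 439) (nat_lit 241)) (XT.nd (nat_lit 78) (nat_lit 0) (nat_lit 0) (XT.lf (nat_lit 0) (nat_lit 96399929160) (nat_lit 76) (nat_lit 32739018095) (nat_lit 152) (nat_lit 6938032610739) (nat_lit 4) (nat_lit 5) (nat_lit 5) (nat_lit 5) (nat_lit 6) (nat_lit 4) (nat_lit 521) (nat_lit 439) (nat_lit 240)) (XT.lf (nat_lit 0) (nat_lit 703980414690) (nat_lit 152) (nat_lit 6337849803571) (nat_lit 0) (nat_lit 544527559153) (nat_lit 4) (nat_lit 5) (nat_lit 6) (nat_lit 4) (nat_lit 4) (nat_lit 4) (nat_lit 522) (nat_lit 439) (nat_lit 239)))) (XT.nd (nat_lit 78) (nat_lit 0) (nat_lit 0) (XT.lf (nat_lit 0) (nat_lit 1325659545217) (nat_lit 152) (nat_lit 5655144634275) (nat_lit 0) (nat_lit 1166206687240) (nat_lit 4) (nat_lit 5) (nat_lit 6) (nat_lit 4) (nat_lit 4) (nat_lit 4) (nat_lit 523) (nat_lit 439) (nat_lit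 238)) (XT.nd (nat_lit 78) (nat_lit 0) (nat_lit 0) (XT.lf (nat_lit 0) (nat_lit 1997072989143) (nat_lit 152) (nat_lit 4917823086511) (nat_lit 0) (nat_lit 1837620128905) (nat_lit 4) (nat_lit 5) (nat_lit 6) (nat_lit 4) (nat_lit 4) (nat_lit 4) (nat_lit 524) (nat_lit 439) (nat_lit 237)) (XT.lf (nat_lit 0) (nat_lit 2722199492801) (nat_lit 152) (nat_lit 4121515847403) (nat_lit 0) (nat_lit 2562746630471) (nat_lit 4) (nat_lit 5) (nat_lit 6) (nat_lit 4) (nat_lit 4) (nat_lit 4) (nat_lit 525) (nat_lit 439) (nat_lit 236))))))))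
noncomputable def xc186 : XT := (XT.nd (nat_lit 57486) (nat_lit 0) (nat_lit 1596) (XT.nd (nat_lit 56550) (nat_lit 0) (nat_lit 3420) (XT.nd (nat_lit 56082) (nat_lit 0) (nat_lit 4864) (XT.nd (nat_lit 55848) (nat_lit 0) (nat_lit 5168) (XT.nd (nat_lit 55770) (nat_lit 0) (nat_lit 5624) (XT.lf (nat_lit 0) (nat_lit 3505336102140) (nat_lit 152) (nat_lit 3261504059238) (nat_lit 0) (nat_lit 3345883237872) (nat_lit 4) (nat_lit 5) (nat_lit 6) (nat_lit 4) (nat_lit 4) (nat_lit 4) (nat_lit 526) (nat_lit 439) (nat_lit 235)) (XT.lf (nat_lit 0) (nat_lit 41963038978) (nat_lit 532) (nat_lit 1081989354) (nat_lit 532) (nat_lit 1081989354) (nat_lit 78) (nat_lit 3) (nat_lit 85) (nat_lit 3) (nat_lit 85) (nat_lit 5) (nat_lit 440) (nat_lit 440) (nat_lit 320))) (XT.nd (nat_lit 78) (nat_lit 456) (nat_lit 0) (XT.lf (nat_lit 76) (nat_lit 43615947710) (nat_lit 0) (nat_lit 44724048245) (nat_lit 532) (nat_lit 3359647663)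 (nat_lit 79) (nat_lit 5) (nat_lit 78) (nat_lit 3) (nat_lit 85) (nat_lit 5) (nat_lit 441) (nat_lit 440) (nat_lit 319)) (XT.nd (nat_lit 78) (nat_lit 532) (nat_lit 0) (XT.lf (nat_lit 0) (nat_lit 93165764791) (nat_lit 456) (nat_lit 2235718680) (nat_lit 532) (nat_lit 14718378) (nat_lit 79) (nat_lit 5) (nat_lit 85) (nat_lit 5) (nat_lit 86) (nat_lit 5) (nat_lit 442) (nat_lit 440) (nat_lit 318)) (XT.lf (nat_lit 0) (nat_lit 1389111324) (nat_lit 532) (nat_lit 50732536342) (nat_lit 608) (nat_lit 47119346246) (nat_lit 72) (nat_lit 5) (nat_lit 79) (nat_lit 5) (nat_lit 80) (nat_lit 5) (nat_lit 443) (nat_lit 440) (nat_lit 317))))) (XT.nd (nat_lit 234) (nat_lit 304) (nat_lit 0) (XT.nd (nat_lit 78) (nat_lit 0) (nat_lit 76) (XT.lf (nat_lit 76) (nat_lit 12511743) (nat_lit 0) (nat_lit 5248036849) (nat_lit 608) (nat_lit 98101560203) (nat_lit 73) (nat_lit 5) (nat_lit 72) (nat_lit 5) (nat_lit 80) (nat_lit 5)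 (nat_lit 444) (nat_lit 440) (nat_lit 316)) (XT.nd (nat_lit 78) (nat_lit 0) (nat_lit 0) (XT.lf (nat_lit 0) (nat_lit 11955462990) (nat_lit 532) (nat_lit 51127440185) (nat_lit 608) (nat_lit 44528908954) (nat_lit 73) (nat_lit 5) (nat_lit 80) (nat_lit 5) (nat_lit 81) (nat_lit 5) (nat_lit 445) (nat_lit 440) (nat_lit 315)) (XT.lf (nat_lit 76) (nat_lit 5406097899) (nat_lit 0) (nat_lit 14045586055) (nat_lit 608) (nat_lit 92728550921) (nat_lit 74) (nat_lit 5) (nat_lit 73) (nat_lit 5) (nat_lit 81) (nat_lit 5) (nat_lit 446) (nat_lit 440) (nat_lit 314)))) (XT.nd (nat_lit 78) (nat_lit 456) (nat_lit 0) (XT.lf (nat_lit 0) (nat_lit 29917146302) (nat_lit 532) (nat_lit 48605075098) (nat_lit 76) (nat_lit 38402346744) (nat_lit 74) (nat_lit 5) (nat_lit 81) (nat_lit 5) (nat_lit 75) (nat_lit 5) (nat_lit 447) (nat_lit 440) (nat_lit 313)) (XT.nd (nat_lit 78) (nat_lit 0) (nat_lit 0) (XT.lf (nat_lit 0) (nat_lit 14581614039)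 (nat_lit 456) (nat_lit 27353202723) (nat_lit 532) (nat_lit 80056433808) (nat_lit 68) (nat_lit 5) (nat_lit 74) (nat_lit 5) (nat_lit 75) (nat_lit 5) (nat_lit 448) (nat_lit 440) (nat_lit 312)) (XT.lf (nat_lit 0) (nat_lit 56948078898) (nat_lit 532) (nat_lit 42475775129) (nat_lit 76) (nat_lit 27876679492) (nat_lit 68) (nat_lit 5) (nat_lit 75) (nat_lit 5) (nat_lit 69) (nat_lit 5) (nat_lit 449) (nat_lit 440) (nat_lit 311)))))) (XT.nd (nat_lit 468) (nat_lit 532) (nat_lit 0) (XT.nd (nat_lit 234) (nat_lit 456) (nat_lit 0) (XT.nd (nat_lit 78) (nat_lit 228) (nat_lit 0) (XT.lf (nat_lit 0) (nat_lit 28360533878) (nat_lit 228) (nat_lit 46193940928) (nat_lit 304) (nat_lit 58368718633) (nat_lit 65) (nat_lit 5) (nat_lit 68) (nat_lit 5) (nat_lit 69) (nat_lit 5) (nat_lit 450) (nat_lit 440) (nat_lit 310)) (XT.nd (nat_lit 78) (nat_lit 228) (nat_lit 0) (XT.lf (nat_lit 0) (nat_lit 95032091254) (nat_lit 304) (nat_lit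 31925689383) (nat_lit 76) (nat_lit 11920868952) (nat_lit 65) (nat_lit 5) (nat_lit 69) (nat_lit 5) (nat_lit 66) (nat_lit 5) (nat_lit 451) (nat_lit 440) (nat_lit 309)) (XT.lf (nat_lit 0) (nat_lit 47708486174) (nat_lit 228) (nat_lit 71786247850) (nat_lit 304) (nat_lit 25628062984) (nat_lit 62) (nat_lit 5) (nat_lit 65) (nat_lit 5) (nat_lit 66) (nat_lit 5) (nat_lit 452) (nat_lit 440) (nat_lit 308)))) (XT.nd (nat_lit 78) (nat_lit 456) (nat_lit 0) (XT.lf (nat_lit 0) (nat_lit 135528568896) (nat_lit 228) (nat_lit 11258327911) (nat_lit 304) (nat_lit 5009778853) (nat_lit 62) (nat_lit 5) (nat_lit 65) (nat_lit 5) (nat_lit 66) (nat_lit 5) (nat_lit 453) (nat_lit 440) (nat_lit 307)) (XT.nd (nat_lit 78) (nat_lit 228) (nat_lit 0) (XT.lf (nat_lit 0) (nat_lit 19549415845) (nat_lit 228) (nat_lit 85495800843) (nat_lit 76) (nat_lit 53673662758) (nat_lit 59) (nat_lit 5) (nat_lit 62) (nat_lit 5) (nat_lit 60) (nat_lit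 5) (nat_lit 454) (nat_lit 440) (nat_lit 306)) (XT.lf (nat_lit 0) (nat_lit 4426315972) (nat_lit 228) (nat_lit 42231239781) (nat_lit 304) (nat_lit 119458504526) (nat_lit 56) (nat_lit 5) (nat_lit 59) (nat_lit 5) (nat_lit 60) (nat_lit 5) (nat_lit 455) (nat_lit 440) (nat_lit 305))))) (XT.nd (nat_lit 234) (nat_lit 380) (nat_lit 0) (XT.nd (nat_lit 78) (nat_lit 152) (nat_lit 0) (XT.lf (nat_lit 0) (nat_lit 78948191838) (nat_lit 304) (nat_lit 68190652364) (nat_lit 76) (nat_lit 26725063870) (nat_lit 56) (nat_lit 5) (nat_lit 60) (nat_lit 5) (nat_lit 57) (nat_lit 5) (nat_lit 456) (nat_lit 440) (nat_lit 304)) (XT.nd (nat_lit 78) (nat_lit 0) (nat_lit 0) (XT.lf (nat_lit 0) (nat_lit 33359796704) (nat_lit 152) (nat_lit 82361178822) (nat_lit 228) (nat_lit 66358696512) (nat_lit 54) (nat_lit 5) (nat_lit 56) (nat_lit 5) (nat_lit 57) (nat_lit 5) (nat_lit 457) (nat_lit 440) (nat_lit 303)) (XT.lf (nat_lit 0) (nat_lit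 146911908789) (nat_lit 152) (nat_lit 10387817297) (nat_lit 228) (nat_lit 33503839581) (nat_lit 54) (nat_lit 5) (nat_lit 56) (nat_lit 5) (nat_lit 57) (nat_lit 5) (nat_lit 458) (nat_lit 440) (nat_lit 302)))) (XT.nd (nat_lit 78) (nat_lit 152) (nat_lit 0) (XT.lf (nat_lit 0) (nat_lit 5300283806) (nat_lit 228) (nat_lit 128824996553) (nat_lit 76) (nat_lit 65822690450) (nat_lit 51) (nat_lit 5) (nat_lit 54) (nat_lit 5) (nat_lit 52) (nat_lit 5) (nat_lit 459) (nat_lit 440) (nat_lit 301)) (XT.nd (nat_lit 78) (nat_lit 152) (nat_lit 0) (XT.lf (nat_lit 0) (nat_lit 46899434591) (nat_lit 228) (nat_lit 13064630783) (nat_lit 76) (nat_lit 149670182676) (nat_lit 51) (nat_lit 5) (nat_lit 54) (nat_lit 5) (nat_lit 52) (nat_lit 5) (nat_lit 460) (nat_lit 440) (nat_lit 300)) (XT.lf (nat_lit 0) (nat_lit 95218331054) (nat_lit 228) (nat_lit 102574864521) (nat_lit 76) (nat_lit 22030886865) (nat_lit 49) (nat_lit 5) (nat_lit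 52) (nat_lit 5) (nat_lit 50) (nat_lit 5) (nat_lit 461) (nat_lit 440) (nat_lit 299))))))) (XT.nd (nat_lit 936) (nat_lit 760) (nat_lit 0) (XT.nd (nat_lit 468) (nat_lit 532) (nat_lit 0) (XT.nd (nat_lit 234) (nat_lit 228) (nat_lit 0) (XT.nd (nat_lit 78) (nat_lit 152) (nat_lit 0) (XT.lf (nat_lit 0) (nat_lit 27751707977) (nat_lit 152) (nat_lit 122242200368) (nat_lit 228) (nat_lit 80627901762) (nat_lit 47) (nat_lit 5) (nat_lit 49) (nat_lit 5) (nat_lit 50) (nat_lit 5) (nat_lit 462) (nat_lit 440) (nat_lit 298)) (XT.nd (nat_lit 78) (nat_lit 152) (nat_lit 0) (XT.lf (nat_lit 0) (nat_lit 174337536570) (nat_lit 152) (nat_lit 37618326711) (nat_lit 228) (nat_lit 30103146238) (nat_lit 47) (nat_lit 5) (nat_lit 49) (nat_lit 5) (nat_lit 50) (nat_lit 5) (nat_lit 463) (nat_lit 440) (nat_lit 297)) (XT.lf (nat_lit 0) (nat_lit 26565057970) (nat_lit 152) (nat_lit 173827260759) (nat_lit 76) (nat_lit 53705779319)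 (nat_lit 45) (nat_lit 5) (nat_lit 47) (nat_lit 5) (nat_lit 46) (nat_lit 5) (nat_lit 464) (nat_lit 440) (nat_lit 296)))) (XT.nd (nat_lit 78) (nat_lit 228) (nat_lit 0) (XT.lf (nat_lit 0) (nat_lit 89016955747) (nat_lit 152) (nat_lit 24805746236) (nat_lit 76) (nat_lit 152984932602) (nat_lit 45) (nat_lit 5) (nat_lit 47) (nat_lit 5) (nat_lit 46) (nat_lit 5) (nat_lit 465) (nat_lit 440) (nat_lit 295)) (XT.nd (nat_lit 78) (nat_lit 76) (nat_lit 0) (XT.lf (nat_lit 0) (nat_lit 143305876397) (nat_lit 152) (nat_lit 16605426122) (nat_lit 228) (nat_lit 120346927789) (nat_lit 43) (nat_lit 5) (nat_lit 45) (nat_lit 5) (nat_lit 46) (nat_lit 5) (nat_lit 466) (nat_lit 440) (nat_lit 294)) (XT.lf (nat_lit 0) (nat_lit 30951100861) (nat_lit 76) (nat_lit 209091875062) (nat_lit 152) (nat_lit 54456635489) (nat_lit 42) (nat_lit 5) (nat_lit 43) (nat_lit 5) (nat_lit 44) (nat_lit 4) (nat_lit 467) (nat_lit 440) (nat_lit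 293))))) (XT.nd (nat_lit 234) (nat_lit 304) (nat_lit 0) (XT.nd (nat_lit 78) (nat_lit 152) (nat_lit 0) (XT.lf (nat_lit 0) (nat_lit 20142117833) (nat_lit 152) (nat_lit 90435989858) (nat_lit 76) (nat_lit 198928224448) (nat_lit 41) (nat_lit 5) (nat_lit 43) (nat_lit 5) (nat_lit 42) (nat_lit 5) (nat_lit 468) (nat_lit 440) (nat_lit 292)) (XT.nd (nat_lit 78) (nat_lit 0) (nat_lit 0) (XT.lf (nat_lit 0) (nat_lit 100119104762) (nat_lit 152) (nat_lit 55269386) (nat_lit 228) (nat_lit 225233445718) (nat_lit 39) (nat_lit 5) (nat_lit 41) (nat_lit 5) (nat_lit 42) (nat_lit 5) (nat_lit 469) (nat_lit 440) (nat_lit 291)) (XT.lf (nat_lit 0) (nat_lit 192015322150) (nat_lit 228) (nat_lit 34255785486) (nat_lit 76) (nat_lit 115877830105) (nat_lit 39) (nat_lit 5) (nat_lit 42) (nat_lit 5) (nat_lit 40) (nat_lit 4) (nat_lit 470) (nat_lit 440) (nat_lit 290)))) (XT.nd (nat_lit 78) (nat_lit 228) (nat_lit 0) (XT.lf (nat_lit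 0) (nat_lit 181118303040) (nat_lit 76) (nat_lit 114442403664) (nat_lit 152) (nat_lit 64320065509) (nat_lit 38) (nat_lit 5) (nat_lit 39) (nat_lit 5) (nat_lit 40) (nat_lit 4) (nat_lit 471) (nat_lit 440) (nat_lit 289)) (XT.nd (nat_lit 78) (nat_lit 0) (nat_lit 0) (XT.lf (nat_lit 0) (nat_lit 29030958662) (nat_lit 228) (nat_lit 341141768194) (nat_lit 76) (nat_lit 8636584624) (nat_lit 35) (nat_lit 5) (nat_lit 38) (nat_lit 5) (nat_lit 36) (nat_lit 4) (nat_lit 472) (nat_lit 440) (nat_lit 288)) (XT.lf (nat_lit 0) (nat_lit 134362105093) (nat_lit 228) (nat_lit 122053230775) (nat_lit 76) (nat_lit 142064186393) (nat_lit 35) (nat_lit 5) (nat_lit 38) (nat_lit 5) (nat_lit 36) (nat_lit 4) (nat_lit 473) (nat_lit 440) (nat_lit 287)))))) (XT.nd (nat_lit 468) (nat_lit 380) (nat_lit 0) (XT.nd (nat_lit 234) (nat_lit 152) (nat_lit 0) (XT.nd (nat_lit 78) (nat_lit 152) (nat_lit 0) (XT.lf (nat_lit 0) (nat_lit 120594735563)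 (nat_lit 76) (nat_lit 130425155678) (nat_lit 152) (nat_lit 168471446841) (nat_lit 34) (nat_lit 5) (nat_lit 35) (nat_lit 5) (nat_lit 36) (nat_lit 4) (nat_lit 474) (nat_lit 440) (nat_lit 286)) (XT.nd (nat_lit 78) (nat_lit 152) (nat_lit 0) (XT.lf (nat_lit 0) (nat_lit 380569718728) (nat_lit 152) (nat_lit 52544028729) (nat_lit 0) (nat_lit 8785598250) (nat_lit 34) (nat_lit 5) (nat_lit 36) (nat_lit 4) (nat_lit 34) (nat_lit 4) (nat_lit 475) (nat_lit 440) (nat_lit 285)) (XT.lf (nat_lit 0) (nat_lit 60596453884) (nat_lit 152) (nat_lit 245743678067) (nat_lit 76) (nat_lit 158940555954) (nat_lit 32) (nat_lit 5) (nat_lit 34) (nat_lit 5) (nat_lit 33) (nat_lit 4) (nat_lit 476) (nat_lit 440) (nat_lit 284)))) (XT.nd (nat_lit 78) (nat_lit 76) (nat_lit 0) (XT.lf (nat_lit 0) (nat_lit 25605476044) (nat_lit 76) (nat_lit 165447382802) (nat_lit 152) (nat_lit 299185070019) (nat_lit 31) (nat_lit 5) (nat_lit 32) (nat_lit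 5) (nat_lit 33) (nat_lit 4) (nat_lit 477) (nat_lit 440) (nat_lit 283)) (XT.nd (nat_lit 78) (nat_lit 76) (nat_lit 0) (XT.lf (nat_lit 0) (nat_lit 332637958110) (nat_lit 76) (nat_lit 6026745840) (nat_lit 152) (nat_lit 177989530945) (nat_lit 31) (nat_lit 5) (nat_lit 32) (nat_lit 5) (nat_lit 33) (nat_lit 4) (nat_lit 478) (nat_lit 440) (nat_lit 282)) (XT.lf (nat_lit 0) (nat_lit 121111579623) (nat_lit 76) (nat_lit 383882373492) (nat_lit 76) (nat_lit 39637215787) (nat_lit 30) (nat_lit 4) (nat_lit 31) (nat_lit 5) (nat_lit 31) (nat_lit 4) (nat_lit 479) (nat_lit 440) (nat_lit 281))))) (XT.nd (nat_lit 234) (nat_lit 228) (nat_lit 0) (XT.nd (nat_lit 78) (nat_lit 76) (nat_lit 0) (XT.lf (nat_lit 0) (nat_lit 109609902145) (nat_lit 152) (nat_lit 116256684883) (nat_lit 76) (nat_lit 348342973595) (nat_lit 29) (nat_lit 5) (nat_lit 31) (nat_lit 5) (nat_lit 30) (nat_lit 4) (nat_lit 480) (nat_lit 440) (nat_lit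 280)) (XT.nd (nat_lit 78) (nat_lit 0) (nat_lit 0) (XT.lf (nat_lit 0) (nat_lit 225855695605) (nat_lit 76) (nat_lit 48231367582) (nat_lit 152) (nat_lit 331550260425) (nat_lit 28) (nat_lit 5) (nat_lit 29) (nat_lit 5) (nat_lit 30) (nat_lit 4) (nat_lit 481) (nat_lit 440) (nat_lit 279)) (XT.lf (nat_lit 0) (nat_lit 458437438691) (nat_lit 152) (nat_lit 40913061967) (nat_lit 0) (nat_lit 139691603666) (nat_lit 28) (nat_lit 5) (nat_lit 30) (nat_lit 4) (nat_lit 28) (nat_lit 4) (nat_lit 482) (nat_lit 440) (nat_lit 278)))) (XT.nd (nat_lit 78) (nat_lit 152) (nat_lit 0) (XT.lf (nat_lit 0) (nat_lit 340863374841) (nat_lit 76) (nat_lit 326122892364) (nat_lit 76) (nat_lit 7376966459) (nat_lit 27) (nat_lit 4) (nat_lit 28) (nat_lit 5) (nat_lit 28) (nat_lit 4) (nat_lit 483) (nat_lit 440) (nat_lit 277)) (XT.nd (nat_lit 78) (nat_lit 0) (nat_lit 0) (XT.lf (nat_lit 0) (nat_lit 40776661313) (nat_lit 76) (nat_lit 132070776842)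 (nat_lit 152) (nat_lit 539146594120) (nat_lit 25) (nat_lit 5) (nat_lit 26) (nat_lit 5) (nat_lit 27) (nat_lit 4) (nat_lit 484) (nat_lit 440) (nat_lit 276)) (XT.lf (nat_lit 0) (nat_lit 378310466206) (nat_lit 152) (nat_lit 290236762737) (nat_lit 0) (nat_lit 83175199570) (nat_lit 25) (nat_lit 5) (nat_lit 27) (nat_lit 4) (nat_lit 25) (nat_lit 4) (nat_lit 485) (nat_lit 440) (nat_lit 275))))))))
noncomputable def xc187 : XT := (XT.nd (nat_lit 1794) (nat_lit 456) (nat_lit 0) (XT.nd (nat_lit 858) (nat_lit 456) (nat_lit 0) (XT.nd (nat_lit 390) (nat_lit 380) (nat_lit 0) (XT.nd (nat_lit 156) (nat_lit 152) (nat_lit 0) (XT.nd (nat_lit 78) (nat_lit 76) (nat_lit 0) (XT.lf (nat_lit 0) (nat_lit 123994382535) (nat_lit 76) (nat_lit 482628528689) (nat_lit 76) (nat_lit 187493195254) (nat_lit 24) (nat_lit 4) (nat_lit 25) (nat_lit 5) (nat_lit 25) (nat_lit 4) (nat_lit 486) (nat_lit 440) (nat_lit 274)) (XT.lf (nat_lit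 0) (nat_lit 20775403569) (nat_lit 152) (nat_lit 251922555859) (nat_lit 76) (nat_lit 566526403500) (nat_lit 23) (nat_lit 5) (nat_lit 25) (nat_lit 5) (nat_lit 24) (nat_lit 4) (nat_lit 487) (nat_lit 440) (nat_lit 273))) (XT.nd (nat_lit 78) (nat_lit 76) (nat_lit 0) (XT.lf (nat_lit 0) (nat_lit 205123513201) (nat_lit 76) (nat_lit 35385604950) (nat_lit 152) (nat_lit 646647915071) (nat_lit 22) (nat_lit 5) (nat_lit 23) (nat_lit 5) (nat_lit 24) (nat_lit 4) (nat_lit 488) (nat_lit 440) (nat_lit 272)) (XT.nd (nat_lit 78) (nat_lit 76) (nat_lit 0) (XT.lf (nat_lit 0) (nat_lit 490201286323) (nat_lit 152) (nat_lit 230804980262) (nat_lit 0) (nat_lit 216927670044) (nat_lit 22) (nat_lit 5) (nat_lit 24) (nat_lit 4) (nat_lit 22) (nat_lit 4) (nat_lit 489) (nat_lit 440) (nat_lit 271)) (XT.lf (nat_lit 0) (nat_lit 269062139270) (nat_lit 76) (nat_lit 498196658595) (nat_lit 76) (nat_lit 224922996854) (nat_lit 21) (nat_lit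 4) (nat_lit 22) (nat_lit 5) (nat_lit 22) (nat_lit 4) (nat_lit 490) (nat_lit 440) (nat_lit 270))))) (XT.nd (nat_lit 234) (nat_lit 228) (nat_lit 0) (XT.nd (nat_lit 78) (nat_lit 76) (nat_lit 0) (XT.lf (nat_lit 0) (nat_lit 21399921439) (nat_lit 152) (nat_lit 228761867241) (nat_lit 76) (nat_lit 800059508610) (nat_lit 20) (nat_lit 5) (nat_lit 22) (nat_lit 5) (nat_lit 21) (nat_lit 4) (nat_lit 491) (nat_lit 440) (nat_lit 269)) (XT.nd (nat_lit 78) (nat_lit 0) (nat_lit 0) (XT.lf (nat_lit 0) (nat_lit 283628801519) (nat_lit 152) (nat_lit 797542082930) (nat_lit 0) (nat_lit 30597558175) (nat_lit 19) (nat_lit 5) (nat_lit 21) (nat_lit 4) (nat_lit 19) (nat_lit 4) (nat_lit 492) (nat_lit 440) (nat_lit 268)) (XT.lf (nat_lit 0) (nat_lit 579750836150) (nat_lit 152) (nat_lit 270735776517) (nat_lit 0) (nat_lit 326719559389) (nat_lit 19) (nat_lit 5) (nat_lit 21) (nat_lit 4) (nat_lit 19) (nat_lit 4) (nat_lit 493)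 (nat_lit 440) (nat_lit 267)))) (XT.nd (nat_lit 78) (nat_lit 152) (nat_lit 0) (XT.lf (nat_lit 0) (nat_lit 313918351511) (nat_lit 76) (nat_lit 593193951250) (nat_lit 76) (nat_lit 340162643548) (nat_lit 18) (nat_lit 4) (nat_lit 19) (nat_lit 5) (nat_lit 19) (nat_lit 4) (nat_lit 494) (nat_lit 440) (nat_lit 266)) (XT.nd (nat_lit 78) (nat_lit 152) (nat_lit 0) (XT.lf (nat_lit 0) (nat_lit 960741646871) (nat_lit 76) (nat_lit 307323363063) (nat_lit 76) (nat_lit 54292026712) (nat_lit 18) (nat_lit 4) (nat_lit 19) (nat_lit 5) (nat_lit 19) (nat_lit 4) (nat_lit 495) (nat_lit 440) (nat_lit 265)) (XT.lf (nat_lit 0) (nat_lit 248399556525) (nat_lit 152) (nat_lit 1139910933337) (nat_lit 0) (nat_lit 14111257564) (nat_lit 16) (nat_lit 5) (nat_lit 18) (nat_lit 4) (nat_lit 16) (nat_lit 4) (nat_lit 496) (nat_lit 440) (nat_lit 264)))))) (XT.nd (nat_lit 468) (nat_lit 228) (nat_lit 0) (XT.nd (nat_lit 234) (nat_lit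 152) (nat_lit 0) (XT.nd (nat_lit 78) (nat_lit 76) (nat_lit 0) (XT.lf (nat_lit 0) (nat_lit 590499659096) (nat_lit 152) (nat_lit 540617714198) (nat_lit 0) (nat_lit 356211337393) (nat_lit 16) (nat_lit 5) (nat_lit 18) (nat_lit 4) (nat_lit 16) (nat_lit 4) (nat_lit 497) (nat_lit 440) (nat_lit 263)) (XT.nd (nat_lit 78) (nat_lit 0) (nat_lit 0) (XT.lf (nat_lit 0) (nat_lit 112233192207) (nat_lit 76) (nat_lit 850433724894) (nat_lit 76) (nat_lit 616145382133) (nat_lit 15) (nat_lit 4) (nat_lit 16) (nat_lit 5) (nat_lit 16) (nat_lit 4) (nat_lit 498) (nat_lit 440) (nat_lit 262)) (XT.lf (nat_lit 0) (nat_lit 848057453742) (nat_lit 76) (nat_lit 531331486318) (nat_lit 76) (nat_lit 297043124059) (nat_lit 15) (nat_lit 4) (nat_lit 16) (nat_lit 5) (nat_lit 16) (nat_lit 4) (nat_lit 499) (nat_lit 440) (nat_lit 261)))) (XT.nd (nat_lit 78) (nat_lit 76) (nat_lit 0) (XT.lf (nat_lit 0) (nat_lit 45206745504) (nat_lit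 152) (nat_lit 140258349661) (nat_lit 76) (nat_lit 1596304761662) (nat_lit 14) (nat_lit 5) (nat_lit 16) (nat_lit 5) (nat_lit 15) (nat_lit 4) (nat_lit 500) (nat_lit 440) (nat_lit 260)) (XT.nd (nat_lit 78) (nat_lit 0) (nat_lit 0) (XT.lf (nat_lit 0) (nat_lit 418971531933) (nat_lit 152) (nat_lit 1272293439863) (nat_lit 0) (nat_lit 202037830980) (nat_lit 13) (nat_lit 5) (nat_lit 15) (nat_lit 4) (nat_lit 13) (nat_lit 4) (nat_lit 501) (nat_lit 440) (nat_lit 259)) (XT.lf (nat_lit 0) (nat_lit 831389241962) (nat_lit 152) (nat_lit 567213476506) (nat_lit 0) (nat_lit 614455526678) (nat_lit 13) (nat_lit 5) (nat_lit 15) (nat_lit 4) (nat_lit 13) (nat_lit 4) (nat_lit 502) (nat_lit 440) (nat_lit 258))))) (XT.nd (nat_lit 234) (nat_lit 152) (nat_lit 0) (XT.nd (nat_lit 78) (nat_lit 0) (nat_lit 0) (XT.lf (nat_lit 0) (nat_lit 204502841638) (nat_lit 76) (nat_lit 1077215774998) (nat_lit 76) (nat_lit 860282046444)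 (nat_lit 12) (nat_lit 4) (nat_lit 13) (nat_lit 5) (nat_lit 13) (nat_lit 4) (nat_lit 503) (nat_lit 440) (nat_lit 257)) (XT.nd (nat_lit 78) (nat_lit 0) (nat_lit 0) (XT.lf (nat_lit 0) (nat_lit 1070214298175) (nat_lit 76) (nat_lit 713368615656) (nat_lit 76) (nat_lit 496434874815) (nat_lit 12) (nat_lit 4) (nat_lit 13) (nat_lit 5) (nat_lit 13) (nat_lit 4) (nat_lit 504) (nat_lit 440) (nat_lit 256)) (XT.lf (nat_lit 0) (nat_lit 2005182578586) (nat_lit 76) (nat_lit 320413730763) (nat_lit 76) (nat_lit 103479978546) (nat_lit 12) (nat_lit 4) (nat_lit 13) (nat_lit 5) (nat_lit 13) (nat_lit 4) (nat_lit 505) (nat_lit 440) (nat_lit 255)))) (XT.nd (nat_lit 78) (nat_lit 0) (nat_lit 0) (XT.lf (nat_lit 0) (nat_lit 318394716077) (nat_lit 152) (nat_lit 2152434260891) (nat_lit 0) (nat_lit 117530120936) (nat_lit 10) (nat_lit 5) (nat_lit 12) (nat_lit 4) (nat_lit 10) (nat_lit 4) (nat_lit 506) (nat_lit 440) (nat_lit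 254)) (XT.nd (nat_lit 78) (nat_lit 0) (nat_lit 0) (XT.lf (nat_lit 0) (nat_lit 788642215416) (nat_lit 152) (nat_lit 1382132607858) (nat_lit 0) (nat_lit 587777611244) (nat_lit 10) (nat_lit 5) (nat_lit 12) (nat_lit 4) (nat_lit 10) (nat_lit 4) (nat_lit 507) (nat_lit 440) (nat_lit 253)) (XT.lf (nat_lit 0) (nat_lit 1296509474797) (nat_lit 152) (nat_lit 550206904198) (nat_lit 0) (nat_lit 1095644862262) (nat_lit 10) (nat_lit 5) (nat_lit 12) (nat_lit 4) (nat_lit 10) (nat_lit 4) (nat_lit 508) (nat_lit 440) (nat_lit 252))))))) (XT.nd (nat_lit 936) (nat_lit 152) (nat_lit 0) (XT.nd (nat_lit 468) (nat_lit 76) (nat_lit 0) (XT.nd (nat_lit 234) (nat_lit 152) (nat_lit 0) (XT.nd (nat_lit 78) (nat_lit 0) (nat_lit 0) (XT.lf (nat_lit 0) (nat_lit 366612207598) (nat_lit 76) (nat_lit 1487210902788) (nat_lit 76) (nat_lit 1286346282511) (nat_lit 9) (nat_lit 4) (nat_lit 10) (nat_lit 5) (nat_lit 10) (nat_lit 4) (nat_lit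 509) (nat_lit 440) (nat_lit 251)) (XT.nd (nat_lit 78) (nat_lit 0) (nat_lit 0) (XT.lf (nat_lit 0) (nat_lit 1388067528850) (nat_lit 76) (nat_lit 1082697903800) (nat_lit 76) (nat_lit 881833276354) (nat_lit 9) (nat_lit 4) (nat_lit 10) (nat_lit 5) (nat_lit 10) (nat_lit 4) (nat_lit 510) (nat_lit 440) (nat_lit 250)) (XT.lf (nat_lit 0) (nat_lit 2491239207602) (nat_lit 76) (nat_lit 645823899774) (nat_lit 76) (nat_lit 444959265689) (nat_lit 9) (nat_lit 4) (nat_lit 10) (nat_lit 5) (nat_lit 10) (nat_lit 4) (nat_lit 511) (nat_lit 440) (nat_lit 249)))) (XT.nd (nat_lit 78) (nat_lit 76) (nat_lit 0) (XT.lf (nat_lit 0) (nat_lit 25520754788) (nat_lit 152) (nat_lit 147781470271) (nat_lit 76) (nat_lit 3656446020056) (nat_lit 8) (nat_lit 5) (nat_lit 10) (nat_lit 5) (nat_lit 9) (nat_lit 4) (nat_lit 512) (nat_lit 440) (nat_lit 248)) (XT.nd (nat_lit 78) (nat_lit 0) (nat_lit 0) (XT.lf (nat_lit 0) (nat_lit 540319709959)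 (nat_lit 152) (nat_lit 3199256368328) (nat_lit 0) (nat_lit 354333926697) (nat_lit 7) (nat_lit 5) (nat_lit 9) (nat_lit 4) (nat_lit 7) (nat_lit 4) (nat_lit 513) (nat_lit 440) (nat_lit 247)) (XT.lf (nat_lit 0) (nat_lit 1104949466901) (nat_lit 152) (nat_lit 2354599809154) (nat_lit 0) (nat_lit 918963678760) (nat_lit 7) (nat_lit 5) (nat_lit 9) (nat_lit 4) (nat_lit 7) (nat_lit 4) (nat_lit 514) (nat_lit 440) (nat_lit 246))))) (XT.nd (nat_lit 234) (nat_lit 0) (nat_lit 0) (XT.nd (nat_lit 78) (nat_lit 76) (nat_lit 0) (XT.lf (nat_lit 0) (nat_lit 1714749577302) (nat_lit 152) (nat_lit 1442370780855) (nat_lit 0) (nat_lit 1528763784643) (nat_lit 7) (nat_lit 5) (nat_lit 9) (nat_lit 4) (nat_lit 7) (nat_lit 4) (nat_lit 515) (nat_lit 440) (nat_lit 245)) (XT.nd (nat_lit 78) (nat_lit 76) (nat_lit 0) (XT.lf (nat_lit 0) (nat_lit 2373333671445) (nat_lit 152) (nat_lit 457163481783) (nat_lit 0) (nat_lit 2187347874603)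 (nat_lit 7) (nat_lit 5) (nat_lit 9) (nat_lit 4) (nat_lit 7) (nat_lit 4) (nat_lit 516) (nat_lit 440) (nat_lit 244)) (XT.lf (nat_lit 0) (nat_lit 638816544306) (nat_lit 76) (nat_lit 2461151478837) (nat_lit 76) (nat_lit 2275165678121) (nat_lit 6) (nat_lit 4) (nat_lit 7) (nat_lit 5) (nat_lit 7) (nat_lit 4) (nat_lit 517) (nat_lit 440) (nat_lit 243)))) (XT.nd (nat_lit 78) (nat_lit 0) (nat_lit 0) (XT.lf (nat_lit 0) (nat_lit 1848474218305) (nat_lit 76) (nat_lit 2048758541799) (nat_lit 76) (nat_lit 1862772737497) (nat_lit 6) (nat_lit 4) (nat_lit 7) (nat_lit 5) (nat_lit 7) (nat_lit 4) (nat_lit 518) (nat_lit 440) (nat_lit 242)) (XT.nd (nat_lit 78) (nat_lit 0) (nat_lit 0) (XT.lf (nat_lit 0) (nat_lit 3154904463197) (nat_lit 76) (nat_lit 1603374191874) (nat_lit 76) (nat_lit 1417388384251) (nat_lit 6) (nat_lit 4) (nat_lit 7) (nat_lit 5) (nat_lit 7) (nat_lit 4) (nat_lit 519) (nat_lit 440) (nat_lit 241))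 (XT.lf (nat_lit 0) (nat_lit 4565849087841) (nat_lit 76) (nat_lit 1122359114395) (nat_lit 76) (nat_lit 936373303697) (nat_lit 6) (nat_lit 4) (nat_lit 7) (nat_lit 5) (nat_lit 7) (nat_lit 4) (nat_lit 520) (nat_lit 440) (nat_lit 240)))))) (XT.nd (nat_lit 56238) (nat_lit 0) (nat_lit 5168) (XT.nd (nat_lit 234) (nat_lit 0) (nat_lit 0) (XT.nd (nat_lit 78) (nat_lit 152) (nat_lit 0) (XT.lf (nat_lit 0) (nat_lit 6089669245567) (nat_lit 76) (nat_lit 602862849644) (nat_lit 76) (nat_lit 416877036099) (nat_lit 6) (nat_lit 4) (nat_lit 7) (nat_lit 5) (nat_lit 7) (nat_lit 4) (nat_lit 521) (nat_lit 440) (nat_lit 239)) (XT.nd (nat_lit 78) (nat_lit 0) (nat_lit 0) (XT.lf (nat_lit 0) (nat_lit 104112643416) (nat_lit 76) (nat_lit 35357769851) (nat_lit 152) (nat_lit 7493074841344) (nat_lit 4) (nat_lit 5) (nat_lit 5) (nat_lit 5) (nat_lit 6) (nat_lit 4) (nat_lit 522) (nat_lit 440) (nat_lit 238)) (XT.lf (nat_lit 0)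 (nat_lit 760299180386) (nat_lit 152) (nat_lit 6844877103547) (nat_lit 0) (nat_lit 588090089069) (nat_lit 4) (nat_lit 5) (nat_lit 6) (nat_lit 4) (nat_lit 4) (nat_lit 4) (nat_lit 523) (nat_lit 440) (nat_lit 237)))) (XT.nd (nat_lit 78) (nat_lit 0) (nat_lit 0) (XT.lf (nat_lit 0) (nat_lit 1431712616724) (nat_lit 152) (nat_lit 6107555571397) (nat_lit 0) (nat_lit 1259503523315) (nat_lit 4) (nat_lit 5) (nat_lit 6) (nat_lit 4) (nat_lit 4) (nat_lit 4) (nat_lit 524) (nat_lit 440) (nat_lit 236)) (XT.nd (nat_lit 78) (nat_lit 0) (nat_lit 0) (XT.lf (nat_lit 0) (nat_lit 2156839113357) (nat_lit 152) (nat_lit 5311248346747) (nat_lit 0) (nat_lit 1984630018010) (nat_lit 4) (nat_lit 5) (nat_lit 6) (nat_lit 4) (nat_lit 4) (nat_lit 4) (nat_lit 525) (nat_lit 440) (nat_lit 235)) (XT.lf (nat_lit 0) (nat_lit 2939975716191) (nat_lit 152) (nat_lit 4451236571968) (nat_lit 0) (nat_lit 2767766619050) (nat_lit 4) (nat_lit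 5) (nat_lit 6) (nat_lit 4) (nat_lit 4) (nat_lit 4) (nat_lit 526) (nat_lit 440) (nat_lit 234))))) (XT.nd (nat_lit 234) (nat_lit 456) (nat_lit 0) (XT.nd (nat_lit 78) (nat_lit 0) (nat_lit 0) (XT.lf (nat_lit 0) (nat_lit 45327802142) (nat_lit 532) (nat_lit 1164378126) (nat_lit 532) (nat_lit 1164378126) (nat_lit 78) (nat_lit 3) (nat_lit 85) (nat_lit 3) (nat_lit 85) (nat_lit 5) (nat_lit 441) (nat_lit 441) (nat_lit 318)) (XT.nd (nat_lit 78) (nat_lit 0) (nat_lit 76) (XT.lf (nat_lit 76) (nat_lit 47113353121) (nat_lit 0) (nat_lit 48308334409) (nat_lit 532) (nat_lit 3612762479) (nat_lit 79) (nat_lit 5) (nat_lit 78) (nat_lit 3) (nat_lit 85) (nat_lit 5) (nat_lit 442) (nat_lit 441) (nat_lit 317)) (XT.lf (nat_lit 0) (nat_lit 100632302719) (nat_lit 456) (nat_lit 2405828299) (nat_lit 532) (nat_lit 10299519) (nat_lit 79) (nat_lit 5) (nat_lit 85) (nat_lit 5) (nat_lit 86) (nat_lit 5) (nat_lit 443) (nat_lit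 441) (nat_lit 316)))) (XT.nd (nat_lit 78) (nat_lit 0) (nat_lit 0) (XT.lf (nat_lit 0) (nat_lit 1513067886) (nat_lit 532) (nat_lit 54781932796) (nat_lit 608) (nat_lit 50884241970) (nat_lit 72) (nat_lit 5) (nat_lit 79) (nat_lit 5) (nat_lit 80) (nat_lit 5) (nat_lit 444) (nat_lit 441) (nat_lit 315)) (XT.nd (nat_lit 78) (nat_lit 0) (nat_lit 76) (XT.lf (nat_lit 76) (nat_lit 22486061) (nat_lit 0) (nat_lit 5670999687) (nat_lit 608) (nat_lit 105936620066) (nat_lit 73) (nat_lit 5) (nat_lit 72) (nat_lit 5) (nat_lit 80) (nat_lit 5) (nat_lit 445) (nat_lit 441) (nat_lit 314)) (XT.lf (nat_lit 0) (nat_lit 12923028025) (nat_lit 532) (nat_lit 55208357532) (nat_lit 608) (nat_lit 48088477392) (nat_lit 73) (nat_lit 5) (nat_lit 80) (nat_lit 5) (nat_lit 81) (nat_lit 5) (nat_lit 446) (nat_lit 441) (nat_lit 313))))))))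
noncomputable def xc188 : XT := (XT.nd (nat_lit 1794) (nat_lit 1596) (nat_lit 0) (XT.nd (nat_lit 858) (nat_lit 1140) (nat_lit 0) (XT.nd (nat_lit 390) (nat_lit 684) (nat_lit 0) (XT.nd (nat_lit 156) (nat_lit 608) (nat_lit 0) (XT.nd (nat_lit 78) (nat_lit 0) (nat_lit 76) (XT.lf (nat_lit 76) (nat_lit 5847628716) (nat_lit 0) (nat_lit 15170711138) (nat_lit 608) (nat_lit 100135468495) (nat_lit 74) (nat_lit 5) (nat_lit 73) (nat_lit 5) (nat_lit 81) (nat_lit 5) (nat_lit 447) (nat_lit 441) (nat_lit 312)) (XT.lf (nat_lit 0) (nat_lit 32320226925) (nat_lit 532) (nat_lit 52484292354) (nat_lit 76) (nat_lit 41473234250) (nat_lit 74) (nat_lit 5) (nat_lit 81) (nat_lit 5) (nat_lit 75) (nat_lit 5) (nat_lit 448) (nat_lit 441) (nat_lit 311))) (XT.nd (nat_lit 78) (nat_lit 228) (nat_lit 0) (XT.lf (nat_lit 0) (nat_lit 15757099287) (nat_lit 456) (nat_lit 29541707951) (nat_lit 532) (nat_lit 86451003862) (nat_lit 68)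 (nat_lit 5) (nat_lit 74) (nat_lit 5) (nat_lit 75) (nat_lit 5) (nat_lit 449) (nat_lit 441) (nat_lit 310)) (XT.nd (nat_lit 78) (nat_lit 228) (nat_lit 0) (XT.lf (nat_lit 0) (nat_lit 61512442938) (nat_lit 532) (nat_lit 45864854150) (nat_lit 76) (nat_lit 30106594820) (nat_lit 68) (nat_lit 5) (nat_lit 75) (nat_lit 5) (nat_lit 69) (nat_lit 5) (nat_lit 450) (nat_lit 441) (nat_lit 309)) (XT.lf (nat_lit 0) (nat_lit 30638132160) (nat_lit 228) (nat_lit 49888797987) (nat_lit 304) (nat_lit 63029468316) (nat_lit 65) (nat_lit 5) (nat_lit 68) (nat_lit 5) (nat_lit 69) (nat_lit 5) (nat_lit 451) (nat_lit 441) (nat_lit 308))))) (XT.nd (nat_lit 234) (nat_lit 456) (nat_lit 0) (XT.nd (nat_lit 78) (nat_lit 228) (nat_lit 0) (XT.lf (nat_lit 0) (nat_lit 102642170765) (nat_lit 304) (nat_lit 34471049911) (nat_lit 76) (nat_lit 12875117439) (nat_lit 65) (nat_lit 5) (nat_lit 69) (nat_lit 5) (nat_lit 66) (nat_lit 5) (nat_lit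 452) (nat_lit 441) (nat_lit 307)) (XT.nd (nat_lit 78) (nat_lit 0) (nat_lit 0) (XT.lf (nat_lit 0) (nat_lit 51533639574) (nat_lit 228) (nat_lit 77527832735) (nat_lit 304) (nat_lit 27670573414) (nat_lit 62) (nat_lit 5) (nat_lit 65) (nat_lit 5) (nat_lit 66) (nat_lit 5) (nat_lit 453) (nat_lit 441) (nat_lit 306)) (XT.lf (nat_lit 0) (nat_lit 146378701172) (nat_lit 228) (nat_lit 12157776604) (nat_lit 304) (nat_lit 5403399487) (nat_lit 62) (nat_lit 5) (nat_lit 65) (nat_lit 5) (nat_lit 66) (nat_lit 5) (nat_lit 454) (nat_lit 441) (nat_lit 305)))) (XT.nd (nat_lit 78) (nat_lit 228) (nat_lit 0) (XT.lf (nat_lit 0) (nat_lit 21119897208) (nat_lit 228) (nat_lit 92326980799) (nat_lit 76) (nat_lit 57968987736) (nat_lit 59) (nat_lit 5) (nat_lit 62) (nat_lit 5) (nat_lit 60) (nat_lit 5) (nat_lit 455) (nat_lit 441) (nat_lit 304)) (XT.nd (nat_lit 78) (nat_lit 0) (nat_lit 0) (XT.lf (nat_lit 0) (nat_lit 4788690574)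 (nat_lit 228) (nat_lit 45607713049) (nat_lit 304) (nat_lit 129008440328) (nat_lit 56) (nat_lit 5) (nat_lit 59) (nat_lit 5) (nat_lit 60) (nat_lit 5) (nat_lit 456) (nat_lit 441) (nat_lit 303)) (XT.lf (nat_lit 0) (nat_lit 85269873234) (nat_lit 304) (nat_lit 73637828858) (nat_lit 76) (nat_lit 28864850989) (nat_lit 56) (nat_lit 5) (nat_lit 60) (nat_lit 5) (nat_lit 57) (nat_lit 5) (nat_lit 457) (nat_lit 441) (nat_lit 302)))))) (XT.nd (nat_lit 468) (nat_lit 456) (nat_lit 0) (XT.nd (nat_lit 234) (nat_lit 304) (nat_lit 0) (XT.nd (nat_lit 78) (nat_lit 228) (nat_lit 0) (XT.lf (nat_lit 0) (nat_lit 36036451687) (nat_lit 152) (nat_lit 88947785675) (nat_lit 228) (nat_lit 71661360297) (nat_lit 54) (nat_lit 5) (nat_lit 56) (nat_lit 5) (nat_lit 57) (nat_lit 5) (nat_lit 458) (nat_lit 441) (nat_lit 301)) (XT.nd (nat_lit 78) (nat_lit 228) (nat_lit 0) (XT.lf (nat_lit 0) (nat_lit 158672149685) (nat_lit 152) (nat_lit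 11216724668) (nat_lit 228) (nat_lit 36178561622) (nat_lit 54) (nat_lit 5) (nat_lit 56) (nat_lit 5) (nat_lit 57) (nat_lit 5) (nat_lit 459) (nat_lit 441) (nat_lit 300)) (XT.lf (nat_lit 0) (nat_lit 5729451654) (nat_lit 228) (nat_lit 139123265729) (nat_lit 76) (nat_lit 71090678339) (nat_lit 51) (nat_lit 5) (nat_lit 54) (nat_lit 5) (nat_lit 52) (nat_lit 5) (nat_lit 460) (nat_lit 441) (nat_lit 299)))) (XT.nd (nat_lit 78) (nat_lit 304) (nat_lit 0) (XT.lf (nat_lit 0) (nat_lit 50656153380) (nat_lit 228) (nat_lit 14102643330) (nat_lit 76) (nat_lit 161645809006) (nat_lit 51) (nat_lit 5) (nat_lit 54) (nat_lit 5) (nat_lit 52) (nat_lit 5) (nat_lit 461) (nat_lit 441) (nat_lit 298)) (XT.nd (nat_lit 78) (nat_lit 152) (nat_lit 0) (XT.lf (nat_lit 0) (nat_lit 102840434126) (nat_lit 228) (nat_lit 110773567355) (nat_lit 76) (nat_lit 23795635649) (nat_lit 49) (nat_lit 5) (nat_lit 52) (nat_lit 5) (nat_lit 50)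 (nat_lit 5) (nat_lit 462) (nat_lit 441) (nat_lit 297)) (XT.lf (nat_lit 0) (nat_lit 29978946479) (nat_lit 152) (nat_lit 132018938470) (nat_lit 228) (nat_lit 87073311946) (nat_lit 47) (nat_lit 5) (nat_lit 49) (nat_lit 5) (nat_lit 50) (nat_lit 5) (nat_lit 463) (nat_lit 441) (nat_lit 296))))) (XT.nd (nat_lit 234) (nat_lit 304) (nat_lit 0) (XT.nd (nat_lit 78) (nat_lit 152) (nat_lit 0) (XT.lf (nat_lit 0) (nat_lit 188291115296) (nat_lit 152) (nat_lit 40625350323) (nat_lit 228) (nat_lit 32506933162) (nat_lit 47) (nat_lit 5) (nat_lit 49) (nat_lit 5) (nat_lit 50) (nat_lit 5) (nat_lit 464) (nat_lit 441) (nat_lit 295)) (XT.nd (nat_lit 78) (nat_lit 0) (nat_lit 0) (XT.lf (nat_lit 0) (nat_lit 28694410370) (nat_lit 152) (nat_lit 187726547310) (nat_lit 76) (nat_lit 58004655673) (nat_lit 45) (nat_lit 5) (nat_lit 47) (nat_lit 5) (nat_lit 46) (nat_lit 5) (nat_lit 465) (nat_lit 441) (nat_lit 294)) (XT.lf (nat_lit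 0) (nat_lit 96142152727) (nat_lit 152) (nat_lit 26783822315) (nat_lit 76) (nat_lit 165225962402) (nat_lit 45) (nat_lit 5) (nat_lit 47) (nat_lit 5) (nat_lit 46) (nat_lit 5) (nat_lit 466) (nat_lit 441) (nat_lit 293)))) (XT.nd (nat_lit 78) (nat_lit 152) (nat_lit 0) (XT.lf (nat_lit 0) (nat_lit 154776568519) (nat_lit 152) (nat_lit 17931343879) (nat_lit 228) (nat_lit 129970679264) (nat_lit 43) (nat_lit 5) (nat_lit 45) (nat_lit 5) (nat_lit 46) (nat_lit 5) (nat_lit 467) (nat_lit 441) (nat_lit 292)) (XT.nd (nat_lit 78) (nat_lit 76) (nat_lit 0) (XT.lf (nat_lit 0) (nat_lit 33433483984) (nat_lit 76) (nat_lit 225816568625) (nat_lit 152) (nat_lit 58809236055) (nat_lit 42) (nat_lit 5) (nat_lit 43) (nat_lit 5) (nat_lit 44) (nat_lit 4) (nat_lit 468) (nat_lit 441) (nat_lit 291)) (XT.lf (nat_lit 0) (nat_lit 21756944357) (nat_lit 152) (nat_lit 97664857758) (nat_lit 76) (nat_lit 214844759538) (nat_lit 41) (nat_lit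 5) (nat_lit 43) (nat_lit 5) (nat_lit 42) (nat_lit 5) (nat_lit 469) (nat_lit 441) (nat_lit 290))))))) (XT.nd (nat_lit 858) (nat_lit 760) (nat_lit 0) (XT.nd (nat_lit 390) (nat_lit 380) (nat_lit 0) (XT.nd (nat_lit 156) (nat_lit 304) (nat_lit 0) (XT.nd (nat_lit 78) (nat_lit 0) (nat_lit 0) (XT.lf (nat_lit 0) (nat_lit 108134492247) (nat_lit 152) (nat_lit 57173760) (nat_lit 228) (nat_lit 243248511640) (nat_lit 39) (nat_lit 5) (nat_lit 41) (nat_lit 5) (nat_lit 42) (nat_lit 5) (nat_lit 470) (nat_lit 441) (nat_lit 289)) (XT.lf (nat_lit 0) (nat_lit 207379698353) (nat_lit 228) (nat_lit 36990631313) (nat_lit 76) (nat_lit 125150270641) (nat_lit 39) (nat_lit 5) (nat_lit 42) (nat_lit 5) (nat_lit 40) (nat_lit 4) (nat_lit 471) (nat_lit 441) (nat_lit 288))) (XT.nd (nat_lit 78) (nat_lit 228) (nat_lit 0) (XT.lf (nat_lit 0) (nat_lit 195613242093) (nat_lit 76) (nat_lit 123595369883) (nat_lit 152) (nat_lit 69462377727)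 (nat_lit 38) (nat_lit 5) (nat_lit 39) (nat_lit 5) (nat_lit 40) (nat_lit 4) (nat_lit 472) (nat_lit 441) (nat_lit 287)) (XT.nd (nat_lit 78) (nat_lit 0) (nat_lit 0) (XT.lf (nat_lit 0) (nat_lit 31356523492) (nat_lit 228) (nat_lit 368427429261) (nat_lit 76) (nat_lit 9329856262) (nat_lit 35) (nat_lit 5) (nat_lit 38) (nat_lit 5) (nat_lit 36) (nat_lit 4) (nat_lit 473) (nat_lit 441) (nat_lit 286)) (XT.lf (nat_lit 0) (nat_lit 145113932886) (nat_lit 228) (nat_lit 131812229618) (nat_lit 76) (nat_lit 153431492479) (nat_lit 35) (nat_lit 5) (nat_lit 38) (nat_lit 5) (nat_lit 36) (nat_lit 4) (nat_lit 474) (nat_lit 441) (nat_lit 285))))) (XT.nd (nat_lit 234) (nat_lit 152) (nat_lit 0) (XT.nd (nat_lit 78) (nat_lit 152) (nat_lit 0) (XT.lf (nat_lit 0) (nat_lit 130247440873) (nat_lit 76) (nat_lit 140856812539) (nat_lit 152) (nat_lit 181946169762) (nat_lit 34) (nat_lit 5) (nat_lit 35) (nat_lit 5) (nat_lit 36)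 (nat_lit 4) (nat_lit 475) (nat_lit 441) (nat_lit 284)) (XT.nd (nat_lit 78) (nat_lit 152) (nat_lit 0) (XT.lf (nat_lit 0) (nat_lit 411017914304) (nat_lit 152) (nat_lit 56742651243) (nat_lit 0) (nat_lit 9490518108) (nat_lit 34) (nat_lit 5) (nat_lit 36) (nat_lit 4) (nat_lit 34) (nat_lit 4) (nat_lit 476) (nat_lit 441) (nat_lit 283)) (XT.lf (nat_lit 0) (nat_lit 65446775377) (nat_lit 152) (nat_lit 265398259161) (nat_lit 76) (nat_lit 171657899757) (nat_lit 32) (nat_lit 5) (nat_lit 34) (nat_lit 5) (nat_lit 33) (nat_lit 4) (nat_lit 477) (nat_lit 441) (nat_lit 282)))) (XT.nd (nat_lit 78) (nat_lit 76) (nat_lit 0) (XT.lf (nat_lit 0) (nat_lit 27658702894) (nat_lit 76) (nat_lit 178680912035) (nat_lit 152) (nat_lit 323117145845) (nat_lit 31) (nat_lit 5) (nat_lit 32) (nat_lit 5) (nat_lit 33) (nat_lit 4) (nat_lit 478) (nat_lit 441) (nat_lit 281)) (XT.nd (nat_lit 78) (nat_lit 76) (nat_lit 0) (XT.lf (nat_lit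 0) (nat_lit 359253428802) (nat_lit 76) (nat_lit 6506791627) (nat_lit 152) (nat_lit 192226165850) (nat_lit 31) (nat_lit 5) (nat_lit 32) (nat_lit 5) (nat_lit 33) (nat_lit 4) (nat_lit 479) (nat_lit 441) (nat_lit 280)) (XT.lf (nat_lit 0) (nat_lit 130804961362) (nat_lit 76) (nat_lit 414590828599) (nat_lit 76) (nat_lit 42805686625) (nat_lit 30) (nat_lit 4) (nat_lit 31) (nat_lit 5) (nat_lit 31) (nat_lit 4) (nat_lit 480) (nat_lit 441) (nat_lit 279)))))) (XT.nd (nat_lit 468) (nat_lit 380) (nat_lit 0) (XT.nd (nat_lit 234) (nat_lit 228) (nat_lit 0) (XT.nd (nat_lit 78) (nat_lit 76) (nat_lit 0) (XT.lf (nat_lit 0) (nat_lit 118380898986) (nat_lit 152) (nat_lit 125552978083) (nat_lit 76) (nat_lit 376212271875) (nat_lit 29) (nat_lit 5) (nat_lit 31) (nat_lit 5) (nat_lit 30) (nat_lit 4) (nat_lit 481) (nat_lit 441) (nat_lit 278)) (XT.nd (nat_lit 78) (nat_lit 0) (nat_lit 0) (XT.lf (nat_lit 0) (nat_lit 243928285462)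 (nat_lit 76) (nat_lit 52087883569) (nat_lit 152) (nat_lit 358071969064) (nat_lit 28) (nat_lit 5) (nat_lit 29) (nat_lit 5) (nat_lit 30) (nat_lit 4) (nat_lit 482) (nat_lit 441) (nat_lit 277)) (XT.lf (nat_lit 0) (nat_lit 495114460389) (nat_lit 152) (nat_lit 44182164635) (nat_lit 0) (nat_lit 150868685385) (nat_lit 28) (nat_lit 5) (nat_lit 30) (nat_lit 4) (nat_lit 28) (nat_lit 4) (nat_lit 483) (nat_lit 441) (nat_lit 276)))) (XT.nd (nat_lit 78) (nat_lit 152) (nat_lit 0) (XT.lf (nat_lit 0) (nat_lit 368136287312) (nat_lit 76) (nat_lit 352210850164) (nat_lit 76) (nat_lit 7964997246) (nat_lit 27) (nat_lit 4) (nat_lit 28) (nat_lit 5) (nat_lit 28) (nat_lit 4) (nat_lit 484) (nat_lit 441) (nat_lit 275)) (XT.nd (nat_lit 78) (nat_lit 0) (nat_lit 0) (XT.lf (nat_lit 0) (nat_lit 44042643220) (nat_lit 76) (nat_lit 142634553068) (nat_lit 152) (nat_lit 582276201419) (nat_lit 25) (nat_lit 5) (nat_lit 26) (nat_lit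 5) (nat_lit 27) (nat_lit 4) (nat_lit 485) (nat_lit 441) (nat_lit 274)) (XT.lf (nat_lit 0) (nat_lit 408577163166) (nat_lit 152) (nat_lit 313452036352) (nat_lit 0) (nat_lit 89830874407) (nat_lit 25) (nat_lit 5) (nat_lit 27) (nat_lit 4) (nat_lit 25) (nat_lit 4) (nat_lit 486) (nat_lit 441) (nat_lit 273))))) (XT.nd (nat_lit 234) (nat_lit 152) (nat_lit 0) (XT.nd (nat_lit 78) (nat_lit 152) (nat_lit 0) (XT.lf (nat_lit 0) (nat_lit 133917507696) (nat_lit 76) (nat_lit 521237044304) (nat_lit 76) (nat_lit 202490698276) (nat_lit 24) (nat_lit 4) (nat_lit 25) (nat_lit 5) (nat_lit 25) (nat_lit 4) (nat_lit 487) (nat_lit 441) (nat_lit 272)) (XT.nd (nat_lit 78) (nat_lit 76) (nat_lit 0) (XT.lf (nat_lit 0) (nat_lit 22439153375) (nat_lit 152) (nat_lit 272072960033) (nat_lit 76) (nat_lit 611850061076) (nat_lit 23) (nat_lit 5) (nat_lit 25) (nat_lit 5) (nat_lit 24) (nat_lit 4) (nat_lit 488) (nat_lit 441) (nat_lit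 271)) (XT.lf (nat_lit 0) (nat_lit 221536708469) (nat_lit 76) (nat_lit 38214809138) (nat_lit 152) (nat_lit 698377944601) (nat_lit 22) (nat_lit 5) (nat_lit 23) (nat_lit 5) (nat_lit 24) (nat_lit 4) (nat_lit 489) (nat_lit 441) (nat_lit 270)))) (XT.nd (nat_lit 78) (nat_lit 152) (nat_lit 0) (XT.lf (nat_lit 0) (nat_lit 529418972143) (nat_lit 152) (nat_lit 249266222812) (nat_lit 0) (nat_lit 234283329905) (nat_lit 22) (nat_lit 5) (nat_lit 24) (nat_lit 4) (nat_lit 22) (nat_lit 4) (nat_lit 490) (nat_lit 441) (nat_lit 269)) (XT.nd (nat_lit 78) (nat_lit 76) (nat_lit 0) (XT.lf (nat_lit 0) (nat_lit 290590186387) (nat_lit 76) (nat_lit 538050854946) (nat_lit 76) (nat_lit 242915173732) (nat_lit 21) (nat_lit 4) (nat_lit 22) (nat_lit 5) (nat_lit 22) (nat_lit 4) (nat_lit 491) (nat_lit 441) (nat_lit 268)) (XT.lf (nat_lit 0) (nat_lit 23113377827) (nat_lit 152) (nat_lit 247059891421) (nat_lit 76) (nat_lit 864065614759)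 (nat_lit 20) (nat_lit 5) (nat_lit 22) (nat_lit 5) (nat_lit 21) (nat_lit 4) (nat_lit 492) (nat_lit 441) (nat_lit 267))))))))
noncomputable def xc189 : XT := (XT.nd (nat_lit 1794) (nat_lit 228) (nat_lit 0) (XT.nd (nat_lit 858) (nat_lit 456) (nat_lit 0) (XT.nd (nat_lit 390) (nat_lit 228) (nat_lit 0) (XT.nd (nat_lit 156) (nat_lit 228) (nat_lit 0) (XT.nd (nat_lit 78) (nat_lit 0) (nat_lit 0) (XT.lf (nat_lit 0) (nat_lit 306320562887) (nat_lit 152) (nat_lit 861342518890) (nat_lit 0) (nat_lit 33046719629) (nat_lit 19) (nat_lit 5) (nat_lit 21) (nat_lit 4) (nat_lit 19) (nat_lit 4) (nat_lit 493) (nat_lit 441) (nat_lit 266)) (XT.lf (nat_lit 0) (nat_lit 626132252344) (nat_lit 152) (nat_lit 292391925051) (nat_lit 0) (nat_lit 352858380437) (nat_lit 19) (nat_lit 5) (nat_lit 21) (nat_lit 4) (nat_lit 19) (nat_lit 4) (nat_lit 494) (nat_lit 441) (nat_lit 265))) (XT.nd (nat_lit 78) (nat_lit 152) (nat_lit 0)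 (XT.lf (nat_lit 0) (nat_lit 339034464521) (nat_lit 76) (nat_lit 640648135424) (nat_lit 76) (nat_lit 367374236990) (nat_lit 18) (nat_lit 4) (nat_lit 19) (nat_lit 5) (nat_lit 19) (nat_lit 4) (nat_lit 495) (nat_lit 441) (nat_lit 264)) (XT.nd (nat_lit 78) (nat_lit 152) (nat_lit 0) (XT.lf (nat_lit 0) (nat_lit 1037603427592) (nat_lit 76) (nat_lit 331907998843) (nat_lit 76) (nat_lit 58634075847) (nat_lit 18) (nat_lit 4) (nat_lit 19) (nat_lit 5) (nat_lit 19) (nat_lit 4) (nat_lit 496) (nat_lit 441) (nat_lit 263)) (XT.lf (nat_lit 0) (nat_lit 268272764674) (nat_lit 152) (nat_lit 1231101289589) (nat_lit 0) (nat_lit 15241333435) (nat_lit 16) (nat_lit 5) (nat_lit 18) (nat_lit 4) (nat_lit 16) (nat_lit 4) (nat_lit 497) (nat_lit 441) (nat_lit 262))))) (XT.nd (nat_lit 234) (nat_lit 152) (nat_lit 0) (XT.nd (nat_lit 78) (nat_lit 76) (nat_lit 0) (XT.lf (nat_lit 0) (nat_lit 637740783331) (nat_lit 152) (nat_lit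 583864799468) (nat_lit 0) (nat_lit 384709332593) (nat_lit 16) (nat_lit 5) (nat_lit 18) (nat_lit 4) (nat_lit 16) (nat_lit 4) (nat_lit 498) (nat_lit 441) (nat_lit 261)) (XT.nd (nat_lit 78) (nat_lit 0) (nat_lit 0) (XT.lf (nat_lit 0) (nat_lit 121214120415) (nat_lit 76) (nat_lit 918467270925) (nat_lit 76) (nat_lit 665435802134) (nat_lit 15) (nat_lit 4) (nat_lit 16) (nat_lit 5) (nat_lit 16) (nat_lit 4) (nat_lit 499) (nat_lit 441) (nat_lit 260)) (XT.lf (nat_lit 0) (nat_lit 915904154515) (nat_lit 76) (nat_lit 573836938594) (nat_lit 76) (nat_lit 320805453086) (nat_lit 15) (nat_lit 4) (nat_lit 16) (nat_lit 5) (nat_lit 16) (nat_lit 4) (nat_lit 500) (nat_lit 441) (nat_lit 259)))) (XT.nd (nat_lit 78) (nat_lit 76) (nat_lit 0) (XT.lf (nat_lit 0) (nat_lit 48824271095) (nat_lit 152) (nat_lit 151477017107) (nat_lit 76) (nat_lit 1724010078274) (nat_lit 14) (nat_lit 5) (nat_lit 16) (nat_lit 5) (nat_lit 15)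 (nat_lit 4) (nat_lit 501) (nat_lit 441) (nat_lit 258)) (XT.nd (nat_lit 78) (nat_lit 0) (nat_lit 0) (XT.lf (nat_lit 0) (nat_lit 452490238110) (nat_lit 152) (nat_lit 1374074912176) (nat_lit 0) (nat_lit 218201798002) (nat_lit 13) (nat_lit 5) (nat_lit 15) (nat_lit 4) (nat_lit 13) (nat_lit 4) (nat_lit 502) (nat_lit 441) (nat_lit 257)) (XT.lf (nat_lit 0) (nat_lit 897901292081) (nat_lit 152) (nat_lit 612588700112) (nat_lit 0) (nat_lit 663612839686) (nat_lit 13) (nat_lit 5) (nat_lit 15) (nat_lit 4) (nat_lit 13) (nat_lit 4) (nat_lit 503) (nat_lit 441) (nat_lit 256)))))) (XT.nd (nat_lit 468) (nat_lit 228) (nat_lit 0) (XT.nd (nat_lit 234) (nat_lit 152) (nat_lit 0) (XT.nd (nat_lit 78) (nat_lit 0) (nat_lit 0) (XT.lf (nat_lit 0) (nat_lit 220864876534) (nat_lit 76) (nat_lit 1163392116203) (nat_lit 76) (nat_lit 929103652431) (nat_lit 12) (nat_lit 4) (nat_lit 13) (nat_lit 5) (nat_lit 13) (nat_lit 4) (nat_lit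 504) (nat_lit 441) (nat_lit 255)) (XT.nd (nat_lit 78) (nat_lit 0) (nat_lit 0) (XT.lf (nat_lit 0) (nat_lit 1155833115701) (nat_lit 76) (nat_lit 770437252320) (nat_lit 76) (nat_lit 536148778014) (nat_lit 12) (nat_lit 4) (nat_lit 13) (nat_lit 5) (nat_lit 13) (nat_lit 4) (nat_lit 505) (nat_lit 441) (nat_lit 254)) (XT.lf (nat_lit 0) (nat_lit 2165598734569) (nat_lit 76) (nat_lit 346046039791) (nat_lit 76) (nat_lit 111757555731) (nat_lit 12) (nat_lit 4) (nat_lit 13) (nat_lit 5) (nat_lit 13) (nat_lit 4) (nat_lit 506) (nat_lit 441) (nat_lit 253)))) (XT.nd (nat_lit 78) (nat_lit 0) (nat_lit 0) (XT.lf (nat_lit 0) (nat_lit 343867071920) (nat_lit 152) (nat_lit 2324627409498) (nat_lit 0) (nat_lit 126933282020) (nat_lit 10) (nat_lit 5) (nat_lit 12) (nat_lit 4) (nat_lit 10) (nat_lit 4) (nat_lit 507) (nat_lit 441) (nat_lit 252)) (XT.nd (nat_lit 78) (nat_lit 0) (nat_lit 0) (XT.lf (nat_lit 0) (nat_lit 851734313536)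 (nat_lit 152) (nat_lit 1492701742168) (nat_lit 0) (nat_lit 634800515893) (nat_lit 10) (nat_lit 5) (nat_lit 12) (nat_lit 4) (nat_lit 10) (nat_lit 4) (nat_lit 508) (nat_lit 441) (nat_lit 251)) (XT.lf (nat_lit 0) (nat_lit 1400230900268) (nat_lit 152) (nat_lit 594222091424) (nat_lit 0) (nat_lit 1183297095456) (nat_lit 10) (nat_lit 5) (nat_lit 12) (nat_lit 4) (nat_lit 10) (nat_lit 4) (nat_lit 509) (nat_lit 441) (nat_lit 250))))) (XT.nd (nat_lit 234) (nat_lit 152) (nat_lit 0) (XT.nd (nat_lit 78) (nat_lit 0) (nat_lit 0) (XT.lf (nat_lit 0) (nat_lit 395942514756) (nat_lit 76) (nat_lit 1606187094504) (nat_lit 76) (nat_lit 1389253283054) (nat_lit 9) (nat_lit 4) (nat_lit 10) (nat_lit 5) (nat_lit 10) (nat_lit 4) (nat_lit 510) (nat_lit 441) (nat_lit 249)) (XT.nd (nat_lit 78) (nat_lit 0) (nat_lit 0) (XT.lf (nat_lit 0) (nat_lit 1499114163149) (nat_lit 76) (nat_lit 1169313106005) (nat_lit 76) (nat_lit 952379288409)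 (nat_lit 9) (nat_lit 4) (nat_lit 10) (nat_lit 5) (nat_lit 10) (nat_lit 4) (nat_lit 511) (nat_lit 441) (nat_lit 248)) (XT.lf (nat_lit 0) (nat_lit 2690539484943) (nat_lit 76) (nat_lit 697489228331) (nat_lit 76) (nat_lit 480555405043) (nat_lit 9) (nat_lit 4) (nat_lit 10) (nat_lit 5) (nat_lit 10) (nat_lit 4) (nat_lit 512) (nat_lit 441) (nat_lit 247)))) (XT.nd (nat_lit 78) (nat_lit 76) (nat_lit 0) (XT.lf (nat_lit 0) (nat_lit 27562944608) (nat_lit 152) (nat_lit 159602903772) (nat_lit 76) (nat_lit 3948962213982) (nat_lit 8) (nat_lit 5) (nat_lit 10) (nat_lit 5) (nat_lit 9) (nat_lit 4) (nat_lit 513) (nat_lit 441) (nat_lit 246)) (XT.nd (nat_lit 78) (nat_lit 0) (nat_lit 0) (XT.lf (nat_lit 0) (nat_lit 583545815400) (nat_lit 152) (nat_lit 3455195792874) (nat_lit 0) (nat_lit 382681154810) (nat_lit 7) (nat_lit 5) (nat_lit 9) (nat_lit 4) (nat_lit 7) (nat_lit 4) (nat_lit 514) (nat_lit 441) (nat_lit 245))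 (XT.lf (nat_lit 0) (nat_lit 1193345913738) (nat_lit 152) (nat_lit 2542966789331) (nat_lit 0) (nat_lit 992481248965) (nat_lit 7) (nat_lit 5) (nat_lit 9) (nat_lit 4) (nat_lit 7) (nat_lit 4) (nat_lit 515) (nat_lit 441) (nat_lit 244))))))) (XT.nd (nat_lit 56784) (nat_lit 0) (nat_lit 4408) (XT.nd (nat_lit 468) (nat_lit 152) (nat_lit 0) (XT.nd (nat_lit 234) (nat_lit 0) (nat_lit 0) (XT.nd (nat_lit 78) (nat_lit 76) (nat_lit 0) (XT.lf (nat_lit 0) (nat_lit 1851929996713) (nat_lit 152) (nat_lit 1557759513180) (nat_lit 0) (nat_lit 1651065328067) (nat_lit 7) (nat_lit 5) (nat_lit 9) (nat_lit 4) (nat_lit 7) (nat_lit 4) (nat_lit 516) (nat_lit 441) (nat_lit 243)) (XT.nd (nat_lit 78) (nat_lit 76) (nat_lit 0) (XT.lf (nat_lit 0) (nat_lit 2563200784816) (nat_lit 152) (nat_lit 493735699081) (nat_lit 0) (nat_lit 2362336112583) (nat_lit 7) (nat_lit 5) (nat_lit 9) (nat_lit 4) (nat_lit 7) (nat_lit 4) (nat_lit 517)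 (nat_lit 441) (nat_lit 242)) (XT.lf (nat_lit 0) (nat_lit 689922707292) (nat_lit 76) (nat_lit 2658043166461) (nat_lit 76) (nat_lit 2457178490907) (nat_lit 6) (nat_lit 4) (nat_lit 7) (nat_lit 5) (nat_lit 7) (nat_lit 4) (nat_lit 518) (nat_lit 441) (nat_lit 241)))) (XT.nd (nat_lit 78) (nat_lit 0) (nat_lit 0) (XT.lf (nat_lit 0) (nat_lit 1996352933030) (nat_lit 76) (nat_lit 2212658826363) (nat_lit 76) (nat_lit 2011794147734) (nat_lit 6) (nat_lit 4) (nat_lit 7) (nat_lit 5) (nat_lit 7) (nat_lit 4) (nat_lit 519) (nat_lit 441) (nat_lit 240)) (XT.nd (nat_lit 78) (nat_lit 0) (nat_lit 0) (XT.lf (nat_lit 0) (nat_lit 3407297539938) (nat_lit 76) (nat_lit 1731643757983) (nat_lit 76) (nat_lit 1530779076507) (nat_lit 6) (nat_lit 4) (nat_lit 7) (nat_lit 5) (nat_lit 7) (nat_lit 4) (nat_lit 520) (nat_lit 441) (nat_lit 239)) (XT.lf (nat_lit 0) (nat_lit 4931117681243) (nat_lit 76) (nat_lit 1212147501657) (nat_lit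 76) (nat_lit 1011282817545) (nat_lit 6) (nat_lit 4) (nat_lit 7) (nat_lit 5) (nat_lit 7) (nat_lit 4) (nat_lit 521) (nat_lit 441) (nat_lit 238))))) (XT.nd (nat_lit 234) (nat_lit 0) (nat_lit 0) (XT.nd (nat_lit 78) (nat_lit 152) (nat_lit 0) (XT.lf (nat_lit 0) (nat_lit 6576843402226) (nat_lit 76) (nat_lit 651091561051) (nat_lit 76) (nat_lit 450226874498) (nat_lit 6) (nat_lit 4) (nat_lit 7) (nat_lit 5) (nat_lit 7) (nat_lit 4) (nat_lit 522) (nat_lit 441) (nat_lit 237)) (XT.nd (nat_lit 78) (nat_lit 0) (nat_lit 0) (XT.lf (nat_lit 0) (nat_lit 112442272108) (nat_lit 76) (nat_lit 38186074488) (nat_lit 152) (nat_lit 8092520504360) (nat_lit 4) (nat_lit 5) (nat_lit 5) (nat_lit 5) (nat_lit 6) (nat_lit 4) (nat_lit 523) (nat_lit 441) (nat_lit 236)) (XT.lf (nat_lit 0) (nat_lit 821123399900) (nat_lit 152) (nat_lit 7392466685146) (nat_lit 0) (nat_lit 635137574987) (nat_lit 4) (nat_lit 5) (nat_lit 6) (nat_lit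 4) (nat_lit 4) (nat_lit 4) (nat_lit 524) (nat_lit 441) (nat_lit 235)))) (XT.nd (nat_lit 78) (nat_lit 0) (nat_lit 0) (XT.lf (nat_lit 0) (nat_lit 1546249890028) (nat_lit 152) (nat_lit 6596159473882) (nat_lit 0) (nat_lit 1360264063322) (nat_lit 4) (nat_lit 5) (nat_lit 6) (nat_lit 4) (nat_lit 4) (nat_lit 4) (nat_lit 525) (nat_lit 441) (nat_lit 234)) (XT.nd (nat_lit 55926) (nat_lit 0) (nat_lit 5624) (XT.lf (nat_lit 0) (nat_lit 2329386486839) (nat_lit 152) (nat_lit 5736147711498) (nat_lit 0) (nat_lit 2143400658471) (nat_lit 4) (nat_lit 5) (nat_lit 6) (nat_lit 4) (nat_lit 4) (nat_lit 4) (nat_lit 526) (nat_lit 441) (nat_lit 233)) (XT.lf (nat_lit 0) (nat_lit 48960645009) (nat_lit 532) (nat_lit 1253952950) (nat_lit 532) (nat_lit 1253952950) (nat_lit 78) (nat_lit 3) (nat_lit 85) (nat_lit 3) (nat_lit 85) (nat_lit 5) (nat_lit 442) (nat_lit 442) (nat_lit 316)))))) (XT.nd (nat_lit 468) (nat_lit 760) (nat_lit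 0) (XT.nd (nat_lit 234) (nat_lit 0) (nat_lit 0) (XT.nd (nat_lit 78) (nat_lit 456) (nat_lit 0) (XT.lf (nat_lit 76) (nat_lit 50889391187) (nat_lit 0) (nat_lit 52178455812) (nat_lit 532) (nat_lit 3888360127) (nat_lit 79) (nat_lit 5) (nat_lit 78) (nat_lit 3) (nat_lit 85) (nat_lit 5) (nat_lit 443) (nat_lit 442) (nat_lit 315)) (XT.nd (nat_lit 78) (nat_lit 532) (nat_lit 0) (XT.lf (nat_lit 0) (nat_lit 108694269606) (nat_lit 456) (nat_lit 2590794669) (nat_lit 532) (nat_lit 6325530) (nat_lit 79) (nat_lit 5) (nat_lit 85) (nat_lit 5) (nat_lit 86) (nat_lit 5) (nat_lit 444) (nat_lit 442) (nat_lit 314)) (XT.lf (nat_lit 0) (nat_lit 1645110963) (nat_lit 532) (nat_lit 59156594369) (nat_lit 608) (nat_lit 54950993008) (nat_lit 72) (nat_lit 5) (nat_lit 79) (nat_lit 5) (nat_lit 80) (nat_lit 5) (nat_lit 445) (nat_lit 442) (nat_lit 313)))) (XT.nd (nat_lit 78) (nat_lit 0) (nat_lit 76) (XT.lf (nat_lit 76) (nat_lit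 31978172) (nat_lit 0) (nat_lit 6127354464) (nat_lit 608) (nat_lit 114400348579) (nat_lit 73) (nat_lit 5) (nat_lit 72) (nat_lit 5) (nat_lit 80) (nat_lit 5) (nat_lit 446) (nat_lit 442) (nat_lit 312)) (XT.nd (nat_lit 78) (nat_lit 0) (nat_lit 0) (XT.lf (nat_lit 0) (nat_lit 13966410730) (nat_lit 532) (nat_lit 59617071858) (nat_lit 608) (nat_lit 51933202808) (nat_lit 73) (nat_lit 5) (nat_lit 80) (nat_lit 5) (nat_lit 81) (nat_lit 5) (nat_lit 447) (nat_lit 442) (nat_lit 311)) (XT.lf (nat_lit 76) (nat_lit 6323191915) (nat_lit 0) (nat_lit 16385635346) (nat_lit 608) (nat_lit 108136561034) (nat_lit 74) (nat_lit 5) (nat_lit 73) (nat_lit 5) (nat_lit 81) (nat_lit 5) (nat_lit 448) (nat_lit 442) (nat_lit 310))))) (XT.nd (nat_lit 234) (nat_lit 456) (nat_lit 0) (XT.nd (nat_lit 78) (nat_lit 456) (nat_lit 0) (XT.lf (nat_lit 0) (nat_lit 34914168913) (nat_lit 532) (nat_lit 56675157869) (nat_lit 76) (nat_lit 44789978248)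 (nat_lit 74) (nat_lit 5) (nat_lit 81) (nat_lit 5) (nat_lit 75) (nat_lit 5) (nat_lit 449) (nat_lit 442) (nat_lit 309)) (XT.nd (nat_lit 78) (nat_lit 0) (nat_lit 0) (XT.lf (nat_lit 0) (nat_lit 17025345663) (nat_lit 456) (nat_lit 31905258073) (nat_lit 532) (nat_lit 93358558237) (nat_lit 68) (nat_lit 5) (nat_lit 74) (nat_lit 5) (nat_lit 75) (nat_lit 5) (nat_lit 450) (nat_lit 442) (nat_lit 308)) (XT.lf (nat_lit 0) (nat_lit 66440740952) (nat_lit 532) (nat_lit 49526341016) (nat_lit 76) (nat_lit 32514934621) (nat_lit 68) (nat_lit 5) (nat_lit 75) (nat_lit 5) (nat_lit 69) (nat_lit 5) (nat_lit 451) (nat_lit 442) (nat_lit 307)))) (XT.nd (nat_lit 78) (nat_lit 228) (nat_lit 0) (XT.lf (nat_lit 0) (nat_lit 33096689225) (nat_lit 228) (nat_lit 53879337512) (nat_lit 304) (nat_lit 68064325947) (nat_lit 65) (nat_lit 5) (nat_lit 68) (nat_lit 5) (nat_lit 69) (nat_lit 5) (nat_lit 452) (nat_lit 442) (nat_lit 306))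 (XT.nd (nat_lit 78) (nat_lit 228) (nat_lit 0) (XT.lf (nat_lit 0) (nat_lit 110859984936) (nat_lit 304) (nat_lit 37221279667) (nat_lit 76) (nat_lit 13905623208) (nat_lit 65) (nat_lit 5) (nat_lit 69) (nat_lit 5) (nat_lit 66) (nat_lit 5) (nat_lit 453) (nat_lit 442) (nat_lit 305)) (XT.lf (nat_lit 0) (nat_lit 55663596262) (nat_lit 228) (nat_lit 83728932002) (nat_lit 304) (nat_lit 29877588106) (nat_lit 62) (nat_lit 5) (nat_lit 65) (nat_lit 5) (nat_lit 66) (nat_lit 5) (nat_lit 454) (nat_lit 442) (nat_lit 304))))))))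
noncomputable def xc190 : XT := (XT.nd (nat_lit 1794) (nat_lit 1444) (nat_lit 0) (XT.nd (nat_lit 858) (nat_lit 988) (nat_lit 0) (XT.nd (nat_lit 390) (nat_lit 532) (nat_lit 0) (XT.nd (nat_lit 156) (nat_lit 380) (nat_lit 0) (XT.nd (nat_lit 78) (nat_lit 228) (nat_lit 0) (XT.lf (nat_lit 0) (nat_lit 158095724601) (nat_lit 228) (nat_lit 13129354889) (nat_lit 304) (nat_lit 5829531463) (nat_lit 62) (nat_lit 5) (nat_lit 65) (nat_lit 5) (nat_lit 66) (nat_lit 5) (nat_lit 455) (nat_lit 442) (nat_lit 303)) (XT.lf (nat_lit 0) (nat_lit 22815085774) (nat_lit 228) (nat_lit 99705865504) (nat_lit 76) (nat_lit 62607734427) (nat_lit 59) (nat_lit 5) (nat_lit 62) (nat_lit 5) (nat_lit 60) (nat_lit 5) (nat_lit 456) (nat_lit 442) (nat_lit 302))) (XT.nd (nat_lit 78) (nat_lit 152) (nat_lit 0) (XT.lf (nat_lit 0) (nat_lit 5178875433) (nat_lit 228) (nat_lit 49254593198) (nat_lit 304) (nat_lit 139323333181) (nat_lit 56)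 (nat_lit 5) (nat_lit 59) (nat_lit 5) (nat_lit 60) (nat_lit 5) (nat_lit 457) (nat_lit 442) (nat_lit 301)) (XT.nd (nat_lit 78) (nat_lit 152) (nat_lit 0) (XT.lf (nat_lit 0) (nat_lit 92096457992) (nat_lit 304) (nat_lit 79521931560) (nat_lit 76) (nat_lit 31175566853) (nat_lit 56) (nat_lit 5) (nat_lit 60) (nat_lit 5) (nat_lit 57) (nat_lit 5) (nat_lit 458) (nat_lit 442) (nat_lit 300)) (XT.lf (nat_lit 0) (nat_lit 38926116148) (nat_lit 152) (nat_lit 96061647406) (nat_lit 228) (nat_lit 77389097709) (nat_lit 54) (nat_lit 5) (nat_lit 56) (nat_lit 5) (nat_lit 57) (nat_lit 5) (nat_lit 459) (nat_lit 442) (nat_lit 299))))) (XT.nd (nat_lit 234) (nat_lit 304) (nat_lit 0) (XT.nd (nat_lit 78) (nat_lit 228) (nat_lit 0) (XT.lf (nat_lit 0) (nat_lit 171372170109) (nat_lit 152) (nat_lit 12112246787) (nat_lit 228) (nat_lit 39068058206) (nat_lit 54) (nat_lit 5) (nat_lit 56) (nat_lit 5) (nat_lit 57) (nat_lit 5) (nat_lit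 460) (nat_lit 442) (nat_lit 298)) (XT.nd (nat_lit 78) (nat_lit 0) (nat_lit 0) (XT.lf (nat_lit 0) (nat_lit 6192218917) (nat_lit 228) (nat_lit 150246499287) (nat_lit 76) (nat_lit 76779795305) (nat_lit 51) (nat_lit 5) (nat_lit 54) (nat_lit 5) (nat_lit 52) (nat_lit 5) (nat_lit 461) (nat_lit 442) (nat_lit 297)) (XT.lf (nat_lit 0) (nat_lit 54712730031) (nat_lit 228) (nat_lit 15224718038) (nat_lit 76) (nat_lit 174579198448) (nat_lit 51) (nat_lit 5) (nat_lit 54) (nat_lit 5) (nat_lit 52) (nat_lit 5) (nat_lit 462) (nat_lit 442) (nat_lit 296)))) (XT.nd (nat_lit 78) (nat_lit 152) (nat_lit 0) (XT.lf (nat_lit 0) (nat_lit 111071643983) (nat_lit 228) (nat_lit 119629205892) (nat_lit 76) (nat_lit 25701239377) (nat_lit 49) (nat_lit 5) (nat_lit 52) (nat_lit 5) (nat_lit 50) (nat_lit 5) (nat_lit 463) (nat_lit 442) (nat_lit 295)) (XT.nd (nat_lit 78) (nat_lit 0) (nat_lit 0) (XT.lf (nat_lit 0) (nat_lit 32383350901)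 (nat_lit 152) (nat_lit 142578191950) (nat_lit 228) (nat_lit 94035042850) (nat_lit 47) (nat_lit 5) (nat_lit 49) (nat_lit 5) (nat_lit 50) (nat_lit 5) (nat_lit 464) (nat_lit 442) (nat_lit 294)) (XT.lf (nat_lit 0) (nat_lit 203360042208) (nat_lit 152) (nat_lit 43873284277) (nat_lit 228) (nat_lit 35103659989) (nat_lit 47) (nat_lit 5) (nat_lit 49) (nat_lit 5) (nat_lit 50) (nat_lit 5) (nat_lit 465) (nat_lit 442) (nat_lit 293)))))) (XT.nd (nat_lit 468) (nat_lit 380) (nat_lit 0) (XT.nd (nat_lit 234) (nat_lit 304) (nat_lit 0) (XT.nd (nat_lit 78) (nat_lit 152) (nat_lit 0) (XT.lf (nat_lit 0) (nat_lit 30993519236) (nat_lit 152) (nat_lit 202738760335) (nat_lit 76) (nat_lit 62647097749) (nat_lit 45) (nat_lit 5) (nat_lit 47) (nat_lit 5) (nat_lit 46) (nat_lit 5) (nat_lit 466) (nat_lit 442) (nat_lit 292)) (XT.nd (nat_lit 78) (nat_lit 152) (nat_lit 0) (XT.lf (nat_lit 0) (nat_lit 103836817572) (nat_lit 152)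 (nat_lit 28921055175) (nat_lit 76) (nat_lit 178445955712) (nat_lit 45) (nat_lit 5) (nat_lit 47) (nat_lit 5) (nat_lit 46) (nat_lit 5) (nat_lit 467) (nat_lit 442) (nat_lit 291)) (XT.lf (nat_lit 0) (nat_lit 167164028371) (nat_lit 152) (nat_lit 19363694039) (nat_lit 228) (nat_lit 140364901895) (nat_lit 43) (nat_lit 5) (nat_lit 45) (nat_lit 5) (nat_lit 46) (nat_lit 5) (nat_lit 468) (nat_lit 442) (nat_lit 290)))) (XT.nd (nat_lit 78) (nat_lit 228) (nat_lit 0) (XT.lf (nat_lit 0) (nat_lit 36113559698) (nat_lit 76) (nat_lit 243879616645) (nat_lit 152) (nat_lit 63510605363) (nat_lit 42) (nat_lit 5) (nat_lit 43) (nat_lit 5) (nat_lit 44) (nat_lit 4) (nat_lit 469) (nat_lit 442) (nat_lit 289)) (XT.nd (nat_lit 78) (nat_lit 152) (nat_lit 0) (XT.lf (nat_lit 0) (nat_lit 23500463809) (nat_lit 152) (nat_lit 105472892667) (nat_lit 76) (nat_lit 232034292576) (nat_lit 41) (nat_lit 5) (nat_lit 43) (nat_lit 5) (nat_lit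 42) (nat_lit 5) (nat_lit 470) (nat_lit 442) (nat_lit 288)) (XT.lf (nat_lit 0) (nat_lit 116790274864) (nat_lit 152) (nat_lit 59589588) (nat_lit 228) (nat_lit 262705297805) (nat_lit 39) (nat_lit 5) (nat_lit 41) (nat_lit 5) (nat_lit 42) (nat_lit 5) (nat_lit 471) (nat_lit 442) (nat_lit 287))))) (XT.nd (nat_lit 234) (nat_lit 76) (nat_lit 0) (XT.nd (nat_lit 78) (nat_lit 304) (nat_lit 0) (XT.lf (nat_lit 0) (nat_lit 223972775209) (nat_lit 228) (nat_lit 39945066135) (nat_lit 76) (nat_lit 135164190549) (nat_lit 39) (nat_lit 5) (nat_lit 42) (nat_lit 5) (nat_lit 40) (nat_lit 4) (nat_lit 472) (nat_lit 442) (nat_lit 286)) (XT.nd (nat_lit 78) (nat_lit 228) (nat_lit 0) (XT.lf (nat_lit 0) (nat_lit 211266995228) (nat_lit 76) (nat_lit 133480919506) (nat_lit 152) (nat_lit 75016544709) (nat_lit 38) (nat_lit 5) (nat_lit 39) (nat_lit 5) (nat_lit 40) (nat_lit 4) (nat_lit 473) (nat_lit 442) (nat_lit 285)) (XT.lf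 (nat_lit 0) (nat_lit 33867692951) (nat_lit 228) (nat_lit 397896753584) (nat_lit 76) (nat_lit 10078255109) (nat_lit 35) (nat_lit 5) (nat_lit 38) (nat_lit 5) (nat_lit 36) (nat_lit 4) (nat_lit 474) (nat_lit 442) (nat_lit 284)))) (XT.nd (nat_lit 78) (nat_lit 76) (nat_lit 0) (XT.lf (nat_lit 0) (nat_lit 156725498980) (nat_lit 228) (nat_lit 142352698711) (nat_lit 76) (nat_lit 165707873309) (nat_lit 35) (nat_lit 5) (nat_lit 38) (nat_lit 5) (nat_lit 36) (nat_lit 4) (nat_lit 475) (nat_lit 442) (nat_lit 283)) (XT.nd (nat_lit 78) (nat_lit 0) (nat_lit 0) (XT.lf (nat_lit 0) (nat_lit 140671631259) (nat_lit 76) (nat_lit 152123338000) (nat_lit 152) (nat_lit 196499297477) (nat_lit 34) (nat_lit 5) (nat_lit 35) (nat_lit 5) (nat_lit 36) (nat_lit 4) (nat_lit 476) (nat_lit 442) (nat_lit 282)) (XT.lf (nat_lit 0) (nat_lit 443901592027) (nat_lit 152) (nat_lit 61277862566) (nat_lit 0) (nat_lit 10251535960) (nat_lit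 34) (nat_lit 5) (nat_lit 36) (nat_lit 4) (nat_lit 34) (nat_lit 4) (nat_lit 477) (nat_lit 442) (nat_lit 281))))))) (XT.nd (nat_lit 936) (nat_lit 608) (nat_lit 0) (XT.nd (nat_lit 468) (nat_lit 380) (nat_lit 0) (XT.nd (nat_lit 234) (nat_lit 228) (nat_lit 0) (XT.nd (nat_lit 78) (nat_lit 76) (nat_lit 0) (XT.lf (nat_lit 0) (nat_lit 70684750932) (nat_lit 152) (nat_lit 286625907659) (nat_lit 76) (nat_lit 185392331571) (nat_lit 32) (nat_lit 5) (nat_lit 34) (nat_lit 5) (nat_lit 33) (nat_lit 4) (nat_lit 478) (nat_lit 442) (nat_lit 280)) (XT.nd (nat_lit 78) (nat_lit 0) (nat_lit 0) (XT.lf (nat_lit 0) (nat_lit 29875504722) (nat_lit 76) (nat_lit 192973446220) (nat_lit 152) (nat_lit 348964177169) (nat_lit 31) (nat_lit 5) (nat_lit 32) (nat_lit 5) (nat_lit 33) (nat_lit 4) (nat_lit 479) (nat_lit 442) (nat_lit 279)) (XT.lf (nat_lit 0) (nat_lit 387997504584) (nat_lit 76) (nat_lit 7025539792) (nat_lit 152) (nat_lit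 207602092134) (nat_lit 31) (nat_lit 5) (nat_lit 32) (nat_lit 5) (nat_lit 33) (nat_lit 4) (nat_lit 480) (nat_lit 442) (nat_lit 278)))) (XT.nd (nat_lit 78) (nat_lit 152) (nat_lit 0) (XT.lf (nat_lit 0) (nat_lit 141273178032) (nat_lit 76) (nat_lit 447756264664) (nat_lit 76) (nat_lit 46227992700) (nat_lit 30) (nat_lit 4) (nat_lit 31) (nat_lit 5) (nat_lit 31) (nat_lit 4) (nat_lit 481) (nat_lit 442) (nat_lit 277)) (XT.nd (nat_lit 78) (nat_lit 76) (nat_lit 0) (XT.lf (nat_lit 0) (nat_lit 127853261054) (nat_lit 152) (nat_lit 135593579849) (nat_lit 76) (nat_lit 406310848612) (nat_lit 29) (nat_lit 5) (nat_lit 31) (nat_lit 5) (nat_lit 30) (nat_lit 4) (nat_lit 482) (nat_lit 442) (nat_lit 276)) (XT.lf (nat_lit 0) (nat_lit 263446092717) (nat_lit 76) (nat_lit 56253205219) (nat_lit 152) (nat_lit 386715744255) (nat_lit 28) (nat_lit 5) (nat_lit 29) (nat_lit 5) (nat_lit 30) (nat_lit 4) (nat_lit 483) (nat_lit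 442) (nat_lit 275))))) (XT.nd (nat_lit 234) (nat_lit 152) (nat_lit 0) (XT.nd (nat_lit 78) (nat_lit 228) (nat_lit 0) (XT.lf (nat_lit 0) (nat_lit 534725354705) (nat_lit 152) (nat_lit 47713357929) (nat_lit 0) (nat_lit 162939683497) (nat_lit 28) (nat_lit 5) (nat_lit 30) (nat_lit 4) (nat_lit 28) (nat_lit 4) (nat_lit 484) (nat_lit 442) (nat_lit 274)) (XT.nd (nat_lit 78) (nat_lit 152) (nat_lit 0) (XT.lf (nat_lit 0) (nat_lit 397590484609) (nat_lit 76) (nat_lit 380386111876) (nat_lit 76) (nat_lit 8600373869) (nat_lit 27) (nat_lit 4) (nat_lit 28) (nat_lit 5) (nat_lit 28) (nat_lit 4) (nat_lit 485) (nat_lit 442) (nat_lit 273)) (XT.lf (nat_lit 0) (nat_lit 47569354576) (nat_lit 76) (nat_lit 154043700439) (nat_lit 152) (nat_lit 628856479776) (nat_lit 25) (nat_lit 5) (nat_lit 26) (nat_lit 5) (nat_lit 27) (nat_lit 4) (nat_lit 486) (nat_lit 442) (nat_lit 272)))) (XT.nd (nat_lit 78) (nat_lit 152) (nat_lit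 0) (XT.lf (nat_lit 0) (nat_lit 441264930580) (nat_lit 152) (nat_lit 338525055052) (nat_lit 0) (nat_lit 97018766574) (nat_lit 25) (nat_lit 5) (nat_lit 27) (nat_lit 4) (nat_lit 25) (nat_lit 4) (nat_lit 487) (nat_lit 442) (nat_lit 271)) (XT.nd (nat_lit 78) (nat_lit 76) (nat_lit 0) (XT.lf (nat_lit 0) (nat_lit 144633972920) (nat_lit 76) (nat_lit 562934493205) (nat_lit 76) (nat_lit 218688280099) (nat_lit 24) (nat_lit 4) (nat_lit 25) (nat_lit 5) (nat_lit 25) (nat_lit 4) (nat_lit 488) (nat_lit 442) (nat_lit 270)) (XT.lf (nat_lit 0) (nat_lit 24235758142) (nat_lit 152) (nat_lit 293835881631) (nat_lit 76) (nat_lit 660799390804) (nat_lit 23) (nat_lit 5) (nat_lit 25) (nat_lit 5) (nat_lit 24) (nat_lit 4) (nat_lit 489) (nat_lit 442) (nat_lit 269)))))) (XT.nd (nat_lit 468) (nat_lit 304) (nat_lit 0) (XT.nd (nat_lit 234) (nat_lit 152) (nat_lit 0) (XT.nd (nat_lit 78) (nat_lit 76) (nat_lit 0) (XT.lf (nat_lit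 0) (nat_lit 239262486549) (nat_lit 76) (nat_lit 41270584225) (nat_lit 152) (nat_lit 754246633809) (nat_lit 22) (nat_lit 5) (nat_lit 23) (nat_lit 5) (nat_lit 24) (nat_lit 4) (nat_lit 490) (nat_lit 442) (nat_lit 268)) (XT.nd (nat_lit 78) (nat_lit 76) (nat_lit 0) (XT.lf (nat_lit 0) (nat_lit 571773847008) (nat_lit 152) (nat_lit 269204814986) (nat_lit 0) (nat_lit 253027236231) (nat_lit 22) (nat_lit 5) (nat_lit 24) (nat_lit 4) (nat_lit 22) (nat_lit 4) (nat_lit 491) (nat_lit 442) (nat_lit 267)) (XT.lf (nat_lit 0) (nat_lit 313840038451) (nat_lit 76) (nat_lit 581093606180) (nat_lit 76) (nat_lit 262346961987) (nat_lit 21) (nat_lit 4) (nat_lit 22) (nat_lit 5) (nat_lit 22) (nat_lit 4) (nat_lit 492) (nat_lit 442) (nat_lit 266)))) (XT.nd (nat_lit 78) (nat_lit 76) (nat_lit 0) (XT.lf (nat_lit 0) (nat_lit 24963702060) (nat_lit 152) (nat_lit 266822174848) (nat_lit 76) (nat_lit 933192017455) (nat_lit 20)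 (nat_lit 5) (nat_lit 22) (nat_lit 5) (nat_lit 21) (nat_lit 4) (nat_lit 493) (nat_lit 442) (nat_lit 265)) (XT.nd (nat_lit 78) (nat_lit 0) (nat_lit 0) (XT.lf (nat_lit 0) (nat_lit 330827457272) (nat_lit 152) (nat_lit 930247407820) (nat_lit 0) (nat_lit 35691620437) (nat_lit 19) (nat_lit 5) (nat_lit 21) (nat_lit 4) (nat_lit 19) (nat_lit 4) (nat_lit 494) (nat_lit 442) (nat_lit 264)) (XT.lf (nat_lit 0) (nat_lit 676223989341) (nat_lit 152) (nat_lit 315780952590) (nat_lit 0) (nat_lit 381088127944) (nat_lit 19) (nat_lit 5) (nat_lit 21) (nat_lit 4) (nat_lit 19) (nat_lit 4) (nat_lit 495) (nat_lit 442) (nat_lit 263))))) (XT.nd (nat_lit 234) (nat_lit 76) (nat_lit 0) (XT.nd (nat_lit 78) (nat_lit 152) (nat_lit 0) (XT.lf (nat_lit 0) (nat_lit 366159489249) (nat_lit 76) (nat_lit 691898844346) (nat_lit 76) (nat_lit 396762960206) (nat_lit 18) (nat_lit 4) (nat_lit 19) (nat_lit 5) (nat_lit 19) (nat_lit 4) (nat_lit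 496) (nat_lit 442) (nat_lit 262)) (XT.nd (nat_lit 78) (nat_lit 152) (nat_lit 0) (XT.lf (nat_lit 0) (nat_lit 1120613801398) (nat_lit 76) (nat_lit 358459581425) (nat_lit 76) (nat_lit 63323676227) (nat_lit 18) (nat_lit 4) (nat_lit 19) (nat_lit 5) (nat_lit 19) (nat_lit 4) (nat_lit 497) (nat_lit 442) (nat_lit 261)) (XT.lf (nat_lit 0) (nat_lit 289735652058) (nat_lit 152) (nat_lit 1329587233621) (nat_lit 0) (nat_lit 16461647710) (nat_lit 16) (nat_lit 5) (nat_lit 18) (nat_lit 4) (nat_lit 16) (nat_lit 4) (nat_lit 498) (nat_lit 442) (nat_lit 260)))) (XT.nd (nat_lit 78) (nat_lit 76) (nat_lit 0) (XT.lf (nat_lit 0) (nat_lit 688761033228) (nat_lit 152) (nat_lit 630571984226) (nat_lit 0) (nat_lit 415487012164) (nat_lit 16) (nat_lit 5) (nat_lit 18) (nat_lit 4) (nat_lit 16) (nat_lit 4) (nat_lit 499) (nat_lit 442) (nat_lit 259)) (XT.nd (nat_lit 78) (nat_lit 0) (nat_lit 0) (XT.lf (nat_lit 0) (nat_lit 130913198635)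 (nat_lit 76) (nat_lit 991943664979) (nat_lit 76) (nat_lit 718669628437) (nat_lit 15) (nat_lit 4) (nat_lit 16) (nat_lit 5) (nat_lit 16) (nat_lit 4) (nat_lit 500) (nat_lit 442) (nat_lit 258)) (XT.lf (nat_lit 0) (nat_lit 989178291123) (nat_lit 76) (nat_lit 619742979218) (nat_lit 76) (nat_lit 346468928344) (nat_lit 15) (nat_lit 4) (nat_lit 16) (nat_lit 5) (nat_lit 16) (nat_lit 4) (nat_lit 501) (nat_lit 442) (nat_lit 257))))))))
noncomputable def xc191 : XT := (XT.nd (nat_lit 1794) (nat_lit 0) (nat_lit 0) (XT.nd (nat_lit 858) (nat_lit 380) (nat_lit 0) (XT.nd (nat_lit 390) (nat_lit 228) (nat_lit 0) (XT.nd (nat_lit 156) (nat_lit 76) (nat_lit 0) (XT.nd (nat_lit 78) (nat_lit 76) (nat_lit 0) (XT.lf (nat_lit 0) (nat_lit 52731058076) (nat_lit 152) (nat_lit 163593463345) (nat_lit 76) (nat_lit 1861931686730) (nat_lit 14) (nat_lit 5) (nat_lit 16) (nat_lit 5) (nat_lit 15) (nat_lit 4) (nat_lit 502) (nat_lit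 442) (nat_lit 256)) (XT.lf (nat_lit 0) (nat_lit 488690300457) (nat_lit 152) (nat_lit 1483999188007) (nat_lit 0) (nat_lit 235658748206) (nat_lit 13) (nat_lit 5) (nat_lit 15) (nat_lit 4) (nat_lit 13) (nat_lit 4) (nat_lit 503) (nat_lit 442) (nat_lit 255))) (XT.nd (nat_lit 78) (nat_lit 76) (nat_lit 0) (XT.lf (nat_lit 0) (nat_lit 969734176279) (nat_lit 152) (nat_lit 661594206173) (nat_lit 0) (nat_lit 716702613494) (nat_lit 13) (nat_lit 5) (nat_lit 15) (nat_lit 4) (nat_lit 13) (nat_lit 4) (nat_lit 504) (nat_lit 442) (nat_lit 254)) (XT.nd (nat_lit 78) (nat_lit 0) (nat_lit 0) (XT.lf (nat_lit 0) (nat_lit 238535616352) (nat_lit 76) (nat_lit 1256462696066) (nat_lit 76) (nat_lit 1003431123527) (nat_lit 12) (nat_lit 4) (nat_lit 13) (nat_lit 5) (nat_lit 13) (nat_lit 4) (nat_lit 505) (nat_lit 442) (nat_lit 253)) (XT.lf (nat_lit 0) (nat_lit 1248301199860) (nat_lit 76) (nat_lit 832071501549) (nat_lit 76)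 (nat_lit 579039919979) (nat_lit 12) (nat_lit 4) (nat_lit 13) (nat_lit 5) (nat_lit 13) (nat_lit 4) (nat_lit 506) (nat_lit 442) (nat_lit 252))))) (XT.nd (nat_lit 234) (nat_lit 76) (nat_lit 0) (XT.nd (nat_lit 78) (nat_lit 152) (nat_lit 0) (XT.lf (nat_lit 0) (nat_lit 2338847961948) (nat_lit 76) (nat_lit 373729046162) (nat_lit 76) (nat_lit 120697456230) (nat_lit 12) (nat_lit 4) (nat_lit 13) (nat_lit 5) (nat_lit 13) (nat_lit 4) (nat_lit 507) (nat_lit 442) (nat_lit 251)) (XT.nd (nat_lit 78) (nat_lit 0) (nat_lit 0) (XT.lf (nat_lit 0) (nat_lit 371377105161) (nat_lit 152) (nat_lit 2510596237147) (nat_lit 0) (nat_lit 137088588795) (nat_lit 10) (nat_lit 5) (nat_lit 12) (nat_lit 4) (nat_lit 10) (nat_lit 4) (nat_lit 508) (nat_lit 442) (nat_lit 250)) (XT.lf (nat_lit 0) (nat_lit 919873676662) (nat_lit 152) (nat_lit 1612116617551) (nat_lit 0) (nat_lit 685585153658) (nat_lit 10) (nat_lit 5) (nat_lit 12)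 (nat_lit 4) (nat_lit 10) (nat_lit 4) (nat_lit 509) (nat_lit 442) (nat_lit 249)))) (XT.nd (nat_lit 78) (nat_lit 76) (nat_lit 0) (XT.lf (nat_lit 0) (nat_lit 1512249944552) (nat_lit 152) (nat_lit 641758688376) (nat_lit 0) (nat_lit 1277961415401) (nat_lit 10) (nat_lit 5) (nat_lit 12) (nat_lit 4) (nat_lit 10) (nat_lit 4) (nat_lit 510) (nat_lit 442) (nat_lit 248)) (XT.nd (nat_lit 78) (nat_lit 0) (nat_lit 0) (XT.lf (nat_lit 0) (nat_lit 427619056669) (nat_lit 76) (nat_lit 1734681478640) (nat_lit 76) (nat_lit 1500392943798) (nat_lit 9) (nat_lit 4) (nat_lit 10) (nat_lit 5) (nat_lit 10) (nat_lit 4) (nat_lit 511) (nat_lit 442) (nat_lit 247)) (XT.lf (nat_lit 0) (nat_lit 1619044352435) (nat_lit 76) (nat_lit 1262857614277) (nat_lit 76) (nat_lit 1028569074166) (nat_lit 9) (nat_lit 4) (nat_lit 10) (nat_lit 5) (nat_lit 10) (nat_lit 4) (nat_lit 512) (nat_lit 442) (nat_lit 246)))))) (XT.nd (nat_lit 468) (nat_lit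 228) (nat_lit 0) (XT.nd (nat_lit 234) (nat_lit 0) (nat_lit 0) (XT.nd (nat_lit 78) (nat_lit 152) (nat_lit 0) (XT.lf (nat_lit 0) (nat_lit 2905783621733) (nat_lit 76) (nat_lit 753287866404) (nat_lit 76) (nat_lit 518999321413) (nat_lit 9) (nat_lit 4) (nat_lit 10) (nat_lit 5) (nat_lit 10) (nat_lit 4) (nat_lit 513) (nat_lit 442) (nat_lit 245)) (XT.nd (nat_lit 78) (nat_lit 76) (nat_lit 0) (XT.lf (nat_lit 0) (nat_lit 29768434083) (nat_lit 152) (nat_lit 172370206615) (nat_lit 76) (nat_lit 4264879630333) (nat_lit 8) (nat_lit 5) (nat_lit 10) (nat_lit 5) (nat_lit 9) (nat_lit 4) (nat_lit 514) (nat_lit 442) (nat_lit 244)) (XT.lf (nat_lit 0) (nat_lit 630229933859) (nat_lit 152) (nat_lit 3731610526160) (nat_lit 0) (nat_lit 413296087847) (nat_lit 7) (nat_lit 5) (nat_lit 9) (nat_lit 4) (nat_lit 7) (nat_lit 4) (nat_lit 515) (nat_lit 442) (nat_lit 243)))) (XT.nd (nat_lit 78) (nat_lit 0) (nat_lit 0) (XT.lf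 (nat_lit 0) (nat_lit 1288814006492) (nat_lit 152) (nat_lit 2746403271233) (nat_lit 0) (nat_lit 1071880156894) (nat_lit 7) (nat_lit 5) (nat_lit 9) (nat_lit 4) (nat_lit 7) (nat_lit 4) (nat_lit 516) (nat_lit 442) (nat_lit 242)) (XT.nd (nat_lit 78) (nat_lit 0) (nat_lit 0) (XT.lf (nat_lit 0) (nat_lit 2000084785020) (nat_lit 152) (nat_lit 1682379476786) (nat_lit 0) (nat_lit 1783150932101) (nat_lit 7) (nat_lit 5) (nat_lit 9) (nat_lit 4) (nat_lit 7) (nat_lit 4) (nat_lit 517) (nat_lit 442) (nat_lit 241)) (XT.lf (nat_lit 0) (nat_lit 2768257207388) (nat_lit 152) (nat_lit 533233816629) (nat_lit 0) (nat_lit 2551323351394) (nat_lit 7) (nat_lit 5) (nat_lit 9) (nat_lit 4) (nat_lit 7) (nat_lit 4) (nat_lit 518) (nat_lit 442) (nat_lit 240))))) (XT.nd (nat_lit 234) (nat_lit 152) (nat_lit 0) (XT.nd (nat_lit 78) (nat_lit 0) (nat_lit 0) (XT.lf (nat_lit 0) (nat_lit 745117243560) (nat_lit 76) (nat_lit 2870686250536)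 (nat_lit 76) (nat_lit 2653752391696) (nat_lit 6) (nat_lit 4) (nat_lit 7) (nat_lit 5) (nat_lit 7) (nat_lit 4) (nat_lit 519) (nat_lit 442) (nat_lit 239)) (XT.nd (nat_lit 78) (nat_lit 0) (nat_lit 0) (XT.lf (nat_lit 0) (nat_lit 2156061834047) (nat_lit 76) (nat_lit 2389671190582) (nat_lit 76) (nat_lit 2172737329105) (nat_lit 6) (nat_lit 4) (nat_lit 7) (nat_lit 5) (nat_lit 7) (nat_lit 4) (nat_lit 520) (nat_lit 442) (nat_lit 238)) (XT.lf (nat_lit 0) (nat_lit 3679881960147) (nat_lit 76) (nat_lit 1870174942057) (nat_lit 76) (nat_lit 1653241078139) (nat_lit 6) (nat_lit 4) (nat_lit 7) (nat_lit 5) (nat_lit 7) (nat_lit 4) (nat_lit 521) (nat_lit 442) (nat_lit 237)))) (XT.nd (nat_lit 78) (nat_lit 152) (nat_lit 0) (XT.lf (nat_lit 0) (nat_lit 5325607667052) (nat_lit 76) (nat_lit 1309119008674) (nat_lit 76) (nat_lit 1092185142496) (nat_lit 6) (nat_lit 4) (nat_lit 7) (nat_lit 5) (nat_lit 7) (nat_lit 4) (nat_lit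 522) (nat_lit 442) (nat_lit 236)) (XT.nd (nat_lit 78) (nat_lit 152) (nat_lit 0) (XT.lf (nat_lit 0) (nat_lit 7102991403395) (nat_lit 76) (nat_lit 703178614531) (nat_lit 76) (nat_lit 486244746261) (nat_lit 6) (nat_lit 4) (nat_lit 7) (nat_lit 5) (nat_lit 7) (nat_lit 4) (nat_lit 523) (nat_lit 442) (nat_lit 235)) (XT.lf (nat_lit 0) (nat_lit 121438183042) (nat_lit 76) (nat_lit 41240688712) (nat_lit 152) (nat_lit 8739921866681) (nat_lit 4) (nat_lit 5) (nat_lit 5) (nat_lit 5) (nat_lit 6) (nat_lit 4) (nat_lit 524) (nat_lit 442) (nat_lit 234))))))) (XT.nd (nat_lit 56862) (nat_lit 0) (nat_lit 3420) (XT.nd (nat_lit 56394) (nat_lit 0) (nat_lit 4864) (XT.nd (nat_lit 56160) (nat_lit 0) (nat_lit 5168) (XT.nd (nat_lit 78) (nat_lit 0) (nat_lit 0) (XT.lf (nat_lit 0) (nat_lit 886813516304) (nat_lit 152) (nat_lit 7983863516969) (nat_lit 0) (nat_lit 685948820006) (nat_lit 4) (nat_lit 5) (nat_lit 6) (nat_lit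 4) (nat_lit 4) (nat_lit 4) (nat_lit 525) (nat_lit 442) (nat_lit 233)) (XT.nd (nat_lit 56004) (nat_lit 0) (nat_lit 5624) (XT.lf (nat_lit 0) (nat_lit 1669950107538) (nat_lit 152) (nat_lit 7123851766063) (nat_lit 0) (nat_lit 1469085409702) (nat_lit 4) (nat_lit 5) (nat_lit 6) (nat_lit 4) (nat_lit 4) (nat_lit 4) (nat_lit 526) (nat_lit 442) (nat_lit 232)) (XT.lf (nat_lit 0) (nat_lit 52883171074) (nat_lit 532) (nat_lit 1351203835) (nat_lit 532) (nat_lit 1351203835) (nat_lit 78) (nat_lit 3) (nat_lit 85) (nat_lit 3) (nat_lit 85) (nat_lit 5) (nat_lit 443) (nat_lit 443) (nat_lit 314)))) (XT.nd (nat_lit 78) (nat_lit 456) (nat_lit 0) (XT.lf (nat_lit 76) (nat_lit 54966517977) (nat_lit 0) (nat_lit 56357408760) (nat_lit 532) (nat_lit 4187920577) (nat_lit 79) (nat_lit 5) (nat_lit 78) (nat_lit 3) (nat_lit 85) (nat_lit 5) (nat_lit 444) (nat_lit 443) (nat_lit 313)) (XT.nd (nat_lit 78) (nat_lit 532) (nat_lit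 0) (XT.lf (nat_lit 0) (nat_lit 117399569979) (nat_lit 456) (nat_lit 2791628293) (nat_lit 532) (nat_lit 2718103) (nat_lit 79) (nat_lit 5) (nat_lit 85) (nat_lit 5) (nat_lit 86) (nat_lit 5) (nat_lit 445) (nat_lit 443) (nat_lit 312)) (XT.lf (nat_lit 0) (nat_lit 1786148550) (nat_lit 532) (nat_lit 63882354901) (nat_lit 608) (nat_lit 59343653108) (nat_lit 72) (nat_lit 5) (nat_lit 79) (nat_lit 5) (nat_lit 80) (nat_lit 5) (nat_lit 446) (nat_lit 443) (nat_lit 311))))) (XT.nd (nat_lit 234) (nat_lit 304) (nat_lit 0) (XT.nd (nat_lit 78) (nat_lit 0) (nat_lit 76) (XT.lf (nat_lit 76) (nat_lit 41132127) (nat_lit 0) (nat_lit 6619836033) (nat_lit 608) (nat_lit 123542773334) (nat_lit 73) (nat_lit 5) (nat_lit 72) (nat_lit 5) (nat_lit 80) (nat_lit 5) (nat_lit 447) (nat_lit 443) (nat_lit 310)) (XT.nd (nat_lit 78) (nat_lit 0) (nat_lit 0) (XT.lf (nat_lit 0) (nat_lit 15091902997) (nat_lit 532) (nat_lit 64379618097)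 (nat_lit 608) (nat_lit 56085841906) (nat_lit 73) (nat_lit 5) (nat_lit 80) (nat_lit 5) (nat_lit 81) (nat_lit 5) (nat_lit 448) (nat_lit 443) (nat_lit 309)) (XT.lf (nat_lit 76) (nat_lit 6835694133) (nat_lit 0) (nat_lit 17697572694) (nat_lit 608) (nat_lit 116779131200) (nat_lit 74) (nat_lit 5) (nat_lit 73) (nat_lit 5) (nat_lit 81) (nat_lit 5) (nat_lit 449) (nat_lit 443) (nat_lit 308)))) (XT.nd (nat_lit 78) (nat_lit 456) (nat_lit 0) (XT.lf (nat_lit 0) (nat_lit 37714438771) (nat_lit 532) (nat_lit 61202416492) (nat_lit 76) (nat_lit 48372220797) (nat_lit 74) (nat_lit 5) (nat_lit 81) (nat_lit 5) (nat_lit 75) (nat_lit 5) (nat_lit 450) (nat_lit 443) (nat_lit 307)) (XT.nd (nat_lit 78) (nat_lit 0) (nat_lit 0) (XT.lf (nat_lit 0) (nat_lit 18393956335) (nat_lit 456) (nat_lit 34457861749) (nat_lit 532) (nat_lit 100819933281) (nat_lit 68) (nat_lit 5) (nat_lit 74) (nat_lit 5) (nat_lit 75) (nat_lit 5) (nat_lit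 451) (nat_lit 443) (nat_lit 306)) (XT.lf (nat_lit 0) (nat_lit 71762261013) (nat_lit 532) (nat_lit 53481845532) (nat_lit 76) (nat_lit 35115968396) (nat_lit 68) (nat_lit 5) (nat_lit 75) (nat_lit 5) (nat_lit 69) (nat_lit 5) (nat_lit 452) (nat_lit 443) (nat_lit 305)))))) (XT.nd (nat_lit 468) (nat_lit 532) (nat_lit 0) (XT.nd (nat_lit 234) (nat_lit 456) (nat_lit 0) (XT.nd (nat_lit 78) (nat_lit 228) (nat_lit 0) (XT.lf (nat_lit 0) (nat_lit 35750859970) (nat_lit 228) (nat_lit 58189200706) (nat_lit 304) (nat_lit 73503042123) (nat_lit 65) (nat_lit 5) (nat_lit 68) (nat_lit 5) (nat_lit 69) (nat_lit 5) (nat_lit 453) (nat_lit 443) (nat_lit 304)) (XT.nd (nat_lit 78) (nat_lit 228) (nat_lit 0) (XT.lf (nat_lit 0) (nat_lit 119734305430) (nat_lit 304) (nat_lit 40192591233) (nat_lit 76) (nat_lit 15018498626) (nat_lit 65) (nat_lit 5) (nat_lit 69) (nat_lit 5) (nat_lit 66) (nat_lit 5) (nat_lit 454) (nat_lit 443)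 (nat_lit 303)) (XT.lf (nat_lit 0) (nat_lit 60122912978) (nat_lit 228) (nat_lit 90426280040) (nat_lit 304) (nat_lit 32262109986) (nat_lit 62) (nat_lit 5) (nat_lit 65) (nat_lit 5) (nat_lit 66) (nat_lit 5) (nat_lit 455) (nat_lit 443) (nat_lit 302)))) (XT.nd (nat_lit 78) (nat_lit 456) (nat_lit 0) (XT.lf (nat_lit 0) (nat_lit 170749150175) (nat_lit 228) (nat_lit 14178808352) (nat_lit 304) (nat_lit 6290629935) (nat_lit 62) (nat_lit 5) (nat_lit 65) (nat_lit 5) (nat_lit 66) (nat_lit 5) (nat_lit 456) (nat_lit 443) (nat_lit 301)) (XT.nd (nat_lit 78) (nat_lit 228) (nat_lit 0) (XT.lf (nat_lit 0) (nat_lit 24645090981) (nat_lit 228) (nat_lit 107676098669) (nat_lit 76) (nat_lit 67617405713) (nat_lit 59) (nat_lit 5) (nat_lit 62) (nat_lit 5) (nat_lit 60) (nat_lit 5) (nat_lit 457) (nat_lit 443) (nat_lit 300)) (XT.lf (nat_lit 0) (nat_lit 5599263667) (nat_lit 228) (nat_lit 53193471547) (nat_lit 304) (nat_lit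 150464242382) (nat_lit 56) (nat_lit 5) (nat_lit 59) (nat_lit 5) (nat_lit 60) (nat_lit 5) (nat_lit 458) (nat_lit 443) (nat_lit 299))))) (XT.nd (nat_lit 234) (nat_lit 380) (nat_lit 0) (XT.nd (nat_lit 78) (nat_lit 152) (nat_lit 0) (XT.lf (nat_lit 0) (nat_lit 99468456951) (nat_lit 304) (nat_lit 85877750208) (nat_lit 76) (nat_lit 33670922031) (nat_lit 56) (nat_lit 5) (nat_lit 60) (nat_lit 5) (nat_lit 57) (nat_lit 5) (nat_lit 459) (nat_lit 443) (nat_lit 298)) (XT.nd (nat_lit 78) (nat_lit 0) (nat_lit 0) (XT.lf (nat_lit 0) (nat_lit 42045991042) (nat_lit 152) (nat_lit 103744897852) (nat_lit 228) (nat_lit 83575791873) (nat_lit 54) (nat_lit 5) (nat_lit 56) (nat_lit 5) (nat_lit 57) (nat_lit 5) (nat_lit 460) (nat_lit 443) (nat_lit 297)) (XT.lf (nat_lit 0) (nat_lit 185087300757) (nat_lit 152) (nat_lit 13079669728) (nat_lit 228) (nat_lit 42189397629) (nat_lit 54) (nat_lit 5) (nat_lit 56) (nat_lit 5) (nat_lit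 57) (nat_lit 5) (nat_lit 461) (nat_lit 443) (nat_lit 296)))) (XT.nd (nat_lit 78) (nat_lit 152) (nat_lit 0) (XT.lf (nat_lit 0) (nat_lit 6691378264) (nat_lit 228) (nat_lit 162260537046) (nat_lit 76) (nat_lit 82923775894) (nat_lit 51) (nat_lit 5) (nat_lit 54) (nat_lit 5) (nat_lit 52) (nat_lit 5) (nat_lit 462) (nat_lit 443) (nat_lit 295)) (XT.nd (nat_lit 78) (nat_lit 152) (nat_lit 0) (XT.lf (nat_lit 0) (nat_lit 59093250131) (nat_lit 228) (nat_lit 16437434200) (nat_lit 76) (nat_lit 188547012994) (nat_lit 51) (nat_lit 5) (nat_lit 54) (nat_lit 5) (nat_lit 52) (nat_lit 5) (nat_lit 463) (nat_lit 443) (nat_lit 294)) (XT.lf (nat_lit 0) (nat_lit 119960783531) (nat_lit 228) (nat_lit 129194186695) (nat_lit 76) (nat_lit 27759012804) (nat_lit 49) (nat_lit 5) (nat_lit 52) (nat_lit 5) (nat_lit 50) (nat_lit 5) (nat_lit 464) (nat_lit 443) (nat_lit 293))))))))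
noncomputable def xc192 : XT := (XT.nd (nat_lit 1794) (nat_lit 1140) (nat_lit 0) (XT.nd (nat_lit 858) (nat_lit 760) (nat_lit 0) (XT.nd (nat_lit 390) (nat_lit 608) (nat_lit 0) (XT.nd (nat_lit 156) (nat_lit 304) (nat_lit 0) (XT.nd (nat_lit 78) (nat_lit 0) (nat_lit 0) (XT.lf (nat_lit 0) (nat_lit 34979239055) (nat_lit 152) (nat_lit 153982508351) (nat_lit 228) (nat_lit 101554301995) (nat_lit 47) (nat_lit 5) (nat_lit 49) (nat_lit 5) (nat_lit 50) (nat_lit 5) (nat_lit 465) (nat_lit 443) (nat_lit 292)) (XT.lf (nat_lit 0) (nat_lit 219633678994) (nat_lit 152) (nat_lit 47381351690) (nat_lit 228) (nat_lit 37908671045) (nat_lit 47) (nat_lit 5) (nat_lit 49) (nat_lit 5) (nat_lit 50) (nat_lit 5) (nat_lit 466) (nat_lit 443) (nat_lit 291))) (XT.nd (nat_lit 78) (nat_lit 152) (nat_lit 0) (XT.lf (nat_lit 0) (nat_lit 33476049504) (nat_lit 152) (nat_lit 218952793638) (nat_lit 76) (nat_lit 67660639937) (nat_lit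 45) (nat_lit 5) (nat_lit 47) (nat_lit 5) (nat_lit 46) (nat_lit 5) (nat_lit 467) (nat_lit 443) (nat_lit 290)) (XT.nd (nat_lit 78) (nat_lit 152) (nat_lit 0) (XT.lf (nat_lit 0) (nat_lit 112146585875) (nat_lit 152) (nat_lit 31230047437) (nat_lit 76) (nat_lit 192723275102) (nat_lit 45) (nat_lit 5) (nat_lit 47) (nat_lit 5) (nat_lit 46) (nat_lit 5) (nat_lit 468) (nat_lit 443) (nat_lit 289)) (XT.lf (nat_lit 0) (nat_lit 180541724003) (nat_lit 152) (nat_lit 20910939982) (nat_lit 228) (nat_lit 151591151908) (nat_lit 43) (nat_lit 5) (nat_lit 45) (nat_lit 5) (nat_lit 46) (nat_lit 5) (nat_lit 469) (nat_lit 443) (nat_lit 288))))) (XT.nd (nat_lit 234) (nat_lit 304) (nat_lit 0) (XT.nd (nat_lit 78) (nat_lit 228) (nat_lit 0) (XT.lf (nat_lit 0) (nat_lit 39007271527) (nat_lit 76) (nat_lit 263388033413) (nat_lit 152) (nat_lit 68588564924) (nat_lit 42) (nat_lit 5) (nat_lit 43) (nat_lit 5) (nat_lit 44) (nat_lit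 4) (nat_lit 470) (nat_lit 443) (nat_lit 287)) (XT.nd (nat_lit 78) (nat_lit 152) (nat_lit 0) (XT.lf (nat_lit 0) (nat_lit 25383041984) (nat_lit 152) (nat_lit 113906305604) (nat_lit 76) (nat_lit 250598709744) (nat_lit 41) (nat_lit 5) (nat_lit 43) (nat_lit 5) (nat_lit 42) (nat_lit 5) (nat_lit 471) (nat_lit 443) (nat_lit 286)) (XT.lf (nat_lit 0) (nat_lit 126137803470) (nat_lit 152) (nat_lit 62506556) (nat_lit 228) (nat_lit 283719068366) (nat_lit 39) (nat_lit 5) (nat_lit 41) (nat_lit 5) (nat_lit 42) (nat_lit 5) (nat_lit 472) (nat_lit 443) (nat_lit 285)))) (XT.nd (nat_lit 78) (nat_lit 304) (nat_lit 0) (XT.lf (nat_lit 0) (nat_lit 241892912887) (nat_lit 228) (nat_lit 43136542754) (nat_lit 76) (nat_lit 145978953242) (nat_lit 39) (nat_lit 5) (nat_lit 42) (nat_lit 5) (nat_lit 40) (nat_lit 4) (nat_lit 473) (nat_lit 443) (nat_lit 284)) (XT.nd (nat_lit 78) (nat_lit 228) (nat_lit 0) (XT.lf (nat_lit 0)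 (nat_lit 228172378995) (nat_lit 76) (nat_lit 144157609829) (nat_lit 152) (nat_lit 81015447816) (nat_lit 38) (nat_lit 5) (nat_lit 39) (nat_lit 5) (nat_lit 40) (nat_lit 4) (nat_lit 474) (nat_lit 443) (nat_lit 283)) (XT.lf (nat_lit 0) (nat_lit 36579378259) (nat_lit 228) (nat_lit 429724318616) (nat_lit 76) (nat_lit 10886239066) (nat_lit 35) (nat_lit 5) (nat_lit 38) (nat_lit 5) (nat_lit 36) (nat_lit 4) (nat_lit 475) (nat_lit 443) (nat_lit 282)))))) (XT.nd (nat_lit 468) (nat_lit 456) (nat_lit 0) (XT.nd (nat_lit 234) (nat_lit 228) (nat_lit 0) (XT.nd (nat_lit 78) (nat_lit 76) (nat_lit 0) (XT.lf (nat_lit 0) (nat_lit 169265640632) (nat_lit 228) (nat_lit 153737048631) (nat_lit 76) (nat_lit 178966099052) (nat_lit 35) (nat_lit 5) (nat_lit 38) (nat_lit 5) (nat_lit 36) (nat_lit 4) (nat_lit 476) (nat_lit 443) (nat_lit 281)) (XT.nd (nat_lit 78) (nat_lit 0) (nat_lit 0) (XT.lf (nat_lit 0) (nat_lit 151929129865)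 (nat_lit 76) (nat_lit 164291473609) (nat_lit 152) (nat_lit 212217041458) (nat_lit 34) (nat_lit 5) (nat_lit 35) (nat_lit 5) (nat_lit 36) (nat_lit 4) (nat_lit 477) (nat_lit 443) (nat_lit 280)) (XT.lf (nat_lit 0) (nat_lit 479415643754) (nat_lit 152) (nat_lit 66176490084) (nat_lit 0) (nat_lit 11073181816) (nat_lit 34) (nat_lit 5) (nat_lit 36) (nat_lit 4) (nat_lit 34) (nat_lit 4) (nat_lit 478) (nat_lit 443) (nat_lit 279)))) (XT.nd (nat_lit 78) (nat_lit 76) (nat_lit 0) (XT.lf (nat_lit 0) (nat_lit 76341445893) (nat_lit 152) (nat_lit 309552368959) (nat_lit 76) (nat_lit 200225261165) (nat_lit 32) (nat_lit 5) (nat_lit 34) (nat_lit 5) (nat_lit 33) (nat_lit 4) (nat_lit 479) (nat_lit 443) (nat_lit 278)) (XT.nd (nat_lit 78) (nat_lit 0) (nat_lit 0) (XT.lf (nat_lit 0) (nat_lit 32269064987) (nat_lit 76) (nat_lit 208409659728) (nat_lit 152) (nat_lit 376879304876) (nat_lit 31) (nat_lit 5) (nat_lit 32) (nat_lit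 5) (nat_lit 33) (nat_lit 4) (nat_lit 480) (nat_lit 443) (nat_lit 277)) (XT.lf (nat_lit 0) (nat_lit 419040564106) (nat_lit 76) (nat_lit 7586043911) (nat_lit 152) (nat_lit 224208401665) (nat_lit 31) (nat_lit 5) (nat_lit 32) (nat_lit 5) (nat_lit 33) (nat_lit 4) (nat_lit 481) (nat_lit 443) (nat_lit 276))))) (XT.nd (nat_lit 234) (nat_lit 228) (nat_lit 0) (XT.nd (nat_lit 78) (nat_lit 152) (nat_lit 0) (XT.lf (nat_lit 0) (nat_lit 152578307105) (nat_lit 76) (nat_lit 483575196716) (nat_lit 76) (nat_lit 49924389819) (nat_lit 30) (nat_lit 4) (nat_lit 31) (nat_lit 5) (nat_lit 31) (nat_lit 4) (nat_lit 482) (nat_lit 443) (nat_lit 275)) (XT.nd (nat_lit 78) (nat_lit 76) (nat_lit 0) (XT.lf (nat_lit 0) (nat_lit 138083142437) (nat_lit 152) (nat_lit 146437948542) (nat_lit 76) (nat_lit 438817083945) (nat_lit 29) (nat_lit 5) (nat_lit 31) (nat_lit 5) (nat_lit 30) (nat_lit 4) (nat_lit 483) (nat_lit 443) (nat_lit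 274)) (XT.lf (nat_lit 0) (nat_lit 284524818901) (nat_lit 76) (nat_lit 60751996414) (nat_lit 152) (nat_lit 417651304263) (nat_lit 28) (nat_lit 5) (nat_lit 29) (nat_lit 5) (nat_lit 30) (nat_lit 4) (nat_lit 484) (nat_lit 443) (nat_lit 273)))) (XT.nd (nat_lit 78) (nat_lit 228) (nat_lit 0) (XT.lf (nat_lit 0) (nat_lit 577504872695) (nat_lit 152) (nat_lit 51527528862) (nat_lit 0) (nat_lit 175976146998) (nat_lit 28) (nat_lit 5) (nat_lit 30) (nat_lit 4) (nat_lit 28) (nat_lit 4) (nat_lit 485) (nat_lit 443) (nat_lit 272)) (XT.nd (nat_lit 78) (nat_lit 152) (nat_lit 0) (XT.lf (nat_lit 0) (nat_lit 429400547718) (nat_lit 76) (nat_lit 410815623682) (nat_lit 76) (nat_lit 9286840716) (nat_lit 27) (nat_lit 4) (nat_lit 28) (nat_lit 5) (nat_lit 28) (nat_lit 4) (nat_lit 486) (nat_lit 443) (nat_lit 271)) (XT.lf (nat_lit 0) (nat_lit 51377732073) (nat_lit 76) (nat_lit 166365810266) (nat_lit 152) (nat_lit 679163439725)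 (nat_lit 25) (nat_lit 5) (nat_lit 26) (nat_lit 5) (nat_lit 27) (nat_lit 4) (nat_lit 487) (nat_lit 443) (nat_lit 270))))))) (XT.nd (nat_lit 858) (nat_lit 608) (nat_lit 0) (XT.nd (nat_lit 390) (nat_lit 304) (nat_lit 0) (XT.nd (nat_lit 156) (nat_lit 152) (nat_lit 0) (XT.nd (nat_lit 78) (nat_lit 76) (nat_lit 0) (XT.lf (nat_lit 0) (nat_lit 476567491935) (nat_lit 152) (nat_lit 365604363805) (nat_lit 0) (nat_lit 104781487219) (nat_lit 25) (nat_lit 5) (nat_lit 27) (nat_lit 4) (nat_lit 25) (nat_lit 4) (nat_lit 488) (nat_lit 443) (nat_lit 269)) (XT.lf (nat_lit 0) (nat_lit 156207318161) (nat_lit 76) (nat_lit 607967954099) (nat_lit 76) (nat_lit 236181907288) (nat_lit 24) (nat_lit 4) (nat_lit 25) (nat_lit 5) (nat_lit 25) (nat_lit 4) (nat_lit 489) (nat_lit 443) (nat_lit 268))) (XT.nd (nat_lit 78) (nat_lit 76) (nat_lit 0) (XT.lf (nat_lit 0) (nat_lit 26175881222) (nat_lit 152) (nat_lit 317340252843) (nat_lit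 76) (nat_lit 713664477907) (nat_lit 23) (nat_lit 5) (nat_lit 25) (nat_lit 5) (nat_lit 24) (nat_lit 4) (nat_lit 490) (nat_lit 443) (nat_lit 267)) (XT.nd (nat_lit 78) (nat_lit 0) (nat_lit 0) (XT.lf (nat_lit 0) (nat_lit 258405921517) (nat_lit 76) (nat_lit 44571022421) (nat_lit 152) (nat_lit 814585038758) (nat_lit 22) (nat_lit 5) (nat_lit 23) (nat_lit 5) (nat_lit 24) (nat_lit 4) (nat_lit 491) (nat_lit 443) (nat_lit 266)) (XT.lf (nat_lit 0) (nat_lit 617516918257) (nat_lit 152) (nat_lit 290738880526) (nat_lit 0) (nat_lit 273270478172) (nat_lit 22) (nat_lit 5) (nat_lit 24) (nat_lit 4) (nat_lit 22) (nat_lit 4) (nat_lit 492) (nat_lit 443) (nat_lit 265))))) (XT.nd (nat_lit 234) (nat_lit 76) (nat_lit 0) (XT.nd (nat_lit 78) (nat_lit 152) (nat_lit 0) (XT.lf (nat_lit 0) (nat_lit 338949502460) (nat_lit 76) (nat_lit 627579965421) (nat_lit 76) (nat_lit 283333496686) (nat_lit 21) (nat_lit 4) (nat_lit 22)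 (nat_lit 5) (nat_lit 22) (nat_lit 4) (nat_lit 493) (nat_lit 443) (nat_lit 264)) (XT.nd (nat_lit 78) (nat_lit 76) (nat_lit 0) (XT.lf (nat_lit 0) (nat_lit 26961873333) (nat_lit 152) (nat_lit 288165798726) (nat_lit 76) (nat_lit 1007848367804) (nat_lit 20) (nat_lit 5) (nat_lit 22) (nat_lit 5) (nat_lit 21) (nat_lit 4) (nat_lit 494) (nat_lit 443) (nat_lit 263)) (XT.lf (nat_lit 0) (nat_lit 357294724974) (nat_lit 152) (nat_lit 1004665046312) (nat_lit 0) (nat_lit 38547947360) (nat_lit 19) (nat_lit 5) (nat_lit 21) (nat_lit 4) (nat_lit 19) (nat_lit 4) (nat_lit 495) (nat_lit 443) (nat_lit 262)))) (XT.nd (nat_lit 78) (nat_lit 76) (nat_lit 0) (XT.lf (nat_lit 0) (nat_lit 730322900266) (nat_lit 152) (nat_lit 341041434230) (nat_lit 0) (nat_lit 411576101594) (nat_lit 19) (nat_lit 5) (nat_lit 21) (nat_lit 4) (nat_lit 19) (nat_lit 4) (nat_lit 496) (nat_lit 443) (nat_lit 261)) (XT.nd (nat_lit 78) (nat_lit 0)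 (nat_lit 0) (XT.lf (nat_lit 0) (nat_lit 395454192462) (nat_lit 76) (nat_lit 747249772889) (nat_lit 76) (nat_lit 428502954719) (nat_lit 18) (nat_lit 4) (nat_lit 19) (nat_lit 5) (nat_lit 19) (nat_lit 4) (nat_lit 497) (nat_lit 443) (nat_lit 260)) (XT.lf (nat_lit 0) (nat_lit 1210264705577) (nat_lit 76) (nat_lit 387135441452) (nat_lit 76) (nat_lit 68388605229) (nat_lit 18) (nat_lit 4) (nat_lit 19) (nat_lit 5) (nat_lit 19) (nat_lit 4) (nat_lit 498) (nat_lit 443) (nat_lit 259)))))) (XT.nd (nat_lit 468) (nat_lit 228) (nat_lit 0) (XT.nd (nat_lit 234) (nat_lit 152) (nat_lit 0) (XT.nd (nat_lit 78) (nat_lit 76) (nat_lit 0) (XT.lf (nat_lit 0) (nat_lit 312915418326) (nat_lit 152) (nat_lit 1435952361200) (nat_lit 0) (nat_lit 17779443382) (nat_lit 16) (nat_lit 5) (nat_lit 18) (nat_lit 4) (nat_lit 16) (nat_lit 4) (nat_lit 499) (nat_lit 443) (nat_lit 258)) (XT.nd (nat_lit 78) (nat_lit 76) (nat_lit 0) (XT.lf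 (nat_lit 0) (nat_lit 743862762278) (nat_lit 152) (nat_lit 681016028973) (nat_lit 0) (nat_lit 448726773003) (nat_lit 16) (nat_lit 5) (nat_lit 18) (nat_lit 4) (nat_lit 16) (nat_lit 4) (nat_lit 500) (nat_lit 443) (nat_lit 257)) (XT.lf (nat_lit 0) (nat_lit 141387925125) (nat_lit 76) (nat_lit 1071298311452) (nat_lit 76) (nat_lit 776162308907) (nat_lit 15) (nat_lit 4) (nat_lit 16) (nat_lit 5) (nat_lit 16) (nat_lit 4) (nat_lit 501) (nat_lit 443) (nat_lit 256)))) (XT.nd (nat_lit 78) (nat_lit 152) (nat_lit 0) (XT.lf (nat_lit 0) (nat_lit 1068314101264) (nat_lit 76) (nat_lit 669321633551) (nat_lit 76) (nat_lit 374185618718) (nat_lit 15) (nat_lit 4) (nat_lit 16) (nat_lit 5) (nat_lit 16) (nat_lit 4) (nat_lit 502) (nat_lit 443) (nat_lit 255)) (XT.nd (nat_lit 78) (nat_lit 76) (nat_lit 0) (XT.lf (nat_lit 0) (nat_lit 56950267424) (nat_lit 152) (nat_lit 176679469965) (nat_lit 76) (nat_lit 2010886909421)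 (nat_lit 14) (nat_lit 5) (nat_lit 16) (nat_lit 5) (nat_lit 15) (nat_lit 4) (nat_lit 503) (nat_lit 443) (nat_lit 254)) (XT.lf (nat_lit 0) (nat_lit 527786247485) (nat_lit 152) (nat_lit 1602717650874) (nat_lit 0) (nat_lit 254512139389) (nat_lit 13) (nat_lit 5) (nat_lit 15) (nat_lit 4) (nat_lit 13) (nat_lit 4) (nat_lit 504) (nat_lit 443) (nat_lit 253))))) (XT.nd (nat_lit 234) (nat_lit 152) (nat_lit 0) (XT.nd (nat_lit 78) (nat_lit 76) (nat_lit 0) (XT.lf (nat_lit 0) (nat_lit 1047313579818) (nat_lit 152) (nat_lit 714520379543) (nat_lit 0) (nat_lit 774039462691) (nat_lit 13) (nat_lit 5) (nat_lit 15) (nat_lit 4) (nat_lit 13) (nat_lit 4) (nat_lit 505) (nat_lit 443) (nat_lit 252)) (XT.nd (nat_lit 78) (nat_lit 0) (nat_lit 0) (XT.lf (nat_lit 0) (nat_lit 257619794275) (nat_lit 76) (nat_lit 1356979034939) (nat_lit 76) (nat_lit 1083704909449) (nat_lit 12) (nat_lit 4) (nat_lit 13) (nat_lit 5) (nat_lit 13)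 (nat_lit 4) (nat_lit 506) (nat_lit 443) (nat_lit 251)) (XT.lf (nat_lit 0) (nat_lit 1348166526048) (nat_lit 76) (nat_lit 898636594995) (nat_lit 76) (nat_lit 625362461763) (nat_lit 12) (nat_lit 4) (nat_lit 13) (nat_lit 5) (nat_lit 13) (nat_lit 4) (nat_lit 507) (nat_lit 443) (nat_lit 250)))) (XT.nd (nat_lit 78) (nat_lit 152) (nat_lit 0) (XT.lf (nat_lit 0) (nat_lit 2525956937977) (nat_lit 76) (nat_lit 403626789598) (nat_lit 76) (nat_lit 130352649196) (nat_lit 12) (nat_lit 4) (nat_lit 13) (nat_lit 5) (nat_lit 13) (nat_lit 4) (nat_lit 508) (nat_lit 443) (nat_lit 249)) (XT.nd (nat_lit 78) (nat_lit 0) (nat_lit 0) (XT.lf (nat_lit 0) (nat_lit 401087845836) (nat_lit 152) (nat_lit 2711442765757) (nat_lit 0) (nat_lit 148056228207) (nat_lit 10) (nat_lit 5) (nat_lit 12) (nat_lit 4) (nat_lit 10) (nat_lit 4) (nat_lit 509) (nat_lit 443) (nat_lit 248)) (XT.lf (nat_lit 0) (nat_lit 993464100668) (nat_lit 152)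 (nat_lit 1741084863287) (nat_lit 0) (nat_lit 740432477347) (nat_lit 10) (nat_lit 5) (nat_lit 12) (nat_lit 4) (nat_lit 10) (nat_lit 4) (nat_lit 510) (nat_lit 443) (nat_lit 247))))))))
noncomputable def xc193 : XT := (XT.nd (nat_lit 57798) (nat_lit 0) (nat_lit 2660) (XT.nd (nat_lit 858) (nat_lit 152) (nat_lit 0) (XT.nd (nat_lit 390) (nat_lit 152) (nat_lit 0) (XT.nd (nat_lit 156) (nat_lit 76) (nat_lit 0) (XT.nd (nat_lit 78) (nat_lit 76) (nat_lit 0) (XT.lf (nat_lit 0) (nat_lit 1633230430739) (nat_lit 152) (nat_lit 693098380049) (nat_lit 0) (nat_lit 1380198802148) (nat_lit 10) (nat_lit 5) (nat_lit 12) (nat_lit 4) (nat_lit 10) (nat_lit 4) (nat_lit 511) (nat_lit 443) (nat_lit 246)) (XT.lf (nat_lit 0) (nat_lit 461829559197) (nat_lit 76) (nat_lit 1873455496738) (nat_lit 76) (nat_lit 1620423863268) (nat_lit 9) (nat_lit 4) (nat_lit 10) (nat_lit 5) (nat_lit 10) (nat_lit 4) (nat_lit 512) (nat_lit 443)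 (nat_lit 245))) (XT.nd (nat_lit 78) (nat_lit 76) (nat_lit 0) (XT.lf (nat_lit 0) (nat_lit 1748568806180) (nat_lit 76) (nat_lit 1363885760278) (nat_lit 76) (nat_lit 1110854122290) (nat_lit 9) (nat_lit 4) (nat_lit 10) (nat_lit 5) (nat_lit 10) (nat_lit 4) (nat_lit 513) (nat_lit 443) (nat_lit 244)) (XT.nd (nat_lit 78) (nat_lit 76) (nat_lit 0) (XT.lf (nat_lit 0) (nat_lit 3138247149944) (nat_lit 76) (nat_lit 813550466882) (nat_lit 76) (nat_lit 560518824711) (nat_lit 9) (nat_lit 4) (nat_lit 10) (nat_lit 5) (nat_lit 10) (nat_lit 4) (nat_lit 514) (nat_lit 443) (nat_lit 243)) (XT.lf (nat_lit 0) (nat_lit 32150297961) (nat_lit 152) (nat_lit 186159026283) (nat_lit 76) (nat_lit 4606070377331) (nat_lit 8) (nat_lit 5) (nat_lit 10) (nat_lit 5) (nat_lit 9) (nat_lit 4) (nat_lit 515) (nat_lit 443) (nat_lit 242))))) (XT.nd (nat_lit 234) (nat_lit 76) (nat_lit 0) (XT.nd (nat_lit 78) (nat_lit 0) (nat_lit 0) (XT.lf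 (nat_lit 0) (nat_lit 680648717137) (nat_lit 152) (nat_lit 4030138570804) (nat_lit 0) (nat_lit 446360152664) (nat_lit 7) (nat_lit 5) (nat_lit 9) (nat_lit 4) (nat_lit 7) (nat_lit 4) (nat_lit 516) (nat_lit 443) (nat_lit 241)) (XT.nd (nat_lit 78) (nat_lit 0) (nat_lit 0) (XT.lf (nat_lit 0) (nat_lit 1391919486798) (nat_lit 152) (nat_lit 2966114794553) (nat_lit 0) (nat_lit 1157630919250) (nat_lit 7) (nat_lit 5) (nat_lit 9) (nat_lit 4) (nat_lit 7) (nat_lit 4) (nat_lit 517) (nat_lit 443) (nat_lit 240)) (XT.lf (nat_lit 0) (nat_lit 2160091900957) (nat_lit 152) (nat_lit 1816969151245) (nat_lit 0) (nat_lit 1925803330562) (nat_lit 7) (nat_lit 5) (nat_lit 9) (nat_lit 4) (nat_lit 7) (nat_lit 4) (nat_lit 518) (nat_lit 443) (nat_lit 239)))) (XT.nd (nat_lit 78) (nat_lit 76) (nat_lit 0) (XT.lf (nat_lit 0) (nat_lit 2989718092437) (nat_lit 152) (nat_lit 575891888919) (nat_lit 0) (nat_lit 2755429519406) (nat_lit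 7) (nat_lit 5) (nat_lit 9) (nat_lit 4) (nat_lit 7) (nat_lit 4) (nat_lit 519) (nat_lit 443) (nat_lit 238)) (XT.nd (nat_lit 78) (nat_lit 0) (nat_lit 0) (XT.lf (nat_lit 0) (nat_lit 804727240059) (nat_lit 76) (nat_lit 3100340834015) (nat_lit 76) (nat_lit 2866052258543) (nat_lit 6) (nat_lit 4) (nat_lit 7) (nat_lit 5) (nat_lit 7) (nat_lit 4) (nat_lit 520) (nat_lit 443) (nat_lit 237)) (XT.lf (nat_lit 0) (nat_lit 2328547352081) (nat_lit 76) (nat_lit 2580844592713) (nat_lit 76) (nat_lit 2346556014981) (nat_lit 6) (nat_lit 4) (nat_lit 7) (nat_lit 5) (nat_lit 7) (nat_lit 4) (nat_lit 521) (nat_lit 443) (nat_lit 236)))))) (XT.nd (nat_lit 56472) (nat_lit 0) (nat_lit 5168) (XT.nd (nat_lit 234) (nat_lit 152) (nat_lit 0) (XT.nd (nat_lit 78) (nat_lit 0) (nat_lit 0) (XT.lf (nat_lit 0) (nat_lit 3974273045949) (nat_lit 76) (nat_lit 2019788666018) (nat_lit 76) (nat_lit 1785500086193) (nat_lit 6) (nat_lit 4)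 (nat_lit 7) (nat_lit 5) (nat_lit 7) (nat_lit 4) (nat_lit 522) (nat_lit 443) (nat_lit 235)) (XT.nd (nat_lit 78) (nat_lit 0) (nat_lit 0) (XT.lf (nat_lit 0) (nat_lit 5751656770222) (nat_lit 76) (nat_lit 1413848278068) (nat_lit 76) (nat_lit 1179559696306) (nat_lit 6) (nat_lit 4) (nat_lit 7) (nat_lit 5) (nat_lit 7) (nat_lit 4) (nat_lit 523) (nat_lit 443) (nat_lit 234)) (XT.lf (nat_lit 0) (nat_lit 7671231169190) (nat_lit 76) (nat_lit 759432671009) (nat_lit 76) (nat_lit 525144087453) (nat_lit 6) (nat_lit 4) (nat_lit 7) (nat_lit 5) (nat_lit 7) (nat_lit 4) (nat_lit 524) (nat_lit 443) (nat_lit 233)))) (XT.nd (nat_lit 78) (nat_lit 0) (nat_lit 0) (XT.lf (nat_lit 0) (nat_lit 131153691359) (nat_lit 76) (nat_lit 44539710840) (nat_lit 152) (nat_lit 9439115377651) (nat_lit 4) (nat_lit 5) (nat_lit 5) (nat_lit 5) (nat_lit 6) (nat_lit 4) (nat_lit 525) (nat_lit 443) (nat_lit 232)) (XT.nd (nat_lit 56082) (nat_lit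 0) (nat_lit 5624) (XT.lf (nat_lit 0) (nat_lit 957758807153) (nat_lit 152) (nat_lit 8622572167095) (nat_lit 0) (nat_lit 740824930528) (nat_lit 4) (nat_lit 5) (nat_lit 6) (nat_lit 4) (nat_lit 4) (nat_lit 4) (nat_lit 526) (nat_lit 443) (nat_lit 231)) (XT.lf (nat_lit 0) (nat_lit 57118689699) (nat_lit 532) (nat_lit 1456672098) (nat_lit 532) (nat_lit 1456672098) (nat_lit 78) (nat_lit 3) (nat_lit 85) (nat_lit 3) (nat_lit 85) (nat_lit 5) (nat_lit 444) (nat_lit 444) (nat_lit 312))))) (XT.nd (nat_lit 234) (nat_lit 0) (nat_lit 0) (XT.nd (nat_lit 78) (nat_lit 456) (nat_lit 0) (XT.lf (nat_lit 76) (nat_lit 59368962439) (nat_lit 0) (nat_lit 60870010792) (nat_lit 532) (nat_lit 4513087660) (nat_lit 79) (nat_lit 5) (nat_lit 78) (nat_lit 3) (nat_lit 85) (nat_lit 5) (nat_lit 445) (nat_lit 444) (nat_lit 311)) (XT.nd (nat_lit 78) (nat_lit 456) (nat_lit 0) (XT.lf (nat_lit 76) (nat_lit 126799294932) (nat_lit 0)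 (nat_lit 622211) (nat_lit 532) (nat_lit 3008838664) (nat_lit 79) (nat_lit 5) (nat_lit 78) (nat_lit 3) (nat_lit 85) (nat_lit 5) (nat_lit 446) (nat_lit 444) (nat_lit 310)) (XT.lf (nat_lit 0) (nat_lit 1937124033) (nat_lit 532) (nat_lit 68987141665) (nat_lit 608) (nat_lit 64088213823) (nat_lit 72) (nat_lit 5) (nat_lit 79) (nat_lit 5) (nat_lit 80) (nat_lit 5) (nat_lit 447) (nat_lit 444) (nat_lit 309)))) (XT.nd (nat_lit 78) (nat_lit 0) (nat_lit 76) (XT.lf (nat_lit 76) (nat_lit 50077448) (nat_lit 0) (nat_lit 7151388976) (nat_lit 608) (nat_lit 133417962064) (nat_lit 73) (nat_lit 5) (nat_lit 72) (nat_lit 5) (nat_lit 80) (nat_lit 5) (nat_lit 448) (nat_lit 444) (nat_lit 308)) (XT.nd (nat_lit 78) (nat_lit 0) (nat_lit 0) (XT.lf (nat_lit 0) (nat_lit 16306267762) (nat_lit 532) (nat_lit 69524140915) (nat_lit 608) (nat_lit 60570979898) (nat_lit 73) (nat_lit 5) (nat_lit 80) (nat_lit 5) (nat_lit 81) (nat_lit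 5) (nat_lit 449) (nat_lit 444) (nat_lit 307)) (XT.lf (nat_lit 76) (nat_lit 7388248278) (nat_lit 0) (nat_lit 19114310025) (nat_lit 608) (nat_lit 126114298874) (nat_lit 74) (nat_lit 5) (nat_lit 73) (nat_lit 5) (nat_lit 81) (nat_lit 5) (nat_lit 450) (nat_lit 444) (nat_lit 306))))))) (XT.nd (nat_lit 936) (nat_lit 1140) (nat_lit 0) (XT.nd (nat_lit 468) (nat_lit 608) (nat_lit 0) (XT.nd (nat_lit 234) (nat_lit 456) (nat_lit 0) (XT.nd (nat_lit 78) (nat_lit 456) (nat_lit 0) (XT.lf (nat_lit 0) (nat_lit 40737712139) (nat_lit 532) (nat_lit 66092819340) (nat_lit 76) (nat_lit 52241179093) (nat_lit 74) (nat_lit 5) (nat_lit 81) (nat_lit 5) (nat_lit 75) (nat_lit 5) (nat_lit 451) (nat_lit 444) (nat_lit 305)) (XT.nd (nat_lit 78) (nat_lit 0) (nat_lit 0) (XT.lf (nat_lit 0) (nat_lit 19871116720) (nat_lit 456) (nat_lit 37214647608) (nat_lit 532) (nat_lit 108879261127) (nat_lit 68) (nat_lit 5) (nat_lit 74) (nat_lit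 5) (nat_lit 75) (nat_lit 5) (nat_lit 452) (nat_lit 444) (nat_lit 304)) (XT.lf (nat_lit 0) (nat_lit 77508609507) (nat_lit 532) (nat_lit 57754732367) (nat_lit 76) (nat_lit 37925107841) (nat_lit 68) (nat_lit 5) (nat_lit 75) (nat_lit 5) (nat_lit 69) (nat_lit 5) (nat_lit 453) (nat_lit 444) (nat_lit 303)))) (XT.nd (nat_lit 78) (nat_lit 228) (nat_lit 0) (XT.lf (nat_lit 0) (nat_lit 38616446263) (nat_lit 228) (nat_lit 62843921975) (nat_lit 304) (nat_lit 79377772891) (nat_lit 65) (nat_lit 5) (nat_lit 68) (nat_lit 5) (nat_lit 69) (nat_lit 5) (nat_lit 454) (nat_lit 444) (nat_lit 302)) (XT.nd (nat_lit 78) (nat_lit 228) (nat_lit 0) (XT.lf (nat_lit 0) (nat_lit 129317783831) (nat_lit 304) (nat_lit 43402519445) (nat_lit 76) (nat_lit 16220343366) (nat_lit 65) (nat_lit 5) (nat_lit 69) (nat_lit 5) (nat_lit 66) (nat_lit 5) (nat_lit 455) (nat_lit 444) (nat_lit 301)) (XT.lf (nat_lit 0) (nat_lit 64938086392) (nat_lit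 228) (nat_lit 97659553806) (nat_lit 304) (nat_lit 34838204669) (nat_lit 62) (nat_lit 5) (nat_lit 65) (nat_lit 5) (nat_lit 66) (nat_lit 5) (nat_lit 456) (nat_lit 444) (nat_lit 300))))) (XT.nd (nat_lit 234) (nat_lit 152) (nat_lit 0) (XT.nd (nat_lit 78) (nat_lit 456) (nat_lit 0) (XT.lf (nat_lit 0) (nat_lit 184414026982) (nat_lit 228) (nat_lit 15312345763) (nat_lit 304) (nat_lit 6789367260) (nat_lit 62) (nat_lit 5) (nat_lit 65) (nat_lit 5) (nat_lit 66) (nat_lit 5) (nat_lit 457) (nat_lit 444) (nat_lit 299)) (XT.nd (nat_lit 78) (nat_lit 228) (nat_lit 0) (XT.lf (nat_lit 0) (nat_lit 26620812067) (nat_lit 228) (nat_lit 116284840133) (nat_lit 76) (nat_lit 73027700546) (nat_lit 59) (nat_lit 5) (nat_lit 62) (nat_lit 5) (nat_lit 60) (nat_lit 5) (nat_lit 458) (nat_lit 444) (nat_lit 298)) (XT.lf (nat_lit 0) (nat_lit 6052415838) (nat_lit 228) (nat_lit 57447672601) (nat_lit 304) (nat_lit 162497131556) (nat_lit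 56) (nat_lit 5) (nat_lit 59) (nat_lit 5) (nat_lit 60) (nat_lit 5) (nat_lit 459) (nat_lit 444) (nat_lit 297)))) (XT.nd (nat_lit 78) (nat_lit 152) (nat_lit 0) (XT.lf (nat_lit 0) (nat_lit 107429604907) (nat_lit 304) (nat_lit 92742881166) (nat_lit 76) (nat_lit 36365718761) (nat_lit 56) (nat_lit 5) (nat_lit 60) (nat_lit 5) (nat_lit 57) (nat_lit 5) (nat_lit 460) (nat_lit 444) (nat_lit 296)) (XT.nd (nat_lit 78) (nat_lit 0) (nat_lit 0) (XT.lf (nat_lit 0) (nat_lit 45414630546) (nat_lit 152) (nat_lit 112043048197) (nat_lit 228) (nat_lit 90258054080) (nat_lit 54) (nat_lit 5) (nat_lit 56) (nat_lit 5) (nat_lit 57) (nat_lit 5) (nat_lit 461) (nat_lit 444) (nat_lit 295)) (XT.lf (nat_lit 0) (nat_lit 199898877615) (nat_lit 152) (nat_lit 14124708599) (nat_lit 228) (nat_lit 45561029863) (nat_lit 54) (nat_lit 5) (nat_lit 56) (nat_lit 5) (nat_lit 57) (nat_lit 5) (nat_lit 462) (nat_lit 444) (nat_lit 294))))))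 (XT.nd (nat_lit 468) (nat_lit 456) (nat_lit 0) (XT.nd (nat_lit 234) (nat_lit 304) (nat_lit 0) (XT.nd (nat_lit 78) (nat_lit 152) (nat_lit 0) (XT.lf (nat_lit 0) (nat_lit 7229930838) (nat_lit 228) (nat_lit 175236508453) (nat_lit 76) (nat_lit 89559047105) (nat_lit 51) (nat_lit 5) (nat_lit 54) (nat_lit 5) (nat_lit 52) (nat_lit 5) (nat_lit 463) (nat_lit 444) (nat_lit 293)) (XT.nd (nat_lit 78) (nat_lit 152) (nat_lit 0) (XT.lf (nat_lit 0) (nat_lit 63823712283) (nat_lit 228) (nat_lit 17747918235) (nat_lit 76) (nat_lit 203632041756) (nat_lit 51) (nat_lit 5) (nat_lit 54) (nat_lit 5) (nat_lit 52) (nat_lit 5) (nat_lit 464) (nat_lit 444) (nat_lit 292)) (XT.lf (nat_lit 0) (nat_lit 129560568051) (nat_lit 228) (nat_lit 139525130008) (nat_lit 76) (nat_lit 29981169250) (nat_lit 49) (nat_lit 5) (nat_lit 52) (nat_lit 5) (nat_lit 50) (nat_lit 5) (nat_lit 465) (nat_lit 444) (nat_lit 291)))) (XT.nd (nat_lit 78)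 (nat_lit 152) (nat_lit 0) (XT.lf (nat_lit 0) (nat_lit 37782053558) (nat_lit 152) (nat_lit 166299446677) (nat_lit 228) (nat_lit 109675607503) (nat_lit 47) (nat_lit 5) (nat_lit 49) (nat_lit 5) (nat_lit 50) (nat_lit 5) (nat_lit 466) (nat_lit 444) (nat_lit 290)) (XT.nd (nat_lit 78) (nat_lit 152) (nat_lit 0) (XT.lf (nat_lit 0) (nat_lit 237208517183) (nat_lit 152) (nat_lit 51170320620) (nat_lit 228) (nat_lit 40938551163) (nat_lit 47) (nat_lit 5) (nat_lit 49) (nat_lit 5) (nat_lit 50) (nat_lit 5) (nat_lit 467) (nat_lit 444) (nat_lit 289)) (XT.lf (nat_lit 0) (nat_lit 36156747258) (nat_lit 152) (nat_lit 236464672545) (nat_lit 76) (nat_lit 73075012367) (nat_lit 45) (nat_lit 5) (nat_lit 47) (nat_lit 5) (nat_lit 46) (nat_lit 5) (nat_lit 468) (nat_lit 444) (nat_lit 288))))) (XT.nd (nat_lit 234) (nat_lit 228) (nat_lit 0) (XT.nd (nat_lit 78) (nat_lit 228) (nat_lit 0) (XT.lf (nat_lit 0) (nat_lit 121120732924)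 (nat_lit 152) (nat_lit 33724428468) (nat_lit 76) (nat_lit 208142545661) (nat_lit 45) (nat_lit 5) (nat_lit 47) (nat_lit 5) (nat_lit 46) (nat_lit 5) (nat_lit 469) (nat_lit 444) (nat_lit 287)) (XT.nd (nat_lit 78) (nat_lit 76) (nat_lit 0) (XT.lf (nat_lit 0) (nat_lit 194988982845) (nat_lit 152) (nat_lit 22582229464) (nat_lit 228) (nat_lit 163715921650) (nat_lit 43) (nat_lit 5) (nat_lit 45) (nat_lit 5) (nat_lit 46) (nat_lit 5) (nat_lit 470) (nat_lit 444) (nat_lit 286)) (XT.lf (nat_lit 0) (nat_lit 42131820202) (nat_lit 76) (nat_lit 284457402077) (nat_lit 152) (nat_lit 74073173379) (nat_lit 42) (nat_lit 5) (nat_lit 43) (nat_lit 5) (nat_lit 44) (nat_lit 4) (nat_lit 471) (nat_lit 444) (nat_lit 285)))) (XT.nd (nat_lit 78) (nat_lit 152) (nat_lit 0) (XT.lf (nat_lit 0) (nat_lit 27415863900) (nat_lit 152) (nat_lit 123015021921) (nat_lit 76) (nat_lit 270648041504) (nat_lit 41) (nat_lit 5) (nat_lit 43)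 (nat_lit 5) (nat_lit 42) (nat_lit 5) (nat_lit 472) (nat_lit 444) (nat_lit 284)) (XT.nd (nat_lit 78) (nat_lit 0) (nat_lit 0) (XT.lf (nat_lit 0) (nat_lit 136232519977) (nat_lit 152) (nat_lit 65920832) (nat_lit 228) (nat_lit 306414319090) (nat_lit 39) (nat_lit 5) (nat_lit 41) (nat_lit 5) (nat_lit 42) (nat_lit 5) (nat_lit 473) (nat_lit 444) (nat_lit 283)) (XT.lf (nat_lit 0) (nat_lit 261246331224) (nat_lit 228) (nat_lit 46583926504) (nat_lit 76) (nat_lit 157658664777) (nat_lit 39) (nat_lit 5) (nat_lit 42) (nat_lit 5) (nat_lit 40) (nat_lit 4) (nat_lit 474) (nat_lit 444) (nat_lit 282))))))))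
noncomputable def xc194 : XT := (XT.nd (nat_lit 1794) (nat_lit 988) (nat_lit 0) (XT.nd (nat_lit 858) (nat_lit 684) (nat_lit 0) (XT.nd (nat_lit 390) (nat_lit 456) (nat_lit 0) (XT.nd (nat_lit 156) (nat_lit 76) (nat_lit 0) (XT.nd (nat_lit 78) (nat_lit 228) (nat_lit 0) (XT.lf (nat_lit 0) (nat_lit 246429619373) (nat_lit 76) (nat_lit 155688689778) (nat_lit 152) (nat_lit 87494608478) (nat_lit 38) (nat_lit 5) (nat_lit 39) (nat_lit 5) (nat_lit 40) (nat_lit 4) (nat_lit 475) (nat_lit 444) (nat_lit 281)) (XT.lf (nat_lit 0) (nat_lit 39507674570) (nat_lit 228) (nat_lit 464098684496) (nat_lit 76) (nat_lit 11758615856) (nat_lit 35) (nat_lit 5) (nat_lit 38) (nat_lit 5) (nat_lit 36) (nat_lit 4) (nat_lit 476) (nat_lit 444) (nat_lit 280))) (XT.nd (nat_lit 78) (nat_lit 76) (nat_lit 0) (XT.lf (nat_lit 0) (nat_lit 182808693781) (nat_lit 228) (nat_lit 166032698069) (nat_lit 76) (nat_lit 193284755184) (nat_lit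 35) (nat_lit 5) (nat_lit 38) (nat_lit 5) (nat_lit 36) (nat_lit 4) (nat_lit 477) (nat_lit 444) (nat_lit 279)) (XT.nd (nat_lit 78) (nat_lit 0) (nat_lit 0) (XT.lf (nat_lit 0) (nat_lit 164086690796) (nat_lit 76) (nat_lit 177433307074) (nat_lit 152) (nat_lit 229192518786) (nat_lit 34) (nat_lit 5) (nat_lit 35) (nat_lit 5) (nat_lit 36) (nat_lit 4) (nat_lit 478) (nat_lit 444) (nat_lit 278)) (XT.lf (nat_lit 0) (nat_lit 517770545087) (nat_lit 152) (nat_lit 71467521595) (nat_lit 0) (nat_lit 11960342071) (nat_lit 34) (nat_lit 5) (nat_lit 36) (nat_lit 4) (nat_lit 34) (nat_lit 4) (nat_lit 479) (nat_lit 444) (nat_lit 277))))) (XT.nd (nat_lit 234) (nat_lit 228) (nat_lit 0) (XT.nd (nat_lit 78) (nat_lit 76) (nat_lit 0) (XT.lf (nat_lit 0) (nat_lit 82450403272) (nat_lit 152) (nat_lit 334313462358) (nat_lit 76) (nat_lit 216244604990) (nat_lit 32) (nat_lit 5) (nat_lit 34) (nat_lit 5) (nat_lit 33) (nat_lit 4)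 (nat_lit 480) (nat_lit 444) (nat_lit 276)) (XT.nd (nat_lit 78) (nat_lit 0) (nat_lit 0) (XT.lf (nat_lit 0) (nat_lit 34853607921) (nat_lit 76) (nat_lit 225081007446) (nat_lit 152) (nat_lit 407027929044) (nat_lit 31) (nat_lit 5) (nat_lit 32) (nat_lit 5) (nat_lit 33) (nat_lit 4) (nat_lit 481) (nat_lit 444) (nat_lit 275)) (XT.lf (nat_lit 0) (nat_lit 452566603434) (nat_lit 76) (nat_lit 8191607924) (nat_lit 152) (nat_lit 242143481000) (nat_lit 31) (nat_lit 5) (nat_lit 32) (nat_lit 5) (nat_lit 33) (nat_lit 4) (nat_lit 482) (nat_lit 444) (nat_lit 274)))) (XT.nd (nat_lit 78) (nat_lit 152) (nat_lit 0) (XT.lf (nat_lit 0) (nat_lit 164787379311) (nat_lit 76) (nat_lit 522259867185) (nat_lit 76) (nat_lit 53916761532) (nat_lit 30) (nat_lit 4) (nat_lit 31) (nat_lit 5) (nat_lit 31) (nat_lit 4) (nat_lit 483) (nat_lit 444) (nat_lit 273)) (XT.nd (nat_lit 78) (nat_lit 76) (nat_lit 0) (XT.lf (nat_lit 0) (nat_lit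 149131183148) (nat_lit 152) (nat_lit 158150311504) (nat_lit 76) (nat_lit 473923623024) (nat_lit 29) (nat_lit 5) (nat_lit 31) (nat_lit 5) (nat_lit 30) (nat_lit 4) (nat_lit 484) (nat_lit 444) (nat_lit 272)) (XT.lf (nat_lit 0) (nat_lit 307289409665) (nat_lit 76) (nat_lit 65610899934) (nat_lit 152) (nat_lit 451061951530) (nat_lit 28) (nat_lit 5) (nat_lit 29) (nat_lit 5) (nat_lit 30) (nat_lit 4) (nat_lit 485) (nat_lit 444) (nat_lit 271)))))) (XT.nd (nat_lit 468) (nat_lit 304) (nat_lit 0) (XT.nd (nat_lit 234) (nat_lit 152) (nat_lit 0) (XT.nd (nat_lit 78) (nat_lit 228) (nat_lit 0) (XT.lf (nat_lit 0) (nat_lit 623706539614) (nat_lit 152) (nat_lit 55647246860) (nat_lit 0) (nat_lit 190055343714) (nat_lit 28) (nat_lit 5) (nat_lit 30) (nat_lit 4) (nat_lit 28) (nat_lit 4) (nat_lit 486) (nat_lit 444) (nat_lit 270)) (XT.nd (nat_lit 78) (nat_lit 152) (nat_lit 0) (XT.lf (nat_lit 0) (nat_lit 463755012953)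 (nat_lit 76) (nat_lit 443679692898) (nat_lit 76) (nat_lit 10028447899) (nat_lit 27) (nat_lit 4) (nat_lit 28) (nat_lit 5) (nat_lit 28) (nat_lit 4) (nat_lit 487) (nat_lit 444) (nat_lit 269)) (XT.lf (nat_lit 0) (nat_lit 55490376163) (nat_lit 76) (nat_lit 179673886636) (nat_lit 152) (nat_lit 733495178797) (nat_lit 25) (nat_lit 5) (nat_lit 26) (nat_lit 5) (nat_lit 27) (nat_lit 4) (nat_lit 488) (nat_lit 444) (nat_lit 268)))) (XT.nd (nat_lit 78) (nat_lit 152) (nat_lit 0) (XT.lf (nat_lit 0) (nat_lit 514694063193) (nat_lit 152) (nat_lit 394850401822) (nat_lit 0) (nat_lit 113165051567) (nat_lit 25) (nat_lit 5) (nat_lit 27) (nat_lit 4) (nat_lit 25) (nat_lit 4) (nat_lit 489) (nat_lit 444) (nat_lit 267)) (XT.nd (nat_lit 78) (nat_lit 76) (nat_lit 0) (XT.lf (nat_lit 0) (nat_lit 168706156192) (nat_lit 76) (nat_lit 656604277118) (nat_lit 76) (nat_lit 255075229403) (nat_lit 24) (nat_lit 4) (nat_lit 25) (nat_lit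 5) (nat_lit 25) (nat_lit 4) (nat_lit 490) (nat_lit 444) (nat_lit 266)) (XT.lf (nat_lit 0) (nat_lit 28271034049) (nat_lit 152) (nat_lit 342725330307) (nat_lit 76) (nat_lit 770758609938) (nat_lit 23) (nat_lit 5) (nat_lit 25) (nat_lit 5) (nat_lit 24) (nat_lit 4) (nat_lit 491) (nat_lit 444) (nat_lit 265))))) (XT.nd (nat_lit 234) (nat_lit 152) (nat_lit 0) (XT.nd (nat_lit 78) (nat_lit 76) (nat_lit 0) (XT.lf (nat_lit 0) (nat_lit 279080483754) (nat_lit 76) (nat_lit 48135668085) (nat_lit 152) (nat_lit 879750705238) (nat_lit 22) (nat_lit 5) (nat_lit 23) (nat_lit 5) (nat_lit 24) (nat_lit 4) (nat_lit 492) (nat_lit 444) (nat_lit 264)) (XT.nd (nat_lit 78) (nat_lit 76) (nat_lit 0) (XT.lf (nat_lit 0) (nat_lit 666919269222) (nat_lit 152) (nat_lit 313996002234) (nat_lit 0) (nat_lit 295133027813) (nat_lit 22) (nat_lit 5) (nat_lit 24) (nat_lit 4) (nat_lit 22) (nat_lit 4) (nat_lit 493) (nat_lit 444) (nat_lit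 263)) (XT.lf (nat_lit 0) (nat_lit 366067401043) (nat_lit 76) (nat_lit 677785394501) (nat_lit 76) (nat_lit 305999128531) (nat_lit 21) (nat_lit 4) (nat_lit 22) (nat_lit 5) (nat_lit 22) (nat_lit 4) (nat_lit 494) (nat_lit 444) (nat_lit 262)))) (XT.nd (nat_lit 78) (nat_lit 76) (nat_lit 0) (XT.lf (nat_lit 0) (nat_lit 29119744932) (nat_lit 152) (nat_lit 311217219253) (nat_lit 76) (nat_lit 1088477085097) (nat_lit 20) (nat_lit 5) (nat_lit 22) (nat_lit 5) (nat_lit 21) (nat_lit 4) (nat_lit 495) (nat_lit 444) (nat_lit 261)) (XT.nd (nat_lit 78) (nat_lit 0) (nat_lit 0) (XT.lf (nat_lit 0) (nat_lit 385879221284) (nat_lit 152) (nat_lit 1085036403194) (nat_lit 0) (nat_lit 41632638163) (nat_lit 19) (nat_lit 5) (nat_lit 21) (nat_lit 4) (nat_lit 19) (nat_lit 4) (nat_lit 496) (nat_lit 444) (nat_lit 260)) (XT.lf (nat_lit 0) (nat_lit 788749582576) (nat_lit 152) (nat_lit 368323038947) (nat_lit 0) (nat_lit 444502981402)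 (nat_lit 19) (nat_lit 5) (nat_lit 21) (nat_lit 4) (nat_lit 19) (nat_lit 4) (nat_lit 497) (nat_lit 444) (nat_lit 259))))))) (XT.nd (nat_lit 936) (nat_lit 456) (nat_lit 0) (XT.nd (nat_lit 468) (nat_lit 228) (nat_lit 0) (XT.nd (nat_lit 234) (nat_lit 76) (nat_lit 0) (XT.nd (nat_lit 78) (nat_lit 152) (nat_lit 0) (XT.lf (nat_lit 0) (nat_lit 427092194588) (nat_lit 76) (nat_lit 807028915381) (nat_lit 76) (nat_lit 462782297490) (nat_lit 18) (nat_lit 4) (nat_lit 19) (nat_lit 5) (nat_lit 19) (nat_lit 4) (nat_lit 498) (nat_lit 444) (nat_lit 258)) (XT.nd (nat_lit 78) (nat_lit 152) (nat_lit 0) (XT.lf (nat_lit 0) (nat_lit 1307087425291) (nat_lit 76) (nat_lit 418105499603) (nat_lit 76) (nat_lit 73858866234) (nat_lit 18) (nat_lit 4) (nat_lit 19) (nat_lit 5) (nat_lit 19) (nat_lit 4) (nat_lit 499) (nat_lit 444) (nat_lit 257)) (XT.lf (nat_lit 0) (nat_lit 337949435488) (nat_lit 152) (nat_lit 1550826963067)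 (nat_lit 0) (nat_lit 19202539469) (nat_lit 16) (nat_lit 5) (nat_lit 18) (nat_lit 4) (nat_lit 16) (nat_lit 4) (nat_lit 500) (nat_lit 444) (nat_lit 256)))) (XT.nd (nat_lit 78) (nat_lit 76) (nat_lit 0) (XT.lf (nat_lit 0) (nat_lit 803372508905) (nat_lit 152) (nat_lit 735495841819) (nat_lit 0) (nat_lit 484625600599) (nat_lit 16) (nat_lit 5) (nat_lit 18) (nat_lit 4) (nat_lit 16) (nat_lit 4) (nat_lit 501) (nat_lit 444) (nat_lit 255)) (XT.nd (nat_lit 78) (nat_lit 0) (nat_lit 0) (XT.lf (nat_lit 0) (nat_lit 152700391404) (nat_lit 76) (nat_lit 1157001450438) (nat_lit 76) (nat_lit 838254530755) (nat_lit 15) (nat_lit 4) (nat_lit 16) (nat_lit 5) (nat_lit 16) (nat_lit 4) (nat_lit 502) (nat_lit 444) (nat_lit 254)) (XT.lf (nat_lit 0) (nat_lit 1153780555541) (nat_lit 76) (nat_lit 722866692077) (nat_lit 76) (nat_lit 404119761860) (nat_lit 15) (nat_lit 4) (nat_lit 16) (nat_lit 5) (nat_lit 16) (nat_lit 4) (nat_lit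 503) (nat_lit 444) (nat_lit 253))))) (XT.nd (nat_lit 234) (nat_lit 76) (nat_lit 0) (XT.nd (nat_lit 78) (nat_lit 76) (nat_lit 0) (XT.lf (nat_lit 0) (nat_lit 61506910134) (nat_lit 152) (nat_lit 190812566891) (nat_lit 76) (nat_lit 2171758451811) (nat_lit 14) (nat_lit 5) (nat_lit 16) (nat_lit 5) (nat_lit 15) (nat_lit 4) (nat_lit 504) (nat_lit 444) (nat_lit 252)) (XT.nd (nat_lit 78) (nat_lit 0) (nat_lit 0) (XT.lf (nat_lit 0) (nat_lit 570009767133) (nat_lit 152) (nat_lit 1730933800792) (nat_lit 0) (nat_lit 274873703242) (nat_lit 13) (nat_lit 5) (nat_lit 15) (nat_lit 4) (nat_lit 13) (nat_lit 4) (nat_lit 505) (nat_lit 444) (nat_lit 251)) (XT.lf (nat_lit 0) (nat_lit 1131099240138) (nat_lit 152) (nat_lit 771680841248) (nat_lit 0) (nat_lit 835963168504) (nat_lit 13) (nat_lit 5) (nat_lit 15) (nat_lit 4) (nat_lit 13) (nat_lit 4) (nat_lit 506) (nat_lit 444) (nat_lit 250)))) (XT.nd (nat_lit 78) (nat_lit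 0) (nat_lit 0) (XT.lf (nat_lit 0) (nat_lit 278230516890) (nat_lit 76) (nat_lit 1465536777477) (nat_lit 76) (nat_lit 1170400698674) (nat_lit 12) (nat_lit 4) (nat_lit 13) (nat_lit 5) (nat_lit 13) (nat_lit 4) (nat_lit 507) (nat_lit 444) (nat_lit 249)) (XT.nd (nat_lit 78) (nat_lit 0) (nat_lit 0) (XT.lf (nat_lit 0) (nat_lit 1456020902828) (nat_lit 76) (nat_lit 970526985320) (nat_lit 76) (nat_lit 675390899878) (nat_lit 12) (nat_lit 4) (nat_lit 13) (nat_lit 5) (nat_lit 13) (nat_lit 4) (nat_lit 508) (nat_lit 444) (nat_lit 248)) (XT.lf (nat_lit 0) (nat_lit 2728034469586) (nat_lit 76) (nat_lit 435916435289) (nat_lit 76) (nat_lit 140780343701) (nat_lit 12) (nat_lit 4) (nat_lit 13) (nat_lit 5) (nat_lit 13) (nat_lit 4) (nat_lit 509) (nat_lit 444) (nat_lit 247)))))) (XT.nd (nat_lit 468) (nat_lit 228) (nat_lit 0) (XT.nd (nat_lit 234) (nat_lit 76) (nat_lit 0) (XT.nd (nat_lit 78) (nat_lit 0) (nat_lit 0)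 (XT.lf (nat_lit 0) (nat_lit 433175364126) (nat_lit 152) (nat_lit 2928357183621) (nat_lit 0) (nat_lit 159901199979) (nat_lit 10) (nat_lit 5) (nat_lit 12) (nat_lit 4) (nat_lit 10) (nat_lit 4) (nat_lit 510) (nat_lit 444) (nat_lit 246)) (XT.nd (nat_lit 78) (nat_lit 0) (nat_lit 0) (XT.lf (nat_lit 0) (nat_lit 1072941683002) (nat_lit 152) (nat_lit 1880370723279) (nat_lit 0) (nat_lit 799667513976) (nat_lit 10) (nat_lit 5) (nat_lit 12) (nat_lit 4) (nat_lit 10) (nat_lit 4) (nat_lit 511) (nat_lit 444) (nat_lit 245)) (XT.lf (nat_lit 0) (nat_lit 1763889285828) (nat_lit 152) (nat_lit 748545390202) (nat_lit 0) (nat_lit 1490615112284) (nat_lit 10) (nat_lit 5) (nat_lit 12) (nat_lit 4) (nat_lit 10) (nat_lit 4) (nat_lit 512) (nat_lit 444) (nat_lit 244)))) (XT.nd (nat_lit 78) (nat_lit 0) (nat_lit 0) (XT.lf (nat_lit 0) (nat_lit 498776762405) (nat_lit 76) (nat_lit 2023331507643) (nat_lit 76) (nat_lit 1750057329915)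 (nat_lit 9) (nat_lit 4) (nat_lit 10) (nat_lit 5) (nat_lit 10) (nat_lit 4) (nat_lit 513) (nat_lit 444) (nat_lit 243)) (XT.nd (nat_lit 78) (nat_lit 0) (nat_lit 0) (XT.lf (nat_lit 0) (nat_lit 1888455087038) (nat_lit 76) (nat_lit 1472996224031) (nat_lit 76) (nat_lit 1199722042430) (nat_lit 9) (nat_lit 4) (nat_lit 10) (nat_lit 5) (nat_lit 10) (nat_lit 4) (nat_lit 514) (nat_lit 444) (nat_lit 242)) (XT.lf (nat_lit 0) (nat_lit 3389307640794) (nat_lit 76) (nat_lit 878634136576) (nat_lit 76) (nat_lit 605359951388) (nat_lit 9) (nat_lit 4) (nat_lit 10) (nat_lit 5) (nat_lit 10) (nat_lit 4) (nat_lit 515) (nat_lit 444) (nat_lit 241))))) (XT.nd (nat_lit 234) (nat_lit 76) (nat_lit 0) (XT.nd (nat_lit 78) (nat_lit 76) (nat_lit 0) (XT.lf (nat_lit 0) (nat_lit 34722655433) (nat_lit 152) (nat_lit 201051065206) (nat_lit 76) (nat_lit 4974556330367) (nat_lit 8) (nat_lit 5) (nat_lit 10) (nat_lit 5) (nat_lit 9) (nat_lit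 4) (nat_lit 516) (nat_lit 444) (nat_lit 240)) (XT.nd (nat_lit 78) (nat_lit 0) (nat_lit 0) (XT.lf (nat_lit 0) (nat_lit 735100947643) (nat_lit 152) (nat_lit 4352548972785) (nat_lit 0) (nat_lit 482069288770) (nat_lit 7) (nat_lit 5) (nat_lit 9) (nat_lit 4) (nat_lit 7) (nat_lit 4) (nat_lit 517) (nat_lit 444) (nat_lit 239)) (XT.lf (nat_lit 0) (nat_lit 1503273354201) (nat_lit 152) (nat_lit 3203403345077) (nat_lit 0) (nat_lit 1250241692691) (nat_lit 7) (nat_lit 5) (nat_lit 9) (nat_lit 4) (nat_lit 7) (nat_lit 4) (nat_lit 518) (nat_lit 444) (nat_lit 238)))) (XT.nd (nat_lit 78) (nat_lit 76) (nat_lit 0) (XT.lf (nat_lit 0) (nat_lit 2332899538643) (nat_lit 152) (nat_lit 1962326097196) (nat_lit 0) (nat_lit 2079867874693) (nat_lit 7) (nat_lit 5) (nat_lit 9) (nat_lit 4) (nat_lit 7) (nat_lit 4) (nat_lit 519) (nat_lit 444) (nat_lit 237)) (XT.nd (nat_lit 78) (nat_lit 76) (nat_lit 0) (XT.lf (nat_lit 0) (nat_lit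 3228895804286) (nat_lit 152) (nat_lit 621962697303) (nat_lit 0) (nat_lit 2975864138076) (nat_lit 7) (nat_lit 5) (nat_lit 9) (nat_lit 4) (nat_lit 7) (nat_lit 4) (nat_lit 520) (nat_lit 444) (nat_lit 236)) (XT.lf (nat_lit 0) (nat_lit 869105948254) (nat_lit 76) (nat_lit 3348367829332) (nat_lit 76) (nat_lit 3095336161029) (nat_lit 6) (nat_lit 4) (nat_lit 7) (nat_lit 5) (nat_lit 7) (nat_lit 4) (nat_lit 521) (nat_lit 444) (nat_lit 235))))))))
noncomputable def xc195 : XT := (XT.nd (nat_lit 57876) (nat_lit 0) (nat_lit 1824) (XT.nd (nat_lit 56940) (nat_lit 0) (nat_lit 3800) (XT.nd (nat_lit 56472) (nat_lit 0) (nat_lit 5168) (XT.nd (nat_lit 156) (nat_lit 152) (nat_lit 0) (XT.nd (nat_lit 78) (nat_lit 0) (nat_lit 0) (XT.lf (nat_lit 0) (nat_lit 2514831630053) (nat_lit 76) (nat_lit 2787311908830) (nat_lit 76) (nat_lit 2534280238589) (nat_lit 6) (nat_lit 4) (nat_lit 7) (nat_lit 5) (nat_lit 7) (nat_lit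 4) (nat_lit 522) (nat_lit 444) (nat_lit 234)) (XT.lf (nat_lit 0) (nat_lit 4292215343149) (nat_lit 76) (nat_lit 2181371526615) (nat_lit 76) (nat_lit 1928339854579) (nat_lit 6) (nat_lit 4) (nat_lit 7) (nat_lit 5) (nat_lit 7) (nat_lit 4) (nat_lit 523) (nat_lit 444) (nat_lit 233))) (XT.nd (nat_lit 78) (nat_lit 152) (nat_lit 0) (XT.lf (nat_lit 0) (nat_lit 6211789731769) (nat_lit 76) (nat_lit 1526955924865) (nat_lit 76) (nat_lit 1273924251169) (nat_lit 6) (nat_lit 4) (nat_lit 7) (nat_lit 5) (nat_lit 7) (nat_lit 4) (nat_lit 524) (nat_lit 444) (nat_lit 232)) (XT.nd (nat_lit 78) (nat_lit 152) (nat_lit 0) (XT.lf (nat_lit 0) (nat_lit 8284930051549) (nat_lit 76) (nat_lit 820187085200) (nat_lit 76) (nat_lit 567155409966) (nat_lit 6) (nat_lit 4) (nat_lit 7) (nat_lit 5) (nat_lit 7) (nat_lit 4) (nat_lit 525) (nat_lit 444) (nat_lit 231)) (XT.lf (nat_lit 0) (nat_lit 141646375620) (nat_lit 76) (nat_lit 48102687975)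 (nat_lit 152) (nat_lit 10194244403505) (nat_lit 4) (nat_lit 5) (nat_lit 5) (nat_lit 5) (nat_lit 6) (nat_lit 4) (nat_lit 526) (nat_lit 444) (nat_lit 230))))) (XT.nd (nat_lit 234) (nat_lit 456) (nat_lit 0) (XT.nd (nat_lit 78) (nat_lit 0) (nat_lit 0) (XT.lf (nat_lit 0) (nat_lit 61692355775) (nat_lit 532) (nat_lit 1570952741) (nat_lit 532) (nat_lit 1570952741) (nat_lit 78) (nat_lit 3) (nat_lit 85) (nat_lit 3) (nat_lit 85) (nat_lit 5) (nat_lit 445) (nat_lit 445) (nat_lit 310)) (XT.nd (nat_lit 78) (nat_lit 0) (nat_lit 0) (XT.lf (nat_lit 76) (nat_lit 64122871601) (nat_lit 0) (nat_lit 65743049010) (nat_lit 532) (nat_lit 4865675685) (nat_lit 79) (nat_lit 5) (nat_lit 78) (nat_lit 3) (nat_lit 85) (nat_lit 5) (nat_lit 446) (nat_lit 445) (nat_lit 309)) (XT.lf (nat_lit 76) (nat_lit 136947305348) (nat_lit 0) (nat_lit 3854724) (nat_lit 532) (nat_lit 3241713360) (nat_lit 79) (nat_lit 5) (nat_lit 78) (nat_lit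 3) (nat_lit 85) (nat_lit 5) (nat_lit 447) (nat_lit 445) (nat_lit 308)))) (XT.nd (nat_lit 78) (nat_lit 0) (nat_lit 0) (XT.lf (nat_lit 0) (nat_lit 2099024339) (nat_lit 532) (nat_lit 74501139038) (nat_lit 608) (nat_lit 69212757611) (nat_lit 72) (nat_lit 5) (nat_lit 79) (nat_lit 5) (nat_lit 80) (nat_lit 5) (nat_lit 448) (nat_lit 445) (nat_lit 307)) (XT.nd (nat_lit 78) (nat_lit 0) (nat_lit 76) (XT.lf (nat_lit 76) (nat_lit 58931681) (nat_lit 0) (nat_lit 7725185673) (nat_lit 608) (nat_lit 144084340442) (nat_lit 73) (nat_lit 5) (nat_lit 72) (nat_lit 5) (nat_lit 80) (nat_lit 5) (nat_lit 449) (nat_lit 445) (nat_lit 306)) (XT.lf (nat_lit 0) (nat_lit 17616781292) (nat_lit 532) (nat_lit 75081059644) (nat_lit 608) (nat_lit 65415175642) (nat_lit 73) (nat_lit 5) (nat_lit 80) (nat_lit 5) (nat_lit 81) (nat_lit 5) (nat_lit 450) (nat_lit 445) (nat_lit 305)))))) (XT.nd (nat_lit 468) (nat_lit 836) (nat_lit 0)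 (XT.nd (nat_lit 234) (nat_lit 228) (nat_lit 0) (XT.nd (nat_lit 78) (nat_lit 380) (nat_lit 0) (XT.lf (nat_lit 76) (nat_lit 7984193784) (nat_lit 0) (nat_lit 20644253452) (nat_lit 608) (nat_lit 136197301818) (nat_lit 74) (nat_lit 5) (nat_lit 73) (nat_lit 5) (nat_lit 81) (nat_lit 5) (nat_lit 451) (nat_lit 445) (nat_lit 304)) (XT.nd (nat_lit 78) (nat_lit 456) (nat_lit 0) (XT.lf (nat_lit 0) (nat_lit 44001974537) (nat_lit 532) (nat_lit 71375280490) (nat_lit 76) (nat_lit 56419770945) (nat_lit 74) (nat_lit 5) (nat_lit 81) (nat_lit 5) (nat_lit 75) (nat_lit 5) (nat_lit 452) (nat_lit 445) (nat_lit 303)) (XT.lf (nat_lit 0) (nat_lit 21465644773) (nat_lit 456) (nat_lit 40191953949) (nat_lit 532) (nat_lit 117584229232) (nat_lit 68) (nat_lit 5) (nat_lit 74) (nat_lit 5) (nat_lit 75) (nat_lit 5) (nat_lit 453) (nat_lit 445) (nat_lit 302)))) (XT.nd (nat_lit 78) (nat_lit 228) (nat_lit 0) (XT.lf (nat_lit 0) (nat_lit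 83713900131) (nat_lit 532) (nat_lit 62370257727) (nat_lit 76) (nat_lit 40958998133) (nat_lit 68) (nat_lit 5) (nat_lit 75) (nat_lit 5) (nat_lit 69) (nat_lit 5) (nat_lit 454) (nat_lit 445) (nat_lit 301)) (XT.nd (nat_lit 78) (nat_lit 0) (nat_lit 0) (XT.lf (nat_lit 0) (nat_lit 41710492327) (nat_lit 228) (nat_lit 67871080120) (nat_lit 304) (nat_lit 85723268554) (nat_lit 65) (nat_lit 5) (nat_lit 68) (nat_lit 5) (nat_lit 69) (nat_lit 5) (nat_lit 455) (nat_lit 445) (nat_lit 300)) (XT.lf (nat_lit 0) (nat_lit 139667265151) (nat_lit 304) (nat_lit 46870023567) (nat_lit 76) (nat_lit 17518283635) (nat_lit 65) (nat_lit 5) (nat_lit 69) (nat_lit 5) (nat_lit 66) (nat_lit 5) (nat_lit 456) (nat_lit 445) (nat_lit 299))))) (XT.nd (nat_lit 234) (nat_lit 380) (nat_lit 0) (XT.nd (nat_lit 78) (nat_lit 228) (nat_lit 0) (XT.lf (nat_lit 0) (nat_lit 70137711815) (nat_lit 228) (nat_lit 105471607688) (nat_lit 304) (nat_lit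 37621082274) (nat_lit 62) (nat_lit 5) (nat_lit 65) (nat_lit 5) (nat_lit 66) (nat_lit 5) (nat_lit 457) (nat_lit 445) (nat_lit 298)) (XT.nd (nat_lit 78) (nat_lit 228) (nat_lit 0) (XT.lf (nat_lit 0) (nat_lit 199171388503) (nat_lit 228) (nat_lit 16536675625) (nat_lit 304) (nat_lit 7328647411) (nat_lit 62) (nat_lit 5) (nat_lit 65) (nat_lit 5) (nat_lit 66) (nat_lit 5) (nat_lit 458) (nat_lit 445) (nat_lit 297)) (XT.lf (nat_lit 0) (nat_lit 28754003959) (nat_lit 228) (nat_lit 125583043642) (nat_lit 76) (nat_lit 78870690232) (nat_lit 59) (nat_lit 5) (nat_lit 62) (nat_lit 5) (nat_lit 60) (nat_lit 5) (nat_lit 459) (nat_lit 445) (nat_lit 296)))) (XT.nd (nat_lit 78) (nat_lit 152) (nat_lit 0) (XT.lf (nat_lit 0) (nat_lit 6541076763) (nat_lit 228) (nat_lit 62042391871) (nat_lit 304) (nat_lit 175493258204) (nat_lit 56) (nat_lit 5) (nat_lit 59) (nat_lit 5) (nat_lit 60) (nat_lit 5) (nat_lit 460) (nat_lit 445)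 (nat_lit 295)) (XT.nd (nat_lit 78) (nat_lit 152) (nat_lit 0) (XT.lf (nat_lit 0) (nat_lit 116027120933) (nat_lit 304) (nat_lit 100157948613) (nat_lit 76) (nat_lit 39275939026) (nat_lit 56) (nat_lit 5) (nat_lit 60) (nat_lit 5) (nat_lit 57) (nat_lit 5) (nat_lit 461) (nat_lit 445) (nat_lit 294)) (XT.lf (nat_lit 0) (nat_lit 49052053580) (nat_lit 152) (nat_lit 121005256213) (nat_lit 228) (nat_lit 97475439540) (nat_lit 54) (nat_lit 5) (nat_lit 56) (nat_lit 5) (nat_lit 57) (nat_lit 5) (nat_lit 462) (nat_lit 445) (nat_lit 293))))))) (XT.nd (nat_lit 936) (nat_lit 836) (nat_lit 0) (XT.nd (nat_lit 468) (nat_lit 608) (nat_lit 0) (XT.nd (nat_lit 234) (nat_lit 304) (nat_lit 0) (XT.nd (nat_lit 78) (nat_lit 228) (nat_lit 0) (XT.lf (nat_lit 0) (nat_lit 215894725407) (nat_lit 152) (nat_lit 15253540991) (nat_lit 228) (nat_lit 49202894783) (nat_lit 54) (nat_lit 5) (nat_lit 56) (nat_lit 5) (nat_lit 57) (nat_lit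 5) (nat_lit 463) (nat_lit 445) (nat_lit 292)) (XT.nd (nat_lit 78) (nat_lit 0) (nat_lit 0) (XT.lf (nat_lit 0) (nat_lit 7811105066) (nat_lit 228) (nat_lit 189251252555) (nat_lit 76) (nat_lit 96724944690) (nat_lit 51) (nat_lit 5) (nat_lit 54) (nat_lit 5) (nat_lit 52) (nat_lit 5) (nat_lit 464) (nat_lit 445) (nat_lit 291)) (XT.lf (nat_lit 0) (nat_lit 68932183119) (nat_lit 228) (nat_lit 19163884495) (nat_lit 76) (nat_lit 219923691964) (nat_lit 51) (nat_lit 5) (nat_lit 54) (nat_lit 5) (nat_lit 52) (nat_lit 5) (nat_lit 465) (nat_lit 445) (nat_lit 290)))) (XT.nd (nat_lit 78) (nat_lit 152) (nat_lit 0) (XT.lf (nat_lit 0) (nat_lit 139927918499) (nat_lit 228) (nat_lit 150683203832) (nat_lit 76) (nat_lit 32380893434) (nat_lit 49) (nat_lit 5) (nat_lit 52) (nat_lit 5) (nat_lit 50) (nat_lit 5) (nat_lit 466) (nat_lit 445) (nat_lit 289)) (XT.nd (nat_lit 78) (nat_lit 0) (nat_lit 0) (XT.lf (nat_lit 0) (nat_lit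 40808454759) (nat_lit 152) (nat_lit 179601977221) (nat_lit 228) (nat_lit 118447050950) (nat_lit 47) (nat_lit 5) (nat_lit 49) (nat_lit 5) (nat_lit 50) (nat_lit 5) (nat_lit 467) (nat_lit 445) (nat_lit 288)) (XT.lf (nat_lit 0) (nat_lit 256188751257) (nat_lit 152) (nat_lit 55262626649) (nat_lit 228) (nat_lit 44211223077) (nat_lit 47) (nat_lit 5) (nat_lit 49) (nat_lit 5) (nat_lit 50) (nat_lit 5) (nat_lit 468) (nat_lit 445) (nat_lit 287))))) (XT.nd (nat_lit 234) (nat_lit 304) (nat_lit 0) (XT.nd (nat_lit 78) (nat_lit 152) (nat_lit 0) (XT.lf (nat_lit 0) (nat_lit 39051527945) (nat_lit 152) (nat_lit 255378121567) (nat_lit 76) (nat_lit 78922317570) (nat_lit 45) (nat_lit 5) (nat_lit 47) (nat_lit 5) (nat_lit 46) (nat_lit 5) (nat_lit 469) (nat_lit 445) (nat_lit 286)) (XT.nd (nat_lit 78) (nat_lit 152) (nat_lit 0) (XT.lf (nat_lit 0) (nat_lit 130812466472) (nat_lit 152) (nat_lit 36418933874) (nat_lit 76)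 (nat_lit 224795156919) (nat_lit 45) (nat_lit 5) (nat_lit 47) (nat_lit 5) (nat_lit 46) (nat_lit 5) (nat_lit 470) (nat_lit 445) (nat_lit 285)) (XT.lf (nat_lit 0) (nat_lit 210591463031) (nat_lit 152) (nat_lit 24387448325) (nat_lit 228) (nat_lit 176811032823) (nat_lit 43) (nat_lit 5) (nat_lit 45) (nat_lit 5) (nat_lit 46) (nat_lit 5) (nat_lit 471) (nat_lit 445) (nat_lit 284)))) (XT.nd (nat_lit 78) (nat_lit 228) (nat_lit 0) (XT.lf (nat_lit 0) (nat_lit 45505766840) (nat_lit 76) (nat_lit 307212559050) (nat_lit 152) (nat_lit 79996903845) (nat_lit 42) (nat_lit 5) (nat_lit 43) (nat_lit 5) (nat_lit 44) (nat_lit 4) (nat_lit 472) (nat_lit 445) (nat_lit 283)) (XT.nd (nat_lit 78) (nat_lit 152) (nat_lit 0) (XT.lf (nat_lit 0) (nat_lit 29611000774) (nat_lit 152) (nat_lit 132852975962) (nat_lit 76) (nat_lit 292301115089) (nat_lit 41) (nat_lit 5) (nat_lit 43) (nat_lit 5) (nat_lit 42) (nat_lit 5) (nat_lit 473)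 (nat_lit 445) (nat_lit 282)) (XT.lf (nat_lit 0) (nat_lit 147134287067) (nat_lit 152) (nat_lit 69834546) (nat_lit 228) (nat_lit 330925514390) (nat_lit 39) (nat_lit 5) (nat_lit 41) (nat_lit 5) (nat_lit 42) (nat_lit 5) (nat_lit 474) (nat_lit 445) (nat_lit 281)))))) (XT.nd (nat_lit 468) (nat_lit 456) (nat_lit 0) (XT.nd (nat_lit 234) (nat_lit 76) (nat_lit 0) (XT.nd (nat_lit 78) (nat_lit 304) (nat_lit 0) (XT.lf (nat_lit 0) (nat_lit 282147739802) (nat_lit 228) (nat_lit 50307605927) (nat_lit 76) (nat_lit 170272554183) (nat_lit 39) (nat_lit 5) (nat_lit 42) (nat_lit 5) (nat_lit 40) (nat_lit 4) (nat_lit 475) (nat_lit 445) (nat_lit 280)) (XT.nd (nat_lit 78) (nat_lit 228) (nat_lit 0) (XT.lf (nat_lit 0) (nat_lit 266146946792) (nat_lit 76) (nat_lit 168142474227) (nat_lit 152) (nat_lit 94492398039) (nat_lit 38) (nat_lit 5) (nat_lit 39) (nat_lit 5) (nat_lit 40) (nat_lit 4) (nat_lit 476) (nat_lit 445) (nat_lit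 279)) (XT.lf (nat_lit 0) (nat_lit 42669956960) (nat_lit 228) (nat_lit 501223510319) (nat_lit 76) (nat_lit 12700571984) (nat_lit 35) (nat_lit 5) (nat_lit 38) (nat_lit 5) (nat_lit 36) (nat_lit 4) (nat_lit 477) (nat_lit 445) (nat_lit 278)))) (XT.nd (nat_lit 78) (nat_lit 76) (nat_lit 0) (XT.lf (nat_lit 0) (nat_lit 197434934121) (nat_lit 228) (nat_lit 179312472306) (nat_lit 76) (nat_lit 208748708616) (nat_lit 35) (nat_lit 5) (nat_lit 38) (nat_lit 5) (nat_lit 36) (nat_lit 4) (nat_lit 478) (nat_lit 445) (nat_lit 277)) (XT.nd (nat_lit 78) (nat_lit 0) (nat_lit 0) (XT.lf (nat_lit 0) (nat_lit 177216395729) (nat_lit 76) (nat_lit 191626698986) (nat_lit 152) (nat_lit 247526303358) (nat_lit 34) (nat_lit 5) (nat_lit 35) (nat_lit 5) (nat_lit 36) (nat_lit 4) (nat_lit 479) (nat_lit 445) (nat_lit 276)) (XT.lf (nat_lit 0) (nat_lit 559193603160) (nat_lit 152) (nat_lit 77182276121) (nat_lit 0) (nat_lit 12918288873)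 (nat_lit 34) (nat_lit 5) (nat_lit 36) (nat_lit 4) (nat_lit 34) (nat_lit 4) (nat_lit 480) (nat_lit 445) (nat_lit 275))))) (XT.nd (nat_lit 234) (nat_lit 228) (nat_lit 0) (XT.nd (nat_lit 78) (nat_lit 76) (nat_lit 0) (XT.lf (nat_lit 0) (nat_lit 89047843033) (nat_lit 152) (nat_lit 361055884924) (nat_lit 76) (nat_lit 233545307590) (nat_lit 32) (nat_lit 5) (nat_lit 34) (nat_lit 5) (nat_lit 33) (nat_lit 4) (nat_lit 481) (nat_lit 445) (nat_lit 274)) (XT.nd (nat_lit 78) (nat_lit 0) (nat_lit 0) (XT.lf (nat_lit 0) (nat_lit 37644483777) (nat_lit 76) (nat_lit 243086266282) (nat_lit 152) (nat_lit 439588688554) (nat_lit 31) (nat_lit 5) (nat_lit 32) (nat_lit 5) (nat_lit 33) (nat_lit 4) (nat_lit 482) (nat_lit 445) (nat_lit 273)) (XT.lf (nat_lit 0) (nat_lit 488774327284) (nat_lit 76) (nat_lit 8845805299) (nat_lit 152) (nat_lit 261513593912) (nat_lit 31) (nat_lit 5) (nat_lit 32) (nat_lit 5) (nat_lit 33) (nat_lit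 4) (nat_lit 483) (nat_lit 445) (nat_lit 272)))) (XT.nd (nat_lit 78) (nat_lit 152) (nat_lit 0) (XT.lf (nat_lit 0) (nat_lit 177972776754) (nat_lit 76) (nat_lit 564039503209) (nat_lit 76) (nat_lit 58228748311) (nat_lit 30) (nat_lit 4) (nat_lit 31) (nat_lit 5) (nat_lit 31) (nat_lit 4) (nat_lit 484) (nat_lit 445) (nat_lit 271)) (XT.nd (nat_lit 78) (nat_lit 76) (nat_lit 0) (XT.lf (nat_lit 0) (nat_lit 161062868914) (nat_lit 152) (nat_lit 170800044825) (nat_lit 76) (nat_lit 511838517978) (nat_lit 29) (nat_lit 5) (nat_lit 31) (nat_lit 5) (nat_lit 30) (nat_lit 4) (nat_lit 485) (nat_lit 445) (nat_lit 270)) (XT.lf (nat_lit 0) (nat_lit 331874796023) (nat_lit 76) (nat_lit 70858694946) (nat_lit 152) (nat_lit 487145658445) (nat_lit 28) (nat_lit 5) (nat_lit 29) (nat_lit 5) (nat_lit 30) (nat_lit 4) (nat_lit 486) (nat_lit 445) (nat_lit 269))))))))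
noncomputable def xc196 : XT := (XT.nd (nat_lit 1794) (nat_lit 456) (nat_lit 0) (XT.nd (nat_lit 858) (nat_lit 532) (nat_lit 0) (XT.nd (nat_lit 390) (nat_lit 380) (nat_lit 0) (XT.nd (nat_lit 156) (nat_lit 228) (nat_lit 0) (XT.nd (nat_lit 78) (nat_lit 76) (nat_lit 0) (XT.lf (nat_lit 0) (nat_lit 673604157693) (nat_lit 152) (nat_lit 60096896713) (nat_lit 0) (nat_lit 205260718532) (nat_lit 28) (nat_lit 5) (nat_lit 30) (nat_lit 4) (nat_lit 28) (nat_lit 4) (nat_lit 487) (nat_lit 445) (nat_lit 268)) (XT.lf (nat_lit 0) (nat_lit 500857489964) (nat_lit 76) (nat_lit 479173056088) (nat_lit 76) (nat_lit 10829574833) (nat_lit 27) (nat_lit 4) (nat_lit 28) (nat_lit 5) (nat_lit 28) (nat_lit 4) (nat_lit 488) (nat_lit 445) (nat_lit 267))) (XT.nd (nat_lit 78) (nat_lit 76) (nat_lit 0) (XT.lf (nat_lit 0) (nat_lit 59931685752) (nat_lit 76) (nat_lit 194046778662) (nat_lit 152) (nat_lit 792173647606) (nat_lit 25)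 (nat_lit 5) (nat_lit 26) (nat_lit 5) (nat_lit 27) (nat_lit 4) (nat_lit 489) (nat_lit 445) (nat_lit 266)) (XT.nd (nat_lit 78) (nat_lit 76) (nat_lit 0) (XT.lf (nat_lit 0) (nat_lit 555870592966) (nat_lit 152) (nat_lit 426436452584) (nat_lit 0) (nat_lit 122219151928) (nat_lit 25) (nat_lit 5) (nat_lit 27) (nat_lit 4) (nat_lit 25) (nat_lit 4) (nat_lit 490) (nat_lit 445) (nat_lit 265)) (XT.lf (nat_lit 0) (nat_lit 182204579910) (nat_lit 76) (nat_lit 709131664806) (nat_lit 76) (nat_lit 275480192827) (nat_lit 24) (nat_lit 4) (nat_lit 25) (nat_lit 5) (nat_lit 25) (nat_lit 4) (nat_lit 491) (nat_lit 445) (nat_lit 264))))) (XT.nd (nat_lit 234) (nat_lit 228) (nat_lit 0) (XT.nd (nat_lit 78) (nat_lit 76) (nat_lit 0) (XT.lf (nat_lit 0) (nat_lit 30533644696) (nat_lit 152) (nat_lit 370141519658) (nat_lit 76) (nat_lit 832420133609) (nat_lit 23) (nat_lit 5) (nat_lit 25) (nat_lit 5) (nat_lit 24) (nat_lit 4) (nat_lit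 492) (nat_lit 445) (nat_lit 263)) (XT.nd (nat_lit 78) (nat_lit 0) (nat_lit 0) (XT.lf (nat_lit 0) (nat_lit 301408713020) (nat_lit 76) (nat_lit 51985633217) (nat_lit 152) (nat_lit 950129787187) (nat_lit 22) (nat_lit 5) (nat_lit 23) (nat_lit 5) (nat_lit 24) (nat_lit 4) (nat_lit 493) (nat_lit 445) (nat_lit 262)) (XT.lf (nat_lit 0) (nat_lit 720273665959) (nat_lit 152) (nat_lit 339113977395) (nat_lit 0) (nat_lit 318744451406) (nat_lit 22) (nat_lit 5) (nat_lit 24) (nat_lit 4) (nat_lit 22) (nat_lit 4) (nat_lit 494) (nat_lit 445) (nat_lit 261)))) (XT.nd (nat_lit 78) (nat_lit 152) (nat_lit 0) (XT.lf (nat_lit 0) (nat_lit 395354454981) (nat_lit 76) (nat_lit 732007396026) (nat_lit 76) (nat_lit 330478160416) (nat_lit 21) (nat_lit 4) (nat_lit 22) (nat_lit 5) (nat_lit 22) (nat_lit 4) (nat_lit 495) (nat_lit 445) (nat_lit 260)) (XT.nd (nat_lit 78) (nat_lit 76) (nat_lit 0) (XT.lf (nat_lit 0) (nat_lit 31450114763)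 (nat_lit 152) (nat_lit 336113016399) (nat_lit 76) (nat_lit 1175555978815) (nat_lit 20) (nat_lit 5) (nat_lit 22) (nat_lit 5) (nat_lit 21) (nat_lit 4) (nat_lit 496) (nat_lit 445) (nat_lit 259)) (XT.lf (nat_lit 0) (nat_lit 416750346292) (nat_lit 152) (nat_lit 1171837732097) (nat_lit 0) (nat_lit 44963982253) (nat_lit 19) (nat_lit 5) (nat_lit 21) (nat_lit 4) (nat_lit 19) (nat_lit 4) (nat_lit 497) (nat_lit 445) (nat_lit 258)))))) (XT.nd (nat_lit 468) (nat_lit 228) (nat_lit 0) (XT.nd (nat_lit 234) (nat_lit 228) (nat_lit 0) (XT.nd (nat_lit 78) (nat_lit 76) (nat_lit 0) (XT.lf (nat_lit 0) (nat_lit 851850278168) (nat_lit 152) (nat_lit 397787415996) (nat_lit 0) (nat_lit 480063898652) (nat_lit 19) (nat_lit 5) (nat_lit 21) (nat_lit 4) (nat_lit 19) (nat_lit 4) (nat_lit 498) (nat_lit 445) (nat_lit 257)) (XT.nd (nat_lit 78) (nat_lit 0) (nat_lit 0) (XT.lf (nat_lit 0) (nat_lit 461260999106) (nat_lit 76) (nat_lit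 871590509013) (nat_lit 76) (nat_lit 499804115165) (nat_lit 18) (nat_lit 4) (nat_lit 19) (nat_lit 5) (nat_lit 19) (nat_lit 4) (nat_lit 499) (nat_lit 445) (nat_lit 256)) (XT.lf (nat_lit 0) (nat_lit 1411655742417) (nat_lit 76) (nat_lit 451553273276) (nat_lit 76) (nat_lit 79766866158) (nat_lit 18) (nat_lit 4) (nat_lit 19) (nat_lit 5) (nat_lit 19) (nat_lit 4) (nat_lit 500) (nat_lit 445) (nat_lit 255)))) (XT.nd (nat_lit 78) (nat_lit 76) (nat_lit 0) (XT.lf (nat_lit 0) (nat_lit 364986062220) (nat_lit 152) (nat_lit 1674891759491) (nat_lit 0) (nat_lit 20739377585) (nat_lit 16) (nat_lit 5) (nat_lit 18) (nat_lit 4) (nat_lit 16) (nat_lit 4) (nat_lit 501) (nat_lit 445) (nat_lit 254)) (XT.nd (nat_lit 78) (nat_lit 76) (nat_lit 0) (XT.lf (nat_lit 0) (nat_lit 867642931741) (nat_lit 152) (nat_lit 794334249330) (nat_lit 0) (nat_lit 523396236572) (nat_lit 16) (nat_lit 5) (nat_lit 18) (nat_lit 4) (nat_lit 16)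 (nat_lit 4) (nat_lit 502) (nat_lit 445) (nat_lit 253)) (XT.lf (nat_lit 0) (nat_lit 164917650657) (nat_lit 76) (nat_lit 1249560944105) (nat_lit 76) (nat_lit 905314239183) (nat_lit 15) (nat_lit 4) (nat_lit 16) (nat_lit 5) (nat_lit 16) (nat_lit 4) (nat_lit 503) (nat_lit 445) (nat_lit 252))))) (XT.nd (nat_lit 234) (nat_lit 76) (nat_lit 0) (XT.nd (nat_lit 78) (nat_lit 152) (nat_lit 0) (XT.lf (nat_lit 0) (nat_lit 1246084136966) (nat_lit 76) (nat_lit 780695451176) (nat_lit 76) (nat_lit 436448737223) (nat_lit 15) (nat_lit 4) (nat_lit 16) (nat_lit 5) (nat_lit 16) (nat_lit 4) (nat_lit 504) (nat_lit 445) (nat_lit 251)) (XT.nd (nat_lit 78) (nat_lit 76) (nat_lit 0) (XT.lf (nat_lit 0) (nat_lit 66427995623) (nat_lit 152) (nat_lit 206076491419) (nat_lit 76) (nat_lit 2345499633474) (nat_lit 14) (nat_lit 5) (nat_lit 16) (nat_lit 5) (nat_lit 15) (nat_lit 4) (nat_lit 505) (nat_lit 445) (nat_lit 250)) (XT.lf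 (nat_lit 0) (nat_lit 615611079924) (nat_lit 152) (nat_lit 1869407422764) (nat_lit 0) (nat_lit 296864107647) (nat_lit 13) (nat_lit 5) (nat_lit 15) (nat_lit 4) (nat_lit 13) (nat_lit 4) (nat_lit 506) (nat_lit 445) (nat_lit 249)))) (XT.nd (nat_lit 78) (nat_lit 76) (nat_lit 0) (XT.lf (nat_lit 0) (nat_lit 1221587671405) (nat_lit 152) (nat_lit 833414306611) (nat_lit 0) (nat_lit 902840692490) (nat_lit 13) (nat_lit 5) (nat_lit 15) (nat_lit 4) (nat_lit 13) (nat_lit 4) (nat_lit 507) (nat_lit 445) (nat_lit 248)) (XT.nd (nat_lit 78) (nat_lit 0) (nat_lit 0) (XT.lf (nat_lit 0) (nat_lit 300489934812) (nat_lit 76) (nat_lit 1582779222198) (nat_lit 76) (nat_lit 1264032237136) (nat_lit 12) (nat_lit 4) (nat_lit 13) (nat_lit 5) (nat_lit 13) (nat_lit 4) (nat_lit 508) (nat_lit 445) (nat_lit 247)) (XT.lf (nat_lit 0) (nat_lit 1572503479287) (nat_lit 76) (nat_lit 1048168683518) (nat_lit 76) (nat_lit 729421692765)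 (nat_lit 12) (nat_lit 4) (nat_lit 13) (nat_lit 5) (nat_lit 13) (nat_lit 4) (nat_lit 509) (nat_lit 445) (nat_lit 246))))))) (XT.nd (nat_lit 858) (nat_lit 76) (nat_lit 0) (XT.nd (nat_lit 390) (nat_lit 152) (nat_lit 0) (XT.nd (nat_lit 156) (nat_lit 76) (nat_lit 0) (XT.nd (nat_lit 78) (nat_lit 152) (nat_lit 0) (XT.lf (nat_lit 0) (nat_lit 2946278064406) (nat_lit 76) (nat_lit 470789323605) (nat_lit 76) (nat_lit 152042327583) (nat_lit 12) (nat_lit 4) (nat_lit 13) (nat_lit 5) (nat_lit 13) (nat_lit 4) (nat_lit 510) (nat_lit 445) (nat_lit 245)) (XT.lf (nat_lit 0) (nat_lit 467829813887) (nat_lit 152) (nat_lit 3162624898060) (nat_lit 0) (nat_lit 172693701941) (nat_lit 10) (nat_lit 5) (nat_lit 12) (nat_lit 4) (nat_lit 10) (nat_lit 4) (nat_lit 511) (nat_lit 445) (nat_lit 244))) (XT.nd (nat_lit 78) (nat_lit 76) (nat_lit 0) (XT.lf (nat_lit 0) (nat_lit 1158777407115) (nat_lit 152) (nat_lit 2030799584612)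 (nat_lit 0) (nat_lit 863641290986) (nat_lit 10) (nat_lit 5) (nat_lit 12) (nat_lit 4) (nat_lit 10) (nat_lit 4) (nat_lit 512) (nat_lit 445) (nat_lit 243)) (XT.nd (nat_lit 78) (nat_lit 76) (nat_lit 0) (XT.lf (nat_lit 0) (nat_lit 1905000789317) (nat_lit 152) (nat_lit 808428283892) (nat_lit 0) (nat_lit 1609864669314) (nat_lit 10) (nat_lit 5) (nat_lit 12) (nat_lit 4) (nat_lit 10) (nat_lit 4) (nat_lit 513) (nat_lit 445) (nat_lit 242)) (XT.lf (nat_lit 0) (nat_lit 538679622253) (nat_lit 76) (nat_lit 2185197660597) (nat_lit 76) (nat_lit 1890061537008) (nat_lit 9) (nat_lit 4) (nat_lit 10) (nat_lit 5) (nat_lit 10) (nat_lit 4) (nat_lit 514) (nat_lit 445) (nat_lit 241))))) (XT.nd (nat_lit 234) (nat_lit 76) (nat_lit 0) (XT.nd (nat_lit 78) (nat_lit 76) (nat_lit 0) (XT.lf (nat_lit 0) (nat_lit 2039532159607) (nat_lit 76) (nat_lit 1590835581531) (nat_lit 76) (nat_lit 1295699454621) (nat_lit 9) (nat_lit 4)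 (nat_lit 10) (nat_lit 5) (nat_lit 10) (nat_lit 4) (nat_lit 515) (nat_lit 445) (nat_lit 240)) (XT.nd (nat_lit 78) (nat_lit 76) (nat_lit 0) (XT.lf (nat_lit 0) (nat_lit 3660452868360) (nat_lit 76) (nat_lit 948924552296) (nat_lit 76) (nat_lit 653788422311) (nat_lit 9) (nat_lit 4) (nat_lit 10) (nat_lit 5) (nat_lit 10) (nat_lit 4) (nat_lit 516) (nat_lit 445) (nat_lit 239)) (XT.lf (nat_lit 0) (nat_lit 37500753906) (nat_lit 152) (nat_lit 217134564706) (nat_lit 76) (nat_lit 5372521113588) (nat_lit 8) (nat_lit 5) (nat_lit 10) (nat_lit 5) (nat_lit 9) (nat_lit 4) (nat_lit 517) (nat_lit 445) (nat_lit 238)))) (XT.nd (nat_lit 78) (nat_lit 0) (nat_lit 0) (XT.lf (nat_lit 0) (nat_lit 793909309065) (nat_lit 152) (nat_lit 4700752304459) (nat_lit 0) (nat_lit 520635109558) (nat_lit 7) (nat_lit 5) (nat_lit 9) (nat_lit 4) (nat_lit 7) (nat_lit 4) (nat_lit 518) (nat_lit 445) (nat_lit 237)) (XT.nd (nat_lit 78) (nat_lit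 0) (nat_lit 0) (XT.lf (nat_lit 0) (nat_lit 1623535486991) (nat_lit 152) (nat_lit 3459675069953) (nat_lit 0) (nat_lit 1350261285223) (nat_lit 7) (nat_lit 5) (nat_lit 9) (nat_lit 4) (nat_lit 7) (nat_lit 4) (nat_lit 519) (nat_lit 445) (nat_lit 236)) (XT.lf (nat_lit 0) (nat_lit 2519531746599) (nat_lit 152) (nat_lit 2119311682443) (nat_lit 0) (nat_lit 2246257542739) (nat_lit 7) (nat_lit 5) (nat_lit 9) (nat_lit 4) (nat_lit 7) (nat_lit 4) (nat_lit 520) (nat_lit 445) (nat_lit 235)))))) (XT.nd (nat_lit 56628) (nat_lit 0) (nat_lit 5016) (XT.nd (nat_lit 234) (nat_lit 0) (nat_lit 0) (XT.nd (nat_lit 78) (nat_lit 76) (nat_lit 0) (XT.lf (nat_lit 0) (nat_lit 3487207695356) (nat_lit 152) (nat_lit 671719247783) (nat_lit 0) (nat_lit 3213933489558) (nat_lit 7) (nat_lit 5) (nat_lit 9) (nat_lit 4) (nat_lit 7) (nat_lit 4) (nat_lit 521) (nat_lit 445) (nat_lit 234)) (XT.nd (nat_lit 78) (nat_lit 0) (nat_lit 0) (XT.lf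 (nat_lit 0) (nat_lit 938634877638) (nat_lit 76) (nat_lit 3616237022994) (nat_lit 76) (nat_lit 3342962815402) (nat_lit 6) (nat_lit 4) (nat_lit 7) (nat_lit 5) (nat_lit 7) (nat_lit 4) (nat_lit 522) (nat_lit 445) (nat_lit 233)) (XT.lf (nat_lit 0) (nat_lit 2716018580387) (nat_lit 76) (nat_lit 3010296646088) (nat_lit 76) (nat_lit 2737022436835) (nat_lit 6) (nat_lit 4) (nat_lit 7) (nat_lit 5) (nat_lit 7) (nat_lit 4) (nat_lit 523) (nat_lit 445) (nat_lit 232)))) (XT.nd (nat_lit 78) (nat_lit 0) (nat_lit 0) (XT.lf (nat_lit 0) (nat_lit 4635592959425) (nat_lit 76) (nat_lit 2355881049254) (nat_lit 76) (nat_lit 2082606838463) (nat_lit 6) (nat_lit 4) (nat_lit 7) (nat_lit 5) (nat_lit 7) (nat_lit 4) (nat_lit 524) (nat_lit 445) (nat_lit 231)) (XT.nd (nat_lit 78) (nat_lit 0) (nat_lit 0) (XT.lf (nat_lit 0) (nat_lit 6708733270333) (nat_lit 76) (nat_lit 1649112214141) (nat_lit 76) (nat_lit 1375838001926) (nat_lit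 6) (nat_lit 4) (nat_lit 7) (nat_lit 5) (nat_lit 7) (nat_lit 4) (nat_lit 525) (nat_lit 445) (nat_lit 230)) (XT.lf (nat_lit 0) (nat_lit 8947724789026) (nat_lit 76) (nat_lit 885801880986) (nat_lit 76) (nat_lit 612527667452) (nat_lit 6) (nat_lit 4) (nat_lit 7) (nat_lit 5) (nat_lit 7) (nat_lit 4) (nat_lit 526) (nat_lit 445) (nat_lit 229))))) (XT.nd (nat_lit 234) (nat_lit 456) (nat_lit 0) (XT.nd (nat_lit 78) (nat_lit 0) (nat_lit 0) (XT.lf (nat_lit 0) (nat_lit 66631320112) (nat_lit 532) (nat_lit 1694697269) (nat_lit 532) (nat_lit 1694697269) (nat_lit 78) (nat_lit 3) (nat_lit 85) (nat_lit 3) (nat_lit 85) (nat_lit 5) (nat_lit 446) (nat_lit 446) (nat_lit 308)) (XT.nd (nat_lit 78) (nat_lit 0) (nat_lit 0) (XT.lf (nat_lit 76) (nat_lit 69256466904) (nat_lit 0) (nat_lit 71005439909) (nat_lit 532) (nat_lit 5247677521) (nat_lit 79) (nat_lit 5) (nat_lit 78) (nat_lit 3) (nat_lit 85) (nat_lit 5) (nat_lit 447)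 (nat_lit 446) (nat_lit 307)) (XT.lf (nat_lit 76) (nat_lit 147906576419) (nat_lit 0) (nat_lit 6891785) (nat_lit 532) (nat_lit 3494335412) (nat_lit 79) (nat_lit 5) (nat_lit 78) (nat_lit 3) (nat_lit 85) (nat_lit 5) (nat_lit 448) (nat_lit 446) (nat_lit 306)))) (XT.nd (nat_lit 78) (nat_lit 0) (nat_lit 0) (XT.lf (nat_lit 0) (nat_lit 2272887972) (nat_lit 532) (nat_lit 80456965792) (nat_lit 608) (nat_lit 74747623455) (nat_lit 72) (nat_lit 5) (nat_lit 79) (nat_lit 5) (nat_lit 80) (nat_lit 5) (nat_lit 449) (nat_lit 446) (nat_lit 305)) (XT.nd (nat_lit 78) (nat_lit 0) (nat_lit 76) (XT.lf (nat_lit 76) (nat_lit 67802627) (nat_lit 0) (nat_lit 8344645640) (nat_lit 608) (nat_lit 155605036075) (nat_lit 73) (nat_lit 5) (nat_lit 72) (nat_lit 5) (nat_lit 80) (nat_lit 5) (nat_lit 450) (nat_lit 446) (nat_lit 304)) (XT.lf (nat_lit 0) (nat_lit 19031278211) (nat_lit 532) (nat_lit 81083246968) (nat_lit 608) (nat_lit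 70647118562) (nat_lit 73) (nat_lit 5) (nat_lit 80) (nat_lit 5) (nat_lit 81) (nat_lit 5) (nat_lit 451) (nat_lit 446) (nat_lit 303))))))))
noncomputable def xc197 : XT := (XT.nd (nat_lit 1794) (nat_lit 1672) (nat_lit 0) (XT.nd (nat_lit 858) (nat_lit 1140) (nat_lit 0) (XT.nd (nat_lit 390) (nat_lit 684) (nat_lit 0) (XT.nd (nat_lit 156) (nat_lit 608) (nat_lit 0) (XT.nd (nat_lit 78) (nat_lit 0) (nat_lit 76) (XT.lf (nat_lit 76) (nat_lit 8627117938) (nat_lit 0) (nat_lit 22296478420) (nat_lit 608) (nat_lit 147087821075) (nat_lit 74) (nat_lit 5) (nat_lit 73) (nat_lit 5) (nat_lit 81) (nat_lit 5) (nat_lit 452) (nat_lit 446) (nat_lit 302)) (XT.lf (nat_lit 0) (nat_lit 47526629608) (nat_lit 532) (nat_lit 77081046760) (nat_lit 76) (nat_lit 60932750360) (nat_lit 74) (nat_lit 5) (nat_lit 81) (nat_lit 5) (nat_lit 75) (nat_lit 5) (nat_lit 453) (nat_lit 446) (nat_lit 301))) (XT.nd (nat_lit 78) (nat_lit 228)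 (nat_lit 0) (XT.lf (nat_lit 0) (nat_lit 23187044774) (nat_lit 456) (nat_lit 43407425605) (nat_lit 532) (nat_lit 126986361273) (nat_lit 68) (nat_lit 5) (nat_lit 74) (nat_lit 5) (nat_lit 75) (nat_lit 5) (nat_lit 454) (nat_lit 446) (nat_lit 300)) (XT.nd (nat_lit 78) (nat_lit 228) (nat_lit 0) (XT.lf (nat_lit 0) (nat_lit 90414957498) (nat_lit 532) (nat_lit 67355717483) (nat_lit 76) (nat_lit 44235616530) (nat_lit 68) (nat_lit 5) (nat_lit 75) (nat_lit 5) (nat_lit 69) (nat_lit 5) (nat_lit 455) (nat_lit 446) (nat_lit 299)) (XT.lf (nat_lit 0) (nat_lit 45051387238) (nat_lit 228) (nat_lit 73300461648) (nat_lit 304) (nat_lit 92577078111) (nat_lit 65) (nat_lit 5) (nat_lit 68) (nat_lit 5) (nat_lit 69) (nat_lit 5) (nat_lit 456) (nat_lit 446) (nat_lit 298))))) (XT.nd (nat_lit 234) (nat_lit 456) (nat_lit 0) (XT.nd (nat_lit 78) (nat_lit 228) (nat_lit 0) (XT.lf (nat_lit 0) (nat_lit 150844125970) (nat_lit 304)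 (nat_lit 50615598160) (nat_lit 76) (nat_lit 18920014501) (nat_lit 65) (nat_lit 5) (nat_lit 69) (nat_lit 5) (nat_lit 66) (nat_lit 5) (nat_lit 457) (nat_lit 446) (nat_lit 297)) (XT.nd (nat_lit 78) (nat_lit 0) (nat_lit 0) (XT.lf (nat_lit 0) (nat_lit 75752654096) (nat_lit 228) (nat_lit 113908727230) (nat_lit 304) (nat_lit 40627186236) (nat_lit 62) (nat_lit 5) (nat_lit 65) (nat_lit 5) (nat_lit 66) (nat_lit 5) (nat_lit 458) (nat_lit 446) (nat_lit 296)) (XT.lf (nat_lit 0) (nat_lit 215108734153) (nat_lit 228) (nat_lit 17859045719) (nat_lit 304) (nat_lit 7911621962) (nat_lit 62) (nat_lit 5) (nat_lit 65) (nat_lit 5) (nat_lit 66) (nat_lit 5) (nat_lit 459) (nat_lit 446) (nat_lit 295)))) (XT.nd (nat_lit 78) (nat_lit 228) (nat_lit 0) (XT.lf (nat_lit 0) (nat_lit 31057348047) (nat_lit 228) (nat_lit 135625757348) (nat_lit 76) (nat_lit 85181008724) (nat_lit 59) (nat_lit 5) (nat_lit 62) (nat_lit 5) (nat_lit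 60) (nat_lit 5) (nat_lit 460) (nat_lit 446) (nat_lit 294)) (XT.nd (nat_lit 78) (nat_lit 0) (nat_lit 0) (XT.lf (nat_lit 0) (nat_lit 7068193202) (nat_lit 228) (nat_lit 67004844831) (nat_lit 304) (nat_lit 189529594824) (nat_lit 56) (nat_lit 5) (nat_lit 59) (nat_lit 5) (nat_lit 60) (nat_lit 5) (nat_lit 461) (nat_lit 446) (nat_lit 293)) (XT.lf (nat_lit 0) (nat_lit 125311989196) (nat_lit 304) (nat_lit 108166843892) (nat_lit 76) (nat_lit 42418839563) (nat_lit 56) (nat_lit 5) (nat_lit 60) (nat_lit 5) (nat_lit 57) (nat_lit 5) (nat_lit 462) (nat_lit 446) (nat_lit 292)))))) (XT.nd (nat_lit 468) (nat_lit 456) (nat_lit 0) (XT.nd (nat_lit 234) (nat_lit 304) (nat_lit 0) (XT.nd (nat_lit 78) (nat_lit 228) (nat_lit 0) (XT.lf (nat_lit 0) (nat_lit 52979863777) (nat_lit 152) (nat_lit 130684617177) (nat_lit 228) (nat_lit 105270680750) (nat_lit 54) (nat_lit 5) (nat_lit 56) (nat_lit 5) (nat_lit 57) (nat_lit 5)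 (nat_lit 463) (nat_lit 446) (nat_lit 291)) (XT.nd (nat_lit 78) (nat_lit 228) (nat_lit 0) (XT.lf (nat_lit 0) (nat_lit 233169679283) (nat_lit 152) (nat_lit 16472843221) (nat_lit 228) (nat_lit 53136539372) (nat_lit 54) (nat_lit 5) (nat_lit 56) (nat_lit 5) (nat_lit 57) (nat_lit 5) (nat_lit 464) (nat_lit 446) (nat_lit 290)) (XT.lf (nat_lit 0) (nat_lit 8438376668) (nat_lit 228) (nat_lit 204387772019) (nat_lit 76) (nat_lit 104463946624) (nat_lit 51) (nat_lit 5) (nat_lit 54) (nat_lit 5) (nat_lit 52) (nat_lit 5) (nat_lit 465) (nat_lit 446) (nat_lit 289)))) (XT.nd (nat_lit 78) (nat_lit 304) (nat_lit 0) (XT.lf (nat_lit 0) (nat_lit 74448964432) (nat_lit 228) (nat_lit 20693679754) (nat_lit 76) (nat_lit 237518519134) (nat_lit 51) (nat_lit 5) (nat_lit 54) (nat_lit 5) (nat_lit 52) (nat_lit 5) (nat_lit 466) (nat_lit 446) (nat_lit 288)) (XT.nd (nat_lit 78) (nat_lit 152) (nat_lit 0) (XT.lf (nat_lit 0) (nat_lit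 151124299616) (nat_lit 228) (nat_lit 162734485159) (nat_lit 76) (nat_lit 34972419987) (nat_lit 49) (nat_lit 5) (nat_lit 52) (nat_lit 5) (nat_lit 50) (nat_lit 5) (nat_lit 467) (nat_lit 446) (nat_lit 287)) (XT.lf (nat_lit 0) (nat_lit 44076420677) (nat_lit 152) (nat_lit 193968913528) (nat_lit 228) (nat_lit 127920581527) (nat_lit 47) (nat_lit 5) (nat_lit 49) (nat_lit 5) (nat_lit 50) (nat_lit 5) (nat_lit 468) (nat_lit 446) (nat_lit 286))))) (XT.nd (nat_lit 234) (nat_lit 304) (nat_lit 0) (XT.nd (nat_lit 78) (nat_lit 152) (nat_lit 0) (XT.lf (nat_lit 0) (nat_lit 276686897226) (nat_lit 152) (nat_lit 59682505420) (nat_lit 228) (nat_lit 47746052868) (nat_lit 47) (nat_lit 5) (nat_lit 49) (nat_lit 5) (nat_lit 50) (nat_lit 5) (nat_lit 469) (nat_lit 446) (nat_lit 285)) (XT.nd (nat_lit 78) (nat_lit 0) (nat_lit 0) (XT.lf (nat_lit 0) (nat_lit 42177571397) (nat_lit 152) (nat_lit 275805177893) (nat_lit 76)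 (nat_lit 85237221128) (nat_lit 45) (nat_lit 5) (nat_lit 47) (nat_lit 5) (nat_lit 46) (nat_lit 5) (nat_lit 470) (nat_lit 446) (nat_lit 284)) (XT.lf (nat_lit 0) (nat_lit 141279242694) (nat_lit 152) (nat_lit 39329491733) (nat_lit 76) (nat_lit 242779804799) (nat_lit 45) (nat_lit 5) (nat_lit 47) (nat_lit 5) (nat_lit 46) (nat_lit 5) (nat_lit 471) (nat_lit 446) (nat_lit 283)))) (XT.nd (nat_lit 78) (nat_lit 152) (nat_lit 0) (XT.lf (nat_lit 0) (nat_lit 227441662068) (nat_lit 152) (nat_lit 26337278642) (nat_lit 228) (nat_lit 190954061402) (nat_lit 43) (nat_lit 5) (nat_lit 45) (nat_lit 5) (nat_lit 46) (nat_lit 5) (nat_lit 472) (nat_lit 446) (nat_lit 282)) (XT.nd (nat_lit 78) (nat_lit 76) (nat_lit 0) (XT.lf (nat_lit 0) (nat_lit 49149144016) (nat_lit 76) (nat_lit 331788333328) (nat_lit 152) (nat_lit 86394835675) (nat_lit 42) (nat_lit 5) (nat_lit 43) (nat_lit 5) (nat_lit 44) (nat_lit 4) (nat_lit 473)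 (nat_lit 446) (nat_lit 281)) (XT.lf (nat_lit 0) (nat_lit 31981482142) (nat_lit 152) (nat_lit 143478429649) (nat_lit 76) (nat_lit 315686259050) (nat_lit 41) (nat_lit 5) (nat_lit 43) (nat_lit 5) (nat_lit 42) (nat_lit 5) (nat_lit 474) (nat_lit 446) (nat_lit 280))))))) (XT.nd (nat_lit 936) (nat_lit 760) (nat_lit 0) (XT.nd (nat_lit 468) (nat_lit 380) (nat_lit 0) (XT.nd (nat_lit 234) (nat_lit 304) (nat_lit 0) (XT.nd (nat_lit 78) (nat_lit 76) (nat_lit 0) (XT.lf (nat_lit 0) (nat_lit 158907743931) (nat_lit 152) (nat_lit 74255370) (nat_lit 228) (nat_lit 357397883535) (nat_lit 39) (nat_lit 5) (nat_lit 41) (nat_lit 5) (nat_lit 42) (nat_lit 5) (nat_lit 475) (nat_lit 446) (nat_lit 279)) (XT.nd (nat_lit 78) (nat_lit 76) (nat_lit 0) (XT.lf (nat_lit 0) (nat_lit 304721018245) (nat_lit 228) (nat_lit 54329612637) (nat_lit 76) (nat_lit 183895384087) (nat_lit 39) (nat_lit 5) (nat_lit 42) (nat_lit 5) (nat_lit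 40) (nat_lit 4) (nat_lit 476) (nat_lit 446) (nat_lit 278)) (XT.lf (nat_lit 0) (nat_lit 287441238432) (nat_lit 76) (nat_lit 181592748424) (nat_lit 152) (nat_lit 102050264575) (nat_lit 38) (nat_lit 5) (nat_lit 39) (nat_lit 5) (nat_lit 40) (nat_lit 4) (nat_lit 477) (nat_lit 446) (nat_lit 277)))) (XT.nd (nat_lit 78) (nat_lit 76) (nat_lit 0) (XT.lf (nat_lit 0) (nat_lit 46084983922) (nat_lit 228) (nat_lit 541318760025) (nat_lit 76) (nat_lit 13717703870) (nat_lit 35) (nat_lit 5) (nat_lit 38) (nat_lit 5) (nat_lit 36) (nat_lit 4) (nat_lit 478) (nat_lit 446) (nat_lit 276)) (XT.nd (nat_lit 78) (nat_lit 76) (nat_lit 0) (XT.lf (nat_lit 0) (nat_lit 213231053299) (nat_lit 228) (nat_lit 193655033869) (nat_lit 76) (nat_lit 225449610979) (nat_lit 35) (nat_lit 5) (nat_lit 38) (nat_lit 5) (nat_lit 36) (nat_lit 4) (nat_lit 479) (nat_lit 446) (nat_lit 275)) (XT.lf (nat_lit 0) (nat_lit 191396081932) (nat_lit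 76) (nat_lit 206955743810) (nat_lit 152) (nat_lit 267327021369) (nat_lit 34) (nat_lit 5) (nat_lit 35) (nat_lit 5) (nat_lit 36) (nat_lit 4) (nat_lit 480) (nat_lit 446) (nat_lit 274))))) (XT.nd (nat_lit 234) (nat_lit 152) (nat_lit 0) (XT.nd (nat_lit 78) (nat_lit 228) (nat_lit 0) (XT.lf (nat_lit 0) (nat_lit 603930304089) (nat_lit 152) (nat_lit 83354588662) (nat_lit 0) (nat_lit 13952711718) (nat_lit 34) (nat_lit 5) (nat_lit 36) (nat_lit 4) (nat_lit 34) (nat_lit 4) (nat_lit 481) (nat_lit 446) (nat_lit 273)) (XT.nd (nat_lit 78) (nat_lit 76) (nat_lit 0) (XT.lf (nat_lit 0) (nat_lit 96172877179) (nat_lit 152) (nat_lit 389938079979) (nat_lit 76) (nat_lit 252229904592) (nat_lit 32) (nat_lit 5) (nat_lit 34) (nat_lit 5) (nat_lit 33) (nat_lit 4) (nat_lit 482) (nat_lit 446) (nat_lit 272)) (XT.lf (nat_lit 0) (nat_lit 40658260605) (nat_lit 76) (nat_lit 262532120124) (nat_lit 152) (nat_lit 474754519224)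 (nat_lit 31) (nat_lit 5) (nat_lit 32) (nat_lit 5) (nat_lit 33) (nat_lit 4) (nat_lit 483) (nat_lit 446) (nat_lit 271)))) (XT.nd (nat_lit 78) (nat_lit 152) (nat_lit 0) (XT.lf (nat_lit 0) (nat_lit 527878327287) (nat_lit 76) (nat_lit 9552499851) (nat_lit 152) (nat_lit 282433510671) (nat_lit 31) (nat_lit 5) (nat_lit 32) (nat_lit 5) (nat_lit 33) (nat_lit 4) (nat_lit 484) (nat_lit 446) (nat_lit 270)) (XT.nd (nat_lit 78) (nat_lit 76) (nat_lit 0) (XT.lf (nat_lit 0) (nat_lit 192212662592) (nat_lit 76) (nat_lit 609161674653) (nat_lit 76) (nat_lit 62885887216) (nat_lit 30) (nat_lit 4) (nat_lit 31) (nat_lit 5) (nat_lit 31) (nat_lit 4) (nat_lit 485) (nat_lit 446) (nat_lit 269)) (XT.lf (nat_lit 0) (nat_lit 173948919616) (nat_lit 152) (nat_lit 184462083734) (nat_lit 76) (nat_lit 552786461138) (nat_lit 29) (nat_lit 5) (nat_lit 31) (nat_lit 5) (nat_lit 30) (nat_lit 4) (nat_lit 486) (nat_lit 446) (nat_lit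 268)))))) (XT.nd (nat_lit 468) (nat_lit 380) (nat_lit 0) (XT.nd (nat_lit 234) (nat_lit 228) (nat_lit 0) (XT.nd (nat_lit 78) (nat_lit 76) (nat_lit 0) (XT.lf (nat_lit 0) (nat_lit 358426694643) (nat_lit 76) (nat_lit 76526467203) (nat_lit 152) (nat_lit 526116240127) (nat_lit 28) (nat_lit 5) (nat_lit 29) (nat_lit 5) (nat_lit 30) (nat_lit 4) (nat_lit 487) (nat_lit 446) (nat_lit 267)) (XT.nd (nat_lit 78) (nat_lit 76) (nat_lit 0) (XT.lf (nat_lit 0) (nat_lit 727493429018) (nat_lit 152) (nat_lit 64902822407) (nat_lit 0) (nat_lit 221682388191) (nat_lit 28) (nat_lit 5) (nat_lit 30) (nat_lit 4) (nat_lit 28) (nat_lit 4) (nat_lit 488) (nat_lit 446) (nat_lit 266)) (XT.lf (nat_lit 0) (nat_lit 540927868975) (nat_lit 76) (nat_lit 517506032741) (nat_lit 76) (nat_lit 11694955825) (nat_lit 27) (nat_lit 4) (nat_lit 28) (nat_lit 5) (nat_lit 28) (nat_lit 4) (nat_lit 489) (nat_lit 446) (nat_lit 265)))) (XT.nd (nat_lit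 78) (nat_lit 76) (nat_lit 0) (XT.lf (nat_lit 0) (nat_lit 64728003445) (nat_lit 76) (nat_lit 209569647409) (nat_lit 152) (nat_lit 855546557338) (nat_lit 25) (nat_lit 5) (nat_lit 26) (nat_lit 5) (nat_lit 27) (nat_lit 4) (nat_lit 490) (nat_lit 446) (nat_lit 264)) (XT.nd (nat_lit 78) (nat_lit 76) (nat_lit 0) (XT.lf (nat_lit 0) (nat_lit 600341101788) (nat_lit 152) (nat_lit 460549670073) (nat_lit 0) (nat_lit 131997452461) (nat_lit 25) (nat_lit 5) (nat_lit 27) (nat_lit 4) (nat_lit 25) (nat_lit 4) (nat_lit 491) (nat_lit 446) (nat_lit 263)) (XT.lf (nat_lit 0) (nat_lit 196782602015) (nat_lit 76) (nat_lit 765861379676) (nat_lit 76) (nat_lit 297517703822) (nat_lit 24) (nat_lit 4) (nat_lit 25) (nat_lit 5) (nat_lit 25) (nat_lit 4) (nat_lit 492) (nat_lit 446) (nat_lit 262))))) (XT.nd (nat_lit 234) (nat_lit 228) (nat_lit 0) (XT.nd (nat_lit 78) (nat_lit 76) (nat_lit 0) (XT.lf (nat_lit 0) (nat_lit 32977131816)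 (nat_lit 152) (nat_lit 399751266236) (nat_lit 76) (nat_lit 899014460069) (nat_lit 23) (nat_lit 5) (nat_lit 25) (nat_lit 5) (nat_lit 24) (nat_lit 4) (nat_lit 493) (nat_lit 446) (nat_lit 261)) (XT.nd (nat_lit 78) (nat_lit 0) (nat_lit 0) (XT.lf (nat_lit 0) (nat_lit 325522945183) (nat_lit 76) (nat_lit 56143722288) (nat_lit 152) (nat_lit 1026139334712) (nat_lit 22) (nat_lit 5) (nat_lit 23) (nat_lit 5) (nat_lit 24) (nat_lit 4) (nat_lit 494) (nat_lit 446) (nat_lit 260)) (XT.lf (nat_lit 0) (nat_lit 777896292431) (nat_lit 152) (nat_lit 366241633807) (nat_lit 0) (nat_lit 344244677416) (nat_lit 22) (nat_lit 5) (nat_lit 24) (nat_lit 4) (nat_lit 22) (nat_lit 4) (nat_lit 495) (nat_lit 446) (nat_lit 259)))) (XT.nd (nat_lit 78) (nat_lit 152) (nat_lit 0) (XT.lf (nat_lit 0) (nat_lit 426984236151) (nat_lit 76) (nat_lit 790567276087) (nat_lit 76) (nat_lit 356915643019) (nat_lit 21) (nat_lit 4) (nat_lit 22)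 (nat_lit 5) (nat_lit 22) (nat_lit 4) (nat_lit 496) (nat_lit 446) (nat_lit 258)) (XT.nd (nat_lit 78) (nat_lit 76) (nat_lit 0) (XT.lf (nat_lit 0) (nat_lit 33966801445) (nat_lit 152) (nat_lit 363000702777) (nat_lit 76) (nat_lit 1269601080328) (nat_lit 20) (nat_lit 5) (nat_lit 22) (nat_lit 5) (nat_lit 21) (nat_lit 4) (nat_lit 497) (nat_lit 446) (nat_lit 257)) (XT.lf (nat_lit 0) (nat_lit 450091048982) (nat_lit 152) (nat_lit 1265583393196) (nat_lit 0) (nat_lit 48561729295) (nat_lit 19) (nat_lit 5) (nat_lit 21) (nat_lit 4) (nat_lit 19) (nat_lit 4) (nat_lit 498) (nat_lit 446) (nat_lit 256))))))))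
noncomputable def xc198 : XT := (XT.nd (nat_lit 1794) (nat_lit 76) (nat_lit 0) (XT.nd (nat_lit 858) (nat_lit 380) (nat_lit 0) (XT.nd (nat_lit 390) (nat_lit 304) (nat_lit 0) (XT.nd (nat_lit 156) (nat_lit 152) (nat_lit 0) (XT.nd (nat_lit 78) (nat_lit 76) (nat_lit 0) (XT.lf (nat_lit 0) (nat_lit 919998925410) (nat_lit 152) (nat_lit 429609152360) (nat_lit 0) (nat_lit 518469592452) (nat_lit 19) (nat_lit 5) (nat_lit 21) (nat_lit 4) (nat_lit 19) (nat_lit 4) (nat_lit 499) (nat_lit 446) (nat_lit 255)) (XT.lf (nat_lit 0) (nat_lit 498163104130) (nat_lit 76) (nat_lit 941317132795) (nat_lit 76) (nat_lit 539787787550) (nat_lit 18) (nat_lit 4) (nat_lit 19) (nat_lit 5) (nat_lit 19) (nat_lit 4) (nat_lit 500) (nat_lit 446) (nat_lit 254))) (XT.nd (nat_lit 78) (nat_lit 152) (nat_lit 0) (XT.lf (nat_lit 0) (nat_lit 1524589336158) (nat_lit 76) (nat_lit 487676963898) (nat_lit 76) (nat_lit 86147607277) (nat_lit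 18) (nat_lit 4) (nat_lit 19) (nat_lit 5) (nat_lit 19) (nat_lit 4) (nat_lit 501) (nat_lit 446) (nat_lit 253)) (XT.nd (nat_lit 78) (nat_lit 0) (nat_lit 0) (XT.lf (nat_lit 0) (nat_lit 394185523237) (nat_lit 152) (nat_lit 1808881933736) (nat_lit 0) (nat_lit 22399072167) (nat_lit 16) (nat_lit 5) (nat_lit 18) (nat_lit 4) (nat_lit 16) (nat_lit 4) (nat_lit 502) (nat_lit 446) (nat_lit 252)) (XT.lf (nat_lit 0) (nat_lit 937054899651) (nat_lit 152) (nat_lit 857879909171) (nat_lit 0) (nat_lit 565268439549) (nat_lit 16) (nat_lit 5) (nat_lit 18) (nat_lit 4) (nat_lit 16) (nat_lit 4) (nat_lit 503) (nat_lit 446) (nat_lit 251))))) (XT.nd (nat_lit 234) (nat_lit 152) (nat_lit 0) (XT.nd (nat_lit 78) (nat_lit 76) (nat_lit 0) (XT.lf (nat_lit 0) (nat_lit 178112115470) (nat_lit 76) (nat_lit 1349525286053) (nat_lit 76) (nat_lit 977738817589) (nat_lit 15) (nat_lit 4) (nat_lit 16) (nat_lit 5) (nat_lit 16) (nat_lit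 4) (nat_lit 504) (nat_lit 446) (nat_lit 250)) (XT.nd (nat_lit 78) (nat_lit 76) (nat_lit 0) (XT.lf (nat_lit 0) (nat_lit 1345771842702) (nat_lit 76) (nat_lit 843150593215) (nat_lit 76) (nat_lit 471364117008) (nat_lit 15) (nat_lit 4) (nat_lit 16) (nat_lit 5) (nat_lit 16) (nat_lit 4) (nat_lit 505) (nat_lit 446) (nat_lit 249)) (XT.lf (nat_lit 0) (nat_lit 71742691958) (nat_lit 152) (nat_lit 222561684101) (nat_lit 76) (nat_lit 2533140037553) (nat_lit 14) (nat_lit 5) (nat_lit 16) (nat_lit 5) (nat_lit 15) (nat_lit 4) (nat_lit 506) (nat_lit 446) (nat_lit 248)))) (XT.nd (nat_lit 78) (nat_lit 76) (nat_lit 0) (XT.lf (nat_lit 0) (nat_lit 664860421926) (nat_lit 152) (nat_lit 2018959088866) (nat_lit 0) (nat_lit 320613671913) (nat_lit 13) (nat_lit 5) (nat_lit 15) (nat_lit 4) (nat_lit 13) (nat_lit 4) (nat_lit 507) (nat_lit 446) (nat_lit 247)) (XT.nd (nat_lit 78) (nat_lit 76) (nat_lit 0) (XT.lf (nat_lit 0)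 (nat_lit 1319315106976) (nat_lit 152) (nat_lit 900086592141) (nat_lit 0) (nat_lit 975068351272) (nat_lit 13) (nat_lit 5) (nat_lit 15) (nat_lit 4) (nat_lit 13) (nat_lit 4) (nat_lit 508) (nat_lit 446) (nat_lit 246)) (XT.lf (nat_lit 0) (nat_lit 324529966849) (nat_lit 76) (nat_lit 1709401133467) (nat_lit 76) (nat_lit 1365154372493) (nat_lit 12) (nat_lit 4) (nat_lit 13) (nat_lit 5) (nat_lit 13) (nat_lit 4) (nat_lit 509) (nat_lit 446) (nat_lit 245)))))) (XT.nd (nat_lit 468) (nat_lit 152) (nat_lit 0) (XT.nd (nat_lit 234) (nat_lit 76) (nat_lit 0) (XT.nd (nat_lit 78) (nat_lit 152) (nat_lit 0) (XT.lf (nat_lit 0) (nat_lit 1698304532864) (nat_lit 76) (nat_lit 1132021783286) (nat_lit 76) (nat_lit 787775017433) (nat_lit 12) (nat_lit 4) (nat_lit 13) (nat_lit 5) (nat_lit 13) (nat_lit 4) (nat_lit 510) (nat_lit 446) (nat_lit 244)) (XT.nd (nat_lit 78) (nat_lit 152) (nat_lit 0) (XT.lf (nat_lit 0) (nat_lit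 3181981027367) (nat_lit 76) (nat_lit 508452103833) (nat_lit 76) (nat_lit 164205333462) (nat_lit 12) (nat_lit 4) (nat_lit 13) (nat_lit 5) (nat_lit 13) (nat_lit 4) (nat_lit 511) (nat_lit 446) (nat_lit 243)) (XT.lf (nat_lit 0) (nat_lit 505256559620) (nat_lit 152) (nat_lit 3415634152379) (nat_lit 0) (nat_lit 186509546144) (nat_lit 10) (nat_lit 5) (nat_lit 12) (nat_lit 4) (nat_lit 10) (nat_lit 4) (nat_lit 512) (nat_lit 446) (nat_lit 242)))) (XT.nd (nat_lit 78) (nat_lit 76) (nat_lit 0) (XT.lf (nat_lit 0) (nat_lit 1251479933594) (nat_lit 152) (nat_lit 2193262868486) (nat_lit 0) (nat_lit 932732916531) (nat_lit 10) (nat_lit 5) (nat_lit 12) (nat_lit 4) (nat_lit 10) (nat_lit 4) (nat_lit 513) (nat_lit 446) (nat_lit 241)) (XT.nd (nat_lit 78) (nat_lit 76) (nat_lit 0) (XT.lf (nat_lit 0) (nat_lit 2057401161638) (nat_lit 152) (nat_lit 873101914293) (nat_lit 0) (nat_lit 1738654141255) (nat_lit 10) (nat_lit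 5) (nat_lit 12) (nat_lit 4) (nat_lit 10) (nat_lit 4) (nat_lit 514) (nat_lit 446) (nat_lit 240)) (XT.lf (nat_lit 0) (nat_lit 581774608335) (nat_lit 76) (nat_lit 2360013158239) (nat_lit 76) (nat_lit 2041266134780) (nat_lit 9) (nat_lit 4) (nat_lit 10) (nat_lit 5) (nat_lit 10) (nat_lit 4) (nat_lit 515) (nat_lit 446) (nat_lit 239))))) (XT.nd (nat_lit 234) (nat_lit 76) (nat_lit 0) (XT.nd (nat_lit 78) (nat_lit 76) (nat_lit 0) (XT.lf (nat_lit 0) (nat_lit 2202695303026) (nat_lit 76) (nat_lit 1718102136196) (nat_lit 76) (nat_lit 1399355109890) (nat_lit 9) (nat_lit 4) (nat_lit 10) (nat_lit 5) (nat_lit 10) (nat_lit 4) (nat_lit 516) (nat_lit 446) (nat_lit 238)) (XT.nd (nat_lit 78) (nat_lit 76) (nat_lit 0) (XT.lf (nat_lit 0) (nat_lit 3953289626209) (nat_lit 76) (nat_lit 1024838246241) (nat_lit 76) (nat_lit 706091217299) (nat_lit 9) (nat_lit 4) (nat_lit 10) (nat_lit 5) (nat_lit 10) (nat_lit 4) (nat_lit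 517) (nat_lit 446) (nat_lit 237)) (XT.lf (nat_lit 0) (nat_lit 40501059450) (nat_lit 152) (nat_lit 234504827725) (nat_lit 76) (nat_lit 5802323039979) (nat_lit 8) (nat_lit 5) (nat_lit 10) (nat_lit 5) (nat_lit 9) (nat_lit 4) (nat_lit 518) (nat_lit 446) (nat_lit 236)))) (XT.nd (nat_lit 78) (nat_lit 0) (nat_lit 0) (XT.lf (nat_lit 0) (nat_lit 857422298655) (nat_lit 152) (nat_lit 5076811986288) (nat_lit 0) (nat_lit 562286156393) (nat_lit 7) (nat_lit 5) (nat_lit 9) (nat_lit 4) (nat_lit 7) (nat_lit 4) (nat_lit 519) (nat_lit 446) (nat_lit 235)) (XT.nd (nat_lit 78) (nat_lit 0) (nat_lit 0) (XT.lf (nat_lit 0) (nat_lit 1753418552676) (nat_lit 152) (nat_lit 3736448610245) (nat_lit 0) (nat_lit 1458282408477) (nat_lit 7) (nat_lit 5) (nat_lit 9) (nat_lit 4) (nat_lit 7) (nat_lit 4) (nat_lit 520) (nat_lit 446) (nat_lit 234)) (XT.lf (nat_lit 0) (nat_lit 2721094496259) (nat_lit 152) (nat_lit 2288856186202) (nat_lit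 0) (nat_lit 2425958350266) (nat_lit 7) (nat_lit 5) (nat_lit 9) (nat_lit 4) (nat_lit 7) (nat_lit 4) (nat_lit 521) (nat_lit 446) (nat_lit 233))))))) (XT.nd (nat_lit 57252) (nat_lit 0) (nat_lit 3420) (XT.nd (nat_lit 56784) (nat_lit 0) (nat_lit 5016) (XT.nd (nat_lit 234) (nat_lit 0) (nat_lit 0) (XT.nd (nat_lit 78) (nat_lit 76) (nat_lit 0) (XT.lf (nat_lit 0) (nat_lit 3766184505365) (nat_lit 152) (nat_lit 725456388683) (nat_lit 0) (nat_lit 3471048357711) (nat_lit 7) (nat_lit 5) (nat_lit 9) (nat_lit 4) (nat_lit 7) (nat_lit 4) (nat_lit 522) (nat_lit 446) (nat_lit 232)) (XT.nd (nat_lit 78) (nat_lit 0) (nat_lit 0) (XT.lf (nat_lit 0) (nat_lit 1013726056673) (nat_lit 76) (nat_lit 3905535785344) (nat_lit 76) (nat_lit 3610399636151) (nat_lit 6) (nat_lit 4) (nat_lit 7) (nat_lit 5) (nat_lit 7) (nat_lit 4) (nat_lit 523) (nat_lit 446) (nat_lit 231)) (XT.lf (nat_lit 0) (nat_lit 2933300426839) (nat_lit 76)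 (nat_lit 3251120193062) (nat_lit 76) (nat_lit 2955984042445) (nat_lit 6) (nat_lit 4) (nat_lit 7) (nat_lit 5) (nat_lit 7) (nat_lit 4) (nat_lit 524) (nat_lit 446) (nat_lit 230)))) (XT.nd (nat_lit 56394) (nat_lit 0) (nat_lit 5472) (XT.lf (nat_lit 0) (nat_lit 5006440729532) (nat_lit 76) (nat_lit 2544351362164) (nat_lit 76) (nat_lit 2249215210228) (nat_lit 6) (nat_lit 4) (nat_lit 7) (nat_lit 5) (nat_lit 7) (nat_lit 4) (nat_lit 525) (nat_lit 446) (nat_lit 229)) (XT.nd (nat_lit 78) (nat_lit 0) (nat_lit 0) (XT.lf (nat_lit 0) (nat_lit 71964891458) (nat_lit 532) (nat_lit 1828616937) (nat_lit 532) (nat_lit 1828616937) (nat_lit 78) (nat_lit 3) (nat_lit 85) (nat_lit 3) (nat_lit 85) (nat_lit 5) (nat_lit 447) (nat_lit 447) (nat_lit 306)) (XT.lf (nat_lit 76) (nat_lit 74800212630) (nat_lit 0) (nat_lit 76688401661) (nat_lit 532) (nat_lit 5661274114) (nat_lit 79) (nat_lit 5) (nat_lit 78) (nat_lit 3) (nat_lit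 85) (nat_lit 5) (nat_lit 448) (nat_lit 447) (nat_lit 305))))) (XT.nd (nat_lit 234) (nat_lit 0) (nat_lit 76) (XT.nd (nat_lit 78) (nat_lit 456) (nat_lit 0) (XT.lf (nat_lit 76) (nat_lit 159742091768) (nat_lit 0) (nat_lit 9782534) (nat_lit 532) (nat_lit 3768125200) (nat_lit 79) (nat_lit 5) (nat_lit 78) (nat_lit 3) (nat_lit 85) (nat_lit 5) (nat_lit 449) (nat_lit 447) (nat_lit 304)) (XT.nd (nat_lit 78) (nat_lit 0) (nat_lit 0) (XT.lf (nat_lit 0) (nat_lit 2459813048) (nat_lit 532) (nat_lit 86889867046) (nat_lit 608) (nat_lit 80725585968) (nat_lit 72) (nat_lit 5) (nat_lit 79) (nat_lit 5) (nat_lit 80) (nat_lit 5) (nat_lit 450) (nat_lit 447) (nat_lit 303)) (XT.lf (nat_lit 76) (nat_lit 76790289) (nat_lit 0) (nat_lit 9013456242) (nat_lit 608) (nat_lit 168048250689) (nat_lit 73) (nat_lit 5) (nat_lit 72) (nat_lit 5) (nat_lit 80) (nat_lit 5) (nat_lit 451) (nat_lit 447) (nat_lit 302)))) (XT.nd (nat_lit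 78) (nat_lit 0) (nat_lit 0) (XT.lf (nat_lit 0) (nat_lit 20558199548) (nat_lit 532) (nat_lit 87566222356) (nat_lit 608) (nat_lit 76297798256) (nat_lit 73) (nat_lit 5) (nat_lit 80) (nat_lit 5) (nat_lit 81) (nat_lit 5) (nat_lit 452) (nat_lit 447) (nat_lit 301)) (XT.nd (nat_lit 78) (nat_lit 0) (nat_lit 76) (XT.lf (nat_lit 76) (nat_lit 9320878467) (nat_lit 0) (nat_lit 24080783706) (nat_lit 608) (nat_lit 158850332968) (nat_lit 74) (nat_lit 5) (nat_lit 73) (nat_lit 5) (nat_lit 81) (nat_lit 5) (nat_lit 453) (nat_lit 447) (nat_lit 300)) (XT.lf (nat_lit 0) (nat_lit 51332615523) (nat_lit 532) (nat_lit 83243881521) (nat_lit 76) (nat_lit 65806854048) (nat_lit 74) (nat_lit 5) (nat_lit 81) (nat_lit 5) (nat_lit 75) (nat_lit 5) (nat_lit 454) (nat_lit 447) (nat_lit 299)))))) (XT.nd (nat_lit 468) (nat_lit 836) (nat_lit 0) (XT.nd (nat_lit 234) (nat_lit 228) (nat_lit 0) (XT.nd (nat_lit 78) (nat_lit 228) (nat_lit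 0) (XT.lf (nat_lit 0) (nat_lit 25045564956) (nat_lit 456) (nat_lit 46880118539) (nat_lit 532) (nat_lit 137141321017) (nat_lit 68) (nat_lit 5) (nat_lit 74) (nat_lit 5) (nat_lit 75) (nat_lit 5) (nat_lit 455) (nat_lit 447) (nat_lit 298)) (XT.nd (nat_lit 78) (nat_lit 228) (nat_lit 0) (XT.lf (nat_lit 0) (nat_lit 97651536605) (nat_lit 532) (nat_lit 72740607613) (nat_lit 76) (nat_lit 47774378872) (nat_lit 68) (nat_lit 5) (nat_lit 75) (nat_lit 5) (nat_lit 69) (nat_lit 5) (nat_lit 456) (nat_lit 447) (nat_lit 297)) (XT.lf (nat_lit 0) (nat_lit 48658975175) (nat_lit 228) (nat_lit 79164237194) (nat_lit 304) (nat_lit 99979770486) (nat_lit 65) (nat_lit 5) (nat_lit 68) (nat_lit 5) (nat_lit 69) (nat_lit 5) (nat_lit 457) (nat_lit 447) (nat_lit 296)))) (XT.nd (nat_lit 78) (nat_lit 228) (nat_lit 0) (XT.lf (nat_lit 0) (nat_lit 162914639250) (nat_lit 304) (nat_lit 54661393258) (nat_lit 76) (nat_lit 20433845579)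 (nat_lit 65) (nat_lit 5) (nat_lit 69) (nat_lit 5) (nat_lit 66) (nat_lit 5) (nat_lit 458) (nat_lit 447) (nat_lit 295)) (XT.nd (nat_lit 78) (nat_lit 0) (nat_lit 0) (XT.lf (nat_lit 0) (nat_lit 81816231766) (nat_lit 228) (nat_lit 123020903226) (nat_lit 304) (nat_lit 43874289615) (nat_lit 62) (nat_lit 5) (nat_lit 65) (nat_lit 5) (nat_lit 66) (nat_lit 5) (nat_lit 459) (nat_lit 447) (nat_lit 294)) (XT.lf (nat_lit 0) (nat_lit 232320548943) (nat_lit 228) (nat_lit 19287285875) (nat_lit 304) (nat_lit 8541707720) (nat_lit 62) (nat_lit 5) (nat_lit 65) (nat_lit 5) (nat_lit 66) (nat_lit 5) (nat_lit 460) (nat_lit 447) (nat_lit 293))))) (XT.nd (nat_lit 234) (nat_lit 380) (nat_lit 0) (XT.nd (nat_lit 78) (nat_lit 228) (nat_lit 0) (XT.lf (nat_lit 0) (nat_lit 33544528288) (nat_lit 228) (nat_lit 146472448778) (nat_lit 76) (nat_lit 91996058072) (nat_lit 59) (nat_lit 5) (nat_lit 62) (nat_lit 5) (nat_lit 60) (nat_lit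 5) (nat_lit 461) (nat_lit 447) (nat_lit 292)) (XT.nd (nat_lit 78) (nat_lit 0) (nat_lit 0) (XT.lf (nat_lit 0) (nat_lit 7636932520) (nat_lit 228) (nat_lit 72364427899) (nat_lit 304) (nat_lit 204689284052) (nat_lit 56) (nat_lit 5) (nat_lit 59) (nat_lit 5) (nat_lit 60) (nat_lit 5) (nat_lit 462) (nat_lit 447) (nat_lit 291)) (XT.lf (nat_lit 0) (nat_lit 135339261936) (nat_lit 304) (nat_lit 116816984434) (nat_lit 76) (nat_lit 45813054389) (nat_lit 56) (nat_lit 5) (nat_lit 60) (nat_lit 5) (nat_lit 57) (nat_lit 5) (nat_lit 463) (nat_lit 447) (nat_lit 290)))) (XT.nd (nat_lit 78) (nat_lit 228) (nat_lit 0) (XT.lf (nat_lit 0) (nat_lit 57221378660) (nat_lit 152) (nat_lit 141138478171) (nat_lit 228) (nat_lit 113689939845) (nat_lit 54) (nat_lit 5) (nat_lit 56) (nat_lit 5) (nat_lit 57) (nat_lit 5) (nat_lit 464) (nat_lit 447) (nat_lit 289)) (XT.nd (nat_lit 78) (nat_lit 228) (nat_lit 0) (XT.lf (nat_lit 0)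 (nat_lit 251826147867) (nat_lit 152) (nat_lit 17789829587) (nat_lit 228) (nat_lit 57385244591) (nat_lit 54) (nat_lit 5) (nat_lit 56) (nat_lit 5) (nat_lit 57) (nat_lit 5) (nat_lit 465) (nat_lit 447) (nat_lit 288)) (XT.lf (nat_lit 0) (nat_lit 9115490009) (nat_lit 228) (nat_lit 220735723874) (nat_lit 76) (nat_lit 112821925144) (nat_lit 51) (nat_lit 5) (nat_lit 54) (nat_lit 5) (nat_lit 52) (nat_lit 5) (nat_lit 466) (nat_lit 447) (nat_lit 287))))))))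
noncomputable def xc199 : XT := (XT.nd (nat_lit 1794) (nat_lit 1368) (nat_lit 0) (XT.nd (nat_lit 858) (nat_lit 836) (nat_lit 0) (XT.nd (nat_lit 390) (nat_lit 456) (nat_lit 0) (XT.nd (nat_lit 156) (nat_lit 304) (nat_lit 0) (XT.nd (nat_lit 78) (nat_lit 152) (nat_lit 0) (XT.lf (nat_lit 0) (nat_lit 80406773445) (nat_lit 228) (nat_lit 22346331628) (nat_lit 76) (nat_lit 256520799545) (nat_lit 51) (nat_lit 5) (nat_lit 54) (nat_lit 5) (nat_lit 52) (nat_lit 5) (nat_lit 467) (nat_lit 447) (nat_lit 286)) (XT.lf (nat_lit 0) (nat_lit 163216084838) (nat_lit 228) (nat_lit 175750350471) (nat_lit 76) (nat_lit 37771118145) (nat_lit 49) (nat_lit 5) (nat_lit 52) (nat_lit 5) (nat_lit 50) (nat_lit 5) (nat_lit 468) (nat_lit 447) (nat_lit 285))) (XT.nd (nat_lit 78) (nat_lit 152) (nat_lit 0) (XT.lf (nat_lit 0) (nat_lit 47605354579) (nat_lit 152) (nat_lit 209485379053) (nat_lit 228) (nat_lit 138152313183) (nat_lit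 47) (nat_lit 5) (nat_lit 49) (nat_lit 5) (nat_lit 50) (nat_lit 5) (nat_lit 469) (nat_lit 447) (nat_lit 284)) (XT.nd (nat_lit 78) (nat_lit 152) (nat_lit 0) (XT.lf (nat_lit 0) (nat_lit 298824460344) (nat_lit 152) (nat_lit 64456135893) (nat_lit 228) (nat_lit 51563964074) (nat_lit 47) (nat_lit 5) (nat_lit 49) (nat_lit 5) (nat_lit 50) (nat_lit 5) (nat_lit 470) (nat_lit 447) (nat_lit 283)) (XT.lf (nat_lit 0) (nat_lit 45553424242) (nat_lit 152) (nat_lit 297866854299) (nat_lit 76) (nat_lit 92057157454) (nat_lit 45) (nat_lit 5) (nat_lit 47) (nat_lit 5) (nat_lit 46) (nat_lit 5) (nat_lit 471) (nat_lit 447) (nat_lit 282))))) (XT.nd (nat_lit 234) (nat_lit 228) (nat_lit 0) (XT.nd (nat_lit 78) (nat_lit 228) (nat_lit 0) (XT.lf (nat_lit 0) (nat_lit 152583107233) (nat_lit 152) (nat_lit 42473316048) (nat_lit 76) (nat_lit 262203076809) (nat_lit 45) (nat_lit 5) (nat_lit 47) (nat_lit 5) (nat_lit 46) (nat_lit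 5) (nat_lit 472) (nat_lit 447) (nat_lit 281)) (XT.nd (nat_lit 78) (nat_lit 76) (nat_lit 0) (XT.lf (nat_lit 0) (nat_lit 245639465879) (nat_lit 152) (nat_lit 28443261662) (nat_lit 228) (nat_lit 206228796768) (nat_lit 43) (nat_lit 5) (nat_lit 45) (nat_lit 5) (nat_lit 46) (nat_lit 5) (nat_lit 473) (nat_lit 447) (nat_lit 280)) (XT.lf (nat_lit 0) (nat_lit 53083575390) (nat_lit 76) (nat_lit 358330345085) (nat_lit 152) (nat_lit 93304861764) (nat_lit 42) (nat_lit 5) (nat_lit 43) (nat_lit 5) (nat_lit 44) (nat_lit 4) (nat_lit 474) (nat_lit 447) (nat_lit 279)))) (XT.nd (nat_lit 78) (nat_lit 152) (nat_lit 0) (XT.lf (nat_lit 0) (nat_lit 34541373574) (nat_lit 152) (nat_lit 154954316856) (nat_lit 76) (nat_lit 340942064055) (nat_lit 41) (nat_lit 5) (nat_lit 43) (nat_lit 5) (nat_lit 42) (nat_lit 5) (nat_lit 475) (nat_lit 447) (nat_lit 278)) (XT.nd (nat_lit 78) (nat_lit 0) (nat_lit 0) (XT.lf (nat_lit 0) (nat_lit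 171622690176) (nat_lit 152) (nat_lit 79196195) (nat_lit 228) (nat_lit 385988280743) (nat_lit 39) (nat_lit 5) (nat_lit 41) (nat_lit 5) (nat_lit 42) (nat_lit 5) (nat_lit 476) (nat_lit 447) (nat_lit 277)) (XT.lf (nat_lit 0) (nat_lit 329099950785) (nat_lit 228) (nat_lit 58673751055) (nat_lit 76) (nat_lit 198607894074) (nat_lit 39) (nat_lit 5) (nat_lit 42) (nat_lit 5) (nat_lit 40) (nat_lit 4) (nat_lit 477) (nat_lit 447) (nat_lit 276)))))) (XT.nd (nat_lit 468) (nat_lit 304) (nat_lit 0) (XT.nd (nat_lit 234) (nat_lit 228) (nat_lit 0) (XT.nd (nat_lit 78) (nat_lit 228) (nat_lit 0) (XT.lf (nat_lit 0) (nat_lit 310438711629) (nat_lit 76) (nat_lit 196119204870) (nat_lit 152) (nat_lit 110212978036) (nat_lit 38) (nat_lit 5) (nat_lit 39) (nat_lit 5) (nat_lit 40) (nat_lit 4) (nat_lit 478) (nat_lit 447) (nat_lit 275)) (XT.nd (nat_lit 78) (nat_lit 0) (nat_lit 0) (XT.lf (nat_lit 0) (nat_lit 49773008977) (nat_lit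 228) (nat_lit 584622005067) (nat_lit 76) (nat_lit 14816051359) (nat_lit 35) (nat_lit 5) (nat_lit 38) (nat_lit 5) (nat_lit 36) (nat_lit 4) (nat_lit 479) (nat_lit 447) (nat_lit 274)) (XT.lf (nat_lit 0) (nat_lit 230290673065) (nat_lit 228) (nat_lit 209145347912) (nat_lit 76) (nat_lit 243486442061) (nat_lit 35) (nat_lit 5) (nat_lit 38) (nat_lit 5) (nat_lit 36) (nat_lit 4) (nat_lit 480) (nat_lit 447) (nat_lit 273)))) (XT.nd (nat_lit 78) (nat_lit 152) (nat_lit 0) (XT.lf (nat_lit 0) (nat_lit 206709804276) (nat_lit 76) (nat_lit 223511267876) (nat_lit 152) (nat_lit 288711994586) (nat_lit 34) (nat_lit 5) (nat_lit 35) (nat_lit 5) (nat_lit 36) (nat_lit 4) (nat_lit 481) (nat_lit 447) (nat_lit 272)) (XT.nd (nat_lit 78) (nat_lit 152) (nat_lit 0) (XT.lf (nat_lit 0) (nat_lit 652245768090) (nat_lit 152) (nat_lit 90021009983) (nat_lit 0) (nat_lit 15069751474) (nat_lit 34) (nat_lit 5) (nat_lit 36) (nat_lit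 4) (nat_lit 34) (nat_lit 4) (nat_lit 482) (nat_lit 447) (nat_lit 271)) (XT.lf (nat_lit 0) (nat_lit 103867741908) (nat_lit 152) (nat_lit 421131175297) (nat_lit 76) (nat_lit 272409130631) (nat_lit 32) (nat_lit 5) (nat_lit 34) (nat_lit 5) (nat_lit 33) (nat_lit 4) (nat_lit 483) (nat_lit 447) (nat_lit 270))))) (XT.nd (nat_lit 234) (nat_lit 152) (nat_lit 0) (XT.nd (nat_lit 78) (nat_lit 76) (nat_lit 0) (XT.lf (nat_lit 0) (nat_lit 43912823139) (nat_lit 76) (nat_lit 283533791704) (nat_lit 152) (nat_lit 512733796730) (nat_lit 31) (nat_lit 5) (nat_lit 32) (nat_lit 5) (nat_lit 33) (nat_lit 4) (nat_lit 484) (nat_lit 447) (nat_lit 269)) (XT.nd (nat_lit 78) (nat_lit 76) (nat_lit 0) (XT.lf (nat_lit 0) (nat_lit 570110354290) (nat_lit 76) (nat_lit 10315868331) (nat_lit 152) (nat_lit 305027187791) (nat_lit 31) (nat_lit 5) (nat_lit 32) (nat_lit 5) (nat_lit 33) (nat_lit 4) (nat_lit 485) (nat_lit 447) (nat_lit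 268)) (XT.lf (nat_lit 0) (nat_lit 207591444888) (nat_lit 76) (nat_lit 657893760878) (nat_lit 76) (nat_lit 67915762857) (nat_lit 30) (nat_lit 4) (nat_lit 31) (nat_lit 5) (nat_lit 31) (nat_lit 4) (nat_lit 486) (nat_lit 447) (nat_lit 267)))) (XT.nd (nat_lit 78) (nat_lit 76) (nat_lit 0) (XT.lf (nat_lit 0) (nat_lit 187865708690) (nat_lit 152) (nat_lit 199217366039) (nat_lit 76) (nat_lit 597010116816) (nat_lit 29) (nat_lit 5) (nat_lit 31) (nat_lit 5) (nat_lit 30) (nat_lit 4) (nat_lit 487) (nat_lit 447) (nat_lit 266)) (XT.nd (nat_lit 78) (nat_lit 0) (nat_lit 0) (XT.lf (nat_lit 0) (nat_lit 387102471965) (nat_lit 76) (nat_lit 82647792965) (nat_lit 152) (nat_lit 568204621133) (nat_lit 28) (nat_lit 5) (nat_lit 29) (nat_lit 5) (nat_lit 30) (nat_lit 4) (nat_lit 488) (nat_lit 447) (nat_lit 265)) (XT.lf (nat_lit 0) (nat_lit 785693708131) (nat_lit 152) (nat_lit 70093482663) (nat_lit 0) (nat_lit 239417675556)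 (nat_lit 28) (nat_lit 5) (nat_lit 30) (nat_lit 4) (nat_lit 28) (nat_lit 4) (nat_lit 489) (nat_lit 447) (nat_lit 264))))))) (XT.nd (nat_lit 936) (nat_lit 608) (nat_lit 0) (XT.nd (nat_lit 468) (nat_lit 304) (nat_lit 0) (XT.nd (nat_lit 234) (nat_lit 228) (nat_lit 0) (XT.nd (nat_lit 78) (nat_lit 152) (nat_lit 0) (XT.lf (nat_lit 0) (nat_lit 584203624397) (nat_lit 76) (nat_lit 558905771332) (nat_lit 76) (nat_lit 12629707816) (nat_lit 27) (nat_lit 4) (nat_lit 28) (nat_lit 5) (nat_lit 28) (nat_lit 4) (nat_lit 490) (nat_lit 447) (nat_lit 263)) (XT.nd (nat_lit 78) (nat_lit 0) (nat_lit 0) (XT.lf (nat_lit 0) (nat_lit 69907772212) (nat_lit 76) (nat_lit 226334470276) (nat_lit 152) (nat_lit 923989439952) (nat_lit 25) (nat_lit 5) (nat_lit 26) (nat_lit 5) (nat_lit 27) (nat_lit 4) (nat_lit 491) (nat_lit 447) (nat_lit 262)) (XT.lf (nat_lit 0) (nat_lit 648369128429) (nat_lit 152) (nat_lit 497392187302) (nat_lit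 0) (nat_lit 142557907418) (nat_lit 25) (nat_lit 5) (nat_lit 27) (nat_lit 4) (nat_lit 25) (nat_lit 4) (nat_lit 492) (nat_lit 447) (nat_lit 261)))) (XT.nd (nat_lit 78) (nat_lit 152) (nat_lit 0) (XT.lf (nat_lit 0) (nat_lit 212526629683) (nat_lit 76) (nat_lit 827129588477) (nat_lit 76) (nat_lit 321318344724) (nat_lit 24) (nat_lit 4) (nat_lit 25) (nat_lit 5) (nat_lit 25) (nat_lit 4) (nat_lit 493) (nat_lit 447) (nat_lit 260)) (XT.nd (nat_lit 78) (nat_lit 76) (nat_lit 0) (XT.lf (nat_lit 0) (nat_lit 35615984412) (nat_lit 152) (nat_lit 431730017231) (nat_lit 76) (nat_lit 970936230533) (nat_lit 23) (nat_lit 5) (nat_lit 25) (nat_lit 5) (nat_lit 24) (nat_lit 4) (nat_lit 494) (nat_lit 447) (nat_lit 259)) (XT.lf (nat_lit 0) (nat_lit 351566096917) (nat_lit 76) (nat_lit 60634567133) (nat_lit 152) (nat_lit 1108229765224) (nat_lit 22) (nat_lit 5) (nat_lit 23) (nat_lit 5) (nat_lit 24) (nat_lit 4) (nat_lit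 495) (nat_lit 447) (nat_lit 258))))) (XT.nd (nat_lit 234) (nat_lit 152) (nat_lit 0) (XT.nd (nat_lit 78) (nat_lit 152) (nat_lit 0) (XT.lf (nat_lit 0) (nat_lit 840128624422) (nat_lit 152) (nat_lit 395539711272) (nat_lit 0) (nat_lit 371784825938) (nat_lit 22) (nat_lit 5) (nat_lit 24) (nat_lit 4) (nat_lit 22) (nat_lit 4) (nat_lit 496) (nat_lit 447) (nat_lit 257)) (XT.nd (nat_lit 78) (nat_lit 76) (nat_lit 0) (XT.lf (nat_lit 0) (nat_lit 461144196555) (nat_lit 76) (nat_lit 853812048073) (nat_lit 76) (nat_lit 385468234112) (nat_lit 21) (nat_lit 4) (nat_lit 22) (nat_lit 5) (nat_lit 22) (nat_lit 4) (nat_lit 497) (nat_lit 447) (nat_lit 256)) (XT.lf (nat_lit 0) (nat_lit 36684726408) (nat_lit 152) (nat_lit 392039597362) (nat_lit 76) (nat_lit 1371169701055) (nat_lit 20) (nat_lit 5) (nat_lit 22) (nat_lit 5) (nat_lit 21) (nat_lit 4) (nat_lit 498) (nat_lit 447) (nat_lit 255)))) (XT.nd (nat_lit 78) (nat_lit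 76) (nat_lit 0) (XT.lf (nat_lit 0) (nat_lit 486098911593) (nat_lit 152) (nat_lit 1366828900840) (nat_lit 0) (nat_lit 52447206442) (nat_lit 19) (nat_lit 5) (nat_lit 21) (nat_lit 4) (nat_lit 19) (nat_lit 4) (nat_lit 499) (nat_lit 447) (nat_lit 254)) (XT.nd (nat_lit 78) (nat_lit 76) (nat_lit 0) (XT.lf (nat_lit 0) (nat_lit 993599375269) (nat_lit 152) (nat_lit 463976806946) (nat_lit 0) (nat_lit 559947658741) (nat_lit 19) (nat_lit 5) (nat_lit 21) (nat_lit 4) (nat_lit 19) (nat_lit 4) (nat_lit 500) (nat_lit 447) (nat_lit 253)) (XT.lf (nat_lit 0) (nat_lit 538017202783) (nat_lit 76) (nat_lit 1016621974492) (nat_lit 76) (nat_lit 582970247430) (nat_lit 18) (nat_lit 4) (nat_lit 19) (nat_lit 5) (nat_lit 19) (nat_lit 4) (nat_lit 501) (nat_lit 447) (nat_lit 252)))))) (XT.nd (nat_lit 468) (nat_lit 304) (nat_lit 0) (XT.nd (nat_lit 234) (nat_lit 152) (nat_lit 0) (XT.nd (nat_lit 78) (nat_lit 152) (nat_lit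 0) (XT.lf (nat_lit 0) (nat_lit 1646557455571) (nat_lit 76) (nat_lit 526690631264) (nat_lit 76) (nat_lit 93038894448) (nat_lit 18) (nat_lit 4) (nat_lit 19) (nat_lit 5) (nat_lit 19) (nat_lit 4) (nat_lit 502) (nat_lit 447) (nat_lit 251)) (XT.nd (nat_lit 78) (nat_lit 0) (nat_lit 0) (XT.lf (nat_lit 0) (nat_lit 425720858958) (nat_lit 152) (nat_lit 1953591488338) (nat_lit 0) (nat_lit 24191464655) (nat_lit 16) (nat_lit 5) (nat_lit 18) (nat_lit 4) (nat_lit 16) (nat_lit 4) (nat_lit 503) (nat_lit 447) (nat_lit 250)) (XT.lf (nat_lit 0) (nat_lit 1012019748902) (nat_lit 152) (nat_lit 926509375889) (nat_lit 0) (nat_lit 610490346856) (nat_lit 16) (nat_lit 5) (nat_lit 18) (nat_lit 4) (nat_lit 16) (nat_lit 4) (nat_lit 504) (nat_lit 447) (nat_lit 249)))) (XT.nd (nat_lit 78) (nat_lit 76) (nat_lit 0) (XT.lf (nat_lit 0) (nat_lit 192361987281) (nat_lit 76) (nat_lit 1457486851478) (nat_lit 76) (nat_lit 1055957442263)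 (nat_lit 15) (nat_lit 4) (nat_lit 16) (nat_lit 5) (nat_lit 16) (nat_lit 4) (nat_lit 505) (nat_lit 447) (nat_lit 248)) (XT.nd (nat_lit 78) (nat_lit 76) (nat_lit 0) (XT.lf (nat_lit 0) (nat_lit 1453434425833) (nat_lit 76) (nat_lit 910602217098) (nat_lit 76) (nat_lit 509072801245) (nat_lit 15) (nat_lit 4) (nat_lit 16) (nat_lit 5) (nat_lit 16) (nat_lit 4) (nat_lit 506) (nat_lit 447) (nat_lit 247)) (XT.lf (nat_lit 0) (nat_lit 77482498849) (nat_lit 152) (nat_lit 240365824392) (nat_lit 76) (nat_lit 2735791612128) (nat_lit 14) (nat_lit 5) (nat_lit 16) (nat_lit 5) (nat_lit 15) (nat_lit 4) (nat_lit 507) (nat_lit 447) (nat_lit 246))))) (XT.nd (nat_lit 234) (nat_lit 152) (nat_lit 0) (XT.nd (nat_lit 78) (nat_lit 76) (nat_lit 0) (XT.lf (nat_lit 0) (nat_lit 718049646290) (nat_lit 152) (nat_lit 2180475020605) (nat_lit 0) (nat_lit 346263139168) (nat_lit 13) (nat_lit 5) (nat_lit 15) (nat_lit 4) (nat_lit 13)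 (nat_lit 4) (nat_lit 508) (nat_lit 447) (nat_lit 245)) (XT.nd (nat_lit 78) (nat_lit 76) (nat_lit 0) (XT.lf (nat_lit 0) (nat_lit 1424860677210) (nat_lit 152) (nat_lit 972092783059) (nat_lit 0) (nat_lit 1053074165209) (nat_lit 13) (nat_lit 5) (nat_lit 15) (nat_lit 4) (nat_lit 13) (nat_lit 4) (nat_lit 509) (nat_lit 447) (nat_lit 244)) (XT.lf (nat_lit 0) (nat_lit 350493082006) (nat_lit 76) (nat_lit 1846152858484) (nat_lit 76) (nat_lit 1474366341965) (nat_lit 12) (nat_lit 4) (nat_lit 13) (nat_lit 5) (nat_lit 13) (nat_lit 4) (nat_lit 510) (nat_lit 447) (nat_lit 243)))) (XT.nd (nat_lit 78) (nat_lit 152) (nat_lit 0) (XT.lf (nat_lit 0) (nat_lit 1834169560131) (nat_lit 76) (nat_lit 1222583187375) (nat_lit 76) (nat_lit 850796666673) (nat_lit 12) (nat_lit 4) (nat_lit 13) (nat_lit 5) (nat_lit 13) (nat_lit 4) (nat_lit 511) (nat_lit 447) (nat_lit 242)) (XT.nd (nat_lit 78) (nat_lit 152) (nat_lit 0) (XT.lf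 (nat_lit 0) (nat_lit 3436540124962) (nat_lit 76) (nat_lit 549127958645) (nat_lit 76) (nat_lit 177341434070) (nat_lit 12) (nat_lit 4) (nat_lit 13) (nat_lit 5) (nat_lit 13) (nat_lit 4) (nat_lit 512) (nat_lit 447) (nat_lit 241)) (XT.lf (nat_lit 0) (nat_lit 545677393566) (nat_lit 152) (nat_lit 3688884252259) (nat_lit 0) (nat_lit 201430608230) (nat_lit 10) (nat_lit 5) (nat_lit 12) (nat_lit 4) (nat_lit 10) (nat_lit 4) (nat_lit 513) (nat_lit 447) (nat_lit 240))))))))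
noncomputable def xc200 : XT := (XT.nd (nat_lit 58188) (nat_lit 0) (nat_lit 2204) (XT.nd (nat_lit 858) (nat_lit 0) (nat_lit 0) (XT.nd (nat_lit 390) (nat_lit 228) (nat_lit 0) (XT.nd (nat_lit 156) (nat_lit 76) (nat_lit 0) (XT.nd (nat_lit 78) (nat_lit 0) (nat_lit 0) (XT.lf (nat_lit 0) (nat_lit 1351598614555) (nat_lit 152) (nat_lit 2368723312493) (nat_lit 0) (nat_lit 1007351826145) (nat_lit 10) (nat_lit 5) (nat_lit 12) (nat_lit 4) (nat_lit 10) (nat_lit 4) (nat_lit 514) (nat_lit 447) (nat_lit 239)) (XT.lf (nat_lit 0) (nat_lit 2221993519638) (nat_lit 152) (nat_lit 942949525333) (nat_lit 0) (nat_lit 1877746728381) (nat_lit 10) (nat_lit 5) (nat_lit 12) (nat_lit 4) (nat_lit 10) (nat_lit 4) (nat_lit 515) (nat_lit 447) (nat_lit 238))) (XT.nd (nat_lit 78) (nat_lit 0) (nat_lit 0) (XT.lf (nat_lit 0) (nat_lit 628317105382) (nat_lit 76) (nat_lit 2548813940659) (nat_lit 76) (nat_lit 2204567146766) (nat_lit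 9) (nat_lit 4) (nat_lit 10) (nat_lit 5) (nat_lit 10) (nat_lit 4) (nat_lit 516) (nat_lit 447) (nat_lit 237)) (XT.nd (nat_lit 78) (nat_lit 0) (nat_lit 0) (XT.lf (nat_lit 0) (nat_lit 2378911416509) (nat_lit 76) (nat_lit 1855550056871) (nat_lit 76) (nat_lit 1511303260536) (nat_lit 9) (nat_lit 4) (nat_lit 10) (nat_lit 5) (nat_lit 10) (nat_lit 4) (nat_lit 517) (nat_lit 447) (nat_lit 236)) (XT.lf (nat_lit 0) (nat_lit 4269553249306) (nat_lit 76) (nat_lit 1106825074254) (nat_lit 76) (nat_lit 762578275660) (nat_lit 9) (nat_lit 4) (nat_lit 10) (nat_lit 5) (nat_lit 10) (nat_lit 4) (nat_lit 518) (nat_lit 447) (nat_lit 235))))) (XT.nd (nat_lit 234) (nat_lit 76) (nat_lit 0) (XT.nd (nat_lit 78) (nat_lit 76) (nat_lit 0) (XT.lf (nat_lit 0) (nat_lit 43741354453) (nat_lit 152) (nat_lit 253264783423) (nat_lit 76) (nat_lit 6266509086627) (nat_lit 8) (nat_lit 5) (nat_lit 10) (nat_lit 5) (nat_lit 9) (nat_lit 4)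 (nat_lit 519) (nat_lit 447) (nat_lit 234)) (XT.nd (nat_lit 78) (nat_lit 0) (nat_lit 0) (XT.lf (nat_lit 0) (nat_lit 926016292479) (nat_lit 152) (nat_lit 5482956514355) (nat_lit 0) (nat_lit 607269253012) (nat_lit 7) (nat_lit 5) (nat_lit 9) (nat_lit 4) (nat_lit 7) (nat_lit 4) (nat_lit 520) (nat_lit 447) (nat_lit 233)) (XT.lf (nat_lit 0) (nat_lit 1893692231272) (nat_lit 152) (nat_lit 4035364100142) (nat_lit 0) (nat_lit 1574945190144) (nat_lit 7) (nat_lit 5) (nat_lit 9) (nat_lit 4) (nat_lit 7) (nat_lit 4) (nat_lit 521) (nat_lit 447) (nat_lit 232)))) (XT.nd (nat_lit 78) (nat_lit 76) (nat_lit 0) (XT.lf (nat_lit 0) (nat_lit 2938782235943) (nat_lit 152) (nat_lit 2471964311725) (nat_lit 0) (nat_lit 2620035193276) (nat_lit 7) (nat_lit 5) (nat_lit 9) (nat_lit 4) (nat_lit 7) (nat_lit 4) (nat_lit 522) (nat_lit 447) (nat_lit 231)) (XT.nd (nat_lit 78) (nat_lit 76) (nat_lit 0) (XT.lf (nat_lit 0) (nat_lit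 4067479432445) (nat_lit 152) (nat_lit 783492557766) (nat_lit 0) (nat_lit 3748732388355) (nat_lit 7) (nat_lit 5) (nat_lit 9) (nat_lit 4) (nat_lit 7) (nat_lit 4) (nat_lit 523) (nat_lit 447) (nat_lit 230)) (XT.lf (nat_lit 0) (nat_lit 1094824474560) (nat_lit 76) (nat_lit 4217978477142) (nat_lit 76) (nat_lit 3899231431732) (nat_lit 6) (nat_lit 4) (nat_lit 7) (nat_lit 5) (nat_lit 7) (nat_lit 4) (nat_lit 524) (nat_lit 447) (nat_lit 229)))))) (XT.nd (nat_lit 56862) (nat_lit 0) (nat_lit 4484) (XT.nd (nat_lit 56628) (nat_lit 0) (nat_lit 5016) (XT.nd (nat_lit 56472) (nat_lit 0) (nat_lit 5472) (XT.lf (nat_lit 0) (nat_lit 3167964769647) (nat_lit 76) (nat_lit 3511209650146) (nat_lit 76) (nat_lit 3192462603516) (nat_lit 6) (nat_lit 4) (nat_lit 7) (nat_lit 5) (nat_lit 7) (nat_lit 4) (nat_lit 525) (nat_lit 447) (nat_lit 228)) (XT.nd (nat_lit 78) (nat_lit 0) (nat_lit 0) (XT.lf (nat_lit 0) (nat_lit 77724711150)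 (nat_lit 532) (nat_lit 1973486441) (nat_lit 532) (nat_lit 1973486441) (nat_lit 78) (nat_lit 3) (nat_lit 85) (nat_lit 3) (nat_lit 85) (nat_lit 5) (nat_lit 448) (nat_lit 448) (nat_lit 304)) (XT.lf (nat_lit 76) (nat_lit 80786997451) (nat_lit 0) (nat_lit 82825639910) (nat_lit 532) (nat_lit 6108845445) (nat_lit 79) (nat_lit 5) (nat_lit 78) (nat_lit 3) (nat_lit 85) (nat_lit 5) (nat_lit 449) (nat_lit 448) (nat_lit 303)))) (XT.nd (nat_lit 78) (nat_lit 456) (nat_lit 0) (XT.lf (nat_lit 76) (nat_lit 172524021896) (nat_lit 0) (nat_lit 12570800) (nat_lit 532) (nat_lit 4064639477) (nat_lit 79) (nat_lit 5) (nat_lit 78) (nat_lit 3) (nat_lit 85) (nat_lit 5) (nat_lit 450) (nat_lit 448) (nat_lit 302)) (XT.nd (nat_lit 78) (nat_lit 0) (nat_lit 0) (XT.lf (nat_lit 0) (nat_lit 2660965409) (nat_lit 532) (nat_lit 93837921971) (nat_lit 608) (nat_lit 87182049030) (nat_lit 72) (nat_lit 5) (nat_lit 79) (nat_lit 5) (nat_lit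 80) (nat_lit 5) (nat_lit 451) (nat_lit 448) (nat_lit 301)) (XT.lf (nat_lit 76) (nat_lit 85988598) (nat_lit 0) (nat_lit 9735594942) (nat_lit 608) (nat_lit 181487662636) (nat_lit 73) (nat_lit 5) (nat_lit 72) (nat_lit 5) (nat_lit 80) (nat_lit 5) (nat_lit 452) (nat_lit 448) (nat_lit 300))))) (XT.nd (nat_lit 234) (nat_lit 608) (nat_lit 0) (XT.nd (nat_lit 78) (nat_lit 0) (nat_lit 0) (XT.lf (nat_lit 0) (nat_lit 22206644161) (nat_lit 532) (nat_lit 94568361392) (nat_lit 608) (nat_lit 82400687797) (nat_lit 73) (nat_lit 5) (nat_lit 80) (nat_lit 5) (nat_lit 81) (nat_lit 5) (nat_lit 453) (nat_lit 448) (nat_lit 299)) (XT.nd (nat_lit 78) (nat_lit 0) (nat_lit 76) (XT.lf (nat_lit 76) (nat_lit 10069627529) (nat_lit 0) (nat_lit 26007749672) (nat_lit 608) (nat_lit 171554489755) (nat_lit 74) (nat_lit 5) (nat_lit 73) (nat_lit 5) (nat_lit 81) (nat_lit 5) (nat_lit 454) (nat_lit 448) (nat_lit 298)) (XT.lf (nat_lit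 0) (nat_lit 55442530273) (nat_lit 532) (nat_lit 89900263631) (nat_lit 76) (nat_lit 71070959693) (nat_lit 74) (nat_lit 5) (nat_lit 81) (nat_lit 5) (nat_lit 75) (nat_lit 5) (nat_lit 455) (nat_lit 448) (nat_lit 297)))) (XT.nd (nat_lit 78) (nat_lit 228) (nat_lit 0) (XT.lf (nat_lit 0) (nat_lit 27052259365) (nat_lit 456) (nat_lit 50630612800) (nat_lit 532) (nat_lit 148109240933) (nat_lit 68) (nat_lit 5) (nat_lit 74) (nat_lit 5) (nat_lit 75) (nat_lit 5) (nat_lit 456) (nat_lit 448) (nat_lit 296)) (XT.nd (nat_lit 78) (nat_lit 228) (nat_lit 0) (XT.lf (nat_lit 0) (nat_lit 105466559488) (nat_lit 532) (nat_lit 78556797864) (nat_lit 76) (nat_lit 51596254610) (nat_lit 68) (nat_lit 5) (nat_lit 75) (nat_lit 5) (nat_lit 69) (nat_lit 5) (nat_lit 457) (nat_lit 448) (nat_lit 295)) (XT.lf (nat_lit 0) (nat_lit 52554674120) (nat_lit 228) (nat_lit 85497152073) (nat_lit 304) (nat_lit 107975173837) (nat_lit 65) (nat_lit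 5) (nat_lit 68) (nat_lit 5) (nat_lit 69) (nat_lit 5) (nat_lit 458) (nat_lit 448) (nat_lit 294))))))) (XT.nd (nat_lit 858) (nat_lit 1064) (nat_lit 0) (XT.nd (nat_lit 390) (nat_lit 532) (nat_lit 0) (XT.nd (nat_lit 156) (nat_lit 456) (nat_lit 0) (XT.nd (nat_lit 78) (nat_lit 228) (nat_lit 0) (XT.lf (nat_lit 0) (nat_lit 175950368005) (nat_lit 304) (nat_lit 59031344539) (nat_lit 76) (nat_lit 22068750342) (nat_lit 65) (nat_lit 5) (nat_lit 69) (nat_lit 5) (nat_lit 66) (nat_lit 5) (nat_lit 459) (nat_lit 448) (nat_lit 293)) (XT.lf (nat_lit 0) (nat_lit 88364415546) (nat_lit 228) (nat_lit 132862127797) (nat_lit 304) (nat_lit 47381599451) (nat_lit 62) (nat_lit 5) (nat_lit 65) (nat_lit 5) (nat_lit 66) (nat_lit 5) (nat_lit 460) (nat_lit 448) (nat_lit 292))) (XT.nd (nat_lit 78) (nat_lit 456) (nat_lit 0) (XT.lf (nat_lit 0) (nat_lit 250908864377) (nat_lit 228) (nat_lit 20829854220) (nat_lit 304) (nat_lit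 9222606066) (nat_lit 62) (nat_lit 5) (nat_lit 65) (nat_lit 5) (nat_lit 66) (nat_lit 5) (nat_lit 461) (nat_lit 448) (nat_lit 291)) (XT.nd (nat_lit 78) (nat_lit 228) (nat_lit 0) (XT.lf (nat_lit 0) (nat_lit 36230313113) (nat_lit 228) (nat_lit 158187356171) (nat_lit 76) (nat_lit 99356230243) (nat_lit 59) (nat_lit 5) (nat_lit 62) (nat_lit 5) (nat_lit 60) (nat_lit 5) (nat_lit 462) (nat_lit 448) (nat_lit 290)) (XT.lf (nat_lit 0) (nat_lit 8250702505) (nat_lit 228) (nat_lit 78152892386) (nat_lit 304) (nat_lit 221062130516) (nat_lit 56) (nat_lit 5) (nat_lit 59) (nat_lit 5) (nat_lit 60) (nat_lit 5) (nat_lit 463) (nat_lit 448) (nat_lit 289))))) (XT.nd (nat_lit 234) (nat_lit 380) (nat_lit 0) (XT.nd (nat_lit 78) (nat_lit 152) (nat_lit 0) (XT.lf (nat_lit 0) (nat_lit 146168386434) (nat_lit 304) (nat_lit 126159593729) (nat_lit 76) (nat_lit 49478705444) (nat_lit 56) (nat_lit 5) (nat_lit 60) (nat_lit 5) (nat_lit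 57) (nat_lit 5) (nat_lit 464) (nat_lit 448) (nat_lit 288)) (XT.nd (nat_lit 78) (nat_lit 0) (nat_lit 0) (XT.lf (nat_lit 0) (nat_lit 61801768806) (nat_lit 152) (nat_lit 152428777637) (nat_lit 228) (nat_lit 122783081394) (nat_lit 54) (nat_lit 5) (nat_lit 56) (nat_lit 5) (nat_lit 57) (nat_lit 5) (nat_lit 465) (nat_lit 448) (nat_lit 287)) (XT.lf (nat_lit 0) (nat_lit 271974721042) (nat_lit 152) (nat_lit 19212294853) (nat_lit 228) (nat_lit 61974162641) (nat_lit 54) (nat_lit 5) (nat_lit 56) (nat_lit 5) (nat_lit 57) (nat_lit 5) (nat_lit 466) (nat_lit 448) (nat_lit 286)))) (XT.nd (nat_lit 78) (nat_lit 152) (nat_lit 0) (XT.lf (nat_lit 0) (nat_lit 9846480930) (nat_lit 228) (nat_lit 238391949833) (nat_lit 76) (nat_lit 121848418859) (nat_lit 51) (nat_lit 5) (nat_lit 54) (nat_lit 5) (nat_lit 52) (nat_lit 5) (nat_lit 467) (nat_lit 448) (nat_lit 285)) (XT.nd (nat_lit 78) (nat_lit 152) (nat_lit 0) (XT.lf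 (nat_lit 0) (nat_lit 86840937284) (nat_lit 228) (nat_lit 24131601167) (nat_lit 76) (nat_lit 277043148419) (nat_lit 51) (nat_lit 5) (nat_lit 54) (nat_lit 5) (nat_lit 52) (nat_lit 5) (nat_lit 468) (nat_lit 448) (nat_lit 284)) (XT.lf (nat_lit 0) (nat_lit 176274950202) (nat_lit 228) (nat_lit 189807897798) (nat_lit 76) (nat_lit 40793583111) (nat_lit 49) (nat_lit 5) (nat_lit 52) (nat_lit 5) (nat_lit 50) (nat_lit 5) (nat_lit 469) (nat_lit 448) (nat_lit 283)))))) (XT.nd (nat_lit 468) (nat_lit 532) (nat_lit 0) (XT.nd (nat_lit 234) (nat_lit 228) (nat_lit 0) (XT.nd (nat_lit 78) (nat_lit 152) (nat_lit 0) (XT.lf (nat_lit 0) (nat_lit 51416200853) (nat_lit 152) (nat_lit 226243311266) (nat_lit 228) (nat_lit 149202856549) (nat_lit 47) (nat_lit 5) (nat_lit 49) (nat_lit 5) (nat_lit 50) (nat_lit 5) (nat_lit 470) (nat_lit 448) (nat_lit 282)) (XT.nd (nat_lit 78) (nat_lit 152) (nat_lit 0) (XT.lf (nat_lit 0) (nat_lit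 322732655976) (nat_lit 152) (nat_lit 69611795180) (nat_lit 228) (nat_lit 55687561117) (nat_lit 47) (nat_lit 5) (nat_lit 49) (nat_lit 5) (nat_lit 50) (nat_lit 5) (nat_lit 471) (nat_lit 448) (nat_lit 281)) (XT.lf (nat_lit 0) (nat_lit 49199110333) (nat_lit 152) (nat_lit 321693855399) (nat_lit 76) (nat_lit 99422551926) (nat_lit 45) (nat_lit 5) (nat_lit 47) (nat_lit 5) (nat_lit 46) (nat_lit 5) (nat_lit 472) (nat_lit 448) (nat_lit 280)))) (XT.nd (nat_lit 78) (nat_lit 228) (nat_lit 0) (XT.lf (nat_lit 0) (nat_lit 164791063359) (nat_lit 152) (nat_lit 45869007958) (nat_lit 76) (nat_lit 283180083950) (nat_lit 45) (nat_lit 5) (nat_lit 47) (nat_lit 5) (nat_lit 46) (nat_lit 5) (nat_lit 473) (nat_lit 448) (nat_lit 279)) (XT.nd (nat_lit 78) (nat_lit 76) (nat_lit 0) (XT.lf (nat_lit 0) (nat_lit 265292741501) (nat_lit 152) (nat_lit 30717865882) (nat_lit 228) (nat_lit 222725737730) (nat_lit 43) (nat_lit 5)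 (nat_lit 45) (nat_lit 5) (nat_lit 46) (nat_lit 5) (nat_lit 474) (nat_lit 448) (nat_lit 278)) (XT.lf (nat_lit 0) (nat_lit 57332404642) (nat_lit 76) (nat_lit 386995868277) (nat_lit 152) (nat_lit 100767912600) (nat_lit 42) (nat_lit 5) (nat_lit 43) (nat_lit 5) (nat_lit 44) (nat_lit 4) (nat_lit 475) (nat_lit 448) (nat_lit 277))))) (XT.nd (nat_lit 234) (nat_lit 304) (nat_lit 0) (XT.nd (nat_lit 78) (nat_lit 152) (nat_lit 0) (XT.lf (nat_lit 0) (nat_lit 37305860467) (nat_lit 152) (nat_lit 167348615595) (nat_lit 76) (nat_lit 368218204455) (nat_lit 41) (nat_lit 5) (nat_lit 43) (nat_lit 5) (nat_lit 42) (nat_lit 5) (nat_lit 476) (nat_lit 448) (nat_lit 276)) (XT.nd (nat_lit 78) (nat_lit 0) (nat_lit 0) (XT.lf (nat_lit 0) (nat_lit 185354500187) (nat_lit 152) (nat_lit 84674890) (nat_lit 228) (nat_lit 416866114228) (nat_lit 39) (nat_lit 5) (nat_lit 41) (nat_lit 5) (nat_lit 42) (nat_lit 5) (nat_lit 477) (nat_lit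 448) (nat_lit 275)) (XT.lf (nat_lit 0) (nat_lit 355429019447) (nat_lit 228) (nat_lit 63365738766) (nat_lit 76) (nat_lit 214497279424) (nat_lit 39) (nat_lit 5) (nat_lit 42) (nat_lit 5) (nat_lit 40) (nat_lit 4) (nat_lit 478) (nat_lit 448) (nat_lit 274)))) (XT.nd (nat_lit 78) (nat_lit 228) (nat_lit 0) (XT.lf (nat_lit 0) (nat_lit 335275672518) (nat_lit 76) (nat_lit 211807915276) (nat_lit 152) (nat_lit 119028895133) (nat_lit 38) (nat_lit 5) (nat_lit 39) (nat_lit 5) (nat_lit 40) (nat_lit 4) (nat_lit 479) (nat_lit 448) (nat_lit 273)) (XT.nd (nat_lit 78) (nat_lit 0) (nat_lit 0) (XT.lf (nat_lit 0) (nat_lit 53755901086) (nat_lit 228) (nat_lit 631389831521) (nat_lit 76) (nat_lit 16002133804) (nat_lit 35) (nat_lit 5) (nat_lit 38) (nat_lit 5) (nat_lit 36) (nat_lit 4) (nat_lit 480) (nat_lit 448) (nat_lit 272)) (XT.lf (nat_lit 0) (nat_lit 248714900420) (nat_lit 228) (nat_lit 225875185049) (nat_lit 76)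 (nat_lit 262966096626) (nat_lit 35) (nat_lit 5) (nat_lit 38) (nat_lit 5) (nat_lit 36) (nat_lit 4) (nat_lit 481) (nat_lit 448) (nat_lit 271))))))))
noncomputable def xc201 : XT := (XT.nd (nat_lit 1794) (nat_lit 760) (nat_lit 0) (XT.nd (nat_lit 858) (nat_lit 684) (nat_lit 0) (XT.nd (nat_lit 390) (nat_lit 456) (nat_lit 0) (XT.nd (nat_lit 156) (nat_lit 228) (nat_lit 0) (XT.nd (nat_lit 78) (nat_lit 0) (nat_lit 0) (XT.lf (nat_lit 0) (nat_lit 223248333980) (nat_lit 76) (nat_lit 241391367318) (nat_lit 152) (nat_lit 311807935213) (nat_lit 34) (nat_lit 5) (nat_lit 35) (nat_lit 5) (nat_lit 36) (nat_lit 4) (nat_lit 482) (nat_lit 448) (nat_lit 270)) (XT.lf (nat_lit 0) (nat_lit 704426320891) (nat_lit 152) (nat_lit 97221022596) (nat_lit 0) (nat_lit 16276037027) (nat_lit 34) (nat_lit 5) (nat_lit 36) (nat_lit 4) (nat_lit 34) (nat_lit 4) (nat_lit 483) (nat_lit 448) (nat_lit 269))) (XT.nd (nat_lit 78) (nat_lit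 76) (nat_lit 0) (XT.lf (nat_lit 0) (nat_lit 112178048223) (nat_lit 152) (nat_lit 454819996585) (nat_lit 76) (nat_lit 294202575820) (nat_lit 32) (nat_lit 5) (nat_lit 34) (nat_lit 5) (nat_lit 33) (nat_lit 4) (nat_lit 484) (nat_lit 448) (nat_lit 268)) (XT.nd (nat_lit 78) (nat_lit 0) (nat_lit 0) (XT.lf (nat_lit 0) (nat_lit 47427479379) (nat_lit 76) (nat_lit 306215725125) (nat_lit 152) (nat_lit 553751571086) (nat_lit 31) (nat_lit 5) (nat_lit 32) (nat_lit 5) (nat_lit 33) (nat_lit 4) (nat_lit 485) (nat_lit 448) (nat_lit 267)) (XT.lf (nat_lit 0) (nat_lit 615720692252) (nat_lit 76) (nat_lit 11140424913) (nat_lit 152) (nat_lit 329428502275) (nat_lit 31) (nat_lit 5) (nat_lit 32) (nat_lit 5) (nat_lit 33) (nat_lit 4) (nat_lit 486) (nat_lit 448) (nat_lit 266))))) (XT.nd (nat_lit 234) (nat_lit 228) (nat_lit 0) (XT.nd (nat_lit 78) (nat_lit 152) (nat_lit 0) (XT.lf (nat_lit 0) (nat_lit 224200277359) (nat_lit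 76) (nat_lit 710524534941) (nat_lit 76) (nat_lit 73348170546) (nat_lit 30) (nat_lit 4) (nat_lit 31) (nat_lit 5) (nat_lit 31) (nat_lit 4) (nat_lit 487) (nat_lit 448) (nat_lit 265)) (XT.nd (nat_lit 78) (nat_lit 76) (nat_lit 0) (XT.lf (nat_lit 0) (nat_lit 202895715989) (nat_lit 152) (nat_lit 215153311225) (nat_lit 76) (nat_lit 644771559553) (nat_lit 29) (nat_lit 5) (nat_lit 31) (nat_lit 5) (nat_lit 30) (nat_lit 4) (nat_lit 488) (nat_lit 448) (nat_lit 264)) (XT.lf (nat_lit 0) (nat_lit 418072077259) (nat_lit 76) (nat_lit 89258937721) (nat_lit 152) (nat_lit 613660203611) (nat_lit 28) (nat_lit 5) (nat_lit 29) (nat_lit 5) (nat_lit 30) (nat_lit 4) (nat_lit 489) (nat_lit 448) (nat_lit 263)))) (XT.nd (nat_lit 78) (nat_lit 228) (nat_lit 0) (XT.lf (nat_lit 0) (nat_lit 848549894760) (nat_lit 152) (nat_lit 75699619080) (nat_lit 0) (nat_lit 258571686574) (nat_lit 28) (nat_lit 5) (nat_lit 30) (nat_lit 4)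 (nat_lit 28) (nat_lit 4) (nat_lit 490) (nat_lit 448) (nat_lit 262)) (XT.nd (nat_lit 78) (nat_lit 152) (nat_lit 0) (XT.lf (nat_lit 0) (nat_lit 630941222565) (nat_lit 76) (nat_lit 603617595154) (nat_lit 76) (nat_lit 13639360441) (nat_lit 27) (nat_lit 4) (nat_lit 28) (nat_lit 5) (nat_lit 28) (nat_lit 4) (nat_lit 491) (nat_lit 448) (nat_lit 261)) (XT.lf (nat_lit 0) (nat_lit 75501704424) (nat_lit 76) (nat_lit 244440585815) (nat_lit 152) (nat_lit 997907873292) (nat_lit 25) (nat_lit 5) (nat_lit 26) (nat_lit 5) (nat_lit 27) (nat_lit 4) (nat_lit 492) (nat_lit 448) (nat_lit 260)))))) (XT.nd (nat_lit 468) (nat_lit 380) (nat_lit 0) (XT.nd (nat_lit 234) (nat_lit 152) (nat_lit 0) (XT.nd (nat_lit 78) (nat_lit 152) (nat_lit 0) (XT.lf (nat_lit 0) (nat_lit 700239291846) (nat_lit 152) (nat_lit 537182313678) (nat_lit 0) (nat_lit 153963104793) (nat_lit 25) (nat_lit 5) (nat_lit 27) (nat_lit 4) (nat_lit 25) (nat_lit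 4) (nat_lit 493) (nat_lit 448) (nat_lit 259)) (XT.nd (nat_lit 78) (nat_lit 76) (nat_lit 0) (XT.lf (nat_lit 0) (nat_lit 229529977055) (nat_lit 76) (nat_lit 893299354069) (nat_lit 76) (nat_lit 347023147518) (nat_lit 24) (nat_lit 4) (nat_lit 25) (nat_lit 5) (nat_lit 25) (nat_lit 4) (nat_lit 494) (nat_lit 448) (nat_lit 258)) (XT.lf (nat_lit 0) (nat_lit 38465847914) (nat_lit 152) (nat_lit 466267260942) (nat_lit 76) (nat_lit 1048611655088) (nat_lit 23) (nat_lit 5) (nat_lit 25) (nat_lit 5) (nat_lit 24) (nat_lit 4) (nat_lit 495) (nat_lit 448) (nat_lit 257)))) (XT.nd (nat_lit 78) (nat_lit 76) (nat_lit 0) (XT.lf (nat_lit 0) (nat_lit 379692513031) (nat_lit 76) (nat_lit 65484772715) (nat_lit 152) (nat_lit 1196887532361) (nat_lit 22) (nat_lit 5) (nat_lit 23) (nat_lit 5) (nat_lit 24) (nat_lit 4) (nat_lit 496) (nat_lit 448) (nat_lit 256)) (XT.nd (nat_lit 78) (nat_lit 76) (nat_lit 0) (XT.lf (nat_lit 0)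 (nat_lit 907339453296) (nat_lit 152) (nat_lit 427181813723) (nat_lit 0) (nat_lit 401528104408) (nat_lit 22) (nat_lit 5) (nat_lit 24) (nat_lit 4) (nat_lit 22) (nat_lit 4) (nat_lit 497) (nat_lit 448) (nat_lit 255)) (XT.lf (nat_lit 0) (nat_lit 498036779529) (nat_lit 76) (nat_lit 922116488856) (nat_lit 76) (nat_lit 416305126698) (nat_lit 21) (nat_lit 4) (nat_lit 22) (nat_lit 5) (nat_lit 22) (nat_lit 4) (nat_lit 498) (nat_lit 448) (nat_lit 254))))) (XT.nd (nat_lit 234) (nat_lit 228) (nat_lit 0) (XT.nd (nat_lit 78) (nat_lit 76) (nat_lit 0) (XT.lf (nat_lit 0) (nat_lit 39620002504) (nat_lit 152) (nat_lit 423401769235) (nat_lit 76) (nat_lit 1480863735217) (nat_lit 20) (nat_lit 5) (nat_lit 22) (nat_lit 5) (nat_lit 21) (nat_lit 4) (nat_lit 499) (nat_lit 448) (nat_lit 253)) (XT.nd (nat_lit 78) (nat_lit 0) (nat_lit 0) (XT.lf (nat_lit 0) (nat_lit 524987320656) (nat_lit 152) (nat_lit 1476174215127) (nat_lit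 0) (nat_lit 56643444895) (nat_lit 19) (nat_lit 5) (nat_lit 21) (nat_lit 4) (nat_lit 19) (nat_lit 4) (nat_lit 500) (nat_lit 448) (nat_lit 252)) (XT.lf (nat_lit 0) (nat_lit 1073087784676) (nat_lit 152) (nat_lit 501094027630) (nat_lit 0) (nat_lit 604743899161) (nat_lit 19) (nat_lit 5) (nat_lit 21) (nat_lit 4) (nat_lit 19) (nat_lit 4) (nat_lit 501) (nat_lit 448) (nat_lit 251)))) (XT.nd (nat_lit 78) (nat_lit 152) (nat_lit 0) (XT.lf (nat_lit 0) (nat_lit 581059479487) (nat_lit 76) (nat_lit 1097951278983) (nat_lit 76) (nat_lit 629607384436) (nat_lit 18) (nat_lit 4) (nat_lit 19) (nat_lit 5) (nat_lit 19) (nat_lit 4) (nat_lit 502) (nat_lit 448) (nat_lit 250)) (XT.nd (nat_lit 78) (nat_lit 152) (nat_lit 0) (XT.lf (nat_lit 0) (nat_lit 1778282885797) (nat_lit 76) (nat_lit 568825461886) (nat_lit 76) (nat_lit 100481558978) (nat_lit 18) (nat_lit 4) (nat_lit 19) (nat_lit 5) (nat_lit 19) (nat_lit 4) (nat_lit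 503) (nat_lit 448) (nat_lit 249)) (XT.lf (nat_lit 0) (nat_lit 459778951081) (nat_lit 152) (nat_lit 2109877949982) (nat_lit 0) (nat_lit 26127181959) (nat_lit 16) (nat_lit 5) (nat_lit 18) (nat_lit 4) (nat_lit 16) (nat_lit 4) (nat_lit 504) (nat_lit 448) (nat_lit 248))))))) (XT.nd (nat_lit 936) (nat_lit 304) (nat_lit 0) (XT.nd (nat_lit 468) (nat_lit 228) (nat_lit 0) (XT.nd (nat_lit 234) (nat_lit 152) (nat_lit 0) (XT.nd (nat_lit 78) (nat_lit 76) (nat_lit 0) (XT.lf (nat_lit 0) (nat_lit 1092981720857) (nat_lit 152) (nat_lit 1000629332050) (nat_lit 0) (nat_lit 659329945097) (nat_lit 16) (nat_lit 5) (nat_lit 18) (nat_lit 4) (nat_lit 16) (nat_lit 4) (nat_lit 505) (nat_lit 448) (nat_lit 247)) (XT.nd (nat_lit 78) (nat_lit 0) (nat_lit 0) (XT.lf (nat_lit 0) (nat_lit 207751720074) (nat_lit 76) (nat_lit 1574085407399) (nat_lit 76) (nat_lit 1140433625492) (nat_lit 15) (nat_lit 4) (nat_lit 16) (nat_lit 5)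 (nat_lit 16) (nat_lit 4) (nat_lit 506) (nat_lit 448) (nat_lit 246)) (XT.lf (nat_lit 0) (nat_lit 1569709896391) (nat_lit 76) (nat_lit 983450031320) (nat_lit 76) (nat_lit 549798243722) (nat_lit 15) (nat_lit 4) (nat_lit 16) (nat_lit 5) (nat_lit 16) (nat_lit 4) (nat_lit 507) (nat_lit 448) (nat_lit 245)))) (XT.nd (nat_lit 78) (nat_lit 76) (nat_lit 0) (XT.lf (nat_lit 0) (nat_lit 83681434435) (nat_lit 152) (nat_lit 259594409242) (nat_lit 76) (nat_lit 2954655259661) (nat_lit 14) (nat_lit 5) (nat_lit 16) (nat_lit 5) (nat_lit 15) (nat_lit 4) (nat_lit 508) (nat_lit 448) (nat_lit 244)) (XT.nd (nat_lit 78) (nat_lit 0) (nat_lit 0) (XT.lf (nat_lit 0) (nat_lit 775493952878) (nat_lit 152) (nat_lit 2354912340353) (nat_lit 0) (nat_lit 373964510520) (nat_lit 13) (nat_lit 5) (nat_lit 15) (nat_lit 4) (nat_lit 13) (nat_lit 4) (nat_lit 509) (nat_lit 448) (nat_lit 243)) (XT.lf (nat_lit 0) (nat_lit 1538849841466)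 (nat_lit 152) (nat_lit 1049859574313) (nat_lit 0) (nat_lit 1137320394925) (nat_lit 13) (nat_lit 5) (nat_lit 15) (nat_lit 4) (nat_lit 13) (nat_lit 4) (nat_lit 510) (nat_lit 448) (nat_lit 242))))) (XT.nd (nat_lit 234) (nat_lit 152) (nat_lit 0) (XT.nd (nat_lit 78) (nat_lit 0) (nat_lit 0) (XT.lf (nat_lit 0) (nat_lit 378533143972) (nat_lit 76) (nat_lit 1993844773668) (nat_lit 76) (nat_lit 1592315323253) (nat_lit 12) (nat_lit 4) (nat_lit 13) (nat_lit 5) (nat_lit 13) (nat_lit 4) (nat_lit 511) (nat_lit 448) (nat_lit 241)) (XT.nd (nat_lit 78) (nat_lit 0) (nat_lit 0) (XT.lf (nat_lit 0) (nat_lit 1980903694762) (nat_lit 76) (nat_lit 1320389552092) (nat_lit 76) (nat_lit 918860098090) (nat_lit 12) (nat_lit 4) (nat_lit 13) (nat_lit 5) (nat_lit 13) (nat_lit 4) (nat_lit 512) (nat_lit 448) (nat_lit 240)) (XT.lf (nat_lit 0) (nat_lit 3711463862570) (nat_lit 76) (nat_lit 593057926566) (nat_lit 76) (nat_lit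 191528469243) (nat_lit 12) (nat_lit 4) (nat_lit 13) (nat_lit 5) (nat_lit 13) (nat_lit 4) (nat_lit 513) (nat_lit 448) (nat_lit 239)))) (XT.nd (nat_lit 78) (nat_lit 0) (nat_lit 0) (XT.lf (nat_lit 0) (nat_lit 589331850119) (nat_lit 152) (nat_lit 3983994450335) (nat_lit 0) (nat_lit 217545312715) (nat_lit 10) (nat_lit 5) (nat_lit 12) (nat_lit 4) (nat_lit 10) (nat_lit 4) (nat_lit 514) (nat_lit 448) (nat_lit 238)) (XT.nd (nat_lit 78) (nat_lit 0) (nat_lit 0) (XT.lf (nat_lit 0) (nat_lit 1459726749153) (nat_lit 152) (nat_lit 2558220675544) (nat_lit 0) (nat_lit 1087940209113) (nat_lit 10) (nat_lit 5) (nat_lit 12) (nat_lit 4) (nat_lit 10) (nat_lit 4) (nat_lit 515) (nat_lit 448) (nat_lit 237)) (XT.lf (nat_lit 0) (nat_lit 2399753228462) (nat_lit 152) (nat_lit 1018385022592) (nat_lit 0) (nat_lit 2027966685980) (nat_lit 10) (nat_lit 5) (nat_lit 12) (nat_lit 4) (nat_lit 10) (nat_lit 4) (nat_lit 516) (nat_lit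 448) (nat_lit 236)))))) (XT.nd (nat_lit 468) (nat_lit 76) (nat_lit 0) (XT.nd (nat_lit 234) (nat_lit 152) (nat_lit 0) (XT.nd (nat_lit 78) (nat_lit 0) (nat_lit 0) (XT.lf (nat_lit 0) (nat_lit 678582926813) (nat_lit 76) (nat_lit 2752718824226) (nat_lit 76) (nat_lit 2380932279484) (nat_lit 9) (nat_lit 4) (nat_lit 10) (nat_lit 5) (nat_lit 10) (nat_lit 4) (nat_lit 517) (nat_lit 448) (nat_lit 235)) (XT.nd (nat_lit 78) (nat_lit 0) (nat_lit 0) (XT.lf (nat_lit 0) (nat_lit 2569224749274) (nat_lit 76) (nat_lit 2003993846896) (nat_lit 76) (nat_lit 1632207300062) (nat_lit 9) (nat_lit 4) (nat_lit 10) (nat_lit 5) (nat_lit 10) (nat_lit 4) (nat_lit 518) (nat_lit 448) (nat_lit 234)) (XT.lf (nat_lit 0) (nat_lit 4611117897625) (nat_lit 76) (nat_lit 1195370881561) (nat_lit 76) (nat_lit 823584332789) (nat_lit 9) (nat_lit 4) (nat_lit 10) (nat_lit 5) (nat_lit 10) (nat_lit 4) (nat_lit 519) (nat_lit 448) (nat_lit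 233)))) (XT.nd (nat_lit 78) (nat_lit 76) (nat_lit 0) (XT.lf (nat_lit 0) (nat_lit 47240843062) (nat_lit 152) (nat_lit 273525596997) (nat_lit 76) (nat_lit 6767829987983) (nat_lit 8) (nat_lit 5) (nat_lit 10) (nat_lit 5) (nat_lit 9) (nat_lit 4) (nat_lit 520) (nat_lit 448) (nat_lit 232)) (XT.nd (nat_lit 78) (nat_lit 0) (nat_lit 0) (XT.lf (nat_lit 0) (nat_lit 1000097775860) (nat_lit 152) (nat_lit 5921592666130) (nat_lit 0) (nat_lit 655850968242) (nat_lit 7) (nat_lit 5) (nat_lit 9) (nat_lit 4) (nat_lit 7) (nat_lit 4) (nat_lit 521) (nat_lit 448) (nat_lit 231)) (XT.lf (nat_lit 0) (nat_lit 2045187776424) (nat_lit 152) (nat_lit 4358192886141) (nat_lit 0) (nat_lit 1700940967382) (nat_lit 7) (nat_lit 5) (nat_lit 9) (nat_lit 4) (nat_lit 7) (nat_lit 4) (nat_lit 522) (nat_lit 448) (nat_lit 230))))) (XT.nd (nat_lit 56706) (nat_lit 0) (nat_lit 5472) (XT.nd (nat_lit 78) (nat_lit 76) (nat_lit 0) (XT.lf (nat_lit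 0) (nat_lit 3173884969125) (nat_lit 152) (nat_lit 2669721139986) (nat_lit 0) (nat_lit 2829638158764) (nat_lit 7) (nat_lit 5) (nat_lit 9) (nat_lit 4) (nat_lit 7) (nat_lit 4) (nat_lit 523) (nat_lit 448) (nat_lit 229)) (XT.nd (nat_lit 78) (nat_lit 76) (nat_lit 0) (XT.lf (nat_lit 0) (nat_lit 4392877929917) (nat_lit 152) (nat_lit 846171669167) (nat_lit 0) (nat_lit 4048631118335) (nat_lit 7) (nat_lit 5) (nat_lit 9) (nat_lit 4) (nat_lit 7) (nat_lit 4) (nat_lit 524) (nat_lit 448) (nat_lit 228)) (XT.lf (nat_lit 0) (nat_lit 1182410718322) (nat_lit 76) (nat_lit 4555416608682) (nat_lit 76) (nat_lit 4211169795970) (nat_lit 6) (nat_lit 4) (nat_lit 7) (nat_lit 5) (nat_lit 7) (nat_lit 4) (nat_lit 525) (nat_lit 448) (nat_lit 227)))) (XT.nd (nat_lit 78) (nat_lit 0) (nat_lit 0) (XT.lf (nat_lit 0) (nat_lit 83944941449) (nat_lit 532) (nat_lit 2130148063) (nat_lit 532) (nat_lit 2130148063) (nat_lit 78) (nat_lit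 3) (nat_lit 85) (nat_lit 3) (nat_lit 85) (nat_lit 5) (nat_lit 449) (nat_lit 449) (nat_lit 302)) (XT.nd (nat_lit 78) (nat_lit 0) (nat_lit 0) (XT.lf (nat_lit 76) (nat_lit 87252330198) (nat_lit 0) (nat_lit 89453548199) (nat_lit 532) (nat_lit 6592982953) (nat_lit 79) (nat_lit 5) (nat_lit 78) (nat_lit 3) (nat_lit 85) (nat_lit 5) (nat_lit 450) (nat_lit 449) (nat_lit 301)) (XT.lf (nat_lit 76) (nat_lit 186328140825) (nat_lit 0) (nat_lit 15295997) (nat_lit 532) (nat_lit 4385579036) (nat_lit 79) (nat_lit 5) (nat_lit 78) (nat_lit 3) (nat_lit 85) (nat_lit 5) (nat_lit 451) (nat_lit 449) (nat_lit 300))))))))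
noncomputable def xc202 : XT := (XT.nd (nat_lit 1794) (nat_lit 1748) (nat_lit 0) (XT.nd (nat_lit 858) (nat_lit 1292) (nat_lit 0) (XT.nd (nat_lit 390) (nat_lit 760) (nat_lit 0) (XT.nd (nat_lit 156) (nat_lit 0) (nat_lit 76) (XT.nd (nat_lit 78) (nat_lit 0) (nat_lit 0) (XT.lf (nat_lit 0) (nat_lit 2877586912) (nat_lit 532) (nat_lit 101342268452) (nat_lit 608) (nat_lit 94155255085) (nat_lit 72) (nat_lit 5) (nat_lit 79) (nat_lit 5) (nat_lit 80) (nat_lit 5) (nat_lit 452) (nat_lit 449) (nat_lit 299)) (XT.lf (nat_lit 76) (nat_lit 95486930) (nat_lit 0) (nat_lit 10515353204) (nat_lit 608) (nat_lit 196002862112) (nat_lit 73) (nat_lit 5) (nat_lit 72) (nat_lit 5) (nat_lit 80) (nat_lit 5) (nat_lit 453) (nat_lit 449) (nat_lit 298))) (XT.nd (nat_lit 78) (nat_lit 0) (nat_lit 0) (XT.lf (nat_lit 0) (nat_lit 23986423850) (nat_lit 532) (nat_lit 102131122183) (nat_lit 608) (nat_lit 88991941792) (nat_lit 73) (nat_lit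 5) (nat_lit 80) (nat_lit 5) (nat_lit 81) (nat_lit 5) (nat_lit 454) (nat_lit 449) (nat_lit 297)) (XT.nd (nat_lit 78) (nat_lit 0) (nat_lit 76) (XT.lf (nat_lit 76) (nat_lit 10877837292) (nat_lit 0) (nat_lit 28088801118) (nat_lit 608) (nat_lit 185275531162) (nat_lit 74) (nat_lit 5) (nat_lit 73) (nat_lit 5) (nat_lit 81) (nat_lit 5) (nat_lit 455) (nat_lit 449) (nat_lit 296)) (XT.lf (nat_lit 0) (nat_lit 59880766636) (nat_lit 532) (nat_lit 97089602612) (nat_lit 76) (nat_lit 76756256943) (nat_lit 74) (nat_lit 5) (nat_lit 81) (nat_lit 5) (nat_lit 75) (nat_lit 5) (nat_lit 456) (nat_lit 449) (nat_lit 295))))) (XT.nd (nat_lit 234) (nat_lit 228) (nat_lit 0) (XT.nd (nat_lit 78) (nat_lit 228) (nat_lit 0) (XT.lf (nat_lit 0) (nat_lit 29219054321) (nat_lit 456) (nat_lit 54681134508) (nat_lit 532) (nat_lit 159955077459) (nat_lit 68) (nat_lit 5) (nat_lit 74) (nat_lit 5) (nat_lit 75) (nat_lit 5) (nat_lit 457)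 (nat_lit 449) (nat_lit 294)) (XT.nd (nat_lit 78) (nat_lit 228) (nat_lit 0) (XT.lf (nat_lit 0) (nat_lit 113906370491) (nat_lit 532) (nat_lit 84838719644) (nat_lit 76) (nat_lit 55723891046) (nat_lit 68) (nat_lit 5) (nat_lit 75) (nat_lit 5) (nat_lit 69) (nat_lit 5) (nat_lit 458) (nat_lit 449) (nat_lit 293)) (XT.lf (nat_lit 0) (nat_lit 56761603718) (nat_lit 228) (nat_lit 92336732112) (nat_lit 304) (nat_lit 116610634343) (nat_lit 65) (nat_lit 5) (nat_lit 68) (nat_lit 5) (nat_lit 69) (nat_lit 5) (nat_lit 459) (nat_lit 449) (nat_lit 292)))) (XT.nd (nat_lit 78) (nat_lit 228) (nat_lit 0) (XT.lf (nat_lit 0) (nat_lit 190028590188) (nat_lit 304) (nat_lit 63751314225) (nat_lit 76) (nat_lit 23834419365) (nat_lit 65) (nat_lit 5) (nat_lit 69) (nat_lit 5) (nat_lit 66) (nat_lit 5) (nat_lit 460) (nat_lit 449) (nat_lit 291)) (XT.nd (nat_lit 78) (nat_lit 0) (nat_lit 0) (XT.lf (nat_lit 0) (nat_lit 95436042418)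 (nat_lit 228) (nat_lit 143490714202) (nat_lit 304) (nat_lit 51169869748) (nat_lit 62) (nat_lit 5) (nat_lit 65) (nat_lit 5) (nat_lit 66) (nat_lit 5) (nat_lit 461) (nat_lit 449) (nat_lit 290)) (XT.lf (nat_lit 0) (nat_lit 270983863922) (nat_lit 228) (nat_lit 22495887169) (nat_lit 304) (nat_lit 9958324126) (nat_lit 62) (nat_lit 5) (nat_lit 65) (nat_lit 5) (nat_lit 66) (nat_lit 5) (nat_lit 462) (nat_lit 449) (nat_lit 289)))))) (XT.nd (nat_lit 468) (nat_lit 456) (nat_lit 0) (XT.nd (nat_lit 234) (nat_lit 380) (nat_lit 0) (XT.nd (nat_lit 78) (nat_lit 228) (nat_lit 0) (XT.lf (nat_lit 0) (nat_lit 39130643651) (nat_lit 228) (nat_lit 170839868233) (nat_lit 76) (nat_lit 107305146638) (nat_lit 59) (nat_lit 5) (nat_lit 62) (nat_lit 5) (nat_lit 60) (nat_lit 5) (nat_lit 463) (nat_lit 449) (nat_lit 288)) (XT.nd (nat_lit 78) (nat_lit 0) (nat_lit 0) (XT.lf (nat_lit 0) (nat_lit 8913172442) (nat_lit 228) (nat_lit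 84404532432) (nat_lit 304) (nat_lit 238745132285) (nat_lit 56) (nat_lit 5) (nat_lit 59) (nat_lit 5) (nat_lit 60) (nat_lit 5) (nat_lit 464) (nat_lit 449) (nat_lit 287)) (XT.lf (nat_lit 0) (nat_lit 157863557917) (nat_lit 304) (nat_lit 136250004009) (nat_lit 76) (nat_lit 53437522031) (nat_lit 56) (nat_lit 5) (nat_lit 60) (nat_lit 5) (nat_lit 57) (nat_lit 5) (nat_lit 465) (nat_lit 449) (nat_lit 286)))) (XT.nd (nat_lit 78) (nat_lit 228) (nat_lit 0) (XT.lf (nat_lit 0) (nat_lit 66748207853) (nat_lit 152) (nat_lit 164622412162) (nat_lit 228) (nat_lit 132603967241) (nat_lit 54) (nat_lit 5) (nat_lit 56) (nat_lit 5) (nat_lit 57) (nat_lit 5) (nat_lit 466) (nat_lit 449) (nat_lit 285)) (XT.nd (nat_lit 78) (nat_lit 228) (nat_lit 0) (XT.lf (nat_lit 0) (nat_lit 293734826079) (nat_lit 152) (nat_lit 20748660214) (nat_lit 228) (nat_lit 66930465407) (nat_lit 54) (nat_lit 5) (nat_lit 56) (nat_lit 5) (nat_lit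 57) (nat_lit 5) (nat_lit 467) (nat_lit 449) (nat_lit 284)) (XT.lf (nat_lit 0) (nat_lit 10635701223) (nat_lit 228) (nat_lit 257461049346) (nat_lit 76) (nat_lit 131596926545) (nat_lit 51) (nat_lit 5) (nat_lit 54) (nat_lit 5) (nat_lit 52) (nat_lit 5) (nat_lit 468) (nat_lit 449) (nat_lit 283))))) (XT.nd (nat_lit 234) (nat_lit 152) (nat_lit 0) (XT.nd (nat_lit 78) (nat_lit 304) (nat_lit 0) (XT.lf (nat_lit 0) (nat_lit 93789602839) (nat_lit 228) (nat_lit 26060039933) (nat_lit 76) (nat_lit 299207187493) (nat_lit 51) (nat_lit 5) (nat_lit 54) (nat_lit 5) (nat_lit 52) (nat_lit 5) (nat_lit 469) (nat_lit 449) (nat_lit 282)) (XT.nd (nat_lit 78) (nat_lit 152) (nat_lit 0) (XT.lf (nat_lit 0) (nat_lit 190378299594) (nat_lit 228) (nat_lit 204990402812) (nat_lit 76) (nat_lit 44057734638) (nat_lit 49) (nat_lit 5) (nat_lit 52) (nat_lit 5) (nat_lit 50) (nat_lit 5) (nat_lit 470) (nat_lit 449) (nat_lit 281)) (XT.lf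 (nat_lit 0) (nat_lit 55531569888) (nat_lit 152) (nat_lit 244342006182) (nat_lit 228) (nat_lit 161137677590) (nat_lit 47) (nat_lit 5) (nat_lit 49) (nat_lit 5) (nat_lit 50) (nat_lit 5) (nat_lit 471) (nat_lit 449) (nat_lit 280)))) (XT.nd (nat_lit 78) (nat_lit 152) (nat_lit 0) (XT.lf (nat_lit 0) (nat_lit 348553187867) (nat_lit 152) (nat_lit 75180025844) (nat_lit 228) (nat_lit 60141262781) (nat_lit 47) (nat_lit 5) (nat_lit 49) (nat_lit 5) (nat_lit 50) (nat_lit 5) (nat_lit 472) (nat_lit 449) (nat_lit 279)) (XT.nd (nat_lit 78) (nat_lit 0) (nat_lit 0) (XT.lf (nat_lit 0) (nat_lit 53136249852) (nat_lit 152) (nat_lit 347427351448) (nat_lit 76) (nat_lit 107377060706) (nat_lit 45) (nat_lit 5) (nat_lit 47) (nat_lit 5) (nat_lit 46) (nat_lit 5) (nat_lit 473) (nat_lit 449) (nat_lit 278)) (XT.lf (nat_lit 0) (nat_lit 177975469439) (nat_lit 152) (nat_lit 49536665277) (nat_lit 76) (nat_lit 305835143097) (nat_lit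 45) (nat_lit 5) (nat_lit 47) (nat_lit 5) (nat_lit 46) (nat_lit 5) (nat_lit 474) (nat_lit 449) (nat_lit 277))))))) (XT.nd (nat_lit 936) (nat_lit 684) (nat_lit 0) (XT.nd (nat_lit 468) (nat_lit 532) (nat_lit 0) (XT.nd (nat_lit 234) (nat_lit 228) (nat_lit 0) (XT.nd (nat_lit 78) (nat_lit 152) (nat_lit 0) (XT.lf (nat_lit 0) (nat_lit 286517976967) (nat_lit 152) (nat_lit 33174560659) (nat_lit 228) (nat_lit 240542628384) (nat_lit 43) (nat_lit 5) (nat_lit 45) (nat_lit 5) (nat_lit 46) (nat_lit 5) (nat_lit 475) (nat_lit 449) (nat_lit 276)) (XT.nd (nat_lit 78) (nat_lit 76) (nat_lit 0) (XT.lf (nat_lit 0) (nat_lit 61920834480) (nat_lit 76) (nat_lit 417954762349) (nat_lit 152) (nat_lit 108828198399) (nat_lit 42) (nat_lit 5) (nat_lit 43) (nat_lit 5) (nat_lit 44) (nat_lit 4) (nat_lit 476) (nat_lit 449) (nat_lit 275)) (XT.lf (nat_lit 0) (nat_lit 40291338398) (nat_lit 152) (nat_lit 180734750205) (nat_lit 76)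 (nat_lit 397676325485) (nat_lit 41) (nat_lit 5) (nat_lit 43) (nat_lit 5) (nat_lit 42) (nat_lit 5) (nat_lit 477) (nat_lit 449) (nat_lit 274)))) (XT.nd (nat_lit 78) (nat_lit 76) (nat_lit 0) (XT.lf (nat_lit 0) (nat_lit 200184570419) (nat_lit 152) (nat_lit 90714141) (nat_lit 228) (nat_lit 450214349719) (nat_lit 39) (nat_lit 5) (nat_lit 41) (nat_lit 5) (nat_lit 42) (nat_lit 5) (nat_lit 478) (nat_lit 449) (nat_lit 273)) (XT.nd (nat_lit 78) (nat_lit 76) (nat_lit 0) (XT.lf (nat_lit 0) (nat_lit 383864260583) (nat_lit 228) (nat_lit 68433358315) (nat_lit 76) (nat_lit 231657708061) (nat_lit 39) (nat_lit 5) (nat_lit 42) (nat_lit 5) (nat_lit 40) (nat_lit 4) (nat_lit 479) (nat_lit 449) (nat_lit 272)) (XT.lf (nat_lit 0) (nat_lit 362099324365) (nat_lit 76) (nat_lit 228751840350) (nat_lit 152) (nat_lit 128550245542) (nat_lit 38) (nat_lit 5) (nat_lit 39) (nat_lit 5) (nat_lit 40) (nat_lit 4) (nat_lit 480)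 (nat_lit 449) (nat_lit 271))))) (XT.nd (nat_lit 234) (nat_lit 228) (nat_lit 0) (XT.nd (nat_lit 78) (nat_lit 76) (nat_lit 0) (XT.lf (nat_lit 0) (nat_lit 58057274570) (nat_lit 228) (nat_lit 681899359991) (nat_lit 76) (nat_lit 17282988953) (nat_lit 35) (nat_lit 5) (nat_lit 38) (nat_lit 5) (nat_lit 36) (nat_lit 4) (nat_lit 481) (nat_lit 449) (nat_lit 270)) (XT.nd (nat_lit 78) (nat_lit 76) (nat_lit 0) (XT.lf (nat_lit 0) (nat_lit 268612927081) (nat_lit 228) (nat_lit 243943664620) (nat_lit 76) (nat_lit 284004018101) (nat_lit 35) (nat_lit 5) (nat_lit 38) (nat_lit 5) (nat_lit 36) (nat_lit 4) (nat_lit 482) (nat_lit 449) (nat_lit 269)) (XT.lf (nat_lit 0) (nat_lit 241109697064) (nat_lit 76) (nat_lit 260701989129) (nat_lit 152) (nat_lit 336751696452) (nat_lit 34) (nat_lit 5) (nat_lit 35) (nat_lit 5) (nat_lit 36) (nat_lit 4) (nat_lit 483) (nat_lit 449) (nat_lit 268)))) (XT.nd (nat_lit 78) (nat_lit 228)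 (nat_lit 0) (XT.lf (nat_lit 0) (nat_lit 760781190754) (nat_lit 152) (nat_lit 104997274203) (nat_lit 0) (nat_lit 17578724785) (nat_lit 34) (nat_lit 5) (nat_lit 36) (nat_lit 4) (nat_lit 34) (nat_lit 4) (nat_lit 484) (nat_lit 449) (nat_lit 267)) (XT.nd (nat_lit 78) (nat_lit 76) (nat_lit 0) (XT.lf (nat_lit 0) (nat_lit 121153052509) (nat_lit 152) (nat_lit 491204162209) (nat_lit 76) (nat_lit 317739394659) (nat_lit 32) (nat_lit 5) (nat_lit 34) (nat_lit 5) (nat_lit 33) (nat_lit 4) (nat_lit 485) (nat_lit 449) (nat_lit 266)) (XT.lf (nat_lit 0) (nat_lit 51223075524) (nat_lit 76) (nat_lit 330712323056) (nat_lit 152) (nat_lit 598050899977) (nat_lit 31) (nat_lit 5) (nat_lit 32) (nat_lit 5) (nat_lit 33) (nat_lit 4) (nat_lit 486) (nat_lit 449) (nat_lit 265)))))) (XT.nd (nat_lit 468) (nat_lit 380) (nat_lit 0) (XT.nd (nat_lit 234) (nat_lit 152) (nat_lit 0) (XT.nd (nat_lit 78) (nat_lit 152) (nat_lit 0) (XT.lf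 (nat_lit 0) (nat_lit 664979641888) (nat_lit 76) (nat_lit 12031047722) (nat_lit 152) (nat_lit 355782044684) (nat_lit 31) (nat_lit 5) (nat_lit 32) (nat_lit 5) (nat_lit 33) (nat_lit 4) (nat_lit 487) (nat_lit 449) (nat_lit 264)) (XT.nd (nat_lit 78) (nat_lit 76) (nat_lit 0) (XT.lf (nat_lit 0) (nat_lit 242137600028) (nat_lit 76) (nat_lit 767365874617) (nat_lit 76) (nat_lit 79215292588) (nat_lit 30) (nat_lit 4) (nat_lit 31) (nat_lit 5) (nat_lit 31) (nat_lit 4) (nat_lit 488) (nat_lit 449) (nat_lit 263)) (XT.lf (nat_lit 0) (nat_lit 219128016791) (nat_lit 152) (nat_lit 232364338044) (nat_lit 76) (nat_lit 696353827348) (nat_lit 29) (nat_lit 5) (nat_lit 31) (nat_lit 5) (nat_lit 30) (nat_lit 4) (nat_lit 489) (nat_lit 449) (nat_lit 262)))) (XT.nd (nat_lit 78) (nat_lit 76) (nat_lit 0) (XT.lf (nat_lit 0) (nat_lit 451519050176) (nat_lit 76) (nat_lit 96399070878) (nat_lit 152) (nat_lit 662752344993) (nat_lit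 28) (nat_lit 5) (nat_lit 29) (nat_lit 5) (nat_lit 30) (nat_lit 4) (nat_lit 490) (nat_lit 449) (nat_lit 261)) (XT.nd (nat_lit 78) (nat_lit 76) (nat_lit 0) (XT.lf (nat_lit 0) (nat_lit 916434477887) (nat_lit 152) (nat_lit 81754437889) (nat_lit 0) (nat_lit 279257933308) (nat_lit 28) (nat_lit 5) (nat_lit 30) (nat_lit 4) (nat_lit 28) (nat_lit 4) (nat_lit 491) (nat_lit 449) (nat_lit 260)) (XT.lf (nat_lit 0) (nat_lit 681417641955) (nat_lit 76) (nat_lit 651906455884) (nat_lit 76) (nat_lit 14729888563) (nat_lit 27) (nat_lit 4) (nat_lit 28) (nat_lit 5) (nat_lit 28) (nat_lit 4) (nat_lit 492) (nat_lit 449) (nat_lit 259))))) (XT.nd (nat_lit 234) (nat_lit 152) (nat_lit 0) (XT.nd (nat_lit 78) (nat_lit 76) (nat_lit 0) (XT.lf (nat_lit 0) (nat_lit 81542964265) (nat_lit 76) (nat_lit 263995282198) (nat_lit 152) (nat_lit 1077739884280) (nat_lit 25) (nat_lit 5) (nat_lit 26) (nat_lit 5) (nat_lit 27) (nat_lit 4)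 (nat_lit 493) (nat_lit 449) (nat_lit 258)) (XT.nd (nat_lit 78) (nat_lit 76) (nat_lit 0) (XT.lf (nat_lit 0) (nat_lit 756258978011) (nat_lit 152) (nat_lit 580155828292) (nat_lit 0) (nat_lit 166280637385) (nat_lit 25) (nat_lit 5) (nat_lit 27) (nat_lit 4) (nat_lit 25) (nat_lit 4) (nat_lit 494) (nat_lit 449) (nat_lit 257)) (XT.lf (nat_lit 0) (nat_lit 247893418599) (nat_lit 76) (nat_lit 964762786718) (nat_lit 76) (nat_lit 374784429374) (nat_lit 24) (nat_lit 4) (nat_lit 25) (nat_lit 5) (nat_lit 25) (nat_lit 4) (nat_lit 495) (nat_lit 449) (nat_lit 256)))) (XT.nd (nat_lit 78) (nat_lit 76) (nat_lit 0) (XT.lf (nat_lit 0) (nat_lit 41543617075) (nat_lit 152) (nat_lit 503567649303) (nat_lit 76) (nat_lit 1132501038553) (nat_lit 23) (nat_lit 5) (nat_lit 25) (nat_lit 5) (nat_lit 24) (nat_lit 4) (nat_lit 496) (nat_lit 449) (nat_lit 255)) (XT.nd (nat_lit 78) (nat_lit 0) (nat_lit 0) (XT.lf (nat_lit 0) (nat_lit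 410068881460) (nat_lit 76) (nat_lit 70723074603) (nat_lit 152) (nat_lit 1292638008474) (nat_lit 22) (nat_lit 5) (nat_lit 23) (nat_lit 5) (nat_lit 24) (nat_lit 4) (nat_lit 497) (nat_lit 449) (nat_lit 254)) (XT.lf (nat_lit 0) (nat_lit 979927071597) (nat_lit 152) (nat_lit 461355437653) (nat_lit 0) (nat_lit 433650774909) (nat_lit 22) (nat_lit 5) (nat_lit 24) (nat_lit 4) (nat_lit 22) (nat_lit 4) (nat_lit 498) (nat_lit 449) (nat_lit 253))))))))
noncomputable def xc203 : XT := (XT.nd (nat_lit 1794) (nat_lit 76) (nat_lit 0) (XT.nd (nat_lit 858) (nat_lit 456) (nat_lit 0) (XT.nd (nat_lit 390) (nat_lit 304) (nat_lit 0) (XT.nd (nat_lit 156) (nat_lit 152) (nat_lit 0) (XT.nd (nat_lit 78) (nat_lit 76) (nat_lit 0) (XT.lf (nat_lit 0) (nat_lit 537880619739) (nat_lit 76) (nat_lit 995885359523) (nat_lit 76) (nat_lit 449609051458) (nat_lit 21) (nat_lit 4) (nat_lit 22) (nat_lit 5) (nat_lit 22) (nat_lit 4) (nat_lit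 499) (nat_lit 449) (nat_lit 252)) (XT.lf (nat_lit 0) (nat_lit 42790029645) (nat_lit 152) (nat_lit 457273056936) (nat_lit 76) (nat_lit 1599333226761) (nat_lit 20) (nat_lit 5) (nat_lit 22) (nat_lit 5) (nat_lit 21) (nat_lit 4) (nat_lit 500) (nat_lit 449) (nat_lit 251))) (XT.nd (nat_lit 78) (nat_lit 76) (nat_lit 0) (XT.lf (nat_lit 0) (nat_lit 566986731665) (nat_lit 152) (nat_lit 1594267296901) (nat_lit 0) (nat_lit 61175316524) (nat_lit 19) (nat_lit 5) (nat_lit 21) (nat_lit 4) (nat_lit 19) (nat_lit 4) (nat_lit 501) (nat_lit 449) (nat_lit 250)) (XT.nd (nat_lit 78) (nat_lit 76) (nat_lit 0) (XT.lf (nat_lit 0) (nat_lit 1158935201298) (nat_lit 152) (nat_lit 541180757770) (nat_lit 0) (nat_lit 653123777794) (nat_lit 19) (nat_lit 5) (nat_lit 21) (nat_lit 4) (nat_lit 19) (nat_lit 4) (nat_lit 502) (nat_lit 449) (nat_lit 249)) (XT.lf (nat_lit 0) (nat_lit 627545009864) (nat_lit 76) (nat_lit 1185786992525)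 (nat_lit 76) (nat_lit 679975561278) (nat_lit 18) (nat_lit 4) (nat_lit 19) (nat_lit 5) (nat_lit 19) (nat_lit 4) (nat_lit 503) (nat_lit 449) (nat_lit 248))))) (XT.nd (nat_lit 234) (nat_lit 152) (nat_lit 0) (XT.nd (nat_lit 78) (nat_lit 152) (nat_lit 0) (XT.lf (nat_lit 0) (nat_lit 1920546231492) (nat_lit 76) (nat_lit 614331138859) (nat_lit 76) (nat_lit 108519700443) (nat_lit 18) (nat_lit 4) (nat_lit 19) (nat_lit 5) (nat_lit 19) (nat_lit 4) (nat_lit 504) (nat_lit 449) (nat_lit 247)) (XT.nd (nat_lit 78) (nat_lit 0) (nat_lit 0) (XT.lf (nat_lit 0) (nat_lit 496561630171) (nat_lit 152) (nat_lit 2278667450880) (nat_lit 0) (nat_lit 28217699565) (nat_lit 16) (nat_lit 5) (nat_lit 18) (nat_lit 4) (nat_lit 16) (nat_lit 4) (nat_lit 505) (nat_lit 449) (nat_lit 246)) (XT.lf (nat_lit 0) (nat_lit 1180420594639) (nat_lit 152) (nat_lit 1080678997965) (nat_lit 0) (nat_lit 712076658342) (nat_lit 16) (nat_lit 5)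 (nat_lit 18) (nat_lit 4) (nat_lit 16) (nat_lit 4) (nat_lit 506) (nat_lit 449) (nat_lit 245)))) (XT.nd (nat_lit 78) (nat_lit 76) (nat_lit 0) (XT.lf (nat_lit 0) (nat_lit 224372521098) (nat_lit 76) (nat_lit 1700011903744) (nat_lit 76) (nat_lit 1231667962178) (nat_lit 15) (nat_lit 4) (nat_lit 16) (nat_lit 5) (nat_lit 16) (nat_lit 4) (nat_lit 507) (nat_lit 449) (nat_lit 244)) (XT.nd (nat_lit 78) (nat_lit 76) (nat_lit 0) (XT.lf (nat_lit 0) (nat_lit 1695287302378) (nat_lit 76) (nat_lit 1062125722487) (nat_lit 76) (nat_lit 593781776041) (nat_lit 15) (nat_lit 4) (nat_lit 16) (nat_lit 5) (nat_lit 16) (nat_lit 4) (nat_lit 508) (nat_lit 449) (nat_lit 243)) (XT.lf (nat_lit 0) (nat_lit 90376236979) (nat_lit 152) (nat_lit 280361378046) (nat_lit 76) (nat_lit 3191027953549) (nat_lit 14) (nat_lit 5) (nat_lit 16) (nat_lit 5) (nat_lit 15) (nat_lit 4) (nat_lit 509) (nat_lit 449) (nat_lit 242)))))) (XT.nd (nat_lit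 468) (nat_lit 152) (nat_lit 0) (XT.nd (nat_lit 234) (nat_lit 152) (nat_lit 0) (XT.nd (nat_lit 78) (nat_lit 76) (nat_lit 0) (XT.lf (nat_lit 0) (nat_lit 837533756219) (nat_lit 152) (nat_lit 2543304742960) (nat_lit 0) (nat_lit 403881945897) (nat_lit 13) (nat_lit 5) (nat_lit 15) (nat_lit 4) (nat_lit 13) (nat_lit 4) (nat_lit 510) (nat_lit 449) (nat_lit 241)) (XT.nd (nat_lit 78) (nat_lit 76) (nat_lit 0) (XT.lf (nat_lit 0) (nat_lit 1661958094626) (nat_lit 152) (nat_lit 1133847798943) (nat_lit 0) (nat_lit 1228306280718) (nat_lit 13) (nat_lit 5) (nat_lit 15) (nat_lit 4) (nat_lit 13) (nat_lit 4) (nat_lit 511) (nat_lit 449) (nat_lit 240)) (XT.lf (nat_lit 0) (nat_lit 408816323101) (nat_lit 76) (nat_lit 2153352086790) (nat_lit 76) (nat_lit 1719700269561) (nat_lit 12) (nat_lit 4) (nat_lit 13) (nat_lit 5) (nat_lit 13) (nat_lit 4) (nat_lit 512) (nat_lit 449) (nat_lit 239)))) (XT.nd (nat_lit 78) (nat_lit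 152) (nat_lit 0) (XT.lf (nat_lit 0) (nat_lit 2139376478871) (nat_lit 76) (nat_lit 1426020467397) (nat_lit 76) (nat_lit 992368647093) (nat_lit 12) (nat_lit 4) (nat_lit 13) (nat_lit 5) (nat_lit 13) (nat_lit 4) (nat_lit 513) (nat_lit 449) (nat_lit 238)) (XT.nd (nat_lit 78) (nat_lit 152) (nat_lit 0) (XT.lf (nat_lit 0) (nat_lit 4008381423917) (nat_lit 76) (nat_lit 640502330263) (nat_lit 76) (nat_lit 206850507112) (nat_lit 12) (nat_lit 4) (nat_lit 13) (nat_lit 5) (nat_lit 13) (nat_lit 4) (nat_lit 514) (nat_lit 449) (nat_lit 237)) (XT.lf (nat_lit 0) (nat_lit 636478625382) (nat_lit 152) (nat_lit 4302713541596) (nat_lit 0) (nat_lit 234949157061) (nat_lit 10) (nat_lit 5) (nat_lit 12) (nat_lit 4) (nat_lit 10) (nat_lit 4) (nat_lit 515) (nat_lit 449) (nat_lit 236))))) (XT.nd (nat_lit 234) (nat_lit 76) (nat_lit 0) (XT.nd (nat_lit 78) (nat_lit 76) (nat_lit 0) (XT.lf (nat_lit 0) (nat_lit 1576505099506)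 (nat_lit 152) (nat_lit 2762877899248) (nat_lit 0) (nat_lit 1174975628924) (nat_lit 10) (nat_lit 5) (nat_lit 12) (nat_lit 4) (nat_lit 10) (nat_lit 4) (nat_lit 516) (nat_lit 449) (nat_lit 235)) (XT.nd (nat_lit 78) (nat_lit 76) (nat_lit 0) (XT.lf (nat_lit 0) (nat_lit 2591733681572) (nat_lit 152) (nat_lit 1099855425937) (nat_lit 0) (nat_lit 2190204208898) (nat_lit 10) (nat_lit 5) (nat_lit 12) (nat_lit 4) (nat_lit 10) (nat_lit 4) (nat_lit 517) (nat_lit 449) (nat_lit 234)) (XT.lf (nat_lit 0) (nat_lit 732869949333) (nat_lit 76) (nat_lit 2972936131531) (nat_lit 76) (nat_lit 2571406656919) (nat_lit 9) (nat_lit 4) (nat_lit 10) (nat_lit 5) (nat_lit 10) (nat_lit 4) (nat_lit 518) (nat_lit 449) (nat_lit 233)))) (XT.nd (nat_lit 78) (nat_lit 76) (nat_lit 0) (XT.lf (nat_lit 0) (nat_lit 2774763088823) (nat_lit 76) (nat_lit 2164313170728) (nat_lit 76) (nat_lit 1762783694322) (nat_lit 9) (nat_lit 4) (nat_lit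 10) (nat_lit 5) (nat_lit 10) (nat_lit 4) (nat_lit 519) (nat_lit 449) (nat_lit 232)) (XT.nd (nat_lit 78) (nat_lit 76) (nat_lit 0) (XT.lf (nat_lit 0) (nat_lit 4980007662404) (nat_lit 76) (nat_lit 1291000381790) (nat_lit 76) (nat_lit 889470903723) (nat_lit 9) (nat_lit 4) (nat_lit 10) (nat_lit 5) (nat_lit 10) (nat_lit 4) (nat_lit 520) (nat_lit 449) (nat_lit 231)) (XT.lf (nat_lit 0) (nat_lit 51020265044) (nat_lit 152) (nat_lit 295407328312) (nat_lit 76) (nat_lit 7309256536563) (nat_lit 8) (nat_lit 5) (nat_lit 10) (nat_lit 5) (nat_lit 9) (nat_lit 4) (nat_lit 521) (nat_lit 449) (nat_lit 230))))))) (XT.nd (nat_lit 57486) (nat_lit 0) (nat_lit 3344) (XT.nd (nat_lit 57018) (nat_lit 0) (nat_lit 4940) (XT.nd (nat_lit 234) (nat_lit 0) (nat_lit 0) (XT.nd (nat_lit 78) (nat_lit 0) (nat_lit 0) (XT.lf (nat_lit 0) (nat_lit 1080105752235) (nat_lit 152) (nat_lit 6395319762743) (nat_lit 0) (nat_lit 708319195727)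 (nat_lit 7) (nat_lit 5) (nat_lit 9) (nat_lit 4) (nat_lit 7) (nat_lit 4) (nat_lit 522) (nat_lit 449) (nat_lit 229)) (XT.nd (nat_lit 78) (nat_lit 0) (nat_lit 0) (XT.lf (nat_lit 0) (nat_lit 2208802941415) (nat_lit 152) (nat_lit 4706848023813) (nat_lit 0) (nat_lit 1837016383685) (nat_lit 7) (nat_lit 5) (nat_lit 9) (nat_lit 4) (nat_lit 7) (nat_lit 4) (nat_lit 523) (nat_lit 449) (nat_lit 228)) (XT.lf (nat_lit 0) (nat_lit 3427795898947) (nat_lit 152) (nat_lit 2883298559684) (nat_lit 0) (nat_lit 3056009340087) (nat_lit 7) (nat_lit 5) (nat_lit 9) (nat_lit 4) (nat_lit 7) (nat_lit 4) (nat_lit 524) (nat_lit 449) (nat_lit 227)))) (XT.nd (nat_lit 56628) (nat_lit 0) (nat_lit 5396) (XT.lf (nat_lit 0) (nat_lit 4744308286804) (nat_lit 152) (nat_lit 913865151311) (nat_lit 0) (nat_lit 4372521726897) (nat_lit 7) (nat_lit 5) (nat_lit 9) (nat_lit 4) (nat_lit 7) (nat_lit 4) (nat_lit 525) (nat_lit 449) (nat_lit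 226)) (XT.nd (nat_lit 78) (nat_lit 0) (nat_lit 0) (XT.lf (nat_lit 0) (nat_lit 90662468699) (nat_lit 532) (nat_lit 2299516276) (nat_lit 532) (nat_lit 2299516276) (nat_lit 78) (nat_lit 3) (nat_lit 85) (nat_lit 3) (nat_lit 85) (nat_lit 5) (nat_lit 450) (nat_lit 450) (nat_lit 300)) (XT.lf (nat_lit 76) (nat_lit 94234551037) (nat_lit 0) (nat_lit 96611424215) (nat_lit 532) (nat_lit 7116503441) (nat_lit 79) (nat_lit 5) (nat_lit 78) (nat_lit 3) (nat_lit 85) (nat_lit 5) (nat_lit 451) (nat_lit 450) (nat_lit 299))))) (XT.nd (nat_lit 234) (nat_lit 0) (nat_lit 76) (XT.nd (nat_lit 78) (nat_lit 456) (nat_lit 0) (XT.lf (nat_lit 76) (nat_lit 201236275816) (nat_lit 0) (nat_lit 17993900) (nat_lit 532) (nat_lit 4732797444) (nat_lit 79) (nat_lit 5) (nat_lit 78) (nat_lit 3) (nat_lit 85) (nat_lit 5) (nat_lit 452) (nat_lit 450) (nat_lit 298)) (XT.nd (nat_lit 78) (nat_lit 0) (nat_lit 0) (XT.lf (nat_lit 0) (nat_lit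 3111003973) (nat_lit 532) (nat_lit 109447346023) (nat_lit 608) (nat_lit 101686511339) (nat_lit 72) (nat_lit 5) (nat_lit 79) (nat_lit 5) (nat_lit 80) (nat_lit 5) (nat_lit 453) (nat_lit 450) (nat_lit 297)) (XT.lf (nat_lit 76) (nat_lit 105371464) (nat_lit 0) (nat_lit 11357362210) (nat_lit 608) (nat_lit 211679821589) (nat_lit 73) (nat_lit 5) (nat_lit 72) (nat_lit 5) (nat_lit 80) (nat_lit 5) (nat_lit 454) (nat_lit 450) (nat_lit 296)))) (XT.nd (nat_lit 78) (nat_lit 0) (nat_lit 0) (XT.lf (nat_lit 0) (nat_lit 25908122528) (nat_lit 532) (nat_lit 110299290180) (nat_lit 608) (nat_lit 96110610383) (nat_lit 73) (nat_lit 5) (nat_lit 80) (nat_lit 5) (nat_lit 81) (nat_lit 5) (nat_lit 455) (nat_lit 450) (nat_lit 295)) (XT.nd (nat_lit 78) (nat_lit 0) (nat_lit 76) (XT.lf (nat_lit 76) (nat_lit 11750327274) (nat_lit 0) (nat_lit 30336275125) (nat_lit 608) (nat_lit 200094729200) (nat_lit 74) (nat_lit 5) (nat_lit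 73) (nat_lit 5) (nat_lit 81) (nat_lit 5) (nat_lit 456) (nat_lit 450) (nat_lit 294)) (XT.lf (nat_lit 0) (nat_lit 64673657615) (nat_lit 532) (nat_lit 104854471345) (nat_lit 76) (nat_lit 82896432116) (nat_lit 74) (nat_lit 5) (nat_lit 81) (nat_lit 5) (nat_lit 75) (nat_lit 5) (nat_lit 457) (nat_lit 450) (nat_lit 293)))))) (XT.nd (nat_lit 468) (nat_lit 836) (nat_lit 0) (XT.nd (nat_lit 234) (nat_lit 228) (nat_lit 0) (XT.nd (nat_lit 78) (nat_lit 228) (nat_lit 0) (XT.lf (nat_lit 0) (nat_lit 31558819929) (nat_lit 456) (nat_lit 59055687583) (nat_lit 532) (nat_lit 172748995016) (nat_lit 68) (nat_lit 5) (nat_lit 74) (nat_lit 5) (nat_lit 75) (nat_lit 5) (nat_lit 458) (nat_lit 450) (nat_lit 292)) (XT.nd (nat_lit 78) (nat_lit 228) (nat_lit 0) (XT.lf (nat_lit 0) (nat_lit 123021011683) (nat_lit 532) (nat_lit 91623569231) (nat_lit 76) (nat_lit 60181747517) (nat_lit 68) (nat_lit 5) (nat_lit 75) (nat_lit 5)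 (nat_lit 69) (nat_lit 5) (nat_lit 459) (nat_lit 450) (nat_lit 291)) (XT.lf (nat_lit 0) (nat_lit 61304723089) (nat_lit 228) (nat_lit 99723505963) (nat_lit 304) (nat_lit 125937295960) (nat_lit 65) (nat_lit 5) (nat_lit 68) (nat_lit 5) (nat_lit 69) (nat_lit 5) (nat_lit 460) (nat_lit 450) (nat_lit 290)))) (XT.nd (nat_lit 78) (nat_lit 228) (nat_lit 0) (XT.lf (nat_lit 0) (nat_lit 205232757326) (nat_lit 304) (nat_lit 68849243542) (nat_lit 76) (nat_lit 25741317802) (nat_lit 65) (nat_lit 5) (nat_lit 69) (nat_lit 5) (nat_lit 66) (nat_lit 5) (nat_lit 461) (nat_lit 450) (nat_lit 289)) (XT.nd (nat_lit 78) (nat_lit 0) (nat_lit 0) (XT.lf (nat_lit 0) (nat_lit 103073046548) (nat_lit 228) (nat_lit 154969642275) (nat_lit 304) (nat_lit 55261523750) (nat_lit 62) (nat_lit 5) (nat_lit 65) (nat_lit 5) (nat_lit 66) (nat_lit 5) (nat_lit 462) (nat_lit 450) (nat_lit 288)) (XT.lf (nat_lit 0) (nat_lit 292664536681) (nat_lit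 228) (nat_lit 24295253454) (nat_lit 304) (nat_lit 10753197854) (nat_lit 62) (nat_lit 5) (nat_lit 65) (nat_lit 5) (nat_lit 66) (nat_lit 5) (nat_lit 463) (nat_lit 450) (nat_lit 287))))) (XT.nd (nat_lit 234) (nat_lit 380) (nat_lit 0) (XT.nd (nat_lit 78) (nat_lit 228) (nat_lit 0) (XT.lf (nat_lit 0) (nat_lit 42262728792) (nat_lit 228) (nat_lit 184504934551) (nat_lit 76) (nat_lit 115889916715) (nat_lit 59) (nat_lit 5) (nat_lit 62) (nat_lit 5) (nat_lit 60) (nat_lit 5) (nat_lit 464) (nat_lit 450) (nat_lit 286)) (XT.nd (nat_lit 78) (nat_lit 0) (nat_lit 0) (XT.lf (nat_lit 0) (nat_lit 9628295628) (nat_lit 228) (nat_lit 91156388044) (nat_lit 304) (nat_lit 257843055048) (nat_lit 56) (nat_lit 5) (nat_lit 59) (nat_lit 5) (nat_lit 60) (nat_lit 5) (nat_lit 465) (nat_lit 450) (nat_lit 285)) (XT.lf (nat_lit 0) (nat_lit 170494100513) (nat_lit 304) (nat_lit 147147983395) (nat_lit 76) (nat_lit 57712969740) (nat_lit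 56) (nat_lit 5) (nat_lit 60) (nat_lit 5) (nat_lit 57) (nat_lit 5) (nat_lit 466) (nat_lit 450) (nat_lit 284)))) (XT.nd (nat_lit 78) (nat_lit 228) (nat_lit 0) (XT.lf (nat_lit 0) (nat_lit 72090034253) (nat_lit 152) (nat_lit 177791632702) (nat_lit 228) (nat_lit 143210775134) (nat_lit 54) (nat_lit 5) (nat_lit 56) (nat_lit 5) (nat_lit 57) (nat_lit 5) (nat_lit 467) (nat_lit 450) (nat_lit 283)) (XT.nd (nat_lit 78) (nat_lit 228) (nat_lit 0) (XT.lf (nat_lit 0) (nat_lit 317235436028) (nat_lit 152) (nat_lit 22408023000) (nat_lit 228) (nat_lit 72283504968) (nat_lit 54) (nat_lit 5) (nat_lit 56) (nat_lit 5) (nat_lit 57) (nat_lit 5) (nat_lit 468) (nat_lit 450) (nat_lit 282)) (XT.lf (nat_lit 0) (nat_lit 11487844888) (nat_lit 228) (nat_lit 278055998732) (nat_lit 76) (nat_lit 142125224372) (nat_lit 51) (nat_lit 5) (nat_lit 54) (nat_lit 5) (nat_lit 52) (nat_lit 5) (nat_lit 469) (nat_lit 450) (nat_lit 281))))))))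
noncomputable def xc204 : XT := (XT.nd (nat_lit 1794) (nat_lit 1216) (nat_lit 0) (XT.nd (nat_lit 858) (nat_lit 836) (nat_lit 0) (XT.nd (nat_lit 390) (nat_lit 456) (nat_lit 0) (XT.nd (nat_lit 156) (nat_lit 304) (nat_lit 0) (XT.nd (nat_lit 78) (nat_lit 152) (nat_lit 0) (XT.lf (nat_lit 0) (nat_lit 101293963258) (nat_lit 228) (nat_lit 28143051867) (nat_lit 76) (nat_lit 323144265922) (nat_lit 51) (nat_lit 5) (nat_lit 54) (nat_lit 5) (nat_lit 52) (nat_lit 5) (nat_lit 470) (nat_lit 450) (nat_lit 280)) (XT.lf (nat_lit 0) (nat_lit 205609723863) (nat_lit 228) (nat_lit 221387811640) (nat_lit 76) (nat_lit 47582923435) (nat_lit 49) (nat_lit 5) (nat_lit 52) (nat_lit 5) (nat_lit 50) (nat_lit 5) (nat_lit 471) (nat_lit 450) (nat_lit 279))) (XT.nd (nat_lit 78) (nat_lit 152) (nat_lit 0) (XT.lf (nat_lit 0) (nat_lit 59975872714) (nat_lit 152) (nat_lit 263888706537) (nat_lit 228) (nat_lit 174027485107) (nat_lit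 47) (nat_lit 5) (nat_lit 49) (nat_lit 5) (nat_lit 50) (nat_lit 5) (nat_lit 472) (nat_lit 450) (nat_lit 278)) (XT.nd (nat_lit 78) (nat_lit 152) (nat_lit 0) (XT.lf (nat_lit 0) (nat_lit 376439088484) (nat_lit 152) (nat_lit 81193816672) (nat_lit 228) (nat_lit 64951446498) (nat_lit 47) (nat_lit 5) (nat_lit 49) (nat_lit 5) (nat_lit 50) (nat_lit 5) (nat_lit 473) (nat_lit 450) (nat_lit 277)) (XT.lf (nat_lit 0) (nat_lit 57388187813) (nat_lit 152) (nat_lit 375219814269) (nat_lit 76) (nat_lit 115967829666) (nat_lit 45) (nat_lit 5) (nat_lit 47) (nat_lit 5) (nat_lit 46) (nat_lit 5) (nat_lit 474) (nat_lit 450) (nat_lit 276))))) (XT.nd (nat_lit 234) (nat_lit 228) (nat_lit 0) (XT.nd (nat_lit 78) (nat_lit 228) (nat_lit 0) (XT.lf (nat_lit 0) (nat_lit 192214468080) (nat_lit 152) (nat_lit 53498001004) (nat_lit 76) (nat_lit 330302513900) (nat_lit 45) (nat_lit 5) (nat_lit 47) (nat_lit 5) (nat_lit 46) (nat_lit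 5) (nat_lit 475) (nat_lit 450) (nat_lit 275)) (XT.nd (nat_lit 78) (nat_lit 76) (nat_lit 0) (XT.lf (nat_lit 0) (nat_lit 309440972176) (nat_lit 152) (nat_lit 35827895802) (nat_lit 228) (nat_lit 259785036972) (nat_lit 43) (nat_lit 5) (nat_lit 45) (nat_lit 5) (nat_lit 46) (nat_lit 5) (nat_lit 476) (nat_lit 450) (nat_lit 274)) (XT.lf (nat_lit 0) (nat_lit 66876076570) (nat_lit 76) (nat_lit 451390478565) (nat_lit 152) (nat_lit 117533470723) (nat_lit 42) (nat_lit 5) (nat_lit 43) (nat_lit 5) (nat_lit 44) (nat_lit 4) (nat_lit 477) (nat_lit 450) (nat_lit 273)))) (XT.nd (nat_lit 78) (nat_lit 152) (nat_lit 0) (XT.lf (nat_lit 0) (nat_lit 43515510605) (nat_lit 152) (nat_lit 195192025902) (nat_lit 76) (nat_lit 429491001374) (nat_lit 41) (nat_lit 5) (nat_lit 43) (nat_lit 5) (nat_lit 42) (nat_lit 5) (nat_lit 478) (nat_lit 450) (nat_lit 272)) (XT.nd (nat_lit 78) (nat_lit 0) (nat_lit 0) (XT.lf (nat_lit 0)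 (nat_lit 216200802288) (nat_lit 152) (nat_lit 97341352) (nat_lit 228) (nat_lit 486230594364) (nat_lit 39) (nat_lit 5) (nat_lit 41) (nat_lit 5) (nat_lit 42) (nat_lit 5) (nat_lit 479) (nat_lit 450) (nat_lit 271)) (XT.lf (nat_lit 0) (nat_lit 414574189822) (nat_lit 228) (nat_lit 73906621328) (nat_lit 76) (nat_lit 250190878789) (nat_lit 39) (nat_lit 5) (nat_lit 42) (nat_lit 5) (nat_lit 40) (nat_lit 4) (nat_lit 480) (nat_lit 450) (nat_lit 270)))))) (XT.nd (nat_lit 468) (nat_lit 304) (nat_lit 0) (XT.nd (nat_lit 234) (nat_lit 228) (nat_lit 0) (XT.nd (nat_lit 78) (nat_lit 228) (nat_lit 0) (XT.lf (nat_lit 0) (nat_lit 391068640380) (nat_lit 76) (nat_lit 247051380456) (nat_lit 152) (nat_lit 138833441110) (nat_lit 38) (nat_lit 5) (nat_lit 39) (nat_lit 5) (nat_lit 40) (nat_lit 4) (nat_lit 481) (nat_lit 450) (nat_lit 269)) (XT.nd (nat_lit 78) (nat_lit 0) (nat_lit 0) (XT.lf (nat_lit 0) (nat_lit 62702629339)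 (nat_lit 228) (nat_lit 736449887279) (nat_lit 76) (nat_lit 18666214870) (nat_lit 35) (nat_lit 5) (nat_lit 38) (nat_lit 5) (nat_lit 36) (nat_lit 4) (nat_lit 482) (nat_lit 450) (nat_lit 268)) (XT.lf (nat_lit 0) (nat_lit 290102676806) (nat_lit 228) (nat_lit 263457841575) (nat_lit 76) (nat_lit 306724882883) (nat_lit 35) (nat_lit 5) (nat_lit 38) (nat_lit 5) (nat_lit 36) (nat_lit 4) (nat_lit 483) (nat_lit 450) (nat_lit 267)))) (XT.nd (nat_lit 78) (nat_lit 152) (nat_lit 0) (XT.lf (nat_lit 0) (nat_lit 260399755722) (nat_lit 76) (nat_lit 281557558774) (nat_lit 152) (nat_lit 363691083216) (nat_lit 34) (nat_lit 5) (nat_lit 35) (nat_lit 5) (nat_lit 36) (nat_lit 4) (nat_lit 484) (nat_lit 450) (nat_lit 266)) (XT.nd (nat_lit 78) (nat_lit 152) (nat_lit 0) (XT.lf (nat_lit 0) (nat_lit 821644341185) (nat_lit 152) (nat_lit 113395829973) (nat_lit 0) (nat_lit 18985541283) (nat_lit 34) (nat_lit 5) (nat_lit 36)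 (nat_lit 4) (nat_lit 34) (nat_lit 4) (nat_lit 485) (nat_lit 450) (nat_lit 265)) (XT.lf (nat_lit 0) (nat_lit 130845948655) (nat_lit 152) (nat_lit 530499265675) (nat_lit 76) (nat_lit 343159071586) (nat_lit 32) (nat_lit 5) (nat_lit 34) (nat_lit 5) (nat_lit 33) (nat_lit 4) (nat_lit 486) (nat_lit 450) (nat_lit 264))))) (XT.nd (nat_lit 234) (nat_lit 152) (nat_lit 0) (XT.nd (nat_lit 78) (nat_lit 76) (nat_lit 0) (XT.lf (nat_lit 0) (nat_lit 55322119951) (nat_lit 76) (nat_lit 357168742990) (nat_lit 152) (nat_lit 645894288851) (nat_lit 31) (nat_lit 5) (nat_lit 32) (nat_lit 5) (nat_lit 33) (nat_lit 4) (nat_lit 487) (nat_lit 450) (nat_lit 263)) (XT.nd (nat_lit 78) (nat_lit 76) (nat_lit 0) (XT.lf (nat_lit 0) (nat_lit 718179122854) (nat_lit 76) (nat_lit 12993007548) (nat_lit 152) (nat_lit 384243975736) (nat_lit 31) (nat_lit 5) (nat_lit 32) (nat_lit 5) (nat_lit 33) (nat_lit 4) (nat_lit 488) (nat_lit 450)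 (nat_lit 262)) (XT.lf (nat_lit 0) (nat_lit 261509722982) (nat_lit 76) (nat_lit 828754610361) (nat_lit 76) (nat_lit 85551888765) (nat_lit 30) (nat_lit 4) (nat_lit 31) (nat_lit 5) (nat_lit 31) (nat_lit 4) (nat_lit 489) (nat_lit 450) (nat_lit 261)))) (XT.nd (nat_lit 78) (nat_lit 76) (nat_lit 0) (XT.lf (nat_lit 0) (nat_lit 236658809850) (nat_lit 152) (nat_lit 250952423633) (nat_lit 76) (nat_lit 752062599097) (nat_lit 29) (nat_lit 5) (nat_lit 31) (nat_lit 5) (nat_lit 30) (nat_lit 4) (nat_lit 490) (nat_lit 450) (nat_lit 260)) (XT.nd (nat_lit 78) (nat_lit 0) (nat_lit 0) (XT.lf (nat_lit 0) (nat_lit 487641608772) (nat_lit 76) (nat_lit 104110497697) (nat_lit 152) (nat_lit 715771953968) (nat_lit 28) (nat_lit 5) (nat_lit 29) (nat_lit 5) (nat_lit 30) (nat_lit 4) (nat_lit 491) (nat_lit 450) (nat_lit 259)) (XT.lf (nat_lit 0) (nat_lit 989749743273) (nat_lit 152) (nat_lit 88293806366) (nat_lit 0) (nat_lit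 301599006766) (nat_lit 28) (nat_lit 5) (nat_lit 30) (nat_lit 4) (nat_lit 28) (nat_lit 4) (nat_lit 492) (nat_lit 450) (nat_lit 258))))))) (XT.nd (nat_lit 858) (nat_lit 532) (nat_lit 0) (XT.nd (nat_lit 390) (nat_lit 304) (nat_lit 0) (XT.nd (nat_lit 156) (nat_lit 152) (nat_lit 0) (XT.nd (nat_lit 78) (nat_lit 152) (nat_lit 0) (XT.lf (nat_lit 0) (nat_lit 735932014889) (nat_lit 76) (nat_lit 704058503491) (nat_lit 76) (nat_lit 15907747486) (nat_lit 27) (nat_lit 4) (nat_lit 28) (nat_lit 5) (nat_lit 28) (nat_lit 4) (nat_lit 493) (nat_lit 450) (nat_lit 257)) (XT.lf (nat_lit 0) (nat_lit 88067364615) (nat_lit 76) (nat_lit 285114432823) (nat_lit 152) (nat_lit 1163958544436) (nat_lit 25) (nat_lit 5) (nat_lit 26) (nat_lit 5) (nat_lit 27) (nat_lit 4) (nat_lit 494) (nat_lit 450) (nat_lit 256))) (XT.nd (nat_lit 78) (nat_lit 152) (nat_lit 0) (XT.lf (nat_lit 0) (nat_lit 816760161631) (nat_lit 152) (nat_lit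 626567376791) (nat_lit 0) (nat_lit 179583503506) (nat_lit 25) (nat_lit 5) (nat_lit 27) (nat_lit 4) (nat_lit 25) (nat_lit 4) (nat_lit 495) (nat_lit 450) (nat_lit 255)) (XT.nd (nat_lit 78) (nat_lit 76) (nat_lit 0) (XT.lf (nat_lit 0) (nat_lit 267725786617) (nat_lit 76) (nat_lit 1041943367545) (nat_lit 76) (nat_lit 404766695088) (nat_lit 24) (nat_lit 4) (nat_lit 25) (nat_lit 5) (nat_lit 25) (nat_lit 4) (nat_lit 496) (nat_lit 450) (nat_lit 254)) (XT.lf (nat_lit 0) (nat_lit 44867536249) (nat_lit 152) (nat_lit 543852210327) (nat_lit 76) (nat_lit 1223101508346) (nat_lit 23) (nat_lit 5) (nat_lit 25) (nat_lit 5) (nat_lit 24) (nat_lit 4) (nat_lit 497) (nat_lit 450) (nat_lit 253))))) (XT.nd (nat_lit 234) (nat_lit 152) (nat_lit 0) (XT.nd (nat_lit 78) (nat_lit 76) (nat_lit 0) (XT.lf (nat_lit 0) (nat_lit 442875221355) (nat_lit 76) (nat_lit 76380509110) (nat_lit 152) (nat_lit 1396048597784) (nat_lit 22)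 (nat_lit 5) (nat_lit 23) (nat_lit 5) (nat_lit 24) (nat_lit 4) (nat_lit 498) (nat_lit 450) (nat_lit 252)) (XT.nd (nat_lit 78) (nat_lit 76) (nat_lit 0) (XT.lf (nat_lit 0) (nat_lit 1058321633448) (nat_lit 152) (nat_lit 498263082911) (nat_lit 0) (nat_lit 468343198827) (nat_lit 22) (nat_lit 5) (nat_lit 24) (nat_lit 4) (nat_lit 22) (nat_lit 4) (nat_lit 499) (nat_lit 450) (nat_lit 251)) (XT.lf (nat_lit 0) (nat_lit 580911839078) (nat_lit 76) (nat_lit 1075555803818) (nat_lit 76) (nat_lit 485577359443) (nat_lit 21) (nat_lit 4) (nat_lit 22) (nat_lit 5) (nat_lit 22) (nat_lit 4) (nat_lit 500) (nat_lit 450) (nat_lit 250)))) (XT.nd (nat_lit 78) (nat_lit 76) (nat_lit 0) (XT.lf (nat_lit 0) (nat_lit 46213598049) (nat_lit 152) (nat_lit 493854169463) (nat_lit 76) (nat_lit 1727280221602) (nat_lit 20) (nat_lit 5) (nat_lit 22) (nat_lit 5) (nat_lit 21) (nat_lit 4) (nat_lit 501) (nat_lit 450) (nat_lit 249)) (XT.nd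 (nat_lit 78) (nat_lit 0) (nat_lit 0) (XT.lf (nat_lit 0) (nat_lit 612346034873) (nat_lit 152) (nat_lit 1721807947255) (nat_lit 0) (nat_lit 66069681384) (nat_lit 19) (nat_lit 5) (nat_lit 21) (nat_lit 4) (nat_lit 19) (nat_lit 4) (nat_lit 502) (nat_lit 450) (nat_lit 248)) (XT.lf (nat_lit 0) (nat_lit 1251650355064) (nat_lit 152) (nat_lit 584474539319) (nat_lit 0) (nat_lit 705373994405) (nat_lit 19) (nat_lit 5) (nat_lit 21) (nat_lit 4) (nat_lit 19) (nat_lit 4) (nat_lit 503) (nat_lit 450) (nat_lit 247)))))) (XT.nd (nat_lit 468) (nat_lit 228) (nat_lit 0) (XT.nd (nat_lit 234) (nat_lit 76) (nat_lit 0) (XT.nd (nat_lit 78) (nat_lit 152) (nat_lit 0) (XT.lf (nat_lit 0) (nat_lit 677749272534) (nat_lit 76) (nat_lit 1280649618614) (nat_lit 76) (nat_lit 734373251317) (nat_lit 18) (nat_lit 4) (nat_lit 19) (nat_lit 5) (nat_lit 19) (nat_lit 4) (nat_lit 504) (nat_lit 450) (nat_lit 246)) (XT.nd (nat_lit 78) (nat_lit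 152) (nat_lit 0) (XT.lf (nat_lit 0) (nat_lit 2074190542864) (nat_lit 76) (nat_lit 663477321344) (nat_lit 76) (nat_lit 117200947901) (nat_lit 18) (nat_lit 4) (nat_lit 19) (nat_lit 5) (nat_lit 19) (nat_lit 4) (nat_lit 505) (nat_lit 450) (nat_lit 245)) (XT.lf (nat_lit 0) (nat_lit 536286871801) (nat_lit 152) (nat_lit 2460960216719) (nat_lit 0) (nat_lit 30475409639) (nat_lit 16) (nat_lit 5) (nat_lit 18) (nat_lit 4) (nat_lit 16) (nat_lit 4) (nat_lit 506) (nat_lit 450) (nat_lit 244)))) (XT.nd (nat_lit 78) (nat_lit 76) (nat_lit 0) (XT.lf (nat_lit 0) (nat_lit 1274854530374) (nat_lit 152) (nat_lit 1167132734255) (nat_lit 0) (nat_lit 769043063333) (nat_lit 16) (nat_lit 5) (nat_lit 18) (nat_lit 4) (nat_lit 16) (nat_lit 4) (nat_lit 507) (nat_lit 450) (nat_lit 243)) (XT.nd (nat_lit 78) (nat_lit 0) (nat_lit 0) (XT.lf (nat_lit 0) (nat_lit 242322891559) (nat_lit 76) (nat_lit 1836012567767) (nat_lit 76)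 (nat_lit 1330201096208) (nat_lit 15) (nat_lit 4) (nat_lit 16) (nat_lit 5) (nat_lit 16) (nat_lit 4) (nat_lit 508) (nat_lit 450) (nat_lit 242)) (XT.lf (nat_lit 0) (nat_lit 1830910813211) (nat_lit 76) (nat_lit 1147095513363) (nat_lit 76) (nat_lit 641284037621) (nat_lit 15) (nat_lit 4) (nat_lit 16) (nat_lit 5) (nat_lit 16) (nat_lit 4) (nat_lit 509) (nat_lit 450) (nat_lit 241))))) (XT.nd (nat_lit 234) (nat_lit 76) (nat_lit 0) (XT.nd (nat_lit 78) (nat_lit 76) (nat_lit 0) (XT.lf (nat_lit 0) (nat_lit 97606582670) (nat_lit 152) (nat_lit 302789787660) (nat_lit 76) (nat_lit 3446310423986) (nat_lit 14) (nat_lit 5) (nat_lit 16) (nat_lit 5) (nat_lit 15) (nat_lit 4) (nat_lit 510) (nat_lit 450) (nat_lit 240)) (XT.nd (nat_lit 78) (nat_lit 0) (nat_lit 0) (XT.lf (nat_lit 0) (nat_lit 904536702867) (nat_lit 152) (nat_lit 2746768621180) (nat_lit 0) (nat_lit 436192736939) (nat_lit 13) (nat_lit 5) (nat_lit 15)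 (nat_lit 4) (nat_lit 13) (nat_lit 4) (nat_lit 511) (nat_lit 450) (nat_lit 239)) (XT.lf (nat_lit 0) (nat_lit 1794914970113) (nat_lit 152) (nat_lit 1224555158768) (nat_lit 0) (nat_lit 1326571001111) (nat_lit 13) (nat_lit 5) (nat_lit 15) (nat_lit 4) (nat_lit 13) (nat_lit 4) (nat_lit 512) (nat_lit 450) (nat_lit 238)))) (XT.nd (nat_lit 78) (nat_lit 0) (nat_lit 0) (XT.lf (nat_lit 0) (nat_lit 441522081291) (nat_lit 76) (nat_lit 2325620023305) (nat_lit 76) (nat_lit 1857276051456) (nat_lit 12) (nat_lit 4) (nat_lit 13) (nat_lit 5) (nat_lit 13) (nat_lit 4) (nat_lit 513) (nat_lit 450) (nat_lit 237)) (XT.nd (nat_lit 78) (nat_lit 0) (nat_lit 0) (XT.lf (nat_lit 0) (nat_lit 2310527016016) (nat_lit 76) (nat_lit 1540101891429) (nat_lit 76) (nat_lit 1071757916943) (nat_lit 12) (nat_lit 4) (nat_lit 13) (nat_lit 5) (nat_lit 13) (nat_lit 4) (nat_lit 514) (nat_lit 450) (nat_lit 236)) (XT.lf (nat_lit 0) (nat_lit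 4329052325640) (nat_lit 76) (nat_lit 691742319129) (nat_lit 76) (nat_lit 223398342202) (nat_lit 12) (nat_lit 4) (nat_lit 13) (nat_lit 5) (nat_lit 13) (nat_lit 4) (nat_lit 515) (nat_lit 450) (nat_lit 235))))))))
noncomputable def xc205 : XT := (XT.nd (nat_lit 58422) (nat_lit 0) (nat_lit 1900) (XT.nd (nat_lit 57486) (nat_lit 0) (nat_lit 4180) (XT.nd (nat_lit 390) (nat_lit 152) (nat_lit 0) (XT.nd (nat_lit 156) (nat_lit 76) (nat_lit 0) (XT.nd (nat_lit 78) (nat_lit 0) (nat_lit 0) (XT.lf (nat_lit 0) (nat_lit 687397110246) (nat_lit 152) (nat_lit 4646930226461) (nat_lit 0) (nat_lit 253745277666) (nat_lit 10) (nat_lit 5) (nat_lit 12) (nat_lit 4) (nat_lit 10) (nat_lit 4) (nat_lit 516) (nat_lit 450) (nat_lit 234)) (XT.lf (nat_lit 0) (nat_lit 1702625687867) (nat_lit 152) (nat_lit 2983907762241) (nat_lit 0) (nat_lit 1268973853349) (nat_lit 10) (nat_lit 5) (nat_lit 12) (nat_lit 4) (nat_lit 10) (nat_lit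 4) (nat_lit 517) (nat_lit 450) (nat_lit 233))) (XT.nd (nat_lit 78) (nat_lit 76) (nat_lit 0) (XT.lf (nat_lit 0) (nat_lit 2799072543136) (nat_lit 152) (nat_lit 1187843518395) (nat_lit 0) (nat_lit 2365420706824) (nat_lit 10) (nat_lit 5) (nat_lit 12) (nat_lit 4) (nat_lit 10) (nat_lit 4) (nat_lit 518) (nat_lit 450) (nat_lit 232)) (XT.nd (nat_lit 78) (nat_lit 0) (nat_lit 0) (XT.lf (nat_lit 0) (nat_lit 791499878249) (nat_lit 76) (nat_lit 3210770851757) (nat_lit 76) (nat_lit 2777119013784) (nat_lit 9) (nat_lit 4) (nat_lit 10) (nat_lit 5) (nat_lit 10) (nat_lit 4) (nat_lit 519) (nat_lit 450) (nat_lit 231)) (XT.lf (nat_lit 0) (nat_lit 2996744444233) (nat_lit 76) (nat_lit 2337458066705) (nat_lit 76) (nat_lit 1903806227193) (nat_lit 9) (nat_lit 4) (nat_lit 10) (nat_lit 5) (nat_lit 10) (nat_lit 4) (nat_lit 520) (nat_lit 450) (nat_lit 230))))) (XT.nd (nat_lit 234) (nat_lit 0) (nat_lit 0) (XT.nd (nat_lit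 78) (nat_lit 152) (nat_lit 0) (XT.lf (nat_lit 0) (nat_lit 5378408560864) (nat_lit 76) (nat_lit 1394280266331) (nat_lit 76) (nat_lit 960628425395) (nat_lit 9) (nat_lit 4) (nat_lit 10) (nat_lit 5) (nat_lit 10) (nat_lit 4) (nat_lit 521) (nat_lit 450) (nat_lit 229)) (XT.nd (nat_lit 78) (nat_lit 76) (nat_lit 0) (XT.lf (nat_lit 0) (nat_lit 55102018739) (nat_lit 152) (nat_lit 319039643277) (nat_lit 76) (nat_lit 7893997187696) (nat_lit 8) (nat_lit 5) (nat_lit 10) (nat_lit 5) (nat_lit 9) (nat_lit 4) (nat_lit 522) (nat_lit 450) (nat_lit 228)) (XT.lf (nat_lit 0) (nat_lit 1166514344707) (nat_lit 152) (nat_lit 6906945072262) (nat_lit 0) (nat_lit 764984860007) (nat_lit 7) (nat_lit 5) (nat_lit 9) (nat_lit 4) (nat_lit 7) (nat_lit 4) (nat_lit 523) (nat_lit 450) (nat_lit 227)))) (XT.nd (nat_lit 78) (nat_lit 0) (nat_lit 0) (XT.lf (nat_lit 0) (nat_lit 2385507299221) (nat_lit 152) (nat_lit 5083395614329) (nat_lit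 0) (nat_lit 1983977813475) (nat_lit 7) (nat_lit 5) (nat_lit 9) (nat_lit 4) (nat_lit 7) (nat_lit 4) (nat_lit 524) (nat_lit 450) (nat_lit 226)) (XT.nd (nat_lit 56706) (nat_lit 0) (nat_lit 5396) (XT.lf (nat_lit 0) (nat_lit 3702019684283) (nat_lit 152) (nat_lit 3113962211691) (nat_lit 0) (nat_lit 3300490197567) (nat_lit 7) (nat_lit 5) (nat_lit 9) (nat_lit 4) (nat_lit 7) (nat_lit 4) (nat_lit 525) (nat_lit 450) (nat_lit 225)) (XT.lf (nat_lit 0) (nat_lit 97917122517) (nat_lit 532) (nat_lit 2482582831) (nat_lit 532) (nat_lit 2482582831) (nat_lit 78) (nat_lit 3) (nat_lit 85) (nat_lit 3) (nat_lit 85) (nat_lit 5) (nat_lit 451) (nat_lit 451) (nat_lit 298)))))) (XT.nd (nat_lit 468) (nat_lit 760) (nat_lit 0) (XT.nd (nat_lit 234) (nat_lit 0) (nat_lit 0) (XT.nd (nat_lit 78) (nat_lit 456) (nat_lit 0) (XT.lf (nat_lit 76) (nat_lit 101775059310) (nat_lit 0) (nat_lit 104341703174) (nat_lit 532) (nat_lit 7682464536)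 (nat_lit 79) (nat_lit 5) (nat_lit 78) (nat_lit 3) (nat_lit 85) (nat_lit 5) (nat_lit 452) (nat_lit 451) (nat_lit 297)) (XT.nd (nat_lit 78) (nat_lit 456) (nat_lit 0) (XT.lf (nat_lit 76) (nat_lit 217336792872) (nat_lit 0) (nat_lit 20697320) (nat_lit 532) (nat_lit 5108310887) (nat_lit 79) (nat_lit 5) (nat_lit 78) (nat_lit 3) (nat_lit 85) (nat_lit 5) (nat_lit 453) (nat_lit 451) (nat_lit 296)) (XT.lf (nat_lit 0) (nat_lit 3362636442) (nat_lit 532) (nat_lit 118201158476) (nat_lit 608) (nat_lit 109820434173) (nat_lit 72) (nat_lit 5) (nat_lit 79) (nat_lit 5) (nat_lit 80) (nat_lit 5) (nat_lit 454) (nat_lit 451) (nat_lit 295)))) (XT.nd (nat_lit 78) (nat_lit 0) (nat_lit 76) (XT.lf (nat_lit 76) (nat_lit 115726403) (nat_lit 0) (nat_lit 12266620553) (nat_lit 608) (nat_lit 228611404253) (nat_lit 73) (nat_lit 5) (nat_lit 72) (nat_lit 5) (nat_lit 80) (nat_lit 5) (nat_lit 455) (nat_lit 451) (nat_lit 294))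 (XT.nd (nat_lit 78) (nat_lit 0) (nat_lit 0) (XT.lf (nat_lit 0) (nat_lit 27983159821) (nat_lit 532) (nat_lit 119121242844) (nat_lit 608) (nat_lit 103798870434) (nat_lit 73) (nat_lit 5) (nat_lit 80) (nat_lit 5) (nat_lit 81) (nat_lit 5) (nat_lit 456) (nat_lit 451) (nat_lit 293)) (XT.lf (nat_lit 76) (nat_lit 12692293612) (nat_lit 0) (nat_lit 32763494280) (nat_lit 608) (nat_lit 216099868874) (nat_lit 74) (nat_lit 5) (nat_lit 73) (nat_lit 5) (nat_lit 81) (nat_lit 5) (nat_lit 457) (nat_lit 451) (nat_lit 292))))) (XT.nd (nat_lit 234) (nat_lit 456) (nat_lit 0) (XT.nd (nat_lit 78) (nat_lit 456) (nat_lit 0) (XT.lf (nat_lit 0) (nat_lit 69849633255) (nat_lit 532) (nat_lit 113240857622) (nat_lit 76) (nat_lit 89527867722) (nat_lit 74) (nat_lit 5) (nat_lit 81) (nat_lit 5) (nat_lit 75) (nat_lit 5) (nat_lit 458) (nat_lit 451) (nat_lit 291)) (XT.nd (nat_lit 78) (nat_lit 0) (nat_lit 0) (XT.lf (nat_lit 0) (nat_lit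 34085447044) (nat_lit 456) (nat_lit 63780196015) (nat_lit 532) (nat_lit 186566781011) (nat_lit 68) (nat_lit 5) (nat_lit 74) (nat_lit 5) (nat_lit 75) (nat_lit 5) (nat_lit 459) (nat_lit 451) (nat_lit 290)) (XT.lf (nat_lit 0) (nat_lit 132864520082) (nat_lit 532) (nat_lit 98951527485) (nat_lit 76) (nat_lit 64996240326) (nat_lit 68) (nat_lit 5) (nat_lit 75) (nat_lit 5) (nat_lit 69) (nat_lit 5) (nat_lit 460) (nat_lit 451) (nat_lit 289)))) (XT.nd (nat_lit 78) (nat_lit 228) (nat_lit 0) (XT.lf (nat_lit 0) (nat_lit 66210979428) (nat_lit 228) (nat_lit 107701245222) (nat_lit 304) (nat_lit 136010402810) (nat_lit 65) (nat_lit 5) (nat_lit 68) (nat_lit 5) (nat_lit 69) (nat_lit 5) (nat_lit 461) (nat_lit 451) (nat_lit 288)) (XT.nd (nat_lit 78) (nat_lit 228) (nat_lit 0) (XT.lf (nat_lit 0) (nat_lit 221652989644) (nat_lit 304) (nat_lit 74355317609) (nat_lit 76) (nat_lit 27800747443) (nat_lit 65) (nat_lit 5)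 (nat_lit 69) (nat_lit 5) (nat_lit 66) (nat_lit 5) (nat_lit 462) (nat_lit 451) (nat_lit 287)) (XT.lf (nat_lit 0) (nat_lit 111320708462) (nat_lit 228) (nat_lit 167366931538) (nat_lit 304) (nat_lit 59680786203) (nat_lit 62) (nat_lit 5) (nat_lit 65) (nat_lit 5) (nat_lit 66) (nat_lit 5) (nat_lit 463) (nat_lit 451) (nat_lit 286))))))) (XT.nd (nat_lit 936) (nat_lit 988) (nat_lit 0) (XT.nd (nat_lit 468) (nat_lit 684) (nat_lit 0) (XT.nd (nat_lit 234) (nat_lit 152) (nat_lit 0) (XT.nd (nat_lit 78) (nat_lit 456) (nat_lit 0) (XT.lf (nat_lit 0) (nat_lit 316079383125) (nat_lit 228) (nat_lit 26238612510) (nat_lit 304) (nat_lit 11611917158) (nat_lit 62) (nat_lit 5) (nat_lit 65) (nat_lit 5) (nat_lit 66) (nat_lit 5) (nat_lit 464) (nat_lit 451) (nat_lit 285)) (XT.nd (nat_lit 78) (nat_lit 228) (nat_lit 0) (XT.lf (nat_lit 0) (nat_lit 45645147687) (nat_lit 228) (nat_lit 199263509065) (nat_lit 76) (nat_lit 125161417276)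 (nat_lit 59) (nat_lit 5) (nat_lit 62) (nat_lit 5) (nat_lit 60) (nat_lit 5) (nat_lit 465) (nat_lit 451) (nat_lit 284)) (XT.lf (nat_lit 0) (nat_lit 10400333447) (nat_lit 228) (nat_lit 98448464431) (nat_lit 304) (nat_lit 278469052419) (nat_lit 56) (nat_lit 5) (nat_lit 59) (nat_lit 5) (nat_lit 60) (nat_lit 5) (nat_lit 466) (nat_lit 451) (nat_lit 283)))) (XT.nd (nat_lit 78) (nat_lit 152) (nat_lit 0) (XT.lf (nat_lit 0) (nat_lit 184134878523) (nat_lit 304) (nat_lit 158918089441) (nat_lit 76) (nat_lit 62330389646) (nat_lit 56) (nat_lit 5) (nat_lit 60) (nat_lit 5) (nat_lit 57) (nat_lit 5) (nat_lit 467) (nat_lit 451) (nat_lit 282)) (XT.nd (nat_lit 78) (nat_lit 0) (nat_lit 0) (XT.lf (nat_lit 0) (nat_lit 77858925755) (nat_lit 152) (nat_lit 192014472549) (nat_lit 228) (nat_lit 154666343004) (nat_lit 54) (nat_lit 5) (nat_lit 56) (nat_lit 5) (nat_lit 57) (nat_lit 5) (nat_lit 468) (nat_lit 451) (nat_lit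 281)) (XT.lf (nat_lit 0) (nat_lit 342615834579) (nat_lit 152) (nat_lit 24200210425) (nat_lit 228) (nat_lit 78064987087) (nat_lit 54) (nat_lit 5) (nat_lit 56) (nat_lit 5) (nat_lit 57) (nat_lit 5) (nat_lit 469) (nat_lit 451) (nat_lit 280))))) (XT.nd (nat_lit 234) (nat_lit 304) (nat_lit 0) (XT.nd (nat_lit 78) (nat_lit 152) (nat_lit 0) (XT.lf (nat_lit 0) (nat_lit 12407976360) (nat_lit 228) (nat_lit 300298820055) (nat_lit 76) (nat_lit 153495708461) (nat_lit 51) (nat_lit 5) (nat_lit 54) (nat_lit 5) (nat_lit 52) (nat_lit 5) (nat_lit 470) (nat_lit 451) (nat_lit 279)) (XT.nd (nat_lit 78) (nat_lit 152) (nat_lit 0) (XT.lf (nat_lit 0) (nat_lit 109398502431) (nat_lit 228) (nat_lit 30392960298) (nat_lit 76) (nat_lit 348996238806) (nat_lit 51) (nat_lit 5) (nat_lit 54) (nat_lit 5) (nat_lit 52) (nat_lit 5) (nat_lit 471) (nat_lit 451) (nat_lit 278)) (XT.lf (nat_lit 0) (nat_lit 222059496544) (nat_lit 228)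 (nat_lit 239097273303) (nat_lit 76) (nat_lit 51390046015) (nat_lit 49) (nat_lit 5) (nat_lit 52) (nat_lit 5) (nat_lit 50) (nat_lit 5) (nat_lit 472) (nat_lit 451) (nat_lit 277)))) (XT.nd (nat_lit 78) (nat_lit 152) (nat_lit 0) (XT.lf (nat_lit 0) (nat_lit 64775466223) (nat_lit 152) (nat_lit 284999237098) (nat_lit 228) (nat_lit 187948649373) (nat_lit 47) (nat_lit 5) (nat_lit 49) (nat_lit 5) (nat_lit 50) (nat_lit 5) (nat_lit 473) (nat_lit 451) (nat_lit 276)) (XT.nd (nat_lit 78) (nat_lit 152) (nat_lit 0) (XT.lf (nat_lit 0) (nat_lit 406555626389) (nat_lit 152) (nat_lit 87688797966) (nat_lit 228) (nat_lit 70146604308) (nat_lit 47) (nat_lit 5) (nat_lit 49) (nat_lit 5) (nat_lit 50) (nat_lit 5) (nat_lit 474) (nat_lit 451) (nat_lit 275)) (XT.lf (nat_lit 0) (nat_lit 61980132733) (nat_lit 152) (nat_lit 405235920249) (nat_lit 76) (nat_lit 125245773960) (nat_lit 45) (nat_lit 5) (nat_lit 47) (nat_lit 5)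 (nat_lit 46) (nat_lit 5) (nat_lit 475) (nat_lit 451) (nat_lit 274)))))) (XT.nd (nat_lit 468) (nat_lit 532) (nat_lit 0) (XT.nd (nat_lit 234) (nat_lit 228) (nat_lit 0) (XT.nd (nat_lit 78) (nat_lit 228) (nat_lit 0) (XT.lf (nat_lit 0) (nat_lit 207592449503) (nat_lit 152) (nat_lit 57776471490) (nat_lit 76) (nat_lit 356727194568) (nat_lit 45) (nat_lit 5) (nat_lit 47) (nat_lit 5) (nat_lit 46) (nat_lit 5) (nat_lit 476) (nat_lit 451) (nat_lit 273)) (XT.nd (nat_lit 78) (nat_lit 76) (nat_lit 0) (XT.lf (nat_lit 0) (nat_lit 334197584871) (nat_lit 152) (nat_lit 38693587591) (nat_lit 228) (nat_lit 280566981147) (nat_lit 43) (nat_lit 5) (nat_lit 45) (nat_lit 5) (nat_lit 46) (nat_lit 5) (nat_lit 477) (nat_lit 451) (nat_lit 272)) (XT.lf (nat_lit 0) (nat_lit 72227513288) (nat_lit 76) (nat_lit 487501146916) (nat_lit 152) (nat_lit 126935305148) (nat_lit 42) (nat_lit 5) (nat_lit 43) (nat_lit 5) (nat_lit 44)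 (nat_lit 4) (nat_lit 478) (nat_lit 451) (nat_lit 271)))) (XT.nd (nat_lit 78) (nat_lit 152) (nat_lit 0) (XT.lf (nat_lit 0) (nat_lit 46997493168) (nat_lit 152) (nat_lit 210806098263) (nat_lit 76) (nat_lit 463850770039) (nat_lit 41) (nat_lit 5) (nat_lit 43) (nat_lit 5) (nat_lit 42) (nat_lit 5) (nat_lit 479) (nat_lit 451) (nat_lit 270)) (XT.nd (nat_lit 78) (nat_lit 0) (nat_lit 0) (XT.lf (nat_lit 0) (nat_lit 233498123531) (nat_lit 152) (nat_lit 104588604) (nat_lit 228) (nat_lit 525128267450) (nat_lit 39) (nat_lit 5) (nat_lit 41) (nat_lit 5) (nat_lit 42) (nat_lit 5) (nat_lit 480) (nat_lit 451) (nat_lit 269)) (XT.lf (nat_lit 0) (nat_lit 447740800928) (nat_lit 228) (nat_lit 79817945915) (nat_lit 76) (nat_lit 270206624129) (nat_lit 39) (nat_lit 5) (nat_lit 42) (nat_lit 5) (nat_lit 40) (nat_lit 4) (nat_lit 481) (nat_lit 451) (nat_lit 268))))) (XT.nd (nat_lit 234) (nat_lit 228) (nat_lit 0) (XT.nd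 (nat_lit 78) (nat_lit 228) (nat_lit 0) (XT.lf (nat_lit 0) (nat_lit 422355306221) (nat_lit 76) (nat_lit 266814970382) (nat_lit 152) (nat_lit 149939409886) (nat_lit 38) (nat_lit 5) (nat_lit 39) (nat_lit 5) (nat_lit 40) (nat_lit 4) (nat_lit 482) (nat_lit 451) (nat_lit 267)) (XT.nd (nat_lit 78) (nat_lit 0) (nat_lit 0) (XT.lf (nat_lit 0) (nat_lit 67719502240) (nat_lit 228) (nat_lit 795364659544) (nat_lit 76) (nat_lit 20160015147) (nat_lit 35) (nat_lit 5) (nat_lit 38) (nat_lit 5) (nat_lit 36) (nat_lit 4) (nat_lit 483) (nat_lit 451) (nat_lit 266)) (XT.lf (nat_lit 0) (nat_lit 313311504426) (nat_lit 228) (nat_lit 284533340460) (nat_lit 76) (nat_lit 331263339336) (nat_lit 35) (nat_lit 5) (nat_lit 38) (nat_lit 5) (nat_lit 36) (nat_lit 4) (nat_lit 484) (nat_lit 451) (nat_lit 265)))) (XT.nd (nat_lit 78) (nat_lit 152) (nat_lit 0) (XT.lf (nat_lit 0) (nat_lit 281232836054) (nat_lit 76) (nat_lit 304081658088)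 (nat_lit 152) (nat_lit 392785727768) (nat_lit 34) (nat_lit 5) (nat_lit 35) (nat_lit 5) (nat_lit 36) (nat_lit 4) (nat_lit 485) (nat_lit 451) (nat_lit 264)) (XT.nd (nat_lit 78) (nat_lit 152) (nat_lit 0) (XT.lf (nat_lit 0) (nat_lit 887376450184) (nat_lit 152) (nat_lit 122466445131) (nat_lit 0) (nat_lit 20504829129) (nat_lit 34) (nat_lit 5) (nat_lit 36) (nat_lit 4) (nat_lit 34) (nat_lit 4) (nat_lit 486) (nat_lit 451) (nat_lit 263)) (XT.lf (nat_lit 0) (nat_lit 141314183484) (nat_lit 152) (nat_lit 572938152821) (nat_lit 76) (nat_lit 370612247720) (nat_lit 32) (nat_lit 5) (nat_lit 34) (nat_lit 5) (nat_lit 33) (nat_lit 4) (nat_lit 487) (nat_lit 451) (nat_lit 262))))))))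
noncomputable def xc206 : XT := (XT.nd (nat_lit 1794) (nat_lit 608) (nat_lit 0) (XT.nd (nat_lit 858) (nat_lit 608) (nat_lit 0) (XT.nd (nat_lit 390) (nat_lit 380) (nat_lit 0) (XT.nd (nat_lit 156) (nat_lit 228) (nat_lit 0) (XT.nd (nat_lit 78) (nat_lit 0) (nat_lit 0) (XT.lf (nat_lit 0) (nat_lit 59748916968) (nat_lit 76) (nat_lit 385741757252) (nat_lit 152) (nat_lit 697565246291) (nat_lit 31) (nat_lit 5) (nat_lit 32) (nat_lit 5) (nat_lit 33) (nat_lit 4) (nat_lit 488) (nat_lit 451) (nat_lit 261)) (XT.lf (nat_lit 0) (nat_lit 775634403998) (nat_lit 76) (nat_lit 14031998914) (nat_lit 152) (nat_lit 414982951510) (nat_lit 31) (nat_lit 5) (nat_lit 32) (nat_lit 5) (nat_lit 33) (nat_lit 4) (nat_lit 489) (nat_lit 451) (nat_lit 260))) (XT.nd (nat_lit 78) (nat_lit 152) (nat_lit 0) (XT.lf (nat_lit 0) (nat_lit 282431456712) (nat_lit 76) (nat_lit 895054521179) (nat_lit 76) (nat_lit 92395502117) (nat_lit 30)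 (nat_lit 4) (nat_lit 31) (nat_lit 5) (nat_lit 31) (nat_lit 4) (nat_lit 490) (nat_lit 451) (nat_lit 259)) (XT.nd (nat_lit 78) (nat_lit 76) (nat_lit 0) (XT.lf (nat_lit 0) (nat_lit 255591987646) (nat_lit 152) (nat_lit 271027707498) (nat_lit 76) (nat_lit 812228006169) (nat_lit 29) (nat_lit 5) (nat_lit 31) (nat_lit 5) (nat_lit 30) (nat_lit 4) (nat_lit 491) (nat_lit 451) (nat_lit 258)) (XT.lf (nat_lit 0) (nat_lit 526653824461) (nat_lit 76) (nat_lit 112438909828) (nat_lit 152) (nat_lit 773033214208) (nat_lit 28) (nat_lit 5) (nat_lit 29) (nat_lit 5) (nat_lit 30) (nat_lit 4) (nat_lit 492) (nat_lit 451) (nat_lit 257))))) (XT.nd (nat_lit 234) (nat_lit 152) (nat_lit 0) (XT.nd (nat_lit 78) (nat_lit 228) (nat_lit 0) (XT.lf (nat_lit 0) (nat_lit 1068930157539) (nat_lit 152) (nat_lit 95356465065) (nat_lit 0) (nat_lit 325727303502) (nat_lit 28) (nat_lit 5) (nat_lit 30) (nat_lit 4) (nat_lit 28) (nat_lit 4)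 (nat_lit 493) (nat_lit 451) (nat_lit 256)) (XT.nd (nat_lit 78) (nat_lit 152) (nat_lit 0) (XT.lf (nat_lit 0) (nat_lit 794807400479) (nat_lit 76) (nat_lit 760382781795) (nat_lit 76) (nat_lit 17179911042) (nat_lit 27) (nat_lit 4) (nat_lit 28) (nat_lit 5) (nat_lit 28) (nat_lit 4) (nat_lit 494) (nat_lit 451) (nat_lit 255)) (XT.lf (nat_lit 0) (nat_lit 95113579581) (nat_lit 76) (nat_lit 307923182828) (nat_lit 152) (nat_lit 1257074773100) (nat_lit 25) (nat_lit 5) (nat_lit 26) (nat_lit 5) (nat_lit 27) (nat_lit 4) (nat_lit 495) (nat_lit 451) (nat_lit 254)))) (XT.nd (nat_lit 78) (nat_lit 152) (nat_lit 0) (XT.lf (nat_lit 0) (nat_lit 882101373549) (nat_lit 152) (nat_lit 676691980099) (nat_lit 0) (nat_lit 193950539694) (nat_lit 25) (nat_lit 5) (nat_lit 27) (nat_lit 4) (nat_lit 25) (nat_lit 4) (nat_lit 496) (nat_lit 451) (nat_lit 253)) (XT.nd (nat_lit 78) (nat_lit 76) (nat_lit 0) (XT.lf (nat_lit 0) (nat_lit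 289144616461) (nat_lit 76) (nat_lit 1125298457911) (nat_lit 76) (nat_lit 437147611769) (nat_lit 24) (nat_lit 4) (nat_lit 25) (nat_lit 5) (nat_lit 25) (nat_lit 4) (nat_lit 497) (nat_lit 451) (nat_lit 252)) (XT.lf (nat_lit 0) (nat_lit 48457307640) (nat_lit 152) (nat_lit 587359657626) (nat_lit 76) (nat_lit 1320949960554) (nat_lit 23) (nat_lit 5) (nat_lit 25) (nat_lit 5) (nat_lit 24) (nat_lit 4) (nat_lit 498) (nat_lit 451) (nat_lit 251)))))) (XT.nd (nat_lit 468) (nat_lit 304) (nat_lit 0) (XT.nd (nat_lit 234) (nat_lit 152) (nat_lit 0) (XT.nd (nat_lit 78) (nat_lit 76) (nat_lit 0) (XT.lf (nat_lit 0) (nat_lit 478305950122) (nat_lit 76) (nat_lit 82490597077) (nat_lit 152) (nat_lit 1507732098632) (nat_lit 22) (nat_lit 5) (nat_lit 23) (nat_lit 5) (nat_lit 24) (nat_lit 4) (nat_lit 499) (nat_lit 451) (nat_lit 250)) (XT.nd (nat_lit 78) (nat_lit 76) (nat_lit 0) (XT.lf (nat_lit 0) (nat_lit 1142987703735)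 (nat_lit 152) (nat_lit 538123452458) (nat_lit 0) (nat_lit 505810965025) (nat_lit 22) (nat_lit 5) (nat_lit 24) (nat_lit 4) (nat_lit 22) (nat_lit 4) (nat_lit 500) (nat_lit 451) (nat_lit 249)) (XT.lf (nat_lit 0) (nat_lit 627385446150) (nat_lit 76) (nat_lit 1161599938505) (nat_lit 76) (nat_lit 524423191433) (nat_lit 21) (nat_lit 4) (nat_lit 22) (nat_lit 5) (nat_lit 22) (nat_lit 4) (nat_lit 501) (nat_lit 451) (nat_lit 248)))) (XT.nd (nat_lit 78) (nat_lit 76) (nat_lit 0) (XT.lf (nat_lit 0) (nat_lit 49910999707) (nat_lit 152) (nat_lit 533361875423) (nat_lit 76) (nat_lit 1865462927996) (nat_lit 20) (nat_lit 5) (nat_lit 22) (nat_lit 5) (nat_lit 21) (nat_lit 4) (nat_lit 502) (nat_lit 451) (nat_lit 247)) (XT.nd (nat_lit 78) (nat_lit 0) (nat_lit 0) (XT.lf (nat_lit 0) (nat_lit 661334030312) (nat_lit 152) (nat_lit 1859551954264) (nat_lit 0) (nat_lit 71355546994) (nat_lit 19) (nat_lit 5) (nat_lit 21)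 (nat_lit 4) (nat_lit 19) (nat_lit 4) (nat_lit 503) (nat_lit 451) (nat_lit 246)) (XT.lf (nat_lit 0) (nat_lit 1351782672959) (nat_lit 152) (nat_lit 631231920269) (nat_lit 0) (nat_lit 761804183494) (nat_lit 19) (nat_lit 5) (nat_lit 21) (nat_lit 4) (nat_lit 19) (nat_lit 4) (nat_lit 504) (nat_lit 451) (nat_lit 245))))) (XT.nd (nat_lit 234) (nat_lit 76) (nat_lit 0) (XT.nd (nat_lit 78) (nat_lit 152) (nat_lit 0) (XT.lf (nat_lit 0) (nat_lit 731969781793) (nat_lit 76) (nat_lit 1383101302341) (nat_lit 76) (nat_lit 793122807184) (nat_lit 18) (nat_lit 4) (nat_lit 19) (nat_lit 5) (nat_lit 19) (nat_lit 4) (nat_lit 505) (nat_lit 451) (nat_lit 244)) (XT.nd (nat_lit 78) (nat_lit 152) (nat_lit 0) (XT.lf (nat_lit 0) (nat_lit 2240126311716) (nat_lit 76) (nat_lit 716555242457) (nat_lit 76) (nat_lit 126576742031) (nat_lit 18) (nat_lit 4) (nat_lit 19) (nat_lit 5) (nat_lit 19) (nat_lit 4) (nat_lit 506) (nat_lit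 451) (nat_lit 243)) (XT.lf (nat_lit 0) (nat_lit 579190088363) (nat_lit 152) (nat_lit 2657836493735) (nat_lit 0) (nat_lit 32913694561) (nat_lit 16) (nat_lit 5) (nat_lit 18) (nat_lit 4) (nat_lit 16) (nat_lit 4) (nat_lit 507) (nat_lit 451) (nat_lit 242)))) (XT.nd (nat_lit 78) (nat_lit 76) (nat_lit 0) (XT.lf (nat_lit 0) (nat_lit 1376843139858) (nat_lit 152) (nat_lit 1260502852698) (nat_lit 0) (nat_lit 830566741873) (nat_lit 16) (nat_lit 5) (nat_lit 18) (nat_lit 4) (nat_lit 16) (nat_lit 4) (nat_lit 508) (nat_lit 451) (nat_lit 241)) (XT.nd (nat_lit 78) (nat_lit 0) (nat_lit 0) (XT.lf (nat_lit 0) (nat_lit 261709210516) (nat_lit 76) (nat_lit 1982893326037) (nat_lit 76) (nat_lit 1436616924179) (nat_lit 15) (nat_lit 4) (nat_lit 16) (nat_lit 5) (nat_lit 16) (nat_lit 4) (nat_lit 509) (nat_lit 451) (nat_lit 240)) (XT.lf (nat_lit 0) (nat_lit 1977384129779) (nat_lit 76) (nat_lit 1238862925589) (nat_lit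 76) (nat_lit 692586520144) (nat_lit 15) (nat_lit 4) (nat_lit 16) (nat_lit 5) (nat_lit 16) (nat_lit 4) (nat_lit 510) (nat_lit 451) (nat_lit 239))))))) (XT.nd (nat_lit 936) (nat_lit 152) (nat_lit 0) (XT.nd (nat_lit 468) (nat_lit 228) (nat_lit 0) (XT.nd (nat_lit 234) (nat_lit 76) (nat_lit 0) (XT.nd (nat_lit 78) (nat_lit 76) (nat_lit 0) (XT.lf (nat_lit 0) (nat_lit 105415320818) (nat_lit 152) (nat_lit 327012541463) (nat_lit 76) (nat_lit 3722015458654) (nat_lit 14) (nat_lit 5) (nat_lit 16) (nat_lit 5) (nat_lit 15) (nat_lit 4) (nat_lit 511) (nat_lit 451) (nat_lit 238)) (XT.nd (nat_lit 78) (nat_lit 0) (nat_lit 0) (XT.lf (nat_lit 0) (nat_lit 976899850130) (nat_lit 152) (nat_lit 2966509681160) (nat_lit 0) (nat_lit 471088357686) (nat_lit 13) (nat_lit 5) (nat_lit 15) (nat_lit 4) (nat_lit 13) (nat_lit 4) (nat_lit 512) (nat_lit 451) (nat_lit 237)) (XT.lf (nat_lit 0) (nat_lit 1938508363125) (nat_lit 152)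 (nat_lit 1322519173587) (nat_lit 0) (nat_lit 1432696868044) (nat_lit 13) (nat_lit 5) (nat_lit 15) (nat_lit 4) (nat_lit 13) (nat_lit 4) (nat_lit 513) (nat_lit 451) (nat_lit 236)))) (XT.nd (nat_lit 78) (nat_lit 0) (nat_lit 0) (XT.lf (nat_lit 0) (nat_lit 476844235604) (nat_lit 76) (nat_lit 2511669427615) (nat_lit 76) (nat_lit 2005857930093) (nat_lit 12) (nat_lit 4) (nat_lit 13) (nat_lit 5) (nat_lit 13) (nat_lit 4) (nat_lit 514) (nat_lit 451) (nat_lit 235)) (XT.nd (nat_lit 78) (nat_lit 0) (nat_lit 0) (XT.lf (nat_lit 0) (nat_lit 2495369536380) (nat_lit 76) (nat_lit 1663309859822) (nat_lit 76) (nat_lit 1157498360040) (nat_lit 12) (nat_lit 4) (nat_lit 13) (nat_lit 5) (nat_lit 13) (nat_lit 4) (nat_lit 515) (nat_lit 451) (nat_lit 234)) (XT.lf (nat_lit 0) (nat_lit 4675376844176) (nat_lit 76) (nat_lit 747081535287) (nat_lit 76) (nat_lit 241270033413) (nat_lit 12) (nat_lit 4) (nat_lit 13) (nat_lit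 5) (nat_lit 13) (nat_lit 4) (nat_lit 516) (nat_lit 451) (nat_lit 233))))) (XT.nd (nat_lit 234) (nat_lit 76) (nat_lit 0) (XT.nd (nat_lit 78) (nat_lit 0) (nat_lit 0) (XT.lf (nat_lit 0) (nat_lit 742389046104) (nat_lit 152) (nat_lit 5018684302960) (nat_lit 0) (nat_lit 274045061092) (nat_lit 10) (nat_lit 5) (nat_lit 12) (nat_lit 4) (nat_lit 10) (nat_lit 4) (nat_lit 517) (nat_lit 451) (nat_lit 232)) (XT.nd (nat_lit 78) (nat_lit 0) (nat_lit 0) (XT.lf (nat_lit 0) (nat_lit 1838835897561) (nat_lit 152) (nat_lit 3222620066908) (nat_lit 0) (nat_lit 1370491910889) (nat_lit 10) (nat_lit 5) (nat_lit 12) (nat_lit 4) (nat_lit 10) (nat_lit 4) (nat_lit 518) (nat_lit 451) (nat_lit 231)) (XT.lf (nat_lit 0) (nat_lit 3022998489795) (nat_lit 152) (nat_lit 1282870706985) (nat_lit 0) (nat_lit 2554654501585) (nat_lit 10) (nat_lit 5) (nat_lit 12) (nat_lit 4) (nat_lit 10) (nat_lit 4) (nat_lit 519) (nat_lit 451) (nat_lit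 230)))) (XT.nd (nat_lit 78) (nat_lit 0) (nat_lit 0) (XT.lf (nat_lit 0) (nat_lit 854820153976) (nat_lit 76) (nat_lit 3467632373896) (nat_lit 76) (nat_lit 2999288384261) (nat_lit 9) (nat_lit 4) (nat_lit 10) (nat_lit 5) (nat_lit 10) (nat_lit 4) (nat_lit 520) (nat_lit 451) (nat_lit 229)) (XT.nd (nat_lit 78) (nat_lit 0) (nat_lit 0) (XT.lf (nat_lit 0) (nat_lit 3236484264093) (nat_lit 76) (nat_lit 2524454576854) (nat_lit 76) (nat_lit 2056110585901) (nat_lit 9) (nat_lit 4) (nat_lit 10) (nat_lit 5) (nat_lit 10) (nat_lit 4) (nat_lit 521) (nat_lit 451) (nat_lit 228)) (XT.lf (nat_lit 0) (nat_lit 5808681490475) (nat_lit 76) (nat_lit 1505822562465) (nat_lit 76) (nat_lit 1037478570290) (nat_lit 9) (nat_lit 4) (nat_lit 10) (nat_lit 5) (nat_lit 10) (nat_lit 4) (nat_lit 522) (nat_lit 451) (nat_lit 227)))))) (XT.nd (nat_lit 57174) (nat_lit 0) (nat_lit 4636) (XT.nd (nat_lit 56940) (nat_lit 0) (nat_lit 5396)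 (XT.nd (nat_lit 78) (nat_lit 76) (nat_lit 0) (XT.lf (nat_lit 0) (nat_lit 59510293827) (nat_lit 152) (nat_lit 344562582143) (nat_lit 76) (nat_lit 8525517072630) (nat_lit 8) (nat_lit 5) (nat_lit 10) (nat_lit 5) (nat_lit 9) (nat_lit 4) (nat_lit 523) (nat_lit 451) (nat_lit 226)) (XT.nd (nat_lit 78) (nat_lit 0) (nat_lit 0) (XT.lf (nat_lit 0) (nat_lit 1259835605703) (nat_lit 152) (nat_lit 7459500445275) (nat_lit 0) (nat_lit 826183759081) (nat_lit 7) (nat_lit 5) (nat_lit 9) (nat_lit 4) (nat_lit 7) (nat_lit 4) (nat_lit 524) (nat_lit 451) (nat_lit 225)) (XT.lf (nat_lit 0) (nat_lit 2576347988177) (nat_lit 152) (nat_lit 5490067047949) (nat_lit 0) (nat_lit 2142696140657) (nat_lit 7) (nat_lit 5) (nat_lit 9) (nat_lit 4) (nat_lit 7) (nat_lit 4) (nat_lit 525) (nat_lit 451) (nat_lit 224)))) (XT.nd (nat_lit 78) (nat_lit 0) (nat_lit 0) (XT.lf (nat_lit 0) (nat_lit 105751912348) (nat_lit 532) (nat_lit 2680422357)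 (nat_lit 532) (nat_lit 2680422357) (nat_lit 78) (nat_lit 3) (nat_lit 85) (nat_lit 3) (nat_lit 85) (nat_lit 5) (nat_lit 452) (nat_lit 452) (nat_lit 296)) (XT.nd (nat_lit 78) (nat_lit 0) (nat_lit 0) (XT.lf (nat_lit 76) (nat_lit 109918559416) (nat_lit 0) (nat_lit 112690209713) (nat_lit 532) (nat_lit 8294181743) (nat_lit 79) (nat_lit 5) (nat_lit 78) (nat_lit 3) (nat_lit 85) (nat_lit 5) (nat_lit 453) (nat_lit 452) (nat_lit 295)) (XT.lf (nat_lit 76) (nat_lit 234725120896) (nat_lit 0) (nat_lit 23436703) (nat_lit 532) (nat_lit 5514309132) (nat_lit 79) (nat_lit 5) (nat_lit 78) (nat_lit 3) (nat_lit 85) (nat_lit 5) (nat_lit 454) (nat_lit 452) (nat_lit 294))))) (XT.nd (nat_lit 234) (nat_lit 304) (nat_lit 0) (XT.nd (nat_lit 78) (nat_lit 0) (nat_lit 0) (XT.lf (nat_lit 0) (nat_lit 3634006883) (nat_lit 532) (nat_lit 127655557715) (nat_lit 608) (nat_lit 118605213220) (nat_lit 72) (nat_lit 5) (nat_lit 79)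 (nat_lit 5) (nat_lit 80) (nat_lit 5) (nat_lit 455) (nat_lit 452) (nat_lit 293)) (XT.nd (nat_lit 78) (nat_lit 0) (nat_lit 76) (XT.lf (nat_lit 76) (nat_lit 126635083) (nat_lit 0) (nat_lit 13248524071) (nat_lit 608) (nat_lit 246897913419) (nat_lit 73) (nat_lit 5) (nat_lit 72) (nat_lit 5) (nat_lit 80) (nat_lit 5) (nat_lit 456) (nat_lit 452) (nat_lit 292)) (XT.lf (nat_lit 0) (nat_lit 30223859496) (nat_lit 532) (nat_lit 128649235696) (nat_lit 608) (nat_lit 112102275284) (nat_lit 73) (nat_lit 5) (nat_lit 80) (nat_lit 5) (nat_lit 81) (nat_lit 5) (nat_lit 457) (nat_lit 452) (nat_lit 291)))) (XT.nd (nat_lit 78) (nat_lit 380) (nat_lit 0) (XT.lf (nat_lit 76) (nat_lit 13709340473) (nat_lit 0) (nat_lit 35384845723) (nat_lit 608) (nat_lit 233385767624) (nat_lit 74) (nat_lit 5) (nat_lit 73) (nat_lit 5) (nat_lit 81) (nat_lit 5) (nat_lit 458) (nat_lit 452) (nat_lit 290)) (XT.nd (nat_lit 78) (nat_lit 456)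 (nat_lit 0) (XT.lf (nat_lit 0) (nat_lit 75439389779) (nat_lit 532) (nat_lit 122298436049) (nat_lit 76) (nat_lit 96689857974) (nat_lit 74) (nat_lit 5) (nat_lit 81) (nat_lit 5) (nat_lit 75) (nat_lit 5) (nat_lit 459) (nat_lit 452) (nat_lit 289)) (XT.lf (nat_lit 0) (nat_lit 36813930201) (nat_lit 456) (nat_lit 68882657499) (nat_lit 532) (nat_lit 201490294267) (nat_lit 68) (nat_lit 5) (nat_lit 74) (nat_lit 5) (nat_lit 75) (nat_lit 5) (nat_lit 460) (nat_lit 452) (nat_lit 288))))))))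
noncomputable def xc207 : XT := (XT.nd (nat_lit 1794) (nat_lit 1520) (nat_lit 0) (XT.nd (nat_lit 858) (nat_lit 988) (nat_lit 0) (XT.nd (nat_lit 390) (nat_lit 836) (nat_lit 0) (XT.nd (nat_lit 156) (nat_lit 228) (nat_lit 0) (XT.nd (nat_lit 78) (nat_lit 228) (nat_lit 0) (XT.lf (nat_lit 0) (nat_lit 143495248443) (nat_lit 532) (nat_lit 106865997348) (nat_lit 76) (nat_lit 70195899263) (nat_lit 68) (nat_lit 5) (nat_lit 75) (nat_lit 5) (nat_lit 69) (nat_lit 5) (nat_lit 461) (nat_lit 452) (nat_lit 287)) (XT.lf (nat_lit 0) (nat_lit 71509468287) (nat_lit 228) (nat_lit 116317223767) (nat_lit 304) (nat_lit 146889625959) (nat_lit 65) (nat_lit 5) (nat_lit 68) (nat_lit 5) (nat_lit 69) (nat_lit 5) (nat_lit 462) (nat_lit 452) (nat_lit 286))) (XT.nd (nat_lit 78) (nat_lit 228) (nat_lit 0) (XT.lf (nat_lit 0) (nat_lit 239386610615) (nat_lit 304) (nat_lit 80302143725) (nat_lit 76) (nat_lit 30024913735) (nat_lit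 65) (nat_lit 5) (nat_lit 69) (nat_lit 5) (nat_lit 66) (nat_lit 5) (nat_lit 463) (nat_lit 452) (nat_lit 285)) (XT.nd (nat_lit 78) (nat_lit 0) (nat_lit 0) (XT.lf (nat_lit 0) (nat_lit 120227923943) (nat_lit 228) (nat_lit 180756044190) (nat_lit 304) (nat_lit 64453826391) (nat_lit 62) (nat_lit 5) (nat_lit 65) (nat_lit 5) (nat_lit 66) (nat_lit 5) (nat_lit 464) (nat_lit 452) (nat_lit 284)) (XT.lf (nat_lit 0) (nat_lit 341367177113) (nat_lit 228) (nat_lit 28337477556) (nat_lit 304) (nat_lit 12539553209) (nat_lit 62) (nat_lit 5) (nat_lit 65) (nat_lit 5) (nat_lit 66) (nat_lit 5) (nat_lit 465) (nat_lit 452) (nat_lit 283))))) (XT.nd (nat_lit 234) (nat_lit 380) (nat_lit 0) (XT.nd (nat_lit 78) (nat_lit 228) (nat_lit 0) (XT.lf (nat_lit 0) (nat_lit 49297960283) (nat_lit 228) (nat_lit 215203029218) (nat_lit 76) (nat_lit 135174594053) (nat_lit 59) (nat_lit 5) (nat_lit 62) (nat_lit 5) (nat_lit 60) (nat_lit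 5) (nat_lit 466) (nat_lit 452) (nat_lit 282)) (XT.nd (nat_lit 78) (nat_lit 0) (nat_lit 0) (XT.lf (nat_lit 0) (nat_lit 11233881186) (nat_lit 228) (nat_lit 106323968938) (nat_lit 304) (nat_lit 300745336014) (nat_lit 56) (nat_lit 5) (nat_lit 59) (nat_lit 5) (nat_lit 60) (nat_lit 5) (nat_lit 467) (nat_lit 452) (nat_lit 281)) (XT.lf (nat_lit 0) (nat_lit 198866740451) (nat_lit 304) (nat_lit 171630051148) (nat_lit 76) (nat_lit 67317148601) (nat_lit 56) (nat_lit 5) (nat_lit 60) (nat_lit 5) (nat_lit 57) (nat_lit 5) (nat_lit 468) (nat_lit 452) (nat_lit 280)))) (XT.nd (nat_lit 78) (nat_lit 228) (nat_lit 0) (XT.lf (nat_lit 0) (nat_lit 84089087657) (nat_lit 152) (nat_lit 207375209597) (nat_lit 228) (nat_lit 167038540927) (nat_lit 54) (nat_lit 5) (nat_lit 56) (nat_lit 5) (nat_lit 57) (nat_lit 5) (nat_lit 469) (nat_lit 452) (nat_lit 279)) (XT.nd (nat_lit 78) (nat_lit 228) (nat_lit 0) (XT.lf (nat_lit 0)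 (nat_lit 370026441939) (nat_lit 152) (nat_lit 26135837670) (nat_lit 228) (nat_lit 84309158723) (nat_lit 54) (nat_lit 5) (nat_lit 56) (nat_lit 5) (nat_lit 57) (nat_lit 5) (nat_lit 470) (nat_lit 452) (nat_lit 278)) (XT.lf (nat_lit 0) (nat_lit 13401560869) (nat_lit 228) (nat_lit 324321303698) (nat_lit 76) (nat_lit 165775764777) (nat_lit 51) (nat_lit 5) (nat_lit 54) (nat_lit 5) (nat_lit 52) (nat_lit 5) (nat_lit 471) (nat_lit 452) (nat_lit 277)))))) (XT.nd (nat_lit 468) (nat_lit 532) (nat_lit 0) (XT.nd (nat_lit 234) (nat_lit 152) (nat_lit 0) (XT.nd (nat_lit 78) (nat_lit 304) (nat_lit 0) (XT.lf (nat_lit 0) (nat_lit 118151258922) (nat_lit 228) (nat_lit 32823080491) (nat_lit 76) (nat_lit 376916307947) (nat_lit 51) (nat_lit 5) (nat_lit 54) (nat_lit 5) (nat_lit 52) (nat_lit 5) (nat_lit 472) (nat_lit 452) (nat_lit 276)) (XT.nd (nat_lit 78) (nat_lit 152) (nat_lit 0) (XT.lf (nat_lit 0) (nat_lit 239825109124)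 (nat_lit 228) (nat_lit 258223714917) (nat_lit 76) (nat_lit 55501668682) (nat_lit 49) (nat_lit 5) (nat_lit 52) (nat_lit 5) (nat_lit 50) (nat_lit 5) (nat_lit 473) (nat_lit 452) (nat_lit 275)) (XT.lf (nat_lit 0) (nat_lit 69958809841) (nat_lit 152) (nat_lit 307798690844) (nat_lit 228) (nat_lit 202983654369) (nat_lit 47) (nat_lit 5) (nat_lit 49) (nat_lit 5) (nat_lit 50) (nat_lit 5) (nat_lit 474) (nat_lit 452) (nat_lit 274)))) (XT.nd (nat_lit 78) (nat_lit 152) (nat_lit 0) (XT.lf (nat_lit 0) (nat_lit 439081286056) (nat_lit 152) (nat_lit 94703452524) (nat_lit 228) (nat_lit 75757511400) (nat_lit 47) (nat_lit 5) (nat_lit 49) (nat_lit 5) (nat_lit 50) (nat_lit 5) (nat_lit 475) (nat_lit 452) (nat_lit 273)) (XT.nd (nat_lit 78) (nat_lit 0) (nat_lit 0) (XT.lf (nat_lit 0) (nat_lit 66939306293) (nat_lit 152) (nat_lit 437653525726) (nat_lit 76) (nat_lit 135265879911) (nat_lit 45) (nat_lit 5) (nat_lit 47)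 (nat_lit 5) (nat_lit 46) (nat_lit 5) (nat_lit 476) (nat_lit 452) (nat_lit 272)) (XT.lf (nat_lit 0) (nat_lit 224200551891) (nat_lit 152) (nat_lit 62397415003) (nat_lit 76) (nat_lit 385265781276) (nat_lit 45) (nat_lit 5) (nat_lit 47) (nat_lit 5) (nat_lit 46) (nat_lit 5) (nat_lit 477) (nat_lit 452) (nat_lit 271))))) (XT.nd (nat_lit 234) (nat_lit 228) (nat_lit 0) (XT.nd (nat_lit 78) (nat_lit 152) (nat_lit 0) (XT.lf (nat_lit 0) (nat_lit 360934536141) (nat_lit 152) (nat_lit 41788611743) (nat_lit 228) (nat_lit 303011603371) (nat_lit 43) (nat_lit 5) (nat_lit 45) (nat_lit 5) (nat_lit 46) (nat_lit 5) (nat_lit 478) (nat_lit 452) (nat_lit 270)) (XT.nd (nat_lit 78) (nat_lit 76) (nat_lit 0) (XT.lf (nat_lit 0) (nat_lit 78006872267) (nat_lit 76) (nat_lit 526500750042) (nat_lit 152) (nat_lit 137089406624) (nat_lit 42) (nat_lit 5) (nat_lit 43) (nat_lit 5) (nat_lit 44) (nat_lit 4) (nat_lit 479) (nat_lit 452)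 (nat_lit 269)) (XT.lf (nat_lit 0) (nat_lit 50757928521) (nat_lit 152) (nat_lit 227669480405) (nat_lit 76) (nat_lit 500959250499) (nat_lit 41) (nat_lit 5) (nat_lit 43) (nat_lit 5) (nat_lit 42) (nat_lit 5) (nat_lit 480) (nat_lit 452) (nat_lit 268)))) (XT.nd (nat_lit 78) (nat_lit 76) (nat_lit 0) (XT.lf (nat_lit 0) (nat_lit 252179051140) (nat_lit 152) (nat_lit 112492682) (nat_lit 228) (nat_lit 567137864870) (nat_lit 39) (nat_lit 5) (nat_lit 41) (nat_lit 5) (nat_lit 42) (nat_lit 5) (nat_lit 481) (nat_lit 452) (nat_lit 267)) (XT.nd (nat_lit 78) (nat_lit 76) (nat_lit 0) (XT.lf (nat_lit 0) (nat_lit 483560644494) (nat_lit 228) (nat_lit 86202348392) (nat_lit 76) (nat_lit 291823561327) (nat_lit 39) (nat_lit 5) (nat_lit 42) (nat_lit 5) (nat_lit 40) (nat_lit 4) (nat_lit 482) (nat_lit 452) (nat_lit 266)) (XT.lf (nat_lit 0) (nat_lit 456144737757) (nat_lit 76) (nat_lit 288159721760) (nat_lit 152) (nat_lit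 161933956957) (nat_lit 38) (nat_lit 5) (nat_lit 39) (nat_lit 5) (nat_lit 40) (nat_lit 4) (nat_lit 483) (nat_lit 452) (nat_lit 265))))))) (XT.nd (nat_lit 936) (nat_lit 684) (nat_lit 0) (XT.nd (nat_lit 468) (nat_lit 304) (nat_lit 0) (XT.nd (nat_lit 234) (nat_lit 228) (nat_lit 0) (XT.nd (nat_lit 78) (nat_lit 76) (nat_lit 0) (XT.lf (nat_lit 0) (nat_lit 73137630453) (nat_lit 228) (nat_lit 858992787454) (nat_lit 76) (nat_lit 21773247675) (nat_lit 35) (nat_lit 5) (nat_lit 38) (nat_lit 5) (nat_lit 36) (nat_lit 4) (nat_lit 484) (nat_lit 452) (nat_lit 264)) (XT.nd (nat_lit 78) (nat_lit 76) (nat_lit 0) (XT.lf (nat_lit 0) (nat_lit 338376950737) (nat_lit 228) (nat_lit 307295040239) (nat_lit 76) (nat_lit 357764805849) (nat_lit 35) (nat_lit 5) (nat_lit 38) (nat_lit 5) (nat_lit 36) (nat_lit 4) (nat_lit 485) (nat_lit 452) (nat_lit 263)) (XT.lf (nat_lit 0) (nat_lit 303732405903) (nat_lit 76) (nat_lit 328407757446)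 (nat_lit 152) (nat_lit 424208035488) (nat_lit 34) (nat_lit 5) (nat_lit 35) (nat_lit 5) (nat_lit 36) (nat_lit 4) (nat_lit 486) (nat_lit 452) (nat_lit 262)))) (XT.nd (nat_lit 78) (nat_lit 228) (nat_lit 0) (XT.lf (nat_lit 0) (nat_lit 958367047769) (nat_lit 152) (nat_lit 132262859473) (nat_lit 0) (nat_lit 22145596584) (nat_lit 34) (nat_lit 5) (nat_lit 36) (nat_lit 4) (nat_lit 34) (nat_lit 4) (nat_lit 487) (nat_lit 452) (nat_lit 261)) (XT.nd (nat_lit 78) (nat_lit 76) (nat_lit 0) (XT.lf (nat_lit 0) (nat_lit 152619797362) (nat_lit 152) (nat_lit 618772301320) (nat_lit 76) (nat_lit 400261613689) (nat_lit 32) (nat_lit 5) (nat_lit 34) (nat_lit 5) (nat_lit 33) (nat_lit 4) (nat_lit 488) (nat_lit 452) (nat_lit 260)) (XT.lf (nat_lit 0) (nat_lit 64529711174) (nat_lit 76) (nat_lit 416600681871) (nat_lit 152) (nat_lit 753369963878) (nat_lit 31) (nat_lit 5) (nat_lit 32) (nat_lit 5) (nat_lit 33) (nat_lit 4)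 (nat_lit 489) (nat_lit 452) (nat_lit 259))))) (XT.nd (nat_lit 234) (nat_lit 152) (nat_lit 0) (XT.nd (nat_lit 78) (nat_lit 152) (nat_lit 0) (XT.lf (nat_lit 0) (nat_lit 837685971918) (nat_lit 76) (nat_lit 15154173677) (nat_lit 152) (nat_lit 448181122708) (nat_lit 31) (nat_lit 5) (nat_lit 32) (nat_lit 5) (nat_lit 33) (nat_lit 4) (nat_lit 490) (nat_lit 452) (nat_lit 258)) (XT.nd (nat_lit 78) (nat_lit 76) (nat_lit 0) (XT.lf (nat_lit 0) (nat_lit 305026792772) (nat_lit 76) (nat_lit 966658490202) (nat_lit 76) (nat_lit 99786681253) (nat_lit 30) (nat_lit 4) (nat_lit 31) (nat_lit 5) (nat_lit 31) (nat_lit 4) (nat_lit 491) (nat_lit 452) (nat_lit 257)) (XT.lf (nat_lit 0) (nat_lit 276039752186) (nat_lit 152) (nat_lit 292709143898) (nat_lit 76) (nat_lit 877206588864) (nat_lit 29) (nat_lit 5) (nat_lit 31) (nat_lit 5) (nat_lit 30) (nat_lit 4) (nat_lit 492) (nat_lit 452) (nat_lit 256)))) (XT.nd (nat_lit 78)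 (nat_lit 76) (nat_lit 0) (XT.lf (nat_lit 0) (nat_lit 568786890866) (nat_lit 76) (nat_lit 121433655944) (nat_lit 152) (nat_lit 834875446038) (nat_lit 28) (nat_lit 5) (nat_lit 29) (nat_lit 5) (nat_lit 30) (nat_lit 4) (nat_lit 493) (nat_lit 452) (nat_lit 255)) (XT.nd (nat_lit 78) (nat_lit 76) (nat_lit 0) (XT.lf (nat_lit 0) (nat_lit 1154444942917) (nat_lit 152) (nat_lit 102984257123) (nat_lit 0) (nat_lit 351785810309) (nat_lit 28) (nat_lit 5) (nat_lit 30) (nat_lit 4) (nat_lit 28) (nat_lit 4) (nat_lit 494) (nat_lit 452) (nat_lit 254)) (XT.lf (nat_lit 0) (nat_lit 858392699306) (nat_lit 76) (nat_lit 821213059710) (nat_lit 76) (nat_lit 18553912770) (nat_lit 27) (nat_lit 4) (nat_lit 28) (nat_lit 5) (nat_lit 28) (nat_lit 4) (nat_lit 495) (nat_lit 452) (nat_lit 253)))))) (XT.nd (nat_lit 468) (nat_lit 304) (nat_lit 0) (XT.nd (nat_lit 234) (nat_lit 152) (nat_lit 0) (XT.nd (nat_lit 78) (nat_lit 76) (nat_lit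 0) (XT.lf (nat_lit 0) (nat_lit 102723373935) (nat_lit 76) (nat_lit 332556690557) (nat_lit 152) (nat_lit 1357640364951) (nat_lit 25) (nat_lit 5) (nat_lit 26) (nat_lit 5) (nat_lit 27) (nat_lit 4) (nat_lit 496) (nat_lit 452) (nat_lit 252)) (XT.nd (nat_lit 78) (nat_lit 76) (nat_lit 0) (XT.lf (nat_lit 0) (nat_lit 952669825501) (nat_lit 152) (nat_lit 730826663923) (nat_lit 0) (nat_lit 209466888004) (nat_lit 25) (nat_lit 5) (nat_lit 27) (nat_lit 4) (nat_lit 25) (nat_lit 4) (nat_lit 497) (nat_lit 452) (nat_lit 251)) (XT.lf (nat_lit 0) (nat_lit 312276843285) (nat_lit 76) (nat_lit 1215322009580) (nat_lit 76) (nat_lit 472119061549) (nat_lit 24) (nat_lit 4) (nat_lit 25) (nat_lit 5) (nat_lit 25) (nat_lit 4) (nat_lit 498) (nat_lit 452) (nat_lit 250)))) (XT.nd (nat_lit 78) (nat_lit 76) (nat_lit 0) (XT.lf (nat_lit 0) (nat_lit 52334208173) (nat_lit 152) (nat_lit 634347804784) (nat_lit 76) (nat_lit 1426626241641)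 (nat_lit 23) (nat_lit 5) (nat_lit 25) (nat_lit 5) (nat_lit 24) (nat_lit 4) (nat_lit 499) (nat_lit 452) (nat_lit 249)) (XT.nd (nat_lit 78) (nat_lit 0) (nat_lit 0) (XT.lf (nat_lit 0) (nat_lit 516571035749) (nat_lit 76) (nat_lit 89089542407) (nat_lit 152) (nat_lit 1628350334753) (nat_lit 22) (nat_lit 5) (nat_lit 23) (nat_lit 5) (nat_lit 24) (nat_lit 4) (nat_lit 500) (nat_lit 452) (nat_lit 248)) (XT.lf (nat_lit 0) (nat_lit 1234427011196) (nat_lit 152) (nat_lit 581172748162) (nat_lit 0) (nat_lit 546276108252) (nat_lit 22) (nat_lit 5) (nat_lit 24) (nat_lit 4) (nat_lit 22) (nat_lit 4) (nat_lit 501) (nat_lit 452) (nat_lit 247))))) (XT.nd (nat_lit 234) (nat_lit 76) (nat_lit 0) (XT.nd (nat_lit 78) (nat_lit 152) (nat_lit 0) (XT.lf (nat_lit 0) (nat_lit 677576847638) (nat_lit 76) (nat_lit 1254527650991) (nat_lit 76) (nat_lit 566376740878) (nat_lit 21) (nat_lit 4) (nat_lit 22) (nat_lit 5) (nat_lit 22)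 (nat_lit 4) (nat_lit 502) (nat_lit 452) (nat_lit 246)) (XT.nd (nat_lit 78) (nat_lit 76) (nat_lit 0) (XT.lf (nat_lit 0) (nat_lit 53904148728) (nat_lit 152) (nat_lit 576030287395) (nat_lit 76) (nat_lit 2014700209720) (nat_lit 20) (nat_lit 5) (nat_lit 22) (nat_lit 5) (nat_lit 21) (nat_lit 4) (nat_lit 503) (nat_lit 452) (nat_lit 245)) (XT.lf (nat_lit 0) (nat_lit 714241020784) (nat_lit 152) (nat_lit 2008315571535) (nat_lit 0) (nat_lit 77064240324) (nat_lit 19) (nat_lit 5) (nat_lit 21) (nat_lit 4) (nat_lit 19) (nat_lit 4) (nat_lit 504) (nat_lit 452) (nat_lit 244)))) (XT.nd (nat_lit 78) (nat_lit 76) (nat_lit 0) (XT.lf (nat_lit 0) (nat_lit 1459925534987) (nat_lit 152) (nat_lit 681729974752) (nat_lit 0) (nat_lit 822748749257) (nat_lit 19) (nat_lit 5) (nat_lit 21) (nat_lit 4) (nat_lit 19) (nat_lit 4) (nat_lit 505) (nat_lit 452) (nat_lit 243)) (XT.nd (nat_lit 78) (nat_lit 0) (nat_lit 0) (XT.lf (nat_lit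 0) (nat_lit 790527850839) (nat_lit 76) (nat_lit 1493749161533) (nat_lit 76) (nat_lit 856572370923) (nat_lit 18) (nat_lit 4) (nat_lit 19) (nat_lit 5) (nat_lit 19) (nat_lit 4) (nat_lit 506) (nat_lit 452) (nat_lit 242)) (XT.lf (nat_lit 0) (nat_lit 2419336867118) (nat_lit 76) (nat_lit 773879435007) (nat_lit 76) (nat_lit 136702639879) (nat_lit 18) (nat_lit 4) (nat_lit 19) (nat_lit 5) (nat_lit 19) (nat_lit 4) (nat_lit 507) (nat_lit 452) (nat_lit 241))))))))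
noncomputable def xc208 : XT := (XT.nd (nat_lit 58578) (nat_lit 0) (nat_lit 2660) (XT.nd (nat_lit 858) (nat_lit 228) (nat_lit 0) (XT.nd (nat_lit 390) (nat_lit 304) (nat_lit 0) (XT.nd (nat_lit 156) (nat_lit 152) (nat_lit 0) (XT.nd (nat_lit 78) (nat_lit 0) (nat_lit 0) (XT.lf (nat_lit 0) (nat_lit 625525524185) (nat_lit 152) (nat_lit 2870462949995) (nat_lit 0) (nat_lit 35547006305) (nat_lit 16) (nat_lit 5) (nat_lit 18) (nat_lit 4) (nat_lit 16) (nat_lit 4) (nat_lit 508) (nat_lit 452) (nat_lit 240)) (XT.lf (nat_lit 0) (nat_lit 1486990802855) (nat_lit 152) (nat_lit 1361342651989) (nat_lit 0) (nat_lit 897012281388) (nat_lit 16) (nat_lit 5) (nat_lit 18) (nat_lit 4) (nat_lit 16) (nat_lit 4) (nat_lit 509) (nat_lit 452) (nat_lit 239))) (XT.nd (nat_lit 78) (nat_lit 76) (nat_lit 0) (XT.lf (nat_lit 0) (nat_lit 282646365423) (nat_lit 76) (nat_lit 2141524580228) (nat_lit 76) (nat_lit 1551546055441) (nat_lit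 15) (nat_lit 4) (nat_lit 16) (nat_lit 5) (nat_lit 16) (nat_lit 4) (nat_lit 510) (nat_lit 452) (nat_lit 238)) (XT.nd (nat_lit 78) (nat_lit 76) (nat_lit 0) (XT.lf (nat_lit 0) (nat_lit 2135575247260) (nat_lit 76) (nat_lit 1337971763439) (nat_lit 76) (nat_lit 747993235577) (nat_lit 15) (nat_lit 4) (nat_lit 16) (nat_lit 5) (nat_lit 16) (nat_lit 4) (nat_lit 511) (nat_lit 452) (nat_lit 237)) (XT.lf (nat_lit 0) (nat_lit 113848727839) (nat_lit 152) (nat_lit 353173176802) (nat_lit 76) (nat_lit 4019776867455) (nat_lit 14) (nat_lit 5) (nat_lit 16) (nat_lit 5) (nat_lit 15) (nat_lit 4) (nat_lit 512) (nat_lit 452) (nat_lit 236))))) (XT.nd (nat_lit 234) (nat_lit 152) (nat_lit 0) (XT.nd (nat_lit 78) (nat_lit 76) (nat_lit 0) (XT.lf (nat_lit 0) (nat_lit 1055052019069) (nat_lit 152) (nat_lit 3203830087243) (nat_lit 0) (nat_lit 508775599304) (nat_lit 13) (nat_lit 5) (nat_lit 15) (nat_lit 4) (nat_lit 13) (nat_lit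 4) (nat_lit 513) (nat_lit 452) (nat_lit 235)) (XT.nd (nat_lit 78) (nat_lit 76) (nat_lit 0) (XT.lf (nat_lit 0) (nat_lit 2093589199701) (nat_lit 152) (nat_lit 1428320366353) (nat_lit 0) (nat_lit 1547312777676) (nat_lit 13) (nat_lit 5) (nat_lit 15) (nat_lit 4) (nat_lit 13) (nat_lit 4) (nat_lit 514) (nat_lit 452) (nat_lit 234)) (XT.lf (nat_lit 0) (nat_lit 514992106937) (nat_lit 76) (nat_lit 2712602812452) (nat_lit 76) (nat_lit 2166326388335) (nat_lit 12) (nat_lit 4) (nat_lit 13) (nat_lit 5) (nat_lit 13) (nat_lit 4) (nat_lit 515) (nat_lit 452) (nat_lit 233)))) (XT.nd (nat_lit 78) (nat_lit 152) (nat_lit 0) (XT.lf (nat_lit 0) (nat_lit 2694999407146) (nat_lit 76) (nat_lit 1796374491782) (nat_lit 76) (nat_lit 1250098065728) (nat_lit 12) (nat_lit 4) (nat_lit 13) (nat_lit 5) (nat_lit 13) (nat_lit 4) (nat_lit 516) (nat_lit 452) (nat_lit 232)) (XT.nd (nat_lit 78) (nat_lit 152) (nat_lit 0) (XT.lf (nat_lit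 0) (nat_lit 5049407276762) (nat_lit 76) (nat_lit 806847912902) (nat_lit 76) (nat_lit 260571485053) (nat_lit 12) (nat_lit 4) (nat_lit 13) (nat_lit 5) (nat_lit 13) (nat_lit 4) (nat_lit 517) (nat_lit 452) (nat_lit 231)) (XT.lf (nat_lit 0) (nat_lit 801780313000) (nat_lit 152) (nat_lit 5420178754315) (nat_lit 0) (nat_lit 295968804195) (nat_lit 10) (nat_lit 5) (nat_lit 12) (nat_lit 4) (nat_lit 10) (nat_lit 4) (nat_lit 518) (nat_lit 452) (nat_lit 230)))))) (XT.nd (nat_lit 468) (nat_lit 76) (nat_lit 0) (XT.nd (nat_lit 234) (nat_lit 76) (nat_lit 0) (XT.nd (nat_lit 78) (nat_lit 76) (nat_lit 0) (XT.lf (nat_lit 0) (nat_lit 1985942901967) (nat_lit 152) (nat_lit 3480429401074) (nat_lit 0) (nat_lit 1480131391737) (nat_lit 10) (nat_lit 5) (nat_lit 12) (nat_lit 4) (nat_lit 10) (nat_lit 4) (nat_lit 519) (nat_lit 452) (nat_lit 229)) (XT.nd (nat_lit 78) (nat_lit 76) (nat_lit 0) (XT.lf (nat_lit 0) (nat_lit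 3264838491757) (nat_lit 152) (nat_lit 1385500112444) (nat_lit 0) (nat_lit 2759026980208) (nat_lit 10) (nat_lit 5) (nat_lit 12) (nat_lit 4) (nat_lit 10) (nat_lit 4) (nat_lit 520) (nat_lit 452) (nat_lit 228)) (XT.lf (nat_lit 0) (nat_lit 923206011036) (nat_lit 76) (nat_lit 3745042838635) (nat_lit 76) (nat_lit 3239231325865) (nat_lit 9) (nat_lit 4) (nat_lit 10) (nat_lit 5) (nat_lit 10) (nat_lit 4) (nat_lit 521) (nat_lit 452) (nat_lit 227)))) (XT.nd (nat_lit 78) (nat_lit 76) (nat_lit 0) (XT.lf (nat_lit 0) (nat_lit 3495403231834) (nat_lit 76) (nat_lit 2726410827102) (nat_lit 76) (nat_lit 2220599313202) (nat_lit 9) (nat_lit 4) (nat_lit 10) (nat_lit 5) (nat_lit 10) (nat_lit 4) (nat_lit 522) (nat_lit 452) (nat_lit 226)) (XT.nd (nat_lit 78) (nat_lit 76) (nat_lit 0) (XT.lf (nat_lit 0) (nat_lit 6273376219540) (nat_lit 76) (nat_lit 1626288260147) (nat_lit 76) (nat_lit 1120476745200) (nat_lit 9) (nat_lit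 4) (nat_lit 10) (nat_lit 5) (nat_lit 10) (nat_lit 4) (nat_lit 523) (nat_lit 452) (nat_lit 225)) (XT.lf (nat_lit 0) (nat_lit 64271214719) (nat_lit 152) (nat_lit 372127389300) (nat_lit 76) (nat_lit 9207558532677) (nat_lit 8) (nat_lit 5) (nat_lit 10) (nat_lit 5) (nat_lit 9) (nat_lit 4) (nat_lit 524) (nat_lit 452) (nat_lit 224))))) (XT.nd (nat_lit 57018) (nat_lit 0) (nat_lit 4940) (XT.nd (nat_lit 56862) (nat_lit 0) (nat_lit 5396) (XT.lf (nat_lit 0) (nat_lit 1360622551399) (nat_lit 152) (nat_lit 8056260281336) (nat_lit 0) (nat_lit 892278554349) (nat_lit 7) (nat_lit 5) (nat_lit 9) (nat_lit 4) (nat_lit 7) (nat_lit 4) (nat_lit 525) (nat_lit 452) (nat_lit 223)) (XT.nd (nat_lit 78) (nat_lit 0) (nat_lit 0) (XT.lf (nat_lit 0) (nat_lit 114213282782) (nat_lit 532) (nat_lit 2894198480) (nat_lit 532) (nat_lit 2894198480) (nat_lit 78) (nat_lit 3) (nat_lit 85) (nat_lit 3) (nat_lit 85) (nat_lit 5) (nat_lit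 453) (nat_lit 453) (nat_lit 294)) (XT.lf (nat_lit 76) (nat_lit 118713326201) (nat_lit 0) (nat_lit 121706429821) (nat_lit 532) (nat_lit 8955247185) (nat_lit 79) (nat_lit 5) (nat_lit 78) (nat_lit 3) (nat_lit 85) (nat_lit 5) (nat_lit 454) (nat_lit 453) (nat_lit 293)))) (XT.nd (nat_lit 78) (nat_lit 456) (nat_lit 0) (XT.lf (nat_lit 76) (nat_lit 253504317634) (nat_lit 0) (nat_lit 26240650) (nat_lit 532) (nat_lit 5953167661) (nat_lit 79) (nat_lit 5) (nat_lit 78) (nat_lit 3) (nat_lit 85) (nat_lit 5) (nat_lit 455) (nat_lit 453) (nat_lit 292)) (XT.nd (nat_lit 78) (nat_lit 0) (nat_lit 0) (XT.lf (nat_lit 0) (nat_lit 3926750346) (nat_lit 532) (nat_lit 137866550480) (nat_lit 608) (nat_lit 128092896665) (nat_lit 72) (nat_lit 5) (nat_lit 79) (nat_lit 5) (nat_lit 80) (nat_lit 5) (nat_lit 456) (nat_lit 453) (nat_lit 291)) (XT.lf (nat_lit 76) (nat_lit 138180986) (nat_lit 0) (nat_lit 14308898002) (nat_lit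 608) (nat_lit 266647686158) (nat_lit 73) (nat_lit 5) (nat_lit 72) (nat_lit 5) (nat_lit 80) (nat_lit 5) (nat_lit 457) (nat_lit 453) (nat_lit 290))))))) (XT.nd (nat_lit 858) (nat_lit 1064) (nat_lit 0) (XT.nd (nat_lit 390) (nat_lit 912) (nat_lit 0) (XT.nd (nat_lit 156) (nat_lit 380) (nat_lit 0) (XT.nd (nat_lit 78) (nat_lit 0) (nat_lit 0) (XT.lf (nat_lit 0) (nat_lit 32643523134) (nat_lit 532) (nat_lit 138939711438) (nat_lit 608) (nat_lit 121070024536) (nat_lit 73) (nat_lit 5) (nat_lit 80) (nat_lit 5) (nat_lit 81) (nat_lit 5) (nat_lit 458) (nat_lit 453) (nat_lit 289)) (XT.lf (nat_lit 76) (nat_lit 14807513783) (nat_lit 0) (nat_lit 38215866491) (nat_lit 608) (nat_lit 252054836545) (nat_lit 74) (nat_lit 5) (nat_lit 73) (nat_lit 5) (nat_lit 81) (nat_lit 5) (nat_lit 459) (nat_lit 453) (nat_lit 288))) (XT.nd (nat_lit 78) (nat_lit 456) (nat_lit 0) (XT.lf (nat_lit 0) (nat_lit 81476072052) (nat_lit 532)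 (nat_lit 132080861873) (nat_lit 76) (nat_lit 104424841566) (nat_lit 74) (nat_lit 5) (nat_lit 81) (nat_lit 5) (nat_lit 75) (nat_lit 5) (nat_lit 460) (nat_lit 453) (nat_lit 287)) (XT.nd (nat_lit 78) (nat_lit 0) (nat_lit 0) (XT.lf (nat_lit 0) (nat_lit 39760456992) (nat_lit 456) (nat_lit 74393309368) (nat_lit 532) (nat_lit 217607949544) (nat_lit 68) (nat_lit 5) (nat_lit 74) (nat_lit 5) (nat_lit 75) (nat_lit 5) (nat_lit 461) (nat_lit 453) (nat_lit 286)) (XT.lf (nat_lit 0) (nat_lit 154976211559) (nat_lit 532) (nat_lit 115413860524) (nat_lit 76) (nat_lit 75811536663) (nat_lit 68) (nat_lit 5) (nat_lit 75) (nat_lit 5) (nat_lit 69) (nat_lit 5) (nat_lit 462) (nat_lit 453) (nat_lit 285))))) (XT.nd (nat_lit 234) (nat_lit 456) (nat_lit 0) (XT.nd (nat_lit 78) (nat_lit 228) (nat_lit 0) (XT.lf (nat_lit 0) (nat_lit 77231606498) (nat_lit 228) (nat_lit 125622497868) (nat_lit 304) (nat_lit 158639416512) (nat_lit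 65) (nat_lit 5) (nat_lit 68) (nat_lit 5) (nat_lit 69) (nat_lit 5) (nat_lit 463) (nat_lit 453) (nat_lit 284)) (XT.nd (nat_lit 78) (nat_lit 228) (nat_lit 0) (XT.lf (nat_lit 0) (nat_lit 258538724135) (nat_lit 304) (nat_lit 86724944087) (nat_lit 76) (nat_lit 32426998137) (nat_lit 65) (nat_lit 5) (nat_lit 69) (nat_lit 5) (nat_lit 66) (nat_lit 5) (nat_lit 464) (nat_lit 453) (nat_lit 283)) (XT.lf (nat_lit 0) (nat_lit 129847494283) (nat_lit 228) (nat_lit 195216320359) (nat_lit 304) (nat_lit 69608912760) (nat_lit 62) (nat_lit 5) (nat_lit 65) (nat_lit 5) (nat_lit 66) (nat_lit 5) (nat_lit 465) (nat_lit 453) (nat_lit 282)))) (XT.nd (nat_lit 78) (nat_lit 456) (nat_lit 0) (XT.lf (nat_lit 0) (nat_lit 368677788712) (nat_lit 228) (nat_lit 30604283755) (nat_lit 304) (nat_lit 13541588074) (nat_lit 62) (nat_lit 5) (nat_lit 65) (nat_lit 5) (nat_lit 66) (nat_lit 5) (nat_lit 466) (nat_lit 453) (nat_lit 281))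 (XT.nd (nat_lit 78) (nat_lit 228) (nat_lit 0) (XT.lf (nat_lit 0) (nat_lit 53242826582) (nat_lit 228) (nat_lit 232417933617) (nat_lit 76) (nat_lit 145988787396) (nat_lit 59) (nat_lit 5) (nat_lit 62) (nat_lit 5) (nat_lit 60) (nat_lit 5) (nat_lit 467) (nat_lit 453) (nat_lit 280)) (XT.lf (nat_lit 0) (nat_lit 12133895748) (nat_lit 228) (nat_lit 114829566968) (nat_lit 304) (nat_lit 324803899283) (nat_lit 56) (nat_lit 5) (nat_lit 59) (nat_lit 5) (nat_lit 60) (nat_lit 5) (nat_lit 468) (nat_lit 453) (nat_lit 279)))))) (XT.nd (nat_lit 468) (nat_lit 532) (nat_lit 0) (XT.nd (nat_lit 234) (nat_lit 380) (nat_lit 0) (XT.nd (nat_lit 78) (nat_lit 152) (nat_lit 0) (XT.lf (nat_lit 0) (nat_lit 214776998451) (nat_lit 304) (nat_lit 185359181708) (nat_lit 76) (nat_lit 72702801511) (nat_lit 56) (nat_lit 5) (nat_lit 60) (nat_lit 5) (nat_lit 57) (nat_lit 5) (nat_lit 469) (nat_lit 453) (nat_lit 278)) (XT.nd (nat_lit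 78) (nat_lit 0) (nat_lit 0) (XT.lf (nat_lit 0) (nat_lit 90817455960) (nat_lit 152) (nat_lit 223964865635) (nat_lit 228) (nat_lit 180400672969) (nat_lit 54) (nat_lit 5) (nat_lit 56) (nat_lit 5) (nat_lit 57) (nat_lit 5) (nat_lit 470) (nat_lit 453) (nat_lit 277)) (XT.lf (nat_lit 0) (nat_lit 399629706637) (nat_lit 152) (nat_lit 28226370675) (nat_lit 228) (nat_lit 91053010650) (nat_lit 54) (nat_lit 5) (nat_lit 56) (nat_lit 5) (nat_lit 57) (nat_lit 5) (nat_lit 471) (nat_lit 453) (nat_lit 276)))) (XT.nd (nat_lit 78) (nat_lit 152) (nat_lit 0) (XT.lf (nat_lit 0) (nat_lit 14474497125) (nat_lit 228) (nat_lit 350265788892) (nat_lit 76) (nat_lit 179038168585) (nat_lit 51) (nat_lit 5) (nat_lit 54) (nat_lit 5) (nat_lit 52) (nat_lit 5) (nat_lit 472) (nat_lit 453) (nat_lit 275)) (XT.nd (nat_lit 78) (nat_lit 152) (nat_lit 0) (XT.lf (nat_lit 0) (nat_lit 127604110919) (nat_lit 228) (nat_lit 35447798132) (nat_lit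 76) (nat_lit 407069929829) (nat_lit 51) (nat_lit 5) (nat_lit 54) (nat_lit 5) (nat_lit 52) (nat_lit 5) (nat_lit 473) (nat_lit 453) (nat_lit 274)) (XT.lf (nat_lit 0) (nat_lit 259011849040) (nat_lit 228) (nat_lit 278880463061) (nat_lit 76) (nat_lit 59942161390) (nat_lit 49) (nat_lit 5) (nat_lit 52) (nat_lit 5) (nat_lit 50) (nat_lit 5) (nat_lit 474) (nat_lit 453) (nat_lit 273))))) (XT.nd (nat_lit 234) (nat_lit 228) (nat_lit 0) (XT.nd (nat_lit 78) (nat_lit 152) (nat_lit 0) (XT.lf (nat_lit 0) (nat_lit 75556634588) (nat_lit 152) (nat_lit 332422170112) (nat_lit 228) (nat_lit 219221586299) (nat_lit 47) (nat_lit 5) (nat_lit 49) (nat_lit 5) (nat_lit 50) (nat_lit 5) (nat_lit 475) (nat_lit 453) (nat_lit 272)) (XT.nd (nat_lit 78) (nat_lit 152) (nat_lit 0) (XT.lf (nat_lit 0) (nat_lit 474208825940) (nat_lit 152) (nat_lit 102279343542) (nat_lit 228) (nat_lit 81817408220) (nat_lit 47) (nat_lit 5) (nat_lit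 49) (nat_lit 5) (nat_lit 50) (nat_lit 5) (nat_lit 476) (nat_lit 453) (nat_lit 271)) (XT.lf (nat_lit 0) (nat_lit 72295104896) (nat_lit 152) (nat_lit 472664720556) (nat_lit 76) (nat_lit 146087530992) (nat_lit 45) (nat_lit 5) (nat_lit 47) (nat_lit 5) (nat_lit 46) (nat_lit 5) (nat_lit 477) (nat_lit 453) (nat_lit 270)))) (XT.nd (nat_lit 78) (nat_lit 228) (nat_lit 0) (XT.lf (nat_lit 0) (nat_lit 242137201690) (nat_lit 152) (nat_lit 67388201510) (nat_lit 76) (nat_lit 416087396267) (nat_lit 45) (nat_lit 5) (nat_lit 47) (nat_lit 5) (nat_lit 46) (nat_lit 5) (nat_lit 478) (nat_lit 453) (nat_lit 269)) (XT.nd (nat_lit 78) (nat_lit 76) (nat_lit 0) (XT.lf (nat_lit 0) (nat_lit 389810280239) (nat_lit 152) (nat_lit 45131303858) (nat_lit 228) (nat_lit 327251900411) (nat_lit 43) (nat_lit 5) (nat_lit 45) (nat_lit 5) (nat_lit 46) (nat_lit 5) (nat_lit 479) (nat_lit 453) (nat_lit 268)) (XT.lf (nat_lit 0) (nat_lit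 84248414774) (nat_lit 76) (nat_lit 568620391126) (nat_lit 152) (nat_lit 148055939352) (nat_lit 42) (nat_lit 5) (nat_lit 43) (nat_lit 5) (nat_lit 44) (nat_lit 4) (nat_lit 480) (nat_lit 453) (nat_lit 267))))))))
noncomputable def xc209 : XT := (XT.nd (nat_lit 1794) (nat_lit 988) (nat_lit 0) (XT.nd (nat_lit 858) (nat_lit 760) (nat_lit 0) (XT.nd (nat_lit 390) (nat_lit 304) (nat_lit 0) (XT.nd (nat_lit 156) (nat_lit 304) (nat_lit 0) (XT.nd (nat_lit 78) (nat_lit 152) (nat_lit 0) (XT.lf (nat_lit 0) (nat_lit 54819107985) (nat_lit 152) (nat_lit 245882090861) (nat_lit 76) (nat_lit 541036349642) (nat_lit 41) (nat_lit 5) (nat_lit 43) (nat_lit 5) (nat_lit 42) (nat_lit 5) (nat_lit 481) (nat_lit 453) (nat_lit 266)) (XT.lf (nat_lit 0) (nat_lit 272354299208) (nat_lit 152) (nat_lit 121095139) (nat_lit 228) (nat_lit 612508324807) (nat_lit 39) (nat_lit 5) (nat_lit 41) (nat_lit 5) (nat_lit 42) (nat_lit 5) (nat_lit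 482) (nat_lit 453) (nat_lit 265))) (XT.nd (nat_lit 78) (nat_lit 304) (nat_lit 0) (XT.lf (nat_lit 0) (nat_lit 522245992874) (nat_lit 228) (nat_lit 93097650464) (nat_lit 76) (nat_lit 315169795399) (nat_lit 39) (nat_lit 5) (nat_lit 42) (nat_lit 5) (nat_lit 40) (nat_lit 4) (nat_lit 483) (nat_lit 453) (nat_lit 264)) (XT.nd (nat_lit 78) (nat_lit 228) (nat_lit 0) (XT.lf (nat_lit 0) (nat_lit 492637180152) (nat_lit 76) (nat_lit 311212116910) (nat_lit 152) (nat_lit 174888154206) (nat_lit 38) (nat_lit 5) (nat_lit 39) (nat_lit 5) (nat_lit 40) (nat_lit 4) (nat_lit 484) (nat_lit 453) (nat_lit 263)) (XT.lf (nat_lit 0) (nat_lit 78989127887) (nat_lit 228) (nat_lit 927711314657) (nat_lit 76) (nat_lit 23515477273) (nat_lit 35) (nat_lit 5) (nat_lit 38) (nat_lit 5) (nat_lit 36) (nat_lit 4) (nat_lit 485) (nat_lit 453) (nat_lit 262))))) (XT.nd (nat_lit 234) (nat_lit 228) (nat_lit 0) (XT.nd (nat_lit 78) (nat_lit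 76) (nat_lit 0) (XT.lf (nat_lit 0) (nat_lit 365447557720) (nat_lit 228) (nat_lit 331877814020) (nat_lit 76) (nat_lit 386386332710) (nat_lit 35) (nat_lit 5) (nat_lit 38) (nat_lit 5) (nat_lit 36) (nat_lit 4) (nat_lit 486) (nat_lit 453) (nat_lit 261)) (XT.nd (nat_lit 78) (nat_lit 0) (nat_lit 0) (XT.lf (nat_lit 0) (nat_lit 328031806815) (nat_lit 76) (nat_lit 354680006566) (nat_lit 152) (nat_lit 458144206360) (nat_lit 34) (nat_lit 5) (nat_lit 35) (nat_lit 5) (nat_lit 36) (nat_lit 4) (nat_lit 487) (nat_lit 453) (nat_lit 260)) (XT.lf (nat_lit 0) (nat_lit 1035036824460) (nat_lit 152) (nat_lit 142843115538) (nat_lit 0) (nat_lit 23917571063) (nat_lit 34) (nat_lit 5) (nat_lit 36) (nat_lit 4) (nat_lit 34) (nat_lit 4) (nat_lit 488) (nat_lit 453) (nat_lit 259)))) (XT.nd (nat_lit 78) (nat_lit 76) (nat_lit 0) (XT.lf (nat_lit 0) (nat_lit 164829791986) (nat_lit 152) (nat_lit 668273310625) (nat_lit 76) (nat_lit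 432282873846) (nat_lit 32) (nat_lit 5) (nat_lit 34) (nat_lit 5) (nat_lit 33) (nat_lit 4) (nat_lit 489) (nat_lit 453) (nat_lit 258)) (XT.nd (nat_lit 78) (nat_lit 0) (nat_lit 0) (XT.lf (nat_lit 0) (nat_lit 69692843253) (nat_lit 76) (nat_lit 449928379801) (nat_lit 152) (nat_lit 813639130504) (nat_lit 31) (nat_lit 5) (nat_lit 32) (nat_lit 5) (nat_lit 33) (nat_lit 4) (nat_lit 490) (nat_lit 453) (nat_lit 257)) (XT.lf (nat_lit 0) (nat_lit 904701548918) (nat_lit 76) (nat_lit 16366177368) (nat_lit 152) (nat_lit 484035213928) (nat_lit 31) (nat_lit 5) (nat_lit 32) (nat_lit 5) (nat_lit 33) (nat_lit 4) (nat_lit 491) (nat_lit 453) (nat_lit 256)))))) (XT.nd (nat_lit 468) (nat_lit 304) (nat_lit 0) (XT.nd (nat_lit 234) (nat_lit 228) (nat_lit 0) (XT.nd (nat_lit 78) (nat_lit 152) (nat_lit 0) (XT.lf (nat_lit 0) (nat_lit 329429638802) (nat_lit 76) (nat_lit 1043990832766) (nat_lit 76) (nat_lit 107769220492)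 (nat_lit 30) (nat_lit 4) (nat_lit 31) (nat_lit 5) (nat_lit 31) (nat_lit 4) (nat_lit 492) (nat_lit 453) (nat_lit 255)) (XT.nd (nat_lit 78) (nat_lit 76) (nat_lit 0) (XT.lf (nat_lit 0) (nat_lit 298123280036) (nat_lit 152) (nat_lit 316125206514) (nat_lit 76) (nat_lit 947383409356) (nat_lit 29) (nat_lit 5) (nat_lit 31) (nat_lit 5) (nat_lit 30) (nat_lit 4) (nat_lit 493) (nat_lit 453) (nat_lit 254)) (XT.lf (nat_lit 0) (nat_lit 614290494097) (nat_lit 76) (nat_lit 131148034059) (nat_lit 152) (nat_lit 901665117090) (nat_lit 28) (nat_lit 5) (nat_lit 29) (nat_lit 5) (nat_lit 30) (nat_lit 4) (nat_lit 494) (nat_lit 453) (nat_lit 253)))) (XT.nd (nat_lit 78) (nat_lit 228) (nat_lit 0) (XT.lf (nat_lit 0) (nat_lit 1246800857944) (nat_lit 152) (nat_lit 111222375997) (nat_lit 0) (nat_lit 379928951647) (nat_lit 28) (nat_lit 5) (nat_lit 30) (nat_lit 4) (nat_lit 28) (nat_lit 4) (nat_lit 495) (nat_lit 453) (nat_lit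 252)) (XT.nd (nat_lit 78) (nat_lit 152) (nat_lit 0) (XT.lf (nat_lit 0) (nat_lit 927064721207) (nat_lit 76) (nat_lit 886909809023) (nat_lit 76) (nat_lit 20037890439) (nat_lit 27) (nat_lit 4) (nat_lit 28) (nat_lit 5) (nat_lit 28) (nat_lit 4) (nat_lit 496) (nat_lit 453) (nat_lit 251)) (XT.lf (nat_lit 0) (nat_lit 110941850835) (nat_lit 76) (nat_lit 359160928393) (nat_lit 152) (nat_lit 1466251259788) (nat_lit 25) (nat_lit 5) (nat_lit 26) (nat_lit 5) (nat_lit 27) (nat_lit 4) (nat_lit 497) (nat_lit 453) (nat_lit 250))))) (XT.nd (nat_lit 234) (nat_lit 152) (nat_lit 0) (XT.nd (nat_lit 78) (nat_lit 152) (nat_lit 0) (XT.lf (nat_lit 0) (nat_lit 1028883704808) (nat_lit 152) (nat_lit 789292218690) (nat_lit 0) (nat_lit 226224500647) (nat_lit 25) (nat_lit 5) (nat_lit 27) (nat_lit 4) (nat_lit 25) (nat_lit 4) (nat_lit 498) (nat_lit 453) (nat_lit 249)) (XT.nd (nat_lit 78) (nat_lit 76) (nat_lit 0) (XT.lf (nat_lit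 0) (nat_lit 337259554453) (nat_lit 76) (nat_lit 1312547491742) (nat_lit 76) (nat_lit 509888278549) (nat_lit 24) (nat_lit 4) (nat_lit 25) (nat_lit 5) (nat_lit 25) (nat_lit 4) (nat_lit 499) (nat_lit 453) (nat_lit 248)) (XT.lf (nat_lit 0) (nat_lit 56521215678) (nat_lit 152) (nat_lit 685095092942) (nat_lit 76) (nat_lit 1540756584664) (nat_lit 23) (nat_lit 5) (nat_lit 25) (nat_lit 5) (nat_lit 24) (nat_lit 4) (nat_lit 500) (nat_lit 453) (nat_lit 247)))) (XT.nd (nat_lit 78) (nat_lit 76) (nat_lit 0) (XT.lf (nat_lit 0) (nat_lit 557897241258) (nat_lit 76) (nat_lit 96216446509) (nat_lit 152) (nat_lit 1758618077095) (nat_lit 22) (nat_lit 5) (nat_lit 23) (nat_lit 5) (nat_lit 24) (nat_lit 4) (nat_lit 501) (nat_lit 453) (nat_lit 246)) (XT.nd (nat_lit 78) (nat_lit 76) (nat_lit 0) (XT.lf (nat_lit 0) (nat_lit 1333181421716) (nat_lit 152) (nat_lit 627666070336) (nat_lit 0) (nat_lit 589978424986) (nat_lit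 22) (nat_lit 5) (nat_lit 24) (nat_lit 4) (nat_lit 22) (nat_lit 4) (nat_lit 502) (nat_lit 453) (nat_lit 245)) (XT.lf (nat_lit 0) (nat_lit 731783480528) (nat_lit 76) (nat_lit 1354889620791) (nat_lit 76) (nat_lit 611686617915) (nat_lit 21) (nat_lit 4) (nat_lit 22) (nat_lit 5) (nat_lit 22) (nat_lit 4) (nat_lit 503) (nat_lit 453) (nat_lit 244))))))) (XT.nd (nat_lit 936) (nat_lit 380) (nat_lit 0) (XT.nd (nat_lit 468) (nat_lit 228) (nat_lit 0) (XT.nd (nat_lit 234) (nat_lit 228) (nat_lit 0) (XT.nd (nat_lit 78) (nat_lit 76) (nat_lit 0) (XT.lf (nat_lit 0) (nat_lit 58216711289) (nat_lit 152) (nat_lit 622112249084) (nat_lit 76) (nat_lit 2175876438676) (nat_lit 20) (nat_lit 5) (nat_lit 22) (nat_lit 5) (nat_lit 21) (nat_lit 4) (nat_lit 504) (nat_lit 453) (nat_lit 243)) (XT.nd (nat_lit 78) (nat_lit 0) (nat_lit 0) (XT.lf (nat_lit 0) (nat_lit 771380532254) (nat_lit 152) (nat_lit 2168980355093) (nat_lit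 0) (nat_lit 83229593516) (nat_lit 19) (nat_lit 5) (nat_lit 21) (nat_lit 4) (nat_lit 19) (nat_lit 4) (nat_lit 505) (nat_lit 453) (nat_lit 242)) (XT.lf (nat_lit 0) (nat_lit 1576719790570) (nat_lit 152) (nat_lit 736267944802) (nat_lit 0) (nat_lit 888568847315) (nat_lit 19) (nat_lit 5) (nat_lit 21) (nat_lit 4) (nat_lit 19) (nat_lit 4) (nat_lit 506) (nat_lit 453) (nat_lit 241)))) (XT.nd (nat_lit 78) (nat_lit 152) (nat_lit 0) (XT.lf (nat_lit 0) (nat_lit 853770496003) (nat_lit 76) (nat_lit 1613248884412) (nat_lit 76) (nat_lit 925097936973) (nat_lit 18) (nat_lit 4) (nat_lit 19) (nat_lit 5) (nat_lit 19) (nat_lit 4) (nat_lit 507) (nat_lit 453) (nat_lit 240)) (XT.nd (nat_lit 78) (nat_lit 152) (nat_lit 0) (XT.lf (nat_lit 0) (nat_lit 2612884202689) (nat_lit 76) (nat_lit 835789595322) (nat_lit 76) (nat_lit 147638644010) (nat_lit 18) (nat_lit 4) (nat_lit 19) (nat_lit 5) (nat_lit 19) (nat_lit 4) (nat_lit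 508) (nat_lit 453) (nat_lit 239)) (XT.lf (nat_lit 0) (nat_lit 675567762239) (nat_lit 152) (nat_lit 3100099588842) (nat_lit 0) (nat_lit 38390952148) (nat_lit 16) (nat_lit 5) (nat_lit 18) (nat_lit 4) (nat_lit 16) (nat_lit 4) (nat_lit 509) (nat_lit 453) (nat_lit 238))))) (XT.nd (nat_lit 234) (nat_lit 152) (nat_lit 0) (XT.nd (nat_lit 78) (nat_lit 76) (nat_lit 0) (XT.lf (nat_lit 0) (nat_lit 1605950248675) (nat_lit 152) (nat_lit 1470249696414) (nat_lit 0) (nat_lit 968773435509) (nat_lit 16) (nat_lit 5) (nat_lit 18) (nat_lit 4) (nat_lit 16) (nat_lit 4) (nat_lit 510) (nat_lit 453) (nat_lit 237)) (XT.nd (nat_lit 78) (nat_lit 0) (nat_lit 0) (XT.lf (nat_lit 0) (nat_lit 305258433081) (nat_lit 76) (nat_lit 2312846364983) (nat_lit 76) (nat_lit 1675669548970) (nat_lit 15) (nat_lit 4) (nat_lit 16) (nat_lit 5) (nat_lit 16) (nat_lit 4) (nat_lit 511) (nat_lit 453) (nat_lit 236)) (XT.lf (nat_lit 0) (nat_lit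 2306421598915) (nat_lit 76) (nat_lit 1445009336308) (nat_lit 76) (nat_lit 807832517658) (nat_lit 15) (nat_lit 4) (nat_lit 16) (nat_lit 5) (nat_lit 16) (nat_lit 4) (nat_lit 512) (nat_lit 453) (nat_lit 235)))) (XT.nd (nat_lit 78) (nat_lit 76) (nat_lit 0) (XT.lf (nat_lit 0) (nat_lit 122956781550) (nat_lit 152) (nat_lit 381426715465) (nat_lit 76) (nat_lit 4341359164408) (nat_lit 14) (nat_lit 5) (nat_lit 16) (nat_lit 5) (nat_lit 15) (nat_lit 4) (nat_lit 513) (nat_lit 453) (nat_lit 234)) (XT.nd (nat_lit 78) (nat_lit 0) (nat_lit 0) (XT.lf (nat_lit 0) (nat_lit 1139456335711) (nat_lit 152) (nat_lit 3460136178371) (nat_lit 0) (nat_lit 549477795572) (nat_lit 13) (nat_lit 5) (nat_lit 15) (nat_lit 4) (nat_lit 13) (nat_lit 4) (nat_lit 514) (nat_lit 453) (nat_lit 233)) (XT.lf (nat_lit 0) (nat_lit 2261076479303) (nat_lit 152) (nat_lit 1542585703206) (nat_lit 0) (nat_lit 1671097937226) (nat_lit 13) (nat_lit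 5) (nat_lit 15) (nat_lit 4) (nat_lit 13) (nat_lit 4) (nat_lit 515) (nat_lit 453) (nat_lit 232)))))) (XT.nd (nat_lit 468) (nat_lit 152) (nat_lit 0) (XT.nd (nat_lit 234) (nat_lit 152) (nat_lit 0) (XT.nd (nat_lit 78) (nat_lit 0) (nat_lit 0) (XT.lf (nat_lit 0) (nat_lit 556191760544) (nat_lit 76) (nat_lit 2929610892240) (nat_lit 76) (nat_lit 2339632348369) (nat_lit 12) (nat_lit 4) (nat_lit 13) (nat_lit 5) (nat_lit 13) (nat_lit 4) (nat_lit 516) (nat_lit 453) (nat_lit 231)) (XT.nd (nat_lit 78) (nat_lit 0) (nat_lit 0) (XT.lf (nat_lit 0) (nat_lit 2910599623655) (nat_lit 76) (nat_lit 1940084316672) (nat_lit 76) (nat_lit 1350105771140) (nat_lit 12) (nat_lit 4) (nat_lit 13) (nat_lit 5) (nat_lit 13) (nat_lit 4) (nat_lit 517) (nat_lit 453) (nat_lit 230)) (XT.lf (nat_lit 0) (nat_lit 5453360103289) (nat_lit 76) (nat_lit 871395621441) (nat_lit 76) (nat_lit 281417074370) (nat_lit 12) (nat_lit 4) (nat_lit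 13) (nat_lit 5) (nat_lit 13) (nat_lit 4) (nat_lit 518) (nat_lit 453) (nat_lit 229)))) (XT.nd (nat_lit 78) (nat_lit 0) (nat_lit 0) (XT.lf (nat_lit 0) (nat_lit 865922860818) (nat_lit 152) (nat_lit 5853792803561) (nat_lit 0) (nat_lit 319646427027) (nat_lit 10) (nat_lit 5) (nat_lit 12) (nat_lit 4) (nat_lit 10) (nat_lit 4) (nat_lit 519) (nat_lit 453) (nat_lit 228)) (XT.nd (nat_lit 78) (nat_lit 0) (nat_lit 0) (XT.lf (nat_lit 0) (nat_lit 2144818447807) (nat_lit 152) (nat_lit 3758863520661) (nat_lit 0) (nat_lit 1598542012795) (nat_lit 10) (nat_lit 5) (nat_lit 12) (nat_lit 4) (nat_lit 10) (nat_lit 4) (nat_lit 520) (nat_lit 453) (nat_lit 227)) (XT.lf (nat_lit 0) (nat_lit 3526025676360) (nat_lit 152) (nat_lit 1496339906163) (nat_lit 0) (nat_lit 2979749240217) (nat_lit 10) (nat_lit 5) (nat_lit 12) (nat_lit 4) (nat_lit 10) (nat_lit 4) (nat_lit 521) (nat_lit 453) (nat_lit 226))))) (XT.nd (nat_lit 234)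 (nat_lit 76) (nat_lit 0) (XT.nd (nat_lit 78) (nat_lit 0) (nat_lit 0) (XT.lf (nat_lit 0) (nat_lit 997062701746) (nat_lit 76) (nat_lit 4044646158411) (nat_lit 76) (nat_lit 3498369721221) (nat_lit 9) (nat_lit 4) (nat_lit 10) (nat_lit 5) (nat_lit 10) (nat_lit 4) (nat_lit 522) (nat_lit 453) (nat_lit 225)) (XT.nd (nat_lit 78) (nat_lit 0) (nat_lit 0) (XT.lf (nat_lit 0) (nat_lit 3775035684665) (nat_lit 76) (nat_lit 2944523593904) (nat_lit 76) (nat_lit 2398247155745) (nat_lit 9) (nat_lit 4) (nat_lit 10) (nat_lit 5) (nat_lit 10) (nat_lit 4) (nat_lit 523) (nat_lit 453) (nat_lit 224)) (XT.lf (nat_lit 0) (nat_lit 6775246496996) (nat_lit 76) (nat_lit 1756391228953) (nat_lit 76) (nat_lit 1210114789896) (nat_lit 9) (nat_lit 4) (nat_lit 10) (nat_lit 5) (nat_lit 10) (nat_lit 4) (nat_lit 524) (nat_lit 453) (nat_lit 223)))) (XT.nd (nat_lit 56940) (nat_lit 0) (nat_lit 5320) (XT.lf (nat_lit 0) (nat_lit 69412995388)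 (nat_lit 152) (nat_lit 401897409479) (nat_lit 76) (nat_lit 9944163296084) (nat_lit 8) (nat_lit 5) (nat_lit 10) (nat_lit 5) (nat_lit 9) (nat_lit 4) (nat_lit 525) (nat_lit 453) (nat_lit 222)) (XT.nd (nat_lit 78) (nat_lit 0) (nat_lit 0) (XT.lf (nat_lit 0) (nat_lit 123351389169) (nat_lit 532) (nat_lit 3125170516) (nat_lit 532) (nat_lit 3125170516) (nat_lit 78) (nat_lit 3) (nat_lit 85) (nat_lit 3) (nat_lit 85) (nat_lit 5) (nat_lit 454) (nat_lit 454) (nat_lit 292)) (XT.lf (nat_lit 76) (nat_lit 128211491433) (nat_lit 0) (nat_lit 131443804402) (nat_lit 532) (nat_lit 9669550106) (nat_lit 79) (nat_lit 5) (nat_lit 78) (nat_lit 3) (nat_lit 85) (nat_lit 5) (nat_lit 455) (nat_lit 454) (nat_lit 291))))))))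
noncomputable def xc210 : XT := (XT.nd (nat_lit 1794) (nat_lit 1748) (nat_lit 0) (XT.nd (nat_lit 858) (nat_lit 1292) (nat_lit 0) (XT.nd (nat_lit 390) (nat_lit 760) (nat_lit 0) (XT.nd (nat_lit 156) (nat_lit 0) (nat_lit 0) (XT.nd (nat_lit 78) (nat_lit 456) (nat_lit 0) (XT.lf (nat_lit 76) (nat_lit 273785680763) (nat_lit 0) (nat_lit 29136378) (nat_lit 532) (nat_lit 6427461024) (nat_lit 79) (nat_lit 5) (nat_lit 78) (nat_lit 3) (nat_lit 85) (nat_lit 5) (nat_lit 456) (nat_lit 454) (nat_lit 290)) (XT.lf (nat_lit 0) (nat_lit 4242624695) (nat_lit 532) (nat_lit 148894629790) (nat_lit 608) (nat_lit 138339699443) (nat_lit 72) (nat_lit 5) (nat_lit 79) (nat_lit 5) (nat_lit 80) (nat_lit 5) (nat_lit 457) (nat_lit 454) (nat_lit 289))) (XT.nd (nat_lit 78) (nat_lit 0) (nat_lit 76) (XT.lf (nat_lit 76) (nat_lit 150448681) (nat_lit 0) (nat_lit 15454031657) (nat_lit 608) (nat_lit 287977734646) (nat_lit 73) (nat_lit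 5) (nat_lit 72) (nat_lit 5) (nat_lit 80) (nat_lit 5) (nat_lit 458) (nat_lit 454) (nat_lit 288)) (XT.nd (nat_lit 78) (nat_lit 0) (nat_lit 0) (XT.lf (nat_lit 0) (nat_lit 35256509509) (nat_lit 532) (nat_lit 150053633969) (nat_lit 608) (nat_lit 130755255468) (nat_lit 73) (nat_lit 5) (nat_lit 80) (nat_lit 5) (nat_lit 81) (nat_lit 5) (nat_lit 459) (nat_lit 454) (nat_lit 287)) (XT.lf (nat_lit 76) (nat_lit 15993337514) (nat_lit 0) (nat_lit 41273335666) (nat_lit 608) (nat_lit 272217686698) (nat_lit 74) (nat_lit 5) (nat_lit 73) (nat_lit 5) (nat_lit 81) (nat_lit 5) (nat_lit 460) (nat_lit 454) (nat_lit 286))))) (XT.nd (nat_lit 234) (nat_lit 456) (nat_lit 0) (XT.nd (nat_lit 78) (nat_lit 456) (nat_lit 0) (XT.lf (nat_lit 0) (nat_lit 87995470479) (nat_lit 532) (nat_lit 142646088487) (nat_lit 76) (nat_lit 112778653097) (nat_lit 74) (nat_lit 5) (nat_lit 81) (nat_lit 5) (nat_lit 75) (nat_lit 5) (nat_lit 461)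 (nat_lit 454) (nat_lit 285)) (XT.nd (nat_lit 78) (nat_lit 0) (nat_lit 0) (XT.lf (nat_lit 0) (nat_lit 42942504436) (nat_lit 456) (nat_lit 80344807784) (nat_lit 532) (nat_lit 235015240973) (nat_lit 68) (nat_lit 5) (nat_lit 74) (nat_lit 5) (nat_lit 75) (nat_lit 5) (nat_lit 462) (nat_lit 454) (nat_lit 284)) (XT.lf (nat_lit 0) (nat_lit 167375460096) (nat_lit 532) (nat_lit 124645754850) (nat_lit 76) (nat_lit 81876429983) (nat_lit 68) (nat_lit 5) (nat_lit 75) (nat_lit 5) (nat_lit 69) (nat_lit 5) (nat_lit 463) (nat_lit 454) (nat_lit 283)))) (XT.nd (nat_lit 78) (nat_lit 228) (nat_lit 0) (XT.lf (nat_lit 0) (nat_lit 83411318787) (nat_lit 228) (nat_lit 135672208706) (nat_lit 304) (nat_lit 171329387114) (nat_lit 65) (nat_lit 5) (nat_lit 68) (nat_lit 5) (nat_lit 69) (nat_lit 5) (nat_lit 464) (nat_lit 454) (nat_lit 282)) (XT.nd (nat_lit 78) (nat_lit 228) (nat_lit 0) (XT.lf (nat_lit 0) (nat_lit 279222837730)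 (nat_lit 304) (nat_lit 93661764086) (nat_lit 76) (nat_lit 35021236266) (nat_lit 65) (nat_lit 5) (nat_lit 69) (nat_lit 5) (nat_lit 66) (nat_lit 5) (nat_lit 465) (nat_lit 454) (nat_lit 281)) (XT.lf (nat_lit 0) (nat_lit 140236439594) (nat_lit 228) (nat_lit 210833448205) (nat_lit 304) (nat_lit 75176580048) (nat_lit 62) (nat_lit 5) (nat_lit 65) (nat_lit 5) (nat_lit 66) (nat_lit 5) (nat_lit 466) (nat_lit 454) (nat_lit 280)))))) (XT.nd (nat_lit 468) (nat_lit 684) (nat_lit 0) (XT.nd (nat_lit 234) (nat_lit 152) (nat_lit 0) (XT.nd (nat_lit 78) (nat_lit 456) (nat_lit 0) (XT.lf (nat_lit 0) (nat_lit 398173072705) (nat_lit 228) (nat_lit 33052461842) (nat_lit 304) (nat_lit 14623946849) (nat_lit 62) (nat_lit 5) (nat_lit 65) (nat_lit 5) (nat_lit 66) (nat_lit 5) (nat_lit 467) (nat_lit 454) (nat_lit 279)) (XT.nd (nat_lit 78) (nat_lit 228) (nat_lit 0) (XT.lf (nat_lit 0) (nat_lit 57503135319) (nat_lit 228)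 (nat_lit 251010221239) (nat_lit 76) (nat_lit 157668083991) (nat_lit 59) (nat_lit 5) (nat_lit 62) (nat_lit 5) (nat_lit 60) (nat_lit 5) (nat_lit 468) (nat_lit 454) (nat_lit 278)) (XT.lf (nat_lit 0) (nat_lit 13105725435) (nat_lit 228) (nat_lit 124015658418) (nat_lit 304) (nat_lit 350787299349) (nat_lit 56) (nat_lit 5) (nat_lit 59) (nat_lit 5) (nat_lit 60) (nat_lit 5) (nat_lit 469) (nat_lit 454) (nat_lit 277)))) (XT.nd (nat_lit 78) (nat_lit 152) (nat_lit 0) (XT.lf (nat_lit 0) (nat_lit 231959946020) (nat_lit 304) (nat_lit 200186824397) (nat_lit 76) (nat_lit 78519266563) (nat_lit 56) (nat_lit 5) (nat_lit 60) (nat_lit 5) (nat_lit 57) (nat_lit 5) (nat_lit 470) (nat_lit 454) (nat_lit 276)) (XT.nd (nat_lit 78) (nat_lit 0) (nat_lit 0) (XT.lf (nat_lit 0) (nat_lit 98083916643) (nat_lit 152) (nat_lit 241881745618) (nat_lit 228) (nat_lit 194831911278) (nat_lit 54) (nat_lit 5) (nat_lit 56) (nat_lit 5)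 (nat_lit 57) (nat_lit 5) (nat_lit 471) (nat_lit 454) (nat_lit 275)) (XT.lf (nat_lit 0) (nat_lit 431601068545) (nat_lit 152) (nat_lit 30484193970) (nat_lit 228) (nat_lit 98336496383) (nat_lit 54) (nat_lit 5) (nat_lit 56) (nat_lit 5) (nat_lit 57) (nat_lit 5) (nat_lit 472) (nat_lit 454) (nat_lit 274))))) (XT.nd (nat_lit 234) (nat_lit 304) (nat_lit 0) (XT.nd (nat_lit 78) (nat_lit 152) (nat_lit 0) (XT.lf (nat_lit 0) (nat_lit 15633152527) (nat_lit 228) (nat_lit 378286006820) (nat_lit 76) (nat_lit 193361515818) (nat_lit 51) (nat_lit 5) (nat_lit 54) (nat_lit 5) (nat_lit 52) (nat_lit 5) (nat_lit 473) (nat_lit 454) (nat_lit 273)) (XT.nd (nat_lit 78) (nat_lit 152) (nat_lit 0) (XT.lf (nat_lit 0) (nat_lit 137813083897) (nat_lit 228) (nat_lit 38282654220) (nat_lit 76) (nat_lit 439635796202) (nat_lit 51) (nat_lit 5) (nat_lit 54) (nat_lit 5) (nat_lit 52) (nat_lit 5) (nat_lit 474) (nat_lit 454) (nat_lit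 272)) (XT.lf (nat_lit 0) (nat_lit 279733423838) (nat_lit 228) (nat_lit 301189914981) (nat_lit 76) (nat_lit 64737842269) (nat_lit 49) (nat_lit 5) (nat_lit 52) (nat_lit 5) (nat_lit 50) (nat_lit 5) (nat_lit 475) (nat_lit 454) (nat_lit 271)))) (XT.nd (nat_lit 78) (nat_lit 152) (nat_lit 0) (XT.lf (nat_lit 0) (nat_lit 81602125540) (nat_lit 152) (nat_lit 359015587069) (nat_lit 228) (nat_lit 236758661266) (nat_lit 47) (nat_lit 5) (nat_lit 49) (nat_lit 5) (nat_lit 50) (nat_lit 5) (nat_lit 476) (nat_lit 454) (nat_lit 270)) (XT.nd (nat_lit 78) (nat_lit 152) (nat_lit 0) (XT.lf (nat_lit 0) (nat_lit 512146421075) (nat_lit 152) (nat_lit 110461360791) (nat_lit 228) (nat_lit 88362197232) (nat_lit 47) (nat_lit 5) (nat_lit 49) (nat_lit 5) (nat_lit 50) (nat_lit 5) (nat_lit 477) (nat_lit 454) (nat_lit 269)) (XT.lf (nat_lit 0) (nat_lit 78079274072) (nat_lit 152) (nat_lit 510476966078) (nat_lit 76) (nat_lit 157774859849)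 (nat_lit 45) (nat_lit 5) (nat_lit 47) (nat_lit 5) (nat_lit 46) (nat_lit 5) (nat_lit 478) (nat_lit 454) (nat_lit 268))))))) (XT.nd (nat_lit 936) (nat_lit 760) (nat_lit 0) (XT.nd (nat_lit 468) (nat_lit 532) (nat_lit 0) (XT.nd (nat_lit 234) (nat_lit 228) (nat_lit 0) (XT.nd (nat_lit 78) (nat_lit 228) (nat_lit 0) (XT.lf (nat_lit 0) (nat_lit 261508697070) (nat_lit 152) (nat_lit 72778394554) (nat_lit 76) (nat_lit 449374690170) (nat_lit 45) (nat_lit 5) (nat_lit 47) (nat_lit 5) (nat_lit 46) (nat_lit 5) (nat_lit 479) (nat_lit 454) (nat_lit 267)) (XT.nd (nat_lit 78) (nat_lit 76) (nat_lit 0) (XT.lf (nat_lit 0) (nat_lit 420995943885) (nat_lit 152) (nat_lit 48741467954) (nat_lit 228) (nat_lit 353431511265) (nat_lit 43) (nat_lit 5) (nat_lit 45) (nat_lit 5) (nat_lit 46) (nat_lit 5) (nat_lit 480) (nat_lit 454) (nat_lit 266)) (XT.lf (nat_lit 0) (nat_lit 90989139059) (nat_lit 76) (nat_lit 614109663261) (nat_lit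 152) (nat_lit 159899883120) (nat_lit 42) (nat_lit 5) (nat_lit 43) (nat_lit 5) (nat_lit 44) (nat_lit 4) (nat_lit 481) (nat_lit 454) (nat_lit 265)))) (XT.nd (nat_lit 78) (nat_lit 152) (nat_lit 0) (XT.lf (nat_lit 0) (nat_lit 59205104030) (nat_lit 152) (nat_lit 265551845393) (nat_lit 76) (nat_lit 584319565486) (nat_lit 41) (nat_lit 5) (nat_lit 43) (nat_lit 5) (nat_lit 42) (nat_lit 5) (nat_lit 482) (nat_lit 454) (nat_lit 264)) (XT.nd (nat_lit 78) (nat_lit 0) (nat_lit 0) (XT.lf (nat_lit 0) (nat_lit 294143435306) (nat_lit 152) (nat_lit 130442424) (nat_lit 228) (nat_lit 661508502749) (nat_lit 39) (nat_lit 5) (nat_lit 41) (nat_lit 5) (nat_lit 42) (nat_lit 5) (nat_lit 483) (nat_lit 454) (nat_lit 263)) (XT.lf (nat_lit 0) (nat_lit 564026098248) (nat_lit 228) (nat_lit 100544703071) (nat_lit 76) (nat_lit 340383678385) (nat_lit 39) (nat_lit 5) (nat_lit 42) (nat_lit 5) (nat_lit 40) (nat_lit 4) (nat_lit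 484) (nat_lit 454) (nat_lit 262))))) (XT.nd (nat_lit 234) (nat_lit 228) (nat_lit 0) (XT.nd (nat_lit 78) (nat_lit 228) (nat_lit 0) (XT.lf (nat_lit 0) (nat_lit 532048894768) (nat_lit 76) (nat_lit 336108758253) (nat_lit 152) (nat_lit 188878761320) (nat_lit 38) (nat_lit 5) (nat_lit 39) (nat_lit 5) (nat_lit 40) (nat_lit 4) (nat_lit 485) (nat_lit 454) (nat_lit 261)) (XT.nd (nat_lit 78) (nat_lit 0) (nat_lit 0) (XT.lf (nat_lit 0) (nat_lit 85308675639) (nat_lit 228) (nat_lit 1001927451831) (nat_lit 76) (nat_lit 25397032485) (nat_lit 35) (nat_lit 5) (nat_lit 38) (nat_lit 5) (nat_lit 36) (nat_lit 4) (nat_lit 486) (nat_lit 454) (nat_lit 260)) (XT.lf (nat_lit 0) (nat_lit 394683748931) (nat_lit 228) (nat_lit 358427328032) (nat_lit 76) (nat_lit 417297532874) (nat_lit 35) (nat_lit 5) (nat_lit 38) (nat_lit 5) (nat_lit 36) (nat_lit 4) (nat_lit 487) (nat_lit 454) (nat_lit 259)))) (XT.nd (nat_lit 78) (nat_lit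 152) (nat_lit 0) (XT.lf (nat_lit 0) (nat_lit 354275044467) (nat_lit 76) (nat_lit 383054088611) (nat_lit 152) (nat_lit 494795338233) (nat_lit 34) (nat_lit 5) (nat_lit 35) (nat_lit 5) (nat_lit 36) (nat_lit 4) (nat_lit 488) (nat_lit 454) (nat_lit 258)) (XT.nd (nat_lit 78) (nat_lit 152) (nat_lit 0) (XT.lf (nat_lit 0) (nat_lit 1117840124385) (nat_lit 152) (nat_lit 154269902321) (nat_lit 0) (nat_lit 25831256886) (nat_lit 34) (nat_lit 5) (nat_lit 36) (nat_lit 4) (nat_lit 34) (nat_lit 4) (nat_lit 489) (nat_lit 454) (nat_lit 257)) (XT.lf (nat_lit 0) (nat_lit 178016527571) (nat_lit 152) (nat_lit 721734511208) (nat_lit 76) (nat_lit 466865787587) (nat_lit 32) (nat_lit 5) (nat_lit 34) (nat_lit 5) (nat_lit 33) (nat_lit 4) (nat_lit 490) (nat_lit 454) (nat_lit 256)))))) (XT.nd (nat_lit 468) (nat_lit 456) (nat_lit 0) (XT.nd (nat_lit 234) (nat_lit 152) (nat_lit 0) (XT.nd (nat_lit 78) (nat_lit 76) (nat_lit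 0) (XT.lf (nat_lit 0) (nat_lit 75268918163) (nat_lit 76) (nat_lit 485922344441) (nat_lit 152) (nat_lit 878729891874) (nat_lit 31) (nat_lit 5) (nat_lit 32) (nat_lit 5) (nat_lit 33) (nat_lit 4) (nat_lit 491) (nat_lit 454) (nat_lit 255)) (XT.nd (nat_lit 78) (nat_lit 76) (nat_lit 0) (XT.lf (nat_lit 0) (nat_lit 977078272322) (nat_lit 76) (nat_lit 17675188461) (nat_lit 152) (nat_lit 522757689311) (nat_lit 31) (nat_lit 5) (nat_lit 32) (nat_lit 5) (nat_lit 33) (nat_lit 4) (nat_lit 492) (nat_lit 454) (nat_lit 254)) (XT.lf (nat_lit 0) (nat_lit 355784612280) (nat_lit 76) (nat_lit 1127509810763) (nat_lit 76) (nat_lit 116390419258) (nat_lit 30) (nat_lit 4) (nat_lit 31) (nat_lit 5) (nat_lit 31) (nat_lit 4) (nat_lit 493) (nat_lit 454) (nat_lit 253)))) (XT.nd (nat_lit 78) (nat_lit 76) (nat_lit 0) (XT.lf (nat_lit 0) (nat_lit 321973440514) (nat_lit 152) (nat_lit 341414649565) (nat_lit 76) (nat_lit 1023174333633)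 (nat_lit 29) (nat_lit 5) (nat_lit 31) (nat_lit 5) (nat_lit 30) (nat_lit 4) (nat_lit 494) (nat_lit 454) (nat_lit 252)) (XT.nd (nat_lit 78) (nat_lit 0) (nat_lit 0) (XT.lf (nat_lit 0) (nat_lit 663434292577) (nat_lit 76) (nat_lit 141639607270) (nat_lit 152) (nat_lit 973798013844) (nat_lit 28) (nat_lit 5) (nat_lit 29) (nat_lit 5) (nat_lit 30) (nat_lit 4) (nat_lit 495) (nat_lit 454) (nat_lit 251)) (XT.lf (nat_lit 0) (nat_lit 1346545200580) (nat_lit 152) (nat_lit 120119633072) (nat_lit 0) (nat_lit 410323504846) (nat_lit 28) (nat_lit 5) (nat_lit 30) (nat_lit 4) (nat_lit 28) (nat_lit 4) (nat_lit 496) (nat_lit 454) (nat_lit 250))))) (XT.nd (nat_lit 234) (nat_lit 228) (nat_lit 0) (XT.nd (nat_lit 78) (nat_lit 152) (nat_lit 0) (XT.lf (nat_lit 0) (nat_lit 1001230418415) (nat_lit 76) (nat_lit 957862340432) (nat_lit 76) (nat_lit 21640634164) (nat_lit 27) (nat_lit 4) (nat_lit 28) (nat_lit 5) (nat_lit 28)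 (nat_lit 4) (nat_lit 497) (nat_lit 454) (nat_lit 249)) (XT.nd (nat_lit 78) (nat_lit 0) (nat_lit 0) (XT.lf (nat_lit 0) (nat_lit 119817719293) (nat_lit 76) (nat_lit 387893547685) (nat_lit 152) (nat_lit 1583551073912) (nat_lit 25) (nat_lit 5) (nat_lit 26) (nat_lit 5) (nat_lit 27) (nat_lit 4) (nat_lit 498) (nat_lit 454) (nat_lit 248)) (XT.lf (nat_lit 0) (nat_lit 1111194652623) (nat_lit 152) (nat_lit 852435100345) (nat_lit 0) (nat_lit 244322684981) (nat_lit 25) (nat_lit 5) (nat_lit 27) (nat_lit 4) (nat_lit 25) (nat_lit 4) (nat_lit 499) (nat_lit 454) (nat_lit 247)))) (XT.nd (nat_lit 78) (nat_lit 152) (nat_lit 0) (XT.lf (nat_lit 0) (nat_lit 364240802096) (nat_lit 76) (nat_lit 1417551052223) (nat_lit 76) (nat_lit 550679076838) (nat_lit 24) (nat_lit 4) (nat_lit 25) (nat_lit 5) (nat_lit 25) (nat_lit 4) (nat_lit 500) (nat_lit 454) (nat_lit 246)) (XT.nd (nat_lit 78) (nat_lit 76) (nat_lit 0) (XT.lf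 (nat_lit 0) (nat_lit 61043145145) (nat_lit 152) (nat_lit 739902240652) (nat_lit 76) (nat_lit 1664017320364) (nat_lit 23) (nat_lit 5) (nat_lit 25) (nat_lit 5) (nat_lit 24) (nat_lit 4) (nat_lit 501) (nat_lit 454) (nat_lit 245)) (XT.lf (nat_lit 0) (nat_lit 602529468646) (nat_lit 76) (nat_lit 103913539929) (nat_lit 152) (nat_lit 1899307279403) (nat_lit 22) (nat_lit 5) (nat_lit 23) (nat_lit 5) (nat_lit 24) (nat_lit 4) (nat_lit 502) (nat_lit 454) (nat_lit 244))))))))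
noncomputable def xc211 : XT := (XT.nd (nat_lit 58734) (nat_lit 0) (nat_lit 2888) (XT.nd (nat_lit 858) (nat_lit 456) (nat_lit 0) (XT.nd (nat_lit 390) (nat_lit 304) (nat_lit 0) (XT.nd (nat_lit 156) (nat_lit 152) (nat_lit 0) (XT.nd (nat_lit 78) (nat_lit 76) (nat_lit 0) (XT.lf (nat_lit 0) (nat_lit 1439836149466) (nat_lit 152) (nat_lit 677878929284) (nat_lit 0) (nat_lit 637176894522) (nat_lit 22) (nat_lit 5) (nat_lit 24) (nat_lit 4) (nat_lit 22) (nat_lit 4) (nat_lit 503) (nat_lit 454) (nat_lit 243)) (XT.lf (nat_lit 0) (nat_lit 790326574848) (nat_lit 76) (nat_lit 1463280582738) (nat_lit 76) (nat_lit 660621322525) (nat_lit 21) (nat_lit 4) (nat_lit 22) (nat_lit 5) (nat_lit 22) (nat_lit 4) (nat_lit 504) (nat_lit 454) (nat_lit 242))) (XT.nd (nat_lit 78) (nat_lit 76) (nat_lit 0) (XT.lf (nat_lit 0) (nat_lit 62874245948) (nat_lit 152) (nat_lit 671880833519) (nat_lit 76) (nat_lit 2349946735679) (nat_lit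 20) (nat_lit 5) (nat_lit 22) (nat_lit 5) (nat_lit 21) (nat_lit 4) (nat_lit 505) (nat_lit 454) (nat_lit 241)) (XT.nd (nat_lit 78) (nat_lit 0) (nat_lit 0) (XT.lf (nat_lit 0) (nat_lit 833091171856) (nat_lit 152) (nat_lit 2342498387268) (nat_lit 0) (nat_lit 89888144439) (nat_lit 19) (nat_lit 5) (nat_lit 21) (nat_lit 4) (nat_lit 19) (nat_lit 4) (nat_lit 506) (nat_lit 454) (nat_lit 240)) (XT.lf (nat_lit 0) (nat_lit 1702857556244) (nat_lit 152) (nat_lit 795169013504) (nat_lit 0) (nat_lit 959654524953) (nat_lit 19) (nat_lit 5) (nat_lit 21) (nat_lit 4) (nat_lit 19) (nat_lit 4) (nat_lit 507) (nat_lit 454) (nat_lit 239))))) (XT.nd (nat_lit 234) (nat_lit 76) (nat_lit 0) (XT.nd (nat_lit 78) (nat_lit 152) (nat_lit 0) (XT.lf (nat_lit 0) (nat_lit 922072493277) (nat_lit 76) (nat_lit 1742308615086) (nat_lit 76) (nat_lit 999105580209) (nat_lit 18) (nat_lit 4) (nat_lit 19) (nat_lit 5) (nat_lit 19) (nat_lit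 4) (nat_lit 508) (nat_lit 454) (nat_lit 238)) (XT.nd (nat_lit 78) (nat_lit 152) (nat_lit 0) (XT.lf (nat_lit 0) (nat_lit 2821915270009) (nat_lit 76) (nat_lit 902652596208) (nat_lit 76) (nat_lit 159449558010) (nat_lit 18) (nat_lit 4) (nat_lit 19) (nat_lit 5) (nat_lit 19) (nat_lit 4) (nat_lit 509) (nat_lit 454) (nat_lit 237)) (XT.lf (nat_lit 0) (nat_lit 729613351359) (nat_lit 152) (nat_lit 3348107215456) (nat_lit 0) (nat_lit 41462387218) (nat_lit 16) (nat_lit 5) (nat_lit 18) (nat_lit 4) (nat_lit 16) (nat_lit 4) (nat_lit 510) (nat_lit 454) (nat_lit 236)))) (XT.nd (nat_lit 78) (nat_lit 76) (nat_lit 0) (XT.lf (nat_lit 0) (nat_lit 1734426424255) (nat_lit 152) (nat_lit 1587869356855) (nat_lit 0) (nat_lit 1046275457478) (nat_lit 16) (nat_lit 5) (nat_lit 18) (nat_lit 4) (nat_lit 16) (nat_lit 4) (nat_lit 511) (nat_lit 454) (nat_lit 235)) (XT.nd (nat_lit 78) (nat_lit 0) (nat_lit 0) (XT.lf (nat_lit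 0) (nat_lit 329679415019) (nat_lit 76) (nat_lit 2497873918435) (nat_lit 76) (nat_lit 1809722949217) (nat_lit 15) (nat_lit 4) (nat_lit 16) (nat_lit 5) (nat_lit 16) (nat_lit 4) (nat_lit 512) (nat_lit 454) (nat_lit 234)) (XT.lf (nat_lit 0) (nat_lit 2490935611356) (nat_lit 76) (nat_lit 1560609939002) (nat_lit 76) (nat_lit 872458967524) (nat_lit 15) (nat_lit 4) (nat_lit 16) (nat_lit 5) (nat_lit 16) (nat_lit 4) (nat_lit 513) (nat_lit 454) (nat_lit 233)))))) (XT.nd (nat_lit 468) (nat_lit 228) (nat_lit 0) (XT.nd (nat_lit 234) (nat_lit 76) (nat_lit 0) (XT.nd (nat_lit 78) (nat_lit 76) (nat_lit 0) (XT.lf (nat_lit 0) (nat_lit 132793457376) (nat_lit 152) (nat_lit 411940582227) (nat_lit 76) (nat_lit 4688668024066) (nat_lit 14) (nat_lit 5) (nat_lit 16) (nat_lit 5) (nat_lit 15) (nat_lit 4) (nat_lit 514) (nat_lit 454) (nat_lit 232)) (XT.nd (nat_lit 78) (nat_lit 0) (nat_lit 0) (XT.lf (nat_lit 0) (nat_lit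 1230612975556) (nat_lit 152) (nat_lit 3736946801848) (nat_lit 0) (nat_lit 593436146381) (nat_lit 13) (nat_lit 5) (nat_lit 15) (nat_lit 4) (nat_lit 13) (nat_lit 4) (nat_lit 515) (nat_lit 454) (nat_lit 231)) (XT.lf (nat_lit 0) (nat_lit 2441962720784) (nat_lit 152) (nat_lit 1665992308729) (nat_lit 0) (nat_lit 1804785889948) (nat_lit 13) (nat_lit 5) (nat_lit 15) (nat_lit 4) (nat_lit 13) (nat_lit 4) (nat_lit 516) (nat_lit 454) (nat_lit 230)))) (XT.nd (nat_lit 78) (nat_lit 0) (nat_lit 0) (XT.lf (nat_lit 0) (nat_lit 600687345773) (nat_lit 76) (nat_lit 3163979639126) (nat_lit 76) (nat_lit 2526802806752) (nat_lit 12) (nat_lit 4) (nat_lit 13) (nat_lit 5) (nat_lit 13) (nat_lit 4) (nat_lit 517) (nat_lit 454) (nat_lit 229)) (XT.nd (nat_lit 78) (nat_lit 0) (nat_lit 0) (XT.lf (nat_lit 0) (nat_lit 3143447819831) (nat_lit 76) (nat_lit 2095290946735) (nat_lit 76) (nat_lit 1458114112936) (nat_lit 12) (nat_lit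 4) (nat_lit 13) (nat_lit 5) (nat_lit 13) (nat_lit 4) (nat_lit 518) (nat_lit 454) (nat_lit 228)) (XT.lf (nat_lit 0) (nat_lit 5889629121074) (nat_lit 76) (nat_lit 941107164423) (nat_lit 76) (nat_lit 303930329306) (nat_lit 12) (nat_lit 4) (nat_lit 13) (nat_lit 5) (nat_lit 13) (nat_lit 4) (nat_lit 519) (nat_lit 454) (nat_lit 227))))) (XT.nd (nat_lit 234) (nat_lit 76) (nat_lit 0) (XT.nd (nat_lit 78) (nat_lit 0) (nat_lit 0) (XT.lf (nat_lit 0) (nat_lit 935196794946) (nat_lit 152) (nat_lit 6322096012569) (nat_lit 0) (nat_lit 345218242781) (nat_lit 10) (nat_lit 5) (nat_lit 12) (nat_lit 4) (nat_lit 10) (nat_lit 4) (nat_lit 520) (nat_lit 454) (nat_lit 226)) (XT.nd (nat_lit 78) (nat_lit 0) (nat_lit 0) (XT.lf (nat_lit 0) (nat_lit 2316404021097) (nat_lit 152) (nat_lit 4059572402983) (nat_lit 0) (nat_lit 1726425467885) (nat_lit 10) (nat_lit 5) (nat_lit 12) (nat_lit 4) (nat_lit 10) (nat_lit 4) (nat_lit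 521) (nat_lit 454) (nat_lit 225)) (XT.lf (nat_lit 0) (nat_lit 3808107820714) (nat_lit 152) (nat_lit 1616046914091) (nat_lit 0) (nat_lit 3218129266533) (nat_lit 10) (nat_lit 5) (nat_lit 12) (nat_lit 4) (nat_lit 10) (nat_lit 4) (nat_lit 522) (nat_lit 454) (nat_lit 224)))) (XT.nd (nat_lit 78) (nat_lit 0) (nat_lit 0) (XT.lf (nat_lit 0) (nat_lit 1076827897778) (nat_lit 76) (nat_lit 4368217759078) (nat_lit 76) (nat_lit 3778239203999) (nat_lit 9) (nat_lit 4) (nat_lit 10) (nat_lit 5) (nat_lit 10) (nat_lit 4) (nat_lit 523) (nat_lit 454) (nat_lit 223)) (XT.nd (nat_lit 78) (nat_lit 0) (nat_lit 0) (XT.lf (nat_lit 0) (nat_lit 4077038706005) (nat_lit 76) (nat_lit 3180085396226) (nat_lit 76) (nat_lit 2590106840316) (nat_lit 9) (nat_lit 4) (nat_lit 10) (nat_lit 5) (nat_lit 10) (nat_lit 4) (nat_lit 524) (nat_lit 454) (nat_lit 222)) (XT.lf (nat_lit 0) (nat_lit 7317266370985) (nat_lit 76) (nat_lit 1896902448389)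 (nat_lit 76) (nat_lit 1306923891710) (nat_lit 9) (nat_lit 4) (nat_lit 10) (nat_lit 5) (nat_lit 10) (nat_lit 4) (nat_lit 525) (nat_lit 454) (nat_lit 221))))))) (XT.nd (nat_lit 936) (nat_lit 1368) (nat_lit 0) (XT.nd (nat_lit 468) (nat_lit 532) (nat_lit 0) (XT.nd (nat_lit 234) (nat_lit 456) (nat_lit 0) (XT.nd (nat_lit 78) (nat_lit 0) (nat_lit 0) (XT.lf (nat_lit 0) (nat_lit 133220395161) (nat_lit 532) (nat_lit 3374700753) (nat_lit 532) (nat_lit 3374700753) (nat_lit 78) (nat_lit 3) (nat_lit 85) (nat_lit 3) (nat_lit 85) (nat_lit 5) (nat_lit 455) (nat_lit 455) (nat_lit 290)) (XT.nd (nat_lit 78) (nat_lit 0) (nat_lit 0) (XT.lf (nat_lit 76) (nat_lit 138469353079) (nat_lit 0) (nat_lit 141960046232) (nat_lit 532) (nat_lit 10441299254) (nat_lit 79) (nat_lit 5) (nat_lit 78) (nat_lit 3) (nat_lit 85) (nat_lit 5) (nat_lit 456) (nat_lit 455) (nat_lit 289)) (XT.lf (nat_lit 76) (nat_lit 295689407753) (nat_lit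 0) (nat_lit 32150139) (nat_lit 532) (nat_lit 6939977479) (nat_lit 79) (nat_lit 5) (nat_lit 78) (nat_lit 3) (nat_lit 85) (nat_lit 5) (nat_lit 457) (nat_lit 455) (nat_lit 288)))) (XT.nd (nat_lit 78) (nat_lit 0) (nat_lit 0) (XT.lf (nat_lit 0) (nat_lit 4583521572) (nat_lit 532) (nat_lit 160805133019) (nat_lit 608) (nat_lit 149406336170) (nat_lit 72) (nat_lit 5) (nat_lit 79) (nat_lit 5) (nat_lit 80) (nat_lit 5) (nat_lit 458) (nat_lit 455) (nat_lit 287)) (XT.nd (nat_lit 78) (nat_lit 0) (nat_lit 76) (XT.lf (nat_lit 76) (nat_lit 163524714) (nat_lit 0) (nat_lit 16690715827) (nat_lit 608) (nat_lit 311014439011) (nat_lit 73) (nat_lit 5) (nat_lit 72) (nat_lit 5) (nat_lit 80) (nat_lit 5) (nat_lit 459) (nat_lit 455) (nat_lit 286)) (XT.lf (nat_lit 0) (nat_lit 38078320157) (nat_lit 532) (nat_lit 162056849255) (nat_lit 608) (nat_lit 141215357806) (nat_lit 73) (nat_lit 5) (nat_lit 80) (nat_lit 5) (nat_lit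 81) (nat_lit 5) (nat_lit 460) (nat_lit 455) (nat_lit 285))))) (XT.nd (nat_lit 234) (nat_lit 228) (nat_lit 0) (XT.nd (nat_lit 78) (nat_lit 380) (nat_lit 0) (XT.lf (nat_lit 76) (nat_lit 17273852721) (nat_lit 0) (nat_lit 44575373863) (nat_lit 608) (nat_lit 293993784100) (nat_lit 74) (nat_lit 5) (nat_lit 73) (nat_lit 5) (nat_lit 81) (nat_lit 5) (nat_lit 461) (nat_lit 455) (nat_lit 284)) (XT.nd (nat_lit 78) (nat_lit 456) (nat_lit 0) (XT.lf (nat_lit 0) (nat_lit 95036233514) (nat_lit 532) (nat_lit 154056710464) (nat_lit 76) (nat_lit 121800794630) (nat_lit 74) (nat_lit 5) (nat_lit 81) (nat_lit 5) (nat_lit 75) (nat_lit 5) (nat_lit 462) (nat_lit 455) (nat_lit 283)) (XT.lf (nat_lit 0) (nat_lit 46378942928) (nat_lit 456) (nat_lit 86772421270) (nat_lit 532) (nat_lit 253815307530) (nat_lit 68) (nat_lit 5) (nat_lit 74) (nat_lit 5) (nat_lit 75) (nat_lit 5) (nat_lit 463) (nat_lit 455) (nat_lit 282)))) (XT.nd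 (nat_lit 78) (nat_lit 228) (nat_lit 0) (XT.lf (nat_lit 0) (nat_lit 180766484225) (nat_lit 532) (nat_lit 134616373987) (nat_lit 76) (nat_lit 88426518993) (nat_lit 68) (nat_lit 5) (nat_lit 75) (nat_lit 5) (nat_lit 69) (nat_lit 5) (nat_lit 464) (nat_lit 455) (nat_lit 281)) (XT.nd (nat_lit 78) (nat_lit 0) (nat_lit 0) (XT.lf (nat_lit 0) (nat_lit 90085239181) (nat_lit 228) (nat_lit 146525909106) (nat_lit 304) (nat_lit 185034724093) (nat_lit 65) (nat_lit 5) (nat_lit 68) (nat_lit 5) (nat_lit 69) (nat_lit 5) (nat_lit 465) (nat_lit 455) (nat_lit 280)) (XT.lf (nat_lit 0) (nat_lit 301561535516) (nat_lit 304) (nat_lit 101153697386) (nat_lit 76) (nat_lit 37823002277) (nat_lit 65) (nat_lit 5) (nat_lit 69) (nat_lit 5) (nat_lit 66) (nat_lit 5) (nat_lit 466) (nat_lit 455) (nat_lit 279)))))) (XT.nd (nat_lit 468) (nat_lit 532) (nat_lit 0) (XT.nd (nat_lit 234) (nat_lit 380) (nat_lit 0) (XT.nd (nat_lit 78) (nat_lit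 228) (nat_lit 0) (XT.lf (nat_lit 0) (nat_lit 151456337072) (nat_lit 228) (nat_lit 227699971642) (nat_lit 304) (nat_lit 81189809905) (nat_lit 62) (nat_lit 5) (nat_lit 65) (nat_lit 5) (nat_lit 66) (nat_lit 5) (nat_lit 467) (nat_lit 455) (nat_lit 278)) (XT.nd (nat_lit 78) (nat_lit 228) (nat_lit 0) (XT.lf (nat_lit 0) (nat_lit 430027828069) (nat_lit 228) (nat_lit 35696517660) (nat_lit 304) (nat_lit 15793032460) (nat_lit 62) (nat_lit 5) (nat_lit 65) (nat_lit 5) (nat_lit 66) (nat_lit 5) (nat_lit 468) (nat_lit 455) (nat_lit 277)) (XT.lf (nat_lit 0) (nat_lit 62104142840) (nat_lit 228) (nat_lit 271090055513) (nat_lit 76) (nat_lit 170281696693) (nat_lit 59) (nat_lit 5) (nat_lit 62) (nat_lit 5) (nat_lit 60) (nat_lit 5) (nat_lit 469) (nat_lit 455) (nat_lit 276)))) (XT.nd (nat_lit 78) (nat_lit 152) (nat_lit 0) (XT.lf (nat_lit 0) (nat_lit 14155141998) (nat_lit 228) (nat_lit 133936676260) (nat_lit 304)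 (nat_lit 378849501510) (nat_lit 56) (nat_lit 5) (nat_lit 59) (nat_lit 5) (nat_lit 60) (nat_lit 5) (nat_lit 470) (nat_lit 455) (nat_lit 275)) (XT.nd (nat_lit 78) (nat_lit 152) (nat_lit 0) (XT.lf (nat_lit 0) (nat_lit 250517417020) (nat_lit 304) (nat_lit 216200834265) (nat_lit 76) (nat_lit 84801014447) (nat_lit 56) (nat_lit 5) (nat_lit 60) (nat_lit 5) (nat_lit 57) (nat_lit 5) (nat_lit 471) (nat_lit 455) (nat_lit 274)) (XT.lf (nat_lit 0) (nat_lit 105931542360) (nat_lit 152) (nat_lit 261232020121) (nat_lit 228) (nat_lit 210417764997) (nat_lit 54) (nat_lit 5) (nat_lit 56) (nat_lit 5) (nat_lit 57) (nat_lit 5) (nat_lit 472) (nat_lit 455) (nat_lit 273))))) (XT.nd (nat_lit 234) (nat_lit 304) (nat_lit 0) (XT.nd (nat_lit 78) (nat_lit 228) (nat_lit 0) (XT.lf (nat_lit 0) (nat_lit 466129998830) (nat_lit 152) (nat_lit 32922683981) (nat_lit 228) (nat_lit 106202768701) (nat_lit 54) (nat_lit 5) (nat_lit 56)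 (nat_lit 5) (nat_lit 57) (nat_lit 5) (nat_lit 473) (nat_lit 455) (nat_lit 272)) (XT.nd (nat_lit 78) (nat_lit 0) (nat_lit 0) (XT.lf (nat_lit 0) (nat_lit 16884401122) (nat_lit 228) (nat_lit 408547991289) (nat_lit 76) (nat_lit 208830688924) (nat_lit 51) (nat_lit 5) (nat_lit 54) (nat_lit 5) (nat_lit 52) (nat_lit 5) (nat_lit 474) (nat_lit 455) (nat_lit 271)) (XT.lf (nat_lit 0) (nat_lit 148838682824) (nat_lit 228) (nat_lit 41344436857) (nat_lit 76) (nat_lit 474806893084) (nat_lit 51) (nat_lit 5) (nat_lit 54) (nat_lit 5) (nat_lit 52) (nat_lit 5) (nat_lit 475) (nat_lit 455) (nat_lit 270)))) (XT.nd (nat_lit 78) (nat_lit 152) (nat_lit 0) (XT.lf (nat_lit 0) (nat_lit 302112635190) (nat_lit 228) (nat_lit 325284263594) (nat_lit 76) (nat_lit 69917133682) (nat_lit 49) (nat_lit 5) (nat_lit 52) (nat_lit 5) (nat_lit 50) (nat_lit 5) (nat_lit 476) (nat_lit 455) (nat_lit 269)) (XT.nd (nat_lit 78) (nat_lit 0)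 (nat_lit 0) (XT.lf (nat_lit 0) (nat_lit 88131118786) (nat_lit 152) (nat_lit 387736528262) (nat_lit 228) (nat_lit 255698795237) (nat_lit 47) (nat_lit 5) (nat_lit 49) (nat_lit 5) (nat_lit 50) (nat_lit 5) (nat_lit 477) (nat_lit 455) (nat_lit 268)) (XT.lf (nat_lit 0) (nat_lit 553118896986) (nat_lit 152) (nat_lit 119297986533) (nat_lit 228) (nat_lit 95430655482) (nat_lit 47) (nat_lit 5) (nat_lit 49) (nat_lit 5) (nat_lit 50) (nat_lit 5) (nat_lit 478) (nat_lit 455) (nat_lit 267))))))))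
noncomputable def xc212 : XT := (XT.nd (nat_lit 1794) (nat_lit 1140) (nat_lit 0) (XT.nd (nat_lit 858) (nat_lit 760) (nat_lit 0) (XT.nd (nat_lit 390) (nat_lit 532) (nat_lit 0) (XT.nd (nat_lit 156) (nat_lit 304) (nat_lit 0) (XT.nd (nat_lit 78) (nat_lit 0) (nat_lit 0) (XT.lf (nat_lit 0) (nat_lit 84326096781) (nat_lit 152) (nat_lit 551314324219) (nat_lit 76) (nat_lit 170397128454) (nat_lit 45) (nat_lit 5) (nat_lit 47) (nat_lit 5) (nat_lit 46) (nat_lit 5) (nat_lit 479) (nat_lit 455) (nat_lit 266)) (XT.lf (nat_lit 0) (nat_lit 282429838005) (nat_lit 152) (nat_lit 78599926170) (nat_lit 76) (nat_lit 485324924473) (nat_lit 45) (nat_lit 5) (nat_lit 47) (nat_lit 5) (nat_lit 46) (nat_lit 5) (nat_lit 480) (nat_lit 455) (nat_lit 265))) (XT.nd (nat_lit 78) (nat_lit 152) (nat_lit 0) (XT.lf (nat_lit 0) (nat_lit 454676340612) (nat_lit 152) (nat_lit 52640493713) (nat_lit 228) (nat_lit 381705568193) (nat_lit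 43) (nat_lit 5) (nat_lit 45) (nat_lit 5) (nat_lit 46) (nat_lit 5) (nat_lit 481) (nat_lit 455) (nat_lit 264)) (XT.nd (nat_lit 78) (nat_lit 76) (nat_lit 0) (XT.lf (nat_lit 0) (nat_lit 98268999867) (nat_lit 76) (nat_lit 663238128404) (nat_lit 152) (nat_lit 172691418197) (nat_lit 42) (nat_lit 5) (nat_lit 43) (nat_lit 5) (nat_lit 44) (nat_lit 4) (nat_lit 482) (nat_lit 455) (nat_lit 263)) (XT.lf (nat_lit 0) (nat_lit 63941913077) (nat_lit 152) (nat_lit 286795296233) (nat_lit 76) (nat_lit 631065394676) (nat_lit 41) (nat_lit 5) (nat_lit 43) (nat_lit 5) (nat_lit 42) (nat_lit 5) (nat_lit 483) (nat_lit 455) (nat_lit 262))))) (XT.nd (nat_lit 234) (nat_lit 304) (nat_lit 0) (XT.nd (nat_lit 78) (nat_lit 76) (nat_lit 0) (XT.lf (nat_lit 0) (nat_lit 317675589281) (nat_lit 152) (nat_lit 140586043) (nat_lit 228) (nat_lit 714428764551) (nat_lit 39) (nat_lit 5) (nat_lit 41) (nat_lit 5) (nat_lit 42) (nat_lit 5)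 (nat_lit 484) (nat_lit 455) (nat_lit 261)) (XT.nd (nat_lit 78) (nat_lit 76) (nat_lit 0) (XT.lf (nat_lit 0) (nat_lit 609148551286) (nat_lit 228) (nat_lit 108587628228) (nat_lit 76) (nat_lit 367614629304) (nat_lit 39) (nat_lit 5) (nat_lit 42) (nat_lit 5) (nat_lit 40) (nat_lit 4) (nat_lit 485) (nat_lit 455) (nat_lit 260)) (XT.lf (nat_lit 0) (nat_lit 574613440955) (nat_lit 76) (nat_lit 362997177698) (nat_lit 152) (nat_lit 203988680519) (nat_lit 38) (nat_lit 5) (nat_lit 39) (nat_lit 5) (nat_lit 40) (nat_lit 4) (nat_lit 486) (nat_lit 455) (nat_lit 259)))) (XT.nd (nat_lit 78) (nat_lit 76) (nat_lit 0) (XT.lf (nat_lit 0) (nat_lit 92133727648) (nat_lit 228) (nat_lit 1082080989542) (nat_lit 76) (nat_lit 27429066886) (nat_lit 35) (nat_lit 5) (nat_lit 38) (nat_lit 5) (nat_lit 36) (nat_lit 4) (nat_lit 487) (nat_lit 455) (nat_lit 258)) (XT.nd (nat_lit 78) (nat_lit 76) (nat_lit 0) (XT.lf (nat_lit 0) (nat_lit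 426258780288) (nat_lit 228) (nat_lit 387100904612) (nat_lit 76) (nat_lit 450681587172) (nat_lit 35) (nat_lit 5) (nat_lit 38) (nat_lit 5) (nat_lit 36) (nat_lit 4) (nat_lit 488) (nat_lit 455) (nat_lit 257)) (XT.lf (nat_lit 0) (nat_lit 382617642252) (nat_lit 76) (nat_lit 413698142654) (nat_lit 152) (nat_lit 534378618382) (nat_lit 34) (nat_lit 5) (nat_lit 35) (nat_lit 5) (nat_lit 36) (nat_lit 4) (nat_lit 489) (nat_lit 455) (nat_lit 256)))))) (XT.nd (nat_lit 468) (nat_lit 380) (nat_lit 0) (XT.nd (nat_lit 234) (nat_lit 152) (nat_lit 0) (XT.nd (nat_lit 78) (nat_lit 228) (nat_lit 0) (XT.lf (nat_lit 0) (nat_lit 1207267637807) (nat_lit 152) (nat_lit 166610926555) (nat_lit 0) (nat_lit 27897997610) (nat_lit 34) (nat_lit 5) (nat_lit 36) (nat_lit 4) (nat_lit 34) (nat_lit 4) (nat_lit 490) (nat_lit 455) (nat_lit 255)) (XT.nd (nat_lit 78) (nat_lit 76) (nat_lit 0) (XT.lf (nat_lit 0) (nat_lit 192258151753)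 (nat_lit 152) (nat_lit 779472702603) (nat_lit 76) (nat_lit 504215293934) (nat_lit 32) (nat_lit 5) (nat_lit 34) (nat_lit 5) (nat_lit 33) (nat_lit 4) (nat_lit 491) (nat_lit 455) (nat_lit 254)) (XT.lf (nat_lit 0) (nat_lit 81290986700) (nat_lit 76) (nat_lit 524795869870) (nat_lit 152) (nat_lit 949027966805) (nat_lit 31) (nat_lit 5) (nat_lit 32) (nat_lit 5) (nat_lit 33) (nat_lit 4) (nat_lit 492) (nat_lit 455) (nat_lit 253)))) (XT.nd (nat_lit 78) (nat_lit 152) (nat_lit 0) (XT.lf (nat_lit 0) (nat_lit 1055245048074) (nat_lit 76) (nat_lit 19088960829) (nat_lit 152) (nat_lit 564578011475) (nat_lit 31) (nat_lit 5) (nat_lit 32) (nat_lit 5) (nat_lit 33) (nat_lit 4) (nat_lit 493) (nat_lit 455) (nat_lit 252)) (XT.nd (nat_lit 78) (nat_lit 76) (nat_lit 0) (XT.lf (nat_lit 0) (nat_lit 384247897701) (nat_lit 76) (nat_lit 1217710348174) (nat_lit 76) (nat_lit 125701362270) (nat_lit 30) (nat_lit 4) (nat_lit 31)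 (nat_lit 5) (nat_lit 31) (nat_lit 4) (nat_lit 494) (nat_lit 455) (nat_lit 251)) (XT.lf (nat_lit 0) (nat_lit 347731571307) (nat_lit 152) (nat_lit 368727329871) (nat_lit 76) (nat_lit 1105028495969) (nat_lit 29) (nat_lit 5) (nat_lit 31) (nat_lit 5) (nat_lit 30) (nat_lit 4) (nat_lit 495) (nat_lit 455) (nat_lit 250))))) (XT.nd (nat_lit 234) (nat_lit 228) (nat_lit 0) (XT.nd (nat_lit 78) (nat_lit 76) (nat_lit 0) (XT.lf (nat_lit 0) (nat_lit 716509515195) (nat_lit 76) (nat_lit 152970544786) (nat_lit 152) (nat_lit 1051701586937) (nat_lit 28) (nat_lit 5) (nat_lit 29) (nat_lit 5) (nat_lit 30) (nat_lit 4) (nat_lit 496) (nat_lit 455) (nat_lit 249)) (XT.nd (nat_lit 78) (nat_lit 76) (nat_lit 0) (XT.lf (nat_lit 0) (nat_lit 1454269051537) (nat_lit 152) (nat_lit 129728746752) (nat_lit 0) (nat_lit 443149588480) (nat_lit 28) (nat_lit 5) (nat_lit 30) (nat_lit 4) (nat_lit 28) (nat_lit 4) (nat_lit 497) (nat_lit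 455) (nat_lit 248)) (XT.lf (nat_lit 0) (nat_lit 1081329297285) (nat_lit 76) (nat_lit 1034491110492) (nat_lit 76) (nat_lit 23371638403) (nat_lit 27) (nat_lit 4) (nat_lit 28) (nat_lit 5) (nat_lit 28) (nat_lit 4) (nat_lit 498) (nat_lit 455) (nat_lit 247)))) (XT.nd (nat_lit 78) (nat_lit 76) (nat_lit 0) (XT.lf (nat_lit 0) (nat_lit 129403582989) (nat_lit 76) (nat_lit 418924812895) (nat_lit 152) (nat_lit 1710234914062) (nat_lit 25) (nat_lit 5) (nat_lit 26) (nat_lit 5) (nat_lit 27) (nat_lit 4) (nat_lit 499) (nat_lit 455) (nat_lit 246)) (XT.nd (nat_lit 78) (nat_lit 76) (nat_lit 0) (XT.lf (nat_lit 0) (nat_lit 1200090440393) (nat_lit 152) (nat_lit 920629483270) (nat_lit 0) (nat_lit 263868692065) (nat_lit 25) (nat_lit 5) (nat_lit 27) (nat_lit 4) (nat_lit 25) (nat_lit 4) (nat_lit 500) (nat_lit 455) (nat_lit 245)) (XT.lf (nat_lit 0) (nat_lit 393380480604) (nat_lit 76) (nat_lit 1530954931618) (nat_lit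 76) (nat_lit 594733176652) (nat_lit 24) (nat_lit 4) (nat_lit 25) (nat_lit 5) (nat_lit 25) (nat_lit 4) (nat_lit 501) (nat_lit 455) (nat_lit 244))))))) (XT.nd (nat_lit 858) (nat_lit 532) (nat_lit 0) (XT.nd (nat_lit 390) (nat_lit 304) (nat_lit 0) (XT.nd (nat_lit 156) (nat_lit 152) (nat_lit 0) (XT.nd (nat_lit 78) (nat_lit 76) (nat_lit 0) (XT.lf (nat_lit 0) (nat_lit 65926795840) (nat_lit 152) (nat_lit 799094025763) (nat_lit 76) (nat_lit 1797138885114) (nat_lit 23) (nat_lit 5) (nat_lit 25) (nat_lit 5) (nat_lit 24) (nat_lit 4) (nat_lit 502) (nat_lit 455) (nat_lit 243)) (XT.lf (nat_lit 0) (nat_lit 650732210301) (nat_lit 76) (nat_lit 112226432537) (nat_lit 152) (nat_lit 2051251652685) (nat_lit 22) (nat_lit 5) (nat_lit 23) (nat_lit 5) (nat_lit 24) (nat_lit 4) (nat_lit 503) (nat_lit 455) (nat_lit 242))) (XT.nd (nat_lit 78) (nat_lit 152) (nat_lit 0) (XT.lf (nat_lit 0) (nat_lit 1555023224904) (nat_lit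 152) (nat_lit 732108877818) (nat_lit 0) (nat_lit 688151213725) (nat_lit 22) (nat_lit 5) (nat_lit 24) (nat_lit 4) (nat_lit 22) (nat_lit 4) (nat_lit 504) (nat_lit 455) (nat_lit 241)) (XT.nd (nat_lit 78) (nat_lit 76) (nat_lit 0) (XT.lf (nat_lit 0) (nat_lit 853553057384) (nat_lit 76) (nat_lit 1580342851275) (nat_lit 76) (nat_lit 713470835578) (nat_lit 21) (nat_lit 4) (nat_lit 22) (nat_lit 5) (nat_lit 22) (nat_lit 4) (nat_lit 505) (nat_lit 455) (nat_lit 240)) (XT.lf (nat_lit 0) (nat_lit 67904355168) (nat_lit 152) (nat_lit 725630961130) (nat_lit 76) (nat_lit 2537942630491) (nat_lit 20) (nat_lit 5) (nat_lit 22) (nat_lit 5) (nat_lit 21) (nat_lit 4) (nat_lit 506) (nat_lit 455) (nat_lit 239))))) (XT.nd (nat_lit 234) (nat_lit 152) (nat_lit 0) (XT.nd (nat_lit 78) (nat_lit 76) (nat_lit 0) (XT.lf (nat_lit 0) (nat_lit 899738634520) (nat_lit 152) (nat_lit 2529897918544) (nat_lit 0) (nat_lit 97079353266)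 (nat_lit 19) (nat_lit 5) (nat_lit 21) (nat_lit 4) (nat_lit 19) (nat_lit 4) (nat_lit 507) (nat_lit 455) (nat_lit 238)) (XT.nd (nat_lit 78) (nat_lit 76) (nat_lit 0) (XT.lf (nat_lit 0) (nat_lit 1839086317146) (nat_lit 152) (nat_lit 858782220042) (nat_lit 0) (nat_lit 1036427032572) (nat_lit 19) (nat_lit 5) (nat_lit 21) (nat_lit 4) (nat_lit 19) (nat_lit 4) (nat_lit 508) (nat_lit 455) (nat_lit 237)) (XT.lf (nat_lit 0) (nat_lit 995838599319) (nat_lit 76) (nat_lit 1881693149904) (nat_lit 76) (nat_lit 1079033862255) (nat_lit 18) (nat_lit 4) (nat_lit 19) (nat_lit 5) (nat_lit 19) (nat_lit 4) (nat_lit 509) (nat_lit 455) (nat_lit 236)))) (XT.nd (nat_lit 78) (nat_lit 152) (nat_lit 0) (XT.lf (nat_lit 0) (nat_lit 3047668775479) (nat_lit 76) (nat_lit 974864660953) (nat_lit 76) (nat_lit 172205370456) (nat_lit 18) (nat_lit 4) (nat_lit 19) (nat_lit 5) (nat_lit 19) (nat_lit 4) (nat_lit 510) (nat_lit 455) (nat_lit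 235)) (XT.nd (nat_lit 78) (nat_lit 0) (nat_lit 0) (XT.lf (nat_lit 0) (nat_lit 787982563621) (nat_lit 152) (nat_lit 3615955500773) (nat_lit 0) (nat_lit 44779514424) (nat_lit 16) (nat_lit 5) (nat_lit 18) (nat_lit 4) (nat_lit 16) (nat_lit 4) (nat_lit 511) (nat_lit 455) (nat_lit 234)) (XT.lf (nat_lit 0) (nat_lit 1873180671671) (nat_lit 152) (nat_lit 1714898635108) (nat_lit 0) (nat_lit 1129977620214) (nat_lit 16) (nat_lit 5) (nat_lit 18) (nat_lit 4) (nat_lit 16) (nat_lit 4) (nat_lit 512) (nat_lit 455) (nat_lit 233)))))) (XT.nd (nat_lit 468) (nat_lit 228) (nat_lit 0) (XT.nd (nat_lit 234) (nat_lit 152) (nat_lit 0) (XT.nd (nat_lit 78) (nat_lit 76) (nat_lit 0) (XT.lf (nat_lit 0) (nat_lit 356054031673) (nat_lit 76) (nat_lit 2697703698382) (nat_lit 76) (nat_lit 1954500644832) (nat_lit 15) (nat_lit 4) (nat_lit 16) (nat_lit 5) (nat_lit 16) (nat_lit 4) (nat_lit 513) (nat_lit 455) (nat_lit 232)) (XT.nd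 (nat_lit 78) (nat_lit 76) (nat_lit 0) (XT.lf (nat_lit 0) (nat_lit 2690210704202) (nat_lit 76) (nat_lit 1685458610485) (nat_lit 76) (nat_lit 942255554998) (nat_lit 15) (nat_lit 4) (nat_lit 16) (nat_lit 5) (nat_lit 16) (nat_lit 4) (nat_lit 514) (nat_lit 455) (nat_lit 231)) (XT.lf (nat_lit 0) (nat_lit 143417048252) (nat_lit 152) (nat_lit 444895596916) (nat_lit 76) (nat_lit 5063761574449) (nat_lit 14) (nat_lit 5) (nat_lit 16) (nat_lit 5) (nat_lit 15) (nat_lit 4) (nat_lit 515) (nat_lit 455) (nat_lit 230)))) (XT.nd (nat_lit 78) (nat_lit 76) (nat_lit 0) (XT.lf (nat_lit 0) (nat_lit 1329062127615) (nat_lit 152) (nat_lit 4035902313835) (nat_lit 0) (nat_lit 640911147113) (nat_lit 13) (nat_lit 5) (nat_lit 15) (nat_lit 4) (nat_lit 13) (nat_lit 4) (nat_lit 516) (nat_lit 455) (nat_lit 229)) (XT.nd (nat_lit 78) (nat_lit 76) (nat_lit 0) (XT.lf (nat_lit 0) (nat_lit 2637319844017) (nat_lit 152) (nat_lit 1799271478463)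 (nat_lit 0) (nat_lit 1949168862090) (nat_lit 13) (nat_lit 5) (nat_lit 15) (nat_lit 4) (nat_lit 13) (nat_lit 4) (nat_lit 517) (nat_lit 455) (nat_lit 228)) (XT.lf (nat_lit 0) (nat_lit 648742542957) (nat_lit 76) (nat_lit 3417097903523) (nat_lit 76) (nat_lit 2728946920278) (nat_lit 12) (nat_lit 4) (nat_lit 13) (nat_lit 5) (nat_lit 13) (nat_lit 4) (nat_lit 518) (nat_lit 455) (nat_lit 227))))) (XT.nd (nat_lit 234) (nat_lit 76) (nat_lit 0) (XT.nd (nat_lit 78) (nat_lit 152) (nat_lit 0) (XT.lf (nat_lit 0) (nat_lit 3394923839419) (nat_lit 76) (nat_lit 2262914123647) (nat_lit 76) (nat_lit 1574763139181) (nat_lit 12) (nat_lit 4) (nat_lit 13) (nat_lit 5) (nat_lit 13) (nat_lit 4) (nat_lit 519) (nat_lit 455) (nat_lit 226)) (XT.nd (nat_lit 78) (nat_lit 152) (nat_lit 0) (XT.lf (nat_lit 0) (nat_lit 6360799630391) (nat_lit 76) (nat_lit 1016395646071) (nat_lit 76) (nat_lit 328244660474) (nat_lit 12) (nat_lit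 4) (nat_lit 13) (nat_lit 5) (nat_lit 13) (nat_lit 4) (nat_lit 520) (nat_lit 455) (nat_lit 225)) (XT.lf (nat_lit 0) (nat_lit 1010012628787) (nat_lit 152) (nat_lit 6827863509009) (nat_lit 0) (nat_lit 372835789302) (nat_lit 10) (nat_lit 5) (nat_lit 12) (nat_lit 4) (nat_lit 10) (nat_lit 4) (nat_lit 521) (nat_lit 455) (nat_lit 224)))) (XT.nd (nat_lit 78) (nat_lit 76) (nat_lit 0) (XT.lf (nat_lit 0) (nat_lit 2501716426345) (nat_lit 152) (nat_lit 4384338024328) (nat_lit 0) (nat_lit 1864539585963) (nat_lit 10) (nat_lit 5) (nat_lit 12) (nat_lit 4) (nat_lit 10) (nat_lit 4) (nat_lit 522) (nat_lit 455) (nat_lit 223)) (XT.nd (nat_lit 78) (nat_lit 76) (nat_lit 0) (XT.lf (nat_lit 0) (nat_lit 4112756523742) (nat_lit 152) (nat_lit 1745330508983) (nat_lit 0) (nat_lit 3475579682529) (nat_lit 10) (nat_lit 5) (nat_lit 12) (nat_lit 4) (nat_lit 10) (nat_lit 4) (nat_lit 523) (nat_lit 455) (nat_lit 222)) (XT.lf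 (nat_lit 0) (nat_lit 1162974283830) (nat_lit 76) (nat_lit 4717675100924) (nat_lit 76) (nat_lit 4080498258941) (nat_lit 9) (nat_lit 4) (nat_lit 10) (nat_lit 5) (nat_lit 10) (nat_lit 4) (nat_lit 524) (nat_lit 455) (nat_lit 221))))))))
noncomputable def xc213 : XT := (XT.nd (nat_lit 1794) (nat_lit 1748) (nat_lit 0) (XT.nd (nat_lit 858) (nat_lit 1368) (nat_lit 0) (XT.nd (nat_lit 390) (nat_lit 532) (nat_lit 0) (XT.nd (nat_lit 156) (nat_lit 456) (nat_lit 0) (XT.nd (nat_lit 78) (nat_lit 0) (nat_lit 0) (XT.lf (nat_lit 0) (nat_lit 143878793972) (nat_lit 532) (nat_lit 3644262373) (nat_lit 532) (nat_lit 3644262373) (nat_lit 78) (nat_lit 3) (nat_lit 85) (nat_lit 3) (nat_lit 85) (nat_lit 5) (nat_lit 456) (nat_lit 456) (nat_lit 288)) (XT.lf (nat_lit 76) (nat_lit 149547709223) (nat_lit 0) (nat_lit 153317482200) (nat_lit 532) (nat_lit 11275047243) (nat_lit 79) (nat_lit 5) (nat_lit 78) (nat_lit 3) (nat_lit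 85) (nat_lit 5) (nat_lit 457) (nat_lit 456) (nat_lit 287))) (XT.nd (nat_lit 78) (nat_lit 456) (nat_lit 0) (XT.lf (nat_lit 76) (nat_lit 319345308427) (nat_lit 0) (nat_lit 35307584) (nat_lit 532) (nat_lit 7493734983) (nat_lit 79) (nat_lit 5) (nat_lit 78) (nat_lit 3) (nat_lit 85) (nat_lit 5) (nat_lit 458) (nat_lit 456) (nat_lit 286)) (XT.nd (nat_lit 78) (nat_lit 0) (nat_lit 0) (XT.lf (nat_lit 0) (nat_lit 4951478076) (nat_lit 532) (nat_lit 173668628748) (nat_lit 608) (nat_lit 161358380763) (nat_lit 72) (nat_lit 5) (nat_lit 79) (nat_lit 5) (nat_lit 80) (nat_lit 5) (nat_lit 459) (nat_lit 456) (nat_lit 285)) (XT.lf (nat_lit 76) (nat_lit 177498441) (nat_lit 0) (nat_lit 18026283140) (nat_lit 608) (nat_lit 335894295771) (nat_lit 73) (nat_lit 5) (nat_lit 72) (nat_lit 5) (nat_lit 80) (nat_lit 5) (nat_lit 460) (nat_lit 456) (nat_lit 284))))) (XT.nd (nat_lit 234) (nat_lit 608) (nat_lit 0) (XT.nd (nat_lit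 78) (nat_lit 0) (nat_lit 0) (XT.lf (nat_lit 0) (nat_lit 41125691640) (nat_lit 532) (nat_lit 175020475185) (nat_lit 608) (nat_lit 152512313712) (nat_lit 73) (nat_lit 5) (nat_lit 80) (nat_lit 5) (nat_lit 81) (nat_lit 5) (nat_lit 461) (nat_lit 456) (nat_lit 283)) (XT.nd (nat_lit 78) (nat_lit 0) (nat_lit 76) (XT.lf (nat_lit 76) (nat_lit 18656659606) (nat_lit 0) (nat_lit 48141550671) (nat_lit 608) (nat_lit 317512157256) (nat_lit 74) (nat_lit 5) (nat_lit 73) (nat_lit 5) (nat_lit 81) (nat_lit 5) (nat_lit 462) (nat_lit 456) (nat_lit 282)) (XT.lf (nat_lit 0) (nat_lit 102640097042) (nat_lit 532) (nat_lit 166380334147) (nat_lit 76) (nat_lit 131544728987) (nat_lit 74) (nat_lit 5) (nat_lit 81) (nat_lit 5) (nat_lit 75) (nat_lit 5) (nat_lit 463) (nat_lit 456) (nat_lit 281)))) (XT.nd (nat_lit 78) (nat_lit 228) (nat_lit 0) (XT.lf (nat_lit 0) (nat_lit 50090148398) (nat_lit 456) (nat_lit 93714239718) (nat_lit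 532) (nat_lit 274119543860) (nat_lit 68) (nat_lit 5) (nat_lit 74) (nat_lit 5) (nat_lit 75) (nat_lit 5) (nat_lit 464) (nat_lit 456) (nat_lit 280)) (XT.nd (nat_lit 78) (nat_lit 228) (nat_lit 0) (XT.lf (nat_lit 0) (nat_lit 195228649432) (nat_lit 532) (nat_lit 145384791200) (nat_lit 76) (nat_lit 95500618745) (nat_lit 68) (nat_lit 5) (nat_lit 75) (nat_lit 5) (nat_lit 69) (nat_lit 5) (nat_lit 465) (nat_lit 456) (nat_lit 279)) (XT.lf (nat_lit 0) (nat_lit 97292928420) (nat_lit 228) (nat_lit 158247916423) (nat_lit 304) (nat_lit 199836632686) (nat_lit 65) (nat_lit 5) (nat_lit 68) (nat_lit 5) (nat_lit 69) (nat_lit 5) (nat_lit 466) (nat_lit 456) (nat_lit 278)))))) (XT.nd (nat_lit 468) (nat_lit 684) (nat_lit 0) (XT.nd (nat_lit 234) (nat_lit 456) (nat_lit 0) (XT.nd (nat_lit 78) (nat_lit 228) (nat_lit 0) (XT.lf (nat_lit 0) (nat_lit 325687204901) (nat_lit 304) (nat_lit 109245129129) (nat_lit 76) (nat_lit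 40848899996) (nat_lit 65) (nat_lit 5) (nat_lit 69) (nat_lit 5) (nat_lit 66) (nat_lit 5) (nat_lit 467) (nat_lit 456) (nat_lit 277)) (XT.nd (nat_lit 78) (nat_lit 0) (nat_lit 0) (XT.lf (nat_lit 0) (nat_lit 163573686212) (nat_lit 228) (nat_lit 245915838698) (nat_lit 304) (nat_lit 87684226052) (nat_lit 62) (nat_lit 5) (nat_lit 65) (nat_lit 5) (nat_lit 66) (nat_lit 5) (nat_lit 468) (nat_lit 456) (nat_lit 276)) (XT.lf (nat_lit 0) (nat_lit 464430834105) (nat_lit 228) (nat_lit 38552118077) (nat_lit 304) (nat_lit 17055763349) (nat_lit 62) (nat_lit 5) (nat_lit 65) (nat_lit 5) (nat_lit 66) (nat_lit 5) (nat_lit 469) (nat_lit 456) (nat_lit 275)))) (XT.nd (nat_lit 78) (nat_lit 228) (nat_lit 0) (XT.lf (nat_lit 0) (nat_lit 67073123012) (nat_lit 228) (nat_lit 292776416826) (nat_lit 76) (nat_lit 183904374733) (nat_lit 59) (nat_lit 5) (nat_lit 62) (nat_lit 5) (nat_lit 60) (nat_lit 5) (nat_lit 470) (nat_lit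 456) (nat_lit 274)) (XT.nd (nat_lit 78) (nat_lit 0) (nat_lit 0) (XT.lf (nat_lit 0) (nat_lit 15288375141) (nat_lit 228) (nat_lit 144651409031) (nat_lit 304) (nat_lit 409156791374) (nat_lit 56) (nat_lit 5) (nat_lit 59) (nat_lit 5) (nat_lit 60) (nat_lit 5) (nat_lit 471) (nat_lit 456) (nat_lit 273)) (XT.lf (nat_lit 0) (nat_lit 270559389359) (nat_lit 304) (nat_lit 233496098465) (nat_lit 76) (nat_lit 91585272694) (nat_lit 56) (nat_lit 5) (nat_lit 60) (nat_lit 5) (nat_lit 57) (nat_lit 5) (nat_lit 472) (nat_lit 456) (nat_lit 272))))) (XT.nd (nat_lit 234) (nat_lit 304) (nat_lit 0) (XT.nd (nat_lit 78) (nat_lit 228) (nat_lit 0) (XT.lf (nat_lit 0) (nat_lit 114406847973) (nat_lit 152) (nat_lit 282130354409) (nat_lit 228) (nat_lit 227250586759) (nat_lit 54) (nat_lit 5) (nat_lit 56) (nat_lit 5) (nat_lit 57) (nat_lit 5) (nat_lit 473) (nat_lit 456) (nat_lit 271)) (XT.nd (nat_lit 78) (nat_lit 228) (nat_lit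 0) (XT.lf (nat_lit 0) (nat_lit 503421123017) (nat_lit 152) (nat_lit 35556288217) (nat_lit 228) (nat_lit 114698435163) (nat_lit 54) (nat_lit 5) (nat_lit 56) (nat_lit 5) (nat_lit 57) (nat_lit 5) (nat_lit 474) (nat_lit 456) (nat_lit 270)) (XT.lf (nat_lit 0) (nat_lit 18235664522) (nat_lit 228) (nat_lit 441231062350) (nat_lit 76) (nat_lit 225537359950) (nat_lit 51) (nat_lit 5) (nat_lit 54) (nat_lit 5) (nat_lit 52) (nat_lit 5) (nat_lit 475) (nat_lit 456) (nat_lit 269)))) (XT.nd (nat_lit 78) (nat_lit 304) (nat_lit 0) (XT.lf (nat_lit 0) (nat_lit 160746250886) (nat_lit 228) (nat_lit 44651280471) (nat_lit 76) (nat_lit 512791644450) (nat_lit 51) (nat_lit 5) (nat_lit 54) (nat_lit 5) (nat_lit 52) (nat_lit 5) (nat_lit 476) (nat_lit 456) (nat_lit 268)) (XT.nd (nat_lit 78) (nat_lit 152) (nat_lit 0) (XT.lf (nat_lit 0) (nat_lit 326282106777) (nat_lit 228) (nat_lit 351306280586) (nat_lit 76) (nat_lit 75510730742)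 (nat_lit 49) (nat_lit 5) (nat_lit 52) (nat_lit 5) (nat_lit 50) (nat_lit 5) (nat_lit 477) (nat_lit 456) (nat_lit 267)) (XT.lf (nat_lit 0) (nat_lit 95182314053) (nat_lit 152) (nat_lit 418755188373) (nat_lit 228) (nat_lit 276154219662) (nat_lit 47) (nat_lit 5) (nat_lit 49) (nat_lit 5) (nat_lit 50) (nat_lit 5) (nat_lit 478) (nat_lit 456) (nat_lit 266))))))) (XT.nd (nat_lit 936) (nat_lit 760) (nat_lit 0) (XT.nd (nat_lit 468) (nat_lit 532) (nat_lit 0) (XT.nd (nat_lit 234) (nat_lit 304) (nat_lit 0) (XT.nd (nat_lit 78) (nat_lit 152) (nat_lit 0) (XT.lf (nat_lit 0) (nat_lit 597369062231) (nat_lit 152) (nat_lit 128841582724) (nat_lit 228) (nat_lit 103064664223) (nat_lit 47) (nat_lit 5) (nat_lit 49) (nat_lit 5) (nat_lit 50) (nat_lit 5) (nat_lit 479) (nat_lit 456) (nat_lit 265)) (XT.nd (nat_lit 78) (nat_lit 0) (nat_lit 0) (XT.lf (nat_lit 0) (nat_lit 91072596717) (nat_lit 152) (nat_lit 595418785018)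 (nat_lit 76) (nat_lit 184029138628) (nat_lit 45) (nat_lit 5) (nat_lit 47) (nat_lit 5) (nat_lit 46) (nat_lit 5) (nat_lit 480) (nat_lit 456) (nat_lit 264)) (XT.lf (nat_lit 0) (nat_lit 305024606706) (nat_lit 152) (nat_lit 84887285876) (nat_lit 76) (nat_lit 524151140559) (nat_lit 45) (nat_lit 5) (nat_lit 47) (nat_lit 5) (nat_lit 46) (nat_lit 5) (nat_lit 481) (nat_lit 456) (nat_lit 263)))) (XT.nd (nat_lit 78) (nat_lit 152) (nat_lit 0) (XT.lf (nat_lit 0) (nat_lit 491051066188) (nat_lit 152) (nat_lit 56851483144) (nat_lit 228) (nat_lit 412241615866) (nat_lit 43) (nat_lit 5) (nat_lit 45) (nat_lit 5) (nat_lit 46) (nat_lit 5) (nat_lit 482) (nat_lit 456) (nat_lit 262)) (XT.nd (nat_lit 78) (nat_lit 76) (nat_lit 0) (XT.lf (nat_lit 0) (nat_lit 106131145442) (nat_lit 76) (nat_lit 716296914686) (nat_lit 152) (nat_lit 186506341073) (nat_lit 42) (nat_lit 5) (nat_lit 43) (nat_lit 5) (nat_lit 44) (nat_lit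 4) (nat_lit 483) (nat_lit 456) (nat_lit 261)) (XT.lf (nat_lit 0) (nat_lit 69057609680) (nat_lit 152) (nat_lit 309738322546) (nat_lit 76) (nat_lit 681550852545) (nat_lit 41) (nat_lit 5) (nat_lit 43) (nat_lit 5) (nat_lit 42) (nat_lit 5) (nat_lit 484) (nat_lit 456) (nat_lit 260))))) (XT.nd (nat_lit 234) (nat_lit 304) (nat_lit 0) (XT.nd (nat_lit 78) (nat_lit 76) (nat_lit 0) (XT.lf (nat_lit 0) (nat_lit 343090218686) (nat_lit 152) (nat_lit 151582776) (nat_lit 228) (nat_lit 771582706989) (nat_lit 39) (nat_lit 5) (nat_lit 41) (nat_lit 5) (nat_lit 42) (nat_lit 5) (nat_lit 485) (nat_lit 456) (nat_lit 259)) (XT.nd (nat_lit 78) (nat_lit 76) (nat_lit 0) (XT.lf (nat_lit 0) (nat_lit 657880748471) (nat_lit 228) (nat_lit 117274080282) (nat_lit 76) (nat_lit 397024019682) (nat_lit 39) (nat_lit 5) (nat_lit 42) (nat_lit 5) (nat_lit 40) (nat_lit 4) (nat_lit 486) (nat_lit 456) (nat_lit 258)) (XT.lf (nat_lit 0)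 (nat_lit 620583060304) (nat_lit 76) (nat_lit 392036710818) (nat_lit 152) (nat_lit 220307447709) (nat_lit 38) (nat_lit 5) (nat_lit 39) (nat_lit 5) (nat_lit 40) (nat_lit 4) (nat_lit 487) (nat_lit 456) (nat_lit 257)))) (XT.nd (nat_lit 78) (nat_lit 76) (nat_lit 0) (XT.lf (nat_lit 0) (nat_lit 99504732750) (nat_lit 228) (nat_lit 1168646904204) (nat_lit 76) (nat_lit 29623625264) (nat_lit 35) (nat_lit 5) (nat_lit 38) (nat_lit 5) (nat_lit 36) (nat_lit 4) (nat_lit 488) (nat_lit 456) (nat_lit 256)) (XT.nd (nat_lit 78) (nat_lit 76) (nat_lit 0) (XT.lf (nat_lit 0) (nat_lit 460359766869) (nat_lit 228) (nat_lit 418068454294) (nat_lit 76) (nat_lit 486736329912) (nat_lit 35) (nat_lit 5) (nat_lit 38) (nat_lit 5) (nat_lit 36) (nat_lit 4) (nat_lit 489) (nat_lit 456) (nat_lit 255)) (XT.lf (nat_lit 0) (nat_lit 413227563087) (nat_lit 76) (nat_lit 446793759974) (nat_lit 152) (nat_lit 577128610434) (nat_lit 34)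 (nat_lit 5) (nat_lit 35) (nat_lit 5) (nat_lit 36) (nat_lit 4) (nat_lit 490) (nat_lit 456) (nat_lit 254)))))) (XT.nd (nat_lit 468) (nat_lit 380) (nat_lit 0) (XT.nd (nat_lit 234) (nat_lit 152) (nat_lit 0) (XT.nd (nat_lit 78) (nat_lit 228) (nat_lit 0) (XT.lf (nat_lit 0) (nat_lit 1303849309009) (nat_lit 152) (nat_lit 179939313752) (nat_lit 0) (nat_lit 30130043328) (nat_lit 34) (nat_lit 5) (nat_lit 36) (nat_lit 4) (nat_lit 34) (nat_lit 4) (nat_lit 491) (nat_lit 456) (nat_lit 253)) (XT.nd (nat_lit 78) (nat_lit 76) (nat_lit 0) (XT.lf (nat_lit 0) (nat_lit 207639062789) (nat_lit 152) (nat_lit 841830030556) (nat_lit 76) (nat_lit 544552726075) (nat_lit 32) (nat_lit 5) (nat_lit 34) (nat_lit 5) (nat_lit 33) (nat_lit 4) (nat_lit 492) (nat_lit 456) (nat_lit 252)) (XT.lf (nat_lit 0) (nat_lit 87794741531) (nat_lit 76) (nat_lit 566779314728) (nat_lit 152) (nat_lit 1024949932872) (nat_lit 31) (nat_lit 5)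 (nat_lit 32) (nat_lit 5) (nat_lit 33) (nat_lit 4) (nat_lit 493) (nat_lit 456) (nat_lit 251)))) (XT.nd (nat_lit 78) (nat_lit 152) (nat_lit 0) (XT.lf (nat_lit 0) (nat_lit 1139665092563) (nat_lit 76) (nat_lit 20615869611) (nat_lit 152) (nat_lit 609744001210) (nat_lit 31) (nat_lit 5) (nat_lit 32) (nat_lit 5) (nat_lit 33) (nat_lit 4) (nat_lit 494) (nat_lit 456) (nat_lit 250)) (XT.nd (nat_lit 78) (nat_lit 76) (nat_lit 0) (XT.lf (nat_lit 0) (nat_lit 414988172280) (nat_lit 76) (nat_lit 1315126963880) (nat_lit 76) (nat_lit 135757222170) (nat_lit 30) (nat_lit 4) (nat_lit 31) (nat_lit 5) (nat_lit 31) (nat_lit 4) (nat_lit 495) (nat_lit 456) (nat_lit 249)) (XT.lf (nat_lit 0) (nat_lit 375550316106) (nat_lit 152) (nat_lit 398225094743) (nat_lit 76) (nat_lit 1193430960527) (nat_lit 29) (nat_lit 5) (nat_lit 31) (nat_lit 5) (nat_lit 30) (nat_lit 4) (nat_lit 496) (nat_lit 456) (nat_lit 248))))) (XT.nd (nat_lit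 234) (nat_lit 228) (nat_lit 0) (XT.nd (nat_lit 78) (nat_lit 76) (nat_lit 0) (XT.lf (nat_lit 0) (nat_lit 773830687257) (nat_lit 76) (nat_lit 165207990269) (nat_lit 152) (nat_lit 1135837484112) (nat_lit 28) (nat_lit 5) (nat_lit 29) (nat_lit 5) (nat_lit 30) (nat_lit 4) (nat_lit 497) (nat_lit 456) (nat_lit 247)) (XT.nd (nat_lit 78) (nat_lit 76) (nat_lit 0) (XT.lf (nat_lit 0) (nat_lit 1570610777059) (nat_lit 152) (nat_lit 140106654718) (nat_lit 0) (nat_lit 478601729809) (nat_lit 28) (nat_lit 5) (nat_lit 30) (nat_lit 4) (nat_lit 28) (nat_lit 4) (nat_lit 498) (nat_lit 456) (nat_lit 246)) (XT.lf (nat_lit 0) (nat_lit 1167836022923) (nat_lit 76) (nat_lit 1117250213139) (nat_lit 76) (nat_lit 25241158147) (nat_lit 27) (nat_lit 4) (nat_lit 28) (nat_lit 5) (nat_lit 28) (nat_lit 4) (nat_lit 499) (nat_lit 456) (nat_lit 245)))) (XT.nd (nat_lit 78) (nat_lit 76) (nat_lit 0) (XT.lf (nat_lit 0) (nat_lit 139756252131)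 (nat_lit 76) (nat_lit 452438610509) (nat_lit 152) (nat_lit 1847053496484) (nat_lit 25) (nat_lit 5) (nat_lit 26) (nat_lit 5) (nat_lit 27) (nat_lit 4) (nat_lit 500) (nat_lit 456) (nat_lit 244)) (XT.nd (nat_lit 78) (nat_lit 76) (nat_lit 0) (XT.lf (nat_lit 0) (nat_lit 1296097860433) (nat_lit 152) (nat_lit 994279477475) (nat_lit 0) (nat_lit 284978352285) (nat_lit 25) (nat_lit 5) (nat_lit 27) (nat_lit 4) (nat_lit 25) (nat_lit 4) (nat_lit 501) (nat_lit 456) (nat_lit 243)) (XT.lf (nat_lit 0) (nat_lit 424851274282) (nat_lit 76) (nat_lit 1653431150580) (nat_lit 76) (nat_lit 642311636740) (nat_lit 24) (nat_lit 4) (nat_lit 25) (nat_lit 5) (nat_lit 25) (nat_lit 4) (nat_lit 502) (nat_lit 456) (nat_lit 242))))))))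
noncomputable def xc214 : XT := (XT.nd (nat_lit 58968) (nat_lit 0) (nat_lit 2660) (XT.nd (nat_lit 858) (nat_lit 456) (nat_lit 0) (XT.nd (nat_lit 390) (nat_lit 304) (nat_lit 0) (XT.nd (nat_lit 156) (nat_lit 152) (nat_lit 0) (XT.nd (nat_lit 78) (nat_lit 76) (nat_lit 0) (XT.lf (nat_lit 0) (nat_lit 71201110190) (nat_lit 152) (nat_lit 863021209912) (nat_lit 76) (nat_lit 1940910149491) (nat_lit 23) (nat_lit 5) (nat_lit 25) (nat_lit 5) (nat_lit 24) (nat_lit 4) (nat_lit 503) (nat_lit 456) (nat_lit 241)) (XT.lf (nat_lit 0) (nat_lit 702791116482) (nat_lit 76) (nat_lit 121204383743) (nat_lit 152) (nat_lit 2215351605655) (nat_lit 22) (nat_lit 5) (nat_lit 23) (nat_lit 5) (nat_lit 24) (nat_lit 4) (nat_lit 504) (nat_lit 456) (nat_lit 240))) (XT.nd (nat_lit 78) (nat_lit 152) (nat_lit 0) (XT.lf (nat_lit 0) (nat_lit 1679425240202) (nat_lit 152) (nat_lit 790677274421) (nat_lit 0) (nat_lit 743203454548) (nat_lit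 22) (nat_lit 5) (nat_lit 24) (nat_lit 4) (nat_lit 22) (nat_lit 4) (nat_lit 505) (nat_lit 456) (nat_lit 239)) (XT.nd (nat_lit 78) (nat_lit 76) (nat_lit 0) (XT.lf (nat_lit 0) (nat_lit 921837607657) (nat_lit 76) (nat_lit 1706770126700) (nat_lit 76) (nat_lit 770548337172) (nat_lit 21) (nat_lit 4) (nat_lit 22) (nat_lit 5) (nat_lit 22) (nat_lit 4) (nat_lit 506) (nat_lit 456) (nat_lit 238)) (XT.lf (nat_lit 0) (nat_lit 73336848938) (nat_lit 152) (nat_lit 783681147321) (nat_lit 76) (nat_lit 2740978174638) (nat_lit 20) (nat_lit 5) (nat_lit 22) (nat_lit 5) (nat_lit 21) (nat_lit 4) (nat_lit 507) (nat_lit 456) (nat_lit 237))))) (XT.nd (nat_lit 234) (nat_lit 152) (nat_lit 0) (XT.nd (nat_lit 78) (nat_lit 76) (nat_lit 0) (XT.lf (nat_lit 0) (nat_lit 971717870099) (nat_lit 152) (nat_lit 2732289460785) (nat_lit 0) (nat_lit 104845836363) (nat_lit 19) (nat_lit 5) (nat_lit 21) (nat_lit 4) (nat_lit 19) (nat_lit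 4) (nat_lit 508) (nat_lit 456) (nat_lit 236)) (XT.nd (nat_lit 78) (nat_lit 76) (nat_lit 0) (XT.lf (nat_lit 0) (nat_lit 1986213356608) (nat_lit 152) (nat_lit 927484527976) (nat_lit 0) (nat_lit 1119341320025) (nat_lit 19) (nat_lit 5) (nat_lit 21) (nat_lit 4) (nat_lit 19) (nat_lit 4) (nat_lit 509) (nat_lit 456) (nat_lit 235)) (XT.lf (nat_lit 0) (nat_lit 1075505950106) (nat_lit 76) (nat_lit 2032228469533) (nat_lit 76) (nat_lit 1165356430314) (nat_lit 18) (nat_lit 4) (nat_lit 19) (nat_lit 5) (nat_lit 19) (nat_lit 4) (nat_lit 510) (nat_lit 456) (nat_lit 234)))) (XT.nd (nat_lit 78) (nat_lit 152) (nat_lit 0) (XT.lf (nat_lit 0) (nat_lit 3291482520890) (nat_lit 76) (nat_lit 1052853711270) (nat_lit 76) (nat_lit 185981669610) (nat_lit 18) (nat_lit 4) (nat_lit 19) (nat_lit 5) (nat_lit 19) (nat_lit 4) (nat_lit 511) (nat_lit 456) (nat_lit 233)) (XT.nd (nat_lit 78) (nat_lit 0) (nat_lit 0) (XT.lf (nat_lit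 0) (nat_lit 851021292299) (nat_lit 152) (nat_lit 3905231690562) (nat_lit 0) (nat_lit 48361992373) (nat_lit 16) (nat_lit 5) (nat_lit 18) (nat_lit 4) (nat_lit 16) (nat_lit 4) (nat_lit 512) (nat_lit 456) (nat_lit 232)) (XT.lf (nat_lit 0) (nat_lit 2023035239838) (nat_lit 152) (nat_lit 1852090294182) (nat_lit 0) (nat_lit 1220375937975) (nat_lit 16) (nat_lit 5) (nat_lit 18) (nat_lit 4) (nat_lit 16) (nat_lit 4) (nat_lit 513) (nat_lit 456) (nat_lit 231)))))) (XT.nd (nat_lit 468) (nat_lit 152) (nat_lit 0) (XT.nd (nat_lit 234) (nat_lit 152) (nat_lit 0) (XT.nd (nat_lit 78) (nat_lit 76) (nat_lit 0) (XT.lf (nat_lit 0) (nat_lit 384538580074) (nat_lit 76) (nat_lit 2913519879774) (nat_lit 76) (nat_lit 2110860576116) (nat_lit 15) (nat_lit 4) (nat_lit 16) (nat_lit 5) (nat_lit 16) (nat_lit 4) (nat_lit 514) (nat_lit 456) (nat_lit 230)) (XT.nd (nat_lit 78) (nat_lit 76) (nat_lit 0) (XT.lf (nat_lit 0) (nat_lit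 2905427769676) (nat_lit 76) (nat_lit 1820295193325) (nat_lit 76) (nat_lit 1017635888006) (nat_lit 15) (nat_lit 4) (nat_lit 16) (nat_lit 5) (nat_lit 16) (nat_lit 4) (nat_lit 515) (nat_lit 456) (nat_lit 229)) (XT.lf (nat_lit 0) (nat_lit 154890510093) (nat_lit 152) (nat_lit 480487045863) (nat_lit 76) (nat_lit 5468862593390) (nat_lit 14) (nat_lit 5) (nat_lit 16) (nat_lit 5) (nat_lit 15) (nat_lit 4) (nat_lit 516) (nat_lit 456) (nat_lit 228)))) (XT.nd (nat_lit 78) (nat_lit 76) (nat_lit 0) (XT.lf (nat_lit 0) (nat_lit 1435387195574) (nat_lit 152) (nat_lit 4358774299901) (nat_lit 0) (nat_lit 692184132351) (nat_lit 13) (nat_lit 5) (nat_lit 15) (nat_lit 4) (nat_lit 13) (nat_lit 4) (nat_lit 517) (nat_lit 456) (nat_lit 227)) (XT.nd (nat_lit 78) (nat_lit 76) (nat_lit 0) (XT.lf (nat_lit 0) (nat_lit 2848305522047) (nat_lit 152) (nat_lit 1943213012444) (nat_lit 0) (nat_lit 2105102457603) (nat_lit 13) (nat_lit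 5) (nat_lit 15) (nat_lit 4) (nat_lit 13) (nat_lit 4) (nat_lit 518) (nat_lit 456) (nat_lit 226)) (XT.lf (nat_lit 0) (nat_lit 700642126024) (nat_lit 76) (nat_lit 3690465644299) (nat_lit 76) (nat_lit 2947262578724) (nat_lit 12) (nat_lit 4) (nat_lit 13) (nat_lit 5) (nat_lit 13) (nat_lit 4) (nat_lit 519) (nat_lit 456) (nat_lit 225))))) (XT.nd (nat_lit 234) (nat_lit 0) (nat_lit 0) (XT.nd (nat_lit 78) (nat_lit 152) (nat_lit 0) (XT.lf (nat_lit 0) (nat_lit 3666517912897) (nat_lit 76) (nat_lit 2443947168811) (nat_lit 76) (nat_lit 1700744102189) (nat_lit 12) (nat_lit 4) (nat_lit 13) (nat_lit 5) (nat_lit 13) (nat_lit 4) (nat_lit 520) (nat_lit 456) (nat_lit 224)) (XT.nd (nat_lit 78) (nat_lit 152) (nat_lit 0) (XT.lf (nat_lit 0) (nat_lit 6869663754827) (nat_lit 76) (nat_lit 1097707219305) (nat_lit 76) (nat_lit 354504151713) (nat_lit 12) (nat_lit 4) (nat_lit 13) (nat_lit 5) (nat_lit 13) (nat_lit 4) (nat_lit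 521) (nat_lit 456) (nat_lit 223)) (XT.lf (nat_lit 0) (nat_lit 1090813716461) (nat_lit 152) (nat_lit 7374092431495) (nat_lit 0) (nat_lit 402662727120) (nat_lit 10) (nat_lit 5) (nat_lit 12) (nat_lit 4) (nat_lit 10) (nat_lit 4) (nat_lit 522) (nat_lit 456) (nat_lit 222)))) (XT.nd (nat_lit 78) (nat_lit 0) (nat_lit 0) (XT.lf (nat_lit 0) (nat_lit 2701853812093) (nat_lit 152) (nat_lit 4735084919761) (nat_lit 0) (nat_lit 2013702821982) (nat_lit 10) (nat_lit 5) (nat_lit 12) (nat_lit 4) (nat_lit 10) (nat_lit 4) (nat_lit 523) (nat_lit 456) (nat_lit 221)) (XT.nd (nat_lit 57252) (nat_lit 0) (nat_lit 5168) (XT.lf (nat_lit 0) (nat_lit 4441777111975) (nat_lit 152) (nat_lit 1884956814041) (nat_lit 0) (nat_lit 3753626121151) (nat_lit 10) (nat_lit 5) (nat_lit 12) (nat_lit 4) (nat_lit 10) (nat_lit 4) (nat_lit 524) (nat_lit 456) (nat_lit 220)) (XT.lf (nat_lit 0) (nat_lit 155389755238) (nat_lit 532) (nat_lit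 3935448046) (nat_lit 532) (nat_lit 3935448046) (nat_lit 78) (nat_lit 3) (nat_lit 85) (nat_lit 3) (nat_lit 85) (nat_lit 5) (nat_lit 457) (nat_lit 457) (nat_lit 286))))))) (XT.nd (nat_lit 936) (nat_lit 1292) (nat_lit 0) (XT.nd (nat_lit 468) (nat_lit 760) (nat_lit 0) (XT.nd (nat_lit 234) (nat_lit 0) (nat_lit 0) (XT.nd (nat_lit 78) (nat_lit 456) (nat_lit 0) (XT.lf (nat_lit 76) (nat_lit 161512218602) (nat_lit 0) (nat_lit 165583422844) (nat_lit 532) (nat_lit 12175717046) (nat_lit 79) (nat_lit 5) (nat_lit 78) (nat_lit 3) (nat_lit 85) (nat_lit 5) (nat_lit 458) (nat_lit 457) (nat_lit 285)) (XT.nd (nat_lit 78) (nat_lit 456) (nat_lit 0) (XT.lf (nat_lit 76) (nat_lit 344893574436) (nat_lit 0) (nat_lit 38634106) (nat_lit 532) (nat_lit 8091998618) (nat_lit 79) (nat_lit 5) (nat_lit 78) (nat_lit 3) (nat_lit 85) (nat_lit 5) (nat_lit 459) (nat_lit 457) (nat_lit 284)) (XT.lf (nat_lit 0) (nat_lit 5348689239)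 (nat_lit 532) (nat_lit 187561334657) (nat_lit 608) (nat_lit 174266654876) (nat_lit 72) (nat_lit 5) (nat_lit 79) (nat_lit 5) (nat_lit 80) (nat_lit 5) (nat_lit 460) (nat_lit 457) (nat_lit 283)))) (XT.nd (nat_lit 78) (nat_lit 0) (nat_lit 76) (XT.lf (nat_lit 76) (nat_lit 192462849) (nat_lit 0) (nat_lit 19468651606) (nat_lit 608) (nat_lit 362764726298) (nat_lit 73) (nat_lit 5) (nat_lit 72) (nat_lit 5) (nat_lit 80) (nat_lit 5) (nat_lit 461) (nat_lit 457) (nat_lit 282)) (XT.nd (nat_lit 78) (nat_lit 0) (nat_lit 0) (XT.lf (nat_lit 0) (nat_lit 44416695077) (nat_lit 532) (nat_lit 189021322726) (nat_lit 608) (nat_lit 164713064996) (nat_lit 73) (nat_lit 5) (nat_lit 80) (nat_lit 5) (nat_lit 81) (nat_lit 5) (nat_lit 462) (nat_lit 457) (nat_lit 281)) (XT.lf (nat_lit 76) (nat_lit 20149962838) (nat_lit 0) (nat_lit 51993000667) (nat_lit 608) (nat_lit 342912161410) (nat_lit 74) (nat_lit 5) (nat_lit 73) (nat_lit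 5) (nat_lit 81) (nat_lit 5) (nat_lit 463) (nat_lit 457) (nat_lit 280))))) (XT.nd (nat_lit 234) (nat_lit 456) (nat_lit 0) (XT.nd (nat_lit 78) (nat_lit 456) (nat_lit 0) (XT.lf (nat_lit 0) (nat_lit 110852132006) (nat_lit 532) (nat_lit 179689977997) (nat_lit 76) (nat_lit 142068196526) (nat_lit 74) (nat_lit 5) (nat_lit 81) (nat_lit 5) (nat_lit 75) (nat_lit 5) (nat_lit 464) (nat_lit 457) (nat_lit 279)) (XT.nd (nat_lit 78) (nat_lit 0) (nat_lit 0) (XT.lf (nat_lit 0) (nat_lit 54098123332) (nat_lit 456) (nat_lit 101211400111) (nat_lit 532) (nat_lit 296048260084) (nat_lit 68) (nat_lit 5) (nat_lit 74) (nat_lit 5) (nat_lit 75) (nat_lit 5) (nat_lit 465) (nat_lit 457) (nat_lit 278)) (XT.lf (nat_lit 0) (nat_lit 210847667097) (nat_lit 532) (nat_lit 157014809145) (nat_lit 76) (nat_lit 103140649584) (nat_lit 68) (nat_lit 5) (nat_lit 75) (nat_lit 5) (nat_lit 69) (nat_lit 5) (nat_lit 466) (nat_lit 457) (nat_lit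 277)))) (XT.nd (nat_lit 78) (nat_lit 228) (nat_lit 0) (XT.lf (nat_lit 0) (nat_lit 105077108669) (nat_lit 228) (nat_lit 170907693657) (nat_lit 304) (nat_lit 215822817988) (nat_lit 65) (nat_lit 5) (nat_lit 68) (nat_lit 5) (nat_lit 69) (nat_lit 5) (nat_lit 467) (nat_lit 457) (nat_lit 276)) (XT.nd (nat_lit 78) (nat_lit 228) (nat_lit 0) (XT.lf (nat_lit 0) (nat_lit 351742821334) (nat_lit 304) (nat_lit 117983998677) (nat_lit 76) (nat_lit 44116861324) (nat_lit 65) (nat_lit 5) (nat_lit 69) (nat_lit 5) (nat_lit 66) (nat_lit 5) (nat_lit 468) (nat_lit 457) (nat_lit 275)) (XT.lf (nat_lit 0) (nat_lit 176660303137) (nat_lit 228) (nat_lit 265588993761) (nat_lit 304) (nat_lit 94698305147) (nat_lit 62) (nat_lit 5) (nat_lit 65) (nat_lit 5) (nat_lit 66) (nat_lit 5) (nat_lit 469) (nat_lit 457) (nat_lit 274)))))) (XT.nd (nat_lit 468) (nat_lit 684) (nat_lit 0) (XT.nd (nat_lit 234) (nat_lit 152) (nat_lit 0) (XT.nd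 (nat_lit 78) (nat_lit 456) (nat_lit 0) (XT.lf (nat_lit 0) (nat_lit 501585969378) (nat_lit 228) (nat_lit 41636183788) (nat_lit 304) (nat_lit 18419614242) (nat_lit 62) (nat_lit 5) (nat_lit 65) (nat_lit 5) (nat_lit 66) (nat_lit 5) (nat_lit 470) (nat_lit 457) (nat_lit 273)) (XT.nd (nat_lit 78) (nat_lit 228) (nat_lit 0) (XT.lf (nat_lit 0) (nat_lit 72439529047) (nat_lit 228) (nat_lit 316197807325) (nat_lit 76) (nat_lit 198616846715) (nat_lit 59) (nat_lit 5) (nat_lit 62) (nat_lit 5) (nat_lit 60) (nat_lit 5) (nat_lit 471) (nat_lit 457) (nat_lit 272)) (XT.lf (nat_lit 0) (nat_lit 16512149699) (nat_lit 228) (nat_lit 156223349146) (nat_lit 304) (nat_lit 441888760048) (nat_lit 56) (nat_lit 5) (nat_lit 59) (nat_lit 5) (nat_lit 60) (nat_lit 5) (nat_lit 472) (nat_lit 457) (nat_lit 271)))) (XT.nd (nat_lit 78) (nat_lit 152) (nat_lit 0) (XT.lf (nat_lit 0) (nat_lit 292204636888) (nat_lit 304) (nat_lit 252175098293)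 (nat_lit 76) (nat_lit 98912246337) (nat_lit 56) (nat_lit 5) (nat_lit 60) (nat_lit 5) (nat_lit 57) (nat_lit 5) (nat_lit 473) (nat_lit 457) (nat_lit 270)) (XT.nd (nat_lit 78) (nat_lit 0) (nat_lit 0) (XT.lf (nat_lit 0) (nat_lit 123560066441) (nat_lit 152) (nat_lit 304700587871) (nat_lit 228) (nat_lit 245430119778) (nat_lit 54) (nat_lit 5) (nat_lit 56) (nat_lit 5) (nat_lit 57) (nat_lit 5) (nat_lit 474) (nat_lit 457) (nat_lit 269)) (XT.lf (nat_lit 0) (nat_lit 543695433813) (nat_lit 152) (nat_lit 38400610820) (nat_lit 228) (nat_lit 123873834123) (nat_lit 54) (nat_lit 5) (nat_lit 56) (nat_lit 5) (nat_lit 57) (nat_lit 5) (nat_lit 475) (nat_lit 457) (nat_lit 268))))) (XT.nd (nat_lit 234) (nat_lit 304) (nat_lit 0) (XT.nd (nat_lit 78) (nat_lit 152) (nat_lit 0) (XT.lf (nat_lit 0) (nat_lit 19694956051) (nat_lit 228) (nat_lit 476528888695) (nat_lit 76) (nat_lit 243580533856) (nat_lit 51) (nat_lit 5)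 (nat_lit 54) (nat_lit 5) (nat_lit 52) (nat_lit 5) (nat_lit 476) (nat_lit 457) (nat_lit 267)) (XT.nd (nat_lit 78) (nat_lit 152) (nat_lit 0) (XT.lf (nat_lit 0) (nat_lit 173606356852) (nat_lit 228) (nat_lit 48222773054) (nat_lit 76) (nat_lit 553815147404) (nat_lit 51) (nat_lit 5) (nat_lit 54) (nat_lit 5) (nat_lit 52) (nat_lit 5) (nat_lit 477) (nat_lit 457) (nat_lit 266)) (XT.lf (nat_lit 0) (nat_lit 352385070356) (nat_lit 228) (nat_lit 379410162238) (nat_lit 76) (nat_lit 81551783273) (nat_lit 49) (nat_lit 5) (nat_lit 52) (nat_lit 5) (nat_lit 50) (nat_lit 5) (nat_lit 478) (nat_lit 457) (nat_lit 265)))) (XT.nd (nat_lit 78) (nat_lit 152) (nat_lit 0) (XT.lf (nat_lit 0) (nat_lit 102797504257) (nat_lit 152) (nat_lit 452255378691) (nat_lit 228) (nat_lit 298246146404) (nat_lit 47) (nat_lit 5) (nat_lit 49) (nat_lit 5) (nat_lit 50) (nat_lit 5) (nat_lit 479) (nat_lit 457) (nat_lit 264)) (XT.nd (nat_lit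 78) (nat_lit 152) (nat_lit 0) (XT.lf (nat_lit 0) (nat_lit 645159147468) (nat_lit 152) (nat_lit 139148701238) (nat_lit 228) (nat_lit 111309456962) (nat_lit 47) (nat_lit 5) (nat_lit 49) (nat_lit 5) (nat_lit 50) (nat_lit 5) (nat_lit 480) (nat_lit 457) (nat_lit 263)) (XT.lf (nat_lit 0) (nat_lit 98358757843) (nat_lit 152) (nat_lit 643051700424) (nat_lit 76) (nat_lit 198751675392) (nat_lit 45) (nat_lit 5) (nat_lit 47) (nat_lit 5) (nat_lit 46) (nat_lit 5) (nat_lit 481) (nat_lit 457) (nat_lit 262))))))))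
noncomputable def xc215 : XT := (XT.nd (nat_lit 1794) (nat_lit 988) (nat_lit 0) (XT.nd (nat_lit 858) (nat_lit 836) (nat_lit 0) (XT.nd (nat_lit 390) (nat_lit 380) (nat_lit 0) (XT.nd (nat_lit 156) (nat_lit 304) (nat_lit 0) (XT.nd (nat_lit 78) (nat_lit 152) (nat_lit 0) (XT.lf (nat_lit 0) (nat_lit 329426902455) (nat_lit 152) (nat_lit 91677724861) (nat_lit 76) (nat_lit 566083422242) (nat_lit 45) (nat_lit 5) (nat_lit 47) (nat_lit 5) (nat_lit 46) (nat_lit 5) (nat_lit 482) (nat_lit 457) (nat_lit 261)) (XT.lf (nat_lit 0) (nat_lit 530335681598) (nat_lit 152) (nat_lit 61399387404) (nat_lit 228) (nat_lit 445220604101) (nat_lit 43) (nat_lit 5) (nat_lit 45) (nat_lit 5) (nat_lit 46) (nat_lit 5) (nat_lit 483) (nat_lit 457) (nat_lit 260))) (XT.nd (nat_lit 78) (nat_lit 228) (nat_lit 0) (XT.lf (nat_lit 0) (nat_lit 114622173416) (nat_lit 76) (nat_lit 773600441532) (nat_lit 152) (nat_lit 201426513499) (nat_lit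 42) (nat_lit 5) (nat_lit 43) (nat_lit 5) (nat_lit 44) (nat_lit 4) (nat_lit 484) (nat_lit 457) (nat_lit 259)) (XT.nd (nat_lit 78) (nat_lit 152) (nat_lit 0) (XT.lf (nat_lit 0) (nat_lit 74582513000) (nat_lit 152) (nat_lit 334516876188) (nat_lit 76) (nat_lit 736075114761) (nat_lit 41) (nat_lit 5) (nat_lit 43) (nat_lit 5) (nat_lit 42) (nat_lit 5) (nat_lit 485) (nat_lit 457) (nat_lit 258)) (XT.lf (nat_lit 0) (nat_lit 370537935377) (nat_lit 152) (nat_lit 163494934) (nat_lit 228) (nat_lit 833309015999) (nat_lit 39) (nat_lit 5) (nat_lit 41) (nat_lit 5) (nat_lit 42) (nat_lit 5) (nat_lit 486) (nat_lit 457) (nat_lit 257))))) (XT.nd (nat_lit 234) (nat_lit 76) (nat_lit 0) (XT.nd (nat_lit 78) (nat_lit 304) (nat_lit 0) (XT.lf (nat_lit 0) (nat_lit 710511476765) (nat_lit 228) (nat_lit 126655528135) (nat_lit 76) (nat_lit 428786129900) (nat_lit 39) (nat_lit 5) (nat_lit 42) (nat_lit 5) (nat_lit 40) (nat_lit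 4) (nat_lit 487) (nat_lit 457) (nat_lit 256)) (XT.nd (nat_lit 78) (nat_lit 228) (nat_lit 0) (XT.lf (nat_lit 0) (nat_lit 670230171582) (nat_lit 76) (nat_lit 423399440981) (nat_lit 152) (nat_lit 237931762960) (nat_lit 38) (nat_lit 5) (nat_lit 39) (nat_lit 5) (nat_lit 40) (nat_lit 4) (nat_lit 488) (nat_lit 457) (nat_lit 255)) (XT.lf (nat_lit 0) (nat_lit 107465374480) (nat_lit 228) (nat_lit 1262138172571) (nat_lit 76) (nat_lit 31993715068) (nat_lit 35) (nat_lit 5) (nat_lit 38) (nat_lit 5) (nat_lit 36) (nat_lit 4) (nat_lit 489) (nat_lit 457) (nat_lit 254)))) (XT.nd (nat_lit 78) (nat_lit 76) (nat_lit 0) (XT.lf (nat_lit 0) (nat_lit 497188791838) (nat_lit 228) (nat_lit 451513482518) (nat_lit 76) (nat_lit 525675421289) (nat_lit 35) (nat_lit 5) (nat_lit 38) (nat_lit 5) (nat_lit 36) (nat_lit 4) (nat_lit 490) (nat_lit 457) (nat_lit 253)) (XT.nd (nat_lit 78) (nat_lit 0) (nat_lit 0) (XT.lf (nat_lit 0)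 (nat_lit 446286204909) (nat_lit 76) (nat_lit 482537060075) (nat_lit 152) (nat_lit 623298644280) (nat_lit 34) (nat_lit 5) (nat_lit 35) (nat_lit 5) (nat_lit 36) (nat_lit 4) (nat_lit 491) (nat_lit 457) (nat_lit 252)) (XT.lf (nat_lit 0) (nat_lit 1408157476790) (nat_lit 152) (nat_lit 194334041390) (nat_lit 0) (nat_lit 32540623329) (nat_lit 34) (nat_lit 5) (nat_lit 36) (nat_lit 4) (nat_lit 34) (nat_lit 4) (nat_lit 492) (nat_lit 457) (nat_lit 251)))))) (XT.nd (nat_lit 468) (nat_lit 380) (nat_lit 0) (XT.nd (nat_lit 234) (nat_lit 228) (nat_lit 0) (XT.nd (nat_lit 78) (nat_lit 76) (nat_lit 0) (XT.lf (nat_lit 0) (nat_lit 224250409774) (nat_lit 152) (nat_lit 909176014400) (nat_lit 76) (nat_lit 588117123023) (nat_lit 32) (nat_lit 5) (nat_lit 34) (nat_lit 5) (nat_lit 33) (nat_lit 4) (nat_lit 493) (nat_lit 457) (nat_lit 250)) (XT.nd (nat_lit 78) (nat_lit 0) (nat_lit 0) (XT.lf (nat_lit 0) (nat_lit 94818728857)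 (nat_lit 76) (nat_lit 612121467236) (nat_lit 152) (nat_lit 1106945694925) (nat_lit 31) (nat_lit 5) (nat_lit 32) (nat_lit 5) (nat_lit 33) (nat_lit 4) (nat_lit 494) (nat_lit 457) (nat_lit 249)) (XT.lf (nat_lit 0) (nat_lit 1230838677749) (nat_lit 76) (nat_lit 22264960781) (nat_lit 152) (nat_lit 658523305958) (nat_lit 31) (nat_lit 5) (nat_lit 32) (nat_lit 5) (nat_lit 33) (nat_lit 4) (nat_lit 495) (nat_lit 457) (nat_lit 248)))) (XT.nd (nat_lit 78) (nat_lit 152) (nat_lit 0) (XT.lf (nat_lit 0) (nat_lit 448187605660) (nat_lit 76) (nat_lit 1420336939108) (nat_lit 76) (nat_lit 146617586396) (nat_lit 30) (nat_lit 4) (nat_lit 31) (nat_lit 5) (nat_lit 31) (nat_lit 4) (nat_lit 496) (nat_lit 457) (nat_lit 247)) (XT.nd (nat_lit 78) (nat_lit 76) (nat_lit 0) (XT.lf (nat_lit 0) (nat_lit 405594529232) (nat_lit 152) (nat_lit 430082740939) (nat_lit 76) (nat_lit 1288905595875) (nat_lit 29) (nat_lit 5) (nat_lit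 31) (nat_lit 5) (nat_lit 30) (nat_lit 4) (nat_lit 497) (nat_lit 457) (nat_lit 246)) (XT.lf (nat_lit 0) (nat_lit 835737494473) (nat_lit 76) (nat_lit 178424459651) (nat_lit 152) (nat_lit 1226704285842) (nat_lit 28) (nat_lit 5) (nat_lit 29) (nat_lit 5) (nat_lit 30) (nat_lit 4) (nat_lit 498) (nat_lit 457) (nat_lit 245))))) (XT.nd (nat_lit 234) (nat_lit 152) (nat_lit 0) (XT.nd (nat_lit 78) (nat_lit 228) (nat_lit 0) (XT.lf (nat_lit 0) (nat_lit 1696259811890) (nat_lit 152) (nat_lit 151314851213) (nat_lit 0) (nat_lit 516890017586) (nat_lit 28) (nat_lit 5) (nat_lit 30) (nat_lit 4) (nat_lit 28) (nat_lit 4) (nat_lit 499) (nat_lit 457) (nat_lit 244)) (XT.nd (nat_lit 78) (nat_lit 152) (nat_lit 0) (XT.lf (nat_lit 0) (nat_lit 1261263232137) (nat_lit 76) (nat_lit 1206630070561) (nat_lit 76) (nat_lit 27260269618) (nat_lit 27) (nat_lit 4) (nat_lit 28) (nat_lit 5) (nat_lit 28) (nat_lit 4) (nat_lit 500) (nat_lit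 457) (nat_lit 243)) (XT.lf (nat_lit 0) (nat_lit 150937080237) (nat_lit 76) (nat_lit 488633538669) (nat_lit 152) (nat_lit 1994817595558) (nat_lit 25) (nat_lit 5) (nat_lit 26) (nat_lit 5) (nat_lit 27) (nat_lit 4) (nat_lit 501) (nat_lit 457) (nat_lit 242)))) (XT.nd (nat_lit 78) (nat_lit 152) (nat_lit 0) (XT.lf (nat_lit 0) (nat_lit 1399785847711) (nat_lit 152) (nat_lit 1073821523210) (nat_lit 0) (nat_lit 307776761803) (nat_lit 25) (nat_lit 5) (nat_lit 27) (nat_lit 4) (nat_lit 25) (nat_lit 4) (nat_lit 502) (nat_lit 457) (nat_lit 241)) (XT.nd (nat_lit 78) (nat_lit 76) (nat_lit 0) (XT.lf (nat_lit 0) (nat_lit 458839680777) (nat_lit 76) (nat_lit 1785705492105) (nat_lit 76) (nat_lit 693696401318) (nat_lit 24) (nat_lit 4) (nat_lit 25) (nat_lit 5) (nat_lit 25) (nat_lit 4) (nat_lit 503) (nat_lit 457) (nat_lit 240)) (XT.lf (nat_lit 0) (nat_lit 76897345338) (nat_lit 152) (nat_lit 932062617000) (nat_lit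 76) (nat_lit 2096183093110) (nat_lit 23) (nat_lit 5) (nat_lit 25) (nat_lit 5) (nat_lit 24) (nat_lit 4) (nat_lit 504) (nat_lit 457) (nat_lit 239))))))) (XT.nd (nat_lit 936) (nat_lit 380) (nat_lit 0) (XT.nd (nat_lit 468) (nat_lit 304) (nat_lit 0) (XT.nd (nat_lit 234) (nat_lit 152) (nat_lit 0) (XT.nd (nat_lit 78) (nat_lit 76) (nat_lit 0) (XT.lf (nat_lit 0) (nat_lit 759014688172) (nat_lit 76) (nat_lit 130900594356) (nat_lit 152) (nat_lit 2392579580434) (nat_lit 22) (nat_lit 5) (nat_lit 23) (nat_lit 5) (nat_lit 24) (nat_lit 4) (nat_lit 505) (nat_lit 457) (nat_lit 238)) (XT.nd (nat_lit 78) (nat_lit 76) (nat_lit 0) (XT.lf (nat_lit 0) (nat_lit 1813779394283) (nat_lit 152) (nat_lit 853931187495) (nat_lit 0) (nat_lit 802659854133) (nat_lit 22) (nat_lit 5) (nat_lit 24) (nat_lit 4) (nat_lit 22) (nat_lit 4) (nat_lit 506) (nat_lit 457) (nat_lit 237)) (XT.lf (nat_lit 0) (nat_lit 995584878342) (nat_lit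 76) (nat_lit 1843311605940) (nat_lit 76) (nat_lit 832192062469) (nat_lit 21) (nat_lit 4) (nat_lit 22) (nat_lit 5) (nat_lit 22) (nat_lit 4) (nat_lit 507) (nat_lit 457) (nat_lit 236)))) (XT.nd (nat_lit 78) (nat_lit 76) (nat_lit 0) (XT.lf (nat_lit 0) (nat_lit 79203921473) (nat_lit 152) (nat_lit 846375389880) (nat_lit 76) (nat_lit 2960256543243) (nat_lit 20) (nat_lit 5) (nat_lit 22) (nat_lit 5) (nat_lit 21) (nat_lit 4) (nat_lit 508) (nat_lit 457) (nat_lit 235)) (XT.nd (nat_lit 78) (nat_lit 0) (nat_lit 0) (XT.lf (nat_lit 0) (nat_lit 1049455423864) (nat_lit 152) (nat_lit 2950872367954) (nat_lit 0) (nat_lit 113233618871) (nat_lit 19) (nat_lit 5) (nat_lit 21) (nat_lit 4) (nat_lit 19) (nat_lit 4) (nat_lit 509) (nat_lit 457) (nat_lit 234)) (XT.lf (nat_lit 0) (nat_lit 2145110540097) (nat_lit 152) (nat_lit 1001683059017) (nat_lit 0) (nat_lit 1208888732663) (nat_lit 19) (nat_lit 5) (nat_lit 21) (nat_lit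 4) (nat_lit 19) (nat_lit 4) (nat_lit 510) (nat_lit 457) (nat_lit 233))))) (XT.nd (nat_lit 234) (nat_lit 76) (nat_lit 0) (XT.nd (nat_lit 78) (nat_lit 152) (nat_lit 0) (XT.lf (nat_lit 0) (nat_lit 1161546651459) (nat_lit 76) (nat_lit 2194806633616) (nat_lit 76) (nat_lit 1258584823922) (nat_lit 18) (nat_lit 4) (nat_lit 19) (nat_lit 5) (nat_lit 19) (nat_lit 4) (nat_lit 511) (nat_lit 457) (nat_lit 232)) (XT.nd (nat_lit 78) (nat_lit 152) (nat_lit 0) (XT.lf (nat_lit 0) (nat_lit 3554801331214) (nat_lit 76) (nat_lit 1137081903098) (nat_lit 76) (nat_lit 200860091311) (nat_lit 18) (nat_lit 4) (nat_lit 19) (nat_lit 5) (nat_lit 19) (nat_lit 4) (nat_lit 512) (nat_lit 457) (nat_lit 231)) (XT.lf (nat_lit 0) (nat_lit 919103101640) (nat_lit 152) (nat_lit 4217650011237) (nat_lit 0) (nat_lit 52231051896) (nat_lit 16) (nat_lit 5) (nat_lit 18) (nat_lit 4) (nat_lit 16) (nat_lit 4) (nat_lit 513) (nat_lit 457) (nat_lit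 230)))) (XT.nd (nat_lit 78) (nat_lit 76) (nat_lit 0) (XT.lf (nat_lit 0) (nat_lit 2184878157134) (nat_lit 152) (nat_lit 2000257319042) (nat_lit 0) (nat_lit 1318006105728) (nat_lit 16) (nat_lit 5) (nat_lit 18) (nat_lit 4) (nat_lit 16) (nat_lit 4) (nat_lit 514) (nat_lit 457) (nat_lit 229)) (XT.nd (nat_lit 78) (nat_lit 0) (nat_lit 0) (XT.lf (nat_lit 0) (nat_lit 415301860126) (nat_lit 76) (nat_lit 3146601372009) (nat_lit 76) (nat_lit 2279729319064) (nat_lit 15) (nat_lit 4) (nat_lit 16) (nat_lit 5) (nat_lit 16) (nat_lit 4) (nat_lit 515) (nat_lit 457) (nat_lit 228)) (XT.lf (nat_lit 0) (nat_lit 3137862170551) (nat_lit 76) (nat_lit 1965918717914) (nat_lit 76) (nat_lit 1099046663546) (nat_lit 15) (nat_lit 4) (nat_lit 16) (nat_lit 5) (nat_lit 16) (nat_lit 4) (nat_lit 516) (nat_lit 457) (nat_lit 227)))))) (XT.nd (nat_lit 468) (nat_lit 152) (nat_lit 0) (XT.nd (nat_lit 234) (nat_lit 76) (nat_lit 0) (XT.nd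 (nat_lit 78) (nat_lit 76) (nat_lit 0) (XT.lf (nat_lit 0) (nat_lit 167281834903) (nat_lit 152) (nat_lit 518925839087) (nat_lit 76) (nat_lit 5906371680582) (nat_lit 14) (nat_lit 5) (nat_lit 16) (nat_lit 5) (nat_lit 15) (nat_lit 4) (nat_lit 517) (nat_lit 457) (nat_lit 226)) (XT.nd (nat_lit 78) (nat_lit 0) (nat_lit 0) (XT.lf (nat_lit 0) (nat_lit 1550218255025) (nat_lit 152) (nat_lit 4707476073248) (nat_lit 0) (nat_lit 747558943073) (nat_lit 13) (nat_lit 5) (nat_lit 15) (nat_lit 4) (nat_lit 13) (nat_lit 4) (nat_lit 518) (nat_lit 457) (nat_lit 225)) (XT.lf (nat_lit 0) (nat_lit 3076170041408) (nat_lit 152) (nat_lit 2098669895434) (nat_lit 0) (nat_lit 2273510728409) (nat_lit 13) (nat_lit 5) (nat_lit 15) (nat_lit 4) (nat_lit 13) (nat_lit 4) (nat_lit 519) (nat_lit 457) (nat_lit 224)))) (XT.nd (nat_lit 78) (nat_lit 0) (nat_lit 0) (XT.lf (nat_lit 0) (nat_lit 756693650111) (nat_lit 76) (nat_lit 3985702817391)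 (nat_lit 76) (nat_lit 3183043503423) (nat_lit 12) (nat_lit 4) (nat_lit 13) (nat_lit 5) (nat_lit 13) (nat_lit 4) (nat_lit 520) (nat_lit 457) (nat_lit 223)) (XT.nd (nat_lit 78) (nat_lit 0) (nat_lit 0) (XT.lf (nat_lit 0) (nat_lit 3959839488526) (nat_lit 76) (nat_lit 2639462869675) (nat_lit 76) (nat_lit 1836803554810) (nat_lit 12) (nat_lit 4) (nat_lit 13) (nat_lit 5) (nat_lit 13) (nat_lit 4) (nat_lit 521) (nat_lit 457) (nat_lit 222)) (XT.lf (nat_lit 0) (nat_lit 7419236987247) (nat_lit 76) (nat_lit 1185523729589) (nat_lit 76) (nat_lit 382864413893) (nat_lit 12) (nat_lit 4) (nat_lit 13) (nat_lit 5) (nat_lit 13) (nat_lit 4) (nat_lit 522) (nat_lit 457) (nat_lit 221))))) (XT.nd (nat_lit 57486) (nat_lit 0) (nat_lit 4712) (XT.nd (nat_lit 78) (nat_lit 0) (nat_lit 0) (XT.lf (nat_lit 0) (nat_lit 1178078880111) (nat_lit 152) (nat_lit 7964019690354) (nat_lit 0) (nat_lit 434875809309) (nat_lit 10) (nat_lit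 5) (nat_lit 12) (nat_lit 4) (nat_lit 10) (nat_lit 4) (nat_lit 523) (nat_lit 457) (nat_lit 220)) (XT.nd (nat_lit 57330) (nat_lit 0) (nat_lit 5168) (XT.lf (nat_lit 0) (nat_lit 2918002178480) (nat_lit 152) (nat_lit 5113891587729) (nat_lit 0) (nat_lit 2174799107018) (nat_lit 10) (nat_lit 5) (nat_lit 12) (nat_lit 4) (nat_lit 10) (nat_lit 4) (nat_lit 524) (nat_lit 457) (nat_lit 219)) (XT.lf (nat_lit 0) (nat_lit 167821499570) (nat_lit 532) (nat_lit 4249979263) (nat_lit 532) (nat_lit 4249979263) (nat_lit 78) (nat_lit 3) (nat_lit 85) (nat_lit 3) (nat_lit 85) (nat_lit 5) (nat_lit 458) (nat_lit 458) (nat_lit 284)))) (XT.nd (nat_lit 78) (nat_lit 456) (nat_lit 0) (XT.lf (nat_lit 76) (nat_lit 174433789919) (nat_lit 0) (nat_lit 178830561408) (nat_lit 532) (nat_lit 13148630740) (nat_lit 79) (nat_lit 5) (nat_lit 78) (nat_lit 3) (nat_lit 85) (nat_lit 5) (nat_lit 459) (nat_lit 458) (nat_lit 283)) (XT.nd (nat_lit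 78) (nat_lit 456) (nat_lit 0) (XT.lf (nat_lit 76) (nat_lit 372485610232) (nat_lit 0) (nat_lit 42155147) (nat_lit 532) (nat_lit 8738299553) (nat_lit 79) (nat_lit 5) (nat_lit 78) (nat_lit 3) (nat_lit 85) (nat_lit 5) (nat_lit 460) (nat_lit 458) (nat_lit 282)) (XT.lf (nat_lit 0) (nat_lit 5777521378) (nat_lit 532) (nat_lit 202565568942) (nat_lit 608) (nat_lit 188207647461) (nat_lit 72) (nat_lit 5) (nat_lit 79) (nat_lit 5) (nat_lit 80) (nat_lit 5) (nat_lit 461) (nat_lit 458) (nat_lit 281))))))))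
noncomputable def xc216 : XT := (XT.nd (nat_lit 1794) (nat_lit 1596) (nat_lit 0) (XT.nd (nat_lit 858) (nat_lit 1216) (nat_lit 0) (XT.nd (nat_lit 390) (nat_lit 684) (nat_lit 0) (XT.nd (nat_lit 156) (nat_lit 304) (nat_lit 0) (XT.nd (nat_lit 78) (nat_lit 0) (nat_lit 76) (XT.lf (nat_lit 76) (nat_lit 208515340) (nat_lit 0) (nat_lit 21026371627) (nat_lit 608) (nat_lit 391784950069) (nat_lit 73) (nat_lit 5) (nat_lit 72) (nat_lit 5) (nat_lit 80) (nat_lit 5) (nat_lit 462) (nat_lit 458) (nat_lit 280)) (XT.lf (nat_lit 0) (nat_lit 47970843531) (nat_lit 532) (nat_lit 204142350839) (nat_lit 608) (nat_lit 177889909739) (nat_lit 73) (nat_lit 5) (nat_lit 80) (nat_lit 5) (nat_lit 81) (nat_lit 5) (nat_lit 463) (nat_lit 458) (nat_lit 279))) (XT.nd (nat_lit 78) (nat_lit 380) (nat_lit 0) (XT.lf (nat_lit 76) (nat_lit 21762620412) (nat_lit 0) (nat_lit 56152548696) (nat_lit 608) (nat_lit 370344304054) (nat_lit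 74) (nat_lit 5) (nat_lit 73) (nat_lit 5) (nat_lit 81) (nat_lit 5) (nat_lit 464) (nat_lit 458) (nat_lit 278)) (XT.nd (nat_lit 78) (nat_lit 456) (nat_lit 0) (XT.lf (nat_lit 0) (nat_lit 119721011757) (nat_lit 532) (nat_lit 194064505042) (nat_lit 76) (nat_lit 153433557272) (nat_lit 74) (nat_lit 5) (nat_lit 81) (nat_lit 5) (nat_lit 75) (nat_lit 5) (nat_lit 465) (nat_lit 458) (nat_lit 277)) (XT.lf (nat_lit 0) (nat_lit 58426627402) (nat_lit 456) (nat_lit 109308330309) (nat_lit 532) (nat_lit 319731394480) (nat_lit 68) (nat_lit 5) (nat_lit 74) (nat_lit 5) (nat_lit 75) (nat_lit 5) (nat_lit 466) (nat_lit 458) (nat_lit 276))))) (XT.nd (nat_lit 234) (nat_lit 456) (nat_lit 0) (XT.nd (nat_lit 78) (nat_lit 228) (nat_lit 0) (XT.lf (nat_lit 0) (nat_lit 227716102645) (nat_lit 532) (nat_lit 169575337712) (nat_lit 76) (nat_lit 111391885551) (nat_lit 68) (nat_lit 5) (nat_lit 75) (nat_lit 5) (nat_lit 69) (nat_lit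 5) (nat_lit 467) (nat_lit 458) (nat_lit 275)) (XT.nd (nat_lit 78) (nat_lit 0) (nat_lit 0) (XT.lf (nat_lit 0) (nat_lit 113483916916) (nat_lit 228) (nat_lit 184580261070) (nat_lit 304) (nat_lit 233088004441) (nat_lit 65) (nat_lit 5) (nat_lit 68) (nat_lit 5) (nat_lit 69) (nat_lit 5) (nat_lit 468) (nat_lit 458) (nat_lit 274)) (XT.lf (nat_lit 0) (nat_lit 379882795772) (nat_lit 304) (nat_lit 127422083470) (nat_lit 76) (nat_lit 47646252521) (nat_lit 65) (nat_lit 5) (nat_lit 69) (nat_lit 5) (nat_lit 66) (nat_lit 5) (nat_lit 469) (nat_lit 458) (nat_lit 273)))) (XT.nd (nat_lit 78) (nat_lit 228) (nat_lit 0) (XT.lf (nat_lit 0) (nat_lit 190793746411) (nat_lit 228) (nat_lit 286836017211) (nat_lit 304) (nat_lit 102273604582) (nat_lit 62) (nat_lit 5) (nat_lit 65) (nat_lit 5) (nat_lit 66) (nat_lit 5) (nat_lit 470) (nat_lit 458) (nat_lit 272)) (XT.nd (nat_lit 78) (nat_lit 228) (nat_lit 0) (XT.lf (nat_lit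 0) (nat_lit 541713420098) (nat_lit 228) (nat_lit 44966989556) (nat_lit 304) (nat_lit 19892660254) (nat_lit 62) (nat_lit 5) (nat_lit 65) (nat_lit 5) (nat_lit 66) (nat_lit 5) (nat_lit 471) (nat_lit 458) (nat_lit 271)) (XT.lf (nat_lit 0) (nat_lit 78235168218) (nat_lit 228) (nat_lit 341493012187) (nat_lit 76) (nat_lit 214506299050) (nat_lit 59) (nat_lit 5) (nat_lit 62) (nat_lit 5) (nat_lit 60) (nat_lit 5) (nat_lit 472) (nat_lit 458) (nat_lit 270)))))) (XT.nd (nat_lit 468) (nat_lit 608) (nat_lit 0) (XT.nd (nat_lit 234) (nat_lit 228) (nat_lit 0) (XT.nd (nat_lit 78) (nat_lit 152) (nat_lit 0) (XT.lf (nat_lit 0) (nat_lit 17833725711) (nat_lit 228) (nat_lit 168721069094) (nat_lit 304) (nat_lit 477239368193) (nat_lit 56) (nat_lit 5) (nat_lit 59) (nat_lit 5) (nat_lit 60) (nat_lit 5) (nat_lit 473) (nat_lit 458) (nat_lit 269)) (XT.nd (nat_lit 78) (nat_lit 152) (nat_lit 0) (XT.lf (nat_lit 0) (nat_lit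 315581433404) (nat_lit 304) (nat_lit 272348516264) (nat_lit 76) (nat_lit 106825356211) (nat_lit 56) (nat_lit 5) (nat_lit 60) (nat_lit 5) (nat_lit 57) (nat_lit 5) (nat_lit 474) (nat_lit 458) (nat_lit 268)) (XT.lf (nat_lit 0) (nat_lit 133445446714) (nat_lit 152) (nat_lit 329076467813) (nat_lit 228) (nat_lit 265064088756) (nat_lit 54) (nat_lit 5) (nat_lit 56) (nat_lit 5) (nat_lit 57) (nat_lit 5) (nat_lit 475) (nat_lit 458) (nat_lit 267)))) (XT.nd (nat_lit 78) (nat_lit 228) (nat_lit 0) (XT.lf (nat_lit 0) (nat_lit 587191600886) (nat_lit 152) (nat_lit 41472504975) (nat_lit 228) (nat_lit 133783332885) (nat_lit 54) (nat_lit 5) (nat_lit 56) (nat_lit 5) (nat_lit 57) (nat_lit 5) (nat_lit 476) (nat_lit 458) (nat_lit 266)) (XT.nd (nat_lit 78) (nat_lit 0) (nat_lit 0) (XT.lf (nat_lit 0) (nat_lit 21270928363) (nat_lit 228) (nat_lit 514650635111) (nat_lit 76) (nat_lit 263067135267) (nat_lit 51) (nat_lit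 5) (nat_lit 54) (nat_lit 5) (nat_lit 52) (nat_lit 5) (nat_lit 477) (nat_lit 458) (nat_lit 265)) (XT.lf (nat_lit 0) (nat_lit 187495213389) (nat_lit 228) (nat_lit 52080072046) (nat_lit 76) (nat_lit 598120506143) (nat_lit 51) (nat_lit 5) (nat_lit 54) (nat_lit 5) (nat_lit 52) (nat_lit 5) (nat_lit 478) (nat_lit 458) (nat_lit 264))))) (XT.nd (nat_lit 234) (nat_lit 304) (nat_lit 0) (XT.nd (nat_lit 78) (nat_lit 152) (nat_lit 0) (XT.lf (nat_lit 0) (nat_lit 380576214666) (nat_lit 228) (nat_lit 409762442985) (nat_lit 76) (nat_lit 88076092320) (nat_lit 49) (nat_lit 5) (nat_lit 52) (nat_lit 5) (nat_lit 50) (nat_lit 5) (nat_lit 479) (nat_lit 458) (nat_lit 263)) (XT.nd (nat_lit 78) (nat_lit 0) (nat_lit 0) (XT.lf (nat_lit 0) (nat_lit 111021823355) (nat_lit 152) (nat_lit 488435616299) (nat_lit 228) (nat_lit 322105485895) (nat_lit 47) (nat_lit 5) (nat_lit 49) (nat_lit 5) (nat_lit 50) (nat_lit 5) (nat_lit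 480) (nat_lit 458) (nat_lit 262)) (XT.lf (nat_lit 0) (nat_lit 696772359597) (nat_lit 152) (nat_lit 150280418922) (nat_lit 228) (nat_lit 120213887388) (nat_lit 47) (nat_lit 5) (nat_lit 49) (nat_lit 5) (nat_lit 50) (nat_lit 5) (nat_lit 481) (nat_lit 458) (nat_lit 261)))) (XT.nd (nat_lit 78) (nat_lit 152) (nat_lit 0) (XT.lf (nat_lit 0) (nat_lit 106227761445) (nat_lit 152) (nat_lit 694495332861) (nat_lit 76) (nat_lit 214651985755) (nat_lit 45) (nat_lit 5) (nat_lit 47) (nat_lit 5) (nat_lit 46) (nat_lit 5) (nat_lit 482) (nat_lit 458) (nat_lit 260)) (XT.nd (nat_lit 78) (nat_lit 152) (nat_lit 0) (XT.lf (nat_lit 0) (nat_lit 355781335183) (nat_lit 152) (nat_lit 99011476557) (nat_lit 76) (nat_lit 611370259292) (nat_lit 45) (nat_lit 5) (nat_lit 47) (nat_lit 5) (nat_lit 46) (nat_lit 5) (nat_lit 483) (nat_lit 458) (nat_lit 259)) (XT.lf (nat_lit 0) (nat_lit 572762990615) (nat_lit 152) (nat_lit 66311154590)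 (nat_lit 228) (nat_lit 480837960047) (nat_lit 43) (nat_lit 5) (nat_lit 45) (nat_lit 5) (nat_lit 46) (nat_lit 5) (nat_lit 484) (nat_lit 458) (nat_lit 258))))))) (XT.nd (nat_lit 858) (nat_lit 684) (nat_lit 0) (XT.nd (nat_lit 390) (nat_lit 532) (nat_lit 0) (XT.nd (nat_lit 156) (nat_lit 228) (nat_lit 0) (XT.nd (nat_lit 78) (nat_lit 76) (nat_lit 0) (XT.lf (nat_lit 0) (nat_lit 123792407114) (nat_lit 76) (nat_lit 835488282814) (nat_lit 152) (nat_lit 217540347491) (nat_lit 42) (nat_lit 5) (nat_lit 43) (nat_lit 5) (nat_lit 44) (nat_lit 4) (nat_lit 485) (nat_lit 458) (nat_lit 257)) (XT.lf (nat_lit 0) (nat_lit 80549366564) (nat_lit 152) (nat_lit 361277787187) (nat_lit 76) (nat_lit 794961290276) (nat_lit 41) (nat_lit 5) (nat_lit 43) (nat_lit 5) (nat_lit 42) (nat_lit 5) (nat_lit 486) (nat_lit 458) (nat_lit 256))) (XT.nd (nat_lit 78) (nat_lit 76) (nat_lit 0) (XT.lf (nat_lit 0) (nat_lit 400181398187)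 (nat_lit 152) (nat_lit 176390661) (nat_lit 228) (nat_lit 899973473604) (nat_lit 39) (nat_lit 5) (nat_lit 41) (nat_lit 5) (nat_lit 42) (nat_lit 5) (nat_lit 487) (nat_lit 458) (nat_lit 255)) (XT.nd (nat_lit 78) (nat_lit 76) (nat_lit 0) (XT.lf (nat_lit 0) (nat_lit 767352625031) (nat_lit 228) (nat_lit 136787560090) (nat_lit 76) (nat_lit 463089182024) (nat_lit 39) (nat_lit 5) (nat_lit 42) (nat_lit 5) (nat_lit 40) (nat_lit 4) (nat_lit 488) (nat_lit 458) (nat_lit 254)) (XT.lf (nat_lit 0) (nat_lit 723848985218) (nat_lit 76) (nat_lit 457271219047) (nat_lit 152) (nat_lit 256966063457) (nat_lit 38) (nat_lit 5) (nat_lit 39) (nat_lit 5) (nat_lit 40) (nat_lit 4) (nat_lit 489) (nat_lit 458) (nat_lit 253))))) (XT.nd (nat_lit 234) (nat_lit 228) (nat_lit 0) (XT.nd (nat_lit 78) (nat_lit 76) (nat_lit 0) (XT.lf (nat_lit 0) (nat_lit 116062830012) (nat_lit 228) (nat_lit 1363108811450) (nat_lit 76) (nat_lit 34553383555)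 (nat_lit 35) (nat_lit 5) (nat_lit 38) (nat_lit 5) (nat_lit 36) (nat_lit 4) (nat_lit 490) (nat_lit 458) (nat_lit 252)) (XT.nd (nat_lit 78) (nat_lit 76) (nat_lit 0) (XT.lf (nat_lit 0) (nat_lit 536964104050) (nat_lit 228) (nat_lit 487634176929) (nat_lit 76) (nat_lit 567729613586) (nat_lit 35) (nat_lit 5) (nat_lit 38) (nat_lit 5) (nat_lit 36) (nat_lit 4) (nat_lit 491) (nat_lit 458) (nat_lit 251)) (XT.lf (nat_lit 0) (nat_lit 481989475766) (nat_lit 76) (nat_lit 521139852816) (nat_lit 152) (nat_lit 673162317210) (nat_lit 34) (nat_lit 5) (nat_lit 35) (nat_lit 5) (nat_lit 36) (nat_lit 4) (nat_lit 492) (nat_lit 458) (nat_lit 250)))) (XT.nd (nat_lit 78) (nat_lit 228) (nat_lit 0) (XT.lf (nat_lit 0) (nat_lit 1520810266171) (nat_lit 152) (nat_lit 209880406795) (nat_lit 0) (nat_lit 35144024545) (nat_lit 34) (nat_lit 5) (nat_lit 36) (nat_lit 4) (nat_lit 34) (nat_lit 4) (nat_lit 493) (nat_lit 458) (nat_lit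 249)) (XT.nd (nat_lit 78) (nat_lit 76) (nat_lit 0) (XT.lf (nat_lit 0) (nat_lit 242190632852) (nat_lit 152) (nat_lit 981909736669) (nat_lit 76) (nat_lit 635166646211) (nat_lit 32) (nat_lit 5) (nat_lit 34) (nat_lit 5) (nat_lit 33) (nat_lit 4) (nat_lit 494) (nat_lit 458) (nat_lit 248)) (XT.lf (nat_lit 0) (nat_lit 102404576963) (nat_lit 76) (nat_lit 661091019431) (nat_lit 152) (nat_lit 1195501151121) (nat_lit 31) (nat_lit 5) (nat_lit 32) (nat_lit 5) (nat_lit 33) (nat_lit 4) (nat_lit 495) (nat_lit 458) (nat_lit 247)))))) (XT.nd (nat_lit 468) (nat_lit 380) (nat_lit 0) (XT.nd (nat_lit 234) (nat_lit 152) (nat_lit 0) (XT.nd (nat_lit 78) (nat_lit 152) (nat_lit 0) (XT.lf (nat_lit 0) (nat_lit 1329306095855) (nat_lit 76) (nat_lit 24046004695) (nat_lit 152) (nat_lit 711204985807) (nat_lit 31) (nat_lit 5) (nat_lit 32) (nat_lit 5) (nat_lit 33) (nat_lit 4) (nat_lit 496) (nat_lit 458) (nat_lit 246)) (XT.nd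 (nat_lit 78) (nat_lit 76) (nat_lit 0) (XT.lf (nat_lit 0) (nat_lit 484042939557) (nat_lit 76) (nat_lit 1533963738302) (nat_lit 76) (nat_lit 158346810225) (nat_lit 30) (nat_lit 4) (nat_lit 31) (nat_lit 5) (nat_lit 31) (nat_lit 4) (nat_lit 497) (nat_lit 458) (nat_lit 245)) (XT.lf (nat_lit 0) (nat_lit 438042252612) (nat_lit 152) (nat_lit 464489050386) (nat_lit 76) (nat_lit 1392018179438) (nat_lit 29) (nat_lit 5) (nat_lit 31) (nat_lit 5) (nat_lit 30) (nat_lit 4) (nat_lit 498) (nat_lit 458) (nat_lit 244)))) (XT.nd (nat_lit 78) (nat_lit 76) (nat_lit 0) (XT.lf (nat_lit 0) (nat_lit 902596796015) (nat_lit 76) (nat_lit 192698270813) (nat_lit 152) (nat_lit 1324840459814) (nat_lit 28) (nat_lit 5) (nat_lit 29) (nat_lit 5) (nat_lit 30) (nat_lit 4) (nat_lit 499) (nat_lit 458) (nat_lit 243)) (XT.nd (nat_lit 78) (nat_lit 76) (nat_lit 0) (XT.lf (nat_lit 0) (nat_lit 1831960744875) (nat_lit 152) (nat_lit 163419751344)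 (nat_lit 0) (nat_lit 558241347072) (nat_lit 28) (nat_lit 5) (nat_lit 30) (nat_lit 4) (nat_lit 28) (nat_lit 4) (nat_lit 500) (nat_lit 458) (nat_lit 242)) (XT.lf (nat_lit 0) (nat_lit 1362164571383) (nat_lit 76) (nat_lit 1303160339349) (nat_lit 76) (nat_lit 29440935854) (nat_lit 27) (nat_lit 4) (nat_lit 28) (nat_lit 5) (nat_lit 28) (nat_lit 4) (nat_lit 501) (nat_lit 458) (nat_lit 241))))) (XT.nd (nat_lit 234) (nat_lit 152) (nat_lit 0) (XT.nd (nat_lit 78) (nat_lit 76) (nat_lit 0) (XT.lf (nat_lit 0) (nat_lit 163012327808) (nat_lit 76) (nat_lit 527724084005) (nat_lit 152) (nat_lit 2154402848330) (nat_lit 25) (nat_lit 5) (nat_lit 26) (nat_lit 5) (nat_lit 27) (nat_lit 4) (nat_lit 502) (nat_lit 458) (nat_lit 240)) (XT.nd (nat_lit 78) (nat_lit 76) (nat_lit 0) (XT.lf (nat_lit 0) (nat_lit 1511768851368) (nat_lit 152) (nat_lit 1159726977180) (nat_lit 0) (nat_lit 332399023920) (nat_lit 25) (nat_lit 5)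 (nat_lit 27) (nat_lit 4) (nat_lit 25) (nat_lit 4) (nat_lit 503) (nat_lit 458) (nat_lit 239)) (XT.lf (nat_lit 0) (nat_lit 495547116344) (nat_lit 76) (nat_lit 1928561802426) (nat_lit 76) (nat_lit 749191970795) (nat_lit 24) (nat_lit 4) (nat_lit 25) (nat_lit 5) (nat_lit 25) (nat_lit 4) (nat_lit 504) (nat_lit 458) (nat_lit 238)))) (XT.nd (nat_lit 78) (nat_lit 76) (nat_lit 0) (XT.lf (nat_lit 0) (nat_lit 83049258422) (nat_lit 152) (nat_lit 1006627377984) (nat_lit 76) (nat_lit 2263877853435) (nat_lit 23) (nat_lit 5) (nat_lit 25) (nat_lit 5) (nat_lit 24) (nat_lit 4) (nat_lit 505) (nat_lit 458) (nat_lit 237)) (XT.nd (nat_lit 78) (nat_lit 0) (nat_lit 0) (XT.lf (nat_lit 0) (nat_lit 819736105313) (nat_lit 76) (nat_lit 141372521803) (nat_lit 152) (nat_lit 2583985815119) (nat_lit 22) (nat_lit 5) (nat_lit 23) (nat_lit 5) (nat_lit 24) (nat_lit 4) (nat_lit 506) (nat_lit 458) (nat_lit 236)) (XT.lf (nat_lit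 0) (nat_lit 1958881861450) (nat_lit 152) (nat_lit 922245451973) (nat_lit 0) (nat_lit 866872748106) (nat_lit 22) (nat_lit 5) (nat_lit 24) (nat_lit 4) (nat_lit 22) (nat_lit 4) (nat_lit 507) (nat_lit 458) (nat_lit 235))))))))
noncomputable def xc217 : XT := (XT.nd (nat_lit 59124) (nat_lit 0) (nat_lit 2204) (XT.nd (nat_lit 858) (nat_lit 304) (nat_lit 0) (XT.nd (nat_lit 390) (nat_lit 304) (nat_lit 0) (XT.nd (nat_lit 156) (nat_lit 152) (nat_lit 0) (XT.nd (nat_lit 78) (nat_lit 76) (nat_lit 0) (XT.lf (nat_lit 0) (nat_lit 1075231893295) (nat_lit 76) (nat_lit 1990776422193) (nat_lit 76) (nat_lit 898767306002) (nat_lit 21) (nat_lit 4) (nat_lit 22) (nat_lit 5) (nat_lit 22) (nat_lit 4) (nat_lit 508) (nat_lit 458) (nat_lit 234)) (XT.lf (nat_lit 0) (nat_lit 85540342032) (nat_lit 152) (nat_lit 914085207398) (nat_lit 76) (nat_lit 3197077164982) (nat_lit 20) (nat_lit 5) (nat_lit 22) (nat_lit 5) (nat_lit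 21) (nat_lit 4) (nat_lit 509) (nat_lit 458) (nat_lit 233))) (XT.nd (nat_lit 78) (nat_lit 76) (nat_lit 0) (XT.lf (nat_lit 0) (nat_lit 1133411964218) (nat_lit 152) (nat_lit 3186941943318) (nat_lit 0) (nat_lit 122292407489) (nat_lit 19) (nat_lit 5) (nat_lit 21) (nat_lit 4) (nat_lit 19) (nat_lit 4) (nat_lit 510) (nat_lit 458) (nat_lit 232)) (XT.nd (nat_lit 78) (nat_lit 76) (nat_lit 0) (XT.lf (nat_lit 0) (nat_lit 2316719481865) (nat_lit 152) (nat_lit 1081817505523) (nat_lit 0) (nat_lit 1305599923043) (nat_lit 19) (nat_lit 5) (nat_lit 21) (nat_lit 4) (nat_lit 19) (nat_lit 4) (nat_lit 511) (nat_lit 458) (nat_lit 231)) (XT.lf (nat_lit 0) (nat_lit 1254470576773) (nat_lit 76) (nat_lit 2370391067014) (nat_lit 76) (nat_lit 1359271506255) (nat_lit 18) (nat_lit 4) (nat_lit 19) (nat_lit 5) (nat_lit 19) (nat_lit 4) (nat_lit 512) (nat_lit 458) (nat_lit 230))))) (XT.nd (nat_lit 234) (nat_lit 152) (nat_lit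 0) (XT.nd (nat_lit 78) (nat_lit 152) (nat_lit 0) (XT.lf (nat_lit 0) (nat_lit 3839185616597) (nat_lit 76) (nat_lit 1228048365262) (nat_lit 76) (nat_lit 216928802708) (nat_lit 18) (nat_lit 4) (nat_lit 19) (nat_lit 5) (nat_lit 19) (nat_lit 4) (nat_lit 513) (nat_lit 458) (nat_lit 229)) (XT.nd (nat_lit 78) (nat_lit 0) (nat_lit 0) (XT.lf (nat_lit 0) (nat_lit 992631440613) (nat_lit 152) (nat_lit 4555061828178) (nat_lit 0) (nat_lit 56409621895) (nat_lit 16) (nat_lit 5) (nat_lit 18) (nat_lit 4) (nat_lit 16) (nat_lit 4) (nat_lit 514) (nat_lit 458) (nat_lit 228)) (XT.lf (nat_lit 0) (nat_lit 2359668493817) (nat_lit 152) (nat_lit 2160277734233) (nat_lit 0) (nat_lit 1423446673675) (nat_lit 16) (nat_lit 5) (nat_lit 18) (nat_lit 4) (nat_lit 16) (nat_lit 4) (nat_lit 515) (nat_lit 458) (nat_lit 227)))) (XT.nd (nat_lit 78) (nat_lit 76) (nat_lit 0) (XT.lf (nat_lit 0) (nat_lit 448526174955) (nat_lit 76) (nat_lit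 3398329397624) (nat_lit 76) (nat_lit 2462107576163) (nat_lit 15) (nat_lit 4) (nat_lit 16) (nat_lit 5) (nat_lit 16) (nat_lit 4) (nat_lit 516) (nat_lit 458) (nat_lit 226)) (XT.nd (nat_lit 78) (nat_lit 76) (nat_lit 0) (XT.lf (nat_lit 0) (nat_lit 3388891297917) (nat_lit 76) (nat_lit 2123192137435) (nat_lit 76) (nat_lit 1186970314753) (nat_lit 15) (nat_lit 4) (nat_lit 16) (nat_lit 5) (nat_lit 16) (nat_lit 4) (nat_lit 517) (nat_lit 458) (nat_lit 225)) (XT.lf (nat_lit 0) (nat_lit 180664453715) (nat_lit 152) (nat_lit 560439760085) (nat_lit 76) (nat_lit 6378881483375) (nat_lit 14) (nat_lit 5) (nat_lit 16) (nat_lit 5) (nat_lit 15) (nat_lit 4) (nat_lit 518) (nat_lit 458) (nat_lit 224)))))) (XT.nd (nat_lit 57798) (nat_lit 0) (nat_lit 4712) (XT.nd (nat_lit 234) (nat_lit 152) (nat_lit 0) (XT.nd (nat_lit 78) (nat_lit 76) (nat_lit 0) (XT.lf (nat_lit 0) (nat_lit 1674235787276) (nat_lit 152) (nat_lit 5084074012808)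 (nat_lit 0) (nat_lit 807363727221) (nat_lit 13) (nat_lit 5) (nat_lit 15) (nat_lit 4) (nat_lit 13) (nat_lit 4) (nat_lit 519) (nat_lit 458) (nat_lit 223)) (XT.nd (nat_lit 78) (nat_lit 76) (nat_lit 0) (XT.lf (nat_lit 0) (nat_lit 3322263711248) (nat_lit 152) (nat_lit 2266563351606) (nat_lit 0) (nat_lit 2455391650295) (nat_lit 13) (nat_lit 5) (nat_lit 15) (nat_lit 4) (nat_lit 13) (nat_lit 4) (nat_lit 520) (nat_lit 458) (nat_lit 222)) (XT.lf (nat_lit 0) (nat_lit 817229274154) (nat_lit 76) (nat_lit 4304558975523) (nat_lit 76) (nat_lit 3437686913739) (nat_lit 12) (nat_lit 4) (nat_lit 13) (nat_lit 5) (nat_lit 13) (nat_lit 4) (nat_lit 521) (nat_lit 458) (nat_lit 221)))) (XT.nd (nat_lit 78) (nat_lit 152) (nat_lit 0) (XT.lf (nat_lit 0) (nat_lit 4276626769862) (nat_lit 76) (nat_lit 2850619836972) (nat_lit 76) (nat_lit 1983747774419) (nat_lit 12) (nat_lit 4) (nat_lit 13) (nat_lit 5) (nat_lit 13) (nat_lit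 4) (nat_lit 522) (nat_lit 458) (nat_lit 220)) (XT.nd (nat_lit 78) (nat_lit 152) (nat_lit 0) (XT.lf (nat_lit 0) (nat_lit 8012776059425) (nat_lit 76) (nat_lit 1280365570292) (nat_lit 76) (nat_lit 413493507027) (nat_lit 12) (nat_lit 4) (nat_lit 13) (nat_lit 5) (nat_lit 13) (nat_lit 4) (nat_lit 523) (nat_lit 458) (nat_lit 219)) (XT.lf (nat_lit 0) (nat_lit 1272325247390) (nat_lit 152) (nat_lit 8601141149275) (nat_lit 0) (nat_lit 469665928941) (nat_lit 10) (nat_lit 5) (nat_lit 12) (nat_lit 4) (nat_lit 10) (nat_lit 4) (nat_lit 524) (nat_lit 458) (nat_lit 218))))) (XT.nd (nat_lit 234) (nat_lit 456) (nat_lit 0) (XT.nd (nat_lit 78) (nat_lit 0) (nat_lit 0) (XT.lf (nat_lit 0) (nat_lit 181247703000) (nat_lit 532) (nat_lit 4589716437) (nat_lit 532) (nat_lit 4589716437) (nat_lit 78) (nat_lit 3) (nat_lit 85) (nat_lit 3) (nat_lit 85) (nat_lit 5) (nat_lit 459) (nat_lit 459) (nat_lit 282)) (XT.nd (nat_lit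 78) (nat_lit 0) (nat_lit 0) (XT.lf (nat_lit 76) (nat_lit 188389002225) (nat_lit 0) (nat_lit 193137404758) (nat_lit 532) (nat_lit 14199540686) (nat_lit 79) (nat_lit 5) (nat_lit 78) (nat_lit 3) (nat_lit 85) (nat_lit 5) (nat_lit 460) (nat_lit 459) (nat_lit 281)) (XT.lf (nat_lit 76) (nat_lit 402284930451) (nat_lit 0) (nat_lit 45896481) (nat_lit 532) (nat_lit 9436455636) (nat_lit 79) (nat_lit 5) (nat_lit 78) (nat_lit 3) (nat_lit 85) (nat_lit 5) (nat_lit 461) (nat_lit 459) (nat_lit 280)))) (XT.nd (nat_lit 78) (nat_lit 0) (nat_lit 0) (XT.lf (nat_lit 0) (nat_lit 6240526415) (nat_lit 532) (nat_lit 218770237907) (nat_lit 608) (nat_lit 203263967930) (nat_lit 72) (nat_lit 5) (nat_lit 79) (nat_lit 5) (nat_lit 80) (nat_lit 5) (nat_lit 462) (nat_lit 459) (nat_lit 279)) (XT.nd (nat_lit 78) (nat_lit 0) (nat_lit 76) (XT.lf (nat_lit 76) (nat_lit 225758521) (nat_lit 0) (nat_lit 22708676739) (nat_lit 608) (nat_lit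 423126927887) (nat_lit 73) (nat_lit 5) (nat_lit 72) (nat_lit 5) (nat_lit 80) (nat_lit 5) (nat_lit 463) (nat_lit 459) (nat_lit 278)) (XT.lf (nat_lit 0) (nat_lit 51809207900) (nat_lit 532) (nat_lit 220473157883) (nat_lit 608) (nat_lit 192120930659) (nat_lit 73) (nat_lit 5) (nat_lit 80) (nat_lit 5) (nat_lit 81) (nat_lit 5) (nat_lit 464) (nat_lit 459) (nat_lit 277))))))) (XT.nd (nat_lit 936) (nat_lit 1140) (nat_lit 0) (XT.nd (nat_lit 468) (nat_lit 836) (nat_lit 0) (XT.nd (nat_lit 234) (nat_lit 228) (nat_lit 0) (XT.nd (nat_lit 78) (nat_lit 380) (nat_lit 0) (XT.lf (nat_lit 76) (nat_lit 23504196358) (nat_lit 0) (nat_lit 60644845164) (nat_lit 608) (nat_lit 399971136556) (nat_lit 74) (nat_lit 5) (nat_lit 73) (nat_lit 5) (nat_lit 81) (nat_lit 5) (nat_lit 465) (nat_lit 459) (nat_lit 276)) (XT.nd (nat_lit 78) (nat_lit 456) (nat_lit 0) (XT.lf (nat_lit 0) (nat_lit 129299300715) (nat_lit 532) (nat_lit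 209589090003) (nat_lit 76) (nat_lit 165708160427) (nat_lit 74) (nat_lit 5) (nat_lit 81) (nat_lit 5) (nat_lit 75) (nat_lit 5) (nat_lit 466) (nat_lit 459) (nat_lit 275)) (XT.lf (nat_lit 0) (nat_lit 63101318468) (nat_lit 456) (nat_lit 118053012328) (nat_lit 532) (nat_lit 345309283259) (nat_lit 68) (nat_lit 5) (nat_lit 74) (nat_lit 5) (nat_lit 75) (nat_lit 5) (nat_lit 467) (nat_lit 459) (nat_lit 274)))) (XT.nd (nat_lit 78) (nat_lit 228) (nat_lit 0) (XT.lf (nat_lit 0) (nat_lit 245933924276) (nat_lit 532) (nat_lit 183140802173) (nat_lit 76) (nat_lit 120303222679) (nat_lit 68) (nat_lit 5) (nat_lit 75) (nat_lit 5) (nat_lit 69) (nat_lit 5) (nat_lit 468) (nat_lit 459) (nat_lit 273)) (XT.nd (nat_lit 78) (nat_lit 0) (nat_lit 0) (XT.lf (nat_lit 0) (nat_lit 122563178584) (nat_lit 228) (nat_lit 199346640735) (nat_lit 304) (nat_lit 251734496968) (nat_lit 65) (nat_lit 5) (nat_lit 68) (nat_lit 5) (nat_lit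 69) (nat_lit 5) (nat_lit 469) (nat_lit 459) (nat_lit 272)) (XT.lf (nat_lit 0) (nat_lit 410273889883) (nat_lit 304) (nat_lit 137615305651) (nat_lit 76) (nat_lit 51457988981) (nat_lit 65) (nat_lit 5) (nat_lit 69) (nat_lit 5) (nat_lit 66) (nat_lit 5) (nat_lit 470) (nat_lit 459) (nat_lit 271))))) (XT.nd (nat_lit 234) (nat_lit 380) (nat_lit 0) (XT.nd (nat_lit 78) (nat_lit 228) (nat_lit 0) (XT.lf (nat_lit 0) (nat_lit 206057776836) (nat_lit 228) (nat_lit 309782816240) (nat_lit 304) (nat_lit 110455008572) (nat_lit 62) (nat_lit 5) (nat_lit 65) (nat_lit 5) (nat_lit 66) (nat_lit 5) (nat_lit 471) (nat_lit 459) (nat_lit 270)) (XT.nd (nat_lit 78) (nat_lit 228) (nat_lit 0) (XT.lf (nat_lit 0) (nat_lit 585050985106) (nat_lit 228) (nat_lit 48564272473) (nat_lit 304) (nat_lit 21483624578) (nat_lit 62) (nat_lit 5) (nat_lit 65) (nat_lit 5) (nat_lit 66) (nat_lit 5) (nat_lit 472) (nat_lit 459) (nat_lit 269))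 (XT.lf (nat_lit 0) (nat_lit 84494390494) (nat_lit 228) (nat_lit 368811921848) (nat_lit 76) (nat_lit 231666892649) (nat_lit 59) (nat_lit 5) (nat_lit 62) (nat_lit 5) (nat_lit 60) (nat_lit 5) (nat_lit 473) (nat_lit 459) (nat_lit 268)))) (XT.nd (nat_lit 78) (nat_lit 152) (nat_lit 0) (XT.lf (nat_lit 0) (nat_lit 19260941631) (nat_lit 228) (nat_lit 182218627750) (nat_lit 304) (nat_lit 515418095273) (nat_lit 56) (nat_lit 5) (nat_lit 59) (nat_lit 5) (nat_lit 60) (nat_lit 5) (nat_lit 474) (nat_lit 459) (nat_lit 267)) (XT.nd (nat_lit 78) (nat_lit 152) (nat_lit 0) (XT.lf (nat_lit 0) (nat_lit 340828312931) (nat_lit 304) (nat_lit 294135891829) (nat_lit 76) (nat_lit 115371496306) (nat_lit 56) (nat_lit 5) (nat_lit 60) (nat_lit 5) (nat_lit 57) (nat_lit 5) (nat_lit 475) (nat_lit 459) (nat_lit 266)) (XT.lf (nat_lit 0) (nat_lit 144121575385) (nat_lit 152) (nat_lit 355402441987) (nat_lit 228) (nat_lit 286268838109)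 (nat_lit 54) (nat_lit 5) (nat_lit 56) (nat_lit 5) (nat_lit 57) (nat_lit 5) (nat_lit 476) (nat_lit 459) (nat_lit 265)))))) (XT.nd (nat_lit 468) (nat_lit 608) (nat_lit 0) (XT.nd (nat_lit 234) (nat_lit 304) (nat_lit 0) (XT.nd (nat_lit 78) (nat_lit 228) (nat_lit 0) (XT.lf (nat_lit 0) (nat_lit 634167385377) (nat_lit 152) (nat_lit 44790172733) (nat_lit 228) (nat_lit 144485649750) (nat_lit 54) (nat_lit 5) (nat_lit 56) (nat_lit 5) (nat_lit 57) (nat_lit 5) (nat_lit 477) (nat_lit 459) (nat_lit 264)) (XT.nd (nat_lit 78) (nat_lit 0) (nat_lit 0) (XT.lf (nat_lit 0) (nat_lit 22972924845) (nat_lit 228) (nat_lit 555822201797) (nat_lit 76) (nat_lit 284112642150) (nat_lit 51) (nat_lit 5) (nat_lit 54) (nat_lit 5) (nat_lit 52) (nat_lit 5) (nat_lit 478) (nat_lit 459) (nat_lit 263)) (XT.lf (nat_lit 0) (nat_lit 202495128805) (nat_lit 228) (nat_lit 56246029549) (nat_lit 76) (nat_lit 645970272617) (nat_lit 51) (nat_lit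 5) (nat_lit 54) (nat_lit 5) (nat_lit 52) (nat_lit 5) (nat_lit 479) (nat_lit 459) (nat_lit 262)))) (XT.nd (nat_lit 78) (nat_lit 152) (nat_lit 0) (XT.lf (nat_lit 0) (nat_lit 411022602203) (nat_lit 228) (nat_lit 442542982120) (nat_lit 76) (nat_lit 95122322354) (nat_lit 49) (nat_lit 5) (nat_lit 52) (nat_lit 5) (nat_lit 50) (nat_lit 5) (nat_lit 480) (nat_lit 459) (nat_lit 261)) (XT.nd (nat_lit 78) (nat_lit 0) (nat_lit 0) (XT.lf (nat_lit 0) (nat_lit 119904013975) (nat_lit 152) (nat_lit 527510300403) (nat_lit 228) (nat_lit 347873622794) (nat_lit 47) (nat_lit 5) (nat_lit 49) (nat_lit 5) (nat_lit 50) (nat_lit 5) (nat_lit 481) (nat_lit 459) (nat_lit 260)) (XT.lf (nat_lit 0) (nat_lit 752514560171) (nat_lit 152) (nat_lit 162302699474) (nat_lit 228) (nat_lit 129830718774) (nat_lit 47) (nat_lit 5) (nat_lit 49) (nat_lit 5) (nat_lit 50) (nat_lit 5) (nat_lit 482) (nat_lit 459) (nat_lit 259))))) (XT.nd (nat_lit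 234) (nat_lit 304) (nat_lit 0) (XT.nd (nat_lit 78) (nat_lit 152) (nat_lit 0) (XT.lf (nat_lit 0) (nat_lit 114726242113) (nat_lit 152) (nat_lit 750054527737) (nat_lit 76) (nat_lit 231824295792) (nat_lit 45) (nat_lit 5) (nat_lit 47) (nat_lit 5) (nat_lit 46) (nat_lit 5) (nat_lit 483) (nat_lit 459) (nat_lit 258)) (XT.nd (nat_lit 78) (nat_lit 152) (nat_lit 0) (XT.lf (nat_lit 0) (nat_lit 384244082509) (nat_lit 152) (nat_lit 106931994910) (nat_lit 76) (nat_lit 660280020013) (nat_lit 45) (nat_lit 5) (nat_lit 47) (nat_lit 5) (nat_lit 46) (nat_lit 5) (nat_lit 484) (nat_lit 459) (nat_lit 257)) (XT.lf (nat_lit 0) (nat_lit 618584419515) (nat_lit 152) (nat_lit 71615889373) (nat_lit 228) (nat_lit 519304746181) (nat_lit 43) (nat_lit 5) (nat_lit 45) (nat_lit 5) (nat_lit 46) (nat_lit 5) (nat_lit 485) (nat_lit 459) (nat_lit 256)))) (XT.nd (nat_lit 78) (nat_lit 228) (nat_lit 0) (XT.lf (nat_lit 0) (nat_lit 133696193908)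 (nat_lit 76) (nat_lit 902327179080) (nat_lit 152) (nat_lit 234943329159) (nat_lit 42) (nat_lit 5) (nat_lit 43) (nat_lit 5) (nat_lit 44) (nat_lit 4) (nat_lit 486) (nat_lit 459) (nat_lit 255)) (XT.nd (nat_lit 78) (nat_lit 152) (nat_lit 0) (XT.lf (nat_lit 0) (nat_lit 86993532389) (nat_lit 152) (nat_lit 390179633707) (nat_lit 76) (nat_lit 858558336102) (nat_lit 41) (nat_lit 5) (nat_lit 43) (nat_lit 5) (nat_lit 42) (nat_lit 5) (nat_lit 487) (nat_lit 459) (nat_lit 254)) (XT.lf (nat_lit 0) (nat_lit 432196276966) (nat_lit 152) (nat_lit 190344277) (nat_lit 228) (nat_lit 971971125435) (nat_lit 39) (nat_lit 5) (nat_lit 41) (nat_lit 5) (nat_lit 42) (nat_lit 5) (nat_lit 488) (nat_lit 459) (nat_lit 253))))))))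
noncomputable def xc218 : XT := (XT.nd (nat_lit 1794) (nat_lit 532) (nat_lit 0) (XT.nd (nat_lit 858) (nat_lit 760) (nat_lit 0) (XT.nd (nat_lit 390) (nat_lit 380) (nat_lit 0) (XT.nd (nat_lit 156) (nat_lit 304) (nat_lit 0) (XT.nd (nat_lit 78) (nat_lit 76) (nat_lit 0) (XT.lf (nat_lit 0) (nat_lit 828741032328) (nat_lit 228) (nat_lit 147730213134) (nat_lit 76) (nat_lit 500136455245) (nat_lit 39) (nat_lit 5) (nat_lit 42) (nat_lit 5) (nat_lit 40) (nat_lit 4) (nat_lit 489) (nat_lit 459) (nat_lit 252)) (XT.lf (nat_lit 0) (nat_lit 781757246893) (nat_lit 76) (nat_lit 493852764638) (nat_lit 152) (nat_lit 277523142309) (nat_lit 38) (nat_lit 5) (nat_lit 39) (nat_lit 5) (nat_lit 40) (nat_lit 4) (nat_lit 490) (nat_lit 459) (nat_lit 251))) (XT.nd (nat_lit 78) (nat_lit 76) (nat_lit 0) (XT.lf (nat_lit 0) (nat_lit 125348049806) (nat_lit 228) (nat_lit 1472157160635) (nat_lit 76) (nat_lit 37317801086) (nat_lit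 35) (nat_lit 5) (nat_lit 38) (nat_lit 5) (nat_lit 36) (nat_lit 4) (nat_lit 491) (nat_lit 459) (nat_lit 250)) (XT.nd (nat_lit 78) (nat_lit 76) (nat_lit 0) (XT.lf (nat_lit 0) (nat_lit 579921411442) (nat_lit 228) (nat_lit 526644581702) (nat_lit 76) (nat_lit 613148118642) (nat_lit 35) (nat_lit 5) (nat_lit 38) (nat_lit 5) (nat_lit 36) (nat_lit 4) (nat_lit 492) (nat_lit 459) (nat_lit 249)) (XT.lf (nat_lit 0) (nat_lit 520548954870) (nat_lit 76) (nat_lit 562830893524) (nat_lit 152) (nat_lit 727015115163) (nat_lit 34) (nat_lit 5) (nat_lit 35) (nat_lit 5) (nat_lit 36) (nat_lit 4) (nat_lit 493) (nat_lit 459) (nat_lit 248))))) (XT.nd (nat_lit 234) (nat_lit 152) (nat_lit 0) (XT.nd (nat_lit 78) (nat_lit 228) (nat_lit 0) (XT.lf (nat_lit 0) (nat_lit 1642475251421) (nat_lit 152) (nat_lit 226670532491) (nat_lit 0) (nat_lit 37955676267) (nat_lit 34) (nat_lit 5) (nat_lit 36) (nat_lit 4) (nat_lit 34) (nat_lit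 4) (nat_lit 494) (nat_lit 459) (nat_lit 247)) (XT.nd (nat_lit 78) (nat_lit 76) (nat_lit 0) (XT.lf (nat_lit 0) (nat_lit 261566046629) (nat_lit 152) (nat_lit 1060462207918) (nat_lit 76) (nat_lit 685980109378) (nat_lit 32) (nat_lit 5) (nat_lit 34) (nat_lit 5) (nat_lit 33) (nat_lit 4) (nat_lit 495) (nat_lit 459) (nat_lit 246)) (XT.lf (nat_lit 0) (nat_lit 110597243014) (nat_lit 76) (nat_lit 713978159367) (nat_lit 152) (nat_lit 1291141072260) (nat_lit 31) (nat_lit 5) (nat_lit 32) (nat_lit 5) (nat_lit 33) (nat_lit 4) (nat_lit 496) (nat_lit 459) (nat_lit 245)))) (XT.nd (nat_lit 78) (nat_lit 152) (nat_lit 0) (XT.lf (nat_lit 0) (nat_lit 1435650861204) (nat_lit 76) (nat_lit 25969553942) (nat_lit 152) (nat_lit 768101226384) (nat_lit 31) (nat_lit 5) (nat_lit 32) (nat_lit 5) (nat_lit 33) (nat_lit 4) (nat_lit 497) (nat_lit 459) (nat_lit 244)) (XT.nd (nat_lit 78) (nat_lit 76) (nat_lit 0) (XT.lf (nat_lit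 0) (nat_lit 522766653737) (nat_lit 76) (nat_lit 1656680703677) (nat_lit 76) (nat_lit 171014398079) (nat_lit 30) (nat_lit 4) (nat_lit 31) (nat_lit 5) (nat_lit 31) (nat_lit 4) (nat_lit 498) (nat_lit 459) (nat_lit 243)) (XT.lf (nat_lit 0) (nat_lit 473085770887) (nat_lit 152) (nat_lit 501647908789) (nat_lit 76) (nat_lit 1503379750299) (nat_lit 29) (nat_lit 5) (nat_lit 31) (nat_lit 5) (nat_lit 30) (nat_lit 4) (nat_lit 499) (nat_lit 459) (nat_lit 242)))))) (XT.nd (nat_lit 468) (nat_lit 380) (nat_lit 0) (XT.nd (nat_lit 234) (nat_lit 228) (nat_lit 0) (XT.nd (nat_lit 78) (nat_lit 76) (nat_lit 0) (XT.lf (nat_lit 0) (nat_lit 974804798599) (nat_lit 76) (nat_lit 208114007641) (nat_lit 152) (nat_lit 1430827551799) (nat_lit 28) (nat_lit 5) (nat_lit 29) (nat_lit 5) (nat_lit 30) (nat_lit 4) (nat_lit 500) (nat_lit 459) (nat_lit 241)) (XT.nd (nat_lit 78) (nat_lit 76) (nat_lit 0) (XT.lf (nat_lit 0) (nat_lit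 1978517731380) (nat_lit 152) (nat_lit 176493084567) (nat_lit 0) (nat_lit 602900764645) (nat_lit 28) (nat_lit 5) (nat_lit 30) (nat_lit 4) (nat_lit 28) (nat_lit 4) (nat_lit 501) (nat_lit 459) (nat_lit 240)) (XT.lf (nat_lit 0) (nat_lit 1471137977728) (nat_lit 76) (nat_lit 1407413049164) (nat_lit 76) (nat_lit 31796077550) (nat_lit 27) (nat_lit 4) (nat_lit 28) (nat_lit 5) (nat_lit 28) (nat_lit 4) (nat_lit 502) (nat_lit 459) (nat_lit 239)))) (XT.nd (nat_lit 78) (nat_lit 76) (nat_lit 0) (XT.lf (nat_lit 0) (nat_lit 176053555074) (nat_lit 76) (nat_lit 569941892620) (nat_lit 152) (nat_lit 2326754943418) (nat_lit 25) (nat_lit 5) (nat_lit 26) (nat_lit 5) (nat_lit 27) (nat_lit 4) (nat_lit 503) (nat_lit 459) (nat_lit 238)) (XT.nd (nat_lit 78) (nat_lit 76) (nat_lit 0) (XT.lf (nat_lit 0) (nat_lit 1632710475938) (nat_lit 152) (nat_lit 1252504905685) (nat_lit 0) (nat_lit 358991049720) (nat_lit 25) (nat_lit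 5) (nat_lit 27) (nat_lit 4) (nat_lit 25) (nat_lit 4) (nat_lit 504) (nat_lit 459) (nat_lit 237)) (XT.lf (nat_lit 0) (nat_lit 535191109507) (nat_lit 76) (nat_lit 2082846635983) (nat_lit 76) (nat_lit 809127206178) (nat_lit 24) (nat_lit 4) (nat_lit 25) (nat_lit 5) (nat_lit 25) (nat_lit 4) (nat_lit 505) (nat_lit 459) (nat_lit 236))))) (XT.nd (nat_lit 234) (nat_lit 228) (nat_lit 0) (XT.nd (nat_lit 78) (nat_lit 76) (nat_lit 0) (XT.lf (nat_lit 0) (nat_lit 89693306655) (nat_lit 152) (nat_lit 1087157355281) (nat_lit 76) (nat_lit 2444988178483) (nat_lit 23) (nat_lit 5) (nat_lit 25) (nat_lit 5) (nat_lit 24) (nat_lit 4) (nat_lit 506) (nat_lit 459) (nat_lit 235)) (XT.nd (nat_lit 78) (nat_lit 0) (nat_lit 0) (XT.lf (nat_lit 0) (nat_lit 885315201289) (nat_lit 76) (nat_lit 152682220580) (nat_lit 152) (nat_lit 2790704567374) (nat_lit 22) (nat_lit 5) (nat_lit 23) (nat_lit 5) (nat_lit 24) (nat_lit 4) (nat_lit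 507) (nat_lit 459) (nat_lit 234)) (XT.lf (nat_lit 0) (nat_lit 2115592509495) (nat_lit 152) (nat_lit 996024890496) (nat_lit 0) (nat_lit 936222658526) (nat_lit 22) (nat_lit 5) (nat_lit 24) (nat_lit 4) (nat_lit 22) (nat_lit 4) (nat_lit 508) (nat_lit 459) (nat_lit 233)))) (XT.nd (nat_lit 78) (nat_lit 152) (nat_lit 0) (XT.lf (nat_lit 0) (nat_lit 1161250637391) (nat_lit 76) (nat_lit 2150038439756) (nat_lit 76) (nat_lit 970668586346) (nat_lit 21) (nat_lit 4) (nat_lit 22) (nat_lit 5) (nat_lit 22) (nat_lit 4) (nat_lit 509) (nat_lit 459) (nat_lit 232)) (XT.nd (nat_lit 78) (nat_lit 76) (nat_lit 0) (XT.lf (nat_lit 0) (nat_lit 92383660994) (nat_lit 152) (nat_lit 987211840801) (nat_lit 76) (nat_lit 3452843422439) (nat_lit 20) (nat_lit 5) (nat_lit 22) (nat_lit 5) (nat_lit 21) (nat_lit 4) (nat_lit 510) (nat_lit 459) (nat_lit 231)) (XT.lf (nat_lit 0) (nat_lit 1224085012615) (nat_lit 152) (nat_lit 3441897115251)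 (nat_lit 0) (nat_lit 132075885057) (nat_lit 19) (nat_lit 5) (nat_lit 21) (nat_lit 4) (nat_lit 19) (nat_lit 4) (nat_lit 511) (nat_lit 459) (nat_lit 230))))))) (XT.nd (nat_lit 936) (nat_lit 0) (nat_lit 0) (XT.nd (nat_lit 468) (nat_lit 228) (nat_lit 0) (XT.nd (nat_lit 234) (nat_lit 228) (nat_lit 0) (XT.nd (nat_lit 78) (nat_lit 76) (nat_lit 0) (XT.lf (nat_lit 0) (nat_lit 2502057124914) (nat_lit 152) (nat_lit 1168362736028) (nat_lit 0) (nat_lit 1410047995562) (nat_lit 19) (nat_lit 5) (nat_lit 21) (nat_lit 4) (nat_lit 19) (nat_lit 4) (nat_lit 512) (nat_lit 459) (nat_lit 229)) (XT.nd (nat_lit 78) (nat_lit 0) (nat_lit 0) (XT.lf (nat_lit 0) (nat_lit 1354828388550) (nat_lit 76) (nat_lit 2560022268964) (nat_lit 76) (nat_lit 1468013137951) (nat_lit 18) (nat_lit 4) (nat_lit 19) (nat_lit 5) (nat_lit 19) (nat_lit 4) (nat_lit 513) (nat_lit 459) (nat_lit 228)) (XT.lf (nat_lit 0) (nat_lit 4146320619290)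 (nat_lit 76) (nat_lit 1326292157250) (nat_lit 76) (nat_lit 234283024698) (nat_lit 18) (nat_lit 4) (nat_lit 19) (nat_lit 5) (nat_lit 19) (nat_lit 4) (nat_lit 514) (nat_lit 459) (nat_lit 227)))) (XT.nd (nat_lit 78) (nat_lit 76) (nat_lit 0) (XT.lf (nat_lit 0) (nat_lit 1072042033743) (nat_lit 152) (nat_lit 4919466616718) (nat_lit 0) (nat_lit 60922465247) (nat_lit 16) (nat_lit 5) (nat_lit 18) (nat_lit 4) (nat_lit 16) (nat_lit 4) (nat_lit 515) (nat_lit 459) (nat_lit 226)) (XT.nd (nat_lit 78) (nat_lit 76) (nat_lit 0) (XT.lf (nat_lit 0) (nat_lit 2548442045435) (nat_lit 152) (nat_lit 2333099806940) (nat_lit 0) (nat_lit 1537322475717) (nat_lit 16) (nat_lit 5) (nat_lit 18) (nat_lit 4) (nat_lit 16) (nat_lit 4) (nat_lit 516) (nat_lit 459) (nat_lit 225)) (XT.lf (nat_lit 0) (nat_lit 484408411287) (nat_lit 76) (nat_lit 3670195677293) (nat_lit 76) (nat_lit 2659076106445) (nat_lit 15) (nat_lit 4) (nat_lit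 16) (nat_lit 5) (nat_lit 16) (nat_lit 4) (nat_lit 517) (nat_lit 459) (nat_lit 224))))) (XT.nd (nat_lit 234) (nat_lit 76) (nat_lit 0) (XT.nd (nat_lit 78) (nat_lit 152) (nat_lit 0) (XT.lf (nat_lit 0) (nat_lit 3660002733542) (nat_lit 76) (nat_lit 2293047441633) (nat_lit 76) (nat_lit 1281927869738) (nat_lit 15) (nat_lit 4) (nat_lit 16) (nat_lit 5) (nat_lit 16) (nat_lit 4) (nat_lit 518) (nat_lit 459) (nat_lit 223)) (XT.nd (nat_lit 78) (nat_lit 76) (nat_lit 0) (XT.lf (nat_lit 0) (nat_lit 195117671757) (nat_lit 152) (nat_lit 605274815609) (nat_lit 76) (nat_lit 6889192060642) (nat_lit 14) (nat_lit 5) (nat_lit 16) (nat_lit 5) (nat_lit 15) (nat_lit 4) (nat_lit 519) (nat_lit 459) (nat_lit 222)) (XT.lf (nat_lit 0) (nat_lit 1808174711857) (nat_lit 152) (nat_lit 5490799808403) (nat_lit 0) (nat_lit 871952884300) (nat_lit 13) (nat_lit 5) (nat_lit 15) (nat_lit 4) (nat_lit 13) (nat_lit 4) (nat_lit 520) (nat_lit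 459) (nat_lit 221)))) (XT.nd (nat_lit 78) (nat_lit 76) (nat_lit 0) (XT.lf (nat_lit 0) (nat_lit 3588044865183) (nat_lit 152) (nat_lit 2447888303596) (nat_lit 0) (nat_lit 2651823036857) (nat_lit 13) (nat_lit 5) (nat_lit 15) (nat_lit 4) (nat_lit 13) (nat_lit 4) (nat_lit 521) (nat_lit 459) (nat_lit 220)) (XT.nd (nat_lit 78) (nat_lit 0) (nat_lit 0) (XT.lf (nat_lit 0) (nat_lit 882607729284) (nat_lit 76) (nat_lit 4648923635900) (nat_lit 76) (nat_lit 3712701806861) (nat_lit 12) (nat_lit 4) (nat_lit 13) (nat_lit 5) (nat_lit 13) (nat_lit 4) (nat_lit 522) (nat_lit 459) (nat_lit 219)) (XT.lf (nat_lit 0) (nat_lit 4618757016264) (nat_lit 76) (nat_lit 3078669370536) (nat_lit 76) (nat_lit 2142447540838) (nat_lit 12) (nat_lit 4) (nat_lit 13) (nat_lit 5) (nat_lit 13) (nat_lit 4) (nat_lit 523) (nat_lit 459) (nat_lit 218)))))) (XT.nd (nat_lit 57876) (nat_lit 0) (nat_lit 4028) (XT.nd (nat_lit 57642) (nat_lit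 0) (nat_lit 4560) (XT.nd (nat_lit 57486) (nat_lit 0) (nat_lit 5016) (XT.lf (nat_lit 0) (nat_lit 8653798241228) (nat_lit 76) (nat_lit 1382794766478) (nat_lit 76) (nat_lit 446572936168) (nat_lit 12) (nat_lit 4) (nat_lit 13) (nat_lit 5) (nat_lit 13) (nat_lit 4) (nat_lit 524) (nat_lit 459) (nat_lit 217)) (XT.nd (nat_lit 78) (nat_lit 0) (nat_lit 0) (XT.lf (nat_lit 0) (nat_lit 195747933734) (nat_lit 532) (nat_lit 4956669842) (nat_lit 532) (nat_lit 4956669842) (nat_lit 78) (nat_lit 3) (nat_lit 85) (nat_lit 3) (nat_lit 85) (nat_lit 5) (nat_lit 460) (nat_lit 460) (nat_lit 280)) (XT.lf (nat_lit 76) (nat_lit 203460558885) (nat_lit 0) (nat_lit 208588738733) (nat_lit 532) (nat_lit 15334663309) (nat_lit 79) (nat_lit 5) (nat_lit 78) (nat_lit 3) (nat_lit 85) (nat_lit 5) (nat_lit 461) (nat_lit 460) (nat_lit 279)))) (XT.nd (nat_lit 78) (nat_lit 456) (nat_lit 0) (XT.lf (nat_lit 76) (nat_lit 434468129037)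 (nat_lit 0) (nat_lit 49884491) (nat_lit 532) (nat_lit 10190593724) (nat_lit 79) (nat_lit 5) (nat_lit 78) (nat_lit 3) (nat_lit 85) (nat_lit 5) (nat_lit 462) (nat_lit 460) (nat_lit 278)) (XT.nd (nat_lit 78) (nat_lit 0) (nat_lit 0) (XT.lf (nat_lit 0) (nat_lit 6740457251) (nat_lit 532) (nat_lit 236271362640) (nat_lit 608) (nat_lit 219524835597) (nat_lit 72) (nat_lit 5) (nat_lit 79) (nat_lit 5) (nat_lit 80) (nat_lit 5) (nat_lit 463) (nat_lit 460) (nat_lit 277)) (XT.lf (nat_lit 76) (nat_lit 244300988) (nat_lit 0) (nat_lit 24525538387) (nat_lit 608) (nat_lit 456976380655) (nat_lit 73) (nat_lit 5) (nat_lit 72) (nat_lit 5) (nat_lit 80) (nat_lit 5) (nat_lit 464) (nat_lit 460) (nat_lit 276))))) (XT.nd (nat_lit 234) (nat_lit 608) (nat_lit 0) (XT.nd (nat_lit 78) (nat_lit 0) (nat_lit 0) (XT.lf (nat_lit 0) (nat_lit 55954541999) (nat_lit 532) (nat_lit 238110512381) (nat_lit 608) (nat_lit 207490457770)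 (nat_lit 73) (nat_lit 5) (nat_lit 80) (nat_lit 5) (nat_lit 81) (nat_lit 5) (nat_lit 465) (nat_lit 460) (nat_lit 275)) (XT.nd (nat_lit 78) (nat_lit 0) (nat_lit 76) (XT.lf (nat_lit 76) (nat_lit 25385017589) (nat_lit 0) (nat_lit 65496512142) (nat_lit 608) (nat_lit 431968217208) (nat_lit 74) (nat_lit 5) (nat_lit 73) (nat_lit 5) (nat_lit 81) (nat_lit 5) (nat_lit 466) (nat_lit 460) (nat_lit 274)) (XT.lf (nat_lit 0) (nat_lit 139643766048) (nat_lit 532) (nat_lit 226355723855) (nat_lit 76) (nat_lit 178964743451) (nat_lit 74) (nat_lit 5) (nat_lit 81) (nat_lit 5) (nat_lit 75) (nat_lit 5) (nat_lit 467) (nat_lit 460) (nat_lit 273)))) (XT.nd (nat_lit 78) (nat_lit 228) (nat_lit 0) (XT.lf (nat_lit 0) (nat_lit 68149904804) (nat_lit 456) (nat_lit 127497266683) (nat_lit 532) (nat_lit 372933491987) (nat_lit 68) (nat_lit 5) (nat_lit 74) (nat_lit 5) (nat_lit 75) (nat_lit 5) (nat_lit 468) (nat_lit 460) (nat_lit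 272)) (XT.nd (nat_lit 78) (nat_lit 228) (nat_lit 0) (XT.lf (nat_lit 0) (nat_lit 265609095539) (nat_lit 532) (nat_lit 197791584045) (nat_lit 76) (nat_lit 129927468733) (nat_lit 68) (nat_lit 5) (nat_lit 75) (nat_lit 5) (nat_lit 69) (nat_lit 5) (nat_lit 469) (nat_lit 460) (nat_lit 271)) (XT.lf (nat_lit 0) (nat_lit 132368702961) (nat_lit 228) (nat_lit 215294336654) (nat_lit 304) (nat_lit 271872787052) (nat_lit 65) (nat_lit 5) (nat_lit 68) (nat_lit 5) (nat_lit 69) (nat_lit 5) (nat_lit 470) (nat_lit 460) (nat_lit 270))))))))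
noncomputable def xc219 : XT := (XT.nd (nat_lit 1794) (nat_lit 1444) (nat_lit 0) (XT.nd (nat_lit 858) (nat_lit 1064) (nat_lit 0) (XT.nd (nat_lit 390) (nat_lit 532) (nat_lit 0) (XT.nd (nat_lit 156) (nat_lit 456) (nat_lit 0) (XT.nd (nat_lit 78) (nat_lit 228) (nat_lit 0) (XT.lf (nat_lit 0) (nat_lit 443096204408) (nat_lit 304) (nat_lit 148624063284) (nat_lit 76) (nat_lit 55574659185) (nat_lit 65) (nat_lit 5) (nat_lit 69) (nat_lit 5) (nat_lit 66) (nat_lit 5) (nat_lit 471) (nat_lit 460) (nat_lit 269)) (XT.lf (nat_lit 0) (nat_lit 222542853984) (nat_lit 228) (nat_lit 334565370939) (nat_lit 304) (nat_lit 119290993983) (nat_lit 62) (nat_lit 5) (nat_lit 65) (nat_lit 5) (nat_lit 66) (nat_lit 5) (nat_lit 472) (nat_lit 460) (nat_lit 268))) (XT.nd (nat_lit 78) (nat_lit 456) (nat_lit 0) (XT.lf (nat_lit 0) (nat_lit 631855485211) (nat_lit 228) (nat_lit 52449348900) (nat_lit 304) (nat_lit 23201930030) (nat_lit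 62) (nat_lit 5) (nat_lit 65) (nat_lit 5) (nat_lit 66) (nat_lit 5) (nat_lit 473) (nat_lit 460) (nat_lit 267)) (XT.nd (nat_lit 78) (nat_lit 228) (nat_lit 0) (XT.lf (nat_lit 0) (nat_lit 91254292231) (nat_lit 228) (nat_lit 398316420080) (nat_lit 76) (nat_lit 250200320944) (nat_lit 59) (nat_lit 5) (nat_lit 62) (nat_lit 5) (nat_lit 60) (nat_lit 5) (nat_lit 474) (nat_lit 460) (nat_lit 266)) (XT.lf (nat_lit 0) (nat_lit 20802260945) (nat_lit 228) (nat_lit 196796009197) (nat_lit 304) (nat_lit 556651180776) (nat_lit 56) (nat_lit 5) (nat_lit 59) (nat_lit 5) (nat_lit 60) (nat_lit 5) (nat_lit 475) (nat_lit 460) (nat_lit 265))))) (XT.nd (nat_lit 234) (nat_lit 380) (nat_lit 0) (XT.nd (nat_lit 78) (nat_lit 152) (nat_lit 0) (XT.lf (nat_lit 0) (nat_lit 368094890769) (nat_lit 304) (nat_lit 317666329587) (nat_lit 76) (nat_lit 124601311687) (nat_lit 56) (nat_lit 5) (nat_lit 60) (nat_lit 5) (nat_lit 57) (nat_lit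 5) (nat_lit 476) (nat_lit 460) (nat_lit 264)) (XT.nd (nat_lit 78) (nat_lit 0) (nat_lit 0) (XT.lf (nat_lit 0) (nat_lit 155651724027) (nat_lit 152) (nat_lit 383834514532) (nat_lit 228) (nat_lit 309170021300) (nat_lit 54) (nat_lit 5) (nat_lit 56) (nat_lit 5) (nat_lit 57) (nat_lit 5) (nat_lit 477) (nat_lit 460) (nat_lit 263)) (XT.lf (nat_lit 0) (nat_lit 684901167514) (nat_lit 152) (nat_lit 48373272834) (nat_lit 228) (nat_lit 156044201862) (nat_lit 54) (nat_lit 5) (nat_lit 56) (nat_lit 5) (nat_lit 57) (nat_lit 5) (nat_lit 478) (nat_lit 460) (nat_lit 262)))) (XT.nd (nat_lit 78) (nat_lit 152) (nat_lit 0) (XT.lf (nat_lit 0) (nat_lit 24811035078) (nat_lit 228) (nat_lit 600287562884) (nat_lit 76) (nat_lit 306841770172) (nat_lit 51) (nat_lit 5) (nat_lit 54) (nat_lit 5) (nat_lit 52) (nat_lit 5) (nat_lit 479) (nat_lit 460) (nat_lit 261)) (XT.nd (nat_lit 78) (nat_lit 152) (nat_lit 0) (XT.lf (nat_lit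 0) (nat_lit 218694994892) (nat_lit 228) (nat_lit 60745327601) (nat_lit 76) (nat_lit 697648002436) (nat_lit 51) (nat_lit 5) (nat_lit 54) (nat_lit 5) (nat_lit 52) (nat_lit 5) (nat_lit 480) (nat_lit 460) (nat_lit 260)) (XT.lf (nat_lit 0) (nat_lit 443904659320) (nat_lit 228) (nat_lit 477946029484) (nat_lit 76) (nat_lit 102732230441) (nat_lit 49) (nat_lit 5) (nat_lit 52) (nat_lit 5) (nat_lit 50) (nat_lit 5) (nat_lit 481) (nat_lit 460) (nat_lit 259)))))) (XT.nd (nat_lit 468) (nat_lit 532) (nat_lit 0) (XT.nd (nat_lit 234) (nat_lit 228) (nat_lit 0) (XT.nd (nat_lit 78) (nat_lit 152) (nat_lit 0) (XT.lf (nat_lit 0) (nat_lit 129496716396) (nat_lit 152) (nat_lit 569710982804) (nat_lit 228) (nat_lit 375703253724) (nat_lit 47) (nat_lit 5) (nat_lit 49) (nat_lit 5) (nat_lit 50) (nat_lit 5) (nat_lit 482) (nat_lit 460) (nat_lit 258)) (XT.nd (nat_lit 78) (nat_lit 152) (nat_lit 0) (XT.lf (nat_lit 0) (nat_lit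 812716078043) (nat_lit 152) (nat_lit 175286784292) (nat_lit 228) (nat_lit 140216936560) (nat_lit 47) (nat_lit 5) (nat_lit 49) (nat_lit 5) (nat_lit 50) (nat_lit 5) (nat_lit 483) (nat_lit 460) (nat_lit 257)) (XT.lf (nat_lit 0) (nat_lit 123904564177) (nat_lit 152) (nat_lit 810058519797) (nat_lit 76) (nat_lit 250370369064) (nat_lit 45) (nat_lit 5) (nat_lit 47) (nat_lit 5) (nat_lit 46) (nat_lit 5) (nat_lit 484) (nat_lit 460) (nat_lit 256)))) (XT.nd (nat_lit 78) (nat_lit 228) (nat_lit 0) (XT.lf (nat_lit 0) (nat_lit 414983815309) (nat_lit 152) (nat_lit 115486211763) (nat_lit 76) (nat_lit 713102541623) (nat_lit 45) (nat_lit 5) (nat_lit 47) (nat_lit 5) (nat_lit 46) (nat_lit 5) (nat_lit 485) (nat_lit 460) (nat_lit 255)) (XT.nd (nat_lit 78) (nat_lit 76) (nat_lit 0) (XT.lf (nat_lit 0) (nat_lit 668071507138) (nat_lit 152) (nat_lit 77345025419) (nat_lit 228) (nat_lit 560848910966) (nat_lit 43) (nat_lit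 5) (nat_lit 45) (nat_lit 5) (nat_lit 46) (nat_lit 5) (nat_lit 486) (nat_lit 460) (nat_lit 254)) (XT.lf (nat_lit 0) (nat_lit 144392227405) (nat_lit 76) (nat_lit 974513210781) (nat_lit 152) (nat_lit 253738584474) (nat_lit 42) (nat_lit 5) (nat_lit 43) (nat_lit 5) (nat_lit 44) (nat_lit 4) (nat_lit 487) (nat_lit 460) (nat_lit 253))))) (XT.nd (nat_lit 234) (nat_lit 304) (nat_lit 0) (XT.nd (nat_lit 78) (nat_lit 152) (nat_lit 0) (XT.lf (nat_lit 0) (nat_lit 93953200593) (nat_lit 152) (nat_lit 421393681655) (nat_lit 76) (nat_lit 927243125251) (nat_lit 41) (nat_lit 5) (nat_lit 43) (nat_lit 5) (nat_lit 42) (nat_lit 5) (nat_lit 488) (nat_lit 460) (nat_lit 252)) (XT.nd (nat_lit 78) (nat_lit 0) (nat_lit 0) (XT.lf (nat_lit 0) (nat_lit 466772293701) (nat_lit 152) (nat_lit 205436671) (nat_lit 228) (nat_lit 1049728621661) (nat_lit 39) (nat_lit 5) (nat_lit 41) (nat_lit 5) (nat_lit 42) (nat_lit 5) (nat_lit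 489) (nat_lit 460) (nat_lit 251)) (XT.lf (nat_lit 0) (nat_lit 895040484062) (nat_lit 228) (nat_lit 159548328605) (nat_lit 76) (nat_lit 540147490542) (nat_lit 39) (nat_lit 5) (nat_lit 42) (nat_lit 5) (nat_lit 40) (nat_lit 4) (nat_lit 490) (nat_lit 460) (nat_lit 250)))) (XT.nd (nat_lit 78) (nat_lit 228) (nat_lit 0) (XT.lf (nat_lit 0) (nat_lit 844298120589) (nat_lit 76) (nat_lit 533360855552) (nat_lit 152) (nat_lit 299724816890) (nat_lit 38) (nat_lit 5) (nat_lit 39) (nat_lit 5) (nat_lit 40) (nat_lit 4) (nat_lit 491) (nat_lit 460) (nat_lit 249)) (XT.nd (nat_lit 78) (nat_lit 0) (nat_lit 0) (XT.lf (nat_lit 0) (nat_lit 135376059594) (nat_lit 228) (nat_lit 1589929428503) (nat_lit 76) (nat_lit 40303351070) (nat_lit 35) (nat_lit 5) (nat_lit 38) (nat_lit 5) (nat_lit 36) (nat_lit 4) (nat_lit 492) (nat_lit 460) (nat_lit 248)) (XT.lf (nat_lit 0) (nat_lit 626315277879) (nat_lit 228) (nat_lit 568775865847)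 (nat_lit 76) (nat_lit 662200084705) (nat_lit 35) (nat_lit 5) (nat_lit 38) (nat_lit 5) (nat_lit 36) (nat_lit 4) (nat_lit 493) (nat_lit 460) (nat_lit 247))))))) (XT.nd (nat_lit 936) (nat_lit 684) (nat_lit 0) (XT.nd (nat_lit 468) (nat_lit 380) (nat_lit 0) (XT.nd (nat_lit 234) (nat_lit 152) (nat_lit 0) (XT.nd (nat_lit 78) (nat_lit 152) (nat_lit 0) (XT.lf (nat_lit 0) (nat_lit 562193146502) (nat_lit 76) (nat_lit 607857238533) (nat_lit 152) (nat_lit 785176163689) (nat_lit 34) (nat_lit 5) (nat_lit 35) (nat_lit 5) (nat_lit 36) (nat_lit 4) (nat_lit 494) (nat_lit 460) (nat_lit 246)) (XT.nd (nat_lit 78) (nat_lit 152) (nat_lit 0) (XT.lf (nat_lit 0) (nat_lit 1773873412101) (nat_lit 152) (nat_lit 244803912019) (nat_lit 0) (nat_lit 40992241614) (nat_lit 34) (nat_lit 5) (nat_lit 36) (nat_lit 4) (nat_lit 34) (nat_lit 4) (nat_lit 495) (nat_lit 460) (nat_lit 245)) (XT.lf (nat_lit 0) (nat_lit 282491470233)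 (nat_lit 152) (nat_lit 1145298920763) (nat_lit 76) (nat_lit 740858630842) (nat_lit 32) (nat_lit 5) (nat_lit 34) (nat_lit 5) (nat_lit 33) (nat_lit 4) (nat_lit 496) (nat_lit 460) (nat_lit 244)))) (XT.nd (nat_lit 78) (nat_lit 76) (nat_lit 0) (XT.lf (nat_lit 0) (nat_lit 119445279567) (nat_lit 76) (nat_lit 771096290701) (nat_lit 152) (nat_lit 1394432211478) (nat_lit 31) (nat_lit 5) (nat_lit 32) (nat_lit 5) (nat_lit 33) (nat_lit 4) (nat_lit 497) (nat_lit 460) (nat_lit 243)) (XT.nd (nat_lit 78) (nat_lit 76) (nat_lit 0) (XT.lf (nat_lit 0) (nat_lit 1550503168166) (nat_lit 76) (nat_lit 28047005836) (nat_lit 152) (nat_lit 829549188788) (nat_lit 31) (nat_lit 5) (nat_lit 32) (nat_lit 5) (nat_lit 33) (nat_lit 4) (nat_lit 498) (nat_lit 460) (nat_lit 242)) (XT.lf (nat_lit 0) (nat_lit 564588225247) (nat_lit 76) (nat_lit 1789215045354) (nat_lit 76) (nat_lit 184695415354) (nat_lit 30) (nat_lit 4) (nat_lit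 31) (nat_lit 5) (nat_lit 31) (nat_lit 4) (nat_lit 499) (nat_lit 460) (nat_lit 241))))) (XT.nd (nat_lit 234) (nat_lit 228) (nat_lit 0) (XT.nd (nat_lit 78) (nat_lit 76) (nat_lit 0) (XT.lf (nat_lit 0) (nat_lit 510932750928) (nat_lit 152) (nat_lit 541779513759) (nat_lit 76) (nat_lit 1623650230209) (nat_lit 29) (nat_lit 5) (nat_lit 31) (nat_lit 5) (nat_lit 30) (nat_lit 4) (nat_lit 500) (nat_lit 460) (nat_lit 240)) (XT.nd (nat_lit 78) (nat_lit 0) (nat_lit 0) (XT.lf (nat_lit 0) (nat_lit 1052789404455) (nat_lit 76) (nat_lit 224763021225) (nat_lit 152) (nat_lit 1545293631800) (nat_lit 28) (nat_lit 5) (nat_lit 29) (nat_lit 5) (nat_lit 30) (nat_lit 4) (nat_lit 501) (nat_lit 460) (nat_lit 239)) (XT.lf (nat_lit 0) (nat_lit 2136799258700) (nat_lit 152) (nat_lit 190612319669) (nat_lit 0) (nat_lit 651132919959) (nat_lit 28) (nat_lit 5) (nat_lit 30) (nat_lit 4) (nat_lit 28) (nat_lit 4) (nat_lit 502) (nat_lit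 460) (nat_lit 238)))) (XT.nd (nat_lit 78) (nat_lit 152) (nat_lit 0) (XT.lf (nat_lit 0) (nat_lit 1588829222251) (nat_lit 76) (nat_lit 1520005992503) (nat_lit 76) (nat_lit 34339649580) (nat_lit 27) (nat_lit 4) (nat_lit 28) (nat_lit 5) (nat_lit 28) (nat_lit 4) (nat_lit 503) (nat_lit 460) (nat_lit 237)) (XT.nd (nat_lit 78) (nat_lit 0) (nat_lit 0) (XT.lf (nat_lit 0) (nat_lit 190138046135) (nat_lit 76) (nat_lit 615537142774) (nat_lit 152) (nat_lit 2512895225055) (nat_lit 25) (nat_lit 5) (nat_lit 26) (nat_lit 5) (nat_lit 27) (nat_lit 4) (nat_lit 504) (nat_lit 460) (nat_lit 236)) (XT.lf (nat_lit 0) (nat_lit 1763327413859) (nat_lit 152) (nat_lit 1352705101236) (nat_lit 0) (nat_lit 387710422763) (nat_lit 25) (nat_lit 5) (nat_lit 27) (nat_lit 4) (nat_lit 25) (nat_lit 4) (nat_lit 505) (nat_lit 460) (nat_lit 235)))))) (XT.nd (nat_lit 468) (nat_lit 304) (nat_lit 0) (XT.nd (nat_lit 234) (nat_lit 152)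 (nat_lit 0) (XT.nd (nat_lit 78) (nat_lit 152) (nat_lit 0) (XT.lf (nat_lit 0) (nat_lit 578006590188) (nat_lit 76) (nat_lit 2249474272007) (nat_lit 76) (nat_lit 873857277837) (nat_lit 24) (nat_lit 4) (nat_lit 25) (nat_lit 5) (nat_lit 25) (nat_lit 4) (nat_lit 506) (nat_lit 460) (nat_lit 234)) (XT.nd (nat_lit 78) (nat_lit 76) (nat_lit 0) (XT.lf (nat_lit 0) (nat_lit 96868863402) (nat_lit 152) (nat_lit 1174129761140) (nat_lit 76) (nat_lit 2640587315730) (nat_lit 23) (nat_lit 5) (nat_lit 25) (nat_lit 5) (nat_lit 24) (nat_lit 4) (nat_lit 507) (nat_lit 460) (nat_lit 233)) (XT.lf (nat_lit 0) (nat_lit 956140595334) (nat_lit 76) (nat_lit 164896709948) (nat_lit 152) (nat_lit 3013960835924) (nat_lit 22) (nat_lit 5) (nat_lit 23) (nat_lit 5) (nat_lit 24) (nat_lit 4) (nat_lit 508) (nat_lit 460) (nat_lit 232)))) (XT.nd (nat_lit 78) (nat_lit 152) (nat_lit 0) (XT.lf (nat_lit 0) (nat_lit 2284839995243) (nat_lit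 152) (nat_lit 1075706712295) (nat_lit 0) (nat_lit 1011120548859) (nat_lit 22) (nat_lit 5) (nat_lit 24) (nat_lit 4) (nat_lit 22) (nat_lit 4) (nat_lit 509) (nat_lit 460) (nat_lit 231)) (XT.nd (nat_lit 78) (nat_lit 76) (nat_lit 0) (XT.lf (nat_lit 0) (nat_lit 1254150853533) (nat_lit 76) (nat_lit 2322041432450) (nat_lit 76) (nat_lit 1048321983973) (nat_lit 21) (nat_lit 4) (nat_lit 22) (nat_lit 5) (nat_lit 22) (nat_lit 4) (nat_lit 510) (nat_lit 460) (nat_lit 230)) (XT.lf (nat_lit 0) (nat_lit 99774432405) (nat_lit 152) (nat_lit 1066188631010) (nat_lit 76) (nat_lit 3729070968473) (nat_lit 20) (nat_lit 5) (nat_lit 22) (nat_lit 5) (nat_lit 21) (nat_lit 4) (nat_lit 511) (nat_lit 460) (nat_lit 229))))) (XT.nd (nat_lit 234) (nat_lit 152) (nat_lit 0) (XT.nd (nat_lit 78) (nat_lit 76) (nat_lit 0) (XT.lf (nat_lit 0) (nat_lit 1322011891865) (nat_lit 152) (nat_lit 3717248727122) (nat_lit 0) (nat_lit 142642028709)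 (nat_lit 19) (nat_lit 5) (nat_lit 21) (nat_lit 4) (nat_lit 19) (nat_lit 4) (nat_lit 512) (nat_lit 460) (nat_lit 228)) (XT.nd (nat_lit 78) (nat_lit 76) (nat_lit 0) (XT.lf (nat_lit 0) (nat_lit 2702221767352) (nat_lit 152) (nat_lit 1261831609216) (nat_lit 0) (nat_lit 1522851902658) (nat_lit 19) (nat_lit 5) (nat_lit 21) (nat_lit 4) (nat_lit 19) (nat_lit 4) (nat_lit 513) (nat_lit 460) (nat_lit 227)) (XT.lf (nat_lit 0) (nat_lit 1463214801639) (nat_lit 76) (nat_lit 2764823978970) (nat_lit 76) (nat_lit 1585454112851) (nat_lit 18) (nat_lit 4) (nat_lit 19) (nat_lit 5) (nat_lit 19) (nat_lit 4) (nat_lit 514) (nat_lit 460) (nat_lit 226)))) (XT.nd (nat_lit 78) (nat_lit 152) (nat_lit 0) (XT.lf (nat_lit 0) (nat_lit 4478026400320) (nat_lit 76) (nat_lit 1432395463615) (nat_lit 76) (nat_lit 253025596178) (nat_lit 18) (nat_lit 4) (nat_lit 19) (nat_lit 5) (nat_lit 19) (nat_lit 4) (nat_lit 515) (nat_lit 460)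 (nat_lit 225)) (XT.nd (nat_lit 78) (nat_lit 0) (nat_lit 0) (XT.lf (nat_lit 0) (nat_lit 1157805463214) (nat_lit 152) (nat_lit 5313023810840) (nat_lit 0) (nat_lit 65796325567) (nat_lit 16) (nat_lit 5) (nat_lit 18) (nat_lit 4) (nat_lit 16) (nat_lit 4) (nat_lit 516) (nat_lit 460) (nat_lit 224)) (XT.lf (nat_lit 0) (nat_lit 2752317470895) (nat_lit 152) (nat_lit 2519747666296) (nat_lit 0) (nat_lit 1660308332201) (nat_lit 16) (nat_lit 5) (nat_lit 18) (nat_lit 4) (nat_lit 16) (nat_lit 4) (nat_lit 517) (nat_lit 460) (nat_lit 223))))))))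
noncomputable def xc220 : XT := (XT.nd (nat_lit 59280) (nat_lit 0) (nat_lit 1444) (XT.nd (nat_lit 58344) (nat_lit 0) (nat_lit 3344) (XT.nd (nat_lit 390) (nat_lit 76) (nat_lit 0) (XT.nd (nat_lit 156) (nat_lit 152) (nat_lit 0) (XT.nd (nat_lit 78) (nat_lit 0) (nat_lit 0) (XT.lf (nat_lit 0) (nat_lit 523161206219) (nat_lit 76) (nat_lit 3963811269627) (nat_lit 76) (nat_lit 2871802129965) (nat_lit 15) (nat_lit 4) (nat_lit 16) (nat_lit 5) (nat_lit 16) (nat_lit 4) (nat_lit 518) (nat_lit 460) (nat_lit 222)) (XT.lf (nat_lit 0) (nat_lit 3952803065216) (nat_lit 76) (nat_lit 2476491179696) (nat_lit 76) (nat_lit 1384482039136) (nat_lit 15) (nat_lit 4) (nat_lit 16) (nat_lit 5) (nat_lit 16) (nat_lit 4) (nat_lit 519) (nat_lit 460) (nat_lit 221))) (XT.nd (nat_lit 78) (nat_lit 76) (nat_lit 0) (XT.lf (nat_lit 0) (nat_lit 210727138433) (nat_lit 152) (nat_lit 653696693449) (nat_lit 76) (nat_lit 7440327475730)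 (nat_lit 14) (nat_lit 5) (nat_lit 16) (nat_lit 5) (nat_lit 15) (nat_lit 4) (nat_lit 520) (nat_lit 460) (nat_lit 220)) (XT.nd (nat_lit 78) (nat_lit 0) (nat_lit 0) (XT.lf (nat_lit 0) (nat_lit 1952828741617) (nat_lit 152) (nat_lit 5930063685540) (nat_lit 0) (nat_lit 941709165542) (nat_lit 13) (nat_lit 5) (nat_lit 15) (nat_lit 4) (nat_lit 13) (nat_lit 4) (nat_lit 521) (nat_lit 460) (nat_lit 219)) (XT.lf (nat_lit 0) (nat_lit 3875088503297) (nat_lit 152) (nat_lit 2643719268314) (nat_lit 0) (nat_lit 2863968926563) (nat_lit 13) (nat_lit 5) (nat_lit 15) (nat_lit 4) (nat_lit 13) (nat_lit 4) (nat_lit 522) (nat_lit 460) (nat_lit 218))))) (XT.nd (nat_lit 57720) (nat_lit 0) (nat_lit 4560) (XT.nd (nat_lit 78) (nat_lit 0) (nat_lit 0) (XT.lf (nat_lit 0) (nat_lit 953216444676) (nat_lit 76) (nat_lit 5020837477334) (nat_lit 76) (nat_lit 4009717899989) (nat_lit 12) (nat_lit 4) (nat_lit 13) (nat_lit 5) (nat_lit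 13) (nat_lit 4) (nat_lit 523) (nat_lit 460) (nat_lit 217)) (XT.nd (nat_lit 57564) (nat_lit 0) (nat_lit 5016) (XT.lf (nat_lit 0) (nat_lit 4988257667425) (nat_lit 76) (nat_lit 3324962874403) (nat_lit 76) (nat_lit 2313843296493) (nat_lit 12) (nat_lit 4) (nat_lit 13) (nat_lit 5) (nat_lit 13) (nat_lit 4) (nat_lit 524) (nat_lit 460) (nat_lit 216)) (XT.lf (nat_lit 0) (nat_lit 211408123793) (nat_lit 532) (nat_lit 5353011463) (nat_lit 532) (nat_lit 5353011463) (nat_lit 78) (nat_lit 3) (nat_lit 85) (nat_lit 3) (nat_lit 85) (nat_lit 5) (nat_lit 461) (nat_lit 461) (nat_lit 278)))) (XT.nd (nat_lit 78) (nat_lit 456) (nat_lit 0) (XT.lf (nat_lit 76) (nat_lit 219737777809) (nat_lit 0) (nat_lit 225276130695) (nat_lit 532) (nat_lit 16560715668) (nat_lit 79) (nat_lit 5) (nat_lit 78) (nat_lit 3) (nat_lit 85) (nat_lit 5) (nat_lit 462) (nat_lit 461) (nat_lit 277)) (XT.nd (nat_lit 78) (nat_lit 456) (nat_lit 0)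 (XT.lf (nat_lit 76) (nat_lit 469225925854) (nat_lit 0) (nat_lit 54146420) (nat_lit 532) (nat_lit 11005173901) (nat_lit 79) (nat_lit 5) (nat_lit 78) (nat_lit 3) (nat_lit 85) (nat_lit 5) (nat_lit 463) (nat_lit 461) (nat_lit 276)) (XT.lf (nat_lit 0) (nat_lit 7280284300) (nat_lit 532) (nat_lit 255172647870) (nat_lit 608) (nat_lit 237086608310) (nat_lit 72) (nat_lit 5) (nat_lit 79) (nat_lit 5) (nat_lit 80) (nat_lit 5) (nat_lit 464) (nat_lit 461) (nat_lit 275)))))) (XT.nd (nat_lit 468) (nat_lit 912) (nat_lit 0) (XT.nd (nat_lit 234) (nat_lit 304) (nat_lit 0) (XT.nd (nat_lit 78) (nat_lit 0) (nat_lit 76) (XT.lf (nat_lit 76) (nat_lit 264258120) (nat_lit 0) (nat_lit 26487725069) (nat_lit 608) (nat_lit 493533889715) (nat_lit 73) (nat_lit 5) (nat_lit 72) (nat_lit 5) (nat_lit 80) (nat_lit 5) (nat_lit 465) (nat_lit 461) (nat_lit 274)) (XT.nd (nat_lit 78) (nat_lit 0) (nat_lit 0) (XT.lf (nat_lit 0) (nat_lit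 60431417591) (nat_lit 532) (nat_lit 257158926303) (nat_lit 608) (nat_lit 224089568070) (nat_lit 73) (nat_lit 5) (nat_lit 80) (nat_lit 5) (nat_lit 81) (nat_lit 5) (nat_lit 466) (nat_lit 461) (nat_lit 273)) (XT.lf (nat_lit 76) (nat_lit 27416235253) (nat_lit 0) (nat_lit 70736301156) (nat_lit 608) (nat_lit 466525151374) (nat_lit 74) (nat_lit 5) (nat_lit 73) (nat_lit 5) (nat_lit 81) (nat_lit 5) (nat_lit 467) (nat_lit 461) (nat_lit 272)))) (XT.nd (nat_lit 78) (nat_lit 456) (nat_lit 0) (XT.lf (nat_lit 0) (nat_lit 150815714243) (nat_lit 532) (nat_lit 244463758797) (nat_lit 76) (nat_lit 193281863076) (nat_lit 74) (nat_lit 5) (nat_lit 81) (nat_lit 5) (nat_lit 75) (nat_lit 5) (nat_lit 468) (nat_lit 461) (nat_lit 271)) (XT.nd (nat_lit 78) (nat_lit 0) (nat_lit 0) (XT.lf (nat_lit 0) (nat_lit 73602309447) (nat_lit 456) (nat_lit 137697059480) (nat_lit 532) (nat_lit 402767713584) (nat_lit 68) (nat_lit 5)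 (nat_lit 74) (nat_lit 5) (nat_lit 75) (nat_lit 5) (nat_lit 469) (nat_lit 461) (nat_lit 270)) (XT.lf (nat_lit 0) (nat_lit 286858215261) (nat_lit 532) (nat_lit 213614497274) (nat_lit 76) (nat_lit 140321656149) (nat_lit 68) (nat_lit 5) (nat_lit 75) (nat_lit 5) (nat_lit 69) (nat_lit 5) (nat_lit 470) (nat_lit 461) (nat_lit 269))))) (XT.nd (nat_lit 234) (nat_lit 456) (nat_lit 0) (XT.nd (nat_lit 78) (nat_lit 228) (nat_lit 0) (XT.lf (nat_lit 0) (nat_lit 142958602225) (nat_lit 228) (nat_lit 232517853289) (nat_lit 304) (nat_lit 293622207346) (nat_lit 65) (nat_lit 5) (nat_lit 68) (nat_lit 5) (nat_lit 69) (nat_lit 5) (nat_lit 471) (nat_lit 461) (nat_lit 268)) (XT.nd (nat_lit 78) (nat_lit 228) (nat_lit 0) (XT.lf (nat_lit 0) (nat_lit 478544246555) (nat_lit 304) (nat_lit 160513588125) (nat_lit 76) (nat_lit 60020658570) (nat_lit 65) (nat_lit 5) (nat_lit 69) (nat_lit 5) (nat_lit 66) (nat_lit 5) (nat_lit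 472) (nat_lit 461) (nat_lit 267)) (XT.lf (nat_lit 0) (nat_lit 240346672392) (nat_lit 228) (nat_lit 361330540087) (nat_lit 304) (nat_lit 128833917471) (nat_lit 62) (nat_lit 5) (nat_lit 65) (nat_lit 5) (nat_lit 66) (nat_lit 5) (nat_lit 473) (nat_lit 461) (nat_lit 266)))) (XT.nd (nat_lit 78) (nat_lit 456) (nat_lit 0) (XT.lf (nat_lit 0) (nat_lit 682404285222) (nat_lit 228) (nat_lit 56645240768) (nat_lit 304) (nat_lit 25057754774) (nat_lit 62) (nat_lit 5) (nat_lit 65) (nat_lit 5) (nat_lit 66) (nat_lit 5) (nat_lit 474) (nat_lit 461) (nat_lit 265)) (XT.nd (nat_lit 78) (nat_lit 228) (nat_lit 0) (XT.lf (nat_lit 0) (nat_lit 98554936103) (nat_lit 228) (nat_lit 430181343155) (nat_lit 76) (nat_lit 270216412534) (nat_lit 59) (nat_lit 5) (nat_lit 62) (nat_lit 5) (nat_lit 60) (nat_lit 5) (nat_lit 475) (nat_lit 461) (nat_lit 264)) (XT.lf (nat_lit 0) (nat_lit 22466822465) (nat_lit 228) (nat_lit 212539596679)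 (nat_lit 304) (nat_lit 601182964780) (nat_lit 56) (nat_lit 5) (nat_lit 59) (nat_lit 5) (nat_lit 60) (nat_lit 5) (nat_lit 476) (nat_lit 461) (nat_lit 263))))))) (XT.nd (nat_lit 858) (nat_lit 912) (nat_lit 0) (XT.nd (nat_lit 390) (nat_lit 608) (nat_lit 0) (XT.nd (nat_lit 156) (nat_lit 228) (nat_lit 0) (XT.nd (nat_lit 78) (nat_lit 152) (nat_lit 0) (XT.lf (nat_lit 0) (nat_lit 397542750209) (nat_lit 304) (nat_lit 343079264222) (nat_lit 76) (nat_lit 134569498650) (nat_lit 56) (nat_lit 5) (nat_lit 60) (nat_lit 5) (nat_lit 57) (nat_lit 5) (nat_lit 477) (nat_lit 461) (nat_lit 262)) (XT.lf (nat_lit 0) (nat_lit 168104224270) (nat_lit 152) (nat_lit 414541170401) (nat_lit 228) (nat_lit 333903345349) (nat_lit 54) (nat_lit 5) (nat_lit 56) (nat_lit 5) (nat_lit 57) (nat_lit 5) (nat_lit 478) (nat_lit 461) (nat_lit 261))) (XT.nd (nat_lit 78) (nat_lit 228) (nat_lit 0) (XT.lf (nat_lit 0) (nat_lit 739693596397)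 (nat_lit 152) (nat_lit 52243037167) (nat_lit 228) (nat_lit 168527480923) (nat_lit 54) (nat_lit 5) (nat_lit 56) (nat_lit 5) (nat_lit 57) (nat_lit 5) (nat_lit 479) (nat_lit 461) (nat_lit 260)) (XT.nd (nat_lit 78) (nat_lit 0) (nat_lit 0) (XT.lf (nat_lit 0) (nat_lit 26796154720) (nat_lit 228) (nat_lit 648310212071) (nat_lit 76) (nat_lit 331389211795) (nat_lit 51) (nat_lit 5) (nat_lit 54) (nat_lit 5) (nat_lit 52) (nat_lit 5) (nat_lit 480) (nat_lit 461) (nat_lit 259)) (XT.lf (nat_lit 0) (nat_lit 236190813776) (nat_lit 228) (nat_lit 65604624323) (nat_lit 76) (nat_lit 753459935232) (nat_lit 51) (nat_lit 5) (nat_lit 54) (nat_lit 5) (nat_lit 52) (nat_lit 5) (nat_lit 481) (nat_lit 461) (nat_lit 258))))) (XT.nd (nat_lit 234) (nat_lit 304) (nat_lit 0) (XT.nd (nat_lit 78) (nat_lit 152) (nat_lit 0) (XT.lf (nat_lit 0) (nat_lit 479417245492) (nat_lit 228) (nat_lit 516181376446) (nat_lit 76) (nat_lit 110950913727)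 (nat_lit 49) (nat_lit 5) (nat_lit 52) (nat_lit 5) (nat_lit 50) (nat_lit 5) (nat_lit 482) (nat_lit 461) (nat_lit 257)) (XT.nd (nat_lit 78) (nat_lit 0) (nat_lit 0) (XT.lf (nat_lit 0) (nat_lit 139856780613) (nat_lit 152) (nat_lit 615287740002) (nat_lit 228) (nat_lit 405759292063) (nat_lit 47) (nat_lit 5) (nat_lit 49) (nat_lit 5) (nat_lit 50) (nat_lit 5) (nat_lit 483) (nat_lit 461) (nat_lit 256)) (XT.lf (nat_lit 0) (nat_lit 877733666976) (nat_lit 152) (nat_lit 189309614603) (nat_lit 228) (nat_lit 151434085967) (nat_lit 47) (nat_lit 5) (nat_lit 49) (nat_lit 5) (nat_lit 50) (nat_lit 5) (nat_lit 484) (nat_lit 461) (nat_lit 255)))) (XT.nd (nat_lit 78) (nat_lit 152) (nat_lit 0) (XT.lf (nat_lit 0) (nat_lit 133817120237) (nat_lit 152) (nat_lit 874862884029) (nat_lit 76) (nat_lit 270400109708) (nat_lit 45) (nat_lit 5) (nat_lit 47) (nat_lit 5) (nat_lit 46) (nat_lit 5) (nat_lit 485) (nat_lit 461) (nat_lit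 254)) (XT.nd (nat_lit 78) (nat_lit 152) (nat_lit 0) (XT.lf (nat_lit 0) (nat_lit 448182697316) (nat_lit 152) (nat_lit 124724814860) (nat_lit 76) (nat_lit 770150847841) (nat_lit 45) (nat_lit 5) (nat_lit 47) (nat_lit 5) (nat_lit 46) (nat_lit 5) (nat_lit 486) (nat_lit 461) (nat_lit 253)) (XT.lf (nat_lit 0) (nat_lit 721517514114) (nat_lit 152) (nat_lit 83532511624) (nat_lit 228) (nat_lit 605716639593) (nat_lit 43) (nat_lit 5) (nat_lit 45) (nat_lit 5) (nat_lit 46) (nat_lit 5) (nat_lit 487) (nat_lit 461) (nat_lit 252)))))) (XT.nd (nat_lit 468) (nat_lit 304) (nat_lit 0) (XT.nd (nat_lit 234) (nat_lit 304) (nat_lit 0) (XT.nd (nat_lit 78) (nat_lit 228) (nat_lit 0) (XT.lf (nat_lit 0) (nat_lit 155943895365) (nat_lit 76) (nat_lit 1052474145365) (nat_lit 152) (nat_lit 274037490317) (nat_lit 42) (nat_lit 5) (nat_lit 43) (nat_lit 5) (nat_lit 44) (nat_lit 4) (nat_lit 488) (nat_lit 461) (nat_lit 251)) (XT.nd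 (nat_lit 78) (nat_lit 152) (nat_lit 0) (XT.lf (nat_lit 0) (nat_lit 101469615774) (nat_lit 152) (nat_lit 455104899482) (nat_lit 76) (nat_lit 1001422680089) (nat_lit 41) (nat_lit 5) (nat_lit 43) (nat_lit 5) (nat_lit 42) (nat_lit 5) (nat_lit 489) (nat_lit 461) (nat_lit 250)) (XT.lf (nat_lit 0) (nat_lit 504114346897) (nat_lit 152) (nat_lit 221755737) (nat_lit 228) (nat_lit 1133706745234) (nat_lit 39) (nat_lit 5) (nat_lit 41) (nat_lit 5) (nat_lit 42) (nat_lit 5) (nat_lit 490) (nat_lit 461) (nat_lit 249)))) (XT.nd (nat_lit 78) (nat_lit 304) (nat_lit 0) (XT.lf (nat_lit 0) (nat_lit 966643867805) (nat_lit 228) (nat_lit 172311936337) (nat_lit 76) (nat_lit 583359391704) (nat_lit 39) (nat_lit 5) (nat_lit 42) (nat_lit 5) (nat_lit 40) (nat_lit 4) (nat_lit 491) (nat_lit 461) (nat_lit 248)) (XT.nd (nat_lit 78) (nat_lit 228) (nat_lit 0) (XT.lf (nat_lit 0) (nat_lit 911842222247) (nat_lit 76) (nat_lit 576029612322)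 (nat_lit 152) (nat_lit 323702650660) (nat_lit 38) (nat_lit 5) (nat_lit 39) (nat_lit 5) (nat_lit 40) (nat_lit 4) (nat_lit 492) (nat_lit 461) (nat_lit 247)) (XT.lf (nat_lit 0) (nat_lit 146206286512) (nat_lit 228) (nat_lit 1717123521309) (nat_lit 76) (nat_lit 43527727092) (nat_lit 35) (nat_lit 5) (nat_lit 38) (nat_lit 5) (nat_lit 36) (nat_lit 4) (nat_lit 493) (nat_lit 461) (nat_lit 246))))) (XT.nd (nat_lit 234) (nat_lit 228) (nat_lit 0) (XT.nd (nat_lit 78) (nat_lit 76) (nat_lit 0) (XT.lf (nat_lit 0) (nat_lit 676420631730) (nat_lit 228) (nat_lit 614277693010) (nat_lit 76) (nat_lit 715176191422) (nat_lit 35) (nat_lit 5) (nat_lit 38) (nat_lit 5) (nat_lit 36) (nat_lit 4) (nat_lit 494) (nat_lit 461) (nat_lit 245)) (XT.nd (nat_lit 78) (nat_lit 0) (nat_lit 0) (XT.lf (nat_lit 0) (nat_lit 607168834198) (nat_lit 76) (nat_lit 656485709185) (nat_lit 152) (nat_lit 847990119022) (nat_lit 34) (nat_lit 5)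 (nat_lit 35) (nat_lit 5) (nat_lit 36) (nat_lit 4) (nat_lit 495) (nat_lit 461) (nat_lit 244)) (XT.lf (nat_lit 0) (nat_lit 1915783405581) (nat_lit 152) (nat_lit 264387999439) (nat_lit 0) (nat_lit 44271716320) (nat_lit 34) (nat_lit 5) (nat_lit 36) (nat_lit 4) (nat_lit 34) (nat_lit 4) (nat_lit 496) (nat_lit 461) (nat_lit 243)))) (XT.nd (nat_lit 78) (nat_lit 76) (nat_lit 0) (XT.lf (nat_lit 0) (nat_lit 305090907771) (nat_lit 152) (nat_lit 1236922608267) (nat_lit 76) (nat_lit 800127417943) (nat_lit 32) (nat_lit 5) (nat_lit 34) (nat_lit 5) (nat_lit 33) (nat_lit 4) (nat_lit 497) (nat_lit 461) (nat_lit 242)) (XT.nd (nat_lit 78) (nat_lit 0) (nat_lit 0) (XT.lf (nat_lit 0) (nat_lit 129001122363) (nat_lit 76) (nat_lit 832783889863) (nat_lit 152) (nat_lit 1505986662742) (nat_lit 31) (nat_lit 5) (nat_lit 32) (nat_lit 5) (nat_lit 33) (nat_lit 4) (nat_lit 498) (nat_lit 461) (nat_lit 241)) (XT.lf (nat_lit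 0) (nat_lit 1674543625723) (nat_lit 76) (nat_lit 30290669920) (nat_lit 152) (nat_lit 895913007545) (nat_lit 31) (nat_lit 5) (nat_lit 32) (nat_lit 5) (nat_lit 33) (nat_lit 4) (nat_lit 499) (nat_lit 461) (nat_lit 240))))))))
noncomputable def xc221 : XT := (XT.nd (nat_lit 1794) (nat_lit 76) (nat_lit 0) (XT.nd (nat_lit 858) (nat_lit 684) (nat_lit 0) (XT.nd (nat_lit 390) (nat_lit 380) (nat_lit 0) (XT.nd (nat_lit 156) (nat_lit 152) (nat_lit 0) (XT.nd (nat_lit 78) (nat_lit 76) (nat_lit 0) (XT.lf (nat_lit 0) (nat_lit 609755488352) (nat_lit 76) (nat_lit 1932352150717) (nat_lit 76) (nat_lit 199470933210) (nat_lit 30) (nat_lit 4) (nat_lit 31) (nat_lit 5) (nat_lit 31) (nat_lit 4) (nat_lit 500) (nat_lit 461) (nat_lit 239)) (XT.lf (nat_lit 0) (nat_lit 551807472485) (nat_lit 152) (nat_lit 585121679615) (nat_lit 76) (nat_lit 1753542334261) (nat_lit 29) (nat_lit 5) (nat_lit 31) (nat_lit 5) (nat_lit 30)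 (nat_lit 4) (nat_lit 501) (nat_lit 461) (nat_lit 238))) (XT.nd (nat_lit 78) (nat_lit 76) (nat_lit 0) (XT.lf (nat_lit 0) (nat_lit 1137012747113) (nat_lit 76) (nat_lit 242743971164) (nat_lit 152) (nat_lit 1668917015912) (nat_lit 28) (nat_lit 5) (nat_lit 29) (nat_lit 5) (nat_lit 30) (nat_lit 4) (nat_lit 502) (nat_lit 461) (nat_lit 237)) (XT.nd (nat_lit 78) (nat_lit 76) (nat_lit 0) (XT.lf (nat_lit 0) (nat_lit 2307743292682) (nat_lit 152) (nat_lit 205861123776) (nat_lit 0) (nat_lit 703223634268) (nat_lit 28) (nat_lit 5) (nat_lit 30) (nat_lit 4) (nat_lit 28) (nat_lit 4) (nat_lit 503) (nat_lit 461) (nat_lit 236)) (XT.lf (nat_lit 0) (nat_lit 1715935736904) (nat_lit 76) (nat_lit 1641606385660) (nat_lit 76) (nat_lit 37086723660) (nat_lit 27) (nat_lit 4) (nat_lit 28) (nat_lit 5) (nat_lit 28) (nat_lit 4) (nat_lit 504) (nat_lit 461) (nat_lit 235))))) (XT.nd (nat_lit 234) (nat_lit 152) (nat_lit 0) (XT.nd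 (nat_lit 78) (nat_lit 76) (nat_lit 0) (XT.lf (nat_lit 0) (nat_lit 205349266999) (nat_lit 76) (nat_lit 664780027385) (nat_lit 152) (nat_lit 2713926745464) (nat_lit 25) (nat_lit 5) (nat_lit 26) (nat_lit 5) (nat_lit 27) (nat_lit 4) (nat_lit 505) (nat_lit 461) (nat_lit 234)) (XT.nd (nat_lit 78) (nat_lit 76) (nat_lit 0) (XT.lf (nat_lit 0) (nat_lit 1904393692570) (nat_lit 152) (nat_lit 1460921340520) (nat_lit 0) (nat_lit 418727332944) (nat_lit 25) (nat_lit 5) (nat_lit 27) (nat_lit 4) (nat_lit 25) (nat_lit 4) (nat_lit 506) (nat_lit 461) (nat_lit 233)) (XT.lf (nat_lit 0) (nat_lit 624247281943) (nat_lit 76) (nat_lit 2429432132446) (nat_lit 76) (nat_lit 943765770184) (nat_lit 24) (nat_lit 4) (nat_lit 25) (nat_lit 5) (nat_lit 25) (nat_lit 4) (nat_lit 507) (nat_lit 461) (nat_lit 232)))) (XT.nd (nat_lit 78) (nat_lit 76) (nat_lit 0) (XT.lf (nat_lit 0) (nat_lit 104618451533) (nat_lit 152) (nat_lit 1268059985512)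 (nat_lit 76) (nat_lit 2851834372120) (nat_lit 23) (nat_lit 5) (nat_lit 25) (nat_lit 5) (nat_lit 24) (nat_lit 4) (nat_lit 508) (nat_lit 461) (nat_lit 231)) (XT.nd (nat_lit 78) (nat_lit 0) (nat_lit 0) (XT.lf (nat_lit 0) (nat_lit 1032631995517) (nat_lit 76) (nat_lit 178088371059) (nat_lit 152) (nat_lit 3255077619773) (nat_lit 22) (nat_lit 5) (nat_lit 23) (nat_lit 5) (nat_lit 24) (nat_lit 4) (nat_lit 509) (nat_lit 461) (nat_lit 230)) (XT.lf (nat_lit 0) (nat_lit 2467627267725) (nat_lit 152) (nat_lit 1161763104011) (nat_lit 0) (nat_lit 1092010259340) (nat_lit 22) (nat_lit 5) (nat_lit 24) (nat_lit 4) (nat_lit 22) (nat_lit 4) (nat_lit 510) (nat_lit 461) (nat_lit 229)))))) (XT.nd (nat_lit 468) (nat_lit 380) (nat_lit 0) (XT.nd (nat_lit 234) (nat_lit 76) (nat_lit 0) (XT.nd (nat_lit 78) (nat_lit 152) (nat_lit 0) (XT.lf (nat_lit 0) (nat_lit 1354483063405) (nat_lit 76) (nat_lit 2507804676327) (nat_lit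 76) (nat_lit 1132187666148) (nat_lit 21) (nat_lit 4) (nat_lit 22) (nat_lit 5) (nat_lit 22) (nat_lit 4) (nat_lit 511) (nat_lit 461) (nat_lit 228)) (XT.nd (nat_lit 78) (nat_lit 76) (nat_lit 0) (XT.lf (nat_lit 0) (nat_lit 107756454326) (nat_lit 152) (nat_lit 1151483586841) (nat_lit 76) (nat_lit 4027396707883) (nat_lit 20) (nat_lit 5) (nat_lit 22) (nat_lit 5) (nat_lit 21) (nat_lit 4) (nat_lit 512) (nat_lit 461) (nat_lit 227)) (XT.lf (nat_lit 0) (nat_lit 1427772910292) (nat_lit 152) (nat_lit 4014628490390) (nat_lit 0) (nat_lit 154053453460) (nat_lit 19) (nat_lit 5) (nat_lit 21) (nat_lit 4) (nat_lit 19) (nat_lit 4) (nat_lit 513) (nat_lit 461) (nat_lit 226)))) (XT.nd (nat_lit 78) (nat_lit 76) (nat_lit 0) (XT.lf (nat_lit 0) (nat_lit 2918399570850) (nat_lit 152) (nat_lit 1362778013045) (nat_lit 0) (nat_lit 1644680112699) (nat_lit 19) (nat_lit 5) (nat_lit 21) (nat_lit 4) (nat_lit 19) (nat_lit 4)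 (nat_lit 514) (nat_lit 461) (nat_lit 225)) (XT.nd (nat_lit 78) (nat_lit 0) (nat_lit 0) (XT.lf (nat_lit 0) (nat_lit 1580272107517) (nat_lit 76) (nat_lit 2986009835978) (nat_lit 76) (nat_lit 1712290376606) (nat_lit 18) (nat_lit 4) (nat_lit 19) (nat_lit 5) (nat_lit 19) (nat_lit 4) (nat_lit 515) (nat_lit 461) (nat_lit 224)) (XT.lf (nat_lit 0) (nat_lit 4836268625074) (nat_lit 76) (nat_lit 1546987043936) (nat_lit 76) (nat_lit 273267583434) (nat_lit 18) (nat_lit 4) (nat_lit 19) (nat_lit 5) (nat_lit 19) (nat_lit 4) (nat_lit 516) (nat_lit 461) (nat_lit 223))))) (XT.nd (nat_lit 234) (nat_lit 152) (nat_lit 0) (XT.nd (nat_lit 78) (nat_lit 76) (nat_lit 0) (XT.lf (nat_lit 0) (nat_lit 1250429957516) (nat_lit 152) (nat_lit 5738065599782) (nat_lit 0) (nat_lit 71060085711) (nat_lit 16) (nat_lit 5) (nat_lit 18) (nat_lit 4) (nat_lit 16) (nat_lit 4) (nat_lit 517) (nat_lit 461) (nat_lit 222)) (XT.nd (nat_lit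 78) (nat_lit 76) (nat_lit 0) (XT.lf (nat_lit 0) (nat_lit 2972502921571) (nat_lit 152) (nat_lit 2721327372262) (nat_lit 0) (nat_lit 1793133048869) (nat_lit 16) (nat_lit 5) (nat_lit 18) (nat_lit 4) (nat_lit 16) (nat_lit 4) (nat_lit 518) (nat_lit 461) (nat_lit 221)) (XT.lf (nat_lit 0) (nat_lit 565014207338) (nat_lit 76) (nat_lit 4280916118172) (nat_lit 76) (nat_lit 3101546244638) (nat_lit 15) (nat_lit 4) (nat_lit 16) (nat_lit 5) (nat_lit 16) (nat_lit 4) (nat_lit 519) (nat_lit 461) (nat_lit 220)))) (XT.nd (nat_lit 78) (nat_lit 152) (nat_lit 0) (XT.lf (nat_lit 0) (nat_lit 4269027407304) (nat_lit 76) (nat_lit 2674610424973) (nat_lit 76) (nat_lit 1495240550670) (nat_lit 15) (nat_lit 4) (nat_lit 16) (nat_lit 5) (nat_lit 16) (nat_lit 4) (nat_lit 520) (nat_lit 461) (nat_lit 219)) (XT.nd (nat_lit 78) (nat_lit 76) (nat_lit 0) (XT.lf (nat_lit 0) (nat_lit 227585354892) (nat_lit 152) (nat_lit 705992336838)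 (nat_lit 76) (nat_lit 8035553716859) (nat_lit 14) (nat_lit 5) (nat_lit 16) (nat_lit 5) (nat_lit 15) (nat_lit 4) (nat_lit 521) (nat_lit 461) (nat_lit 218)) (XT.lf (nat_lit 0) (nat_lit 2109055086223) (nat_lit 152) (nat_lit 6404468688189) (nat_lit 0) (nat_lit 1017045942080) (nat_lit 13) (nat_lit 5) (nat_lit 15) (nat_lit 4) (nat_lit 13) (nat_lit 4) (nat_lit 522) (nat_lit 461) (nat_lit 217))))))) (XT.nd (nat_lit 58500) (nat_lit 0) (nat_lit 2812) (XT.nd (nat_lit 58032) (nat_lit 0) (nat_lit 4256) (XT.nd (nat_lit 57798) (nat_lit 0) (nat_lit 4560) (XT.nd (nat_lit 78) (nat_lit 76) (nat_lit 0) (XT.lf (nat_lit 0) (nat_lit 4185095625484) (nat_lit 152) (nat_lit 2855216724414) (nat_lit 0) (nat_lit 3093086480775) (nat_lit 13) (nat_lit 5) (nat_lit 15) (nat_lit 4) (nat_lit 13) (nat_lit 4) (nat_lit 523) (nat_lit 461) (nat_lit 216)) (XT.nd (nat_lit 57642) (nat_lit 0) (nat_lit 5016) (XT.lf (nat_lit 0) (nat_lit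 1029473843454) (nat_lit 76) (nat_lit 5422504433136) (nat_lit 76) (nat_lit 4330495287903) (nat_lit 12) (nat_lit 4) (nat_lit 13) (nat_lit 5) (nat_lit 13) (nat_lit 4) (nat_lit 524) (nat_lit 461) (nat_lit 215)) (XT.lf (nat_lit 0) (nat_lit 228321078361) (nat_lit 532) (nat_lit 5781087800) (nat_lit 532) (nat_lit 5781087800) (nat_lit 78) (nat_lit 3) (nat_lit 85) (nat_lit 3) (nat_lit 85) (nat_lit 5) (nat_lit 462) (nat_lit 462) (nat_lit 276)))) (XT.nd (nat_lit 78) (nat_lit 456) (nat_lit 0) (XT.lf (nat_lit 76) (nat_lit 237317120860) (nat_lit 0) (nat_lit 243298472233) (nat_lit 532) (nat_lit 17884955032) (nat_lit 79) (nat_lit 5) (nat_lit 78) (nat_lit 3) (nat_lit 85) (nat_lit 5) (nat_lit 463) (nat_lit 462) (nat_lit 275)) (XT.nd (nat_lit 78) (nat_lit 456) (nat_lit 0) (XT.lf (nat_lit 76) (nat_lit 506764296984) (nat_lit 0) (nat_lit 58710618) (nat_lit 532) (nat_lit 11885015694) (nat_lit 79) (nat_lit 5) (nat_lit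 78) (nat_lit 3) (nat_lit 85) (nat_lit 5) (nat_lit 464) (nat_lit 462) (nat_lit 274)) (XT.lf (nat_lit 0) (nat_lit 7863213276) (nat_lit 532) (nat_lit 275586096375) (nat_lit 608) (nat_lit 256053353389) (nat_lit 72) (nat_lit 5) (nat_lit 79) (nat_lit 5) (nat_lit 80) (nat_lit 5) (nat_lit 465) (nat_lit 462) (nat_lit 273))))) (XT.nd (nat_lit 234) (nat_lit 304) (nat_lit 0) (XT.nd (nat_lit 78) (nat_lit 0) (nat_lit 76) (XT.lf (nat_lit 76) (nat_lit 285752896) (nat_lit 0) (nat_lit 28606866199) (nat_lit 608) (nat_lit 533016085296) (nat_lit 73) (nat_lit 5) (nat_lit 72) (nat_lit 5) (nat_lit 80) (nat_lit 5) (nat_lit 466) (nat_lit 462) (nat_lit 272)) (XT.nd (nat_lit 78) (nat_lit 0) (nat_lit 0) (XT.lf (nat_lit 0) (nat_lit 65266370155) (nat_lit 532) (nat_lit 277731274264) (nat_lit 608) (nat_lit 242016625215) (nat_lit 73) (nat_lit 5) (nat_lit 80) (nat_lit 5) (nat_lit 81) (nat_lit 5) (nat_lit 467) (nat_lit 462)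 (nat_lit 271)) (XT.lf (nat_lit 76) (nat_lit 29609890947) (nat_lit 0) (nat_lit 76395263584) (nat_lit 608) (nat_lit 503846714915) (nat_lit 74) (nat_lit 5) (nat_lit 73) (nat_lit 5) (nat_lit 81) (nat_lit 5) (nat_lit 468) (nat_lit 462) (nat_lit 270)))) (XT.nd (nat_lit 78) (nat_lit 456) (nat_lit 0) (XT.lf (nat_lit 0) (nat_lit 162881354536) (nat_lit 532) (nat_lit 264020496875) (nat_lit 76) (nat_lit 208744360810) (nat_lit 74) (nat_lit 5) (nat_lit 81) (nat_lit 5) (nat_lit 75) (nat_lit 5) (nat_lit 469) (nat_lit 462) (nat_lit 269)) (XT.nd (nat_lit 78) (nat_lit 0) (nat_lit 0) (XT.lf (nat_lit 0) (nat_lit 79490847648) (nat_lit 456) (nat_lit 148712834066) (nat_lit 532) (nat_lit 434988738215) (nat_lit 68) (nat_lit 5) (nat_lit 74) (nat_lit 5) (nat_lit 75) (nat_lit 5) (nat_lit 470) (nat_lit 462) (nat_lit 268)) (XT.lf (nat_lit 0) (nat_lit 309807208627) (nat_lit 532) (nat_lit 230703302550) (nat_lit 76) (nat_lit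 151547379998) (nat_lit 68) (nat_lit 5) (nat_lit 75) (nat_lit 5) (nat_lit 69) (nat_lit 5) (nat_lit 471) (nat_lit 462) (nat_lit 267)))))) (XT.nd (nat_lit 468) (nat_lit 532) (nat_lit 0) (XT.nd (nat_lit 234) (nat_lit 456) (nat_lit 0) (XT.nd (nat_lit 78) (nat_lit 228) (nat_lit 0) (XT.lf (nat_lit 0) (nat_lit 154395635934) (nat_lit 228) (nat_lit 251119255576) (nat_lit 304) (nat_lit 317111638709) (nat_lit 65) (nat_lit 5) (nat_lit 68) (nat_lit 5) (nat_lit 69) (nat_lit 5) (nat_lit 472) (nat_lit 462) (nat_lit 266)) (XT.nd (nat_lit 78) (nat_lit 228) (nat_lit 0) (XT.lf (nat_lit 0) (nat_lit 516828082742) (nat_lit 304) (nat_lit 173354332050) (nat_lit 76) (nat_lit 64822334104) (nat_lit 65) (nat_lit 5) (nat_lit 69) (nat_lit 5) (nat_lit 66) (nat_lit 5) (nat_lit 473) (nat_lit 462) (nat_lit 265)) (XT.lf (nat_lit 0) (nat_lit 259574740622) (nat_lit 228) (nat_lit 390236931401) (nat_lit 304) (nat_lit 139140325629)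 (nat_lit 62) (nat_lit 5) (nat_lit 65) (nat_lit 5) (nat_lit 66) (nat_lit 5) (nat_lit 474) (nat_lit 462) (nat_lit 264)))) (XT.nd (nat_lit 78) (nat_lit 456) (nat_lit 0) (XT.lf (nat_lit 0) (nat_lit 736996937705) (nat_lit 228) (nat_lit 61176811980) (nat_lit 304) (nat_lit 27062092527) (nat_lit 62) (nat_lit 5) (nat_lit 65) (nat_lit 5) (nat_lit 66) (nat_lit 5) (nat_lit 475) (nat_lit 462) (nat_lit 263)) (XT.nd (nat_lit 78) (nat_lit 228) (nat_lit 0) (XT.lf (nat_lit 0) (nat_lit 106439588617) (nat_lit 228) (nat_lit 464595515789) (nat_lit 76) (nat_lit 291833782047) (nat_lit 59) (nat_lit 5) (nat_lit 62) (nat_lit 5) (nat_lit 60) (nat_lit 5) (nat_lit 476) (nat_lit 462) (nat_lit 262)) (XT.lf (nat_lit 0) (nat_lit 24264494604) (nat_lit 228) (nat_lit 229542684462) (nat_lit 304) (nat_lit 649277335795) (nat_lit 56) (nat_lit 5) (nat_lit 59) (nat_lit 5) (nat_lit 60) (nat_lit 5) (nat_lit 477) (nat_lit 462) (nat_lit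 261))))) (XT.nd (nat_lit 234) (nat_lit 380) (nat_lit 0) (XT.nd (nat_lit 78) (nat_lit 152) (nat_lit 0) (XT.lf (nat_lit 0) (nat_lit 429346400145) (nat_lit 304) (nat_lit 370525286660) (nat_lit 76) (nat_lit 145335128867) (nat_lit 56) (nat_lit 5) (nat_lit 60) (nat_lit 5) (nat_lit 57) (nat_lit 5) (nat_lit 478) (nat_lit 462) (nat_lit 260)) (XT.nd (nat_lit 78) (nat_lit 0) (nat_lit 0) (XT.lf (nat_lit 0) (nat_lit 181552872843) (nat_lit 152) (nat_lit 447704373761) (nat_lit 228) (nat_lit 360615374932) (nat_lit 54) (nat_lit 5) (nat_lit 56) (nat_lit 5) (nat_lit 57) (nat_lit 5) (nat_lit 479) (nat_lit 462) (nat_lit 259)) (XT.lf (nat_lit 0) (nat_lit 798869371731) (nat_lit 152) (nat_lit 56422396555) (nat_lit 228) (nat_lit 182009458984) (nat_lit 54) (nat_lit 5) (nat_lit 56) (nat_lit 5) (nat_lit 57) (nat_lit 5) (nat_lit 480) (nat_lit 462) (nat_lit 258)))) (XT.nd (nat_lit 78) (nat_lit 152) (nat_lit 0) (XT.lf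 (nat_lit 0) (nat_lit 28940050146) (nat_lit 228) (nat_lit 700174723957) (nat_lit 76) (nat_lit 357900434481) (nat_lit 51) (nat_lit 5) (nat_lit 54) (nat_lit 5) (nat_lit 52) (nat_lit 5) (nat_lit 481) (nat_lit 462) (nat_lit 257)) (XT.nd (nat_lit 78) (nat_lit 152) (nat_lit 0) (XT.lf (nat_lit 0) (nat_lit 255086266886) (nat_lit 228) (nat_lit 70852711788) (nat_lit 76) (nat_lit 813736809442) (nat_lit 51) (nat_lit 5) (nat_lit 54) (nat_lit 5) (nat_lit 52) (nat_lit 5) (nat_lit 482) (nat_lit 462) (nat_lit 256)) (XT.lf (nat_lit 0) (nat_lit 517770808110) (nat_lit 228) (nat_lit 557475599013) (nat_lit 76) (nat_lit 119827076718) (nat_lit 49) (nat_lit 5) (nat_lit 52) (nat_lit 5) (nat_lit 50) (nat_lit 5) (nat_lit 483) (nat_lit 462) (nat_lit 255))))))))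
noncomputable def xc222 : XT := (XT.nd (nat_lit 1794) (nat_lit 912) (nat_lit 0) (XT.nd (nat_lit 858) (nat_lit 760) (nat_lit 0) (XT.nd (nat_lit 390) (nat_lit 608) (nat_lit 0) (XT.nd (nat_lit 156) (nat_lit 304) (nat_lit 0) (XT.nd (nat_lit 78) (nat_lit 0) (nat_lit 0) (XT.lf (nat_lit 0) (nat_lit 151045603330) (nat_lit 152) (nat_lit 664510655099) (nat_lit 228) (nat_lit 438219845134) (nat_lit 47) (nat_lit 5) (nat_lit 49) (nat_lit 5) (nat_lit 50) (nat_lit 5) (nat_lit 484) (nat_lit 462) (nat_lit 254)) (XT.lf (nat_lit 0) (nat_lit 947952619842) (nat_lit 152) (nat_lit 204454287380) (nat_lit 228) (nat_lit 163548636646) (nat_lit 47) (nat_lit 5) (nat_lit 49) (nat_lit 5) (nat_lit 50) (nat_lit 5) (nat_lit 485) (nat_lit 462) (nat_lit 253))) (XT.nd (nat_lit 78) (nat_lit 152) (nat_lit 0) (XT.lf (nat_lit 0) (nat_lit 144522653544) (nat_lit 152) (nat_lit 944851642674) (nat_lit 76) (nat_lit 292032213752) (nat_lit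 45) (nat_lit 5) (nat_lit 47) (nat_lit 5) (nat_lit 46) (nat_lit 5) (nat_lit 486) (nat_lit 462) (nat_lit 252)) (XT.nd (nat_lit 78) (nat_lit 152) (nat_lit 0) (XT.lf (nat_lit 0) (nat_lit 484037464664) (nat_lit 152) (nat_lit 134702548125) (nat_lit 76) (nat_lit 831763003878) (nat_lit 45) (nat_lit 5) (nat_lit 47) (nat_lit 5) (nat_lit 46) (nat_lit 5) (nat_lit 487) (nat_lit 462) (nat_lit 251)) (XT.lf (nat_lit 0) (nat_lit 779239160790) (nat_lit 152) (nat_lit 90215013249) (nat_lit 228) (nat_lit 654173812795) (nat_lit 43) (nat_lit 5) (nat_lit 45) (nat_lit 5) (nat_lit 46) (nat_lit 5) (nat_lit 488) (nat_lit 462) (nat_lit 250))))) (XT.nd (nat_lit 234) (nat_lit 304) (nat_lit 0) (XT.nd (nat_lit 78) (nat_lit 228) (nat_lit 0) (XT.lf (nat_lit 0) (nat_lit 168419655423) (nat_lit 76) (nat_lit 1136671972160) (nat_lit 152) (nat_lit 295960334438) (nat_lit 42) (nat_lit 5) (nat_lit 43) (nat_lit 5) (nat_lit 44) (nat_lit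 4) (nat_lit 489) (nat_lit 462) (nat_lit 249)) (XT.nd (nat_lit 78) (nat_lit 152) (nat_lit 0) (XT.lf (nat_lit 0) (nat_lit 109587321467) (nat_lit 152) (nat_lit 491513054211) (nat_lit 76) (nat_lit 1081536584362) (nat_lit 41) (nat_lit 5) (nat_lit 43) (nat_lit 5) (nat_lit 42) (nat_lit 5) (nat_lit 490) (nat_lit 462) (nat_lit 248)) (XT.lf (nat_lit 0) (nat_lit 544443725873) (nat_lit 152) (nat_lit 239396857) (nat_lit 228) (nat_lit 1224403142398) (nat_lit 39) (nat_lit 5) (nat_lit 41) (nat_lit 5) (nat_lit 42) (nat_lit 5) (nat_lit 491) (nat_lit 462) (nat_lit 247)))) (XT.nd (nat_lit 78) (nat_lit 304) (nat_lit 0) (XT.lf (nat_lit 0) (nat_lit 1043975501558) (nat_lit 228) (nat_lit 186096669573) (nat_lit 76) (nat_lit 630028230418) (nat_lit 39) (nat_lit 5) (nat_lit 42) (nat_lit 5) (nat_lit 40) (nat_lit 4) (nat_lit 492) (nat_lit 462) (nat_lit 246)) (XT.nd (nat_lit 78) (nat_lit 228) (nat_lit 0) (XT.lf (nat_lit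 0) (nat_lit 984789816085) (nat_lit 76) (nat_lit 622111885565) (nat_lit 152) (nat_lit 349598732757) (nat_lit 38) (nat_lit 5) (nat_lit 39) (nat_lit 5) (nat_lit 40) (nat_lit 4) (nat_lit 493) (nat_lit 462) (nat_lit 245)) (XT.lf (nat_lit 0) (nat_lit 157902911303) (nat_lit 228) (nat_lit 1854493178843) (nat_lit 76) (nat_lit 47010037797) (nat_lit 35) (nat_lit 5) (nat_lit 38) (nat_lit 5) (nat_lit 36) (nat_lit 4) (nat_lit 494) (nat_lit 462) (nat_lit 244)))))) (XT.nd (nat_lit 468) (nat_lit 456) (nat_lit 0) (XT.nd (nat_lit 234) (nat_lit 228) (nat_lit 0) (XT.nd (nat_lit 78) (nat_lit 76) (nat_lit 0) (XT.lf (nat_lit 0) (nat_lit 730534395111) (nat_lit 228) (nat_lit 663419700884) (nat_lit 76) (nat_lit 772390372419) (nat_lit 35) (nat_lit 5) (nat_lit 38) (nat_lit 5) (nat_lit 36) (nat_lit 4) (nat_lit 495) (nat_lit 462) (nat_lit 243)) (XT.nd (nat_lit 78) (nat_lit 0) (nat_lit 0) (XT.lf (nat_lit 0) (nat_lit 655742543245)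 (nat_lit 76) (nat_lit 709004472959) (nat_lit 152) (nat_lit 915829210435) (nat_lit 34) (nat_lit 5) (nat_lit 35) (nat_lit 5) (nat_lit 36) (nat_lit 4) (nat_lit 496) (nat_lit 462) (nat_lit 242)) (XT.lf (nat_lit 0) (nat_lit 2069046181348) (nat_lit 152) (nat_lit 285538846028) (nat_lit 0) (nat_lit 47813535395) (nat_lit 34) (nat_lit 5) (nat_lit 36) (nat_lit 4) (nat_lit 34) (nat_lit 4) (nat_lit 497) (nat_lit 462) (nat_lit 241)))) (XT.nd (nat_lit 78) (nat_lit 76) (nat_lit 0) (XT.lf (nat_lit 0) (nat_lit 329498283204) (nat_lit 152) (nat_lit 1335876223035) (nat_lit 76) (nat_lit 864137694227) (nat_lit 32) (nat_lit 5) (nat_lit 34) (nat_lit 5) (nat_lit 33) (nat_lit 4) (nat_lit 498) (nat_lit 462) (nat_lit 240)) (XT.nd (nat_lit 78) (nat_lit 0) (nat_lit 0) (XT.lf (nat_lit 0) (nat_lit 139321401137) (nat_lit 76) (nat_lit 899406511809) (nat_lit 152) (nat_lit 1626465488033) (nat_lit 31) (nat_lit 5) (nat_lit 32)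 (nat_lit 5) (nat_lit 33) (nat_lit 4) (nat_lit 499) (nat_lit 462) (nat_lit 239)) (XT.lf (nat_lit 0) (nat_lit 1808507290766) (nat_lit 76) (nat_lit 32713840881) (nat_lit 152) (nat_lit 967585948400) (nat_lit 31) (nat_lit 5) (nat_lit 32) (nat_lit 5) (nat_lit 33) (nat_lit 4) (nat_lit 500) (nat_lit 462) (nat_lit 238))))) (XT.nd (nat_lit 234) (nat_lit 228) (nat_lit 0) (XT.nd (nat_lit 78) (nat_lit 152) (nat_lit 0) (XT.lf (nat_lit 0) (nat_lit 658536103247) (nat_lit 76) (nat_lit 2086940238527) (nat_lit 76) (nat_lit 215428508953) (nat_lit 30) (nat_lit 4) (nat_lit 31) (nat_lit 5) (nat_lit 31) (nat_lit 4) (nat_lit 501) (nat_lit 462) (nat_lit 237)) (XT.nd (nat_lit 78) (nat_lit 76) (nat_lit 0) (XT.lf (nat_lit 0) (nat_lit 595952157289) (nat_lit 152) (nat_lit 631931246594) (nat_lit 76) (nat_lit 1893825794421) (nat_lit 29) (nat_lit 5) (nat_lit 31) (nat_lit 5) (nat_lit 30) (nat_lit 4) (nat_lit 502) (nat_lit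 462) (nat_lit 236)) (XT.lf (nat_lit 0) (nat_lit 1227973930035) (nat_lit 76) (nat_lit 262163410188) (nat_lit 152) (nat_lit 1802430285936) (nat_lit 28) (nat_lit 5) (nat_lit 29) (nat_lit 5) (nat_lit 30) (nat_lit 4) (nat_lit 503) (nat_lit 462) (nat_lit 235)))) (XT.nd (nat_lit 78) (nat_lit 228) (nat_lit 0) (XT.lf (nat_lit 0) (nat_lit 2492362836075) (nat_lit 152) (nat_lit 222329858099) (nat_lit 0) (nat_lit 759481594207) (nat_lit 28) (nat_lit 5) (nat_lit 30) (nat_lit 4) (nat_lit 28) (nat_lit 4) (nat_lit 504) (nat_lit 462) (nat_lit 234)) (XT.nd (nat_lit 78) (nat_lit 152) (nat_lit 0) (XT.lf (nat_lit 0) (nat_lit 1853210747497) (nat_lit 76) (nat_lit 1772934822574) (nat_lit 76) (nat_lit 40053577631) (nat_lit 27) (nat_lit 4) (nat_lit 28) (nat_lit 5) (nat_lit 28) (nat_lit 4) (nat_lit 505) (nat_lit 462) (nat_lit 233)) (XT.lf (nat_lit 0) (nat_lit 221777360256) (nat_lit 76) (nat_lit 717962355150) (nat_lit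 152) (nat_lit 2931040801428) (nat_lit 25) (nat_lit 5) (nat_lit 26) (nat_lit 5) (nat_lit 27) (nat_lit 4) (nat_lit 506) (nat_lit 462) (nat_lit 232))))))) (XT.nd (nat_lit 936) (nat_lit 228) (nat_lit 0) (XT.nd (nat_lit 468) (nat_lit 380) (nat_lit 0) (XT.nd (nat_lit 234) (nat_lit 152) (nat_lit 0) (XT.nd (nat_lit 78) (nat_lit 152) (nat_lit 0) (XT.lf (nat_lit 0) (nat_lit 2056745261365) (nat_lit 152) (nat_lit 1577794903031) (nat_lit 0) (nat_lit 452225585045) (nat_lit 25) (nat_lit 5) (nat_lit 27) (nat_lit 4) (nat_lit 25) (nat_lit 4) (nat_lit 507) (nat_lit 462) (nat_lit 231)) (XT.nd (nat_lit 78) (nat_lit 76) (nat_lit 0) (XT.lf (nat_lit 0) (nat_lit 674187205565) (nat_lit 76) (nat_lit 2623786633321) (nat_lit 76) (nat_lit 1019266954741) (nat_lit 24) (nat_lit 4) (nat_lit 25) (nat_lit 5) (nat_lit 25) (nat_lit 4) (nat_lit 508) (nat_lit 462) (nat_lit 230)) (XT.lf (nat_lit 0) (nat_lit 112987995436) (nat_lit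 152) (nat_lit 1369504650164) (nat_lit 76) (nat_lit 3079981182873) (nat_lit 23) (nat_lit 5) (nat_lit 25) (nat_lit 5) (nat_lit 24) (nat_lit 4) (nat_lit 509) (nat_lit 462) (nat_lit 229)))) (XT.nd (nat_lit 78) (nat_lit 76) (nat_lit 0) (XT.lf (nat_lit 0) (nat_lit 1115242685951) (nat_lit 76) (nat_lit 192335375857) (nat_lit 152) (nat_lit 3515483758174) (nat_lit 22) (nat_lit 5) (nat_lit 23) (nat_lit 5) (nat_lit 24) (nat_lit 4) (nat_lit 510) (nat_lit 462) (nat_lit 228)) (XT.nd (nat_lit 78) (nat_lit 76) (nat_lit 0) (XT.lf (nat_lit 0) (nat_lit 2665037511611) (nat_lit 152) (nat_lit 1254704027789) (nat_lit 0) (nat_lit 1179371137162) (nat_lit 22) (nat_lit 5) (nat_lit 24) (nat_lit 4) (nat_lit 22) (nat_lit 4) (nat_lit 511) (nat_lit 462) (nat_lit 227)) (XT.lf (nat_lit 0) (nat_lit 1462841829868) (nat_lit 76) (nat_lit 2708428989803) (nat_lit 76) (nat_lit 1222762613816) (nat_lit 21) (nat_lit 4) (nat_lit 22)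 (nat_lit 5) (nat_lit 22) (nat_lit 4) (nat_lit 512) (nat_lit 462) (nat_lit 226))))) (XT.nd (nat_lit 234) (nat_lit 228) (nat_lit 0) (XT.nd (nat_lit 78) (nat_lit 76) (nat_lit 0) (XT.lf (nat_lit 0) (nat_lit 116377028395) (nat_lit 152) (nat_lit 1243602158348) (nat_lit 76) (nat_lit 4349588497611) (nat_lit 20) (nat_lit 5) (nat_lit 22) (nat_lit 5) (nat_lit 21) (nat_lit 4) (nat_lit 513) (nat_lit 462) (nat_lit 225)) (XT.nd (nat_lit 78) (nat_lit 0) (nat_lit 0) (XT.lf (nat_lit 0) (nat_lit 1541994800624) (nat_lit 152) (nat_lit 4335798653965) (nat_lit 0) (nat_lit 166377783282) (nat_lit 19) (nat_lit 5) (nat_lit 21) (nat_lit 4) (nat_lit 19) (nat_lit 4) (nat_lit 514) (nat_lit 462) (nat_lit 224)) (XT.lf (nat_lit 0) (nat_lit 3151871589767) (nat_lit 152) (nat_lit 1471800146999) (nat_lit 0) (nat_lit 1776254571293) (nat_lit 19) (nat_lit 5) (nat_lit 21) (nat_lit 4) (nat_lit 19) (nat_lit 4) (nat_lit 515) (nat_lit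 462) (nat_lit 223)))) (XT.nd (nat_lit 78) (nat_lit 152) (nat_lit 0) (XT.lf (nat_lit 0) (nat_lit 1706693980497) (nat_lit 76) (nat_lit 3224890570293) (nat_lit 76) (nat_lit 1849273550772) (nat_lit 18) (nat_lit 4) (nat_lit 19) (nat_lit 5) (nat_lit 19) (nat_lit 4) (nat_lit 516) (nat_lit 462) (nat_lit 222)) (XT.nd (nat_lit 78) (nat_lit 152) (nat_lit 0) (XT.lf (nat_lit 0) (nat_lit 5223170211726) (nat_lit 76) (nat_lit 1670745958782) (nat_lit 76) (nat_lit 295128938292) (nat_lit 18) (nat_lit 4) (nat_lit 19) (nat_lit 5) (nat_lit 19) (nat_lit 4) (nat_lit 517) (nat_lit 462) (nat_lit 221)) (XT.lf (nat_lit 0) (nat_lit 1350464403196) (nat_lit 152) (nat_lit 6197110748378) (nat_lit 0) (nat_lit 76744938949) (nat_lit 16) (nat_lit 5) (nat_lit 18) (nat_lit 4) (nat_lit 16) (nat_lit 4) (nat_lit 518) (nat_lit 462) (nat_lit 220)))))) (XT.nd (nat_lit 58188) (nat_lit 0) (nat_lit 4484) (XT.nd (nat_lit 234) (nat_lit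 152) (nat_lit 0) (XT.nd (nat_lit 78) (nat_lit 76) (nat_lit 0) (XT.lf (nat_lit 0) (nat_lit 3210303200740) (nat_lit 152) (nat_lit 2939033470017) (nat_lit 0) (nat_lit 1936583735723) (nat_lit 16) (nat_lit 5) (nat_lit 18) (nat_lit 4) (nat_lit 16) (nat_lit 4) (nat_lit 519) (nat_lit 462) (nat_lit 219)) (XT.nd (nat_lit 78) (nat_lit 0) (nat_lit 0) (XT.lf (nat_lit 0) (nat_lit 610215433620) (nat_lit 76) (nat_lit 4623389362164) (nat_lit 76) (nat_lit 3349669896435) (nat_lit 15) (nat_lit 4) (nat_lit 16) (nat_lit 5) (nat_lit 16) (nat_lit 4) (nat_lit 520) (nat_lit 462) (nat_lit 218)) (XT.lf (nat_lit 0) (nat_lit 4610549682939) (nat_lit 76) (nat_lit 2888579216878) (nat_lit 76) (nat_lit 1614859750489) (nat_lit 15) (nat_lit 4) (nat_lit 16) (nat_lit 5) (nat_lit 16) (nat_lit 4) (nat_lit 521) (nat_lit 462) (nat_lit 217)))) (XT.nd (nat_lit 78) (nat_lit 76) (nat_lit 0) (XT.lf (nat_lit 0) (nat_lit 245792222193)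 (nat_lit 152) (nat_lit 762471644836) (nat_lit 76) (nat_lit 8678398051133) (nat_lit 14) (nat_lit 5) (nat_lit 16) (nat_lit 5) (nat_lit 15) (nat_lit 4) (nat_lit 522) (nat_lit 462) (nat_lit 216)) (XT.nd (nat_lit 57798) (nat_lit 0) (nat_lit 4940) (XT.lf (nat_lit 0) (nat_lit 2277779531939) (nat_lit 152) (nat_lit 6916826104202) (nat_lit 0) (nat_lit 1098409654564) (nat_lit 13) (nat_lit 5) (nat_lit 15) (nat_lit 4) (nat_lit 13) (nat_lit 4) (nat_lit 523) (nat_lit 462) (nat_lit 215)) (XT.lf (nat_lit 0) (nat_lit 246587025831) (nat_lit 532) (nat_lit 6243433723) (nat_lit 532) (nat_lit 6243433723) (nat_lit 78) (nat_lit 3) (nat_lit 85) (nat_lit 3) (nat_lit 85) (nat_lit 5) (nat_lit 463) (nat_lit 463) (nat_lit 274))))) (XT.nd (nat_lit 234) (nat_lit 0) (nat_lit 0) (XT.nd (nat_lit 78) (nat_lit 456) (nat_lit 0) (XT.lf (nat_lit 76) (nat_lit 256302765587) (nat_lit 0) (nat_lit 262762565275) (nat_lit 532) (nat_lit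 19315221694) (nat_lit 79) (nat_lit 5) (nat_lit 78) (nat_lit 3) (nat_lit 85) (nat_lit 5) (nat_lit 464) (nat_lit 463) (nat_lit 273)) (XT.nd (nat_lit 78) (nat_lit 456) (nat_lit 0) (XT.lf (nat_lit 76) (nat_lit 547305695426) (nat_lit 0) (nat_lit 63606785) (nat_lit 532) (nat_lit 12835326449) (nat_lit 79) (nat_lit 5) (nat_lit 78) (nat_lit 3) (nat_lit 85) (nat_lit 5) (nat_lit 465) (nat_lit 463) (nat_lit 272)) (XT.lf (nat_lit 0) (nat_lit 8492704351) (nat_lit 532) (nat_lit 297632672593) (nat_lit 608) (nat_lit 276537464265) (nat_lit 72) (nat_lit 5) (nat_lit 79) (nat_lit 5) (nat_lit 80) (nat_lit 5) (nat_lit 466) (nat_lit 463) (nat_lit 271)))) (XT.nd (nat_lit 78) (nat_lit 0) (nat_lit 76) (XT.lf (nat_lit 76) (nat_lit 308916734) (nat_lit 0) (nat_lit 30895521053) (nat_lit 608) (nat_lit 575656930078) (nat_lit 73) (nat_lit 5) (nat_lit 72) (nat_lit 5) (nat_lit 80) (nat_lit 5) (nat_lit 467) (nat_lit 463) (nat_lit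 270)) (XT.nd (nat_lit 78) (nat_lit 0) (nat_lit 0) (XT.lf (nat_lit 0) (nat_lit 70488056273) (nat_lit 532) (nat_lit 299949462297) (nat_lit 608) (nat_lit 261377862382) (nat_lit 73) (nat_lit 5) (nat_lit 80) (nat_lit 5) (nat_lit 81) (nat_lit 5) (nat_lit 468) (nat_lit 463) (nat_lit 269)) (XT.lf (nat_lit 76) (nat_lit 31978988184) (nat_lit 0) (nat_lit 82506934685) (nat_lit 608) (nat_lit 544154067533) (nat_lit 74) (nat_lit 5) (nat_lit 73) (nat_lit 5) (nat_lit 81) (nat_lit 5) (nat_lit 469) (nat_lit 463) (nat_lit 268))))))))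
noncomputable def xc223 : XT := (XT.nd (nat_lit 1794) (nat_lit 1520) (nat_lit 0) (XT.nd (nat_lit 858) (nat_lit 1140) (nat_lit 0) (XT.nd (nat_lit 390) (nat_lit 836) (nat_lit 0) (XT.nd (nat_lit 156) (nat_lit 228) (nat_lit 0) (XT.nd (nat_lit 78) (nat_lit 456) (nat_lit 0) (XT.lf (nat_lit 0) (nat_lit 175912191392) (nat_lit 532) (nat_lit 285141825731) (nat_lit 76) (nat_lit 225443865682) (nat_lit 74) (nat_lit 5) (nat_lit 81) (nat_lit 5) (nat_lit 75) (nat_lit 5) (nat_lit 470) (nat_lit 463) (nat_lit 267)) (XT.lf (nat_lit 0) (nat_lit 85850418483) (nat_lit 456) (nat_lit 160609869216) (nat_lit 532) (nat_lit 469787500803) (nat_lit 68) (nat_lit 5) (nat_lit 74) (nat_lit 5) (nat_lit 75) (nat_lit 5) (nat_lit 471) (nat_lit 463) (nat_lit 266))) (XT.nd (nat_lit 78) (nat_lit 228) (nat_lit 0) (XT.lf (nat_lit 0) (nat_lit 334592073507) (nat_lit 532) (nat_lit 249159262823) (nat_lit 76) (nat_lit 163671162987) (nat_lit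 68) (nat_lit 5) (nat_lit 75) (nat_lit 5) (nat_lit 69) (nat_lit 5) (nat_lit 472) (nat_lit 463) (nat_lit 265)) (XT.nd (nat_lit 78) (nat_lit 0) (nat_lit 0) (XT.lf (nat_lit 0) (nat_lit 166747583046) (nat_lit 228) (nat_lit 271208773752) (nat_lit 304) (nat_lit 342480273832) (nat_lit 65) (nat_lit 5) (nat_lit 68) (nat_lit 5) (nat_lit 69) (nat_lit 5) (nat_lit 473) (nat_lit 463) (nat_lit 264)) (XT.lf (nat_lit 0) (nat_lit 558174583530) (nat_lit 304) (nat_lit 187222384439) (nat_lit 76) (nat_lit 70008140422) (nat_lit 65) (nat_lit 5) (nat_lit 69) (nat_lit 5) (nat_lit 66) (nat_lit 5) (nat_lit 474) (nat_lit 463) (nat_lit 263))))) (XT.nd (nat_lit 234) (nat_lit 380) (nat_lit 0) (XT.nd (nat_lit 78) (nat_lit 228) (nat_lit 0) (XT.lf (nat_lit 0) (nat_lit 280341006599) (nat_lit 228) (nat_lit 421455841423) (nat_lit 304) (nat_lit 150271289986) (nat_lit 62) (nat_lit 5) (nat_lit 65) (nat_lit 5) (nat_lit 66) (nat_lit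 5) (nat_lit 475) (nat_lit 463) (nat_lit 262)) (XT.nd (nat_lit 78) (nat_lit 228) (nat_lit 0) (XT.lf (nat_lit 0) (nat_lit 795956958210) (nat_lit 228) (nat_lit 66070915744) (nat_lit 304) (nat_lit 29226817620) (nat_lit 62) (nat_lit 5) (nat_lit 65) (nat_lit 5) (nat_lit 66) (nat_lit 5) (nat_lit 476) (nat_lit 463) (nat_lit 261)) (XT.lf (nat_lit 0) (nat_lit 114954976579) (nat_lit 228) (nat_lit 501762870000) (nat_lit 76) (nat_lit 315180533060) (nat_lit 59) (nat_lit 5) (nat_lit 62) (nat_lit 5) (nat_lit 60) (nat_lit 5) (nat_lit 477) (nat_lit 463) (nat_lit 260)))) (XT.nd (nat_lit 78) (nat_lit 152) (nat_lit 0) (XT.lf (nat_lit 0) (nat_lit 26205933958) (nat_lit 228) (nat_lit 247906030674) (nat_lit 304) (nat_lit 701219294462) (nat_lit 56) (nat_lit 5) (nat_lit 59) (nat_lit 5) (nat_lit 60) (nat_lit 5) (nat_lit 478) (nat_lit 463) (nat_lit 259)) (XT.nd (nat_lit 78) (nat_lit 152) (nat_lit 0) (XT.lf (nat_lit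 0) (nat_lit 463694309276) (nat_lit 304) (nat_lit 400167036359) (nat_lit 76) (nat_lit 156961999469) (nat_lit 56) (nat_lit 5) (nat_lit 60) (nat_lit 5) (nat_lit 57) (nat_lit 5) (nat_lit 479) (nat_lit 463) (nat_lit 258)) (XT.lf (nat_lit 0) (nat_lit 196077368987) (nat_lit 152) (nat_lit 483520646268) (nat_lit 228) (nat_lit 389464400841) (nat_lit 54) (nat_lit 5) (nat_lit 56) (nat_lit 5) (nat_lit 57) (nat_lit 5) (nat_lit 480) (nat_lit 463) (nat_lit 257)))))) (XT.nd (nat_lit 468) (nat_lit 608) (nat_lit 0) (XT.nd (nat_lit 234) (nat_lit 304) (nat_lit 0) (XT.nd (nat_lit 78) (nat_lit 228) (nat_lit 0) (XT.lf (nat_lit 0) (nat_lit 862779168059) (nat_lit 152) (nat_lit 60936116619) (nat_lit 228) (nat_lit 196570026735) (nat_lit 54) (nat_lit 5) (nat_lit 56) (nat_lit 5) (nat_lit 57) (nat_lit 5) (nat_lit 481) (nat_lit 463) (nat_lit 256)) (XT.nd (nat_lit 78) (nat_lit 0) (nat_lit 0) (XT.lf (nat_lit 0) (nat_lit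 31255428239) (nat_lit 228) (nat_lit 756188440318) (nat_lit 76) (nat_lit 386532542749) (nat_lit 51) (nat_lit 5) (nat_lit 54) (nat_lit 5) (nat_lit 52) (nat_lit 5) (nat_lit 482) (nat_lit 463) (nat_lit 255)) (XT.lf (nat_lit 0) (nat_lit 275493329423) (nat_lit 228) (nat_lit 76520686550) (nat_lit 76) (nat_lit 878835822261) (nat_lit 51) (nat_lit 5) (nat_lit 54) (nat_lit 5) (nat_lit 52) (nat_lit 5) (nat_lit 483) (nat_lit 463) (nat_lit 254)))) (XT.nd (nat_lit 78) (nat_lit 152) (nat_lit 0) (XT.lf (nat_lit 0) (nat_lit 559192629634) (nat_lit 228) (nat_lit 602073400408) (nat_lit 76) (nat_lit 129413319924) (nat_lit 49) (nat_lit 5) (nat_lit 52) (nat_lit 5) (nat_lit 50) (nat_lit 5) (nat_lit 484) (nat_lit 463) (nat_lit 253)) (XT.nd (nat_lit 78) (nat_lit 0) (nat_lit 0) (XT.lf (nat_lit 0) (nat_lit 163129491882) (nat_lit 152) (nat_lit 717671418255) (nat_lit 228) (nat_lit 473277269598) (nat_lit 47) (nat_lit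 5) (nat_lit 49) (nat_lit 5) (nat_lit 50) (nat_lit 5) (nat_lit 485) (nat_lit 463) (nat_lit 252)) (XT.lf (nat_lit 0) (nat_lit 1023789051916) (nat_lit 152) (nat_lit 220810547729) (nat_lit 228) (nat_lit 176632376516) (nat_lit 47) (nat_lit 5) (nat_lit 49) (nat_lit 5) (nat_lit 50) (nat_lit 5) (nat_lit 486) (nat_lit 463) (nat_lit 251))))) (XT.nd (nat_lit 234) (nat_lit 304) (nat_lit 0) (XT.nd (nat_lit 78) (nat_lit 152) (nat_lit 0) (XT.lf (nat_lit 0) (nat_lit 156084606163) (nat_lit 152) (nat_lit 1020439540825) (nat_lit 76) (nat_lit 315394872528) (nat_lit 45) (nat_lit 5) (nat_lit 47) (nat_lit 5) (nat_lit 46) (nat_lit 5) (nat_lit 487) (nat_lit 463) (nat_lit 250)) (XT.nd (nat_lit 78) (nat_lit 152) (nat_lit 0) (XT.lf (nat_lit 0) (nat_lit 522760591778) (nat_lit 152) (nat_lit 145478535991) (nat_lit 76) (nat_lit 898304119814) (nat_lit 45) (nat_lit 5) (nat_lit 47) (nat_lit 5) (nat_lit 46) (nat_lit 5) (nat_lit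 488) (nat_lit 463) (nat_lit 249)) (XT.lf (nat_lit 0) (nat_lit 841578504169) (nat_lit 152) (nat_lit 97432129171) (nat_lit 228) (nat_lit 706507582389) (nat_lit 43) (nat_lit 5) (nat_lit 45) (nat_lit 5) (nat_lit 46) (nat_lit 5) (nat_lit 489) (nat_lit 463) (nat_lit 248)))) (XT.nd (nat_lit 78) (nat_lit 228) (nat_lit 0) (XT.lf (nat_lit 0) (nat_lit 181893440844) (nat_lit 76) (nat_lit 1227605640055) (nat_lit 152) (nat_lit 319637028216) (nat_lit 42) (nat_lit 5) (nat_lit 43) (nat_lit 5) (nat_lit 44) (nat_lit 4) (nat_lit 490) (nat_lit 463) (nat_lit 247)) (XT.nd (nat_lit 78) (nat_lit 152) (nat_lit 0) (XT.lf (nat_lit 0) (nat_lit 118354424153) (nat_lit 152) (nat_lit 530833895161) (nat_lit 76) (nat_lit 1168059588155) (nat_lit 41) (nat_lit 5) (nat_lit 43) (nat_lit 5) (nat_lit 42) (nat_lit 5) (nat_lit 491) (nat_lit 463) (nat_lit 246)) (XT.lf (nat_lit 0) (nat_lit 587999422181) (nat_lit 152) (nat_lit 258463440)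 (nat_lit 228) (nat_lit 1322355271658) (nat_lit 39) (nat_lit 5) (nat_lit 41) (nat_lit 5) (nat_lit 42) (nat_lit 5) (nat_lit 492) (nat_lit 463) (nat_lit 245))))))) (XT.nd (nat_lit 936) (nat_lit 684) (nat_lit 0) (XT.nd (nat_lit 468) (nat_lit 456) (nat_lit 0) (XT.nd (nat_lit 234) (nat_lit 76) (nat_lit 0) (XT.nd (nat_lit 78) (nat_lit 304) (nat_lit 0) (XT.lf (nat_lit 0) (nat_lit 1127493648275) (nat_lit 228) (nat_lit 200984213093) (nat_lit 76) (nat_lit 680430563765) (nat_lit 39) (nat_lit 5) (nat_lit 42) (nat_lit 5) (nat_lit 40) (nat_lit 4) (nat_lit 493) (nat_lit 463) (nat_lit 244)) (XT.nd (nat_lit 78) (nat_lit 228) (nat_lit 0) (XT.lf (nat_lit 0) (nat_lit 1063573186608) (nat_lit 76) (nat_lit 671880754326) (nat_lit 152) (nat_lit 377566519961) (nat_lit 38) (nat_lit 5) (nat_lit 39) (nat_lit 5) (nat_lit 40) (nat_lit 4) (nat_lit 494) (nat_lit 463) (nat_lit 243)) (XT.lf (nat_lit 0) (nat_lit 170535248692)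 (nat_lit 228) (nat_lit 2002852440959) (nat_lit 76) (nat_lit 50770920158) (nat_lit 35) (nat_lit 5) (nat_lit 38) (nat_lit 5) (nat_lit 36) (nat_lit 4) (nat_lit 495) (nat_lit 463) (nat_lit 242)))) (XT.nd (nat_lit 78) (nat_lit 76) (nat_lit 0) (XT.lf (nat_lit 0) (nat_lit 788977243465) (nat_lit 228) (nat_lit 716493099000) (nat_lit 76) (nat_lit 834181675673) (nat_lit 35) (nat_lit 5) (nat_lit 38) (nat_lit 5) (nat_lit 36) (nat_lit 4) (nat_lit 496) (nat_lit 463) (nat_lit 241)) (XT.nd (nat_lit 78) (nat_lit 0) (nat_lit 0) (XT.lf (nat_lit 0) (nat_lit 708202120154) (nat_lit 76) (nat_lit 765724751096) (nat_lit 152) (nat_lit 989095446010) (nat_lit 34) (nat_lit 5) (nat_lit 35) (nat_lit 5) (nat_lit 36) (nat_lit 4) (nat_lit 497) (nat_lit 463) (nat_lit 240)) (XT.lf (nat_lit 0) (nat_lit 2234569964436) (nat_lit 152) (nat_lit 308381787931) (nat_lit 0) (nat_lit 51638688330) (nat_lit 34) (nat_lit 5) (nat_lit 36)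 (nat_lit 4) (nat_lit 34) (nat_lit 4) (nat_lit 498) (nat_lit 463) (nat_lit 239))))) (XT.nd (nat_lit 234) (nat_lit 228) (nat_lit 0) (XT.nd (nat_lit 78) (nat_lit 76) (nat_lit 0) (XT.lf (nat_lit 0) (nat_lit 355858234004) (nat_lit 152) (nat_lit 1442746154646) (nat_lit 76) (nat_lit 933268780794) (nat_lit 32) (nat_lit 5) (nat_lit 34) (nat_lit 5) (nat_lit 33) (nat_lit 4) (nat_lit 499) (nat_lit 463) (nat_lit 238)) (XT.nd (nat_lit 78) (nat_lit 0) (nat_lit 0) (XT.lf (nat_lit 0) (nat_lit 150467275251) (nat_lit 76) (nat_lit 971358956241) (nat_lit 152) (nat_lit 1756582634716) (nat_lit 31) (nat_lit 5) (nat_lit 32) (nat_lit 5) (nat_lit 33) (nat_lit 4) (nat_lit 500) (nat_lit 463) (nat_lit 237)) (XT.lf (nat_lit 0) (nat_lit 1953188024049) (nat_lit 76) (nat_lit 35330877307) (nat_lit 152) (nat_lit 1044992738754) (nat_lit 31) (nat_lit 5) (nat_lit 32) (nat_lit 5) (nat_lit 33) (nat_lit 4) (nat_lit 501) (nat_lit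 463) (nat_lit 236)))) (XT.nd (nat_lit 78) (nat_lit 152) (nat_lit 0) (XT.lf (nat_lit 0) (nat_lit 711219142250) (nat_lit 76) (nat_lit 2253895385381) (nat_lit 76) (nat_lit 232662704866) (nat_lit 30) (nat_lit 4) (nat_lit 31) (nat_lit 5) (nat_lit 31) (nat_lit 4) (nat_lit 502) (nat_lit 463) (nat_lit 235)) (XT.nd (nat_lit 78) (nat_lit 76) (nat_lit 0) (XT.lf (nat_lit 0) (nat_lit 643628404466) (nat_lit 152) (nat_lit 682485602811) (nat_lit 76) (nat_lit 2045331920919) (nat_lit 29) (nat_lit 5) (nat_lit 31) (nat_lit 5) (nat_lit 30) (nat_lit 4) (nat_lit 503) (nat_lit 463) (nat_lit 234)) (XT.lf (nat_lit 0) (nat_lit 1326211984315) (nat_lit 76) (nat_lit 283136415558) (nat_lit 152) (nat_lit 1946624630580) (nat_lit 28) (nat_lit 5) (nat_lit 29) (nat_lit 5) (nat_lit 30) (nat_lit 4) (nat_lit 504) (nat_lit 463) (nat_lit 233)))))) (XT.nd (nat_lit 468) (nat_lit 304) (nat_lit 0) (XT.nd (nat_lit 234) (nat_lit 152)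 (nat_lit 0) (XT.nd (nat_lit 78) (nat_lit 228) (nat_lit 0) (XT.lf (nat_lit 0) (nat_lit 2691751931529) (nat_lit 152) (nat_lit 240116113363) (nat_lit 0) (nat_lit 820240181069) (nat_lit 28) (nat_lit 5) (nat_lit 30) (nat_lit 4) (nat_lit 28) (nat_lit 4) (nat_lit 505) (nat_lit 463) (nat_lit 232)) (XT.nd (nat_lit 78) (nat_lit 152) (nat_lit 0) (XT.lf (nat_lit 0) (nat_lit 2001467737304) (nat_lit 76) (nat_lit 1914769544988) (nat_lit 76) (nat_lit 43257791892) (nat_lit 27) (nat_lit 4) (nat_lit 28) (nat_lit 5) (nat_lit 28) (nat_lit 4) (nat_lit 506) (nat_lit 463) (nat_lit 231)) (XT.lf (nat_lit 0) (nat_lit 239519679304) (nat_lit 76) (nat_lit 775399279753) (nat_lit 152) (nat_lit 3165523993806) (nat_lit 25) (nat_lit 5) (nat_lit 26) (nat_lit 5) (nat_lit 27) (nat_lit 4) (nat_lit 507) (nat_lit 463) (nat_lit 230)))) (XT.nd (nat_lit 78) (nat_lit 152) (nat_lit 0) (XT.lf (nat_lit 0) (nat_lit 2221284945195) (nat_lit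 152) (nat_lit 1704018371190) (nat_lit 0) (nat_lit 488403687975) (nat_lit 25) (nat_lit 5) (nat_lit 27) (nat_lit 4) (nat_lit 25) (nat_lit 4) (nat_lit 508) (nat_lit 463) (nat_lit 229)) (XT.nd (nat_lit 78) (nat_lit 76) (nat_lit 0) (XT.lf (nat_lit 0) (nat_lit 728122302952) (nat_lit 76) (nat_lit 2833689504213) (nat_lit 76) (nat_lit 1100808245056) (nat_lit 24) (nat_lit 4) (nat_lit 25) (nat_lit 5) (nat_lit 25) (nat_lit 4) (nat_lit 509) (nat_lit 463) (nat_lit 228)) (XT.lf (nat_lit 0) (nat_lit 122027093182) (nat_lit 152) (nat_lit 1479064907131) (nat_lit 76) (nat_lit 3326379729786) (nat_lit 23) (nat_lit 5) (nat_lit 25) (nat_lit 5) (nat_lit 24) (nat_lit 4) (nat_lit 510) (nat_lit 463) (nat_lit 227))))) (XT.nd (nat_lit 234) (nat_lit 152) (nat_lit 0) (XT.nd (nat_lit 78) (nat_lit 76) (nat_lit 0) (XT.lf (nat_lit 0) (nat_lit 1204462212961) (nat_lit 76) (nat_lit 207722150295) (nat_lit 152) (nat_lit 3796722397803)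 (nat_lit 22) (nat_lit 5) (nat_lit 23) (nat_lit 5) (nat_lit 24) (nat_lit 4) (nat_lit 511) (nat_lit 463) (nat_lit 226)) (XT.nd (nat_lit 78) (nat_lit 76) (nat_lit 0) (XT.lf (nat_lit 0) (nat_lit 2878240566097) (nat_lit 152) (nat_lit 1355080243236) (nat_lit 0) (nat_lit 1273720877068) (nat_lit 22) (nat_lit 5) (nat_lit 24) (nat_lit 4) (nat_lit 22) (nat_lit 4) (nat_lit 512) (nat_lit 463) (nat_lit 225)) (XT.lf (nat_lit 0) (nat_lit 1579869280331) (nat_lit 76) (nat_lit 2925103257007) (nat_lit 76) (nat_lit 1320583566659) (nat_lit 21) (nat_lit 4) (nat_lit 22) (nat_lit 5) (nat_lit 22) (nat_lit 4) (nat_lit 513) (nat_lit 463) (nat_lit 224)))) (XT.nd (nat_lit 78) (nat_lit 76) (nat_lit 0) (XT.lf (nat_lit 0) (nat_lit 125687240155) (nat_lit 152) (nat_lit 1343090232044) (nat_lit 76) (nat_lit 4697555622943) (nat_lit 20) (nat_lit 5) (nat_lit 22) (nat_lit 5) (nat_lit 21) (nat_lit 4) (nat_lit 514) (nat_lit 463)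 (nat_lit 223)) (XT.nd (nat_lit 78) (nat_lit 0) (nat_lit 0) (XT.lf (nat_lit 0) (nat_lit 1665354433979) (nat_lit 152) (nat_lit 4682662447125) (nat_lit 0) (nat_lit 179688051851) (nat_lit 19) (nat_lit 5) (nat_lit 21) (nat_lit 4) (nat_lit 19) (nat_lit 4) (nat_lit 515) (nat_lit 463) (nat_lit 222)) (XT.lf (nat_lit 0) (nat_lit 3404021362600) (nat_lit 152) (nat_lit 1589544066947) (nat_lit 0) (nat_lit 1918354979503) (nat_lit 19) (nat_lit 5) (nat_lit 21) (nat_lit 4) (nat_lit 19) (nat_lit 4) (nat_lit 516) (nat_lit 463) (nat_lit 221))))))))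
noncomputable def xc224 : XT := (XT.nd (nat_lit 59592) (nat_lit 0) (nat_lit 1292) (XT.nd (nat_lit 58656) (nat_lit 0) (nat_lit 3192) (XT.nd (nat_lit 390) (nat_lit 76) (nat_lit 0) (XT.nd (nat_lit 156) (nat_lit 228) (nat_lit 0) (XT.nd (nat_lit 78) (nat_lit 0) (nat_lit 0) (XT.lf (nat_lit 0) (nat_lit 1843229588424) (nat_lit 76) (nat_lit 3482881770851) (nat_lit 76) (nat_lit 1997215386856) (nat_lit 18) (nat_lit 4) (nat_lit 19) (nat_lit 5) (nat_lit 19) (nat_lit 4) (nat_lit 517) (nat_lit 463) (nat_lit 220)) (XT.lf (nat_lit 0) (nat_lit 5641023911523) (nat_lit 76) (nat_lit 1804405593758) (nat_lit 76) (nat_lit 318739208931) (nat_lit 18) (nat_lit 4) (nat_lit 19) (nat_lit 5) (nat_lit 19) (nat_lit 4) (nat_lit 518) (nat_lit 463) (nat_lit 219))) (XT.nd (nat_lit 78) (nat_lit 76) (nat_lit 0) (XT.lf (nat_lit 0) (nat_lit 1458501597529) (nat_lit 152) (nat_lit 6692879523040) (nat_lit 0) (nat_lit 82884573829)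 (nat_lit 16) (nat_lit 5) (nat_lit 18) (nat_lit 4) (nat_lit 16) (nat_lit 4) (nat_lit 519) (nat_lit 463) (nat_lit 218)) (XT.nd (nat_lit 78) (nat_lit 76) (nat_lit 0) (XT.lf (nat_lit 0) (nat_lit 3467127495759) (nat_lit 152) (nat_lit 3174156068722) (nat_lit 0) (nat_lit 2091510471400) (nat_lit 16) (nat_lit 5) (nat_lit 18) (nat_lit 4) (nat_lit 16) (nat_lit 4) (nat_lit 520) (nat_lit 463) (nat_lit 217)) (XT.lf (nat_lit 0) (nat_lit 659032745209) (nat_lit 76) (nat_lit 4993260472162) (nat_lit 76) (nat_lit 3617643447191) (nat_lit 15) (nat_lit 4) (nat_lit 16) (nat_lit 5) (nat_lit 16) (nat_lit 4) (nat_lit 521) (nat_lit 463) (nat_lit 216))))) (XT.nd (nat_lit 58032) (nat_lit 0) (nat_lit 4408) (XT.nd (nat_lit 78) (nat_lit 76) (nat_lit 0) (XT.lf (nat_lit 0) (nat_lit 4979393728778) (nat_lit 76) (nat_lit 3119665518139) (nat_lit 76) (nat_lit 1744048492603) (nat_lit 15) (nat_lit 4) (nat_lit 16) (nat_lit 5) (nat_lit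 16) (nat_lit 4) (nat_lit 522) (nat_lit 463) (nat_lit 215)) (XT.nd (nat_lit 57876) (nat_lit 0) (nat_lit 4864) (XT.lf (nat_lit 0) (nat_lit 265455633327) (nat_lit 152) (nat_lit 823469308737) (nat_lit 76) (nat_lit 9372669926882) (nat_lit 14) (nat_lit 5) (nat_lit 16) (nat_lit 5) (nat_lit 15) (nat_lit 4) (nat_lit 523) (nat_lit 463) (nat_lit 214)) (XT.lf (nat_lit 0) (nat_lit 266314211835) (nat_lit 532) (nat_lit 6742787450) (nat_lit 532) (nat_lit 6742787450) (nat_lit 78) (nat_lit 3) (nat_lit 85) (nat_lit 3) (nat_lit 85) (nat_lit 5) (nat_lit 464) (nat_lit 464) (nat_lit 272)))) (XT.nd (nat_lit 78) (nat_lit 456) (nat_lit 0) (XT.lf (nat_lit 76) (nat_lit 276807222651) (nat_lit 0) (nat_lit 283783755050) (nat_lit 532) (nat_lit 20859985263) (nat_lit 79) (nat_lit 5) (nat_lit 78) (nat_lit 3) (nat_lit 85) (nat_lit 5) (nat_lit 465) (nat_lit 464) (nat_lit 271)) (XT.nd (nat_lit 78) (nat_lit 456) (nat_lit 0)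 (XT.lf (nat_lit 76) (nat_lit 591090369410) (nat_lit 0) (nat_lit 68866210) (nat_lit 532) (nat_lit 13861732039) (nat_lit 79) (nat_lit 5) (nat_lit 78) (nat_lit 3) (nat_lit 85) (nat_lit 5) (nat_lit 466) (nat_lit 464) (nat_lit 270)) (XT.lf (nat_lit 0) (nat_lit 9172492795) (nat_lit 532) (nat_lit 321443019346) (nat_lit 608) (nat_lit 298660326465) (nat_lit 72) (nat_lit 5) (nat_lit 79) (nat_lit 5) (nat_lit 80) (nat_lit 5) (nat_lit 467) (nat_lit 464) (nat_lit 269)))))) (XT.nd (nat_lit 468) (nat_lit 912) (nat_lit 0) (XT.nd (nat_lit 234) (nat_lit 304) (nat_lit 0) (XT.nd (nat_lit 78) (nat_lit 0) (nat_lit 76) (XT.lf (nat_lit 76) (nat_lit 333890366) (nat_lit 0) (nat_lit 33367253237) (nat_lit 608) (nat_lit 621709105505) (nat_lit 73) (nat_lit 5) (nat_lit 72) (nat_lit 5) (nat_lit 80) (nat_lit 5) (nat_lit 468) (nat_lit 464) (nat_lit 268)) (XT.nd (nat_lit 78) (nat_lit 0) (nat_lit 0) (XT.lf (nat_lit 0) (nat_lit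 76127423568) (nat_lit 532) (nat_lit 323945150155) (nat_lit 608) (nat_lit 282288011769) (nat_lit 73) (nat_lit 5) (nat_lit 80) (nat_lit 5) (nat_lit 81) (nat_lit 5) (nat_lit 469) (nat_lit 464) (nat_lit 267)) (XT.lf (nat_lit 76) (nat_lit 34537569552) (nat_lit 0) (nat_lit 89107532338) (nat_lit 608) (nat_lit 587686063224) (nat_lit 74) (nat_lit 5) (nat_lit 73) (nat_lit 5) (nat_lit 81) (nat_lit 5) (nat_lit 470) (nat_lit 464) (nat_lit 266)))) (XT.nd (nat_lit 78) (nat_lit 456) (nat_lit 0) (XT.lf (nat_lit 0) (nat_lit 189985448333) (nat_lit 532) (nat_lit 307952905249) (nat_lit 76) (nat_lit 243479337221) (nat_lit 74) (nat_lit 5) (nat_lit 81) (nat_lit 5) (nat_lit 75) (nat_lit 5) (nat_lit 471) (nat_lit 464) (nat_lit 265)) (XT.nd (nat_lit 78) (nat_lit 0) (nat_lit 0) (XT.lf (nat_lit 0) (nat_lit 92718711754) (nat_lit 456) (nat_lit 173458665976) (nat_lit 532) (nat_lit 507370212400) (nat_lit 68) (nat_lit 5)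 (nat_lit 74) (nat_lit 5) (nat_lit 75) (nat_lit 5) (nat_lit 472) (nat_lit 464) (nat_lit 264)) (XT.lf (nat_lit 0) (nat_lit 361359686463) (nat_lit 532) (nat_lit 269091743276) (nat_lit 76) (nat_lit 176764849672) (nat_lit 68) (nat_lit 5) (nat_lit 75) (nat_lit 5) (nat_lit 69) (nat_lit 5) (nat_lit 473) (nat_lit 464) (nat_lit 263))))) (XT.nd (nat_lit 234) (nat_lit 456) (nat_lit 0) (XT.nd (nat_lit 78) (nat_lit 228) (nat_lit 0) (XT.lf (nat_lit 0) (nat_lit 180087643665) (nat_lit 228) (nat_lit 292905456559) (nat_lit 304) (nat_lit 369878441988) (nat_lit 65) (nat_lit 5) (nat_lit 68) (nat_lit 5) (nat_lit 69) (nat_lit 5) (nat_lit 474) (nat_lit 464) (nat_lit 262)) (XT.nd (nat_lit 78) (nat_lit 228) (nat_lit 0) (XT.lf (nat_lit 0) (nat_lit 602828768121) (nat_lit 304) (nat_lit 202199922987) (nat_lit 76) (nat_lit 75608808450) (nat_lit 65) (nat_lit 5) (nat_lit 69) (nat_lit 5) (nat_lit 66) (nat_lit 5) (nat_lit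 475) (nat_lit 464) (nat_lit 261)) (XT.lf (nat_lit 0) (nat_lit 302768532950) (nat_lit 228) (nat_lit 455172270594) (nat_lit 304) (nat_lit 162292768824) (nat_lit 62) (nat_lit 5) (nat_lit 65) (nat_lit 5) (nat_lit 66) (nat_lit 5) (nat_lit 476) (nat_lit 464) (nat_lit 260)))) (XT.nd (nat_lit 78) (nat_lit 456) (nat_lit 0) (XT.lf (nat_lit 0) (nat_lit 859633742480) (nat_lit 228) (nat_lit 71356553686) (nat_lit 304) (nat_lit 31564755289) (nat_lit 62) (nat_lit 5) (nat_lit 65) (nat_lit 5) (nat_lit 66) (nat_lit 5) (nat_lit 477) (nat_lit 464) (nat_lit 259)) (XT.nd (nat_lit 78) (nat_lit 228) (nat_lit 0) (XT.lf (nat_lit 0) (nat_lit 124151564068) (nat_lit 228) (nat_lit 541903653499) (nat_lit 76) (nat_lit 340395017242) (nat_lit 59) (nat_lit 5) (nat_lit 62) (nat_lit 5) (nat_lit 60) (nat_lit 5) (nat_lit 478) (nat_lit 464) (nat_lit 258)) (XT.lf (nat_lit 0) (nat_lit 28302648545) (nat_lit 228) (nat_lit 267738454362)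 (nat_lit 304) (nat_lit 757316642378) (nat_lit 56) (nat_lit 5) (nat_lit 59) (nat_lit 5) (nat_lit 60) (nat_lit 5) (nat_lit 479) (nat_lit 464) (nat_lit 257))))))) (XT.nd (nat_lit 858) (nat_lit 912) (nat_lit 0) (XT.nd (nat_lit 390) (nat_lit 608) (nat_lit 0) (XT.nd (nat_lit 156) (nat_lit 228) (nat_lit 0) (XT.nd (nat_lit 78) (nat_lit 152) (nat_lit 0) (XT.lf (nat_lit 0) (nat_lit 500790023016) (nat_lit 304) (nat_lit 432180165013) (nat_lit 76) (nat_lit 169519011118) (nat_lit 56) (nat_lit 5) (nat_lit 60) (nat_lit 5) (nat_lit 57) (nat_lit 5) (nat_lit 480) (nat_lit 464) (nat_lit 256)) (XT.lf (nat_lit 0) (nat_lit 211763786830) (nat_lit 152) (nat_lit 522202231616) (nat_lit 228) (nat_lit 420621377938) (nat_lit 54) (nat_lit 5) (nat_lit 56) (nat_lit 5) (nat_lit 57) (nat_lit 5) (nat_lit 481) (nat_lit 464) (nat_lit 255))) (XT.nd (nat_lit 78) (nat_lit 228) (nat_lit 0) (XT.lf (nat_lit 0) (nat_lit 931801712915)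 (nat_lit 152) (nat_lit 65810944510) (nat_lit 228) (nat_lit 212295466865) (nat_lit 54) (nat_lit 5) (nat_lit 56) (nat_lit 5) (nat_lit 57) (nat_lit 5) (nat_lit 482) (nat_lit 464) (nat_lit 254)) (XT.nd (nat_lit 78) (nat_lit 0) (nat_lit 0) (XT.lf (nat_lit 0) (nat_lit 33756011745) (nat_lit 228) (nat_lit 816683291301) (nat_lit 76) (nat_lit 417455209192) (nat_lit 51) (nat_lit 5) (nat_lit 54) (nat_lit 5) (nat_lit 52) (nat_lit 5) (nat_lit 483) (nat_lit 464) (nat_lit 253)) (XT.lf (nat_lit 0) (nat_lit 297532933969) (nat_lit 228) (nat_lit 82642133842) (nat_lit 76) (nat_lit 949142746397) (nat_lit 51) (nat_lit 5) (nat_lit 54) (nat_lit 5) (nat_lit 52) (nat_lit 5) (nat_lit 484) (nat_lit 464) (nat_lit 252))))) (XT.nd (nat_lit 234) (nat_lit 304) (nat_lit 0) (XT.nd (nat_lit 78) (nat_lit 152) (nat_lit 0) (XT.lf (nat_lit 0) (nat_lit 603928174500) (nat_lit 228) (nat_lit 650239061084) (nat_lit 76) (nat_lit 139766451592)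 (nat_lit 49) (nat_lit 5) (nat_lit 52) (nat_lit 5) (nat_lit 50) (nat_lit 5) (nat_lit 485) (nat_lit 464) (nat_lit 251)) (XT.nd (nat_lit 78) (nat_lit 0) (nat_lit 0) (XT.lf (nat_lit 0) (nat_lit 176180057239) (nat_lit 152) (nat_lit 775085055196) (nat_lit 228) (nat_lit 511139311294) (nat_lit 47) (nat_lit 5) (nat_lit 49) (nat_lit 5) (nat_lit 50) (nat_lit 5) (nat_lit 486) (nat_lit 464) (nat_lit 250)) (XT.lf (nat_lit 0) (nat_lit 1105692366816) (nat_lit 152) (nat_lit 238475320697) (nat_lit 228) (nat_lit 190762837127) (nat_lit 47) (nat_lit 5) (nat_lit 49) (nat_lit 5) (nat_lit 50) (nat_lit 5) (nat_lit 487) (nat_lit 464) (nat_lit 249)))) (XT.nd (nat_lit 78) (nat_lit 152) (nat_lit 0) (XT.lf (nat_lit 0) (nat_lit 168571494971) (nat_lit 152) (nat_lit 1102074504105) (nat_lit 76) (nat_lit 340626532354) (nat_lit 45) (nat_lit 5) (nat_lit 47) (nat_lit 5) (nat_lit 46) (nat_lit 5) (nat_lit 488) (nat_lit 464) (nat_lit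 248)) (XT.nd (nat_lit 78) (nat_lit 152) (nat_lit 0) (XT.lf (nat_lit 0) (nat_lit 564581550523) (nat_lit 152) (nat_lit 157116633699) (nat_lit 76) (nat_lit 970168514236) (nat_lit 45) (nat_lit 5) (nat_lit 47) (nat_lit 5) (nat_lit 46) (nat_lit 5) (nat_lit 489) (nat_lit 464) (nat_lit 247)) (XT.lf (nat_lit 0) (nat_lit 908904964986) (nat_lit 152) (nat_lit 105226626513) (nat_lit 228) (nat_lit 763028072872) (nat_lit 43) (nat_lit 5) (nat_lit 45) (nat_lit 5) (nat_lit 46) (nat_lit 5) (nat_lit 490) (nat_lit 464) (nat_lit 246)))))) (XT.nd (nat_lit 468) (nat_lit 304) (nat_lit 0) (XT.nd (nat_lit 234) (nat_lit 304) (nat_lit 0) (XT.nd (nat_lit 78) (nat_lit 228) (nat_lit 0) (XT.lf (nat_lit 0) (nat_lit 196445098714) (nat_lit 76) (nat_lit 1325814014203) (nat_lit 152) (nat_lit 345207876466) (nat_lit 42) (nat_lit 5) (nat_lit 43) (nat_lit 5) (nat_lit 44) (nat_lit 4) (nat_lit 491) (nat_lit 464) (nat_lit 245)) (XT.nd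 (nat_lit 78) (nat_lit 152) (nat_lit 0) (XT.lf (nat_lit 0) (nat_lit 127822878366) (nat_lit 152) (nat_lit 573300432402) (nat_lit 76) (nat_lit 1261504421261) (nat_lit 41) (nat_lit 5) (nat_lit 43) (nat_lit 5) (nat_lit 42) (nat_lit 5) (nat_lit 492) (nat_lit 464) (nat_lit 244)) (XT.lf (nat_lit 0) (nat_lit 635039545912) (nat_lit 152) (nat_lit 279067498) (nat_lit 228) (nat_lit 1428143588682) (nat_lit 39) (nat_lit 5) (nat_lit 41) (nat_lit 5) (nat_lit 42) (nat_lit 5) (nat_lit 493) (nat_lit 464) (nat_lit 243)))) (XT.nd (nat_lit 78) (nat_lit 304) (nat_lit 0) (XT.lf (nat_lit 0) (nat_lit 1217693231522) (nat_lit 228) (nat_lit 217062787206) (nat_lit 76) (nat_lit 734865073092) (nat_lit 39) (nat_lit 5) (nat_lit 42) (nat_lit 5) (nat_lit 40) (nat_lit 4) (nat_lit 494) (nat_lit 464) (nat_lit 242)) (XT.nd (nat_lit 78) (nat_lit 228) (nat_lit 0) (XT.lf (nat_lit 0) (nat_lit 1148659200346) (nat_lit 76) (nat_lit 725631144299)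 (nat_lit 152) (nat_lit 407771746037) (nat_lit 38) (nat_lit 5) (nat_lit 39) (nat_lit 5) (nat_lit 40) (nat_lit 4) (nat_lit 495) (nat_lit 464) (nat_lit 241)) (XT.lf (nat_lit 0) (nat_lit 184178158166) (nat_lit 228) (nat_lit 2163080471463) (nat_lit 76) (nat_lit 54832661789) (nat_lit 35) (nat_lit 5) (nat_lit 38) (nat_lit 5) (nat_lit 36) (nat_lit 4) (nat_lit 496) (nat_lit 464) (nat_lit 240))))) (XT.nd (nat_lit 234) (nat_lit 228) (nat_lit 0) (XT.nd (nat_lit 78) (nat_lit 76) (nat_lit 0) (XT.lf (nat_lit 0) (nat_lit 852095505885) (nat_lit 228) (nat_lit 773812394353) (nat_lit 76) (nat_lit 900916272706) (nat_lit 35) (nat_lit 5) (nat_lit 38) (nat_lit 5) (nat_lit 36) (nat_lit 4) (nat_lit 497) (nat_lit 464) (nat_lit 239)) (XT.nd (nat_lit 78) (nat_lit 0) (nat_lit 0) (XT.lf (nat_lit 0) (nat_lit 764858438471) (nat_lit 76) (nat_lit 826982662854) (nat_lit 152) (nat_lit 1068222994877) (nat_lit 34) (nat_lit 5)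 (nat_lit 35) (nat_lit 5) (nat_lit 36) (nat_lit 4) (nat_lit 498) (nat_lit 464) (nat_lit 238)) (XT.lf (nat_lit 0) (nat_lit 2413335637534) (nat_lit 152) (nat_lit 333052188836) (nat_lit 0) (nat_lit 55769843500) (nat_lit 34) (nat_lit 5) (nat_lit 36) (nat_lit 4) (nat_lit 34) (nat_lit 4) (nat_lit 499) (nat_lit 464) (nat_lit 237)))) (XT.nd (nat_lit 78) (nat_lit 76) (nat_lit 0) (XT.lf (nat_lit 0) (nat_lit 384326968294) (nat_lit 152) (nat_lit 1558165704500) (nat_lit 76) (nat_lit 1007930344153) (nat_lit 32) (nat_lit 5) (nat_lit 34) (nat_lit 5) (nat_lit 33) (nat_lit 4) (nat_lit 500) (nat_lit 464) (nat_lit 236)) (XT.nd (nat_lit 78) (nat_lit 0) (nat_lit 0) (XT.lf (nat_lit 0) (nat_lit 162504796181) (nat_lit 76) (nat_lit 1049067607144) (nat_lit 152) (nat_lit 1897109166310) (nat_lit 31) (nat_lit 5) (nat_lit 32) (nat_lit 5) (nat_lit 33) (nat_lit 4) (nat_lit 501) (nat_lit 464) (nat_lit 235)) (XT.lf (nat_lit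 0) (nat_lit 2109443194593) (nat_lit 76) (nat_lit 38157286753) (nat_lit 152) (nat_lit 1128592084537) (nat_lit 31) (nat_lit 5) (nat_lit 32) (nat_lit 5) (nat_lit 33) (nat_lit 4) (nat_lit 502) (nat_lit 464) (nat_lit 234))))))))
noncomputable def xc225 : XT := (XT.nd (nat_lit 59670) (nat_lit 0) (nat_lit 2280) (XT.nd (nat_lit 858) (nat_lit 532) (nat_lit 0) (XT.nd (nat_lit 390) (nat_lit 380) (nat_lit 0) (XT.nd (nat_lit 156) (nat_lit 152) (nat_lit 0) (XT.nd (nat_lit 78) (nat_lit 76) (nat_lit 0) (XT.lf (nat_lit 0) (nat_lit 768116802869) (nat_lit 76) (nat_lit 2434206954288) (nat_lit 76) (nat_lit 251275648551) (nat_lit 30) (nat_lit 4) (nat_lit 31) (nat_lit 5) (nat_lit 31) (nat_lit 4) (nat_lit 503) (nat_lit 464) (nat_lit 233)) (XT.lf (nat_lit 0) (nat_lit 695118740774) (nat_lit 152) (nat_lit 737084327999) (nat_lit 76) (nat_lit 2208958528558) (nat_lit 29) (nat_lit 5) (nat_lit 31) (nat_lit 5) (nat_lit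 30) (nat_lit 4) (nat_lit 504) (nat_lit 464) (nat_lit 232))) (XT.nd (nat_lit 78) (nat_lit 76) (nat_lit 0) (XT.lf (nat_lit 0) (nat_lit 1432309062982) (nat_lit 76) (nat_lit 305787270979) (nat_lit 152) (nat_lit 2102354533956) (nat_lit 28) (nat_lit 5) (nat_lit 29) (nat_lit 5) (nat_lit 30) (nat_lit 4) (nat_lit 505) (nat_lit 464) (nat_lit 231)) (XT.nd (nat_lit 78) (nat_lit 76) (nat_lit 0) (XT.lf (nat_lit 0) (nat_lit 2907092144838) (nat_lit 152) (nat_lit 259325288077) (nat_lit 0) (nat_lit 885859446417) (nat_lit 28) (nat_lit 5) (nat_lit 30) (nat_lit 4) (nat_lit 28) (nat_lit 4) (nat_lit 506) (nat_lit 464) (nat_lit 230)) (XT.lf (nat_lit 0) (nat_lit 2161585267748) (nat_lit 76) (nat_lit 2067951054240) (nat_lit 76) (nat_lit 46718353559) (nat_lit 27) (nat_lit 4) (nat_lit 28) (nat_lit 5) (nat_lit 28) (nat_lit 4) (nat_lit 507) (nat_lit 464) (nat_lit 229))))) (XT.nd (nat_lit 234) (nat_lit 152) (nat_lit 0)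 (XT.nd (nat_lit 78) (nat_lit 76) (nat_lit 0) (XT.lf (nat_lit 0) (nat_lit 258681365298) (nat_lit 76) (nat_lit 837431167428) (nat_lit 152) (nat_lit 3418765851808) (nat_lit 25) (nat_lit 5) (nat_lit 26) (nat_lit 5) (nat_lit 27) (nat_lit 4) (nat_lit 508) (nat_lit 464) (nat_lit 228)) (XT.nd (nat_lit 78) (nat_lit 76) (nat_lit 0) (XT.lf (nat_lit 0) (nat_lit 2398987794754) (nat_lit 152) (nat_lit 1840339734504) (nat_lit 0) (nat_lit 527476031133) (nat_lit 25) (nat_lit 5) (nat_lit 27) (nat_lit 4) (nat_lit 25) (nat_lit 4) (nat_lit 509) (nat_lit 464) (nat_lit 227)) (XT.lf (nat_lit 0) (nat_lit 786372190877) (nat_lit 76) (nat_lit 3060384613303) (nat_lit 76) (nat_lit 1188872848021) (nat_lit 24) (nat_lit 4) (nat_lit 25) (nat_lit 5) (nat_lit 25) (nat_lit 4) (nat_lit 510) (nat_lit 464) (nat_lit 226)))) (XT.nd (nat_lit 78) (nat_lit 76) (nat_lit 0) (XT.lf (nat_lit 0) (nat_lit 131789310457) (nat_lit 152) (nat_lit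 1597390001068) (nat_lit 76) (nat_lit 3592490152994) (nat_lit 23) (nat_lit 5) (nat_lit 25) (nat_lit 5) (nat_lit 24) (nat_lit 4) (nat_lit 511) (nat_lit 464) (nat_lit 225)) (XT.nd (nat_lit 78) (nat_lit 0) (nat_lit 0) (XT.lf (nat_lit 0) (nat_lit 1300819286134) (nat_lit 76) (nat_lit 224339874625) (nat_lit 152) (nat_lit 4100460137307) (nat_lit 22) (nat_lit 5) (nat_lit 23) (nat_lit 5) (nat_lit 24) (nat_lit 4) (nat_lit 512) (nat_lit 464) (nat_lit 224)) (XT.lf (nat_lit 0) (nat_lit 3108499857301) (nat_lit 152) (nat_lit 1463486571151) (nat_lit 0) (nat_lit 1375618589186) (nat_lit 22) (nat_lit 5) (nat_lit 24) (nat_lit 4) (nat_lit 22) (nat_lit 4) (nat_lit 513) (nat_lit 464) (nat_lit 223)))))) (XT.nd (nat_lit 468) (nat_lit 228) (nat_lit 0) (XT.nd (nat_lit 234) (nat_lit 76) (nat_lit 0) (XT.nd (nat_lit 78) (nat_lit 152) (nat_lit 0) (XT.lf (nat_lit 0) (nat_lit 1706258911983) (nat_lit 76) (nat_lit 3159111473002)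 (nat_lit 76) (nat_lit 1426230203757) (nat_lit 21) (nat_lit 4) (nat_lit 22) (nat_lit 5) (nat_lit 22) (nat_lit 4) (nat_lit 514) (nat_lit 464) (nat_lit 222)) (XT.nd (nat_lit 78) (nat_lit 76) (nat_lit 0) (XT.lf (nat_lit 0) (nat_lit 135742261796) (nat_lit 152) (nat_lit 1450537365756) (nat_lit 76) (nat_lit 5073360111806) (nat_lit 20) (nat_lit 5) (nat_lit 22) (nat_lit 5) (nat_lit 21) (nat_lit 4) (nat_lit 515) (nat_lit 464) (nat_lit 221)) (XT.lf (nat_lit 0) (nat_lit 1798582830968) (nat_lit 152) (nat_lit 5057275357885) (nat_lit 0) (nat_lit 194063135356) (nat_lit 19) (nat_lit 5) (nat_lit 21) (nat_lit 4) (nat_lit 19) (nat_lit 4) (nat_lit 516) (nat_lit 464) (nat_lit 220)))) (XT.nd (nat_lit 78) (nat_lit 76) (nat_lit 0) (XT.lf (nat_lit 0) (nat_lit 3676343110748) (nat_lit 152) (nat_lit 1716707513589) (nat_lit 0) (nat_lit 2071823414305) (nat_lit 19) (nat_lit 5) (nat_lit 21) (nat_lit 4) (nat_lit 19) (nat_lit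 4) (nat_lit 517) (nat_lit 464) (nat_lit 219)) (XT.nd (nat_lit 78) (nat_lit 0) (nat_lit 0) (XT.lf (nat_lit 0) (nat_lit 1990688032219) (nat_lit 76) (nat_lit 3761512273884) (nat_lit 76) (nat_lit 2156992576671) (nat_lit 18) (nat_lit 4) (nat_lit 19) (nat_lit 5) (nat_lit 19) (nat_lit 4) (nat_lit 518) (nat_lit 464) (nat_lit 218)) (XT.lf (nat_lit 0) (nat_lit 6092305895483) (nat_lit 76) (nat_lit 1948758005485) (nat_lit 76) (nat_lit 344238307559) (nat_lit 18) (nat_lit 4) (nat_lit 19) (nat_lit 5) (nat_lit 19) (nat_lit 4) (nat_lit 519) (nat_lit 464) (nat_lit 217))))) (XT.nd (nat_lit 234) (nat_lit 0) (nat_lit 0) (XT.nd (nat_lit 78) (nat_lit 76) (nat_lit 0) (XT.lf (nat_lit 0) (nat_lit 1575181761406) (nat_lit 152) (nat_lit 7228309811831) (nat_lit 0) (nat_lit 89515373827) (nat_lit 16) (nat_lit 5) (nat_lit 18) (nat_lit 4) (nat_lit 16) (nat_lit 4) (nat_lit 520) (nat_lit 464) (nat_lit 216)) (XT.nd (nat_lit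 78) (nat_lit 76) (nat_lit 0) (XT.lf (nat_lit 0) (nat_lit 3744497728822) (nat_lit 152) (nat_lit 3428088486579) (nat_lit 0) (nat_lit 2258831340678) (nat_lit 16) (nat_lit 5) (nat_lit 18) (nat_lit 4) (nat_lit 16) (nat_lit 4) (nat_lit 521) (nat_lit 464) (nat_lit 215)) (XT.lf (nat_lit 0) (nat_lit 711755430754) (nat_lit 76) (nat_lit 5392721276520) (nat_lit 76) (nat_lit 3907054887851) (nat_lit 15) (nat_lit 4) (nat_lit 16) (nat_lit 5) (nat_lit 16) (nat_lit 4) (nat_lit 522) (nat_lit 464) (nat_lit 214)))) (XT.nd (nat_lit 57954) (nat_lit 0) (nat_lit 4788) (XT.lf (nat_lit 0) (nat_lit 5377745288125) (nat_lit 76) (nat_lit 3369238728651) (nat_lit 76) (nat_lit 1883572339498) (nat_lit 15) (nat_lit 4) (nat_lit 16) (nat_lit 5) (nat_lit 16) (nat_lit 4) (nat_lit 523) (nat_lit 464) (nat_lit 213)) (XT.nd (nat_lit 78) (nat_lit 0) (nat_lit 0) (XT.lf (nat_lit 0) (nat_lit 287619540773) (nat_lit 532) (nat_lit 7282106732)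 (nat_lit 532) (nat_lit 7282106732) (nat_lit 78) (nat_lit 3) (nat_lit 85) (nat_lit 3) (nat_lit 85) (nat_lit 5) (nat_lit 465) (nat_lit 465) (nat_lit 270)) (XT.lf (nat_lit 76) (nat_lit 298952002639) (nat_lit 0) (nat_lit 306486613679) (nat_lit 532) (nat_lit 22528394708) (nat_lit 79) (nat_lit 5) (nat_lit 78) (nat_lit 3) (nat_lit 85) (nat_lit 5) (nat_lit 466) (nat_lit 465) (nat_lit 269))))))) (XT.nd (nat_lit 936) (nat_lit 1292) (nat_lit 0) (XT.nd (nat_lit 468) (nat_lit 760) (nat_lit 0) (XT.nd (nat_lit 234) (nat_lit 0) (nat_lit 76) (XT.nd (nat_lit 78) (nat_lit 456) (nat_lit 0) (XT.lf (nat_lit 76) (nat_lit 638377786162) (nat_lit 0) (nat_lit 74522011) (nat_lit 532) (nat_lit 14970310070) (nat_lit 79) (nat_lit 5) (nat_lit 78) (nat_lit 3) (nat_lit 85) (nat_lit 5) (nat_lit 467) (nat_lit 465) (nat_lit 268)) (XT.nd (nat_lit 78) (nat_lit 0) (nat_lit 0) (XT.lf (nat_lit 0) (nat_lit 9906611230) (nat_lit 532)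 (nat_lit 347158231938) (nat_lit 608) (nat_lit 322553036891) (nat_lit 72) (nat_lit 5) (nat_lit 79) (nat_lit 5) (nat_lit 80) (nat_lit 5) (nat_lit 468) (nat_lit 465) (nat_lit 267)) (XT.lf (nat_lit 76) (nat_lit 360824755) (nat_lit 0) (nat_lit 36036711085) (nat_lit 608) (nat_lit 671445509033) (nat_lit 73) (nat_lit 5) (nat_lit 72) (nat_lit 5) (nat_lit 80) (nat_lit 5) (nat_lit 469) (nat_lit 465) (nat_lit 266)))) (XT.nd (nat_lit 78) (nat_lit 0) (nat_lit 0) (XT.lf (nat_lit 0) (nat_lit 82217894197) (nat_lit 532) (nat_lit 349860531435) (nat_lit 608) (nat_lit 304870984463) (nat_lit 73) (nat_lit 5) (nat_lit 80) (nat_lit 5) (nat_lit 81) (nat_lit 5) (nat_lit 470) (nat_lit 465) (nat_lit 265)) (XT.nd (nat_lit 78) (nat_lit 0) (nat_lit 76) (XT.lf (nat_lit 76) (nat_lit 37300800007) (nat_lit 0) (nat_lit 96236171687) (nat_lit 608) (nat_lit 634700665608) (nat_lit 74) (nat_lit 5) (nat_lit 73) (nat_lit 5) (nat_lit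 81) (nat_lit 5) (nat_lit 471) (nat_lit 465) (nat_lit 264)) (XT.lf (nat_lit 0) (nat_lit 205184525651) (nat_lit 532) (nat_lit 332588909153) (nat_lit 76) (nat_lit 262957651863) (nat_lit 74) (nat_lit 5) (nat_lit 81) (nat_lit 5) (nat_lit 75) (nat_lit 5) (nat_lit 472) (nat_lit 465) (nat_lit 263))))) (XT.nd (nat_lit 234) (nat_lit 228) (nat_lit 0) (XT.nd (nat_lit 78) (nat_lit 228) (nat_lit 0) (XT.lf (nat_lit 0) (nat_lit 100136431425) (nat_lit 456) (nat_lit 187335365447) (nat_lit 532) (nat_lit 547959582078) (nat_lit 68) (nat_lit 5) (nat_lit 74) (nat_lit 5) (nat_lit 75) (nat_lit 5) (nat_lit 473) (nat_lit 465) (nat_lit 262)) (XT.nd (nat_lit 78) (nat_lit 228) (nat_lit 0) (XT.lf (nat_lit 0) (nat_lit 390268673209) (nat_lit 532) (nat_lit 290618859340) (nat_lit 76) (nat_lit 190906032199) (nat_lit 68) (nat_lit 5) (nat_lit 75) (nat_lit 5) (nat_lit 69) (nat_lit 5) (nat_lit 474) (nat_lit 465) (nat_lit 261))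 (XT.lf (nat_lit 0) (nat_lit 194494872902) (nat_lit 228) (nat_lit 316337876715) (nat_lit 304) (nat_lit 399468499797) (nat_lit 65) (nat_lit 5) (nat_lit 68) (nat_lit 5) (nat_lit 69) (nat_lit 5) (nat_lit 475) (nat_lit 465) (nat_lit 260)))) (XT.nd (nat_lit 78) (nat_lit 228) (nat_lit 0) (XT.lf (nat_lit 0) (nat_lit 651055256393) (nat_lit 304) (nat_lit 218375700599) (nat_lit 76) (nat_lit 81657527524) (nat_lit 65) (nat_lit 5) (nat_lit 69) (nat_lit 5) (nat_lit 66) (nat_lit 5) (nat_lit 476) (nat_lit 465) (nat_lit 259)) (XT.nd (nat_lit 78) (nat_lit 0) (nat_lit 0) (XT.lf (nat_lit 0) (nat_lit 326990226339) (nat_lit 228) (nat_lit 491586019540) (nat_lit 304) (nat_lit 175275997978) (nat_lit 62) (nat_lit 5) (nat_lit 65) (nat_lit 5) (nat_lit 66) (nat_lit 5) (nat_lit 477) (nat_lit 465) (nat_lit 258)) (XT.lf (nat_lit 0) (nat_lit 928404637020) (nat_lit 228) (nat_lit 77065047702) (nat_lit 304) (nat_lit 34089757608)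 (nat_lit 62) (nat_lit 5) (nat_lit 65) (nat_lit 5) (nat_lit 66) (nat_lit 5) (nat_lit 478) (nat_lit 465) (nat_lit 257)))))) (XT.nd (nat_lit 468) (nat_lit 456) (nat_lit 0) (XT.nd (nat_lit 234) (nat_lit 380) (nat_lit 0) (XT.nd (nat_lit 78) (nat_lit 228) (nat_lit 0) (XT.lf (nat_lit 0) (nat_lit 134083851541) (nat_lit 228) (nat_lit 585255734787) (nat_lit 76) (nat_lit 367626654233) (nat_lit 59) (nat_lit 5) (nat_lit 62) (nat_lit 5) (nat_lit 60) (nat_lit 5) (nat_lit 479) (nat_lit 465) (nat_lit 256)) (XT.nd (nat_lit 78) (nat_lit 0) (nat_lit 0) (XT.lf (nat_lit 0) (nat_lit 30567066079) (nat_lit 228) (nat_lit 289157480328) (nat_lit 304) (nat_lit 817901806037) (nat_lit 56) (nat_lit 5) (nat_lit 59) (nat_lit 5) (nat_lit 60) (nat_lit 5) (nat_lit 480) (nat_lit 465) (nat_lit 255)) (XT.lf (nat_lit 0) (nat_lit 540853369746) (nat_lit 304) (nat_lit 466754377379) (nat_lit 76) (nat_lit 183080576324) (nat_lit 56)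 (nat_lit 5) (nat_lit 60) (nat_lit 5) (nat_lit 57) (nat_lit 5) (nat_lit 481) (nat_lit 465) (nat_lit 254)))) (XT.nd (nat_lit 78) (nat_lit 228) (nat_lit 0) (XT.lf (nat_lit 0) (nat_lit 228705085527) (nat_lit 152) (nat_lit 563978353259) (nat_lit 228) (nat_lit 454270938165) (nat_lit 54) (nat_lit 5) (nat_lit 56) (nat_lit 5) (nat_lit 57) (nat_lit 5) (nat_lit 482) (nat_lit 465) (nat_lit 253)) (XT.nd (nat_lit 78) (nat_lit 228) (nat_lit 0) (XT.lf (nat_lit 0) (nat_lit 1006346031199) (nat_lit 152) (nat_lit 71075767398) (nat_lit 228) (nat_lit 229278965317) (nat_lit 54) (nat_lit 5) (nat_lit 56) (nat_lit 5) (nat_lit 57) (nat_lit 5) (nat_lit 483) (nat_lit 465) (nat_lit 252)) (XT.lf (nat_lit 0) (nat_lit 36456620639) (nat_lit 228) (nat_lit 882017762353) (nat_lit 76) (nat_lit 450851679959) (nat_lit 51) (nat_lit 5) (nat_lit 54) (nat_lit 5) (nat_lit 52) (nat_lit 5) (nat_lit 484) (nat_lit 465) (nat_lit 251)))))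 (XT.nd (nat_lit 234) (nat_lit 152) (nat_lit 0) (XT.nd (nat_lit 78) (nat_lit 304) (nat_lit 0) (XT.lf (nat_lit 0) (nat_lit 321335687163) (nat_lit 228) (nat_lit 89253326539) (nat_lit 76) (nat_lit 1025074216138) (nat_lit 51) (nat_lit 5) (nat_lit 54) (nat_lit 5) (nat_lit 52) (nat_lit 5) (nat_lit 485) (nat_lit 465) (nat_lit 250)) (XT.nd (nat_lit 78) (nat_lit 152) (nat_lit 0) (XT.lf (nat_lit 0) (nat_lit 652242543768) (nat_lit 228) (nat_lit 702258004766) (nat_lit 76) (nat_lit 150947824367) (nat_lit 49) (nat_lit 5) (nat_lit 52) (nat_lit 5) (nat_lit 50) (nat_lit 5) (nat_lit 486) (nat_lit 465) (nat_lit 249)) (XT.lf (nat_lit 0) (nat_lit 190274638435) (nat_lit 152) (nat_lit 837091794009) (nat_lit 228) (nat_lit 552030336280) (nat_lit 47) (nat_lit 5) (nat_lit 49) (nat_lit 5) (nat_lit 50) (nat_lit 5) (nat_lit 487) (nat_lit 465) (nat_lit 248)))) (XT.nd (nat_lit 78) (nat_lit 152) (nat_lit 0) (XT.lf (nat_lit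 0) (nat_lit 1194147919695) (nat_lit 152) (nat_lit 257553285609) (nat_lit 228) (nat_lit 206023753062) (nat_lit 47) (nat_lit 5) (nat_lit 49) (nat_lit 5) (nat_lit 50) (nat_lit 5) (nat_lit 488) (nat_lit 465) (nat_lit 247)) (XT.nd (nat_lit 78) (nat_lit 0) (nat_lit 0) (XT.lf (nat_lit 0) (nat_lit 182057317720) (nat_lit 152) (nat_lit 1190240292979) (nat_lit 76) (nat_lit 367876714976) (nat_lit 45) (nat_lit 5) (nat_lit 47) (nat_lit 5) (nat_lit 46) (nat_lit 5) (nat_lit 489) (nat_lit 465) (nat_lit 246)) (XT.lf (nat_lit 0) (nat_lit 609748170076) (nat_lit 152) (nat_lit 169685805640) (nat_lit 76) (nat_lit 1047782050962) (nat_lit 45) (nat_lit 5) (nat_lit 47) (nat_lit 5) (nat_lit 46) (nat_lit 5) (nat_lit 490) (nat_lit 465) (nat_lit 245))))))))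
noncomputable def xc226 : XT := (XT.nd (nat_lit 1794) (nat_lit 456) (nat_lit 0) (XT.nd (nat_lit 858) (nat_lit 760) (nat_lit 0) (XT.nd (nat_lit 390) (nat_lit 532) (nat_lit 0) (XT.nd (nat_lit 156) (nat_lit 228) (nat_lit 0) (XT.nd (nat_lit 78) (nat_lit 76) (nat_lit 0) (XT.lf (nat_lit 0) (nat_lit 981617516921) (nat_lit 152) (nat_lit 113644694055) (nat_lit 228) (nat_lit 824070219157) (nat_lit 43) (nat_lit 5) (nat_lit 45) (nat_lit 5) (nat_lit 46) (nat_lit 5) (nat_lit 491) (nat_lit 465) (nat_lit 244)) (XT.lf (nat_lit 0) (nat_lit 212160863164) (nat_lit 76) (nat_lit 1431879069276) (nat_lit 152) (nat_lit 372824408842) (nat_lit 42) (nat_lit 5) (nat_lit 43) (nat_lit 5) (nat_lit 44) (nat_lit 4) (nat_lit 492) (nat_lit 465) (nat_lit 243))) (XT.nd (nat_lit 78) (nat_lit 152) (nat_lit 0) (XT.lf (nat_lit 0) (nat_lit 138048794610) (nat_lit 152) (nat_lit 619164317499) (nat_lit 76) (nat_lit 1362424831593) (nat_lit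 41) (nat_lit 5) (nat_lit 43) (nat_lit 5) (nat_lit 42) (nat_lit 5) (nat_lit 493) (nat_lit 465) (nat_lit 242)) (XT.nd (nat_lit 78) (nat_lit 0) (nat_lit 0) (XT.lf (nat_lit 0) (nat_lit 685842855296) (nat_lit 152) (nat_lit 301330298) (nat_lit 228) (nat_lit 1542394986006) (nat_lit 39) (nat_lit 5) (nat_lit 41) (nat_lit 5) (nat_lit 42) (nat_lit 5) (nat_lit 494) (nat_lit 465) (nat_lit 241)) (XT.lf (nat_lit 0) (nat_lit 1315108768392) (nat_lit 228) (nat_lit 234427670492) (nat_lit 76) (nat_lit 793654334003) (nat_lit 39) (nat_lit 5) (nat_lit 42) (nat_lit 5) (nat_lit 40) (nat_lit 4) (nat_lit 495) (nat_lit 465) (nat_lit 240))))) (XT.nd (nat_lit 234) (nat_lit 228) (nat_lit 0) (XT.nd (nat_lit 78) (nat_lit 228) (nat_lit 0) (XT.lf (nat_lit 0) (nat_lit 1240552072527) (nat_lit 76) (nat_lit 783681575508) (nat_lit 152) (nat_lit 440393403825) (nat_lit 38) (nat_lit 5) (nat_lit 39) (nat_lit 5) (nat_lit 40) (nat_lit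 4) (nat_lit 496) (nat_lit 465) (nat_lit 239)) (XT.nd (nat_lit 78) (nat_lit 0) (nat_lit 0) (XT.lf (nat_lit 0) (nat_lit 198912487618) (nat_lit 228) (nat_lit 2336126767914) (nat_lit 76) (nat_lit 59219333047) (nat_lit 35) (nat_lit 5) (nat_lit 38) (nat_lit 5) (nat_lit 36) (nat_lit 4) (nat_lit 497) (nat_lit 465) (nat_lit 238)) (XT.lf (nat_lit 0) (nat_lit 920263217467) (nat_lit 228) (nat_lit 835717255099) (nat_lit 76) (nat_lit 972989628518) (nat_lit 35) (nat_lit 5) (nat_lit 38) (nat_lit 5) (nat_lit 36) (nat_lit 4) (nat_lit 498) (nat_lit 465) (nat_lit 237)))) (XT.nd (nat_lit 78) (nat_lit 152) (nat_lit 0) (XT.lf (nat_lit 0) (nat_lit 826047241040) (nat_lit 76) (nat_lit 893141217301) (nat_lit 152) (nat_lit 1153680760038) (nat_lit 34) (nat_lit 5) (nat_lit 35) (nat_lit 5) (nat_lit 36) (nat_lit 4) (nat_lit 499) (nat_lit 465) (nat_lit 236)) (XT.nd (nat_lit 78) (nat_lit 152) (nat_lit 0) (XT.lf (nat_lit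 0) (nat_lit 2606402553646) (nat_lit 152) (nat_lit 359696242090) (nat_lit 0) (nat_lit 60231482509) (nat_lit 34) (nat_lit 5) (nat_lit 36) (nat_lit 4) (nat_lit 34) (nat_lit 4) (nat_lit 500) (nat_lit 465) (nat_lit 235)) (XT.lf (nat_lit 0) (nat_lit 415073190546) (nat_lit 152) (nat_lit 1682818838675) (nat_lit 76) (nat_lit 1088564823894) (nat_lit 32) (nat_lit 5) (nat_lit 34) (nat_lit 5) (nat_lit 33) (nat_lit 4) (nat_lit 501) (nat_lit 465) (nat_lit 234)))))) (XT.nd (nat_lit 468) (nat_lit 456) (nat_lit 0) (XT.nd (nat_lit 234) (nat_lit 152) (nat_lit 0) (XT.nd (nat_lit 78) (nat_lit 76) (nat_lit 0) (XT.lf (nat_lit 0) (nat_lit 175505298968) (nat_lit 76) (nat_lit 1132992959476) (nat_lit 152) (nat_lit 2048877831728) (nat_lit 31) (nat_lit 5) (nat_lit 32) (nat_lit 5) (nat_lit 33) (nat_lit 4) (nat_lit 502) (nat_lit 465) (nat_lit 233)) (XT.nd (nat_lit 78) (nat_lit 76) (nat_lit 0) (XT.lf (nat_lit 0) (nat_lit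 2278198760431) (nat_lit 76) (nat_lit 41209817621) (nat_lit 152) (nat_lit 1218879388441) (nat_lit 31) (nat_lit 5) (nat_lit 32) (nat_lit 5) (nat_lit 33) (nat_lit 4) (nat_lit 503) (nat_lit 465) (nat_lit 232)) (XT.lf (nat_lit 0) (nat_lit 829566257899) (nat_lit 76) (nat_lit 2628943457541) (nat_lit 76) (nat_lit 271377638103) (nat_lit 30) (nat_lit 4) (nat_lit 31) (nat_lit 5) (nat_lit 31) (nat_lit 4) (nat_lit 504) (nat_lit 465) (nat_lit 231)))) (XT.nd (nat_lit 78) (nat_lit 76) (nat_lit 0) (XT.lf (nat_lit 0) (nat_lit 750728294864) (nat_lit 152) (nat_lit 796050968755) (nat_lit 76) (nat_lit 2385675257109) (nat_lit 29) (nat_lit 5) (nat_lit 31) (nat_lit 5) (nat_lit 30) (nat_lit 4) (nat_lit 505) (nat_lit 465) (nat_lit 230)) (XT.nd (nat_lit 78) (nat_lit 0) (nat_lit 0) (XT.lf (nat_lit 0) (nat_lit 1546893890835) (nat_lit 76) (nat_lit 330250203083) (nat_lit 152) (nat_lit 2270542839171) (nat_lit 28) (nat_lit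 5) (nat_lit 29) (nat_lit 5) (nat_lit 30) (nat_lit 4) (nat_lit 506) (nat_lit 465) (nat_lit 229)) (XT.lf (nat_lit 0) (nat_lit 3139659566825) (nat_lit 152) (nat_lit 280071213082) (nat_lit 0) (nat_lit 956728245736) (nat_lit 28) (nat_lit 5) (nat_lit 30) (nat_lit 4) (nat_lit 28) (nat_lit 4) (nat_lit 507) (nat_lit 465) (nat_lit 228))))) (XT.nd (nat_lit 234) (nat_lit 228) (nat_lit 0) (XT.nd (nat_lit 78) (nat_lit 152) (nat_lit 0) (XT.lf (nat_lit 0) (nat_lit 2334512184727) (nat_lit 76) (nat_lit 2233387091985) (nat_lit 76) (nat_lit 50455768959) (nat_lit 27) (nat_lit 4) (nat_lit 28) (nat_lit 5) (nat_lit 28) (nat_lit 4) (nat_lit 508) (nat_lit 465) (nat_lit 227)) (XT.nd (nat_lit 78) (nat_lit 0) (nat_lit 0) (XT.lf (nat_lit 0) (nat_lit 279375970243) (nat_lit 76) (nat_lit 904425613921) (nat_lit 152) (nat_lit 3692267067225) (nat_lit 25) (nat_lit 5) (nat_lit 26) (nat_lit 5) (nat_lit 27) (nat_lit 4) (nat_lit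 509) (nat_lit 465) (nat_lit 226)) (XT.lf (nat_lit 0) (nat_lit 2590906864583) (nat_lit 152) (nat_lit 1987566822060) (nat_lit 0) (nat_lit 569674154878) (nat_lit 25) (nat_lit 5) (nat_lit 27) (nat_lit 4) (nat_lit 25) (nat_lit 4) (nat_lit 510) (nat_lit 465) (nat_lit 225)))) (XT.nd (nat_lit 78) (nat_lit 152) (nat_lit 0) (XT.lf (nat_lit 0) (nat_lit 849282055043) (nat_lit 76) (nat_lit 3305215338432) (nat_lit 76) (nat_lit 1283982627303) (nat_lit 24) (nat_lit 4) (nat_lit 25) (nat_lit 5) (nat_lit 25) (nat_lit 4) (nat_lit 511) (nat_lit 465) (nat_lit 224)) (XT.nd (nat_lit 78) (nat_lit 76) (nat_lit 0) (XT.lf (nat_lit 0) (nat_lit 142332498007) (nat_lit 152) (nat_lit 1725181116592) (nat_lit 76) (nat_lit 3879889403664) (nat_lit 23) (nat_lit 5) (nat_lit 25) (nat_lit 5) (nat_lit 24) (nat_lit 4) (nat_lit 512) (nat_lit 465) (nat_lit 223)) (XT.lf (nat_lit 0) (nat_lit 1404884911446) (nat_lit 76) (nat_lit 242287023705)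 (nat_lit 152) (nat_lit 4428496903436) (nat_lit 22) (nat_lit 5) (nat_lit 23) (nat_lit 5) (nat_lit 24) (nat_lit 4) (nat_lit 513) (nat_lit 465) (nat_lit 222))))))) (XT.nd (nat_lit 58968) (nat_lit 0) (nat_lit 3268) (XT.nd (nat_lit 468) (nat_lit 152) (nat_lit 0) (XT.nd (nat_lit 234) (nat_lit 152) (nat_lit 0) (XT.nd (nat_lit 78) (nat_lit 152) (nat_lit 0) (XT.lf (nat_lit 0) (nat_lit 3357179885250) (nat_lit 152) (nat_lit 1580565418360) (nat_lit 0) (nat_lit 1485668112288) (nat_lit 22) (nat_lit 5) (nat_lit 24) (nat_lit 4) (nat_lit 22) (nat_lit 4) (nat_lit 514) (nat_lit 465) (nat_lit 221)) (XT.nd (nat_lit 78) (nat_lit 76) (nat_lit 0) (XT.lf (nat_lit 0) (nat_lit 1842759701438) (nat_lit 76) (nat_lit 3411840352635) (nat_lit 76) (nat_lit 1540328578703) (nat_lit 21) (nat_lit 4) (nat_lit 22) (nat_lit 5) (nat_lit 22) (nat_lit 4) (nat_lit 515) (nat_lit 465) (nat_lit 220)) (XT.lf (nat_lit 0) (nat_lit 146601679115)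 (nat_lit 152) (nat_lit 1566580282269) (nat_lit 76) (nat_lit 5479228954211) (nat_lit 20) (nat_lit 5) (nat_lit 22) (nat_lit 5) (nat_lit 21) (nat_lit 4) (nat_lit 516) (nat_lit 465) (nat_lit 219)))) (XT.nd (nat_lit 78) (nat_lit 76) (nat_lit 0) (XT.lf (nat_lit 0) (nat_lit 1942469493686) (nat_lit 152) (nat_lit 5461857313632) (nat_lit 0) (nat_lit 209588219927) (nat_lit 19) (nat_lit 5) (nat_lit 21) (nat_lit 4) (nat_lit 19) (nat_lit 4) (nat_lit 517) (nat_lit 465) (nat_lit 218)) (XT.nd (nat_lit 78) (nat_lit 76) (nat_lit 0) (XT.lf (nat_lit 0) (nat_lit 3970450593164) (nat_lit 152) (nat_lit 1854044047192) (nat_lit 0) (nat_lit 2237569318692) (nat_lit 19) (nat_lit 5) (nat_lit 21) (nat_lit 4) (nat_lit 19) (nat_lit 4) (nat_lit 518) (nat_lit 465) (nat_lit 217)) (XT.lf (nat_lit 0) (nat_lit 2149943140573) (nat_lit 76) (nat_lit 4062433222671) (nat_lit 76) (nat_lit 2329551947539) (nat_lit 18) (nat_lit 4) (nat_lit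 19) (nat_lit 5) (nat_lit 19) (nat_lit 4) (nat_lit 519) (nat_lit 465) (nat_lit 216))))) (XT.nd (nat_lit 58266) (nat_lit 0) (nat_lit 4712) (XT.nd (nat_lit 78) (nat_lit 152) (nat_lit 0) (XT.lf (nat_lit 0) (nat_lit 6579690428026) (nat_lit 76) (nat_lit 2104658615253) (nat_lit 76) (nat_lit 371777339511) (nat_lit 18) (nat_lit 4) (nat_lit 19) (nat_lit 5) (nat_lit 19) (nat_lit 4) (nat_lit 520) (nat_lit 465) (nat_lit 215)) (XT.nd (nat_lit 78) (nat_lit 0) (nat_lit 0) (XT.lf (nat_lit 0) (nat_lit 1701196333246) (nat_lit 152) (nat_lit 7806574534146) (nat_lit 0) (nat_lit 96676632961) (nat_lit 16) (nat_lit 5) (nat_lit 18) (nat_lit 4) (nat_lit 16) (nat_lit 4) (nat_lit 521) (nat_lit 465) (nat_lit 214)) (XT.lf (nat_lit 0) (nat_lit 4044057575765) (nat_lit 152) (nat_lit 3702335507514) (nat_lit 0) (nat_lit 2439537874995) (nat_lit 16) (nat_lit 5) (nat_lit 18) (nat_lit 4) (nat_lit 16) (nat_lit 4) (nat_lit 522)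 (nat_lit 465) (nat_lit 213)))) (XT.nd (nat_lit 78) (nat_lit 0) (nat_lit 0) (XT.lf (nat_lit 0) (nat_lit 310629268636) (nat_lit 532) (nat_lit 7864586353) (nat_lit 532) (nat_lit 7864586353) (nat_lit 78) (nat_lit 3) (nat_lit 85) (nat_lit 3) (nat_lit 85) (nat_lit 5) (nat_lit 466) (nat_lit 466) (nat_lit 268)) (XT.nd (nat_lit 78) (nat_lit 0) (nat_lit 0) (XT.lf (nat_lit 76) (nat_lit 322868336183) (nat_lit 0) (nat_lit 331005678425) (nat_lit 532) (nat_lit 24330332459) (nat_lit 79) (nat_lit 5) (nat_lit 78) (nat_lit 3) (nat_lit 85) (nat_lit 5) (nat_lit 467) (nat_lit 466) (nat_lit 267)) (XT.lf (nat_lit 76) (nat_lit 689448169549) (nat_lit 0) (nat_lit 80609376) (nat_lit 532) (nat_lit 16167625777) (nat_lit 79) (nat_lit 5) (nat_lit 78) (nat_lit 3) (nat_lit 85) (nat_lit 5) (nat_lit 468) (nat_lit 466) (nat_lit 266)))))) (XT.nd (nat_lit 468) (nat_lit 684) (nat_lit 0) (XT.nd (nat_lit 234) (nat_lit 304) (nat_lit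 0) (XT.nd (nat_lit 78) (nat_lit 0) (nat_lit 0) (XT.lf (nat_lit 0) (nat_lit 10699413630) (nat_lit 532) (nat_lit 374930694200) (nat_lit 608) (nat_lit 348357180657) (nat_lit 72) (nat_lit 5) (nat_lit 79) (nat_lit 5) (nat_lit 80) (nat_lit 5) (nat_lit 469) (nat_lit 466) (nat_lit 265)) (XT.nd (nat_lit 78) (nat_lit 0) (nat_lit 76) (XT.lf (nat_lit 76) (nat_lit 389882059) (nat_lit 0) (nat_lit 38919714492) (nat_lit 608) (nat_lit 725160871194) (nat_lit 73) (nat_lit 5) (nat_lit 72) (nat_lit 5) (nat_lit 80) (nat_lit 5) (nat_lit 470) (nat_lit 466) (nat_lit 264)) (XT.lf (nat_lit 0) (nat_lit 88795562995) (nat_lit 532) (nat_lit 377849176134) (nat_lit 608) (nat_lit 329260604709) (nat_lit 73) (nat_lit 5) (nat_lit 80) (nat_lit 5) (nat_lit 81) (nat_lit 5) (nat_lit 471) (nat_lit 466) (nat_lit 263)))) (XT.nd (nat_lit 78) (nat_lit 380) (nat_lit 0) (XT.lf (nat_lit 76) (nat_lit 40285056815) (nat_lit 0) (nat_lit 103935096939)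 (nat_lit 608) (nat_lit 685476476509) (nat_lit 74) (nat_lit 5) (nat_lit 73) (nat_lit 5) (nat_lit 81) (nat_lit 5) (nat_lit 472) (nat_lit 466) (nat_lit 262)) (XT.nd (nat_lit 78) (nat_lit 456) (nat_lit 0) (XT.lf (nat_lit 0) (nat_lit 221599494709) (nat_lit 532) (nat_lit 359195825970) (nat_lit 76) (nat_lit 283994236289) (nat_lit 74) (nat_lit 5) (nat_lit 81) (nat_lit 5) (nat_lit 75) (nat_lit 5) (nat_lit 473) (nat_lit 466) (nat_lit 261)) (XT.lf (nat_lit 0) (nat_lit 108147536895) (nat_lit 456) (nat_lit 202322199992) (nat_lit 532) (nat_lit 591796136612) (nat_lit 68) (nat_lit 5) (nat_lit 74) (nat_lit 5) (nat_lit 75) (nat_lit 5) (nat_lit 474) (nat_lit 466) (nat_lit 260))))) (XT.nd (nat_lit 234) (nat_lit 456) (nat_lit 0) (XT.nd (nat_lit 78) (nat_lit 228) (nat_lit 0) (XT.lf (nat_lit 0) (nat_lit 421490348674) (nat_lit 532) (nat_lit 313868176558) (nat_lit 76) (nat_lit 206178510105) (nat_lit 68) (nat_lit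 5) (nat_lit 75) (nat_lit 5) (nat_lit 69) (nat_lit 5) (nat_lit 475) (nat_lit 466) (nat_lit 259)) (XT.nd (nat_lit 78) (nat_lit 0) (nat_lit 0) (XT.lf (nat_lit 0) (nat_lit 210054649413) (nat_lit 228) (nat_lit 341644892818) (nat_lit 304) (nat_lit 431425793267) (nat_lit 65) (nat_lit 5) (nat_lit 68) (nat_lit 5) (nat_lit 69) (nat_lit 5) (nat_lit 476) (nat_lit 466) (nat_lit 258)) (XT.lf (nat_lit 0) (nat_lit 703139837074) (nat_lit 304) (nat_lit 235845571266) (nat_lit 76) (nat_lit 88190142071) (nat_lit 65) (nat_lit 5) (nat_lit 69) (nat_lit 5) (nat_lit 66) (nat_lit 5) (nat_lit 477) (nat_lit 466) (nat_lit 257)))) (XT.nd (nat_lit 78) (nat_lit 228) (nat_lit 0) (XT.lf (nat_lit 0) (nat_lit 353149625133) (nat_lit 228) (nat_lit 530912873067) (nat_lit 304) (nat_lit 189297912905) (nat_lit 62) (nat_lit 5) (nat_lit 65) (nat_lit 5) (nat_lit 66) (nat_lit 5) (nat_lit 478) (nat_lit 466) (nat_lit 256)) (XT.nd (nat_lit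 78) (nat_lit 228) (nat_lit 0) (XT.lf (nat_lit 0) (nat_lit 1002677175285) (nat_lit 228) (nat_lit 83230225559) (nat_lit 304) (nat_lit 36816785521) (nat_lit 62) (nat_lit 5) (nat_lit 65) (nat_lit 5) (nat_lit 66) (nat_lit 5) (nat_lit 479) (nat_lit 466) (nat_lit 255)) (XT.lf (nat_lit 0) (nat_lit 144810698851) (nat_lit 228) (nat_lit 632076012678) (nat_lit 76) (nat_lit 397036817103) (nat_lit 59) (nat_lit 5) (nat_lit 62) (nat_lit 5) (nat_lit 60) (nat_lit 5) (nat_lit 480) (nat_lit 466) (nat_lit 254))))))))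
noncomputable def xc227 : XT := (XT.nd (nat_lit 1794) (nat_lit 1140) (nat_lit 0) (XT.nd (nat_lit 858) (nat_lit 1064) (nat_lit 0) (XT.nd (nat_lit 390) (nat_lit 456) (nat_lit 0) (XT.nd (nat_lit 156) (nat_lit 380) (nat_lit 0) (XT.nd (nat_lit 78) (nat_lit 0) (nat_lit 0) (XT.lf (nat_lit 0) (nat_lit 33012607678) (nat_lit 228) (nat_lit 312290035559) (nat_lit 304) (nat_lit 883333806717) (nat_lit 56) (nat_lit 5) (nat_lit 59) (nat_lit 5) (nat_lit 60) (nat_lit 5) (nat_lit 481) (nat_lit 466) (nat_lit 253)) (XT.lf (nat_lit 0) (nat_lit 584121763544) (nat_lit 304) (nat_lit 504094555386) (nat_lit 76) (nat_lit 197727060425) (nat_lit 56) (nat_lit 5) (nat_lit 60) (nat_lit 5) (nat_lit 57) (nat_lit 5) (nat_lit 482) (nat_lit 466) (nat_lit 252))) (XT.nd (nat_lit 78) (nat_lit 228) (nat_lit 0) (XT.lf (nat_lit 0) (nat_lit 247001660194) (nat_lit 152) (nat_lit 609096572748) (nat_lit 228) (nat_lit 490612484610) (nat_lit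 54) (nat_lit 5) (nat_lit 56) (nat_lit 5) (nat_lit 57) (nat_lit 5) (nat_lit 483) (nat_lit 466) (nat_lit 251)) (XT.nd (nat_lit 78) (nat_lit 228) (nat_lit 0) (XT.lf (nat_lit 0) (nat_lit 1086853869088) (nat_lit 152) (nat_lit 76761783631) (nat_lit 228) (nat_lit 247621163461) (nat_lit 54) (nat_lit 5) (nat_lit 56) (nat_lit 5) (nat_lit 57) (nat_lit 5) (nat_lit 484) (nat_lit 466) (nat_lit 250)) (XT.lf (nat_lit 0) (nat_lit 39373259991) (nat_lit 228) (nat_lit 952579018517) (nat_lit 76) (nat_lit 486919860680) (nat_lit 51) (nat_lit 5) (nat_lit 54) (nat_lit 5) (nat_lit 52) (nat_lit 5) (nat_lit 485) (nat_lit 466) (nat_lit 249))))) (XT.nd (nat_lit 234) (nat_lit 152) (nat_lit 0) (XT.nd (nat_lit 78) (nat_lit 304) (nat_lit 0) (XT.lf (nat_lit 0) (nat_lit 347042643711) (nat_lit 228) (nat_lit 96393440046) (nat_lit 76) (nat_lit 1107080196321) (nat_lit 51) (nat_lit 5) (nat_lit 54) (nat_lit 5) (nat_lit 52) (nat_lit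 5) (nat_lit 486) (nat_lit 466) (nat_lit 248)) (XT.nd (nat_lit 78) (nat_lit 152) (nat_lit 0) (XT.lf (nat_lit 0) (nat_lit 704422046127) (nat_lit 228) (nat_lit 758438489794) (nat_lit 76) (nat_lit 163023698882) (nat_lit 49) (nat_lit 5) (nat_lit 52) (nat_lit 5) (nat_lit 50) (nat_lit 5) (nat_lit 487) (nat_lit 466) (nat_lit 247)) (XT.lf (nat_lit 0) (nat_lit 205496760930) (nat_lit 152) (nat_lit 904059081286) (nat_lit 228) (nat_lit 596192660372) (nat_lit 47) (nat_lit 5) (nat_lit 49) (nat_lit 5) (nat_lit 50) (nat_lit 5) (nat_lit 488) (nat_lit 466) (nat_lit 246)))) (XT.nd (nat_lit 78) (nat_lit 152) (nat_lit 0) (XT.lf (nat_lit 0) (nat_lit 1289679893475) (nat_lit 152) (nat_lit 278157496380) (nat_lit 228) (nat_lit 222505558112) (nat_lit 47) (nat_lit 5) (nat_lit 49) (nat_lit 5) (nat_lit 50) (nat_lit 5) (nat_lit 489) (nat_lit 466) (nat_lit 245)) (XT.nd (nat_lit 78) (nat_lit 0) (nat_lit 0) (XT.lf (nat_lit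 0) (nat_lit 196621991573) (nat_lit 152) (nat_lit 1285459369422) (nat_lit 76) (nat_lit 397306903644) (nat_lit 45) (nat_lit 5) (nat_lit 47) (nat_lit 5) (nat_lit 46) (nat_lit 5) (nat_lit 490) (nat_lit 466) (nat_lit 244)) (XT.lf (nat_lit 0) (nat_lit 658528105566) (nat_lit 152) (nat_lit 183260533985) (nat_lit 76) (nat_lit 1131604662696) (nat_lit 45) (nat_lit 5) (nat_lit 47) (nat_lit 5) (nat_lit 46) (nat_lit 5) (nat_lit 491) (nat_lit 466) (nat_lit 243)))))) (XT.nd (nat_lit 468) (nat_lit 532) (nat_lit 0) (XT.nd (nat_lit 234) (nat_lit 228) (nat_lit 0) (XT.nd (nat_lit 78) (nat_lit 152) (nat_lit 0) (XT.lf (nat_lit 0) (nat_lit 1060147050936) (nat_lit 152) (nat_lit 122736215928) (nat_lit 228) (nat_lit 889995751346) (nat_lit 43) (nat_lit 5) (nat_lit 45) (nat_lit 5) (nat_lit 46) (nat_lit 5) (nat_lit 492) (nat_lit 466) (nat_lit 242)) (XT.nd (nat_lit 78) (nat_lit 76) (nat_lit 0) (XT.lf (nat_lit 0) (nat_lit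 229133866435) (nat_lit 76) (nat_lit 1546429338180) (nat_lit 152) (nat_lit 402650277751) (nat_lit 42) (nat_lit 5) (nat_lit 43) (nat_lit 5) (nat_lit 44) (nat_lit 4) (nat_lit 493) (nat_lit 466) (nat_lit 241)) (XT.lf (nat_lit 0) (nat_lit 149092771889) (nat_lit 152) (nat_lit 668697334731) (nat_lit 76) (nat_lit 1471418866671) (nat_lit 41) (nat_lit 5) (nat_lit 43) (nat_lit 5) (nat_lit 42) (nat_lit 5) (nat_lit 494) (nat_lit 466) (nat_lit 240)))) (XT.nd (nat_lit 78) (nat_lit 76) (nat_lit 0) (XT.lf (nat_lit 0) (nat_lit 740710408643) (nat_lit 152) (nat_lit 325383053) (nat_lit 228) (nat_lit 1665786507922) (nat_lit 39) (nat_lit 5) (nat_lit 41) (nat_lit 5) (nat_lit 42) (nat_lit 5) (nat_lit 495) (nat_lit 466) (nat_lit 239)) (XT.nd (nat_lit 78) (nat_lit 76) (nat_lit 0) (XT.lf (nat_lit 0) (nat_lit 1420317537035) (nat_lit 228) (nat_lit 253181764370) (nat_lit 76) (nat_lit 857146727931) (nat_lit 39) (nat_lit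 5) (nat_lit 42) (nat_lit 5) (nat_lit 40) (nat_lit 4) (nat_lit 496) (nat_lit 466) (nat_lit 238)) (XT.lf (nat_lit 0) (nat_lit 1339796355059) (nat_lit 76) (nat_lit 846376049822) (nat_lit 152) (nat_lit 475624805920) (nat_lit 38) (nat_lit 5) (nat_lit 39) (nat_lit 5) (nat_lit 40) (nat_lit 4) (nat_lit 497) (nat_lit 466) (nat_lit 237))))) (XT.nd (nat_lit 234) (nat_lit 228) (nat_lit 0) (XT.nd (nat_lit 78) (nat_lit 76) (nat_lit 0) (XT.lf (nat_lit 0) (nat_lit 214825552471) (nat_lit 228) (nat_lit 2523016788235) (nat_lit 76) (nat_lit 63956929686) (nat_lit 35) (nat_lit 5) (nat_lit 38) (nat_lit 5) (nat_lit 36) (nat_lit 4) (nat_lit 498) (nat_lit 466) (nat_lit 236)) (XT.nd (nat_lit 78) (nat_lit 76) (nat_lit 0) (XT.lf (nat_lit 0) (nat_lit 993884335830) (nat_lit 228) (nat_lit 902574523366) (nat_lit 76) (nat_lit 1050828845092) (nat_lit 35) (nat_lit 5) (nat_lit 38) (nat_lit 5) (nat_lit 36) (nat_lit 4) (nat_lit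 499) (nat_lit 466) (nat_lit 235)) (XT.lf (nat_lit 0) (nat_lit 892131129625) (nat_lit 76) (nat_lit 964592464461) (nat_lit 152) (nat_lit 1245975157031) (nat_lit 34) (nat_lit 5) (nat_lit 35) (nat_lit 5) (nat_lit 36) (nat_lit 4) (nat_lit 500) (nat_lit 466) (nat_lit 234)))) (XT.nd (nat_lit 78) (nat_lit 228) (nat_lit 0) (XT.lf (nat_lit 0) (nat_lit 2814914813759) (nat_lit 152) (nat_lit 388471836987) (nat_lit 0) (nat_lit 65050045287) (nat_lit 34) (nat_lit 5) (nat_lit 36) (nat_lit 4) (nat_lit 34) (nat_lit 4) (nat_lit 501) (nat_lit 466) (nat_lit 233)) (XT.nd (nat_lit 78) (nat_lit 76) (nat_lit 0) (XT.lf (nat_lit 0) (nat_lit 448279101335) (nat_lit 152) (nat_lit 1817444241014) (nat_lit 76) (nat_lit 1175650054565) (nat_lit 32) (nat_lit 5) (nat_lit 34) (nat_lit 5) (nat_lit 33) (nat_lit 4) (nat_lit 502) (nat_lit 466) (nat_lit 232)) (XT.lf (nat_lit 0) (nat_lit 189545824987) (nat_lit 76) (nat_lit 1223632348019)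 (nat_lit 152) (nat_lit 2212788000064) (nat_lit 31) (nat_lit 5) (nat_lit 32) (nat_lit 5) (nat_lit 33) (nat_lit 4) (nat_lit 503) (nat_lit 466) (nat_lit 231))))))) (XT.nd (nat_lit 936) (nat_lit 456) (nat_lit 0) (XT.nd (nat_lit 468) (nat_lit 380) (nat_lit 0) (XT.nd (nat_lit 234) (nat_lit 152) (nat_lit 0) (XT.nd (nat_lit 78) (nat_lit 152) (nat_lit 0) (XT.lf (nat_lit 0) (nat_lit 2460454755805) (nat_lit 76) (nat_lit 44506558386) (nat_lit 152) (nat_lit 1316389685626) (nat_lit 31) (nat_lit 5) (nat_lit 32) (nat_lit 5) (nat_lit 33) (nat_lit 4) (nat_lit 504) (nat_lit 466) (nat_lit 230)) (XT.nd (nat_lit 78) (nat_lit 76) (nat_lit 0) (XT.lf (nat_lit 0) (nat_lit 895931653525) (nat_lit 76) (nat_lit 2839258888628) (nat_lit 76) (nat_lit 293087795711) (nat_lit 30) (nat_lit 4) (nat_lit 31) (nat_lit 5) (nat_lit 31) (nat_lit 4) (nat_lit 505) (nat_lit 466) (nat_lit 229)) (XT.lf (nat_lit 0) (nat_lit 810786605460)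 (nat_lit 152) (nat_lit 859734955819) (nat_lit 76) (nat_lit 2576529317343) (nat_lit 29) (nat_lit 5) (nat_lit 31) (nat_lit 5) (nat_lit 30) (nat_lit 4) (nat_lit 506) (nat_lit 466) (nat_lit 228)))) (XT.nd (nat_lit 78) (nat_lit 76) (nat_lit 0) (XT.lf (nat_lit 0) (nat_lit 1670645490248) (nat_lit 76) (nat_lit 356670176827) (nat_lit 152) (nat_lit 2452186217005) (nat_lit 28) (nat_lit 5) (nat_lit 29) (nat_lit 5) (nat_lit 30) (nat_lit 4) (nat_lit 507) (nat_lit 466) (nat_lit 227)) (XT.nd (nat_lit 78) (nat_lit 76) (nat_lit 0) (XT.lf (nat_lit 0) (nat_lit 3390832375380) (nat_lit 152) (nat_lit 302476826074) (nat_lit 0) (nat_lit 1033266542781) (nat_lit 28) (nat_lit 5) (nat_lit 30) (nat_lit 4) (nat_lit 28) (nat_lit 4) (nat_lit 508) (nat_lit 466) (nat_lit 226)) (XT.lf (nat_lit 0) (nat_lit 2521273241432) (nat_lit 76) (nat_lit 2412058019396) (nat_lit 76) (nat_lit 54492185135) (nat_lit 27) (nat_lit 4) (nat_lit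 28) (nat_lit 5) (nat_lit 28) (nat_lit 4) (nat_lit 509) (nat_lit 466) (nat_lit 225))))) (XT.nd (nat_lit 234) (nat_lit 152) (nat_lit 0) (XT.nd (nat_lit 78) (nat_lit 76) (nat_lit 0) (XT.lf (nat_lit 0) (nat_lit 301726129928) (nat_lit 76) (nat_lit 976779622825) (nat_lit 152) (nat_lit 3987648387397) (nat_lit 25) (nat_lit 5) (nat_lit 26) (nat_lit 5) (nat_lit 27) (nat_lit 4) (nat_lit 510) (nat_lit 466) (nat_lit 224)) (XT.nd (nat_lit 78) (nat_lit 76) (nat_lit 0) (XT.lf (nat_lit 0) (nat_lit 2798179453399) (nat_lit 152) (nat_lit 2146572089631) (nat_lit 0) (nat_lit 615248122637) (nat_lit 25) (nat_lit 5) (nat_lit 27) (nat_lit 4) (nat_lit 25) (nat_lit 4) (nat_lit 511) (nat_lit 466) (nat_lit 223)) (XT.lf (nat_lit 0) (nat_lit 917224695661) (nat_lit 76) (nat_lit 3569632527839) (nat_lit 76) (nat_lit 1386701195855) (nat_lit 24) (nat_lit 4) (nat_lit 25) (nat_lit 5) (nat_lit 25) (nat_lit 4) (nat_lit 512) (nat_lit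 466) (nat_lit 222)))) (XT.nd (nat_lit 78) (nat_lit 76) (nat_lit 0) (XT.lf (nat_lit 0) (nat_lit 153719134467) (nat_lit 152) (nat_lit 1863195533420) (nat_lit 76) (nat_lit 4190280588905) (nat_lit 23) (nat_lit 5) (nat_lit 25) (nat_lit 5) (nat_lit 24) (nat_lit 4) (nat_lit 513) (nat_lit 466) (nat_lit 221)) (XT.nd (nat_lit 78) (nat_lit 0) (nat_lit 0) (XT.lf (nat_lit 0) (nat_lit 1517275775025) (nat_lit 76) (nat_lit 261669950544) (nat_lit 152) (nat_lit 4782776617254) (nat_lit 22) (nat_lit 5) (nat_lit 23) (nat_lit 5) (nat_lit 24) (nat_lit 4) (nat_lit 514) (nat_lit 466) (nat_lit 220)) (XT.lf (nat_lit 0) (nat_lit 3625754309820) (nat_lit 152) (nat_lit 1707010584542) (nat_lit 0) (nat_lit 1604521592107) (nat_lit 22) (nat_lit 5) (nat_lit 24) (nat_lit 4) (nat_lit 22) (nat_lit 4) (nat_lit 515) (nat_lit 466) (nat_lit 219)))))) (XT.nd (nat_lit 468) (nat_lit 152) (nat_lit 0) (XT.nd (nat_lit 234) (nat_lit 76)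 (nat_lit 0) (XT.nd (nat_lit 78) (nat_lit 152) (nat_lit 0) (XT.lf (nat_lit 0) (nat_lit 1990180543137) (nat_lit 76) (nat_lit 3684787548089) (nat_lit 76) (nat_lit 1663554829545) (nat_lit 21) (nat_lit 4) (nat_lit 22) (nat_lit 5) (nat_lit 22) (nat_lit 4) (nat_lit 516) (nat_lit 466) (nat_lit 218)) (XT.nd (nat_lit 78) (nat_lit 76) (nat_lit 0) (XT.lf (nat_lit 0) (nat_lit 158329844630) (nat_lit 152) (nat_lit 1691906642482) (nat_lit 76) (nat_lit 5917567299235) (nat_lit 20) (nat_lit 5) (nat_lit 22) (nat_lit 5) (nat_lit 21) (nat_lit 4) (nat_lit 517) (nat_lit 466) (nat_lit 217)) (XT.lf (nat_lit 0) (nat_lit 2097867084251) (nat_lit 152) (nat_lit 5898805836237) (nat_lit 0) (nat_lit 226355306449) (nat_lit 19) (nat_lit 5) (nat_lit 21) (nat_lit 4) (nat_lit 19) (nat_lit 4) (nat_lit 518) (nat_lit 466) (nat_lit 216)))) (XT.nd (nat_lit 78) (nat_lit 76) (nat_lit 0) (XT.lf (nat_lit 0) (nat_lit 4288086669386) (nat_lit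 152) (nat_lit 2002367513110) (nat_lit 0) (nat_lit 2416574890973) (nat_lit 19) (nat_lit 5) (nat_lit 21) (nat_lit 4) (nat_lit 19) (nat_lit 4) (nat_lit 519) (nat_lit 466) (nat_lit 215)) (XT.nd (nat_lit 78) (nat_lit 0) (nat_lit 0) (XT.lf (nat_lit 0) (nat_lit 2321938648211) (nat_lit 76) (nat_lit 4387427852086) (nat_lit 76) (nat_lit 2515916073108) (nat_lit 18) (nat_lit 4) (nat_lit 19) (nat_lit 5) (nat_lit 19) (nat_lit 4) (nat_lit 520) (nat_lit 466) (nat_lit 214)) (XT.lf (nat_lit 0) (nat_lit 7106065714483) (nat_lit 76) (nat_lit 2273031278179) (nat_lit 76) (nat_lit 401519498677) (nat_lit 18) (nat_lit 4) (nat_lit 19) (nat_lit 5) (nat_lit 19) (nat_lit 4) (nat_lit 521) (nat_lit 466) (nat_lit 213))))) (XT.nd (nat_lit 58344) (nat_lit 0) (nat_lit 4256) (XT.nd (nat_lit 58188) (nat_lit 0) (nat_lit 4712) (XT.lf (nat_lit 0) (nat_lit 1837292066422) (nat_lit 152) (nat_lit 8431100443182) (nat_lit 0) (nat_lit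 104410788656) (nat_lit 16) (nat_lit 5) (nat_lit 18) (nat_lit 4) (nat_lit 16) (nat_lit 4) (nat_lit 522) (nat_lit 466) (nat_lit 212)) (XT.nd (nat_lit 78) (nat_lit 0) (nat_lit 0) (XT.lf (nat_lit 0) (nat_lit 335479751245) (nat_lit 532) (nat_lit 8493677029) (nat_lit 532) (nat_lit 8493677029) (nat_lit 78) (nat_lit 3) (nat_lit 85) (nat_lit 3) (nat_lit 85) (nat_lit 5) (nat_lit 467) (nat_lit 467) (nat_lit 266)) (XT.lf (nat_lit 76) (nat_lit 348697951683) (nat_lit 0) (nat_lit 357486248999) (nat_lit 532) (nat_lit 26276472853) (nat_lit 79) (nat_lit 5) (nat_lit 78) (nat_lit 3) (nat_lit 85) (nat_lit 5) (nat_lit 468) (nat_lit 467) (nat_lit 265)))) (XT.nd (nat_lit 78) (nat_lit 456) (nat_lit 0) (XT.lf (nat_lit 76) (nat_lit 744604160710) (nat_lit 0) (nat_lit 87165811) (nat_lit 532) (nat_lit 17460770837) (nat_lit 79) (nat_lit 5) (nat_lit 78) (nat_lit 3) (nat_lit 85) (nat_lit 5) (nat_lit 469) (nat_lit 467)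 (nat_lit 264)) (XT.nd (nat_lit 78) (nat_lit 0) (nat_lit 0) (XT.lf (nat_lit 0) (nat_lit 11555601204) (nat_lit 532) (nat_lit 404924981446) (nat_lit 608) (nat_lit 376225670074) (nat_lit 72) (nat_lit 5) (nat_lit 79) (nat_lit 5) (nat_lit 80) (nat_lit 5) (nat_lit 470) (nat_lit 467) (nat_lit 263)) (XT.lf (nat_lit 76) (nat_lit 421236653) (nat_lit 0) (nat_lit 42033348681) (nat_lit 608) (nat_lit 783173502069) (nat_lit 73) (nat_lit 5) (nat_lit 72) (nat_lit 5) (nat_lit 80) (nat_lit 5) (nat_lit 471) (nat_lit 467) (nat_lit 262))))))))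
noncomputable def xc228 : XT := (XT.nd (nat_lit 1794) (nat_lit 1596) (nat_lit 0) (XT.nd (nat_lit 858) (nat_lit 1064) (nat_lit 0) (XT.nd (nat_lit 390) (nat_lit 912) (nat_lit 0) (XT.nd (nat_lit 156) (nat_lit 380) (nat_lit 0) (XT.nd (nat_lit 78) (nat_lit 0) (nat_lit 0) (XT.lf (nat_lit 0) (nat_lit 95899411449) (nat_lit 532) (nat_lit 408076940630) (nat_lit 608) (nat_lit 355601402921) (nat_lit 73) (nat_lit 5) (nat_lit 80) (nat_lit 5) (nat_lit 81) (nat_lit 5) (nat_lit 472) (nat_lit 467) (nat_lit 261)) (XT.lf (nat_lit 76) (nat_lit 43508026661) (nat_lit 0) (nat_lit 112249931714) (nat_lit 608) (nat_lit 740314386855) (nat_lit 74) (nat_lit 5) (nat_lit 73) (nat_lit 5) (nat_lit 81) (nat_lit 5) (nat_lit 473) (nat_lit 467) (nat_lit 260))) (XT.nd (nat_lit 78) (nat_lit 456) (nat_lit 0) (XT.lf (nat_lit 0) (nat_lit 239327631760) (nat_lit 532) (nat_lit 387931324082) (nat_lit 76) (nat_lit 306713751425) (nat_lit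 74) (nat_lit 5) (nat_lit 81) (nat_lit 5) (nat_lit 75) (nat_lit 5) (nat_lit 474) (nat_lit 467) (nat_lit 259)) (XT.nd (nat_lit 78) (nat_lit 0) (nat_lit 0) (XT.lf (nat_lit 0) (nat_lit 116799503560) (nat_lit 456) (nat_lit 218507980543) (nat_lit 532) (nat_lit 639139645758) (nat_lit 68) (nat_lit 5) (nat_lit 74) (nat_lit 5) (nat_lit 75) (nat_lit 5) (nat_lit 475) (nat_lit 467) (nat_lit 258)) (XT.lf (nat_lit 0) (nat_lit 455209732268) (nat_lit 532) (nat_lit 338977466478) (nat_lit 76) (nat_lit 222672786910) (nat_lit 68) (nat_lit 5) (nat_lit 75) (nat_lit 5) (nat_lit 69) (nat_lit 5) (nat_lit 476) (nat_lit 467) (nat_lit 257))))) (XT.nd (nat_lit 234) (nat_lit 456) (nat_lit 0) (XT.nd (nat_lit 78) (nat_lit 228) (nat_lit 0) (XT.lf (nat_lit 0) (nat_lit 226859181414) (nat_lit 228) (nat_lit 368976472211) (nat_lit 304) (nat_lit 465939696823) (nat_lit 65) (nat_lit 5) (nat_lit 68) (nat_lit 5) (nat_lit 69) (nat_lit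 5) (nat_lit 477) (nat_lit 467) (nat_lit 256)) (XT.nd (nat_lit 78) (nat_lit 228) (nat_lit 0) (XT.lf (nat_lit 0) (nat_lit 759391161360) (nat_lit 304) (nat_lit 254713058034) (nat_lit 76) (nat_lit 95245364020) (nat_lit 65) (nat_lit 5) (nat_lit 69) (nat_lit 5) (nat_lit 66) (nat_lit 5) (nat_lit 478) (nat_lit 467) (nat_lit 255)) (XT.lf (nat_lit 0) (nat_lit 381401750053) (nat_lit 228) (nat_lit 573385878876) (nat_lit 304) (nat_lit 204441604552) (nat_lit 62) (nat_lit 5) (nat_lit 65) (nat_lit 5) (nat_lit 66) (nat_lit 5) (nat_lit 479) (nat_lit 467) (nat_lit 254)))) (XT.nd (nat_lit 78) (nat_lit 456) (nat_lit 0) (XT.lf (nat_lit 0) (nat_lit 1082891492742) (nat_lit 228) (nat_lit 89888621347) (nat_lit 304) (nat_lit 39761997451) (nat_lit 62) (nat_lit 5) (nat_lit 65) (nat_lit 5) (nat_lit 66) (nat_lit 5) (nat_lit 480) (nat_lit 467) (nat_lit 253)) (XT.nd (nat_lit 78) (nat_lit 228) (nat_lit 0) (XT.lf (nat_lit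 0) (nat_lit 156395674090) (nat_lit 228) (nat_lit 682641938607) (nat_lit 76) (nat_lit 428799788647) (nat_lit 59) (nat_lit 5) (nat_lit 62) (nat_lit 5) (nat_lit 60) (nat_lit 5) (nat_lit 481) (nat_lit 467) (nat_lit 252)) (XT.lf (nat_lit 0) (nat_lit 35653767451) (nat_lit 228) (nat_lit 337273201371) (nat_lit 304) (nat_lit 954000387968) (nat_lit 56) (nat_lit 5) (nat_lit 59) (nat_lit 5) (nat_lit 60) (nat_lit 5) (nat_lit 482) (nat_lit 467) (nat_lit 251)))))) (XT.nd (nat_lit 468) (nat_lit 532) (nat_lit 0) (XT.nd (nat_lit 234) (nat_lit 380) (nat_lit 0) (XT.nd (nat_lit 78) (nat_lit 152) (nat_lit 0) (XT.lf (nat_lit 0) (nat_lit 630851611125) (nat_lit 304) (nat_lit 544421972197) (nat_lit 76) (nat_lit 213545257833) (nat_lit 56) (nat_lit 5) (nat_lit 60) (nat_lit 5) (nat_lit 57) (nat_lit 5) (nat_lit 483) (nat_lit 467) (nat_lit 250)) (XT.nd (nat_lit 78) (nat_lit 0) (nat_lit 0) (XT.lf (nat_lit 0) (nat_lit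 266761936892) (nat_lit 152) (nat_lit 657824256755) (nat_lit 228) (nat_lit 529861373118) (nat_lit 54) (nat_lit 5) (nat_lit 56) (nat_lit 5) (nat_lit 57) (nat_lit 5) (nat_lit 484) (nat_lit 467) (nat_lit 249)) (XT.lf (nat_lit 0) (nat_lit 1173802311839) (nat_lit 152) (nat_lit 82902687606) (nat_lit 228) (nat_lit 267430754444) (nat_lit 54) (nat_lit 5) (nat_lit 56) (nat_lit 5) (nat_lit 57) (nat_lit 5) (nat_lit 485) (nat_lit 467) (nat_lit 248)))) (XT.nd (nat_lit 78) (nat_lit 152) (nat_lit 0) (XT.lf (nat_lit 0) (nat_lit 42523214841) (nat_lit 228) (nat_lit 1028785198687) (nat_lit 76) (nat_lit 525873489249) (nat_lit 51) (nat_lit 5) (nat_lit 54) (nat_lit 5) (nat_lit 52) (nat_lit 5) (nat_lit 486) (nat_lit 467) (nat_lit 247)) (XT.nd (nat_lit 78) (nat_lit 152) (nat_lit 0) (XT.lf (nat_lit 0) (nat_lit 374806142292) (nat_lit 228) (nat_lit 104104784407) (nat_lit 76) (nat_lit 1195646648800) (nat_lit 51) (nat_lit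 5) (nat_lit 54) (nat_lit 5) (nat_lit 52) (nat_lit 5) (nat_lit 487) (nat_lit 467) (nat_lit 246)) (XT.lf (nat_lit 0) (nat_lit 760775894571) (nat_lit 228) (nat_lit 819113435787) (nat_lit 76) (nat_lit 176065636431) (nat_lit 49) (nat_lit 5) (nat_lit 52) (nat_lit 5) (nat_lit 50) (nat_lit 5) (nat_lit 488) (nat_lit 467) (nat_lit 245))))) (XT.nd (nat_lit 234) (nat_lit 228) (nat_lit 0) (XT.nd (nat_lit 78) (nat_lit 152) (nat_lit 0) (XT.lf (nat_lit 0) (nat_lit 221936631623) (nat_lit 152) (nat_lit 976383759569) (nat_lit 228) (nat_lit 643887985059) (nat_lit 47) (nat_lit 5) (nat_lit 49) (nat_lit 5) (nat_lit 50) (nat_lit 5) (nat_lit 489) (nat_lit 467) (nat_lit 244)) (XT.nd (nat_lit 78) (nat_lit 152) (nat_lit 0) (XT.lf (nat_lit 0) (nat_lit 1392854405155) (nat_lit 152) (nat_lit 300410051442) (nat_lit 228) (nat_lit 240305921147) (nat_lit 47) (nat_lit 5) (nat_lit 49) (nat_lit 5) (nat_lit 50) (nat_lit 5) (nat_lit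 490) (nat_lit 467) (nat_lit 243)) (XT.lf (nat_lit 0) (nat_lit 212351826718) (nat_lit 152) (nat_lit 1388295992951) (nat_lit 76) (nat_lit 429091500063) (nat_lit 45) (nat_lit 5) (nat_lit 47) (nat_lit 5) (nat_lit 46) (nat_lit 5) (nat_lit 491) (nat_lit 467) (nat_lit 242)))) (XT.nd (nat_lit 78) (nat_lit 228) (nat_lit 0) (XT.lf (nat_lit 0) (nat_lit 711210424215) (nat_lit 152) (nat_lit 197921260014) (nat_lit 76) (nat_lit 1222133076570) (nat_lit 45) (nat_lit 5) (nat_lit 47) (nat_lit 5) (nat_lit 46) (nat_lit 5) (nat_lit 492) (nat_lit 467) (nat_lit 241)) (XT.nd (nat_lit 78) (nat_lit 76) (nat_lit 0) (XT.lf (nat_lit 0) (nat_lit 1144958928746) (nat_lit 152) (nat_lit 132555067205) (nat_lit 228) (nat_lit 961195338285) (nat_lit 43) (nat_lit 5) (nat_lit 45) (nat_lit 5) (nat_lit 46) (nat_lit 5) (nat_lit 493) (nat_lit 467) (nat_lit 240)) (XT.lf (nat_lit 0) (nat_lit 247464690821) (nat_lit 76) (nat_lit 1670143636676)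 (nat_lit 152) (nat_lit 434862228127) (nat_lit 42) (nat_lit 5) (nat_lit 43) (nat_lit 5) (nat_lit 44) (nat_lit 4) (nat_lit 494) (nat_lit 467) (nat_lit 239))))))) (XT.nd (nat_lit 858) (nat_lit 760) (nat_lit 0) (XT.nd (nat_lit 390) (nat_lit 304) (nat_lit 0) (XT.nd (nat_lit 156) (nat_lit 304) (nat_lit 0) (XT.nd (nat_lit 78) (nat_lit 152) (nat_lit 0) (XT.lf (nat_lit 0) (nat_lit 161020256834) (nat_lit 152) (nat_lit 722193011627) (nat_lit 76) (nat_lit 1589132417630) (nat_lit 41) (nat_lit 5) (nat_lit 43) (nat_lit 5) (nat_lit 42) (nat_lit 5) (nat_lit 495) (nat_lit 467) (nat_lit 238)) (XT.lf (nat_lit 0) (nat_lit 799967348436) (nat_lit 152) (nat_lit 351367685) (nat_lit 228) (nat_lit 1799049362572) (nat_lit 39) (nat_lit 5) (nat_lit 41) (nat_lit 5) (nat_lit 42) (nat_lit 5) (nat_lit 496) (nat_lit 467) (nat_lit 237))) (XT.nd (nat_lit 78) (nat_lit 304) (nat_lit 0) (XT.lf (nat_lit 0) (nat_lit 1533942997586)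 (nat_lit 228) (nat_lit 273436202844) (nat_lit 76) (nat_lit 925718506639) (nat_lit 39) (nat_lit 5) (nat_lit 42) (nat_lit 5) (nat_lit 40) (nat_lit 4) (nat_lit 497) (nat_lit 467) (nat_lit 236)) (XT.nd (nat_lit 78) (nat_lit 228) (nat_lit 0) (XT.lf (nat_lit 0) (nat_lit 1446980163540) (nat_lit 76) (nat_lit 914086089461) (nat_lit 152) (nat_lit 513674730199) (nat_lit 38) (nat_lit 5) (nat_lit 39) (nat_lit 5) (nat_lit 40) (nat_lit 4) (nat_lit 498) (nat_lit 467) (nat_lit 235)) (XT.lf (nat_lit 0) (nat_lit 232011653118) (nat_lit 228) (nat_lit 2724858027459) (nat_lit 76) (nat_lit 69073526924) (nat_lit 35) (nat_lit 5) (nat_lit 38) (nat_lit 5) (nat_lit 36) (nat_lit 4) (nat_lit 499) (nat_lit 467) (nat_lit 234))))) (XT.nd (nat_lit 234) (nat_lit 228) (nat_lit 0) (XT.nd (nat_lit 78) (nat_lit 76) (nat_lit 0) (XT.lf (nat_lit 0) (nat_lit 1073395134964) (nat_lit 228) (nat_lit 974780389092) (nat_lit 76) (nat_lit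 1134895192387) (nat_lit 35) (nat_lit 5) (nat_lit 38) (nat_lit 5) (nat_lit 36) (nat_lit 4) (nat_lit 500) (nat_lit 467) (nat_lit 233)) (XT.nd (nat_lit 78) (nat_lit 0) (nat_lit 0) (XT.lf (nat_lit 0) (nat_lit 963501713705) (nat_lit 76) (nat_lit 1041759818559) (nat_lit 152) (nat_lit 1345653114886) (nat_lit 34) (nat_lit 5) (nat_lit 35) (nat_lit 5) (nat_lit 36) (nat_lit 4) (nat_lit 501) (nat_lit 467) (nat_lit 232)) (XT.lf (nat_lit 0) (nat_lit 3040108046717) (nat_lit 152) (nat_lit 419549494381) (nat_lit 0) (nat_lit 70254086785) (nat_lit 34) (nat_lit 5) (nat_lit 36) (nat_lit 4) (nat_lit 34) (nat_lit 4) (nat_lit 502) (nat_lit 467) (nat_lit 231)))) (XT.nd (nat_lit 78) (nat_lit 76) (nat_lit 0) (XT.lf (nat_lit 0) (nat_lit 484141477063) (nat_lit 152) (nat_lit 1962839690486) (nat_lit 76) (nat_lit 1269702097305) (nat_lit 32) (nat_lit 5) (nat_lit 34) (nat_lit 5) (nat_lit 33) (nat_lit 4) (nat_lit 503) (nat_lit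 467) (nat_lit 230)) (XT.nd (nat_lit 78) (nat_lit 0) (nat_lit 0) (XT.lf (nat_lit 0) (nat_lit 204709578523) (nat_lit 76) (nat_lit 1321522894523) (nat_lit 152) (nat_lit 2389810990170) (nat_lit 31) (nat_lit 5) (nat_lit 32) (nat_lit 5) (nat_lit 33) (nat_lit 4) (nat_lit 504) (nat_lit 467) (nat_lit 229)) (XT.lf (nat_lit 0) (nat_lit 2657291217321) (nat_lit 76) (nat_lit 48067044782) (nat_lit 152) (nat_lit 1421700814273) (nat_lit 31) (nat_lit 5) (nat_lit 32) (nat_lit 5) (nat_lit 33) (nat_lit 4) (nat_lit 505) (nat_lit 467) (nat_lit 228)))))) (XT.nd (nat_lit 468) (nat_lit 304) (nat_lit 0) (XT.nd (nat_lit 234) (nat_lit 228) (nat_lit 0) (XT.nd (nat_lit 78) (nat_lit 152) (nat_lit 0) (XT.lf (nat_lit 0) (nat_lit 967606267249) (nat_lit 76) (nat_lit 3066399560696) (nat_lit 76) (nat_lit 316534773552) (nat_lit 30) (nat_lit 4) (nat_lit 31) (nat_lit 5) (nat_lit 31) (nat_lit 4) (nat_lit 506) (nat_lit 467) (nat_lit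 227)) (XT.nd (nat_lit 78) (nat_lit 76) (nat_lit 0) (XT.lf (nat_lit 0) (nat_lit 875649574197) (nat_lit 152) (nat_lit 928513674750) (nat_lit 76) (nat_lit 2782651696738) (nat_lit 29) (nat_lit 5) (nat_lit 31) (nat_lit 5) (nat_lit 30) (nat_lit 4) (nat_lit 507) (nat_lit 467) (nat_lit 226)) (XT.lf (nat_lit 0) (nat_lit 1804297205039) (nat_lit 76) (nat_lit 385203754535) (nat_lit 152) (nat_lit 2648361072100) (nat_lit 28) (nat_lit 5) (nat_lit 29) (nat_lit 5) (nat_lit 30) (nat_lit 4) (nat_lit 508) (nat_lit 467) (nat_lit 225)))) (XT.nd (nat_lit 78) (nat_lit 228) (nat_lit 0) (XT.lf (nat_lit 0) (nat_lit 3662099002456) (nat_lit 152) (nat_lit 326674900097) (nat_lit 0) (nat_lit 1115927898255) (nat_lit 28) (nat_lit 5) (nat_lit 30) (nat_lit 4) (nat_lit 28) (nat_lit 4) (nat_lit 509) (nat_lit 467) (nat_lit 224)) (XT.nd (nat_lit 78) (nat_lit 152) (nat_lit 0) (XT.lf (nat_lit 0) (nat_lit 2722975170985) (nat_lit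 76) (nat_lit 2605022626700) (nat_lit 76) (nat_lit 58851521074) (nat_lit 27) (nat_lit 4) (nat_lit 28) (nat_lit 5) (nat_lit 28) (nat_lit 4) (nat_lit 510) (nat_lit 467) (nat_lit 223)) (XT.lf (nat_lit 0) (nat_lit 325864290680) (nat_lit 76) (nat_lit 1054921958177) (nat_lit 152) (nat_lit 4306660219632) (nat_lit 25) (nat_lit 5) (nat_lit 26) (nat_lit 5) (nat_lit 27) (nat_lit 4) (nat_lit 511) (nat_lit 467) (nat_lit 222))))) (XT.nd (nat_lit 234) (nat_lit 152) (nat_lit 0) (XT.nd (nat_lit 78) (nat_lit 152) (nat_lit 0) (XT.lf (nat_lit 0) (nat_lit 3022033843665) (nat_lit 152) (nat_lit 2318297789763) (nat_lit 0) (nat_lit 664468002772) (nat_lit 25) (nat_lit 5) (nat_lit 27) (nat_lit 4) (nat_lit 25) (nat_lit 4) (nat_lit 512) (nat_lit 467) (nat_lit 221)) (XT.nd (nat_lit 78) (nat_lit 76) (nat_lit 0) (XT.lf (nat_lit 0) (nat_lit 990602736655) (nat_lit 76) (nat_lit 3855203097772) (nat_lit 76) (nat_lit 1497637255831)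 (nat_lit 24) (nat_lit 4) (nat_lit 25) (nat_lit 5) (nat_lit 25) (nat_lit 4) (nat_lit 513) (nat_lit 467) (nat_lit 220)) (XT.lf (nat_lit 0) (nat_lit 166016696620) (nat_lit 152) (nat_lit 2012251113938) (nat_lit 76) (nat_lit 4525503064264) (nat_lit 23) (nat_lit 5) (nat_lit 25) (nat_lit 5) (nat_lit 24) (nat_lit 4) (nat_lit 514) (nat_lit 467) (nat_lit 219)))) (XT.nd (nat_lit 78) (nat_lit 76) (nat_lit 0) (XT.lf (nat_lit 0) (nat_lit 1638657897609) (nat_lit 76) (nat_lit 282603516533) (nat_lit 152) (nat_lit 5165398713664) (nat_lit 22) (nat_lit 5) (nat_lit 23) (nat_lit 5) (nat_lit 24) (nat_lit 4) (nat_lit 515) (nat_lit 467) (nat_lit 218)) (XT.nd (nat_lit 78) (nat_lit 76) (nat_lit 0) (XT.lf (nat_lit 0) (nat_lit 3915814683540) (nat_lit 152) (nat_lit 1843571373617) (nat_lit 0) (nat_lit 1732883345912) (nat_lit 22) (nat_lit 5) (nat_lit 24) (nat_lit 4) (nat_lit 22) (nat_lit 4) (nat_lit 516) (nat_lit 467)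 (nat_lit 217)) (XT.lf (nat_lit 0) (nat_lit 2149395042815) (nat_lit 76) (nat_lit 3979570523853) (nat_lit 76) (nat_lit 1796639185512) (nat_lit 21) (nat_lit 4) (nat_lit 22) (nat_lit 5) (nat_lit 22) (nat_lit 4) (nat_lit 517) (nat_lit 467) (nat_lit 216))))))))
noncomputable def xc229 : XT := (XT.nd (nat_lit 59982) (nat_lit 0) (nat_lit 760) (XT.nd (nat_lit 59046) (nat_lit 0) (nat_lit 2736) (XT.nd (nat_lit 58578) (nat_lit 0) (nat_lit 4104) (XT.nd (nat_lit 156) (nat_lit 76) (nat_lit 0) (XT.nd (nat_lit 78) (nat_lit 76) (nat_lit 0) (XT.lf (nat_lit 0) (nat_lit 170996258937) (nat_lit 152) (nat_lit 1827259120409) (nat_lit 76) (nat_lit 6390972707768) (nat_lit 20) (nat_lit 5) (nat_lit 22) (nat_lit 5) (nat_lit 21) (nat_lit 4) (nat_lit 518) (nat_lit 467) (nat_lit 215)) (XT.lf (nat_lit 0) (nat_lit 2265696477629) (nat_lit 152) (nat_lit 6370710249565) (nat_lit 0) (nat_lit 244463755767) (nat_lit 19) (nat_lit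 5) (nat_lit 21) (nat_lit 4) (nat_lit 19) (nat_lit 4) (nat_lit 519) (nat_lit 467) (nat_lit 214))) (XT.nd (nat_lit 78) (nat_lit 76) (nat_lit 0) (XT.lf (nat_lit 0) (nat_lit 4631133627601) (nat_lit 152) (nat_lit 2162556864556) (nat_lit 0) (nat_lit 2609900905216) (nat_lit 19) (nat_lit 5) (nat_lit 21) (nat_lit 4) (nat_lit 19) (nat_lit 4) (nat_lit 520) (nat_lit 467) (nat_lit 213)) (XT.nd (nat_lit 78) (nat_lit 0) (nat_lit 0) (XT.lf (nat_lit 0) (nat_lit 2507693788415) (nat_lit 76) (nat_lit 4738422055906) (nat_lit 76) (nat_lit 2717189333036) (nat_lit 18) (nat_lit 4) (nat_lit 19) (nat_lit 5) (nat_lit 19) (nat_lit 4) (nat_lit 521) (nat_lit 467) (nat_lit 212)) (XT.lf (nat_lit 0) (nat_lit 7674551016408) (nat_lit 76) (nat_lit 2454873757890) (nat_lit 76) (nat_lit 433641034570) (nat_lit 18) (nat_lit 4) (nat_lit 19) (nat_lit 5) (nat_lit 19) (nat_lit 4) (nat_lit 522) (nat_lit 467) (nat_lit 211))))) (XT.nd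 (nat_lit 234) (nat_lit 456) (nat_lit 0) (XT.nd (nat_lit 78) (nat_lit 0) (nat_lit 0) (XT.lf (nat_lit 0) (nat_lit 362318252331) (nat_lit 532) (nat_lit 9173105834) (nat_lit 532) (nat_lit 9173105834) (nat_lit 78) (nat_lit 3) (nat_lit 85) (nat_lit 3) (nat_lit 85) (nat_lit 5) (nat_lit 468) (nat_lit 468) (nat_lit 264)) (XT.nd (nat_lit 78) (nat_lit 0) (nat_lit 0) (XT.lf (nat_lit 76) (nat_lit 376593915223) (nat_lit 0) (nat_lit 386085248627) (nat_lit 532) (nat_lit 28378345309) (nat_lit 79) (nat_lit 5) (nat_lit 78) (nat_lit 3) (nat_lit 85) (nat_lit 5) (nat_lit 469) (nat_lit 468) (nat_lit 263)) (XT.lf (nat_lit 76) (nat_lit 804172611534) (nat_lit 0) (nat_lit 94231399) (nat_lit 532) (nat_lit 18857405308) (nat_lit 79) (nat_lit 5) (nat_lit 78) (nat_lit 3) (nat_lit 85) (nat_lit 5) (nat_lit 470) (nat_lit 468) (nat_lit 262)))) (XT.nd (nat_lit 78) (nat_lit 0) (nat_lit 0) (XT.lf (nat_lit 0) (nat_lit 12480250332)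 (nat_lit 532) (nat_lit 437318835681) (nat_lit 608) (nat_lit 406323650775) (nat_lit 72) (nat_lit 5) (nat_lit 79) (nat_lit 5) (nat_lit 80) (nat_lit 5) (nat_lit 471) (nat_lit 468) (nat_lit 261)) (XT.nd (nat_lit 78) (nat_lit 0) (nat_lit 76) (XT.lf (nat_lit 76) (nat_lit 455076214) (nat_lit 0) (nat_lit 45396065470) (nat_lit 608) (nat_lit 845827177484) (nat_lit 73) (nat_lit 5) (nat_lit 72) (nat_lit 5) (nat_lit 80) (nat_lit 5) (nat_lit 472) (nat_lit 468) (nat_lit 260)) (XT.lf (nat_lit 0) (nat_lit 103571538760) (nat_lit 532) (nat_lit 440722950480) (nat_lit 608) (nat_lit 384049472147) (nat_lit 73) (nat_lit 5) (nat_lit 80) (nat_lit 5) (nat_lit 81) (nat_lit 5) (nat_lit 473) (nat_lit 468) (nat_lit 259)))))) (XT.nd (nat_lit 468) (nat_lit 836) (nat_lit 0) (XT.nd (nat_lit 234) (nat_lit 228) (nat_lit 0) (XT.nd (nat_lit 78) (nat_lit 380) (nat_lit 0) (XT.lf (nat_lit 76) (nat_lit 46988810514) (nat_lit 0) (nat_lit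 121229949418) (nat_lit 608) (nat_lit 799539359671) (nat_lit 74) (nat_lit 5) (nat_lit 73) (nat_lit 5) (nat_lit 81) (nat_lit 5) (nat_lit 474) (nat_lit 468) (nat_lit 258)) (XT.nd (nat_lit 78) (nat_lit 456) (nat_lit 0) (XT.lf (nat_lit 0) (nat_lit 258473994457) (nat_lit 532) (nat_lit 418965686005) (nat_lit 76) (nat_lit 331250831162) (nat_lit 74) (nat_lit 5) (nat_lit 81) (nat_lit 5) (nat_lit 75) (nat_lit 5) (nat_lit 475) (nat_lit 468) (nat_lit 257)) (XT.lf (nat_lit 0) (nat_lit 126143604203) (nat_lit 456) (nat_lit 235988622889) (nat_lit 532) (nat_lit 690270661568) (nat_lit 68) (nat_lit 5) (nat_lit 74) (nat_lit 5) (nat_lit 75) (nat_lit 5) (nat_lit 476) (nat_lit 468) (nat_lit 256)))) (XT.nd (nat_lit 78) (nat_lit 228) (nat_lit 0) (XT.lf (nat_lit 0) (nat_lit 491626644337) (nat_lit 532) (nat_lit 366095523018) (nat_lit 76) (nat_lit 240486606430) (nat_lit 68) (nat_lit 5) (nat_lit 75) (nat_lit 5) (nat_lit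 69) (nat_lit 5) (nat_lit 477) (nat_lit 468) (nat_lit 255)) (XT.nd (nat_lit 78) (nat_lit 0) (nat_lit 0) (XT.lf (nat_lit 0) (nat_lit 245008053142) (nat_lit 228) (nat_lit 398494579673) (nat_lit 304) (nat_lit 503214735476) (nat_lit 65) (nat_lit 5) (nat_lit 68) (nat_lit 5) (nat_lit 69) (nat_lit 5) (nat_lit 478) (nat_lit 468) (nat_lit 254)) (XT.lf (nat_lit 0) (nat_lit 820142571998) (nat_lit 304) (nat_lit 275089966417) (nat_lit 76) (nat_lit 102865002215) (nat_lit 65) (nat_lit 5) (nat_lit 69) (nat_lit 5) (nat_lit 66) (nat_lit 5) (nat_lit 479) (nat_lit 468) (nat_lit 253))))) (XT.nd (nat_lit 234) (nat_lit 380) (nat_lit 0) (XT.nd (nat_lit 78) (nat_lit 228) (nat_lit 0) (XT.lf (nat_lit 0) (nat_lit 411914022868) (nat_lit 228) (nat_lit 619256728578) (nat_lit 304) (nat_lit 220796811702) (nat_lit 62) (nat_lit 5) (nat_lit 65) (nat_lit 5) (nat_lit 66) (nat_lit 5) (nat_lit 480) (nat_lit 468) (nat_lit 252))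 (XT.nd (nat_lit 78) (nat_lit 228) (nat_lit 0) (XT.lf (nat_lit 0) (nat_lit 1169522935134) (nat_lit 228) (nat_lit 97079691974) (nat_lit 304) (nat_lit 42942845011) (nat_lit 62) (nat_lit 5) (nat_lit 65) (nat_lit 5) (nat_lit 66) (nat_lit 5) (nat_lit 481) (nat_lit 468) (nat_lit 251)) (XT.lf (nat_lit 0) (nat_lit 168907430323) (nat_lit 228) (nat_lit 737253160735) (nat_lit 76) (nat_lit 463103794180) (nat_lit 59) (nat_lit 5) (nat_lit 62) (nat_lit 5) (nat_lit 60) (nat_lit 5) (nat_lit 482) (nat_lit 468) (nat_lit 250)))) (XT.nd (nat_lit 78) (nat_lit 152) (nat_lit 0) (XT.lf (nat_lit 0) (nat_lit 38506198442) (nat_lit 228) (nat_lit 364255025732) (nat_lit 304) (nat_lit 1030320313306) (nat_lit 56) (nat_lit 5) (nat_lit 59) (nat_lit 5) (nat_lit 60) (nat_lit 5) (nat_lit 483) (nat_lit 468) (nat_lit 249)) (XT.nd (nat_lit 78) (nat_lit 152) (nat_lit 0) (XT.lf (nat_lit 0) (nat_lit 681319831319) (nat_lit 304) (nat_lit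 587975603413) (nat_lit 76) (nat_lit 230628906387) (nat_lit 56) (nat_lit 5) (nat_lit 60) (nat_lit 5) (nat_lit 57) (nat_lit 5) (nat_lit 484) (nat_lit 468) (nat_lit 248)) (XT.lf (nat_lit 0) (nat_lit 288103015200) (nat_lit 152) (nat_lit 710450161447) (nat_lit 228) (nat_lit 572250188436) (nat_lit 54) (nat_lit 5) (nat_lit 56) (nat_lit 5) (nat_lit 57) (nat_lit 5) (nat_lit 485) (nat_lit 468) (nat_lit 247))))))) (XT.nd (nat_lit 936) (nat_lit 836) (nat_lit 0) (XT.nd (nat_lit 468) (nat_lit 608) (nat_lit 0) (XT.nd (nat_lit 234) (nat_lit 304) (nat_lit 0) (XT.nd (nat_lit 78) (nat_lit 228) (nat_lit 0) (XT.lf (nat_lit 0) (nat_lit 1267706611005) (nat_lit 152) (nat_lit 89534869421) (nat_lit 228) (nat_lit 288825127271) (nat_lit 54) (nat_lit 5) (nat_lit 56) (nat_lit 5) (nat_lit 57) (nat_lit 5) (nat_lit 486) (nat_lit 468) (nat_lit 246)) (XT.nd (nat_lit 78) (nat_lit 0) (nat_lit 0) (XT.lf (nat_lit 0) (nat_lit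 45925152662) (nat_lit 228) (nat_lit 1111087893431) (nat_lit 76) (nat_lit 567943402438) (nat_lit 51) (nat_lit 5) (nat_lit 54) (nat_lit 5) (nat_lit 52) (nat_lit 5) (nat_lit 487) (nat_lit 468) (nat_lit 245)) (XT.lf (nat_lit 0) (nat_lit 404790708336) (nat_lit 228) (nat_lit 112433054983) (nat_lit 76) (nat_lit 1291298412232) (nat_lit 51) (nat_lit 5) (nat_lit 54) (nat_lit 5) (nat_lit 52) (nat_lit 5) (nat_lit 488) (nat_lit 468) (nat_lit 244)))) (XT.nd (nat_lit 78) (nat_lit 152) (nat_lit 0) (XT.lf (nat_lit 0) (nat_lit 821638038801) (nat_lit 228) (nat_lit 884642396461) (nat_lit 76) (nat_lit 190150923043) (nat_lit 49) (nat_lit 5) (nat_lit 52) (nat_lit 5) (nat_lit 50) (nat_lit 5) (nat_lit 489) (nat_lit 468) (nat_lit 243)) (XT.nd (nat_lit 78) (nat_lit 0) (nat_lit 0) (XT.lf (nat_lit 0) (nat_lit 239691673451) (nat_lit 152) (nat_lit 1054494418994) (nat_lit 228) (nat_lit 695398948295) (nat_lit 47) (nat_lit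 5) (nat_lit 49) (nat_lit 5) (nat_lit 50) (nat_lit 5) (nat_lit 490) (nat_lit 468) (nat_lit 242)) (XT.lf (nat_lit 0) (nat_lit 1504282860622) (nat_lit 152) (nat_lit 324442817279) (nat_lit 228) (nat_lit 259530324868) (nat_lit 47) (nat_lit 5) (nat_lit 49) (nat_lit 5) (nat_lit 50) (nat_lit 5) (nat_lit 491) (nat_lit 468) (nat_lit 241))))) (XT.nd (nat_lit 234) (nat_lit 304) (nat_lit 0) (XT.nd (nat_lit 78) (nat_lit 152) (nat_lit 0) (XT.lf (nat_lit 0) (nat_lit 229340037858) (nat_lit 152) (nat_lit 1499359564341) (nat_lit 76) (nat_lit 463418857899) (nat_lit 45) (nat_lit 5) (nat_lit 47) (nat_lit 5) (nat_lit 46) (nat_lit 5) (nat_lit 492) (nat_lit 468) (nat_lit 240)) (XT.nd (nat_lit 78) (nat_lit 152) (nat_lit 0) (XT.lf (nat_lit 0) (nat_lit 768107318339) (nat_lit 152) (nat_lit 213754860773) (nat_lit 76) (nat_lit 1319903757725) (nat_lit 45) (nat_lit 5) (nat_lit 47) (nat_lit 5) (nat_lit 46) (nat_lit 5) (nat_lit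 493) (nat_lit 468) (nat_lit 239)) (XT.lf (nat_lit 0) (nat_lit 1236555740555) (nat_lit 152) (nat_lit 143159433146) (nat_lit 228) (nat_lit 1038090902618) (nat_lit 43) (nat_lit 5) (nat_lit 45) (nat_lit 5) (nat_lit 46) (nat_lit 5) (nat_lit 494) (nat_lit 468) (nat_lit 238)))) (XT.nd (nat_lit 78) (nat_lit 228) (nat_lit 0) (XT.lf (nat_lit 0) (nat_lit 267261964741) (nat_lit 76) (nat_lit 1803755085979) (nat_lit 152) (nat_lit 469651144783) (nat_lit 42) (nat_lit 5) (nat_lit 43) (nat_lit 5) (nat_lit 44) (nat_lit 4) (nat_lit 495) (nat_lit 468) (nat_lit 237)) (XT.nd (nat_lit 78) (nat_lit 152) (nat_lit 0) (XT.lf (nat_lit 0) (nat_lit 173901931559) (nat_lit 152) (nat_lit 779968358349) (nat_lit 76) (nat_lit 1716263046727) (nat_lit 41) (nat_lit 5) (nat_lit 43) (nat_lit 5) (nat_lit 42) (nat_lit 5) (nat_lit 496) (nat_lit 468) (nat_lit 236)) (XT.lf (nat_lit 0) (nat_lit 863964828133) (nat_lit 152) (nat_lit 379437651)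 (nat_lit 228) (nat_lit 1942973255007) (nat_lit 39) (nat_lit 5) (nat_lit 41) (nat_lit 5) (nat_lit 42) (nat_lit 5) (nat_lit 497) (nat_lit 468) (nat_lit 235)))))) (XT.nd (nat_lit 468) (nat_lit 456) (nat_lit 0) (XT.nd (nat_lit 234) (nat_lit 76) (nat_lit 0) (XT.nd (nat_lit 78) (nat_lit 304) (nat_lit 0) (XT.lf (nat_lit 0) (nat_lit 1656658486766) (nat_lit 228) (nat_lit 295311011043) (nat_lit 76) (nat_lit 999776021869) (nat_lit 39) (nat_lit 5) (nat_lit 42) (nat_lit 5) (nat_lit 40) (nat_lit 4) (nat_lit 498) (nat_lit 468) (nat_lit 234)) (XT.nd (nat_lit 78) (nat_lit 228) (nat_lit 0) (XT.lf (nat_lit 0) (nat_lit 1562738662423) (nat_lit 76) (nat_lit 987212938597) (nat_lit 152) (nat_lit 554768657007) (nat_lit 38) (nat_lit 5) (nat_lit 39) (nat_lit 5) (nat_lit 40) (nat_lit 4) (nat_lit 499) (nat_lit 468) (nat_lit 233)) (XT.lf (nat_lit 0) (nat_lit 250572633764) (nat_lit 228) (nat_lit 2942846580634) (nat_lit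 76) (nat_lit 74599445826) (nat_lit 35) (nat_lit 5) (nat_lit 38) (nat_lit 5) (nat_lit 36) (nat_lit 4) (nat_lit 500) (nat_lit 468) (nat_lit 232)))) (XT.nd (nat_lit 78) (nat_lit 76) (nat_lit 0) (XT.lf (nat_lit 0) (nat_lit 1159266790573) (nat_lit 228) (nat_lit 1052762737792) (nat_lit 76) (nat_lit 1225686841804) (nat_lit 35) (nat_lit 5) (nat_lit 38) (nat_lit 5) (nat_lit 36) (nat_lit 4) (nat_lit 501) (nat_lit 468) (nat_lit 231)) (XT.nd (nat_lit 78) (nat_lit 0) (nat_lit 0) (XT.lf (nat_lit 0) (nat_lit 1040581931142) (nat_lit 76) (nat_lit 1125100567127) (nat_lit 152) (nat_lit 1453305317174) (nat_lit 34) (nat_lit 5) (nat_lit 35) (nat_lit 5) (nat_lit 36) (nat_lit 4) (nat_lit 502) (nat_lit 468) (nat_lit 230)) (XT.lf (nat_lit 0) (nat_lit 3283316731484) (nat_lit 152) (nat_lit 453113377143) (nat_lit 0) (nat_lit 75874446200) (nat_lit 34) (nat_lit 5) (nat_lit 36) (nat_lit 4) (nat_lit 34) (nat_lit 4) (nat_lit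 503) (nat_lit 468) (nat_lit 229))))) (XT.nd (nat_lit 234) (nat_lit 228) (nat_lit 0) (XT.nd (nat_lit 78) (nat_lit 76) (nat_lit 0) (XT.lf (nat_lit 0) (nat_lit 522872836056) (nat_lit 152) (nat_lit 2119866788727) (nat_lit 76) (nat_lit 1371278297990) (nat_lit 32) (nat_lit 5) (nat_lit 34) (nat_lit 5) (nat_lit 33) (nat_lit 4) (nat_lit 504) (nat_lit 468) (nat_lit 228)) (XT.nd (nat_lit 78) (nat_lit 0) (nat_lit 0) (XT.lf (nat_lit 0) (nat_lit 221086419853) (nat_lit 76) (nat_lit 1427244690645) (nat_lit 152) (nat_lit 2580995826604) (nat_lit 31) (nat_lit 5) (nat_lit 32) (nat_lit 5) (nat_lit 33) (nat_lit 4) (nat_lit 505) (nat_lit 468) (nat_lit 227)) (XT.lf (nat_lit 0) (nat_lit 2869874584196) (nat_lit 76) (nat_lit 51912375550) (nat_lit 152) (nat_lit 1535436839803) (nat_lit 31) (nat_lit 5) (nat_lit 32) (nat_lit 5) (nat_lit 33) (nat_lit 4) (nat_lit 506) (nat_lit 468) (nat_lit 226)))) (XT.nd (nat_lit 78)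 (nat_lit 152) (nat_lit 0) (XT.lf (nat_lit 0) (nat_lit 1045014838453) (nat_lit 76) (nat_lit 3311711492096) (nat_lit 76) (nat_lit 341857516156) (nat_lit 30) (nat_lit 4) (nat_lit 31) (nat_lit 5) (nat_lit 31) (nat_lit 4) (nat_lit 507) (nat_lit 468) (nat_lit 225)) (XT.nd (nat_lit 78) (nat_lit 76) (nat_lit 0) (XT.lf (nat_lit 0) (nat_lit 945701574684) (nat_lit 152) (nat_lit 1002794702257) (nat_lit 76) (nat_lit 3005263861633) (nat_lit 29) (nat_lit 5) (nat_lit 31) (nat_lit 5) (nat_lit 30) (nat_lit 4) (nat_lit 508) (nat_lit 468) (nat_lit 224)) (XT.lf (nat_lit 0) (nat_lit 1948641046233) (nat_lit 76) (nat_lit 416020023657) (nat_lit 152) (nat_lit 2860229921632) (nat_lit 28) (nat_lit 5) (nat_lit 29) (nat_lit 5) (nat_lit 30) (nat_lit 4) (nat_lit 509) (nat_lit 468) (nat_lit 223))))))))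
noncomputable def xc230 : XT := (XT.nd (nat_lit 60060) (nat_lit 0) (nat_lit 1292) (XT.nd (nat_lit 858) (nat_lit 76) (nat_lit 0) (XT.nd (nat_lit 390) (nat_lit 380) (nat_lit 0) (XT.nd (nat_lit 156) (nat_lit 228) (nat_lit 0) (XT.nd (nat_lit 78) (nat_lit 76) (nat_lit 0) (XT.lf (nat_lit 0) (nat_lit 3955066954413) (nat_lit 152) (nat_lit 352808830322) (nat_lit 0) (nat_lit 1205202157595) (nat_lit 28) (nat_lit 5) (nat_lit 30) (nat_lit 4) (nat_lit 28) (nat_lit 4) (nat_lit 510) (nat_lit 468) (nat_lit 222)) (XT.lf (nat_lit 0) (nat_lit 2940813244883) (nat_lit 76) (nat_lit 2813424407473) (nat_lit 76) (nat_lit 63559609434) (nat_lit 27) (nat_lit 4) (nat_lit 28) (nat_lit 5) (nat_lit 28) (nat_lit 4) (nat_lit 511) (nat_lit 468) (nat_lit 221))) (XT.nd (nat_lit 78) (nat_lit 76) (nat_lit 0) (XT.lf (nat_lit 0) (nat_lit 351933494255) (nat_lit 76) (nat_lit 1139315685275) (nat_lit 152) (nat_lit 4651193003975) (nat_lit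 25) (nat_lit 5) (nat_lit 26) (nat_lit 5) (nat_lit 27) (nat_lit 4) (nat_lit 512) (nat_lit 468) (nat_lit 220)) (XT.nd (nat_lit 78) (nat_lit 76) (nat_lit 0) (XT.lf (nat_lit 0) (nat_lit 3263796580303) (nat_lit 152) (nat_lit 2503761555469) (nat_lit 0) (nat_lit 717625468991) (nat_lit 25) (nat_lit 5) (nat_lit 27) (nat_lit 4) (nat_lit 25) (nat_lit 4) (nat_lit 513) (nat_lit 468) (nat_lit 219)) (XT.lf (nat_lit 0) (nat_lit 1069851011607) (nat_lit 76) (nat_lit 4163619317907) (nat_lit 76) (nat_lit 1617448205697) (nat_lit 24) (nat_lit 4) (nat_lit 25) (nat_lit 5) (nat_lit 25) (nat_lit 4) (nat_lit 514) (nat_lit 468) (nat_lit 218))))) (XT.nd (nat_lit 234) (nat_lit 228) (nat_lit 0) (XT.nd (nat_lit 78) (nat_lit 76) (nat_lit 0) (XT.lf (nat_lit 0) (nat_lit 179298059266) (nat_lit 152) (nat_lit 2173231149765) (nat_lit 76) (nat_lit 4887543333623) (nat_lit 23) (nat_lit 5) (nat_lit 25) (nat_lit 5) (nat_lit 24) (nat_lit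 4) (nat_lit 515) (nat_lit 468) (nat_lit 217)) (XT.nd (nat_lit 78) (nat_lit 0) (nat_lit 0) (XT.lf (nat_lit 0) (nat_lit 1769750581357) (nat_lit 76) (nat_lit 305211772088) (nat_lit 152) (nat_lit 5578630582491) (nat_lit 22) (nat_lit 5) (nat_lit 23) (nat_lit 5) (nat_lit 24) (nat_lit 4) (nat_lit 516) (nat_lit 468) (nat_lit 216)) (XT.lf (nat_lit 0) (nat_lit 4229079883031) (nat_lit 152) (nat_lit 1991057034049) (nat_lit 0) (nat_lit 1871514036251) (nat_lit 22) (nat_lit 5) (nat_lit 24) (nat_lit 4) (nat_lit 22) (nat_lit 4) (nat_lit 517) (nat_lit 468) (nat_lit 215)))) (XT.nd (nat_lit 78) (nat_lit 152) (nat_lit 0) (XT.lf (nat_lit 0) (nat_lit 2321346694446) (nat_lit 76) (nat_lit 4297936141684) (nat_lit 76) (nat_lit 1940370294293) (nat_lit 21) (nat_lit 4) (nat_lit 22) (nat_lit 5) (nat_lit 22) (nat_lit 4) (nat_lit 518) (nat_lit 468) (nat_lit 214)) (XT.nd (nat_lit 78) (nat_lit 76) (nat_lit 0) (XT.lf (nat_lit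 0) (nat_lit 184675982575) (nat_lit 152) (nat_lit 1973439804199) (nat_lit 76) (nat_lit 6902250545475) (nat_lit 20) (nat_lit 5) (nat_lit 22) (nat_lit 5) (nat_lit 21) (nat_lit 4) (nat_lit 519) (nat_lit 468) (nat_lit 213)) (XT.lf (nat_lit 0) (nat_lit 2446952218677) (nat_lit 152) (nat_lit 6880367023601) (nat_lit 0) (nat_lit 264020877492) (nat_lit 19) (nat_lit 5) (nat_lit 21) (nat_lit 4) (nat_lit 19) (nat_lit 4) (nat_lit 520) (nat_lit 468) (nat_lit 212)))))) (XT.nd (nat_lit 58734) (nat_lit 0) (nat_lit 3800) (XT.nd (nat_lit 58500) (nat_lit 0) (nat_lit 4104) (XT.nd (nat_lit 78) (nat_lit 76) (nat_lit 0) (XT.lf (nat_lit 0) (nat_lit 5001624338955) (nat_lit 152) (nat_lit 2335561371194) (nat_lit 0) (nat_lit 2818692997321) (nat_lit 19) (nat_lit 5) (nat_lit 21) (nat_lit 4) (nat_lit 19) (nat_lit 4) (nat_lit 521) (nat_lit 468) (nat_lit 211)) (XT.nd (nat_lit 58344) (nat_lit 0) (nat_lit 4560) (XT.lf (nat_lit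 0) (nat_lit 2708309332939) (nat_lit 76) (nat_lit 5117495799505) (nat_lit 76) (nat_lit 2934564457455) (nat_lit 18) (nat_lit 4) (nat_lit 19) (nat_lit 5) (nat_lit 19) (nat_lit 4) (nat_lit 522) (nat_lit 468) (nat_lit 210)) (XT.lf (nat_lit 0) (nat_lit 391303816244) (nat_lit 532) (nat_lit 9906898268) (nat_lit 532) (nat_lit 9906898268) (nat_lit 78) (nat_lit 3) (nat_lit 85) (nat_lit 3) (nat_lit 85) (nat_lit 5) (nat_lit 469) (nat_lit 469) (nat_lit 262)))) (XT.nd (nat_lit 78) (nat_lit 456) (nat_lit 0) (XT.lf (nat_lit 76) (nat_lit 406721537670) (nat_lit 0) (nat_lit 416972154001) (nat_lit 532) (nat_lit 30648402567) (nat_lit 79) (nat_lit 5) (nat_lit 78) (nat_lit 3) (nat_lit 85) (nat_lit 5) (nat_lit 470) (nat_lit 469) (nat_lit 261)) (XT.nd (nat_lit 78) (nat_lit 456) (nat_lit 0) (XT.lf (nat_lit 76) (nat_lit 868506521595) (nat_lit 0) (nat_lit 101849062) (nat_lit 532) (nat_lit 20365802948) (nat_lit 79)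 (nat_lit 5) (nat_lit 78) (nat_lit 3) (nat_lit 85) (nat_lit 5) (nat_lit 471) (nat_lit 469) (nat_lit 260)) (XT.lf (nat_lit 0) (nat_lit 13478842711) (nat_lit 532) (nat_lit 472304218838) (nat_lit 608) (nat_lit 438829480333) (nat_lit 72) (nat_lit 5) (nat_lit 79) (nat_lit 5) (nat_lit 80) (nat_lit 5) (nat_lit 472) (nat_lit 469) (nat_lit 259))))) (XT.nd (nat_lit 234) (nat_lit 304) (nat_lit 0) (XT.nd (nat_lit 78) (nat_lit 0) (nat_lit 76) (XT.lf (nat_lit 76) (nat_lit 491602877) (nat_lit 0) (nat_lit 49027792626) (nat_lit 608) (nat_lit 913493176142) (nat_lit 73) (nat_lit 5) (nat_lit 72) (nat_lit 5) (nat_lit 80) (nat_lit 5) (nat_lit 473) (nat_lit 469) (nat_lit 258)) (XT.nd (nat_lit 78) (nat_lit 0) (nat_lit 0) (XT.lf (nat_lit 0) (nat_lit 111857411376) (nat_lit 532) (nat_lit 475980661862) (nat_lit 608) (nat_lit 414773393047) (nat_lit 73) (nat_lit 5) (nat_lit 80) (nat_lit 5) (nat_lit 81) (nat_lit 5) (nat_lit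 474) (nat_lit 469) (nat_lit 257)) (XT.lf (nat_lit 76) (nat_lit 50748036856) (nat_lit 0) (nat_lit 130928365232) (nat_lit 608) (nat_lit 863502355725) (nat_lit 74) (nat_lit 5) (nat_lit 73) (nat_lit 5) (nat_lit 81) (nat_lit 5) (nat_lit 475) (nat_lit 469) (nat_lit 256)))) (XT.nd (nat_lit 78) (nat_lit 456) (nat_lit 0) (XT.lf (nat_lit 0) (nat_lit 279152044462) (nat_lit 532) (nat_lit 452482817425) (nat_lit 76) (nat_lit 357750880185) (nat_lit 74) (nat_lit 5) (nat_lit 81) (nat_lit 5) (nat_lit 75) (nat_lit 5) (nat_lit 476) (nat_lit 469) (nat_lit 255)) (XT.nd (nat_lit 78) (nat_lit 0) (nat_lit 0) (XT.lf (nat_lit 0) (nat_lit 136235212874) (nat_lit 456) (nat_lit 254867716066) (nat_lit 532) (nat_lit 745492180878) (nat_lit 68) (nat_lit 5) (nat_lit 74) (nat_lit 5) (nat_lit 75) (nat_lit 5) (nat_lit 477) (nat_lit 469) (nat_lit 254)) (XT.lf (nat_lit 0) (nat_lit 530956890328) (nat_lit 532) (nat_lit 395383044164)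 (nat_lit 76) (nat_lit 259725532001) (nat_lit 68) (nat_lit 5) (nat_lit 75) (nat_lit 5) (nat_lit 69) (nat_lit 5) (nat_lit 478) (nat_lit 469) (nat_lit 253))))))) (XT.nd (nat_lit 936) (nat_lit 1064) (nat_lit 0) (XT.nd (nat_lit 468) (nat_lit 532) (nat_lit 0) (XT.nd (nat_lit 234) (nat_lit 456) (nat_lit 0) (XT.nd (nat_lit 78) (nat_lit 228) (nat_lit 0) (XT.lf (nat_lit 0) (nat_lit 264608815033) (nat_lit 228) (nat_lit 430374137203) (nat_lit 304) (nat_lit 543471796778) (nat_lit 65) (nat_lit 5) (nat_lit 68) (nat_lit 5) (nat_lit 69) (nat_lit 5) (nat_lit 479) (nat_lit 469) (nat_lit 252)) (XT.nd (nat_lit 78) (nat_lit 228) (nat_lit 0) (XT.lf (nat_lit 0) (nat_lit 885754078692) (nat_lit 304) (nat_lit 297097046910) (nat_lit 76) (nat_lit 111094210171) (nat_lit 65) (nat_lit 5) (nat_lit 69) (nat_lit 5) (nat_lit 66) (nat_lit 5) (nat_lit 480) (nat_lit 469) (nat_lit 251)) (XT.lf (nat_lit 0) (nat_lit 444867258561)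 (nat_lit 228) (nat_lit 668797249197) (nat_lit 304) (nat_lit 238460452716) (nat_lit 62) (nat_lit 5) (nat_lit 65) (nat_lit 5) (nat_lit 66) (nat_lit 5) (nat_lit 481) (nat_lit 469) (nat_lit 250)))) (XT.nd (nat_lit 78) (nat_lit 456) (nat_lit 0) (XT.lf (nat_lit 0) (nat_lit 1263084875374) (nat_lit 228) (nat_lit 104846050973) (nat_lit 304) (nat_lit 46378176388) (nat_lit 62) (nat_lit 5) (nat_lit 65) (nat_lit 5) (nat_lit 66) (nat_lit 5) (nat_lit 482) (nat_lit 469) (nat_lit 249)) (XT.nd (nat_lit 78) (nat_lit 228) (nat_lit 0) (XT.lf (nat_lit 0) (nat_lit 182420112461) (nat_lit 228) (nat_lit 796233299601) (nat_lit 76) (nat_lit 500152116954) (nat_lit 59) (nat_lit 5) (nat_lit 62) (nat_lit 5) (nat_lit 60) (nat_lit 5) (nat_lit 483) (nat_lit 469) (nat_lit 248)) (XT.lf (nat_lit 0) (nat_lit 41586805424) (nat_lit 228) (nat_lit 393395400570) (nat_lit 304) (nat_lit 1112745847751) (nat_lit 56) (nat_lit 5) (nat_lit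 59) (nat_lit 5) (nat_lit 60) (nat_lit 5) (nat_lit 484) (nat_lit 469) (nat_lit 247))))) (XT.nd (nat_lit 234) (nat_lit 380) (nat_lit 0) (XT.nd (nat_lit 78) (nat_lit 152) (nat_lit 0) (XT.lf (nat_lit 0) (nat_lit 735825496104) (nat_lit 304) (nat_lit 635013543181) (nat_lit 76) (nat_lit 249079242841) (nat_lit 56) (nat_lit 5) (nat_lit 60) (nat_lit 5) (nat_lit 57) (nat_lit 5) (nat_lit 485) (nat_lit 469) (nat_lit 246)) (XT.nd (nat_lit 78) (nat_lit 0) (nat_lit 0) (XT.lf (nat_lit 0) (nat_lit 311151362174) (nat_lit 152) (nat_lit 767286143628) (nat_lit 228) (nat_lit 618030122466) (nat_lit 54) (nat_lit 5) (nat_lit 56) (nat_lit 5) (nat_lit 57) (nat_lit 5) (nat_lit 486) (nat_lit 469) (nat_lit 245)) (XT.lf (nat_lit 0) (nat_lit 1369123237810) (nat_lit 152) (nat_lit 96697630517) (nat_lit 228) (nat_lit 311931062411) (nat_lit 54) (nat_lit 5) (nat_lit 56) (nat_lit 5) (nat_lit 57) (nat_lit 5) (nat_lit 487) (nat_lit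 469) (nat_lit 244)))) (XT.nd (nat_lit 78) (nat_lit 152) (nat_lit 0) (XT.lf (nat_lit 0) (nat_lit 49599234005) (nat_lit 228) (nat_lit 1199974821038) (nat_lit 76) (nat_lit 613378903825) (nat_lit 51) (nat_lit 5) (nat_lit 54) (nat_lit 5) (nat_lit 52) (nat_lit 5) (nat_lit 488) (nat_lit 469) (nat_lit 243)) (XT.nd (nat_lit 78) (nat_lit 152) (nat_lit 0) (XT.lf (nat_lit 0) (nat_lit 437174029012) (nat_lit 228) (nat_lit 121427603207) (nat_lit 76) (nat_lit 1394602312240) (nat_lit 51) (nat_lit 5) (nat_lit 54) (nat_lit 5) (nat_lit 52) (nat_lit 5) (nat_lit 489) (nat_lit 469) (nat_lit 242)) (XT.lf (nat_lit 0) (nat_lit 887369144202) (nat_lit 228) (nat_lit 955413690279) (nat_lit 76) (nat_lit 205363027491) (nat_lit 49) (nat_lit 5) (nat_lit 52) (nat_lit 5) (nat_lit 50) (nat_lit 5) (nat_lit 490) (nat_lit 469) (nat_lit 241)))))) (XT.nd (nat_lit 468) (nat_lit 532) (nat_lit 0) (XT.nd (nat_lit 234) (nat_lit 228)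 (nat_lit 0) (XT.nd (nat_lit 78) (nat_lit 152) (nat_lit 0) (XT.lf (nat_lit 0) (nat_lit 258867102748) (nat_lit 152) (nat_lit 1138853937070) (nat_lit 228) (nat_lit 751030799371) (nat_lit 47) (nat_lit 5) (nat_lit 49) (nat_lit 5) (nat_lit 50) (nat_lit 5) (nat_lit 491) (nat_lit 469) (nat_lit 240)) (XT.nd (nat_lit 78) (nat_lit 152) (nat_lit 0) (XT.lf (nat_lit 0) (nat_lit 1624625577824) (nat_lit 152) (nat_lit 350398209844) (nat_lit 228) (nat_lit 280292690869) (nat_lit 47) (nat_lit 5) (nat_lit 49) (nat_lit 5) (nat_lit 50) (nat_lit 5) (nat_lit 492) (nat_lit 469) (nat_lit 239)) (XT.lf (nat_lit 0) (nat_lit 247687296616) (nat_lit 152) (nat_lit 1619308236857) (nat_lit 76) (nat_lit 500492398966) (nat_lit 45) (nat_lit 5) (nat_lit 47) (nat_lit 5) (nat_lit 46) (nat_lit 5) (nat_lit 493) (nat_lit 469) (nat_lit 238)))) (XT.nd (nat_lit 78) (nat_lit 228) (nat_lit 0) (XT.lf (nat_lit 0) (nat_lit 829555955408) (nat_lit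 152) (nat_lit 230855163864) (nat_lit 76) (nat_lit 1425496088375) (nat_lit 45) (nat_lit 5) (nat_lit 47) (nat_lit 5) (nat_lit 46) (nat_lit 5) (nat_lit 494) (nat_lit 469) (nat_lit 237)) (XT.nd (nat_lit 78) (nat_lit 76) (nat_lit 0) (XT.lf (nat_lit 0) (nat_lit 1335480283399) (nat_lit 152) (nat_lit 154612153988) (nat_lit 228) (nat_lit 1121138121047) (nat_lit 43) (nat_lit 5) (nat_lit 45) (nat_lit 5) (nat_lit 46) (nat_lit 5) (nat_lit 495) (nat_lit 469) (nat_lit 236)) (XT.lf (nat_lit 0) (nat_lit 288643006501) (nat_lit 76) (nat_lit 1948055457165) (nat_lit 152) (nat_lit 507223183559) (nat_lit 42) (nat_lit 5) (nat_lit 43) (nat_lit 5) (nat_lit 44) (nat_lit 4) (nat_lit 496) (nat_lit 469) (nat_lit 235))))) (XT.nd (nat_lit 234) (nat_lit 304) (nat_lit 0) (XT.nd (nat_lit 78) (nat_lit 152) (nat_lit 0) (XT.lf (nat_lit 0) (nat_lit 187814132534) (nat_lit 152) (nat_lit 842365746250) (nat_lit 76) (nat_lit 1853564121061)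 (nat_lit 41) (nat_lit 5) (nat_lit 43) (nat_lit 5) (nat_lit 42) (nat_lit 5) (nat_lit 497) (nat_lit 469) (nat_lit 234)) (XT.nd (nat_lit 78) (nat_lit 0) (nat_lit 0) (XT.lf (nat_lit 0) (nat_lit 933082093107) (nat_lit 152) (nat_lit 409758842) (nat_lit 228) (nat_lit 2098411066907) (nat_lit 39) (nat_lit 5) (nat_lit 41) (nat_lit 5) (nat_lit 42) (nat_lit 5) (nat_lit 498) (nat_lit 469) (nat_lit 233)) (XT.lf (nat_lit 0) (nat_lit 1789191208036) (nat_lit 228) (nat_lit 318935816456) (nat_lit 76) (nat_lit 1079758133367) (nat_lit 39) (nat_lit 5) (nat_lit 42) (nat_lit 5) (nat_lit 40) (nat_lit 4) (nat_lit 499) (nat_lit 469) (nat_lit 232)))) (XT.nd (nat_lit 78) (nat_lit 228) (nat_lit 0) (XT.lf (nat_lit 0) (nat_lit 1687757828977) (nat_lit 76) (nat_lit 1066189941088) (nat_lit 152) (nat_lit 599150105323) (nat_lit 38) (nat_lit 5) (nat_lit 39) (nat_lit 5) (nat_lit 40) (nat_lit 4) (nat_lit 500) (nat_lit 469) (nat_lit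 231)) (XT.nd (nat_lit 78) (nat_lit 0) (nat_lit 0) (XT.lf (nat_lit 0) (nat_lit 270618485957) (nat_lit 228) (nat_lit 3178274230763) (nat_lit 76) (nat_lit 80567432998) (nat_lit 35) (nat_lit 5) (nat_lit 38) (nat_lit 5) (nat_lit 36) (nat_lit 4) (nat_lit 501) (nat_lit 469) (nat_lit 230)) (XT.lf (nat_lit 0) (nat_lit 1252008172237) (nat_lit 228) (nat_lit 1136983686147) (nat_lit 76) (nat_lit 1323741818320) (nat_lit 35) (nat_lit 5) (nat_lit 38) (nat_lit 5) (nat_lit 36) (nat_lit 4) (nat_lit 502) (nat_lit 469) (nat_lit 229))))))))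
noncomputable def xc231 : XT := (XT.nd (nat_lit 60216) (nat_lit 0) (nat_lit 1748) (XT.nd (nat_lit 858) (nat_lit 456) (nat_lit 0) (XT.nd (nat_lit 390) (nat_lit 456) (nat_lit 0) (XT.nd (nat_lit 156) (nat_lit 228) (nat_lit 0) (XT.nd (nat_lit 78) (nat_lit 0) (nat_lit 0) (XT.lf (nat_lit 0) (nat_lit 1123828554512) (nat_lit 76) (nat_lit 1215108580848) (nat_lit 152) (nat_lit 1569569702336) (nat_lit 34) (nat_lit 5) (nat_lit 35) (nat_lit 5) (nat_lit 36) (nat_lit 4) (nat_lit 503) (nat_lit 469) (nat_lit 228)) (XT.lf (nat_lit 0) (nat_lit 3545982105179) (nat_lit 152) (nat_lit 489362381481) (nat_lit 0) (nat_lit 81944429735) (nat_lit 34) (nat_lit 5) (nat_lit 36) (nat_lit 4) (nat_lit 34) (nat_lit 4) (nat_lit 504) (nat_lit 469) (nat_lit 227))) (XT.nd (nat_lit 78) (nat_lit 76) (nat_lit 0) (XT.lf (nat_lit 0) (nat_lit 564702697944) (nat_lit 152) (nat_lit 2289456065812) (nat_lit 76) (nat_lit 1480980590036) (nat_lit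 32) (nat_lit 5) (nat_lit 34) (nat_lit 5) (nat_lit 33) (nat_lit 4) (nat_lit 505) (nat_lit 469) (nat_lit 226)) (XT.nd (nat_lit 78) (nat_lit 0) (nat_lit 0) (XT.lf (nat_lit 0) (nat_lit 238773397783) (nat_lit 76) (nat_lit 1541424235513) (nat_lit 152) (nat_lit 2787475456055) (nat_lit 31) (nat_lit 5) (nat_lit 32) (nat_lit 5) (nat_lit 33) (nat_lit 4) (nat_lit 506) (nat_lit 469) (nat_lit 225)) (XT.lf (nat_lit 0) (nat_lit 3099464610508) (nat_lit 76) (nat_lit 56065337461) (nat_lit 152) (nat_lit 1658271753027) (nat_lit 31) (nat_lit 5) (nat_lit 32) (nat_lit 5) (nat_lit 33) (nat_lit 4) (nat_lit 507) (nat_lit 469) (nat_lit 224))))) (XT.nd (nat_lit 234) (nat_lit 228) (nat_lit 0) (XT.nd (nat_lit 78) (nat_lit 152) (nat_lit 0) (XT.lf (nat_lit 0) (nat_lit 1128616085391) (nat_lit 76) (nat_lit 3576648382781) (nat_lit 76) (nat_lit 369206083772) (nat_lit 30) (nat_lit 4) (nat_lit 31) (nat_lit 5) (nat_lit 31) (nat_lit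 4) (nat_lit 508) (nat_lit 469) (nat_lit 223)) (XT.nd (nat_lit 78) (nat_lit 76) (nat_lit 0) (XT.lf (nat_lit 0) (nat_lit 1021357730281) (nat_lit 152) (nat_lit 1083018221448) (nat_lit 76) (nat_lit 3245684995559) (nat_lit 29) (nat_lit 5) (nat_lit 31) (nat_lit 5) (nat_lit 30) (nat_lit 4) (nat_lit 509) (nat_lit 469) (nat_lit 222)) (XT.lf (nat_lit 0) (nat_lit 2104532385479) (nat_lit 76) (nat_lit 449301598766) (nat_lit 152) (nat_lit 3089048284296) (nat_lit 28) (nat_lit 5) (nat_lit 29) (nat_lit 5) (nat_lit 30) (nat_lit 4) (nat_lit 510) (nat_lit 469) (nat_lit 221)))) (XT.nd (nat_lit 78) (nat_lit 228) (nat_lit 0) (XT.lf (nat_lit 0) (nat_lit 4271472337995) (nat_lit 152) (nat_lit 381033483779) (nat_lit 0) (nat_lit 1301618353761) (nat_lit 28) (nat_lit 5) (nat_lit 30) (nat_lit 4) (nat_lit 28) (nat_lit 4) (nat_lit 511) (nat_lit 469) (nat_lit 220)) (XT.nd (nat_lit 78) (nat_lit 152) (nat_lit 0) (XT.lf (nat_lit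 0) (nat_lit 3176078356101) (nat_lit 76) (nat_lit 3038498334898) (nat_lit 76) (nat_lit 68644349616) (nat_lit 27) (nat_lit 4) (nat_lit 28) (nat_lit 5) (nat_lit 28) (nat_lit 4) (nat_lit 512) (nat_lit 469) (nat_lit 219)) (XT.lf (nat_lit 0) (nat_lit 380088225511) (nat_lit 76) (nat_lit 1230460914758) (nat_lit 152) (nat_lit 5023288415805) (nat_lit 25) (nat_lit 5) (nat_lit 26) (nat_lit 5) (nat_lit 27) (nat_lit 4) (nat_lit 513) (nat_lit 469) (nat_lit 218)))))) (XT.nd (nat_lit 468) (nat_lit 152) (nat_lit 0) (XT.nd (nat_lit 234) (nat_lit 152) (nat_lit 0) (XT.nd (nat_lit 78) (nat_lit 152) (nat_lit 0) (XT.lf (nat_lit 0) (nat_lit 3524900331713) (nat_lit 152) (nat_lit 2704062430632) (nat_lit 0) (nat_lit 775035528799) (nat_lit 25) (nat_lit 5) (nat_lit 27) (nat_lit 4) (nat_lit 25) (nat_lit 4) (nat_lit 514) (nat_lit 469) (nat_lit 217)) (XT.nd (nat_lit 78) (nat_lit 76) (nat_lit 0) (XT.lf (nat_lit 0) (nat_lit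 1155439140563) (nat_lit 76) (nat_lit 4496708839602) (nat_lit 76) (nat_lit 1746844035918) (nat_lit 24) (nat_lit 4) (nat_lit 25) (nat_lit 5) (nat_lit 25) (nat_lit 4) (nat_lit 515) (nat_lit 469) (nat_lit 216)) (XT.lf (nat_lit 0) (nat_lit 193641927084) (nat_lit 152) (nat_lit 2347089596060) (nat_lit 76) (nat_lit 5278546821076) (nat_lit 23) (nat_lit 5) (nat_lit 25) (nat_lit 5) (nat_lit 24) (nat_lit 4) (nat_lit 516) (nat_lit 469) (nat_lit 215)))) (XT.nd (nat_lit 78) (nat_lit 76) (nat_lit 0) (XT.lf (nat_lit 0) (nat_lit 1911330672395) (nat_lit 76) (nat_lit 329628691763) (nat_lit 152) (nat_lit 6024921004856) (nat_lit 22) (nat_lit 5) (nat_lit 23) (nat_lit 5) (nat_lit 24) (nat_lit 4) (nat_lit 517) (nat_lit 469) (nat_lit 214)) (XT.nd (nat_lit 78) (nat_lit 76) (nat_lit 0) (XT.lf (nat_lit 0) (nat_lit 4567406294941) (nat_lit 152) (nat_lit 2150341554370) (nat_lit 0) (nat_lit 2021235178583) (nat_lit 22)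 (nat_lit 5) (nat_lit 24) (nat_lit 4) (nat_lit 22) (nat_lit 4) (nat_lit 518) (nat_lit 469) (nat_lit 213)) (XT.lf (nat_lit 0) (nat_lit 2507054471331) (nat_lit 76) (nat_lit 4641771012377) (nat_lit 76) (nat_lit 2095599895495) (nat_lit 21) (nat_lit 4) (nat_lit 22) (nat_lit 5) (nat_lit 22) (nat_lit 4) (nat_lit 519) (nat_lit 469) (nat_lit 212))))) (XT.nd (nat_lit 58656) (nat_lit 0) (nat_lit 4028) (XT.nd (nat_lit 78) (nat_lit 76) (nat_lit 0) (XT.lf (nat_lit 0) (nat_lit 199450080834) (nat_lit 152) (nat_lit 2131314949232) (nat_lit 76) (nat_lit 7454430607191) (nat_lit 20) (nat_lit 5) (nat_lit 22) (nat_lit 5) (nat_lit 21) (nat_lit 4) (nat_lit 520) (nat_lit 469) (nat_lit 211)) (XT.nd (nat_lit 58500) (nat_lit 0) (nat_lit 4484) (XT.lf (nat_lit 0) (nat_lit 2642708415751) (nat_lit 152) (nat_lit 7430796346113) (nat_lit 0) (nat_lit 285142565921) (nat_lit 19) (nat_lit 5) (nat_lit 21) (nat_lit 4) (nat_lit 19)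 (nat_lit 4) (nat_lit 521) (nat_lit 469) (nat_lit 210)) (XT.lf (nat_lit 0) (nat_lit 422608210473) (nat_lit 532) (nat_lit 10699402090) (nat_lit 532) (nat_lit 10699402090) (nat_lit 78) (nat_lit 3) (nat_lit 85) (nat_lit 3) (nat_lit 85) (nat_lit 5) (nat_lit 470) (nat_lit 470) (nat_lit 260)))) (XT.nd (nat_lit 78) (nat_lit 456) (nat_lit 0) (XT.lf (nat_lit 76) (nat_lit 439259354330) (nat_lit 0) (nat_lit 450329999610) (nat_lit 532) (nat_lit 33100094416) (nat_lit 79) (nat_lit 5) (nat_lit 78) (nat_lit 3) (nat_lit 85) (nat_lit 5) (nat_lit 471) (nat_lit 470) (nat_lit 259)) (XT.nd (nat_lit 78) (nat_lit 456) (nat_lit 0) (XT.lf (nat_lit 76) (nat_lit 937987130032) (nat_lit 0) (nat_lit 110064847) (nat_lit 532) (nat_lit 21994900187) (nat_lit 79) (nat_lit 5) (nat_lit 78) (nat_lit 3) (nat_lit 85) (nat_lit 5) (nat_lit 472) (nat_lit 470) (nat_lit 258)) (XT.lf (nat_lit 0) (nat_lit 14557297892) (nat_lit 532) (nat_lit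 510088450294) (nat_lit 608) (nat_lit 473935785173) (nat_lit 72) (nat_lit 5) (nat_lit 79) (nat_lit 5) (nat_lit 80) (nat_lit 5) (nat_lit 473) (nat_lit 470) (nat_lit 257))))))) (XT.nd (nat_lit 936) (nat_lit 1064) (nat_lit 0) (XT.nd (nat_lit 468) (nat_lit 912) (nat_lit 0) (XT.nd (nat_lit 234) (nat_lit 304) (nat_lit 0) (XT.nd (nat_lit 78) (nat_lit 0) (nat_lit 76) (XT.lf (nat_lit 76) (nat_lit 531034474) (nat_lit 0) (nat_lit 52950051975) (nat_lit 608) (nat_lit 986572479736) (nat_lit 73) (nat_lit 5) (nat_lit 72) (nat_lit 5) (nat_lit 80) (nat_lit 5) (nat_lit 474) (nat_lit 470) (nat_lit 256)) (XT.nd (nat_lit 78) (nat_lit 0) (nat_lit 0) (XT.lf (nat_lit 0) (nat_lit 120806132472) (nat_lit 532) (nat_lit 514059007937) (nat_lit 608) (nat_lit 447955232879) (nat_lit 73) (nat_lit 5) (nat_lit 80) (nat_lit 5) (nat_lit 81) (nat_lit 5) (nat_lit 475) (nat_lit 470) (nat_lit 255)) (XT.lf (nat_lit 76) (nat_lit 54807983973)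 (nat_lit 0) (nat_lit 141402651478) (nat_lit 608) (nat_lit 932582413250) (nat_lit 74) (nat_lit 5) (nat_lit 73) (nat_lit 5) (nat_lit 81) (nat_lit 5) (nat_lit 476) (nat_lit 470) (nat_lit 254)))) (XT.nd (nat_lit 78) (nat_lit 456) (nat_lit 0) (XT.lf (nat_lit 0) (nat_lit 301484319858) (nat_lit 532) (nat_lit 488681336972) (nat_lit 76) (nat_lit 386370935622) (nat_lit 74) (nat_lit 5) (nat_lit 81) (nat_lit 5) (nat_lit 75) (nat_lit 5) (nat_lit 477) (nat_lit 470) (nat_lit 253)) (XT.nd (nat_lit 78) (nat_lit 0) (nat_lit 0) (XT.lf (nat_lit 0) (nat_lit 147134133071) (nat_lit 456) (nat_lit 275257136220) (nat_lit 532) (nat_lit 805131440794) (nat_lit 68) (nat_lit 5) (nat_lit 74) (nat_lit 5) (nat_lit 75) (nat_lit 5) (nat_lit 478) (nat_lit 470) (nat_lit 252)) (XT.lf (nat_lit 0) (nat_lit 573433539671) (nat_lit 532) (nat_lit 427013584220) (nat_lit 76) (nat_lit 280503572038) (nat_lit 68) (nat_lit 5) (nat_lit 75)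 (nat_lit 5) (nat_lit 69) (nat_lit 5) (nat_lit 479) (nat_lit 470) (nat_lit 251))))) (XT.nd (nat_lit 234) (nat_lit 456) (nat_lit 0) (XT.nd (nat_lit 78) (nat_lit 228) (nat_lit 0) (XT.lf (nat_lit 0) (nat_lit 285777621093) (nat_lit 228) (nat_lit 464804060597) (nat_lit 304) (nat_lit 586949439753) (nat_lit 65) (nat_lit 5) (nat_lit 68) (nat_lit 5) (nat_lit 69) (nat_lit 5) (nat_lit 480) (nat_lit 470) (nat_lit 250)) (XT.nd (nat_lit 78) (nat_lit 228) (nat_lit 0) (XT.lf (nat_lit 0) (nat_lit 956614491522) (nat_lit 304) (nat_lit 320864710508) (nat_lit 76) (nat_lit 119981753654) (nat_lit 65) (nat_lit 5) (nat_lit 69) (nat_lit 5) (nat_lit 66) (nat_lit 5) (nat_lit 481) (nat_lit 470) (nat_lit 249)) (XT.lf (nat_lit 0) (nat_lit 480456736865) (nat_lit 228) (nat_lit 722301013986) (nat_lit 304) (nat_lit 257537199836) (nat_lit 62) (nat_lit 5) (nat_lit 65) (nat_lit 5) (nat_lit 66) (nat_lit 5) (nat_lit 482) (nat_lit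 470) (nat_lit 248)))) (XT.nd (nat_lit 78) (nat_lit 456) (nat_lit 0) (XT.lf (nat_lit 0) (nat_lit 1364131755793) (nat_lit 228) (nat_lit 113233721026) (nat_lit 304) (nat_lit 50088348002) (nat_lit 62) (nat_lit 5) (nat_lit 65) (nat_lit 5) (nat_lit 66) (nat_lit 5) (nat_lit 483) (nat_lit 470) (nat_lit 247)) (XT.nd (nat_lit 78) (nat_lit 228) (nat_lit 0) (XT.lf (nat_lit 0) (nat_lit 197013796656) (nat_lit 228) (nat_lit 859931865839) (nat_lit 76) (nat_lit 540164302805) (nat_lit 59) (nat_lit 5) (nat_lit 62) (nat_lit 5) (nat_lit 60) (nat_lit 5) (nat_lit 484) (nat_lit 470) (nat_lit 246)) (XT.lf (nat_lit 0) (nat_lit 44913845114) (nat_lit 228) (nat_lit 424867009279) (nat_lit 304) (nat_lit 1201765437879) (nat_lit 56) (nat_lit 5) (nat_lit 59) (nat_lit 5) (nat_lit 60) (nat_lit 5) (nat_lit 485) (nat_lit 470) (nat_lit 245)))))) (XT.nd (nat_lit 468) (nat_lit 532) (nat_lit 0) (XT.nd (nat_lit 234) (nat_lit 380)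 (nat_lit 0) (XT.nd (nat_lit 78) (nat_lit 152) (nat_lit 0) (XT.lf (nat_lit 0) (nat_lit 794691602904) (nat_lit 304) (nat_lit 685814533610) (nat_lit 76) (nat_lit 269005602796) (nat_lit 56) (nat_lit 5) (nat_lit 60) (nat_lit 5) (nat_lit 57) (nat_lit 5) (nat_lit 486) (nat_lit 470) (nat_lit 244)) (XT.nd (nat_lit 78) (nat_lit 0) (nat_lit 0) (XT.lf (nat_lit 0) (nat_lit 336043561818) (nat_lit 152) (nat_lit 828669008769) (nat_lit 228) (nat_lit 667472462780) (nat_lit 54) (nat_lit 5) (nat_lit 56) (nat_lit 5) (nat_lit 57) (nat_lit 5) (nat_lit 487) (nat_lit 470) (nat_lit 243)) (XT.lf (nat_lit 0) (nat_lit 1478653180789) (nat_lit 152) (nat_lit 104433416561) (nat_lit 228) (nat_lit 336885483068) (nat_lit 54) (nat_lit 5) (nat_lit 56) (nat_lit 5) (nat_lit 57) (nat_lit 5) (nat_lit 488) (nat_lit 470) (nat_lit 242)))) (XT.nd (nat_lit 78) (nat_lit 152) (nat_lit 0) (XT.lf (nat_lit 0) (nat_lit 53567231993) (nat_lit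 228) (nat_lit 1295972717672) (nat_lit 76) (nat_lit 662449241158) (nat_lit 51) (nat_lit 5) (nat_lit 54) (nat_lit 5) (nat_lit 52) (nat_lit 5) (nat_lit 489) (nat_lit 470) (nat_lit 241)) (XT.nd (nat_lit 78) (nat_lit 152) (nat_lit 0) (XT.lf (nat_lit 0) (nat_lit 472148006211) (nat_lit 228) (nat_lit 131141729011) (nat_lit 76) (nat_lit 1506170520392) (nat_lit 51) (nat_lit 5) (nat_lit 54) (nat_lit 5) (nat_lit 52) (nat_lit 5) (nat_lit 490) (nat_lit 470) (nat_lit 240)) (XT.lf (nat_lit 0) (nat_lit 958358729148) (nat_lit 228) (nat_lit 1031846701568) (nat_lit 76) (nat_lit 221792095930) (nat_lit 49) (nat_lit 5) (nat_lit 52) (nat_lit 5) (nat_lit 50) (nat_lit 5) (nat_lit 491) (nat_lit 470) (nat_lit 239))))) (XT.nd (nat_lit 234) (nat_lit 228) (nat_lit 0) (XT.nd (nat_lit 78) (nat_lit 152) (nat_lit 0) (XT.lf (nat_lit 0) (nat_lit 279576552776) (nat_lit 152) (nat_lit 1229962221649) (nat_lit 228) (nat_lit 811113207775)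 (nat_lit 47) (nat_lit 5) (nat_lit 49) (nat_lit 5) (nat_lit 50) (nat_lit 5) (nat_lit 492) (nat_lit 470) (nat_lit 238)) (XT.nd (nat_lit 78) (nat_lit 152) (nat_lit 0) (XT.lf (nat_lit 0) (nat_lit 1754595699798) (nat_lit 152) (nat_lit 378430038495) (nat_lit 228) (nat_lit 302716054708) (nat_lit 47) (nat_lit 5) (nat_lit 49) (nat_lit 5) (nat_lit 50) (nat_lit 5) (nat_lit 493) (nat_lit 470) (nat_lit 237)) (XT.lf (nat_lit 0) (nat_lit 267502328124) (nat_lit 152) (nat_lit 1748852816389) (nat_lit 76) (nat_lit 540531818691) (nat_lit 45) (nat_lit 5) (nat_lit 47) (nat_lit 5) (nat_lit 46) (nat_lit 5) (nat_lit 494) (nat_lit 470) (nat_lit 236)))) (XT.nd (nat_lit 78) (nat_lit 228) (nat_lit 0) (XT.lf (nat_lit 0) (nat_lit 895920476080) (nat_lit 152) (nat_lit 249323503439) (nat_lit 76) (nat_lit 1539535801193) (nat_lit 45) (nat_lit 5) (nat_lit 47) (nat_lit 5) (nat_lit 46) (nat_lit 5) (nat_lit 495) (nat_lit 470)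 (nat_lit 235)) (XT.nd (nat_lit 78) (nat_lit 76) (nat_lit 0) (XT.lf (nat_lit 0) (nat_lit 1442318777743) (nat_lit 152) (nat_lit 166981097321) (nat_lit 228) (nat_lit 1210829124622) (nat_lit 43) (nat_lit 5) (nat_lit 45) (nat_lit 5) (nat_lit 46) (nat_lit 5) (nat_lit 496) (nat_lit 470) (nat_lit 234)) (XT.lf (nat_lit 0) (nat_lit 311734519535) (nat_lit 76) (nat_lit 2103899863138) (nat_lit 152) (nat_lit 547800992970) (nat_lit 42) (nat_lit 5) (nat_lit 43) (nat_lit 5) (nat_lit 44) (nat_lit 4) (nat_lit 497) (nat_lit 470) (nat_lit 233))))))))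
noncomputable def xc232 : XT := (XT.nd (nat_lit 1794) (nat_lit 76) (nat_lit 0) (XT.nd (nat_lit 858) (nat_lit 760) (nat_lit 0) (XT.nd (nat_lit 390) (nat_lit 304) (nat_lit 0) (XT.nd (nat_lit 156) (nat_lit 304) (nat_lit 0) (XT.nd (nat_lit 78) (nat_lit 152) (nat_lit 0) (XT.lf (nat_lit 0) (nat_lit 202839302959) (nat_lit 152) (nat_lit 909754936704) (nat_lit 76) (nat_lit 2001849276977) (nat_lit 41) (nat_lit 5) (nat_lit 43) (nat_lit 5) (nat_lit 42) (nat_lit 5) (nat_lit 498) (nat_lit 470) (nat_lit 232)) (XT.lf (nat_lit 0) (nat_lit 1007728728047) (nat_lit 152) (nat_lit 442510554) (nat_lit 228) (nat_lit 2266283910678) (nat_lit 39) (nat_lit 5) (nat_lit 41) (nat_lit 5) (nat_lit 42) (nat_lit 5) (nat_lit 499) (nat_lit 470) (nat_lit 231))) (XT.nd (nat_lit 78) (nat_lit 304) (nat_lit 0) (XT.lf (nat_lit 0) (nat_lit 1932326540969) (nat_lit 228) (nat_lit 344450617069) (nat_lit 76) (nat_lit 1166138809542) (nat_lit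 39) (nat_lit 5) (nat_lit 42) (nat_lit 5) (nat_lit 40) (nat_lit 4) (nat_lit 500) (nat_lit 470) (nat_lit 230)) (XT.nd (nat_lit 78) (nat_lit 228) (nat_lit 0) (XT.lf (nat_lit 0) (nat_lit 1822778518360) (nat_lit 76) (nat_lit 1151485108428) (nat_lit 152) (nat_lit 647082075816) (nat_lit 38) (nat_lit 5) (nat_lit 39) (nat_lit 5) (nat_lit 40) (nat_lit 4) (nat_lit 501) (nat_lit 470) (nat_lit 229)) (XT.lf (nat_lit 0) (nat_lit 292268000407) (nat_lit 228) (nat_lit 3432536103790) (nat_lit 76) (nat_lit 87012854649) (nat_lit 35) (nat_lit 5) (nat_lit 38) (nat_lit 5) (nat_lit 36) (nat_lit 4) (nat_lit 502) (nat_lit 470) (nat_lit 228))))) (XT.nd (nat_lit 234) (nat_lit 228) (nat_lit 0) (XT.nd (nat_lit 78) (nat_lit 76) (nat_lit 0) (XT.lf (nat_lit 0) (nat_lit 1352168858954) (nat_lit 228) (nat_lit 1227942320452) (nat_lit 76) (nat_lit 1429641188796) (nat_lit 35) (nat_lit 5) (nat_lit 38) (nat_lit 5) (nat_lit 36)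 (nat_lit 4) (nat_lit 503) (nat_lit 470) (nat_lit 227)) (XT.nd (nat_lit 78) (nat_lit 0) (nat_lit 0) (XT.lf (nat_lit 0) (nat_lit 1213734897926) (nat_lit 76) (nat_lit 1312317240181) (nat_lit 152) (nat_lit 1695135244048) (nat_lit 34) (nat_lit 5) (nat_lit 35) (nat_lit 5) (nat_lit 36) (nat_lit 4) (nat_lit 504) (nat_lit 470) (nat_lit 226)) (XT.lf (nat_lit 0) (nat_lit 3829660703752) (nat_lit 152) (nat_lit 528511315558) (nat_lit 0) (nat_lit 88500007982) (nat_lit 34) (nat_lit 5) (nat_lit 36) (nat_lit 4) (nat_lit 34) (nat_lit 4) (nat_lit 505) (nat_lit 470) (nat_lit 225)))) (XT.nd (nat_lit 78) (nat_lit 76) (nat_lit 0) (XT.lf (nat_lit 0) (nat_lit 609878943789) (nat_lit 152) (nat_lit 2472612494481) (nat_lit 76) (nat_lit 1599459061421) (nat_lit 32) (nat_lit 5) (nat_lit 34) (nat_lit 5) (nat_lit 33) (nat_lit 4) (nat_lit 506) (nat_lit 470) (nat_lit 224)) (XT.nd (nat_lit 78) (nat_lit 0) (nat_lit 0) (XT.lf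 (nat_lit 0) (nat_lit 257875324769) (nat_lit 76) (nat_lit 1664738148305) (nat_lit 152) (nat_lit 3010473461094) (nat_lit 31) (nat_lit 5) (nat_lit 32) (nat_lit 5) (nat_lit 33) (nat_lit 4) (nat_lit 507) (nat_lit 470) (nat_lit 223)) (XT.lf (nat_lit 0) (nat_lit 3347421830425) (nat_lit 76) (nat_lit 60550540338) (nat_lit 152) (nat_lit 1790933464154) (nat_lit 31) (nat_lit 5) (nat_lit 32) (nat_lit 5) (nat_lit 33) (nat_lit 4) (nat_lit 508) (nat_lit 470) (nat_lit 222)))))) (XT.nd (nat_lit 468) (nat_lit 304) (nat_lit 0) (XT.nd (nat_lit 234) (nat_lit 228) (nat_lit 0) (XT.nd (nat_lit 78) (nat_lit 152) (nat_lit 0) (XT.lf (nat_lit 0) (nat_lit 1218905423545) (nat_lit 76) (nat_lit 3862780228813) (nat_lit 76) (nat_lit 398742541602) (nat_lit 30) (nat_lit 4) (nat_lit 31) (nat_lit 5) (nat_lit 31) (nat_lit 4) (nat_lit 509) (nat_lit 470) (nat_lit 221)) (XT.nd (nat_lit 78) (nat_lit 76) (nat_lit 0) (XT.lf (nat_lit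 0) (nat_lit 1103066374099) (nat_lit 152) (nat_lit 1169659630304) (nat_lit 76) (nat_lit 3505339816634) (nat_lit 29) (nat_lit 5) (nat_lit 31) (nat_lit 5) (nat_lit 30) (nat_lit 4) (nat_lit 510) (nat_lit 470) (nat_lit 220)) (XT.lf (nat_lit 0) (nat_lit 2272895023940) (nat_lit 76) (nat_lit 485245703705) (nat_lit 152) (nat_lit 3336172120405) (nat_lit 28) (nat_lit 5) (nat_lit 29) (nat_lit 5) (nat_lit 30) (nat_lit 4) (nat_lit 511) (nat_lit 470) (nat_lit 219)))) (XT.nd (nat_lit 78) (nat_lit 228) (nat_lit 0) (XT.lf (nat_lit 0) (nat_lit 4613190148380) (nat_lit 152) (nat_lit 411516117070) (nat_lit 0) (nat_lit 1405747842260) (nat_lit 28) (nat_lit 5) (nat_lit 30) (nat_lit 4) (nat_lit 28) (nat_lit 4) (nat_lit 512) (nat_lit 470) (nat_lit 218)) (XT.nd (nat_lit 78) (nat_lit 152) (nat_lit 0) (XT.lf (nat_lit 0) (nat_lit 3430164668851) (nat_lit 76) (nat_lit 3281578180107) (nat_lit 76) (nat_lit 74135873090) (nat_lit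 27) (nat_lit 4) (nat_lit 28) (nat_lit 5) (nat_lit 28) (nat_lit 4) (nat_lit 513) (nat_lit 470) (nat_lit 217)) (XT.lf (nat_lit 0) (nat_lit 410495327889) (nat_lit 76) (nat_lit 1328897766215) (nat_lit 152) (nat_lit 5425151464646) (nat_lit 25) (nat_lit 5) (nat_lit 26) (nat_lit 5) (nat_lit 27) (nat_lit 4) (nat_lit 514) (nat_lit 470) (nat_lit 216))))) (XT.nd (nat_lit 234) (nat_lit 152) (nat_lit 0) (XT.nd (nat_lit 78) (nat_lit 152) (nat_lit 0) (XT.lf (nat_lit 0) (nat_lit 3806892379672) (nat_lit 152) (nat_lit 2920387382837) (nat_lit 0) (nat_lit 837038390211) (nat_lit 25) (nat_lit 5) (nat_lit 27) (nat_lit 4) (nat_lit 25) (nat_lit 4) (nat_lit 515) (nat_lit 470) (nat_lit 215)) (XT.nd (nat_lit 78) (nat_lit 76) (nat_lit 0) (XT.lf (nat_lit 0) (nat_lit 1247874312984) (nat_lit 76) (nat_lit 4856445526420) (nat_lit 76) (nat_lit 1886591536299) (nat_lit 24) (nat_lit 4) (nat_lit 25) (nat_lit 5) (nat_lit 25)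 (nat_lit 4) (nat_lit 516) (nat_lit 470) (nat_lit 214)) (XT.lf (nat_lit 0) (nat_lit 209133301036) (nat_lit 152) (nat_lit 2534856724576) (nat_lit 76) (nat_lit 5700830584562) (nat_lit 23) (nat_lit 5) (nat_lit 25) (nat_lit 5) (nat_lit 24) (nat_lit 4) (nat_lit 517) (nat_lit 470) (nat_lit 213)))) (XT.nd (nat_lit 78) (nat_lit 76) (nat_lit 0) (XT.lf (nat_lit 0) (nat_lit 2064237164364) (nat_lit 76) (nat_lit 355998968164) (nat_lit 152) (nat_lit 6506914664468) (nat_lit 22) (nat_lit 5) (nat_lit 23) (nat_lit 5) (nat_lit 24) (nat_lit 4) (nat_lit 518) (nat_lit 470) (nat_lit 212)) (XT.nd (nat_lit 78) (nat_lit 76) (nat_lit 0) (XT.lf (nat_lit 0) (nat_lit 4932798816770) (nat_lit 152) (nat_lit 2322368842367) (nat_lit 0) (nat_lit 2182934009529) (nat_lit 22) (nat_lit 5) (nat_lit 24) (nat_lit 4) (nat_lit 22) (nat_lit 4) (nat_lit 519) (nat_lit 470) (nat_lit 211)) (XT.lf (nat_lit 0) (nat_lit 2707618864470) (nat_lit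 76) (nat_lit 5013112675670) (nat_lit 76) (nat_lit 2263247867979) (nat_lit 21) (nat_lit 4) (nat_lit 22) (nat_lit 5) (nat_lit 22) (nat_lit 4) (nat_lit 520) (nat_lit 470) (nat_lit 210))))))) (XT.nd (nat_lit 59358) (nat_lit 0) (nat_lit 2204) (XT.nd (nat_lit 58890) (nat_lit 0) (nat_lit 3648) (XT.nd (nat_lit 58656) (nat_lit 0) (nat_lit 3952) (XT.nd (nat_lit 58578) (nat_lit 0) (nat_lit 4408) (XT.lf (nat_lit 0) (nat_lit 215406104149) (nat_lit 152) (nat_lit 2301820111475) (nat_lit 76) (nat_lit 8050785071265) (nat_lit 20) (nat_lit 5) (nat_lit 22) (nat_lit 5) (nat_lit 21) (nat_lit 4) (nat_lit 521) (nat_lit 470) (nat_lit 209)) (XT.lf (nat_lit 0) (nat_lit 456416943553) (nat_lit 532) (nat_lit 11555313071) (nat_lit 532) (nat_lit 11555313071) (nat_lit 78) (nat_lit 3) (nat_lit 85) (nat_lit 3) (nat_lit 85) (nat_lit 5) (nat_lit 471) (nat_lit 471) (nat_lit 258))) (XT.nd (nat_lit 78) (nat_lit 456) (nat_lit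 0) (XT.lf (nat_lit 76) (nat_lit 474400182963) (nat_lit 0) (nat_lit 486356462412) (nat_lit 532) (nat_lit 35747947343) (nat_lit 79) (nat_lit 5) (nat_lit 78) (nat_lit 3) (nat_lit 85) (nat_lit 5) (nat_lit 472) (nat_lit 471) (nat_lit 257)) (XT.nd (nat_lit 78) (nat_lit 456) (nat_lit 0) (XT.lf (nat_lit 76) (nat_lit 1013026174774) (nat_lit 0) (nat_lit 118928214) (nat_lit 532) (nat_lit 23754349030) (nat_lit 79) (nat_lit 5) (nat_lit 78) (nat_lit 3) (nat_lit 85) (nat_lit 5) (nat_lit 473) (nat_lit 471) (nat_lit 256)) (XT.lf (nat_lit 0) (nat_lit 15722008407) (nat_lit 532) (nat_lit 550895435396) (nat_lit 608) (nat_lit 511850602045) (nat_lit 72) (nat_lit 5) (nat_lit 79) (nat_lit 5) (nat_lit 80) (nat_lit 5) (nat_lit 474) (nat_lit 471) (nat_lit 255))))) (XT.nd (nat_lit 234) (nat_lit 304) (nat_lit 0) (XT.nd (nat_lit 78) (nat_lit 0) (nat_lit 76) (XT.lf (nat_lit 76) (nat_lit 573605851) (nat_lit 0) (nat_lit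 57186086945) (nat_lit 608) (nat_lit 1065498149087) (nat_lit 73) (nat_lit 5) (nat_lit 72) (nat_lit 5) (nat_lit 80) (nat_lit 5) (nat_lit 475) (nat_lit 471) (nat_lit 254)) (XT.nd (nat_lit 78) (nat_lit 0) (nat_lit 0) (XT.lf (nat_lit 0) (nat_lit 130470732968) (nat_lit 532) (nat_lit 555183636945) (nat_lit 608) (nat_lit 483791624407) (nat_lit 73) (nat_lit 5) (nat_lit 80) (nat_lit 5) (nat_lit 81) (nat_lit 5) (nat_lit 476) (nat_lit 471) (nat_lit 253)) (XT.lf (nat_lit 76) (nat_lit 59192711998) (nat_lit 0) (nat_lit 152714878195) (nat_lit 608) (nat_lit 1007188894056) (nat_lit 74) (nat_lit 5) (nat_lit 73) (nat_lit 5) (nat_lit 81) (nat_lit 5) (nat_lit 477) (nat_lit 471) (nat_lit 252)))) (XT.nd (nat_lit 78) (nat_lit 456) (nat_lit 0) (XT.lf (nat_lit 0) (nat_lit 325603161331) (nat_lit 532) (nat_lit 527775753183) (nat_lit 76) (nat_lit 417280597631) (nat_lit 74) (nat_lit 5) (nat_lit 81) (nat_lit 5) (nat_lit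 75) (nat_lit 5) (nat_lit 478) (nat_lit 471) (nat_lit 251)) (XT.nd (nat_lit 78) (nat_lit 0) (nat_lit 0) (XT.lf (nat_lit 0) (nat_lit 158904952166) (nat_lit 456) (nat_lit 297277709577) (nat_lit 532) (nat_lit 869541857845) (nat_lit 68) (nat_lit 5) (nat_lit 74) (nat_lit 5) (nat_lit 75) (nat_lit 5) (nat_lit 479) (nat_lit 471) (nat_lit 250)) (XT.lf (nat_lit 0) (nat_lit 619308306965) (nat_lit 532) (nat_lit 461174582243) (nat_lit 76) (nat_lit 302943855638) (nat_lit 68) (nat_lit 5) (nat_lit 75) (nat_lit 5) (nat_lit 69) (nat_lit 5) (nat_lit 480) (nat_lit 471) (nat_lit 249)))))) (XT.nd (nat_lit 468) (nat_lit 532) (nat_lit 0) (XT.nd (nat_lit 234) (nat_lit 456) (nat_lit 0) (XT.nd (nat_lit 78) (nat_lit 228) (nat_lit 0) (XT.lf (nat_lit 0) (nat_lit 308639917250) (nat_lit 228) (nat_lit 501988378945) (nat_lit 304) (nat_lit 633905308541) (nat_lit 65) (nat_lit 5) (nat_lit 68) (nat_lit 5) (nat_lit 69) (nat_lit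 5) (nat_lit 481) (nat_lit 471) (nat_lit 248)) (XT.nd (nat_lit 78) (nat_lit 228) (nat_lit 0) (XT.lf (nat_lit 0) (nat_lit 1033143725033) (nat_lit 304) (nat_lit 346533801481) (nat_lit 76) (nat_lit 129580299664) (nat_lit 65) (nat_lit 5) (nat_lit 69) (nat_lit 5) (nat_lit 66) (nat_lit 5) (nat_lit 482) (nat_lit 471) (nat_lit 247)) (XT.lf (nat_lit 0) (nat_lit 518893359507) (nat_lit 228) (nat_lit 780085082118) (nat_lit 304) (nat_lit 278140099437) (nat_lit 62) (nat_lit 5) (nat_lit 65) (nat_lit 5) (nat_lit 66) (nat_lit 5) (nat_lit 483) (nat_lit 471) (nat_lit 246)))) (XT.nd (nat_lit 78) (nat_lit 456) (nat_lit 0) (XT.lf (nat_lit 0) (nat_lit 1473262373749) (nat_lit 228) (nat_lit 122292406684) (nat_lit 304) (nat_lit 54095345115) (nat_lit 62) (nat_lit 5) (nat_lit 65) (nat_lit 5) (nat_lit 66) (nat_lit 5) (nat_lit 484) (nat_lit 471) (nat_lit 245)) (XT.nd (nat_lit 78) (nat_lit 228) (nat_lit 0) (XT.lf (nat_lit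 0) (nat_lit 212774964859) (nat_lit 228) (nat_lit 928726331319) (nat_lit 76) (nat_lit 583377461171) (nat_lit 59) (nat_lit 5) (nat_lit 62) (nat_lit 5) (nat_lit 60) (nat_lit 5) (nat_lit 485) (nat_lit 471) (nat_lit 244)) (XT.lf (nat_lit 0) (nat_lit 48507034390) (nat_lit 228) (nat_lit 458856350014) (nat_lit 304) (nat_lit 1297906606301) (nat_lit 56) (nat_lit 5) (nat_lit 59) (nat_lit 5) (nat_lit 60) (nat_lit 5) (nat_lit 486) (nat_lit 471) (nat_lit 243))))) (XT.nd (nat_lit 234) (nat_lit 380) (nat_lit 0) (XT.nd (nat_lit 78) (nat_lit 152) (nat_lit 0) (XT.lf (nat_lit 0) (nat_lit 858266988673) (nat_lit 304) (nat_lit 740679616544) (nat_lit 76) (nat_lit 290526068618) (nat_lit 56) (nat_lit 5) (nat_lit 60) (nat_lit 5) (nat_lit 57) (nat_lit 5) (nat_lit 487) (nat_lit 471) (nat_lit 242)) (XT.nd (nat_lit 78) (nat_lit 0) (nat_lit 0) (XT.lf (nat_lit 0) (nat_lit 362927124499) (nat_lit 152) (nat_lit 894962506880)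 (nat_lit 228) (nat_lit 720870200232) (nat_lit 54) (nat_lit 5) (nat_lit 56) (nat_lit 5) (nat_lit 57) (nat_lit 5) (nat_lit 488) (nat_lit 471) (nat_lit 241)) (XT.lf (nat_lit 0) (nat_lit 1596945507229) (nat_lit 152) (nat_lit 112788068969) (nat_lit 228) (nat_lit 363836266556) (nat_lit 54) (nat_lit 5) (nat_lit 56) (nat_lit 5) (nat_lit 57) (nat_lit 5) (nat_lit 489) (nat_lit 471) (nat_lit 240)))) (XT.nd (nat_lit 78) (nat_lit 152) (nat_lit 0) (XT.lf (nat_lit 0) (nat_lit 57852661365) (nat_lit 228) (nat_lit 1399650458739) (nat_lit 76) (nat_lit 715445201908) (nat_lit 51) (nat_lit 5) (nat_lit 54) (nat_lit 5) (nat_lit 52) (nat_lit 5) (nat_lit 490) (nat_lit 471) (nat_lit 239)) (XT.nd (nat_lit 78) (nat_lit 152) (nat_lit 0) (XT.lf (nat_lit 0) (nat_lit 509919893757) (nat_lit 228) (nat_lit 141632996641) (nat_lit 76) (nat_lit 1626664181891) (nat_lit 51) (nat_lit 5) (nat_lit 54) (nat_lit 5) (nat_lit 52) (nat_lit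 5) (nat_lit 491) (nat_lit 471) (nat_lit 238)) (XT.lf (nat_lit 0) (nat_lit 1035027473270) (nat_lit 228) (nat_lit 1114394365735) (nat_lit 76) (nat_lit 239535486100) (nat_lit 49) (nat_lit 5) (nat_lit 52) (nat_lit 5) (nat_lit 50) (nat_lit 5) (nat_lit 492) (nat_lit 471) (nat_lit 237))))))))
noncomputable def xc233 : XT := (XT.nd (nat_lit 1794) (nat_lit 304) (nat_lit 0) (XT.nd (nat_lit 858) (nat_lit 760) (nat_lit 0) (XT.nd (nat_lit 390) (nat_lit 608) (nat_lit 0) (XT.nd (nat_lit 156) (nat_lit 304) (nat_lit 0) (XT.nd (nat_lit 78) (nat_lit 0) (nat_lit 0) (XT.lf (nat_lit 0) (nat_lit 301942747135) (nat_lit 152) (nat_lit 1328359173329) (nat_lit 228) (nat_lit 876002216777) (nat_lit 47) (nat_lit 5) (nat_lit 49) (nat_lit 5) (nat_lit 50) (nat_lit 5) (nat_lit 493) (nat_lit 471) (nat_lit 236)) (XT.lf (nat_lit 0) (nat_lit 1894963420724) (nat_lit 152) (nat_lit 408704417453) (nat_lit 228) (nat_lit 326933294992)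 (nat_lit 47) (nat_lit 5) (nat_lit 49) (nat_lit 5) (nat_lit 50) (nat_lit 5) (nat_lit 494) (nat_lit 471) (nat_lit 235))) (XT.nd (nat_lit 78) (nat_lit 152) (nat_lit 0) (XT.lf (nat_lit 0) (nat_lit 288902555337) (nat_lit 152) (nat_lit 1888760973612) (nat_lit 76) (nat_lit 583774388026) (nat_lit 45) (nat_lit 5) (nat_lit 47) (nat_lit 5) (nat_lit 46) (nat_lit 5) (nat_lit 495) (nat_lit 471) (nat_lit 234)) (XT.nd (nat_lit 78) (nat_lit 152) (nat_lit 0) (XT.lf (nat_lit 0) (nat_lit 967594152095) (nat_lit 152) (nat_lit 269269320671) (nat_lit 76) (nat_lit 1662698687363) (nat_lit 45) (nat_lit 5) (nat_lit 47) (nat_lit 5) (nat_lit 46) (nat_lit 5) (nat_lit 496) (nat_lit 471) (nat_lit 233)) (XT.lf (nat_lit 0) (nat_lit 1557704341410) (nat_lit 152) (nat_lit 180339560256) (nat_lit 228) (nat_lit 1307695415062) (nat_lit 43) (nat_lit 5) (nat_lit 45) (nat_lit 5) (nat_lit 46) (nat_lit 5) (nat_lit 497) (nat_lit 471)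 (nat_lit 232))))) (XT.nd (nat_lit 234) (nat_lit 304) (nat_lit 0) (XT.nd (nat_lit 78) (nat_lit 228) (nat_lit 0) (XT.lf (nat_lit 0) (nat_lit 336673343267) (nat_lit 76) (nat_lit 2272211825955) (nat_lit 152) (nat_lit 591625033593) (nat_lit 42) (nat_lit 5) (nat_lit 43) (nat_lit 5) (nat_lit 44) (nat_lit 4) (nat_lit 498) (nat_lit 471) (nat_lit 231)) (XT.nd (nat_lit 78) (nat_lit 152) (nat_lit 0) (XT.lf (nat_lit 0) (nat_lit 219066481338) (nat_lit 152) (nat_lit 982535272274) (nat_lit 76) (nat_lit 2161997241623) (nat_lit 41) (nat_lit 5) (nat_lit 43) (nat_lit 5) (nat_lit 42) (nat_lit 5) (nat_lit 499) (nat_lit 471) (nat_lit 230)) (XT.lf (nat_lit 0) (nat_lit 1088347084155) (nat_lit 152) (nat_lit 477886539) (nat_lit 228) (nat_lit 2447586587883) (nat_lit 39) (nat_lit 5) (nat_lit 41) (nat_lit 5) (nat_lit 42) (nat_lit 5) (nat_lit 500) (nat_lit 471) (nat_lit 229)))) (XT.nd (nat_lit 78) (nat_lit 304) (nat_lit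 0) (XT.lf (nat_lit 0) (nat_lit 2086912695360) (nat_lit 228) (nat_lit 372006610962) (nat_lit 76) (nat_lit 1259429936172) (nat_lit 39) (nat_lit 5) (nat_lit 42) (nat_lit 5) (nat_lit 40) (nat_lit 4) (nat_lit 501) (nat_lit 471) (nat_lit 228)) (XT.nd (nat_lit 78) (nat_lit 228) (nat_lit 0) (XT.lf (nat_lit 0) (nat_lit 1968600853898) (nat_lit 76) (nat_lit 1243603893143) (nat_lit 152) (nat_lit 698848609359) (nat_lit 38) (nat_lit 5) (nat_lit 39) (nat_lit 5) (nat_lit 40) (nat_lit 4) (nat_lit 502) (nat_lit 471) (nat_lit 227)) (XT.lf (nat_lit 0) (nat_lit 315649470937) (nat_lit 228) (nat_lit 3707138935995) (nat_lit 76) (nat_lit 93973906178) (nat_lit 35) (nat_lit 5) (nat_lit 38) (nat_lit 5) (nat_lit 36) (nat_lit 4) (nat_lit 503) (nat_lit 471) (nat_lit 226)))))) (XT.nd (nat_lit 468) (nat_lit 456) (nat_lit 0) (XT.nd (nat_lit 234) (nat_lit 228) (nat_lit 0) (XT.nd (nat_lit 78) (nat_lit 76) (nat_lit 0) (XT.lf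 (nat_lit 0) (nat_lit 1460342395910) (nat_lit 228) (nat_lit 1326177654145) (nat_lit 76) (nat_lit 1544012505342) (nat_lit 35) (nat_lit 5) (nat_lit 38) (nat_lit 5) (nat_lit 36) (nat_lit 4) (nat_lit 504) (nat_lit 471) (nat_lit 225)) (XT.nd (nat_lit 78) (nat_lit 0) (nat_lit 0) (XT.lf (nat_lit 0) (nat_lit 1310833740388) (nat_lit 76) (nat_lit 1417302596132) (nat_lit 152) (nat_lit 1830746034015) (nat_lit 34) (nat_lit 5) (nat_lit 35) (nat_lit 5) (nat_lit 36) (nat_lit 4) (nat_lit 505) (nat_lit 471) (nat_lit 224)) (XT.lf (nat_lit 0) (nat_lit 4136033585908) (nat_lit 152) (nat_lit 570792172413) (nat_lit 0) (nat_lit 95580029083) (nat_lit 34) (nat_lit 5) (nat_lit 36) (nat_lit 4) (nat_lit 34) (nat_lit 4) (nat_lit 506) (nat_lit 471) (nat_lit 223)))) (XT.nd (nat_lit 78) (nat_lit 76) (nat_lit 0) (XT.lf (nat_lit 0) (nat_lit 658669285021) (nat_lit 152) (nat_lit 2670421445518) (nat_lit 76) (nat_lit 1727415807067)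 (nat_lit 32) (nat_lit 5) (nat_lit 34) (nat_lit 5) (nat_lit 33) (nat_lit 4) (nat_lit 507) (nat_lit 471) (nat_lit 222)) (XT.nd (nat_lit 78) (nat_lit 0) (nat_lit 0) (XT.lf (nat_lit 0) (nat_lit 278505398043) (nat_lit 76) (nat_lit 1797917177836) (nat_lit 152) (nat_lit 3251311311023) (nat_lit 31) (nat_lit 5) (nat_lit 32) (nat_lit 5) (nat_lit 33) (nat_lit 4) (nat_lit 508) (nat_lit 471) (nat_lit 221)) (XT.lf (nat_lit 0) (nat_lit 3615215620649) (nat_lit 76) (nat_lit 65394562886) (nat_lit 152) (nat_lit 1934208116324) (nat_lit 31) (nat_lit 5) (nat_lit 32) (nat_lit 5) (nat_lit 33) (nat_lit 4) (nat_lit 509) (nat_lit 471) (nat_lit 220))))) (XT.nd (nat_lit 234) (nat_lit 228) (nat_lit 0) (XT.nd (nat_lit 78) (nat_lit 152) (nat_lit 0) (XT.lf (nat_lit 0) (nat_lit 1316417901429) (nat_lit 76) (nat_lit 4171802626035) (nat_lit 76) (nat_lit 430641920177) (nat_lit 30) (nat_lit 4) (nat_lit 31) (nat_lit 5) (nat_lit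 31) (nat_lit 4) (nat_lit 510) (nat_lit 471) (nat_lit 219)) (XT.nd (nat_lit 78) (nat_lit 76) (nat_lit 0) (XT.lf (nat_lit 0) (nat_lit 1191311705800) (nat_lit 152) (nat_lit 1263232358839) (nat_lit 76) (nat_lit 3785767020338) (nat_lit 29) (nat_lit 5) (nat_lit 31) (nat_lit 5) (nat_lit 30) (nat_lit 4) (nat_lit 511) (nat_lit 471) (nat_lit 218)) (XT.lf (nat_lit 0) (nat_lit 2454726666684) (nat_lit 76) (nat_lit 524065340314) (nat_lit 152) (nat_lit 3603065867203) (nat_lit 28) (nat_lit 5) (nat_lit 29) (nat_lit 5) (nat_lit 30) (nat_lit 4) (nat_lit 512) (nat_lit 471) (nat_lit 217)))) (XT.nd (nat_lit 78) (nat_lit 228) (nat_lit 0) (XT.lf (nat_lit 0) (nat_lit 4982245380265) (nat_lit 152) (nat_lit 444437367502) (nat_lit 0) (nat_lit 1518207686958) (nat_lit 28) (nat_lit 5) (nat_lit 30) (nat_lit 4) (nat_lit 28) (nat_lit 4) (nat_lit 513) (nat_lit 471) (nat_lit 216)) (XT.nd (nat_lit 78) (nat_lit 152) (nat_lit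 0) (XT.lf (nat_lit 0) (nat_lit 3704577880307) (nat_lit 76) (nat_lit 3544104416012) (nat_lit 76) (nat_lit 80066721936) (nat_lit 27) (nat_lit 4) (nat_lit 28) (nat_lit 5) (nat_lit 28) (nat_lit 4) (nat_lit 514) (nat_lit 471) (nat_lit 215)) (XT.lf (nat_lit 0) (nat_lit 443334992132) (nat_lit 76) (nat_lit 1435209568887) (nat_lit 152) (nat_lit 5859163560879) (nat_lit 25) (nat_lit 5) (nat_lit 26) (nat_lit 5) (nat_lit 27) (nat_lit 4) (nat_lit 515) (nat_lit 471) (nat_lit 214))))))) (XT.nd (nat_lit 59514) (nat_lit 0) (nat_lit 2508) (XT.nd (nat_lit 59046) (nat_lit 0) (nat_lit 3876) (XT.nd (nat_lit 234) (nat_lit 152) (nat_lit 0) (XT.nd (nat_lit 78) (nat_lit 152) (nat_lit 0) (XT.lf (nat_lit 0) (nat_lit 4111443788412) (nat_lit 152) (nat_lit 3154018337245) (nat_lit 0) (nat_lit 904001477811) (nat_lit 25) (nat_lit 5) (nat_lit 27) (nat_lit 4) (nat_lit 25) (nat_lit 4) (nat_lit 516) (nat_lit 471) (nat_lit 213))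 (XT.nd (nat_lit 78) (nat_lit 76) (nat_lit 0) (XT.lf (nat_lit 0) (nat_lit 1347704293325) (nat_lit 76) (nat_lit 5244961151086) (nat_lit 76) (nat_lit 2037518839919) (nat_lit 24) (nat_lit 4) (nat_lit 25) (nat_lit 5) (nat_lit 25) (nat_lit 4) (nat_lit 517) (nat_lit 471) (nat_lit 212)) (XT.lf (nat_lit 0) (nat_lit 225863982080) (nat_lit 152) (nat_lit 2737645228961) (nat_lit 76) (nat_lit 6156897046588) (nat_lit 23) (nat_lit 5) (nat_lit 25) (nat_lit 5) (nat_lit 24) (nat_lit 4) (nat_lit 518) (nat_lit 471) (nat_lit 211)))) (XT.nd (nat_lit 78) (nat_lit 76) (nat_lit 0) (XT.lf (nat_lit 0) (nat_lit 2229376170244) (nat_lit 76) (nat_lit 384478869380) (nat_lit 152) (nat_lit 7027467819812) (nat_lit 22) (nat_lit 5) (nat_lit 23) (nat_lit 5) (nat_lit 24) (nat_lit 4) (nat_lit 519) (nat_lit 471) (nat_lit 210)) (XT.nd (nat_lit 78) (nat_lit 76) (nat_lit 0) (XT.lf (nat_lit 0) (nat_lit 5327422737745) (nat_lit 152)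 (nat_lit 2508158318589) (nat_lit 0) (nat_lit 2357568744574) (nat_lit 22) (nat_lit 5) (nat_lit 24) (nat_lit 4) (nat_lit 22) (nat_lit 4) (nat_lit 520) (nat_lit 471) (nat_lit 209)) (XT.lf (nat_lit 0) (nat_lit 2924228404006) (nat_lit 76) (nat_lit 5414161674550) (nat_lit 76) (nat_lit 2444307680995) (nat_lit 21) (nat_lit 4) (nat_lit 22) (nat_lit 5) (nat_lit 22) (nat_lit 4) (nat_lit 521) (nat_lit 471) (nat_lit 208))))) (XT.nd (nat_lit 234) (nat_lit 456) (nat_lit 0) (XT.nd (nat_lit 78) (nat_lit 0) (nat_lit 0) (XT.lf (nat_lit 0) (nat_lit 492930364402) (nat_lit 532) (nat_lit 12479702807) (nat_lit 532) (nat_lit 12479702807) (nat_lit 78) (nat_lit 3) (nat_lit 85) (nat_lit 3) (nat_lit 85) (nat_lit 5) (nat_lit 472) (nat_lit 472) (nat_lit 256)) (XT.nd (nat_lit 78) (nat_lit 0) (nat_lit 0) (XT.lf (nat_lit 76) (nat_lit 512352266433) (nat_lit 0) (nat_lit 525265033275) (nat_lit 532) (nat_lit 38607650564) (nat_lit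 79) (nat_lit 5) (nat_lit 78) (nat_lit 3) (nat_lit 85) (nat_lit 5) (nat_lit 473) (nat_lit 472) (nat_lit 255)) (XT.lf (nat_lit 76) (nat_lit 1094068332491) (nat_lit 0) (nat_lit 128492350) (nat_lit 532) (nat_lit 25654574205) (nat_lit 79) (nat_lit 5) (nat_lit 78) (nat_lit 3) (nat_lit 85) (nat_lit 5) (nat_lit 474) (nat_lit 472) (nat_lit 254)))) (XT.nd (nat_lit 78) (nat_lit 0) (nat_lit 0) (XT.lf (nat_lit 0) (nat_lit 16979877691) (nat_lit 532) (nat_lit 594966992277) (nat_lit 608) (nat_lit 552798610820) (nat_lit 72) (nat_lit 5) (nat_lit 79) (nat_lit 5) (nat_lit 80) (nat_lit 5) (nat_lit 475) (nat_lit 472) (nat_lit 253)) (XT.nd (nat_lit 78) (nat_lit 0) (nat_lit 76) (XT.lf (nat_lit 76) (nat_lit 619570297) (nat_lit 0) (nat_lit 61761000316) (nat_lit 608) (nat_lit 1150737890394) (nat_lit 73) (nat_lit 5) (nat_lit 72) (nat_lit 5) (nat_lit 80) (nat_lit 5) (nat_lit 476) (nat_lit 472) (nat_lit 252)) (XT.lf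 (nat_lit 0) (nat_lit 140908485826) (nat_lit 532) (nat_lit 599598249345) (nat_lit 608) (nat_lit 522494931124) (nat_lit 73) (nat_lit 5) (nat_lit 80) (nat_lit 5) (nat_lit 81) (nat_lit 5) (nat_lit 477) (nat_lit 472) (nat_lit 251)))))) (XT.nd (nat_lit 468) (nat_lit 836) (nat_lit 0) (XT.nd (nat_lit 234) (nat_lit 228) (nat_lit 0) (XT.nd (nat_lit 78) (nat_lit 380) (nat_lit 0) (XT.lf (nat_lit 76) (nat_lit 63928205524) (nat_lit 0) (nat_lit 164932080967) (nat_lit 608) (nat_lit 1087763909341) (nat_lit 74) (nat_lit 5) (nat_lit 73) (nat_lit 5) (nat_lit 81) (nat_lit 5) (nat_lit 478) (nat_lit 472) (nat_lit 250)) (XT.nd (nat_lit 78) (nat_lit 456) (nat_lit 0) (XT.lf (nat_lit 0) (nat_lit 351651496443) (nat_lit 532) (nat_lit 569997735637) (nat_lit 76) (nat_lit 450663034432) (nat_lit 74) (nat_lit 5) (nat_lit 81) (nat_lit 5) (nat_lit 75) (nat_lit 5) (nat_lit 479) (nat_lit 472) (nat_lit 249)) (XT.lf (nat_lit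 0) (nat_lit 171617424171) (nat_lit 456) (nat_lit 321059928451) (nat_lit 532) (nat_lit 939105122272) (nat_lit 68) (nat_lit 5) (nat_lit 74) (nat_lit 5) (nat_lit 75) (nat_lit 5) (nat_lit 480) (nat_lit 472) (nat_lit 248)))) (XT.nd (nat_lit 78) (nat_lit 228) (nat_lit 0) (XT.lf (nat_lit 0) (nat_lit 668853043641) (nat_lit 532) (nat_lit 498068472764) (nat_lit 76) (nat_lit 327179362235) (nat_lit 68) (nat_lit 5) (nat_lit 75) (nat_lit 5) (nat_lit 69) (nat_lit 5) (nat_lit 481) (nat_lit 472) (nat_lit 247)) (XT.nd (nat_lit 78) (nat_lit 0) (nat_lit 0) (XT.lf (nat_lit 0) (nat_lit 333331184763) (nat_lit 228) (nat_lit 542147443687) (nat_lit 304) (nat_lit 684617659157) (nat_lit 65) (nat_lit 5) (nat_lit 68) (nat_lit 5) (nat_lit 69) (nat_lit 5) (nat_lit 482) (nat_lit 472) (nat_lit 246)) (XT.lf (nat_lit 0) (nat_lit 1115795286641) (nat_lit 304) (nat_lit 374256431983) (nat_lit 76) (nat_lit 139946728540) (nat_lit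 65) (nat_lit 5) (nat_lit 69) (nat_lit 5) (nat_lit 66) (nat_lit 5) (nat_lit 483) (nat_lit 472) (nat_lit 245))))) (XT.nd (nat_lit 234) (nat_lit 380) (nat_lit 0) (XT.nd (nat_lit 78) (nat_lit 228) (nat_lit 0) (XT.lf (nat_lit 0) (nat_lit 560404900021) (nat_lit 228) (nat_lit 842491877554) (nat_lit 304) (nat_lit 300391241904) (nat_lit 62) (nat_lit 5) (nat_lit 65) (nat_lit 5) (nat_lit 66) (nat_lit 5) (nat_lit 484) (nat_lit 472) (nat_lit 244)) (XT.nd (nat_lit 78) (nat_lit 228) (nat_lit 0) (XT.lf (nat_lit 0) (nat_lit 1591123430088) (nat_lit 228) (nat_lit 132075788910) (nat_lit 304) (nat_lit 58422912086) (nat_lit 62) (nat_lit 5) (nat_lit 65) (nat_lit 5) (nat_lit 66) (nat_lit 5) (nat_lit 485) (nat_lit 472) (nat_lit 243)) (XT.lf (nat_lit 0) (nat_lit 229797017321) (nat_lit 228) (nat_lit 1003024365989) (nat_lit 76) (nat_lit 630047670189) (nat_lit 59) (nat_lit 5) (nat_lit 62) (nat_lit 5) (nat_lit 60) (nat_lit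 5) (nat_lit 486) (nat_lit 472) (nat_lit 242)))) (XT.nd (nat_lit 78) (nat_lit 152) (nat_lit 0) (XT.lf (nat_lit 0) (nat_lit 52387667157) (nat_lit 228) (nat_lit 495564840861) (nat_lit 304) (nat_lit 1401739077699) (nat_lit 56) (nat_lit 5) (nat_lit 59) (nat_lit 5) (nat_lit 60) (nat_lit 5) (nat_lit 487) (nat_lit 472) (nat_lit 241)) (XT.nd (nat_lit 78) (nat_lit 152) (nat_lit 0) (XT.lf (nat_lit 0) (nat_lit 926928397096) (nat_lit 304) (nat_lit 799933917492) (nat_lit 76) (nat_lit 313768169196) (nat_lit 56) (nat_lit 5) (nat_lit 60) (nat_lit 5) (nat_lit 57) (nat_lit 5) (nat_lit 488) (nat_lit 472) (nat_lit 240)) (XT.lf (nat_lit 0) (nat_lit 391961361104) (nat_lit 152) (nat_lit 966559488063) (nat_lit 228) (nat_lit 778539765179) (nat_lit 54) (nat_lit 5) (nat_lit 56) (nat_lit 5) (nat_lit 57) (nat_lit 5) (nat_lit 489) (nat_lit 472) (nat_lit 239))))))))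
noncomputable def xc234 : XT := (XT.nd (nat_lit 1794) (nat_lit 532) (nat_lit 0) (XT.nd (nat_lit 858) (nat_lit 912) (nat_lit 0) (XT.nd (nat_lit 390) (nat_lit 456) (nat_lit 0) (XT.nd (nat_lit 156) (nat_lit 304) (nat_lit 0) (XT.nd (nat_lit 78) (nat_lit 228) (nat_lit 0) (XT.lf (nat_lit 0) (nat_lit 1724701209516) (nat_lit 152) (nat_lit 121811096553) (nat_lit 228) (nat_lit 392943120591) (nat_lit 54) (nat_lit 5) (nat_lit 56) (nat_lit 5) (nat_lit 57) (nat_lit 5) (nat_lit 490) (nat_lit 472) (nat_lit 238)) (XT.lf (nat_lit 0) (nat_lit 62480917838) (nat_lit 228) (nat_lit 1511622429985) (nat_lit 76) (nat_lit 772680836456) (nat_lit 51) (nat_lit 5) (nat_lit 54) (nat_lit 5) (nat_lit 52) (nat_lit 5) (nat_lit 491) (nat_lit 472) (nat_lit 237))) (XT.nd (nat_lit 78) (nat_lit 304) (nat_lit 0) (XT.lf (nat_lit 0) (nat_lit 550713525594) (nat_lit 228) (nat_lit 152963575767) (nat_lit 76) (nat_lit 1756797333475) (nat_lit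 51) (nat_lit 5) (nat_lit 54) (nat_lit 5) (nat_lit 52) (nat_lit 5) (nat_lit 492) (nat_lit 472) (nat_lit 236)) (XT.nd (nat_lit 78) (nat_lit 152) (nat_lit 0) (XT.lf (nat_lit 0) (nat_lit 1117829710389) (nat_lit 228) (nat_lit 1203545853301) (nat_lit 76) (nat_lit 258698344274) (nat_lit 49) (nat_lit 5) (nat_lit 52) (nat_lit 5) (nat_lit 50) (nat_lit 5) (nat_lit 493) (nat_lit 472) (nat_lit 235)) (XT.lf (nat_lit 0) (nat_lit 326098227037) (nat_lit 152) (nat_lit 1434627884860) (nat_lit 228) (nat_lit 946082353291) (nat_lit 47) (nat_lit 5) (nat_lit 49) (nat_lit 5) (nat_lit 50) (nat_lit 5) (nat_lit 494) (nat_lit 472) (nat_lit 234))))) (XT.nd (nat_lit 234) (nat_lit 304) (nat_lit 0) (XT.nd (nat_lit 78) (nat_lit 152) (nat_lit 0) (XT.lf (nat_lit 0) (nat_lit 2046560550059) (nat_lit 152) (nat_lit 441400750169) (nat_lit 228) (nat_lit 353087920788) (nat_lit 47) (nat_lit 5) (nat_lit 49) (nat_lit 5) (nat_lit 50)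 (nat_lit 5) (nat_lit 495) (nat_lit 472) (nat_lit 233)) (XT.nd (nat_lit 78) (nat_lit 0) (nat_lit 0) (XT.lf (nat_lit 0) (nat_lit 312014794883) (nat_lit 152) (nat_lit 2039861793128) (nat_lit 76) (nat_lit 630476359508) (nat_lit 45) (nat_lit 5) (nat_lit 47) (nat_lit 5) (nat_lit 46) (nat_lit 5) (nat_lit 496) (nat_lit 472) (nat_lit 232)) (XT.lf (nat_lit 0) (nat_lit 1045001716780) (nat_lit 152) (nat_lit 290810812275) (nat_lit 76) (nat_lit 1795714601277) (nat_lit 45) (nat_lit 5) (nat_lit 47) (nat_lit 5) (nat_lit 46) (nat_lit 5) (nat_lit 497) (nat_lit 472) (nat_lit 231)))) (XT.nd (nat_lit 78) (nat_lit 152) (nat_lit 0) (XT.lf (nat_lit 0) (nat_lit 1682320741405) (nat_lit 152) (nat_lit 194766703771) (nat_lit 228) (nat_lit 1412311014376) (nat_lit 43) (nat_lit 5) (nat_lit 45) (nat_lit 5) (nat_lit 46) (nat_lit 5) (nat_lit 498) (nat_lit 472) (nat_lit 230)) (XT.nd (nat_lit 78) (nat_lit 76) (nat_lit 0) (XT.lf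 (nat_lit 0) (nat_lit 363607264028) (nat_lit 76) (nat_lit 2453988749539) (nat_lit 152) (nat_lit 638955003003) (nat_lit 42) (nat_lit 5) (nat_lit 43) (nat_lit 5) (nat_lit 44) (nat_lit 4) (nat_lit 499) (nat_lit 472) (nat_lit 229)) (XT.lf (nat_lit 0) (nat_lit 236591829116) (nat_lit 152) (nat_lit 1061138043159) (nat_lit 76) (nat_lit 2334957040234) (nat_lit 41) (nat_lit 5) (nat_lit 43) (nat_lit 5) (nat_lit 42) (nat_lit 5) (nat_lit 500) (nat_lit 472) (nat_lit 228)))))) (XT.nd (nat_lit 468) (nat_lit 380) (nat_lit 0) (XT.nd (nat_lit 234) (nat_lit 304) (nat_lit 0) (XT.nd (nat_lit 78) (nat_lit 76) (nat_lit 0) (XT.lf (nat_lit 0) (nat_lit 1175414900496) (nat_lit 152) (nat_lit 516096149) (nat_lit 228) (nat_lit 2643393484351) (nat_lit 39) (nat_lit 5) (nat_lit 41) (nat_lit 5) (nat_lit 42) (nat_lit 5) (nat_lit 501) (nat_lit 472) (nat_lit 227)) (XT.nd (nat_lit 78) (nat_lit 76) (nat_lit 0) (XT.lf (nat_lit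 0) (nat_lit 2253865737664) (nat_lit 228) (nat_lit 401767092280) (nat_lit 76) (nat_lit 1360184349812) (nat_lit 39) (nat_lit 5) (nat_lit 42) (nat_lit 5) (nat_lit 40) (nat_lit 4) (nat_lit 502) (nat_lit 472) (nat_lit 226)) (XT.lf (nat_lit 0) (nat_lit 2126088968565) (nat_lit 76) (nat_lit 1343092184053) (nat_lit 152) (nat_lit 754756470226) (nat_lit 38) (nat_lit 5) (nat_lit 39) (nat_lit 5) (nat_lit 40) (nat_lit 4) (nat_lit 503) (nat_lit 472) (nat_lit 225)))) (XT.nd (nat_lit 78) (nat_lit 76) (nat_lit 0) (XT.lf (nat_lit 0) (nat_lit 340901454759) (nat_lit 228) (nat_lit 4003710002779) (nat_lit 76) (nat_lit 101491838526) (nat_lit 35) (nat_lit 5) (nat_lit 38) (nat_lit 5) (nat_lit 36) (nat_lit 4) (nat_lit 504) (nat_lit 472) (nat_lit 224)) (XT.nd (nat_lit 78) (nat_lit 76) (nat_lit 0) (XT.lf (nat_lit 0) (nat_lit 1577169811793) (nat_lit 228) (nat_lit 1432271821944) (nat_lit 76) (nat_lit 1667533524153) (nat_lit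 35) (nat_lit 5) (nat_lit 38) (nat_lit 5) (nat_lit 36) (nat_lit 4) (nat_lit 505) (nat_lit 472) (nat_lit 223)) (XT.lf (nat_lit 0) (nat_lit 1415700483025) (nat_lit 76) (nat_lit 1530686783878) (nat_lit 152) (nat_lit 1977205691396) (nat_lit 34) (nat_lit 5) (nat_lit 35) (nat_lit 5) (nat_lit 36) (nat_lit 4) (nat_lit 506) (nat_lit 472) (nat_lit 222))))) (XT.nd (nat_lit 234) (nat_lit 152) (nat_lit 0) (XT.nd (nat_lit 78) (nat_lit 228) (nat_lit 0) (XT.lf (nat_lit 0) (nat_lit 4466916294947) (nat_lit 152) (nat_lit 616455504720) (nat_lit 0) (nat_lit 103226448953) (nat_lit 34) (nat_lit 5) (nat_lit 36) (nat_lit 4) (nat_lit 34) (nat_lit 4) (nat_lit 507) (nat_lit 472) (nat_lit 221)) (XT.nd (nat_lit 78) (nat_lit 76) (nat_lit 0) (XT.lf (nat_lit 0) (nat_lit 711362849880) (nat_lit 152) (nat_lit 2884055119560) (nat_lit 76) (nat_lit 1865609089408) (nat_lit 32) (nat_lit 5) (nat_lit 34) (nat_lit 5) (nat_lit 33)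 (nat_lit 4) (nat_lit 508) (nat_lit 472) (nat_lit 220)) (XT.lf (nat_lit 0) (nat_lit 300785870433) (nat_lit 76) (nat_lit 1941750532916) (nat_lit 152) (nat_lit 3511416192792) (nat_lit 31) (nat_lit 5) (nat_lit 32) (nat_lit 5) (nat_lit 33) (nat_lit 4) (nat_lit 509) (nat_lit 472) (nat_lit 219)))) (XT.nd (nat_lit 78) (nat_lit 152) (nat_lit 0) (XT.lf (nat_lit 0) (nat_lit 3904432907844) (nat_lit 76) (nat_lit 70626110188) (nat_lit 152) (nat_lit 2088944744229) (nat_lit 31) (nat_lit 5) (nat_lit 32) (nat_lit 5) (nat_lit 33) (nat_lit 4) (nat_lit 510) (nat_lit 472) (nat_lit 218)) (XT.nd (nat_lit 78) (nat_lit 76) (nat_lit 0) (XT.lf (nat_lit 0) (nat_lit 1421731371267) (nat_lit 76) (nat_lit 4505546818043) (nat_lit 76) (nat_lit 465093252569) (nat_lit 30) (nat_lit 4) (nat_lit 31) (nat_lit 5) (nat_lit 31) (nat_lit 4) (nat_lit 511) (nat_lit 472) (nat_lit 217)) (XT.lf (nat_lit 0) (nat_lit 1286616660931) (nat_lit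 152) (nat_lit 1364290911633) (nat_lit 76) (nat_lit 4088628397717) (nat_lit 29) (nat_lit 5) (nat_lit 31) (nat_lit 5) (nat_lit 30) (nat_lit 4) (nat_lit 512) (nat_lit 472) (nat_lit 216))))))) (XT.nd (nat_lit 59670) (nat_lit 0) (nat_lit 2584) (XT.nd (nat_lit 468) (nat_lit 152) (nat_lit 0) (XT.nd (nat_lit 234) (nat_lit 228) (nat_lit 0) (XT.nd (nat_lit 78) (nat_lit 76) (nat_lit 0) (XT.lf (nat_lit 0) (nat_lit 2651104835023) (nat_lit 76) (nat_lit 565990550661) (nat_lit 152) (nat_lit 3891311117002) (nat_lit 28) (nat_lit 5) (nat_lit 29) (nat_lit 5) (nat_lit 30) (nat_lit 4) (nat_lit 513) (nat_lit 472) (nat_lit 215)) (XT.nd (nat_lit 78) (nat_lit 76) (nat_lit 0) (XT.lf (nat_lit 0) (nat_lit 5380825027845) (nat_lit 152) (nat_lit 479992323523) (nat_lit 0) (nat_lit 1639664316761) (nat_lit 28) (nat_lit 5) (nat_lit 30) (nat_lit 4) (nat_lit 28) (nat_lit 4) (nat_lit 514) (nat_lit 472) (nat_lit 214)) (XT.lf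 (nat_lit 0) (nat_lit 4000944143266) (nat_lit 76) (nat_lit 3827632753430) (nat_lit 76) (nat_lit 86472041685) (nat_lit 27) (nat_lit 4) (nat_lit 28) (nat_lit 5) (nat_lit 28) (nat_lit 4) (nat_lit 515) (nat_lit 472) (nat_lit 213)))) (XT.nd (nat_lit 78) (nat_lit 76) (nat_lit 0) (XT.lf (nat_lit 0) (nat_lit 478801824092) (nat_lit 76) (nat_lit 1550026318430) (nat_lit 152) (nat_lit 6327896627798) (nat_lit 25) (nat_lit 5) (nat_lit 26) (nat_lit 5) (nat_lit 27) (nat_lit 4) (nat_lit 516) (nat_lit 472) (nat_lit 212)) (XT.nd (nat_lit 78) (nat_lit 76) (nat_lit 0) (XT.lf (nat_lit 0) (nat_lit 4440359307231) (nat_lit 152) (nat_lit 3406339773173) (nat_lit 0) (nat_lit 976321610082) (nat_lit 25) (nat_lit 5) (nat_lit 27) (nat_lit 4) (nat_lit 25) (nat_lit 4) (nat_lit 517) (nat_lit 472) (nat_lit 211)) (XT.lf (nat_lit 0) (nat_lit 1455520667056) (nat_lit 76) (nat_lit 5664558028214) (nat_lit 76) (nat_lit 2200520330581)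 (nat_lit 24) (nat_lit 4) (nat_lit 25) (nat_lit 5) (nat_lit 25) (nat_lit 4) (nat_lit 518) (nat_lit 472) (nat_lit 210))))) (XT.nd (nat_lit 58968) (nat_lit 0) (nat_lit 3800) (XT.nd (nat_lit 78) (nat_lit 76) (nat_lit 0) (XT.lf (nat_lit 0) (nat_lit 243933115189) (nat_lit 152) (nat_lit 2956656818488) (nat_lit 76) (nat_lit 6649448823399) (nat_lit 23) (nat_lit 5) (nat_lit 25) (nat_lit 5) (nat_lit 24) (nat_lit 4) (nat_lit 519) (nat_lit 472) (nat_lit 209)) (XT.nd (nat_lit 58812) (nat_lit 0) (nat_lit 4256) (XT.lf (nat_lit 0) (nat_lit 2407726291925) (nat_lit 76) (nat_lit 415237165009) (nat_lit 152) (nat_lit 7589665230125) (nat_lit 22) (nat_lit 5) (nat_lit 23) (nat_lit 5) (nat_lit 24) (nat_lit 4) (nat_lit 520) (nat_lit 472) (nat_lit 208)) (XT.lf (nat_lit 0) (nat_lit 532364849594) (nat_lit 532) (nat_lit 13478048758) (nat_lit 532) (nat_lit 13478048758) (nat_lit 78) (nat_lit 3) (nat_lit 85) (nat_lit 3)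 (nat_lit 85) (nat_lit 5) (nat_lit 473) (nat_lit 473) (nat_lit 254)))) (XT.nd (nat_lit 78) (nat_lit 456) (nat_lit 0) (XT.lf (nat_lit 76) (nat_lit 553340506760) (nat_lit 0) (nat_lit 567286282121) (nat_lit 532) (nat_lit 41696148954) (nat_lit 79) (nat_lit 5) (nat_lit 78) (nat_lit 3) (nat_lit 85) (nat_lit 5) (nat_lit 474) (nat_lit 473) (nat_lit 253)) (XT.nd (nat_lit 78) (nat_lit 456) (nat_lit 0) (XT.lf (nat_lit 76) (nat_lit 1181593853732) (nat_lit 0) (nat_lit 138814501) (nat_lit 532) (nat_lit 27706834906) (nat_lit 79) (nat_lit 5) (nat_lit 78) (nat_lit 3) (nat_lit 85) (nat_lit 5) (nat_lit 475) (nat_lit 473) (nat_lit 252)) (XT.lf (nat_lit 0) (nat_lit 18338361023) (nat_lit 532) (nat_lit 642564284829) (nat_lit 608) (nat_lit 597022465917) (nat_lit 72) (nat_lit 5) (nat_lit 79) (nat_lit 5) (nat_lit 80) (nat_lit 5) (nat_lit 476) (nat_lit 473) (nat_lit 251)))))) (XT.nd (nat_lit 468) (nat_lit 912) (nat_lit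 0) (XT.nd (nat_lit 234) (nat_lit 304) (nat_lit 0) (XT.nd (nat_lit 78) (nat_lit 0) (nat_lit 76) (XT.lf (nat_lit 76) (nat_lit 669201059) (nat_lit 0) (nat_lit 66701902989) (nat_lit 608) (nat_lit 1242796826786) (nat_lit 73) (nat_lit 5) (nat_lit 72) (nat_lit 5) (nat_lit 80) (nat_lit 5) (nat_lit 477) (nat_lit 473) (nat_lit 250)) (XT.nd (nat_lit 78) (nat_lit 0) (nat_lit 0) (XT.lf (nat_lit 0) (nat_lit 152181245471) (nat_lit 532) (nat_lit 647566041945) (nat_lit 608) (nat_lit 564294505693) (nat_lit 73) (nat_lit 5) (nat_lit 80) (nat_lit 5) (nat_lit 81) (nat_lit 5) (nat_lit 478) (nat_lit 473) (nat_lit 249)) (XT.lf (nat_lit 76) (nat_lit 69042527609) (nat_lit 0) (nat_lit 178126658174) (nat_lit 608) (nat_lit 1174784939578) (nat_lit 74) (nat_lit 5) (nat_lit 73) (nat_lit 5) (nat_lit 81) (nat_lit 5) (nat_lit 479) (nat_lit 473) (nat_lit 248)))) (XT.nd (nat_lit 78) (nat_lit 456) (nat_lit 0) (XT.lf (nat_lit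 0) (nat_lit 379783686636) (nat_lit 532) (nat_lit 615597487786) (nat_lit 76) (nat_lit 486716067749) (nat_lit 74) (nat_lit 5) (nat_lit 81) (nat_lit 5) (nat_lit 75) (nat_lit 5) (nat_lit 480) (nat_lit 473) (nat_lit 247)) (XT.nd (nat_lit 78) (nat_lit 0) (nat_lit 0) (XT.lf (nat_lit 0) (nat_lit 185346883117) (nat_lit 456) (nat_lit 346744724535) (nat_lit 532) (nat_lit 1014233459865) (nat_lit 68) (nat_lit 5) (nat_lit 74) (nat_lit 5) (nat_lit 75) (nat_lit 5) (nat_lit 481) (nat_lit 473) (nat_lit 246)) (XT.lf (nat_lit 0) (nat_lit 722361348963) (nat_lit 532) (nat_lit 537913885377) (nat_lit 76) (nat_lit 353353709624) (nat_lit 68) (nat_lit 5) (nat_lit 75) (nat_lit 5) (nat_lit 69) (nat_lit 5) (nat_lit 482) (nat_lit 473) (nat_lit 245))))) (XT.nd (nat_lit 234) (nat_lit 456) (nat_lit 0) (XT.nd (nat_lit 78) (nat_lit 228) (nat_lit 0) (XT.lf (nat_lit 0) (nat_lit 359997743101) (nat_lit 228) (nat_lit 585519234404)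 (nat_lit 304) (nat_lit 739387008389) (nat_lit 65) (nat_lit 5) (nat_lit 68) (nat_lit 5) (nat_lit 69) (nat_lit 5) (nat_lit 483) (nat_lit 473) (nat_lit 244)) (XT.nd (nat_lit 78) (nat_lit 228) (nat_lit 0) (XT.lf (nat_lit 0) (nat_lit 1205058964104) (nat_lit 304) (nat_lit 404196883427) (nat_lit 76) (nat_lit 151142471026) (nat_lit 65) (nat_lit 5) (nat_lit 69) (nat_lit 5) (nat_lit 66) (nat_lit 5) (nat_lit 484) (nat_lit 473) (nat_lit 243)) (XT.lf (nat_lit 0) (nat_lit 605237353540) (nat_lit 228) (nat_lit 909891218213) (nat_lit 304) (nat_lit 324422485110) (nat_lit 62) (nat_lit 5) (nat_lit 65) (nat_lit 5) (nat_lit 66) (nat_lit 5) (nat_lit 485) (nat_lit 473) (nat_lit 242)))) (XT.nd (nat_lit 78) (nat_lit 456) (nat_lit 0) (XT.lf (nat_lit 0) (nat_lit 1718413361455) (nat_lit 228) (nat_lit 142641843185) (nat_lit 304) (nat_lit 63096693066) (nat_lit 62) (nat_lit 5) (nat_lit 65) (nat_lit 5) (nat_lit 66) (nat_lit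 5) (nat_lit 486) (nat_lit 473) (nat_lit 241)) (XT.nd (nat_lit 78) (nat_lit 228) (nat_lit 0) (XT.lf (nat_lit 0) (nat_lit 248180826094) (nat_lit 228) (nat_lit 1083266253682) (nat_lit 76) (nat_lit 680451494199) (nat_lit 59) (nat_lit 5) (nat_lit 62) (nat_lit 5) (nat_lit 60) (nat_lit 5) (nat_lit 487) (nat_lit 473) (nat_lit 240)) (XT.lf (nat_lit 0) (nat_lit 56578740557) (nat_lit 228) (nat_lit 535210013424) (nat_lit 304) (nat_lit 1513878154956) (nat_lit 56) (nat_lit 5) (nat_lit 59) (nat_lit 5) (nat_lit 60) (nat_lit 5) (nat_lit 488) (nat_lit 473) (nat_lit 239))))))))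
noncomputable def xc235 : XT := (XT.nd (nat_lit 1794) (nat_lit 608) (nat_lit 0) (XT.nd (nat_lit 858) (nat_lit 912) (nat_lit 0) (XT.nd (nat_lit 390) (nat_lit 608) (nat_lit 0) (XT.nd (nat_lit 156) (nat_lit 228) (nat_lit 0) (XT.nd (nat_lit 78) (nat_lit 152) (nat_lit 0) (XT.lf (nat_lit 0) (nat_lit 1001082711155) (nat_lit 304) (nat_lit 863928572269) (nat_lit 76) (nat_lit 338869635667) (nat_lit 56) (nat_lit 5) (nat_lit 60) (nat_lit 5) (nat_lit 57) (nat_lit 5) (nat_lit 489) (nat_lit 473) (nat_lit 238)) (XT.lf (nat_lit 0) (nat_lit 423318327131) (nat_lit 152) (nat_lit 1043884230503) (nat_lit 228) (nat_lit 840822902607) (nat_lit 54) (nat_lit 5) (nat_lit 56) (nat_lit 5) (nat_lit 57) (nat_lit 5) (nat_lit 490) (nat_lit 473) (nat_lit 237))) (XT.nd (nat_lit 78) (nat_lit 228) (nat_lit 0) (XT.lf (nat_lit 0) (nat_lit 1862677359183) (nat_lit 152) (nat_lit 131555968903) (nat_lit 228) (nat_lit 424378529696)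 (nat_lit 54) (nat_lit 5) (nat_lit 56) (nat_lit 5) (nat_lit 57) (nat_lit 5) (nat_lit 491) (nat_lit 473) (nat_lit 236)) (XT.nd (nat_lit 78) (nat_lit 0) (nat_lit 0) (XT.lf (nat_lit 0) (nat_lit 67479428614) (nat_lit 228) (nat_lit 1632552168267) (nat_lit 76) (nat_lit 834495319144) (nat_lit 51) (nat_lit 5) (nat_lit 54) (nat_lit 5) (nat_lit 52) (nat_lit 5) (nat_lit 492) (nat_lit 473) (nat_lit 235)) (XT.lf (nat_lit 0) (nat_lit 594770642224) (nat_lit 228) (nat_lit 165200609868) (nat_lit 76) (nat_lit 1897341134756) (nat_lit 51) (nat_lit 5) (nat_lit 54) (nat_lit 5) (nat_lit 52) (nat_lit 5) (nat_lit 493) (nat_lit 473) (nat_lit 234))))) (XT.nd (nat_lit 234) (nat_lit 304) (nat_lit 0) (XT.nd (nat_lit 78) (nat_lit 152) (nat_lit 0) (XT.lf (nat_lit 0) (nat_lit 1207256120878) (nat_lit 228) (nat_lit 1299829468673) (nat_lit 76) (nat_lit 279394228351) (nat_lit 49) (nat_lit 5) (nat_lit 52) (nat_lit 5) (nat_lit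 50) (nat_lit 5) (nat_lit 494) (nat_lit 473) (nat_lit 233)) (XT.nd (nat_lit 78) (nat_lit 0) (nat_lit 0) (XT.lf (nat_lit 0) (nat_lit 352186136752) (nat_lit 152) (nat_lit 1549398096500) (nat_lit 228) (nat_lit 1021768906552) (nat_lit 47) (nat_lit 5) (nat_lit 49) (nat_lit 5) (nat_lit 50) (nat_lit 5) (nat_lit 495) (nat_lit 473) (nat_lit 232)) (XT.lf (nat_lit 0) (nat_lit 2210285441797) (nat_lit 152) (nat_lit 476712792452) (nat_lit 228) (nat_lit 381334922041) (nat_lit 47) (nat_lit 5) (nat_lit 49) (nat_lit 5) (nat_lit 50) (nat_lit 5) (nat_lit 496) (nat_lit 473) (nat_lit 231)))) (XT.nd (nat_lit 78) (nat_lit 152) (nat_lit 0) (XT.lf (nat_lit 0) (nat_lit 336976008583) (nat_lit 152) (nat_lit 2203050686532) (nat_lit 76) (nat_lit 680914485792) (nat_lit 45) (nat_lit 5) (nat_lit 47) (nat_lit 5) (nat_lit 46) (nat_lit 5) (nat_lit 497) (nat_lit 473) (nat_lit 230)) (XT.nd (nat_lit 78) (nat_lit 152) (nat_lit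 0) (XT.lf (nat_lit 0) (nat_lit 1128601882001) (nat_lit 152) (nat_lit 314075630918) (nat_lit 76) (nat_lit 1939371785605) (nat_lit 45) (nat_lit 5) (nat_lit 47) (nat_lit 5) (nat_lit 46) (nat_lit 5) (nat_lit 498) (nat_lit 473) (nat_lit 229)) (XT.lf (nat_lit 0) (nat_lit 1816906445883) (nat_lit 152) (nat_lit 210348021807) (nat_lit 228) (nat_lit 1525295866469) (nat_lit 43) (nat_lit 5) (nat_lit 45) (nat_lit 5) (nat_lit 46) (nat_lit 5) (nat_lit 499) (nat_lit 473) (nat_lit 228)))))) (XT.nd (nat_lit 468) (nat_lit 304) (nat_lit 0) (XT.nd (nat_lit 234) (nat_lit 304) (nat_lit 0) (XT.nd (nat_lit 78) (nat_lit 228) (nat_lit 0) (XT.lf (nat_lit 0) (nat_lit 392695890846) (nat_lit 76) (nat_lit 2650307830219) (nat_lit 152) (nat_lit 690071374713) (nat_lit 42) (nat_lit 5) (nat_lit 43) (nat_lit 5) (nat_lit 44) (nat_lit 4) (nat_lit 500) (nat_lit 473) (nat_lit 227)) (XT.nd (nat_lit 78) (nat_lit 152) (nat_lit 0) (XT.lf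 (nat_lit 0) (nat_lit 255519200541) (nat_lit 152) (nat_lit 1146029042975) (nat_lit 76) (nat_lit 2521753619982) (nat_lit 41) (nat_lit 5) (nat_lit 43) (nat_lit 5) (nat_lit 42) (nat_lit 5) (nat_lit 501) (nat_lit 473) (nat_lit 226)) (XT.lf (nat_lit 0) (nat_lit 1269448135067) (nat_lit 152) (nat_lit 557365569) (nat_lit 228) (nat_lit 2854864936896) (nat_lit 39) (nat_lit 5) (nat_lit 41) (nat_lit 5) (nat_lit 42) (nat_lit 5) (nat_lit 502) (nat_lit 473) (nat_lit 225)))) (XT.nd (nat_lit 78) (nat_lit 304) (nat_lit 0) (XT.lf (nat_lit 0) (nat_lit 2434175019546) (nat_lit 228) (nat_lit 433908418888) (nat_lit 76) (nat_lit 1468999113870) (nat_lit 39) (nat_lit 5) (nat_lit 42) (nat_lit 5) (nat_lit 40) (nat_lit 4) (nat_lit 503) (nat_lit 473) (nat_lit 224)) (XT.nd (nat_lit 78) (nat_lit 228) (nat_lit 0) (XT.lf (nat_lit 0) (nat_lit 2296176125792) (nat_lit 76) (nat_lit 1450539541166) (nat_lit 152) (nat_lit 815136963940)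 (nat_lit 38) (nat_lit 5) (nat_lit 39) (nat_lit 5) (nat_lit 40) (nat_lit 4) (nat_lit 504) (nat_lit 473) (nat_lit 223)) (XT.lf (nat_lit 0) (nat_lit 368173593557) (nat_lit 228) (nat_lit 4324006761767) (nat_lit 76) (nat_lit 109611202630) (nat_lit 35) (nat_lit 5) (nat_lit 38) (nat_lit 5) (nat_lit 36) (nat_lit 4) (nat_lit 505) (nat_lit 473) (nat_lit 222))))) (XT.nd (nat_lit 234) (nat_lit 228) (nat_lit 0) (XT.nd (nat_lit 78) (nat_lit 76) (nat_lit 0) (XT.lf (nat_lit 0) (nat_lit 1703343417492) (nat_lit 228) (nat_lit 1546853529520) (nat_lit 76) (nat_lit 1800936221846) (nat_lit 35) (nat_lit 5) (nat_lit 38) (nat_lit 5) (nat_lit 36) (nat_lit 4) (nat_lit 506) (nat_lit 473) (nat_lit 221)) (XT.nd (nat_lit 78) (nat_lit 0) (nat_lit 0) (XT.lf (nat_lit 0) (nat_lit 1528956558880) (nat_lit 76) (nat_lit 1653141709489) (nat_lit 152) (nat_lit 2135382124983) (nat_lit 34) (nat_lit 5) (nat_lit 35) (nat_lit 5) (nat_lit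 36) (nat_lit 4) (nat_lit 507) (nat_lit 473) (nat_lit 220)) (XT.lf (nat_lit 0) (nat_lit 4824269617548) (nat_lit 152) (nat_lit 665771909530) (nat_lit 0) (nat_lit 111484579910) (nat_lit 34) (nat_lit 5) (nat_lit 36) (nat_lit 4) (nat_lit 34) (nat_lit 4) (nat_lit 508) (nat_lit 473) (nat_lit 219)))) (XT.nd (nat_lit 78) (nat_lit 76) (nat_lit 0) (XT.lf (nat_lit 0) (nat_lit 768271896782) (nat_lit 152) (nat_lit 3114779493461) (nat_lit 76) (nat_lit 2014857831800) (nat_lit 32) (nat_lit 5) (nat_lit 34) (nat_lit 5) (nat_lit 33) (nat_lit 4) (nat_lit 509) (nat_lit 473) (nat_lit 218)) (XT.nd (nat_lit 78) (nat_lit 0) (nat_lit 0) (XT.lf (nat_lit 0) (nat_lit 324848774830) (nat_lit 76) (nat_lit 2097090559133) (nat_lit 152) (nat_lit 3792329468400) (nat_lit 31) (nat_lit 5) (nat_lit 32) (nat_lit 5) (nat_lit 33) (nat_lit 4) (nat_lit 510) (nat_lit 473) (nat_lit 217)) (XT.lf (nat_lit 0) (nat_lit 4216787572659) (nat_lit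 76) (nat_lit 76276183804) (nat_lit 152) (nat_lit 2256060305420) (nat_lit 31) (nat_lit 5) (nat_lit 32) (nat_lit 5) (nat_lit 33) (nat_lit 4) (nat_lit 511) (nat_lit 473) (nat_lit 216))))))) (XT.nd (nat_lit 59748) (nat_lit 0) (nat_lit 2736) (XT.nd (nat_lit 468) (nat_lit 152) (nat_lit 0) (XT.nd (nat_lit 234) (nat_lit 228) (nat_lit 0) (XT.nd (nat_lit 78) (nat_lit 152) (nat_lit 0) (XT.lf (nat_lit 0) (nat_lit 1535469913310) (nat_lit 76) (nat_lit 4865990547990) (nat_lit 76) (nat_lit 502300694581) (nat_lit 30) (nat_lit 4) (nat_lit 31) (nat_lit 5) (nat_lit 31) (nat_lit 4) (nat_lit 512) (nat_lit 473) (nat_lit 215)) (XT.nd (nat_lit 78) (nat_lit 76) (nat_lit 0) (XT.lf (nat_lit 0) (nat_lit 1389546009809) (nat_lit 152) (nat_lit 1473434153774) (nat_lit 76) (nat_lit 4415718683039) (nat_lit 29) (nat_lit 5) (nat_lit 31) (nat_lit 5) (nat_lit 30) (nat_lit 4) (nat_lit 513) (nat_lit 473) (nat_lit 214)) (XT.lf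 (nat_lit 0) (nat_lit 2863193251835) (nat_lit 76) (nat_lit 611269780244) (nat_lit 152) (nat_lit 4202615989577) (nat_lit 28) (nat_lit 5) (nat_lit 29) (nat_lit 5) (nat_lit 30) (nat_lit 4) (nat_lit 514) (nat_lit 473) (nat_lit 213)))) (XT.nd (nat_lit 78) (nat_lit 228) (nat_lit 0) (XT.lf (nat_lit 0) (nat_lit 5811291044784) (nat_lit 152) (nat_lit 518391680787) (nat_lit 0) (nat_lit 1770837474830) (nat_lit 28) (nat_lit 5) (nat_lit 30) (nat_lit 4) (nat_lit 28) (nat_lit 4) (nat_lit 515) (nat_lit 473) (nat_lit 212)) (XT.nd (nat_lit 78) (nat_lit 152) (nat_lit 0) (XT.lf (nat_lit 0) (nat_lit 4321019702620) (nat_lit 76) (nat_lit 4133843360104) (nat_lit 76) (nat_lit 93389789584) (nat_lit 27) (nat_lit 4) (nat_lit 28) (nat_lit 5) (nat_lit 28) (nat_lit 4) (nat_lit 516) (nat_lit 473) (nat_lit 211)) (XT.lf (nat_lit 0) (nat_lit 517105997960) (nat_lit 76) (nat_lit 1674028410214) (nat_lit 152) (nat_lit 6834128342631)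 (nat_lit 25) (nat_lit 5) (nat_lit 26) (nat_lit 5) (nat_lit 27) (nat_lit 4) (nat_lit 517) (nat_lit 473) (nat_lit 210))))) (XT.nd (nat_lit 59046) (nat_lit 0) (nat_lit 4180) (XT.nd (nat_lit 78) (nat_lit 152) (nat_lit 0) (XT.lf (nat_lit 0) (nat_lit 4795588065308) (nat_lit 152) (nat_lit 3678846928405) (nat_lit 0) (nat_lit 1054427350930) (nat_lit 25) (nat_lit 5) (nat_lit 27) (nat_lit 4) (nat_lit 25) (nat_lit 4) (nat_lit 518) (nat_lit 473) (nat_lit 209)) (XT.nd (nat_lit 78) (nat_lit 76) (nat_lit 0) (XT.lf (nat_lit 0) (nat_lit 1571962346369) (nat_lit 76) (nat_lit 6117722657647) (nat_lit 76) (nat_lit 2376561942853) (nat_lit 24) (nat_lit 4) (nat_lit 25) (nat_lit 5) (nat_lit 25) (nat_lit 4) (nat_lit 519) (nat_lit 473) (nat_lit 208)) (XT.lf (nat_lit 0) (nat_lit 263447776872) (nat_lit 152) (nat_lit 3193189339284) (nat_lit 76) (nat_lit 7181404740489) (nat_lit 23) (nat_lit 5) (nat_lit 25) (nat_lit 5)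 (nat_lit 24) (nat_lit 4) (nat_lit 520) (nat_lit 473) (nat_lit 207)))) (XT.nd (nat_lit 78) (nat_lit 0) (nat_lit 0) (XT.lf (nat_lit 0) (nat_lit 574954085607) (nat_lit 532) (nat_lit 14556266705) (nat_lit 532) (nat_lit 14556266705) (nat_lit 78) (nat_lit 3) (nat_lit 85) (nat_lit 3) (nat_lit 85) (nat_lit 5) (nat_lit 474) (nat_lit 474) (nat_lit 252)) (XT.nd (nat_lit 78) (nat_lit 0) (nat_lit 0) (XT.lf (nat_lit 76) (nat_lit 597607797896) (nat_lit 0) (nat_lit 612669224286) (nat_lit 532) (nat_lit 45031743429) (nat_lit 79) (nat_lit 5) (nat_lit 78) (nat_lit 3) (nat_lit 85) (nat_lit 5) (nat_lit 475) (nat_lit 474) (nat_lit 251)) (XT.lf (nat_lit 76) (nat_lit 1276121408877) (nat_lit 0) (nat_lit 149956324) (nat_lit 532) (nat_lit 29923291475) (nat_lit 79) (nat_lit 5) (nat_lit 78) (nat_lit 3) (nat_lit 85) (nat_lit 5) (nat_lit 476) (nat_lit 474) (nat_lit 250)))))) (XT.nd (nat_lit 468) (nat_lit 684) (nat_lit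 0) (XT.nd (nat_lit 234) (nat_lit 304) (nat_lit 0) (XT.nd (nat_lit 78) (nat_lit 0) (nat_lit 0) (XT.lf (nat_lit 0) (nat_lit 19805509737) (nat_lit 532) (nat_lit 693969370319) (nat_lit 608) (nat_lit 644784234239) (nat_lit 72) (nat_lit 5) (nat_lit 79) (nat_lit 5) (nat_lit 80) (nat_lit 5) (nat_lit 477) (nat_lit 474) (nat_lit 249)) (XT.nd (nat_lit 78) (nat_lit 0) (nat_lit 76) (XT.lf (nat_lit 76) (nat_lit 722792989) (nat_lit 0) (nat_lit 72038074645) (nat_lit 608) (nat_lit 1342220491620) (nat_lit 73) (nat_lit 5) (nat_lit 72) (nat_lit 5) (nat_lit 80) (nat_lit 5) (nat_lit 478) (nat_lit 474) (nat_lit 248)) (XT.lf (nat_lit 0) (nat_lit 164355814363) (nat_lit 532) (nat_lit 699371267560) (nat_lit 608) (nat_lit 609438049070) (nat_lit 73) (nat_lit 5) (nat_lit 80) (nat_lit 5) (nat_lit 81) (nat_lit 5) (nat_lit 479) (nat_lit 474) (nat_lit 247)))) (XT.nd (nat_lit 78) (nat_lit 380) (nat_lit 0) (XT.lf (nat_lit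 76) (nat_lit 74565986097) (nat_lit 0) (nat_lit 192376800028) (nat_lit 608) (nat_lit 1268767664005) (nat_lit 74) (nat_lit 5) (nat_lit 73) (nat_lit 5) (nat_lit 81) (nat_lit 5) (nat_lit 480) (nat_lit 474) (nat_lit 246)) (XT.nd (nat_lit 78) (nat_lit 456) (nat_lit 0) (XT.lf (nat_lit 0) (nat_lit 410166441990) (nat_lit 532) (nat_lit 664845229624) (nat_lit 76) (nat_lit 525653345076) (nat_lit 74) (nat_lit 5) (nat_lit 81) (nat_lit 5) (nat_lit 75) (nat_lit 5) (nat_lit 481) (nat_lit 474) (nat_lit 245)) (XT.lf (nat_lit 0) (nat_lit 200174689505) (nat_lit 456) (nat_lit 374484304048) (nat_lit 532) (nat_lit 1095372074764) (nat_lit 68) (nat_lit 5) (nat_lit 74) (nat_lit 5) (nat_lit 75) (nat_lit 5) (nat_lit 482) (nat_lit 474) (nat_lit 244))))) (XT.nd (nat_lit 234) (nat_lit 456) (nat_lit 0) (XT.nd (nat_lit 78) (nat_lit 228) (nat_lit 0) (XT.lf (nat_lit 0) (nat_lit 780150309890) (nat_lit 532) (nat_lit 580946940302)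 (nat_lit 76) (nat_lit 381622005031) (nat_lit 68) (nat_lit 5) (nat_lit 75) (nat_lit 5) (nat_lit 69) (nat_lit 5) (nat_lit 483) (nat_lit 474) (nat_lit 243)) (XT.nd (nat_lit 78) (nat_lit 0) (nat_lit 0) (XT.lf (nat_lit 0) (nat_lit 388797617039) (nat_lit 228) (nat_lit 632360769060) (nat_lit 304) (nat_lit 798537914618) (nat_lit 65) (nat_lit 5) (nat_lit 68) (nat_lit 5) (nat_lit 69) (nat_lit 5) (nat_lit 484) (nat_lit 474) (nat_lit 242)) (XT.lf (nat_lit 0) (nat_lit 1301463727984) (nat_lit 304) (nat_lit 436532579990) (nat_lit 76) (nat_lit 163233872311) (nat_lit 65) (nat_lit 5) (nat_lit 69) (nat_lit 5) (nat_lit 66) (nat_lit 5) (nat_lit 485) (nat_lit 474) (nat_lit 241)))) (XT.nd (nat_lit 78) (nat_lit 228) (nat_lit 0) (XT.lf (nat_lit 0) (nat_lit 653656394564) (nat_lit 228) (nat_lit 982682507487) (nat_lit 304) (nat_lit 350376235783) (nat_lit 62) (nat_lit 5) (nat_lit 65) (nat_lit 5) (nat_lit 66) (nat_lit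 5) (nat_lit 486) (nat_lit 474) (nat_lit 240)) (XT.nd (nat_lit 78) (nat_lit 228) (nat_lit 0) (XT.lf (nat_lit 0) (nat_lit 1855886479205) (nat_lit 228) (nat_lit 154053183062) (nat_lit 304) (nat_lit 68144383941) (nat_lit 62) (nat_lit 5) (nat_lit 65) (nat_lit 5) (nat_lit 66) (nat_lit 5) (nat_lit 487) (nat_lit 474) (nat_lit 239)) (XT.lf (nat_lit 0) (nat_lit 268035332809) (nat_lit 228) (nat_lit 1169927501176) (nat_lit 76) (nat_lit 734887622647) (nat_lit 59) (nat_lit 5) (nat_lit 62) (nat_lit 5) (nat_lit 60) (nat_lit 5) (nat_lit 488) (nat_lit 474) (nat_lit 238))))))))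
noncomputable def xc236 : XT := (XT.nd (nat_lit 1794) (nat_lit 532) (nat_lit 0) (XT.nd (nat_lit 858) (nat_lit 1064) (nat_lit 0) (XT.nd (nat_lit 390) (nat_lit 456) (nat_lit 0) (XT.nd (nat_lit 156) (nat_lit 380) (nat_lit 0) (XT.nd (nat_lit 78) (nat_lit 0) (nat_lit 0) (XT.lf (nat_lit 0) (nat_lit 61105091266) (nat_lit 228) (nat_lit 578026801890) (nat_lit 304) (nat_lit 1634988365378) (nat_lit 56) (nat_lit 5) (nat_lit 59) (nat_lit 5) (nat_lit 60) (nat_lit 5) (nat_lit 489) (nat_lit 474) (nat_lit 237)) (XT.lf (nat_lit 0) (nat_lit 1081169364306) (nat_lit 304) (nat_lit 933042807792) (nat_lit 76) (nat_lit 365979217611) (nat_lit 56) (nat_lit 5) (nat_lit 60) (nat_lit 5) (nat_lit 57) (nat_lit 5) (nat_lit 490) (nat_lit 474) (nat_lit 236))) (XT.nd (nat_lit 78) (nat_lit 228) (nat_lit 0) (XT.lf (nat_lit 0) (nat_lit 457183842287) (nat_lit 152) (nat_lit 1127394954707) (nat_lit 228) (nat_lit 908088697276) (nat_lit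 54) (nat_lit 5) (nat_lit 56) (nat_lit 5) (nat_lit 57) (nat_lit 5) (nat_lit 491) (nat_lit 474) (nat_lit 235)) (XT.nd (nat_lit 78) (nat_lit 228) (nat_lit 0) (XT.lf (nat_lit 0) (nat_lit 2011691593275) (nat_lit 152) (nat_lit 142080433233) (nat_lit 228) (nat_lit 458328777313) (nat_lit 54) (nat_lit 5) (nat_lit 56) (nat_lit 5) (nat_lit 57) (nat_lit 5) (nat_lit 492) (nat_lit 474) (nat_lit 234)) (XT.lf (nat_lit 0) (nat_lit 72877814924) (nat_lit 228) (nat_lit 1763156293617) (nat_lit 76) (nat_lit 901254958197) (nat_lit 51) (nat_lit 5) (nat_lit 54) (nat_lit 5) (nat_lit 52) (nat_lit 5) (nat_lit 493) (nat_lit 474) (nat_lit 233))))) (XT.nd (nat_lit 234) (nat_lit 152) (nat_lit 0) (XT.nd (nat_lit 78) (nat_lit 304) (nat_lit 0) (XT.lf (nat_lit 0) (nat_lit 642352323250) (nat_lit 228) (nat_lit 178416614111) (nat_lit 76) (nat_lit 2049128438057) (nat_lit 51) (nat_lit 5) (nat_lit 54) (nat_lit 5) (nat_lit 52) (nat_lit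 5) (nat_lit 494) (nat_lit 474) (nat_lit 232)) (XT.nd (nat_lit 78) (nat_lit 152) (nat_lit 0) (XT.lf (nat_lit 0) (nat_lit 1303836639404) (nat_lit 228) (nat_lit 1403815780821) (nat_lit 76) (nat_lit 301745780795) (nat_lit 49) (nat_lit 5) (nat_lit 52) (nat_lit 5) (nat_lit 50) (nat_lit 5) (nat_lit 495) (nat_lit 474) (nat_lit 231)) (XT.lf (nat_lit 0) (nat_lit 380361071891) (nat_lit 152) (nat_lit 1673349927803) (nat_lit 228) (nat_lit 1103510389067) (nat_lit 47) (nat_lit 5) (nat_lit 49) (nat_lit 5) (nat_lit 50) (nat_lit 5) (nat_lit 496) (nat_lit 474) (nat_lit 230)))) (XT.nd (nat_lit 78) (nat_lit 152) (nat_lit 0) (XT.lf (nat_lit 0) (nat_lit 2387108318066) (nat_lit 152) (nat_lit 514849800647) (nat_lit 228) (nat_lit 411841688018) (nat_lit 47) (nat_lit 5) (nat_lit 49) (nat_lit 5) (nat_lit 50) (nat_lit 5) (nat_lit 497) (nat_lit 474) (nat_lit 229)) (XT.nd (nat_lit 78) (nat_lit 0) (nat_lit 0) (XT.lf (nat_lit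 0) (nat_lit 363934115083) (nat_lit 152) (nat_lit 2379294698548) (nat_lit 76) (nat_lit 735387659679) (nat_lit 45) (nat_lit 5) (nat_lit 47) (nat_lit 5) (nat_lit 46) (nat_lit 5) (nat_lit 498) (nat_lit 474) (nat_lit 228)) (XT.lf (nat_lit 0) (nat_lit 1218890056463) (nat_lit 152) (nat_lit 339201641663) (nat_lit 76) (nat_lit 2094521542364) (nat_lit 45) (nat_lit 5) (nat_lit 47) (nat_lit 5) (nat_lit 46) (nat_lit 5) (nat_lit 499) (nat_lit 474) (nat_lit 227)))))) (XT.nd (nat_lit 468) (nat_lit 532) (nat_lit 0) (XT.nd (nat_lit 234) (nat_lit 228) (nat_lit 0) (XT.nd (nat_lit 78) (nat_lit 152) (nat_lit 0) (XT.lf (nat_lit 0) (nat_lit 1962259000276) (nat_lit 152) (nat_lit 227175847891) (nat_lit 228) (nat_lit 1647319510876) (nat_lit 43) (nat_lit 5) (nat_lit 45) (nat_lit 5) (nat_lit 46) (nat_lit 5) (nat_lit 500) (nat_lit 474) (nat_lit 226)) (XT.nd (nat_lit 78) (nat_lit 76) (nat_lit 0) (XT.lf (nat_lit 0) (nat_lit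 424111601291) (nat_lit 76) (nat_lit 2862332440105) (nat_lit 152) (nat_lit 745277060230) (nat_lit 42) (nat_lit 5) (nat_lit 43) (nat_lit 5) (nat_lit 44) (nat_lit 4) (nat_lit 501) (nat_lit 474) (nat_lit 225)) (XT.lf (nat_lit 0) (nat_lit 275960758099) (nat_lit 152) (nat_lit 1237711329003) (nat_lit 76) (nat_lit 2723493923753) (nat_lit 41) (nat_lit 5) (nat_lit 43) (nat_lit 5) (nat_lit 42) (nat_lit 5) (nat_lit 502) (nat_lit 474) (nat_lit 224)))) (XT.nd (nat_lit 78) (nat_lit 76) (nat_lit 0) (XT.lf (nat_lit 0) (nat_lit 1371004022337) (nat_lit 152) (nat_lit 601939149) (nat_lit 228) (nat_lit 3083254109382) (nat_lit 39) (nat_lit 5) (nat_lit 41) (nat_lit 5) (nat_lit 42) (nat_lit 5) (nat_lit 503) (nat_lit 474) (nat_lit 223)) (XT.nd (nat_lit 78) (nat_lit 76) (nat_lit 0) (XT.lf (nat_lit 0) (nat_lit 2628909040716) (nat_lit 228) (nat_lit 468621057442) (nat_lit 76) (nat_lit 1586519056759) (nat_lit 39) (nat_lit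 5) (nat_lit 42) (nat_lit 5) (nat_lit 40) (nat_lit 4) (nat_lit 504) (nat_lit 474) (nat_lit 222)) (XT.lf (nat_lit 0) (nat_lit 2479870249927) (nat_lit 76) (nat_lit 1566582689361) (nat_lit 152) (nat_lit 880347900562) (nat_lit 38) (nat_lit 5) (nat_lit 39) (nat_lit 5) (nat_lit 40) (nat_lit 4) (nat_lit 505) (nat_lit 474) (nat_lit 221))))) (XT.nd (nat_lit 234) (nat_lit 228) (nat_lit 0) (XT.nd (nat_lit 78) (nat_lit 76) (nat_lit 0) (XT.lf (nat_lit 0) (nat_lit 397627500261) (nat_lit 228) (nat_lit 4669927267357) (nat_lit 76) (nat_lit 118380113433) (nat_lit 35) (nat_lit 5) (nat_lit 38) (nat_lit 5) (nat_lit 36) (nat_lit 4) (nat_lit 506) (nat_lit 474) (nat_lit 220)) (XT.nd (nat_lit 78) (nat_lit 76) (nat_lit 0) (XT.lf (nat_lit 0) (nat_lit 1839610908687) (nat_lit 228) (nat_lit 1670601779148) (nat_lit 76) (nat_lit 1945011133106) (nat_lit 35) (nat_lit 5) (nat_lit 38) (nat_lit 5) (nat_lit 36) (nat_lit 4) (nat_lit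 507) (nat_lit 474) (nat_lit 219)) (XT.lf (nat_lit 0) (nat_lit 1651273115495) (nat_lit 76) (nat_lit 1785393031589) (nat_lit 152) (nat_lit 2306212676356) (nat_lit 34) (nat_lit 5) (nat_lit 35) (nat_lit 5) (nat_lit 36) (nat_lit 4) (nat_lit 508) (nat_lit 474) (nat_lit 218)))) (XT.nd (nat_lit 78) (nat_lit 228) (nat_lit 0) (XT.lf (nat_lit 0) (nat_lit 5210211203245) (nat_lit 152) (nat_lit 719033631799) (nat_lit 0) (nat_lit 120403359198) (nat_lit 34) (nat_lit 5) (nat_lit 36) (nat_lit 4) (nat_lit 34) (nat_lit 4) (nat_lit 509) (nat_lit 474) (nat_lit 217)) (XT.nd (nat_lit 78) (nat_lit 76) (nat_lit 0) (XT.lf (nat_lit 0) (nat_lit 829733664738) (nat_lit 152) (nat_lit 3363961822361) (nat_lit 76) (nat_lit 2176046471409) (nat_lit 32) (nat_lit 5) (nat_lit 34) (nat_lit 5) (nat_lit 33) (nat_lit 4) (nat_lit 510) (nat_lit 474) (nat_lit 216)) (XT.lf (nat_lit 0) (nat_lit 350836706619) (nat_lit 76) (nat_lit 2264857789790)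 (nat_lit 152) (nat_lit 4095715808883) (nat_lit 31) (nat_lit 5) (nat_lit 32) (nat_lit 5) (nat_lit 33) (nat_lit 4) (nat_lit 511) (nat_lit 474) (nat_lit 215))))))) (XT.nd (nat_lit 59748) (nat_lit 0) (nat_lit 2888) (XT.nd (nat_lit 390) (nat_lit 304) (nat_lit 0) (XT.nd (nat_lit 156) (nat_lit 152) (nat_lit 0) (XT.nd (nat_lit 78) (nat_lit 76) (nat_lit 0) (XT.lf (nat_lit 0) (nat_lit 4554130606066) (nat_lit 76) (nat_lit 82378265477) (nat_lit 152) (nat_lit 2436545114123) (nat_lit 31) (nat_lit 5) (nat_lit 32) (nat_lit 5) (nat_lit 33) (nat_lit 4) (nat_lit 512) (nat_lit 474) (nat_lit 214)) (XT.lf (nat_lit 0) (nat_lit 1658307534102) (nat_lit 76) (nat_lit 5255269778543) (nat_lit 76) (nat_lit 542484734548) (nat_lit 30) (nat_lit 4) (nat_lit 31) (nat_lit 5) (nat_lit 31) (nat_lit 4) (nat_lit 513) (nat_lit 474) (nat_lit 213))) (XT.nd (nat_lit 78) (nat_lit 76) (nat_lit 0) (XT.lf (nat_lit 0) (nat_lit 1500709704315)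 (nat_lit 152) (nat_lit 1591308859678) (nat_lit 76) (nat_lit 4768976189260) (nat_lit 29) (nat_lit 5) (nat_lit 31) (nat_lit 5) (nat_lit 30) (nat_lit 4) (nat_lit 514) (nat_lit 474) (nat_lit 212)) (XT.nd (nat_lit 78) (nat_lit 0) (nat_lit 0) (XT.lf (nat_lit 0) (nat_lit 3092248737711) (nat_lit 76) (nat_lit 660171350258) (nat_lit 152) (nat_lit 4538825254354) (nat_lit 28) (nat_lit 5) (nat_lit 29) (nat_lit 5) (nat_lit 30) (nat_lit 4) (nat_lit 515) (nat_lit 474) (nat_lit 211)) (XT.lf (nat_lit 0) (nat_lit 6276194340979) (nat_lit 152) (nat_lit 559862990716) (nat_lit 0) (nat_lit 1912504483728) (nat_lit 28) (nat_lit 5) (nat_lit 30) (nat_lit 4) (nat_lit 28) (nat_lit 4) (nat_lit 516) (nat_lit 474) (nat_lit 210))))) (XT.nd (nat_lit 234) (nat_lit 76) (nat_lit 0) (XT.nd (nat_lit 78) (nat_lit 152) (nat_lit 0) (XT.lf (nat_lit 0) (nat_lit 4666701302744) (nat_lit 76) (nat_lit 4464550817252) (nat_lit 76) (nat_lit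 100860959516) (nat_lit 27) (nat_lit 4) (nat_lit 28) (nat_lit 5) (nat_lit 28) (nat_lit 4) (nat_lit 517) (nat_lit 474) (nat_lit 209)) (XT.nd (nat_lit 78) (nat_lit 0) (nat_lit 0) (XT.lf (nat_lit 0) (nat_lit 558474501751) (nat_lit 76) (nat_lit 1807950671295) (nat_lit 152) (nat_lit 7380858596846) (nat_lit 25) (nat_lit 5) (nat_lit 26) (nat_lit 5) (nat_lit 27) (nat_lit 4) (nat_lit 518) (nat_lit 474) (nat_lit 208)) (XT.lf (nat_lit 0) (nat_lit 5179235122107) (nat_lit 152) (nat_lit 3973154659853) (nat_lit 0) (nat_lit 1138781549328) (nat_lit 25) (nat_lit 5) (nat_lit 27) (nat_lit 4) (nat_lit 25) (nat_lit 4) (nat_lit 519) (nat_lit 474) (nat_lit 207)))) (XT.nd (nat_lit 58968) (nat_lit 0) (nat_lit 4104) (XT.lf (nat_lit 0) (nat_lit 1697719356325) (nat_lit 76) (nat_lit 6607140459264) (nat_lit 76) (nat_lit 2566686886129) (nat_lit 24) (nat_lit 4) (nat_lit 25) (nat_lit 5) (nat_lit 25) (nat_lit 4) (nat_lit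 520) (nat_lit 474) (nat_lit 206)) (XT.nd (nat_lit 78) (nat_lit 0) (nat_lit 0) (XT.lf (nat_lit 0) (nat_lit 620950453647) (nat_lit 532) (nat_lit 15720745790) (nat_lit 532) (nat_lit 15720745790) (nat_lit 78) (nat_lit 3) (nat_lit 85) (nat_lit 3) (nat_lit 85) (nat_lit 5) (nat_lit 475) (nat_lit 475) (nat_lit 250)) (XT.lf (nat_lit 76) (nat_lit 645416465104) (nat_lit 0) (nat_lit 661682796176) (nat_lit 532) (nat_lit 48634199364) (nat_lit 79) (nat_lit 5) (nat_lit 78) (nat_lit 3) (nat_lit 85) (nat_lit 5) (nat_lit 476) (nat_lit 475) (nat_lit 249)))))) (XT.nd (nat_lit 468) (nat_lit 760) (nat_lit 0) (XT.nd (nat_lit 234) (nat_lit 0) (nat_lit 76) (XT.nd (nat_lit 78) (nat_lit 456) (nat_lit 0) (XT.lf (nat_lit 76) (nat_lit 1378211161750) (nat_lit 0) (nat_lit 161984262) (nat_lit 532) (nat_lit 32317077442) (nat_lit 79) (nat_lit 5) (nat_lit 78) (nat_lit 3) (nat_lit 85) (nat_lit 5) (nat_lit 477) (nat_lit 475)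 (nat_lit 248)) (XT.nd (nat_lit 78) (nat_lit 0) (nat_lit 0) (XT.lf (nat_lit 0) (nat_lit 21390018960) (nat_lit 532) (nat_lit 749486870823) (nat_lit 608) (nat_lit 696366948157) (nat_lit 72) (nat_lit 5) (nat_lit 79) (nat_lit 5) (nat_lit 80) (nat_lit 5) (nat_lit 478) (nat_lit 475) (nat_lit 247)) (XT.lf (nat_lit 76) (nat_lit 780664307) (nat_lit 0) (nat_lit 77801137263) (nat_lit 608) (nat_lit 1449598061240) (nat_lit 73) (nat_lit 5) (nat_lit 72) (nat_lit 5) (nat_lit 80) (nat_lit 5) (nat_lit 479) (nat_lit 475) (nat_lit 246)))) (XT.nd (nat_lit 78) (nat_lit 0) (nat_lit 0) (XT.lf (nat_lit 0) (nat_lit 177504338887) (nat_lit 532) (nat_lit 755320919461) (nat_lit 608) (nat_lit 658193078353) (nat_lit 73) (nat_lit 5) (nat_lit 80) (nat_lit 5) (nat_lit 81) (nat_lit 5) (nat_lit 480) (nat_lit 475) (nat_lit 245)) (XT.nd (nat_lit 78) (nat_lit 0) (nat_lit 76) (XT.lf (nat_lit 76) (nat_lit 80531313235) (nat_lit 0)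 (nat_lit 207766951917) (nat_lit 608) (nat_lit 1370269016478) (nat_lit 74) (nat_lit 5) (nat_lit 73) (nat_lit 5) (nat_lit 81) (nat_lit 5) (nat_lit 481) (nat_lit 475) (nat_lit 244)) (XT.lf (nat_lit 0) (nat_lit 442979809152) (nat_lit 532) (nat_lit 718032798966) (nat_lit 76) (nat_lit 567705605745) (nat_lit 74) (nat_lit 5) (nat_lit 81) (nat_lit 5) (nat_lit 75) (nat_lit 5) (nat_lit 482) (nat_lit 475) (nat_lit 243))))) (XT.nd (nat_lit 234) (nat_lit 228) (nat_lit 0) (XT.nd (nat_lit 78) (nat_lit 228) (nat_lit 0) (XT.lf (nat_lit 0) (nat_lit 216188712452) (nat_lit 456) (nat_lit 404443049700) (nat_lit 532) (nat_lit 1183001787684) (nat_lit 68) (nat_lit 5) (nat_lit 74) (nat_lit 5) (nat_lit 75) (nat_lit 5) (nat_lit 483) (nat_lit 475) (nat_lit 242)) (XT.nd (nat_lit 78) (nat_lit 228) (nat_lit 0) (XT.lf (nat_lit 0) (nat_lit 842562380129) (nat_lit 532) (nat_lit 627422647596) (nat_lit 76) (nat_lit 412151764264)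 (nat_lit 68) (nat_lit 5) (nat_lit 75) (nat_lit 5) (nat_lit 69) (nat_lit 5) (nat_lit 484) (nat_lit 475) (nat_lit 241)) (XT.lf (nat_lit 0) (nat_lit 419901473118) (nat_lit 228) (nat_lit 682949627073) (nat_lit 304) (nat_lit 862420901113) (nat_lit 65) (nat_lit 5) (nat_lit 68) (nat_lit 5) (nat_lit 69) (nat_lit 5) (nat_lit 485) (nat_lit 475) (nat_lit 240)))) (XT.nd (nat_lit 78) (nat_lit 228) (nat_lit 0) (XT.lf (nat_lit 0) (nat_lit 1405580866305) (nat_lit 304) (nat_lit 471455139999) (nat_lit 76) (nat_lit 176292585185) (nat_lit 65) (nat_lit 5) (nat_lit 69) (nat_lit 5) (nat_lit 66) (nat_lit 5) (nat_lit 486) (nat_lit 475) (nat_lit 239)) (XT.nd (nat_lit 78) (nat_lit 0) (nat_lit 0) (XT.lf (nat_lit 0) (nat_lit 705948951345) (nat_lit 228) (nat_lit 1061297101070) (nat_lit 304) (nat_lit 378406293377) (nat_lit 62) (nat_lit 5) (nat_lit 65) (nat_lit 5) (nat_lit 66) (nat_lit 5) (nat_lit 487) (nat_lit 475) (nat_lit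 238)) (XT.lf (nat_lit 0) (nat_lit 2004357439409) (nat_lit 228) (nat_lit 166377431211) (nat_lit 304) (nat_lit 73595896445) (nat_lit 62) (nat_lit 5) (nat_lit 65) (nat_lit 5) (nat_lit 66) (nat_lit 5) (nat_lit 488) (nat_lit 475) (nat_lit 237))))))))
noncomputable def xc237 : XT := (XT.nd (nat_lit 1794) (nat_lit 532) (nat_lit 0) (XT.nd (nat_lit 858) (nat_lit 988) (nat_lit 0) (XT.nd (nat_lit 390) (nat_lit 684) (nat_lit 0) (XT.nd (nat_lit 156) (nat_lit 152) (nat_lit 0) (XT.nd (nat_lit 78) (nat_lit 228) (nat_lit 0) (XT.lf (nat_lit 0) (nat_lit 289478194266) (nat_lit 228) (nat_lit 1263521656002) (nat_lit 76) (nat_lit 793678640099) (nat_lit 59) (nat_lit 5) (nat_lit 62) (nat_lit 5) (nat_lit 60) (nat_lit 5) (nat_lit 489) (nat_lit 475) (nat_lit 236)) (XT.lf (nat_lit 0) (nat_lit 65993542689) (nat_lit 228) (nat_lit 624268935232) (nat_lit 304) (nat_lit 1765787398622) (nat_lit 56) (nat_lit 5) (nat_lit 59)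 (nat_lit 5) (nat_lit 60) (nat_lit 5) (nat_lit 490) (nat_lit 475) (nat_lit 235))) (XT.nd (nat_lit 78) (nat_lit 152) (nat_lit 0) (XT.lf (nat_lit 0) (nat_lit 1167662944536) (nat_lit 304) (nat_lit 1007686189326) (nat_lit 76) (nat_lit 395257564528) (nat_lit 56) (nat_lit 5) (nat_lit 60) (nat_lit 5) (nat_lit 57) (nat_lit 5) (nat_lit 491) (nat_lit 475) (nat_lit 234)) (XT.nd (nat_lit 78) (nat_lit 0) (nat_lit 0) (XT.lf (nat_lit 0) (nat_lit 493758591668) (nat_lit 152) (nat_lit 1217586538879) (nat_lit 228) (nat_lit 980735760874) (nat_lit 54) (nat_lit 5) (nat_lit 56) (nat_lit 5) (nat_lit 57) (nat_lit 5) (nat_lit 492) (nat_lit 475) (nat_lit 233)) (XT.lf (nat_lit 0) (nat_lit 2172626959624) (nat_lit 152) (nat_lit 153446856591) (nat_lit 228) (nat_lit 494995049698) (nat_lit 54) (nat_lit 5) (nat_lit 56) (nat_lit 5) (nat_lit 57) (nat_lit 5) (nat_lit 493) (nat_lit 475) (nat_lit 232))))) (XT.nd (nat_lit 234)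 (nat_lit 304) (nat_lit 0) (XT.nd (nat_lit 78) (nat_lit 152) (nat_lit 0) (XT.lf (nat_lit 0) (nat_lit 78708067571) (nat_lit 228) (nat_lit 1904208755860) (nat_lit 76) (nat_lit 973355366445) (nat_lit 51) (nat_lit 5) (nat_lit 54) (nat_lit 5) (nat_lit 52) (nat_lit 5) (nat_lit 494) (nat_lit 475) (nat_lit 231)) (XT.nd (nat_lit 78) (nat_lit 152) (nat_lit 0) (XT.lf (nat_lit 0) (nat_lit 693740534529) (nat_lit 228) (nat_lit 192689905048) (nat_lit 76) (nat_lit 2213058723835) (nat_lit 51) (nat_lit 5) (nat_lit 54) (nat_lit 5) (nat_lit 52) (nat_lit 5) (nat_lit 495) (nat_lit 475) (nat_lit 230)) (XT.lf (nat_lit 0) (nat_lit 1408143595295) (nat_lit 228) (nat_lit 1516121004409) (nat_lit 76) (nat_lit 325885455412) (nat_lit 49) (nat_lit 5) (nat_lit 52) (nat_lit 5) (nat_lit 50) (nat_lit 5) (nat_lit 496) (nat_lit 475) (nat_lit 229)))) (XT.nd (nat_lit 78) (nat_lit 152) (nat_lit 0) (XT.lf (nat_lit 0) (nat_lit 410789995535)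 (nat_lit 152) (nat_lit 1807217907953) (nat_lit 228) (nat_lit 1191791194464) (nat_lit 47) (nat_lit 5) (nat_lit 49) (nat_lit 5) (nat_lit 50) (nat_lit 5) (nat_lit 497) (nat_lit 475) (nat_lit 228)) (XT.nd (nat_lit 78) (nat_lit 152) (nat_lit 0) (XT.lf (nat_lit 0) (nat_lit 2578077018597) (nat_lit 152) (nat_lit 556037771666) (nat_lit 228) (nat_lit 444788999237) (nat_lit 47) (nat_lit 5) (nat_lit 49) (nat_lit 5) (nat_lit 50) (nat_lit 5) (nat_lit 498) (nat_lit 475) (nat_lit 227)) (XT.lf (nat_lit 0) (nat_lit 393048866420) (nat_lit 152) (nat_lit 2569638237646) (nat_lit 76) (nat_lit 794218685333) (nat_lit 45) (nat_lit 5) (nat_lit 47) (nat_lit 5) (nat_lit 46) (nat_lit 5) (nat_lit 499) (nat_lit 475) (nat_lit 226)))))) (XT.nd (nat_lit 468) (nat_lit 532) (nat_lit 0) (XT.nd (nat_lit 234) (nat_lit 228) (nat_lit 0) (XT.nd (nat_lit 78) (nat_lit 228) (nat_lit 0) (XT.lf (nat_lit 0) (nat_lit 1316401281471) (nat_lit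 152) (nat_lit 366337738936) (nat_lit 76) (nat_lit 2262083277679) (nat_lit 45) (nat_lit 5) (nat_lit 47) (nat_lit 5) (nat_lit 46) (nat_lit 5) (nat_lit 500) (nat_lit 475) (nat_lit 225)) (XT.nd (nat_lit 78) (nat_lit 76) (nat_lit 0) (XT.lf (nat_lit 0) (nat_lit 2119239753496) (nat_lit 152) (nat_lit 245349902296) (nat_lit 228) (nat_lit 1779105050389) (nat_lit 43) (nat_lit 5) (nat_lit 45) (nat_lit 5) (nat_lit 46) (nat_lit 5) (nat_lit 501) (nat_lit 475) (nat_lit 224)) (XT.lf (nat_lit 0) (nat_lit 458040562982) (nat_lit 76) (nat_lit 3091319021139) (nat_lit 152) (nat_lit 804899204078) (nat_lit 42) (nat_lit 5) (nat_lit 43) (nat_lit 5) (nat_lit 44) (nat_lit 4) (nat_lit 502) (nat_lit 475) (nat_lit 223)))) (XT.nd (nat_lit 78) (nat_lit 152) (nat_lit 0) (XT.lf (nat_lit 0) (nat_lit 298037637193) (nat_lit 152) (nat_lit 1336728203249) (nat_lit 76) (nat_lit 2941373449803) (nat_lit 41) (nat_lit 5) (nat_lit 43)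 (nat_lit 5) (nat_lit 42) (nat_lit 5) (nat_lit 503) (nat_lit 475) (nat_lit 222)) (XT.nd (nat_lit 78) (nat_lit 0) (nat_lit 0) (XT.lf (nat_lit 0) (nat_lit 1480684375386) (nat_lit 152) (nat_lit 650080850) (nat_lit 228) (nat_lit 3329914418873) (nat_lit 39) (nat_lit 5) (nat_lit 41) (nat_lit 5) (nat_lit 42) (nat_lit 5) (nat_lit 504) (nat_lit 475) (nat_lit 221)) (XT.lf (nat_lit 0) (nat_lit 2839221780783) (nat_lit 228) (nat_lit 506110712067) (nat_lit 76) (nat_lit 1713440593113) (nat_lit 39) (nat_lit 5) (nat_lit 42) (nat_lit 5) (nat_lit 40) (nat_lit 4) (nat_lit 505) (nat_lit 475) (nat_lit 220))))) (XT.nd (nat_lit 234) (nat_lit 228) (nat_lit 0) (XT.nd (nat_lit 78) (nat_lit 228) (nat_lit 0) (XT.lf (nat_lit 0) (nat_lit 2678259899133) (nat_lit 76) (nat_lit 1691909291566) (nat_lit 152) (nat_lit 950775715036) (nat_lit 38) (nat_lit 5) (nat_lit 39) (nat_lit 5) (nat_lit 40) (nat_lit 4) (nat_lit 506) (nat_lit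 475) (nat_lit 219)) (XT.nd (nat_lit 78) (nat_lit 0) (nat_lit 0) (XT.lf (nat_lit 0) (nat_lit 429437716759) (nat_lit 228) (nat_lit 5043521418437) (nat_lit 76) (nat_lit 127850535019) (nat_lit 35) (nat_lit 5) (nat_lit 38) (nat_lit 5) (nat_lit 36) (nat_lit 4) (nat_lit 507) (nat_lit 475) (nat_lit 218)) (XT.lf (nat_lit 0) (nat_lit 1986779796639) (nat_lit 228) (nat_lit 1804249893417) (nat_lit 76) (nat_lit 2100612035339) (nat_lit 35) (nat_lit 5) (nat_lit 38) (nat_lit 5) (nat_lit 36) (nat_lit 4) (nat_lit 508) (nat_lit 475) (nat_lit 217)))) (XT.nd (nat_lit 78) (nat_lit 152) (nat_lit 0) (XT.lf (nat_lit 0) (nat_lit 1783374992088) (nat_lit 76) (nat_lit 1928224461547) (nat_lit 152) (nat_lit 2490709674496) (nat_lit 34) (nat_lit 5) (nat_lit 35) (nat_lit 5) (nat_lit 36) (nat_lit 4) (nat_lit 509) (nat_lit 475) (nat_lit 216)) (XT.nd (nat_lit 78) (nat_lit 152) (nat_lit 0) (XT.lf (nat_lit 0) (nat_lit 5627028113474)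 (nat_lit 152) (nat_lit 776556296199) (nat_lit 0) (nat_lit 130035638989) (nat_lit 34) (nat_lit 5) (nat_lit 36) (nat_lit 4) (nat_lit 34) (nat_lit 4) (nat_lit 510) (nat_lit 475) (nat_lit 215)) (XT.lf (nat_lit 0) (nat_lit 896112371817) (nat_lit 152) (nat_lit 3633078741935) (nat_lit 76) (nat_lit 2350130200323) (nat_lit 32) (nat_lit 5) (nat_lit 34) (nat_lit 5) (nat_lit 33) (nat_lit 4) (nat_lit 511) (nat_lit 475) (nat_lit 214))))))) (XT.nd (nat_lit 59904) (nat_lit 0) (nat_lit 2584) (XT.nd (nat_lit 468) (nat_lit 228) (nat_lit 0) (XT.nd (nat_lit 234) (nat_lit 152) (nat_lit 0) (XT.nd (nat_lit 78) (nat_lit 76) (nat_lit 0) (XT.lf (nat_lit 0) (nat_lit 378903668699) (nat_lit 76) (nat_lit 2446046400908) (nat_lit 152) (nat_lit 4423373059029) (nat_lit 31) (nat_lit 5) (nat_lit 32) (nat_lit 5) (nat_lit 33) (nat_lit 4) (nat_lit 512) (nat_lit 475) (nat_lit 213)) (XT.nd (nat_lit 78) (nat_lit 76) (nat_lit 0)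 (XT.lf (nat_lit 0) (nat_lit 4918461078210) (nat_lit 76) (nat_lit 88968515543) (nat_lit 152) (nat_lit 2631468709767) (nat_lit 31) (nat_lit 5) (nat_lit 32) (nat_lit 5) (nat_lit 33) (nat_lit 4) (nat_lit 513) (nat_lit 475) (nat_lit 212)) (XT.lf (nat_lit 0) (nat_lit 1790972160603) (nat_lit 76) (nat_lit 5675691349437) (nat_lit 76) (nat_lit 585883499939) (nat_lit 30) (nat_lit 4) (nat_lit 31) (nat_lit 5) (nat_lit 31) (nat_lit 4) (nat_lit 514) (nat_lit 475) (nat_lit 211)))) (XT.nd (nat_lit 78) (nat_lit 76) (nat_lit 0) (XT.lf (nat_lit 0) (nat_lit 1620766492423) (nat_lit 152) (nat_lit 1718613545821) (nat_lit 76) (nat_lit 5150494294328) (nat_lit 29) (nat_lit 5) (nat_lit 31) (nat_lit 5) (nat_lit 30) (nat_lit 4) (nat_lit 515) (nat_lit 475) (nat_lit 210)) (XT.nd (nat_lit 78) (nat_lit 0) (nat_lit 0) (XT.lf (nat_lit 0) (nat_lit 3339628658786) (nat_lit 76) (nat_lit 712985047642) (nat_lit 152) (nat_lit 4901931262365)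 (nat_lit 28) (nat_lit 5) (nat_lit 29) (nat_lit 5) (nat_lit 30) (nat_lit 4) (nat_lit 516) (nat_lit 475) (nat_lit 209)) (XT.lf (nat_lit 0) (nat_lit 6778289899071) (nat_lit 152) (nat_lit 604652008939) (nat_lit 0) (nat_lit 2065504851782) (nat_lit 28) (nat_lit 5) (nat_lit 30) (nat_lit 4) (nat_lit 28) (nat_lit 4) (nat_lit 517) (nat_lit 475) (nat_lit 208))))) (XT.nd (nat_lit 59202) (nat_lit 0) (nat_lit 4028) (XT.nd (nat_lit 78) (nat_lit 152) (nat_lit 0) (XT.lf (nat_lit 0) (nat_lit 5040037427465) (nat_lit 76) (nat_lit 4821714872635) (nat_lit 76) (nat_lit 108929824931) (nat_lit 27) (nat_lit 4) (nat_lit 28) (nat_lit 5) (nat_lit 28) (nat_lit 4) (nat_lit 518) (nat_lit 475) (nat_lit 207)) (XT.nd (nat_lit 78) (nat_lit 0) (nat_lit 0) (XT.lf (nat_lit 0) (nat_lit 603152482428) (nat_lit 76) (nat_lit 1952586714936) (nat_lit 152) (nat_lit 7971327273281) (nat_lit 25) (nat_lit 5) (nat_lit 26) (nat_lit 5) (nat_lit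 27) (nat_lit 4) (nat_lit 519) (nat_lit 475) (nat_lit 206)) (XT.lf (nat_lit 0) (nat_lit 5593573941798) (nat_lit 152) (nat_lit 4291007013074) (nat_lit 0) (nat_lit 1229884082126) (nat_lit 25) (nat_lit 5) (nat_lit 27) (nat_lit 4) (nat_lit 25) (nat_lit 4) (nat_lit 520) (nat_lit 475) (nat_lit 205)))) (XT.nd (nat_lit 78) (nat_lit 0) (nat_lit 0) (XT.lf (nat_lit 0) (nat_lit 670626525254) (nat_lit 532) (nat_lit 16978386376) (nat_lit 532) (nat_lit 16978386376) (nat_lit 78) (nat_lit 3) (nat_lit 85) (nat_lit 3) (nat_lit 85) (nat_lit 5) (nat_lit 476) (nat_lit 476) (nat_lit 248)) (XT.nd (nat_lit 78) (nat_lit 0) (nat_lit 0) (XT.lf (nat_lit 76) (nat_lit 697049819500) (nat_lit 0) (nat_lit 714617448974) (nat_lit 532) (nat_lit 52524863691) (nat_lit 79) (nat_lit 5) (nat_lit 78) (nat_lit 3) (nat_lit 85) (nat_lit 5) (nat_lit 477) (nat_lit 476) (nat_lit 247)) (XT.lf (nat_lit 76) (nat_lit 1488468089124) (nat_lit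 0) (nat_lit 174969951) (nat_lit 532) (nat_lit 34902377320) (nat_lit 79) (nat_lit 5) (nat_lit 78) (nat_lit 3) (nat_lit 85) (nat_lit 5) (nat_lit 478) (nat_lit 476) (nat_lit 246)))))) (XT.nd (nat_lit 468) (nat_lit 684) (nat_lit 0) (XT.nd (nat_lit 234) (nat_lit 304) (nat_lit 0) (XT.nd (nat_lit 78) (nat_lit 0) (nat_lit 0) (XT.lf (nat_lit 0) (nat_lit 23101279156) (nat_lit 532) (nat_lit 809445778374) (nat_lit 608) (nat_lit 752076282729) (nat_lit 72) (nat_lit 5) (nat_lit 79) (nat_lit 5) (nat_lit 80) (nat_lit 5) (nat_lit 479) (nat_lit 476) (nat_lit 245)) (XT.nd (nat_lit 78) (nat_lit 0) (nat_lit 76) (XT.lf (nat_lit 76) (nat_lit 843158499) (nat_lit 0) (nat_lit 84025242516) (nat_lit 608) (nat_lit 1565565846374) (nat_lit 73) (nat_lit 5) (nat_lit 72) (nat_lit 5) (nat_lit 80) (nat_lit 5) (nat_lit 480) (nat_lit 476) (nat_lit 244)) (XT.lf (nat_lit 0) (nat_lit 191704736902) (nat_lit 532) (nat_lit 815746550577)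 (nat_lit 608) (nat_lit 710848512068) (nat_lit 73) (nat_lit 5) (nat_lit 80) (nat_lit 5) (nat_lit 81) (nat_lit 5) (nat_lit 481) (nat_lit 476) (nat_lit 243)))) (XT.nd (nat_lit 78) (nat_lit 380) (nat_lit 0) (XT.lf (nat_lit 76) (nat_lit 86973859660) (nat_lit 0) (nat_lit 224388314832) (nat_lit 608) (nat_lit 1479890485801) (nat_lit 74) (nat_lit 5) (nat_lit 73) (nat_lit 5) (nat_lit 81) (nat_lit 5) (nat_lit 482) (nat_lit 476) (nat_lit 242)) (XT.nd (nat_lit 78) (nat_lit 456) (nat_lit 0) (XT.lf (nat_lit 0) (nat_lit 478418238297) (nat_lit 532) (nat_lit 775475380850) (nat_lit 76) (nat_lit 613122048257) (nat_lit 74) (nat_lit 5) (nat_lit 81) (nat_lit 5) (nat_lit 75) (nat_lit 5) (nat_lit 483) (nat_lit 476) (nat_lit 241)) (XT.lf (nat_lit 0) (nat_lit 233483850417) (nat_lit 456) (nat_lit 436798494815) (nat_lit 532) (nat_lit 1277641885208) (nat_lit 68) (nat_lit 5) (nat_lit 74) (nat_lit 5) (nat_lit 75) (nat_lit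 5) (nat_lit 484) (nat_lit 476) (nat_lit 240))))) (XT.nd (nat_lit 234) (nat_lit 456) (nat_lit 0) (XT.nd (nat_lit 78) (nat_lit 228) (nat_lit 0) (XT.lf (nat_lit 0) (nat_lit 909967409503) (nat_lit 532) (nat_lit 677616418312) (nat_lit 76) (nat_lit 445123904404) (nat_lit 68) (nat_lit 5) (nat_lit 75) (nat_lit 5) (nat_lit 69) (nat_lit 5) (nat_lit 485) (nat_lit 476) (nat_lit 239)) (XT.nd (nat_lit 78) (nat_lit 0) (nat_lit 0) (XT.lf (nat_lit 0) (nat_lit 453493631020) (nat_lit 228) (nat_lit 737585594228) (nat_lit 304) (nat_lit 931414533186) (nat_lit 65) (nat_lit 5) (nat_lit 68) (nat_lit 5) (nat_lit 69) (nat_lit 5) (nat_lit 486) (nat_lit 476) (nat_lit 238)) (XT.lf (nat_lit 0) (nat_lit 1518027369974) (nat_lit 304) (nat_lit 509171511426) (nat_lit 76) (nat_lit 190395994648) (nat_lit 65) (nat_lit 5) (nat_lit 69) (nat_lit 5) (nat_lit 66) (nat_lit 5) (nat_lit 487) (nat_lit 476) (nat_lit 237)))) (XT.nd (nat_lit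 78) (nat_lit 228) (nat_lit 0) (XT.lf (nat_lit 0) (nat_lit 762424906219) (nat_lit 228) (nat_lit 1146200863141) (nat_lit 304) (nat_lit 408678761466) (nat_lit 62) (nat_lit 5) (nat_lit 65) (nat_lit 5) (nat_lit 66) (nat_lit 5) (nat_lit 488) (nat_lit 476) (nat_lit 236)) (XT.nd (nat_lit 78) (nat_lit 228) (nat_lit 0) (XT.lf (nat_lit 0) (nat_lit 2164706070456) (nat_lit 228) (nat_lit 179687620138) (nat_lit 304) (nat_lit 79483535400) (nat_lit 62) (nat_lit 5) (nat_lit 65) (nat_lit 5) (nat_lit 66) (nat_lit 5) (nat_lit 489) (nat_lit 476) (nat_lit 235)) (XT.lf (nat_lit 0) (nat_lit 312636479669) (nat_lit 228) (nat_lit 1364603349673) (nat_lit 76) (nat_lit 857172937858) (nat_lit 59) (nat_lit 5) (nat_lit 62) (nat_lit 5) (nat_lit 60) (nat_lit 5) (nat_lit 490) (nat_lit 476) (nat_lit 234))))))))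
noncomputable def xc238 : XT := (XT.nd (nat_lit 1794) (nat_lit 304) (nat_lit 0) (XT.nd (nat_lit 858) (nat_lit 1064) (nat_lit 0) (XT.nd (nat_lit 390) (nat_lit 456) (nat_lit 0) (XT.nd (nat_lit 156) (nat_lit 380) (nat_lit 0) (XT.nd (nat_lit 78) (nat_lit 0) (nat_lit 0) (XT.lf (nat_lit 0) (nat_lit 71273063931) (nat_lit 228) (nat_lit 674210440783) (nat_lit 304) (nat_lit 1907050359659) (nat_lit 56) (nat_lit 5) (nat_lit 59) (nat_lit 5) (nat_lit 60) (nat_lit 5) (nat_lit 491) (nat_lit 476) (nat_lit 233)) (XT.lf (nat_lit 0) (nat_lit 1261076006750) (nat_lit 304) (nat_lit 1088301047531) (nat_lit 76) (nat_lit 426878177842) (nat_lit 56) (nat_lit 5) (nat_lit 60) (nat_lit 5) (nat_lit 57) (nat_lit 5) (nat_lit 492) (nat_lit 476) (nat_lit 232))) (XT.nd (nat_lit 78) (nat_lit 228) (nat_lit 0) (XT.lf (nat_lit 0) (nat_lit 533259315008) (nat_lit 152) (nat_lit 1314993451525) (nat_lit 228) (nat_lit 1059194594151)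 (nat_lit 54) (nat_lit 5) (nat_lit 56) (nat_lit 5) (nat_lit 57) (nat_lit 5) (nat_lit 493) (nat_lit 476) (nat_lit 231)) (XT.nd (nat_lit 78) (nat_lit 228) (nat_lit 0) (XT.lf (nat_lit 0) (nat_lit 2346437149733) (nat_lit 152) (nat_lit 165722595430) (nat_lit 228) (nat_lit 534594628125) (nat_lit 54) (nat_lit 5) (nat_lit 56) (nat_lit 5) (nat_lit 57) (nat_lit 5) (nat_lit 494) (nat_lit 476) (nat_lit 230)) (XT.lf (nat_lit 0) (nat_lit 85004736512) (nat_lit 228) (nat_lit 2056545420966) (nat_lit 76) (nat_lit 1051223805700) (nat_lit 51) (nat_lit 5) (nat_lit 54) (nat_lit 5) (nat_lit 52) (nat_lit 5) (nat_lit 495) (nat_lit 476) (nat_lit 229))))) (XT.nd (nat_lit 234) (nat_lit 152) (nat_lit 0) (XT.nd (nat_lit 78) (nat_lit 304) (nat_lit 0) (XT.lf (nat_lit 0) (nat_lit 749239799084) (nat_lit 228) (nat_lit 208105064708) (nat_lit 76) (nat_lit 2390103430945) (nat_lit 51) (nat_lit 5) (nat_lit 54) (nat_lit 5) (nat_lit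 52) (nat_lit 5) (nat_lit 496) (nat_lit 476) (nat_lit 228)) (XT.nd (nat_lit 78) (nat_lit 152) (nat_lit 0) (XT.lf (nat_lit 0) (nat_lit 1520795104128) (nat_lit 228) (nat_lit 1637410651431) (nat_lit 76) (nat_lit 351956302265) (nat_lit 49) (nat_lit 5) (nat_lit 52) (nat_lit 5) (nat_lit 50) (nat_lit 5) (nat_lit 497) (nat_lit 476) (nat_lit 227)) (XT.lf (nat_lit 0) (nat_lit 443653227665) (nat_lit 152) (nat_lit 1951795328522) (nat_lit 228) (nat_lit 1287134467964) (nat_lit 47) (nat_lit 5) (nat_lit 49) (nat_lit 5) (nat_lit 50) (nat_lit 5) (nat_lit 498) (nat_lit 476) (nat_lit 226)))) (XT.nd (nat_lit 78) (nat_lit 152) (nat_lit 0) (XT.lf (nat_lit 0) (nat_lit 2784323210165) (nat_lit 152) (nat_lit 600520782227) (nat_lit 228) (nat_lit 480372098752) (nat_lit 47) (nat_lit 5) (nat_lit 49) (nat_lit 5) (nat_lit 50) (nat_lit 5) (nat_lit 499) (nat_lit 476) (nat_lit 225)) (XT.nd (nat_lit 78) (nat_lit 0) (nat_lit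 0) (XT.lf (nat_lit 0) (nat_lit 424492794708) (nat_lit 152) (nat_lit 2775209265121) (nat_lit 76) (nat_lit 857756191203) (nat_lit 45) (nat_lit 5) (nat_lit 47) (nat_lit 5) (nat_lit 46) (nat_lit 5) (nat_lit 500) (nat_lit 476) (nat_lit 224)) (XT.lf (nat_lit 0) (nat_lit 1421713401557) (nat_lit 152) (nat_lit 395644728849) (nat_lit 76) (nat_lit 2443049950118) (nat_lit 45) (nat_lit 5) (nat_lit 47) (nat_lit 5) (nat_lit 46) (nat_lit 5) (nat_lit 501) (nat_lit 476) (nat_lit 223)))))) (XT.nd (nat_lit 468) (nat_lit 532) (nat_lit 0) (XT.nd (nat_lit 234) (nat_lit 228) (nat_lit 0) (XT.nd (nat_lit 78) (nat_lit 152) (nat_lit 0) (XT.lf (nat_lit 0) (nat_lit 2288778962238) (nat_lit 152) (nat_lit 264977882969) (nat_lit 228) (nat_lit 1921433436110) (nat_lit 43) (nat_lit 5) (nat_lit 45) (nat_lit 5) (nat_lit 46) (nat_lit 5) (nat_lit 502) (nat_lit 476) (nat_lit 222)) (XT.nd (nat_lit 78) (nat_lit 76) (nat_lit 0) (XT.lf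 (nat_lit 0) (nat_lit 494683836817) (nat_lit 76) (nat_lit 3338624530679) (nat_lit 152) (nat_lit 869291122426) (nat_lit 42) (nat_lit 5) (nat_lit 43) (nat_lit 5) (nat_lit 44) (nat_lit 4) (nat_lit 503) (nat_lit 476) (nat_lit 221)) (XT.lf (nat_lit 0) (nat_lit 321880663982) (nat_lit 152) (nat_lit 1443666432011) (nat_lit 76) (nat_lit 3176683336203) (nat_lit 41) (nat_lit 5) (nat_lit 43) (nat_lit 5) (nat_lit 42) (nat_lit 5) (nat_lit 504) (nat_lit 476) (nat_lit 220)))) (XT.nd (nat_lit 78) (nat_lit 76) (nat_lit 0) (XT.lf (nat_lit 0) (nat_lit 1599139152219) (nat_lit 152) (nat_lit 702075804) (nat_lit 228) (nat_lit 3596307555870) (nat_lit 39) (nat_lit 5) (nat_lit 41) (nat_lit 5) (nat_lit 42) (nat_lit 5) (nat_lit 505) (nat_lit 476) (nat_lit 219)) (XT.nd (nat_lit 78) (nat_lit 76) (nat_lit 0) (XT.lf (nat_lit 0) (nat_lit 3066359537657) (nat_lit 228) (nat_lit 546599543338) (nat_lit 76) (nat_lit 1850515850691)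 (nat_lit 39) (nat_lit 5) (nat_lit 42) (nat_lit 5) (nat_lit 40) (nat_lit 4) (nat_lit 506) (nat_lit 476) (nat_lit 218)) (XT.lf (nat_lit 0) (nat_lit 2892520716108) (nat_lit 76) (nat_lit 1827262023793) (nat_lit 152) (nat_lit 1026837757175) (nat_lit 38) (nat_lit 5) (nat_lit 39) (nat_lit 5) (nat_lit 40) (nat_lit 4) (nat_lit 507) (nat_lit 476) (nat_lit 217))))) (XT.nd (nat_lit 234) (nat_lit 228) (nat_lit 0) (XT.nd (nat_lit 78) (nat_lit 76) (nat_lit 0) (XT.lf (nat_lit 0) (nat_lit 463792748226) (nat_lit 228) (nat_lit 5447003105928) (nat_lit 76) (nat_lit 138078588547) (nat_lit 35) (nat_lit 5) (nat_lit 38) (nat_lit 5) (nat_lit 36) (nat_lit 4) (nat_lit 508) (nat_lit 476) (nat_lit 216)) (XT.nd (nat_lit 78) (nat_lit 76) (nat_lit 0) (XT.lf (nat_lit 0) (nat_lit 2145722193450) (nat_lit 228) (nat_lit 1948589860831) (nat_lit 76) (nat_lit 2268661008098) (nat_lit 35) (nat_lit 5) (nat_lit 38) (nat_lit 5) (nat_lit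 36) (nat_lit 4) (nat_lit 509) (nat_lit 476) (nat_lit 215)) (XT.lf (nat_lit 0) (nat_lit 1926045014905) (nat_lit 76) (nat_lit 2082482407695) (nat_lit 152) (nat_lit 2689966434765) (nat_lit 34) (nat_lit 5) (nat_lit 35) (nat_lit 5) (nat_lit 36) (nat_lit 4) (nat_lit 510) (nat_lit 476) (nat_lit 214)))) (XT.nd (nat_lit 78) (nat_lit 228) (nat_lit 0) (XT.lf (nat_lit 0) (nat_lit 6077190374528) (nat_lit 152) (nat_lit 838680777482) (nat_lit 0) (nat_lit 140438499587) (nat_lit 34) (nat_lit 5) (nat_lit 36) (nat_lit 4) (nat_lit 34) (nat_lit 4) (nat_lit 511) (nat_lit 476) (nat_lit 213)) (XT.nd (nat_lit 78) (nat_lit 76) (nat_lit 0) (XT.lf (nat_lit 0) (nat_lit 967801373480) (nat_lit 152) (nat_lit 3923725018815) (nat_lit 76) (nat_lit 2538140625952) (nat_lit 32) (nat_lit 5) (nat_lit 34) (nat_lit 5) (nat_lit 33) (nat_lit 4) (nat_lit 512) (nat_lit 476) (nat_lit 212)) (XT.lf (nat_lit 0) (nat_lit 409215984101) (nat_lit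 76) (nat_lit 2641730102636) (nat_lit 152) (nat_lit 4777242891264) (nat_lit 31) (nat_lit 5) (nat_lit 32) (nat_lit 5) (nat_lit 33) (nat_lit 4) (nat_lit 513) (nat_lit 476) (nat_lit 211))))))) (XT.nd (nat_lit 60060) (nat_lit 0) (nat_lit 2052) (XT.nd (nat_lit 59592) (nat_lit 0) (nat_lit 3420) (XT.nd (nat_lit 234) (nat_lit 152) (nat_lit 0) (XT.nd (nat_lit 78) (nat_lit 152) (nat_lit 0) (XT.lf (nat_lit 0) (nat_lit 5311937984750) (nat_lit 76) (nat_lit 96085987208) (nat_lit 152) (nat_lit 2841986194986) (nat_lit 31) (nat_lit 5) (nat_lit 32) (nat_lit 5) (nat_lit 33) (nat_lit 4) (nat_lit 514) (nat_lit 476) (nat_lit 210)) (XT.nd (nat_lit 78) (nat_lit 76) (nat_lit 0) (XT.lf (nat_lit 0) (nat_lit 1934249953832) (nat_lit 76) (nat_lit 6129746647626) (nat_lit 76) (nat_lit 632754168469) (nat_lit 30) (nat_lit 4) (nat_lit 31) (nat_lit 5) (nat_lit 31) (nat_lit 4) (nat_lit 515) (nat_lit 476) (nat_lit 209)) (XT.lf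 (nat_lit 0) (nat_lit 1750427821902) (nat_lit 152) (nat_lit 1856102610084) (nat_lit 76) (nat_lit 5562533846384) (nat_lit 29) (nat_lit 5) (nat_lit 31) (nat_lit 5) (nat_lit 30) (nat_lit 4) (nat_lit 516) (nat_lit 476) (nat_lit 208)))) (XT.nd (nat_lit 78) (nat_lit 76) (nat_lit 0) (XT.lf (nat_lit 0) (nat_lit 3606798970401) (nat_lit 76) (nat_lit 770023842335) (nat_lit 152) (nat_lit 5294085752777) (nat_lit 28) (nat_lit 5) (nat_lit 29) (nat_lit 5) (nat_lit 30) (nat_lit 4) (nat_lit 517) (nat_lit 476) (nat_lit 207)) (XT.nd (nat_lit 78) (nat_lit 76) (nat_lit 0) (XT.lf (nat_lit 0) (nat_lit 7320553100267) (nat_lit 152) (nat_lit 653024151620) (nat_lit 0) (nat_lit 2230745247946) (nat_lit 28) (nat_lit 5) (nat_lit 30) (nat_lit 4) (nat_lit 28) (nat_lit 4) (nat_lit 518) (nat_lit 476) (nat_lit 206)) (XT.lf (nat_lit 0) (nat_lit 5443240439240) (nat_lit 76) (nat_lit 5207452053876) (nat_lit 76) (nat_lit 117644201198)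 (nat_lit 27) (nat_lit 4) (nat_lit 28) (nat_lit 5) (nat_lit 28) (nat_lit 4) (nat_lit 519) (nat_lit 476) (nat_lit 205))))) (XT.nd (nat_lit 234) (nat_lit 456) (nat_lit 0) (XT.nd (nat_lit 78) (nat_lit 0) (nat_lit 0) (XT.lf (nat_lit 0) (nat_lit 724276677551) (nat_lit 532) (nat_lit 18336640930) (nat_lit 532) (nat_lit 18336640930) (nat_lit 78) (nat_lit 3) (nat_lit 85) (nat_lit 3) (nat_lit 85) (nat_lit 5) (nat_lit 477) (nat_lit 477) (nat_lit 246)) (XT.nd (nat_lit 78) (nat_lit 0) (nat_lit 0) (XT.lf (nat_lit 76) (nat_lit 752813836943) (nat_lit 0) (nat_lit 771786869844) (nat_lit 532) (nat_lit 56726791382) (nat_lit 79) (nat_lit 5) (nat_lit 78) (nat_lit 3) (nat_lit 85) (nat_lit 5) (nat_lit 478) (nat_lit 477) (nat_lit 245)) (XT.lf (nat_lit 76) (nat_lit 1607545565775) (nat_lit 0) (nat_lit 188990651) (nat_lit 532) (nat_lit 37694510650) (nat_lit 79) (nat_lit 5) (nat_lit 78) (nat_lit 3) (nat_lit 85) (nat_lit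 5) (nat_lit 479) (nat_lit 477) (nat_lit 244)))) (XT.nd (nat_lit 78) (nat_lit 0) (nat_lit 0) (XT.lf (nat_lit 0) (nat_lit 24949431796) (nat_lit 532) (nat_lit 874201404538) (nat_lit 608) (nat_lit 812242367103) (nat_lit 72) (nat_lit 5) (nat_lit 79) (nat_lit 5) (nat_lit 80) (nat_lit 5) (nat_lit 480) (nat_lit 477) (nat_lit 243)) (XT.nd (nat_lit 78) (nat_lit 0) (nat_lit 76) (XT.lf (nat_lit 76) (nat_lit 910646371) (nat_lit 0) (nat_lit 90747274153) (nat_lit 608) (nat_lit 1690811062846) (nat_lit 73) (nat_lit 5) (nat_lit 72) (nat_lit 5) (nat_lit 80) (nat_lit 5) (nat_lit 481) (nat_lit 477) (nat_lit 242)) (XT.lf (nat_lit 0) (nat_lit 207041159497) (nat_lit 532) (nat_lit 881006238237) (nat_lit 608) (nat_lit 767716382271) (nat_lit 73) (nat_lit 5) (nat_lit 80) (nat_lit 5) (nat_lit 81) (nat_lit 5) (nat_lit 482) (nat_lit 477) (nat_lit 241)))))) (XT.nd (nat_lit 468) (nat_lit 836) (nat_lit 0) (XT.nd (nat_lit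 234) (nat_lit 228) (nat_lit 0) (XT.nd (nat_lit 78) (nat_lit 380) (nat_lit 0) (XT.lf (nat_lit 76) (nat_lit 93931803898) (nat_lit 0) (nat_lit 242339385816) (nat_lit 608) (nat_lit 1598281680088) (nat_lit 74) (nat_lit 5) (nat_lit 73) (nat_lit 5) (nat_lit 81) (nat_lit 5) (nat_lit 483) (nat_lit 477) (nat_lit 240)) (XT.nd (nat_lit 78) (nat_lit 456) (nat_lit 0) (XT.lf (nat_lit 0) (nat_lit 516691735437) (nat_lit 532) (nat_lit 837513375281) (nat_lit 76) (nat_lit 662171807018) (nat_lit 74) (nat_lit 5) (nat_lit 81) (nat_lit 5) (nat_lit 75) (nat_lit 5) (nat_lit 484) (nat_lit 477) (nat_lit 239)) (XT.lf (nat_lit 0) (nat_lit 252162593575) (nat_lit 456) (nat_lit 471742375377) (nat_lit 532) (nat_lit 1379853197024) (nat_lit 68) (nat_lit 5) (nat_lit 74) (nat_lit 5) (nat_lit 75) (nat_lit 5) (nat_lit 485) (nat_lit 477) (nat_lit 238)))) (XT.nd (nat_lit 78) (nat_lit 228) (nat_lit 0) (XT.lf (nat_lit 0) (nat_lit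 982764835668) (nat_lit 532) (nat_lit 731825696547) (nat_lit 76) (nat_lit 480733815897) (nat_lit 68) (nat_lit 5) (nat_lit 75) (nat_lit 5) (nat_lit 69) (nat_lit 5) (nat_lit 486) (nat_lit 477) (nat_lit 237)) (XT.nd (nat_lit 78) (nat_lit 0) (nat_lit 0) (XT.lf (nat_lit 0) (nat_lit 489773155839) (nat_lit 228) (nat_lit 796592439185) (nat_lit 304) (nat_lit 1005927661533) (nat_lit 65) (nat_lit 5) (nat_lit 68) (nat_lit 5) (nat_lit 69) (nat_lit 5) (nat_lit 487) (nat_lit 477) (nat_lit 236)) (XT.lf (nat_lit 0) (nat_lit 1639469589033) (nat_lit 304) (nat_lit 549905198241) (nat_lit 76) (nat_lit 205627676491) (nat_lit 65) (nat_lit 5) (nat_lit 69) (nat_lit 5) (nat_lit 66) (nat_lit 5) (nat_lit 488) (nat_lit 477) (nat_lit 235))))) (XT.nd (nat_lit 234) (nat_lit 380) (nat_lit 0) (XT.nd (nat_lit 78) (nat_lit 228) (nat_lit 0) (XT.lf (nat_lit 0) (nat_lit 823418931952) (nat_lit 228) (nat_lit 1237896927035) (nat_lit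 304) (nat_lit 441373032049) (nat_lit 62) (nat_lit 5) (nat_lit 65) (nat_lit 5) (nat_lit 66) (nat_lit 5) (nat_lit 489) (nat_lit 477) (nat_lit 234)) (XT.nd (nat_lit 78) (nat_lit 228) (nat_lit 0) (XT.lf (nat_lit 0) (nat_lit 2337882586866) (nat_lit 228) (nat_lit 194062624974) (nat_lit 304) (nat_lit 85842190145) (nat_lit 62) (nat_lit 5) (nat_lit 65) (nat_lit 5) (nat_lit 66) (nat_lit 5) (nat_lit 490) (nat_lit 477) (nat_lit 233)) (XT.lf (nat_lit 0) (nat_lit 337647423645) (nat_lit 228) (nat_lit 1473771584373) (nat_lit 76) (nat_lit 925746778502) (nat_lit 59) (nat_lit 5) (nat_lit 62) (nat_lit 5) (nat_lit 60) (nat_lit 5) (nat_lit 491) (nat_lit 477) (nat_lit 232)))) (XT.nd (nat_lit 78) (nat_lit 152) (nat_lit 0) (XT.lf (nat_lit 0) (nat_lit 76974941477) (nat_lit 228) (nat_lit 728147268100) (nat_lit 304) (nat_lit 2059614361981) (nat_lit 56) (nat_lit 5) (nat_lit 59) (nat_lit 5) (nat_lit 60) (nat_lit 5)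 (nat_lit 492) (nat_lit 477) (nat_lit 231)) (XT.nd (nat_lit 78) (nat_lit 152) (nat_lit 0) (XT.lf (nat_lit 0) (nat_lit 1361962110138) (nat_lit 304) (nat_lit 1175365099662) (nat_lit 76) (nat_lit 461028439058) (nat_lit 56) (nat_lit 5) (nat_lit 60) (nat_lit 5) (nat_lit 57) (nat_lit 5) (nat_lit 493) (nat_lit 477) (nat_lit 230)) (XT.lf (nat_lit 0) (nat_lit 575920091079) (nat_lit 152) (nat_lit 1420192918677) (nat_lit 228) (nat_lit 1143930138027) (nat_lit 54) (nat_lit 5) (nat_lit 56) (nat_lit 5) (nat_lit 57) (nat_lit 5) (nat_lit 494) (nat_lit 477) (nat_lit 229))))))))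
noncomputable def xc239 : XT := (XT.nd (nat_lit 1794) (nat_lit 76) (nat_lit 0) (XT.nd (nat_lit 858) (nat_lit 912) (nat_lit 0) (XT.nd (nat_lit 390) (nat_lit 456) (nat_lit 0) (XT.nd (nat_lit 156) (nat_lit 304) (nat_lit 0) (XT.nd (nat_lit 78) (nat_lit 228) (nat_lit 0) (XT.lf (nat_lit 0) (nat_lit 2534152150295) (nat_lit 152) (nat_lit 178980394758) (nat_lit 228) (nat_lit 577362176471) (nat_lit 54) (nat_lit 5) (nat_lit 56) (nat_lit 5) (nat_lit 57) (nat_lit 5) (nat_lit 495) (nat_lit 477) (nat_lit 228)) (XT.lf (nat_lit 0) (nat_lit 91805135612) (nat_lit 228) (nat_lit 2221069024325) (nat_lit 76) (nat_lit 1135321718677) (nat_lit 51) (nat_lit 5) (nat_lit 54) (nat_lit 5) (nat_lit 52) (nat_lit 5) (nat_lit 496) (nat_lit 477) (nat_lit 227))) (XT.nd (nat_lit 78) (nat_lit 304) (nat_lit 0) (XT.lf (nat_lit 0) (nat_lit 809179001695) (nat_lit 228) (nat_lit 224753441813) (nat_lit 76) (nat_lit 2581311713310) (nat_lit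 51) (nat_lit 5) (nat_lit 54) (nat_lit 5) (nat_lit 52) (nat_lit 5) (nat_lit 497) (nat_lit 477) (nat_lit 226)) (XT.nd (nat_lit 78) (nat_lit 152) (nat_lit 0) (XT.lf (nat_lit 0) (nat_lit 1642458730643) (nat_lit 228) (nat_lit 1768403474970) (nat_lit 76) (nat_lit 380112815379) (nat_lit 49) (nat_lit 5) (nat_lit 52) (nat_lit 5) (nat_lit 50) (nat_lit 5) (nat_lit 498) (nat_lit 477) (nat_lit 225)) (XT.lf (nat_lit 0) (nat_lit 479145513730) (nat_lit 152) (nat_lit 2107938944458) (nat_lit 228) (nat_lit 1390105206490) (nat_lit 47) (nat_lit 5) (nat_lit 49) (nat_lit 5) (nat_lit 50) (nat_lit 5) (nat_lit 499) (nat_lit 477) (nat_lit 224))))) (XT.nd (nat_lit 234) (nat_lit 304) (nat_lit 0) (XT.nd (nat_lit 78) (nat_lit 152) (nat_lit 0) (XT.lf (nat_lit 0) (nat_lit 3007069092768) (nat_lit 152) (nat_lit 648562435226) (nat_lit 228) (nat_lit 518801849142) (nat_lit 47) (nat_lit 5) (nat_lit 49) (nat_lit 5) (nat_lit 50)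 (nat_lit 5) (nat_lit 500) (nat_lit 477) (nat_lit 223)) (XT.nd (nat_lit 78) (nat_lit 0) (nat_lit 0) (XT.lf (nat_lit 0) (nat_lit 458452234551) (nat_lit 152) (nat_lit 2997225979292) (nat_lit 76) (nat_lit 926376695967) (nat_lit 45) (nat_lit 5) (nat_lit 47) (nat_lit 5) (nat_lit 46) (nat_lit 5) (nat_lit 501) (nat_lit 477) (nat_lit 222)) (XT.lf (nat_lit 0) (nat_lit 1535450488744) (nat_lit 152) (nat_lit 427296282122) (nat_lit 76) (nat_lit 2638493954894) (nat_lit 45) (nat_lit 5) (nat_lit 47) (nat_lit 5) (nat_lit 46) (nat_lit 5) (nat_lit 502) (nat_lit 477) (nat_lit 221)))) (XT.nd (nat_lit 78) (nat_lit 152) (nat_lit 0) (XT.lf (nat_lit 0) (nat_lit 2471881303619) (nat_lit 152) (nat_lit 286176103738) (nat_lit 228) (nat_lit 2075148095301) (nat_lit 43) (nat_lit 5) (nat_lit 45) (nat_lit 5) (nat_lit 46) (nat_lit 5) (nat_lit 503) (nat_lit 477) (nat_lit 220)) (XT.nd (nat_lit 78) (nat_lit 76) (nat_lit 0) (XT.lf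 (nat_lit 0) (nat_lit 534258568451) (nat_lit 76) (nat_lit 3605714482715) (nat_lit 152) (nat_lit 938834396806) (nat_lit 42) (nat_lit 5) (nat_lit 43) (nat_lit 5) (nat_lit 44) (nat_lit 4) (nat_lit 504) (nat_lit 477) (nat_lit 219)) (XT.lf (nat_lit 0) (nat_lit 347631130659) (nat_lit 152) (nat_lit 1559159722996) (nat_lit 76) (nat_lit 3430818012030) (nat_lit 41) (nat_lit 5) (nat_lit 43) (nat_lit 5) (nat_lit 42) (nat_lit 5) (nat_lit 505) (nat_lit 477) (nat_lit 218)))))) (XT.nd (nat_lit 468) (nat_lit 380) (nat_lit 0) (XT.nd (nat_lit 234) (nat_lit 304) (nat_lit 0) (XT.nd (nat_lit 78) (nat_lit 76) (nat_lit 0) (XT.lf (nat_lit 0) (nat_lit 1727070307375) (nat_lit 152) (nat_lit 758231996) (nat_lit 228) (nat_lit 3884012146183) (nat_lit 39) (nat_lit 5) (nat_lit 41) (nat_lit 5) (nat_lit 42) (nat_lit 5) (nat_lit 506) (nat_lit 477) (nat_lit 217)) (XT.nd (nat_lit 78) (nat_lit 76) (nat_lit 0) (XT.lf (nat_lit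 0) (nat_lit 3311668313025) (nat_lit 228) (nat_lit 590327484776) (nat_lit 76) (nat_lit 1998557127430) (nat_lit 39) (nat_lit 5) (nat_lit 42) (nat_lit 5) (nat_lit 40) (nat_lit 4) (nat_lit 507) (nat_lit 477) (nat_lit 216)) (XT.lf (nat_lit 0) (nat_lit 3123922394868) (nat_lit 76) (nat_lit 1973442976182) (nat_lit 152) (nat_lit 1108984764835) (nat_lit 38) (nat_lit 5) (nat_lit 39) (nat_lit 5) (nat_lit 40) (nat_lit 4) (nat_lit 508) (nat_lit 477) (nat_lit 215)))) (XT.nd (nat_lit 78) (nat_lit 76) (nat_lit 0) (XT.lf (nat_lit 0) (nat_lit 500896180195) (nat_lit 228) (nat_lit 5882763332124) (nat_lit 76) (nat_lit 149124884828) (nat_lit 35) (nat_lit 5) (nat_lit 38) (nat_lit 5) (nat_lit 36) (nat_lit 4) (nat_lit 509) (nat_lit 477) (nat_lit 214)) (XT.nd (nat_lit 78) (nat_lit 76) (nat_lit 0) (XT.lf (nat_lit 0) (nat_lit 2317379980140) (nat_lit 228) (nat_lit 2104477029070) (nat_lit 76) (nat_lit 2450153897261)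 (nat_lit 35) (nat_lit 5) (nat_lit 38) (nat_lit 5) (nat_lit 36) (nat_lit 4) (nat_lit 510) (nat_lit 477) (nat_lit 213)) (XT.lf (nat_lit 0) (nat_lit 2080128636203) (nat_lit 76) (nat_lit 2249080991073) (nat_lit 152) (nat_lit 2905163737809) (nat_lit 34) (nat_lit 5) (nat_lit 35) (nat_lit 5) (nat_lit 36) (nat_lit 4) (nat_lit 511) (nat_lit 477) (nat_lit 212))))) (XT.nd (nat_lit 234) (nat_lit 152) (nat_lit 0) (XT.nd (nat_lit 78) (nat_lit 228) (nat_lit 0) (XT.lf (nat_lit 0) (nat_lit 6563365614758) (nat_lit 152) (nat_lit 905775220464) (nat_lit 0) (nat_lit 151673587680) (nat_lit 34) (nat_lit 5) (nat_lit 36) (nat_lit 4) (nat_lit 34) (nat_lit 4) (nat_lit 512) (nat_lit 477) (nat_lit 211)) (XT.nd (nat_lit 78) (nat_lit 76) (nat_lit 0) (XT.lf (nat_lit 0) (nat_lit 1045225493575) (nat_lit 152) (nat_lit 4237623001051) (nat_lit 76) (nat_lit 2741191884261) (nat_lit 32) (nat_lit 5) (nat_lit 34) (nat_lit 5) (nat_lit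 33) (nat_lit 4) (nat_lit 513) (nat_lit 477) (nat_lit 210)) (XT.lf (nat_lit 0) (nat_lit 441953281610) (nat_lit 76) (nat_lit 2853068501978) (nat_lit 152) (nat_lit 5159422311859) (nat_lit 31) (nat_lit 5) (nat_lit 32) (nat_lit 5) (nat_lit 33) (nat_lit 4) (nat_lit 514) (nat_lit 477) (nat_lit 209)))) (XT.nd (nat_lit 78) (nat_lit 152) (nat_lit 0) (XT.lf (nat_lit 0) (nat_lit 5736893040920) (nat_lit 76) (nat_lit 103772857973) (nat_lit 152) (nat_lit 3069345080673) (nat_lit 31) (nat_lit 5) (nat_lit 32) (nat_lit 5) (nat_lit 33) (nat_lit 4) (nat_lit 515) (nat_lit 477) (nat_lit 208)) (XT.nd (nat_lit 78) (nat_lit 76) (nat_lit 0) (XT.lf (nat_lit 0) (nat_lit 2088989967612) (nat_lit 76) (nat_lit 6620126371064) (nat_lit 76) (nat_lit 683374492116) (nat_lit 30) (nat_lit 4) (nat_lit 31) (nat_lit 5) (nat_lit 31) (nat_lit 4) (nat_lit 516) (nat_lit 477) (nat_lit 207)) (XT.lf (nat_lit 0) (nat_lit 1890462056301)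 (nat_lit 152) (nat_lit 2004590802256) (nat_lit 76) (nat_lit 6007536561391) (nat_lit 29) (nat_lit 5) (nat_lit 31) (nat_lit 5) (nat_lit 30) (nat_lit 4) (nat_lit 517) (nat_lit 477) (nat_lit 206))))))) (XT.nd (nat_lit 60138) (nat_lit 0) (nat_lit 1596) (XT.nd (nat_lit 59670) (nat_lit 0) (nat_lit 3040) (XT.nd (nat_lit 59436) (nat_lit 0) (nat_lit 3344) (XT.nd (nat_lit 78) (nat_lit 0) (nat_lit 0) (XT.lf (nat_lit 0) (nat_lit 3895342904247) (nat_lit 76) (nat_lit 831625741904) (nat_lit 152) (nat_lit 5717612603932) (nat_lit 28) (nat_lit 5) (nat_lit 29) (nat_lit 5) (nat_lit 30) (nat_lit 4) (nat_lit 518) (nat_lit 477) (nat_lit 205)) (XT.nd (nat_lit 59280) (nat_lit 0) (nat_lit 3800) (XT.lf (nat_lit 0) (nat_lit 7906197356237) (nat_lit 152) (nat_lit 705266068288) (nat_lit 0) (nat_lit 2409204874658) (nat_lit 28) (nat_lit 5) (nat_lit 30) (nat_lit 4) (nat_lit 28) (nat_lit 4) (nat_lit 519) (nat_lit 477) (nat_lit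 204)) (XT.lf (nat_lit 0) (nat_lit 782218837713) (nat_lit 532) (nat_lit 19803558183) (nat_lit 532) (nat_lit 19803558183) (nat_lit 78) (nat_lit 3) (nat_lit 85) (nat_lit 3) (nat_lit 85) (nat_lit 5) (nat_lit 478) (nat_lit 478) (nat_lit 244)))) (XT.nd (nat_lit 78) (nat_lit 456) (nat_lit 0) (XT.lf (nat_lit 76) (nat_lit 813038971233) (nat_lit 0) (nat_lit 833529840824) (nat_lit 532) (nat_lit 61264882049) (nat_lit 79) (nat_lit 5) (nat_lit 78) (nat_lit 3) (nat_lit 85) (nat_lit 5) (nat_lit 479) (nat_lit 478) (nat_lit 243)) (XT.nd (nat_lit 78) (nat_lit 456) (nat_lit 0) (XT.lf (nat_lit 76) (nat_lit 1736149236347) (nat_lit 0) (nat_lit 204129711) (nat_lit 532) (nat_lit 40710022758) (nat_lit 79) (nat_lit 5) (nat_lit 78) (nat_lit 3) (nat_lit 85) (nat_lit 5) (nat_lit 480) (nat_lit 478) (nat_lit 242)) (XT.lf (nat_lit 0) (nat_lit 26945429471) (nat_lit 532) (nat_lit 944137485946) (nat_lit 608) (nat_lit 877221740830)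 (nat_lit 72) (nat_lit 5) (nat_lit 79) (nat_lit 5) (nat_lit 80) (nat_lit 5) (nat_lit 481) (nat_lit 478) (nat_lit 241))))) (XT.nd (nat_lit 234) (nat_lit 304) (nat_lit 0) (XT.nd (nat_lit 78) (nat_lit 0) (nat_lit 76) (XT.lf (nat_lit 76) (nat_lit 983528253) (nat_lit 0) (nat_lit 98007066575) (nat_lit 608) (nat_lit 1826075903944) (nat_lit 73) (nat_lit 5) (nat_lit 72) (nat_lit 5) (nat_lit 80) (nat_lit 5) (nat_lit 482) (nat_lit 478) (nat_lit 240)) (XT.nd (nat_lit 78) (nat_lit 0) (nat_lit 0) (XT.lf (nat_lit 0) (nat_lit 223604489673) (nat_lit 532) (nat_lit 951486706101) (nat_lit 608) (nat_lit 829133683625) (nat_lit 73) (nat_lit 5) (nat_lit 80) (nat_lit 5) (nat_lit 81) (nat_lit 5) (nat_lit 483) (nat_lit 478) (nat_lit 239)) (XT.lf (nat_lit 76) (nat_lit 101446378615) (nat_lit 0) (nat_lit 261726541652) (nat_lit 608) (nat_lit 1726144176277) (nat_lit 74) (nat_lit 5) (nat_lit 73) (nat_lit 5) (nat_lit 81)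 (nat_lit 5) (nat_lit 484) (nat_lit 478) (nat_lit 238)))) (XT.nd (nat_lit 78) (nat_lit 456) (nat_lit 0) (XT.lf (nat_lit 0) (nat_lit 558027106917) (nat_lit 532) (nat_lit 904514414408) (nat_lit 76) (nat_lit 715145547208) (nat_lit 74) (nat_lit 5) (nat_lit 81) (nat_lit 5) (nat_lit 75) (nat_lit 5) (nat_lit 485) (nat_lit 478) (nat_lit 237)) (XT.nd (nat_lit 78) (nat_lit 0) (nat_lit 0) (XT.lf (nat_lit 0) (nat_lit 272335631174) (nat_lit 456) (nat_lit 509481766245) (nat_lit 532) (nat_lit 1490241419348) (nat_lit 68) (nat_lit 5) (nat_lit 74) (nat_lit 5) (nat_lit 75) (nat_lit 5) (nat_lit 486) (nat_lit 478) (nat_lit 236)) (XT.lf (nat_lit 0) (nat_lit 1061386051162) (nat_lit 532) (nat_lit 790371722067) (nat_lit 76) (nat_lit 519192520432) (nat_lit 68) (nat_lit 5) (nat_lit 75) (nat_lit 5) (nat_lit 69) (nat_lit 5) (nat_lit 487) (nat_lit 478) (nat_lit 235)))))) (XT.nd (nat_lit 468) (nat_lit 532) (nat_lit 0)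 (XT.nd (nat_lit 234) (nat_lit 456) (nat_lit 0) (XT.nd (nat_lit 78) (nat_lit 228) (nat_lit 0) (XT.lf (nat_lit 0) (nat_lit 528955037746) (nat_lit 228) (nat_lit 860319832106) (nat_lit 304) (nat_lit 1086401845043) (nat_lit 65) (nat_lit 5) (nat_lit 68) (nat_lit 5) (nat_lit 69) (nat_lit 5) (nat_lit 488) (nat_lit 478) (nat_lit 234)) (XT.nd (nat_lit 78) (nat_lit 228) (nat_lit 0) (XT.lf (nat_lit 0) (nat_lit 1770627181415) (nat_lit 304) (nat_lit 593897584866) (nat_lit 76) (nat_lit 222077892557) (nat_lit 65) (nat_lit 5) (nat_lit 69) (nat_lit 5) (nat_lit 66) (nat_lit 5) (nat_lit 489) (nat_lit 478) (nat_lit 233)) (XT.lf (nat_lit 0) (nat_lit 889292475003) (nat_lit 228) (nat_lit 1336928676776) (nat_lit 304) (nat_lit 476682848607) (nat_lit 62) (nat_lit 5) (nat_lit 65) (nat_lit 5) (nat_lit 66) (nat_lit 5) (nat_lit 490) (nat_lit 478) (nat_lit 232)))) (XT.nd (nat_lit 78) (nat_lit 456) (nat_lit 0) (XT.lf (nat_lit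 0) (nat_lit 2524913220199) (nat_lit 228) (nat_lit 209587630878) (nat_lit 304) (nat_lit 92709541276) (nat_lit 62) (nat_lit 5) (nat_lit 65) (nat_lit 5) (nat_lit 66) (nat_lit 5) (nat_lit 491) (nat_lit 478) (nat_lit 231)) (XT.nd (nat_lit 78) (nat_lit 228) (nat_lit 0) (XT.lf (nat_lit 0) (nat_lit 364659239486) (nat_lit 228) (nat_lit 1591673282596) (nat_lit 76) (nat_lit 999806525597) (nat_lit 59) (nat_lit 5) (nat_lit 62) (nat_lit 5) (nat_lit 60) (nat_lit 5) (nat_lit 492) (nat_lit 478) (nat_lit 230)) (XT.lf (nat_lit 0) (nat_lit 83132964599) (nat_lit 228) (nat_lit 786399042736) (nat_lit 304) (nat_lit 2224383488262) (nat_lit 56) (nat_lit 5) (nat_lit 59) (nat_lit 5) (nat_lit 60) (nat_lit 5) (nat_lit 493) (nat_lit 478) (nat_lit 229))))) (XT.nd (nat_lit 234) (nat_lit 380) (nat_lit 0) (XT.nd (nat_lit 78) (nat_lit 152) (nat_lit 0) (XT.lf (nat_lit 0) (nat_lit 1470919098539) (nat_lit 304) (nat_lit 1269394280481)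 (nat_lit 76) (nat_lit 497910720175) (nat_lit 56) (nat_lit 5) (nat_lit 60) (nat_lit 5) (nat_lit 57) (nat_lit 5) (nat_lit 494) (nat_lit 478) (nat_lit 228)) (XT.nd (nat_lit 78) (nat_lit 0) (nat_lit 0) (XT.lf (nat_lit 0) (nat_lit 621993724831) (nat_lit 152) (nat_lit 1533808344479) (nat_lit 228) (nat_lit 1235444528788) (nat_lit 54) (nat_lit 5) (nat_lit 56) (nat_lit 5) (nat_lit 57) (nat_lit 5) (nat_lit 495) (nat_lit 478) (nat_lit 227)) (XT.lf (nat_lit 0) (nat_lit 2736884346824) (nat_lit 152) (nat_lit 193298819217) (nat_lit 228) (nat_lit 623551131810) (nat_lit 54) (nat_lit 5) (nat_lit 56) (nat_lit 5) (nat_lit 57) (nat_lit 5) (nat_lit 496) (nat_lit 478) (nat_lit 226)))) (XT.nd (nat_lit 78) (nat_lit 152) (nat_lit 0) (XT.lf (nat_lit 0) (nat_lit 99149563760) (nat_lit 228) (nat_lit 2398754520278) (nat_lit 76) (nat_lit 1226147463476) (nat_lit 51) (nat_lit 5) (nat_lit 54) (nat_lit 5) (nat_lit 52) (nat_lit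 5) (nat_lit 497) (nat_lit 478) (nat_lit 225)) (XT.nd (nat_lit 78) (nat_lit 152) (nat_lit 0) (XT.lf (nat_lit 0) (nat_lit 873913337849) (nat_lit 228) (nat_lit 242733693091) (nat_lit 76) (nat_lit 2787816657139) (nat_lit 51) (nat_lit 5) (nat_lit 54) (nat_lit 5) (nat_lit 52) (nat_lit 5) (nat_lit 498) (nat_lit 478) (nat_lit 224)) (XT.lf (nat_lit 0) (nat_lit 1773855444684) (nat_lit 228) (nat_lit 1909875728469) (nat_lit 76) (nat_lit 410521848269) (nat_lit 49) (nat_lit 5) (nat_lit 52) (nat_lit 5) (nat_lit 50) (nat_lit 5) (nat_lit 499) (nat_lit 478) (nat_lit 223))))))))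
noncomputable def xc240 : XT := (XT.nd (nat_lit 61074) (nat_lit 0) (nat_lit 1292) (XT.nd (nat_lit 858) (nat_lit 532) (nat_lit 0) (XT.nd (nat_lit 390) (nat_lit 608) (nat_lit 0) (XT.nd (nat_lit 156) (nat_lit 304) (nat_lit 0) (XT.nd (nat_lit 78) (nat_lit 0) (nat_lit 0) (XT.lf (nat_lit 0) (nat_lit 517477178708) (nat_lit 152) (nat_lit 2276574051145) (nat_lit 228) (nat_lit 1501313606796) (nat_lit 47) (nat_lit 5) (nat_lit 49) (nat_lit 5) (nat_lit 50) (nat_lit 5) (nat_lit 500) (nat_lit 478) (nat_lit 222)) (XT.lf (nat_lit 0) (nat_lit 3247634642299) (nat_lit 152) (nat_lit 700447421831) (nat_lit 228) (nat_lit 560305982062) (nat_lit 47) (nat_lit 5) (nat_lit 49) (nat_lit 5) (nat_lit 50) (nat_lit 5) (nat_lit 501) (nat_lit 478) (nat_lit 221))) (XT.nd (nat_lit 78) (nat_lit 152) (nat_lit 0) (XT.lf (nat_lit 0) (nat_lit 495128427261) (nat_lit 152) (nat_lit 3237004034454) (nat_lit 76) (nat_lit 1000486839761)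 (nat_lit 45) (nat_lit 5) (nat_lit 47) (nat_lit 5) (nat_lit 46) (nat_lit 5) (nat_lit 502) (nat_lit 478) (nat_lit 220)) (XT.nd (nat_lit 78) (nat_lit 152) (nat_lit 0) (XT.lf (nat_lit 0) (nat_lit 1658286540756) (nat_lit 152) (nat_lit 461479963227) (nat_lit 76) (nat_lit 2849573478801) (nat_lit 45) (nat_lit 5) (nat_lit 47) (nat_lit 5) (nat_lit 46) (nat_lit 5) (nat_lit 503) (nat_lit 478) (nat_lit 219)) (XT.lf (nat_lit 0) (nat_lit 2669631828829) (nat_lit 152) (nat_lit 309070183576) (nat_lit 228) (nat_lit 2241159929466) (nat_lit 43) (nat_lit 5) (nat_lit 45) (nat_lit 5) (nat_lit 46) (nat_lit 5) (nat_lit 504) (nat_lit 478) (nat_lit 218))))) (XT.nd (nat_lit 234) (nat_lit 304) (nat_lit 0) (XT.nd (nat_lit 78) (nat_lit 228) (nat_lit 0) (XT.lf (nat_lit 0) (nat_lit 576999275093) (nat_lit 76) (nat_lit 3894171632400) (nat_lit 152) (nat_lit 1013941135336) (nat_lit 42) (nat_lit 5) (nat_lit 43) (nat_lit 5) (nat_lit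 44) (nat_lit 4) (nat_lit 505) (nat_lit 478) (nat_lit 217)) (XT.nd (nat_lit 78) (nat_lit 152) (nat_lit 0) (XT.lf (nat_lit 0) (nat_lit 375441632736) (nat_lit 152) (nat_lit 1683892480624) (nat_lit 76) (nat_lit 3705283460649) (nat_lit 41) (nat_lit 5) (nat_lit 43) (nat_lit 5) (nat_lit 42) (nat_lit 5) (nat_lit 506) (nat_lit 478) (nat_lit 216)) (XT.lf (nat_lit 0) (nat_lit 1865235951665) (nat_lit 152) (nat_lit 818882092) (nat_lit 228) (nat_lit 4194733105740) (nat_lit 39) (nat_lit 5) (nat_lit 41) (nat_lit 5) (nat_lit 42) (nat_lit 5) (nat_lit 507) (nat_lit 478) (nat_lit 215)))) (XT.nd (nat_lit 78) (nat_lit 304) (nat_lit 0) (XT.lf (nat_lit 0) (nat_lit 3576601788660) (nat_lit 228) (nat_lit 637553664672) (nat_lit 76) (nat_lit 2158441705069) (nat_lit 39) (nat_lit 5) (nat_lit 42) (nat_lit 5) (nat_lit 40) (nat_lit 4) (nat_lit 508) (nat_lit 478) (nat_lit 214)) (XT.nd (nat_lit 78) (nat_lit 228) (nat_lit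 0) (XT.lf (nat_lit 0) (nat_lit 3373836204866) (nat_lit 76) (nat_lit 2131318406119) (nat_lit 152) (nat_lit 1197703534949) (nat_lit 38) (nat_lit 5) (nat_lit 39) (nat_lit 5) (nat_lit 40) (nat_lit 4) (nat_lit 509) (nat_lit 478) (nat_lit 213)) (XT.lf (nat_lit 0) (nat_lit 540967884994) (nat_lit 228) (nat_lit 6353384379595) (nat_lit 76) (nat_lit 161054883498) (nat_lit 35) (nat_lit 5) (nat_lit 38) (nat_lit 5) (nat_lit 36) (nat_lit 4) (nat_lit 510) (nat_lit 478) (nat_lit 212)))))) (XT.nd (nat_lit 468) (nat_lit 228) (nat_lit 0) (XT.nd (nat_lit 234) (nat_lit 228) (nat_lit 0) (XT.nd (nat_lit 78) (nat_lit 76) (nat_lit 0) (XT.lf (nat_lit 0) (nat_lit 2502770388166) (nat_lit 228) (nat_lit 2272835173711) (nat_lit 76) (nat_lit 2646166216342) (nat_lit 35) (nat_lit 5) (nat_lit 38) (nat_lit 5) (nat_lit 36) (nat_lit 4) (nat_lit 511) (nat_lit 478) (nat_lit 211)) (XT.nd (nat_lit 78) (nat_lit 0) (nat_lit 0) (XT.lf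 (nat_lit 0) (nat_lit 2246538944336) (nat_lit 76) (nat_lit 2429007462438) (nat_lit 152) (nat_lit 3137576826771) (nat_lit 34) (nat_lit 5) (nat_lit 35) (nat_lit 5) (nat_lit 36) (nat_lit 4) (nat_lit 512) (nat_lit 478) (nat_lit 210)) (XT.lf (nat_lit 0) (nat_lit 7088434872742) (nat_lit 152) (nat_lit 978237221626) (nat_lit 0) (nat_lit 163807481661) (nat_lit 34) (nat_lit 5) (nat_lit 36) (nat_lit 4) (nat_lit 34) (nat_lit 4) (nat_lit 513) (nat_lit 478) (nat_lit 209)))) (XT.nd (nat_lit 78) (nat_lit 76) (nat_lit 0) (XT.lf (nat_lit 0) (nat_lit 1128843541821) (nat_lit 152) (nat_lit 4576632824616) (nat_lit 76) (nat_lit 2960487242061) (nat_lit 32) (nat_lit 5) (nat_lit 34) (nat_lit 5) (nat_lit 33) (nat_lit 4) (nat_lit 514) (nat_lit 478) (nat_lit 208)) (XT.nd (nat_lit 78) (nat_lit 0) (nat_lit 0) (XT.lf (nat_lit 0) (nat_lit 477309560240) (nat_lit 76) (nat_lit 3081313974533) (nat_lit 152) (nat_lit 5572176087630)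 (nat_lit 31) (nat_lit 5) (nat_lit 32) (nat_lit 5) (nat_lit 33) (nat_lit 4) (nat_lit 515) (nat_lit 478) (nat_lit 207)) (XT.lf (nat_lit 0) (nat_lit 6195844499102) (nat_lit 76) (nat_lit 112074679570) (nat_lit 152) (nat_lit 3314892678628) (nat_lit 31) (nat_lit 5) (nat_lit 32) (nat_lit 5) (nat_lit 33) (nat_lit 4) (nat_lit 516) (nat_lit 478) (nat_lit 206))))) (XT.nd (nat_lit 59514) (nat_lit 0) (nat_lit 3800) (XT.nd (nat_lit 78) (nat_lit 152) (nat_lit 0) (XT.lf (nat_lit 0) (nat_lit 2256109180001) (nat_lit 76) (nat_lit 7149736473571) (nat_lit 76) (nat_lit 738044443058) (nat_lit 30) (nat_lit 4) (nat_lit 31) (nat_lit 5) (nat_lit 31) (nat_lit 4) (nat_lit 517) (nat_lit 478) (nat_lit 205)) (XT.nd (nat_lit 78) (nat_lit 76) (nat_lit 0) (XT.lf (nat_lit 0) (nat_lit 2041699028218) (nat_lit 152) (nat_lit 2164958052175) (nat_lit 76) (nat_lit 6488139492558) (nat_lit 29) (nat_lit 5) (nat_lit 31) (nat_lit 5)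 (nat_lit 30) (nat_lit 4) (nat_lit 518) (nat_lit 478) (nat_lit 204)) (XT.lf (nat_lit 0) (nat_lit 4206970350487) (nat_lit 76) (nat_lit 898155794554) (nat_lit 152) (nat_lit 6175021604472) (nat_lit 28) (nat_lit 5) (nat_lit 29) (nat_lit 5) (nat_lit 30) (nat_lit 4) (nat_lit 519) (nat_lit 478) (nat_lit 203)))) (XT.nd (nat_lit 78) (nat_lit 0) (nat_lit 0) (XT.lf (nat_lit 0) (nat_lit 844796366984) (nat_lit 532) (nat_lit 21387830816) (nat_lit 532) (nat_lit 21387830816) (nat_lit 78) (nat_lit 3) (nat_lit 85) (nat_lit 3) (nat_lit 85) (nat_lit 5) (nat_lit 479) (nat_lit 479) (nat_lit 242)) (XT.nd (nat_lit 78) (nat_lit 0) (nat_lit 0) (XT.lf (nat_lit 76) (nat_lit 878082112367) (nat_lit 0) (nat_lit 900212246430) (nat_lit 532) (nat_lit 66166027479) (nat_lit 79) (nat_lit 5) (nat_lit 78) (nat_lit 3) (nat_lit 85) (nat_lit 5) (nat_lit 480) (nat_lit 479) (nat_lit 241)) (XT.lf (nat_lit 76) (nat_lit 1875041196954)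 (nat_lit 0) (nat_lit 220477070) (nat_lit 532) (nat_lit 43966782788) (nat_lit 79) (nat_lit 5) (nat_lit 78) (nat_lit 3) (nat_lit 85) (nat_lit 5) (nat_lit 481) (nat_lit 479) (nat_lit 240))))))) (XT.nd (nat_lit 858) (nat_lit 1292) (nat_lit 0) (XT.nd (nat_lit 390) (nat_lit 760) (nat_lit 0) (XT.nd (nat_lit 156) (nat_lit 0) (nat_lit 76) (XT.nd (nat_lit 78) (nat_lit 0) (nat_lit 0) (XT.lf (nat_lit 0) (nat_lit 29101100807) (nat_lit 532) (nat_lit 1019668458282) (nat_lit 608) (nat_lit 947399466687) (nat_lit 72) (nat_lit 5) (nat_lit 79) (nat_lit 5) (nat_lit 80) (nat_lit 5) (nat_lit 482) (nat_lit 479) (nat_lit 239)) (XT.lf (nat_lit 76) (nat_lit 1062236380) (nat_lit 0) (nat_lit 105847640895) (nat_lit 608) (nat_lit 1972161938598) (nat_lit 73) (nat_lit 5) (nat_lit 72) (nat_lit 5) (nat_lit 80) (nat_lit 5) (nat_lit 483) (nat_lit 479) (nat_lit 238))) (XT.nd (nat_lit 78) (nat_lit 0) (nat_lit 0) (XT.lf (nat_lit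 0) (nat_lit 241492880925) (nat_lit 532) (nat_lit 1027605615844) (nat_lit 608) (nat_lit 895464370405) (nat_lit 73) (nat_lit 5) (nat_lit 80) (nat_lit 5) (nat_lit 81) (nat_lit 5) (nat_lit 484) (nat_lit 479) (nat_lit 237)) (XT.nd (nat_lit 78) (nat_lit 0) (nat_lit 76) (XT.lf (nat_lit 76) (nat_lit 109562114973) (nat_lit 0) (nat_lit 282664669245) (nat_lit 608) (nat_lit 1864235677613) (nat_lit 74) (nat_lit 5) (nat_lit 73) (nat_lit 5) (nat_lit 81) (nat_lit 5) (nat_lit 485) (nat_lit 479) (nat_lit 236)) (XT.lf (nat_lit 0) (nat_lit 602669303458) (nat_lit 532) (nat_lit 976875541072) (nat_lit 76) (nat_lit 772357187236) (nat_lit 74) (nat_lit 5) (nat_lit 81) (nat_lit 5) (nat_lit 75) (nat_lit 5) (nat_lit 486) (nat_lit 479) (nat_lit 235))))) (XT.nd (nat_lit 234) (nat_lit 228) (nat_lit 0) (XT.nd (nat_lit 78) (nat_lit 228) (nat_lit 0) (XT.lf (nat_lit 0) (nat_lit 294122507486) (nat_lit 456) (nat_lit 550240308262)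 (nat_lit 532) (nat_lit 1609460704229) (nat_lit 68) (nat_lit 5) (nat_lit 74) (nat_lit 5) (nat_lit 75) (nat_lit 5) (nat_lit 487) (nat_lit 479) (nat_lit 234)) (XT.nd (nat_lit 78) (nat_lit 228) (nat_lit 0) (XT.lf (nat_lit 0) (nat_lit 1146296959808) (nat_lit 532) (nat_lit 853601433938) (nat_lit 76) (nat_lit 560727921436) (nat_lit 68) (nat_lit 5) (nat_lit 75) (nat_lit 5) (nat_lit 69) (nat_lit 5) (nat_lit 488) (nat_lit 479) (nat_lit 233)) (XT.lf (nat_lit 0) (nat_lit 571271466005) (nat_lit 228) (nat_lit 929145416778) (nat_lit 304) (nat_lit 1173313967429) (nat_lit 65) (nat_lit 5) (nat_lit 68) (nat_lit 5) (nat_lit 69) (nat_lit 5) (nat_lit 489) (nat_lit 479) (nat_lit 232)))) (XT.nd (nat_lit 78) (nat_lit 228) (nat_lit 0) (XT.lf (nat_lit 0) (nat_lit 1912277377583) (nat_lit 304) (nat_lit 641409366591) (nat_lit 76) (nat_lit 239844125631) (nat_lit 65) (nat_lit 5) (nat_lit 69) (nat_lit 5) (nat_lit 66) (nat_lit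 5) (nat_lit 490) (nat_lit 479) (nat_lit 231)) (XT.nd (nat_lit 78) (nat_lit 0) (nat_lit 0) (XT.lf (nat_lit 0) (nat_lit 960435897432) (nat_lit 228) (nat_lit 1443882967128) (nat_lit 304) (nat_lit 514817454199) (nat_lit 62) (nat_lit 5) (nat_lit 65) (nat_lit 5) (nat_lit 66) (nat_lit 5) (nat_lit 491) (nat_lit 479) (nat_lit 230)) (XT.lf (nat_lit 0) (nat_lit 2726906300435) (nat_lit 228) (nat_lit 226354637839) (nat_lit 304) (nat_lit 100126283934) (nat_lit 62) (nat_lit 5) (nat_lit 65) (nat_lit 5) (nat_lit 66) (nat_lit 5) (nat_lit 492) (nat_lit 479) (nat_lit 229)))))) (XT.nd (nat_lit 468) (nat_lit 456) (nat_lit 0) (XT.nd (nat_lit 234) (nat_lit 380) (nat_lit 0) (XT.nd (nat_lit 78) (nat_lit 228) (nat_lit 0) (XT.lf (nat_lit 0) (nat_lit 393831997464) (nat_lit 228) (nat_lit 1719007120747) (nat_lit 76) (nat_lit 1079791051773) (nat_lit 59) (nat_lit 5) (nat_lit 62) (nat_lit 5) (nat_lit 60) (nat_lit 5) (nat_lit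 493) (nat_lit 479) (nat_lit 228)) (XT.nd (nat_lit 78) (nat_lit 0) (nat_lit 0) (XT.lf (nat_lit 0) (nat_lit 89783625605) (nat_lit 228) (nat_lit 849310960315) (nat_lit 304) (nat_lit 2402334147881) (nat_lit 56) (nat_lit 5) (nat_lit 59) (nat_lit 5) (nat_lit 60) (nat_lit 5) (nat_lit 494) (nat_lit 479) (nat_lit 227)) (XT.lf (nat_lit 0) (nat_lit 1588592643216) (nat_lit 304) (nat_lit 1370945799640) (nat_lit 76) (nat_lit 537743582926) (nat_lit 56) (nat_lit 5) (nat_lit 60) (nat_lit 5) (nat_lit 57) (nat_lit 5) (nat_lit 495) (nat_lit 479) (nat_lit 226)))) (XT.nd (nat_lit 78) (nat_lit 228) (nat_lit 0) (XT.lf (nat_lit 0) (nat_lit 671753245508) (nat_lit 152) (nat_lit 1656513005444) (nat_lit 228) (nat_lit 1334280073703) (nat_lit 54) (nat_lit 5) (nat_lit 56) (nat_lit 5) (nat_lit 57) (nat_lit 5) (nat_lit 496) (nat_lit 479) (nat_lit 225)) (XT.nd (nat_lit 78) (nat_lit 228) (nat_lit 0) (XT.lf (nat_lit 0) (nat_lit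 2955835115580) (nat_lit 152) (nat_lit 208762718649) (nat_lit 228) (nat_lit 673435206255) (nat_lit 54) (nat_lit 5) (nat_lit 56) (nat_lit 5) (nat_lit 57) (nat_lit 5) (nat_lit 497) (nat_lit 479) (nat_lit 224)) (XT.lf (nat_lit 0) (nat_lit 107081543693) (nat_lit 228) (nat_lit 2590654859616) (nat_lit 76) (nat_lit 1324239266817) (nat_lit 51) (nat_lit 5) (nat_lit 54) (nat_lit 5) (nat_lit 52) (nat_lit 5) (nat_lit 498) (nat_lit 479) (nat_lit 223))))) (XT.nd (nat_lit 234) (nat_lit 152) (nat_lit 0) (XT.nd (nat_lit 78) (nat_lit 304) (nat_lit 0) (XT.lf (nat_lit 0) (nat_lit 943826418610) (nat_lit 228) (nat_lit 262152367904) (nat_lit 76) (nat_lit 3010841995509) (nat_lit 51) (nat_lit 5) (nat_lit 54) (nat_lit 5) (nat_lit 52) (nat_lit 5) (nat_lit 499) (nat_lit 479) (nat_lit 222)) (XT.nd (nat_lit 78) (nat_lit 152) (nat_lit 0) (XT.lf (nat_lit 0) (nat_lit 1915763893624) (nat_lit 228) (nat_lit 2062665765742)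 (nat_lit 76) (nat_lit 443363602697) (nat_lit 49) (nat_lit 5) (nat_lit 52) (nat_lit 5) (nat_lit 50) (nat_lit 5) (nat_lit 500) (nat_lit 479) (nat_lit 221)) (XT.lf (nat_lit 0) (nat_lit 558875373477) (nat_lit 152) (nat_lit 2458699967633) (nat_lit 228) (nat_lit 1621418681440) (nat_lit 47) (nat_lit 5) (nat_lit 49) (nat_lit 5) (nat_lit 50) (nat_lit 5) (nat_lit 501) (nat_lit 479) (nat_lit 220)))) (XT.nd (nat_lit 78) (nat_lit 152) (nat_lit 0) (XT.lf (nat_lit 0) (nat_lit 3507445432639) (nat_lit 152) (nat_lit 756483208537) (nat_lit 228) (nat_lit 605130447756) (nat_lit 47) (nat_lit 5) (nat_lit 49) (nat_lit 5) (nat_lit 50) (nat_lit 5) (nat_lit 502) (nat_lit 479) (nat_lit 219)) (XT.nd (nat_lit 78) (nat_lit 0) (nat_lit 0) (XT.lf (nat_lit 0) (nat_lit 534738713399) (nat_lit 152) (nat_lit 3495964337337) (nat_lit 76) (nat_lit 1080525793900) (nat_lit 45) (nat_lit 5) (nat_lit 47) (nat_lit 5) (nat_lit 46) (nat_lit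 5) (nat_lit 503) (nat_lit 479) (nat_lit 218)) (XT.lf (nat_lit 0) (nat_lit 1790949475088) (nat_lit 152) (nat_lit 498398341884) (nat_lit 76) (nat_lit 3077539363548) (nat_lit 45) (nat_lit 5) (nat_lit 47) (nat_lit 5) (nat_lit 46) (nat_lit 5) (nat_lit 504) (nat_lit 479) (nat_lit 217))))))))
noncomputable def xc241 : XT := (XT.nd (nat_lit 61152) (nat_lit 0) (nat_lit 684) (XT.nd (nat_lit 858) (nat_lit 228) (nat_lit 0) (XT.nd (nat_lit 390) (nat_lit 532) (nat_lit 0) (XT.nd (nat_lit 156) (nat_lit 228) (nat_lit 0) (XT.nd (nat_lit 78) (nat_lit 76) (nat_lit 0) (XT.lf (nat_lit 0) (nat_lit 2883202393071) (nat_lit 152) (nat_lit 333795791009) (nat_lit 228) (nat_lit 2420452712285) (nat_lit 43) (nat_lit 5) (nat_lit 45) (nat_lit 5) (nat_lit 46) (nat_lit 5) (nat_lit 505) (nat_lit 479) (nat_lit 216)) (XT.lf (nat_lit 0) (nat_lit 623159235247) (nat_lit 76) (nat_lit 4205705355335) (nat_lit 152) (nat_lit 1095056414833)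 (nat_lit 42) (nat_lit 5) (nat_lit 43) (nat_lit 5) (nat_lit 44) (nat_lit 4) (nat_lit 506) (nat_lit 479) (nat_lit 215))) (XT.nd (nat_lit 78) (nat_lit 152) (nat_lit 0) (XT.lf (nat_lit 0) (nat_lit 405476973320) (nat_lit 152) (nat_lit 1818603861745) (nat_lit 76) (nat_lit 4001706144066) (nat_lit 41) (nat_lit 5) (nat_lit 43) (nat_lit 5) (nat_lit 42) (nat_lit 5) (nat_lit 507) (nat_lit 479) (nat_lit 214)) (XT.nd (nat_lit 78) (nat_lit 0) (nat_lit 0) (XT.lf (nat_lit 0) (nat_lit 2014454844688) (nat_lit 152) (nat_lit 884385403) (nat_lit 228) (nat_lit 4530311743794) (nat_lit 39) (nat_lit 5) (nat_lit 41) (nat_lit 5) (nat_lit 42) (nat_lit 5) (nat_lit 508) (nat_lit 479) (nat_lit 213)) (XT.lf (nat_lit 0) (nat_lit 3862729940835) (nat_lit 228) (nat_lit 688557941653) (nat_lit 76) (nat_lit 2331117047857) (nat_lit 39) (nat_lit 5) (nat_lit 42) (nat_lit 5) (nat_lit 40) (nat_lit 4) (nat_lit 509) (nat_lit 479) (nat_lit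 212))))) (XT.nd (nat_lit 234) (nat_lit 228) (nat_lit 0) (XT.nd (nat_lit 78) (nat_lit 228) (nat_lit 0) (XT.lf (nat_lit 0) (nat_lit 3643743117037) (nat_lit 76) (nat_lit 2301823871615) (nat_lit 152) (nat_lit 1293519808253) (nat_lit 38) (nat_lit 5) (nat_lit 39) (nat_lit 5) (nat_lit 40) (nat_lit 4) (nat_lit 510) (nat_lit 479) (nat_lit 211)) (XT.nd (nat_lit 78) (nat_lit 0) (nat_lit 0) (XT.lf (nat_lit 0) (nat_lit 584245324696) (nat_lit 228) (nat_lit 6861655113588) (nat_lit 76) (nat_lit 173939280937) (nat_lit 35) (nat_lit 5) (nat_lit 38) (nat_lit 5) (nat_lit 36) (nat_lit 4) (nat_lit 511) (nat_lit 479) (nat_lit 210)) (XT.lf (nat_lit 0) (nat_lit 2702992027462) (nat_lit 228) (nat_lit 2454661972446) (nat_lit 76) (nat_lit 2857859519908) (nat_lit 35) (nat_lit 5) (nat_lit 38) (nat_lit 5) (nat_lit 36) (nat_lit 4) (nat_lit 512) (nat_lit 479) (nat_lit 209)))) (XT.nd (nat_lit 78) (nat_lit 152) (nat_lit 0)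 (XT.lf (nat_lit 0) (nat_lit 2426262074661) (nat_lit 76) (nat_lit 2623328052643) (nat_lit 152) (nat_lit 3388582964285) (nat_lit 34) (nat_lit 5) (nat_lit 35) (nat_lit 5) (nat_lit 36) (nat_lit 4) (nat_lit 513) (nat_lit 479) (nat_lit 208)) (XT.nd (nat_lit 78) (nat_lit 152) (nat_lit 0) (XT.lf (nat_lit 0) (nat_lit 7655509670108) (nat_lit 152) (nat_lit 1056496185232) (nat_lit 0) (nat_lit 176912086167) (nat_lit 34) (nat_lit 5) (nat_lit 36) (nat_lit 4) (nat_lit 34) (nat_lit 4) (nat_lit 514) (nat_lit 479) (nat_lit 207)) (XT.lf (nat_lit 0) (nat_lit 1219151032676) (nat_lit 152) (nat_lit 4942763436422) (nat_lit 76) (nat_lit 3197326227477) (nat_lit 32) (nat_lit 5) (nat_lit 34) (nat_lit 5) (nat_lit 33) (nat_lit 4) (nat_lit 515) (nat_lit 479) (nat_lit 206)))))) (XT.nd (nat_lit 59826) (nat_lit 0) (nat_lit 3268) (XT.nd (nat_lit 234) (nat_lit 76) (nat_lit 0) (XT.nd (nat_lit 78) (nat_lit 76) (nat_lit 0) (XT.lf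 (nat_lit 0) (nat_lit 515494338864) (nat_lit 76) (nat_lit 3327819085977) (nat_lit 152) (nat_lit 6017950166771) (nat_lit 31) (nat_lit 5) (nat_lit 32) (nat_lit 5) (nat_lit 33) (nat_lit 4) (nat_lit 516) (nat_lit 479) (nat_lit 205)) (XT.nd (nat_lit 78) (nat_lit 76) (nat_lit 0) (XT.lf (nat_lit 0) (nat_lit 6691512071812) (nat_lit 76) (nat_lit 121040647900) (nat_lit 152) (nat_lit 3580084085632) (nat_lit 31) (nat_lit 5) (nat_lit 32) (nat_lit 5) (nat_lit 33) (nat_lit 4) (nat_lit 517) (nat_lit 479) (nat_lit 204)) (XT.lf (nat_lit 0) (nat_lit 2436597927244) (nat_lit 76) (nat_lit 7721715385303) (nat_lit 76) (nat_lit 797087991278) (nat_lit 30) (nat_lit 4) (nat_lit 31) (nat_lit 5) (nat_lit 31) (nat_lit 4) (nat_lit 518) (nat_lit 479) (nat_lit 203)))) (XT.nd (nat_lit 59436) (nat_lit 0) (nat_lit 3724) (XT.lf (nat_lit 0) (nat_lit 2205034956831) (nat_lit 152) (nat_lit 2338154684122) (nat_lit 76) (nat_lit 7007190657325)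 (nat_lit 29) (nat_lit 5) (nat_lit 31) (nat_lit 5) (nat_lit 30) (nat_lit 4) (nat_lit 519) (nat_lit 479) (nat_lit 202)) (XT.nd (nat_lit 78) (nat_lit 0) (nat_lit 0) (XT.lf (nat_lit 0) (nat_lit 912380095422) (nat_lit 532) (nat_lit 23098846974) (nat_lit 532) (nat_lit 23098846974) (nat_lit 78) (nat_lit 3) (nat_lit 85) (nat_lit 3) (nat_lit 85) (nat_lit 5) (nat_lit 480) (nat_lit 480) (nat_lit 240)) (XT.lf (nat_lit 76) (nat_lit 948328701448) (nat_lit 0) (nat_lit 972229241868) (nat_lit 532) (nat_lit 71459270982) (nat_lit 79) (nat_lit 5) (nat_lit 78) (nat_lit 3) (nat_lit 85) (nat_lit 5) (nat_lit 481) (nat_lit 480) (nat_lit 239))))) (XT.nd (nat_lit 234) (nat_lit 0) (nat_lit 76) (XT.nd (nat_lit 78) (nat_lit 456) (nat_lit 0) (XT.lf (nat_lit 76) (nat_lit 2025044511313) (nat_lit 0) (nat_lit 238129794) (nat_lit 532) (nat_lit 47484089582) (nat_lit 79) (nat_lit 5) (nat_lit 78) (nat_lit 3) (nat_lit 85) (nat_lit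 5) (nat_lit 482) (nat_lit 480) (nat_lit 238)) (XT.nd (nat_lit 78) (nat_lit 0) (nat_lit 0) (XT.lf (nat_lit 0) (nat_lit 31429220574) (nat_lit 532) (nat_lit 1101241912192) (nat_lit 608) (nat_lit 1023191412524) (nat_lit 72) (nat_lit 5) (nat_lit 79) (nat_lit 5) (nat_lit 80) (nat_lit 5) (nat_lit 483) (nat_lit 480) (nat_lit 237)) (XT.lf (nat_lit 76) (nat_lit 1147237468) (nat_lit 0) (nat_lit 114315459877) (nat_lit 608) (nat_lit 2129934861397) (nat_lit 73) (nat_lit 5) (nat_lit 72) (nat_lit 5) (nat_lit 80) (nat_lit 5) (nat_lit 484) (nat_lit 480) (nat_lit 236)))) (XT.nd (nat_lit 78) (nat_lit 0) (nat_lit 0) (XT.lf (nat_lit 0) (nat_lit 260812338901) (nat_lit 532) (nat_lit 1109814042182) (nat_lit 608) (nat_lit 967101513255) (nat_lit 73) (nat_lit 5) (nat_lit 80) (nat_lit 5) (nat_lit 81) (nat_lit 5) (nat_lit 485) (nat_lit 480) (nat_lit 235)) (XT.nd (nat_lit 78) (nat_lit 0) (nat_lit 76) (XT.lf (nat_lit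 76) (nat_lit 118327106519) (nat_lit 0) (nat_lit 305277846438) (nat_lit 608) (nat_lit 2013374503731) (nat_lit 74) (nat_lit 5) (nat_lit 73) (nat_lit 5) (nat_lit 81) (nat_lit 5) (nat_lit 486) (nat_lit 480) (nat_lit 234)) (XT.lf (nat_lit 0) (nat_lit 650882871730) (nat_lit 532) (nat_lit 1055025561649) (nat_lit 76) (nat_lit 834145759002) (nat_lit 74) (nat_lit 5) (nat_lit 81) (nat_lit 5) (nat_lit 75) (nat_lit 5) (nat_lit 487) (nat_lit 480) (nat_lit 233))))))) (XT.nd (nat_lit 936) (nat_lit 988) (nat_lit 0) (XT.nd (nat_lit 468) (nat_lit 836) (nat_lit 0) (XT.nd (nat_lit 234) (nat_lit 228) (nat_lit 0) (XT.nd (nat_lit 78) (nat_lit 228) (nat_lit 0) (XT.lf (nat_lit 0) (nat_lit 317652330219) (nat_lit 456) (nat_lit 594259533539) (nat_lit 532) (nat_lit 1738217535990) (nat_lit 68) (nat_lit 5) (nat_lit 74) (nat_lit 5) (nat_lit 75) (nat_lit 5) (nat_lit 488) (nat_lit 480) (nat_lit 232)) (XT.nd (nat_lit 78)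 (nat_lit 228) (nat_lit 0) (XT.lf (nat_lit 0) (nat_lit 1238000737644) (nat_lit 532) (nat_lit 921889526452) (nat_lit 76) (nat_lit 605586154609) (nat_lit 68) (nat_lit 5) (nat_lit 75) (nat_lit 5) (nat_lit 69) (nat_lit 5) (nat_lit 489) (nat_lit 480) (nat_lit 231)) (XT.lf (nat_lit 0) (nat_lit 616973204924) (nat_lit 228) (nat_lit 1003477048493) (nat_lit 304) (nat_lit 1267179063204) (nat_lit 65) (nat_lit 5) (nat_lit 68) (nat_lit 5) (nat_lit 69) (nat_lit 5) (nat_lit 490) (nat_lit 480) (nat_lit 230)))) (XT.nd (nat_lit 78) (nat_lit 228) (nat_lit 0) (XT.lf (nat_lit 0) (nat_lit 2065259586356) (nat_lit 304) (nat_lit 692722094431) (nat_lit 76) (nat_lit 259031657112) (nat_lit 65) (nat_lit 5) (nat_lit 69) (nat_lit 5) (nat_lit 66) (nat_lit 5) (nat_lit 491) (nat_lit 480) (nat_lit 229)) (XT.nd (nat_lit 78) (nat_lit 0) (nat_lit 0) (XT.lf (nat_lit 0) (nat_lit 1037270790171) (nat_lit 228) (nat_lit 1559393601248)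 (nat_lit 304) (nat_lit 556002831419) (nat_lit 62) (nat_lit 5) (nat_lit 65) (nat_lit 5) (nat_lit 66) (nat_lit 5) (nat_lit 492) (nat_lit 480) (nat_lit 228)) (XT.lf (nat_lit 0) (nat_lit 2945058823862) (nat_lit 228) (nat_lit 244463005857) (nat_lit 304) (nat_lit 108136368949) (nat_lit 62) (nat_lit 5) (nat_lit 65) (nat_lit 5) (nat_lit 66) (nat_lit 5) (nat_lit 493) (nat_lit 480) (nat_lit 227))))) (XT.nd (nat_lit 234) (nat_lit 380) (nat_lit 0) (XT.nd (nat_lit 78) (nat_lit 228) (nat_lit 0) (XT.lf (nat_lit 0) (nat_lit 425338573394) (nat_lit 228) (nat_lit 1856527669439) (nat_lit 76) (nat_lit 1166174339454) (nat_lit 59) (nat_lit 5) (nat_lit 62) (nat_lit 5) (nat_lit 60) (nat_lit 5) (nat_lit 494) (nat_lit 480) (nat_lit 226)) (XT.nd (nat_lit 78) (nat_lit 0) (nat_lit 0) (XT.lf (nat_lit 0) (nat_lit 96966336091) (nat_lit 228) (nat_lit 917255832134) (nat_lit 304) (nat_lit 2594520863042) (nat_lit 56) (nat_lit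 5) (nat_lit 59) (nat_lit 5) (nat_lit 60) (nat_lit 5) (nat_lit 495) (nat_lit 480) (nat_lit 225)) (XT.lf (nat_lit 0) (nat_lit 1715680069072) (nat_lit 304) (nat_lit 1480621443653) (nat_lit 76) (nat_lit 580763073964) (nat_lit 56) (nat_lit 5) (nat_lit 60) (nat_lit 5) (nat_lit 57) (nat_lit 5) (nat_lit 496) (nat_lit 480) (nat_lit 224)))) (XT.nd (nat_lit 78) (nat_lit 228) (nat_lit 0) (XT.lf (nat_lit 0) (nat_lit 725493524602) (nat_lit 152) (nat_lit 1789034040226) (nat_lit 228) (nat_lit 1441022464692) (nat_lit 54) (nat_lit 5) (nat_lit 56) (nat_lit 5) (nat_lit 57) (nat_lit 5) (nat_lit 497) (nat_lit 480) (nat_lit 223)) (XT.nd (nat_lit 78) (nat_lit 228) (nat_lit 0) (XT.lf (nat_lit 0) (nat_lit 3192301942838) (nat_lit 152) (nat_lit 225463730906) (nat_lit 228) (nat_lit 727310008952) (nat_lit 54) (nat_lit 5) (nat_lit 56) (nat_lit 5) (nat_lit 57) (nat_lit 5) (nat_lit 498) (nat_lit 480) (nat_lit 222)) (XT.lf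 (nat_lit 0) (nat_lit 115648079904) (nat_lit 228) (nat_lit 2797907229280) (nat_lit 76) (nat_lit 1430178413532) (nat_lit 51) (nat_lit 5) (nat_lit 54) (nat_lit 5) (nat_lit 52) (nat_lit 5) (nat_lit 499) (nat_lit 480) (nat_lit 221)))))) (XT.nd (nat_lit 468) (nat_lit 532) (nat_lit 0) (XT.nd (nat_lit 234) (nat_lit 152) (nat_lit 0) (XT.nd (nat_lit 78) (nat_lit 304) (nat_lit 0) (XT.lf (nat_lit 0) (nat_lit 1019332543873) (nat_lit 228) (nat_lit 283124539646) (nat_lit 76) (nat_lit 3251709360121) (nat_lit 51) (nat_lit 5) (nat_lit 54) (nat_lit 5) (nat_lit 52) (nat_lit 5) (nat_lit 500) (nat_lit 480) (nat_lit 220)) (XT.nd (nat_lit 78) (nat_lit 152) (nat_lit 0) (XT.lf (nat_lit 0) (nat_lit 2069025016573) (nat_lit 228) (nat_lit 2227679008994) (nat_lit 76) (nat_lit 478832696542) (nat_lit 49) (nat_lit 5) (nat_lit 52) (nat_lit 5) (nat_lit 50) (nat_lit 5) (nat_lit 501) (nat_lit 480) (nat_lit 219)) (XT.lf (nat_lit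 0) (nat_lit 603585420907) (nat_lit 152) (nat_lit 2655395958524) (nat_lit 228) (nat_lit 1751132164038) (nat_lit 47) (nat_lit 5) (nat_lit 49) (nat_lit 5) (nat_lit 50) (nat_lit 5) (nat_lit 502) (nat_lit 480) (nat_lit 218)))) (XT.nd (nat_lit 78) (nat_lit 152) (nat_lit 0) (XT.lf (nat_lit 0) (nat_lit 3788041083502) (nat_lit 152) (nat_lit 817001859183) (nat_lit 228) (nat_lit 653540872542) (nat_lit 47) (nat_lit 5) (nat_lit 49) (nat_lit 5) (nat_lit 50) (nat_lit 5) (nat_lit 503) (nat_lit 480) (nat_lit 217)) (XT.nd (nat_lit 78) (nat_lit 0) (nat_lit 0) (XT.lf (nat_lit 0) (nat_lit 577517820722) (nat_lit 152) (nat_lit 3775641467285) (nat_lit 76) (nat_lit 1166967863378) (nat_lit 45) (nat_lit 5) (nat_lit 47) (nat_lit 5) (nat_lit 46) (nat_lit 5) (nat_lit 504) (nat_lit 480) (nat_lit 216)) (XT.lf (nat_lit 0) (nat_lit 1934225442586) (nat_lit 152) (nat_lit 538270193458) (nat_lit 76) (nat_lit 3323742518156)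 (nat_lit 45) (nat_lit 5) (nat_lit 47) (nat_lit 5) (nat_lit 46) (nat_lit 5) (nat_lit 505) (nat_lit 480) (nat_lit 215))))) (XT.nd (nat_lit 234) (nat_lit 228) (nat_lit 0) (XT.nd (nat_lit 78) (nat_lit 152) (nat_lit 0) (XT.lf (nat_lit 0) (nat_lit 3113858599894) (nat_lit 152) (nat_lit 360499448070) (nat_lit 228) (nat_lit 2614088919375) (nat_lit 43) (nat_lit 5) (nat_lit 45) (nat_lit 5) (nat_lit 46) (nat_lit 5) (nat_lit 506) (nat_lit 480) (nat_lit 214)) (XT.nd (nat_lit 78) (nat_lit 76) (nat_lit 0) (XT.lf (nat_lit 0) (nat_lit 673011989625) (nat_lit 76) (nat_lit 4542161777196) (nat_lit 152) (nat_lit 1182660918306) (nat_lit 42) (nat_lit 5) (nat_lit 43) (nat_lit 5) (nat_lit 44) (nat_lit 4) (nat_lit 507) (nat_lit 480) (nat_lit 213)) (XT.lf (nat_lit 0) (nat_lit 437915139730) (nat_lit 152) (nat_lit 1964092155829) (nat_lit 76) (nat_lit 4321842641219) (nat_lit 41) (nat_lit 5) (nat_lit 43) (nat_lit 5) (nat_lit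 42) (nat_lit 5) (nat_lit 508) (nat_lit 480) (nat_lit 212)))) (XT.nd (nat_lit 78) (nat_lit 76) (nat_lit 0) (XT.lf (nat_lit 0) (nat_lit 2175611246743) (nat_lit 152) (nat_lit 955130015) (nat_lit 228) (nat_lit 4892736674376) (nat_lit 39) (nat_lit 5) (nat_lit 41) (nat_lit 5) (nat_lit 42) (nat_lit 5) (nat_lit 509) (nat_lit 480) (nat_lit 211)) (XT.nd (nat_lit 78) (nat_lit 76) (nat_lit 0) (XT.lf (nat_lit 0) (nat_lit 4171748343888) (nat_lit 228) (nat_lit 743642563104) (nat_lit 76) (nat_lit 2517606417158) (nat_lit 39) (nat_lit 5) (nat_lit 42) (nat_lit 5) (nat_lit 40) (nat_lit 4) (nat_lit 510) (nat_lit 480) (nat_lit 210)) (XT.lf (nat_lit 0) (nat_lit 3935242579930) (nat_lit 76) (nat_lit 2485969775348) (nat_lit 152) (nat_lit 1397001384774) (nat_lit 38) (nat_lit 5) (nat_lit 39) (nat_lit 5) (nat_lit 40) (nat_lit 4) (nat_lit 511) (nat_lit 480) (nat_lit 209))))))))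
noncomputable def xc242 : XT := (XT.nd (nat_lit 61308) (nat_lit 0) (nat_lit 0) (XT.nd (nat_lit 60372) (nat_lit 0) (nat_lit 1900) (XT.nd (nat_lit 390) (nat_lit 76) (nat_lit 0) (XT.nd (nat_lit 156) (nat_lit 228) (nat_lit 0) (XT.nd (nat_lit 78) (nat_lit 0) (nat_lit 0) (XT.lf (nat_lit 0) (nat_lit 630984958304) (nat_lit 228) (nat_lit 7410587508636) (nat_lit 76) (nat_lit 187854429208) (nat_lit 35) (nat_lit 5) (nat_lit 38) (nat_lit 5) (nat_lit 36) (nat_lit 4) (nat_lit 512) (nat_lit 480) (nat_lit 208)) (XT.lf (nat_lit 0) (nat_lit 2919231396725) (nat_lit 228) (nat_lit 2651034917243) (nat_lit 76) (nat_lit 3086488286867) (nat_lit 35) (nat_lit 5) (nat_lit 38) (nat_lit 5) (nat_lit 36) (nat_lit 4) (nat_lit 513) (nat_lit 480) (nat_lit 207))) (XT.nd (nat_lit 78) (nat_lit 152) (nat_lit 0) (XT.lf (nat_lit 0) (nat_lit 2620363053304) (nat_lit 76) (nat_lit 2833194291033) (nat_lit 152) (nat_lit 3659669594031)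 (nat_lit 34) (nat_lit 5) (nat_lit 35) (nat_lit 5) (nat_lit 36) (nat_lit 4) (nat_lit 514) (nat_lit 480) (nat_lit 206)) (XT.nd (nat_lit 78) (nat_lit 152) (nat_lit 0) (XT.lf (nat_lit 0) (nat_lit 8267950450187) (nat_lit 152) (nat_lit 1141015867941) (nat_lit 0) (nat_lit 191065058181) (nat_lit 34) (nat_lit 5) (nat_lit 36) (nat_lit 4) (nat_lit 34) (nat_lit 4) (nat_lit 515) (nat_lit 480) (nat_lit 205)) (XT.lf (nat_lit 0) (nat_lit 1316683121729) (nat_lit 152) (nat_lit 5338184499193) (nat_lit 76) (nat_lit 3453112330864) (nat_lit 32) (nat_lit 5) (nat_lit 34) (nat_lit 5) (nat_lit 33) (nat_lit 4) (nat_lit 516) (nat_lit 480) (nat_lit 204))))) (XT.nd (nat_lit 59748) (nat_lit 0) (nat_lit 3116) (XT.nd (nat_lit 78) (nat_lit 0) (nat_lit 0) (XT.lf (nat_lit 0) (nat_lit 556733897808) (nat_lit 76) (nat_lit 3594044607266) (nat_lit 152) (nat_lit 6499386173367) (nat_lit 31) (nat_lit 5) (nat_lit 32) (nat_lit 5) (nat_lit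 33) (nat_lit 4) (nat_lit 517) (nat_lit 480) (nat_lit 203)) (XT.nd (nat_lit 59592) (nat_lit 0) (nat_lit 3572) (XT.lf (nat_lit 0) (nat_lit 7226833048516) (nat_lit 76) (nat_lit 130723894557) (nat_lit 152) (nat_lit 3866490806236) (nat_lit 31) (nat_lit 5) (nat_lit 32) (nat_lit 5) (nat_lit 33) (nat_lit 4) (nat_lit 518) (nat_lit 480) (nat_lit 202)) (XT.lf (nat_lit 0) (nat_lit 985370519414) (nat_lit 532) (nat_lit 24946745896) (nat_lit 532) (nat_lit 24946745896) (nat_lit 78) (nat_lit 3) (nat_lit 85) (nat_lit 3) (nat_lit 85) (nat_lit 5) (nat_lit 481) (nat_lit 481) (nat_lit 238)))) (XT.nd (nat_lit 78) (nat_lit 456) (nat_lit 0) (XT.lf (nat_lit 76) (nat_lit 1024195014789) (nat_lit 0) (nat_lit 1050007594699) (nat_lit 532) (nat_lit 77175979486) (nat_lit 79) (nat_lit 5) (nat_lit 78) (nat_lit 3) (nat_lit 85) (nat_lit 5) (nat_lit 482) (nat_lit 481) (nat_lit 237)) (XT.nd (nat_lit 78) (nat_lit 456) (nat_lit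 0) (XT.lf (nat_lit 76) (nat_lit 2187048088168) (nat_lit 0) (nat_lit 257192660) (nat_lit 532) (nat_lit 51282786031) (nat_lit 79) (nat_lit 5) (nat_lit 78) (nat_lit 3) (nat_lit 85) (nat_lit 5) (nat_lit 483) (nat_lit 481) (nat_lit 236)) (XT.lf (nat_lit 0) (nat_lit 33943585399) (nat_lit 532) (nat_lit 1189341245660) (nat_lit 608) (nat_lit 1105046715670) (nat_lit 72) (nat_lit 5) (nat_lit 79) (nat_lit 5) (nat_lit 80) (nat_lit 5) (nat_lit 484) (nat_lit 481) (nat_lit 235)))))) (XT.nd (nat_lit 468) (nat_lit 912) (nat_lit 0) (XT.nd (nat_lit 234) (nat_lit 304) (nat_lit 0) (XT.nd (nat_lit 78) (nat_lit 0) (nat_lit 76) (XT.lf (nat_lit 76) (nat_lit 1239035479) (nat_lit 0) (nat_lit 123460703277) (nat_lit 608) (nat_lit 2300329622626) (nat_lit 73) (nat_lit 5) (nat_lit 72) (nat_lit 5) (nat_lit 80) (nat_lit 5) (nat_lit 485) (nat_lit 481) (nat_lit 234)) (XT.nd (nat_lit 78) (nat_lit 0) (nat_lit 0) (XT.lf (nat_lit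 0) (nat_lit 281677349592) (nat_lit 532) (nat_lit 1198599145898) (nat_lit 608) (nat_lit 1044469628500) (nat_lit 73) (nat_lit 5) (nat_lit 80) (nat_lit 5) (nat_lit 81) (nat_lit 5) (nat_lit 486) (nat_lit 481) (nat_lit 233)) (XT.lf (nat_lit 76) (nat_lit 127793294202) (nat_lit 0) (nat_lit 329700077285) (nat_lit 608) (nat_lit 2174444439946) (nat_lit 74) (nat_lit 5) (nat_lit 73) (nat_lit 5) (nat_lit 81) (nat_lit 5) (nat_lit 487) (nat_lit 481) (nat_lit 232)))) (XT.nd (nat_lit 78) (nat_lit 456) (nat_lit 0) (XT.lf (nat_lit 0) (nat_lit 702953522040) (nat_lit 532) (nat_lit 1139427587111) (nat_lit 76) (nat_lit 900877416967) (nat_lit 74) (nat_lit 5) (nat_lit 81) (nat_lit 5) (nat_lit 75) (nat_lit 5) (nat_lit 488) (nat_lit 481) (nat_lit 231)) (XT.nd (nat_lit 78) (nat_lit 0) (nat_lit 0) (XT.lf (nat_lit 0) (nat_lit 343064535613) (nat_lit 456) (nat_lit 641800296749) (nat_lit 532) (nat_lit 1877274917798) (nat_lit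 68) (nat_lit 5) (nat_lit 74) (nat_lit 5) (nat_lit 75) (nat_lit 5) (nat_lit 489) (nat_lit 481) (nat_lit 230)) (XT.lf (nat_lit 0) (nat_lit 1337040814703) (nat_lit 532) (nat_lit 995640669534) (nat_lit 76) (nat_lit 654033046514) (nat_lit 68) (nat_lit 5) (nat_lit 75) (nat_lit 5) (nat_lit 69) (nat_lit 5) (nat_lit 490) (nat_lit 481) (nat_lit 229))))) (XT.nd (nat_lit 234) (nat_lit 456) (nat_lit 0) (XT.nd (nat_lit 78) (nat_lit 228) (nat_lit 0) (XT.lf (nat_lit 0) (nat_lit 666331079869) (nat_lit 228) (nat_lit 1083755210978) (nat_lit 304) (nat_lit 1368553369725) (nat_lit 65) (nat_lit 5) (nat_lit 68) (nat_lit 5) (nat_lit 69) (nat_lit 5) (nat_lit 491) (nat_lit 481) (nat_lit 228)) (XT.nd (nat_lit 78) (nat_lit 228) (nat_lit 0) (XT.lf (nat_lit 0) (nat_lit 2230480369181) (nat_lit 304) (nat_lit 748139843563) (nat_lit 76) (nat_lit 279754190908) (nat_lit 65) (nat_lit 5) (nat_lit 69) (nat_lit 5) (nat_lit 66)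 (nat_lit 5) (nat_lit 492) (nat_lit 481) (nat_lit 227)) (XT.lf (nat_lit 0) (nat_lit 1120252471341) (nat_lit 228) (nat_lit 1684145086562) (nat_lit 304) (nat_lit 600483041545) (nat_lit 62) (nat_lit 5) (nat_lit 65) (nat_lit 5) (nat_lit 66) (nat_lit 5) (nat_lit 493) (nat_lit 481) (nat_lit 226)))) (XT.nd (nat_lit 78) (nat_lit 456) (nat_lit 0) (XT.lf (nat_lit 0) (nat_lit 3180663546398) (nat_lit 228) (nat_lit 264020043746) (nat_lit 304) (nat_lit 116787263290) (nat_lit 62) (nat_lit 5) (nat_lit 65) (nat_lit 5) (nat_lit 66) (nat_lit 5) (nat_lit 494) (nat_lit 481) (nat_lit 225)) (XT.nd (nat_lit 78) (nat_lit 228) (nat_lit 0) (XT.lf (nat_lit 0) (nat_lit 459365673098) (nat_lit 228) (nat_lit 2005049865018) (nat_lit 76) (nat_lit 1259468289644) (nat_lit 59) (nat_lit 5) (nat_lit 62) (nat_lit 5) (nat_lit 60) (nat_lit 5) (nat_lit 495) (nat_lit 481) (nat_lit 224)) (XT.lf (nat_lit 0) (nat_lit 104723660499) (nat_lit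 228) (nat_lit 990636294412) (nat_lit 304) (nat_lit 2802082517795) (nat_lit 56) (nat_lit 5) (nat_lit 59) (nat_lit 5) (nat_lit 60) (nat_lit 5) (nat_lit 496) (nat_lit 481) (nat_lit 223))))))) (XT.nd (nat_lit 936) (nat_lit 836) (nat_lit 0) (XT.nd (nat_lit 468) (nat_lit 532) (nat_lit 0) (XT.nd (nat_lit 234) (nat_lit 380) (nat_lit 0) (XT.nd (nat_lit 78) (nat_lit 152) (nat_lit 0) (XT.lf (nat_lit 0) (nat_lit 1852934486943) (nat_lit 304) (nat_lit 1599071142034) (nat_lit 76) (nat_lit 627224123657) (nat_lit 56) (nat_lit 5) (nat_lit 60) (nat_lit 5) (nat_lit 57) (nat_lit 5) (nat_lit 497) (nat_lit 481) (nat_lit 222)) (XT.nd (nat_lit 78) (nat_lit 0) (nat_lit 0) (XT.lf (nat_lit 0) (nat_lit 783533023248) (nat_lit 152) (nat_lit 1932156758598) (nat_lit 228) (nat_lit 1556304249087) (nat_lit 54) (nat_lit 5) (nat_lit 56) (nat_lit 5) (nat_lit 57) (nat_lit 5) (nat_lit 498) (nat_lit 481) (nat_lit 221)) (XT.lf (nat_lit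 0) (nat_lit 3447686113708) (nat_lit 152) (nat_lit 243500824891) (nat_lit 228) (nat_lit 785494797834) (nat_lit 54) (nat_lit 5) (nat_lit 56) (nat_lit 5) (nat_lit 57) (nat_lit 5) (nat_lit 499) (nat_lit 481) (nat_lit 220)))) (XT.nd (nat_lit 78) (nat_lit 152) (nat_lit 0) (XT.lf (nat_lit 0) (nat_lit 124899937199) (nat_lit 228) (nat_lit 3021739791242) (nat_lit 76) (nat_lit 1544592691218) (nat_lit 51) (nat_lit 5) (nat_lit 54) (nat_lit 5) (nat_lit 52) (nat_lit 5) (nat_lit 500) (nat_lit 481) (nat_lit 219)) (XT.nd (nat_lit 78) (nat_lit 152) (nat_lit 0) (XT.lf (nat_lit 0) (nat_lit 1100879157477) (nat_lit 228) (nat_lit 305774487651) (nat_lit 76) (nat_lit 3511846113194) (nat_lit 51) (nat_lit 5) (nat_lit 54) (nat_lit 5) (nat_lit 52) (nat_lit 5) (nat_lit 501) (nat_lit 481) (nat_lit 218)) (XT.lf (nat_lit 0) (nat_lit 2234547027723) (nat_lit 228) (nat_lit 2405893314275) (nat_lit 76) (nat_lit 517139317092)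 (nat_lit 49) (nat_lit 5) (nat_lit 52) (nat_lit 5) (nat_lit 50) (nat_lit 5) (nat_lit 502) (nat_lit 481) (nat_lit 217))))) (XT.nd (nat_lit 234) (nat_lit 228) (nat_lit 0) (XT.nd (nat_lit 78) (nat_lit 152) (nat_lit 0) (XT.lf (nat_lit 0) (nat_lit 651872269627) (nat_lit 152) (nat_lit 2867827629616) (nat_lit 228) (nat_lit 1891222726944) (nat_lit 47) (nat_lit 5) (nat_lit 49) (nat_lit 5) (nat_lit 50) (nat_lit 5) (nat_lit 503) (nat_lit 481) (nat_lit 216)) (XT.nd (nat_lit 78) (nat_lit 152) (nat_lit 0) (XT.lf (nat_lit 0) (nat_lit 4091084384115) (nat_lit 152) (nat_lit 882362002742) (nat_lit 228) (nat_lit 705824132885) (nat_lit 47) (nat_lit 5) (nat_lit 49) (nat_lit 5) (nat_lit 50) (nat_lit 5) (nat_lit 504) (nat_lit 481) (nat_lit 215)) (XT.lf (nat_lit 0) (nat_lit 623719255168) (nat_lit 152) (nat_lit 4077692770060) (nat_lit 76) (nat_lit 1260325297564) (nat_lit 45) (nat_lit 5) (nat_lit 47) (nat_lit 5) (nat_lit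 46) (nat_lit 5) (nat_lit 505) (nat_lit 481) (nat_lit 214)))) (XT.nd (nat_lit 78) (nat_lit 228) (nat_lit 0) (XT.lf (nat_lit 0) (nat_lit 2088963486131) (nat_lit 152) (nat_lit 581331795409) (nat_lit 76) (nat_lit 3589641924345) (nat_lit 45) (nat_lit 5) (nat_lit 47) (nat_lit 5) (nat_lit 46) (nat_lit 5) (nat_lit 506) (nat_lit 481) (nat_lit 213)) (XT.nd (nat_lit 78) (nat_lit 76) (nat_lit 0) (XT.lf (nat_lit 0) (nat_lit 3362967301070) (nat_lit 152) (nat_lit 389339398584) (nat_lit 228) (nat_lit 2823216024444) (nat_lit 43) (nat_lit 5) (nat_lit 45) (nat_lit 5) (nat_lit 46) (nat_lit 5) (nat_lit 507) (nat_lit 481) (nat_lit 212)) (XT.lf (nat_lit 0) (nat_lit 726852962133) (nat_lit 76) (nat_lit 4905534713744) (nat_lit 152) (nat_lit 1277273783443) (nat_lit 42) (nat_lit 5) (nat_lit 43) (nat_lit 5) (nat_lit 44) (nat_lit 4) (nat_lit 508) (nat_lit 481) (nat_lit 211)))))) (XT.nd (nat_lit 468) (nat_lit 304) (nat_lit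 0) (XT.nd (nat_lit 234) (nat_lit 304) (nat_lit 0) (XT.nd (nat_lit 78) (nat_lit 152) (nat_lit 0) (XT.lf (nat_lit 0) (nat_lit 472948358234) (nat_lit 152) (nat_lit 2121219515558) (nat_lit 76) (nat_lit 4667590057341) (nat_lit 41) (nat_lit 5) (nat_lit 43) (nat_lit 5) (nat_lit 42) (nat_lit 5) (nat_lit 509) (nat_lit 481) (nat_lit 210)) (XT.nd (nat_lit 78) (nat_lit 0) (nat_lit 0) (XT.lf (nat_lit 0) (nat_lit 2349660158897) (nat_lit 152) (nat_lit 1031535082) (nat_lit 228) (nat_lit 5284155600678) (nat_lit 39) (nat_lit 5) (nat_lit 41) (nat_lit 5) (nat_lit 42) (nat_lit 5) (nat_lit 510) (nat_lit 481) (nat_lit 209)) (XT.lf (nat_lit 0) (nat_lit 4505488218074) (nat_lit 228) (nat_lit 803133956251) (nat_lit 76) (nat_lit 2719014935222) (nat_lit 39) (nat_lit 5) (nat_lit 42) (nat_lit 5) (nat_lit 40) (nat_lit 4) (nat_lit 511) (nat_lit 481) (nat_lit 208)))) (XT.nd (nat_lit 78) (nat_lit 228) (nat_lit 0) (XT.lf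 (nat_lit 0) (nat_lit 4250061997925) (nat_lit 76) (nat_lit 2684847352236) (nat_lit 152) (nat_lit 1508761488579) (nat_lit 38) (nat_lit 5) (nat_lit 39) (nat_lit 5) (nat_lit 40) (nat_lit 4) (nat_lit 512) (nat_lit 481) (nat_lit 207)) (XT.nd (nat_lit 78) (nat_lit 0) (nat_lit 0) (XT.lf (nat_lit 0) (nat_lit 681463761511) (nat_lit 228) (nat_lit 8003434497291) (nat_lit 76) (nat_lit 202882788513) (nat_lit 35) (nat_lit 5) (nat_lit 38) (nat_lit 5) (nat_lit 36) (nat_lit 4) (nat_lit 513) (nat_lit 481) (nat_lit 206)) (XT.lf (nat_lit 0) (nat_lit 3152769914522) (nat_lit 228) (nat_lit 2863117699478) (nat_lit 76) (nat_lit 3333407354416) (nat_lit 35) (nat_lit 5) (nat_lit 38) (nat_lit 5) (nat_lit 36) (nat_lit 4) (nat_lit 514) (nat_lit 481) (nat_lit 205))))) (XT.nd (nat_lit 234) (nat_lit 76) (nat_lit 0) (XT.nd (nat_lit 78) (nat_lit 152) (nat_lit 0) (XT.lf (nat_lit 0) (nat_lit 2829992108430) (nat_lit 76) (nat_lit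 3059849829324) (nat_lit 152) (nat_lit 3952443155213) (nat_lit 34) (nat_lit 5) (nat_lit 35) (nat_lit 5) (nat_lit 36) (nat_lit 4) (nat_lit 515) (nat_lit 481) (nat_lit 204)) (XT.nd (nat_lit 78) (nat_lit 152) (nat_lit 0) (XT.lf (nat_lit 0) (nat_lit 8929386491749) (nat_lit 152) (nat_lit 1232297126995) (nat_lit 0) (nat_lit 206350267226) (nat_lit 34) (nat_lit 5) (nat_lit 36) (nat_lit 4) (nat_lit 34) (nat_lit 4) (nat_lit 516) (nat_lit 481) (nat_lit 203)) (XT.lf (nat_lit 0) (nat_lit 1422017776987) (nat_lit 152) (nat_lit 5765239248719) (nat_lit 76) (nat_lit 3729361321781) (nat_lit 32) (nat_lit 5) (nat_lit 34) (nat_lit 5) (nat_lit 33) (nat_lit 4) (nat_lit 517) (nat_lit 481) (nat_lit 202)))) (XT.nd (nat_lit 59670) (nat_lit 0) (nat_lit 3572) (XT.lf (nat_lit 0) (nat_lit 601272619780) (nat_lit 76) (nat_lit 3881568171056) (nat_lit 152) (nat_lit 7019337061452) (nat_lit 31) (nat_lit 5) (nat_lit 32) (nat_lit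 5) (nat_lit 33) (nat_lit 4) (nat_lit 518) (nat_lit 481) (nat_lit 201)) (XT.nd (nat_lit 78) (nat_lit 0) (nat_lit 0) (XT.lf (nat_lit 0) (nat_lit 1064200174991) (nat_lit 532) (nat_lit 26942477992) (nat_lit 532) (nat_lit 26942477992) (nat_lit 78) (nat_lit 3) (nat_lit 85) (nat_lit 3) (nat_lit 85) (nat_lit 5) (nat_lit 482) (nat_lit 482) (nat_lit 236)) (XT.lf (nat_lit 76) (nat_lit 1106130630740) (nat_lit 0) (nat_lit 1134008213832) (nat_lit 532) (nat_lit 83350029403) (nat_lit 79) (nat_lit 5) (nat_lit 78) (nat_lit 3) (nat_lit 85) (nat_lit 5) (nat_lit 483) (nat_lit 482) (nat_lit 235))))))))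
noncomputable def xc243 : XT := (XT.nd (nat_lit 1794) (nat_lit 988) (nat_lit 0) (XT.nd (nat_lit 858) (nat_lit 1292) (nat_lit 0) (XT.nd (nat_lit 390) (nat_lit 760) (nat_lit 0) (XT.nd (nat_lit 156) (nat_lit 0) (nat_lit 0) (XT.nd (nat_lit 78) (nat_lit 456) (nat_lit 0) (XT.lf (nat_lit 76) (nat_lit 2362011948895) (nat_lit 0) (nat_lit 277778774) (nat_lit 532) (nat_lit 55385382579) (nat_lit 79) (nat_lit 5) (nat_lit 78) (nat_lit 3) (nat_lit 85) (nat_lit 5) (nat_lit 484) (nat_lit 482) (nat_lit 234)) (XT.lf (nat_lit 0) (nat_lit 36659095534) (nat_lit 532) (nat_lit 1284488528589) (nat_lit 608) (nat_lit 1193450444473) (nat_lit 72) (nat_lit 5) (nat_lit 79) (nat_lit 5) (nat_lit 80) (nat_lit 5) (nat_lit 485) (nat_lit 482) (nat_lit 233))) (XT.nd (nat_lit 78) (nat_lit 0) (nat_lit 76) (XT.lf (nat_lit 76) (nat_lit 1338174618) (nat_lit 0) (nat_lit 133337565207) (nat_lit 608) (nat_lit 2484355968703) (nat_lit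 73) (nat_lit 5) (nat_lit 72) (nat_lit 5) (nat_lit 80) (nat_lit 5) (nat_lit 486) (nat_lit 482) (nat_lit 232)) (XT.nd (nat_lit 78) (nat_lit 0) (nat_lit 0) (XT.lf (nat_lit 0) (nat_lit 304211557774) (nat_lit 532) (nat_lit 1294487060717) (nat_lit 608) (nat_lit 1128027193795) (nat_lit 73) (nat_lit 5) (nat_lit 80) (nat_lit 5) (nat_lit 81) (nat_lit 5) (nat_lit 487) (nat_lit 482) (nat_lit 231)) (XT.lf (nat_lit 76) (nat_lit 138016774165) (nat_lit 0) (nat_lit 356076086153) (nat_lit 608) (nat_lit 2348399974493) (nat_lit 74) (nat_lit 5) (nat_lit 73) (nat_lit 5) (nat_lit 81) (nat_lit 5) (nat_lit 488) (nat_lit 482) (nat_lit 230))))) (XT.nd (nat_lit 234) (nat_lit 456) (nat_lit 0) (XT.nd (nat_lit 78) (nat_lit 456) (nat_lit 0) (XT.lf (nat_lit 0) (nat_lit 759189821440) (nat_lit 532) (nat_lit 1230581777388) (nat_lit 76) (nat_lit 972947607963) (nat_lit 74) (nat_lit 5) (nat_lit 81) (nat_lit 5) (nat_lit 75) (nat_lit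 5) (nat_lit 489) (nat_lit 482) (nat_lit 229)) (XT.nd (nat_lit 78) (nat_lit 0) (nat_lit 0) (XT.lf (nat_lit 0) (nat_lit 370509714732) (nat_lit 456) (nat_lit 693144320942) (nat_lit 532) (nat_lit 2027456893157) (nat_lit 68) (nat_lit 5) (nat_lit 74) (nat_lit 5) (nat_lit 75) (nat_lit 5) (nat_lit 490) (nat_lit 482) (nat_lit 228)) (XT.lf (nat_lit 0) (nat_lit 1444004095353) (nat_lit 532) (nat_lit 1075291906779) (nat_lit 76) (nat_lit 706355689837) (nat_lit 68) (nat_lit 5) (nat_lit 75) (nat_lit 5) (nat_lit 69) (nat_lit 5) (nat_lit 491) (nat_lit 482) (nat_lit 227)))) (XT.nd (nat_lit 78) (nat_lit 228) (nat_lit 0) (XT.lf (nat_lit 0) (nat_lit 719637582164) (nat_lit 228) (nat_lit 1170455626661) (nat_lit 304) (nat_lit 1478037623412) (nat_lit 65) (nat_lit 5) (nat_lit 68) (nat_lit 5) (nat_lit 69) (nat_lit 5) (nat_lit 492) (nat_lit 482) (nat_lit 226)) (XT.nd (nat_lit 78) (nat_lit 228) (nat_lit 0) (XT.lf (nat_lit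 0) (nat_lit 2408918812363) (nat_lit 304) (nat_lit 807991015253) (nat_lit 76) (nat_lit 302134527232) (nat_lit 65) (nat_lit 5) (nat_lit 69) (nat_lit 5) (nat_lit 66) (nat_lit 5) (nat_lit 493) (nat_lit 482) (nat_lit 225)) (XT.lf (nat_lit 0) (nat_lit 1209872684443) (nat_lit 228) (nat_lit 1818876691099) (nat_lit 304) (nat_lit 648521670818) (nat_lit 62) (nat_lit 5) (nat_lit 65) (nat_lit 5) (nat_lit 66) (nat_lit 5) (nat_lit 494) (nat_lit 482) (nat_lit 224)))))) (XT.nd (nat_lit 468) (nat_lit 684) (nat_lit 0) (XT.nd (nat_lit 234) (nat_lit 152) (nat_lit 0) (XT.nd (nat_lit 78) (nat_lit 456) (nat_lit 0) (XT.lf (nat_lit 0) (nat_lit 3435116644364) (nat_lit 228) (nat_lit 285141645034) (nat_lit 304) (nat_lit 126130231344) (nat_lit 62) (nat_lit 5) (nat_lit 65) (nat_lit 5) (nat_lit 66) (nat_lit 5) (nat_lit 495) (nat_lit 482) (nat_lit 223)) (XT.nd (nat_lit 78) (nat_lit 228) (nat_lit 0) (XT.lf (nat_lit 0) (nat_lit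 496114938805) (nat_lit 228) (nat_lit 2165453838807) (nat_lit 76) (nat_lit 1360225755417) (nat_lit 59) (nat_lit 5) (nat_lit 62) (nat_lit 5) (nat_lit 60) (nat_lit 5) (nat_lit 496) (nat_lit 482) (nat_lit 222)) (XT.lf (nat_lit 0) (nat_lit 113101568361) (nat_lit 228) (nat_lit 1069887194284) (nat_lit 304) (nat_lit 3026249106967) (nat_lit 56) (nat_lit 5) (nat_lit 59) (nat_lit 5) (nat_lit 60) (nat_lit 5) (nat_lit 497) (nat_lit 482) (nat_lit 221)))) (XT.nd (nat_lit 78) (nat_lit 152) (nat_lit 0) (XT.lf (nat_lit 0) (nat_lit 2001169256482) (nat_lit 304) (nat_lit 1726996818727) (nat_lit 76) (nat_lit 677402056787) (nat_lit 56) (nat_lit 5) (nat_lit 60) (nat_lit 5) (nat_lit 57) (nat_lit 5) (nat_lit 498) (nat_lit 482) (nat_lit 220)) (XT.nd (nat_lit 78) (nat_lit 0) (nat_lit 0) (XT.lf (nat_lit 0) (nat_lit 846215679406) (nat_lit 152) (nat_lit 2086729295130) (nat_lit 228) (nat_lit 1680808578056) (nat_lit 54)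 (nat_lit 5) (nat_lit 56) (nat_lit 5) (nat_lit 57) (nat_lit 5) (nat_lit 499) (nat_lit 482) (nat_lit 219)) (XT.lf (nat_lit 0) (nat_lit 3723501016044) (nat_lit 152) (nat_lit 262980887035) (nat_lit 228) (nat_lit 848334371515) (nat_lit 54) (nat_lit 5) (nat_lit 56) (nat_lit 5) (nat_lit 57) (nat_lit 5) (nat_lit 500) (nat_lit 482) (nat_lit 218))))) (XT.nd (nat_lit 234) (nat_lit 304) (nat_lit 0) (XT.nd (nat_lit 78) (nat_lit 152) (nat_lit 0) (XT.lf (nat_lit 0) (nat_lit 134891941521) (nat_lit 228) (nat_lit 3263478960499) (nat_lit 76) (nat_lit 1668160110462) (nat_lit 51) (nat_lit 5) (nat_lit 54) (nat_lit 5) (nat_lit 52) (nat_lit 5) (nat_lit 501) (nat_lit 482) (nat_lit 217)) (XT.nd (nat_lit 78) (nat_lit 152) (nat_lit 0) (XT.lf (nat_lit 0) (nat_lit 1188949498729) (nat_lit 228) (nat_lit 330236433661) (nat_lit 76) (nat_lit 3792793805904) (nat_lit 51) (nat_lit 5) (nat_lit 54) (nat_lit 5) (nat_lit 52) (nat_lit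 5) (nat_lit 502) (nat_lit 482) (nat_lit 216)) (XT.lf (nat_lit 0) (nat_lit 2413310798364) (nat_lit 228) (nat_lit 2598364766181) (nat_lit 76) (nat_lit 558510466597) (nat_lit 49) (nat_lit 5) (nat_lit 52) (nat_lit 5) (nat_lit 50) (nat_lit 5) (nat_lit 503) (nat_lit 482) (nat_lit 215)))) (XT.nd (nat_lit 78) (nat_lit 152) (nat_lit 0) (XT.lf (nat_lit 0) (nat_lit 704022064098) (nat_lit 152) (nat_lit 3097253835194) (nat_lit 228) (nat_lit 2042520536340) (nat_lit 47) (nat_lit 5) (nat_lit 49) (nat_lit 5) (nat_lit 50) (nat_lit 5) (nat_lit 504) (nat_lit 482) (nat_lit 214)) (XT.nd (nat_lit 78) (nat_lit 152) (nat_lit 0) (XT.lf (nat_lit 0) (nat_lit 4418371146790) (nat_lit 152) (nat_lit 952950958525) (nat_lit 228) (nat_lit 762290055406) (nat_lit 47) (nat_lit 5) (nat_lit 49) (nat_lit 5) (nat_lit 50) (nat_lit 5) (nat_lit 505) (nat_lit 482) (nat_lit 213)) (XT.lf (nat_lit 0) (nat_lit 673616803116) (nat_lit 152)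 (nat_lit 4403908179141) (nat_lit 76) (nat_lit 1361151325754) (nat_lit 45) (nat_lit 5) (nat_lit 47) (nat_lit 5) (nat_lit 46) (nat_lit 5) (nat_lit 506) (nat_lit 482) (nat_lit 212))))))) (XT.nd (nat_lit 60606) (nat_lit 0) (nat_lit 2508) (XT.nd (nat_lit 468) (nat_lit 532) (nat_lit 0) (XT.nd (nat_lit 234) (nat_lit 228) (nat_lit 0) (XT.nd (nat_lit 78) (nat_lit 228) (nat_lit 0) (XT.lf (nat_lit 0) (nat_lit 2256080571998) (nat_lit 152) (nat_lit 627838327445) (nat_lit 76) (nat_lit 3876813282353) (nat_lit 45) (nat_lit 5) (nat_lit 47) (nat_lit 5) (nat_lit 46) (nat_lit 5) (nat_lit 507) (nat_lit 482) (nat_lit 211)) (XT.nd (nat_lit 78) (nat_lit 76) (nat_lit 0) (XT.lf (nat_lit 0) (nat_lit 3632004696458) (nat_lit 152) (nat_lit 420486545900) (nat_lit 228) (nat_lit 3049073299128) (nat_lit 43) (nat_lit 5) (nat_lit 45) (nat_lit 5) (nat_lit 46) (nat_lit 5) (nat_lit 508) (nat_lit 482) (nat_lit 210)) (XT.lf (nat_lit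 0) (nat_lit 785001210539) (nat_lit 76) (nat_lit 5297977486018) (nat_lit 152) (nat_lit 1379455678979) (nat_lit 42) (nat_lit 5) (nat_lit 43) (nat_lit 5) (nat_lit 44) (nat_lit 4) (nat_lit 509) (nat_lit 482) (nat_lit 209)))) (XT.nd (nat_lit 78) (nat_lit 152) (nat_lit 0) (XT.lf (nat_lit 0) (nat_lit 510784233172) (nat_lit 152) (nat_lit 2290917065883) (nat_lit 76) (nat_lit 5040997266065) (nat_lit 41) (nat_lit 5) (nat_lit 43) (nat_lit 5) (nat_lit 42) (nat_lit 5) (nat_lit 510) (nat_lit 482) (nat_lit 208)) (XT.nd (nat_lit 78) (nat_lit 0) (nat_lit 0) (XT.lf (nat_lit 0) (nat_lit 2537632982253) (nat_lit 152) (nat_lit 1114053316) (nat_lit 228) (nat_lit 5706888042175) (nat_lit 39) (nat_lit 5) (nat_lit 41) (nat_lit 5) (nat_lit 42) (nat_lit 5) (nat_lit 511) (nat_lit 482) (nat_lit 207)) (XT.lf (nat_lit 0) (nat_lit 4865927281243) (nat_lit 228) (nat_lit 867384662547) (nat_lit 76) (nat_lit 2936536134061) (nat_lit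 39) (nat_lit 5) (nat_lit 42) (nat_lit 5) (nat_lit 40) (nat_lit 4) (nat_lit 512) (nat_lit 482) (nat_lit 206))))) (XT.nd (nat_lit 234) (nat_lit 228) (nat_lit 0) (XT.nd (nat_lit 78) (nat_lit 228) (nat_lit 0) (XT.lf (nat_lit 0) (nat_lit 4590066967705) (nat_lit 76) (nat_lit 2899635136008) (nat_lit 152) (nat_lit 1629462401683) (nat_lit 38) (nat_lit 5) (nat_lit 39) (nat_lit 5) (nat_lit 40) (nat_lit 4) (nat_lit 513) (nat_lit 482) (nat_lit 205)) (XT.nd (nat_lit 78) (nat_lit 0) (nat_lit 0) (XT.lf (nat_lit 0) (nat_lit 735980868042) (nat_lit 228) (nat_lit 8643709246756) (nat_lit 76) (nat_lit 219113415853) (nat_lit 35) (nat_lit 5) (nat_lit 38) (nat_lit 5) (nat_lit 36) (nat_lit 4) (nat_lit 514) (nat_lit 482) (nat_lit 204)) (XT.lf (nat_lit 0) (nat_lit 3404991512878) (nat_lit 228) (nat_lit 3092167105882) (nat_lit 76) (nat_lit 3600079946714) (nat_lit 35) (nat_lit 5) (nat_lit 38) (nat_lit 5) (nat_lit 36)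 (nat_lit 4) (nat_lit 515) (nat_lit 482) (nat_lit 203)))) (XT.nd (nat_lit 78) (nat_lit 152) (nat_lit 0) (XT.lf (nat_lit 0) (nat_lit 3056391486417) (nat_lit 76) (nat_lit 3304637811391) (nat_lit 152) (nat_lit 4268638602193) (nat_lit 34) (nat_lit 5) (nat_lit 35) (nat_lit 5) (nat_lit 36) (nat_lit 4) (nat_lit 516) (nat_lit 482) (nat_lit 202)) (XT.nd (nat_lit 78) (nat_lit 152) (nat_lit 0) (XT.lf (nat_lit 0) (nat_lit 9643737415845) (nat_lit 152) (nat_lit 1330880888254) (nat_lit 0) (nat_lit 222858292368) (nat_lit 34) (nat_lit 5) (nat_lit 36) (nat_lit 4) (nat_lit 34) (nat_lit 4) (nat_lit 517) (nat_lit 482) (nat_lit 201)) (XT.lf (nat_lit 0) (nat_lit 1535779203879) (nat_lit 152) (nat_lit 6226458379691) (nat_lit 76) (nat_lit 4027710231337) (nat_lit 32) (nat_lit 5) (nat_lit 34) (nat_lit 5) (nat_lit 33) (nat_lit 4) (nat_lit 518) (nat_lit 482) (nat_lit 200)))))) (XT.nd (nat_lit 468) (nat_lit 532) (nat_lit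 0) (XT.nd (nat_lit 234) (nat_lit 456) (nat_lit 0) (XT.nd (nat_lit 78) (nat_lit 0) (nat_lit 0) (XT.lf (nat_lit 0) (nat_lit 1149336201013) (nat_lit 532) (nat_lit 29097869736) (nat_lit 532) (nat_lit 29097869736) (nat_lit 78) (nat_lit 3) (nat_lit 85) (nat_lit 3) (nat_lit 85) (nat_lit 5) (nat_lit 483) (nat_lit 483) (nat_lit 234)) (XT.nd (nat_lit 78) (nat_lit 0) (nat_lit 0) (XT.lf (nat_lit 76) (nat_lit 1194621093861) (nat_lit 0) (nat_lit 1224728880847) (nat_lit 532) (nat_lit 90018007371) (nat_lit 79) (nat_lit 5) (nat_lit 78) (nat_lit 3) (nat_lit 85) (nat_lit 5) (nat_lit 484) (nat_lit 483) (nat_lit 233)) (XT.lf (nat_lit 76) (nat_lit 2550972916530) (nat_lit 0) (nat_lit 300010251) (nat_lit 532) (nat_lit 59816190607) (nat_lit 79) (nat_lit 5) (nat_lit 78) (nat_lit 3) (nat_lit 85) (nat_lit 5) (nat_lit 485) (nat_lit 483) (nat_lit 232)))) (XT.nd (nat_lit 78) (nat_lit 0) (nat_lit 0) (XT.lf (nat_lit 0)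 (nat_lit 39591843154) (nat_lit 532) (nat_lit 1387247596538) (nat_lit 608) (nat_lit 1288926472785) (nat_lit 72) (nat_lit 5) (nat_lit 79) (nat_lit 5) (nat_lit 80) (nat_lit 5) (nat_lit 486) (nat_lit 483) (nat_lit 231)) (XT.nd (nat_lit 78) (nat_lit 0) (nat_lit 76) (XT.lf (nat_lit 76) (nat_lit 1445242562) (nat_lit 0) (nat_lit 144004575283) (nat_lit 608) (nat_lit 2683104425852) (nat_lit 73) (nat_lit 5) (nat_lit 72) (nat_lit 5) (nat_lit 80) (nat_lit 5) (nat_lit 487) (nat_lit 483) (nat_lit 230)) (XT.lf (nat_lit 0) (nat_lit 328548499727) (nat_lit 532) (nat_lit 1398046011124) (nat_lit 608) (nat_lit 1218269365025) (nat_lit 73) (nat_lit 5) (nat_lit 80) (nat_lit 5) (nat_lit 81) (nat_lit 5) (nat_lit 488) (nat_lit 483) (nat_lit 229))))) (XT.nd (nat_lit 234) (nat_lit 228) (nat_lit 0) (XT.nd (nat_lit 78) (nat_lit 380) (nat_lit 0) (XT.lf (nat_lit 76) (nat_lit 149058130182) (nat_lit 0) (nat_lit 384562175348)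 (nat_lit 608) (nat_lit 2536271954751) (nat_lit 74) (nat_lit 5) (nat_lit 73) (nat_lit 5) (nat_lit 81) (nat_lit 5) (nat_lit 489) (nat_lit 483) (nat_lit 228)) (XT.nd (nat_lit 78) (nat_lit 456) (nat_lit 0) (XT.lf (nat_lit 0) (nat_lit 819925022276) (nat_lit 532) (nat_lit 1329028305269) (nat_lit 76) (nat_lit 1050783414575) (nat_lit 74) (nat_lit 5) (nat_lit 81) (nat_lit 5) (nat_lit 75) (nat_lit 5) (nat_lit 490) (nat_lit 483) (nat_lit 227)) (XT.lf (nat_lit 0) (nat_lit 400150505859) (nat_lit 456) (nat_lit 748595867005) (nat_lit 532) (nat_lit 2189653429121) (nat_lit 68) (nat_lit 5) (nat_lit 74) (nat_lit 5) (nat_lit 75) (nat_lit 5) (nat_lit 491) (nat_lit 483) (nat_lit 226)))) (XT.nd (nat_lit 78) (nat_lit 228) (nat_lit 0) (XT.lf (nat_lit 0) (nat_lit 1559524436246) (nat_lit 532) (nat_lit 1161315245331) (nat_lit 76) (nat_lit 762864144683) (nat_lit 68) (nat_lit 5) (nat_lit 75) (nat_lit 5) (nat_lit 69)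 (nat_lit 5) (nat_lit 492) (nat_lit 483) (nat_lit 225)) (XT.nd (nat_lit 78) (nat_lit 0) (nat_lit 0) (XT.lf (nat_lit 0) (nat_lit 777208602373) (nat_lit 228) (nat_lit 1264092075768) (nat_lit 304) (nat_lit 1596280619661) (nat_lit 65) (nat_lit 5) (nat_lit 68) (nat_lit 5) (nat_lit 69) (nat_lit 5) (nat_lit 493) (nat_lit 483) (nat_lit 224)) (XT.lf (nat_lit 0) (nat_lit 2601632329051) (nat_lit 304) (nat_lit 872630282932) (nat_lit 76) (nat_lit 326305290312) (nat_lit 65) (nat_lit 5) (nat_lit 69) (nat_lit 5) (nat_lit 66) (nat_lit 5) (nat_lit 494) (nat_lit 483) (nat_lit 223))))))))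
noncomputable def xc244 : XT := (XT.nd (nat_lit 1794) (nat_lit 0) (nat_lit 0) (XT.nd (nat_lit 858) (nat_lit 988) (nat_lit 0) (XT.nd (nat_lit 390) (nat_lit 684) (nat_lit 0) (XT.nd (nat_lit 156) (nat_lit 456) (nat_lit 0) (XT.nd (nat_lit 78) (nat_lit 0) (nat_lit 0) (XT.lf (nat_lit 0) (nat_lit 1306662512397) (nat_lit 228) (nat_lit 1964386824339) (nat_lit 304) (nat_lit 700403392437) (nat_lit 62) (nat_lit 5) (nat_lit 65) (nat_lit 5) (nat_lit 66) (nat_lit 5) (nat_lit 495) (nat_lit 483) (nat_lit 222)) (XT.lf (nat_lit 0) (nat_lit 3709925988133) (nat_lit 228) (nat_lit 307952974740) (nat_lit 304) (nat_lit 136220638698) (nat_lit 62) (nat_lit 5) (nat_lit 65) (nat_lit 5) (nat_lit 66) (nat_lit 5) (nat_lit 496) (nat_lit 483) (nat_lit 221))) (XT.nd (nat_lit 78) (nat_lit 228) (nat_lit 0) (XT.lf (nat_lit 0) (nat_lit 535804144076) (nat_lit 228) (nat_lit 2338690132699) (nat_lit 76) (nat_lit 1469043818080) (nat_lit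 59) (nat_lit 5) (nat_lit 62) (nat_lit 5) (nat_lit 60) (nat_lit 5) (nat_lit 497) (nat_lit 483) (nat_lit 220)) (XT.nd (nat_lit 78) (nat_lit 0) (nat_lit 0) (XT.lf (nat_lit 0) (nat_lit 122149706709) (nat_lit 228) (nat_lit 1155478166672) (nat_lit 304) (nat_lit 3268349025020) (nat_lit 56) (nat_lit 5) (nat_lit 59) (nat_lit 5) (nat_lit 60) (nat_lit 5) (nat_lit 498) (nat_lit 483) (nat_lit 219)) (XT.lf (nat_lit 0) (nat_lit 2161262806074) (nat_lit 304) (nat_lit 1865156551648) (nat_lit 76) (nat_lit 731594224105) (nat_lit 56) (nat_lit 5) (nat_lit 60) (nat_lit 5) (nat_lit 57) (nat_lit 5) (nat_lit 499) (nat_lit 483) (nat_lit 218))))) (XT.nd (nat_lit 234) (nat_lit 304) (nat_lit 0) (XT.nd (nat_lit 78) (nat_lit 228) (nat_lit 0) (XT.lf (nat_lit 0) (nat_lit 913912946018) (nat_lit 152) (nat_lit 2253667635178) (nat_lit 228) (nat_lit 1815273254907) (nat_lit 54) (nat_lit 5) (nat_lit 56) (nat_lit 5) (nat_lit 57)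 (nat_lit 5) (nat_lit 500) (nat_lit 483) (nat_lit 217)) (XT.nd (nat_lit 78) (nat_lit 228) (nat_lit 0) (XT.lf (nat_lit 0) (nat_lit 4021381108679) (nat_lit 152) (nat_lit 284019354699) (nat_lit 228) (nat_lit 916201112538) (nat_lit 54) (nat_lit 5) (nat_lit 56) (nat_lit 5) (nat_lit 57) (nat_lit 5) (nat_lit 501) (nat_lit 483) (nat_lit 216)) (XT.lf (nat_lit 0) (nat_lit 145683304856) (nat_lit 228) (nat_lit 3524557265299) (nat_lit 76) (nat_lit 1801612922683) (nat_lit 51) (nat_lit 5) (nat_lit 54) (nat_lit 5) (nat_lit 52) (nat_lit 5) (nat_lit 502) (nat_lit 483) (nat_lit 215)))) (XT.nd (nat_lit 78) (nat_lit 304) (nat_lit 0) (XT.lf (nat_lit 0) (nat_lit 1284065466047) (nat_lit 228) (nat_lit 356655337206) (nat_lit 76) (nat_lit 4096217313509) (nat_lit 51) (nat_lit 5) (nat_lit 54) (nat_lit 5) (nat_lit 52) (nat_lit 5) (nat_lit 503) (nat_lit 483) (nat_lit 214)) (XT.nd (nat_lit 78) (nat_lit 152) (nat_lit 0)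 (XT.lf (nat_lit 0) (nat_lit 2606375669454) (nat_lit 228) (nat_lit 2806233936128) (nat_lit 76) (nat_lit 603191307472) (nat_lit 49) (nat_lit 5) (nat_lit 52) (nat_lit 5) (nat_lit 50) (nat_lit 5) (nat_lit 504) (nat_lit 483) (nat_lit 213)) (XT.lf (nat_lit 0) (nat_lit 760343840287) (nat_lit 152) (nat_lit 3345034137901) (nat_lit 228) (nat_lit 2205922171737) (nat_lit 47) (nat_lit 5) (nat_lit 49) (nat_lit 5) (nat_lit 50) (nat_lit 5) (nat_lit 505) (nat_lit 483) (nat_lit 212)))))) (XT.nd (nat_lit 468) (nat_lit 532) (nat_lit 0) (XT.nd (nat_lit 234) (nat_lit 304) (nat_lit 0) (XT.nd (nat_lit 78) (nat_lit 152) (nat_lit 0) (XT.lf (nat_lit 0) (nat_lit 4771840848774) (nat_lit 152) (nat_lit 1029187031403) (nat_lit 228) (nat_lit 823273252885) (nat_lit 47) (nat_lit 5) (nat_lit 49) (nat_lit 5) (nat_lit 50) (nat_lit 5) (nat_lit 506) (nat_lit 483) (nat_lit 211)) (XT.nd (nat_lit 78) (nat_lit 0) (nat_lit 0) (XT.lf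 (nat_lit 0) (nat_lit 727506153825) (nat_lit 152) (nat_lit 4756220822735) (nat_lit 76) (nat_lit 1470043435574) (nat_lit 45) (nat_lit 5) (nat_lit 47) (nat_lit 5) (nat_lit 46) (nat_lit 5) (nat_lit 507) (nat_lit 483) (nat_lit 210)) (XT.lf (nat_lit 0) (nat_lit 2436567023739) (nat_lit 152) (nat_lit 678065383699) (nat_lit 76) (nat_lit 4186958348422) (nat_lit 45) (nat_lit 5) (nat_lit 47) (nat_lit 5) (nat_lit 46) (nat_lit 5) (nat_lit 508) (nat_lit 483) (nat_lit 209)))) (XT.nd (nat_lit 78) (nat_lit 152) (nat_lit 0) (XT.lf (nat_lit 0) (nat_lit 3922565081865) (nat_lit 152) (nat_lit 454125465653) (nat_lit 228) (nat_lit 3292999156825) (nat_lit 43) (nat_lit 5) (nat_lit 45) (nat_lit 5) (nat_lit 46) (nat_lit 5) (nat_lit 509) (nat_lit 483) (nat_lit 208)) (XT.nd (nat_lit 78) (nat_lit 76) (nat_lit 0) (XT.lf (nat_lit 0) (nat_lit 847801317186) (nat_lit 76) (nat_lit 5721815680762) (nat_lit 152) (nat_lit 1489812127176)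 (nat_lit 42) (nat_lit 5) (nat_lit 43) (nat_lit 5) (nat_lit 44) (nat_lit 4) (nat_lit 510) (nat_lit 483) (nat_lit 207)) (XT.lf (nat_lit 0) (nat_lit 551646977210) (nat_lit 152) (nat_lit 2474190421791) (nat_lit 76) (nat_lit 5444277050897) (nat_lit 41) (nat_lit 5) (nat_lit 43) (nat_lit 5) (nat_lit 42) (nat_lit 5) (nat_lit 511) (nat_lit 483) (nat_lit 206))))) (XT.nd (nat_lit 234) (nat_lit 304) (nat_lit 0) (XT.nd (nat_lit 78) (nat_lit 76) (nat_lit 0) (XT.lf (nat_lit 0) (nat_lit 2740643629958) (nat_lit 152) (nat_lit 1203173661) (nat_lit 228) (nat_lit 6163439079927) (nat_lit 39) (nat_lit 5) (nat_lit 41) (nat_lit 5) (nat_lit 42) (nat_lit 5) (nat_lit 512) (nat_lit 483) (nat_lit 205)) (XT.nd (nat_lit 78) (nat_lit 76) (nat_lit 0) (XT.lf (nat_lit 0) (nat_lit 5255201468649) (nat_lit 228) (nat_lit 936775426803) (nat_lit 76) (nat_lit 3171459028235) (nat_lit 39) (nat_lit 5) (nat_lit 42) (nat_lit 5) (nat_lit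 40) (nat_lit 4) (nat_lit 513) (nat_lit 483) (nat_lit 204)) (XT.lf (nat_lit 0) (nat_lit 4957272333648) (nat_lit 76) (nat_lit 3131605943110) (nat_lit 152) (nat_lit 1759819388689) (nat_lit 38) (nat_lit 5) (nat_lit 39) (nat_lit 5) (nat_lit 40) (nat_lit 4) (nat_lit 514) (nat_lit 483) (nat_lit 203)))) (XT.nd (nat_lit 78) (nat_lit 76) (nat_lit 0) (XT.lf (nat_lit 0) (nat_lit 794859342295) (nat_lit 228) (nat_lit 9335205977650) (nat_lit 76) (nat_lit 236642492774) (nat_lit 35) (nat_lit 5) (nat_lit 38) (nat_lit 5) (nat_lit 36) (nat_lit 4) (nat_lit 515) (nat_lit 483) (nat_lit 202)) (XT.nd (nat_lit 78) (nat_lit 76) (nat_lit 0) (XT.lf (nat_lit 0) (nat_lit 3677390838362) (nat_lit 228) (nat_lit 3339540466161) (nat_lit 76) (nat_lit 3888086345832) (nat_lit 35) (nat_lit 5) (nat_lit 38) (nat_lit 5) (nat_lit 36) (nat_lit 4) (nat_lit 516) (nat_lit 483) (nat_lit 201)) (XT.lf (nat_lit 0) (nat_lit 3300902813315)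 (nat_lit 76) (nat_lit 3569008832634) (nat_lit 152) (nat_lit 4610129685707) (nat_lit 34) (nat_lit 5) (nat_lit 35) (nat_lit 5) (nat_lit 36) (nat_lit 4) (nat_lit 517) (nat_lit 483) (nat_lit 200))))))) (XT.nd (nat_lit 60606) (nat_lit 0) (nat_lit 1140) (XT.nd (nat_lit 60138) (nat_lit 0) (nat_lit 2584) (XT.nd (nat_lit 59904) (nat_lit 0) (nat_lit 2888) (XT.nd (nat_lit 59826) (nat_lit 0) (nat_lit 3344) (XT.lf (nat_lit 0) (nat_lit 10415236413190) (nat_lit 152) (nat_lit 1437351351683) (nat_lit 0) (nat_lit 240686958984) (nat_lit 34) (nat_lit 5) (nat_lit 36) (nat_lit 4) (nat_lit 34) (nat_lit 4) (nat_lit 518) (nat_lit 483) (nat_lit 199)) (XT.lf (nat_lit 0) (nat_lit 1241283107403) (nat_lit 532) (nat_lit 31425693746) (nat_lit 532) (nat_lit 31425693746) (nat_lit 78) (nat_lit 3) (nat_lit 85) (nat_lit 3) (nat_lit 85) (nat_lit 5) (nat_lit 484) (nat_lit 484) (nat_lit 232))) (XT.nd (nat_lit 78) (nat_lit 456)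 (nat_lit 0) (XT.lf (nat_lit 76) (nat_lit 1290190792225) (nat_lit 0) (nat_lit 1322707199810) (nat_lit 532) (nat_lit 97219427055) (nat_lit 79) (nat_lit 5) (nat_lit 78) (nat_lit 3) (nat_lit 85) (nat_lit 5) (nat_lit 485) (nat_lit 484) (nat_lit 231)) (XT.nd (nat_lit 78) (nat_lit 456) (nat_lit 0) (XT.lf (nat_lit 76) (nat_lit 2755050759904) (nat_lit 0) (nat_lit 324018937) (nat_lit 532) (nat_lit 64601466498) (nat_lit 79) (nat_lit 5) (nat_lit 78) (nat_lit 3) (nat_lit 85) (nat_lit 5) (nat_lit 486) (nat_lit 484) (nat_lit 230)) (XT.lf (nat_lit 0) (nat_lit 42759207735) (nat_lit 532) (nat_lit 1498227391968) (nat_lit 608) (nat_lit 1392040584397) (nat_lit 72) (nat_lit 5) (nat_lit 79) (nat_lit 5) (nat_lit 80) (nat_lit 5) (nat_lit 487) (nat_lit 484) (nat_lit 229))))) (XT.nd (nat_lit 234) (nat_lit 304) (nat_lit 0) (XT.nd (nat_lit 78) (nat_lit 0) (nat_lit 76) (XT.lf (nat_lit 76) (nat_lit 1560873949) (nat_lit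 0) (nat_lit 155524945471) (nat_lit 608) (nat_lit 2897752762475) (nat_lit 73) (nat_lit 5) (nat_lit 72) (nat_lit 5) (nat_lit 80) (nat_lit 5) (nat_lit 488) (nat_lit 484) (nat_lit 228)) (XT.nd (nat_lit 78) (nat_lit 0) (nat_lit 0) (XT.lf (nat_lit 0) (nat_lit 354832394563) (nat_lit 532) (nat_lit 1509889679626) (nat_lit 608) (nat_lit 1315730910563) (nat_lit 73) (nat_lit 5) (nat_lit 80) (nat_lit 5) (nat_lit 81) (nat_lit 5) (nat_lit 489) (nat_lit 484) (nat_lit 227)) (XT.lf (nat_lit 76) (nat_lit 160982792671) (nat_lit 0) (nat_lit 415327151349) (nat_lit 608) (nat_lit 2739173695954) (nat_lit 74) (nat_lit 5) (nat_lit 73) (nat_lit 5) (nat_lit 81) (nat_lit 5) (nat_lit 490) (nat_lit 484) (nat_lit 226)))) (XT.nd (nat_lit 78) (nat_lit 456) (nat_lit 0) (XT.lf (nat_lit 0) (nat_lit 885519037022) (nat_lit 532) (nat_lit 1435350557421) (nat_lit 76) (nat_lit 1134846086004) (nat_lit 74) (nat_lit 5) (nat_lit 81)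 (nat_lit 5) (nat_lit 75) (nat_lit 5) (nat_lit 491) (nat_lit 484) (nat_lit 225)) (XT.nd (nat_lit 78) (nat_lit 0) (nat_lit 0) (XT.lf (nat_lit 0) (nat_lit 432162558286) (nat_lit 456) (nat_lit 808483536698) (nat_lit 532) (nat_lit 2364825690172) (nat_lit 68) (nat_lit 5) (nat_lit 74) (nat_lit 5) (nat_lit 75) (nat_lit 5) (nat_lit 492) (nat_lit 484) (nat_lit 224)) (XT.lf (nat_lit 0) (nat_lit 1684286402519) (nat_lit 532) (nat_lit 1254220452963) (nat_lit 76) (nat_lit 823893275965) (nat_lit 68) (nat_lit 5) (nat_lit 75) (nat_lit 5) (nat_lit 69) (nat_lit 5) (nat_lit 493) (nat_lit 484) (nat_lit 223)))))) (XT.nd (nat_lit 468) (nat_lit 532) (nat_lit 0) (XT.nd (nat_lit 234) (nat_lit 456) (nat_lit 0) (XT.nd (nat_lit 78) (nat_lit 228) (nat_lit 0) (XT.lf (nat_lit 0) (nat_lit 839385302254) (nat_lit 228) (nat_lit 1365219440951) (nat_lit 304) (nat_lit 1723983057554) (nat_lit 65) (nat_lit 5) (nat_lit 68) (nat_lit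 5) (nat_lit 69) (nat_lit 5) (nat_lit 494) (nat_lit 484) (nat_lit 222)) (XT.nd (nat_lit 78) (nat_lit 228) (nat_lit 0) (XT.lf (nat_lit 0) (nat_lit 2809762925406) (nat_lit 304) (nat_lit 942440693958) (nat_lit 76) (nat_lit 352409714310) (nat_lit 65) (nat_lit 5) (nat_lit 69) (nat_lit 5) (nat_lit 66) (nat_lit 5) (nat_lit 495) (nat_lit 484) (nat_lit 221)) (XT.lf (nat_lit 0) (nat_lit 1411195524704) (nat_lit 228) (nat_lit 2121537768530) (nat_lit 304) (nat_lit 756435653505) (nat_lit 62) (nat_lit 5) (nat_lit 65) (nat_lit 5) (nat_lit 66) (nat_lit 5) (nat_lit 496) (nat_lit 484) (nat_lit 220)))) (XT.nd (nat_lit 78) (nat_lit 456) (nat_lit 0) (XT.lf (nat_lit 0) (nat_lit 4006720077661) (nat_lit 228) (nat_lit 332589211094) (nat_lit 304) (nat_lit 147118280231) (nat_lit 62) (nat_lit 5) (nat_lit 65) (nat_lit 5) (nat_lit 66) (nat_lit 5) (nat_lit 497) (nat_lit 484) (nat_lit 219)) (XT.nd (nat_lit 78) (nat_lit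 228) (nat_lit 0) (XT.lf (nat_lit 0) (nat_lit 578668484319) (nat_lit 228) (nat_lit 2525785331986) (nat_lit 76) (nat_lit 1586567325439) (nat_lit 59) (nat_lit 5) (nat_lit 62) (nat_lit 5) (nat_lit 60) (nat_lit 5) (nat_lit 498) (nat_lit 484) (nat_lit 218)) (XT.lf (nat_lit 0) (nat_lit 131921694287) (nat_lit 228) (nat_lit 1247916417301) (nat_lit 304) (nat_lit 3529816938016) (nat_lit 56) (nat_lit 5) (nat_lit 59) (nat_lit 5) (nat_lit 60) (nat_lit 5) (nat_lit 499) (nat_lit 484) (nat_lit 217))))) (XT.nd (nat_lit 234) (nat_lit 380) (nat_lit 0) (XT.nd (nat_lit 78) (nat_lit 152) (nat_lit 0) (XT.lf (nat_lit 0) (nat_lit 2334163838339) (nat_lit 304) (nat_lit 2014369064997) (nat_lit 76) (nat_lit 790121764413) (nat_lit 56) (nat_lit 5) (nat_lit 60) (nat_lit 5) (nat_lit 57) (nat_lit 5) (nat_lit 500) (nat_lit 484) (nat_lit 216)) (XT.nd (nat_lit 78) (nat_lit 0) (nat_lit 0) (XT.lf (nat_lit 0) (nat_lit 987025992209)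 (nat_lit 152) (nat_lit 2433961042938) (nat_lit 228) (nat_lit 1960495107245) (nat_lit 54) (nat_lit 5) (nat_lit 56) (nat_lit 5) (nat_lit 57) (nat_lit 5) (nat_lit 501) (nat_lit 484) (nat_lit 215)) (XT.lf (nat_lit 0) (nat_lit 4343091607104) (nat_lit 152) (nat_lit 306740900247) (nat_lit 228) (nat_lit 989497194083) (nat_lit 54) (nat_lit 5) (nat_lit 56) (nat_lit 5) (nat_lit 57) (nat_lit 5) (nat_lit 502) (nat_lit 484) (nat_lit 214)))) (XT.nd (nat_lit 78) (nat_lit 152) (nat_lit 0) (XT.lf (nat_lit 0) (nat_lit 157337976114) (nat_lit 228) (nat_lit 3806521836201) (nat_lit 76) (nat_lit 1945741959399) (nat_lit 51) (nat_lit 5) (nat_lit 54) (nat_lit 5) (nat_lit 52) (nat_lit 5) (nat_lit 503) (nat_lit 484) (nat_lit 213)) (XT.nd (nat_lit 78) (nat_lit 152) (nat_lit 0) (XT.lf (nat_lit 0) (nat_lit 1386790709692) (nat_lit 228) (nat_lit 385187754625) (nat_lit 76) (nat_lit 4423914701276) (nat_lit 51) (nat_lit 5)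 (nat_lit 54) (nat_lit 5) (nat_lit 52) (nat_lit 5) (nat_lit 504) (nat_lit 484) (nat_lit 212)) (XT.lf (nat_lit 0) (nat_lit 2814885729202) (nat_lit 228) (nat_lit 3030732641289) (nat_lit 76) (nat_lit 651446615111) (nat_lit 49) (nat_lit 5) (nat_lit 52) (nat_lit 5) (nat_lit 50) (nat_lit 5) (nat_lit 505) (nat_lit 484) (nat_lit 211))))))))
noncomputable def xc245 : XT := (XT.nd (nat_lit 61620) (nat_lit 0) (nat_lit 76) (XT.nd (nat_lit 858) (nat_lit 76) (nat_lit 0) (XT.nd (nat_lit 390) (nat_lit 608) (nat_lit 0) (XT.nd (nat_lit 156) (nat_lit 304) (nat_lit 0) (XT.nd (nat_lit 78) (nat_lit 0) (nat_lit 0) (XT.lf (nat_lit 0) (nat_lit 821171356992) (nat_lit 152) (nat_lit 3612636865411) (nat_lit 228) (nat_lit 2382395939038) (nat_lit 47) (nat_lit 5) (nat_lit 49) (nat_lit 5) (nat_lit 50) (nat_lit 5) (nat_lit 506) (nat_lit 484) (nat_lit 210)) (XT.lf (nat_lit 0) (nat_lit 5153588125456) (nat_lit 152) (nat_lit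 1111521990654) (nat_lit 228) (nat_lit 889135107154) (nat_lit 47) (nat_lit 5) (nat_lit 49) (nat_lit 5) (nat_lit 50) (nat_lit 5) (nat_lit 507) (nat_lit 484) (nat_lit 209))) (XT.nd (nat_lit 78) (nat_lit 152) (nat_lit 0) (XT.lf (nat_lit 0) (nat_lit 785706651670) (nat_lit 152) (nat_lit 5136718479348) (nat_lit 76) (nat_lit 1587646913643) (nat_lit 45) (nat_lit 5) (nat_lit 47) (nat_lit 5) (nat_lit 46) (nat_lit 5) (nat_lit 508) (nat_lit 484) (nat_lit 208)) (XT.nd (nat_lit 78) (nat_lit 152) (nat_lit 0) (XT.lf (nat_lit 0) (nat_lit 2631492390766) (nat_lit 152) (nat_lit 732310605871) (nat_lit 76) (nat_lit 4521915019281) (nat_lit 45) (nat_lit 5) (nat_lit 47) (nat_lit 5) (nat_lit 46) (nat_lit 5) (nat_lit 509) (nat_lit 484) (nat_lit 207)) (XT.lf (nat_lit 0) (nat_lit 4236370296722) (nat_lit 152) (nat_lit 490455499546) (nat_lit 228) (nat_lit 3556439084026) (nat_lit 43) (nat_lit 5) (nat_lit 45) (nat_lit 5)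 (nat_lit 46) (nat_lit 5) (nat_lit 510) (nat_lit 484) (nat_lit 206))))) (XT.nd (nat_lit 234) (nat_lit 304) (nat_lit 0) (XT.nd (nat_lit 78) (nat_lit 228) (nat_lit 0) (XT.lf (nat_lit 0) (nat_lit 915625430966) (nat_lit 76) (nat_lit 6179560931676) (nat_lit 152) (nat_lit 1608997092102) (nat_lit 42) (nat_lit 5) (nat_lit 43) (nat_lit 5) (nat_lit 44) (nat_lit 4) (nat_lit 511) (nat_lit 484) (nat_lit 205)) (XT.nd (nat_lit 78) (nat_lit 152) (nat_lit 0) (XT.lf (nat_lit 0) (nat_lit 595778740003) (nat_lit 152) (nat_lit 2672125647508) (nat_lit 76) (nat_lit 5879819218009) (nat_lit 41) (nat_lit 5) (nat_lit 43) (nat_lit 5) (nat_lit 42) (nat_lit 5) (nat_lit 512) (nat_lit 484) (nat_lit 204)) (XT.lf (nat_lit 0) (nat_lit 2959895128178) (nat_lit 152) (nat_lit 1299424193) (nat_lit 228) (nat_lit 6656514201501) (nat_lit 39) (nat_lit 5) (nat_lit 41) (nat_lit 5) (nat_lit 42) (nat_lit 5) (nat_lit 513) (nat_lit 484)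 (nat_lit 203)))) (XT.nd (nat_lit 78) (nat_lit 304) (nat_lit 0) (XT.lf (nat_lit 0) (nat_lit 5675617590347) (nat_lit 228) (nat_lit 1011717453447) (nat_lit 76) (nat_lit 3425175753450) (nat_lit 39) (nat_lit 5) (nat_lit 42) (nat_lit 5) (nat_lit 40) (nat_lit 4) (nat_lit 514) (nat_lit 484) (nat_lit 202)) (XT.nd (nat_lit 78) (nat_lit 228) (nat_lit 0) (XT.lf (nat_lit 0) (nat_lit 5353854127650) (nat_lit 76) (nat_lit 3382134415319) (nat_lit 152) (nat_lit 1900604935388) (nat_lit 38) (nat_lit 5) (nat_lit 39) (nat_lit 5) (nat_lit 40) (nat_lit 4) (nat_lit 515) (nat_lit 484) (nat_lit 201)) (XT.lf (nat_lit 0) (nat_lit 858448093802) (nat_lit 228) (nat_lit 10082022448277) (nat_lit 76) (nat_lit 255573895326) (nat_lit 35) (nat_lit 5) (nat_lit 38) (nat_lit 5) (nat_lit 36) (nat_lit 4) (nat_lit 516) (nat_lit 484) (nat_lit 200)))))) (XT.nd (nat_lit 60294) (nat_lit 0) (nat_lit 2584) (XT.nd (nat_lit 60060) (nat_lit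 0) (nat_lit 2888) (XT.nd (nat_lit 78) (nat_lit 76) (nat_lit 0) (XT.lf (nat_lit 0) (nat_lit 3971582109248) (nat_lit 228) (nat_lit 3606703696431) (nat_lit 76) (nat_lit 4199133256398) (nat_lit 35) (nat_lit 5) (nat_lit 38) (nat_lit 5) (nat_lit 36) (nat_lit 4) (nat_lit 517) (nat_lit 484) (nat_lit 199)) (XT.nd (nat_lit 59904) (nat_lit 0) (nat_lit 3344) (XT.lf (nat_lit 0) (nat_lit 3564975045225) (nat_lit 76) (nat_lit 3854529536100) (nat_lit 152) (nat_lit 4978940056568) (nat_lit 34) (nat_lit 5) (nat_lit 35) (nat_lit 5) (nat_lit 36) (nat_lit 4) (nat_lit 518) (nat_lit 484) (nat_lit 198)) (XT.lf (nat_lit 0) (nat_lit 1340585764832) (nat_lit 532) (nat_lit 33939744472) (nat_lit 532) (nat_lit 33939744472) (nat_lit 78) (nat_lit 3) (nat_lit 85) (nat_lit 3) (nat_lit 85) (nat_lit 5) (nat_lit 485) (nat_lit 485) (nat_lit 230)))) (XT.nd (nat_lit 78) (nat_lit 456) (nat_lit 0) (XT.lf (nat_lit 76) (nat_lit 1393406064909)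 (nat_lit 0) (nat_lit 1428523783079) (nat_lit 532) (nat_lit 104996963296) (nat_lit 79) (nat_lit 5) (nat_lit 78) (nat_lit 3) (nat_lit 85) (nat_lit 5) (nat_lit 486) (nat_lit 485) (nat_lit 229)) (XT.nd (nat_lit 78) (nat_lit 456) (nat_lit 0) (XT.lf (nat_lit 76) (nat_lit 2975454829313) (nat_lit 0) (nat_lit 349947196) (nat_lit 532) (nat_lit 69769567223) (nat_lit 79) (nat_lit 5) (nat_lit 78) (nat_lit 3) (nat_lit 85) (nat_lit 5) (nat_lit 487) (nat_lit 485) (nat_lit 228)) (XT.lf (nat_lit 0) (nat_lit 46179959038) (nat_lit 532) (nat_lit 1618085572787) (nat_lit 608) (nat_lit 1503403825823) (nat_lit 72) (nat_lit 5) (nat_lit 79) (nat_lit 5) (nat_lit 80) (nat_lit 5) (nat_lit 488) (nat_lit 485) (nat_lit 227))))) (XT.nd (nat_lit 234) (nat_lit 304) (nat_lit 0) (XT.nd (nat_lit 78) (nat_lit 0) (nat_lit 76) (XT.lf (nat_lit 76) (nat_lit 1685754137) (nat_lit 0) (nat_lit 167966944680) (nat_lit 608) (nat_lit 3129572968517)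 (nat_lit 73) (nat_lit 5) (nat_lit 72) (nat_lit 5) (nat_lit 80) (nat_lit 5) (nat_lit 489) (nat_lit 485) (nat_lit 226)) (XT.nd (nat_lit 78) (nat_lit 0) (nat_lit 0) (XT.lf (nat_lit 0) (nat_lit 383218998867) (nat_lit 532) (nat_lit 1630680843376) (nat_lit 608) (nat_lit 1420989380266) (nat_lit 73) (nat_lit 5) (nat_lit 80) (nat_lit 5) (nat_lit 81) (nat_lit 5) (nat_lit 490) (nat_lit 485) (nat_lit 225)) (XT.lf (nat_lit 76) (nat_lit 173861426437) (nat_lit 0) (nat_lit 448553325150) (nat_lit 608) (nat_lit 2958307578618) (nat_lit 74) (nat_lit 5) (nat_lit 73) (nat_lit 5) (nat_lit 81) (nat_lit 5) (nat_lit 491) (nat_lit 485) (nat_lit 224)))) (XT.nd (nat_lit 78) (nat_lit 456) (nat_lit 0) (XT.lf (nat_lit 0) (nat_lit 956360571098) (nat_lit 532) (nat_lit 1550178591496) (nat_lit 76) (nat_lit 1225633771396) (nat_lit 74) (nat_lit 5) (nat_lit 81) (nat_lit 5) (nat_lit 75) (nat_lit 5) (nat_lit 492) (nat_lit 485)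 (nat_lit 223)) (XT.nd (nat_lit 78) (nat_lit 0) (nat_lit 0) (XT.lf (nat_lit 0) (nat_lit 466735573202) (nat_lit 456) (nat_lit 873162219919) (nat_lit 532) (nat_lit 2554011734002) (nat_lit 68) (nat_lit 5) (nat_lit 74) (nat_lit 5) (nat_lit 75) (nat_lit 5) (nat_lit 493) (nat_lit 485) (nat_lit 222)) (XT.lf (nat_lit 0) (nat_lit 1819029324472) (nat_lit 532) (nat_lit 1354558078917) (nat_lit 76) (nat_lit 889804737792) (nat_lit 68) (nat_lit 5) (nat_lit 75) (nat_lit 5) (nat_lit 69) (nat_lit 5) (nat_lit 494) (nat_lit 485) (nat_lit 221))))))) (XT.nd (nat_lit 936) (nat_lit 1064) (nat_lit 0) (XT.nd (nat_lit 468) (nat_lit 532) (nat_lit 0) (XT.nd (nat_lit 234) (nat_lit 456) (nat_lit 0) (XT.nd (nat_lit 78) (nat_lit 228) (nat_lit 0) (XT.lf (nat_lit 0) (nat_lit 906536136457) (nat_lit 228) (nat_lit 1474436995474) (nat_lit 304) (nat_lit 1861901692144) (nat_lit 65) (nat_lit 5) (nat_lit 68) (nat_lit 5) (nat_lit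 69) (nat_lit 5) (nat_lit 495) (nat_lit 485) (nat_lit 220)) (XT.nd (nat_lit 78) (nat_lit 228) (nat_lit 0) (XT.lf (nat_lit 0) (nat_lit 3034543968038) (nat_lit 304) (nat_lit 1017835939521) (nat_lit 76) (nat_lit 380602492118) (nat_lit 65) (nat_lit 5) (nat_lit 69) (nat_lit 5) (nat_lit 66) (nat_lit 5) (nat_lit 496) (nat_lit 485) (nat_lit 219)) (XT.lf (nat_lit 0) (nat_lit 1524091176381) (nat_lit 228) (nat_lit 2291260788507) (nat_lit 304) (nat_lit 816950496931) (nat_lit 62) (nat_lit 5) (nat_lit 65) (nat_lit 5) (nat_lit 66) (nat_lit 5) (nat_lit 497) (nat_lit 485) (nat_lit 218)))) (XT.nd (nat_lit 78) (nat_lit 456) (nat_lit 0) (XT.lf (nat_lit 0) (nat_lit 4327257692857) (nat_lit 228) (nat_lit 359196346588) (nat_lit 304) (nat_lit 158887734452) (nat_lit 62) (nat_lit 5) (nat_lit 65) (nat_lit 5) (nat_lit 66) (nat_lit 5) (nat_lit 498) (nat_lit 485) (nat_lit 217)) (XT.nd (nat_lit 78) (nat_lit 228) (nat_lit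 0) (XT.lf (nat_lit 0) (nat_lit 624961970537) (nat_lit 228) (nat_lit 2727848148833) (nat_lit 76) (nat_lit 1713492713113) (nat_lit 59) (nat_lit 5) (nat_lit 62) (nat_lit 5) (nat_lit 60) (nat_lit 5) (nat_lit 499) (nat_lit 485) (nat_lit 216)) (XT.lf (nat_lit 0) (nat_lit 142475439296) (nat_lit 228) (nat_lit 1347749728366) (nat_lit 304) (nat_lit 3812202285337) (nat_lit 56) (nat_lit 5) (nat_lit 59) (nat_lit 5) (nat_lit 60) (nat_lit 5) (nat_lit 500) (nat_lit 485) (nat_lit 215))))) (XT.nd (nat_lit 234) (nat_lit 380) (nat_lit 0) (XT.nd (nat_lit 78) (nat_lit 152) (nat_lit 0) (XT.lf (nat_lit 0) (nat_lit 2520896952075) (nat_lit 304) (nat_lit 2175518580952) (nat_lit 76) (nat_lit 853331507606) (nat_lit 56) (nat_lit 5) (nat_lit 60) (nat_lit 5) (nat_lit 57) (nat_lit 5) (nat_lit 501) (nat_lit 485) (nat_lit 214)) (XT.nd (nat_lit 78) (nat_lit 0) (nat_lit 0) (XT.lf (nat_lit 0) (nat_lit 1065988080596) (nat_lit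 152) (nat_lit 2628677923755) (nat_lit 228) (nat_lit 2117334708920) (nat_lit 54) (nat_lit 5) (nat_lit 56) (nat_lit 5) (nat_lit 57) (nat_lit 5) (nat_lit 502) (nat_lit 485) (nat_lit 213)) (XT.lf (nat_lit 0) (nat_lit 4690538944016) (nat_lit 152) (nat_lit 331280169842) (nat_lit 228) (nat_lit 1068656963216) (nat_lit 54) (nat_lit 5) (nat_lit 56) (nat_lit 5) (nat_lit 57) (nat_lit 5) (nat_lit 503) (nat_lit 485) (nat_lit 212)))) (XT.nd (nat_lit 78) (nat_lit 152) (nat_lit 0) (XT.lf (nat_lit 0) (nat_lit 169925020093) (nat_lit 228) (nat_lit 4111043574247) (nat_lit 76) (nat_lit 2101401318638) (nat_lit 51) (nat_lit 5) (nat_lit 54) (nat_lit 5) (nat_lit 52) (nat_lit 5) (nat_lit 504) (nat_lit 485) (nat_lit 211)) (XT.nd (nat_lit 78) (nat_lit 152) (nat_lit 0) (XT.lf (nat_lit 0) (nat_lit 1497733971921) (nat_lit 228) (nat_lit 416002766801) (nat_lit 76) (nat_lit 4777827879681) (nat_lit 51) (nat_lit 5) (nat_lit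 54) (nat_lit 5) (nat_lit 52) (nat_lit 5) (nat_lit 505) (nat_lit 485) (nat_lit 210)) (XT.lf (nat_lit 0) (nat_lit 3040076592846) (nat_lit 228) (nat_lit 3273191244251) (nat_lit 76) (nat_lit 703562346928) (nat_lit 49) (nat_lit 5) (nat_lit 52) (nat_lit 5) (nat_lit 50) (nat_lit 5) (nat_lit 506) (nat_lit 485) (nat_lit 209)))))) (XT.nd (nat_lit 468) (nat_lit 532) (nat_lit 0) (XT.nd (nat_lit 234) (nat_lit 228) (nat_lit 0) (XT.nd (nat_lit 78) (nat_lit 152) (nat_lit 0) (XT.lf (nat_lit 0) (nat_lit 886865073681) (nat_lit 152) (nat_lit 3901647811624) (nat_lit 228) (nat_lit 2572987608641) (nat_lit 47) (nat_lit 5) (nat_lit 49) (nat_lit 5) (nat_lit 50) (nat_lit 5) (nat_lit 507) (nat_lit 485) (nat_lit 208)) (XT.nd (nat_lit 78) (nat_lit 152) (nat_lit 0) (XT.lf (nat_lit 0) (nat_lit 5565875183020) (nat_lit 152) (nat_lit 1200443747110) (nat_lit 228) (nat_lit 960265910615) (nat_lit 47) (nat_lit 5) (nat_lit 49)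 (nat_lit 5) (nat_lit 50) (nat_lit 5) (nat_lit 508) (nat_lit 485) (nat_lit 207)) (XT.lf (nat_lit 0) (nat_lit 848563188551) (nat_lit 152) (nat_lit 5547655949804) (nat_lit 76) (nat_lit 1714658669498) (nat_lit 45) (nat_lit 5) (nat_lit 47) (nat_lit 5) (nat_lit 46) (nat_lit 5) (nat_lit 509) (nat_lit 485) (nat_lit 206)))) (XT.nd (nat_lit 78) (nat_lit 228) (nat_lit 0) (XT.lf (nat_lit 0) (nat_lit 2842011786424) (nat_lit 152) (nat_lit 790895447033) (nat_lit 76) (nat_lit 4883668223382) (nat_lit 45) (nat_lit 5) (nat_lit 47) (nat_lit 5) (nat_lit 46) (nat_lit 5) (nat_lit 510) (nat_lit 485) (nat_lit 205)) (XT.nd (nat_lit 78) (nat_lit 76) (nat_lit 0) (XT.lf (nat_lit 0) (nat_lit 4575279927582) (nat_lit 152) (nat_lit 529691936629) (nat_lit 228) (nat_lit 3840954206166) (nat_lit 43) (nat_lit 5) (nat_lit 45) (nat_lit 5) (nat_lit 46) (nat_lit 5) (nat_lit 511) (nat_lit 485) (nat_lit 204)) (XT.lf (nat_lit 0) (nat_lit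 988875472650) (nat_lit 76) (nat_lit 6673925803169) (nat_lit 152) (nat_lit 1737716854971) (nat_lit 42) (nat_lit 5) (nat_lit 43) (nat_lit 5) (nat_lit 44) (nat_lit 4) (nat_lit 512) (nat_lit 485) (nat_lit 203))))) (XT.nd (nat_lit 234) (nat_lit 304) (nat_lit 0) (XT.nd (nat_lit 78) (nat_lit 152) (nat_lit 0) (XT.lf (nat_lit 0) (nat_lit 643441043161) (nat_lit 152) (nat_lit 2885895692427) (nat_lit 76) (nat_lit 6350204758056) (nat_lit 41) (nat_lit 5) (nat_lit 43) (nat_lit 5) (nat_lit 42) (nat_lit 5) (nat_lit 513) (nat_lit 485) (nat_lit 202)) (XT.nd (nat_lit 78) (nat_lit 0) (nat_lit 0) (XT.lf (nat_lit 0) (nat_lit 3196686745139) (nat_lit 152) (nat_lit 1403375247) (nat_lit 228) (nat_lit 7189035333489) (nat_lit 39) (nat_lit 5) (nat_lit 41) (nat_lit 5) (nat_lit 42) (nat_lit 5) (nat_lit 514) (nat_lit 485) (nat_lit 201)) (XT.lf (nat_lit 0) (nat_lit 6129667001182) (nat_lit 228) (nat_lit 1092654843293) (nat_lit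 76) (nat_lit 3699189816261) (nat_lit 39) (nat_lit 5) (nat_lit 42) (nat_lit 5) (nat_lit 40) (nat_lit 4) (nat_lit 515) (nat_lit 485) (nat_lit 200)))) (XT.nd (nat_lit 78) (nat_lit 228) (nat_lit 0) (XT.lf (nat_lit 0) (nat_lit 5782162464129) (nat_lit 76) (nat_lit 3652705165768) (nat_lit 152) (nat_lit 2052653326449) (nat_lit 38) (nat_lit 5) (nat_lit 39) (nat_lit 5) (nat_lit 40) (nat_lit 4) (nat_lit 516) (nat_lit 485) (nat_lit 199)) (XT.nd (nat_lit 60060) (nat_lit 0) (nat_lit 3268) (XT.lf (nat_lit 0) (nat_lit 927123944841) (nat_lit 228) (nat_lit 10888584237637) (nat_lit 76) (nat_lit 276019809637) (nat_lit 35) (nat_lit 5) (nat_lit 38) (nat_lit 5) (nat_lit 36) (nat_lit 4) (nat_lit 517) (nat_lit 485) (nat_lit 198)) (XT.lf (nat_lit 0) (nat_lit 1447832633596) (nat_lit 532) (nat_lit 36654919937) (nat_lit 532) (nat_lit 36654919937) (nat_lit 78) (nat_lit 3) (nat_lit 85) (nat_lit 3) (nat_lit 85) (nat_lit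 5) (nat_lit 486) (nat_lit 486) (nat_lit 228))))))))
noncomputable def xc246 : XT := (XT.nd (nat_lit 1794) (nat_lit 684) (nat_lit 0) (XT.nd (nat_lit 858) (nat_lit 1368) (nat_lit 0) (XT.nd (nat_lit 390) (nat_lit 532) (nat_lit 0) (XT.nd (nat_lit 156) (nat_lit 456) (nat_lit 0) (XT.nd (nat_lit 78) (nat_lit 0) (nat_lit 0) (XT.lf (nat_lit 76) (nat_lit 1504878558080) (nat_lit 0) (nat_lit 1542805691969) (nat_lit 532) (nat_lit 113396704993) (nat_lit 79) (nat_lit 5) (nat_lit 78) (nat_lit 3) (nat_lit 85) (nat_lit 5) (nat_lit 487) (nat_lit 486) (nat_lit 227)) (XT.lf (nat_lit 76) (nat_lit 3213491223046) (nat_lit 0) (nat_lit 377948753) (nat_lit 532) (nat_lit 75351118372) (nat_lit 79) (nat_lit 5) (nat_lit 78) (nat_lit 3) (nat_lit 85) (nat_lit 5) (nat_lit 488) (nat_lit 486) (nat_lit 226))) (XT.nd (nat_lit 78) (nat_lit 0) (nat_lit 0) (XT.lf (nat_lit 0) (nat_lit 49874368351) (nat_lit 532) (nat_lit 1747532409574)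 (nat_lit 608) (nat_lit 1623676127324) (nat_lit 72) (nat_lit 5) (nat_lit 79) (nat_lit 5) (nat_lit 80) (nat_lit 5) (nat_lit 489) (nat_lit 486) (nat_lit 225)) (XT.nd (nat_lit 78) (nat_lit 0) (nat_lit 76) (XT.lf (nat_lit 76) (nat_lit 1820623275) (nat_lit 0) (nat_lit 181404303317) (nat_lit 608) (nat_lit 3379938793176) (nat_lit 73) (nat_lit 5) (nat_lit 72) (nat_lit 5) (nat_lit 80) (nat_lit 5) (nat_lit 490) (nat_lit 486) (nat_lit 224)) (XT.lf (nat_lit 0) (nat_lit 413876529698) (nat_lit 532) (nat_lit 1761135301740) (nat_lit 608) (nat_lit 1534668527994) (nat_lit 73) (nat_lit 5) (nat_lit 80) (nat_lit 5) (nat_lit 81) (nat_lit 5) (nat_lit 491) (nat_lit 486) (nat_lit 223))))) (XT.nd (nat_lit 234) (nat_lit 228) (nat_lit 0) (XT.nd (nat_lit 78) (nat_lit 380) (nat_lit 0) (XT.lf (nat_lit 76) (nat_lit 187770349427) (nat_lit 0) (nat_lit 484437592612) (nat_lit 608) (nat_lit 3194972173752) (nat_lit 74) (nat_lit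 5) (nat_lit 73) (nat_lit 5) (nat_lit 81) (nat_lit 5) (nat_lit 492) (nat_lit 486) (nat_lit 222)) (XT.nd (nat_lit 78) (nat_lit 456) (nat_lit 0) (XT.lf (nat_lit 0) (nat_lit 1032869426314) (nat_lit 532) (nat_lit 1674192869797) (nat_lit 76) (nat_lit 1323684471832) (nat_lit 74) (nat_lit 5) (nat_lit 81) (nat_lit 5) (nat_lit 75) (nat_lit 5) (nat_lit 493) (nat_lit 486) (nat_lit 221)) (XT.lf (nat_lit 0) (nat_lit 504074427848) (nat_lit 456) (nat_lit 943015197756) (nat_lit 532) (nat_lit 2758332662962) (nat_lit 68) (nat_lit 5) (nat_lit 74) (nat_lit 5) (nat_lit 75) (nat_lit 5) (nat_lit 494) (nat_lit 486) (nat_lit 220)))) (XT.nd (nat_lit 78) (nat_lit 228) (nat_lit 0) (XT.lf (nat_lit 0) (nat_lit 1964551678789) (nat_lit 532) (nat_lit 1462922716414) (nat_lit 76) (nat_lit 960989116600) (nat_lit 68) (nat_lit 5) (nat_lit 75) (nat_lit 5) (nat_lit 69) (nat_lit 5) (nat_lit 495) (nat_lit 486) (nat_lit 219)) (XT.nd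 (nat_lit 78) (nat_lit 0) (nat_lit 0) (XT.lf (nat_lit 0) (nat_lit 979059035967) (nat_lit 228) (nat_lit 1592391954466) (nat_lit 304) (nat_lit 2010853818930) (nat_lit 65) (nat_lit 5) (nat_lit 68) (nat_lit 5) (nat_lit 69) (nat_lit 5) (nat_lit 496) (nat_lit 486) (nat_lit 218)) (XT.lf (nat_lit 0) (nat_lit 3277307492854) (nat_lit 304) (nat_lit 1099262806150) (nat_lit 76) (nat_lit 411050692056) (nat_lit 65) (nat_lit 5) (nat_lit 69) (nat_lit 5) (nat_lit 66) (nat_lit 5) (nat_lit 497) (nat_lit 486) (nat_lit 217)))))) (XT.nd (nat_lit 468) (nat_lit 532) (nat_lit 0) (XT.nd (nat_lit 234) (nat_lit 380) (nat_lit 0) (XT.nd (nat_lit 78) (nat_lit 228) (nat_lit 0) (XT.lf (nat_lit 0) (nat_lit 1646018478809) (nat_lit 228) (nat_lit 2474561650297) (nat_lit 304) (nat_lit 882306529094) (nat_lit 62) (nat_lit 5) (nat_lit 65) (nat_lit 5) (nat_lit 66) (nat_lit 5) (nat_lit 498) (nat_lit 486) (nat_lit 216)) (XT.nd (nat_lit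 78) (nat_lit 228) (nat_lit 0) (XT.lf (nat_lit 0) (nat_lit 4673438315987) (nat_lit 228) (nat_lit 387932053120) (nat_lit 304) (nat_lit 171598746179) (nat_lit 62) (nat_lit 5) (nat_lit 65) (nat_lit 5) (nat_lit 66) (nat_lit 5) (nat_lit 499) (nat_lit 486) (nat_lit 215)) (XT.lf (nat_lit 0) (nat_lit 674958934587) (nat_lit 228) (nat_lit 2946075992413) (nat_lit 76) (nat_lit 1850572131568) (nat_lit 59) (nat_lit 5) (nat_lit 62) (nat_lit 5) (nat_lit 60) (nat_lit 5) (nat_lit 500) (nat_lit 486) (nat_lit 214)))) (XT.nd (nat_lit 78) (nat_lit 152) (nat_lit 0) (XT.lf (nat_lit 0) (nat_lit 153873482556) (nat_lit 228) (nat_lit 1455569704647) (nat_lit 304) (nat_lit 4117178461544) (nat_lit 56) (nat_lit 5) (nat_lit 59) (nat_lit 5) (nat_lit 60) (nat_lit 5) (nat_lit 501) (nat_lit 486) (nat_lit 213)) (XT.nd (nat_lit 78) (nat_lit 152) (nat_lit 0) (XT.lf (nat_lit 0) (nat_lit 2722568713959) (nat_lit 304) (nat_lit 2349560059503)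 (nat_lit 76) (nat_lit 921598029963) (nat_lit 56) (nat_lit 5) (nat_lit 60) (nat_lit 5) (nat_lit 57) (nat_lit 5) (nat_lit 502) (nat_lit 486) (nat_lit 212)) (XT.lf (nat_lit 0) (nat_lit 1151267134769) (nat_lit 152) (nat_lit 2838972155410) (nat_lit 228) (nat_lit 2286721479713) (nat_lit 54) (nat_lit 5) (nat_lit 56) (nat_lit 5) (nat_lit 57) (nat_lit 5) (nat_lit 503) (nat_lit 486) (nat_lit 211))))) (XT.nd (nat_lit 234) (nat_lit 304) (nat_lit 0) (XT.nd (nat_lit 78) (nat_lit 228) (nat_lit 0) (XT.lf (nat_lit 0) (nat_lit 5065782066690) (nat_lit 152) (nat_lit 357782581351) (nat_lit 228) (nat_lit 1154149514792) (nat_lit 54) (nat_lit 5) (nat_lit 56) (nat_lit 5) (nat_lit 57) (nat_lit 5) (nat_lit 504) (nat_lit 486) (nat_lit 210)) (XT.nd (nat_lit 78) (nat_lit 0) (nat_lit 0) (XT.lf (nat_lit 0) (nat_lit 183519026751) (nat_lit 228) (nat_lit 4439927052600) (nat_lit 76) (nat_lit 2269513426261) (nat_lit 51) (nat_lit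 5) (nat_lit 54) (nat_lit 5) (nat_lit 52) (nat_lit 5) (nat_lit 505) (nat_lit 486) (nat_lit 209)) (XT.lf (nat_lit 0) (nat_lit 1617552694350) (nat_lit 228) (nat_lit 449282981120) (nat_lit 76) (nat_lit 5160054112030) (nat_lit 51) (nat_lit 5) (nat_lit 54) (nat_lit 5) (nat_lit 52) (nat_lit 5) (nat_lit 506) (nat_lit 486) (nat_lit 208)))) (XT.nd (nat_lit 78) (nat_lit 152) (nat_lit 0) (XT.lf (nat_lit 0) (nat_lit 3283282724824) (nat_lit 228) (nat_lit 3535046536640) (nat_lit 76) (nat_lit 759847336918) (nat_lit 49) (nat_lit 5) (nat_lit 52) (nat_lit 5) (nat_lit 50) (nat_lit 5) (nat_lit 507) (nat_lit 486) (nat_lit 207)) (XT.nd (nat_lit 78) (nat_lit 0) (nat_lit 0) (XT.lf (nat_lit 0) (nat_lit 957814286546) (nat_lit 152) (nat_lit 4213779633965) (nat_lit 228) (nat_lit 2778826612600) (nat_lit 47) (nat_lit 5) (nat_lit 49) (nat_lit 5) (nat_lit 50) (nat_lit 5) (nat_lit 508) (nat_lit 486) (nat_lit 206)) (XT.lf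 (nat_lit 0) (nat_lit 6011145204116) (nat_lit 152) (nat_lit 1296479244482) (nat_lit 228) (nat_lit 1037087179083) (nat_lit 47) (nat_lit 5) (nat_lit 49) (nat_lit 5) (nat_lit 50) (nat_lit 5) (nat_lit 509) (nat_lit 486) (nat_lit 205))))))) (XT.nd (nat_lit 60996) (nat_lit 0) (nat_lit 1368) (XT.nd (nat_lit 468) (nat_lit 76) (nat_lit 0) (XT.nd (nat_lit 234) (nat_lit 304) (nat_lit 0) (XT.nd (nat_lit 78) (nat_lit 152) (nat_lit 0) (XT.lf (nat_lit 0) (nat_lit 916448247706) (nat_lit 152) (nat_lit 5991468419022) (nat_lit 76) (nat_lit 1851831365427) (nat_lit 45) (nat_lit 5) (nat_lit 47) (nat_lit 5) (nat_lit 46) (nat_lit 5) (nat_lit 510) (nat_lit 486) (nat_lit 204)) (XT.nd (nat_lit 78) (nat_lit 152) (nat_lit 0) (XT.lf (nat_lit 0) (nat_lit 3069372733107) (nat_lit 152) (nat_lit 854167076531) (nat_lit 76) (nat_lit 5274361683446) (nat_lit 45) (nat_lit 5) (nat_lit 47) (nat_lit 5) (nat_lit 46) (nat_lit 5) (nat_lit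 511) (nat_lit 486) (nat_lit 203)) (XT.lf (nat_lit 0) (nat_lit 4941302327895) (nat_lit 152) (nat_lit 572067289089) (nat_lit 228) (nat_lit 4148230538731) (nat_lit 43) (nat_lit 5) (nat_lit 45) (nat_lit 5) (nat_lit 46) (nat_lit 5) (nat_lit 512) (nat_lit 486) (nat_lit 202)))) (XT.nd (nat_lit 78) (nat_lit 228) (nat_lit 0) (XT.lf (nat_lit 0) (nat_lit 1067985516640) (nat_lit 76) (nat_lit 7207839864815) (nat_lit 152) (nat_lit 1876734199512) (nat_lit 42) (nat_lit 5) (nat_lit 43) (nat_lit 5) (nat_lit 44) (nat_lit 4) (nat_lit 513) (nat_lit 486) (nat_lit 201)) (XT.nd (nat_lit 78) (nat_lit 152) (nat_lit 0) (XT.lf (nat_lit 0) (nat_lit 694916330007) (nat_lit 152) (nat_lit 3116767341922) (nat_lit 76) (nat_lit 6858221140936) (nat_lit 41) (nat_lit 5) (nat_lit 43) (nat_lit 5) (nat_lit 42) (nat_lit 5) (nat_lit 514) (nat_lit 486) (nat_lit 200)) (XT.lf (nat_lit 0) (nat_lit 3452421690501) (nat_lit 152) (nat_lit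 1515642797) (nat_lit 228) (nat_lit 7764158156626) (nat_lit 39) (nat_lit 5) (nat_lit 41) (nat_lit 5) (nat_lit 42) (nat_lit 5) (nat_lit 515) (nat_lit 486) (nat_lit 199))))) (XT.nd (nat_lit 60294) (nat_lit 0) (nat_lit 2584) (XT.nd (nat_lit 78) (nat_lit 76) (nat_lit 0) (XT.lf (nat_lit 0) (nat_lit 6620040364368) (nat_lit 228) (nat_lit 1180067225243) (nat_lit 76) (nat_lit 3995125003734) (nat_lit 39) (nat_lit 5) (nat_lit 42) (nat_lit 5) (nat_lit 40) (nat_lit 4) (nat_lit 516) (nat_lit 486) (nat_lit 198)) (XT.nd (nat_lit 60138) (nat_lit 0) (nat_lit 3040) (XT.lf (nat_lit 0) (nat_lit 6244735466632) (nat_lit 76) (nat_lit 3944921576648) (nat_lit 152) (nat_lit 2216865589333) (nat_lit 38) (nat_lit 5) (nat_lit 39) (nat_lit 5) (nat_lit 40) (nat_lit 4) (nat_lit 517) (nat_lit 486) (nat_lit 197)) (XT.lf (nat_lit 0) (nat_lit 1563659250779) (nat_lit 532) (nat_lit 39587310023) (nat_lit 532) (nat_lit 39587310023)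 (nat_lit 78) (nat_lit 3) (nat_lit 85) (nat_lit 3) (nat_lit 85) (nat_lit 5) (nat_lit 487) (nat_lit 487) (nat_lit 226)))) (XT.nd (nat_lit 78) (nat_lit 456) (nat_lit 0) (XT.lf (nat_lit 76) (nat_lit 1625268849567) (nat_lit 0) (nat_lit 1666230152680) (nat_lit 532) (nat_lit 122468428219) (nat_lit 79) (nat_lit 5) (nat_lit 78) (nat_lit 3) (nat_lit 85) (nat_lit 5) (nat_lit 488) (nat_lit 487) (nat_lit 225)) (XT.nd (nat_lit 78) (nat_lit 456) (nat_lit 0) (XT.lf (nat_lit 76) (nat_lit 3470570527223) (nat_lit 0) (nat_lit 408189611) (nat_lit 532) (nat_lit 81379195644) (nat_lit 79) (nat_lit 5) (nat_lit 78) (nat_lit 3) (nat_lit 85) (nat_lit 5) (nat_lit 489) (nat_lit 487) (nat_lit 224)) (XT.lf (nat_lit 0) (nat_lit 53864328612) (nat_lit 532) (nat_lit 1887334994594) (nat_lit 608) (nat_lit 1753570213595) (nat_lit 72) (nat_lit 5) (nat_lit 79) (nat_lit 5) (nat_lit 80) (nat_lit 5) (nat_lit 490) (nat_lit 487) (nat_lit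 223)))))) (XT.nd (nat_lit 468) (nat_lit 912) (nat_lit 0) (XT.nd (nat_lit 234) (nat_lit 304) (nat_lit 0) (XT.nd (nat_lit 78) (nat_lit 0) (nat_lit 76) (XT.lf (nat_lit 76) (nat_lit 1966280687) (nat_lit 0) (nat_lit 195916650207) (nat_lit 608) (nat_lit 3650333885637) (nat_lit 73) (nat_lit 5) (nat_lit 72) (nat_lit 5) (nat_lit 80) (nat_lit 5) (nat_lit 491) (nat_lit 487) (nat_lit 222)) (XT.nd (nat_lit 78) (nat_lit 0) (nat_lit 0) (XT.lf (nat_lit 0) (nat_lit 446986661437) (nat_lit 532) (nat_lit 1902026118073) (nat_lit 608) (nat_lit 1657442007925) (nat_lit 73) (nat_lit 5) (nat_lit 80) (nat_lit 5) (nat_lit 81) (nat_lit 5) (nat_lit 492) (nat_lit 487) (nat_lit 221)) (XT.lf (nat_lit 76) (nat_lit 202791984990) (nat_lit 0) (nat_lit 523192601265) (nat_lit 608) (nat_lit 3450569938089) (nat_lit 74) (nat_lit 5) (nat_lit 73) (nat_lit 5) (nat_lit 81) (nat_lit 5) (nat_lit 493) (nat_lit 487) (nat_lit 220)))) (XT.nd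 (nat_lit 78) (nat_lit 456) (nat_lit 0) (XT.lf (nat_lit 0) (nat_lit 1115498988589) (nat_lit 532) (nat_lit 1808128291650) (nat_lit 76) (nat_lit 1429579228485) (nat_lit 74) (nat_lit 5) (nat_lit 81) (nat_lit 5) (nat_lit 75) (nat_lit 5) (nat_lit 494) (nat_lit 487) (nat_lit 219)) (XT.nd (nat_lit 78) (nat_lit 0) (nat_lit 0) (XT.lf (nat_lit 0) (nat_lit 544400389612) (nat_lit 456) (nat_lit 1018456413787) (nat_lit 532) (nat_lit 2978999267632) (nat_lit 68) (nat_lit 5) (nat_lit 74) (nat_lit 5) (nat_lit 75) (nat_lit 5) (nat_lit 495) (nat_lit 487) (nat_lit 218)) (XT.lf (nat_lit 0) (nat_lit 2121715820259) (nat_lit 532) (nat_lit 1579956526169) (nat_lit 76) (nat_lit 1037868245744) (nat_lit 68) (nat_lit 5) (nat_lit 75) (nat_lit 5) (nat_lit 69) (nat_lit 5) (nat_lit 496) (nat_lit 487) (nat_lit 217))))) (XT.nd (nat_lit 234) (nat_lit 456) (nat_lit 0) (XT.nd (nat_lit 78) (nat_lit 228) (nat_lit 0) (XT.lf (nat_lit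 0) (nat_lit 1057383766211) (nat_lit 228) (nat_lit 1719783310269) (nat_lit 304) (nat_lit 2171722117084) (nat_lit 65) (nat_lit 5) (nat_lit 68) (nat_lit 5) (nat_lit 69) (nat_lit 5) (nat_lit 497) (nat_lit 487) (nat_lit 216)) (XT.nd (nat_lit 78) (nat_lit 228) (nat_lit 0) (XT.lf (nat_lit 0) (nat_lit 3539492098603) (nat_lit 304) (nat_lit 1187203823326) (nat_lit 76) (nat_lit 443934747907) (nat_lit 65) (nat_lit 5) (nat_lit 69) (nat_lit 5) (nat_lit 66) (nat_lit 5) (nat_lit 498) (nat_lit 487) (nat_lit 215)) (XT.lf (nat_lit 0) (nat_lit 1777699964244) (nat_lit 228) (nat_lit 2672526581215) (nat_lit 304) (nat_lit 952891044914) (nat_lit 62) (nat_lit 5) (nat_lit 65) (nat_lit 5) (nat_lit 66) (nat_lit 5) (nat_lit 499) (nat_lit 487) (nat_lit 214)))) (XT.nd (nat_lit 78) (nat_lit 456) (nat_lit 0) (XT.lf (nat_lit 0) (nat_lit 5047313387868) (nat_lit 228) (nat_lit 418966616345) (nat_lit 304) (nat_lit 185326639847)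 (nat_lit 62) (nat_lit 5) (nat_lit 65) (nat_lit 5) (nat_lit 66) (nat_lit 5) (nat_lit 500) (nat_lit 487) (nat_lit 213)) (XT.nd (nat_lit 78) (nat_lit 228) (nat_lit 0) (XT.lf (nat_lit 0) (nat_lit 728955654847) (nat_lit 228) (nat_lit 3181762064668) (nat_lit 76) (nat_lit 1998617903298) (nat_lit 59) (nat_lit 5) (nat_lit 62) (nat_lit 5) (nat_lit 60) (nat_lit 5) (nat_lit 501) (nat_lit 487) (nat_lit 212)) (XT.lf (nat_lit 0) (nat_lit 166183368118) (nat_lit 228) (nat_lit 1572015279314) (nat_lit 304) (nat_lit 4446552732793) (nat_lit 56) (nat_lit 5) (nat_lit 59) (nat_lit 5) (nat_lit 60) (nat_lit 5) (nat_lit 502) (nat_lit 487) (nat_lit 211))))))))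
noncomputable def xc247 : XT := (XT.nd (nat_lit 61932) (nat_lit 0) (nat_lit 0) (XT.nd (nat_lit 858) (nat_lit 304) (nat_lit 0) (XT.nd (nat_lit 390) (nat_lit 608) (nat_lit 0) (XT.nd (nat_lit 156) (nat_lit 228) (nat_lit 0) (XT.nd (nat_lit 78) (nat_lit 152) (nat_lit 0) (XT.lf (nat_lit 0) (nat_lit 2940374215978) (nat_lit 304) (nat_lit 2537524857468) (nat_lit 76) (nat_lit 995325873860) (nat_lit 56) (nat_lit 5) (nat_lit 60) (nat_lit 5) (nat_lit 57) (nat_lit 5) (nat_lit 503) (nat_lit 487) (nat_lit 210)) (XT.lf (nat_lit 0) (nat_lit 1243368512174) (nat_lit 152) (nat_lit 3066089925918) (nat_lit 228) (nat_lit 2469659193015) (nat_lit 54) (nat_lit 5) (nat_lit 56) (nat_lit 5) (nat_lit 57) (nat_lit 5) (nat_lit 504) (nat_lit 487) (nat_lit 209))) (XT.nd (nat_lit 78) (nat_lit 228) (nat_lit 0) (XT.lf (nat_lit 0) (nat_lit 5471044638158) (nat_lit 152) (nat_lit 386405186077) (nat_lit 228) (nat_lit 1246481471276)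 (nat_lit 54) (nat_lit 5) (nat_lit 56) (nat_lit 5) (nat_lit 57) (nat_lit 5) (nat_lit 505) (nat_lit 487) (nat_lit 208)) (XT.nd (nat_lit 78) (nat_lit 0) (nat_lit 0) (XT.lf (nat_lit 0) (nat_lit 198200553220) (nat_lit 228) (nat_lit 4795121210304) (nat_lit 76) (nat_lit 2451074502190) (nat_lit 51) (nat_lit 5) (nat_lit 54) (nat_lit 5) (nat_lit 52) (nat_lit 5) (nat_lit 506) (nat_lit 487) (nat_lit 207)) (XT.lf (nat_lit 0) (nat_lit 1746956913907) (nat_lit 228) (nat_lit 485225613586) (nat_lit 76) (nat_lit 5572858442685) (nat_lit 51) (nat_lit 5) (nat_lit 54) (nat_lit 5) (nat_lit 52) (nat_lit 5) (nat_lit 507) (nat_lit 487) (nat_lit 206))))) (XT.nd (nat_lit 234) (nat_lit 304) (nat_lit 0) (XT.nd (nat_lit 78) (nat_lit 152) (nat_lit 0) (XT.lf (nat_lit 0) (nat_lit 3545945346711) (nat_lit 228) (nat_lit 3817850253440) (nat_lit 76) (nat_lit 820635125788) (nat_lit 49) (nat_lit 5) (nat_lit 52) (nat_lit 5) (nat_lit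 50) (nat_lit 5) (nat_lit 508) (nat_lit 487) (nat_lit 205)) (XT.nd (nat_lit 78) (nat_lit 0) (nat_lit 0) (XT.lf (nat_lit 0) (nat_lit 1034439435445) (nat_lit 152) (nat_lit 4550882002463) (nat_lit 228) (nat_lit 3001132737551) (nat_lit 47) (nat_lit 5) (nat_lit 49) (nat_lit 5) (nat_lit 50) (nat_lit 5) (nat_lit 509) (nat_lit 487) (nat_lit 204)) (XT.lf (nat_lit 0) (nat_lit 6492036825978) (nat_lit 152) (nat_lit 1400197581985) (nat_lit 228) (nat_lit 1120054149653) (nat_lit 47) (nat_lit 5) (nat_lit 49) (nat_lit 5) (nat_lit 50) (nat_lit 5) (nat_lit 510) (nat_lit 487) (nat_lit 203)))) (XT.nd (nat_lit 78) (nat_lit 152) (nat_lit 0) (XT.lf (nat_lit 0) (nat_lit 989764111013) (nat_lit 152) (nat_lit 6470785886742) (nat_lit 76) (nat_lit 1999977876693) (nat_lit 45) (nat_lit 5) (nat_lit 47) (nat_lit 5) (nat_lit 46) (nat_lit 5) (nat_lit 511) (nat_lit 487) (nat_lit 202)) (XT.nd (nat_lit 78) (nat_lit 152) (nat_lit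 0) (XT.lf (nat_lit 0) (nat_lit 3314922554987) (nat_lit 152) (nat_lit 922500437282) (nat_lit 76) (nat_lit 5696310620003) (nat_lit 45) (nat_lit 5) (nat_lit 47) (nat_lit 5) (nat_lit 46) (nat_lit 5) (nat_lit 512) (nat_lit 487) (nat_lit 201)) (XT.lf (nat_lit 0) (nat_lit 5336606519362) (nat_lit 152) (nat_lit 617832670099) (nat_lit 228) (nat_lit 4480088978462) (nat_lit 43) (nat_lit 5) (nat_lit 45) (nat_lit 5) (nat_lit 46) (nat_lit 5) (nat_lit 513) (nat_lit 487) (nat_lit 200)))))) (XT.nd (nat_lit 60606) (nat_lit 0) (nat_lit 2508) (XT.nd (nat_lit 234) (nat_lit 0) (nat_lit 0) (XT.nd (nat_lit 78) (nat_lit 228) (nat_lit 0) (XT.lf (nat_lit 0) (nat_lit 1153424363268) (nat_lit 76) (nat_lit 7784467051766) (nat_lit 152) (nat_lit 2026872932166) (nat_lit 42) (nat_lit 5) (nat_lit 43) (nat_lit 5) (nat_lit 44) (nat_lit 4) (nat_lit 514) (nat_lit 487) (nat_lit 199)) (XT.nd (nat_lit 78) (nat_lit 152) (nat_lit 0)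 (XT.lf (nat_lit 0) (nat_lit 750509639316) (nat_lit 152) (nat_lit 3366108724218) (nat_lit 76) (nat_lit 7406878834127) (nat_lit 41) (nat_lit 5) (nat_lit 43) (nat_lit 5) (nat_lit 42) (nat_lit 5) (nat_lit 515) (nat_lit 487) (nat_lit 198)) (XT.lf (nat_lit 0) (nat_lit 3728615430671) (nat_lit 152) (nat_lit 1636892102) (nat_lit 228) (nat_lit 8385290806119) (nat_lit 39) (nat_lit 5) (nat_lit 41) (nat_lit 5) (nat_lit 42) (nat_lit 5) (nat_lit 516) (nat_lit 487) (nat_lit 197)))) (XT.nd (nat_lit 60216) (nat_lit 0) (nat_lit 2964) (XT.lf (nat_lit 0) (nat_lit 7149643596169) (nat_lit 228) (nat_lit 1274472598537) (nat_lit 76) (nat_lit 4314735005896) (nat_lit 39) (nat_lit 5) (nat_lit 42) (nat_lit 5) (nat_lit 40) (nat_lit 4) (nat_lit 517) (nat_lit 487) (nat_lit 196)) (XT.nd (nat_lit 78) (nat_lit 0) (nat_lit 0) (XT.lf (nat_lit 0) (nat_lit 1688751996411) (nat_lit 532) (nat_lit 42754291816) (nat_lit 532) (nat_lit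 42754291816) (nat_lit 78) (nat_lit 3) (nat_lit 85) (nat_lit 3) (nat_lit 85) (nat_lit 5) (nat_lit 488) (nat_lit 488) (nat_lit 224)) (XT.lf (nat_lit 76) (nat_lit 1755290363397) (nat_lit 0) (nat_lit 1799528569484) (nat_lit 532) (nat_lit 132265891181) (nat_lit 79) (nat_lit 5) (nat_lit 78) (nat_lit 3) (nat_lit 85) (nat_lit 5) (nat_lit 489) (nat_lit 488) (nat_lit 223))))) (XT.nd (nat_lit 234) (nat_lit 0) (nat_lit 76) (XT.nd (nat_lit 78) (nat_lit 456) (nat_lit 0) (XT.lf (nat_lit 76) (nat_lit 3748216174831) (nat_lit 0) (nat_lit 440849029) (nat_lit 532) (nat_lit 87889520837) (nat_lit 79) (nat_lit 5) (nat_lit 78) (nat_lit 3) (nat_lit 85) (nat_lit 5) (nat_lit 490) (nat_lit 488) (nat_lit 222)) (XT.nd (nat_lit 78) (nat_lit 0) (nat_lit 0) (XT.lf (nat_lit 0) (nat_lit 58173484155) (nat_lit 532) (nat_lit 2038321787520) (nat_lit 608) (nat_lit 1893855827327) (nat_lit 72) (nat_lit 5) (nat_lit 79) (nat_lit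 5) (nat_lit 80) (nat_lit 5) (nat_lit 491) (nat_lit 488) (nat_lit 221)) (XT.lf (nat_lit 76) (nat_lit 2123589616) (nat_lit 0) (nat_lit 211589984475) (nat_lit 608) (nat_lit 3942360587063) (nat_lit 73) (nat_lit 5) (nat_lit 72) (nat_lit 5) (nat_lit 80) (nat_lit 5) (nat_lit 492) (nat_lit 488) (nat_lit 220)))) (XT.nd (nat_lit 78) (nat_lit 0) (nat_lit 0) (XT.lf (nat_lit 0) (nat_lit 482745602380) (nat_lit 532) (nat_lit 2054188200826) (nat_lit 608) (nat_lit 1790037366579) (nat_lit 73) (nat_lit 5) (nat_lit 80) (nat_lit 5) (nat_lit 81) (nat_lit 5) (nat_lit 493) (nat_lit 488) (nat_lit 219)) (XT.nd (nat_lit 78) (nat_lit 0) (nat_lit 76) (XT.lf (nat_lit 76) (nat_lit 219015350313) (nat_lit 0) (nat_lit 565048010433) (nat_lit 608) (nat_lit 3726615524936) (nat_lit 74) (nat_lit 5) (nat_lit 73) (nat_lit 5) (nat_lit 81) (nat_lit 5) (nat_lit 494) (nat_lit 488) (nat_lit 218)) (XT.lf (nat_lit 0) (nat_lit 1204738914680)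 (nat_lit 532) (nat_lit 1952778548353) (nat_lit 76) (nat_lit 1543945565825) (nat_lit 74) (nat_lit 5) (nat_lit 81) (nat_lit 5) (nat_lit 75) (nat_lit 5) (nat_lit 495) (nat_lit 488) (nat_lit 217))))))) (XT.nd (nat_lit 936) (nat_lit 912) (nat_lit 0) (XT.nd (nat_lit 468) (nat_lit 836) (nat_lit 0) (XT.nd (nat_lit 234) (nat_lit 228) (nat_lit 0) (XT.nd (nat_lit 78) (nat_lit 228) (nat_lit 0) (XT.lf (nat_lit 0) (nat_lit 587952427241) (nat_lit 456) (nat_lit 1099932927069) (nat_lit 532) (nat_lit 3217319201868) (nat_lit 68) (nat_lit 5) (nat_lit 74) (nat_lit 5) (nat_lit 75) (nat_lit 5) (nat_lit 496) (nat_lit 488) (nat_lit 216)) (XT.nd (nat_lit 78) (nat_lit 228) (nat_lit 0) (XT.lf (nat_lit 0) (nat_lit 2291453092024) (nat_lit 532) (nat_lit 1706353041782) (nat_lit 76) (nat_lit 1120897705245) (nat_lit 68) (nat_lit 5) (nat_lit 75) (nat_lit 5) (nat_lit 69) (nat_lit 5) (nat_lit 497) (nat_lit 488) (nat_lit 215))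 (XT.lf (nat_lit 0) (nat_lit 1141974473825) (nat_lit 228) (nat_lit 1857365974616) (nat_lit 304) (nat_lit 2345459880140) (nat_lit 65) (nat_lit 5) (nat_lit 68) (nat_lit 5) (nat_lit 69) (nat_lit 5) (nat_lit 498) (nat_lit 488) (nat_lit 214)))) (XT.nd (nat_lit 78) (nat_lit 228) (nat_lit 0) (XT.lf (nat_lit 0) (nat_lit 3822651471911) (nat_lit 304) (nat_lit 1282180122920) (nat_lit 76) (nat_lit 479449528158) (nat_lit 65) (nat_lit 5) (nat_lit 69) (nat_lit 5) (nat_lit 66) (nat_lit 5) (nat_lit 499) (nat_lit 488) (nat_lit 213)) (XT.nd (nat_lit 78) (nat_lit 0) (nat_lit 0) (XT.lf (nat_lit 0) (nat_lit 1919915967497) (nat_lit 228) (nat_lit 2886328706763) (nat_lit 304) (nat_lit 1029122322927) (nat_lit 62) (nat_lit 5) (nat_lit 65) (nat_lit 5) (nat_lit 66) (nat_lit 5) (nat_lit 500) (nat_lit 488) (nat_lit 212)) (XT.lf (nat_lit 0) (nat_lit 5451098464558) (nat_lit 228) (nat_lit 452483944774) (nat_lit 304) (nat_lit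 200152765869) (nat_lit 62) (nat_lit 5) (nat_lit 65) (nat_lit 5) (nat_lit 66) (nat_lit 5) (nat_lit 501) (nat_lit 488) (nat_lit 211))))) (XT.nd (nat_lit 234) (nat_lit 380) (nat_lit 0) (XT.nd (nat_lit 78) (nat_lit 228) (nat_lit 0) (XT.lf (nat_lit 0) (nat_lit 787272111944) (nat_lit 228) (nat_lit 3436303023721) (nat_lit 76) (nat_lit 2158507336595) (nat_lit 59) (nat_lit 5) (nat_lit 62) (nat_lit 5) (nat_lit 60) (nat_lit 5) (nat_lit 502) (nat_lit 488) (nat_lit 210)) (XT.nd (nat_lit 78) (nat_lit 0) (nat_lit 0) (XT.lf (nat_lit 0) (nat_lit 179478043533) (nat_lit 228) (nat_lit 1697776500198) (nat_lit 304) (nat_lit 4802276946551) (nat_lit 56) (nat_lit 5) (nat_lit 59) (nat_lit 5) (nat_lit 60) (nat_lit 5) (nat_lit 503) (nat_lit 488) (nat_lit 209)) (XT.lf (nat_lit 0) (nat_lit 3175604157460) (nat_lit 304) (nat_lit 2740526840240) (nat_lit 76) (nat_lit 1074951945054) (nat_lit 56) (nat_lit 5) (nat_lit 60)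 (nat_lit 5) (nat_lit 57) (nat_lit 5) (nat_lit 504) (nat_lit 488) (nat_lit 208)))) (XT.nd (nat_lit 78) (nat_lit 228) (nat_lit 0) (XT.lf (nat_lit 0) (nat_lit 1342837998826) (nat_lit 152) (nat_lit 3311377118341) (nat_lit 228) (nat_lit 2667231924105) (nat_lit 54) (nat_lit 5) (nat_lit 56) (nat_lit 5) (nat_lit 57) (nat_lit 5) (nat_lit 505) (nat_lit 488) (nat_lit 207)) (XT.nd (nat_lit 78) (nat_lit 228) (nat_lit 0) (XT.lf (nat_lit 0) (nat_lit 5908728214468) (nat_lit 152) (nat_lit 417317599435) (nat_lit 228) (nat_lit 1346199984949) (nat_lit 54) (nat_lit 5) (nat_lit 56) (nat_lit 5) (nat_lit 57) (nat_lit 5) (nat_lit 506) (nat_lit 488) (nat_lit 206)) (XT.lf (nat_lit 0) (nat_lit 214056601189) (nat_lit 228) (nat_lit 5178730901551) (nat_lit 76) (nat_lit 2647160463933) (nat_lit 51) (nat_lit 5) (nat_lit 54) (nat_lit 5) (nat_lit 52) (nat_lit 5) (nat_lit 507) (nat_lit 488) (nat_lit 205)))))) (XT.nd (nat_lit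 468) (nat_lit 456) (nat_lit 0) (XT.nd (nat_lit 234) (nat_lit 152) (nat_lit 0) (XT.nd (nat_lit 78) (nat_lit 304) (nat_lit 0) (XT.lf (nat_lit 0) (nat_lit 1886713470456) (nat_lit 228) (nat_lit 524043657510) (nat_lit 76) (nat_lit 6018687119551) (nat_lit 51) (nat_lit 5) (nat_lit 54) (nat_lit 5) (nat_lit 52) (nat_lit 5) (nat_lit 508) (nat_lit 488) (nat_lit 204)) (XT.nd (nat_lit 78) (nat_lit 152) (nat_lit 0) (XT.lf (nat_lit 0) (nat_lit 3829620977793) (nat_lit 228) (nat_lit 4123278268459) (nat_lit 76) (nat_lit 886285937494) (nat_lit 49) (nat_lit 5) (nat_lit 52) (nat_lit 5) (nat_lit 50) (nat_lit 5) (nat_lit 509) (nat_lit 488) (nat_lit 203)) (XT.lf (nat_lit 0) (nat_lit 1117194595404) (nat_lit 152) (nat_lit 4914952560757) (nat_lit 228) (nat_lit 3241223353076) (nat_lit 47) (nat_lit 5) (nat_lit 49) (nat_lit 5) (nat_lit 50) (nat_lit 5) (nat_lit 510) (nat_lit 488) (nat_lit 202)))) (XT.nd (nat_lit 78)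 (nat_lit 152) (nat_lit 0) (XT.lf (nat_lit 0) (nat_lit 7011399776800) (nat_lit 152) (nat_lit 1512213386782) (nat_lit 228) (nat_lit 1209658478404) (nat_lit 47) (nat_lit 5) (nat_lit 49) (nat_lit 5) (nat_lit 50) (nat_lit 5) (nat_lit 511) (nat_lit 488) (nat_lit 201)) (XT.nd (nat_lit 78) (nat_lit 0) (nat_lit 0) (XT.lf (nat_lit 0) (nat_lit 1068945242886) (nat_lit 152) (nat_lit 6988448752708) (nat_lit 76) (nat_lit 2159976108569) (nat_lit 45) (nat_lit 5) (nat_lit 47) (nat_lit 5) (nat_lit 46) (nat_lit 5) (nat_lit 512) (nat_lit 488) (nat_lit 200)) (XT.lf (nat_lit 0) (nat_lit 3580116362157) (nat_lit 152) (nat_lit 996300467660) (nat_lit 76) (nat_lit 6152015471215) (nat_lit 45) (nat_lit 5) (nat_lit 47) (nat_lit 5) (nat_lit 46) (nat_lit 5) (nat_lit 513) (nat_lit 488) (nat_lit 199))))) (XT.nd (nat_lit 234) (nat_lit 152) (nat_lit 0) (XT.nd (nat_lit 78) (nat_lit 152) (nat_lit 0) (XT.lf (nat_lit 0) (nat_lit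 5763535045400) (nat_lit 152) (nat_lit 667259281892) (nat_lit 228) (nat_lit 4838496093851) (nat_lit 43) (nat_lit 5) (nat_lit 45) (nat_lit 5) (nat_lit 46) (nat_lit 5) (nat_lit 514) (nat_lit 488) (nat_lit 198)) (XT.nd (nat_lit 78) (nat_lit 76) (nat_lit 0) (XT.lf (nat_lit 0) (nat_lit 1245698316871) (nat_lit 76) (nat_lit 8407224413991) (nat_lit 152) (nat_lit 2189022763904) (nat_lit 42) (nat_lit 5) (nat_lit 43) (nat_lit 5) (nat_lit 44) (nat_lit 4) (nat_lit 515) (nat_lit 488) (nat_lit 197)) (XT.lf (nat_lit 0) (nat_lit 810550412956) (nat_lit 152) (nat_lit 3635397417819) (nat_lit 76) (nat_lit 7999429142500) (nat_lit 41) (nat_lit 5) (nat_lit 43) (nat_lit 5) (nat_lit 42) (nat_lit 5) (nat_lit 516) (nat_lit 488) (nat_lit 196)))) (XT.nd (nat_lit 60294) (nat_lit 0) (nat_lit 2964) (XT.lf (nat_lit 0) (nat_lit 4026904669351) (nat_lit 152) (nat_lit 1767841655) (nat_lit 228) (nat_lit 9056114068004) (nat_lit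 39) (nat_lit 5) (nat_lit 41) (nat_lit 5) (nat_lit 42) (nat_lit 5) (nat_lit 517) (nat_lit 488) (nat_lit 195)) (XT.nd (nat_lit 78) (nat_lit 0) (nat_lit 0) (XT.lf (nat_lit 0) (nat_lit 1823852160898) (nat_lit 532) (nat_lit 46174632583) (nat_lit 532) (nat_lit 46174632583) (nat_lit 78) (nat_lit 3) (nat_lit 85) (nat_lit 3) (nat_lit 85) (nat_lit 5) (nat_lit 489) (nat_lit 489) (nat_lit 222)) (XT.lf (nat_lit 76) (nat_lit 1895713597497) (nat_lit 0) (nat_lit 1943490858978) (nat_lit 532) (nat_lit 142847152793) (nat_lit 79) (nat_lit 5) (nat_lit 78) (nat_lit 3) (nat_lit 85) (nat_lit 5) (nat_lit 490) (nat_lit 489) (nat_lit 221))))))))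
noncomputable def xc248 : XT := (XT.nd (nat_lit 1794) (nat_lit 304) (nat_lit 0) (XT.nd (nat_lit 858) (nat_lit 1292) (nat_lit 0) (XT.nd (nat_lit 390) (nat_lit 760) (nat_lit 0) (XT.nd (nat_lit 156) (nat_lit 0) (nat_lit 0) (XT.nd (nat_lit 78) (nat_lit 456) (nat_lit 0) (XT.lf (nat_lit 76) (nat_lit 4048073473473) (nat_lit 0) (nat_lit 476120595) (nat_lit 532) (nat_lit 94920673538) (nat_lit 79) (nat_lit 5) (nat_lit 78) (nat_lit 3) (nat_lit 85) (nat_lit 5) (nat_lit 491) (nat_lit 489) (nat_lit 220)) (XT.lf (nat_lit 0) (nat_lit 62827370821) (nat_lit 532) (nat_lit 2201387524827) (nat_lit 608) (nat_lit 2045364290636) (nat_lit 72) (nat_lit 5) (nat_lit 79) (nat_lit 5) (nat_lit 80) (nat_lit 5) (nat_lit 492) (nat_lit 489) (nat_lit 219))) (XT.nd (nat_lit 78) (nat_lit 0) (nat_lit 76) (XT.lf (nat_lit 76) (nat_lit 2293482335) (nat_lit 0) (nat_lit 228517185162) (nat_lit 608) (nat_lit 4257749425948) (nat_lit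 73) (nat_lit 5) (nat_lit 72) (nat_lit 5) (nat_lit 80) (nat_lit 5) (nat_lit 493) (nat_lit 489) (nat_lit 218)) (XT.nd (nat_lit 78) (nat_lit 0) (nat_lit 0) (XT.lf (nat_lit 0) (nat_lit 521365257453) (nat_lit 532) (nat_lit 2218523251154) (nat_lit 608) (nat_lit 1933240354208) (nat_lit 73) (nat_lit 5) (nat_lit 80) (nat_lit 5) (nat_lit 81) (nat_lit 5) (nat_lit 494) (nat_lit 489) (nat_lit 217)) (XT.lf (nat_lit 76) (nat_lit 236536583931) (nat_lit 0) (nat_lit 610251852182) (nat_lit 608) (nat_lit 4024744759901) (nat_lit 74) (nat_lit 5) (nat_lit 73) (nat_lit 5) (nat_lit 81) (nat_lit 5) (nat_lit 495) (nat_lit 489) (nat_lit 216))))) (XT.nd (nat_lit 234) (nat_lit 456) (nat_lit 0) (XT.nd (nat_lit 78) (nat_lit 456) (nat_lit 0) (XT.lf (nat_lit 0) (nat_lit 1301118033859) (nat_lit 532) (nat_lit 2109000826538) (nat_lit 76) (nat_lit 1667461210287) (nat_lit 74) (nat_lit 5) (nat_lit 81) (nat_lit 5) (nat_lit 75)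 (nat_lit 5) (nat_lit 496) (nat_lit 489) (nat_lit 215)) (XT.nd (nat_lit 78) (nat_lit 0) (nat_lit 0) (XT.lf (nat_lit 0) (nat_lit 634988626960) (nat_lit 456) (nat_lit 1187927561389) (nat_lit 532) (nat_lit 3474704731867) (nat_lit 68) (nat_lit 5) (nat_lit 74) (nat_lit 5) (nat_lit 75) (nat_lit 5) (nat_lit 497) (nat_lit 489) (nat_lit 214)) (XT.lf (nat_lit 0) (nat_lit 2474769344654) (nat_lit 532) (nat_lit 1842861279569) (nat_lit 76) (nat_lit 1210569521529) (nat_lit 68) (nat_lit 5) (nat_lit 75) (nat_lit 5) (nat_lit 69) (nat_lit 5) (nat_lit 498) (nat_lit 489) (nat_lit 213)))) (XT.nd (nat_lit 78) (nat_lit 228) (nat_lit 0) (XT.lf (nat_lit 0) (nat_lit 1233332437146) (nat_lit 228) (nat_lit 2005955252178) (nat_lit 304) (nat_lit 2533096665141) (nat_lit 65) (nat_lit 5) (nat_lit 68) (nat_lit 5) (nat_lit 69) (nat_lit 5) (nat_lit 499) (nat_lit 489) (nat_lit 212)) (XT.nd (nat_lit 78) (nat_lit 228) (nat_lit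 0) (XT.lf (nat_lit 0) (nat_lit 4128463594310) (nat_lit 304) (nat_lit 1384754527376) (nat_lit 76) (nat_lit 517805490768) (nat_lit 65) (nat_lit 5) (nat_lit 69) (nat_lit 5) (nat_lit 66) (nat_lit 5) (nat_lit 500) (nat_lit 489) (nat_lit 211)) (XT.lf (nat_lit 0) (nat_lit 2073509250138) (nat_lit 228) (nat_lit 3117235002491) (nat_lit 304) (nat_lit 1111452103978) (nat_lit 62) (nat_lit 5) (nat_lit 65) (nat_lit 5) (nat_lit 66) (nat_lit 5) (nat_lit 501) (nat_lit 489) (nat_lit 210)))))) (XT.nd (nat_lit 468) (nat_lit 684) (nat_lit 0) (XT.nd (nat_lit 234) (nat_lit 152) (nat_lit 0) (XT.nd (nat_lit 78) (nat_lit 456) (nat_lit 0) (XT.lf (nat_lit 0) (nat_lit 5887186346576) (nat_lit 228) (nat_lit 488682659603) (nat_lit 304) (nat_lit 216164982709) (nat_lit 62) (nat_lit 5) (nat_lit 65) (nat_lit 5) (nat_lit 66) (nat_lit 5) (nat_lit 502) (nat_lit 489) (nat_lit 209)) (XT.nd (nat_lit 78) (nat_lit 228) (nat_lit 0)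 (XT.lf (nat_lit 0) (nat_lit 850253884937) (nat_lit 228) (nat_lit 3711207260371) (nat_lit 76) (nat_lit 2331187924408) (nat_lit 59) (nat_lit 5) (nat_lit 62) (nat_lit 5) (nat_lit 60) (nat_lit 5) (nat_lit 503) (nat_lit 489) (nat_lit 208)) (XT.lf (nat_lit 0) (nat_lit 193836292130) (nat_lit 228) (nat_lit 1833598618960) (nat_lit 304) (nat_lit 5186459098104) (nat_lit 56) (nat_lit 5) (nat_lit 59) (nat_lit 5) (nat_lit 60) (nat_lit 5) (nat_lit 504) (nat_lit 489) (nat_lit 207)))) (XT.nd (nat_lit 78) (nat_lit 152) (nat_lit 0) (XT.lf (nat_lit 0) (nat_lit 3429652493660) (nat_lit 304) (nat_lit 2959768982464) (nat_lit 76) (nat_lit 1160948101761) (nat_lit 56) (nat_lit 5) (nat_lit 60) (nat_lit 5) (nat_lit 57) (nat_lit 5) (nat_lit 505) (nat_lit 489) (nat_lit 206)) (XT.nd (nat_lit 78) (nat_lit 0) (nat_lit 0) (XT.lf (nat_lit 0) (nat_lit 1450265043600) (nat_lit 152) (nat_lit 3576287286394) (nat_lit 228) (nat_lit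 2880610474303) (nat_lit 54) (nat_lit 5) (nat_lit 56) (nat_lit 5) (nat_lit 57) (nat_lit 5) (nat_lit 506) (nat_lit 489) (nat_lit 205)) (XT.lf (nat_lit 0) (nat_lit 6381426476133) (nat_lit 152) (nat_lit 450703006080) (nat_lit 228) (nat_lit 1453895980291) (nat_lit 54) (nat_lit 5) (nat_lit 56) (nat_lit 5) (nat_lit 57) (nat_lit 5) (nat_lit 507) (nat_lit 489) (nat_lit 204))))) (XT.nd (nat_lit 234) (nat_lit 304) (nat_lit 0) (XT.nd (nat_lit 78) (nat_lit 152) (nat_lit 0) (XT.lf (nat_lit 0) (nat_lit 231181132466) (nat_lit 228) (nat_lit 5593029368894) (nat_lit 76) (nat_lit 2858933302391) (nat_lit 51) (nat_lit 5) (nat_lit 54) (nat_lit 5) (nat_lit 52) (nat_lit 5) (nat_lit 508) (nat_lit 489) (nat_lit 203)) (XT.nd (nat_lit 78) (nat_lit 152) (nat_lit 0) (XT.lf (nat_lit 0) (nat_lit 2037650551039) (nat_lit 228) (nat_lit 565967145684) (nat_lit 76) (nat_lit 6500182090359) (nat_lit 51) (nat_lit 5) (nat_lit 54)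 (nat_lit 5) (nat_lit 52) (nat_lit 5) (nat_lit 509) (nat_lit 489) (nat_lit 202)) (XT.lf (nat_lit 0) (nat_lit 4135990658884) (nat_lit 228) (nat_lit 4453140525430) (nat_lit 76) (nat_lit 957188813902) (nat_lit 49) (nat_lit 5) (nat_lit 52) (nat_lit 5) (nat_lit 50) (nat_lit 5) (nat_lit 510) (nat_lit 489) (nat_lit 201)))) (XT.nd (nat_lit 78) (nat_lit 152) (nat_lit 0) (XT.lf (nat_lit 0) (nat_lit 1206570167429) (nat_lit 152) (nat_lit 5308148763986) (nat_lit 228) (nat_lit 3500521218340) (nat_lit 47) (nat_lit 5) (nat_lit 49) (nat_lit 5) (nat_lit 50) (nat_lit 5) (nat_lit 511) (nat_lit 489) (nat_lit 200)) (XT.nd (nat_lit 78) (nat_lit 152) (nat_lit 0) (XT.lf (nat_lit 0) (nat_lit 7572311763011) (nat_lit 152) (nat_lit 1633190456214) (nat_lit 228) (nat_lit 1306431153915) (nat_lit 47) (nat_lit 5) (nat_lit 49) (nat_lit 5) (nat_lit 50) (nat_lit 5) (nat_lit 512) (nat_lit 489) (nat_lit 199)) (XT.lf (nat_lit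 0) (nat_lit 1154460864882) (nat_lit 152) (nat_lit 7547524648661) (nat_lit 76) (nat_lit 2332774198748) (nat_lit 45) (nat_lit 5) (nat_lit 47) (nat_lit 5) (nat_lit 46) (nat_lit 5) (nat_lit 513) (nat_lit 489) (nat_lit 198))))))) (XT.nd (nat_lit 61152) (nat_lit 0) (nat_lit 988) (XT.nd (nat_lit 60684) (nat_lit 0) (nat_lit 2356) (XT.nd (nat_lit 156) (nat_lit 152) (nat_lit 0) (XT.nd (nat_lit 78) (nat_lit 152) (nat_lit 0) (XT.lf (nat_lit 0) (nat_lit 3866525673504) (nat_lit 152) (nat_lit 1076004501124) (nat_lit 76) (nat_lit 6644176710295) (nat_lit 45) (nat_lit 5) (nat_lit 47) (nat_lit 5) (nat_lit 46) (nat_lit 5) (nat_lit 514) (nat_lit 489) (nat_lit 197)) (XT.lf (nat_lit 0) (nat_lit 6224617852880) (nat_lit 152) (nat_lit 720640022887) (nat_lit 228) (nat_lit 5225575778884) (nat_lit 43) (nat_lit 5) (nat_lit 45) (nat_lit 5) (nat_lit 46) (nat_lit 5) (nat_lit 515) (nat_lit 489) (nat_lit 196))) (XT.nd (nat_lit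 78) (nat_lit 76) (nat_lit 0) (XT.lf (nat_lit 0) (nat_lit 1345354186114) (nat_lit 76) (nat_lit 9079802365467) (nat_lit 152) (nat_lit 2364144582586) (nat_lit 42) (nat_lit 5) (nat_lit 43) (nat_lit 5) (nat_lit 44) (nat_lit 4) (nat_lit 516) (nat_lit 489) (nat_lit 195)) (XT.nd (nat_lit 60372) (nat_lit 0) (nat_lit 2812) (XT.lf (nat_lit 0) (nat_lit 875394448130) (nat_lit 152) (nat_lit 3926229207526) (nat_lit 76) (nat_lit 8639383475308) (nat_lit 41) (nat_lit 5) (nat_lit 43) (nat_lit 5) (nat_lit 42) (nat_lit 5) (nat_lit 517) (nat_lit 489) (nat_lit 194)) (XT.lf (nat_lit 0) (nat_lit 1969760337864) (nat_lit 532) (nat_lit 49868600978) (nat_lit 532) (nat_lit 49868600978) (nat_lit 78) (nat_lit 3) (nat_lit 85) (nat_lit 3) (nat_lit 85) (nat_lit 5) (nat_lit 490) (nat_lit 490) (nat_lit 220))))) (XT.nd (nat_lit 234) (nat_lit 0) (nat_lit 0) (XT.nd (nat_lit 78) (nat_lit 456) (nat_lit 0) (XT.lf (nat_lit 76) (nat_lit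 2047370689607) (nat_lit 0) (nat_lit 2098970131070) (nat_lit 532) (nat_lit 154274916714) (nat_lit 79) (nat_lit 5) (nat_lit 78) (nat_lit 3) (nat_lit 85) (nat_lit 5) (nat_lit 491) (nat_lit 490) (nat_lit 219)) (XT.nd (nat_lit 78) (nat_lit 456) (nat_lit 0) (XT.lf (nat_lit 76) (nat_lit 4371919355342) (nat_lit 0) (nat_lit 514213366) (nat_lit 532) (nat_lit 102514319734) (nat_lit 79) (nat_lit 5) (nat_lit 78) (nat_lit 3) (nat_lit 85) (nat_lit 5) (nat_lit 492) (nat_lit 490) (nat_lit 218)) (XT.lf (nat_lit 0) (nat_lit 67853567288) (nat_lit 532) (nat_lit 2377498521932) (nat_lit 608) (nat_lit 2208993431420) (nat_lit 72) (nat_lit 5) (nat_lit 79) (nat_lit 5) (nat_lit 80) (nat_lit 5) (nat_lit 493) (nat_lit 490) (nat_lit 217)))) (XT.nd (nat_lit 78) (nat_lit 0) (nat_lit 76) (XT.lf (nat_lit 76) (nat_lit 2476965680) (nat_lit 0) (nat_lit 246798561630) (nat_lit 608) (nat_lit 4598369373096) (nat_lit 73) (nat_lit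 5) (nat_lit 72) (nat_lit 5) (nat_lit 80) (nat_lit 5) (nat_lit 494) (nat_lit 490) (nat_lit 216)) (XT.nd (nat_lit 78) (nat_lit 0) (nat_lit 0) (XT.lf (nat_lit 0) (nat_lit 563074483949) (nat_lit 532) (nat_lit 2396005106326) (nat_lit 608) (nat_lit 2087899581090) (nat_lit 73) (nat_lit 5) (nat_lit 80) (nat_lit 5) (nat_lit 81) (nat_lit 5) (nat_lit 495) (nat_lit 490) (nat_lit 215)) (XT.lf (nat_lit 76) (nat_lit 255459515440) (nat_lit 0) (nat_lit 659072001140) (nat_lit 608) (nat_lit 4346724334666) (nat_lit 74) (nat_lit 5) (nat_lit 73) (nat_lit 5) (nat_lit 81) (nat_lit 5) (nat_lit 496) (nat_lit 490) (nat_lit 214)))))) (XT.nd (nat_lit 468) (nat_lit 608) (nat_lit 0) (XT.nd (nat_lit 234) (nat_lit 456) (nat_lit 0) (XT.nd (nat_lit 78) (nat_lit 456) (nat_lit 0) (XT.lf (nat_lit 0) (nat_lit 1405207481716) (nat_lit 532) (nat_lit 2277720887789) (nat_lit 76) (nat_lit 1800858106421) (nat_lit 74) (nat_lit 5) (nat_lit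 81) (nat_lit 5) (nat_lit 75) (nat_lit 5) (nat_lit 497) (nat_lit 490) (nat_lit 213)) (XT.nd (nat_lit 78) (nat_lit 0) (nat_lit 0) (XT.lf (nat_lit 0) (nat_lit 685787721865) (nat_lit 456) (nat_lit 1282961766432) (nat_lit 532) (nat_lit 3752681105144) (nat_lit 68) (nat_lit 5) (nat_lit 74) (nat_lit 5) (nat_lit 75) (nat_lit 5) (nat_lit 498) (nat_lit 490) (nat_lit 212)) (XT.lf (nat_lit 0) (nat_lit 2672750896743) (nat_lit 532) (nat_lit 1990290177172) (nat_lit 76) (nat_lit 1307415083136) (nat_lit 68) (nat_lit 5) (nat_lit 75) (nat_lit 5) (nat_lit 69) (nat_lit 5) (nat_lit 499) (nat_lit 490) (nat_lit 211)))) (XT.nd (nat_lit 78) (nat_lit 228) (nat_lit 0) (XT.lf (nat_lit 0) (nat_lit 1331999036760) (nat_lit 228) (nat_lit 2166431672003) (nat_lit 304) (nat_lit 2735744393714) (nat_lit 65) (nat_lit 5) (nat_lit 68) (nat_lit 5) (nat_lit 69) (nat_lit 5) (nat_lit 500) (nat_lit 490) (nat_lit 210)) (XT.nd (nat_lit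 78) (nat_lit 228) (nat_lit 0) (XT.lf (nat_lit 0) (nat_lit 4458740685838) (nat_lit 304) (nat_lit 1495534884956) (nat_lit 76) (nat_lit 559229930337) (nat_lit 65) (nat_lit 5) (nat_lit 69) (nat_lit 5) (nat_lit 66) (nat_lit 5) (nat_lit 501) (nat_lit 490) (nat_lit 209)) (XT.lf (nat_lit 0) (nat_lit 2239389994643) (nat_lit 228) (nat_lit 3366613801993) (nat_lit 304) (nat_lit 1200368268195) (nat_lit 62) (nat_lit 5) (nat_lit 65) (nat_lit 5) (nat_lit 66) (nat_lit 5) (nat_lit 502) (nat_lit 490) (nat_lit 208))))) (XT.nd (nat_lit 234) (nat_lit 152) (nat_lit 0) (XT.nd (nat_lit 78) (nat_lit 456) (nat_lit 0) (XT.lf (nat_lit 0) (nat_lit 6358161258463) (nat_lit 228) (nat_lit 527777271726) (nat_lit 304) (nat_lit 233458177528) (nat_lit 62) (nat_lit 5) (nat_lit 65) (nat_lit 5) (nat_lit 66) (nat_lit 5) (nat_lit 503) (nat_lit 490) (nat_lit 207)) (XT.nd (nat_lit 78) (nat_lit 228) (nat_lit 0) (XT.lf (nat_lit 0) (nat_lit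 918274199194) (nat_lit 228) (nat_lit 4008103836703) (nat_lit 76) (nat_lit 2517682959120) (nat_lit 59) (nat_lit 5) (nat_lit 62) (nat_lit 5) (nat_lit 60) (nat_lit 5) (nat_lit 504) (nat_lit 490) (nat_lit 206)) (XT.lf (nat_lit 0) (nat_lit 209343199885) (nat_lit 228) (nat_lit 1980286507403) (nat_lit 304) (nat_lit 5601375822376) (nat_lit 56) (nat_lit 5) (nat_lit 59) (nat_lit 5) (nat_lit 60) (nat_lit 5) (nat_lit 505) (nat_lit 490) (nat_lit 205)))) (XT.nd (nat_lit 78) (nat_lit 152) (nat_lit 0) (XT.lf (nat_lit 0) (nat_lit 3704024696242) (nat_lit 304) (nat_lit 3196550496779) (nat_lit 76) (nat_lit 1253823950846) (nat_lit 56) (nat_lit 5) (nat_lit 60) (nat_lit 5) (nat_lit 57) (nat_lit 5) (nat_lit 506) (nat_lit 490) (nat_lit 204)) (XT.nd (nat_lit 78) (nat_lit 0) (nat_lit 0) (XT.lf (nat_lit 0) (nat_lit 1566286251262) (nat_lit 152) (nat_lit 3862390268093) (nat_lit 228) (nat_lit 3111059309049) (nat_lit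 54) (nat_lit 5) (nat_lit 56) (nat_lit 5) (nat_lit 57) (nat_lit 5) (nat_lit 507) (nat_lit 490) (nat_lit 203)) (XT.lf (nat_lit 0) (nat_lit 6891940598088) (nat_lit 152) (nat_lit 486759245444) (nat_lit 228) (nat_lit 1570207655753) (nat_lit 54) (nat_lit 5) (nat_lit 56) (nat_lit 5) (nat_lit 57) (nat_lit 5) (nat_lit 508) (nat_lit 490) (nat_lit 202))))))))
noncomputable def xc249 : XT := (XT.nd (nat_lit 62244) (nat_lit 0) (nat_lit 152) (XT.nd (nat_lit 61308) (nat_lit 0) (nat_lit 1216) (XT.nd (nat_lit 390) (nat_lit 304) (nat_lit 0) (XT.nd (nat_lit 156) (nat_lit 304) (nat_lit 0) (XT.nd (nat_lit 78) (nat_lit 0) (nat_lit 0) (XT.lf (nat_lit 0) (nat_lit 249675625792) (nat_lit 228) (nat_lit 6040471714307) (nat_lit 76) (nat_lit 3087647967735) (nat_lit 51) (nat_lit 5) (nat_lit 54) (nat_lit 5) (nat_lit 52) (nat_lit 5) (nat_lit 509) (nat_lit 490) (nat_lit 201)) (XT.lf (nat_lit 0) (nat_lit 2200662597648) (nat_lit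 228) (nat_lit 611244513543) (nat_lit 76) (nat_lit 7020196658655) (nat_lit 51) (nat_lit 5) (nat_lit 54) (nat_lit 5) (nat_lit 52) (nat_lit 5) (nat_lit 510) (nat_lit 490) (nat_lit 200))) (XT.nd (nat_lit 78) (nat_lit 152) (nat_lit 0) (XT.lf (nat_lit 0) (nat_lit 4466869914053) (nat_lit 228) (nat_lit 4809391763601) (nat_lit 76) (nat_lit 1033763920222) (nat_lit 49) (nat_lit 5) (nat_lit 52) (nat_lit 5) (nat_lit 50) (nat_lit 5) (nat_lit 511) (nat_lit 490) (nat_lit 199)) (XT.nd (nat_lit 78) (nat_lit 0) (nat_lit 0) (XT.lf (nat_lit 0) (nat_lit 1303095784589) (nat_lit 152) (nat_lit 5732800663706) (nat_lit 228) (nat_lit 3780562913251) (nat_lit 47) (nat_lit 5) (nat_lit 49) (nat_lit 5) (nat_lit 50) (nat_lit 5) (nat_lit 512) (nat_lit 490) (nat_lit 198)) (XT.lf (nat_lit 0) (nat_lit 8178096707539) (nat_lit 152) (nat_lit 1763845691416) (nat_lit 228) (nat_lit 1410945643861) (nat_lit 47) (nat_lit 5) (nat_lit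 49) (nat_lit 5) (nat_lit 50) (nat_lit 5) (nat_lit 513) (nat_lit 490) (nat_lit 197))))) (XT.nd (nat_lit 60684) (nat_lit 0) (nat_lit 2660) (XT.nd (nat_lit 78) (nat_lit 152) (nat_lit 0) (XT.lf (nat_lit 0) (nat_lit 1246817736272) (nat_lit 152) (nat_lit 8151326616898) (nat_lit 76) (nat_lit 2519396135928) (nat_lit 45) (nat_lit 5) (nat_lit 47) (nat_lit 5) (nat_lit 46) (nat_lit 5) (nat_lit 514) (nat_lit 490) (nat_lit 196)) (XT.nd (nat_lit 78) (nat_lit 152) (nat_lit 0) (XT.lf (nat_lit 0) (nat_lit 4175847729421) (nat_lit 152) (nat_lit 1162084857829) (nat_lit 76) (nat_lit 7175710848304) (nat_lit 45) (nat_lit 5) (nat_lit 47) (nat_lit 5) (nat_lit 46) (nat_lit 5) (nat_lit 515) (nat_lit 490) (nat_lit 195)) (XT.lf (nat_lit 0) (nat_lit 6722587284410) (nat_lit 152) (nat_lit 778291223384) (nat_lit 228) (nat_lit 5643621839072) (nat_lit 43) (nat_lit 5) (nat_lit 45) (nat_lit 5) (nat_lit 46) (nat_lit 5) (nat_lit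 516) (nat_lit 490) (nat_lit 194)))) (XT.nd (nat_lit 78) (nat_lit 0) (nat_lit 0) (XT.lf (nat_lit 0) (nat_lit 2127341168402) (nat_lit 532) (nat_lit 53858087160) (nat_lit 532) (nat_lit 53858087160) (nat_lit 78) (nat_lit 3) (nat_lit 85) (nat_lit 3) (nat_lit 85) (nat_lit 5) (nat_lit 491) (nat_lit 491) (nat_lit 218)) (XT.nd (nat_lit 78) (nat_lit 0) (nat_lit 0) (XT.lf (nat_lit 76) (nat_lit 2211160348472) (nat_lit 0) (nat_lit 2266887744447) (nat_lit 532) (nat_lit 166616902934) (nat_lit 79) (nat_lit 5) (nat_lit 78) (nat_lit 3) (nat_lit 85) (nat_lit 5) (nat_lit 492) (nat_lit 491) (nat_lit 217)) (XT.lf (nat_lit 76) (nat_lit 4721672907192) (nat_lit 0) (nat_lit 555353114) (nat_lit 532) (nat_lit 110715458723) (nat_lit 79) (nat_lit 5) (nat_lit 78) (nat_lit 3) (nat_lit 85) (nat_lit 5) (nat_lit 493) (nat_lit 491) (nat_lit 216)))))) (XT.nd (nat_lit 468) (nat_lit 684) (nat_lit 0) (XT.nd (nat_lit 234) (nat_lit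 304) (nat_lit 0) (XT.nd (nat_lit 78) (nat_lit 0) (nat_lit 0) (XT.lf (nat_lit 0) (nat_lit 73281858503) (nat_lit 532) (nat_lit 2567698399501) (nat_lit 608) (nat_lit 2385712903819) (nat_lit 72) (nat_lit 5) (nat_lit 79) (nat_lit 5) (nat_lit 80) (nat_lit 5) (nat_lit 494) (nat_lit 491) (nat_lit 215)) (XT.nd (nat_lit 78) (nat_lit 0) (nat_lit 76) (XT.lf (nat_lit 76) (nat_lit 2675127013) (nat_lit 0) (nat_lit 266542447978) (nat_lit 608) (nat_lit 4966238917004) (nat_lit 73) (nat_lit 5) (nat_lit 72) (nat_lit 5) (nat_lit 80) (nat_lit 5) (nat_lit 495) (nat_lit 491) (nat_lit 214)) (XT.lf (nat_lit 0) (nat_lit 608120447724) (nat_lit 532) (nat_lit 2587685510615) (nat_lit 608) (nat_lit 2254931546330) (nat_lit 73) (nat_lit 5) (nat_lit 80) (nat_lit 5) (nat_lit 81) (nat_lit 5) (nat_lit 496) (nat_lit 491) (nat_lit 213)))) (XT.nd (nat_lit 78) (nat_lit 380) (nat_lit 0) (XT.lf (nat_lit 76) (nat_lit 275896280786)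 (nat_lit 0) (nat_lit 711797761903) (nat_lit 608) (nat_lit 4694462276272) (nat_lit 74) (nat_lit 5) (nat_lit 73) (nat_lit 5) (nat_lit 81) (nat_lit 5) (nat_lit 497) (nat_lit 491) (nat_lit 212)) (XT.nd (nat_lit 78) (nat_lit 456) (nat_lit 0) (XT.lf (nat_lit 0) (nat_lit 1517624084667) (nat_lit 532) (nat_lit 2459938554635) (nat_lit 76) (nat_lit 1944926754344) (nat_lit 74) (nat_lit 5) (nat_lit 81) (nat_lit 5) (nat_lit 75) (nat_lit 5) (nat_lit 498) (nat_lit 491) (nat_lit 211)) (XT.lf (nat_lit 0) (nat_lit 740650743686) (nat_lit 456) (nat_lit 1385598707860) (nat_lit 532) (nat_lit 4052895589035) (nat_lit 68) (nat_lit 5) (nat_lit 74) (nat_lit 5) (nat_lit 75) (nat_lit 5) (nat_lit 499) (nat_lit 491) (nat_lit 210))))) (XT.nd (nat_lit 234) (nat_lit 456) (nat_lit 0) (XT.nd (nat_lit 78) (nat_lit 228) (nat_lit 0) (XT.lf (nat_lit 0) (nat_lit 2886570972355) (nat_lit 532) (nat_lit 2149513387262) (nat_lit 76)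 (nat_lit 1412008289687) (nat_lit 68) (nat_lit 5) (nat_lit 75) (nat_lit 5) (nat_lit 69) (nat_lit 5) (nat_lit 500) (nat_lit 491) (nat_lit 209)) (XT.nd (nat_lit 78) (nat_lit 0) (nat_lit 0) (XT.lf (nat_lit 0) (nat_lit 1438558963681) (nat_lit 228) (nat_lit 2339746205464) (nat_lit 304) (nat_lit 2954603941234) (nat_lit 65) (nat_lit 5) (nat_lit 68) (nat_lit 5) (nat_lit 69) (nat_lit 5) (nat_lit 501) (nat_lit 491) (nat_lit 208)) (XT.lf (nat_lit 0) (nat_lit 4815439944120) (nat_lit 304) (nat_lit 1615177671800) (nat_lit 76) (nat_lit 603968325027) (nat_lit 65) (nat_lit 5) (nat_lit 69) (nat_lit 5) (nat_lit 66) (nat_lit 5) (nat_lit 502) (nat_lit 491) (nat_lit 207)))) (XT.nd (nat_lit 78) (nat_lit 228) (nat_lit 0) (XT.lf (nat_lit 0) (nat_lit 2418541198067) (nat_lit 228) (nat_lit 3635942905555) (nat_lit 304) (nat_lit 1296397726135) (nat_lit 62) (nat_lit 5) (nat_lit 65) (nat_lit 5) (nat_lit 66) (nat_lit 5)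 (nat_lit 503) (nat_lit 491) (nat_lit 206)) (XT.nd (nat_lit 78) (nat_lit 228) (nat_lit 0) (XT.lf (nat_lit 0) (nat_lit 6866814162707) (nat_lit 228) (nat_lit 569999452911) (nat_lit 304) (nat_lit 252134828475) (nat_lit 62) (nat_lit 5) (nat_lit 65) (nat_lit 5) (nat_lit 66) (nat_lit 5) (nat_lit 504) (nat_lit 491) (nat_lit 205)) (XT.lf (nat_lit 0) (nat_lit 991736138097) (nat_lit 228) (nat_lit 4328752139782) (nat_lit 76) (nat_lit 2719097596501) (nat_lit 59) (nat_lit 5) (nat_lit 62) (nat_lit 5) (nat_lit 60) (nat_lit 5) (nat_lit 505) (nat_lit 491) (nat_lit 204))))))) (XT.nd (nat_lit 61464) (nat_lit 0) (nat_lit 1292) (XT.nd (nat_lit 468) (nat_lit 456) (nat_lit 0) (XT.nd (nat_lit 234) (nat_lit 228) (nat_lit 0) (XT.nd (nat_lit 78) (nat_lit 152) (nat_lit 0) (XT.lf (nat_lit 0) (nat_lit 226090659636) (nat_lit 228) (nat_lit 2138709427074) (nat_lit 304) (nat_lit 6049485885100) (nat_lit 56) (nat_lit 5) (nat_lit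 59) (nat_lit 5) (nat_lit 60) (nat_lit 5) (nat_lit 506) (nat_lit 491) (nat_lit 203)) (XT.nd (nat_lit 78) (nat_lit 152) (nat_lit 0) (XT.lf (nat_lit 0) (nat_lit 4000346674589) (nat_lit 304) (nat_lit 3452274532851) (nat_lit 76) (nat_lit 1354129867724) (nat_lit 56) (nat_lit 5) (nat_lit 60) (nat_lit 5) (nat_lit 57) (nat_lit 5) (nat_lit 507) (nat_lit 491) (nat_lit 202)) (XT.lf (nat_lit 0) (nat_lit 1691589154941) (nat_lit 152) (nat_lit 4171381488500) (nat_lit 228) (nat_lit 3359944051030) (nat_lit 54) (nat_lit 5) (nat_lit 56) (nat_lit 5) (nat_lit 57) (nat_lit 5) (nat_lit 508) (nat_lit 491) (nat_lit 201)))) (XT.nd (nat_lit 78) (nat_lit 228) (nat_lit 0) (XT.lf (nat_lit 0) (nat_lit 7443295849248) (nat_lit 152) (nat_lit 525699984116) (nat_lit 228) (nat_lit 1695824265674) (nat_lit 54) (nat_lit 5) (nat_lit 56) (nat_lit 5) (nat_lit 57) (nat_lit 5) (nat_lit 509) (nat_lit 491) (nat_lit 200)) (XT.nd (nat_lit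 78) (nat_lit 0) (nat_lit 0) (XT.lf (nat_lit 0) (nat_lit 269649678194) (nat_lit 228) (nat_lit 6523709447937) (nat_lit 76) (nat_lit 3334659806141) (nat_lit 51) (nat_lit 5) (nat_lit 54) (nat_lit 5) (nat_lit 52) (nat_lit 5) (nat_lit 510) (nat_lit 491) (nat_lit 199)) (XT.lf (nat_lit 0) (nat_lit 2376715607626) (nat_lit 228) (nat_lit 660144071373) (nat_lit 76) (nat_lit 7581812392262) (nat_lit 51) (nat_lit 5) (nat_lit 54) (nat_lit 5) (nat_lit 52) (nat_lit 5) (nat_lit 511) (nat_lit 491) (nat_lit 198))))) (XT.nd (nat_lit 234) (nat_lit 152) (nat_lit 0) (XT.nd (nat_lit 78) (nat_lit 152) (nat_lit 0) (XT.lf (nat_lit 0) (nat_lit 4824219509285) (nat_lit 228) (nat_lit 5194143101376) (nat_lit 76) (nat_lit 1116465034876) (nat_lit 49) (nat_lit 5) (nat_lit 52) (nat_lit 5) (nat_lit 50) (nat_lit 5) (nat_lit 512) (nat_lit 491) (nat_lit 197)) (XT.nd (nat_lit 78) (nat_lit 0) (nat_lit 0) (XT.lf (nat_lit 0) (nat_lit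 1407343450585) (nat_lit 152) (nat_lit 6191424715603) (nat_lit 228) (nat_lit 4083007944119) (nat_lit 47) (nat_lit 5) (nat_lit 49) (nat_lit 5) (nat_lit 50) (nat_lit 5) (nat_lit 513) (nat_lit 491) (nat_lit 196)) (XT.lf (nat_lit 0) (nat_lit 8832344447131) (nat_lit 152) (nat_lit 1904953345619) (nat_lit 228) (nat_lit 1523821293340) (nat_lit 47) (nat_lit 5) (nat_lit 49) (nat_lit 5) (nat_lit 50) (nat_lit 5) (nat_lit 514) (nat_lit 491) (nat_lit 195)))) (XT.nd (nat_lit 78) (nat_lit 0) (nat_lit 0) (XT.lf (nat_lit 0) (nat_lit 1346563157059) (nat_lit 152) (nat_lit 8803432743116) (nat_lit 76) (nat_lit 2720947827900) (nat_lit 45) (nat_lit 5) (nat_lit 47) (nat_lit 5) (nat_lit 46) (nat_lit 5) (nat_lit 515) (nat_lit 491) (nat_lit 194)) (XT.nd (nat_lit 60606) (nat_lit 0) (nat_lit 2508) (XT.lf (nat_lit 0) (nat_lit 4509915549521) (nat_lit 152) (nat_lit 1255051643554) (nat_lit 76) (nat_lit 7749767717184) (nat_lit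 45) (nat_lit 5) (nat_lit 47) (nat_lit 5) (nat_lit 46) (nat_lit 5) (nat_lit 516) (nat_lit 491) (nat_lit 193)) (XT.lf (nat_lit 0) (nat_lit 2297528464883) (nat_lit 532) (nat_lit 58166732508) (nat_lit 532) (nat_lit 58166732508) (nat_lit 78) (nat_lit 3) (nat_lit 85) (nat_lit 3) (nat_lit 85) (nat_lit 5) (nat_lit 492) (nat_lit 492) (nat_lit 216)))))) (XT.nd (nat_lit 468) (nat_lit 760) (nat_lit 0) (XT.nd (nat_lit 234) (nat_lit 0) (nat_lit 0) (XT.nd (nat_lit 78) (nat_lit 456) (nat_lit 0) (XT.lf (nat_lit 76) (nat_lit 2388053179518) (nat_lit 0) (nat_lit 2448238766483) (nat_lit 532) (nat_lit 179946249066) (nat_lit 79) (nat_lit 5) (nat_lit 78) (nat_lit 3) (nat_lit 85) (nat_lit 5) (nat_lit 493) (nat_lit 492) (nat_lit 215)) (XT.nd (nat_lit 78) (nat_lit 456) (nat_lit 0) (XT.lf (nat_lit 76) (nat_lit 5099406742701) (nat_lit 0) (nat_lit 599783659) (nat_lit 532) (nat_lit 119572689770) (nat_lit 79) (nat_lit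 5) (nat_lit 78) (nat_lit 3) (nat_lit 85) (nat_lit 5) (nat_lit 494) (nat_lit 492) (nat_lit 214)) (XT.lf (nat_lit 0) (nat_lit 79144412183) (nat_lit 532) (nat_lit 2773114267873) (nat_lit 608) (nat_lit 2576569934312) (nat_lit 72) (nat_lit 5) (nat_lit 79) (nat_lit 5) (nat_lit 80) (nat_lit 5) (nat_lit 495) (nat_lit 492) (nat_lit 213)))) (XT.nd (nat_lit 78) (nat_lit 0) (nat_lit 76) (XT.lf (nat_lit 76) (nat_lit 2889140672) (nat_lit 0) (nat_lit 287865845033) (nat_lit 608) (nat_lit 5363538025273) (nat_lit 73) (nat_lit 5) (nat_lit 72) (nat_lit 5) (nat_lit 80) (nat_lit 5) (nat_lit 496) (nat_lit 492) (nat_lit 212)) (XT.nd (nat_lit 78) (nat_lit 0) (nat_lit 0) (XT.lf (nat_lit 0) (nat_lit 656770087879) (nat_lit 532) (nat_lit 2794700347848) (nat_lit 608) (nat_lit 2435326068966) (nat_lit 73) (nat_lit 5) (nat_lit 80) (nat_lit 5) (nat_lit 81) (nat_lit 5) (nat_lit 497) (nat_lit 492) (nat_lit 211)) (XT.lf (nat_lit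 76) (nat_lit 297967986774) (nat_lit 0) (nat_lit 768741583432) (nat_lit 608) (nat_lit 5070019253944) (nat_lit 74) (nat_lit 5) (nat_lit 73) (nat_lit 5) (nat_lit 81) (nat_lit 5) (nat_lit 498) (nat_lit 492) (nat_lit 210))))) (XT.nd (nat_lit 234) (nat_lit 456) (nat_lit 0) (XT.nd (nat_lit 78) (nat_lit 456) (nat_lit 0) (XT.lf (nat_lit 0) (nat_lit 1639034015224) (nat_lit 532) (nat_lit 2656733635425) (nat_lit 76) (nat_lit 2100520894184) (nat_lit 74) (nat_lit 5) (nat_lit 81) (nat_lit 5) (nat_lit 75) (nat_lit 5) (nat_lit 499) (nat_lit 492) (nat_lit 209)) (XT.nd (nat_lit 78) (nat_lit 0) (nat_lit 0) (XT.lf (nat_lit 0) (nat_lit 799902806672) (nat_lit 456) (nat_lit 1496446604586) (nat_lit 532) (nat_lit 4377127232281) (nat_lit 68) (nat_lit 5) (nat_lit 74) (nat_lit 5) (nat_lit 75) (nat_lit 5) (nat_lit 500) (nat_lit 492) (nat_lit 208)) (XT.lf (nat_lit 0) (nat_lit 3117496653463) (nat_lit 532) (nat_lit 2321474454742)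 (nat_lit 76) (nat_lit 1524968952777) (nat_lit 68) (nat_lit 5) (nat_lit 75) (nat_lit 5) (nat_lit 69) (nat_lit 5) (nat_lit 501) (nat_lit 492) (nat_lit 207)))) (XT.nd (nat_lit 78) (nat_lit 228) (nat_lit 0) (XT.lf (nat_lit 0) (nat_lit 1553643684188) (nat_lit 228) (nat_lit 2526925901645) (nat_lit 304) (nat_lit 3190972253124) (nat_lit 65) (nat_lit 5) (nat_lit 68) (nat_lit 5) (nat_lit 69) (nat_lit 5) (nat_lit 502) (nat_lit 492) (nat_lit 206)) (XT.nd (nat_lit 78) (nat_lit 228) (nat_lit 0) (XT.lf (nat_lit 0) (nat_lit 5200675142577) (nat_lit 304) (nat_lit 1744391882155) (nat_lit 76) (nat_lit 652285791255) (nat_lit 65) (nat_lit 5) (nat_lit 69) (nat_lit 5) (nat_lit 66) (nat_lit 5) (nat_lit 503) (nat_lit 492) (nat_lit 205)) (XT.lf (nat_lit 0) (nat_lit 2612024497215) (nat_lit 228) (nat_lit 3926818337487) (nat_lit 304) (nat_lit 1400109541211) (nat_lit 62) (nat_lit 5) (nat_lit 65) (nat_lit 5) (nat_lit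 66) (nat_lit 5) (nat_lit 504) (nat_lit 492) (nat_lit 204))))))))
noncomputable def xc250 : XT := (XT.nd (nat_lit 62400) (nat_lit 0) (nat_lit 152) (XT.nd (nat_lit 858) (nat_lit 152) (nat_lit 0) (XT.nd (nat_lit 390) (nat_lit 532) (nat_lit 0) (XT.nd (nat_lit 156) (nat_lit 380) (nat_lit 0) (XT.nd (nat_lit 78) (nat_lit 228) (nat_lit 0) (XT.lf (nat_lit 0) (nat_lit 7416159298781) (nat_lit 228) (nat_lit 615599408669) (nat_lit 304) (nat_lit 272305611962) (nat_lit 62) (nat_lit 5) (nat_lit 65) (nat_lit 5) (nat_lit 66) (nat_lit 5) (nat_lit 505) (nat_lit 492) (nat_lit 203)) (XT.lf (nat_lit 0) (nat_lit 1071075031689) (nat_lit 228) (nat_lit 4675052307658) (nat_lit 76) (nat_lit 2936625404779) (nat_lit 59) (nat_lit 5) (nat_lit 62) (nat_lit 5) (nat_lit 60) (nat_lit 5) (nat_lit 506) (nat_lit 492) (nat_lit 202))) (XT.nd (nat_lit 78) (nat_lit 152) (nat_lit 0) (XT.lf (nat_lit 0) (nat_lit 244177915629) (nat_lit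 228) (nat_lit 2309806180451) (nat_lit 304) (nat_lit 6533444753279) (nat_lit 56) (nat_lit 5) (nat_lit 59) (nat_lit 5) (nat_lit 60) (nat_lit 5) (nat_lit 507) (nat_lit 492) (nat_lit 201)) (XT.nd (nat_lit 78) (nat_lit 152) (nat_lit 0) (XT.lf (nat_lit 0) (nat_lit 4320374410827) (nat_lit 304) (nat_lit 3728456492331) (nat_lit 76) (nat_lit 1462460257837) (nat_lit 56) (nat_lit 5) (nat_lit 60) (nat_lit 5) (nat_lit 57) (nat_lit 5) (nat_lit 508) (nat_lit 492) (nat_lit 200)) (XT.lf (nat_lit 0) (nat_lit 1826916290404) (nat_lit 152) (nat_lit 4505092006689) (nat_lit 228) (nat_lit 3628739572762) (nat_lit 54) (nat_lit 5) (nat_lit 56) (nat_lit 5) (nat_lit 57) (nat_lit 5) (nat_lit 509) (nat_lit 492) (nat_lit 199))))) (XT.nd (nat_lit 234) (nat_lit 304) (nat_lit 0) (XT.nd (nat_lit 78) (nat_lit 228) (nat_lit 0) (XT.lf (nat_lit 0) (nat_lit 8038759520029) (nat_lit 152) (nat_lit 567755982020) (nat_lit 228) (nat_lit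 1831490204752) (nat_lit 54) (nat_lit 5) (nat_lit 56) (nat_lit 5) (nat_lit 57) (nat_lit 5) (nat_lit 510) (nat_lit 492) (nat_lit 198)) (XT.nd (nat_lit 78) (nat_lit 0) (nat_lit 0) (XT.lf (nat_lit 0) (nat_lit 291221654455) (nat_lit 228) (nat_lit 7045606200759) (nat_lit 76) (nat_lit 3601432591479) (nat_lit 51) (nat_lit 5) (nat_lit 54) (nat_lit 5) (nat_lit 52) (nat_lit 5) (nat_lit 511) (nat_lit 492) (nat_lit 197)) (XT.lf (nat_lit 0) (nat_lit 2566852858093) (nat_lit 228) (nat_lit 712955594293) (nat_lit 76) (nat_lit 8188357384427) (nat_lit 51) (nat_lit 5) (nat_lit 54) (nat_lit 5) (nat_lit 52) (nat_lit 5) (nat_lit 512) (nat_lit 492) (nat_lit 196)))) (XT.nd (nat_lit 78) (nat_lit 152) (nat_lit 0) (XT.lf (nat_lit 0) (nat_lit 5210157071835) (nat_lit 228) (nat_lit 5609674546647) (nat_lit 76) (nat_lit 1205782238553) (nat_lit 49) (nat_lit 5) (nat_lit 52) (nat_lit 5) (nat_lit 50) (nat_lit 5) (nat_lit 513)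 (nat_lit 492) (nat_lit 195)) (XT.nd (nat_lit 78) (nat_lit 0) (nat_lit 0) (XT.lf (nat_lit 0) (nat_lit 1519930929399) (nat_lit 152) (nat_lit 6686738691824) (nat_lit 228) (nat_lit 4409648577769) (nat_lit 47) (nat_lit 5) (nat_lit 49) (nat_lit 5) (nat_lit 50) (nat_lit 5) (nat_lit 514) (nat_lit 492) (nat_lit 194)) (XT.lf (nat_lit 0) (nat_lit 9538932005465) (nat_lit 152) (nat_lit 2057349612316) (nat_lit 228) (nat_lit 1645726995067) (nat_lit 47) (nat_lit 5) (nat_lit 49) (nat_lit 5) (nat_lit 50) (nat_lit 5) (nat_lit 515) (nat_lit 492) (nat_lit 193)))))) (XT.nd (nat_lit 61074) (nat_lit 0) (nat_lit 1520) (XT.nd (nat_lit 60840) (nat_lit 0) (nat_lit 2052) (XT.nd (nat_lit 60684) (nat_lit 0) (nat_lit 2508) (XT.lf (nat_lit 0) (nat_lit 1454288211241) (nat_lit 152) (nat_lit 9507707359878) (nat_lit 76) (nat_lit 2938623655072) (nat_lit 45) (nat_lit 5) (nat_lit 47) (nat_lit 5) (nat_lit 46) (nat_lit 5) (nat_lit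 516) (nat_lit 492) (nat_lit 192)) (XT.nd (nat_lit 78) (nat_lit 0) (nat_lit 0) (XT.lf (nat_lit 0) (nat_lit 2481330744654) (nat_lit 532) (nat_lit 62820069715) (nat_lit 532) (nat_lit 62820069715) (nat_lit 78) (nat_lit 3) (nat_lit 85) (nat_lit 3) (nat_lit 85) (nat_lit 5) (nat_lit 493) (nat_lit 493) (nat_lit 214)) (XT.lf (nat_lit 76) (nat_lit 2579097436596) (nat_lit 0) (nat_lit 2644097869928) (nat_lit 532) (nat_lit 194341943760) (nat_lit 79) (nat_lit 5) (nat_lit 78) (nat_lit 3) (nat_lit 85) (nat_lit 5) (nat_lit 494) (nat_lit 493) (nat_lit 213)))) (XT.nd (nat_lit 78) (nat_lit 456) (nat_lit 0) (XT.lf (nat_lit 76) (nat_lit 5507359284632) (nat_lit 0) (nat_lit 647768320) (nat_lit 532) (nat_lit 129138500108) (nat_lit 79) (nat_lit 5) (nat_lit 78) (nat_lit 3) (nat_lit 85) (nat_lit 5) (nat_lit 495) (nat_lit 493) (nat_lit 212)) (XT.nd (nat_lit 78) (nat_lit 0) (nat_lit 0) (XT.lf (nat_lit 0) (nat_lit 85475969443)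 (nat_lit 532) (nat_lit 2994963406227) (nat_lit 608) (nat_lit 2782695527502) (nat_lit 72) (nat_lit 5) (nat_lit 79) (nat_lit 5) (nat_lit 80) (nat_lit 5) (nat_lit 496) (nat_lit 493) (nat_lit 211)) (XT.lf (nat_lit 76) (nat_lit 3120274924) (nat_lit 0) (nat_lit 310895113678) (nat_lit 608) (nat_lit 5792621062929) (nat_lit 73) (nat_lit 5) (nat_lit 72) (nat_lit 5) (nat_lit 80) (nat_lit 5) (nat_lit 497) (nat_lit 493) (nat_lit 210))))) (XT.nd (nat_lit 234) (nat_lit 608) (nat_lit 0) (XT.nd (nat_lit 78) (nat_lit 0) (nat_lit 0) (XT.lf (nat_lit 0) (nat_lit 709311698628) (nat_lit 532) (nat_lit 3018276372576) (nat_lit 608) (nat_lit 2630152153567) (nat_lit 73) (nat_lit 5) (nat_lit 80) (nat_lit 5) (nat_lit 81) (nat_lit 5) (nat_lit 498) (nat_lit 493) (nat_lit 209)) (XT.nd (nat_lit 78) (nat_lit 0) (nat_lit 76) (XT.lf (nat_lit 76) (nat_lit 321805428737) (nat_lit 0) (nat_lit 830240910600) (nat_lit 608) (nat_lit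 5475620790462) (nat_lit 74) (nat_lit 5) (nat_lit 73) (nat_lit 5) (nat_lit 81) (nat_lit 5) (nat_lit 499) (nat_lit 493) (nat_lit 208)) (XT.lf (nat_lit 0) (nat_lit 1770156739686) (nat_lit 532) (nat_lit 2869272323189) (nat_lit 76) (nat_lit 2268562565285) (nat_lit 74) (nat_lit 5) (nat_lit 81) (nat_lit 5) (nat_lit 75) (nat_lit 5) (nat_lit 500) (nat_lit 493) (nat_lit 207)))) (XT.nd (nat_lit 78) (nat_lit 228) (nat_lit 0) (XT.lf (nat_lit 0) (nat_lit 863895034198) (nat_lit 456) (nat_lit 1616162333036) (nat_lit 532) (nat_lit 4727297407541) (nat_lit 68) (nat_lit 5) (nat_lit 74) (nat_lit 5) (nat_lit 75) (nat_lit 5) (nat_lit 501) (nat_lit 493) (nat_lit 206)) (XT.nd (nat_lit 78) (nat_lit 228) (nat_lit 0) (XT.lf (nat_lit 0) (nat_lit 3366896388586) (nat_lit 532) (nat_lit 2507192408120) (nat_lit 76) (nat_lit 1646966468926) (nat_lit 68) (nat_lit 5) (nat_lit 75) (nat_lit 5) (nat_lit 69) (nat_lit 5) (nat_lit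 502) (nat_lit 493) (nat_lit 205)) (XT.lf (nat_lit 0) (nat_lit 1677935181849) (nat_lit 228) (nat_lit 2729079973557) (nat_lit 304) (nat_lit 3446250030451) (nat_lit 65) (nat_lit 5) (nat_lit 68) (nat_lit 5) (nat_lit 69) (nat_lit 5) (nat_lit 503) (nat_lit 493) (nat_lit 204))))))) (XT.nd (nat_lit 936) (nat_lit 0) (nat_lit 0) (XT.nd (nat_lit 468) (nat_lit 684) (nat_lit 0) (XT.nd (nat_lit 234) (nat_lit 456) (nat_lit 0) (XT.nd (nat_lit 78) (nat_lit 228) (nat_lit 0) (XT.lf (nat_lit 0) (nat_lit 5616729156493) (nat_lit 304) (nat_lit 1883943229822) (nat_lit 76) (nat_lit 704468654749) (nat_lit 65) (nat_lit 5) (nat_lit 69) (nat_lit 5) (nat_lit 66) (nat_lit 5) (nat_lit 504) (nat_lit 493) (nat_lit 203)) (XT.nd (nat_lit 78) (nat_lit 0) (nat_lit 0) (XT.lf (nat_lit 0) (nat_lit 2820986459824) (nat_lit 228) (nat_lit 4240963804046) (nat_lit 304) (nat_lit 1512118301923) (nat_lit 62) (nat_lit 5) (nat_lit 65) (nat_lit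 5) (nat_lit 66) (nat_lit 5) (nat_lit 505) (nat_lit 493) (nat_lit 202)) (XT.lf (nat_lit 0) (nat_lit 8009452045306) (nat_lit 228) (nat_lit 664847360956) (nat_lit 304) (nat_lit 294090058526) (nat_lit 62) (nat_lit 5) (nat_lit 65) (nat_lit 5) (nat_lit 66) (nat_lit 5) (nat_lit 506) (nat_lit 493) (nat_lit 201)))) (XT.nd (nat_lit 78) (nat_lit 228) (nat_lit 0) (XT.lf (nat_lit 0) (nat_lit 1156761036405) (nat_lit 228) (nat_lit 5049056489436) (nat_lit 76) (nat_lit 3171555437640) (nat_lit 59) (nat_lit 5) (nat_lit 62) (nat_lit 5) (nat_lit 60) (nat_lit 5) (nat_lit 507) (nat_lit 493) (nat_lit 200)) (XT.nd (nat_lit 78) (nat_lit 0) (nat_lit 0) (XT.lf (nat_lit 0) (nat_lit 263712151643) (nat_lit 228) (nat_lit 2494590674210) (nat_lit 304) (nat_lit 7056120331288) (nat_lit 56) (nat_lit 5) (nat_lit 59) (nat_lit 5) (nat_lit 60) (nat_lit 5) (nat_lit 508) (nat_lit 493) (nat_lit 199)) (XT.lf (nat_lit 0) (nat_lit 4666004365640)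 (nat_lit 304) (nat_lit 4026733009019) (nat_lit 76) (nat_lit 1579457079059) (nat_lit 56) (nat_lit 5) (nat_lit 60) (nat_lit 5) (nat_lit 57) (nat_lit 5) (nat_lit 509) (nat_lit 493) (nat_lit 198))))) (XT.nd (nat_lit 234) (nat_lit 304) (nat_lit 0) (XT.nd (nat_lit 78) (nat_lit 228) (nat_lit 0) (XT.lf (nat_lit 0) (nat_lit 1973069596267) (nat_lit 152) (nat_lit 4865499366460) (nat_lit 228) (nat_lit 3919038736568) (nat_lit 54) (nat_lit 5) (nat_lit 56) (nat_lit 5) (nat_lit 57) (nat_lit 5) (nat_lit 510) (nat_lit 493) (nat_lit 197)) (XT.nd (nat_lit 78) (nat_lit 228) (nat_lit 0) (XT.lf (nat_lit 0) (nat_lit 8681860284066) (nat_lit 152) (nat_lit 613176459874) (nat_lit 228) (nat_lit 1978009419266) (nat_lit 54) (nat_lit 5) (nat_lit 56) (nat_lit 5) (nat_lit 57) (nat_lit 5) (nat_lit 511) (nat_lit 493) (nat_lit 196)) (XT.lf (nat_lit 0) (nat_lit 314519388531) (nat_lit 228) (nat_lit 7609254694237) (nat_lit 76)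 (nat_lit 3889547199524) (nat_lit 51) (nat_lit 5) (nat_lit 54) (nat_lit 5) (nat_lit 52) (nat_lit 5) (nat_lit 512) (nat_lit 493) (nat_lit 195)))) (XT.nd (nat_lit 78) (nat_lit 304) (nat_lit 0) (XT.lf (nat_lit 0) (nat_lit 2772201088332) (nat_lit 228) (nat_lit 769992039444) (nat_lit 76) (nat_lit 8843425975853) (nat_lit 51) (nat_lit 5) (nat_lit 54) (nat_lit 5) (nat_lit 52) (nat_lit 5) (nat_lit 513) (nat_lit 493) (nat_lit 194)) (XT.nd (nat_lit 78) (nat_lit 152) (nat_lit 0) (XT.lf (nat_lit 0) (nat_lit 5626969639131) (nat_lit 228) (nat_lit 6058448507944) (nat_lit 76) (nat_lit 1302244818399) (nat_lit 49) (nat_lit 5) (nat_lit 52) (nat_lit 5) (nat_lit 50) (nat_lit 5) (nat_lit 514) (nat_lit 493) (nat_lit 193)) (XT.lf (nat_lit 0) (nat_lit 1641525406124) (nat_lit 152) (nat_lit 7221677786288) (nat_lit 228) (nat_lit 4762420462380) (nat_lit 47) (nat_lit 5) (nat_lit 49) (nat_lit 5) (nat_lit 50) (nat_lit 5)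 (nat_lit 515) (nat_lit 493) (nat_lit 192)))))) (XT.nd (nat_lit 61152) (nat_lit 0) (nat_lit 1368) (XT.nd (nat_lit 60918) (nat_lit 0) (nat_lit 1900) (XT.nd (nat_lit 60762) (nat_lit 0) (nat_lit 2356) (XT.lf (nat_lit 0) (nat_lit 10302046568099) (nat_lit 152) (nat_lit 2221937580486) (nat_lit 228) (nat_lit 1777385153181) (nat_lit 47) (nat_lit 5) (nat_lit 49) (nat_lit 5) (nat_lit 50) (nat_lit 5) (nat_lit 516) (nat_lit 493) (nat_lit 191)) (XT.nd (nat_lit 78) (nat_lit 0) (nat_lit 0) (XT.lf (nat_lit 0) (nat_lit 2679837206438) (nat_lit 532) (nat_lit 67845674098) (nat_lit 532) (nat_lit 67845674098) (nat_lit 78) (nat_lit 3) (nat_lit 85) (nat_lit 3) (nat_lit 85) (nat_lit 5) (nat_lit 494) (nat_lit 494) (nat_lit 212)) (XT.lf (nat_lit 76) (nat_lit 2785425233852) (nat_lit 0) (nat_lit 2855625701344) (nat_lit 532) (nat_lit 209889294775) (nat_lit 79) (nat_lit 5) (nat_lit 78) (nat_lit 3) (nat_lit 85) (nat_lit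 5) (nat_lit 495) (nat_lit 494) (nat_lit 211)))) (XT.nd (nat_lit 78) (nat_lit 456) (nat_lit 0) (XT.lf (nat_lit 76) (nat_lit 5947948029559) (nat_lit 0) (nat_lit 699591473) (nat_lit 532) (nat_lit 139469575964) (nat_lit 79) (nat_lit 5) (nat_lit 78) (nat_lit 3) (nat_lit 85) (nat_lit 5) (nat_lit 496) (nat_lit 494) (nat_lit 210)) (XT.nd (nat_lit 78) (nat_lit 0) (nat_lit 0) (XT.lf (nat_lit 0) (nat_lit 92314050674) (nat_lit 532) (nat_lit 3234560476088) (nat_lit 608) (nat_lit 3005311168370) (nat_lit 72) (nat_lit 5) (nat_lit 79) (nat_lit 5) (nat_lit 80) (nat_lit 5) (nat_lit 497) (nat_lit 494) (nat_lit 209)) (XT.lf (nat_lit 76) (nat_lit 3369899488) (nat_lit 0) (nat_lit 335766723666) (nat_lit 608) (nat_lit 6256030744221) (nat_lit 73) (nat_lit 5) (nat_lit 72) (nat_lit 5) (nat_lit 80) (nat_lit 5) (nat_lit 498) (nat_lit 494) (nat_lit 208))))) (XT.nd (nat_lit 234) (nat_lit 608) (nat_lit 0) (XT.nd (nat_lit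 78) (nat_lit 0) (nat_lit 0) (XT.lf (nat_lit 0) (nat_lit 766056637706) (nat_lit 532) (nat_lit 3259738479724) (nat_lit 608) (nat_lit 2840564325066) (nat_lit 73) (nat_lit 5) (nat_lit 80) (nat_lit 5) (nat_lit 81) (nat_lit 5) (nat_lit 499) (nat_lit 494) (nat_lit 207)) (XT.nd (nat_lit 78) (nat_lit 0) (nat_lit 76) (XT.lf (nat_lit 76) (nat_lit 347549865627) (nat_lit 0) (nat_lit 896660183872) (nat_lit 608) (nat_lit 5913670450443) (nat_lit 74) (nat_lit 5) (nat_lit 73) (nat_lit 5) (nat_lit 81) (nat_lit 5) (nat_lit 500) (nat_lit 494) (nat_lit 206)) (XT.lf (nat_lit 0) (nat_lit 1911769281642) (nat_lit 532) (nat_lit 3098814106411) (nat_lit 76) (nat_lit 2450047570135) (nat_lit 74) (nat_lit 5) (nat_lit 81) (nat_lit 5) (nat_lit 75) (nat_lit 5) (nat_lit 501) (nat_lit 494) (nat_lit 205)))) (XT.nd (nat_lit 78) (nat_lit 228) (nat_lit 0) (XT.lf (nat_lit 0) (nat_lit 933006639500) (nat_lit 456) (nat_lit 1745455319750)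 (nat_lit 532) (nat_lit 5105481197296) (nat_lit 68) (nat_lit 5) (nat_lit 74) (nat_lit 5) (nat_lit 75) (nat_lit 5) (nat_lit 502) (nat_lit 494) (nat_lit 204)) (XT.nd (nat_lit 78) (nat_lit 228) (nat_lit 0) (XT.lf (nat_lit 0) (nat_lit 3636248102113) (nat_lit 532) (nat_lit 2707767798196) (nat_lit 76) (nat_lit 1778723786377) (nat_lit 68) (nat_lit 5) (nat_lit 75) (nat_lit 5) (nat_lit 69) (nat_lit 5) (nat_lit 503) (nat_lit 494) (nat_lit 203)) (XT.lf (nat_lit 0) (nat_lit 1812169998905) (nat_lit 228) (nat_lit 2947406371253) (nat_lit 304) (nat_lit 3721950030381) (nat_lit 65) (nat_lit 5) (nat_lit 68) (nat_lit 5) (nat_lit 69) (nat_lit 5) (nat_lit 504) (nat_lit 494) (nat_lit 202))))))))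
noncomputable def xc251 : XT := (XT.nd (nat_lit 62556) (nat_lit 0) (nat_lit 152) (XT.nd (nat_lit 858) (nat_lit 152) (nat_lit 0) (XT.nd (nat_lit 390) (nat_lit 532) (nat_lit 0) (XT.nd (nat_lit 156) (nat_lit 456) (nat_lit 0) (XT.nd (nat_lit 78) (nat_lit 228) (nat_lit 0) (XT.lf (nat_lit 0) (nat_lit 6066067491165) (nat_lit 304) (nat_lit 2034658685718) (nat_lit 76) (nat_lit 760826147295) (nat_lit 65) (nat_lit 5) (nat_lit 69) (nat_lit 5) (nat_lit 66) (nat_lit 5) (nat_lit 505) (nat_lit 494) (nat_lit 201)) (XT.lf (nat_lit 0) (nat_lit 3046665379038) (nat_lit 228) (nat_lit 4580240907993) (nat_lit 304) (nat_lit 1633087763862) (nat_lit 62) (nat_lit 5) (nat_lit 65) (nat_lit 5) (nat_lit 66) (nat_lit 5) (nat_lit 506) (nat_lit 494) (nat_lit 200))) (XT.nd (nat_lit 78) (nat_lit 456) (nat_lit 0) (XT.lf (nat_lit 0) (nat_lit 8650208211178) (nat_lit 228) (nat_lit 718035149483) (nat_lit 304) (nat_lit 317617261157)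 (nat_lit 62) (nat_lit 5) (nat_lit 65) (nat_lit 5) (nat_lit 66) (nat_lit 5) (nat_lit 507) (nat_lit 494) (nat_lit 199)) (XT.nd (nat_lit 78) (nat_lit 228) (nat_lit 0) (XT.lf (nat_lit 0) (nat_lit 1249301921188) (nat_lit 228) (nat_lit 5452981006160) (nat_lit 76) (nat_lit 3425279873061) (nat_lit 59) (nat_lit 5) (nat_lit 62) (nat_lit 5) (nat_lit 60) (nat_lit 5) (nat_lit 508) (nat_lit 494) (nat_lit 198)) (XT.lf (nat_lit 0) (nat_lit 284809126143) (nat_lit 228) (nat_lit 2694157927566) (nat_lit 304) (nat_lit 7620609955859) (nat_lit 56) (nat_lit 5) (nat_lit 59) (nat_lit 5) (nat_lit 60) (nat_lit 5) (nat_lit 509) (nat_lit 494) (nat_lit 197))))) (XT.nd (nat_lit 234) (nat_lit 380) (nat_lit 0) (XT.nd (nat_lit 78) (nat_lit 152) (nat_lit 0) (XT.lf (nat_lit 0) (nat_lit 5039284716561) (nat_lit 304) (nat_lit 4348871647428) (nat_lit 76) (nat_lit 1705813645894) (nat_lit 56) (nat_lit 5) (nat_lit 60) (nat_lit 5)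 (nat_lit 57) (nat_lit 5) (nat_lit 510) (nat_lit 494) (nat_lit 196)) (XT.nd (nat_lit 78) (nat_lit 0) (nat_lit 0) (XT.lf (nat_lit 0) (nat_lit 2130915166223) (nat_lit 152) (nat_lit 5254739315121) (nat_lit 228) (nat_lit 4232561833765) (nat_lit 54) (nat_lit 5) (nat_lit 56) (nat_lit 5) (nat_lit 57) (nat_lit 5) (nat_lit 511) (nat_lit 494) (nat_lit 195)) (XT.lf (nat_lit 0) (nat_lit 9376409108880) (nat_lit 152) (nat_lit 662230576058) (nat_lit 228) (nat_lit 2136250171207) (nat_lit 54) (nat_lit 5) (nat_lit 56) (nat_lit 5) (nat_lit 57) (nat_lit 5) (nat_lit 512) (nat_lit 494) (nat_lit 194)))) (XT.nd (nat_lit 78) (nat_lit 152) (nat_lit 0) (XT.lf (nat_lit 0) (nat_lit 339680941087) (nat_lit 228) (nat_lit 8217995067561) (nat_lit 76) (nat_lit 4200710976108) (nat_lit 51) (nat_lit 5) (nat_lit 54) (nat_lit 5) (nat_lit 52) (nat_lit 5) (nat_lit 513) (nat_lit 494) (nat_lit 193)) (XT.nd (nat_lit 78) (nat_lit 152)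 (nat_lit 0) (XT.lf (nat_lit 0) (nat_lit 2993977176764) (nat_lit 228) (nat_lit 831591400549) (nat_lit 76) (nat_lit 9550900054498) (nat_lit 51) (nat_lit 5) (nat_lit 54) (nat_lit 5) (nat_lit 52) (nat_lit 5) (nat_lit 514) (nat_lit 494) (nat_lit 192)) (XT.lf (nat_lit 0) (nat_lit 6077127211590) (nat_lit 228) (nat_lit 6543124386492) (nat_lit 76) (nat_lit 1406424404523) (nat_lit 49) (nat_lit 5) (nat_lit 52) (nat_lit 5) (nat_lit 50) (nat_lit 5) (nat_lit 515) (nat_lit 494) (nat_lit 191)))))) (XT.nd (nat_lit 61230) (nat_lit 0) (nat_lit 1368) (XT.nd (nat_lit 60996) (nat_lit 0) (nat_lit 1900) (XT.nd (nat_lit 60840) (nat_lit 0) (nat_lit 2356) (XT.lf (nat_lit 0) (nat_lit 1772847440649) (nat_lit 152) (nat_lit 7799412008436) (nat_lit 228) (nat_lit 5143414097989) (nat_lit 47) (nat_lit 5) (nat_lit 49) (nat_lit 5) (nat_lit 50) (nat_lit 5) (nat_lit 516) (nat_lit 494) (nat_lit 190)) (XT.nd (nat_lit 78) (nat_lit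 0) (nat_lit 0) (XT.lf (nat_lit 0) (nat_lit 2894224184849) (nat_lit 532) (nat_lit 73273327001) (nat_lit 532) (nat_lit 73273327001) (nat_lit 78) (nat_lit 3) (nat_lit 85) (nat_lit 3) (nat_lit 85) (nat_lit 5) (nat_lit 495) (nat_lit 495) (nat_lit 210)) (XT.lf (nat_lit 76) (nat_lit 3008259254557) (nat_lit 0) (nat_lit 3084075759015) (nat_lit 532) (nat_lit 226680434512) (nat_lit 79) (nat_lit 5) (nat_lit 78) (nat_lit 3) (nat_lit 85) (nat_lit 5) (nat_lit 496) (nat_lit 495) (nat_lit 209)))) (XT.nd (nat_lit 78) (nat_lit 456) (nat_lit 0) (XT.lf (nat_lit 76) (nat_lit 6423783873773) (nat_lit 0) (nat_lit 755560238) (nat_lit 532) (nat_lit 150627138480) (nat_lit 79) (nat_lit 5) (nat_lit 78) (nat_lit 3) (nat_lit 85) (nat_lit 5) (nat_lit 497) (nat_lit 495) (nat_lit 208)) (XT.nd (nat_lit 78) (nat_lit 0) (nat_lit 0) (XT.lf (nat_lit 0) (nat_lit 99699177878) (nat_lit 532) (nat_lit 3493325311914) (nat_lit 608)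 (nat_lit 3245736060697) (nat_lit 72) (nat_lit 5) (nat_lit 79) (nat_lit 5) (nat_lit 80) (nat_lit 5) (nat_lit 498) (nat_lit 495) (nat_lit 207)) (XT.lf (nat_lit 76) (nat_lit 3639493651) (nat_lit 0) (nat_lit 362628062325) (nat_lit 608) (nat_lit 6756513200550) (nat_lit 73) (nat_lit 5) (nat_lit 72) (nat_lit 5) (nat_lit 80) (nat_lit 5) (nat_lit 499) (nat_lit 495) (nat_lit 206))))) (XT.nd (nat_lit 234) (nat_lit 608) (nat_lit 0) (XT.nd (nat_lit 78) (nat_lit 0) (nat_lit 0) (XT.lf (nat_lit 0) (nat_lit 827341171456) (nat_lit 532) (nat_lit 3520517555824) (nat_lit 608) (nat_lit 3067809470397) (nat_lit 73) (nat_lit 5) (nat_lit 80) (nat_lit 5) (nat_lit 81) (nat_lit 5) (nat_lit 500) (nat_lit 495) (nat_lit 205)) (XT.nd (nat_lit 78) (nat_lit 0) (nat_lit 76) (XT.lf (nat_lit 76) (nat_lit 375353857098) (nat_lit 0) (nat_lit 968392998944) (nat_lit 608) (nat_lit 6386764083686) (nat_lit 74) (nat_lit 5) (nat_lit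 73) (nat_lit 5) (nat_lit 81) (nat_lit 5) (nat_lit 501) (nat_lit 495) (nat_lit 204)) (XT.lf (nat_lit 0) (nat_lit 2064710826558) (nat_lit 532) (nat_lit 3346719232668) (nat_lit 76) (nat_lit 2646051375427) (nat_lit 74) (nat_lit 5) (nat_lit 81) (nat_lit 5) (nat_lit 75) (nat_lit 5) (nat_lit 502) (nat_lit 495) (nat_lit 203)))) (XT.nd (nat_lit 78) (nat_lit 228) (nat_lit 0) (XT.lf (nat_lit 0) (nat_lit 1007647172859) (nat_lit 456) (nat_lit 1885091745391) (nat_lit 532) (nat_lit 5513919690637) (nat_lit 68) (nat_lit 5) (nat_lit 74) (nat_lit 5) (nat_lit 75) (nat_lit 5) (nat_lit 503) (nat_lit 495) (nat_lit 202)) (XT.nd (nat_lit 78) (nat_lit 228) (nat_lit 0) (XT.lf (nat_lit 0) (nat_lit 3927147952374) (nat_lit 532) (nat_lit 2924389219845) (nat_lit 76) (nat_lit 1921021689233) (nat_lit 68) (nat_lit 5) (nat_lit 75) (nat_lit 5) (nat_lit 69) (nat_lit 5) (nat_lit 504) (nat_lit 495) (nat_lit 201)) (XT.lf (nat_lit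 0) (nat_lit 1957143600967) (nat_lit 228) (nat_lit 3183198880791) (nat_lit 304) (nat_lit 4019706030663) (nat_lit 65) (nat_lit 5) (nat_lit 68) (nat_lit 5) (nat_lit 69) (nat_lit 5) (nat_lit 505) (nat_lit 495) (nat_lit 200))))))) (XT.nd (nat_lit 61776) (nat_lit 0) (nat_lit 988) (XT.nd (nat_lit 468) (nat_lit 532) (nat_lit 0) (XT.nd (nat_lit 234) (nat_lit 456) (nat_lit 0) (XT.nd (nat_lit 78) (nat_lit 228) (nat_lit 0) (XT.lf (nat_lit 0) (nat_lit 6551352892303) (nat_lit 304) (nat_lit 2197431378439) (nat_lit 76) (nat_lit 821692239221) (nat_lit 65) (nat_lit 5) (nat_lit 69) (nat_lit 5) (nat_lit 66) (nat_lit 5) (nat_lit 506) (nat_lit 495) (nat_lit 199)) (XT.nd (nat_lit 78) (nat_lit 0) (nat_lit 0) (XT.lf (nat_lit 0) (nat_lit 3290398611442) (nat_lit 228) (nat_lit 4946660180310) (nat_lit 304) (nat_lit 1763734783071) (nat_lit 62) (nat_lit 5) (nat_lit 65) (nat_lit 5) (nat_lit 66) (nat_lit 5) (nat_lit 507)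 (nat_lit 495) (nat_lit 198)) (XT.lf (nat_lit 0) (nat_lit 9342224870000) (nat_lit 228) (nat_lit 775477961143) (nat_lit 304) (nat_lit 343026640290) (nat_lit 62) (nat_lit 5) (nat_lit 65) (nat_lit 5) (nat_lit 66) (nat_lit 5) (nat_lit 508) (nat_lit 495) (nat_lit 197)))) (XT.nd (nat_lit 78) (nat_lit 228) (nat_lit 0) (XT.lf (nat_lit 0) (nat_lit 1349246076486) (nat_lit 228) (nat_lit 5889219484569) (nat_lit 76) (nat_lit 3699302263258) (nat_lit 59) (nat_lit 5) (nat_lit 62) (nat_lit 5) (nat_lit 60) (nat_lit 5) (nat_lit 509) (nat_lit 495) (nat_lit 196)) (XT.nd (nat_lit 78) (nat_lit 0) (nat_lit 0) (XT.lf (nat_lit 0) (nat_lit 307593858266) (nat_lit 228) (nat_lit 2909690561274) (nat_lit 304) (nat_lit 8230258750671) (nat_lit 56) (nat_lit 5) (nat_lit 59) (nat_lit 5) (nat_lit 60) (nat_lit 5) (nat_lit 510) (nat_lit 495) (nat_lit 195)) (XT.lf (nat_lit 0) (nat_lit 5442427495316) (nat_lit 304) (nat_lit 4696781377238)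 (nat_lit 76) (nat_lit 1842278738004) (nat_lit 56) (nat_lit 5) (nat_lit 60) (nat_lit 5) (nat_lit 57) (nat_lit 5) (nat_lit 511) (nat_lit 495) (nat_lit 194))))) (XT.nd (nat_lit 234) (nat_lit 152) (nat_lit 0) (XT.nd (nat_lit 78) (nat_lit 228) (nat_lit 0) (XT.lf (nat_lit 0) (nat_lit 2301388381454) (nat_lit 152) (nat_lit 5675118459769) (nat_lit 228) (nat_lit 4571166778985) (nat_lit 54) (nat_lit 5) (nat_lit 56) (nat_lit 5) (nat_lit 57) (nat_lit 5) (nat_lit 512) (nat_lit 495) (nat_lit 193)) (XT.nd (nat_lit 78) (nat_lit 228) (nat_lit 0) (XT.lf (nat_lit 0) (nat_lit 10126521839380) (nat_lit 152) (nat_lit 715209021622) (nat_lit 228) (nat_lit 2307150183532) (nat_lit 54) (nat_lit 5) (nat_lit 56) (nat_lit 5) (nat_lit 57) (nat_lit 5) (nat_lit 513) (nat_lit 495) (nat_lit 192)) (XT.lf (nat_lit 0) (nat_lit 366855417638) (nat_lit 228) (nat_lit 8875434671068) (nat_lit 76) (nat_lit 4536767854730) (nat_lit 51)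 (nat_lit 5) (nat_lit 54) (nat_lit 5) (nat_lit 52) (nat_lit 5) (nat_lit 514) (nat_lit 495) (nat_lit 191)))) (XT.nd (nat_lit 78) (nat_lit 152) (nat_lit 0) (XT.lf (nat_lit 0) (nat_lit 3233495352075) (nat_lit 228) (nat_lit 898118710835) (nat_lit 76) (nat_lit 10314972059352) (nat_lit 51) (nat_lit 5) (nat_lit 54) (nat_lit 5) (nat_lit 52) (nat_lit 5) (nat_lit 515) (nat_lit 495) (nat_lit 190)) (XT.nd (nat_lit 60918) (nat_lit 0) (nat_lit 2204) (XT.lf (nat_lit 0) (nat_lit 6563297389656) (nat_lit 228) (nat_lit 7066574335622) (nat_lit 76) (nat_lit 1518938357445) (nat_lit 49) (nat_lit 5) (nat_lit 52) (nat_lit 5) (nat_lit 50) (nat_lit 5) (nat_lit 516) (nat_lit 495) (nat_lit 189)) (XT.lf (nat_lit 0) (nat_lit 3125762121262) (nat_lit 532) (nat_lit 79135192283) (nat_lit 532) (nat_lit 79135192283) (nat_lit 78) (nat_lit 3) (nat_lit 85) (nat_lit 3) (nat_lit 85) (nat_lit 5) (nat_lit 496) (nat_lit 496) (nat_lit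 208)))))) (XT.nd (nat_lit 468) (nat_lit 760) (nat_lit 0) (XT.nd (nat_lit 234) (nat_lit 0) (nat_lit 0) (XT.nd (nat_lit 78) (nat_lit 456) (nat_lit 0) (XT.lf (nat_lit 76) (nat_lit 3248919996634) (nat_lit 0) (nat_lit 3330801821076) (nat_lit 532) (nat_lit 244814865976) (nat_lit 79) (nat_lit 5) (nat_lit 78) (nat_lit 3) (nat_lit 85) (nat_lit 5) (nat_lit 497) (nat_lit 496) (nat_lit 207)) (XT.nd (nat_lit 78) (nat_lit 456) (nat_lit 0) (XT.lf (nat_lit 76) (nat_lit 6937686585260) (nat_lit 0) (nat_lit 816006297) (nat_lit 532) (nat_lit 162677306506) (nat_lit 79) (nat_lit 5) (nat_lit 78) (nat_lit 3) (nat_lit 85) (nat_lit 5) (nat_lit 498) (nat_lit 496) (nat_lit 206)) (XT.lf (nat_lit 0) (nat_lit 107675114810) (nat_lit 532) (nat_lit 3772791334928) (nat_lit 608) (nat_lit 3505394944573) (nat_lit 72) (nat_lit 5) (nat_lit 79) (nat_lit 5) (nat_lit 80) (nat_lit 5) (nat_lit 499) (nat_lit 496) (nat_lit 205)))) (XT.nd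 (nat_lit 78) (nat_lit 0) (nat_lit 76) (XT.lf (nat_lit 76) (nat_lit 3930655033) (nat_lit 0) (nat_lit 391638307968) (nat_lit 608) (nat_lit 7297034253843) (nat_lit 73) (nat_lit 5) (nat_lit 72) (nat_lit 5) (nat_lit 80) (nat_lit 5) (nat_lit 500) (nat_lit 496) (nat_lit 204)) (XT.nd (nat_lit 78) (nat_lit 0) (nat_lit 0) (XT.lf (nat_lit 0) (nat_lit 893528467515) (nat_lit 532) (nat_lit 3802158958336) (nat_lit 608) (nat_lit 3313234227451) (nat_lit 73) (nat_lit 5) (nat_lit 80) (nat_lit 5) (nat_lit 81) (nat_lit 5) (nat_lit 501) (nat_lit 496) (nat_lit 203)) (XT.lf (nat_lit 76) (nat_lit 405382167570) (nat_lit 0) (nat_lit 1045864439171) (nat_lit 608) (nat_lit 6897705207988) (nat_lit 74) (nat_lit 5) (nat_lit 73) (nat_lit 5) (nat_lit 81) (nat_lit 5) (nat_lit 502) (nat_lit 496) (nat_lit 202))))) (XT.nd (nat_lit 234) (nat_lit 456) (nat_lit 0) (XT.nd (nat_lit 78) (nat_lit 456) (nat_lit 0) (XT.lf (nat_lit 0)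 (nat_lit 2229887694727) (nat_lit 532) (nat_lit 3614456769346) (nat_lit 76) (nat_lit 2857735485187) (nat_lit 74) (nat_lit 5) (nat_lit 81) (nat_lit 5) (nat_lit 75) (nat_lit 5) (nat_lit 503) (nat_lit 496) (nat_lit 201)) (XT.nd (nat_lit 78) (nat_lit 0) (nat_lit 0) (XT.lf (nat_lit 0) (nat_lit 1088258948574) (nat_lit 456) (nat_lit 2035899085075) (nat_lit 532) (nat_lit 5955033263794) (nat_lit 68) (nat_lit 5) (nat_lit 74) (nat_lit 5) (nat_lit 75) (nat_lit 5) (nat_lit 504) (nat_lit 496) (nat_lit 200)) (XT.lf (nat_lit 0) (nat_lit 4241319790358) (nat_lit 532) (nat_lit 3158340355542) (nat_lit 76) (nat_lit 2074703424326) (nat_lit 68) (nat_lit 5) (nat_lit 75) (nat_lit 5) (nat_lit 69) (nat_lit 5) (nat_lit 505) (nat_lit 496) (nat_lit 199)))) (XT.nd (nat_lit 78) (nat_lit 228) (nat_lit 0) (XT.lf (nat_lit 0) (nat_lit 2113715090889) (nat_lit 228) (nat_lit 3437854791116) (nat_lit 304) (nat_lit 4341282511274)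 (nat_lit 65) (nat_lit 5) (nat_lit 68) (nat_lit 5) (nat_lit 69) (nat_lit 5) (nat_lit 506) (nat_lit 496) (nat_lit 198)) (XT.nd (nat_lit 78) (nat_lit 228) (nat_lit 0) (XT.lf (nat_lit 0) (nat_lit 7075461125269) (nat_lit 304) (nat_lit 2373225886884) (nat_lit 76) (nat_lit 887427618480) (nat_lit 65) (nat_lit 5) (nat_lit 69) (nat_lit 5) (nat_lit 66) (nat_lit 5) (nat_lit 507) (nat_lit 496) (nat_lit 197)) (XT.lf (nat_lit 0) (nat_lit 3553630502142) (nat_lit 228) (nat_lit 5342392994458) (nat_lit 304) (nat_lit 1904833564088) (nat_lit 62) (nat_lit 5) (nat_lit 65) (nat_lit 5) (nat_lit 66) (nat_lit 5) (nat_lit 508) (nat_lit 496) (nat_lit 196))))))))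
noncomputable def xc252 : XT := (XT.nd (nat_lit 62712) (nat_lit 0) (nat_lit 0) (XT.nd (nat_lit 61776) (nat_lit 0) (nat_lit 608) (XT.nd (nat_lit 390) (nat_lit 228) (nat_lit 0) (XT.nd (nat_lit 156) (nat_lit 380) (nat_lit 0) (XT.nd (nat_lit 78) (nat_lit 228) (nat_lit 0) (XT.lf (nat_lit 0) (nat_lit 10089602861252) (nat_lit 228) (nat_lit 837516197778) (nat_lit 304) (nat_lit 370468770005) (nat_lit 62) (nat_lit 5) (nat_lit 65) (nat_lit 5) (nat_lit 66) (nat_lit 5) (nat_lit 509) (nat_lit 496) (nat_lit 195)) (XT.lf (nat_lit 0) (nat_lit 1457185763980) (nat_lit 228) (nat_lit 6360357041549) (nat_lit 76) (nat_lit 3995246444620) (nat_lit 59) (nat_lit 5) (nat_lit 62) (nat_lit 5) (nat_lit 60) (nat_lit 5) (nat_lit 510) (nat_lit 496) (nat_lit 194))) (XT.nd (nat_lit 78) (nat_lit 152) (nat_lit 0) (XT.lf (nat_lit 0) (nat_lit 332201368668) (nat_lit 228) (nat_lit 3142465805750) (nat_lit 304) (nat_lit 8888679449305)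 (nat_lit 56) (nat_lit 5) (nat_lit 59) (nat_lit 5) (nat_lit 60) (nat_lit 5) (nat_lit 511) (nat_lit 496) (nat_lit 193)) (XT.nd (nat_lit 78) (nat_lit 152) (nat_lit 0) (XT.lf (nat_lit 0) (nat_lit 5877821696168) (nat_lit 304) (nat_lit 5072523885717) (nat_lit 76) (nat_lit 1989661037419) (nat_lit 56) (nat_lit 5) (nat_lit 60) (nat_lit 5) (nat_lit 57) (nat_lit 5) (nat_lit 512) (nat_lit 496) (nat_lit 192)) (XT.lf (nat_lit 0) (nat_lit 2485499453628) (nat_lit 152) (nat_lit 6129127936069) (nat_lit 228) (nat_lit 4936860120033) (nat_lit 54) (nat_lit 5) (nat_lit 56) (nat_lit 5) (nat_lit 57) (nat_lit 5) (nat_lit 513) (nat_lit 496) (nat_lit 191))))) (XT.nd (nat_lit 61152) (nat_lit 0) (nat_lit 2052) (XT.nd (nat_lit 78) (nat_lit 228) (nat_lit 0) (XT.lf (nat_lit 0) (nat_lit 10936643588065) (nat_lit 152) (nat_lit 772425742906) (nat_lit 228) (nat_lit 2491722197038) (nat_lit 54) (nat_lit 5) (nat_lit 56) (nat_lit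 5) (nat_lit 57) (nat_lit 5) (nat_lit 514) (nat_lit 496) (nat_lit 190)) (XT.nd (nat_lit 78) (nat_lit 0) (nat_lit 0) (XT.lf (nat_lit 0) (nat_lit 396203852132) (nat_lit 228) (nat_lit 9585469443125) (nat_lit 76) (nat_lit 4899709283566) (nat_lit 51) (nat_lit 5) (nat_lit 54) (nat_lit 5) (nat_lit 52) (nat_lit 5) (nat_lit 515) (nat_lit 496) (nat_lit 189)) (XT.lf (nat_lit 0) (nat_lit 3492174981244) (nat_lit 228) (nat_lit 969968206195) (nat_lit 76) (nat_lit 11140169824524) (nat_lit 51) (nat_lit 5) (nat_lit 54) (nat_lit 5) (nat_lit 52) (nat_lit 5) (nat_lit 516) (nat_lit 496) (nat_lit 188)))) (XT.nd (nat_lit 78) (nat_lit 0) (nat_lit 0) (XT.lf (nat_lit 0) (nat_lit 3375823092357) (nat_lit 532) (nat_lit 85466006913) (nat_lit 532) (nat_lit 85466006913) (nat_lit 78) (nat_lit 3) (nat_lit 85) (nat_lit 3) (nat_lit 85) (nat_lit 5) (nat_lit 497) (nat_lit 497) (nat_lit 206)) (XT.nd (nat_lit 78) (nat_lit 0) (nat_lit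 0) (XT.lf (nat_lit 76) (nat_lit 3508833597832) (nat_lit 0) (nat_lit 3597265967910) (nat_lit 532) (nat_lit 264400052428) (nat_lit 79) (nat_lit 5) (nat_lit 78) (nat_lit 3) (nat_lit 85) (nat_lit 5) (nat_lit 498) (nat_lit 497) (nat_lit 205)) (XT.lf (nat_lit 76) (nat_lit 7492701513439) (nat_lit 0) (nat_lit 881287865) (nat_lit 532) (nat_lit 175691488409) (nat_lit 79) (nat_lit 5) (nat_lit 78) (nat_lit 3) (nat_lit 85) (nat_lit 5) (nat_lit 499) (nat_lit 497) (nat_lit 204)))))) (XT.nd (nat_lit 468) (nat_lit 684) (nat_lit 0) (XT.nd (nat_lit 234) (nat_lit 304) (nat_lit 0) (XT.nd (nat_lit 78) (nat_lit 0) (nat_lit 0) (XT.lf (nat_lit 0) (nat_lit 116289126310) (nat_lit 532) (nat_lit 4074614640061) (nat_lit 608) (nat_lit 3785826539299) (nat_lit 72) (nat_lit 5) (nat_lit 79) (nat_lit 5) (nat_lit 80) (nat_lit 5) (nat_lit 500) (nat_lit 497) (nat_lit 203)) (XT.nd (nat_lit 78) (nat_lit 0) (nat_lit 76) (XT.lf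 (nat_lit 76) (nat_lit 4245109056) (nat_lit 0) (nat_lit 422969373169) (nat_lit 608) (nat_lit 7880796991792) (nat_lit 73) (nat_lit 5) (nat_lit 72) (nat_lit 5) (nat_lit 80) (nat_lit 5) (nat_lit 501) (nat_lit 497) (nat_lit 202)) (XT.lf (nat_lit 0) (nat_lit 965010746925) (nat_lit 532) (nat_lit 4106331673328) (nat_lit 608) (nat_lit 3578292965152) (nat_lit 73) (nat_lit 5) (nat_lit 80) (nat_lit 5) (nat_lit 81) (nat_lit 5) (nat_lit 502) (nat_lit 497) (nat_lit 201)))) (XT.nd (nat_lit 78) (nat_lit 380) (nat_lit 0) (XT.lf (nat_lit 76) (nat_lit 437812742608) (nat_lit 0) (nat_lit 1129533594572) (nat_lit 608) (nat_lit 7449521622575) (nat_lit 74) (nat_lit 5) (nat_lit 73) (nat_lit 5) (nat_lit 81) (nat_lit 5) (nat_lit 503) (nat_lit 497) (nat_lit 200)) (XT.nd (nat_lit 78) (nat_lit 456) (nat_lit 0) (XT.lf (nat_lit 0) (nat_lit 2408278712058) (nat_lit 532) (nat_lit 3903613309235) (nat_lit 76) (nat_lit 3086354323767)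 (nat_lit 74) (nat_lit 5) (nat_lit 81) (nat_lit 5) (nat_lit 75) (nat_lit 5) (nat_lit 504) (nat_lit 497) (nat_lit 199)) (XT.lf (nat_lit 0) (nat_lit 1175319666077) (nat_lit 456) (nat_lit 2198771011926) (nat_lit 532) (nat_lit 6431435923102) (nat_lit 68) (nat_lit 5) (nat_lit 74) (nat_lit 5) (nat_lit 75) (nat_lit 5) (nat_lit 505) (nat_lit 497) (nat_lit 198))))) (XT.nd (nat_lit 234) (nat_lit 456) (nat_lit 0) (XT.nd (nat_lit 78) (nat_lit 228) (nat_lit 0) (XT.lf (nat_lit 0) (nat_lit 4580625375124) (nat_lit 532) (nat_lit 3411007582363) (nat_lit 76) (nat_lit 2240679698233) (nat_lit 68) (nat_lit 5) (nat_lit 75) (nat_lit 5) (nat_lit 69) (nat_lit 5) (nat_lit 506) (nat_lit 497) (nat_lit 197)) (XT.nd (nat_lit 78) (nat_lit 0) (nat_lit 0) (XT.lf (nat_lit 0) (nat_lit 2282812299740) (nat_lit 228) (nat_lit 3712883174286) (nat_lit 304) (nat_lit 4688585110597) (nat_lit 65) (nat_lit 5) (nat_lit 68) (nat_lit 5)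 (nat_lit 69) (nat_lit 5) (nat_lit 507) (nat_lit 497) (nat_lit 196)) (XT.lf (nat_lit 0) (nat_lit 7641498016647) (nat_lit 304) (nat_lit 2563083956265) (nat_lit 76) (nat_lit 958421828063) (nat_lit 65) (nat_lit 5) (nat_lit 69) (nat_lit 5) (nat_lit 66) (nat_lit 5) (nat_lit 508) (nat_lit 497) (nat_lit 195)))) (XT.nd (nat_lit 78) (nat_lit 228) (nat_lit 0) (XT.lf (nat_lit 0) (nat_lit 3837920943843) (nat_lit 228) (nat_lit 5769784433777) (nat_lit 304) (nat_lit 2057220247819) (nat_lit 62) (nat_lit 5) (nat_lit 65) (nat_lit 5) (nat_lit 66) (nat_lit 5) (nat_lit 509) (nat_lit 497) (nat_lit 194)) (XT.nd (nat_lit 78) (nat_lit 228) (nat_lit 0) (XT.lf (nat_lit 0) (nat_lit 10896771091569) (nat_lit 228) (nat_lit 904517493381) (nat_lit 304) (nat_lit 400106270313) (nat_lit 62) (nat_lit 5) (nat_lit 65) (nat_lit 5) (nat_lit 66) (nat_lit 5) (nat_lit 510) (nat_lit 497) (nat_lit 193)) (XT.lf (nat_lit 0) (nat_lit 1573760626277)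 (nat_lit 228) (nat_lit 6869185603341) (nat_lit 76) (nat_lit 4314866160448) (nat_lit 59) (nat_lit 5) (nat_lit 62) (nat_lit 5) (nat_lit 60) (nat_lit 5) (nat_lit 511) (nat_lit 497) (nat_lit 192))))))) (XT.nd (nat_lit 61932) (nat_lit 0) (nat_lit 228) (XT.nd (nat_lit 61464) (nat_lit 0) (nat_lit 1596) (XT.nd (nat_lit 234) (nat_lit 228) (nat_lit 0) (XT.nd (nat_lit 78) (nat_lit 152) (nat_lit 0) (XT.lf (nat_lit 0) (nat_lit 358777479655) (nat_lit 228) (nat_lit 3393863069844) (nat_lit 304) (nat_lit 9599773804032) (nat_lit 56) (nat_lit 5) (nat_lit 59) (nat_lit 5) (nat_lit 60) (nat_lit 5) (nat_lit 512) (nat_lit 497) (nat_lit 191)) (XT.nd (nat_lit 78) (nat_lit 152) (nat_lit 0) (XT.lf (nat_lit 0) (nat_lit 6348047432914) (nat_lit 304) (nat_lit 5478325795117) (nat_lit 76) (nat_lit 2148833920735) (nat_lit 56) (nat_lit 5) (nat_lit 60) (nat_lit 5) (nat_lit 57) (nat_lit 5) (nat_lit 513) (nat_lit 497) (nat_lit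 190)) (XT.lf (nat_lit 0) (nat_lit 2684339411339) (nat_lit 152) (nat_lit 6619458170542) (nat_lit 228) (nat_lit 5331808928547) (nat_lit 54) (nat_lit 5) (nat_lit 56) (nat_lit 5) (nat_lit 57) (nat_lit 5) (nat_lit 514) (nat_lit 497) (nat_lit 189)))) (XT.nd (nat_lit 78) (nat_lit 228) (nat_lit 0) (XT.lf (nat_lit 0) (nat_lit 11811575076426) (nat_lit 152) (nat_lit 834219801956) (nat_lit 228) (nat_lit 2691059971793) (nat_lit 54) (nat_lit 5) (nat_lit 56) (nat_lit 5) (nat_lit 57) (nat_lit 5) (nat_lit 515) (nat_lit 497) (nat_lit 188)) (XT.nd (nat_lit 61074) (nat_lit 0) (nat_lit 2052) (XT.lf (nat_lit 0) (nat_lit 427900161232) (nat_lit 228) (nat_lit 10352306997180) (nat_lit 76) (nat_lit 5291686026644) (nat_lit 51) (nat_lit 5) (nat_lit 54) (nat_lit 5) (nat_lit 52) (nat_lit 5) (nat_lit 516) (nat_lit 497) (nat_lit 187)) (XT.lf (nat_lit 0) (nat_lit 3645888940940) (nat_lit 532) (nat_lit 92303286821) (nat_lit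 532) (nat_lit 92303286821) (nat_lit 78) (nat_lit 3) (nat_lit 85) (nat_lit 3) (nat_lit 85) (nat_lit 5) (nat_lit 498) (nat_lit 498) (nat_lit 204))))) (XT.nd (nat_lit 234) (nat_lit 0) (nat_lit 0) (XT.nd (nat_lit 78) (nat_lit 456) (nat_lit 0) (XT.lf (nat_lit 76) (nat_lit 3789540286917) (nat_lit 0) (nat_lit 3885047246328) (nat_lit 532) (nat_lit 285552054199) (nat_lit 79) (nat_lit 5) (nat_lit 78) (nat_lit 3) (nat_lit 85) (nat_lit 5) (nat_lit 499) (nat_lit 498) (nat_lit 203)) (XT.nd (nat_lit 78) (nat_lit 456) (nat_lit 0) (XT.lf (nat_lit 76) (nat_lit 8092117635680) (nat_lit 0) (nat_lit 951791806) (nat_lit 532) (nat_lit 189746805238) (nat_lit 79) (nat_lit 5) (nat_lit 78) (nat_lit 3) (nat_lit 85) (nat_lit 5) (nat_lit 500) (nat_lit 498) (nat_lit 202)) (XT.lf (nat_lit 0) (nat_lit 125592258400) (nat_lit 532) (nat_lit 4400583809841) (nat_lit 608) (nat_lit 4088692661723) (nat_lit 72) (nat_lit 5) (nat_lit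 79) (nat_lit 5) (nat_lit 80) (nat_lit 5) (nat_lit 501) (nat_lit 498) (nat_lit 201)))) (XT.nd (nat_lit 78) (nat_lit 0) (nat_lit 76) (XT.lf (nat_lit 76) (nat_lit 4584719169) (nat_lit 0) (nat_lit 456806923505) (nat_lit 608) (nat_lit 8511260749113) (nat_lit 73) (nat_lit 5) (nat_lit 72) (nat_lit 5) (nat_lit 80) (nat_lit 5) (nat_lit 502) (nat_lit 498) (nat_lit 200)) (XT.nd (nat_lit 78) (nat_lit 0) (nat_lit 0) (XT.lf (nat_lit 0) (nat_lit 1042211608402) (nat_lit 532) (nat_lit 4434838205758) (nat_lit 608) (nat_lit 3864556401939) (nat_lit 73) (nat_lit 5) (nat_lit 80) (nat_lit 5) (nat_lit 81) (nat_lit 5) (nat_lit 503) (nat_lit 498) (nat_lit 199)) (XT.lf (nat_lit 76) (nat_lit 472837763416) (nat_lit 0) (nat_lit 1219896282366) (nat_lit 608) (nat_lit 8045483350622) (nat_lit 74) (nat_lit 5) (nat_lit 73) (nat_lit 5) (nat_lit 81) (nat_lit 5) (nat_lit 504) (nat_lit 498) (nat_lit 198)))))) (XT.nd (nat_lit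 468) (nat_lit 608) (nat_lit 0) (XT.nd (nat_lit 234) (nat_lit 456) (nat_lit 0) (XT.nd (nat_lit 78) (nat_lit 456) (nat_lit 0) (XT.lf (nat_lit 0) (nat_lit 2600941010526) (nat_lit 532) (nat_lit 4215902372552) (nat_lit 76) (nat_lit 3333262669467) (nat_lit 74) (nat_lit 5) (nat_lit 81) (nat_lit 5) (nat_lit 75) (nat_lit 5) (nat_lit 505) (nat_lit 498) (nat_lit 197)) (XT.nd (nat_lit 78) (nat_lit 0) (nat_lit 0) (XT.lf (nat_lit 0) (nat_lit 1269345240749) (nat_lit 456) (nat_lit 2374672692918) (nat_lit 532) (nat_lit 6945950795411) (nat_lit 68) (nat_lit 5) (nat_lit 74) (nat_lit 5) (nat_lit 75) (nat_lit 5) (nat_lit 506) (nat_lit 498) (nat_lit 196)) (XT.lf (nat_lit 0) (nat_lit 4947075406452) (nat_lit 532) (nat_lit 3683888187562) (nat_lit 76) (nat_lit 2419934074057) (nat_lit 68) (nat_lit 5) (nat_lit 75) (nat_lit 5) (nat_lit 69) (nat_lit 5) (nat_lit 507) (nat_lit 498) (nat_lit 195)))) (XT.nd (nat_lit 78)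 (nat_lit 228) (nat_lit 0) (XT.lf (nat_lit 0) (nat_lit 2465437285075) (nat_lit 228) (nat_lit 4009913828127) (nat_lit 304) (nat_lit 5063671918091) (nat_lit 65) (nat_lit 5) (nat_lit 68) (nat_lit 5) (nat_lit 69) (nat_lit 5) (nat_lit 508) (nat_lit 498) (nat_lit 194)) (XT.nd (nat_lit 78) (nat_lit 228) (nat_lit 0) (XT.lf (nat_lit 0) (nat_lit 8252817859142) (nat_lit 304) (nat_lit 2768130671421) (nat_lit 76) (nat_lit 1035095574398) (nat_lit 65) (nat_lit 5) (nat_lit 69) (nat_lit 5) (nat_lit 66) (nat_lit 5) (nat_lit 509) (nat_lit 498) (nat_lit 193)) (XT.lf (nat_lit 0) (nat_lit 4144954620663) (nat_lit 228) (nat_lit 6231367188276) (nat_lit 304) (nat_lit 2221797866447) (nat_lit 62) (nat_lit 5) (nat_lit 65) (nat_lit 5) (nat_lit 66) (nat_lit 5) (nat_lit 510) (nat_lit 498) (nat_lit 192))))) (XT.nd (nat_lit 234) (nat_lit 152) (nat_lit 0) (XT.nd (nat_lit 78) (nat_lit 456) (nat_lit 0) (XT.lf (nat_lit 0) (nat_lit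 11768512780109) (nat_lit 228) (nat_lit 976878892663) (nat_lit 304) (nat_lit 432114770830) (nat_lit 62) (nat_lit 5) (nat_lit 65) (nat_lit 5) (nat_lit 66) (nat_lit 5) (nat_lit 511) (nat_lit 498) (nat_lit 191)) (XT.nd (nat_lit 78) (nat_lit 228) (nat_lit 0) (XT.lf (nat_lit 0) (nat_lit 1699661477389) (nat_lit 228) (nat_lit 7418720450295) (nat_lit 76) (nat_lit 4660055453505) (nat_lit 59) (nat_lit 5) (nat_lit 62) (nat_lit 5) (nat_lit 60) (nat_lit 5) (nat_lit 512) (nat_lit 498) (nat_lit 190)) (XT.lf (nat_lit 0) (nat_lit 387479679307) (nat_lit 228) (nat_lit 3665372115118) (nat_lit 304) (nat_lit 10367755707310) (nat_lit 56) (nat_lit 5) (nat_lit 59) (nat_lit 5) (nat_lit 60) (nat_lit 5) (nat_lit 513) (nat_lit 498) (nat_lit 189)))) (XT.nd (nat_lit 78) (nat_lit 152) (nat_lit 0) (XT.lf (nat_lit 0) (nat_lit 6855891228449) (nat_lit 304) (nat_lit 5916591857476) (nat_lit 76) (nat_lit 2320740634669) (nat_lit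 56) (nat_lit 5) (nat_lit 60) (nat_lit 5) (nat_lit 57) (nat_lit 5) (nat_lit 514) (nat_lit 498) (nat_lit 188)) (XT.nd (nat_lit 61230) (nat_lit 0) (nat_lit 1824) (XT.lf (nat_lit 0) (nat_lit 2899086565465) (nat_lit 152) (nat_lit 7149014823831) (nat_lit 228) (nat_lit 5758353641898) (nat_lit 54) (nat_lit 5) (nat_lit 56) (nat_lit 5) (nat_lit 57) (nat_lit 5) (nat_lit 515) (nat_lit 498) (nat_lit 187)) (XT.lf (nat_lit 0) (nat_lit 3937560057240) (nat_lit 532) (nat_lit 99687549213) (nat_lit 532) (nat_lit 99687549213) (nat_lit 78) (nat_lit 3) (nat_lit 85) (nat_lit 3) (nat_lit 85) (nat_lit 5) (nat_lit 499) (nat_lit 499) (nat_lit 202))))))))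
noncomputable def xc253 : XT := (XT.nd (nat_lit 63024) (nat_lit 0) (nat_lit 0) (XT.nd (nat_lit 858) (nat_lit 684) (nat_lit 0) (XT.nd (nat_lit 390) (nat_lit 532) (nat_lit 0) (XT.nd (nat_lit 156) (nat_lit 456) (nat_lit 0) (XT.nd (nat_lit 78) (nat_lit 0) (nat_lit 0) (XT.lf (nat_lit 76) (nat_lit 4092703510949) (nat_lit 0) (nat_lit 4195851026878) (nat_lit 532) (nat_lit 308396216457) (nat_lit 79) (nat_lit 5) (nat_lit 78) (nat_lit 3) (nat_lit 85) (nat_lit 5) (nat_lit 500) (nat_lit 499) (nat_lit 201)) (XT.lf (nat_lit 76) (nat_lit 8739487047533) (nat_lit 0) (nat_lit 1027935932) (nat_lit 532) (nat_lit 204926547734) (nat_lit 79) (nat_lit 5) (nat_lit 78) (nat_lit 3) (nat_lit 85) (nat_lit 5) (nat_lit 501) (nat_lit 499) (nat_lit 200))) (XT.nd (nat_lit 78) (nat_lit 0) (nat_lit 0) (XT.lf (nat_lit 0) (nat_lit 135639640774) (nat_lit 532) (nat_lit 4752630513406) (nat_lit 608) (nat_lit 4415788074044) (nat_lit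 72) (nat_lit 5) (nat_lit 79) (nat_lit 5) (nat_lit 80) (nat_lit 5) (nat_lit 502) (nat_lit 499) (nat_lit 199)) (XT.nd (nat_lit 78) (nat_lit 0) (nat_lit 76) (XT.lf (nat_lit 76) (nat_lit 4951497893) (nat_lit 0) (nat_lit 493351477800) (nat_lit 608) (nat_lit 9192161607308) (nat_lit 73) (nat_lit 5) (nat_lit 72) (nat_lit 5) (nat_lit 80) (nat_lit 5) (nat_lit 503) (nat_lit 499) (nat_lit 198)) (XT.lf (nat_lit 0) (nat_lit 1125588538550) (nat_lit 532) (nat_lit 4789625260988) (nat_lit 608) (nat_lit 4173720913730) (nat_lit 73) (nat_lit 5) (nat_lit 80) (nat_lit 5) (nat_lit 81) (nat_lit 5) (nat_lit 504) (nat_lit 499) (nat_lit 197))))) (XT.nd (nat_lit 234) (nat_lit 228) (nat_lit 0) (XT.nd (nat_lit 78) (nat_lit 380) (nat_lit 0) (XT.lf (nat_lit 76) (nat_lit 510664785690) (nat_lit 0) (nat_lit 1317487985152) (nat_lit 608) (nat_lit 8689122017164) (nat_lit 74) (nat_lit 5) (nat_lit 73) (nat_lit 5) (nat_lit 81)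 (nat_lit 5) (nat_lit 505) (nat_lit 499) (nat_lit 196)) (XT.nd (nat_lit 78) (nat_lit 456) (nat_lit 0) (XT.lf (nat_lit 0) (nat_lit 2809016292656) (nat_lit 532) (nat_lit 4553174561137) (nat_lit 76) (nat_lit 3599923682852) (nat_lit 74) (nat_lit 5) (nat_lit 81) (nat_lit 5) (nat_lit 75) (nat_lit 5) (nat_lit 506) (nat_lit 499) (nat_lit 195)) (XT.lf (nat_lit 0) (nat_lit 1370892861197) (nat_lit 456) (nat_lit 2564646508385) (nat_lit 532) (nat_lit 7501626857725) (nat_lit 68) (nat_lit 5) (nat_lit 74) (nat_lit 5) (nat_lit 75) (nat_lit 5) (nat_lit 507) (nat_lit 499) (nat_lit 194)))) (XT.nd (nat_lit 78) (nat_lit 228) (nat_lit 0) (XT.lf (nat_lit 0) (nat_lit 5342841440099) (nat_lit 532) (nat_lit 3978599241375) (nat_lit 76) (nat_lit 2613528799953) (nat_lit 68) (nat_lit 5) (nat_lit 75) (nat_lit 5) (nat_lit 69) (nat_lit 5) (nat_lit 508) (nat_lit 499) (nat_lit 193)) (XT.nd (nat_lit 78) (nat_lit 0) (nat_lit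 0) (XT.lf (nat_lit 0) (nat_lit 2662672269043) (nat_lit 228) (nat_lit 4330706934290) (nat_lit 304) (nat_lit 5468765670377) (nat_lit 65) (nat_lit 5) (nat_lit 68) (nat_lit 5) (nat_lit 69) (nat_lit 5) (nat_lit 509) (nat_lit 499) (nat_lit 192)) (XT.lf (nat_lit 0) (nat_lit 8913043288870) (nat_lit 304) (nat_lit 2989581123981) (nat_lit 76) (nat_lit 1117903220426) (nat_lit 65) (nat_lit 5) (nat_lit 69) (nat_lit 5) (nat_lit 66) (nat_lit 5) (nat_lit 510) (nat_lit 499) (nat_lit 191)))))) (XT.nd (nat_lit 61698) (nat_lit 0) (nat_lit 1216) (XT.nd (nat_lit 234) (nat_lit 228) (nat_lit 0) (XT.nd (nat_lit 78) (nat_lit 228) (nat_lit 0) (XT.lf (nat_lit 0) (nat_lit 4476550991440) (nat_lit 228) (nat_lit 6729876563164) (nat_lit 304) (nat_lit 2399541694737) (nat_lit 62) (nat_lit 5) (nat_lit 65) (nat_lit 5) (nat_lit 66) (nat_lit 5) (nat_lit 511) (nat_lit 499) (nat_lit 190)) (XT.nd (nat_lit 78) (nat_lit 228) (nat_lit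 0) (XT.lf (nat_lit 0) (nat_lit 12709993803559) (nat_lit 228) (nat_lit 1055029203914) (nat_lit 304) (nat_lit 466683951546) (nat_lit 62) (nat_lit 5) (nat_lit 65) (nat_lit 5) (nat_lit 66) (nat_lit 5) (nat_lit 512) (nat_lit 499) (nat_lit 189)) (XT.lf (nat_lit 0) (nat_lit 1835634396447) (nat_lit 228) (nat_lit 8012218085193) (nat_lit 76) (nat_lit 5032859889976) (nat_lit 59) (nat_lit 5) (nat_lit 62) (nat_lit 5) (nat_lit 60) (nat_lit 5) (nat_lit 513) (nat_lit 499) (nat_lit 188)))) (XT.nd (nat_lit 78) (nat_lit 0) (nat_lit 0) (XT.lf (nat_lit 0) (nat_lit 418478054749) (nat_lit 228) (nat_lit 3958601884058) (nat_lit 304) (nat_lit 11197176163000) (nat_lit 56) (nat_lit 5) (nat_lit 59) (nat_lit 5) (nat_lit 60) (nat_lit 5) (nat_lit 514) (nat_lit 499) (nat_lit 187)) (XT.nd (nat_lit 61308) (nat_lit 0) (nat_lit 1672) (XT.lf (nat_lit 0) (nat_lit 7404362527497) (nat_lit 304) (nat_lit 6389919205003) (nat_lit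 76) (nat_lit 2506399885679) (nat_lit 56) (nat_lit 5) (nat_lit 60) (nat_lit 5) (nat_lit 57) (nat_lit 5) (nat_lit 515) (nat_lit 499) (nat_lit 186)) (XT.lf (nat_lit 0) (nat_lit 4252564862698) (nat_lit 532) (nat_lit 107662552675) (nat_lit 532) (nat_lit 107662552675) (nat_lit 78) (nat_lit 3) (nat_lit 85) (nat_lit 3) (nat_lit 85) (nat_lit 5) (nat_lit 500) (nat_lit 500) (nat_lit 200))))) (XT.nd (nat_lit 234) (nat_lit 0) (nat_lit 0) (XT.nd (nat_lit 78) (nat_lit 456) (nat_lit 0) (XT.lf (nat_lit 76) (nat_lit 4420119792750) (nat_lit 0) (nat_lit 4531519109752) (nat_lit 532) (nat_lit 333067911993) (nat_lit 79) (nat_lit 5) (nat_lit 78) (nat_lit 3) (nat_lit 85) (nat_lit 5) (nat_lit 501) (nat_lit 500) (nat_lit 199)) (XT.nd (nat_lit 78) (nat_lit 456) (nat_lit 0) (XT.lf (nat_lit 76) (nat_lit 9438646012192) (nat_lit 0) (nat_lit 1110171477) (nat_lit 532) (nat_lit 221320669903) (nat_lit 79) (nat_lit 5) (nat_lit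 78) (nat_lit 3) (nat_lit 85) (nat_lit 5) (nat_lit 502) (nat_lit 500) (nat_lit 198)) (XT.lf (nat_lit 0) (nat_lit 146490813496) (nat_lit 532) (nat_lit 5132840953432) (nat_lit 608) (nat_lit 4769051119438) (nat_lit 72) (nat_lit 5) (nat_lit 79) (nat_lit 5) (nat_lit 80) (nat_lit 5) (nat_lit 503) (nat_lit 500) (nat_lit 197)))) (XT.nd (nat_lit 78) (nat_lit 0) (nat_lit 76) (XT.lf (nat_lit 76) (nat_lit 5347618745) (nat_lit 0) (nat_lit 532819596379) (nat_lit 608) (nat_lit 9927534534407) (nat_lit 73) (nat_lit 5) (nat_lit 72) (nat_lit 5) (nat_lit 80) (nat_lit 5) (nat_lit 504) (nat_lit 500) (nat_lit 196)) (XT.nd (nat_lit 78) (nat_lit 0) (nat_lit 0) (XT.lf (nat_lit 0) (nat_lit 1215635622900) (nat_lit 532) (nat_lit 5172795280811) (nat_lit 608) (nat_lit 4507618586517) (nat_lit 73) (nat_lit 5) (nat_lit 80) (nat_lit 5) (nat_lit 81) (nat_lit 5) (nat_lit 505) (nat_lit 500) (nat_lit 195)) (XT.lf (nat_lit 76)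 (nat_lit 551517969574) (nat_lit 0) (nat_lit 1422887024132) (nat_lit 608) (nat_lit 9384251777244) (nat_lit 74) (nat_lit 5) (nat_lit 73) (nat_lit 5) (nat_lit 81) (nat_lit 5) (nat_lit 506) (nat_lit 500) (nat_lit 194))))))) (XT.nd (nat_lit 62244) (nat_lit 0) (nat_lit 228) (XT.nd (nat_lit 468) (nat_lit 456) (nat_lit 0) (XT.nd (nat_lit 234) (nat_lit 456) (nat_lit 0) (XT.nd (nat_lit 78) (nat_lit 456) (nat_lit 0) (XT.lf (nat_lit 0) (nat_lit 3033737597173) (nat_lit 532) (nat_lit 4917428524982) (nat_lit 76) (nat_lit 3887917577333) (nat_lit 74) (nat_lit 5) (nat_lit 81) (nat_lit 5) (nat_lit 75) (nat_lit 5) (nat_lit 507) (nat_lit 500) (nat_lit 193)) (XT.nd (nat_lit 78) (nat_lit 0) (nat_lit 0) (XT.lf (nat_lit 0) (nat_lit 1480564291112) (nat_lit 456) (nat_lit 2769818229084) (nat_lit 532) (nat_lit 8101757005211) (nat_lit 68) (nat_lit 5) (nat_lit 74) (nat_lit 5) (nat_lit 75) (nat_lit 5) (nat_lit 508) (nat_lit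 500) (nat_lit 192)) (XT.lf (nat_lit 0) (nat_lit 5770268756276) (nat_lit 532) (nat_lit 4296887179663) (nat_lit 76) (nat_lit 2822611103924) (nat_lit 68) (nat_lit 5) (nat_lit 75) (nat_lit 5) (nat_lit 69) (nat_lit 5) (nat_lit 509) (nat_lit 500) (nat_lit 191)))) (XT.nd (nat_lit 78) (nat_lit 228) (nat_lit 0) (XT.lf (nat_lit 0) (nat_lit 2875686051562) (nat_lit 228) (nat_lit 4677163488959) (nat_lit 304) (nat_lit 5906266923012) (nat_lit 65) (nat_lit 5) (nat_lit 68) (nat_lit 5) (nat_lit 69) (nat_lit 5) (nat_lit 510) (nat_lit 500) (nat_lit 190)) (XT.nd (nat_lit 78) (nat_lit 228) (nat_lit 0) (XT.lf (nat_lit 0) (nat_lit 9626086752834) (nat_lit 304) (nat_lit 3228747612910) (nat_lit 76) (nat_lit 1207335478126) (nat_lit 65) (nat_lit 5) (nat_lit 69) (nat_lit 5) (nat_lit 66) (nat_lit 5) (nat_lit 511) (nat_lit 500) (nat_lit 189)) (XT.lf (nat_lit 0) (nat_lit 4834675071720) (nat_lit 228) (nat_lit 7268266688067)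 (nat_lit 304) (nat_lit 2591505029436) (nat_lit 62) (nat_lit 5) (nat_lit 65) (nat_lit 5) (nat_lit 66) (nat_lit 5) (nat_lit 512) (nat_lit 500) (nat_lit 188))))) (XT.nd (nat_lit 61542) (nat_lit 0) (nat_lit 1672) (XT.nd (nat_lit 78) (nat_lit 456) (nat_lit 0) (XT.lf (nat_lit 0) (nat_lit 13726793308736) (nat_lit 228) (nat_lit 1139431540089) (nat_lit 304) (nat_lit 504018666855) (nat_lit 62) (nat_lit 5) (nat_lit 65) (nat_lit 5) (nat_lit 66) (nat_lit 5) (nat_lit 513) (nat_lit 500) (nat_lit 187)) (XT.nd (nat_lit 78) (nat_lit 228) (nat_lit 0) (XT.lf (nat_lit 0) (nat_lit 1982485148905) (nat_lit 228) (nat_lit 8653195531043) (nat_lit 76) (nat_lit 5435488681337) (nat_lit 59) (nat_lit 5) (nat_lit 62) (nat_lit 5) (nat_lit 60) (nat_lit 5) (nat_lit 514) (nat_lit 500) (nat_lit 186)) (XT.lf (nat_lit 0) (nat_lit 451956300069) (nat_lit 228) (nat_lit 4275290034553) (nat_lit 304) (nat_lit 12092950255273) (nat_lit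 56) (nat_lit 5) (nat_lit 59) (nat_lit 5) (nat_lit 60) (nat_lit 5) (nat_lit 515) (nat_lit 500) (nat_lit 185)))) (XT.nd (nat_lit 78) (nat_lit 0) (nat_lit 0) (XT.lf (nat_lit 0) (nat_lit 4592770052466) (nat_lit 532) (nat_lit 116275556483) (nat_lit 532) (nat_lit 116275556483) (nat_lit 78) (nat_lit 3) (nat_lit 85) (nat_lit 3) (nat_lit 85) (nat_lit 5) (nat_lit 501) (nat_lit 501) (nat_lit 198)) (XT.nd (nat_lit 78) (nat_lit 0) (nat_lit 0) (XT.lf (nat_lit 76) (nat_lit 4773729376963) (nat_lit 0) (nat_lit 4894040639153) (nat_lit 532) (nat_lit 359713343425) (nat_lit 79) (nat_lit 5) (nat_lit 78) (nat_lit 3) (nat_lit 85) (nat_lit 5) (nat_lit 502) (nat_lit 501) (nat_lit 197)) (XT.lf (nat_lit 76) (nat_lit 10193737693901) (nat_lit 0) (nat_lit 1198985769) (nat_lit 532) (nat_lit 239026322082) (nat_lit 79) (nat_lit 5) (nat_lit 78) (nat_lit 3) (nat_lit 85) (nat_lit 5) (nat_lit 503) (nat_lit 501) (nat_lit 196))))))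 (XT.nd (nat_lit 468) (nat_lit 684) (nat_lit 0) (XT.nd (nat_lit 234) (nat_lit 304) (nat_lit 0) (XT.nd (nat_lit 78) (nat_lit 0) (nat_lit 0) (XT.lf (nat_lit 0) (nat_lit 158210079827) (nat_lit 532) (nat_lit 5543468228808) (nat_lit 608) (nat_lit 5150575208540) (nat_lit 72) (nat_lit 5) (nat_lit 79) (nat_lit 5) (nat_lit 80) (nat_lit 5) (nat_lit 504) (nat_lit 501) (nat_lit 195)) (XT.nd (nat_lit 78) (nat_lit 0) (nat_lit 76) (XT.lf (nat_lit 76) (nat_lit 5775429120) (nat_lit 0) (nat_lit 575445164394) (nat_lit 608) (nat_lit 10721737295885) (nat_lit 73) (nat_lit 5) (nat_lit 72) (nat_lit 5) (nat_lit 80) (nat_lit 5) (nat_lit 505) (nat_lit 501) (nat_lit 194)) (XT.lf (nat_lit 0) (nat_lit 1312886473818) (nat_lit 532) (nat_lit 5586618902371) (nat_lit 608) (nat_lit 4868228073171) (nat_lit 73) (nat_lit 5) (nat_lit 80) (nat_lit 5) (nat_lit 81) (nat_lit 5) (nat_lit 506) (nat_lit 501) (nat_lit 193)))) (XT.nd (nat_lit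 78) (nat_lit 380) (nat_lit 0) (XT.lf (nat_lit 76) (nat_lit 595639408022) (nat_lit 0) (nat_lit 1536717986207) (nat_lit 608) (nat_lit 10134991918315) (nat_lit 74) (nat_lit 5) (nat_lit 73) (nat_lit 5) (nat_lit 81) (nat_lit 5) (nat_lit 507) (nat_lit 501) (nat_lit 192)) (XT.nd (nat_lit 78) (nat_lit 456) (nat_lit 0) (XT.lf (nat_lit 0) (nat_lit 3276436605894) (nat_lit 532) (nat_lit 5310822806085) (nat_lit 76) (nat_lit 4198950983392) (nat_lit 74) (nat_lit 5) (nat_lit 81) (nat_lit 5) (nat_lit 75) (nat_lit 5) (nat_lit 508) (nat_lit 501) (nat_lit 191)) (XT.lf (nat_lit 0) (nat_lit 1599009435274) (nat_lit 456) (nat_lit 2991403687435) (nat_lit 532) (nat_lit 8749897564658) (nat_lit 68) (nat_lit 5) (nat_lit 74) (nat_lit 5) (nat_lit 75) (nat_lit 5) (nat_lit 509) (nat_lit 501) (nat_lit 190))))) (XT.nd (nat_lit 234) (nat_lit 456) (nat_lit 0) (XT.nd (nat_lit 78) (nat_lit 228) (nat_lit 0) (XT.lf (nat_lit 0)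 (nat_lit 6231890257609) (nat_lit 532) (nat_lit 4640638153160) (nat_lit 76) (nat_lit 3048419992217) (nat_lit 68) (nat_lit 5) (nat_lit 75) (nat_lit 5) (nat_lit 69) (nat_lit 5) (nat_lit 510) (nat_lit 501) (nat_lit 189)) (XT.nd (nat_lit 78) (nat_lit 0) (nat_lit 0) (XT.lf (nat_lit 0) (nat_lit 3105740936541) (nat_lit 228) (nat_lit 5051336568011) (nat_lit 304) (nat_lit 6378768276000) (nat_lit 65) (nat_lit 5) (nat_lit 68) (nat_lit 5) (nat_lit 69) (nat_lit 5) (nat_lit 511) (nat_lit 501) (nat_lit 188)) (XT.lf (nat_lit 0) (nat_lit 10396173693793) (nat_lit 304) (nat_lit 3487047421095) (nat_lit 76) (nat_lit 1303922316433) (nat_lit 65) (nat_lit 5) (nat_lit 69) (nat_lit 5) (nat_lit 66) (nat_lit 5) (nat_lit 512) (nat_lit 501) (nat_lit 187)))) (XT.nd (nat_lit 78) (nat_lit 228) (nat_lit 0) (XT.lf (nat_lit 0) (nat_lit 5221449078284) (nat_lit 228) (nat_lit 7849728022984) (nat_lit 304) (nat_lit 2798825431036)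 (nat_lit 62) (nat_lit 5) (nat_lit 65) (nat_lit 5) (nat_lit 66) (nat_lit 5) (nat_lit 513) (nat_lit 501) (nat_lit 186)) (XT.nd (nat_lit 78) (nat_lit 228) (nat_lit 0) (XT.lf (nat_lit 0) (nat_lit 14824936774201) (nat_lit 228) (nat_lit 1230586063177) (nat_lit 304) (nat_lit 544340159505) (nat_lit 62) (nat_lit 5) (nat_lit 65) (nat_lit 5) (nat_lit 66) (nat_lit 5) (nat_lit 514) (nat_lit 501) (nat_lit 185)) (XT.lf (nat_lit 0) (nat_lit 2141083961454) (nat_lit 228) (nat_lit 9345451172699) (nat_lit 76) (nat_lit 5870327775984) (nat_lit 59) (nat_lit 5) (nat_lit 62) (nat_lit 5) (nat_lit 60) (nat_lit 5) (nat_lit 515) (nat_lit 501) (nat_lit 184))))))))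
noncomputable def xc254 : XT := (XT.nd (nat_lit 63258) (nat_lit 0) (nat_lit 0) (XT.nd (nat_lit 858) (nat_lit 228) (nat_lit 0) (XT.nd (nat_lit 390) (nat_lit 532) (nat_lit 0) (XT.nd (nat_lit 156) (nat_lit 456) (nat_lit 0) (XT.nd (nat_lit 78) (nat_lit 0) (nat_lit 0) (XT.lf (nat_lit 0) (nat_lit 4960191657309) (nat_lit 532) (nat_lit 125577600653) (nat_lit 532) (nat_lit 125577600653) (nat_lit 78) (nat_lit 3) (nat_lit 85) (nat_lit 3) (nat_lit 85) (nat_lit 5) (nat_lit 502) (nat_lit 502) (nat_lit 196)) (XT.lf (nat_lit 76) (nat_lit 5155627727799) (nat_lit 0) (nat_lit 5285563890817) (nat_lit 532) (nat_lit 388490409590) (nat_lit 79) (nat_lit 5) (nat_lit 78) (nat_lit 3) (nat_lit 85) (nat_lit 5) (nat_lit 503) (nat_lit 502) (nat_lit 195))) (XT.nd (nat_lit 78) (nat_lit 456) (nat_lit 0) (XT.lf (nat_lit 76) (nat_lit 11009236710043) (nat_lit 0) (nat_lit 1294905124) (nat_lit 532) (nat_lit 258148426636) (nat_lit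 79) (nat_lit 5) (nat_lit 78) (nat_lit 3) (nat_lit 85) (nat_lit 5) (nat_lit 504) (nat_lit 502) (nat_lit 194)) (XT.nd (nat_lit 78) (nat_lit 0) (nat_lit 0) (XT.lf (nat_lit 0) (nat_lit 170866887285) (nat_lit 532) (nat_lit 5986945686343) (nat_lit 608) (nat_lit 5562621224834) (nat_lit 72) (nat_lit 5) (nat_lit 79) (nat_lit 5) (nat_lit 80) (nat_lit 5) (nat_lit 505) (nat_lit 502) (nat_lit 193)) (XT.lf (nat_lit 76) (nat_lit 6237464200) (nat_lit 0) (nat_lit 621480777806) (nat_lit 608) (nat_lit 11579476278464) (nat_lit 73) (nat_lit 5) (nat_lit 72) (nat_lit 5) (nat_lit 80) (nat_lit 5) (nat_lit 506) (nat_lit 502) (nat_lit 192))))) (XT.nd (nat_lit 234) (nat_lit 608) (nat_lit 0) (XT.nd (nat_lit 78) (nat_lit 0) (nat_lit 0) (XT.lf (nat_lit 0) (nat_lit 1417917392654) (nat_lit 532) (nat_lit 6033548413785) (nat_lit 608) (nat_lit 5257686318795) (nat_lit 73) (nat_lit 5) (nat_lit 80) (nat_lit 5) (nat_lit 81) (nat_lit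 5) (nat_lit 507) (nat_lit 502) (nat_lit 191)) (XT.nd (nat_lit 78) (nat_lit 0) (nat_lit 76) (XT.lf (nat_lit 76) (nat_lit 643290561419) (nat_lit 0) (nat_lit 1659655425227) (nat_lit 608) (nat_lit 10945791270829) (nat_lit 74) (nat_lit 5) (nat_lit 73) (nat_lit 5) (nat_lit 81) (nat_lit 5) (nat_lit 508) (nat_lit 502) (nat_lit 190)) (XT.lf (nat_lit 0) (nat_lit 3538551535177) (nat_lit 532) (nat_lit 5735688629803) (nat_lit 76) (nat_lit 4534867061955) (nat_lit 74) (nat_lit 5) (nat_lit 81) (nat_lit 5) (nat_lit 75) (nat_lit 5) (nat_lit 509) (nat_lit 502) (nat_lit 189)))) (XT.nd (nat_lit 78) (nat_lit 228) (nat_lit 0) (XT.lf (nat_lit 0) (nat_lit 1726930190845) (nat_lit 456) (nat_lit 3230715982451) (nat_lit 532) (nat_lit 9449889368999) (nat_lit 68) (nat_lit 5) (nat_lit 74) (nat_lit 5) (nat_lit 75) (nat_lit 5) (nat_lit 510) (nat_lit 502) (nat_lit 188)) (XT.nd (nat_lit 78) (nat_lit 228) (nat_lit 0) (XT.lf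 (nat_lit 0) (nat_lit 6730441478930) (nat_lit 532) (nat_lit 5011889204662) (nat_lit 76) (nat_lit 3292293591576) (nat_lit 68) (nat_lit 5) (nat_lit 75) (nat_lit 5) (nat_lit 69) (nat_lit 5) (nat_lit 511) (nat_lit 502) (nat_lit 187)) (XT.lf (nat_lit 0) (nat_lit 3354200212197) (nat_lit 228) (nat_lit 5455443493397) (nat_lit 304) (nat_lit 6889069737349) (nat_lit 65) (nat_lit 5) (nat_lit 68) (nat_lit 5) (nat_lit 69) (nat_lit 5) (nat_lit 512) (nat_lit 502) (nat_lit 186)))))) (XT.nd (nat_lit 61932) (nat_lit 0) (nat_lit 456) (XT.nd (nat_lit 61698) (nat_lit 0) (nat_lit 1216) (XT.nd (nat_lit 78) (nat_lit 228) (nat_lit 0) (XT.lf (nat_lit 0) (nat_lit 11227867589925) (nat_lit 304) (nat_lit 3766011214055) (nat_lit 76) (nat_lit 1408236101796) (nat_lit 65) (nat_lit 5) (nat_lit 69) (nat_lit 5) (nat_lit 66) (nat_lit 5) (nat_lit 513) (nat_lit 502) (nat_lit 185)) (XT.nd (nat_lit 78) (nat_lit 0) (nat_lit 0) (XT.lf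 (nat_lit 0) (nat_lit 5639165005255) (nat_lit 228) (nat_lit 8477706264713) (nat_lit 304) (nat_lit 3022731464873) (nat_lit 62) (nat_lit 5) (nat_lit 65) (nat_lit 5) (nat_lit 66) (nat_lit 5) (nat_lit 514) (nat_lit 502) (nat_lit 184)) (XT.lf (nat_lit 0) (nat_lit 16010931716793) (nat_lit 228) (nat_lit 1329032948130) (nat_lit 304) (nat_lit 587887371666) (nat_lit 62) (nat_lit 5) (nat_lit 65) (nat_lit 5) (nat_lit 66) (nat_lit 5) (nat_lit 515) (nat_lit 502) (nat_lit 183)))) (XT.nd (nat_lit 78) (nat_lit 0) (nat_lit 0) (XT.lf (nat_lit 0) (nat_lit 5357006990447) (nat_lit 532) (nat_lit 135623808406) (nat_lit 532) (nat_lit 135623808406) (nat_lit 78) (nat_lit 3) (nat_lit 85) (nat_lit 3) (nat_lit 85) (nat_lit 5) (nat_lit 503) (nat_lit 503) (nat_lit 194)) (XT.nd (nat_lit 78) (nat_lit 0) (nat_lit 0) (XT.lf (nat_lit 76) (nat_lit 5568077946606) (nat_lit 0) (nat_lit 5708409002539) (nat_lit 532) (nat_lit 419569641235)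 (nat_lit 79) (nat_lit 5) (nat_lit 78) (nat_lit 3) (nat_lit 85) (nat_lit 5) (nat_lit 504) (nat_lit 503) (nat_lit 193)) (XT.lf (nat_lit 76) (nat_lit 11889975647386) (nat_lit 0) (nat_lit 1398497956) (nat_lit 532) (nat_lit 278800299728) (nat_lit 79) (nat_lit 5) (nat_lit 78) (nat_lit 3) (nat_lit 85) (nat_lit 5) (nat_lit 505) (nat_lit 503) (nat_lit 192))))) (XT.nd (nat_lit 234) (nat_lit 304) (nat_lit 0) (XT.nd (nat_lit 78) (nat_lit 0) (nat_lit 0) (XT.lf (nat_lit 0) (nat_lit 184536239188) (nat_lit 532) (nat_lit 6465901340591) (nat_lit 608) (nat_lit 6007630922487) (nat_lit 72) (nat_lit 5) (nat_lit 79) (nat_lit 5) (nat_lit 80) (nat_lit 5) (nat_lit 506) (nat_lit 503) (nat_lit 191)) (XT.nd (nat_lit 78) (nat_lit 0) (nat_lit 76) (XT.lf (nat_lit 76) (nat_lit 6736461980) (nat_lit 0) (nat_lit 671199240254) (nat_lit 608) (nat_lit 12505834379804) (nat_lit 73) (nat_lit 5) (nat_lit 72) (nat_lit 5) (nat_lit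 80) (nat_lit 5) (nat_lit 507) (nat_lit 503) (nat_lit 190)) (XT.lf (nat_lit 0) (nat_lit 1531350784864) (nat_lit 532) (nat_lit 6516232286223) (nat_lit 608) (nat_lit 5678301224102) (nat_lit 73) (nat_lit 5) (nat_lit 80) (nat_lit 5) (nat_lit 81) (nat_lit 5) (nat_lit 508) (nat_lit 503) (nat_lit 189)))) (XT.nd (nat_lit 78) (nat_lit 380) (nat_lit 0) (XT.lf (nat_lit 76) (nat_lit 694753806981) (nat_lit 0) (nat_lit 1792427859351) (nat_lit 608) (nat_lit 11821454571681) (nat_lit 74) (nat_lit 5) (nat_lit 73) (nat_lit 5) (nat_lit 81) (nat_lit 5) (nat_lit 509) (nat_lit 503) (nat_lit 188)) (XT.nd (nat_lit 78) (nat_lit 456) (nat_lit 0) (XT.lf (nat_lit 0) (nat_lit 3821635658688) (nat_lit 532) (nat_lit 6194543719529) (nat_lit 76) (nat_lit 4897656426818) (nat_lit 74) (nat_lit 5) (nat_lit 81) (nat_lit 5) (nat_lit 75) (nat_lit 5) (nat_lit 510) (nat_lit 503) (nat_lit 187)) (XT.lf (nat_lit 0) (nat_lit 1865084606755)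 (nat_lit 456) (nat_lit 3489173261065) (nat_lit 532) (nat_lit 10205880517806) (nat_lit 68) (nat_lit 5) (nat_lit 74) (nat_lit 5) (nat_lit 75) (nat_lit 5) (nat_lit 511) (nat_lit 503) (nat_lit 186))))))) (XT.nd (nat_lit 62478) (nat_lit 0) (nat_lit 228) (XT.nd (nat_lit 62010) (nat_lit 0) (nat_lit 760) (XT.nd (nat_lit 234) (nat_lit 228) (nat_lit 0) (XT.nd (nat_lit 78) (nat_lit 228) (nat_lit 0) (XT.lf (nat_lit 0) (nat_lit 7268876797855) (nat_lit 532) (nat_lit 5412840340391) (nat_lit 76) (nat_lit 3555677078886) (nat_lit 68) (nat_lit 5) (nat_lit 75) (nat_lit 5) (nat_lit 69) (nat_lit 5) (nat_lit 512) (nat_lit 503) (nat_lit 185)) (XT.nd (nat_lit 78) (nat_lit 0) (nat_lit 0) (XT.lf (nat_lit 0) (nat_lit 3622536229800) (nat_lit 228) (nat_lit 5891878972822) (nat_lit 304) (nat_lit 7440195315709) (nat_lit 65) (nat_lit 5) (nat_lit 68) (nat_lit 5) (nat_lit 69) (nat_lit 5) (nat_lit 513) (nat_lit 503) (nat_lit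 184)) (XT.lf (nat_lit 0) (nat_lit 12126096997658) (nat_lit 304) (nat_lit 4067292110556) (nat_lit 76) (nat_lit 1520894989982) (nat_lit 65) (nat_lit 5) (nat_lit 69) (nat_lit 5) (nat_lit 66) (nat_lit 5) (nat_lit 514) (nat_lit 503) (nat_lit 183)))) (XT.nd (nat_lit 61620) (nat_lit 0) (nat_lit 1216) (XT.lf (nat_lit 0) (nat_lit 6090298206283) (nat_lit 228) (nat_lit 9155922765796) (nat_lit 304) (nat_lit 3264549981508) (nat_lit 62) (nat_lit 5) (nat_lit 65) (nat_lit 5) (nat_lit 66) (nat_lit 5) (nat_lit 515) (nat_lit 503) (nat_lit 182)) (XT.nd (nat_lit 78) (nat_lit 0) (nat_lit 0) (XT.lf (nat_lit 0) (nat_lit 5785567550158) (nat_lit 532) (nat_lit 146473712822) (nat_lit 532) (nat_lit 146473712822) (nat_lit 78) (nat_lit 3) (nat_lit 85) (nat_lit 3) (nat_lit 85) (nat_lit 5) (nat_lit 504) (nat_lit 504) (nat_lit 192)) (XT.lf (nat_lit 76) (nat_lit 6013524182834) (nat_lit 0) (nat_lit 6165081723133) (nat_lit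 532) (nat_lit 453135211571) (nat_lit 79) (nat_lit 5) (nat_lit 78) (nat_lit 3) (nat_lit 85) (nat_lit 5) (nat_lit 505) (nat_lit 504) (nat_lit 191))))) (XT.nd (nat_lit 234) (nat_lit 0) (nat_lit 76) (XT.nd (nat_lit 78) (nat_lit 456) (nat_lit 0) (XT.lf (nat_lit 76) (nat_lit 12841173699640) (nat_lit 0) (nat_lit 1510378154) (nat_lit 532) (nat_lit 301104322815) (nat_lit 79) (nat_lit 5) (nat_lit 78) (nat_lit 3) (nat_lit 85) (nat_lit 5) (nat_lit 506) (nat_lit 504) (nat_lit 190)) (XT.nd (nat_lit 78) (nat_lit 0) (nat_lit 0) (XT.lf (nat_lit 0) (nat_lit 199299139111) (nat_lit 532) (nat_lit 6983173447272) (nat_lit 608) (nat_lit 6488241396000) (nat_lit 72) (nat_lit 5) (nat_lit 79) (nat_lit 5) (nat_lit 80) (nat_lit 5) (nat_lit 507) (nat_lit 504) (nat_lit 189)) (XT.lf (nat_lit 76) (nat_lit 7275379490) (nat_lit 0) (nat_lit 724895179666) (nat_lit 608) (nat_lit 13506301129386) (nat_lit 73) (nat_lit 5) (nat_lit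 72) (nat_lit 5) (nat_lit 80) (nat_lit 5) (nat_lit 508) (nat_lit 504) (nat_lit 188)))) (XT.nd (nat_lit 78) (nat_lit 0) (nat_lit 0) (XT.lf (nat_lit 0) (nat_lit 1653858848337) (nat_lit 532) (nat_lit 7037530868551) (nat_lit 608) (nat_lit 6132565321861) (nat_lit 73) (nat_lit 5) (nat_lit 80) (nat_lit 5) (nat_lit 81) (nat_lit 5) (nat_lit 509) (nat_lit 504) (nat_lit 187)) (XT.nd (nat_lit 78) (nat_lit 0) (nat_lit 76) (XT.lf (nat_lit 76) (nat_lit 750334112096) (nat_lit 0) (nat_lit 1935822088190) (nat_lit 608) (nat_lit 12767170936717) (nat_lit 74) (nat_lit 5) (nat_lit 73) (nat_lit 5) (nat_lit 81) (nat_lit 5) (nat_lit 510) (nat_lit 504) (nat_lit 186)) (XT.lf (nat_lit 0) (nat_lit 4127366511979) (nat_lit 532) (nat_lit 6690107216526) (nat_lit 76) (nat_lit 5289468940884) (nat_lit 74) (nat_lit 5) (nat_lit 81) (nat_lit 5) (nat_lit 75) (nat_lit 5) (nat_lit 511) (nat_lit 504) (nat_lit 185)))))) (XT.nd (nat_lit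 62088) (nat_lit 0) (nat_lit 532) (XT.nd (nat_lit 234) (nat_lit 0) (nat_lit 0) (XT.nd (nat_lit 78) (nat_lit 228) (nat_lit 0) (XT.lf (nat_lit 0) (nat_lit 2014291375846) (nat_lit 456) (nat_lit 3768307121965) (nat_lit 532) (nat_lit 11022350958620) (nat_lit 68) (nat_lit 5) (nat_lit 74) (nat_lit 5) (nat_lit 75) (nat_lit 5) (nat_lit 512) (nat_lit 504) (nat_lit 184)) (XT.nd (nat_lit 78) (nat_lit 228) (nat_lit 0) (XT.lf (nat_lit 0) (nat_lit 7850386942207) (nat_lit 532) (nat_lit 5845867567070) (nat_lit 76) (nat_lit 3840131245184) (nat_lit 68) (nat_lit 5) (nat_lit 75) (nat_lit 5) (nat_lit 69) (nat_lit 5) (nat_lit 513) (nat_lit 504) (nat_lit 183)) (XT.lf (nat_lit 0) (nat_lit 3912339128722) (nat_lit 228) (nat_lit 6363229290607) (nat_lit 304) (nat_lit 8035410940429) (nat_lit 65) (nat_lit 5) (nat_lit 68) (nat_lit 5) (nat_lit 69) (nat_lit 5) (nat_lit 514) (nat_lit 504) (nat_lit 182)))) (XT.nd (nat_lit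 61698) (nat_lit 0) (nat_lit 988) (XT.lf (nat_lit 0) (nat_lit 13096184757932) (nat_lit 304) (nat_lit 4392675478867) (nat_lit 76) (nat_lit 1642566589216) (nat_lit 65) (nat_lit 5) (nat_lit 69) (nat_lit 5) (nat_lit 66) (nat_lit 5) (nat_lit 515) (nat_lit 504) (nat_lit 181)) (XT.nd (nat_lit 78) (nat_lit 0) (nat_lit 0) (XT.lf (nat_lit 0) (nat_lit 6248412954577) (nat_lit 532) (nat_lit 158191609628) (nat_lit 532) (nat_lit 158191609628) (nat_lit 78) (nat_lit 3) (nat_lit 85) (nat_lit 3) (nat_lit 85) (nat_lit 5) (nat_lit 505) (nat_lit 505) (nat_lit 190)) (XT.lf (nat_lit 76) (nat_lit 6494606117890) (nat_lit 0) (nat_lit 6658288261319) (nat_lit 532) (nat_lit 489386027672) (nat_lit 79) (nat_lit 5) (nat_lit 78) (nat_lit 3) (nat_lit 85) (nat_lit 5) (nat_lit 506) (nat_lit 505) (nat_lit 189))))) (XT.nd (nat_lit 234) (nat_lit 0) (nat_lit 76) (XT.nd (nat_lit 78) (nat_lit 456) (nat_lit 0) (XT.lf (nat_lit 76)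 (nat_lit 13868467596008) (nat_lit 0) (nat_lit 1631208717) (nat_lit 532) (nat_lit 325192667876) (nat_lit 79) (nat_lit 5) (nat_lit 78) (nat_lit 3) (nat_lit 85) (nat_lit 5) (nat_lit 507) (nat_lit 505) (nat_lit 188)) (XT.nd (nat_lit 78) (nat_lit 0) (nat_lit 0) (XT.lf (nat_lit 0) (nat_lit 215243070916) (nat_lit 532) (nat_lit 7541827322569) (nat_lit 608) (nat_lit 7007300707435) (nat_lit 72) (nat_lit 5) (nat_lit 79) (nat_lit 5) (nat_lit 80) (nat_lit 5) (nat_lit 508) (nat_lit 505) (nat_lit 187)) (XT.lf (nat_lit 76) (nat_lit 7857410322) (nat_lit 0) (nat_lit 782886794204) (nat_lit 608) (nat_lit 14586805219048) (nat_lit 73) (nat_lit 5) (nat_lit 72) (nat_lit 5) (nat_lit 80) (nat_lit 5) (nat_lit 509) (nat_lit 505) (nat_lit 186)))) (XT.nd (nat_lit 78) (nat_lit 0) (nat_lit 0) (XT.lf (nat_lit 0) (nat_lit 1786167556790) (nat_lit 532) (nat_lit 7600533337546) (nat_lit 608) (nat_lit 6623170547466) (nat_lit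 73) (nat_lit 5) (nat_lit 80) (nat_lit 5) (nat_lit 81) (nat_lit 5) (nat_lit 510) (nat_lit 505) (nat_lit 185)) (XT.nd (nat_lit 78) (nat_lit 0) (nat_lit 76) (XT.lf (nat_lit 76) (nat_lit 810360841540) (nat_lit 0) (nat_lit 2090687855323) (nat_lit 608) (nat_lit 13788544611055) (nat_lit 74) (nat_lit 5) (nat_lit 73) (nat_lit 5) (nat_lit 81) (nat_lit 5) (nat_lit 511) (nat_lit 505) (nat_lit 184)) (XT.lf (nat_lit 0) (nat_lit 4457555833449) (nat_lit 532) (nat_lit 7225315793364) (nat_lit 76) (nat_lit 5712626456086) (nat_lit 74) (nat_lit 5) (nat_lit 81) (nat_lit 5) (nat_lit 75) (nat_lit 5) (nat_lit 512) (nat_lit 505) (nat_lit 183))))))))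
noncomputable def xc255 : XT := (XT.nd (nat_lit 187200) (nat_lit 0) (nat_lit 532) (XT.nd (nat_lit 62556) (nat_lit 0) (nat_lit 228) (XT.nd (nat_lit 62088) (nat_lit 0) (nat_lit 532) (XT.nd (nat_lit 156) (nat_lit 228) (nat_lit 0) (XT.nd (nat_lit 78) (nat_lit 0) (nat_lit 0) (XT.lf (nat_lit 0) (nat_lit 2175434686386) (nat_lit 456) (nat_lit 4069771691736) (nat_lit 532) (nat_lit 11904139034785) (nat_lit 68) (nat_lit 5) (nat_lit 74) (nat_lit 5) (nat_lit 75) (nat_lit 5) (nat_lit 513) (nat_lit 505) (nat_lit 182)) (XT.lf (nat_lit 0) (nat_lit 8478417898032) (nat_lit 532) (nat_lit 6313536971962) (nat_lit 76) (nat_lit 4147341744787) (nat_lit 68) (nat_lit 5) (nat_lit 75) (nat_lit 5) (nat_lit 69) (nat_lit 5) (nat_lit 514) (nat_lit 505) (nat_lit 181))) (XT.nd (nat_lit 61776) (nat_lit 0) (nat_lit 988) (XT.lf (nat_lit 0) (nat_lit 4225326259481) (nat_lit 228) (nat_lit 6872287633821) (nat_lit 304) (nat_lit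 8678243815202) (nat_lit 65) (nat_lit 5) (nat_lit 68) (nat_lit 5) (nat_lit 69) (nat_lit 5) (nat_lit 515) (nat_lit 505) (nat_lit 180)) (XT.nd (nat_lit 78) (nat_lit 0) (nat_lit 0) (XT.lf (nat_lit 0) (nat_lit 6748285991292) (nat_lit 532) (nat_lit 170846938210) (nat_lit 532) (nat_lit 170846938210) (nat_lit 78) (nat_lit 3) (nat_lit 85) (nat_lit 3) (nat_lit 85) (nat_lit 5) (nat_lit 506) (nat_lit 506) (nat_lit 188)) (XT.lf (nat_lit 76) (nat_lit 7014174607688) (nat_lit 0) (nat_lit 7190951322512) (nat_lit 532) (nat_lit 528536909179) (nat_lit 79) (nat_lit 5) (nat_lit 78) (nat_lit 3) (nat_lit 85) (nat_lit 5) (nat_lit 507) (nat_lit 506) (nat_lit 187))))) (XT.nd (nat_lit 234) (nat_lit 0) (nat_lit 76) (XT.nd (nat_lit 78) (nat_lit 456) (nat_lit 0) (XT.lf (nat_lit 76) (nat_lit 14977945004028) (nat_lit 0) (nat_lit 1761705681) (nat_lit 532) (nat_lit 351208080651) (nat_lit 79) (nat_lit 5) (nat_lit 78) (nat_lit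 3) (nat_lit 85) (nat_lit 5) (nat_lit 508) (nat_lit 506) (nat_lit 186)) (XT.nd (nat_lit 78) (nat_lit 0) (nat_lit 0) (XT.lf (nat_lit 0) (nat_lit 232462517169) (nat_lit 532) (nat_lit 8145173507958) (nat_lit 608) (nat_lit 7567884763820) (nat_lit 72) (nat_lit 5) (nat_lit 79) (nat_lit 5) (nat_lit 80) (nat_lit 5) (nat_lit 509) (nat_lit 506) (nat_lit 185)) (XT.lf (nat_lit 76) (nat_lit 8486003553) (nat_lit 0) (nat_lit 845517737881) (nat_lit 608) (nat_lit 15753749635982) (nat_lit 73) (nat_lit 5) (nat_lit 72) (nat_lit 5) (nat_lit 80) (nat_lit 5) (nat_lit 510) (nat_lit 506) (nat_lit 184)))) (XT.nd (nat_lit 78) (nat_lit 0) (nat_lit 0) (XT.lf (nat_lit 0) (nat_lit 1929060961836) (nat_lit 532) (nat_lit 8208576004131) (nat_lit 608) (nat_lit 7153024191139) (nat_lit 73) (nat_lit 5) (nat_lit 80) (nat_lit 5) (nat_lit 81) (nat_lit 5) (nat_lit 511) (nat_lit 506) (nat_lit 183)) (XT.nd (nat_lit 78) (nat_lit 0)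 (nat_lit 76) (XT.lf (nat_lit 76) (nat_lit 875189709272) (nat_lit 0) (nat_lit 2257942883816) (nat_lit 608) (nat_lit 14891628179426) (nat_lit 74) (nat_lit 5) (nat_lit 73) (nat_lit 5) (nat_lit 81) (nat_lit 5) (nat_lit 512) (nat_lit 506) (nat_lit 182)) (XT.lf (nat_lit 0) (nat_lit 4814160300564) (nat_lit 532) (nat_lit 7803341056418) (nat_lit 76) (nat_lit 6169636572514) (nat_lit 74) (nat_lit 5) (nat_lit 81) (nat_lit 5) (nat_lit 75) (nat_lit 5) (nat_lit 513) (nat_lit 506) (nat_lit 181)))))) (XT.nd (nat_lit 62244) (nat_lit 0) (nat_lit 304) (XT.nd (nat_lit 62010) (nat_lit 0) (nat_lit 304) (XT.nd (nat_lit 78) (nat_lit 0) (nat_lit 0) (XT.lf (nat_lit 0) (nat_lit 2349469461701) (nat_lit 456) (nat_lit 4395353427086) (nat_lit 532) (nat_lit 12856470157119) (nat_lit 68) (nat_lit 5) (nat_lit 74) (nat_lit 5) (nat_lit 75) (nat_lit 5) (nat_lit 514) (nat_lit 506) (nat_lit 180)) (XT.nd (nat_lit 61854) (nat_lit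 0) (nat_lit 760) (XT.lf (nat_lit 0) (nat_lit 9156691330259) (nat_lit 532) (nat_lit 6818619929314) (nat_lit 76) (nat_lit 4479129084360) (nat_lit 68) (nat_lit 5) (nat_lit 75) (nat_lit 5) (nat_lit 69) (nat_lit 5) (nat_lit 515) (nat_lit 506) (nat_lit 179)) (XT.lf (nat_lit 0) (nat_lit 7288148870895) (nat_lit 532) (nat_lit 184514693106) (nat_lit 532) (nat_lit 184514693106) (nat_lit 78) (nat_lit 3) (nat_lit 85) (nat_lit 3) (nat_lit 85) (nat_lit 5) (nat_lit 507) (nat_lit 507) (nat_lit 186)))) (XT.nd (nat_lit 78) (nat_lit 456) (nat_lit 0) (XT.lf (nat_lit 76) (nat_lit 7575308576618) (nat_lit 0) (nat_lit 7766227428560) (nat_lit 532) (nat_lit 570819861307) (nat_lit 79) (nat_lit 5) (nat_lit 78) (nat_lit 3) (nat_lit 85) (nat_lit 5) (nat_lit 508) (nat_lit 507) (nat_lit 185)) (XT.nd (nat_lit 78) (nat_lit 456) (nat_lit 0) (XT.lf (nat_lit 76) (nat_lit 16176180604642) (nat_lit 0) (nat_lit 1902642363) (nat_lit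 532) (nat_lit 379304726542) (nat_lit 79) (nat_lit 5) (nat_lit 78) (nat_lit 3) (nat_lit 85) (nat_lit 5) (nat_lit 509) (nat_lit 507) (nat_lit 184)) (XT.lf (nat_lit 0) (nat_lit 251059519039) (nat_lit 532) (nat_lit 8796787388239) (nat_lit 608) (nat_lit 8173315544745) (nat_lit 72) (nat_lit 5) (nat_lit 79) (nat_lit 5) (nat_lit 80) (nat_lit 5) (nat_lit 510) (nat_lit 507) (nat_lit 183))))) (XT.nd (nat_lit 234) (nat_lit 0) (nat_lit 152) (XT.nd (nat_lit 78) (nat_lit 0) (nat_lit 76) (XT.lf (nat_lit 76) (nat_lit 9164884185) (nat_lit 0) (nat_lit 913159157033) (nat_lit 608) (nat_lit 17014049606354) (nat_lit 73) (nat_lit 5) (nat_lit 72) (nat_lit 5) (nat_lit 80) (nat_lit 5) (nat_lit 511) (nat_lit 507) (nat_lit 182)) (XT.nd (nat_lit 78) (nat_lit 0) (nat_lit 0) (XT.lf (nat_lit 0) (nat_lit 2083385839214) (nat_lit 532) (nat_lit 8865262084102) (nat_lit 608) (nat_lit 7725266126324) (nat_lit 73) (nat_lit 5) (nat_lit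 80) (nat_lit 5) (nat_lit 81) (nat_lit 5) (nat_lit 512) (nat_lit 507) (nat_lit 181)) (XT.lf (nat_lit 76) (nat_lit 945204886364) (nat_lit 0) (nat_lit 2438578314579) (nat_lit 608) (nat_lit 16082958433340) (nat_lit 74) (nat_lit 5) (nat_lit 73) (nat_lit 5) (nat_lit 81) (nat_lit 5) (nat_lit 513) (nat_lit 507) (nat_lit 180)))) (XT.nd (nat_lit 62010) (nat_lit 0) (nat_lit 304) (XT.lf (nat_lit 0) (nat_lit 5199293124985) (nat_lit 532) (nat_lit 8427608340576) (nat_lit 76) (nat_lit 6663207498265) (nat_lit 74) (nat_lit 5) (nat_lit 81) (nat_lit 5) (nat_lit 75) (nat_lit 5) (nat_lit 514) (nat_lit 507) (nat_lit 179)) (XT.nd (nat_lit 78) (nat_lit 0) (nat_lit 0) (XT.lf (nat_lit 0) (nat_lit 7871200780823) (nat_lit 532) (nat_lit 199275868416) (nat_lit 532) (nat_lit 199275868416) (nat_lit 78) (nat_lit 3) (nat_lit 85) (nat_lit 3) (nat_lit 85) (nat_lit 5) (nat_lit 508) (nat_lit 508) (nat_lit 184)) (XT.lf (nat_lit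 76) (nat_lit 8181333263017) (nat_lit 0) (nat_lit 8387525623056) (nat_lit 532) (nat_lit 616485449691) (nat_lit 79) (nat_lit 5) (nat_lit 78) (nat_lit 3) (nat_lit 85) (nat_lit 5) (nat_lit 509) (nat_lit 508) (nat_lit 183))))))) (XT.nd (nat_lit 125034) (nat_lit 0) (nat_lit 0) (XT.nd (nat_lit 62478) (nat_lit 0) (nat_lit 0) (XT.nd (nat_lit 234) (nat_lit 0) (nat_lit 76) (XT.nd (nat_lit 78) (nat_lit 456) (nat_lit 0) (XT.lf (nat_lit 76) (nat_lit 17470275053263) (nat_lit 0) (nat_lit 2054853948) (nat_lit 532) (nat_lit 409649104184) (nat_lit 79) (nat_lit 5) (nat_lit 78) (nat_lit 3) (nat_lit 85) (nat_lit 5) (nat_lit 510) (nat_lit 508) (nat_lit 182)) (XT.nd (nat_lit 78) (nat_lit 0) (nat_lit 0) (XT.lf (nat_lit 0) (nat_lit 271144280989) (nat_lit 532) (nat_lit 9500530378992) (nat_lit 608) (nat_lit 8827180788170) (nat_lit 72) (nat_lit 5) (nat_lit 79) (nat_lit 5) (nat_lit 80) (nat_lit 5) (nat_lit 511) (nat_lit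 508) (nat_lit 181)) (XT.lf (nat_lit 76) (nat_lit 9898075218) (nat_lit 0) (nat_lit 986211889699) (nat_lit 608) (nat_lit 18375173574429) (nat_lit 73) (nat_lit 5) (nat_lit 72) (nat_lit 5) (nat_lit 80) (nat_lit 5) (nat_lit 512) (nat_lit 508) (nat_lit 180)))) (XT.nd (nat_lit 78) (nat_lit 0) (nat_lit 0) (XT.lf (nat_lit 0) (nat_lit 2250056706721) (nat_lit 532) (nat_lit 9574483050522) (nat_lit 608) (nat_lit 8343287416338) (nat_lit 73) (nat_lit 5) (nat_lit 80) (nat_lit 5) (nat_lit 81) (nat_lit 5) (nat_lit 513) (nat_lit 508) (nat_lit 179)) (XT.nd (nat_lit 62088) (nat_lit 0) (nat_lit 380) (XT.lf (nat_lit 76) (nat_lit 1020821277573) (nat_lit 0) (nat_lit 2633664579794) (nat_lit 608) (nat_lit 17369595107630) (nat_lit 74) (nat_lit 5) (nat_lit 73) (nat_lit 5) (nat_lit 81) (nat_lit 5) (nat_lit 514) (nat_lit 508) (nat_lit 178)) (XT.lf (nat_lit 0) (nat_lit 8500896843508) (nat_lit 532) (nat_lit 215217937770)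 (nat_lit 532) (nat_lit 215217937770) (nat_lit 78) (nat_lit 3) (nat_lit 85) (nat_lit 3) (nat_lit 85) (nat_lit 5) (nat_lit 509) (nat_lit 509) (nat_lit 182))))) (XT.nd (nat_lit 234) (nat_lit 0) (nat_lit 0) (XT.nd (nat_lit 78) (nat_lit 456) (nat_lit 0) (XT.lf (nat_lit 76) (nat_lit 8835839924290) (nat_lit 0) (nat_lit 9058527673081) (nat_lit 532) (nat_lit 665804285221) (nat_lit 79) (nat_lit 5) (nat_lit 78) (nat_lit 3) (nat_lit 85) (nat_lit 5) (nat_lit 510) (nat_lit 509) (nat_lit 181)) (XT.nd (nat_lit 78) (nat_lit 456) (nat_lit 0) (XT.lf (nat_lit 76) (nat_lit 18867897057739) (nat_lit 0) (nat_lit 2219242432) (nat_lit 532) (nat_lit 442421032106) (nat_lit 79) (nat_lit 5) (nat_lit 78) (nat_lit 3) (nat_lit 85) (nat_lit 5) (nat_lit 511) (nat_lit 509) (nat_lit 180)) (XT.lf (nat_lit 0) (nat_lit 292835823833) (nat_lit 532) (nat_lit 10260572809049) (nat_lit 608) (nat_lit 9533355251092) (nat_lit 72) (nat_lit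 5) (nat_lit 79) (nat_lit 5) (nat_lit 80) (nat_lit 5) (nat_lit 512) (nat_lit 509) (nat_lit 179)))) (XT.nd (nat_lit 78) (nat_lit 0) (nat_lit 76) (XT.lf (nat_lit 76) (nat_lit 10689921491) (nat_lit 0) (nat_lit 1065108840963) (nat_lit 608) (nat_lit 19845187460011) (nat_lit 73) (nat_lit 5) (nat_lit 72) (nat_lit 5) (nat_lit 80) (nat_lit 5) (nat_lit 513) (nat_lit 509) (nat_lit 178)) (XT.nd (nat_lit 62166) (nat_lit 0) (nat_lit 380) (XT.lf (nat_lit 0) (nat_lit 2430061243576) (nat_lit 532) (nat_lit 10340441694299) (nat_lit 608) (nat_lit 9010750409567) (nat_lit 73) (nat_lit 5) (nat_lit 80) (nat_lit 5) (nat_lit 81) (nat_lit 5) (nat_lit 514) (nat_lit 509) (nat_lit 177)) (XT.lf (nat_lit 0) (nat_lit 9180968591177) (nat_lit 532) (nat_lit 232435372690) (nat_lit 532) (nat_lit 232435372690) (nat_lit 78) (nat_lit 3) (nat_lit 85) (nat_lit 3) (nat_lit 85) (nat_lit 5) (nat_lit 510) (nat_lit 510) (nat_lit 180))))))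 (XT.nd (nat_lit 62634) (nat_lit 0) (nat_lit 0) (XT.nd (nat_lit 234) (nat_lit 0) (nat_lit 0) (XT.nd (nat_lit 78) (nat_lit 456) (nat_lit 0) (XT.lf (nat_lit 76) (nat_lit 9542707118432) (nat_lit 0) (nat_lit 9783209887083) (nat_lit 532) (nat_lit 719068627656) (nat_lit 79) (nat_lit 5) (nat_lit 78) (nat_lit 3) (nat_lit 85) (nat_lit 5) (nat_lit 511) (nat_lit 510) (nat_lit 179)) (XT.nd (nat_lit 78) (nat_lit 456) (nat_lit 0) (XT.lf (nat_lit 76) (nat_lit 20377328822542) (nat_lit 0) (nat_lit 2396781970) (nat_lit 532) (nat_lit 477814714321) (nat_lit 79) (nat_lit 5) (nat_lit 78) (nat_lit 3) (nat_lit 85) (nat_lit 5) (nat_lit 512) (nat_lit 510) (nat_lit 178)) (XT.lf (nat_lit 0) (nat_lit 316262690053) (nat_lit 532) (nat_lit 11081418633548) (nat_lit 608) (nat_lit 10296023671066) (nat_lit 72) (nat_lit 5) (nat_lit 79) (nat_lit 5) (nat_lit 80) (nat_lit 5) (nat_lit 513) (nat_lit 510) (nat_lit 177)))) (XT.nd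 (nat_lit 62244) (nat_lit 0) (nat_lit 456) (XT.lf (nat_lit 76) (nat_lit 11545115429) (nat_lit 0) (nat_lit 1150317548317) (nat_lit 608) (nat_lit 21432802456493) (nat_lit 73) (nat_lit 5) (nat_lit 72) (nat_lit 5) (nat_lit 80) (nat_lit 5) (nat_lit 514) (nat_lit 510) (nat_lit 176)) (XT.nd (nat_lit 78) (nat_lit 0) (nat_lit 0) (XT.lf (nat_lit 0) (nat_lit 9915446078633) (nat_lit 532) (nat_lit 251030202418) (nat_lit 532) (nat_lit 251030202418) (nat_lit 78) (nat_lit 3) (nat_lit 85) (nat_lit 3) (nat_lit 85) (nat_lit 5) (nat_lit 511) (nat_lit 511) (nat_lit 178)) (XT.lf (nat_lit 76) (nat_lit 10306123688077) (nat_lit 0) (nat_lit 10565866678183) (nat_lit 532) (nat_lit 776594117541) (nat_lit 79) (nat_lit 5) (nat_lit 78) (nat_lit 3) (nat_lit 85) (nat_lit 5) (nat_lit 512) (nat_lit 511) (nat_lit 177))))) (XT.nd (nat_lit 62556) (nat_lit 0) (nat_lit 456) (XT.nd (nat_lit 78) (nat_lit 456) (nat_lit 0) (XT.lf (nat_lit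 76) (nat_lit 22007515128503) (nat_lit 0) (nat_lit 2588524651) (nat_lit 532) (nat_lit 516039891163) (nat_lit 79) (nat_lit 5) (nat_lit 78) (nat_lit 3) (nat_lit 85) (nat_lit 5) (nat_lit 513) (nat_lit 511) (nat_lit 176)) (XT.nd (nat_lit 62400) (nat_lit 0) (nat_lit 456) (XT.lf (nat_lit 0) (nat_lit 341563705525) (nat_lit 532) (nat_lit 11967932124040) (nat_lit 608) (nat_lit 11119705564654) (nat_lit 72) (nat_lit 5) (nat_lit 79) (nat_lit 5) (nat_lit 80) (nat_lit 5) (nat_lit 514) (nat_lit 511) (nat_lit 175)) (XT.lf (nat_lit 76) (nat_lit 11130613583269) (nat_lit 0) (nat_lit 11411136012552) (nat_lit 532) (nat_lit 838721646664) (nat_lit 79) (nat_lit 5) (nat_lit 78) (nat_lit 3) (nat_lit 85) (nat_lit 5) (nat_lit 513) (nat_lit 512) (nat_lit 175)))) (XT.nd (nat_lit 62478) (nat_lit 0) (nat_lit 0) (XT.lf (nat_lit 76) (nat_lit 23768116338918) (nat_lit 0) (nat_lit 2795606729) (nat_lit 532) (nat_lit 557323082196)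 (nat_lit 79) (nat_lit 5) (nat_lit 78) (nat_lit 3) (nat_lit 85) (nat_lit 5) (nat_lit 514) (nat_lit 512) (nat_lit 174)) (XT.nd (nat_lit 62478) (nat_lit 0) (nat_lit 0) (XT.lf (nat_lit 76) (nat_lit 12021062670055) (nat_lit 0) (nat_lit 12324026893654) (nat_lit 532) (nat_lit 905819378156) (nat_lit 79) (nat_lit 5) (nat_lit 78) (nat_lit 3) (nat_lit 85) (nat_lit 5) (nat_lit 514) (nat_lit 513) (nat_lit 173)) (XT.lf (nat_lit 0) (nat_lit 12490606410999) (nat_lit 532) (nat_lit 316225758137) (nat_lit 532) (nat_lit 316225758137) (nat_lit 78) (nat_lit 3) (nat_lit 85) (nat_lit 3) (nat_lit 85) (nat_lit 5) (nat_lit 514) (nat_lit 514) (nat_lit 172))))))))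

set_option maxRecDepth 10000000 in
noncomputable def Tp : PT := (PT.nd (nat_lit 12760332) (PT.nd (nat_lit 12136410) (PT.nd (nat_lit 11262498) (PT.nd (nat_lit 10513152) pc0 pc1) (PT.nd (nat_lit 561678) pc2 pc3)) (PT.nd (nat_lit 374478) (PT.nd (nat_lit 187668) pc4 pc5) (PT.nd (nat_lit 124956) pc6 pc7))) (PT.nd (nat_lit 374322) (PT.nd (nat_lit 126360) (PT.nd (nat_lit 63258) pc8 pc9) (PT.nd (nat_lit 123240) pc10 pc11)) (PT.nd (nat_lit 377286) (PT.nd (nat_lit 186732) pc12 pc13) (PT.nd (nat_lit 187902) pc14 pc15))))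

set_option maxRecDepth 10000000 in
noncomputable def Tx : XT := (XT.nd (nat_lit 20909148) (nat_lit 0) (nat_lit 76) XT.nil (XT.nd (nat_lit 11244714) (nat_lit 0) (nat_lit 0) (XT.nd (nat_lit 4930536) (nat_lit 0) (nat_lit 0) (XT.nd (nat_lit 3372876) (nat_lit 0) (nat_lit 0) (XT.nd (nat_lit 2372604) (nat_lit 0) (nat_lit 0) (XT.nd (nat_lit 1684176) (nat_lit 0) (nat_lit 0) (XT.nd (nat_lit 1185132) (nat_lit 0) (nat_lit 0) (XT.nd (nat_lit 811590) (nat_lit 0) (nat_lit 0) (XT.nd (nat_lit 561834) (nat_lit 0) (nat_lit 0) (XT.nd (nat_lit 374712) (nat_lit 0) (nat_lit 0) xc0 xc1) (XT.nd (nat_lit 125190) (nat_lit 0) (nat_lit 0) xc2 xc3)) (XT.nd (nat_lit 187434) (nat_lit 0) (nat_lit 0) (XT.nd (nat_lit 123864) (nat_lit 0) (nat_lit 0) xc4 xc5) (XT.nd (nat_lit 123006) (nat_lit 0) (nat_lit 0) xc6 xc7))) (XT.nd (nat_lit 250770) (nat_lit 0) (nat_lit 0) (XT.nd (nat_lit 125658) (nat_lit 0) (nat_lit 0) (XT.nd (nat_lit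 62868) (nat_lit 0) (nat_lit 0) xc8 xc9) (XT.nd (nat_lit 62634) (nat_lit 0) (nat_lit 0) xc10 xc11)) (XT.nd (nat_lit 124410) (nat_lit 0) (nat_lit 0) (XT.nd (nat_lit 62244) (nat_lit 0) (nat_lit 0) xc12 xc13) (XT.nd (nat_lit 62010) (nat_lit 0) (nat_lit 0) xc14 xc15)))) (XT.nd (nat_lit 375024) (nat_lit 0) (nat_lit 0) (XT.nd (nat_lit 188214) (nat_lit 0) (nat_lit 0) (XT.nd (nat_lit 123162) (nat_lit 0) (nat_lit 0) (XT.nd (nat_lit 61620) (nat_lit 0) (nat_lit 0) xc16 xc17) (XT.nd (nat_lit 3666) (nat_lit 0) (nat_lit 0) xc18 xc19)) (XT.nd (nat_lit 122226) (nat_lit 0) (nat_lit 0) (XT.nd (nat_lit 61152) (nat_lit 0) (nat_lit 0) xc20 xc21) (XT.nd (nat_lit 3666) (nat_lit 0) (nat_lit 0) xc22 xc23))) (XT.nd (nat_lit 185562) (nat_lit 0) (nat_lit 0) (XT.nd (nat_lit 64350) (nat_lit 0) (nat_lit 0) (XT.nd (nat_lit 60684) (nat_lit 0) (nat_lit 0) xc24 xc25) (XT.nd (nat_lit 60684) (nat_lit 0) (nat_lit 0) xc26 xc27))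 (XT.nd (nat_lit 63960) (nat_lit 0) (nat_lit 0) (XT.nd (nat_lit 3588) (nat_lit 0) (nat_lit 0) xc28 xc29) (XT.nd (nat_lit 60216) (nat_lit 0) (nat_lit 0) xc30 xc31))))) (XT.nd (nat_lit 560274) (nat_lit 0) (nat_lit 0) (XT.nd (nat_lit 309582) (nat_lit 0) (nat_lit 0) (XT.nd (nat_lit 183300) (nat_lit 0) (nat_lit 0) (XT.nd (nat_lit 63648) (nat_lit 0) (nat_lit 0) (XT.nd (nat_lit 59982) (nat_lit 0) (nat_lit 0) xc32 xc33) (XT.nd (nat_lit 59904) (nat_lit 0) (nat_lit 0) xc34 xc35)) (XT.nd (nat_lit 63180) (nat_lit 0) (nat_lit 0) (XT.nd (nat_lit 3588) (nat_lit 0) (nat_lit 0) xc36 xc37) (XT.nd (nat_lit 3666) (nat_lit 0) (nat_lit 0) xc38 xc39))) (XT.nd (nat_lit 125658) (nat_lit 0) (nat_lit 0) (XT.nd (nat_lit 62868) (nat_lit 0) (nat_lit 0) (XT.nd (nat_lit 3588) (nat_lit 0) (nat_lit 0) xc40 xc41) (XT.nd (nat_lit 3666) (nat_lit 0) (nat_lit 0) xc42 xc43)) (XT.nd (nat_lit 62556) (nat_lit 0) (nat_lit 0) (XT.nd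 (nat_lit 3588) (nat_lit 0) (nat_lit 0) xc44 xc45) (XT.nd (nat_lit 58812) (nat_lit 0) (nat_lit 152) xc46 xc47)))) (XT.nd (nat_lit 248196) (nat_lit 0) (nat_lit 0) (XT.nd (nat_lit 124410) (nat_lit 0) (nat_lit 0) (XT.nd (nat_lit 62244) (nat_lit 0) (nat_lit 0) (XT.nd (nat_lit 58578) (nat_lit 0) (nat_lit 152) xc48 xc49) (XT.nd (nat_lit 3666) (nat_lit 0) (nat_lit 0) xc50 xc51)) (XT.nd (nat_lit 61932) (nat_lit 0) (nat_lit 0) (XT.nd (nat_lit 3588) (nat_lit 0) (nat_lit 0) xc52 xc53) (XT.nd (nat_lit 3666) (nat_lit 0) (nat_lit 0) xc54 xc55))) (XT.nd (nat_lit 123162) (nat_lit 0) (nat_lit 0) (XT.nd (nat_lit 61620) (nat_lit 0) (nat_lit 0) (XT.nd (nat_lit 3588) (nat_lit 0) (nat_lit 0) xc56 xc57) (XT.nd (nat_lit 3666) (nat_lit 0) (nat_lit 0) xc58 xc59)) (XT.nd (nat_lit 61308) (nat_lit 0) (nat_lit 0) (XT.nd (nat_lit 3588) (nat_lit 152) (nat_lit 0) xc60 xc61) (XT.nd (nat_lit 3666) (nat_lit 228) (nat_lit 0)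 xc62 xc63)))))) (XT.nd (nat_lit 806442) (nat_lit 0) (nat_lit 0) (XT.nd (nat_lit 432900) (nat_lit 0) (nat_lit 0) (XT.nd (nat_lit 244140) (nat_lit 0) (nat_lit 0) (XT.nd (nat_lit 122382) (nat_lit 0) (nat_lit 0) (XT.nd (nat_lit 61230) (nat_lit 0) (nat_lit 0) (XT.nd (nat_lit 57564) (nat_lit 0) (nat_lit 0) xc64 xc65) (XT.nd (nat_lit 57486) (nat_lit 0) (nat_lit 152) xc66 xc67)) (XT.nd (nat_lit 60918) (nat_lit 0) (nat_lit 0) (XT.nd (nat_lit 57252) (nat_lit 0) (nat_lit 456) xc68 xc69) (XT.nd (nat_lit 3666) (nat_lit 0) (nat_lit 0) xc70 xc71))) (XT.nd (nat_lit 67938) (nat_lit 0) (nat_lit 0) (XT.nd (nat_lit 60606) (nat_lit 0) (nat_lit 0) (XT.nd (nat_lit 3588) (nat_lit 152) (nat_lit 0) xc72 xc73) (XT.nd (nat_lit 3666) (nat_lit 456) (nat_lit 0) xc74 xc75)) (XT.nd (nat_lit 60450) (nat_lit 0) (nat_lit 0) (XT.nd (nat_lit 56784) (nat_lit 0) (nat_lit 152) xc76 xc77) (XT.nd (nat_lit 56706) (nat_lit 0) (nat_lit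 684) xc78 xc79)))) (XT.nd (nat_lit 187356) (nat_lit 0) (nat_lit 0) (XT.nd (nat_lit 67470) (nat_lit 0) (nat_lit 0) (XT.nd (nat_lit 60138) (nat_lit 0) (nat_lit 0) (XT.nd (nat_lit 3588) (nat_lit 0) (nat_lit 0) xc80 xc81) (XT.nd (nat_lit 3666) (nat_lit 228) (nat_lit 0) xc82 xc83)) (XT.nd (nat_lit 59982) (nat_lit 0) (nat_lit 0) (XT.nd (nat_lit 56316) (nat_lit 0) (nat_lit 152) xc84 xc85) (XT.nd (nat_lit 56238) (nat_lit 0) (nat_lit 836) xc86 xc87))) (XT.nd (nat_lit 67002) (nat_lit 0) (nat_lit 0) (XT.nd (nat_lit 59670) (nat_lit 0) (nat_lit 0) (XT.nd (nat_lit 3588) (nat_lit 152) (nat_lit 0) xc88 xc89) (XT.nd (nat_lit 3666) (nat_lit 456) (nat_lit 0) xc90 xc91)) (XT.nd (nat_lit 59514) (nat_lit 0) (nat_lit 0) (XT.nd (nat_lit 55848) (nat_lit 0) (nat_lit 380) xc92 xc93) (XT.nd (nat_lit 3666) (nat_lit 0) (nat_lit 0) xc94 xc95))))) (XT.nd (nat_lit 374010) (nat_lit 0) (nat_lit 0) (XT.nd (nat_lit 186654)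 (nat_lit 0) (nat_lit 0) (XT.nd (nat_lit 67002) (nat_lit 0) (nat_lit 0) (XT.nd (nat_lit 59670) (nat_lit 0) (nat_lit 152) (XT.nd (nat_lit 3588) (nat_lit 228) (nat_lit 0) xc96 xc97) (XT.nd (nat_lit 3666) (nat_lit 1140) (nat_lit 0) xc98 xc99)) (XT.nd (nat_lit 59748) (nat_lit 0) (nat_lit 0) (XT.nd (nat_lit 56082) (nat_lit 0) (nat_lit 836) xc100 xc101) (XT.nd (nat_lit 3666) (nat_lit 0) (nat_lit 0) xc102 xc103))) (XT.nd (nat_lit 67236) (nat_lit 0) (nat_lit 0) (XT.nd (nat_lit 7254) (nat_lit 0) (nat_lit 0) (XT.nd (nat_lit 3588) (nat_lit 380) (nat_lit 0) xc104 xc105) (XT.nd (nat_lit 56316) (nat_lit 0) (nat_lit 152) xc106 xc107)) (XT.nd (nat_lit 59982) (nat_lit 0) (nat_lit 0) (XT.nd (nat_lit 56316) (nat_lit 0) (nat_lit 1064) xc108 xc109) (XT.nd (nat_lit 3666) (nat_lit 152) (nat_lit 0) xc110 xc111)))) (XT.nd (nat_lit 188214) (nat_lit 0) (nat_lit 0) (XT.nd (nat_lit 67470) (nat_lit 0) (nat_lit 0) (XT.nd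 (nat_lit 7254) (nat_lit 0) (nat_lit 0) (XT.nd (nat_lit 3588) (nat_lit 456) (nat_lit 0) xc112 xc113) (XT.nd (nat_lit 56550) (nat_lit 0) (nat_lit 228) xc114 xc115)) (XT.nd (nat_lit 60294) (nat_lit 0) (nat_lit 0) (XT.nd (nat_lit 56628) (nat_lit 0) (nat_lit 912) xc116 xc117) (XT.nd (nat_lit 3666) (nat_lit 152) (nat_lit 0) xc118 xc119))) (XT.nd (nat_lit 67782) (nat_lit 0) (nat_lit 0) (XT.nd (nat_lit 60450) (nat_lit 0) (nat_lit 152) (XT.nd (nat_lit 3588) (nat_lit 380) (nat_lit 0) xc120 xc121) (XT.nd (nat_lit 3666) (nat_lit 1140) (nat_lit 0) xc122 xc123)) (XT.nd (nat_lit 60528) (nat_lit 0) (nat_lit 0) (XT.nd (nat_lit 56862) (nat_lit 0) (nat_lit 456) xc124 xc125) (XT.nd (nat_lit 57018) (nat_lit 0) (nat_lit 1444) xc126 xc127))))))) (XT.nd (nat_lit 1874340) (nat_lit 0) (nat_lit 228) (XT.nd (nat_lit 872742) (nat_lit 0) (nat_lit 152) (XT.nd (nat_lit 434226) (nat_lit 0) (nat_lit 152) (XT.nd (nat_lit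 189696) (nat_lit 0) (nat_lit 0) (XT.nd (nat_lit 121524) (nat_lit 0) (nat_lit 0) (XT.nd (nat_lit 60684) (nat_lit 0) (nat_lit 0) (XT.nd (nat_lit 3588) (nat_lit 152) (nat_lit 0) xc128 xc129) (XT.nd (nat_lit 3666) (nat_lit 456) (nat_lit 0) xc130 xc131)) (XT.nd (nat_lit 7254) (nat_lit 152) (nat_lit 0) (XT.nd (nat_lit 3588) (nat_lit 1292) (nat_lit 0) xc132 xc133) (XT.nd (nat_lit 57252) (nat_lit 0) (nat_lit 380) xc134 xc135))) (XT.nd (nat_lit 122070) (nat_lit 0) (nat_lit 152) (XT.nd (nat_lit 60918) (nat_lit 0) (nat_lit 0) (XT.nd (nat_lit 57252) (nat_lit 0) (nat_lit 1140) xc136 xc137) (XT.nd (nat_lit 3666) (nat_lit 152) (nat_lit 0) xc138 xc139)) (XT.nd (nat_lit 61152) (nat_lit 0) (nat_lit 0) (XT.nd (nat_lit 3588) (nat_lit 76) (nat_lit 0) xc140 xc141) (XT.nd (nat_lit 3666) (nat_lit 532) (nat_lit 0) xc142 xc143)))) (XT.nd (nat_lit 191568) (nat_lit 0) (nat_lit 0) (XT.nd (nat_lit 68640) (nat_lit 0)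 (nat_lit 0) (XT.nd (nat_lit 7254) (nat_lit 0) (nat_lit 0) (XT.nd (nat_lit 3588) (nat_lit 1368) (nat_lit 0) xc144 xc145) (XT.nd (nat_lit 57720) (nat_lit 0) (nat_lit 76) xc146 xc147)) (XT.nd (nat_lit 61386) (nat_lit 0) (nat_lit 0) (XT.nd (nat_lit 57720) (nat_lit 0) (nat_lit 532) xc148 xc149) (XT.nd (nat_lit 57876) (nat_lit 0) (nat_lit 1140) xc150 xc151))) (XT.nd (nat_lit 123240) (nat_lit 0) (nat_lit 0) (XT.nd (nat_lit 61542) (nat_lit 0) (nat_lit 0) (XT.nd (nat_lit 3588) (nat_lit 0) (nat_lit 0) xc152 xc153) (XT.nd (nat_lit 3666) (nat_lit 76) (nat_lit 0) xc154 xc155)) (XT.nd (nat_lit 61776) (nat_lit 0) (nat_lit 0) (XT.nd (nat_lit 3588) (nat_lit 304) (nat_lit 0) xc156 xc157) (XT.nd (nat_lit 3666) (nat_lit 532) (nat_lit 0) xc158 xc159))))) (XT.nd (nat_lit 442728) (nat_lit 0) (nat_lit 0) (XT.nd (nat_lit 193440) (nat_lit 0) (nat_lit 0) (XT.nd (nat_lit 69264) (nat_lit 0) (nat_lit 0) (XT.nd (nat_lit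 61932) (nat_lit 0) (nat_lit 0) (XT.nd (nat_lit 3588) (nat_lit 912) (nat_lit 0) xc160 xc161) (XT.nd (nat_lit 3666) (nat_lit 1292) (nat_lit 0) xc162 xc163)) (XT.nd (nat_lit 62010) (nat_lit 0) (nat_lit 0) (XT.nd (nat_lit 58344) (nat_lit 0) (nat_lit 0) xc164 xc165) (XT.nd (nat_lit 58500) (nat_lit 0) (nat_lit 76) xc166 xc167))) (XT.nd (nat_lit 124488) (nat_lit 0) (nat_lit 0) (XT.nd (nat_lit 62166) (nat_lit 0) (nat_lit 0) (XT.nd (nat_lit 58500) (nat_lit 0) (nat_lit 228) xc168 xc169) (XT.nd (nat_lit 58656) (nat_lit 0) (nat_lit 228) xc170 xc171)) (XT.nd (nat_lit 62322) (nat_lit 0) (nat_lit 0) (XT.nd (nat_lit 58656) (nat_lit 0) (nat_lit 304) xc172 xc173) (XT.nd (nat_lit 58812) (nat_lit 0) (nat_lit 304) xc174 xc175)))) (XT.nd (nat_lit 250848) (nat_lit 0) (nat_lit 76) (XT.nd (nat_lit 125268) (nat_lit 0) (nat_lit 76) (XT.nd (nat_lit 62556) (nat_lit 0) (nat_lit 0) (XT.nd (nat_lit 58890) (nat_lit 0)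 (nat_lit 304) xc176 xc177) (XT.nd (nat_lit 59046) (nat_lit 0) (nat_lit 304) xc178 xc179)) (XT.nd (nat_lit 62712) (nat_lit 0) (nat_lit 0) (XT.nd (nat_lit 59046) (nat_lit 0) (nat_lit 152) xc180 xc181) (XT.nd (nat_lit 59202) (nat_lit 0) (nat_lit 0) xc182 xc183))) (XT.nd (nat_lit 181662) (nat_lit 0) (nat_lit 0) (XT.nd (nat_lit 62868) (nat_lit 0) (nat_lit 0) (XT.nd (nat_lit 59202) (nat_lit 0) (nat_lit 0) xc184 xc185) (XT.nd (nat_lit 59358) (nat_lit 0) (nat_lit 0) xc186 xc187)) (XT.nd (nat_lit 63102) (nat_lit 0) (nat_lit 0) (XT.nd (nat_lit 3588) (nat_lit 1216) (nat_lit 0) xc188 xc189) (XT.nd (nat_lit 3666) (nat_lit 836) (nat_lit 0) xc190 xc191)))))) (XT.nd (nat_lit 1253616) (nat_lit 0) (nat_lit 760) (XT.nd (nat_lit 565656) (nat_lit 0) (nat_lit 228) (XT.nd (nat_lit 253734) (nat_lit 0) (nat_lit 152) (XT.nd (nat_lit 126672) (nat_lit 0) (nat_lit 152) (XT.nd (nat_lit 63258) (nat_lit 0) (nat_lit 0)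 (XT.nd (nat_lit 3588) (nat_lit 456) (nat_lit 0) xc192 xc193) (XT.nd (nat_lit 3666) (nat_lit 152) (nat_lit 0) xc194 xc195)) (XT.nd (nat_lit 63414) (nat_lit 0) (nat_lit 0) (XT.nd (nat_lit 59748) (nat_lit 0) (nat_lit 988) xc196 xc197) (XT.nd (nat_lit 59982) (nat_lit 0) (nat_lit 304) xc198 xc199))) (XT.nd (nat_lit 184002) (nat_lit 0) (nat_lit 76) (XT.nd (nat_lit 120120) (nat_lit 0) (nat_lit 76) (XT.nd (nat_lit 59982) (nat_lit 0) (nat_lit 0) xc200 xc201) (XT.nd (nat_lit 3666) (nat_lit 1140) (nat_lit 0) xc202 xc203)) (XT.nd (nat_lit 63882) (nat_lit 0) (nat_lit 0) (XT.nd (nat_lit 3588) (nat_lit 380) (nat_lit 0) xc204 xc205) (XT.nd (nat_lit 60372) (nat_lit 0) (nat_lit 836) xc206 xc207)))) (XT.nd (nat_lit 371280) (nat_lit 0) (nat_lit 228) (XT.nd (nat_lit 185172) (nat_lit 0) (nat_lit 152) (XT.nd (nat_lit 120900) (nat_lit 0) (nat_lit 152) (XT.nd (nat_lit 60372) (nat_lit 0) (nat_lit 76) xc208 xc209)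 (XT.nd (nat_lit 3666) (nat_lit 988) (nat_lit 0) xc210 xc211)) (XT.nd (nat_lit 64350) (nat_lit 0) (nat_lit 76) (XT.nd (nat_lit 60684) (nat_lit 0) (nat_lit 1140) xc212 xc213) (XT.nd (nat_lit 60840) (nat_lit 0) (nat_lit 0) xc214 xc215))) (XT.nd (nat_lit 129324) (nat_lit 0) (nat_lit 152) (XT.nd (nat_lit 64584) (nat_lit 0) (nat_lit 152) (XT.nd (nat_lit 3588) (nat_lit 912) (nat_lit 0) xc216 xc217) (XT.nd (nat_lit 61074) (nat_lit 0) (nat_lit 304) xc218 xc219)) (XT.nd (nat_lit 122304) (nat_lit 0) (nat_lit 76) (XT.nd (nat_lit 61074) (nat_lit 0) (nat_lit 0) xc220 xc221) (XT.nd (nat_lit 61386) (nat_lit 0) (nat_lit 456) xc222 xc223))))) (XT.nd (nat_lit 935844) (nat_lit 0) (nat_lit 1064) (XT.nd (nat_lit 435864) (nat_lit 0) (nat_lit 456) (XT.nd (nat_lit 246402) (nat_lit 0) (nat_lit 304) (XT.nd (nat_lit 122928) (nat_lit 0) (nat_lit 152) (XT.nd (nat_lit 61386) (nat_lit 0) (nat_lit 76) xc224 xc225) (XT.nd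 (nat_lit 61698) (nat_lit 0) (nat_lit 0) xc226 xc227)) (XT.nd (nat_lit 65442) (nat_lit 0) (nat_lit 0) (XT.nd (nat_lit 3588) (nat_lit 228) (nat_lit 0) xc228 xc229) (XT.nd (nat_lit 61932) (nat_lit 0) (nat_lit 76) xc230 xc231))) (XT.nd (nat_lit 249210) (nat_lit 0) (nat_lit 304) (XT.nd (nat_lit 124332) (nat_lit 0) (nat_lit 152) (XT.nd (nat_lit 62088) (nat_lit 0) (nat_lit 76) xc232 xc233) (XT.nd (nat_lit 62400) (nat_lit 0) (nat_lit 76) xc234 xc235)) (XT.nd (nat_lit 125112) (nat_lit 0) (nat_lit 228) (XT.nd (nat_lit 62478) (nat_lit 0) (nat_lit 76) xc236 xc237) (XT.nd (nat_lit 62790) (nat_lit 0) (nat_lit 76) xc238 xc239)))) (XT.nd (nat_lit 686556) (nat_lit 0) (nat_lit 988) (XT.nd (nat_lit 312000) (nat_lit 0) (nat_lit 456) (XT.nd (nat_lit 125892) (nat_lit 0) (nat_lit 228) (XT.nd (nat_lit 62868) (nat_lit 0) (nat_lit 76) xc240 xc241) (XT.nd (nat_lit 122772) (nat_lit 0) (nat_lit 76) xc242 xc243)) (XT.nd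 (nat_lit 186810) (nat_lit 0) (nat_lit 304) (XT.nd (nat_lit 63336) (nat_lit 0) (nat_lit 0) xc244 xc245) (XT.nd (nat_lit 63726) (nat_lit 0) (nat_lit 76) xc246 xc247))) (XT.nd (nat_lit 438750) (nat_lit 0) (nat_lit 760) (XT.nd (nat_lit 188526) (nat_lit 0) (nat_lit 304) (XT.nd (nat_lit 63882) (nat_lit 0) (nat_lit 152) xc248 xc249) (XT.nd (nat_lit 124956) (nat_lit 0) (nat_lit 152) xc250 xc251)) (XT.nd (nat_lit 374322) (nat_lit 0) (nat_lit 836) (XT.nd (nat_lit 186732) (nat_lit 0) (nat_lit 380) xc252 xc253) (XT.nd (nat_lit 188292) (nat_lit 0) (nat_lit 228) xc254 xc255)))))))) XT.nil))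

set_option maxRecDepth 10000000 in
noncomputable def Te : XT := XT.nil

set_option maxRecDepth 10000000 in
noncomputable def Tz : ZL := (ZL.cons (nat_lit 76) (nat_lit 6) (nat_lit 418347508451541463466) (ZL.cons (nat_lit 152) (nat_lit 6) (nat_lit 403582717271265780480) (ZL.cons (nat_lit 228) (nat_lit 3) (nat_lit 201197068445189334301) (ZL.cons (nat_lit 304) (nat_lit 6) (nat_lit 387636742796568042856) (ZL.cons (nat_lit 380) (nat_lit 6) (nat_lit 373987874945849967708) (ZL.cons (nat_lit 456) (nat_lit 3) (nat_lit 186443668778069839465) (ZL.cons (nat_lit 532) (nat_lit 6) (nat_lit 359247097667074446546) (ZL.cons (nat_lit 608) (nat_lit 6) (nat_lit 346635192078177885070) (ZL.cons (nat_lit 684) (nat_lit 3) (nat_lit 172808087988297142175) (ZL.cons (nat_lit 760) (nat_lit 6) (nat_lit 333014334042169598676) (ZL.cons (nat_lit 836) (nat_lit 6) (nat_lit 321366894281966761752) (ZL.cons (nat_lit 912) (nat_lit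 3) (nat_lit 160211680427287269433) (ZL.cons (nat_lit 988) (nat_lit 6) (nat_lit 308787659340947697878) (ZL.cons (nat_lit 1064) (nat_lit 6) (nat_lit 298038277196023138880) (ZL.cons (nat_lit 1140) (nat_lit 3) (nat_lit 148582317566811466250) (ZL.cons (nat_lit 1216) (nat_lit 6) (nat_lit 286428944479504615158) (ZL.cons (nat_lit 1292) (nat_lit 6) (nat_lit 276516968471012785456) (ZL.cons (nat_lit 1368) (nat_lit 3) (nat_lit 137854020317728519404) (ZL.cons (nat_lit 1444) (nat_lit 6) (nat_lit 265812034381841609378) (ZL.cons (nat_lit 1520) (nat_lit 6) (nat_lit 256682282718636902094) (ZL.cons (nat_lit 1596) (nat_lit 3) (nat_lit 127966637731746346119) (ZL.cons (nat_lit 1672) (nat_lit 6) (nat_lit 246822150922375818230) (ZL.cons (nat_lit 1748) (nat_lit 6) (nat_lit 238424668909358442916) (ZL.cons (nat_lit 1824) (nat_lit 3) (nat_lit 118865571836556902079) (ZL.cons (nat_lit 1900) (nat_lit 6) (nat_lit 229355388335299677578)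 (ZL.cons (nat_lit 1976) (nat_lit 6) (nat_lit 221645250803227873292) (ZL.cons (nat_lit 2052) (nat_lit 3) (nat_lit 110501548903352529814) (ZL.cons (nat_lit 2128) (nat_lit 6) (nat_lit 213318302268590324664) (ZL.cons (nat_lit 2204) (nat_lit 6) (nat_lit 206255462191840718698) (ZL.cons (nat_lit 2280) (nat_lit 3) (nat_lit 102830438041974612283) (ZL.cons (nat_lit 2356) (nat_lit 6) (nat_lit 198627594908951144256) (ZL.cons (nat_lit 2432) (nat_lit 6) (nat_lit 192176780040336835856) (ZL.cons (nat_lit 2508) (nat_lit 3) (nat_lit 95813118673922355828) (ZL.cons (nat_lit 2584) (nat_lit 6) (nat_lit 185209899982233382782) (ZL.cons (nat_lit 2660) (nat_lit 6) (nat_lit 179340560072172794198) (ZL.cons (nat_lit 2736) (nat_lit 3) (nat_lit 89415399159932635897) (ZL.cons (nat_lit 2812) (nat_lit 6) (nat_lit 173983436344121846124) (ZL.cons (nat_lit 2888) (nat_lit 6) (nat_lit 173001672969307358530) (ZL.cons (nat_lit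 2964) (nat_lit 6) (nat_lit 167687980965519299798) (ZL.cons (nat_lit 3040) (nat_lit 3) (nat_lit 83607989671506167304) (ZL.cons (nat_lit 3116) (nat_lit 6) (nat_lit 162858233763293462662) (ZL.cons (nat_lit 3192) (nat_lit 6) (nat_lit 161949193601428196370) (ZL.cons (nat_lit 3268) (nat_lit 6) (nat_lit 157170105162382593364) (ZL.cons (nat_lit 3344) (nat_lit 3) (nat_lit 78366533311512146131) (ZL.cons (nat_lit 3420) (nat_lit 6) (nat_lit 152850393501792292390) (ZL.cons (nat_lit 3496) (nat_lit 6) (nat_lit 152008689648213342118) (ZL.cons (nat_lit 3572) (nat_lit 6) (nat_lit 147748066368996466234) (ZL.cons (nat_lit 3648) (nat_lit 3) (nat_lit 73671700527387908532) (ZL.cons (nat_lit 3724) (nat_lit 6) (nat_lit 143925948647422749786) (ZL.cons (nat_lit 3800) (nat_lit 6) (nat_lit 143146593227442240276) (ZL.cons (nat_lit 3876) (nat_lit 6) (nat_lit 140519686896993978162) (ZL.cons (nat_lit 3952) (nat_lit 6)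 (nat_lit 139393396193902486856) (ZL.cons (nat_lit 4028) (nat_lit 3) (nat_lit 69509353044071313258) (ZL.cons (nat_lit 4104) (nat_lit 6) (nat_lit 136061568786550395298) (ZL.cons (nat_lit 4180) (nat_lit 6) (nat_lit 135339943397679553162) (ZL.cons (nat_lit 4256) (nat_lit 6) (nat_lit 133131366842972027286) (ZL.cons (nat_lit 4332) (nat_lit 6) (nat_lit 132088505080850276076) (ZL.cons (nat_lit 4408) (nat_lit 3) (nat_lit 65870784898869647140) (ZL.cons (nat_lit 4484) (nat_lit 6) (nat_lit 130585426203501733230) (ZL.cons (nat_lit 4560) (nat_lit 6) (nat_lit 129245123355036547696) (ZL.cons (nat_lit 4636) (nat_lit 6) (nat_lit 128576951698674656826) (ZL.cons (nat_lit 4712) (nat_lit 6) (nat_lit 126792948550752064442) (ZL.cons (nat_lit 4788) (nat_lit 6) (nat_lit 125827335808046739248) (ZL.cons (nat_lit 4864) (nat_lit 3) (nat_lit 62753049717397915087) (ZL.cons (nat_lit 4940) (nat_lit 6) (nat_lit 124717449261749214560)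 (ZL.cons (nat_lit 5016) (nat_lit 6) (nat_lit 123476428105762931658) (ZL.cons (nat_lit 5092) (nat_lit 6) (nat_lit 122857750646168588260) (ZL.cons (nat_lit 5168) (nat_lit 6) (nat_lit 123006326232982055240) (ZL.cons (nat_lit 5244) (nat_lit 6) (nat_lit 121510297286920811494) (ZL.cons (nat_lit 5320) (nat_lit 6) (nat_lit 120616211414045510388) (ZL.cons (nat_lit 5396) (nat_lit 3) (nat_lit 60159385163851038032) (ZL.cons (nat_lit 5472) (nat_lit 6) (nat_lit 119968263065199922384) (ZL.cons (nat_lit 5548) (nat_lit 6) (nat_lit 120638748180787984178) (ZL.cons (nat_lit 5624) (nat_lit 6) (nat_lit 121649439476131966276) (ZL.cons (nat_lit 5700) (nat_lit 6) (nat_lit 119917292205927240270) (ZL.cons (nat_lit 5776) (nat_lit 6) (nat_lit 118768198542976978320) (ZL.cons (nat_lit 5852) (nat_lit 6) (nat_lit 118195349043352586288) (ZL.cons (nat_lit 5928) (nat_lit 3) (nat_lit 58559904887605864442) (ZL.cons (nat_lit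 6004) (nat_lit 6) (nat_lit 117293363792249457920) (ZL.cons (nat_lit 6080) (nat_lit 6) (nat_lit 117815054311611757506) (ZL.cons (nat_lit 6156) (nat_lit 6) (nat_lit 118687972832672626450) (ZL.cons (nat_lit 6232) (nat_lit 6) (nat_lit 117302760845578882240) (ZL.cons (nat_lit 6308) (nat_lit 6) (nat_lit 116474903555879529364) (ZL.cons (nat_lit 6384) (nat_lit 3) (nat_lit 58099747571299285828) (ZL.cons (nat_lit 6460) (nat_lit 6) (nat_lit 115126097966333798438) (ZL.cons (nat_lit 6536) (nat_lit 6) (nat_lit 115487090321772274838) (ZL.cons (nat_lit 6612) (nat_lit 6) (nat_lit 116211214246607381574) (ZL.cons (nat_lit 6688) (nat_lit 6) (nat_lit 115147238632764546438) (ZL.cons (nat_lit 6764) (nat_lit 6) (nat_lit 114616822429408627886) (ZL.cons (nat_lit 6840) (nat_lit 3) (nat_lit 56726811265353388533) (ZL.cons (nat_lit 6916) (nat_lit 6) (nat_lit 113641060869107524430) (ZL.cons (nat_lit 6992) (nat_lit 6)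 (nat_lit 114204486630018807980) (ZL.cons (nat_lit 7068) (nat_lit 6) (nat_lit 113437952102519407168) (ZL.cons (nat_lit 7144) (nat_lit 3) (nat_lit 56591472156222223162) (ZL.cons (nat_lit 7220) (nat_lit 6) (nat_lit 112266026519823937382) (ZL.cons (nat_lit 7296) (nat_lit 6) (nat_lit 112655898263697491896) (ZL.cons (nat_lit 7372) (nat_lit 6) (nat_lit 112164772149479048792) (ZL.cons (nat_lit 7448) (nat_lit 3) (nat_lit 55676919461111027703) (ZL.cons (nat_lit 7524) (nat_lit 6) (nat_lit 111556272327694862556) (ZL.cons (nat_lit 7600) (nat_lit 3) (nat_lit 55660077001775690148) (ZL.cons (nat_lit 7676) (nat_lit 6) (nat_lit 110899092520167941424) (ZL.cons (nat_lit 7752) (nat_lit 1) (nat_lit 18446744073709551617) ZL.nil))))))))))))))))))))))))))))))))))))))))))))))))))))))))))))))))))))))))))))))))))))))))))))))))))))))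

noncomputable def vl : XL := ⟨(nat_lit 0), (nat_lit 76), (nat_lit 42730157), (nat_lit 228), (nat_lit 206489425), (nat_lit 76), (nat_lit 42730157), (nat_lit 1), (nat_lit 5), (nat_lit 3), (nat_lit 4), (nat_lit 1), (nat_lit 4), (nat_lit 0), (nat_lit 0), (nat_lit 0)⟩

noncomputable def cp0 : Nat := (nat_lit 2132173423728460417231911678468698617865795710570406459087468816662825165784116439124793987971135601492767121477319692124766000836265670684801769423416673856489807049176045894317230192732250293162592756453211763175451820956899082102878112254523865899217194129926975870810808368858788156822378400487951421557146946940533981349169684932064551545655466024037612776297509462252681526161290554130960215345726833598499549299501220414824231589643287956346474912738015760845032963470714523909627700046611647658926039887062537578318813137488677177266714131451187000868830267903474408780331155196608126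77485403438236831461169034456937478769837452303997420475351802450540848740837753108842118577089721097214886196752208026953477372369858249944558965942735061304227022102523181238928459826887459235447781266965088788060236238805185414637014485567224968271697754939412738736108146950908711510097315468031349698249846631083161401811552398152938375370640247135860288574066689654893548046211150868203925768506677291095399103789635318148054395162442839301913305512664732442753787495331901040648432024166304386910157111005688400284399194903384705318560709888061952313490316564569451830308200182140969556090107763937515987216186155470646962334240180333318895244490419789582895010729254311467686719514500560674017810372505841599755736961305895435412653268232647668466960278270624145020226891375115511281532232095293945108869371577912114208463884844226375303946346770642214939715524499974985989064616936398877124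3445981963892609882328046876223678887720479709422087647150649302657368090209893975210725747135991179791078174581629187085301565478112555486657376489883921988903759816245378160788245130107219522045243998233605884695763098518092567253777779159903888664996296925291180586944394913207373113607441530695491123587838149286738941020404512092790803457861198105472622339699451033607496347524730612487320222569928359931095389762856870516448405632690165625624841255186393516275272782351914420942579587989293066499667752548176658735685997466020533713510932690705856573047583512934057135242866201237921167903051497009818794215669050078157089789431976335327117271468747064585953032496718965681451206020800200541632746373152086966180118060982631134296831117629931811018829711101759561570810185664387639433849971873850230196973106383017619940499292496329097012170914986811457536)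

noncomputable def cp1 : Nat := (nat_lit 23232671457306207522649085657642186063372818948854893586306232825083190729699190405160050834531294620296137069492055636400242000766711659610708055055520180275408979203607294081813647344517946284810322088453490903395773653762901616592957758840736137027845842213627020873746863235430815501401398680259351947821654417651832326408087976838699734149085919830999473905465750505870255635674460789708238060487577546884849654663581589935451906593062251657485131137744210848197196623767156452561052571691787517814641423510125143312273821976865657454728769785962563272426417371060874589152526967079199029790196574955263719581393330561397811575687873093259657867641430601501314893404547861172352551655394440923942817635292968079531803275494582118616293946390422163144237647151594363815625585944822376270698259946275700469950538308978374481673711208127575906194953873477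77034955343113542775178985910493110883061392369666898948763487572419677279073474032024971414061133573650203070848559865506028220450713465824103593295735174046798516156492727888617988527904448652850975681502991830646694128426056267931696391063369094322030193858620317464403102074657802039823013260980955826278267295994904177197529588496407146985147937689443974303500957528164112999494980821085130774843057987977766030747556234000991973332136739784969956940882401075444165852561191420679331690806926533333512069979288223206972304677153140026548699337149629075873055534697333734763468557533023418596231627803541690925452940986064802039654759657029733846003206737408619770017974281097349575958084367409148458492432622858095933666449274067700357756682275722946498659559516368598347423028256840133226149585762403265063803824060781171153064234800840488061556681183059744184326293096547609401710922071382728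443014615274648790588094980974056167773203021995834681097224797213129135753882525491546002540490204097397216207207077795945343310199904528009584153433023410760436032335919935245332849000911003807644191857391530211765105443943622590505701763329189951655955910981296269654253891998460996671151357302572760797774994888507268905725735995999860042188593890309680143694610878422261109001177656187521340265645246533051776535098811778310964009189975377350181075625095603650375729428020532401200237826188825160681158364232696203232139931992653043876438408744696198263724377902688208943193488528503574888448)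

noncomputable def rc0 : Nat := (nat_lit 21642359899883739740066544433788658401758809322290503243531874807687585159478035756375825308510269049842582025510956807280180640948575246997177895407376464932970064366420366320872085687860930650441475291690296331438134859397274822467038310407910304025656526891813252508879385621027608831817285392272430129443264352929343867783867214392253323255911726006421337378534152679879975488300385263422971401973804177315629605888055244692804821697864354060074336074927895886009384675348016319961255333368975885529260876955937907949628293844372214193890552888886446294600899036322932498798681422001005904367000424133406475300694177739256670224631953481656396850714556459280337289416131808528584584241853163404953019109157219641188664579582718820994113219807192524604671232831482330804598369552357402685957860910776817398973984117731077116312129238127331633079314834510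85010724663032044803908382351371917364821206349539172140185098412291025221116522323963918100394586037376020723507932664262807081676769198814074527362342894756899614554110630614057477994733529856465800800371981719787640127477120189031270952326340422196897484841295284386747323448379085410149532469233300923144593002922142214984685508061971185271379638196849197879990667717564381802406805515724002967079964329327109713891960746585484644872310773042122346118137043926115463488147611304756168870088530929913328424711046073980256642150886765432480965281251996139369782575442949722375067039477946559185875652592048946198957949244173749981983160341958757383503088355893544560270331410369909534532588368546390023559579080186609469609882215446481513039049452645431939994489745251543781816860147900093062676317947333521011441155189612377824774655858511953338277122353022677351503716592222916453525212403647496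102173653316690720436142655328444795054735200222925601446822045227199823827510336646174944222731057512824756845412126681327303779775378106482341081302301425349347573140159676421944348852622513236615661205543952946418186562599693524385204438181913738461705278016502206802549285606186693059384306668747010579069910042305174771951485790066982139257357949331120142074396747776977454729438445605202272530095163277926258120079979043506687259368073949250008647726158419635344207487782913770363421277973957775524504464743305268700599656179606802059007494308540348366609838295879237348548513403316583006208)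

noncomputable def rc1 : Nat := (nat_lit 22219867617428064981612558235165939647844341212712283018820372335670871032688044114678955918924153632362724564423260371690248636237986457638109204876242378701856992448719785767254067492014552737637642445971905462764195356114018336512084474752066617162797654094135165558115471233904962820473176748643056710445542404208055893812819821277144170301044639845738734737183719967325968468097322562827105532148222582506186868299970769760101871108404078886545162720517891684793996185516039142612243411079222152518323347252921160111575197715307232108634720149794741257889833400488135536472675609223241526410516571859582819883049084801929782464067555132878536221361896322450160134221176074884585199635082886451077365652221120011166868168987230791246302700232777323543573048255846528320956016918759223932630628812914598313220852571735721258879330808341567674256473627025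22043911345204559474131610677039901395639079679497840610361627441066442927971305651658695251437391077545885577427637387598570711788790563579094109444637139981128909825753896782843144191180990648892866971049503303922301396615505849806143244077502737066216694230440399241584516784543206917909862598971114891638208829600895614553761097741427599508062666741791002319048527546108882528952198436389135727371511977123844180416055291757078844896664716839408763922614060964994224418718965123816011067147956721959645539382288688812919897835243954341207217662947647501652342781496105339048271576124064530261290124010072361182954125204568855089515267672258219836199349856251424395583863800998007786771060347649006098751223711137507686083735674060924349095214272568056166892726513753600811199468249929607970588657691766105160188915136895836504459767310444609881501208946774162605631194647448756423145698224663782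099515653435965212252337223833974791203352881205954096319480770153213759656489287555448299832911713624002544844200876431605483133164389602969573132513733060687777747727194038489438929909157598204515946387184985813790271635898102422345032158520524539511651815939325961301901863140236389846150793840734563498034391818117045503426703114027638227656035087532825182516233591392893804618291000548210542753787561121355102016885728543795329077428362633341221935509770422503489807767360430069921065487691545280184090448680332170645620963765265593502934966131055812834866501858256778414646202075710681513984)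

noncomputable def rc2 : Nat := (nat_lit 22874855736651117010667367512239859633498650632602725386426094407756187727413137852848363803204131935980108381269099096270252671537674059811083789341727006480113080565936512261077134613569666073808725613200875578907688105957883867801327661024005588356974454357355926970055688141649438511110884039865187597844526862565060143286688270866326606699051163772404787420023609158131300971821595699276242291051533786470059581328893751998339450966928607119534788019889496603271802568752965485718576742585483604229640816041735617982994909322506827228600409150980418055547702852128032918447842303270956496192499008350436930570134203806562639139979466249561251604371649956075252383737343086937908925344269705322932092066686877270602114985212147216217772663725155894847737343611435826753710163435808619697262850657058377559230407670835415342505036815398980545535599516334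62631503014842317201186802517198515356009117246724047102706208142606031621695461780311022527710395293285797245171902507547263485448808111376570632149457352264299283538010069320389721496482063000963222708178935202531436492492020396401607801511743504165692063042908232033050801887476639233395181800731758427944480843585166140296878562813266392440022688707860385922046102401334557016412980125103349663959212645399398774007920183633085054341932391967376113341299036261569823367730982712417445260272420759508027954447210804484720448136671344948618147315391374529432609714967234281594841108002292456407191947449972896949860599802629198766880671598886551553333077782968093317305813433247213240078974813970491926095723771421597049674137045626200529722859703243573131167734897538791864538425156986678652916165263395150900926182992736178681783499062902354954267954531764118901809004914258182521267306795204204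766623753461966474663234593990423996304779292232987318108153575824191411488421301641951055948588939621586021619234774242229470698704284960507545755829574413312906312154275079237454725087907991038987635028360452277164291676771262253673803021364107840108393671046943742897271361016245358009715294080291984252191104681573778379954897998832066751397432557628714409170235056248205781790887439106215139728046271887291622674127177346742015467246574886629072461009678613051428605505679636276957615887605396807752915713688595193332475187662165117407948141758499588589329135183422320466087303980370960056320)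

noncomputable def rc3 : Nat := (nat_lit 23232671457306207522649085657642186063372818948854893586306232825083190729699190405160050834531294620296137069492055636400242000766711659610708055055520180275408979203607294081813647344517946284810322088453490903395773653762901616592957758840736137027845842213627020873746863235430815501401398680259351947821654417651832326408087976838699734149085919830999473905465750505870255635674460789708238060487577546884849654663581589935451906593062251657485131137744210848197196623767156452561052571691787517814641423510125143312273821976865657454728769785962563272426417371060874589152526967079199029790196574955263719581393330561397811575687873093259657867641430601501314893404547861172352551655394440923942817635292968079531803275494582118616293946390422163144237647151594363815625585944822376270698259946275700469950538308978374481673711208127575906194953873477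77034955343113542775178985910493110883061392369666898948763487572419677279073474032024971414061133573650203070848559865506028220450713465824103593295735174046798516156492727888617988527904448652850975681502991830646694128426056267931696391063369094322030193858620317464403102074657802039823013260980955826278267295994904177197529588496407146985147937689443974303500957528164112999494980821085130774843057987977766030747556234000991973332136739784969956940882401075444165852561191420679331690806926533333512069979288223206972304677153140026548699337149629075873055534697333734763468557533023418596231627803541690925452940986064802039654759657029733846003206737408619770017974281097349575958084367409148458492432622858095933666449274067700357756682275722946498659559516368598347423028256840133226149585762403265063803824060781171153064234800840488061556681183059744184326293096547609401710922071382728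443014615274648790588094980974056167773203021995834681097224797213129135753882525491546002540490204097397216207207077795945343310199904528009584153433023410760436032335919935245332849000911003807644191857391530211765105443943622590505701763329189951655955910981296269654253891998460996671151357302572760797774994888507268905725735995999860042188593890309680143694610878422261109001177656187521340265645246533051776535098811778310964009189975377350181075625095603650375729428020532401200237826188825160681158364232696203232139931992653043876438408744696198263724377902688208943193488528503574888448)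

end Vale.Agent.Lib.P154.PChain.BD.S2
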