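import Vale.Agent.Lib.P154.PChain.BD.R2_0

set_option linter.all false

namespace Vale.Agent.Lib.P154.PChain.BD.S3

open Vale.Agent.Lib.P154.Chain

noncomputable def pc0 : PT := (PT.nd (nat_lit 10076118) (PT.nd (nat_lit 9888762) (PT.nd (nat_lit 9763962) (PT.nd (nat_lit 9763806) (PT.nd (nat_lit 9701484) (PT.nd (nat_lit 9701406) PT.nil (PT.lf (nat_lit 76) (nat_lit 6) (nat_lit 1) (nat_lit 3) (nat_lit 222) (nat_lit 155) (nat_lit 223))) (PT.lf (nat_lit 76) (nat_lit 6) (nat_lit 1) (nat_lit 1) (nat_lit 223) (nat_lit 155) (nat_lit 222))) (PT.nd (nat_lit 78) (PT.lf (nat_lit 152) (nat_lit 6) (nat_lit 2) (nat_lit 3) (nat_lit 221) (nat_lit 156) (nat_lit 223)) (PT.lf (nat_lit 228) (nat_lit 3) (nat_lit 3) (nat_lit 1) (nat_lit 222) (nat_lit 156) (nat_lit 222)))) (PT.nd (nat_lit 62400) (PT.nd (nat_lit 62322) (PT.lf (nat_lit 152) (nat_lit 6) (nat_lit 2) (nat_lit 1) (nat_lit 223) (nat_lit 156) (nat_lit 221))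 (PT.lf (nat_lit 304) (nat_lit 6) (nat_lit 4) (nat_lit 3) (nat_lit 221) (nat_lit 157) (nat_lit 222))) (PT.nd (nat_lit 62322) (PT.lf (nat_lit 304) (nat_lit 6) (nat_lit 4) (nat_lit 1) (nat_lit 222) (nat_lit 157) (nat_lit 221)) (PT.lf (nat_lit 380) (nat_lit 6) (nat_lit 5) (nat_lit 3) (nat_lit 220) (nat_lit 158) (nat_lit 222))))) (PT.nd (nat_lit 124800) (PT.nd (nat_lit 62400) (PT.nd (nat_lit 78) (PT.lf (nat_lit 456) (nat_lit 3) (nat_lit 6) (nat_lit 1) (nat_lit 221) (nat_lit 158) (nat_lit 221)) (PT.lf (nat_lit 380) (nat_lit 6) (nat_lit 5) (nat_lit 1) (nat_lit 222) (nat_lit 158) (nat_lit 220))) (PT.nd (nat_lit 78) (PT.lf (nat_lit 532) (nat_lit 6) (nat_lit 7) (nat_lit 3) (nat_lit 220) (nat_lit 159) (nat_lit 221)) (PT.lf (nat_lit 532) (nat_lit 6) (nat_lit 7) (nat_lit 1) (nat_lit 221) (nat_lit 159) (nat_lit 220)))) (PT.nd (nat_lit 156) (PT.nd (nat_lit 78) (PT.lf (nat_lit 608) (nat_lit 6) (nat_lit 8)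 (nat_lit 3) (nat_lit 219) (nat_lit 160) (nat_lit 221)) (PT.lf (nat_lit 684) (nat_lit 3) (nat_lit 9) (nat_lit 1) (nat_lit 220) (nat_lit 160) (nat_lit 220))) (PT.nd (nat_lit 62322) (PT.lf (nat_lit 608) (nat_lit 6) (nat_lit 8) (nat_lit 1) (nat_lit 221) (nat_lit 160) (nat_lit 219)) (PT.lf (nat_lit 760) (nat_lit 6) (nat_lit 10) (nat_lit 3) (nat_lit 219) (nat_lit 161) (nat_lit 220)))))) (PT.nd (nat_lit 187356) (PT.nd (nat_lit 124800) (PT.nd (nat_lit 62400) (PT.nd (nat_lit 62322) (PT.lf (nat_lit 760) (nat_lit 6) (nat_lit 10) (nat_lit 1) (nat_lit 220) (nat_lit 161) (nat_lit 219)) (PT.lf (nat_lit 836) (nat_lit 6) (nat_lit 11) (nat_lit 3) (nat_lit 218) (nat_lit 162) (nat_lit 220))) (PT.nd (nat_lit 78) (PT.lf (nat_lit 912) (nat_lit 3) (nat_lit 12) (nat_lit 1) (nat_lit 219) (nat_lit 162) (nat_lit 219)) (PT.lf (nat_lit 836) (nat_lit 6) (nat_lit 11) (nat_lit 1) (nat_lit 220) (nat_lit 162) (nat_lit 218))))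 (PT.nd (nat_lit 62400) (PT.nd (nat_lit 78) (PT.lf (nat_lit 988) (nat_lit 6) (nat_lit 13) (nat_lit 3) (nat_lit 218) (nat_lit 163) (nat_lit 219)) (PT.lf (nat_lit 988) (nat_lit 6) (nat_lit 13) (nat_lit 1) (nat_lit 219) (nat_lit 163) (nat_lit 218))) (PT.nd (nat_lit 78) (PT.lf (nat_lit 1064) (nat_lit 6) (nat_lit 14) (nat_lit 3) (nat_lit 217) (nat_lit 164) (nat_lit 219)) (PT.lf (nat_lit 1140) (nat_lit 3) (nat_lit 15) (nat_lit 1) (nat_lit 218) (nat_lit 164) (nat_lit 218))))) (PT.nd (nat_lit 124800) (PT.nd (nat_lit 62400) (PT.nd (nat_lit 62322) (PT.lf (nat_lit 1064) (nat_lit 6) (nat_lit 14) (nat_lit 1) (nat_lit 219) (nat_lit 164) (nat_lit 217)) (PT.lf (nat_lit 1216) (nat_lit 6) (nat_lit 16) (nat_lit 3) (nat_lit 217) (nat_lit 165) (nat_lit 218))) (PT.nd (nat_lit 62322) (PT.lf (nat_lit 1216) (nat_lit 6) (nat_lit 16) (nat_lit 1) (nat_lit 218) (nat_lit 165) (nat_lit 217)) (PT.lf (nat_lit 1292) (nat_lit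 6) (nat_lit 17) (nat_lit 3) (nat_lit 216) (nat_lit 166) (nat_lit 218)))) (PT.nd (nat_lit 62400) (PT.nd (nat_lit 78) (PT.lf (nat_lit 1368) (nat_lit 3) (nat_lit 18) (nat_lit 1) (nat_lit 217) (nat_lit 166) (nat_lit 217)) (PT.lf (nat_lit 1292) (nat_lit 6) (nat_lit 17) (nat_lit 1) (nat_lit 218) (nat_lit 166) (nat_lit 216))) (PT.nd (nat_lit 78) (PT.lf (nat_lit 1444) (nat_lit 6) (nat_lit 19) (nat_lit 3) (nat_lit 216) (nat_lit 167) (nat_lit 217)) (PT.nd (nat_lit 62322) (PT.lf (nat_lit 1444) (nat_lit 6) (nat_lit 19) (nat_lit 1) (nat_lit 217) (nat_lit 167) (nat_lit 216)) (PT.lf (nat_lit 1520) (nat_lit 6) (nat_lit 20) (nat_lit 3) (nat_lit 215) (nat_lit 168) (nat_lit 217))))))))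
noncomputable def pc1 : PT := (PT.nd (nat_lit 374712) (PT.nd (nat_lit 187356) (PT.nd (nat_lit 124800) (PT.nd (nat_lit 62400) (PT.nd (nat_lit 78) (PT.lf (nat_lit 1596) (nat_lit 3) (nat_lit 21) (nat_lit 1) (nat_lit 216) (nat_lit 168) (nat_lit 216)) (PT.lf (nat_lit 1520) (nat_lit 6) (nat_lit 20) (nat_lit 1) (nat_lit 217) (nat_lit 168) (nat_lit 215))) (PT.nd (nat_lit 78) (PT.lf (nat_lit 1672) (nat_lit 6) (nat_lit 22) (nat_lit 3) (nat_lit 215) (nat_lit 169) (nat_lit 216)) (PT.lf (nat_lit 1672) (nat_lit 6) (nat_lit 22) (nat_lit 1) (nat_lit 216) (nat_lit 169) (nat_lit 215)))) (PT.nd (nat_lit 156) (PT.nd (nat_lit 78) (PT.lf (nat_lit 1748) (nat_lit 6) (nat_lit 23) (nat_lit 3) (nat_lit 214) (nat_lit 170) (nat_lit 216)) (PT.lf (nat_lit 1824) (nat_lit 3) (nat_lit 24) (nat_lit 1) (nat_lit 215) (nat_lit 170) (nat_lit 215))) (PT.nd (nat_lit 62322) (PT.lf (nat_lit 1748) (nat_lit 6) (nat_lit 23) (nat_lit 1)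 (nat_lit 216) (nat_lit 170) (nat_lit 214)) (PT.lf (nat_lit 1900) (nat_lit 6) (nat_lit 25) (nat_lit 3) (nat_lit 214) (nat_lit 171) (nat_lit 215))))) (PT.nd (nat_lit 124800) (PT.nd (nat_lit 62400) (PT.nd (nat_lit 62322) (PT.lf (nat_lit 1900) (nat_lit 6) (nat_lit 25) (nat_lit 1) (nat_lit 215) (nat_lit 171) (nat_lit 214)) (PT.lf (nat_lit 1976) (nat_lit 6) (nat_lit 26) (nat_lit 3) (nat_lit 213) (nat_lit 172) (nat_lit 215))) (PT.nd (nat_lit 78) (PT.lf (nat_lit 2052) (nat_lit 3) (nat_lit 27) (nat_lit 1) (nat_lit 214) (nat_lit 172) (nat_lit 214)) (PT.lf (nat_lit 1976) (nat_lit 6) (nat_lit 26) (nat_lit 1) (nat_lit 215) (nat_lit 172) (nat_lit 213)))) (PT.nd (nat_lit 62400) (PT.nd (nat_lit 78) (PT.lf (nat_lit 2128) (nat_lit 6) (nat_lit 28) (nat_lit 3) (nat_lit 213) (nat_lit 173) (nat_lit 214)) (PT.lf (nat_lit 2128) (nat_lit 6) (nat_lit 28) (nat_lit 1) (nat_lit 214) (nat_lit 173) (nat_lit 213))) (PT.nd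 (nat_lit 78) (PT.lf (nat_lit 2204) (nat_lit 6) (nat_lit 29) (nat_lit 3) (nat_lit 212) (nat_lit 174) (nat_lit 214)) (PT.lf (nat_lit 2280) (nat_lit 3) (nat_lit 30) (nat_lit 1) (nat_lit 213) (nat_lit 174) (nat_lit 213)))))) (PT.nd (nat_lit 249600) (PT.nd (nat_lit 124800) (PT.nd (nat_lit 62400) (PT.nd (nat_lit 62322) (PT.lf (nat_lit 2204) (nat_lit 6) (nat_lit 29) (nat_lit 1) (nat_lit 214) (nat_lit 174) (nat_lit 212)) (PT.lf (nat_lit 2356) (nat_lit 6) (nat_lit 31) (nat_lit 3) (nat_lit 212) (nat_lit 175) (nat_lit 213))) (PT.nd (nat_lit 62322) (PT.lf (nat_lit 2356) (nat_lit 6) (nat_lit 31) (nat_lit 1) (nat_lit 213) (nat_lit 175) (nat_lit 212)) (PT.lf (nat_lit 2432) (nat_lit 6) (nat_lit 32) (nat_lit 3) (nat_lit 211) (nat_lit 176) (nat_lit 213)))) (PT.nd (nat_lit 62400) (PT.nd (nat_lit 78) (PT.lf (nat_lit 2508) (nat_lit 3) (nat_lit 33) (nat_lit 1) (nat_lit 212) (nat_lit 176) (nat_lit 212)) (PT.lf (nat_lit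 2432) (nat_lit 6) (nat_lit 32) (nat_lit 1) (nat_lit 213) (nat_lit 176) (nat_lit 211))) (PT.nd (nat_lit 78) (PT.lf (nat_lit 2584) (nat_lit 6) (nat_lit 34) (nat_lit 3) (nat_lit 211) (nat_lit 177) (nat_lit 212)) (PT.lf (nat_lit 2584) (nat_lit 6) (nat_lit 34) (nat_lit 1) (nat_lit 212) (nat_lit 177) (nat_lit 211))))) (PT.nd (nat_lit 62478) (PT.nd (nat_lit 156) (PT.nd (nat_lit 78) (PT.lf (nat_lit 2660) (nat_lit 6) (nat_lit 35) (nat_lit 3) (nat_lit 210) (nat_lit 178) (nat_lit 212)) (PT.lf (nat_lit 2736) (nat_lit 3) (nat_lit 36) (nat_lit 1) (nat_lit 211) (nat_lit 178) (nat_lit 211))) (PT.nd (nat_lit 62244) (PT.lf (nat_lit 2660) (nat_lit 6) (nat_lit 35) (nat_lit 1) (nat_lit 212) (nat_lit 178) (nat_lit 210)) (PT.lf (nat_lit 2812) (nat_lit 6) (nat_lit 37) (nat_lit 3) (nat_lit 209) (nat_lit 179) (nat_lit 212)))) (PT.nd (nat_lit 156) (PT.nd (nat_lit 78) (PT.lf (nat_lit 2888) (nat_lit 6) (nat_lit 38) (nat_lit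 3) (nat_lit 210) (nat_lit 179) (nat_lit 211)) (PT.lf (nat_lit 2888) (nat_lit 6) (nat_lit 38) (nat_lit 1) (nat_lit 211) (nat_lit 179) (nat_lit 210))) (PT.nd (nat_lit 62244) (PT.lf (nat_lit 2812) (nat_lit 6) (nat_lit 37) (nat_lit 1) (nat_lit 212) (nat_lit 179) (nat_lit 209)) (PT.nd (nat_lit 78) (PT.lf (nat_lit 2964) (nat_lit 6) (nat_lit 39) (nat_lit 3) (nat_lit 209) (nat_lit 180) (nat_lit 211)) (PT.lf (nat_lit 3040) (nat_lit 3) (nat_lit 40) (nat_lit 1) (nat_lit 210) (nat_lit 180) (nat_lit 210))))))))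
noncomputable def pc2 : PT := (PT.nd (nat_lit 312078) (PT.nd (nat_lit 187122) (PT.nd (nat_lit 62478) (PT.nd (nat_lit 62322) (PT.nd (nat_lit 62244) (PT.lf (nat_lit 2964) (nat_lit 6) (nat_lit 39) (nat_lit 1) (nat_lit 211) (nat_lit 180) (nat_lit 209)) (PT.lf (nat_lit 3116) (nat_lit 6) (nat_lit 41) (nat_lit 3) (nat_lit 208) (nat_lit 181) (nat_lit 211))) (PT.nd (nat_lit 78) (PT.lf (nat_lit 3192) (nat_lit 6) (nat_lit 42) (nat_lit 3) (nat_lit 209) (nat_lit 181) (nat_lit 210)) (PT.lf (nat_lit 3192) (nat_lit 6) (nat_lit 42) (nat_lit 1) (nat_lit 210) (nat_lit 181) (nat_lit 209)))) (PT.nd (nat_lit 62322) (PT.nd (nat_lit 62244) (PT.lf (nat_lit 3116) (nat_lit 6) (nat_lit 41) (nat_lit 1) (nat_lit 211) (nat_lit 181) (nat_lit 208)) (PT.lf (nat_lit 3268) (nat_lit 6) (nat_lit 43) (nat_lit 3) (nat_lit 208) (nat_lit 182) (nat_lit 210))) (PT.nd (nat_lit 78) (PT.lf (nat_lit 3344) (nat_lit 3) (nat_lit 44) (nat_lit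 1) (nat_lit 209) (nat_lit 182) (nat_lit 209)) (PT.lf (nat_lit 3268) (nat_lit 6) (nat_lit 43) (nat_lit 1) (nat_lit 210) (nat_lit 182) (nat_lit 208))))) (PT.nd (nat_lit 62478) (PT.nd (nat_lit 156) (PT.nd (nat_lit 78) (PT.lf (nat_lit 3420) (nat_lit 6) (nat_lit 45) (nat_lit 3) (nat_lit 207) (nat_lit 183) (nat_lit 210)) (PT.lf (nat_lit 3496) (nat_lit 6) (nat_lit 46) (nat_lit 3) (nat_lit 208) (nat_lit 183) (nat_lit 209))) (PT.nd (nat_lit 78) (PT.lf (nat_lit 3496) (nat_lit 6) (nat_lit 46) (nat_lit 1) (nat_lit 209) (nat_lit 183) (nat_lit 208)) (PT.lf (nat_lit 3420) (nat_lit 6) (nat_lit 45) (nat_lit 1) (nat_lit 210) (nat_lit 183) (nat_lit 207)))) (PT.nd (nat_lit 156) (PT.nd (nat_lit 78) (PT.lf (nat_lit 3572) (nat_lit 6) (nat_lit 47) (nat_lit 3) (nat_lit 207) (nat_lit 184) (nat_lit 209)) (PT.lf (nat_lit 3648) (nat_lit 3) (nat_lit 48) (nat_lit 1) (nat_lit 208) (nat_lit 184) (nat_lit 208))) (PT.nd (nat_lit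 62244) (PT.lf (nat_lit 3572) (nat_lit 6) (nat_lit 47) (nat_lit 1) (nat_lit 209) (nat_lit 184) (nat_lit 207)) (PT.lf (nat_lit 3724) (nat_lit 6) (nat_lit 49) (nat_lit 3) (nat_lit 206) (nat_lit 185) (nat_lit 209)))))) (PT.nd (nat_lit 124800) (PT.nd (nat_lit 62400) (PT.nd (nat_lit 156) (PT.nd (nat_lit 78) (PT.lf (nat_lit 3800) (nat_lit 6) (nat_lit 50) (nat_lit 3) (nat_lit 207) (nat_lit 185) (nat_lit 208)) (PT.lf (nat_lit 3800) (nat_lit 6) (nat_lit 50) (nat_lit 1) (nat_lit 208) (nat_lit 185) (nat_lit 207))) (PT.nd (nat_lit 62166) (PT.lf (nat_lit 3724) (nat_lit 6) (nat_lit 49) (nat_lit 1) (nat_lit 209) (nat_lit 185) (nat_lit 206)) (PT.lf (nat_lit 3876) (nat_lit 6) (nat_lit 51) (nat_lit 3) (nat_lit 205) (nat_lit 186) (nat_lit 209)))) (PT.nd (nat_lit 156) (PT.nd (nat_lit 78) (PT.lf (nat_lit 3952) (nat_lit 6) (nat_lit 52) (nat_lit 3) (nat_lit 206) (nat_lit 186) (nat_lit 208)) (PT.lf (nat_lit 4028) (nat_lit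 3) (nat_lit 53) (nat_lit 1) (nat_lit 207) (nat_lit 186) (nat_lit 207))) (PT.nd (nat_lit 78) (PT.lf (nat_lit 3952) (nat_lit 6) (nat_lit 52) (nat_lit 1) (nat_lit 208) (nat_lit 186) (nat_lit 206)) (PT.lf (nat_lit 3876) (nat_lit 6) (nat_lit 51) (nat_lit 1) (nat_lit 209) (nat_lit 186) (nat_lit 205))))) (PT.nd (nat_lit 62400) (PT.nd (nat_lit 156) (PT.nd (nat_lit 78) (PT.lf (nat_lit 4104) (nat_lit 6) (nat_lit 54) (nat_lit 3) (nat_lit 205) (nat_lit 187) (nat_lit 208)) (PT.lf (nat_lit 4180) (nat_lit 6) (nat_lit 55) (nat_lit 3) (nat_lit 206) (nat_lit 187) (nat_lit 207))) (PT.nd (nat_lit 78) (PT.lf (nat_lit 4180) (nat_lit 6) (nat_lit 55) (nat_lit 1) (nat_lit 207) (nat_lit 187) (nat_lit 206)) (PT.lf (nat_lit 4104) (nat_lit 6) (nat_lit 54) (nat_lit 1) (nat_lit 208) (nat_lit 187) (nat_lit 205)))) (PT.nd (nat_lit 156) (PT.nd (nat_lit 78) (PT.lf (nat_lit 4256) (nat_lit 6) (nat_lit 56) (nat_lit 3) (nat_lit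 204) (nat_lit 188) (nat_lit 208)) (PT.lf (nat_lit 4332) (nat_lit 6) (nat_lit 57) (nat_lit 3) (nat_lit 205) (nat_lit 188) (nat_lit 207))) (PT.nd (nat_lit 78) (PT.lf (nat_lit 4408) (nat_lit 3) (nat_lit 58) (nat_lit 1) (nat_lit 206) (nat_lit 188) (nat_lit 206)) (PT.nd (nat_lit 78) (PT.lf (nat_lit 4332) (nat_lit 6) (nat_lit 57) (nat_lit 1) (nat_lit 207) (nat_lit 188) (nat_lit 205)) (PT.lf (nat_lit 4256) (nat_lit 6) (nat_lit 56) (nat_lit 1) (nat_lit 208) (nat_lit 188) (nat_lit 204))))))))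
noncomputable def pc3 : PT := (PT.nd (nat_lit 187278) (PT.nd (nat_lit 62634) (PT.nd (nat_lit 312) (PT.nd (nat_lit 156) (PT.nd (nat_lit 78) (PT.lf (nat_lit 4484) (nat_lit 6) (nat_lit 59) (nat_lit 3) (nat_lit 203) (nat_lit 189) (nat_lit 208)) (PT.lf (nat_lit 4560) (nat_lit 6) (nat_lit 60) (nat_lit 3) (nat_lit 204) (nat_lit 189) (nat_lit 207))) (PT.nd (nat_lit 78) (PT.lf (nat_lit 4636) (nat_lit 6) (nat_lit 61) (nat_lit 3) (nat_lit 205) (nat_lit 189) (nat_lit 206)) (PT.lf (nat_lit 4636) (nat_lit 6) (nat_lit 61) (nat_lit 1) (nat_lit 206) (nat_lit 189) (nat_lit 205)))) (PT.nd (nat_lit 62166) (PT.nd (nat_lit 78) (PT.lf (nat_lit 4560) (nat_lit 6) (nat_lit 60) (nat_lit 1) (nat_lit 207) (nat_lit 189) (nat_lit 204)) (PT.lf (nat_lit 4484) (nat_lit 6) (nat_lit 59) (nat_lit 1) (nat_lit 208) (nat_lit 189) (nat_lit 203))) (PT.nd (nat_lit 78) (PT.lf (nat_lit 4712) (nat_lit 6) (nat_lit 62) (nat_lit 3) (nat_lit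 203) (nat_lit 190) (nat_lit 207)) (PT.lf (nat_lit 4788) (nat_lit 6) (nat_lit 63) (nat_lit 3) (nat_lit 204) (nat_lit 190) (nat_lit 206))))) (PT.nd (nat_lit 62322) (PT.nd (nat_lit 156) (PT.nd (nat_lit 78) (PT.lf (nat_lit 4864) (nat_lit 3) (nat_lit 64) (nat_lit 1) (nat_lit 205) (nat_lit 190) (nat_lit 205)) (PT.lf (nat_lit 4788) (nat_lit 6) (nat_lit 63) (nat_lit 1) (nat_lit 206) (nat_lit 190) (nat_lit 204))) (PT.nd (nat_lit 62088) (PT.lf (nat_lit 4712) (nat_lit 6) (nat_lit 62) (nat_lit 1) (nat_lit 207) (nat_lit 190) (nat_lit 203)) (PT.lf (nat_lit 4940) (nat_lit 6) (nat_lit 65) (nat_lit 3) (nat_lit 202) (nat_lit 191) (nat_lit 207)))) (PT.nd (nat_lit 156) (PT.nd (nat_lit 78) (PT.lf (nat_lit 5016) (nat_lit 6) (nat_lit 66) (nat_lit 3) (nat_lit 203) (nat_lit 191) (nat_lit 206)) (PT.lf (nat_lit 5092) (nat_lit 6) (nat_lit 67) (nat_lit 3) (nat_lit 204) (nat_lit 191) (nat_lit 205))) (PT.nd (nat_lit 78)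 (PT.lf (nat_lit 5092) (nat_lit 6) (nat_lit 67) (nat_lit 1) (nat_lit 205) (nat_lit 191) (nat_lit 204)) (PT.nd (nat_lit 78) (PT.lf (nat_lit 5016) (nat_lit 6) (nat_lit 66) (nat_lit 1) (nat_lit 206) (nat_lit 191) (nat_lit 203)) (PT.lf (nat_lit 4940) (nat_lit 6) (nat_lit 65) (nat_lit 1) (nat_lit 207) (nat_lit 191) (nat_lit 202))))))) (PT.nd (nat_lit 62478) (PT.nd (nat_lit 312) (PT.nd (nat_lit 156) (PT.nd (nat_lit 78) (PT.lf (nat_lit 5168) (nat_lit 6) (nat_lit 68) (nat_lit 3) (nat_lit 201) (nat_lit 192) (nat_lit 207)) (PT.lf (nat_lit 5244) (nat_lit 6) (nat_lit 69) (nat_lit 3) (nat_lit 202) (nat_lit 192) (nat_lit 206))) (PT.nd (nat_lit 78) (PT.lf (nat_lit 5320) (nat_lit 6) (nat_lit 70) (nat_lit 3) (nat_lit 203) (nat_lit 192) (nat_lit 205)) (PT.lf (nat_lit 5396) (nat_lit 3) (nat_lit 71) (nat_lit 1) (nat_lit 204) (nat_lit 192) (nat_lit 204)))) (PT.nd (nat_lit 156) (PT.nd (nat_lit 78) (PT.lf (nat_lit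 5320) (nat_lit 6) (nat_lit 70) (nat_lit 1) (nat_lit 205) (nat_lit 192) (nat_lit 203)) (PT.lf (nat_lit 5244) (nat_lit 6) (nat_lit 69) (nat_lit 1) (nat_lit 206) (nat_lit 192) (nat_lit 202))) (PT.nd (nat_lit 61932) (PT.lf (nat_lit 5168) (nat_lit 6) (nat_lit 68) (nat_lit 1) (nat_lit 207) (nat_lit 192) (nat_lit 201)) (PT.lf (nat_lit 5624) (nat_lit 6) (nat_lit 74) (nat_lit 3) (nat_lit 200) (nat_lit 193) (nat_lit 207))))) (PT.nd (nat_lit 312) (PT.nd (nat_lit 156) (PT.nd (nat_lit 78) (PT.lf (nat_lit 5700) (nat_lit 6) (nat_lit 75) (nat_lit 3) (nat_lit 201) (nat_lit 193) (nat_lit 206)) (PT.lf (nat_lit 5776) (nat_lit 6) (nat_lit 76) (nat_lit 3) (nat_lit 202) (nat_lit 193) (nat_lit 205))) (PT.nd (nat_lit 78) (PT.lf (nat_lit 5852) (nat_lit 6) (nat_lit 77) (nat_lit 3) (nat_lit 203) (nat_lit 193) (nat_lit 204)) (PT.lf (nat_lit 5852) (nat_lit 6) (nat_lit 77) (nat_lit 1) (nat_lit 204) (nat_lit 193) (nat_lit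 203)))) (PT.nd (nat_lit 156) (PT.nd (nat_lit 78) (PT.lf (nat_lit 5776) (nat_lit 6) (nat_lit 76) (nat_lit 1) (nat_lit 205) (nat_lit 193) (nat_lit 202)) (PT.lf (nat_lit 5700) (nat_lit 6) (nat_lit 75) (nat_lit 1) (nat_lit 206) (nat_lit 193) (nat_lit 201))) (PT.nd (nat_lit 61854) (PT.lf (nat_lit 5624) (nat_lit 6) (nat_lit 74) (nat_lit 1) (nat_lit 207) (nat_lit 193) (nat_lit 200)) (PT.nd (nat_lit 78) (PT.lf (nat_lit 5548) (nat_lit 6) (nat_lit 73) (nat_lit 3) (nat_lit 199) (nat_lit 194) (nat_lit 207)) (PT.lf (nat_lit 6156) (nat_lit 6) (nat_lit 81) (nat_lit 3) (nat_lit 200) (nat_lit 194) (nat_lit 206))))))))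
noncomputable def pc4 : PT := (PT.nd (nat_lit 62946) (PT.nd (nat_lit 62322) (PT.nd (nat_lit 312) (PT.nd (nat_lit 156) (PT.nd (nat_lit 78) (PT.lf (nat_lit 6232) (nat_lit 6) (nat_lit 82) (nat_lit 3) (nat_lit 201) (nat_lit 194) (nat_lit 205)) (PT.lf (nat_lit 6308) (nat_lit 6) (nat_lit 83) (nat_lit 3) (nat_lit 202) (nat_lit 194) (nat_lit 204))) (PT.nd (nat_lit 78) (PT.lf (nat_lit 6384) (nat_lit 3) (nat_lit 84) (nat_lit 1) (nat_lit 203) (nat_lit 194) (nat_lit 203)) (PT.lf (nat_lit 6308) (nat_lit 6) (nat_lit 83) (nat_lit 1) (nat_lit 204) (nat_lit 194) (nat_lit 202)))) (PT.nd (nat_lit 156) (PT.nd (nat_lit 78) (PT.lf (nat_lit 6232) (nat_lit 6) (nat_lit 82) (nat_lit 1) (nat_lit 205) (nat_lit 194) (nat_lit 201)) (PT.lf (nat_lit 6156) (nat_lit 6) (nat_lit 81) (nat_lit 1) (nat_lit 206) (nat_lit 194) (nat_lit 200))) (PT.nd (nat_lit 61776) (PT.lf (nat_lit 5548) (nat_lit 6) (nat_lit 73) (nat_lit 1) (nat_lit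 207) (nat_lit 194) (nat_lit 199)) (PT.lf (nat_lit 5472) (nat_lit 6) (nat_lit 72) (nat_lit 3) (nat_lit 198) (nat_lit 195) (nat_lit 207))))) (PT.nd (nat_lit 312) (PT.nd (nat_lit 156) (PT.nd (nat_lit 78) (PT.lf (nat_lit 6080) (nat_lit 6) (nat_lit 80) (nat_lit 3) (nat_lit 199) (nat_lit 195) (nat_lit 206)) (PT.lf (nat_lit 6612) (nat_lit 6) (nat_lit 87) (nat_lit 3) (nat_lit 200) (nat_lit 195) (nat_lit 205))) (PT.nd (nat_lit 78) (PT.lf (nat_lit 6688) (nat_lit 6) (nat_lit 88) (nat_lit 3) (nat_lit 201) (nat_lit 195) (nat_lit 204)) (PT.lf (nat_lit 6764) (nat_lit 6) (nat_lit 89) (nat_lit 3) (nat_lit 202) (nat_lit 195) (nat_lit 203)))) (PT.nd (nat_lit 156) (PT.nd (nat_lit 78) (PT.lf (nat_lit 6764) (nat_lit 6) (nat_lit 89) (nat_lit 1) (nat_lit 203) (nat_lit 195) (nat_lit 202)) (PT.lf (nat_lit 6688) (nat_lit 6) (nat_lit 88) (nat_lit 1) (nat_lit 204) (nat_lit 195) (nat_lit 201))) (PT.nd (nat_lit 78) (PT.lf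 (nat_lit 6612) (nat_lit 6) (nat_lit 87) (nat_lit 1) (nat_lit 205) (nat_lit 195) (nat_lit 200)) (PT.lf (nat_lit 6080) (nat_lit 6) (nat_lit 80) (nat_lit 1) (nat_lit 206) (nat_lit 195) (nat_lit 199)))))) (PT.nd (nat_lit 62322) (PT.nd (nat_lit 62010) (PT.nd (nat_lit 61854) (PT.nd (nat_lit 61776) (PT.lf (nat_lit 5472) (nat_lit 6) (nat_lit 72) (nat_lit 1) (nat_lit 207) (nat_lit 195) (nat_lit 198)) (PT.lf (nat_lit 6004) (nat_lit 6) (nat_lit 79) (nat_lit 3) (nat_lit 198) (nat_lit 196) (nat_lit 206))) (PT.nd (nat_lit 78) (PT.lf (nat_lit 6536) (nat_lit 6) (nat_lit 86) (nat_lit 3) (nat_lit 199) (nat_lit 196) (nat_lit 205)) (PT.lf (nat_lit 6992) (nat_lit 6) (nat_lit 92) (nat_lit 3) (nat_lit 200) (nat_lit 196) (nat_lit 204)))) (PT.nd (nat_lit 156) (PT.nd (nat_lit 78) (PT.lf (nat_lit 7068) (nat_lit 6) (nat_lit 93) (nat_lit 3) (nat_lit 201) (nat_lit 196) (nat_lit 203)) (PT.lf (nat_lit 7144) (nat_lit 3) (nat_lit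 94) (nat_lit 1) (nat_lit 202) (nat_lit 196) (nat_lit 202))) (PT.nd (nat_lit 78) (PT.lf (nat_lit 7068) (nat_lit 6) (nat_lit 93) (nat_lit 1) (nat_lit 203) (nat_lit 196) (nat_lit 201)) (PT.lf (nat_lit 6992) (nat_lit 6) (nat_lit 92) (nat_lit 1) (nat_lit 204) (nat_lit 196) (nat_lit 200))))) (PT.nd (nat_lit 62010) (PT.nd (nat_lit 61854) (PT.nd (nat_lit 78) (PT.lf (nat_lit 6536) (nat_lit 6) (nat_lit 86) (nat_lit 1) (nat_lit 205) (nat_lit 196) (nat_lit 199)) (PT.lf (nat_lit 6004) (nat_lit 6) (nat_lit 79) (nat_lit 1) (nat_lit 206) (nat_lit 196) (nat_lit 198))) (PT.nd (nat_lit 78) (PT.lf (nat_lit 5928) (nat_lit 3) (nat_lit 78) (nat_lit 3) (nat_lit 197) (nat_lit 197) (nat_lit 206)) (PT.lf (nat_lit 6460) (nat_lit 6) (nat_lit 85) (nat_lit 3) (nat_lit 198) (nat_lit 197) (nat_lit 205)))) (PT.nd (nat_lit 156) (PT.nd (nat_lit 78) (PT.lf (nat_lit 6916) (nat_lit 6) (nat_lit 91) (nat_lit 3) (nat_lit 199) (nat_lit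 197) (nat_lit 204)) (PT.lf (nat_lit 7296) (nat_lit 6) (nat_lit 96) (nat_lit 3) (nat_lit 200) (nat_lit 197) (nat_lit 203))) (PT.nd (nat_lit 78) (PT.lf (nat_lit 7372) (nat_lit 6) (nat_lit 97) (nat_lit 3) (nat_lit 201) (nat_lit 197) (nat_lit 202)) (PT.nd (nat_lit 78) (PT.lf (nat_lit 7372) (nat_lit 6) (nat_lit 97) (nat_lit 1) (nat_lit 202) (nat_lit 197) (nat_lit 201)) (PT.lf (nat_lit 7296) (nat_lit 6) (nat_lit 96) (nat_lit 1) (nat_lit 203) (nat_lit 197) (nat_lit 200))))))))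
noncomputable def pc5 : PT := (PT.nd (nat_lit 124176) (PT.nd (nat_lit 62166) (PT.nd (nat_lit 61854) (PT.nd (nat_lit 156) (PT.nd (nat_lit 78) (PT.lf (nat_lit 6916) (nat_lit 6) (nat_lit 91) (nat_lit 1) (nat_lit 204) (nat_lit 197) (nat_lit 199)) (PT.lf (nat_lit 6460) (nat_lit 6) (nat_lit 85) (nat_lit 1) (nat_lit 205) (nat_lit 197) (nat_lit 198))) (PT.nd (nat_lit 61620) (PT.lf (nat_lit 5928) (nat_lit 3) (nat_lit 78) (nat_lit 0) (nat_lit 206) (nat_lit 197) (nat_lit 197)) (PT.lf (nat_lit 5472) (nat_lit 6) (nat_lit 72) (nat_lit 5) (nat_lit 195) (nat_lit 198) (nat_lit 207)))) (PT.nd (nat_lit 156) (PT.nd (nat_lit 78) (PT.lf (nat_lit 6004) (nat_lit 6) (nat_lit 79) (nat_lit 5) (nat_lit 196) (nat_lit 198) (nat_lit 206)) (PT.lf (nat_lit 6460) (nat_lit 6) (nat_lit 85) (nat_lit 5) (nat_lit 197) (nat_lit 198) (nat_lit 205))) (PT.nd (nat_lit 78) (PT.lf (nat_lit 6840) (nat_lit 3) (nat_lit 90) (nat_lit 3) (nat_lit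 198) (nat_lit 198) (nat_lit 204)) (PT.lf (nat_lit 7220) (nat_lit 6) (nat_lit 95) (nat_lit 3) (nat_lit 199) (nat_lit 198) (nat_lit 203))))) (PT.nd (nat_lit 312) (PT.nd (nat_lit 156) (PT.nd (nat_lit 78) (PT.lf (nat_lit 7524) (nat_lit 6) (nat_lit 99) (nat_lit 3) (nat_lit 200) (nat_lit 198) (nat_lit 202)) (PT.lf (nat_lit 7600) (nat_lit 3) (nat_lit 100) (nat_lit 1) (nat_lit 201) (nat_lit 198) (nat_lit 201))) (PT.nd (nat_lit 78) (PT.lf (nat_lit 7524) (nat_lit 6) (nat_lit 99) (nat_lit 1) (nat_lit 202) (nat_lit 198) (nat_lit 200)) (PT.lf (nat_lit 7220) (nat_lit 6) (nat_lit 95) (nat_lit 1) (nat_lit 203) (nat_lit 198) (nat_lit 199)))) (PT.nd (nat_lit 156) (PT.nd (nat_lit 78) (PT.lf (nat_lit 6840) (nat_lit 3) (nat_lit 90) (nat_lit 0) (nat_lit 204) (nat_lit 198) (nat_lit 198)) (PT.lf (nat_lit 6460) (nat_lit 6) (nat_lit 85) (nat_lit 0) (nat_lit 205) (nat_lit 198) (nat_lit 197))) (PT.nd (nat_lit 78) (PT.lf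 (nat_lit 6004) (nat_lit 6) (nat_lit 79) (nat_lit 0) (nat_lit 206) (nat_lit 198) (nat_lit 196)) (PT.lf (nat_lit 5472) (nat_lit 6) (nat_lit 72) (nat_lit 0) (nat_lit 207) (nat_lit 198) (nat_lit 195)))))) (PT.nd (nat_lit 624) (PT.nd (nat_lit 312) (PT.nd (nat_lit 156) (PT.nd (nat_lit 78) (PT.lf (nat_lit 5548) (nat_lit 6) (nat_lit 73) (nat_lit 5) (nat_lit 194) (nat_lit 199) (nat_lit 207)) (PT.lf (nat_lit 6080) (nat_lit 6) (nat_lit 80) (nat_lit 5) (nat_lit 195) (nat_lit 199) (nat_lit 206))) (PT.nd (nat_lit 78) (PT.lf (nat_lit 6536) (nat_lit 6) (nat_lit 86) (nat_lit 5) (nat_lit 196) (nat_lit 199) (nat_lit 205)) (PT.lf (nat_lit 6916) (nat_lit 6) (nat_lit 91) (nat_lit 5) (nat_lit 197) (nat_lit 199) (nat_lit 204)))) (PT.nd (nat_lit 156) (PT.nd (nat_lit 78) (PT.lf (nat_lit 7220) (nat_lit 6) (nat_lit 95) (nat_lit 5) (nat_lit 198) (nat_lit 199) (nat_lit 203)) (PT.lf (nat_lit 7448) (nat_lit 3) (nat_lit 98)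 (nat_lit 3) (nat_lit 199) (nat_lit 199) (nat_lit 202))) (PT.nd (nat_lit 78) (PT.lf (nat_lit 7676) (nat_lit 6) (nat_lit 101) (nat_lit 3) (nat_lit 200) (nat_lit 199) (nat_lit 201)) (PT.lf (nat_lit 7676) (nat_lit 6) (nat_lit 101) (nat_lit 1) (nat_lit 201) (nat_lit 199) (nat_lit 200))))) (PT.nd (nat_lit 312) (PT.nd (nat_lit 156) (PT.nd (nat_lit 78) (PT.lf (nat_lit 7448) (nat_lit 3) (nat_lit 98) (nat_lit 0) (nat_lit 202) (nat_lit 199) (nat_lit 199)) (PT.lf (nat_lit 7220) (nat_lit 6) (nat_lit 95) (nat_lit 0) (nat_lit 203) (nat_lit 199) (nat_lit 198))) (PT.nd (nat_lit 78) (PT.lf (nat_lit 6916) (nat_lit 6) (nat_lit 91) (nat_lit 0) (nat_lit 204) (nat_lit 199) (nat_lit 197)) (PT.lf (nat_lit 6536) (nat_lit 6) (nat_lit 86) (nat_lit 0) (nat_lit 205) (nat_lit 199) (nat_lit 196)))) (PT.nd (nat_lit 61464) (PT.nd (nat_lit 78) (PT.lf (nat_lit 6080) (nat_lit 6) (nat_lit 80) (nat_lit 0) (nat_lit 206) (nat_lit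 199) (nat_lit 195)) (PT.lf (nat_lit 5548) (nat_lit 6) (nat_lit 73) (nat_lit 0) (nat_lit 207) (nat_lit 199) (nat_lit 194))) (PT.nd (nat_lit 78) (PT.lf (nat_lit 5624) (nat_lit 6) (nat_lit 74) (nat_lit 5) (nat_lit 193) (nat_lit 200) (nat_lit 207)) (PT.nd (nat_lit 78) (PT.lf (nat_lit 6156) (nat_lit 6) (nat_lit 81) (nat_lit 5) (nat_lit 194) (nat_lit 200) (nat_lit 206)) (PT.lf (nat_lit 6612) (nat_lit 6) (nat_lit 87) (nat_lit 5) (nat_lit 195) (nat_lit 200) (nat_lit 205))))))))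
noncomputable def pc6 : PT := (PT.nd (nat_lit 62478) (PT.nd (nat_lit 624) (PT.nd (nat_lit 312) (PT.nd (nat_lit 156) (PT.nd (nat_lit 78) (PT.lf (nat_lit 6992) (nat_lit 6) (nat_lit 92) (nat_lit 5) (nat_lit 196) (nat_lit 200) (nat_lit 204)) (PT.lf (nat_lit 7296) (nat_lit 6) (nat_lit 96) (nat_lit 5) (nat_lit 197) (nat_lit 200) (nat_lit 203))) (PT.nd (nat_lit 78) (PT.lf (nat_lit 7524) (nat_lit 6) (nat_lit 99) (nat_lit 5) (nat_lit 198) (nat_lit 200) (nat_lit 202)) (PT.lf (nat_lit 7676) (nat_lit 6) (nat_lit 101) (nat_lit 5) (nat_lit 199) (nat_lit 200) (nat_lit 201)))) (PT.nd (nat_lit 156) (PT.nd (nat_lit 78) (PT.lf (nat_lit 7752) (nat_lit 1) (nat_lit 102) (nat_lit 0) (nat_lit 200) (nat_lit 200) (nat_lit 200)) (PT.lf (nat_lit 7676) (nat_lit 6) (nat_lit 101) (nat_lit 0) (nat_lit 201) (nat_lit 200) (nat_lit 199))) (PT.nd (nat_lit 78) (PT.lf (nat_lit 7524) (nat_lit 6) (nat_lit 99) (nat_lit 0) (nat_lit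 202) (nat_lit 200) (nat_lit 198)) (PT.lf (nat_lit 7296) (nat_lit 6) (nat_lit 96) (nat_lit 0) (nat_lit 203) (nat_lit 200) (nat_lit 197))))) (PT.nd (nat_lit 61542) (PT.nd (nat_lit 156) (PT.nd (nat_lit 78) (PT.lf (nat_lit 6992) (nat_lit 6) (nat_lit 92) (nat_lit 0) (nat_lit 204) (nat_lit 200) (nat_lit 196)) (PT.lf (nat_lit 6612) (nat_lit 6) (nat_lit 87) (nat_lit 0) (nat_lit 205) (nat_lit 200) (nat_lit 195))) (PT.nd (nat_lit 78) (PT.lf (nat_lit 6156) (nat_lit 6) (nat_lit 81) (nat_lit 0) (nat_lit 206) (nat_lit 200) (nat_lit 194)) (PT.lf (nat_lit 5624) (nat_lit 6) (nat_lit 74) (nat_lit 0) (nat_lit 207) (nat_lit 200) (nat_lit 193)))) (PT.nd (nat_lit 156) (PT.nd (nat_lit 78) (PT.lf (nat_lit 5168) (nat_lit 6) (nat_lit 68) (nat_lit 5) (nat_lit 192) (nat_lit 201) (nat_lit 207)) (PT.lf (nat_lit 5700) (nat_lit 6) (nat_lit 75) (nat_lit 5) (nat_lit 193) (nat_lit 201) (nat_lit 206))) (PT.nd (nat_lit 78) (PT.lf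 (nat_lit 6232) (nat_lit 6) (nat_lit 82) (nat_lit 5) (nat_lit 194) (nat_lit 201) (nat_lit 205)) (PT.lf (nat_lit 6688) (nat_lit 6) (nat_lit 88) (nat_lit 5) (nat_lit 195) (nat_lit 201) (nat_lit 204)))))) (PT.nd (nat_lit 624) (PT.nd (nat_lit 312) (PT.nd (nat_lit 156) (PT.nd (nat_lit 78) (PT.lf (nat_lit 7068) (nat_lit 6) (nat_lit 93) (nat_lit 5) (nat_lit 196) (nat_lit 201) (nat_lit 203)) (PT.lf (nat_lit 7372) (nat_lit 6) (nat_lit 97) (nat_lit 5) (nat_lit 197) (nat_lit 201) (nat_lit 202))) (PT.nd (nat_lit 78) (PT.lf (nat_lit 7600) (nat_lit 3) (nat_lit 100) (nat_lit 4) (nat_lit 198) (nat_lit 201) (nat_lit 201)) (PT.lf (nat_lit 7676) (nat_lit 6) (nat_lit 101) (nat_lit 4) (nat_lit 199) (nat_lit 201) (nat_lit 200)))) (PT.nd (nat_lit 156) (PT.nd (nat_lit 78) (PT.lf (nat_lit 7676) (nat_lit 6) (nat_lit 101) (nat_lit 2) (nat_lit 200) (nat_lit 201) (nat_lit 199)) (PT.lf (nat_lit 7600) (nat_lit 3) (nat_lit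 100) (nat_lit 0) (nat_lit 201) (nat_lit 201) (nat_lit 198))) (PT.nd (nat_lit 78) (PT.lf (nat_lit 7372) (nat_lit 6) (nat_lit 97) (nat_lit 0) (nat_lit 202) (nat_lit 201) (nat_lit 197)) (PT.lf (nat_lit 7068) (nat_lit 6) (nat_lit 93) (nat_lit 0) (nat_lit 203) (nat_lit 201) (nat_lit 196))))) (PT.nd (nat_lit 61464) (PT.nd (nat_lit 156) (PT.nd (nat_lit 78) (PT.lf (nat_lit 6688) (nat_lit 6) (nat_lit 88) (nat_lit 0) (nat_lit 204) (nat_lit 201) (nat_lit 195)) (PT.lf (nat_lit 6232) (nat_lit 6) (nat_lit 82) (nat_lit 0) (nat_lit 205) (nat_lit 201) (nat_lit 194))) (PT.nd (nat_lit 78) (PT.lf (nat_lit 5700) (nat_lit 6) (nat_lit 75) (nat_lit 0) (nat_lit 206) (nat_lit 201) (nat_lit 193)) (PT.lf (nat_lit 5168) (nat_lit 6) (nat_lit 68) (nat_lit 0) (nat_lit 207) (nat_lit 201) (nat_lit 192)))) (PT.nd (nat_lit 156) (PT.nd (nat_lit 78) (PT.lf (nat_lit 4940) (nat_lit 6) (nat_lit 65) (nat_lit 5) (nat_lit 191) (nat_lit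 202) (nat_lit 207)) (PT.lf (nat_lit 5244) (nat_lit 6) (nat_lit 69) (nat_lit 5) (nat_lit 192) (nat_lit 202) (nat_lit 206))) (PT.nd (nat_lit 78) (PT.lf (nat_lit 5776) (nat_lit 6) (nat_lit 76) (nat_lit 5) (nat_lit 193) (nat_lit 202) (nat_lit 205)) (PT.nd (nat_lit 78) (PT.lf (nat_lit 6308) (nat_lit 6) (nat_lit 83) (nat_lit 5) (nat_lit 194) (nat_lit 202) (nat_lit 204)) (PT.lf (nat_lit 6764) (nat_lit 6) (nat_lit 89) (nat_lit 5) (nat_lit 195) (nat_lit 202) (nat_lit 203))))))))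
noncomputable def pc7 : PT := (PT.nd (nat_lit 62322) (PT.nd (nat_lit 624) (PT.nd (nat_lit 312) (PT.nd (nat_lit 156) (PT.nd (nat_lit 78) (PT.lf (nat_lit 7144) (nat_lit 3) (nat_lit 94) (nat_lit 4) (nat_lit 196) (nat_lit 202) (nat_lit 202)) (PT.lf (nat_lit 7372) (nat_lit 6) (nat_lit 97) (nat_lit 4) (nat_lit 197) (nat_lit 202) (nat_lit 201))) (PT.nd (nat_lit 78) (PT.lf (nat_lit 7524) (nat_lit 6) (nat_lit 99) (nat_lit 4) (nat_lit 198) (nat_lit 202) (nat_lit 200)) (PT.lf (nat_lit 7448) (nat_lit 3) (nat_lit 98) (nat_lit 2) (nat_lit 199) (nat_lit 202) (nat_lit 199)))) (PT.nd (nat_lit 156) (PT.nd (nat_lit 78) (PT.lf (nat_lit 7524) (nat_lit 6) (nat_lit 99) (nat_lit 2) (nat_lit 200) (nat_lit 202) (nat_lit 198)) (PT.lf (nat_lit 7372) (nat_lit 6) (nat_lit 97) (nat_lit 2) (nat_lit 201) (nat_lit 202) (nat_lit 197))) (PT.nd (nat_lit 78) (PT.lf (nat_lit 7144) (nat_lit 3) (nat_lit 94) (nat_lit 0) (nat_lit 202)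 (nat_lit 202) (nat_lit 196)) (PT.lf (nat_lit 6764) (nat_lit 6) (nat_lit 89) (nat_lit 0) (nat_lit 203) (nat_lit 202) (nat_lit 195))))) (PT.nd (nat_lit 61308) (PT.nd (nat_lit 156) (PT.nd (nat_lit 78) (PT.lf (nat_lit 6308) (nat_lit 6) (nat_lit 83) (nat_lit 0) (nat_lit 204) (nat_lit 202) (nat_lit 194)) (PT.lf (nat_lit 5776) (nat_lit 6) (nat_lit 76) (nat_lit 0) (nat_lit 205) (nat_lit 202) (nat_lit 193))) (PT.nd (nat_lit 78) (PT.lf (nat_lit 5244) (nat_lit 6) (nat_lit 69) (nat_lit 0) (nat_lit 206) (nat_lit 202) (nat_lit 192)) (PT.lf (nat_lit 4940) (nat_lit 6) (nat_lit 65) (nat_lit 0) (nat_lit 207) (nat_lit 202) (nat_lit 191)))) (PT.nd (nat_lit 156) (PT.nd (nat_lit 78) (PT.lf (nat_lit 4484) (nat_lit 6) (nat_lit 59) (nat_lit 5) (nat_lit 189) (nat_lit 203) (nat_lit 208)) (PT.lf (nat_lit 4712) (nat_lit 6) (nat_lit 62) (nat_lit 5) (nat_lit 190) (nat_lit 203) (nat_lit 207))) (PT.nd (nat_lit 78) (PT.lf (nat_lit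 5016) (nat_lit 6) (nat_lit 66) (nat_lit 5) (nat_lit 191) (nat_lit 203) (nat_lit 206)) (PT.nd (nat_lit 78) (PT.lf (nat_lit 5320) (nat_lit 6) (nat_lit 70) (nat_lit 5) (nat_lit 192) (nat_lit 203) (nat_lit 205)) (PT.lf (nat_lit 5852) (nat_lit 6) (nat_lit 77) (nat_lit 5) (nat_lit 193) (nat_lit 203) (nat_lit 204))))))) (PT.nd (nat_lit 624) (PT.nd (nat_lit 312) (PT.nd (nat_lit 156) (PT.nd (nat_lit 78) (PT.lf (nat_lit 6384) (nat_lit 3) (nat_lit 84) (nat_lit 4) (nat_lit 194) (nat_lit 203) (nat_lit 203)) (PT.lf (nat_lit 6764) (nat_lit 6) (nat_lit 89) (nat_lit 4) (nat_lit 195) (nat_lit 203) (nat_lit 202))) (PT.nd (nat_lit 78) (PT.lf (nat_lit 7068) (nat_lit 6) (nat_lit 93) (nat_lit 4) (nat_lit 196) (nat_lit 203) (nat_lit 201)) (PT.lf (nat_lit 7296) (nat_lit 6) (nat_lit 96) (nat_lit 4) (nat_lit 197) (nat_lit 203) (nat_lit 200)))) (PT.nd (nat_lit 156) (PT.nd (nat_lit 78) (PT.lf (nat_lit 7220) (nat_lit 6)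 (nat_lit 95) (nat_lit 4) (nat_lit 198) (nat_lit 203) (nat_lit 199)) (PT.lf (nat_lit 7220) (nat_lit 6) (nat_lit 95) (nat_lit 2) (nat_lit 199) (nat_lit 203) (nat_lit 198))) (PT.nd (nat_lit 78) (PT.lf (nat_lit 7296) (nat_lit 6) (nat_lit 96) (nat_lit 2) (nat_lit 200) (nat_lit 203) (nat_lit 197)) (PT.lf (nat_lit 7068) (nat_lit 6) (nat_lit 93) (nat_lit 2) (nat_lit 201) (nat_lit 203) (nat_lit 196))))) (PT.nd (nat_lit 312) (PT.nd (nat_lit 156) (PT.nd (nat_lit 78) (PT.lf (nat_lit 6764) (nat_lit 6) (nat_lit 89) (nat_lit 2) (nat_lit 202) (nat_lit 203) (nat_lit 195)) (PT.lf (nat_lit 6384) (nat_lit 3) (nat_lit 84) (nat_lit 0) (nat_lit 203) (nat_lit 203) (nat_lit 194))) (PT.nd (nat_lit 78) (PT.lf (nat_lit 5852) (nat_lit 6) (nat_lit 77) (nat_lit 0) (nat_lit 204) (nat_lit 203) (nat_lit 193)) (PT.lf (nat_lit 5320) (nat_lit 6) (nat_lit 70) (nat_lit 0) (nat_lit 205) (nat_lit 203) (nat_lit 192)))) (PT.nd (nat_lit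 156) (PT.nd (nat_lit 78) (PT.lf (nat_lit 5016) (nat_lit 6) (nat_lit 66) (nat_lit 0) (nat_lit 206) (nat_lit 203) (nat_lit 191)) (PT.lf (nat_lit 4712) (nat_lit 6) (nat_lit 62) (nat_lit 0) (nat_lit 207) (nat_lit 203) (nat_lit 190))) (PT.nd (nat_lit 60918) (PT.lf (nat_lit 4484) (nat_lit 6) (nat_lit 59) (nat_lit 0) (nat_lit 208) (nat_lit 203) (nat_lit 189)) (PT.nd (nat_lit 78) (PT.lf (nat_lit 4256) (nat_lit 6) (nat_lit 56) (nat_lit 5) (nat_lit 188) (nat_lit 204) (nat_lit 208)) (PT.lf (nat_lit 4560) (nat_lit 6) (nat_lit 60) (nat_lit 5) (nat_lit 189) (nat_lit 204) (nat_lit 207))))))))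
noncomputable def pc8 : PT := (PT.nd (nat_lit 1248) (PT.nd (nat_lit 624) (PT.nd (nat_lit 312) (PT.nd (nat_lit 156) (PT.nd (nat_lit 78) (PT.lf (nat_lit 4788) (nat_lit 6) (nat_lit 63) (nat_lit 5) (nat_lit 190) (nat_lit 204) (nat_lit 206)) (PT.lf (nat_lit 5092) (nat_lit 6) (nat_lit 67) (nat_lit 5) (nat_lit 191) (nat_lit 204) (nat_lit 205))) (PT.nd (nat_lit 78) (PT.lf (nat_lit 5396) (nat_lit 3) (nat_lit 71) (nat_lit 4) (nat_lit 192) (nat_lit 204) (nat_lit 204)) (PT.lf (nat_lit 5852) (nat_lit 6) (nat_lit 77) (nat_lit 4) (nat_lit 193) (nat_lit 204) (nat_lit 203)))) (PT.nd (nat_lit 156) (PT.nd (nat_lit 78) (PT.lf (nat_lit 6308) (nat_lit 6) (nat_lit 83) (nat_lit 4) (nat_lit 194) (nat_lit 204) (nat_lit 202)) (PT.lf (nat_lit 6688) (nat_lit 6) (nat_lit 88) (nat_lit 4) (nat_lit 195) (nat_lit 204) (nat_lit 201))) (PT.nd (nat_lit 78) (PT.lf (nat_lit 6992) (nat_lit 6) (nat_lit 92) (nat_lit 4) (nat_lit 196)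 (nat_lit 204) (nat_lit 200)) (PT.lf (nat_lit 6916) (nat_lit 6) (nat_lit 91) (nat_lit 4) (nat_lit 197) (nat_lit 204) (nat_lit 199))))) (PT.nd (nat_lit 312) (PT.nd (nat_lit 156) (PT.nd (nat_lit 78) (PT.lf (nat_lit 6840) (nat_lit 3) (nat_lit 90) (nat_lit 2) (nat_lit 198) (nat_lit 204) (nat_lit 198)) (PT.lf (nat_lit 6916) (nat_lit 6) (nat_lit 91) (nat_lit 2) (nat_lit 199) (nat_lit 204) (nat_lit 197))) (PT.nd (nat_lit 78) (PT.lf (nat_lit 6992) (nat_lit 6) (nat_lit 92) (nat_lit 2) (nat_lit 200) (nat_lit 204) (nat_lit 196)) (PT.lf (nat_lit 6688) (nat_lit 6) (nat_lit 88) (nat_lit 2) (nat_lit 201) (nat_lit 204) (nat_lit 195)))) (PT.nd (nat_lit 156) (PT.nd (nat_lit 78) (PT.lf (nat_lit 6308) (nat_lit 6) (nat_lit 83) (nat_lit 2) (nat_lit 202) (nat_lit 204) (nat_lit 194)) (PT.lf (nat_lit 5852) (nat_lit 6) (nat_lit 77) (nat_lit 2) (nat_lit 203) (nat_lit 204) (nat_lit 193))) (PT.nd (nat_lit 78) (PT.lf (nat_lit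 5396) (nat_lit 3) (nat_lit 71) (nat_lit 0) (nat_lit 204) (nat_lit 204) (nat_lit 192)) (PT.lf (nat_lit 5092) (nat_lit 6) (nat_lit 67) (nat_lit 0) (nat_lit 205) (nat_lit 204) (nat_lit 191)))))) (PT.nd (nat_lit 61308) (PT.nd (nat_lit 60996) (PT.nd (nat_lit 156) (PT.nd (nat_lit 78) (PT.lf (nat_lit 4788) (nat_lit 6) (nat_lit 63) (nat_lit 0) (nat_lit 206) (nat_lit 204) (nat_lit 190)) (PT.lf (nat_lit 4560) (nat_lit 6) (nat_lit 60) (nat_lit 0) (nat_lit 207) (nat_lit 204) (nat_lit 189))) (PT.nd (nat_lit 60762) (PT.lf (nat_lit 4256) (nat_lit 6) (nat_lit 56) (nat_lit 0) (nat_lit 208) (nat_lit 204) (nat_lit 188)) (PT.lf (nat_lit 3876) (nat_lit 6) (nat_lit 51) (nat_lit 5) (nat_lit 186) (nat_lit 205) (nat_lit 209)))) (PT.nd (nat_lit 156) (PT.nd (nat_lit 78) (PT.lf (nat_lit 4104) (nat_lit 6) (nat_lit 54) (nat_lit 5) (nat_lit 187) (nat_lit 205) (nat_lit 208)) (PT.lf (nat_lit 4332) (nat_lit 6) (nat_lit 57)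 (nat_lit 5) (nat_lit 188) (nat_lit 205) (nat_lit 207))) (PT.nd (nat_lit 78) (PT.lf (nat_lit 4636) (nat_lit 6) (nat_lit 61) (nat_lit 5) (nat_lit 189) (nat_lit 205) (nat_lit 206)) (PT.lf (nat_lit 4864) (nat_lit 3) (nat_lit 64) (nat_lit 4) (nat_lit 190) (nat_lit 205) (nat_lit 205))))) (PT.nd (nat_lit 312) (PT.nd (nat_lit 156) (PT.nd (nat_lit 78) (PT.lf (nat_lit 5092) (nat_lit 6) (nat_lit 67) (nat_lit 4) (nat_lit 191) (nat_lit 205) (nat_lit 204)) (PT.lf (nat_lit 5320) (nat_lit 6) (nat_lit 70) (nat_lit 4) (nat_lit 192) (nat_lit 205) (nat_lit 203))) (PT.nd (nat_lit 78) (PT.lf (nat_lit 5776) (nat_lit 6) (nat_lit 76) (nat_lit 4) (nat_lit 193) (nat_lit 205) (nat_lit 202)) (PT.lf (nat_lit 6232) (nat_lit 6) (nat_lit 82) (nat_lit 4) (nat_lit 194) (nat_lit 205) (nat_lit 201)))) (PT.nd (nat_lit 156) (PT.nd (nat_lit 78) (PT.lf (nat_lit 6612) (nat_lit 6) (nat_lit 87) (nat_lit 4) (nat_lit 195) (nat_lit 205)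 (nat_lit 200)) (PT.lf (nat_lit 6536) (nat_lit 6) (nat_lit 86) (nat_lit 4) (nat_lit 196) (nat_lit 205) (nat_lit 199))) (PT.nd (nat_lit 78) (PT.lf (nat_lit 6460) (nat_lit 6) (nat_lit 85) (nat_lit 4) (nat_lit 197) (nat_lit 205) (nat_lit 198)) (PT.nd (nat_lit 78) (PT.lf (nat_lit 6460) (nat_lit 6) (nat_lit 85) (nat_lit 2) (nat_lit 198) (nat_lit 205) (nat_lit 197)) (PT.lf (nat_lit 6536) (nat_lit 6) (nat_lit 86) (nat_lit 2) (nat_lit 199) (nat_lit 205) (nat_lit 196))))))))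
noncomputable def pc9 : PT := (PT.nd (nat_lit 61776) (PT.nd (nat_lit 624) (PT.nd (nat_lit 312) (PT.nd (nat_lit 156) (PT.nd (nat_lit 78) (PT.lf (nat_lit 6612) (nat_lit 6) (nat_lit 87) (nat_lit 2) (nat_lit 200) (nat_lit 205) (nat_lit 195)) (PT.lf (nat_lit 6232) (nat_lit 6) (nat_lit 82) (nat_lit 2) (nat_lit 201) (nat_lit 205) (nat_lit 194))) (PT.nd (nat_lit 78) (PT.lf (nat_lit 5776) (nat_lit 6) (nat_lit 76) (nat_lit 2) (nat_lit 202) (nat_lit 205) (nat_lit 193)) (PT.lf (nat_lit 5320) (nat_lit 6) (nat_lit 70) (nat_lit 2) (nat_lit 203) (nat_lit 205) (nat_lit 192)))) (PT.nd (nat_lit 156) (PT.nd (nat_lit 78) (PT.lf (nat_lit 5092) (nat_lit 6) (nat_lit 67) (nat_lit 2) (nat_lit 204) (nat_lit 205) (nat_lit 191)) (PT.lf (nat_lit 4864) (nat_lit 3) (nat_lit 64) (nat_lit 0) (nat_lit 205) (nat_lit 205) (nat_lit 190))) (PT.nd (nat_lit 78) (PT.lf (nat_lit 4636) (nat_lit 6) (nat_lit 61) (nat_lit 0) (nat_lit 206)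 (nat_lit 205) (nat_lit 189)) (PT.lf (nat_lit 4332) (nat_lit 6) (nat_lit 57) (nat_lit 0) (nat_lit 207) (nat_lit 205) (nat_lit 188))))) (PT.nd (nat_lit 60840) (PT.nd (nat_lit 60684) (PT.nd (nat_lit 78) (PT.lf (nat_lit 4104) (nat_lit 6) (nat_lit 54) (nat_lit 0) (nat_lit 208) (nat_lit 205) (nat_lit 187)) (PT.lf (nat_lit 3876) (nat_lit 6) (nat_lit 51) (nat_lit 0) (nat_lit 209) (nat_lit 205) (nat_lit 186))) (PT.nd (nat_lit 78) (PT.lf (nat_lit 3724) (nat_lit 6) (nat_lit 49) (nat_lit 5) (nat_lit 185) (nat_lit 206) (nat_lit 209)) (PT.lf (nat_lit 3952) (nat_lit 6) (nat_lit 52) (nat_lit 5) (nat_lit 186) (nat_lit 206) (nat_lit 208)))) (PT.nd (nat_lit 156) (PT.nd (nat_lit 78) (PT.lf (nat_lit 4180) (nat_lit 6) (nat_lit 55) (nat_lit 5) (nat_lit 187) (nat_lit 206) (nat_lit 207)) (PT.lf (nat_lit 4408) (nat_lit 3) (nat_lit 58) (nat_lit 4) (nat_lit 188) (nat_lit 206) (nat_lit 206))) (PT.nd (nat_lit 78) (PT.lf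 (nat_lit 4636) (nat_lit 6) (nat_lit 61) (nat_lit 4) (nat_lit 189) (nat_lit 206) (nat_lit 205)) (PT.lf (nat_lit 4788) (nat_lit 6) (nat_lit 63) (nat_lit 4) (nat_lit 190) (nat_lit 206) (nat_lit 204)))))) (PT.nd (nat_lit 624) (PT.nd (nat_lit 312) (PT.nd (nat_lit 156) (PT.nd (nat_lit 78) (PT.lf (nat_lit 5016) (nat_lit 6) (nat_lit 66) (nat_lit 4) (nat_lit 191) (nat_lit 206) (nat_lit 203)) (PT.lf (nat_lit 5244) (nat_lit 6) (nat_lit 69) (nat_lit 4) (nat_lit 192) (nat_lit 206) (nat_lit 202))) (PT.nd (nat_lit 78) (PT.lf (nat_lit 5700) (nat_lit 6) (nat_lit 75) (nat_lit 4) (nat_lit 193) (nat_lit 206) (nat_lit 201)) (PT.lf (nat_lit 6156) (nat_lit 6) (nat_lit 81) (nat_lit 4) (nat_lit 194) (nat_lit 206) (nat_lit 200)))) (PT.nd (nat_lit 156) (PT.nd (nat_lit 78) (PT.lf (nat_lit 6080) (nat_lit 6) (nat_lit 80) (nat_lit 4) (nat_lit 195) (nat_lit 206) (nat_lit 199)) (PT.lf (nat_lit 6004) (nat_lit 6) (nat_lit 79)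 (nat_lit 4) (nat_lit 196) (nat_lit 206) (nat_lit 198))) (PT.nd (nat_lit 78) (PT.lf (nat_lit 5928) (nat_lit 3) (nat_lit 78) (nat_lit 2) (nat_lit 197) (nat_lit 206) (nat_lit 197)) (PT.lf (nat_lit 6004) (nat_lit 6) (nat_lit 79) (nat_lit 2) (nat_lit 198) (nat_lit 206) (nat_lit 196))))) (PT.nd (nat_lit 312) (PT.nd (nat_lit 156) (PT.nd (nat_lit 78) (PT.lf (nat_lit 6080) (nat_lit 6) (nat_lit 80) (nat_lit 2) (nat_lit 199) (nat_lit 206) (nat_lit 195)) (PT.lf (nat_lit 6156) (nat_lit 6) (nat_lit 81) (nat_lit 2) (nat_lit 200) (nat_lit 206) (nat_lit 194))) (PT.nd (nat_lit 78) (PT.lf (nat_lit 5700) (nat_lit 6) (nat_lit 75) (nat_lit 2) (nat_lit 201) (nat_lit 206) (nat_lit 193)) (PT.lf (nat_lit 5244) (nat_lit 6) (nat_lit 69) (nat_lit 2) (nat_lit 202) (nat_lit 206) (nat_lit 192)))) (PT.nd (nat_lit 156) (PT.nd (nat_lit 78) (PT.lf (nat_lit 5016) (nat_lit 6) (nat_lit 66) (nat_lit 2) (nat_lit 203) (nat_lit 206)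 (nat_lit 191)) (PT.lf (nat_lit 4788) (nat_lit 6) (nat_lit 63) (nat_lit 2) (nat_lit 204) (nat_lit 206) (nat_lit 190))) (PT.nd (nat_lit 78) (PT.lf (nat_lit 4636) (nat_lit 6) (nat_lit 61) (nat_lit 2) (nat_lit 205) (nat_lit 206) (nat_lit 189)) (PT.nd (nat_lit 78) (PT.lf (nat_lit 4408) (nat_lit 3) (nat_lit 58) (nat_lit 0) (nat_lit 206) (nat_lit 206) (nat_lit 188)) (PT.lf (nat_lit 4180) (nat_lit 6) (nat_lit 55) (nat_lit 0) (nat_lit 207) (nat_lit 206) (nat_lit 187))))))))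
noncomputable def pc10 : PT := (PT.nd (nat_lit 61776) (PT.nd (nat_lit 60996) (PT.nd (nat_lit 60684) (PT.nd (nat_lit 60528) (PT.nd (nat_lit 78) (PT.lf (nat_lit 3952) (nat_lit 6) (nat_lit 52) (nat_lit 0) (nat_lit 208) (nat_lit 206) (nat_lit 186)) (PT.lf (nat_lit 3724) (nat_lit 6) (nat_lit 49) (nat_lit 0) (nat_lit 209) (nat_lit 206) (nat_lit 185))) (PT.nd (nat_lit 78) (PT.lf (nat_lit 3420) (nat_lit 6) (nat_lit 45) (nat_lit 5) (nat_lit 183) (nat_lit 207) (nat_lit 210)) (PT.lf (nat_lit 3572) (nat_lit 6) (nat_lit 47) (nat_lit 5) (nat_lit 184) (nat_lit 207) (nat_lit 209)))) (PT.nd (nat_lit 156) (PT.nd (nat_lit 78) (PT.lf (nat_lit 3800) (nat_lit 6) (nat_lit 50) (nat_lit 5) (nat_lit 185) (nat_lit 207) (nat_lit 208)) (PT.lf (nat_lit 4028) (nat_lit 3) (nat_lit 53) (nat_lit 4) (nat_lit 186) (nat_lit 207) (nat_lit 207))) (PT.nd (nat_lit 78) (PT.lf (nat_lit 4180) (nat_lit 6) (nat_lit 55) (nat_lit 4) (nat_lit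 187) (nat_lit 207) (nat_lit 206)) (PT.lf (nat_lit 4332) (nat_lit 6) (nat_lit 57) (nat_lit 4) (nat_lit 188) (nat_lit 207) (nat_lit 205))))) (PT.nd (nat_lit 312) (PT.nd (nat_lit 156) (PT.nd (nat_lit 78) (PT.lf (nat_lit 4560) (nat_lit 6) (nat_lit 60) (nat_lit 4) (nat_lit 189) (nat_lit 207) (nat_lit 204)) (PT.lf (nat_lit 4712) (nat_lit 6) (nat_lit 62) (nat_lit 4) (nat_lit 190) (nat_lit 207) (nat_lit 203))) (PT.nd (nat_lit 78) (PT.lf (nat_lit 4940) (nat_lit 6) (nat_lit 65) (nat_lit 4) (nat_lit 191) (nat_lit 207) (nat_lit 202)) (PT.lf (nat_lit 5168) (nat_lit 6) (nat_lit 68) (nat_lit 4) (nat_lit 192) (nat_lit 207) (nat_lit 201)))) (PT.nd (nat_lit 156) (PT.nd (nat_lit 78) (PT.lf (nat_lit 5624) (nat_lit 6) (nat_lit 74) (nat_lit 4) (nat_lit 193) (nat_lit 207) (nat_lit 200)) (PT.lf (nat_lit 5548) (nat_lit 6) (nat_lit 73) (nat_lit 4) (nat_lit 194) (nat_lit 207) (nat_lit 199))) (PT.nd (nat_lit 234) (PT.lf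 (nat_lit 5472) (nat_lit 6) (nat_lit 72) (nat_lit 4) (nat_lit 195) (nat_lit 207) (nat_lit 198)) (PT.lf (nat_lit 5472) (nat_lit 6) (nat_lit 72) (nat_lit 2) (nat_lit 198) (nat_lit 207) (nat_lit 195)))))) (PT.nd (nat_lit 624) (PT.nd (nat_lit 312) (PT.nd (nat_lit 156) (PT.nd (nat_lit 78) (PT.lf (nat_lit 5548) (nat_lit 6) (nat_lit 73) (nat_lit 2) (nat_lit 199) (nat_lit 207) (nat_lit 194)) (PT.lf (nat_lit 5624) (nat_lit 6) (nat_lit 74) (nat_lit 2) (nat_lit 200) (nat_lit 207) (nat_lit 193))) (PT.nd (nat_lit 78) (PT.lf (nat_lit 5168) (nat_lit 6) (nat_lit 68) (nat_lit 2) (nat_lit 201) (nat_lit 207) (nat_lit 192)) (PT.lf (nat_lit 4940) (nat_lit 6) (nat_lit 65) (nat_lit 2) (nat_lit 202) (nat_lit 207) (nat_lit 191)))) (PT.nd (nat_lit 156) (PT.nd (nat_lit 78) (PT.lf (nat_lit 4712) (nat_lit 6) (nat_lit 62) (nat_lit 2) (nat_lit 203) (nat_lit 207) (nat_lit 190)) (PT.lf (nat_lit 4560) (nat_lit 6) (nat_lit 60)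 (nat_lit 2) (nat_lit 204) (nat_lit 207) (nat_lit 189))) (PT.nd (nat_lit 78) (PT.lf (nat_lit 4332) (nat_lit 6) (nat_lit 57) (nat_lit 2) (nat_lit 205) (nat_lit 207) (nat_lit 188)) (PT.lf (nat_lit 4180) (nat_lit 6) (nat_lit 55) (nat_lit 2) (nat_lit 206) (nat_lit 207) (nat_lit 187))))) (PT.nd (nat_lit 60450) (PT.nd (nat_lit 156) (PT.nd (nat_lit 78) (PT.lf (nat_lit 4028) (nat_lit 3) (nat_lit 53) (nat_lit 0) (nat_lit 207) (nat_lit 207) (nat_lit 186)) (PT.lf (nat_lit 3800) (nat_lit 6) (nat_lit 50) (nat_lit 0) (nat_lit 208) (nat_lit 207) (nat_lit 185))) (PT.nd (nat_lit 78) (PT.lf (nat_lit 3572) (nat_lit 6) (nat_lit 47) (nat_lit 0) (nat_lit 209) (nat_lit 207) (nat_lit 184)) (PT.lf (nat_lit 3420) (nat_lit 6) (nat_lit 45) (nat_lit 0) (nat_lit 210) (nat_lit 207) (nat_lit 183)))) (PT.nd (nat_lit 156) (PT.nd (nat_lit 78) (PT.lf (nat_lit 3116) (nat_lit 6) (nat_lit 41) (nat_lit 5) (nat_lit 181) (nat_lit 208)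 (nat_lit 211)) (PT.lf (nat_lit 3268) (nat_lit 6) (nat_lit 43) (nat_lit 5) (nat_lit 182) (nat_lit 208) (nat_lit 210))) (PT.nd (nat_lit 78) (PT.lf (nat_lit 3496) (nat_lit 6) (nat_lit 46) (nat_lit 5) (nat_lit 183) (nat_lit 208) (nat_lit 209)) (PT.nd (nat_lit 78) (PT.lf (nat_lit 3648) (nat_lit 3) (nat_lit 48) (nat_lit 4) (nat_lit 184) (nat_lit 208) (nat_lit 208)) (PT.lf (nat_lit 3800) (nat_lit 6) (nat_lit 50) (nat_lit 4) (nat_lit 185) (nat_lit 208) (nat_lit 207))))))))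
noncomputable def pc11 : PT := (PT.nd (nat_lit 62244) (PT.nd (nat_lit 1638) (PT.nd (nat_lit 1326) (PT.nd (nat_lit 156) (PT.nd (nat_lit 78) (PT.lf (nat_lit 3952) (nat_lit 6) (nat_lit 52) (nat_lit 4) (nat_lit 186) (nat_lit 208) (nat_lit 206)) (PT.lf (nat_lit 4104) (nat_lit 6) (nat_lit 54) (nat_lit 4) (nat_lit 187) (nat_lit 208) (nat_lit 205))) (PT.nd (nat_lit 78) (PT.lf (nat_lit 4256) (nat_lit 6) (nat_lit 56) (nat_lit 4) (nat_lit 188) (nat_lit 208) (nat_lit 204)) (PT.lf (nat_lit 4484) (nat_lit 6) (nat_lit 59) (nat_lit 4) (nat_lit 189) (nat_lit 208) (nat_lit 203)))) (PT.nd (nat_lit 156) (PT.nd (nat_lit 78) (PT.lf (nat_lit 4484) (nat_lit 6) (nat_lit 59) (nat_lit 2) (nat_lit 203) (nat_lit 208) (nat_lit 189)) (PT.lf (nat_lit 4256) (nat_lit 6) (nat_lit 56) (nat_lit 2) (nat_lit 204) (nat_lit 208) (nat_lit 188))) (PT.nd (nat_lit 78) (PT.lf (nat_lit 4104) (nat_lit 6) (nat_lit 54) (nat_lit 2) (nat_lit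 205) (nat_lit 208) (nat_lit 187)) (PT.lf (nat_lit 3952) (nat_lit 6) (nat_lit 52) (nat_lit 2) (nat_lit 206) (nat_lit 208) (nat_lit 186))))) (PT.nd (nat_lit 312) (PT.nd (nat_lit 156) (PT.nd (nat_lit 78) (PT.lf (nat_lit 3800) (nat_lit 6) (nat_lit 50) (nat_lit 2) (nat_lit 207) (nat_lit 208) (nat_lit 185)) (PT.lf (nat_lit 3648) (nat_lit 3) (nat_lit 48) (nat_lit 0) (nat_lit 208) (nat_lit 208) (nat_lit 184))) (PT.nd (nat_lit 78) (PT.lf (nat_lit 3496) (nat_lit 6) (nat_lit 46) (nat_lit 0) (nat_lit 209) (nat_lit 208) (nat_lit 183)) (PT.lf (nat_lit 3268) (nat_lit 6) (nat_lit 43) (nat_lit 0) (nat_lit 210) (nat_lit 208) (nat_lit 182)))) (PT.nd (nat_lit 60060) (PT.nd (nat_lit 59982) (PT.lf (nat_lit 3116) (nat_lit 6) (nat_lit 41) (nat_lit 0) (nat_lit 211) (nat_lit 208) (nat_lit 181)) (PT.lf (nat_lit 2812) (nat_lit 6) (nat_lit 37) (nat_lit 5) (nat_lit 179) (nat_lit 209) (nat_lit 212))) (PT.nd (nat_lit 78)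 (PT.lf (nat_lit 2964) (nat_lit 6) (nat_lit 39) (nat_lit 5) (nat_lit 180) (nat_lit 209) (nat_lit 211)) (PT.nd (nat_lit 78) (PT.lf (nat_lit 3192) (nat_lit 6) (nat_lit 42) (nat_lit 5) (nat_lit 181) (nat_lit 209) (nat_lit 210)) (PT.lf (nat_lit 3344) (nat_lit 3) (nat_lit 44) (nat_lit 4) (nat_lit 182) (nat_lit 209) (nat_lit 209))))))) (PT.nd (nat_lit 2028) (PT.nd (nat_lit 1716) (PT.nd (nat_lit 156) (PT.nd (nat_lit 78) (PT.lf (nat_lit 3496) (nat_lit 6) (nat_lit 46) (nat_lit 4) (nat_lit 183) (nat_lit 209) (nat_lit 208)) (PT.lf (nat_lit 3572) (nat_lit 6) (nat_lit 47) (nat_lit 4) (nat_lit 184) (nat_lit 209) (nat_lit 207))) (PT.nd (nat_lit 78) (PT.lf (nat_lit 3724) (nat_lit 6) (nat_lit 49) (nat_lit 4) (nat_lit 185) (nat_lit 209) (nat_lit 206)) (PT.lf (nat_lit 3876) (nat_lit 6) (nat_lit 51) (nat_lit 4) (nat_lit 186) (nat_lit 209) (nat_lit 205)))) (PT.nd (nat_lit 156) (PT.nd (nat_lit 78) (PT.lf (nat_lit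 3876) (nat_lit 6) (nat_lit 51) (nat_lit 2) (nat_lit 205) (nat_lit 209) (nat_lit 186)) (PT.lf (nat_lit 3724) (nat_lit 6) (nat_lit 49) (nat_lit 2) (nat_lit 206) (nat_lit 209) (nat_lit 185))) (PT.nd (nat_lit 78) (PT.lf (nat_lit 3572) (nat_lit 6) (nat_lit 47) (nat_lit 2) (nat_lit 207) (nat_lit 209) (nat_lit 184)) (PT.lf (nat_lit 3496) (nat_lit 6) (nat_lit 46) (nat_lit 2) (nat_lit 208) (nat_lit 209) (nat_lit 183))))) (PT.nd (nat_lit 60060) (PT.nd (nat_lit 156) (PT.nd (nat_lit 78) (PT.lf (nat_lit 3344) (nat_lit 3) (nat_lit 44) (nat_lit 0) (nat_lit 209) (nat_lit 209) (nat_lit 182)) (PT.lf (nat_lit 3192) (nat_lit 6) (nat_lit 42) (nat_lit 0) (nat_lit 210) (nat_lit 209) (nat_lit 181))) (PT.nd (nat_lit 78) (PT.lf (nat_lit 2964) (nat_lit 6) (nat_lit 39) (nat_lit 0) (nat_lit 211) (nat_lit 209) (nat_lit 180)) (PT.lf (nat_lit 2812) (nat_lit 6) (nat_lit 37) (nat_lit 0) (nat_lit 212) (nat_lit 209) (nat_lit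 179)))) (PT.nd (nat_lit 156) (PT.nd (nat_lit 78) (PT.lf (nat_lit 2660) (nat_lit 6) (nat_lit 35) (nat_lit 5) (nat_lit 178) (nat_lit 210) (nat_lit 212)) (PT.lf (nat_lit 2888) (nat_lit 6) (nat_lit 38) (nat_lit 5) (nat_lit 179) (nat_lit 210) (nat_lit 211))) (PT.nd (nat_lit 78) (PT.lf (nat_lit 3040) (nat_lit 3) (nat_lit 40) (nat_lit 4) (nat_lit 180) (nat_lit 210) (nat_lit 210)) (PT.nd (nat_lit 78) (PT.lf (nat_lit 3192) (nat_lit 6) (nat_lit 42) (nat_lit 4) (nat_lit 181) (nat_lit 210) (nat_lit 209)) (PT.lf (nat_lit 3268) (nat_lit 6) (nat_lit 43) (nat_lit 4) (nat_lit 182) (nat_lit 210) (nat_lit 208))))))))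
noncomputable def pc12 : PT := (PT.nd (nat_lit 64662) (PT.nd (nat_lit 62010) (PT.nd (nat_lit 2106) (PT.nd (nat_lit 1950) (PT.nd (nat_lit 1872) (PT.lf (nat_lit 3420) (nat_lit 6) (nat_lit 45) (nat_lit 4) (nat_lit 183) (nat_lit 210) (nat_lit 207)) (PT.lf (nat_lit 3420) (nat_lit 6) (nat_lit 45) (nat_lit 2) (nat_lit 207) (nat_lit 210) (nat_lit 183))) (PT.nd (nat_lit 78) (PT.lf (nat_lit 3268) (nat_lit 6) (nat_lit 43) (nat_lit 2) (nat_lit 208) (nat_lit 210) (nat_lit 182)) (PT.lf (nat_lit 3192) (nat_lit 6) (nat_lit 42) (nat_lit 2) (nat_lit 209) (nat_lit 210) (nat_lit 181)))) (PT.nd (nat_lit 156) (PT.nd (nat_lit 78) (PT.lf (nat_lit 3040) (nat_lit 3) (nat_lit 40) (nat_lit 0) (nat_lit 210) (nat_lit 210) (nat_lit 180)) (PT.lf (nat_lit 2888) (nat_lit 6) (nat_lit 38) (nat_lit 0) (nat_lit 211) (nat_lit 210) (nat_lit 179))) (PT.nd (nat_lit 59670) (PT.lf (nat_lit 2660) (nat_lit 6) (nat_lit 35) (nat_lit 0) (nat_lit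 212) (nat_lit 210) (nat_lit 178)) (PT.lf (nat_lit 2432) (nat_lit 6) (nat_lit 32) (nat_lit 5) (nat_lit 176) (nat_lit 211) (nat_lit 213))))) (PT.nd (nat_lit 312) (PT.nd (nat_lit 156) (PT.nd (nat_lit 78) (PT.lf (nat_lit 2584) (nat_lit 6) (nat_lit 34) (nat_lit 5) (nat_lit 177) (nat_lit 211) (nat_lit 212)) (PT.lf (nat_lit 2736) (nat_lit 3) (nat_lit 36) (nat_lit 4) (nat_lit 178) (nat_lit 211) (nat_lit 211))) (PT.nd (nat_lit 78) (PT.lf (nat_lit 2888) (nat_lit 6) (nat_lit 38) (nat_lit 4) (nat_lit 179) (nat_lit 211) (nat_lit 210)) (PT.lf (nat_lit 2964) (nat_lit 6) (nat_lit 39) (nat_lit 4) (nat_lit 180) (nat_lit 211) (nat_lit 209)))) (PT.nd (nat_lit 2184) (PT.nd (nat_lit 2106) (PT.lf (nat_lit 3116) (nat_lit 6) (nat_lit 41) (nat_lit 4) (nat_lit 181) (nat_lit 211) (nat_lit 208)) (PT.lf (nat_lit 3116) (nat_lit 6) (nat_lit 41) (nat_lit 2) (nat_lit 208) (nat_lit 211) (nat_lit 181))) (PT.nd (nat_lit 78) (PT.lf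 (nat_lit 2964) (nat_lit 6) (nat_lit 39) (nat_lit 2) (nat_lit 209) (nat_lit 211) (nat_lit 180)) (PT.lf (nat_lit 2888) (nat_lit 6) (nat_lit 38) (nat_lit 2) (nat_lit 210) (nat_lit 211) (nat_lit 179)))))) (PT.nd (nat_lit 59982) (PT.nd (nat_lit 59670) (PT.nd (nat_lit 156) (PT.nd (nat_lit 78) (PT.lf (nat_lit 2736) (nat_lit 3) (nat_lit 36) (nat_lit 0) (nat_lit 211) (nat_lit 211) (nat_lit 178)) (PT.lf (nat_lit 2584) (nat_lit 6) (nat_lit 34) (nat_lit 0) (nat_lit 212) (nat_lit 211) (nat_lit 177))) (PT.nd (nat_lit 59436) (PT.lf (nat_lit 2432) (nat_lit 6) (nat_lit 32) (nat_lit 0) (nat_lit 213) (nat_lit 211) (nat_lit 176)) (PT.lf (nat_lit 2204) (nat_lit 6) (nat_lit 29) (nat_lit 5) (nat_lit 174) (nat_lit 212) (nat_lit 214)))) (PT.nd (nat_lit 156) (PT.nd (nat_lit 78) (PT.lf (nat_lit 2356) (nat_lit 6) (nat_lit 31) (nat_lit 5) (nat_lit 175) (nat_lit 212) (nat_lit 213)) (PT.lf (nat_lit 2508) (nat_lit 3) (nat_lit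 33) (nat_lit 4) (nat_lit 176) (nat_lit 212) (nat_lit 212))) (PT.nd (nat_lit 78) (PT.lf (nat_lit 2584) (nat_lit 6) (nat_lit 34) (nat_lit 4) (nat_lit 177) (nat_lit 212) (nat_lit 211)) (PT.lf (nat_lit 2660) (nat_lit 6) (nat_lit 35) (nat_lit 4) (nat_lit 178) (nat_lit 212) (nat_lit 210))))) (PT.nd (nat_lit 2574) (PT.nd (nat_lit 2418) (PT.nd (nat_lit 2340) (PT.lf (nat_lit 2812) (nat_lit 6) (nat_lit 37) (nat_lit 4) (nat_lit 179) (nat_lit 212) (nat_lit 209)) (PT.lf (nat_lit 2812) (nat_lit 6) (nat_lit 37) (nat_lit 2) (nat_lit 209) (nat_lit 212) (nat_lit 179))) (PT.nd (nat_lit 78) (PT.lf (nat_lit 2660) (nat_lit 6) (nat_lit 35) (nat_lit 2) (nat_lit 210) (nat_lit 212) (nat_lit 178)) (PT.lf (nat_lit 2584) (nat_lit 6) (nat_lit 34) (nat_lit 2) (nat_lit 211) (nat_lit 212) (nat_lit 177)))) (PT.nd (nat_lit 156) (PT.nd (nat_lit 78) (PT.lf (nat_lit 2508) (nat_lit 3) (nat_lit 33) (nat_lit 0) (nat_lit 212) (nat_lit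 212) (nat_lit 176)) (PT.lf (nat_lit 2356) (nat_lit 6) (nat_lit 31) (nat_lit 0) (nat_lit 213) (nat_lit 212) (nat_lit 175))) (PT.nd (nat_lit 59202) (PT.lf (nat_lit 2204) (nat_lit 6) (nat_lit 29) (nat_lit 0) (nat_lit 214) (nat_lit 212) (nat_lit 174)) (PT.nd (nat_lit 78) (PT.lf (nat_lit 1976) (nat_lit 6) (nat_lit 26) (nat_lit 5) (nat_lit 172) (nat_lit 213) (nat_lit 215)) (PT.lf (nat_lit 2128) (nat_lit 6) (nat_lit 28) (nat_lit 5) (nat_lit 173) (nat_lit 213) (nat_lit 214))))))))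
noncomputable def pc13 : PT := (PT.nd (nat_lit 65676) (PT.nd (nat_lit 62166) (PT.nd (nat_lit 2964) (PT.nd (nat_lit 156) (PT.nd (nat_lit 78) (PT.lf (nat_lit 2280) (nat_lit 3) (nat_lit 30) (nat_lit 4) (nat_lit 174) (nat_lit 213) (nat_lit 213)) (PT.lf (nat_lit 2356) (nat_lit 6) (nat_lit 31) (nat_lit 4) (nat_lit 175) (nat_lit 213) (nat_lit 212))) (PT.nd (nat_lit 2730) (PT.lf (nat_lit 2432) (nat_lit 6) (nat_lit 32) (nat_lit 4) (nat_lit 176) (nat_lit 213) (nat_lit 211)) (PT.lf (nat_lit 2432) (nat_lit 6) (nat_lit 32) (nat_lit 2) (nat_lit 211) (nat_lit 213) (nat_lit 176)))) (PT.nd (nat_lit 156) (PT.nd (nat_lit 78) (PT.lf (nat_lit 2356) (nat_lit 6) (nat_lit 31) (nat_lit 2) (nat_lit 212) (nat_lit 213) (nat_lit 175)) (PT.lf (nat_lit 2280) (nat_lit 3) (nat_lit 30) (nat_lit 0) (nat_lit 213) (nat_lit 213) (nat_lit 174))) (PT.nd (nat_lit 78) (PT.lf (nat_lit 2128) (nat_lit 6) (nat_lit 28) (nat_lit 0) (nat_lit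 214) (nat_lit 213) (nat_lit 173)) (PT.lf (nat_lit 1976) (nat_lit 6) (nat_lit 26) (nat_lit 0) (nat_lit 215) (nat_lit 213) (nat_lit 172))))) (PT.nd (nat_lit 312) (PT.nd (nat_lit 156) (PT.nd (nat_lit 78) (PT.lf (nat_lit 1748) (nat_lit 6) (nat_lit 23) (nat_lit 5) (nat_lit 170) (nat_lit 214) (nat_lit 216)) (PT.lf (nat_lit 1900) (nat_lit 6) (nat_lit 25) (nat_lit 5) (nat_lit 171) (nat_lit 214) (nat_lit 215))) (PT.nd (nat_lit 78) (PT.lf (nat_lit 2052) (nat_lit 3) (nat_lit 27) (nat_lit 4) (nat_lit 172) (nat_lit 214) (nat_lit 214)) (PT.lf (nat_lit 2128) (nat_lit 6) (nat_lit 28) (nat_lit 4) (nat_lit 173) (nat_lit 214) (nat_lit 213)))) (PT.nd (nat_lit 3042) (PT.nd (nat_lit 2964) (PT.lf (nat_lit 2204) (nat_lit 6) (nat_lit 29) (nat_lit 4) (nat_lit 174) (nat_lit 214) (nat_lit 212)) (PT.lf (nat_lit 2204) (nat_lit 6) (nat_lit 29) (nat_lit 2) (nat_lit 212) (nat_lit 214) (nat_lit 174))) (PT.nd (nat_lit 78) (PT.lf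 (nat_lit 2128) (nat_lit 6) (nat_lit 28) (nat_lit 2) (nat_lit 213) (nat_lit 214) (nat_lit 173)) (PT.lf (nat_lit 2052) (nat_lit 3) (nat_lit 27) (nat_lit 0) (nat_lit 214) (nat_lit 214) (nat_lit 172)))))) (PT.nd (nat_lit 62400) (PT.nd (nat_lit 58968) (PT.nd (nat_lit 58812) (PT.nd (nat_lit 78) (PT.lf (nat_lit 1900) (nat_lit 6) (nat_lit 25) (nat_lit 0) (nat_lit 215) (nat_lit 214) (nat_lit 171)) (PT.lf (nat_lit 1748) (nat_lit 6) (nat_lit 23) (nat_lit 0) (nat_lit 216) (nat_lit 214) (nat_lit 170))) (PT.nd (nat_lit 78) (PT.lf (nat_lit 1520) (nat_lit 6) (nat_lit 20) (nat_lit 5) (nat_lit 168) (nat_lit 215) (nat_lit 217)) (PT.lf (nat_lit 1672) (nat_lit 6) (nat_lit 22) (nat_lit 5) (nat_lit 169) (nat_lit 215) (nat_lit 216)))) (PT.nd (nat_lit 156) (PT.nd (nat_lit 78) (PT.lf (nat_lit 1824) (nat_lit 3) (nat_lit 24) (nat_lit 4) (nat_lit 170) (nat_lit 215) (nat_lit 215)) (PT.lf (nat_lit 1900) (nat_lit 6) (nat_lit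 25) (nat_lit 4) (nat_lit 171) (nat_lit 215) (nat_lit 214))) (PT.nd (nat_lit 3198) (PT.lf (nat_lit 1976) (nat_lit 6) (nat_lit 26) (nat_lit 4) (nat_lit 172) (nat_lit 215) (nat_lit 213)) (PT.lf (nat_lit 1976) (nat_lit 6) (nat_lit 26) (nat_lit 2) (nat_lit 213) (nat_lit 215) (nat_lit 172))))) (PT.nd (nat_lit 58734) (PT.nd (nat_lit 156) (PT.nd (nat_lit 78) (PT.lf (nat_lit 1900) (nat_lit 6) (nat_lit 25) (nat_lit 2) (nat_lit 214) (nat_lit 215) (nat_lit 171)) (PT.lf (nat_lit 1824) (nat_lit 3) (nat_lit 24) (nat_lit 0) (nat_lit 215) (nat_lit 215) (nat_lit 170))) (PT.nd (nat_lit 78) (PT.lf (nat_lit 1672) (nat_lit 6) (nat_lit 22) (nat_lit 0) (nat_lit 216) (nat_lit 215) (nat_lit 169)) (PT.lf (nat_lit 1520) (nat_lit 6) (nat_lit 20) (nat_lit 0) (nat_lit 217) (nat_lit 215) (nat_lit 168)))) (PT.nd (nat_lit 156) (PT.nd (nat_lit 78) (PT.lf (nat_lit 1292) (nat_lit 6) (nat_lit 17) (nat_lit 5) (nat_lit 166) (nat_lit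 216) (nat_lit 218)) (PT.lf (nat_lit 1444) (nat_lit 6) (nat_lit 19) (nat_lit 5) (nat_lit 167) (nat_lit 216) (nat_lit 217))) (PT.nd (nat_lit 78) (PT.lf (nat_lit 1596) (nat_lit 3) (nat_lit 21) (nat_lit 4) (nat_lit 168) (nat_lit 216) (nat_lit 216)) (PT.nd (nat_lit 78) (PT.lf (nat_lit 1672) (nat_lit 6) (nat_lit 22) (nat_lit 4) (nat_lit 169) (nat_lit 216) (nat_lit 215)) (PT.lf (nat_lit 1748) (nat_lit 6) (nat_lit 23) (nat_lit 4) (nat_lit 170) (nat_lit 216) (nat_lit 214))))))))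
noncomputable def pc14 : PT := (PT.nd (nat_lit 120978) (PT.nd (nat_lit 58812) (PT.nd (nat_lit 312) (PT.nd (nat_lit 156) (PT.nd (nat_lit 78) (PT.lf (nat_lit 1748) (nat_lit 6) (nat_lit 23) (nat_lit 2) (nat_lit 214) (nat_lit 216) (nat_lit 170)) (PT.lf (nat_lit 1672) (nat_lit 6) (nat_lit 22) (nat_lit 2) (nat_lit 215) (nat_lit 216) (nat_lit 169))) (PT.nd (nat_lit 78) (PT.lf (nat_lit 1596) (nat_lit 3) (nat_lit 21) (nat_lit 0) (nat_lit 216) (nat_lit 216) (nat_lit 168)) (PT.lf (nat_lit 1444) (nat_lit 6) (nat_lit 19) (nat_lit 0) (nat_lit 217) (nat_lit 216) (nat_lit 167)))) (PT.nd (nat_lit 58344) (PT.nd (nat_lit 58266) (PT.lf (nat_lit 1292) (nat_lit 6) (nat_lit 17) (nat_lit 0) (nat_lit 218) (nat_lit 216) (nat_lit 166)) (PT.lf (nat_lit 1064) (nat_lit 6) (nat_lit 14) (nat_lit 5) (nat_lit 164) (nat_lit 217) (nat_lit 219))) (PT.nd (nat_lit 78) (PT.lf (nat_lit 1216) (nat_lit 6) (nat_lit 16) (nat_lit 5) (nat_lit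 165) (nat_lit 217) (nat_lit 218)) (PT.lf (nat_lit 1368) (nat_lit 3) (nat_lit 18) (nat_lit 4) (nat_lit 166) (nat_lit 217) (nat_lit 217))))) (PT.nd (nat_lit 3900) (PT.nd (nat_lit 3744) (PT.nd (nat_lit 78) (PT.lf (nat_lit 1444) (nat_lit 6) (nat_lit 19) (nat_lit 4) (nat_lit 167) (nat_lit 217) (nat_lit 216)) (PT.lf (nat_lit 1520) (nat_lit 6) (nat_lit 20) (nat_lit 4) (nat_lit 168) (nat_lit 217) (nat_lit 215))) (PT.nd (nat_lit 78) (PT.lf (nat_lit 1520) (nat_lit 6) (nat_lit 20) (nat_lit 2) (nat_lit 215) (nat_lit 217) (nat_lit 168)) (PT.lf (nat_lit 1444) (nat_lit 6) (nat_lit 19) (nat_lit 2) (nat_lit 216) (nat_lit 217) (nat_lit 167)))) (PT.nd (nat_lit 156) (PT.nd (nat_lit 78) (PT.lf (nat_lit 1368) (nat_lit 3) (nat_lit 18) (nat_lit 0) (nat_lit 217) (nat_lit 217) (nat_lit 166)) (PT.lf (nat_lit 1216) (nat_lit 6) (nat_lit 16) (nat_lit 0) (nat_lit 218) (nat_lit 217) (nat_lit 165))) (PT.nd (nat_lit 58032)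 (PT.lf (nat_lit 1064) (nat_lit 6) (nat_lit 14) (nat_lit 0) (nat_lit 219) (nat_lit 217) (nat_lit 164)) (PT.lf (nat_lit 836) (nat_lit 6) (nat_lit 11) (nat_lit 5) (nat_lit 162) (nat_lit 218) (nat_lit 220)))))) (PT.nd (nat_lit 4446) (PT.nd (nat_lit 4134) (PT.nd (nat_lit 156) (PT.nd (nat_lit 78) (PT.lf (nat_lit 988) (nat_lit 6) (nat_lit 13) (nat_lit 5) (nat_lit 163) (nat_lit 218) (nat_lit 219)) (PT.lf (nat_lit 1140) (nat_lit 3) (nat_lit 15) (nat_lit 4) (nat_lit 164) (nat_lit 218) (nat_lit 218))) (PT.nd (nat_lit 78) (PT.lf (nat_lit 1216) (nat_lit 6) (nat_lit 16) (nat_lit 4) (nat_lit 165) (nat_lit 218) (nat_lit 217)) (PT.lf (nat_lit 1292) (nat_lit 6) (nat_lit 17) (nat_lit 4) (nat_lit 166) (nat_lit 218) (nat_lit 216)))) (PT.nd (nat_lit 156) (PT.nd (nat_lit 78) (PT.lf (nat_lit 1292) (nat_lit 6) (nat_lit 17) (nat_lit 2) (nat_lit 216) (nat_lit 218) (nat_lit 166)) (PT.lf (nat_lit 1216) (nat_lit 6) (nat_lit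 16) (nat_lit 2) (nat_lit 217) (nat_lit 218) (nat_lit 165))) (PT.nd (nat_lit 78) (PT.lf (nat_lit 1140) (nat_lit 3) (nat_lit 15) (nat_lit 0) (nat_lit 218) (nat_lit 218) (nat_lit 164)) (PT.lf (nat_lit 988) (nat_lit 6) (nat_lit 13) (nat_lit 0) (nat_lit 219) (nat_lit 218) (nat_lit 163))))) (PT.nd (nat_lit 58032) (PT.nd (nat_lit 57876) (PT.nd (nat_lit 57798) (PT.lf (nat_lit 836) (nat_lit 6) (nat_lit 11) (nat_lit 0) (nat_lit 220) (nat_lit 218) (nat_lit 162)) (PT.lf (nat_lit 608) (nat_lit 6) (nat_lit 8) (nat_lit 5) (nat_lit 160) (nat_lit 219) (nat_lit 221))) (PT.nd (nat_lit 78) (PT.lf (nat_lit 760) (nat_lit 6) (nat_lit 10) (nat_lit 5) (nat_lit 161) (nat_lit 219) (nat_lit 220)) (PT.lf (nat_lit 912) (nat_lit 3) (nat_lit 12) (nat_lit 4) (nat_lit 162) (nat_lit 219) (nat_lit 219)))) (PT.nd (nat_lit 4212) (PT.nd (nat_lit 78) (PT.lf (nat_lit 988) (nat_lit 6) (nat_lit 13) (nat_lit 4) (nat_lit 163) (nat_lit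 219) (nat_lit 218)) (PT.lf (nat_lit 1064) (nat_lit 6) (nat_lit 14) (nat_lit 4) (nat_lit 164) (nat_lit 219) (nat_lit 217))) (PT.nd (nat_lit 78) (PT.lf (nat_lit 1064) (nat_lit 6) (nat_lit 14) (nat_lit 2) (nat_lit 217) (nat_lit 219) (nat_lit 164)) (PT.nd (nat_lit 78) (PT.lf (nat_lit 988) (nat_lit 6) (nat_lit 13) (nat_lit 2) (nat_lit 218) (nat_lit 219) (nat_lit 163)) (PT.lf (nat_lit 912) (nat_lit 3) (nat_lit 12) (nat_lit 0) (nat_lit 219) (nat_lit 219) (nat_lit 162))))))))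
noncomputable def pc15 : PT := (PT.nd (nat_lit 124878) (PT.nd (nat_lit 62400) (PT.nd (nat_lit 57798) (PT.nd (nat_lit 57642) (PT.nd (nat_lit 78) (PT.lf (nat_lit 760) (nat_lit 6) (nat_lit 10) (nat_lit 0) (nat_lit 220) (nat_lit 219) (nat_lit 161)) (PT.lf (nat_lit 608) (nat_lit 6) (nat_lit 8) (nat_lit 0) (nat_lit 221) (nat_lit 219) (nat_lit 160))) (PT.nd (nat_lit 78) (PT.lf (nat_lit 380) (nat_lit 6) (nat_lit 5) (nat_lit 5) (nat_lit 158) (nat_lit 220) (nat_lit 222)) (PT.lf (nat_lit 532) (nat_lit 6) (nat_lit 7) (nat_lit 5) (nat_lit 159) (nat_lit 220) (nat_lit 221)))) (PT.nd (nat_lit 156) (PT.nd (nat_lit 78) (PT.lf (nat_lit 684) (nat_lit 3) (nat_lit 9) (nat_lit 4) (nat_lit 160) (nat_lit 220) (nat_lit 220)) (PT.lf (nat_lit 760) (nat_lit 6) (nat_lit 10) (nat_lit 4) (nat_lit 161) (nat_lit 220) (nat_lit 219))) (PT.nd (nat_lit 4368) (PT.lf (nat_lit 836) (nat_lit 6) (nat_lit 11) (nat_lit 4) (nat_lit 162)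 (nat_lit 220) (nat_lit 218)) (PT.lf (nat_lit 836) (nat_lit 6) (nat_lit 11) (nat_lit 2) (nat_lit 218) (nat_lit 220) (nat_lit 162))))) (PT.nd (nat_lit 57564) (PT.nd (nat_lit 156) (PT.nd (nat_lit 78) (PT.lf (nat_lit 760) (nat_lit 6) (nat_lit 10) (nat_lit 2) (nat_lit 219) (nat_lit 220) (nat_lit 161)) (PT.lf (nat_lit 684) (nat_lit 3) (nat_lit 9) (nat_lit 0) (nat_lit 220) (nat_lit 220) (nat_lit 160))) (PT.nd (nat_lit 78) (PT.lf (nat_lit 532) (nat_lit 6) (nat_lit 7) (nat_lit 0) (nat_lit 221) (nat_lit 220) (nat_lit 159)) (PT.lf (nat_lit 380) (nat_lit 6) (nat_lit 5) (nat_lit 0) (nat_lit 222) (nat_lit 220) (nat_lit 158)))) (PT.nd (nat_lit 156) (PT.nd (nat_lit 78) (PT.lf (nat_lit 152) (nat_lit 6) (nat_lit 2) (nat_lit 5) (nat_lit 156) (nat_lit 221) (nat_lit 223)) (PT.lf (nat_lit 304) (nat_lit 6) (nat_lit 4) (nat_lit 5) (nat_lit 157) (nat_lit 221) (nat_lit 222))) (PT.nd (nat_lit 78) (PT.lf (nat_lit 456)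 (nat_lit 3) (nat_lit 6) (nat_lit 4) (nat_lit 158) (nat_lit 221) (nat_lit 221)) (PT.nd (nat_lit 78) (PT.lf (nat_lit 532) (nat_lit 6) (nat_lit 7) (nat_lit 4) (nat_lit 159) (nat_lit 221) (nat_lit 220)) (PT.lf (nat_lit 608) (nat_lit 6) (nat_lit 8) (nat_lit 4) (nat_lit 160) (nat_lit 221) (nat_lit 219))))))) (PT.nd (nat_lit 57720) (PT.nd (nat_lit 312) (PT.nd (nat_lit 156) (PT.nd (nat_lit 78) (PT.lf (nat_lit 608) (nat_lit 6) (nat_lit 8) (nat_lit 2) (nat_lit 219) (nat_lit 221) (nat_lit 160)) (PT.lf (nat_lit 532) (nat_lit 6) (nat_lit 7) (nat_lit 2) (nat_lit 220) (nat_lit 221) (nat_lit 159))) (PT.nd (nat_lit 78) (PT.lf (nat_lit 456) (nat_lit 3) (nat_lit 6) (nat_lit 0) (nat_lit 221) (nat_lit 221) (nat_lit 158)) (PT.lf (nat_lit 304) (nat_lit 6) (nat_lit 4) (nat_lit 0) (nat_lit 222) (nat_lit 221) (nat_lit 157)))) (PT.nd (nat_lit 57252) (PT.nd (nat_lit 57174) (PT.lf (nat_lit 152) (nat_lit 6) (nat_lit 2)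 (nat_lit 0) (nat_lit 223) (nat_lit 221) (nat_lit 156)) (PT.lf (nat_lit 76) (nat_lit 6) (nat_lit 1) (nat_lit 5) (nat_lit 155) (nat_lit 222) (nat_lit 223))) (PT.nd (nat_lit 78) (PT.lf (nat_lit 228) (nat_lit 3) (nat_lit 3) (nat_lit 4) (nat_lit 156) (nat_lit 222) (nat_lit 222)) (PT.lf (nat_lit 304) (nat_lit 6) (nat_lit 4) (nat_lit 4) (nat_lit 157) (nat_lit 222) (nat_lit 221))))) (PT.nd (nat_lit 5070) (PT.nd (nat_lit 4914) (PT.nd (nat_lit 4836) (PT.lf (nat_lit 380) (nat_lit 6) (nat_lit 5) (nat_lit 4) (nat_lit 158) (nat_lit 222) (nat_lit 220)) (PT.lf (nat_lit 380) (nat_lit 6) (nat_lit 5) (nat_lit 2) (nat_lit 220) (nat_lit 222) (nat_lit 158))) (PT.nd (nat_lit 78) (PT.lf (nat_lit 304) (nat_lit 6) (nat_lit 4) (nat_lit 2) (nat_lit 221) (nat_lit 222) (nat_lit 157)) (PT.lf (nat_lit 228) (nat_lit 3) (nat_lit 3) (nat_lit 0) (nat_lit 222) (nat_lit 222) (nat_lit 156)))) (PT.nd (nat_lit 57252) (PT.nd (nat_lit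 57174) (PT.lf (nat_lit 76) (nat_lit 6) (nat_lit 1) (nat_lit 0) (nat_lit 223) (nat_lit 222) (nat_lit 155)) (PT.lf (nat_lit 76) (nat_lit 6) (nat_lit 1) (nat_lit 4) (nat_lit 155) (nat_lit 223) (nat_lit 222))) (PT.nd (nat_lit 5070) (PT.lf (nat_lit 152) (nat_lit 6) (nat_lit 2) (nat_lit 4) (nat_lit 156) (nat_lit 223) (nat_lit 221)) (PT.nd (nat_lit 78) (PT.lf (nat_lit 152) (nat_lit 6) (nat_lit 2) (nat_lit 2) (nat_lit 221) (nat_lit 223) (nat_lit 156)) (PT.lf (nat_lit 76) (nat_lit 6) (nat_lit 1) (nat_lit 2) (nat_lit 222) (nat_lit 223) (nat_lit 155))))))))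
noncomputable def xc0 : XT := (XT.nd (nat_lit 311844) (nat_lit 0) (nat_lit 0) (XT.nd (nat_lit 187356) (nat_lit 0) (nat_lit 0) (XT.nd (nat_lit 124878) (nat_lit 0) (nat_lit 0) (XT.nd (nat_lit 62478) (nat_lit 0) (nat_lit 0) (XT.nd (nat_lit 62322) (nat_lit 0) (nat_lit 0) (XT.lf (nat_lit 0) (nat_lit 622461216377) (nat_lit 76) (nat_lit 63758768142) (nat_lit 76) (nat_lit 63758768142) (nat_lit 1) (nat_lit 4) (nat_lit 2) (nat_lit 5) (nat_lit 2) (nat_lit 4) (nat_lit 502) (nat_lit 349) (nat_lit 349)) (XT.nd (nat_lit 78) (nat_lit 0) (nat_lit 0) (XT.lf (nat_lit 0) (nat_lit 527997510470) (nat_lit 76) (nat_lit 57563910435) (nat_lit 76) (nat_lit 57563910435) (nat_lit 1) (nat_lit 4) (nat_lit 2) (nat_lit 5) (nat_lit 2) (nat_lit 4) (nat_lit 500) (nat_lit 350) (nat_lit 350)) (XT.lf (nat_lit 0) (nat_lit 1146903758804) (nat_lit 76) (nat_lit 121053922749) (nat_lit 76) (nat_lit 121034728680) (nat_lit 1) (nat_lit 4)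 (nat_lit 2) (nat_lit 5) (nat_lit 2) (nat_lit 4) (nat_lit 501) (nat_lit 350) (nat_lit 349)))) (XT.nd (nat_lit 62244) (nat_lit 0) (nat_lit 0) (XT.nd (nat_lit 62166) (nat_lit 0) (nat_lit 0) (XT.lf (nat_lit 0) (nat_lit 1244771726328) (nat_lit 76) (nat_lit 127613228108) (nat_lit 76) (nat_lit 127576261752) (nat_lit 1) (nat_lit 4) (nat_lit 2) (nat_lit 5) (nat_lit 2) (nat_lit 4) (nat_lit 502) (nat_lit 350) (nat_lit 348)) (XT.lf (nat_lit 0) (nat_lit 446557095929) (nat_lit 76) (nat_lit 52484901906) (nat_lit 76) (nat_lit 52484901906) (nat_lit 1) (nat_lit 4) (nat_lit 2) (nat_lit 5) (nat_lit 2) (nat_lit 4) (nat_lit 498) (nat_lit 351) (nat_lit 351))) (XT.nd (nat_lit 78) (nat_lit 0) (nat_lit 0) (XT.lf (nat_lit 0) (nat_lit 971506794290) (nat_lit 76) (nat_lit 109820534424) (nat_lit 76) (nat_lit 109799804828) (nat_lit 1) (nat_lit 4) (nat_lit 2) (nat_lit 5) (nat_lit 2) (nat_lit 4) (nat_lit 499) (nat_lit 351)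 (nat_lit 350)) (XT.lf (nat_lit 0) (nat_lit 1055832257999) (nat_lit 76) (nat_lit 115231168039) (nat_lit 76) (nat_lit 115191244375) (nat_lit 1) (nat_lit 4) (nat_lit 2) (nat_lit 5) (nat_lit 2) (nat_lit 4) (nat_lit 500) (nat_lit 351) (nat_lit 349))))) (XT.nd (nat_lit 62166) (nat_lit 0) (nat_lit 0) (XT.nd (nat_lit 78) (nat_lit 0) (nat_lit 0) (XT.lf (nat_lit 0) (nat_lit 1146590289435) (nat_lit 76) (nat_lit 121233767673) (nat_lit 76) (nat_lit 121176071722) (nat_lit 1) (nat_lit 4) (nat_lit 2) (nat_lit 5) (nat_lit 2) (nat_lit 4) (nat_lit 501) (nat_lit 351) (nat_lit 348)) (XT.nd (nat_lit 62010) (nat_lit 0) (nat_lit 0) (XT.lf (nat_lit 0) (nat_lit 1244318713971) (nat_lit 76) (nat_lit 127863904286) (nat_lit 76) (nat_lit 127789752514) (nat_lit 1) (nat_lit 4) (nat_lit 2) (nat_lit 5) (nat_lit 2) (nat_lit 4) (nat_lit 502) (nat_lit 351) (nat_lit 347)) (XT.lf (nat_lit 0) (nat_lit 376245813656) (nat_lit 76) (nat_lit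 48381120872) (nat_lit 76) (nat_lit 48381120872) (nat_lit 1) (nat_lit 4) (nat_lit 2) (nat_lit 5) (nat_lit 2) (nat_lit 4) (nat_lit 496) (nat_lit 352) (nat_lit 352)))) (XT.nd (nat_lit 156) (nat_lit 0) (nat_lit 0) (XT.nd (nat_lit 78) (nat_lit 0) (nat_lit 0) (XT.lf (nat_lit 0) (nat_lit 820189901947) (nat_lit 76) (nat_lit 100672619096) (nat_lit 76) (nat_lit 100650231134) (nat_lit 1) (nat_lit 4) (nat_lit 2) (nat_lit 5) (nat_lit 2) (nat_lit 4) (nat_lit 497) (nat_lit 352) (nat_lit 351)) (XT.lf (nat_lit 0) (nat_lit 892938407881) (nat_lit 76) (nat_lit 105081418755) (nat_lit 76) (nat_lit 105038301197) (nat_lit 1) (nat_lit 4) (nat_lit 2) (nat_lit 5) (nat_lit 2) (nat_lit 4) (nat_lit 498) (nat_lit 352) (nat_lit 350))) (XT.nd (nat_lit 78) (nat_lit 0) (nat_lit 0) (XT.lf (nat_lit 0) (nat_lit 971168247372) (nat_lit 76) (nat_lit 110014766941) (nat_lit 76) (nat_lit 109952455314) (nat_lit 1) (nat_lit 4) (nat_lit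 2) (nat_lit 5) (nat_lit 2) (nat_lit 4) (nat_lit 499) (nat_lit 352) (nat_lit 349)) (XT.lf (nat_lit 0) (nat_lit 1055343004653) (nat_lit 76) (nat_lit 115501898311) (nat_lit 76) (nat_lit 115421814398) (nat_lit 1) (nat_lit 4) (nat_lit 2) (nat_lit 5) (nat_lit 2) (nat_lit 4) (nat_lit 500) (nat_lit 352) (nat_lit 348)))))) (XT.nd (nat_lit 62322) (nat_lit 0) (nat_lit 0) (XT.nd (nat_lit 62010) (nat_lit 0) (nat_lit 0) (XT.nd (nat_lit 78) (nat_lit 0) (nat_lit 0) (XT.lf (nat_lit 0) (nat_lit 1145961493101) (nat_lit 76) (nat_lit 121575329199) (nat_lit 76) (nat_lit 121478789464) (nat_lit 1) (nat_lit 4) (nat_lit 2) (nat_lit 5) (nat_lit 2) (nat_lit 4) (nat_lit 501) (nat_lit 352) (nat_lit 347)) (XT.nd (nat_lit 61854) (nat_lit 0) (nat_lit 0) (XT.lf (nat_lit 0) (nat_lit 1243560711166) (nat_lit 76) (nat_lit 128271050306) (nat_lit 76) (nat_lit 128159273700) (nat_lit 1) (nat_lit 4) (nat_lit 2) (nat_lit 5) (nat_lit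 2) (nat_lit 4) (nat_lit 502) (nat_lit 352) (nat_lit 346)) (XT.lf (nat_lit 0) (nat_lit 315436828244) (nat_lit 76) (nat_lit 45133492242) (nat_lit 76) (nat_lit 45133492242) (nat_lit 1) (nat_lit 4) (nat_lit 2) (nat_lit 5) (nat_lit 2) (nat_lit 4) (nat_lit 494) (nat_lit 353) (nat_lit 353)))) (XT.nd (nat_lit 156) (nat_lit 0) (nat_lit 0) (XT.nd (nat_lit 78) (nat_lit 0) (nat_lit 0) (XT.lf (nat_lit 0) (nat_lit 689442409015) (nat_lit 76) (nat_lit 93351293095) (nat_lit 76) (nat_lit 93327114095) (nat_lit 1) (nat_lit 4) (nat_lit 2) (nat_lit 5) (nat_lit 2) (nat_lit 4) (nat_lit 495) (nat_lit 353) (nat_lit 352)) (XT.lf (nat_lit 0) (nat_lit 752301780617) (nat_lit 76) (nat_lit 96882785884) (nat_lit 76) (nat_lit 96836218921) (nat_lit 1) (nat_lit 4) (nat_lit 2) (nat_lit 5) (nat_lit 2) (nat_lit 4) (nat_lit 496) (nat_lit 353) (nat_lit 351))) (XT.nd (nat_lit 78) (nat_lit 0) (nat_lit 0) (XT.lf (nat_lit 0) (nat_lit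 819824271275) (nat_lit 76) (nat_lit 100882390215) (nat_lit 76) (nat_lit 100815093658) (nat_lit 1) (nat_lit 4) (nat_lit 2) (nat_lit 5) (nat_lit 2) (nat_lit 4) (nat_lit 497) (nat_lit 353) (nat_lit 350)) (XT.lf (nat_lit 0) (nat_lit 892410014268) (nat_lit 76) (nat_lit 105373807449) (nat_lit 76) (nat_lit 105287316822) (nat_lit 1) (nat_lit 4) (nat_lit 2) (nat_lit 5) (nat_lit 2) (nat_lit 4) (nat_lit 498) (nat_lit 353) (nat_lit 349))))) (XT.nd (nat_lit 234) (nat_lit 0) (nat_lit 0) (XT.nd (nat_lit 78) (nat_lit 0) (nat_lit 0) (XT.lf (nat_lit 0) (nat_lit 970489147331) (nat_lit 76) (nat_lit 110383653389) (nat_lit 76) (nat_lit 110279390476) (nat_lit 1) (nat_lit 4) (nat_lit 2) (nat_lit 5) (nat_lit 2) (nat_lit 4) (nat_lit 499) (nat_lit 353) (nat_lit 348)) (XT.nd (nat_lit 78) (nat_lit 0) (nat_lit 0) (XT.lf (nat_lit 0) (nat_lit 1054524361624) (nat_lit 76) (nat_lit 115941616013) (nat_lit 76) (nat_lit 115820897279)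 (nat_lit 1) (nat_lit 4) (nat_lit 2) (nat_lit 5) (nat_lit 2) (nat_lit 4) (nat_lit 500) (nat_lit 353) (nat_lit 347)) (XT.lf (nat_lit 0) (nat_lit 1145013643602) (nat_lit 76) (nat_lit 122080631395) (nat_lit 76) (nat_lit 121944675790) (nat_lit 1) (nat_lit 4) (nat_lit 2) (nat_lit 5) (nat_lit 2) (nat_lit 4) (nat_lit 501) (nat_lit 353) (nat_lit 346)))) (XT.nd (nat_lit 61776) (nat_lit 0) (nat_lit 0) (XT.nd (nat_lit 61698) (nat_lit 0) (nat_lit 0) (XT.lf (nat_lit 0) (nat_lit 1242493226046) (nat_lit 76) (nat_lit 128837078886) (nat_lit 76) (nat_lit 128687015066) (nat_lit 1) (nat_lit 4) (nat_lit 2) (nat_lit 5) (nat_lit 2) (nat_lit 4) (nat_lit 502) (nat_lit 353) (nat_lit 345)) (XT.lf (nat_lit 0) (nat_lit 262732259326) (nat_lit 76) (nat_lit 42641532474) (nat_lit 76) (nat_lit 42641532474) (nat_lit 1) (nat_lit 4) (nat_lit 2) (nat_lit 5) (nat_lit 2) (nat_lit 4) (nat_lit 492) (nat_lit 354) (nat_lit 354))) (XT.nd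 (nat_lit 78) (nat_lit 0) (nat_lit 0) (XT.lf (nat_lit 0) (nat_lit 576248448951) (nat_lit 76) (nat_lit 87637695986) (nat_lit 76) (nat_lit 87611582666) (nat_lit 1) (nat_lit 4) (nat_lit 2) (nat_lit 5) (nat_lit 2) (nat_lit 4) (nat_lit 493) (nat_lit 354) (nat_lit 353)) (XT.lf (nat_lit 0) (nat_lit 630668622059) (nat_lit 76) (nat_lit 90397172153) (nat_lit 76) (nat_lit 90346879834) (nat_lit 1) (nat_lit 4) (nat_lit 2) (nat_lit 5) (nat_lit 2) (nat_lit 4) (nat_lit 494) (nat_lit 354) (nat_lit 352))))))) (XT.nd (nat_lit 62556) (nat_lit 0) (nat_lit 0) (XT.nd (nat_lit 546) (nat_lit 0) (nat_lit 0) (XT.nd (nat_lit 234) (nat_lit 0) (nat_lit 0) (XT.nd (nat_lit 78) (nat_lit 0) (nat_lit 0) (XT.lf (nat_lit 0) (nat_lit 689047527889) (nat_lit 76) (nat_lit 93577845904) (nat_lit 76) (nat_lit 93505165621) (nat_lit 1) (nat_lit 4) (nat_lit 2) (nat_lit 5) (nat_lit 2) (nat_lit 4) (nat_lit 495) (nat_lit 354) (nat_lit 351))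 (XT.nd (nat_lit 78) (nat_lit 0) (nat_lit 0) (XT.lf (nat_lit 0) (nat_lit 751731115514) (nat_lit 76) (nat_lit 97198565673) (nat_lit 76) (nat_lit 97105155796) (nat_lit 1) (nat_lit 4) (nat_lit 2) (nat_lit 5) (nat_lit 2) (nat_lit 4) (nat_lit 496) (nat_lit 354) (nat_lit 350)) (XT.lf (nat_lit 0) (nat_lit 819090843231) (nat_lit 76) (nat_lit 101280787579) (nat_lit 76) (nat_lit 101168183633) (nat_lit 1) (nat_lit 4) (nat_lit 2) (nat_lit 5) (nat_lit 2) (nat_lit 4) (nat_lit 497) (nat_lit 354) (nat_lit 349)))) (XT.nd (nat_lit 156) (nat_lit 0) (nat_lit 0) (XT.nd (nat_lit 78) (nat_lit 0) (nat_lit 0) (XT.lf (nat_lit 0) (nat_lit 891525879797) (nat_lit 76) (nat_lit 105848702567) (nat_lit 76) (nat_lit 105718326333) (nat_lit 1) (nat_lit 4) (nat_lit 2) (nat_lit 5) (nat_lit 2) (nat_lit 4) (nat_lit 498) (nat_lit 354) (nat_lit 348)) (XT.lf (nat_lit 0) (nat_lit 969465469872) (nat_lit 76) (nat_lit 110929379761) (nat_lit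 76) (nat_lit 110782547707) (nat_lit 1) (nat_lit 4) (nat_lit 2) (nat_lit 5) (nat_lit 2) (nat_lit 4) (nat_lit 499) (nat_lit 354) (nat_lit 347))) (XT.nd (nat_lit 78) (nat_lit 0) (nat_lit 0) (XT.lf (nat_lit 0) (nat_lit 1053371477694) (nat_lit 76) (nat_lit 116552926880) (nat_lit 76) (nat_lit 116390857954) (nat_lit 1) (nat_lit 4) (nat_lit 2) (nat_lit 5) (nat_lit 2) (nat_lit 4) (nat_lit 500) (nat_lit 354) (nat_lit 346)) (XT.lf (nat_lit 0) (nat_lit 1143741124051) (nat_lit 76) (nat_lit 122752668645) (nat_lit 76) (nat_lit 122576491506) (nat_lit 1) (nat_lit 4) (nat_lit 2) (nat_lit 5) (nat_lit 2) (nat_lit 4) (nat_lit 501) (nat_lit 354) (nat_lit 345))))) (XT.nd (nat_lit 61698) (nat_lit 0) (nat_lit 0) (XT.nd (nat_lit 61542) (nat_lit 0) (nat_lit 0) (XT.lf (nat_lit 0) (nat_lit 1241109932772) (nat_lit 76) (nat_lit 129565344269) (nat_lit 76) (nat_lit 129376103968) (nat_lit 1) (nat_lit 4) (nat_lit 2) (nat_lit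 5) (nat_lit 2) (nat_lit 4) (nat_lit 502) (nat_lit 354) (nat_lit 344)) (XT.nd (nat_lit 78) (nat_lit 0) (nat_lit 0) (XT.lf (nat_lit 0) (nat_lit 216930268075) (nat_lit 76) (nat_lit 40820825626) (nat_lit 76) (nat_lit 40820825626) (nat_lit 1) (nat_lit 4) (nat_lit 2) (nat_lit 5) (nat_lit 2) (nat_lit 4) (nat_lit 490) (nat_lit 355) (nat_lit 355)) (XT.lf (nat_lit 0) (nat_lit 478015889353) (nat_lit 76) (nat_lit 83347528060) (nat_lit 76) (nat_lit 83319325675) (nat_lit 1) (nat_lit 4) (nat_lit 2) (nat_lit 5) (nat_lit 2) (nat_lit 4) (nat_lit 491) (nat_lit 355) (nat_lit 354)))) (XT.nd (nat_lit 156) (nat_lit 0) (nat_lit 0) (XT.nd (nat_lit 78) (nat_lit 0) (nat_lit 0) (XT.lf (nat_lit 0) (nat_lit 525243081468) (nat_lit 76) (nat_lit 85423667633) (nat_lit 76) (nat_lit 85369351928) (nat_lit 1) (nat_lit 4) (nat_lit 2) (nat_lit 5) (nat_lit 2) (nat_lit 4) (nat_lit 492) (nat_lit 355) (nat_lit 353)) (XT.lf (nat_lit 0)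 (nat_lit 575821977336) (nat_lit 76) (nat_lit 87882373019) (nat_lit 76) (nat_lit 87803878315) (nat_lit 1) (nat_lit 4) (nat_lit 2) (nat_lit 5) (nat_lit 2) (nat_lit 4) (nat_lit 493) (nat_lit 355) (nat_lit 352))) (XT.nd (nat_lit 78) (nat_lit 0) (nat_lit 0) (XT.lf (nat_lit 0) (nat_lit 630052303748) (nat_lit 76) (nat_lit 90738214326) (nat_lit 76) (nat_lit 90637331658) (nat_lit 1) (nat_lit 4) (nat_lit 2) (nat_lit 5) (nat_lit 2) (nat_lit 4) (nat_lit 494) (nat_lit 355) (nat_lit 351)) (XT.lf (nat_lit 0) (nat_lit 688255425602) (nat_lit 76) (nat_lit 94008115056) (nat_lit 76) (nat_lit 93886502794) (nat_lit 1) (nat_lit 4) (nat_lit 2) (nat_lit 5) (nat_lit 2) (nat_lit 4) (nat_lit 495) (nat_lit 355) (nat_lit 350)))))) (XT.nd (nat_lit 61854) (nat_lit 0) (nat_lit 0) (XT.nd (nat_lit 234) (nat_lit 0) (nat_lit 0) (XT.nd (nat_lit 78) (nat_lit 0) (nat_lit 0) (XT.lf (nat_lit 0) (nat_lit 750776250286) (nat_lit 76) (nat_lit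 97711452400) (nat_lit 76) (nat_lit 97570646069) (nat_lit 1) (nat_lit 4) (nat_lit 2) (nat_lit 5) (nat_lit 2) (nat_lit 4) (nat_lit 496) (nat_lit 355) (nat_lit 349)) (XT.nd (nat_lit 78) (nat_lit 0) (nat_lit 0) (XT.lf (nat_lit 0) (nat_lit 817985271575) (nat_lit 76) (nat_lit 101870172061) (nat_lit 76) (nat_lit 101711593442) (nat_lit 1) (nat_lit 4) (nat_lit 2) (nat_lit 5) (nat_lit 2) (nat_lit 4) (nat_lit 497) (nat_lit 355) (nat_lit 348)) (XT.lf (nat_lit 0) (nat_lit 890280765153) (nat_lit 76) (nat_lit 106508918302) (nat_lit 76) (nat_lit 106333883863) (nat_lit 1) (nat_lit 4) (nat_lit 2) (nat_lit 5) (nat_lit 2) (nat_lit 4) (nat_lit 498) (nat_lit 355) (nat_lit 347)))) (XT.nd (nat_lit 156) (nat_lit 0) (nat_lit 0) (XT.nd (nat_lit 78) (nat_lit 0) (nat_lit 0) (XT.lf (nat_lit 0) (nat_lit 968091148757) (nat_lit 76) (nat_lit 111655179991) (nat_lit 76) (nat_lit 111464908680) (nat_lit 1) (nat_lit 4) (nat_lit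 2) (nat_lit 5) (nat_lit 2) (nat_lit 4) (nat_lit 499) (nat_lit 355) (nat_lit 346)) (XT.lf (nat_lit 0) (nat_lit 1051877520959) (nat_lit 76) (nat_lit 117339453493) (nat_lit 76) (nat_lit 117135073968) (nat_lit 1) (nat_lit 4) (nat_lit 2) (nat_lit 5) (nat_lit 2) (nat_lit 4) (nat_lit 500) (nat_lit 355) (nat_lit 345))) (XT.nd (nat_lit 78) (nat_lit 0) (nat_lit 0) (XT.lf (nat_lit 0) (nat_lit 1142136393592) (nat_lit 76) (nat_lit 123595423392) (nat_lit 76) (nat_lit 123377980706) (nat_lit 1) (nat_lit 4) (nat_lit 2) (nat_lit 5) (nat_lit 2) (nat_lit 4) (nat_lit 501) (nat_lit 355) (nat_lit 344)) (XT.lf (nat_lit 0) (nat_lit 1239402634051) (nat_lit 76) (nat_lit 130460162102) (nat_lit 76) (nat_lit 130230623896) (nat_lit 1) (nat_lit 4) (nat_lit 2) (nat_lit 5) (nat_lit 2) (nat_lit 4) (nat_lit 502) (nat_lit 355) (nat_lit 343))))) (XT.nd (nat_lit 234) (nat_lit 0) (nat_lit 0) (XT.nd (nat_lit 78) (nat_lit 0) (nat_lit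 0) (XT.lf (nat_lit 0) (nat_lit 176996819152) (nat_lit 76) (nat_lit 39600869722) (nat_lit 76) (nat_lit 39600869722) (nat_lit 1) (nat_lit 4) (nat_lit 2) (nat_lit 5) (nat_lit 2) (nat_lit 4) (nat_lit 488) (nat_lit 356) (nat_lit 356)) (XT.nd (nat_lit 78) (nat_lit 0) (nat_lit 0) (XT.lf (nat_lit 0) (nat_lit 392515360505) (nat_lit 76) (nat_lit 80326386885) (nat_lit 76) (nat_lit 80295928309) (nat_lit 1) (nat_lit 4) (nat_lit 2) (nat_lit 5) (nat_lit 2) (nat_lit 4) (nat_lit 489) (nat_lit 356) (nat_lit 355)) (XT.lf (nat_lit 0) (nat_lit 433621383990) (nat_lit 76) (nat_lit 81793502150) (nat_lit 76) (nat_lit 81734841189) (nat_lit 1) (nat_lit 4) (nat_lit 2) (nat_lit 5) (nat_lit 2) (nat_lit 4) (nat_lit 490) (nat_lit 356) (nat_lit 354)))) (XT.nd (nat_lit 156) (nat_lit 0) (nat_lit 0) (XT.nd (nat_lit 78) (nat_lit 0) (nat_lit 0) (XT.lf (nat_lit 0) (nat_lit 477555300008) (nat_lit 76) (nat_lit 83611779256) (nat_lit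 76) (nat_lit 83527004975) (nat_lit 1) (nat_lit 4) (nat_lit 2) (nat_lit 5) (nat_lit 2) (nat_lit 4) (nat_lit 491) (nat_lit 356) (nat_lit 353)) (XT.lf (nat_lit 0) (nat_lit 524577457692) (nat_lit 76) (nat_lit 85791993179) (nat_lit 76) (nat_lit 85683039898) (nat_lit 1) (nat_lit 4) (nat_lit 2) (nat_lit 5) (nat_lit 2) (nat_lit 4) (nat_lit 492) (nat_lit 356) (nat_lit 352))) (XT.nd (nat_lit 78) (nat_lit 0) (nat_lit 0) (XT.lf (nat_lit 0) (nat_lit 574966506866) (nat_lit 76) (nat_lit 88347063704) (nat_lit 76) (nat_lit 88215722461) (nat_lit 1) (nat_lit 4) (nat_lit 2) (nat_lit 5) (nat_lit 2) (nat_lit 4) (nat_lit 493) (nat_lit 356) (nat_lit 351)) (XT.lf (nat_lit 0) (nat_lit 629021049301) (nat_lit 76) (nat_lit 91292131991) (nat_lit 76) (nat_lit 91140061153) (nat_lit 1) (nat_lit 4) (nat_lit 2) (nat_lit 5) (nat_lit 2) (nat_lit 4) (nat_lit 494) (nat_lit 356) (nat_lit 350))))))))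
noncomputable def xc1 : XT := (XT.nd (nat_lit 124332) (nat_lit 0) (nat_lit 0) (XT.nd (nat_lit 62244) (nat_lit 0) (nat_lit 0) (XT.nd (nat_lit 546) (nat_lit 0) (nat_lit 0) (XT.nd (nat_lit 234) (nat_lit 0) (nat_lit 0) (XT.nd (nat_lit 78) (nat_lit 0) (nat_lit 0) (XT.lf (nat_lit 0) (nat_lit 687061408214) (nat_lit 76) (nat_lit 94644650297) (nat_lit 76) (nat_lit 94473385389) (nat_lit 1) (nat_lit 4) (nat_lit 2) (nat_lit 5) (nat_lit 2) (nat_lit 4) (nat_lit 495) (nat_lit 356) (nat_lit 349)) (XT.nd (nat_lit 78) (nat_lit 0) (nat_lit 0) (XT.lf (nat_lit 0) (nat_lit 749431526470) (nat_lit 76) (nat_lit 98424485395) (nat_lit 76) (nat_lit 98235448200) (nat_lit 1) (nat_lit 4) (nat_lit 2) (nat_lit 5) (nat_lit 2) (nat_lit 4) (nat_lit 496) (nat_lit 356) (nat_lit 348)) (XT.lf (nat_lit 0) (nat_lit 816501004771) (nat_lit 76) (nat_lit 102654036309) (nat_lit 76) (nat_lit 102448543294) (nat_lit 1) (nat_lit 4) (nat_lit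 2) (nat_lit 5) (nat_lit 2) (nat_lit 4) (nat_lit 497) (nat_lit 356) (nat_lit 347)))) (XT.nd (nat_lit 156) (nat_lit 0) (nat_lit 0) (XT.nd (nat_lit 78) (nat_lit 0) (nat_lit 0) (XT.lf (nat_lit 0) (nat_lit 888667291878) (nat_lit 76) (nat_lit 107358367045) (nat_lit 76) (nat_lit 107137637158) (nat_lit 1) (nat_lit 4) (nat_lit 2) (nat_lit 5) (nat_lit 2) (nat_lit 4) (nat_lit 498) (nat_lit 356) (nat_lit 346)) (XT.lf (nat_lit 0) (nat_lit 966358039862) (nat_lit 76) (nat_lit 112565355117) (nat_lit 76) (nat_lit 112330517017) (nat_lit 1) (nat_lit 4) (nat_lit 2) (nat_lit 5) (nat_lit 2) (nat_lit 4) (nat_lit 499) (nat_lit 356) (nat_lit 345))) (XT.nd (nat_lit 78) (nat_lit 0) (nat_lit 0) (XT.lf (nat_lit 0) (nat_lit 1050033638340) (nat_lit 76) (nat_lit 118305856752) (nat_lit 76) (nat_lit 118057955490) (nat_lit 1) (nat_lit 4) (nat_lit 2) (nat_lit 5) (nat_lit 2) (nat_lit 4) (nat_lit 500) (nat_lit 356) (nat_lit 344))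 (XT.lf (nat_lit 0) (nat_lit 1140189942711) (nat_lit 76) (nat_lit 124613889737) (nat_lit 76) (nat_lit 124353892956) (nat_lit 1) (nat_lit 4) (nat_lit 2) (nat_lit 5) (nat_lit 2) (nat_lit 4) (nat_lit 501) (nat_lit 356) (nat_lit 343))))) (XT.nd (nat_lit 61386) (nat_lit 0) (nat_lit 0) (XT.nd (nat_lit 61230) (nat_lit 0) (nat_lit 0) (XT.lf (nat_lit 0) (nat_lit 1237361212557) (nat_lit 76) (nat_lit 131526835009) (nat_lit 76) (nat_lit 131255638672) (nat_lit 1) (nat_lit 4) (nat_lit 2) (nat_lit 5) (nat_lit 2) (nat_lit 4) (nat_lit 502) (nat_lit 356) (nat_lit 342)) (XT.nd (nat_lit 78) (nat_lit 0) (nat_lit 0) (XT.lf (nat_lit 0) (nat_lit 142041449485) (nat_lit 76) (nat_lit 38923241466) (nat_lit 76) (nat_lit 38923241466) (nat_lit 1) (nat_lit 4) (nat_lit 2) (nat_lit 5) (nat_lit 2) (nat_lit 4) (nat_lit 486) (nat_lit 357) (nat_lit 357)) (XT.lf (nat_lit 0) (nat_lit 317827940516) (nat_lit 76) (nat_lit 78445790515)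 (nat_lit 76) (nat_lit 78412895252) (nat_lit 1) (nat_lit 4) (nat_lit 2) (nat_lit 5) (nat_lit 2) (nat_lit 4) (nat_lit 487) (nat_lit 357) (nat_lit 356)))) (XT.nd (nat_lit 156) (nat_lit 0) (nat_lit 0) (XT.nd (nat_lit 78) (nat_lit 0) (nat_lit 0) (XT.lf (nat_lit 0) (nat_lit 353735353972) (nat_lit 76) (nat_lit 79365738415) (nat_lit 76) (nat_lit 79302384577) (nat_lit 1) (nat_lit 4) (nat_lit 2) (nat_lit 5) (nat_lit 2) (nat_lit 4) (nat_lit 488) (nat_lit 357) (nat_lit 355)) (XT.lf (nat_lit 0) (nat_lit 392017924013) (nat_lit 76) (nat_lit 80611778177) (nat_lit 76) (nat_lit 80520221953) (nat_lit 1) (nat_lit 4) (nat_lit 2) (nat_lit 5) (nat_lit 2) (nat_lit 4) (nat_lit 489) (nat_lit 357) (nat_lit 354))) (XT.nd (nat_lit 78) (nat_lit 0) (nat_lit 0) (XT.lf (nat_lit 0) (nat_lit 432902510312) (nat_lit 76) (nat_lit 82191293740) (nat_lit 76) (nat_lit 82073624197) (nat_lit 1) (nat_lit 4) (nat_lit 2) (nat_lit 5) (nat_lit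 2) (nat_lit 4) (nat_lit 490) (nat_lit 357) (nat_lit 353)) (XT.lf (nat_lit 0) (nat_lit 476631391900) (nat_lit 76) (nat_lit 84113645196) (nat_lit 76) (nat_lit 83971796653) (nat_lit 1) (nat_lit 4) (nat_lit 2) (nat_lit 5) (nat_lit 2) (nat_lit 4) (nat_lit 491) (nat_lit 357) (nat_lit 352)))))) (XT.nd (nat_lit 546) (nat_lit 0) (nat_lit 0) (XT.nd (nat_lit 234) (nat_lit 0) (nat_lit 0) (XT.nd (nat_lit 78) (nat_lit 0) (nat_lit 0) (XT.lf (nat_lit 0) (nat_lit 523463702889) (nat_lit 76) (nat_lit 86390224258) (nat_lit 76) (nat_lit 86225987752) (nat_lit 1) (nat_lit 4) (nat_lit 2) (nat_lit 5) (nat_lit 2) (nat_lit 4) (nat_lit 492) (nat_lit 357) (nat_lit 351)) (XT.nd (nat_lit 78) (nat_lit 0) (nat_lit 0) (XT.lf (nat_lit 0) (nat_lit 573676968086) (nat_lit 76) (nat_lit 89034521764) (nat_lit 76) (nat_lit 88849555663) (nat_lit 1) (nat_lit 4) (nat_lit 2) (nat_lit 5) (nat_lit 2) (nat_lit 4) (nat_lit 493) (nat_lit 357)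 (nat_lit 350)) (XT.lf (nat_lit 0) (nat_lit 627568747580) (nat_lit 76) (nat_lit 92062207625) (nat_lit 76) (nat_lit 91858047455) (nat_lit 1) (nat_lit 4) (nat_lit 2) (nat_lit 5) (nat_lit 2) (nat_lit 4) (nat_lit 494) (nat_lit 357) (nat_lit 349)))) (XT.nd (nat_lit 156) (nat_lit 0) (nat_lit 0) (XT.nd (nat_lit 78) (nat_lit 0) (nat_lit 0) (XT.lf (nat_lit 0) (nat_lit 685458400065) (nat_lit 76) (nat_lit 95491223685) (nat_lit 76) (nat_lit 95269291228) (nat_lit 1) (nat_lit 4) (nat_lit 2) (nat_lit 5) (nat_lit 2) (nat_lit 4) (nat_lit 495) (nat_lit 357) (nat_lit 348)) (XT.lf (nat_lit 0) (nat_lit 747688975333) (nat_lit 76) (nat_lit 99341890037) (nat_lit 76) (nat_lit 99103501759) (nat_lit 1) (nat_lit 4) (nat_lit 2) (nat_lit 5) (nat_lit 2) (nat_lit 4) (nat_lit 496) (nat_lit 357) (nat_lit 347))) (XT.nd (nat_lit 78) (nat_lit 0) (nat_lit 0) (XT.lf (nat_lit 0) (nat_lit 814629247164) (nat_lit 76) (nat_lit 103637025446)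 (nat_lit 76) (nat_lit 103383400297) (nat_lit 1) (nat_lit 4) (nat_lit 2) (nat_lit 5) (nat_lit 2) (nat_lit 4) (nat_lit 497) (nat_lit 357) (nat_lit 346)) (XT.lf (nat_lit 0) (nat_lit 886675898650) (nat_lit 76) (nat_lit 108402082565) (nat_lit 76) (nat_lit 108134349202) (nat_lit 1) (nat_lit 4) (nat_lit 2) (nat_lit 5) (nat_lit 2) (nat_lit 4) (nat_lit 498) (nat_lit 357) (nat_lit 345))))) (XT.nd (nat_lit 234) (nat_lit 0) (nat_lit 0) (XT.nd (nat_lit 78) (nat_lit 0) (nat_lit 0) (XT.lf (nat_lit 0) (nat_lit 964255872910) (nat_lit 76) (nat_lit 113665298771) (nat_lit 76) (nat_lit 113384502246) (nat_lit 1) (nat_lit 4) (nat_lit 2) (nat_lit 5) (nat_lit 2) (nat_lit 4) (nat_lit 499) (nat_lit 357) (nat_lit 344)) (XT.nd (nat_lit 78) (nat_lit 0) (nat_lit 0) (XT.lf (nat_lit 0) (nat_lit 1047828903127) (nat_lit 76) (nat_lit 119457863492) (nat_lit 76) (nat_lit 119164971448) (nat_lit 1) (nat_lit 4) (nat_lit 2) (nat_lit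 5) (nat_lit 2) (nat_lit 4) (nat_lit 500) (nat_lit 357) (nat_lit 343)) (XT.lf (nat_lit 0) (nat_lit 1137890236885) (nat_lit 76) (nat_lit 125814103038) (nat_lit 76) (nat_lit 125510011439) (nat_lit 1) (nat_lit 4) (nat_lit 2) (nat_lit 5) (nat_lit 2) (nat_lit 4) (nat_lit 501) (nat_lit 357) (nat_lit 342)))) (XT.nd (nat_lit 61152) (nat_lit 0) (nat_lit 0) (XT.nd (nat_lit 61074) (nat_lit 0) (nat_lit 0) (XT.lf (nat_lit 0) (nat_lit 1234973570978) (nat_lit 76) (nat_lit 132771684014) (nat_lit 76) (nat_lit 132457222456) (nat_lit 1) (nat_lit 4) (nat_lit 2) (nat_lit 5) (nat_lit 2) (nat_lit 4) (nat_lit 502) (nat_lit 357) (nat_lit 341)) (XT.lf (nat_lit 0) (nat_lit 111296470520) (nat_lit 76) (nat_lit 38740034739) (nat_lit 76) (nat_lit 38740034739) (nat_lit 1) (nat_lit 4) (nat_lit 2) (nat_lit 5) (nat_lit 2) (nat_lit 4) (nat_lit 484) (nat_lit 358) (nat_lit 358))) (XT.nd (nat_lit 78) (nat_lit 0) (nat_lit 0) (XT.lf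 (nat_lit 0) (nat_lit 252300258721) (nat_lit 76) (nat_lit 77599791100) (nat_lit 76) (nat_lit 77564264217) (nat_lit 1) (nat_lit 4) (nat_lit 2) (nat_lit 5) (nat_lit 2) (nat_lit 4) (nat_lit 485) (nat_lit 358) (nat_lit 357)) (XT.lf (nat_lit 0) (nat_lit 283803951892) (nat_lit 76) (nat_lit 78023601820) (nat_lit 76) (nat_lit 77955179675) (nat_lit 1) (nat_lit 4) (nat_lit 2) (nat_lit 5) (nat_lit 2) (nat_lit 4) (nat_lit 486) (nat_lit 358) (nat_lit 356))))))) (XT.nd (nat_lit 1092) (nat_lit 0) (nat_lit 0) (XT.nd (nat_lit 546) (nat_lit 0) (nat_lit 0) (XT.nd (nat_lit 234) (nat_lit 0) (nat_lit 0) (XT.nd (nat_lit 78) (nat_lit 0) (nat_lit 0) (XT.lf (nat_lit 0) (nat_lit 317290709104) (nat_lit 76) (nat_lit 78754013110) (nat_lit 76) (nat_lit 78655132388) (nat_lit 1) (nat_lit 4) (nat_lit 2) (nat_lit 5) (nat_lit 2) (nat_lit 4) (nat_lit 487) (nat_lit 358) (nat_lit 355)) (XT.nd (nat_lit 78) (nat_lit 0) (nat_lit 0)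 (XT.lf (nat_lit 0) (nat_lit 352958970401) (nat_lit 76) (nat_lit 79795353332) (nat_lit 76) (nat_lit 79668270225) (nat_lit 1) (nat_lit 4) (nat_lit 2) (nat_lit 5) (nat_lit 2) (nat_lit 4) (nat_lit 488) (nat_lit 358) (nat_lit 354)) (XT.lf (nat_lit 0) (nat_lit 391020103257) (nat_lit 76) (nat_lit 81153793392) (nat_lit 76) (nat_lit 81000596966) (nat_lit 1) (nat_lit 4) (nat_lit 2) (nat_lit 5) (nat_lit 2) (nat_lit 4) (nat_lit 489) (nat_lit 358) (nat_lit 353)))) (XT.nd (nat_lit 156) (nat_lit 0) (nat_lit 0) (XT.nd (nat_lit 78) (nat_lit 0) (nat_lit 0) (XT.lf (nat_lit 0) (nat_lit 431699655125) (nat_lit 76) (nat_lit 82837383305) (nat_lit 76) (nat_lit 82660007879) (nat_lit 1) (nat_lit 4) (nat_lit 2) (nat_lit 5) (nat_lit 2) (nat_lit 4) (nat_lit 490) (nat_lit 358) (nat_lit 352)) (XT.lf (nat_lit 0) (nat_lit 475238690018) (nat_lit 76) (nat_lit 84856099900) (nat_lit 76) (nat_lit 84656336511) (nat_lit 1) (nat_lit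 4) (nat_lit 2) (nat_lit 5) (nat_lit 2) (nat_lit 4) (nat_lit 491) (nat_lit 358) (nat_lit 351))) (XT.nd (nat_lit 78) (nat_lit 0) (nat_lit 0) (XT.lf (nat_lit 0) (nat_lit 521895217031) (nat_lit 76) (nat_lit 87221905942) (nat_lit 76) (nat_lit 87001412959) (nat_lit 1) (nat_lit 4) (nat_lit 2) (nat_lit 5) (nat_lit 2) (nat_lit 4) (nat_lit 492) (nat_lit 358) (nat_lit 350)) (XT.lf (nat_lit 0) (nat_lit 571945719286) (nat_lit 76) (nat_lit 89948821023) (nat_lit 76) (nat_lit 89709133970) (nat_lit 1) (nat_lit 4) (nat_lit 2) (nat_lit 5) (nat_lit 2) (nat_lit 4) (nat_lit 493) (nat_lit 358) (nat_lit 349))))) (XT.nd (nat_lit 234) (nat_lit 0) (nat_lit 0) (XT.nd (nat_lit 78) (nat_lit 0) (nat_lit 0) (XT.lf (nat_lit 0) (nat_lit 625686792353) (nat_lit 76) (nat_lit 93053004639) (nat_lit 76) (nat_lit 92795545299) (nat_lit 1) (nat_lit 4) (nat_lit 2) (nat_lit 5) (nat_lit 2) (nat_lit 4) (nat_lit 494) (nat_lit 358) (nat_lit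 348)) (XT.nd (nat_lit 78) (nat_lit 0) (nat_lit 0) (XT.lf (nat_lit 0) (nat_lit 683436901849) (nat_lit 76) (nat_lit 96552851952) (nat_lit 76) (nat_lit 96278936791) (nat_lit 1) (nat_lit 4) (nat_lit 2) (nat_lit 5) (nat_lit 2) (nat_lit 4) (nat_lit 495) (nat_lit 358) (nat_lit 347)) (XT.lf (nat_lit 0) (nat_lit 745538270647) (nat_lit 76) (nat_lit 100469102799) (nat_lit 76) (nat_lit 100179950767) (nat_lit 1) (nat_lit 4) (nat_lit 2) (nat_lit 5) (nat_lit 2) (nat_lit 4) (nat_lit 496) (nat_lit 358) (nat_lit 346)))) (XT.nd (nat_lit 156) (nat_lit 0) (nat_lit 0) (XT.nd (nat_lit 78) (nat_lit 0) (nat_lit 0) (XT.lf (nat_lit 0) (nat_lit 812358906857) (nat_lit 76) (nat_lit 104824964591) (nat_lit 76) (nat_lit 104521704345) (nat_lit 1) (nat_lit 4) (nat_lit 2) (nat_lit 5) (nat_lit 2) (nat_lit 4) (nat_lit 497) (nat_lit 358) (nat_lit 345)) (XT.lf (nat_lit 0) (nat_lit 884294784619) (nat_lit 76) (nat_lit 109646249843)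 (nat_lit 76) (nat_lit 109329926436) (nat_lit 1) (nat_lit 4) (nat_lit 2) (nat_lit 5) (nat_lit 2) (nat_lit 4) (nat_lit 498) (nat_lit 358) (nat_lit 344))) (XT.nd (nat_lit 78) (nat_lit 0) (nat_lit 0) (XT.lf (nat_lit 0) (nat_lit 961772190618) (nat_lit 76) (nat_lit 114961529135) (nat_lit 76) (nat_lit 114633110208) (nat_lit 1) (nat_lit 4) (nat_lit 2) (nat_lit 5) (nat_lit 2) (nat_lit 4) (nat_lit 499) (nat_lit 358) (nat_lit 343)) (XT.lf (nat_lit 0) (nat_lit 1045250250221) (nat_lit 76) (nat_lit 120802300417) (nat_lit 76) (nat_lit 120462681935) (nat_lit 1) (nat_lit 4) (nat_lit 2) (nat_lit 5) (nat_lit 2) (nat_lit 4) (nat_lit 500) (nat_lit 358) (nat_lit 342)))))) (XT.nd (nat_lit 61386) (nat_lit 0) (nat_lit 0) (XT.nd (nat_lit 61074) (nat_lit 0) (nat_lit 0) (XT.nd (nat_lit 78) (nat_lit 0) (nat_lit 0) (XT.lf (nat_lit 0) (nat_lit 1135223648227) (nat_lit 76) (nat_lit 127203175669) (nat_lit 76) (nat_lit 126853187228)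 (nat_lit 1) (nat_lit 4) (nat_lit 2) (nat_lit 5) (nat_lit 2) (nat_lit 4) (nat_lit 501) (nat_lit 358) (nat_lit 341)) (XT.nd (nat_lit 60918) (nat_lit 0) (nat_lit 0) (XT.lf (nat_lit 0) (nat_lit 1232225560327) (nat_lit 76) (nat_lit 134202086001) (nat_lit 76) (nat_lit 133842495747) (nat_lit 1) (nat_lit 4) (nat_lit 2) (nat_lit 5) (nat_lit 2) (nat_lit 4) (nat_lit 502) (nat_lit 358) (nat_lit 340)) (XT.lf (nat_lit 0) (nat_lit 84099112267) (nat_lit 76) (nat_lit 39012534806) (nat_lit 76) (nat_lit 39012534806) (nat_lit 1) (nat_lit 4) (nat_lit 2) (nat_lit 5) (nat_lit 2) (nat_lit 4) (nat_lit 482) (nat_lit 359) (nat_lit 359)))) (XT.nd (nat_lit 156) (nat_lit 0) (nat_lit 0) (XT.nd (nat_lit 78) (nat_lit 0) (nat_lit 0) (XT.lf (nat_lit 0) (nat_lit 194505955486) (nat_lit 76) (nat_lit 77702096529) (nat_lit 76) (nat_lit 77663727495) (nat_lit 1) (nat_lit 4) (nat_lit 2) (nat_lit 5) (nat_lit 2) (nat_lit 4) (nat_lit 483)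 (nat_lit 359) (nat_lit 358)) (XT.lf (nat_lit 0) (nat_lit 222291678195) (nat_lit 76) (nat_lit 77671357877) (nat_lit 76) (nat_lit 77597461960) (nat_lit 1) (nat_lit 4) (nat_lit 2) (nat_lit 5) (nat_lit 2) (nat_lit 4) (nat_lit 484) (nat_lit 359) (nat_lit 357))) (XT.nd (nat_lit 78) (nat_lit 0) (nat_lit 0) (XT.lf (nat_lit 0) (nat_lit 251720048797) (nat_lit 76) (nat_lit 77932671503) (nat_lit 76) (nat_lit 77825880324) (nat_lit 1) (nat_lit 4) (nat_lit 2) (nat_lit 5) (nat_lit 2) (nat_lit 4) (nat_lit 485) (nat_lit 359) (nat_lit 356)) (XT.lf (nat_lit 0) (nat_lit 282965457635) (nat_lit 76) (nat_lit 78487585931) (nat_lit 76) (nat_lit 78350336175) (nat_lit 1) (nat_lit 4) (nat_lit 2) (nat_lit 5) (nat_lit 2) (nat_lit 4) (nat_lit 486) (nat_lit 359) (nat_lit 355))))) (XT.nd (nat_lit 234) (nat_lit 0) (nat_lit 0) (XT.nd (nat_lit 78) (nat_lit 0) (nat_lit 0) (XT.lf (nat_lit 0) (nat_lit 316213062687) (nat_lit 76) (nat_lit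 79339389542) (nat_lit 76) (nat_lit 79173937402) (nat_lit 1) (nat_lit 4) (nat_lit 2) (nat_lit 5) (nat_lit 2) (nat_lit 4) (nat_lit 487) (nat_lit 359) (nat_lit 354)) (XT.nd (nat_lit 78) (nat_lit 0) (nat_lit 0) (XT.lf (nat_lit 0) (nat_lit 351659886799) (nat_lit 76) (nat_lit 80493130062) (nat_lit 76) (nat_lit 80301564602) (nat_lit 1) (nat_lit 4) (nat_lit 2) (nat_lit 5) (nat_lit 2) (nat_lit 4) (nat_lit 488) (nat_lit 359) (nat_lit 353)) (XT.lf (nat_lit 0) (nat_lit 389515985224) (nat_lit 76) (nat_lit 81955644473) (nat_lit 76) (nat_lit 81739900013) (nat_lit 1) (nat_lit 4) (nat_lit 2) (nat_lit 5) (nat_lit 2) (nat_lit 4) (nat_lit 489) (nat_lit 359) (nat_lit 352)))) (XT.nd (nat_lit 156) (nat_lit 0) (nat_lit 0) (XT.nd (nat_lit 78) (nat_lit 0) (nat_lit 0) (XT.lf (nat_lit 0) (nat_lit 430005690398) (nat_lit 76) (nat_lit 83735599525) (nat_lit 76) (nat_lit 83497467102) (nat_lit 1) (nat_lit 4) (nat_lit 2) (nat_lit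 5) (nat_lit 2) (nat_lit 4) (nat_lit 490) (nat_lit 359) (nat_lit 351)) (XT.lf (nat_lit 0) (nat_lit 473368941314) (nat_lit 76) (nat_lit 85843543100) (nat_lit 76) (nat_lit 85584681083) (nat_lit 1) (nat_lit 4) (nat_lit 2) (nat_lit 5) (nat_lit 2) (nat_lit 4) (nat_lit 491) (nat_lit 359) (nat_lit 350))) (XT.nd (nat_lit 78) (nat_lit 0) (nat_lit 0) (XT.lf (nat_lit 0) (nat_lit 519862705385) (nat_lit 76) (nat_lit 88291966717) (nat_lit 76) (nat_lit 88013910630) (nat_lit 1) (nat_lit 4) (nat_lit 2) (nat_lit 5) (nat_lit 2) (nat_lit 4) (nat_lit 492) (nat_lit 359) (nat_lit 349)) (XT.lf (nat_lit 0) (nat_lit 569762501213) (nat_lit 76) (nat_lit 91095379552) (nat_lit 76) (nat_lit 90799551178) (nat_lit 1) (nat_lit 4) (nat_lit 2) (nat_lit 5) (nat_lit 2) (nat_lit 4) (nat_lit 493) (nat_lit 359) (nat_lit 348))))))))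
noncomputable def xc2 : XT := (XT.nd (nat_lit 62868) (nat_lit 0) (nat_lit 0) (XT.nd (nat_lit 61776) (nat_lit 0) (nat_lit 0) (XT.nd (nat_lit 546) (nat_lit 0) (nat_lit 0) (XT.nd (nat_lit 234) (nat_lit 0) (nat_lit 0) (XT.nd (nat_lit 78) (nat_lit 0) (nat_lit 0) (XT.lf (nat_lit 0) (nat_lit 623364031291) (nat_lit 76) (nat_lit 94270394422) (nat_lit 76) (nat_lit 93958110227) (nat_lit 1) (nat_lit 4) (nat_lit 2) (nat_lit 5) (nat_lit 2) (nat_lit 4) (nat_lit 494) (nat_lit 359) (nat_lit 347)) (XT.nd (nat_lit 78) (nat_lit 0) (nat_lit 0) (XT.lf (nat_lit 0) (nat_lit 680984934317) (nat_lit 76) (nat_lit 97835826229) (nat_lit 76) (nat_lit 97508305163) (nat_lit 1) (nat_lit 4) (nat_lit 2) (nat_lit 5) (nat_lit 2) (nat_lit 4) (nat_lit 495) (nat_lit 359) (nat_lit 346)) (XT.lf (nat_lit 0) (nat_lit 742966667494) (nat_lit 76) (nat_lit 101812803459) (nat_lit 76) (nat_lit 101471174179) (nat_lit 1) (nat_lit 4) (nat_lit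 2) (nat_lit 5) (nat_lit 2) (nat_lit 4) (nat_lit 496) (nat_lit 359) (nat_lit 345)))) (XT.nd (nat_lit 156) (nat_lit 0) (nat_lit 0) (XT.nd (nat_lit 78) (nat_lit 0) (nat_lit 0) (XT.lf (nat_lit 0) (nat_lit 809676529981) (nat_lit 76) (nat_lit 106224893385) (nat_lit 76) (nat_lit 105870200943) (nat_lit 1) (nat_lit 4) (nat_lit 2) (nat_lit 5) (nat_lit 2) (nat_lit 4) (nat_lit 497) (nat_lit 359) (nat_lit 344)) (XT.lf (nat_lit 0) (nat_lit 881509839481) (nat_lit 76) (nat_lit 111098241723) (nat_lit 76) (nat_lit 110731453762) (nat_lit 1) (nat_lit 4) (nat_lit 2) (nat_lit 5) (nat_lit 2) (nat_lit 4) (nat_lit 498) (nat_lit 359) (nat_lit 343))) (XT.nd (nat_lit 78) (nat_lit 0) (nat_lit 0) (XT.lf (nat_lit 0) (nat_lit 958892274867) (nat_lit 76) (nat_lit 116461727576) (nat_lit 76) (nat_lit 116083740060) (nat_lit 1) (nat_lit 4) (nat_lit 2) (nat_lit 5) (nat_lit 2) (nat_lit 4) (nat_lit 499) (nat_lit 359) (nat_lit 342))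 (XT.lf (nat_lit 0) (nat_lit 1042282398717) (nat_lit 76) (nat_lit 122347134563) (nat_lit 76) (nat_lit 121958777089) (nat_lit 1) (nat_lit 4) (nat_lit 2) (nat_lit 5) (nat_lit 2) (nat_lit 4) (nat_lit 500) (nat_lit 359) (nat_lit 341))))) (XT.nd (nat_lit 60918) (nat_lit 0) (nat_lit 0) (XT.nd (nat_lit 78) (nat_lit 0) (nat_lit 0) (XT.lf (nat_lit 0) (nat_lit 1132174374730) (nat_lit 76) (nat_lit 128789339171) (nat_lit 76) (nat_lit 128391379883) (nat_lit 1) (nat_lit 4) (nat_lit 2) (nat_lit 5) (nat_lit 2) (nat_lit 4) (nat_lit 501) (nat_lit 359) (nat_lit 340)) (XT.nd (nat_lit 60762) (nat_lit 0) (nat_lit 0) (XT.lf (nat_lit 0) (nat_lit 1229100896095) (nat_lit 76) (nat_lit 135826517426) (nat_lit 76) (nat_lit 135419667570) (nat_lit 1) (nat_lit 4) (nat_lit 2) (nat_lit 5) (nat_lit 2) (nat_lit 4) (nat_lit 502) (nat_lit 359) (nat_lit 339)) (XT.lf (nat_lit 0) (nat_lit 59876187429) (nat_lit 76) (nat_lit 39710095621)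 (nat_lit 76) (nat_lit 39710095621) (nat_lit 1) (nat_lit 4) (nat_lit 2) (nat_lit 5) (nat_lit 2) (nat_lit 4) (nat_lit 480) (nat_lit 360) (nat_lit 360)))) (XT.nd (nat_lit 156) (nat_lit 0) (nat_lit 0) (XT.nd (nat_lit 78) (nat_lit 0) (nat_lit 0) (XT.lf (nat_lit 0) (nat_lit 143212587675) (nat_lit 76) (nat_lit 78683629598) (nat_lit 76) (nat_lit 78642191041) (nat_lit 1) (nat_lit 4) (nat_lit 2) (nat_lit 5) (nat_lit 2) (nat_lit 4) (nat_lit 481) (nat_lit 360) (nat_lit 359)) (XT.lf (nat_lit 0) (nat_lit 167872860661) (nat_lit 76) (nat_lit 78231661082) (nat_lit 76) (nat_lit 78151853492) (nat_lit 1) (nat_lit 4) (nat_lit 2) (nat_lit 5) (nat_lit 2) (nat_lit 4) (nat_lit 482) (nat_lit 360) (nat_lit 358))) (XT.nd (nat_lit 78) (nat_lit 0) (nat_lit 0) (XT.lf (nat_lit 0) (nat_lit 193879328767) (nat_lit 76) (nat_lit 78061607364) (nat_lit 76) (nat_lit 77946272890) (nat_lit 1) (nat_lit 4) (nat_lit 2) (nat_lit 5) (nat_lit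 2) (nat_lit 4) (nat_lit 483) (nat_lit 360) (nat_lit 357)) (XT.lf (nat_lit 0) (nat_lit 221386104398) (nat_lit 76) (nat_lit 78172460717) (nat_lit 76) (nat_lit 78024230981) (nat_lit 1) (nat_lit 4) (nat_lit 2) (nat_lit 5) (nat_lit 2) (nat_lit 4) (nat_lit 484) (nat_lit 360) (nat_lit 356)))))) (XT.nd (nat_lit 546) (nat_lit 0) (nat_lit 0) (XT.nd (nat_lit 234) (nat_lit 0) (nat_lit 0) (XT.nd (nat_lit 78) (nat_lit 0) (nat_lit 0) (XT.lf (nat_lit 0) (nat_lit 250556190666) (nat_lit 76) (nat_lit 78564878050) (nat_lit 76) (nat_lit 78386189738) (nat_lit 1) (nat_lit 4) (nat_lit 2) (nat_lit 5) (nat_lit 2) (nat_lit 4) (nat_lit 485) (nat_lit 360) (nat_lit 355)) (XT.nd (nat_lit 78) (nat_lit 0) (nat_lit 0) (XT.lf (nat_lit 0) (nat_lit 281562447344) (nat_lit 76) (nat_lit 79241184799) (nat_lit 76) (nat_lit 79034294103) (nat_lit 1) (nat_lit 4) (nat_lit 2) (nat_lit 5) (nat_lit 2) (nat_lit 4) (nat_lit 486) (nat_lit 360)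 (nat_lit 354)) (XT.lf (nat_lit 0) (nat_lit 314588615212) (nat_lit 76) (nat_lit 80205388709) (nat_lit 76) (nat_lit 79972384692) (nat_lit 1) (nat_lit 4) (nat_lit 2) (nat_lit 5) (nat_lit 2) (nat_lit 4) (nat_lit 487) (nat_lit 360) (nat_lit 353)))) (XT.nd (nat_lit 156) (nat_lit 0) (nat_lit 0) (XT.nd (nat_lit 78) (nat_lit 0) (nat_lit 0) (XT.lf (nat_lit 0) (nat_lit 349830404893) (nat_lit 76) (nat_lit 81463203579) (nat_lit 76) (nat_lit 81206020563) (nat_lit 1) (nat_lit 4) (nat_lit 2) (nat_lit 5) (nat_lit 2) (nat_lit 4) (nat_lit 488) (nat_lit 360) (nat_lit 352)) (XT.lf (nat_lit 0) (nat_lit 387496656623) (nat_lit 76) (nat_lit 83022083129) (nat_lit 76) (nat_lit 82742512149) (nat_lit 1) (nat_lit 4) (nat_lit 2) (nat_lit 5) (nat_lit 2) (nat_lit 4) (nat_lit 489) (nat_lit 360) (nat_lit 351))) (XT.nd (nat_lit 78) (nat_lit 0) (nat_lit 0) (XT.lf (nat_lit 0) (nat_lit 427810577821) (nat_lit 76) (nat_lit 84891265161)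 (nat_lit 76) (nat_lit 84590964587) (nat_lit 1) (nat_lit 4) (nat_lit 2) (nat_lit 5) (nat_lit 2) (nat_lit 4) (nat_lit 490) (nat_lit 360) (nat_lit 350)) (XT.lf (nat_lit 0) (nat_lit 471011065795) (nat_lit 76) (nat_lit 87081826311) (nat_lit 76) (nat_lit 86762331668) (nat_lit 1) (nat_lit 4) (nat_lit 2) (nat_lit 5) (nat_lit 2) (nat_lit 4) (nat_lit 491) (nat_lit 360) (nat_lit 349))))) (XT.nd (nat_lit 234) (nat_lit 0) (nat_lit 0) (XT.nd (nat_lit 78) (nat_lit 0) (nat_lit 0) (XT.lf (nat_lit 0) (nat_lit 517354123439) (nat_lit 76) (nat_lit 89606747682) (nat_lit 76) (nat_lit 89269480752) (nat_lit 1) (nat_lit 4) (nat_lit 2) (nat_lit 5) (nat_lit 2) (nat_lit 4) (nat_lit 492) (nat_lit 360) (nat_lit 348)) (XT.nd (nat_lit 78) (nat_lit 0) (nat_lit 0) (XT.lf (nat_lit 0) (nat_lit 567114376278) (nat_lit 76) (nat_lit 92480991771) (nat_lit 76) (nat_lit 92127269020) (nat_lit 1) (nat_lit 4) (nat_lit 2) (nat_lit 5) (nat_lit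 2) (nat_lit 4) (nat_lit 493) (nat_lit 360) (nat_lit 347)) (XT.lf (nat_lit 0) (nat_lit 620586699886) (nat_lit 76) (nat_lit 95721591135) (nat_lit 76) (nat_lit 95352631513) (nat_lit 1) (nat_lit 4) (nat_lit 2) (nat_lit 5) (nat_lit 2) (nat_lit 4) (nat_lit 494) (nat_lit 360) (nat_lit 346)))) (XT.nd (nat_lit 156) (nat_lit 0) (nat_lit 0) (XT.nd (nat_lit 78) (nat_lit 0) (nat_lit 0) (XT.lf (nat_lit 0) (nat_lit 678087967292) (nat_lit 76) (nat_lit 99347749326) (nat_lit 76) (nat_lit 98964681490) (nat_lit 1) (nat_lit 4) (nat_lit 2) (nat_lit 5) (nat_lit 2) (nat_lit 4) (nat_lit 495) (nat_lit 360) (nat_lit 345)) (XT.lf (nat_lit 0) (nat_lit 739958926745) (nat_lit 76) (nat_lit 103380954690) (nat_lit 76) (nat_lit 102984823692) (nat_lit 1) (nat_lit 4) (nat_lit 2) (nat_lit 5) (nat_lit 2) (nat_lit 4) (nat_lit 496) (nat_lit 360) (nat_lit 344))) (XT.nd (nat_lit 78) (nat_lit 0) (nat_lit 0) (XT.lf (nat_lit 0) (nat_lit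 806566220970) (nat_lit 76) (nat_lit 107845107701) (nat_lit 76) (nat_lit 107436881184) (nat_lit 1) (nat_lit 4) (nat_lit 2) (nat_lit 5) (nat_lit 2) (nat_lit 4) (nat_lit 497) (nat_lit 360) (nat_lit 343)) (XT.lf (nat_lit 0) (nat_lit 878304559857) (nat_lit 76) (nat_lit 112766662601) (nat_lit 76) (nat_lit 112347236528) (nat_lit 1) (nat_lit 4) (nat_lit 2) (nat_lit 5) (nat_lit 2) (nat_lit 4) (nat_lit 498) (nat_lit 360) (nat_lit 342))))))) (XT.nd (nat_lit 61620) (nat_lit 0) (nat_lit 0) (XT.nd (nat_lit 61074) (nat_lit 0) (nat_lit 0) (XT.nd (nat_lit 234) (nat_lit 0) (nat_lit 0) (XT.nd (nat_lit 78) (nat_lit 0) (nat_lit 0) (XT.lf (nat_lit 0) (nat_lit 955599059490) (nat_lit 76) (nat_lit 118174784158) (nat_lit 76) (nat_lit 117744988127) (nat_lit 1) (nat_lit 4) (nat_lit 2) (nat_lit 5) (nat_lit 2) (nat_lit 4) (nat_lit 499) (nat_lit 360) (nat_lit 341)) (XT.nd (nat_lit 78) (nat_lit 0) (nat_lit 0) (XT.lf (nat_lit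 0) (nat_lit 1038907761347) (nat_lit 76) (nat_lit 124101520502) (nat_lit 76) (nat_lit 123662122658) (nat_lit 1) (nat_lit 4) (nat_lit 2) (nat_lit 5) (nat_lit 2) (nat_lit 4) (nat_lit 500) (nat_lit 360) (nat_lit 340)) (XT.lf (nat_lit 0) (nat_lit 1128724346625) (nat_lit 76) (nat_lit 130581993032) (nat_lit 76) (nat_lit 130133704619) (nat_lit 1) (nat_lit 4) (nat_lit 2) (nat_lit 5) (nat_lit 2) (nat_lit 4) (nat_lit 501) (nat_lit 360) (nat_lit 339)))) (XT.nd (nat_lit 60684) (nat_lit 0) (nat_lit 0) (XT.nd (nat_lit 60606) (nat_lit 0) (nat_lit 0) (XT.lf (nat_lit 0) (nat_lit 1225581061754) (nat_lit 76) (nat_lit 137654604548) (nat_lit 76) (nat_lit 137198084129) (nat_lit 1) (nat_lit 4) (nat_lit 2) (nat_lit 5) (nat_lit 2) (nat_lit 4) (nat_lit 502) (nat_lit 360) (nat_lit 338)) (XT.lf (nat_lit 0) (nat_lit 38130913922) (nat_lit 76) (nat_lit 40809192392) (nat_lit 76) (nat_lit 40809192392) (nat_lit 1) (nat_lit 4)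 (nat_lit 2) (nat_lit 5) (nat_lit 2) (nat_lit 4) (nat_lit 478) (nat_lit 361) (nat_lit 361))) (XT.nd (nat_lit 78) (nat_lit 0) (nat_lit 0) (XT.lf (nat_lit 0) (nat_lit 97353198727) (nat_lit 76) (nat_lit 80490464467) (nat_lit 76) (nat_lit 80445710826) (nat_lit 1) (nat_lit 4) (nat_lit 2) (nat_lit 5) (nat_lit 2) (nat_lit 4) (nat_lit 479) (nat_lit 361) (nat_lit 360)) (XT.lf (nat_lit 0) (nat_lit 119400981875) (nat_lit 76) (nat_lit 79643310030) (nat_lit 76) (nat_lit 79557117833) (nat_lit 1) (nat_lit 4) (nat_lit 2) (nat_lit 5) (nat_lit 2) (nat_lit 4) (nat_lit 480) (nat_lit 361) (nat_lit 359))))) (XT.nd (nat_lit 234) (nat_lit 0) (nat_lit 0) (XT.nd (nat_lit 78) (nat_lit 0) (nat_lit 0) (XT.lf (nat_lit 0) (nat_lit 142535830819) (nat_lit 76) (nat_lit 79071901299) (nat_lit 76) (nat_lit 78947340068) (nat_lit 1) (nat_lit 4) (nat_lit 2) (nat_lit 5) (nat_lit 2) (nat_lit 4) (nat_lit 481) (nat_lit 361) (nat_lit 358))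 (XT.nd (nat_lit 78) (nat_lit 0) (nat_lit 0) (XT.lf (nat_lit 0) (nat_lit 166894840960) (nat_lit 76) (nat_lit 78772852148) (nat_lit 76) (nat_lit 78612764034) (nat_lit 1) (nat_lit 4) (nat_lit 2) (nat_lit 5) (nat_lit 2) (nat_lit 4) (nat_lit 482) (nat_lit 361) (nat_lit 357)) (XT.lf (nat_lit 0) (nat_lit 192622361987) (nat_lit 76) (nat_lit 78744390434) (nat_lit 76) (nat_lit 78551407058) (nat_lit 1) (nat_lit 4) (nat_lit 2) (nat_lit 5) (nat_lit 2) (nat_lit 4) (nat_lit 483) (nat_lit 361) (nat_lit 356)))) (XT.nd (nat_lit 156) (nat_lit 0) (nat_lit 0) (XT.nd (nat_lit 78) (nat_lit 0) (nat_lit 0) (XT.lf (nat_lit 0) (nat_lit 219870853284) (nat_lit 76) (nat_lit 78986347495) (nat_lit 76) (nat_lit 78762905542) (nat_lit 1) (nat_lit 4) (nat_lit 2) (nat_lit 5) (nat_lit 2) (nat_lit 4) (nat_lit 484) (nat_lit 361) (nat_lit 355)) (XT.lf (nat_lit 0) (nat_lit 248801787393) (nat_lit 76) (nat_lit 79500157150) (nat_lit 76)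 (nat_lit 79248512812) (nat_lit 1) (nat_lit 4) (nat_lit 2) (nat_lit 5) (nat_lit 2) (nat_lit 4) (nat_lit 485) (nat_lit 361) (nat_lit 354))) (XT.nd (nat_lit 78) (nat_lit 0) (nat_lit 0) (XT.lf (nat_lit 0) (nat_lit 279586606886) (nat_lit 76) (nat_lit 80288864198) (nat_lit 76) (nat_lit 80011106540) (nat_lit 1) (nat_lit 4) (nat_lit 2) (nat_lit 5) (nat_lit 2) (nat_lit 4) (nat_lit 486) (nat_lit 361) (nat_lit 353)) (XT.lf (nat_lit 0) (nat_lit 312407740323) (nat_lit 76) (nat_lit 81357142457) (nat_lit 76) (nat_lit 81055205800) (nat_lit 1) (nat_lit 4) (nat_lit 2) (nat_lit 5) (nat_lit 2) (nat_lit 4) (nat_lit 487) (nat_lit 361) (nat_lit 352)))))) (XT.nd (nat_lit 546) (nat_lit 0) (nat_lit 0) (XT.nd (nat_lit 234) (nat_lit 0) (nat_lit 0) (XT.nd (nat_lit 78) (nat_lit 0) (nat_lit 0) (XT.lf (nat_lit 0) (nat_lit 347459683310) (nat_lit 76) (nat_lit 82711322467) (nat_lit 76) (nat_lit 82386997847) (nat_lit 1) (nat_lit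 4) (nat_lit 2) (nat_lit 5) (nat_lit 2) (nat_lit 4) (nat_lit 488) (nat_lit 361) (nat_lit 351)) (XT.nd (nat_lit 78) (nat_lit 0) (nat_lit 0) (XT.lf (nat_lit 0) (nat_lit 384950151063) (nat_lit 76) (nat_lit 84359428996) (nat_lit 76) (nat_lit 84014374781) (nat_lit 1) (nat_lit 4) (nat_lit 2) (nat_lit 5) (nat_lit 2) (nat_lit 4) (nat_lit 489) (nat_lit 361) (nat_lit 350)) (XT.lf (nat_lit 0) (nat_lit 425101309319) (nat_lit 76) (nat_lit 86311228604) (nat_lit 76) (nat_lit 85946980319) (nat_lit 1) (nat_lit 4) (nat_lit 2) (nat_lit 5) (nat_lit 2) (nat_lit 4) (nat_lit 490) (nat_lit 361) (nat_lit 349)))) (XT.nd (nat_lit 156) (nat_lit 0) (nat_lit 0) (XT.nd (nat_lit 78) (nat_lit 0) (nat_lit 0) (XT.lf (nat_lit 0) (nat_lit 468151090866) (nat_lit 76) (nat_lit 88578287508) (nat_lit 76) (nat_lit 88196266937) (nat_lit 1) (nat_lit 4) (nat_lit 2) (nat_lit 5) (nat_lit 2) (nat_lit 4) (nat_lit 491) (nat_lit 361) (nat_lit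 348)) (XT.lf (nat_lit 0) (nat_lit 514354605521) (nat_lit 76) (nat_lit 91174040133) (nat_lit 76) (nat_lit 90775563741) (nat_lit 1) (nat_lit 4) (nat_lit 2) (nat_lit 5) (nat_lit 2) (nat_lit 4) (nat_lit 492) (nat_lit 361) (nat_lit 347))) (XT.nd (nat_lit 78) (nat_lit 0) (nat_lit 0) (XT.lf (nat_lit 0) (nat_lit 563985651890) (nat_lit 76) (nat_lit 94113868716) (nat_lit 76) (nat_lit 93700155452) (nat_lit 1) (nat_lit 4) (nat_lit 2) (nat_lit 5) (nat_lit 2) (nat_lit 4) (nat_lit 493) (nat_lit 361) (nat_lit 346)) (XT.lf (nat_lit 0) (nat_lit 617338339878) (nat_lit 76) (nat_lit 97415194464) (nat_lit 76) (nat_lit 96987372986) (nat_lit 1) (nat_lit 4) (nat_lit 2) (nat_lit 5) (nat_lit 2) (nat_lit 4) (nat_lit 494) (nat_lit 361) (nat_lit 345))))) (XT.nd (nat_lit 234) (nat_lit 0) (nat_lit 0) (XT.nd (nat_lit 78) (nat_lit 0) (nat_lit 0) (XT.lf (nat_lit 0) (nat_lit 674728833560) (nat_lit 76) (nat_lit 101097580788) (nat_lit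 76) (nat_lit 100656696149) (nat_lit 1) (nat_lit 4) (nat_lit 2) (nat_lit 5) (nat_lit 2) (nat_lit 4) (nat_lit 495) (nat_lit 361) (nat_lit 344)) (XT.nd (nat_lit 78) (nat_lit 0) (nat_lit 0) (XT.lf (nat_lit 0) (nat_lit 736497224751) (nat_lit 76) (nat_lit 105182849237) (nat_lit 76) (nat_lit 104729869079) (nat_lit 1) (nat_lit 4) (nat_lit 2) (nat_lit 5) (nat_lit 2) (nat_lit 4) (nat_lit 496) (nat_lit 361) (nat_lit 343)) (XT.lf (nat_lit 0) (nat_lit 803009548363) (nat_lit 76) (nat_lit 109695208810) (nat_lit 76) (nat_lit 109231029096) (nat_lit 1) (nat_lit 4) (nat_lit 2) (nat_lit 5) (nat_lit 2) (nat_lit 4) (nat_lit 497) (nat_lit 361) (nat_lit 342)))) (XT.nd (nat_lit 156) (nat_lit 0) (nat_lit 0) (XT.nd (nat_lit 78) (nat_lit 0) (nat_lit 0) (XT.lf (nat_lit 0) (nat_lit 874659951497) (nat_lit 76) (nat_lit 114661399415) (nat_lit 76) (nat_lit 114186849742) (nat_lit 1) (nat_lit 4) (nat_lit 2) (nat_lit 5) (nat_lit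 2) (nat_lit 4) (nat_lit 498) (nat_lit 361) (nat_lit 341)) (XT.lf (nat_lit 0) (nat_lit 951873029137) (nat_lit 76) (nat_lit 120110850329) (nat_lit 76) (nat_lit 119626698843) (nat_lit 1) (nat_lit 4) (nat_lit 2) (nat_lit 5) (nat_lit 2) (nat_lit 4) (nat_lit 499) (nat_lit 361) (nat_lit 340))) (XT.nd (nat_lit 78) (nat_lit 0) (nat_lit 0) (XT.lf (nat_lit 0) (nat_lit 1035106340259) (nat_lit 76) (nat_lit 126075854595) (nat_lit 76) (nat_lit 125582812541) (nat_lit 1) (nat_lit 4) (nat_lit 2) (nat_lit 5) (nat_lit 2) (nat_lit 4) (nat_lit 500) (nat_lit 361) (nat_lit 339)) (XT.lf (nat_lit 0) (nat_lit 1124853119301) (nat_lit 76) (nat_lit 132591760386) (nat_lit 76) (nat_lit 132090486325) (nat_lit 1) (nat_lit 4) (nat_lit 2) (nat_lit 5) (nat_lit 2) (nat_lit 4) (nat_lit 501) (nat_lit 361) (nat_lit 338))))))))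
noncomputable def xc3 : XT := (XT.nd (nat_lit 122772) (nat_lit 0) (nat_lit 0) (XT.nd (nat_lit 61464) (nat_lit 0) (nat_lit 0) (XT.nd (nat_lit 60918) (nat_lit 0) (nat_lit 0) (XT.nd (nat_lit 60606) (nat_lit 0) (nat_lit 0) (XT.nd (nat_lit 60450) (nat_lit 0) (nat_lit 0) (XT.lf (nat_lit 0) (nat_lit 1221645199027) (nat_lit 76) (nat_lit 139697180478) (nat_lit 76) (nat_lit 139188284188) (nat_lit 1) (nat_lit 4) (nat_lit 2) (nat_lit 5) (nat_lit 2) (nat_lit 4) (nat_lit 502) (nat_lit 361) (nat_lit 337)) (XT.nd (nat_lit 78) (nat_lit 0) (nat_lit 0) (XT.lf (nat_lit 0) (nat_lit 18431585509) (nat_lit 76) (nat_lit 42292625589) (nat_lit 76) (nat_lit 42292625589) (nat_lit 1) (nat_lit 4) (nat_lit 2) (nat_lit 5) (nat_lit 2) (nat_lit 4) (nat_lit 476) (nat_lit 362) (nat_lit 362)) (XT.lf (nat_lit 0) (nat_lit 56001883328) (nat_lit 76) (nat_lit 83082088886) (nat_lit 76) (nat_lit 83033754953) (nat_lit 1) (nat_lit 4) (nat_lit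 2) (nat_lit 5) (nat_lit 2) (nat_lit 4) (nat_lit 477) (nat_lit 362) (nat_lit 361)))) (XT.nd (nat_lit 156) (nat_lit 0) (nat_lit 0) (XT.nd (nat_lit 78) (nat_lit 0) (nat_lit 0) (XT.lf (nat_lit 0) (nat_lit 75882323424) (nat_lit 76) (nat_lit 81859353075) (nat_lit 76) (nat_lit 81766265502) (nat_lit 1) (nat_lit 4) (nat_lit 2) (nat_lit 5) (nat_lit 2) (nat_lit 4) (nat_lit 478) (nat_lit 362) (nat_lit 360)) (XT.lf (nat_lit 0) (nat_lit 96622301323) (nat_lit 76) (nat_lit 80909797905) (nat_lit 76) (nat_lit 80775271775) (nat_lit 1) (nat_lit 4) (nat_lit 2) (nat_lit 5) (nat_lit 2) (nat_lit 4) (nat_lit 479) (nat_lit 362) (nat_lit 359))) (XT.nd (nat_lit 78) (nat_lit 0) (nat_lit 0) (XT.lf (nat_lit 0) (nat_lit 118344720598) (nat_lit 76) (nat_lit 80227796382) (nat_lit 76) (nat_lit 80054901218) (nat_lit 1) (nat_lit 4) (nat_lit 2) (nat_lit 5) (nat_lit 2) (nat_lit 4) (nat_lit 480) (nat_lit 362) (nat_lit 358)) (XT.lf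 (nat_lit 0) (nat_lit 141178306696) (nat_lit 76) (nat_lit 79809307016) (nat_lit 76) (nat_lit 79600884969) (nat_lit 1) (nat_lit 4) (nat_lit 2) (nat_lit 5) (nat_lit 2) (nat_lit 4) (nat_lit 481) (nat_lit 362) (nat_lit 357))))) (XT.nd (nat_lit 234) (nat_lit 0) (nat_lit 0) (XT.nd (nat_lit 78) (nat_lit 0) (nat_lit 0) (XT.lf (nat_lit 0) (nat_lit 165258369757) (nat_lit 76) (nat_lit 79651849869) (nat_lit 76) (nat_lit 79410532560) (nat_lit 1) (nat_lit 4) (nat_lit 2) (nat_lit 5) (nat_lit 2) (nat_lit 4) (nat_lit 482) (nat_lit 362) (nat_lit 356)) (XT.nd (nat_lit 78) (nat_lit 0) (nat_lit 0) (XT.lf (nat_lit 0) (nat_lit 190727606452) (nat_lit 76) (nat_lit 79754491863) (nat_lit 76) (nat_lit 79482715978) (nat_lit 1) (nat_lit 4) (nat_lit 2) (nat_lit 5) (nat_lit 2) (nat_lit 4) (nat_lit 483) (nat_lit 362) (nat_lit 355)) (XT.lf (nat_lit 0) (nat_lit 217736945589) (nat_lit 76) (nat_lit 80117841245) (nat_lit 76) (nat_lit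 79817862975) (nat_lit 1) (nat_lit 4) (nat_lit 2) (nat_lit 5) (nat_lit 2) (nat_lit 4) (nat_lit 484) (nat_lit 362) (nat_lit 354)))) (XT.nd (nat_lit 156) (nat_lit 0) (nat_lit 0) (XT.nd (nat_lit 78) (nat_lit 0) (nat_lit 0) (XT.lf (nat_lit 0) (nat_lit 246446442514) (nat_lit 76) (nat_lit 80744051199) (nat_lit 76) (nat_lit 80417959609) (nat_lit 1) (nat_lit 4) (nat_lit 2) (nat_lit 5) (nat_lit 2) (nat_lit 4) (nat_lit 485) (nat_lit 362) (nat_lit 353)) (XT.lf (nat_lit 0) (nat_lit 277026227576) (nat_lit 76) (nat_lit 81636832596) (nat_lit 76) (nat_lit 81286562007) (nat_lit 1) (nat_lit 4) (nat_lit 2) (nat_lit 5) (nat_lit 2) (nat_lit 4) (nat_lit 486) (nat_lit 362) (nat_lit 352))) (XT.nd (nat_lit 78) (nat_lit 0) (nat_lit 0) (XT.lf (nat_lit 0) (nat_lit 309657514318) (nat_lit 76) (nat_lit 82801475995) (nat_lit 76) (nat_lit 82428817442) (nat_lit 1) (nat_lit 4) (nat_lit 2) (nat_lit 5) (nat_lit 2) (nat_lit 4) (nat_lit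 487) (nat_lit 362) (nat_lit 351)) (XT.lf (nat_lit 0) (nat_lit 344533673328) (nat_lit 76) (nat_lit 84244882985) (nat_lit 76) (nat_lit 83851494837) (nat_lit 1) (nat_lit 4) (nat_lit 2) (nat_lit 5) (nat_lit 2) (nat_lit 4) (nat_lit 488) (nat_lit 362) (nat_lit 350)))))) (XT.nd (nat_lit 546) (nat_lit 0) (nat_lit 0) (XT.nd (nat_lit 234) (nat_lit 0) (nat_lit 0) (XT.nd (nat_lit 78) (nat_lit 0) (nat_lit 0) (XT.lf (nat_lit 0) (nat_lit 381861378140) (nat_lit 76) (nat_lit 85975607089) (nat_lit 76) (nat_lit 85563024872) (nat_lit 1) (nat_lit 4) (nat_lit 2) (nat_lit 5) (nat_lit 2) (nat_lit 4) (nat_lit 489) (nat_lit 362) (nat_lit 349)) (XT.nd (nat_lit 78) (nat_lit 0) (nat_lit 0) (XT.lf (nat_lit 0) (nat_lit 421861829968) (nat_lit 76) (nat_lit 88003904450) (nat_lit 76) (nat_lit 87573549947) (nat_lit 1) (nat_lit 4) (nat_lit 2) (nat_lit 5) (nat_lit 2) (nat_lit 4) (nat_lit 490) (nat_lit 362) (nat_lit 348)) (XT.lf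 (nat_lit 0) (nat_lit 464772068527) (nat_lit 76) (nat_lit 90341794608) (nat_lit 76) (nat_lit 89894984284) (nat_lit 1) (nat_lit 4) (nat_lit 2) (nat_lit 5) (nat_lit 2) (nat_lit 4) (nat_lit 491) (nat_lit 362) (nat_lit 347)))) (XT.nd (nat_lit 156) (nat_lit 0) (nat_lit 0) (XT.nd (nat_lit 78) (nat_lit 0) (nat_lit 0) (XT.lf (nat_lit 0) (nat_lit 510846376712) (nat_lit 76) (nat_lit 93003131728) (nat_lit 76) (nat_lit 92541084532) (nat_lit 1) (nat_lit 4) (nat_lit 2) (nat_lit 5) (nat_lit 2) (nat_lit 4) (nat_lit 492) (nat_lit 362) (nat_lit 346)) (XT.lf (nat_lit 0) (nat_lit 560357787460) (nat_lit 76) (nat_lit 96003686694) (nat_lit 76) (nat_lit 95527531285) (nat_lit 1) (nat_lit 4) (nat_lit 2) (nat_lit 5) (nat_lit 2) (nat_lit 4) (nat_lit 493) (nat_lit 362) (nat_lit 345))) (XT.nd (nat_lit 78) (nat_lit 0) (nat_lit 0) (XT.lf (nat_lit 0) (nat_lit 613599701724) (nat_lit 76) (nat_lit 99361240575) (nat_lit 76) (nat_lit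 98872022004) (nat_lit 1) (nat_lit 4) (nat_lit 2) (nat_lit 5) (nat_lit 2) (nat_lit 4) (nat_lit 494) (nat_lit 362) (nat_lit 344)) (XT.lf (nat_lit 0) (nat_lit 670887627144) (nat_lit 76) (nat_lit 103095689986) (nat_lit 76) (nat_lit 102594375895) (nat_lit 1) (nat_lit 4) (nat_lit 2) (nat_lit 5) (nat_lit 2) (nat_lit 4) (nat_lit 495) (nat_lit 362) (nat_lit 343))))) (XT.nd (nat_lit 234) (nat_lit 0) (nat_lit 0) (XT.nd (nat_lit 78) (nat_lit 0) (nat_lit 0) (XT.lf (nat_lit 0) (nat_lit 732561047722) (nat_lit 76) (nat_lit 107229164996) (nat_lit 76) (nat_lit 106716651350) (nat_lit 1) (nat_lit 4) (nat_lit 2) (nat_lit 5) (nat_lit 2) (nat_lit 4) (nat_lit 496) (nat_lit 362) (nat_lit 342)) (XT.nd (nat_lit 78) (nat_lit 0) (nat_lit 0) (XT.lf (nat_lit 0) (nat_lit 798985435581) (nat_lit 76) (nat_lit 111786160274) (nat_lit 76) (nat_lit 111263276669) (nat_lit 1) (nat_lit 4) (nat_lit 2) (nat_lit 5) (nat_lit 2) (nat_lit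 4) (nat_lit 497) (nat_lit 362) (nat_lit 341)) (XT.lf (nat_lit 0) (nat_lit 870554416722) (nat_lit 76) (nat_lit 116793680235) (nat_lit 76) (nat_lit 116261194817) (nat_lit 1) (nat_lit 4) (nat_lit 2) (nat_lit 5) (nat_lit 2) (nat_lit 4) (nat_lit 498) (nat_lit 362) (nat_lit 340)))) (XT.nd (nat_lit 156) (nat_lit 0) (nat_lit 0) (XT.nd (nat_lit 78) (nat_lit 0) (nat_lit 0) (XT.lf (nat_lit 0) (nat_lit 947692103627) (nat_lit 76) (nat_lit 122281399071) (nat_lit 76) (nat_lit 121740023085) (nat_lit 1) (nat_lit 4) (nat_lit 2) (nat_lit 5) (nat_lit 2) (nat_lit 4) (nat_lit 499) (nat_lit 362) (nat_lit 339)) (XT.lf (nat_lit 0) (nat_lit 1030855608514) (nat_lit 76) (nat_lit 128281836599) (nat_lit 76) (nat_lit 127732228606) (nat_lit 1) (nat_lit 4) (nat_lit 2) (nat_lit 5) (nat_lit 2) (nat_lit 4) (nat_lit 500) (nat_lit 362) (nat_lit 338))) (XT.nd (nat_lit 78) (nat_lit 0) (nat_lit 0) (XT.lf (nat_lit 0) (nat_lit 1120537752152)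 (nat_lit 76) (nat_lit 134830550966) (nat_lit 76) (nat_lit 134273320744) (nat_lit 1) (nat_lit 4) (nat_lit 2) (nat_lit 5) (nat_lit 2) (nat_lit 4) (nat_lit 501) (nat_lit 362) (nat_lit 337)) (XT.lf (nat_lit 0) (nat_lit 1217269984282) (nat_lit 76) (nat_lit 141966349369) (nat_lit 76) (nat_lit 141402061527) (nat_lit 1) (nat_lit 4) (nat_lit 2) (nat_lit 5) (nat_lit 2) (nat_lit 4) (nat_lit 502) (nat_lit 362) (nat_lit 336))))))) (XT.nd (nat_lit 1092) (nat_lit 0) (nat_lit 0) (XT.nd (nat_lit 546) (nat_lit 0) (nat_lit 0) (XT.nd (nat_lit 234) (nat_lit 0) (nat_lit 0) (XT.nd (nat_lit 78) (nat_lit 0) (nat_lit 0) (XT.lf (nat_lit 0) (nat_lit 401824347) (nat_lit 76) (nat_lit 44148856115) (nat_lit 76) (nat_lit 44148856115) (nat_lit 1) (nat_lit 4) (nat_lit 2) (nat_lit 5) (nat_lit 2) (nat_lit 4) (nat_lit 474) (nat_lit 363) (nat_lit 363)) (XT.nd (nat_lit 78) (nat_lit 0) (nat_lit 0) (XT.lf (nat_lit 0) (nat_lit 18352771907)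 (nat_lit 76) (nat_lit 86429948230) (nat_lit 76) (nat_lit 86377747583) (nat_lit 1) (nat_lit 4) (nat_lit 2) (nat_lit 5) (nat_lit 2) (nat_lit 4) (nat_lit 475) (nat_lit 363) (nat_lit 362)) (XT.lf (nat_lit 0) (nat_lit 36453306244) (nat_lit 76) (nat_lit 84845496933) (nat_lit 76) (nat_lit 84744962354) (nat_lit 1) (nat_lit 4) (nat_lit 2) (nat_lit 5) (nat_lit 2) (nat_lit 4) (nat_lit 476) (nat_lit 363) (nat_lit 361)))) (XT.nd (nat_lit 156) (nat_lit 0) (nat_lit 0) (XT.nd (nat_lit 78) (nat_lit 0) (nat_lit 0) (XT.lf (nat_lit 0) (nat_lit 55212514131) (nat_lit 76) (nat_lit 83534968999) (nat_lit 76) (nat_lit 83389680778) (nat_lit 1) (nat_lit 4) (nat_lit 2) (nat_lit 5) (nat_lit 2) (nat_lit 4) (nat_lit 477) (nat_lit 363) (nat_lit 360)) (XT.lf (nat_lit 0) (nat_lit 74741561244) (nat_lit 76) (nat_lit 82490598335) (nat_lit 76) (nat_lit 82303871558) (nat_lit 1) (nat_lit 4) (nat_lit 2) (nat_lit 5) (nat_lit 2) (nat_lit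 4) (nat_lit 478) (nat_lit 363) (nat_lit 359))) (XT.nd (nat_lit 78) (nat_lit 0) (nat_lit 0) (XT.lf (nat_lit 0) (nat_lit 95156175270) (nat_lit 76) (nat_lit 81706196079) (nat_lit 76) (nat_lit 81481100268) (nat_lit 1) (nat_lit 4) (nat_lit 2) (nat_lit 5) (nat_lit 2) (nat_lit 4) (nat_lit 479) (nat_lit 363) (nat_lit 358)) (XT.lf (nat_lit 0) (nat_lit 116577331699) (nat_lit 76) (nat_lit 81177113920) (nat_lit 76) (nat_lit 80916491227) (nat_lit 1) (nat_lit 4) (nat_lit 2) (nat_lit 5) (nat_lit 2) (nat_lit 4) (nat_lit 480) (nat_lit 363) (nat_lit 357))))) (XT.nd (nat_lit 234) (nat_lit 0) (nat_lit 0) (XT.nd (nat_lit 78) (nat_lit 0) (nat_lit 0) (XT.lf (nat_lit 0) (nat_lit 139131970718) (nat_lit 76) (nat_lit 80900216558) (nat_lit 76) (nat_lit 80606698602) (nat_lit 1) (nat_lit 4) (nat_lit 2) (nat_lit 5) (nat_lit 2) (nat_lit 4) (nat_lit 481) (nat_lit 363) (nat_lit 356)) (XT.nd (nat_lit 78) (nat_lit 0) (nat_lit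 0) (XT.lf (nat_lit 0) (nat_lit 162953749447) (nat_lit 76) (nat_lit 80873863119) (nat_lit 76) (nat_lit 80549886587) (nat_lit 1) (nat_lit 4) (nat_lit 2) (nat_lit 5) (nat_lit 2) (nat_lit 4) (nat_lit 482) (nat_lit 363) (nat_lit 355)) (XT.lf (nat_lit 0) (nat_lit 188183833982) (nat_lit 76) (nat_lit 81097897435) (nat_lit 76) (nat_lit 80745718518) (nat_lit 1) (nat_lit 4) (nat_lit 2) (nat_lit 5) (nat_lit 2) (nat_lit 4) (nat_lit 483) (nat_lit 363) (nat_lit 354)))) (XT.nd (nat_lit 156) (nat_lit 0) (nat_lit 0) (XT.nd (nat_lit 78) (nat_lit 0) (nat_lit 0) (XT.lf (nat_lit 0) (nat_lit 214971735934) (nat_lit 76) (nat_lit 81573647116) (nat_lit 76) (nat_lit 81195354879) (nat_lit 1) (nat_lit 4) (nat_lit 2) (nat_lit 5) (nat_lit 2) (nat_lit 4) (nat_lit 484) (nat_lit 363) (nat_lit 353)) (XT.lf (nat_lit 0) (nat_lit 243476198428) (nat_lit 76) (nat_lit 82303931419) (nat_lit 76) (nat_lit 81901460182) (nat_lit 1) (nat_lit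 4) (nat_lit 2) (nat_lit 5) (nat_lit 2) (nat_lit 4) (nat_lit 485) (nat_lit 363) (nat_lit 352))) (XT.nd (nat_lit 78) (nat_lit 0) (nat_lit 0) (XT.lf (nat_lit 0) (nat_lit 273866136795) (nat_lit 76) (nat_lit 83293077956) (nat_lit 76) (nat_lit 82868218756) (nat_lit 1) (nat_lit 4) (nat_lit 2) (nat_lit 5) (nat_lit 2) (nat_lit 4) (nat_lit 486) (nat_lit 363) (nat_lit 351)) (XT.lf (nat_lit 0) (nat_lit 306321639561) (nat_lit 76) (nat_lit 84546948335) (nat_lit 76) (nat_lit 84101359540) (nat_lit 1) (nat_lit 4) (nat_lit 2) (nat_lit 5) (nat_lit 2) (nat_lit 4) (nat_lit 487) (nat_lit 363) (nat_lit 350)))))) (XT.nd (nat_lit 546) (nat_lit 0) (nat_lit 0) (XT.nd (nat_lit 234) (nat_lit 0) (nat_lit 0) (XT.nd (nat_lit 78) (nat_lit 0) (nat_lit 0) (XT.lf (nat_lit 0) (nat_lit 341035035629) (nat_lit 76) (nat_lit 86072972899) (nat_lit 76) (nat_lit 85608190035) (nat_lit 1) (nat_lit 4) (nat_lit 2) (nat_lit 5) (nat_lit 2)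 (nat_lit 4) (nat_lit 488) (nat_lit 363) (nat_lit 349)) (XT.nd (nat_lit 78) (nat_lit 0) (nat_lit 0) (XT.lf (nat_lit 0) (nat_lit 378212034013) (nat_lit 76) (nat_lit 87880194757) (nat_lit 76) (nat_lit 87397639607) (nat_lit 1) (nat_lit 4) (nat_lit 2) (nat_lit 5) (nat_lit 2) (nat_lit 4) (nat_lit 489) (nat_lit 363) (nat_lit 348)) (XT.lf (nat_lit 0) (nat_lit 418072942853) (nat_lit 76) (nat_lit 89979323373) (nat_lit 76) (nat_lit 89480312401) (nat_lit 1) (nat_lit 4) (nat_lit 2) (nat_lit 5) (nat_lit 2) (nat_lit 4) (nat_lit 490) (nat_lit 363) (nat_lit 347)))) (XT.nd (nat_lit 156) (nat_lit 0) (nat_lit 0) (XT.nd (nat_lit 78) (nat_lit 0) (nat_lit 0) (XT.lf (nat_lit 0) (nat_lit 460853974942) (nat_lit 76) (nat_lit 92382798025) (nat_lit 76) (nat_lit 91868550183) (nat_lit 1) (nat_lit 4) (nat_lit 2) (nat_lit 5) (nat_lit 2) (nat_lit 4) (nat_lit 491) (nat_lit 363) (nat_lit 346)) (XT.lf (nat_lit 0) (nat_lit 506808647506)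 (nat_lit 76) (nat_lit 95104861528) (nat_lit 76) (nat_lit 94576505471) (nat_lit 1) (nat_lit 4) (nat_lit 2) (nat_lit 5) (nat_lit 2) (nat_lit 4) (nat_lit 492) (nat_lit 363) (nat_lit 345))) (XT.nd (nat_lit 78) (nat_lit 0) (nat_lit 0) (XT.lf (nat_lit 0) (nat_lit 556209284531) (nat_lit 76) (nat_lit 98161644628) (nat_lit 76) (nat_lit 97620225410) (nat_lit 1) (nat_lit 4) (nat_lit 2) (nat_lit 5) (nat_lit 2) (nat_lit 4) (nat_lit 493) (nat_lit 363) (nat_lit 344)) (XT.lf (nat_lit 0) (nat_lit 609348630533) (nat_lit 76) (nat_lit 101571261595) (nat_lit 76) (nat_lit 101017746857) (nat_lit 1) (nat_lit 4) (nat_lit 2) (nat_lit 5) (nat_lit 2) (nat_lit 4) (nat_lit 494) (nat_lit 363) (nat_lit 343))))) (XT.nd (nat_lit 312) (nat_lit 0) (nat_lit 0) (XT.nd (nat_lit 156) (nat_lit 0) (nat_lit 0) (XT.nd (nat_lit 78) (nat_lit 0) (nat_lit 0) (XT.lf (nat_lit 0) (nat_lit 666541585340) (nat_lit 76) (nat_lit 105353917566) (nat_lit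 76) (nat_lit 104789203274) (nat_lit 1) (nat_lit 4) (nat_lit 2) (nat_lit 5) (nat_lit 2) (nat_lit 4) (nat_lit 495) (nat_lit 363) (nat_lit 342)) (XT.lf (nat_lit 0) (nat_lit 728127070165) (nat_lit 76) (nat_lit 109532028282) (nat_lit 76) (nat_lit 108956944031) (nat_lit 1) (nat_lit 4) (nat_lit 2) (nat_lit 5) (nat_lit 2) (nat_lit 4) (nat_lit 496) (nat_lit 363) (nat_lit 341))) (XT.nd (nat_lit 78) (nat_lit 0) (nat_lit 0) (XT.lf (nat_lit 0) (nat_lit 794470036031) (nat_lit 76) (nat_lit 114130352916) (nat_lit 76) (nat_lit 113545666851) (nat_lit 1) (nat_lit 4) (nat_lit 2) (nat_lit 5) (nat_lit 2) (nat_lit 4) (nat_lit 497) (nat_lit 363) (nat_lit 340)) (XT.lf (nat_lit 0) (nat_lit 865963626437) (nat_lit 76) (nat_lit 119176140799) (nat_lit 76) (nat_lit 118582564167) (nat_lit 1) (nat_lit 4) (nat_lit 2) (nat_lit 5) (nat_lit 2) (nat_lit 4) (nat_lit 498) (nat_lit 363) (nat_lit 339)))) (XT.nd (nat_lit 156) (nat_lit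 0) (nat_lit 0) (XT.nd (nat_lit 78) (nat_lit 0) (nat_lit 0) (XT.lf (nat_lit 0) (nat_lit 943031507106) (nat_lit 76) (nat_lit 124699292897) (nat_lit 76) (nat_lit 124097484257) (nat_lit 1) (nat_lit 4) (nat_lit 2) (nat_lit 5) (nat_lit 2) (nat_lit 4) (nat_lit 499) (nat_lit 363) (nat_lit 338)) (XT.lf (nat_lit 0) (nat_lit 1026130376590) (nat_lit 76) (nat_lit 130732539001) (nat_lit 76) (nat_lit 130123108132) (nat_lit 1) (nat_lit 4) (nat_lit 2) (nat_lit 5) (nat_lit 2) (nat_lit 4) (nat_lit 500) (nat_lit 363) (nat_lit 337))) (XT.nd (nat_lit 78) (nat_lit 0) (nat_lit 0) (XT.lf (nat_lit 0) (nat_lit 1115752672632) (nat_lit 76) (nat_lit 137311631679) (nat_lit 76) (nat_lit 136695143190) (nat_lit 1) (nat_lit 4) (nat_lit 2) (nat_lit 5) (nat_lit 2) (nat_lit 4) (nat_lit 501) (nat_lit 363) (nat_lit 336)) (XT.lf (nat_lit 0) (nat_lit 1212429490322) (nat_lit 76) (nat_lit 144475558147) (nat_lit 76) (nat_lit 143852534825)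 (nat_lit 1) (nat_lit 4) (nat_lit 2) (nat_lit 5) (nat_lit 2) (nat_lit 4) (nat_lit 502) (nat_lit 363) (nat_lit 335))))))))
noncomputable def xc4 : XT := (XT.nd (nat_lit 2184) (nat_lit 0) (nat_lit 0) (XT.nd (nat_lit 1092) (nat_lit 0) (nat_lit 0) (XT.nd (nat_lit 546) (nat_lit 0) (nat_lit 0) (XT.nd (nat_lit 234) (nat_lit 0) (nat_lit 0) (XT.nd (nat_lit 78) (nat_lit 76) (nat_lit 0) (XT.lf (nat_lit 0) (nat_lit 30337939750) (nat_lit 152) (nat_lit 15766501237) (nat_lit 0) (nat_lit 30337939750) (nat_lit 2) (nat_lit 5) (nat_lit 4) (nat_lit 4) (nat_lit 2) (nat_lit 4) (nat_lit 472) (nat_lit 364) (nat_lit 364)) (XT.nd (nat_lit 78) (nat_lit 76) (nat_lit 0) (XT.lf (nat_lit 0) (nat_lit 74472634030) (nat_lit 152) (nat_lit 15776418551) (nat_lit 0) (nat_lit 74416257332) (nat_lit 2) (nat_lit 5) (nat_lit 4) (nat_lit 4) (nat_lit 2) (nat_lit 4) (nat_lit 473) (nat_lit 364) (nat_lit 363)) (XT.lf (nat_lit 0) (nat_lit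 360994738) (nat_lit 76) (nat_lit 88578777645) (nat_lit 76) (nat_lit 88470200300) (nat_lit 1) (nat_lit 4) (nat_lit 2) (nat_lit 5) (nat_lit 2) (nat_lit 4) (nat_lit 474) (nat_lit 364) (nat_lit 362)))) (XT.nd (nat_lit 156) (nat_lit 0) (nat_lit 0) (XT.nd (nat_lit 78) (nat_lit 0) (nat_lit 0) (XT.lf (nat_lit 0) (nat_lit 17500253175) (nat_lit 76) (nat_lit 86919058752) (nat_lit 76) (nat_lit 86762147474) (nat_lit 1) (nat_lit 4) (nat_lit 2) (nat_lit 5) (nat_lit 2) (nat_lit 4) (nat_lit 475) (nat_lit 364) (nat_lit 361)) (XT.lf (nat_lit 0) (nat_lit 35221283090) (nat_lit 76) (nat_lit 85527241814) (nat_lit 76) (nat_lit 85325576895) (nat_lit 1) (nat_lit 4) (nat_lit 2) (nat_lit 5) (nat_lit 2) (nat_lit 4) (nat_lit 476) (nat_lit 364) (nat_lit 360))) (XT.nd (nat_lit 78) (nat_lit 0) (nat_lit 0) (XT.lf (nat_lit 0) (nat_lit 53629097993) (nat_lit 76) (nat_lit 84395079026) (nat_lit 76) (nat_lit 84151975551) (nat_lit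 1) (nat_lit 4) (nat_lit 2) (nat_lit 5) (nat_lit 2) (nat_lit 4) (nat_lit 477) (nat_lit 364) (nat_lit 359)) (XT.lf (nat_lit 0) (nat_lit 72832781233) (nat_lit 76) (nat_lit 83515861276) (nat_lit 76) (nat_lit 83234388767) (nat_lit 1) (nat_lit 4) (nat_lit 2) (nat_lit 5) (nat_lit 2) (nat_lit 4) (nat_lit 478) (nat_lit 364) (nat_lit 358))))) (XT.nd (nat_lit 234) (nat_lit 0) (nat_lit 0) (XT.nd (nat_lit 78) (nat_lit 0) (nat_lit 0) (XT.lf (nat_lit 0) (nat_lit 92946132414) (nat_lit 76) (nat_lit 82884378385) (nat_lit 76) (nat_lit 82567378992) (nat_lit 1) (nat_lit 4) (nat_lit 2) (nat_lit 5) (nat_lit 2) (nat_lit 4) (nat_lit 479) (nat_lit 364) (nat_lit 357)) (XT.nd (nat_lit 78) (nat_lit 0) (nat_lit 0) (XT.lf (nat_lit 0) (nat_lit 114088341764) (nat_lit 76) (nat_lit 82496888231) (nat_lit 76) (nat_lit 82146993576) (nat_lit 1) (nat_lit 4) (nat_lit 2) (nat_lit 5) (nat_lit 2) (nat_lit 4) (nat_lit 480) (nat_lit 364)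 (nat_lit 356)) (XT.lf (nat_lit 0) (nat_lit 136384696450) (nat_lit 76) (nat_lit 82351094576) (nat_lit 76) (nat_lit 81970741346) (nat_lit 1) (nat_lit 4) (nat_lit 2) (nat_lit 5) (nat_lit 2) (nat_lit 4) (nat_lit 481) (nat_lit 364) (nat_lit 355)))) (XT.nd (nat_lit 156) (nat_lit 0) (nat_lit 0) (XT.nd (nat_lit 78) (nat_lit 0) (nat_lit 0) (XT.lf (nat_lit 0) (nat_lit 159967323019) (nat_lit 76) (nat_lit 82446133459) (nat_lit 76) (nat_lit 82037577843) (nat_lit 1) (nat_lit 4) (nat_lit 2) (nat_lit 5) (nat_lit 2) (nat_lit 4) (nat_lit 482) (nat_lit 364) (nat_lit 354)) (XT.lf (nat_lit 0) (nat_lit 184975970369) (nat_lit 76) (nat_lit 82782568073) (nat_lit 76) (nat_lit 82347899137) (nat_lit 1) (nat_lit 4) (nat_lit 2) (nat_lit 5) (nat_lit 2) (nat_lit 4) (nat_lit 483) (nat_lit 364) (nat_lit 353))) (XT.nd (nat_lit 78) (nat_lit 0) (nat_lit 0) (XT.lf (nat_lit 0) (nat_lit 211558837891) (nat_lit 76) (nat_lit 83362392104)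 (nat_lit 76) (nat_lit 82903544168) (nat_lit 1) (nat_lit 4) (nat_lit 2) (nat_lit 5) (nat_lit 2) (nat_lit 4) (nat_lit 484) (nat_lit 364) (nat_lit 352)) (XT.lf (nat_lit 0) (nat_lit 239873453690) (nat_lit 76) (nat_lit 84189041546) (nat_lit 76) (nat_lit 83707805648) (nat_lit 1) (nat_lit 4) (nat_lit 2) (nat_lit 5) (nat_lit 2) (nat_lit 4) (nat_lit 485) (nat_lit 364) (nat_lit 351)))))) (XT.nd (nat_lit 546) (nat_lit 0) (nat_lit 0) (XT.nd (nat_lit 234) (nat_lit 0) (nat_lit 0) (XT.nd (nat_lit 78) (nat_lit 0) (nat_lit 0) (XT.lf (nat_lit 0) (nat_lit 270087608081) (nat_lit 76) (nat_lit 85267415063) (nat_lit 76) (nat_lit 84765449570) (nat_lit 1) (nat_lit 4) (nat_lit 2) (nat_lit 5) (nat_lit 2) (nat_lit 4) (nat_lit 486) (nat_lit 364) (nat_lit 350)) (XT.nd (nat_lit 78) (nat_lit 0) (nat_lit 0) (XT.lf (nat_lit 0) (nat_lit 302380347904) (nat_lit 76) (nat_lit 86603903017) (nat_lit 76) (nat_lit 86082743454) (nat_lit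 1) (nat_lit 4) (nat_lit 2) (nat_lit 5) (nat_lit 2) (nat_lit 4) (nat_lit 487) (nat_lit 364) (nat_lit 349)) (XT.lf (nat_lit 0) (nat_lit 336943037545) (nat_lit 76) (nat_lit 88206425335) (nat_lit 76) (nat_lit 87667493486) (nat_lit 1) (nat_lit 4) (nat_lit 2) (nat_lit 5) (nat_lit 2) (nat_lit 4) (nat_lit 488) (nat_lit 364) (nat_lit 348)))) (XT.nd (nat_lit 156) (nat_lit 0) (nat_lit 0) (XT.nd (nat_lit 78) (nat_lit 0) (nat_lit 0) (XT.lf (nat_lit 0) (nat_lit 373980492942) (nat_lit 76) (nat_lit 90084478448) (nat_lit 76) (nat_lit 89529090778) (nat_lit 1) (nat_lit 4) (nat_lit 2) (nat_lit 5) (nat_lit 2) (nat_lit 4) (nat_lit 489) (nat_lit 364) (nat_lit 347)) (XT.lf (nat_lit 0) (nat_lit 413712195311) (nat_lit 76) (nat_lit 92249191557) (nat_lit 76) (nat_lit 91678567016) (nat_lit 1) (nat_lit 4) (nat_lit 2) (nat_lit 5) (nat_lit 2) (nat_lit 4) (nat_lit 490) (nat_lit 364) (nat_lit 346))) (XT.nd (nat_lit 78) (nat_lit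 0) (nat_lit 0) (XT.lf (nat_lit 0) (nat_lit 456373591779) (nat_lit 76) (nat_lit 94713392593) (nat_lit 76) (nat_lit 94128659838) (nat_lit 1) (nat_lit 4) (nat_lit 2) (nat_lit 5) (nat_lit 2) (nat_lit 4) (nat_lit 491) (nat_lit 364) (nat_lit 345)) (XT.lf (nat_lit 0) (nat_lit 502217490619) (nat_lit 76) (nat_lit 97491684229) (nat_lit 76) (nat_lit 96893888313) (nat_lit 1) (nat_lit 4) (nat_lit 2) (nat_lit 5) (nat_lit 2) (nat_lit 4) (nat_lit 492) (nat_lit 364) (nat_lit 344))))) (XT.nd (nat_lit 234) (nat_lit 0) (nat_lit 0) (XT.nd (nat_lit 78) (nat_lit 0) (nat_lit 0) (XT.lf (nat_lit 0) (nat_lit 551515559382) (nat_lit 76) (nat_lit 100600530415) (nat_lit 76) (nat_lit 99990638979) (nat_lit 1) (nat_lit 4) (nat_lit 2) (nat_lit 5) (nat_lit 2) (nat_lit 4) (nat_lit 493) (nat_lit 364) (nat_lit 343)) (XT.nd (nat_lit 78) (nat_lit 0) (nat_lit 0) (XT.lf (nat_lit 0) (nat_lit 604559934771) (nat_lit 76) (nat_lit 104058353943)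 (nat_lit 76) (nat_lit 103437262952) (nat_lit 1) (nat_lit 4) (nat_lit 2) (nat_lit 5) (nat_lit 2) (nat_lit 4) (nat_lit 494) (nat_lit 364) (nat_lit 342)) (XT.lf (nat_lit 0) (nat_lit 661664953825) (nat_lit 76) (nat_lit 107885645620) (nat_lit 76) (nat_lit 107254184670) (nat_lit 1) (nat_lit 4) (nat_lit 2) (nat_lit 5) (nat_lit 2) (nat_lit 4) (nat_lit 495) (nat_lit 364) (nat_lit 341)))) (XT.nd (nat_lit 156) (nat_lit 0) (nat_lit 0) (XT.nd (nat_lit 78) (nat_lit 0) (nat_lit 0) (XT.lf (nat_lit 0) (nat_lit 723169016658) (nat_lit 76) (nat_lit 112105085692) (nat_lit 76) (nat_lit 111464022928) (nat_lit 1) (nat_lit 4) (nat_lit 2) (nat_lit 5) (nat_lit 2) (nat_lit 4) (nat_lit 496) (nat_lit 364) (nat_lit 340)) (XT.lf (nat_lit 0) (nat_lit 789436591788) (nat_lit 76) (nat_lit 116741678248) (nat_lit 76) (nat_lit 116091724917) (nat_lit 1) (nat_lit 4) (nat_lit 2) (nat_lit 5) (nat_lit 2) (nat_lit 4) (nat_lit 497) (nat_lit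 364) (nat_lit 339))) (XT.nd (nat_lit 78) (nat_lit 0) (nat_lit 0) (XT.lf (nat_lit 0) (nat_lit 860860375959) (nat_lit 76) (nat_lit 121822899393) (nat_lit 76) (nat_lit 121164714054) (nat_lit 1) (nat_lit 4) (nat_lit 2) (nat_lit 5) (nat_lit 2) (nat_lit 4) (nat_lit 498) (nat_lit 364) (nat_lit 338)) (XT.lf (nat_lit 0) (nat_lit 937863621225) (nat_lit 76) (nat_lit 127378860067) (nat_lit 76) (nat_lit 126713052499) (nat_lit 1) (nat_lit 4) (nat_lit 2) (nat_lit 5) (nat_lit 2) (nat_lit 4) (nat_lit 499) (nat_lit 364) (nat_lit 337))))))) (XT.nd (nat_lit 60996) (nat_lit 0) (nat_lit 0) (XT.nd (nat_lit 60450) (nat_lit 0) (nat_lit 0) (XT.nd (nat_lit 60138) (nat_lit 0) (nat_lit 76) (XT.nd (nat_lit 78) (nat_lit 0) (nat_lit 0) (XT.lf (nat_lit 0) (nat_lit 1020902643112) (nat_lit 76) (nat_lit 133442484481) (nat_lit 76) (nat_lit 132769619294) (nat_lit 1) (nat_lit 4) (nat_lit 2) (nat_lit 5) (nat_lit 2) (nat_lit 4) (nat_lit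 500) (nat_lit 364) (nat_lit 336)) (XT.nd (nat_lit 78) (nat_lit 0) (nat_lit 0) (XT.lf (nat_lit 0) (nat_lit 1110469524714) (nat_lit 76) (nat_lit 140049705224) (nat_lit 76) (nat_lit 139370305204) (nat_lit 1) (nat_lit 4) (nat_lit 2) (nat_lit 5) (nat_lit 2) (nat_lit 4) (nat_lit 501) (nat_lit 364) (nat_lit 335)) (XT.lf (nat_lit 0) (nat_lit 1207095032737) (nat_lit 76) (nat_lit 147239676197) (nat_lit 76) (nat_lit 146554225406) (nat_lit 1) (nat_lit 4) (nat_lit 2) (nat_lit 5) (nat_lit 2) (nat_lit 4) (nat_lit 502) (nat_lit 364) (nat_lit 334)))) (XT.nd (nat_lit 156) (nat_lit 0) (nat_lit 0) (XT.nd (nat_lit 78) (nat_lit 0) (nat_lit 0) (XT.lf (nat_lit 0) (nat_lit 17530047241) (nat_lit 152) (nat_lit 30905206258) (nat_lit 0) (nat_lit 17530047241) (nat_lit 2) (nat_lit 5) (nat_lit 4) (nat_lit 4) (nat_lit 2) (nat_lit 4) (nat_lit 470) (nat_lit 365) (nat_lit 365)) (XT.lf (nat_lit 0) (nat_lit 47523000943) (nat_lit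 152) (nat_lit 47013683467) (nat_lit 0) (nat_lit 47462114109) (nat_lit 2) (nat_lit 5) (nat_lit 4) (nat_lit 4) (nat_lit 2) (nat_lit 4) (nat_lit 471) (nat_lit 365) (nat_lit 364))) (XT.nd (nat_lit 78) (nat_lit 0) (nat_lit 0) (XT.lf (nat_lit 0) (nat_lit 60508827829) (nat_lit 152) (nat_lit 31995767642) (nat_lit 0) (nat_lit 60391564296) (nat_lit 2) (nat_lit 5) (nat_lit 4) (nat_lit 4) (nat_lit 2) (nat_lit 4) (nat_lit 472) (nat_lit 365) (nat_lit 363)) (XT.lf (nat_lit 0) (nat_lit 74094528186) (nat_lit 152) (nat_lit 16667669985) (nat_lit 0) (nat_lit 73925064006) (nat_lit 2) (nat_lit 5) (nat_lit 4) (nat_lit 4) (nat_lit 2) (nat_lit 4) (nat_lit 473) (nat_lit 365) (nat_lit 362))))) (XT.nd (nat_lit 234) (nat_lit 0) (nat_lit 0) (XT.nd (nat_lit 78) (nat_lit 76) (nat_lit 0) (XT.lf (nat_lit 0) (nat_lit 88360609869) (nat_lit 152) (nat_lit 938557324) (nat_lit 0) (nat_lit 88142811756) (nat_lit 2) (nat_lit 5) (nat_lit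 4) (nat_lit 4) (nat_lit 2) (nat_lit 4) (nat_lit 474) (nat_lit 365) (nat_lit 361)) (XT.nd (nat_lit 78) (nat_lit 0) (nat_lit 0) (XT.lf (nat_lit 0) (nat_lit 15790163746) (nat_lit 76) (nat_lit 87847977582) (nat_lit 76) (nat_lit 87585425829) (nat_lit 1) (nat_lit 4) (nat_lit 2) (nat_lit 5) (nat_lit 2) (nat_lit 4) (nat_lit 475) (nat_lit 365) (nat_lit 360)) (XT.lf (nat_lit 0) (nat_lit 33159800678) (nat_lit 76) (nat_lit 86634525791) (nat_lit 76) (nat_lit 86330535481) (nat_lit 1) (nat_lit 4) (nat_lit 2) (nat_lit 5) (nat_lit 2) (nat_lit 4) (nat_lit 476) (nat_lit 365) (nat_lit 359)))) (XT.nd (nat_lit 156) (nat_lit 0) (nat_lit 0) (XT.nd (nat_lit 78) (nat_lit 0) (nat_lit 0) (XT.lf (nat_lit 0) (nat_lit 51242251709) (nat_lit 76) (nat_lit 85667515917) (nat_lit 76) (nat_lit 85325156573) (nat_lit 1) (nat_lit 4) (nat_lit 2) (nat_lit 5) (nat_lit 2) (nat_lit 4) (nat_lit 477) (nat_lit 365) (nat_lit 358)) (XT.lf (nat_lit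 0) (nat_lit 70144672103) (nat_lit 76) (nat_lit 84941217531) (nat_lit 76) (nat_lit 84563331304) (nat_lit 1) (nat_lit 4) (nat_lit 2) (nat_lit 5) (nat_lit 2) (nat_lit 4) (nat_lit 478) (nat_lit 365) (nat_lit 357))) (XT.nd (nat_lit 78) (nat_lit 0) (nat_lit 0) (XT.lf (nat_lit 0) (nat_lit 89979076205) (nat_lit 76) (nat_lit 84451326644) (nat_lit 76) (nat_lit 84040545155) (nat_lit 1) (nat_lit 4) (nat_lit 2) (nat_lit 5) (nat_lit 2) (nat_lit 4) (nat_lit 479) (nat_lit 365) (nat_lit 356)) (XT.lf (nat_lit 0) (nat_lit 110863001222) (nat_lit 76) (nat_lit 84194940198) (nat_lit 76) (nat_lit 83753700133) (nat_lit 1) (nat_lit 4) (nat_lit 2) (nat_lit 5) (nat_lit 2) (nat_lit 4) (nat_lit 480) (nat_lit 365) (nat_lit 355)))))) (XT.nd (nat_lit 546) (nat_lit 0) (nat_lit 0) (XT.nd (nat_lit 234) (nat_lit 0) (nat_lit 0) (XT.nd (nat_lit 78) (nat_lit 0) (nat_lit 0) (XT.lf (nat_lit 0) (nat_lit 132920203749) (nat_lit 76) (nat_lit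 84170538865) (nat_lit 76) (nat_lit 83701096415) (nat_lit 1) (nat_lit 4) (nat_lit 2) (nat_lit 5) (nat_lit 2) (nat_lit 4) (nat_lit 481) (nat_lit 365) (nat_lit 354)) (XT.nd (nat_lit 78) (nat_lit 0) (nat_lit 0) (XT.lf (nat_lit 0) (nat_lit 156281393133) (nat_lit 76) (nat_lit 84377978046) (nat_lit 76) (nat_lit 83882422276) (nat_lit 1) (nat_lit 4) (nat_lit 2) (nat_lit 5) (nat_lit 2) (nat_lit 4) (nat_lit 482) (nat_lit 365) (nat_lit 353)) (XT.lf (nat_lit 0) (nat_lit 181085006052) (nat_lit 76) (nat_lit 84818487010) (nat_lit 76) (nat_lit 84298752240) (nat_lit 1) (nat_lit 4) (nat_lit 2) (nat_lit 5) (nat_lit 2) (nat_lit 4) (nat_lit 483) (nat_lit 365) (nat_lit 352)))) (XT.nd (nat_lit 156) (nat_lit 0) (nat_lit 0) (XT.nd (nat_lit 78) (nat_lit 0) (nat_lit 0) (XT.lf (nat_lit 0) (nat_lit 207478026879) (nat_lit 76) (nat_lit 85494676180) (nat_lit 76) (nat_lit 84952553447) (nat_lit 1) (nat_lit 4) (nat_lit 2) (nat_lit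 5) (nat_lit 2) (nat_lit 4) (nat_lit 484) (nat_lit 365) (nat_lit 351)) (XT.lf (nat_lit 0) (nat_lit 235616858701) (nat_lit 76) (nat_lit 86410552603) (nat_lit 76) (nat_lit 85847700275) (nat_lit 1) (nat_lit 4) (nat_lit 2) (nat_lit 5) (nat_lit 2) (nat_lit 4) (nat_lit 485) (nat_lit 365) (nat_lit 350))) (XT.nd (nat_lit 78) (nat_lit 0) (nat_lit 0) (XT.lf (nat_lit 0) (nat_lit 265668250150) (nat_lit 76) (nat_lit 87571543694) (nat_lit 76) (nat_lit 86989497297) (nat_lit 1) (nat_lit 4) (nat_lit 2) (nat_lit 5) (nat_lit 2) (nat_lit 4) (nat_lit 486) (nat_lit 365) (nat_lit 349)) (XT.lf (nat_lit 0) (nat_lit 297810283547) (nat_lit 76) (nat_lit 88984529402) (nat_lit 76) (nat_lit 88384710718) (nat_lit 1) (nat_lit 4) (nat_lit 2) (nat_lit 5) (nat_lit 2) (nat_lit 4) (nat_lit 487) (nat_lit 365) (nat_lit 348))))) (XT.nd (nat_lit 234) (nat_lit 0) (nat_lit 0) (XT.nd (nat_lit 78) (nat_lit 0) (nat_lit 0) (XT.lf (nat_lit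 0) (nat_lit 332233430199) (nat_lit 76) (nat_lit 90657882975) (nat_lit 76) (nat_lit 90041608470) (nat_lit 1) (nat_lit 4) (nat_lit 2) (nat_lit 5) (nat_lit 2) (nat_lit 4) (nat_lit 488) (nat_lit 365) (nat_lit 347)) (XT.nd (nat_lit 78) (nat_lit 0) (nat_lit 0) (XT.lf (nat_lit 0) (nat_lit 369141679125) (nat_lit 76) (nat_lit 92601520581) (nat_lit 76) (nat_lit 91970009206) (nat_lit 1) (nat_lit 4) (nat_lit 2) (nat_lit 5) (nat_lit 2) (nat_lit 4) (nat_lit 489) (nat_lit 365) (nat_lit 346)) (XT.lf (nat_lit 0) (nat_lit 408753745874) (nat_lit 76) (nat_lit 94826960074) (nat_lit 76) (nat_lit 94181340485) (nat_lit 1) (nat_lit 4) (nat_lit 2) (nat_lit 5) (nat_lit 2) (nat_lit 4) (nat_lit 490) (nat_lit 365) (nat_lit 345)))) (XT.nd (nat_lit 156) (nat_lit 0) (nat_lit 0) (XT.nd (nat_lit 78) (nat_lit 0) (nat_lit 0) (XT.lf (nat_lit 0) (nat_lit 451304368618) (nat_lit 76) (nat_lit 97347389244) (nat_lit 76) (nat_lit 96688706493)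 (nat_lit 1) (nat_lit 4) (nat_lit 2) (nat_lit 5) (nat_lit 2) (nat_lit 4) (nat_lit 491) (nat_lit 365) (nat_lit 344)) (XT.lf (nat_lit 0) (nat_lit 497045699197) (nat_lit 76) (nat_lit 100177743966) (nat_lit 76) (nat_lit 99506965695) (nat_lit 1) (nat_lit 4) (nat_lit 2) (nat_lit 5) (nat_lit 2) (nat_lit 4) (nat_lit 492) (nat_lit 365) (nat_lit 343))) (XT.nd (nat_lit 78) (nat_lit 0) (nat_lit 0) (XT.lf (nat_lit 0) (nat_lit 546248797347) (nat_lit 76) (nat_lit 103334796713) (nat_lit 76) (nat_lit 102652818887) (nat_lit 1) (nat_lit 4) (nat_lit 2) (nat_lit 5) (nat_lit 2) (nat_lit 4) (nat_lit 493) (nat_lit 365) (nat_lit 342)) (XT.lf (nat_lit 0) (nat_lit 599205236983) (nat_lit 76) (nat_lit 106837255946) (nat_lit 76) (nat_lit 106144908162) (nat_lit 1) (nat_lit 4) (nat_lit 2) (nat_lit 5) (nat_lit 2) (nat_lit 4) (nat_lit 494) (nat_lit 365) (nat_lit 341))))))))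
noncomputable def xc5 : XT := (XT.nd (nat_lit 61932) (nat_lit 0) (nat_lit 0) (XT.nd (nat_lit 60840) (nat_lit 0) (nat_lit 0) (XT.nd (nat_lit 546) (nat_lit 0) (nat_lit 0) (XT.nd (nat_lit 234) (nat_lit 0) (nat_lit 0) (XT.nd (nat_lit 78) (nat_lit 0) (nat_lit 0) (XT.lf (nat_lit 0) (nat_lit 656228834044) (nat_lit 76) (nat_lit 110705876979) (nat_lit 76) (nat_lit 110003927381) (nat_lit 1) (nat_lit 4) (nat_lit 2) (nat_lit 5) (nat_lit 2) (nat_lit 4) (nat_lit 495) (nat_lit 365) (nat_lit 340)) (XT.nd (nat_lit 78) (nat_lit 0) (nat_lit 0) (XT.lf (nat_lit 0) (nat_lit 717657506141) (nat_lit 76) (nat_lit 114963584973) (nat_lit 76) (nat_lit 114252744807) (nat_lit 1) (nat_lit 4) (nat_lit 2) (nat_lit 5) (nat_lit 2) (nat_lit 4) (nat_lit 496) (nat_lit 365) (nat_lit 339)) (XT.lf (nat_lit 0) (nat_lit 783855275036) (nat_lit 76) (nat_lit 119635610791) (nat_lit 76) (nat_lit 118916538618) (nat_lit 1) (nat_lit 4) (nat_lit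 2) (nat_lit 5) (nat_lit 2) (nat_lit 4) (nat_lit 497) (nat_lit 365) (nat_lit 338)))) (XT.nd (nat_lit 156) (nat_lit 0) (nat_lit 0) (XT.nd (nat_lit 78) (nat_lit 0) (nat_lit 0) (XT.lf (nat_lit 0) (nat_lit 855214423804) (nat_lit 76) (nat_lit 124749640512) (nat_lit 76) (nat_lit 124022946109) (nat_lit 1) (nat_lit 4) (nat_lit 2) (nat_lit 5) (nat_lit 2) (nat_lit 4) (nat_lit 498) (nat_lit 365) (nat_lit 337)) (XT.lf (nat_lit 0) (nat_lit 932157821474) (nat_lit 76) (nat_lit 130335979496) (nat_lit 76) (nat_lit 129602227474) (nat_lit 1) (nat_lit 4) (nat_lit 2) (nat_lit 5) (nat_lit 2) (nat_lit 4) (nat_lit 499) (nat_lit 365) (nat_lit 336))) (XT.nd (nat_lit 78) (nat_lit 0) (nat_lit 0) (XT.lf (nat_lit 0) (nat_lit 1015141428921) (nat_lit 76) (nat_lit 136427731976) (nat_lit 76) (nat_lit 135687445121) (nat_lit 1) (nat_lit 4) (nat_lit 2) (nat_lit 5) (nat_lit 2) (nat_lit 4) (nat_lit 500) (nat_lit 365) (nat_lit 335))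 (XT.lf (nat_lit 0) (nat_lit 1104657000855) (nat_lit 76) (nat_lit 143060997224) (nat_lit 76) (nat_lit 142314659598) (nat_lit 1) (nat_lit 4) (nat_lit 2) (nat_lit 5) (nat_lit 2) (nat_lit 4) (nat_lit 501) (nat_lit 365) (nat_lit 334))))) (XT.nd (nat_lit 59982) (nat_lit 0) (nat_lit 76) (XT.nd (nat_lit 59826) (nat_lit 0) (nat_lit 76) (XT.lf (nat_lit 0) (nat_lit 1201234999927) (nat_lit 76) (nat_lit 150275083480) (nat_lit 76) (nat_lit 149523143288) (nat_lit 1) (nat_lit 4) (nat_lit 2) (nat_lit 5) (nat_lit 2) (nat_lit 4) (nat_lit 502) (nat_lit 365) (nat_lit 333)) (XT.nd (nat_lit 78) (nat_lit 0) (nat_lit 0) (XT.lf (nat_lit 0) (nat_lit 5870956087) (nat_lit 152) (nat_lit 45275243577) (nat_lit 0) (nat_lit 5870956087) (nat_lit 2) (nat_lit 5) (nat_lit 4) (nat_lit 4) (nat_lit 2) (nat_lit 4) (nat_lit 468) (nat_lit 366) (nat_lit 366)) (XT.lf (nat_lit 0) (nat_lit 23112011964) (nat_lit 152) (nat_lit 76473639111)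 (nat_lit 0) (nat_lit 23046254183) (nat_lit 2) (nat_lit 5) (nat_lit 4) (nat_lit 4) (nat_lit 2) (nat_lit 4) (nat_lit 469) (nat_lit 366) (nat_lit 365)))) (XT.nd (nat_lit 156) (nat_lit 0) (nat_lit 0) (XT.nd (nat_lit 78) (nat_lit 0) (nat_lit 0) (XT.lf (nat_lit 0) (nat_lit 34879678676) (nat_lit 152) (nat_lit 62310198898) (nat_lit 0) (nat_lit 34753034060) (nat_lit 2) (nat_lit 5) (nat_lit 4) (nat_lit 4) (nat_lit 2) (nat_lit 4) (nat_lit 470) (nat_lit 366) (nat_lit 364)) (XT.lf (nat_lit 0) (nat_lit 47114646631) (nat_lit 152) (nat_lit 47976235016) (nat_lit 0) (nat_lit 46931625317) (nat_lit 2) (nat_lit 5) (nat_lit 4) (nat_lit 4) (nat_lit 2) (nat_lit 4) (nat_lit 471) (nat_lit 366) (nat_lit 363))) (XT.nd (nat_lit 78) (nat_lit 0) (nat_lit 0) (XT.lf (nat_lit 0) (nat_lit 59889419344) (nat_lit 152) (nat_lit 33386805457) (nat_lit 0) (nat_lit 59654197383) (nat_lit 2) (nat_lit 5) (nat_lit 4) (nat_lit 4) (nat_lit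 2) (nat_lit 4) (nat_lit 472) (nat_lit 366) (nat_lit 362)) (XT.lf (nat_lit 0) (nat_lit 73279699171) (nat_lit 152) (nat_lit 18455454343) (nat_lit 0) (nat_lit 72996143277) (nat_lit 2) (nat_lit 5) (nat_lit 4) (nat_lit 4) (nat_lit 2) (nat_lit 4) (nat_lit 473) (nat_lit 366) (nat_lit 361)))))) (XT.nd (nat_lit 546) (nat_lit 0) (nat_lit 0) (XT.nd (nat_lit 234) (nat_lit 0) (nat_lit 0) (XT.nd (nat_lit 78) (nat_lit 76) (nat_lit 0) (XT.lf (nat_lit 0) (nat_lit 87364835918) (nat_lit 152) (nat_lit 3093699592) (nat_lit 0) (nat_lit 87036526384) (nat_lit 2) (nat_lit 5) (nat_lit 4) (nat_lit 4) (nat_lit 2) (nat_lit 4) (nat_lit 474) (nat_lit 366) (nat_lit 360)) (XT.nd (nat_lit 78) (nat_lit 0) (nat_lit 0) (XT.lf (nat_lit 0) (nat_lit 13212369759) (nat_lit 76) (nat_lit 89222209424) (nat_lit 76) (nat_lit 88852461333) (nat_lit 1) (nat_lit 4) (nat_lit 2) (nat_lit 5) (nat_lit 2) (nat_lit 4) (nat_lit 475) (nat_lit 366)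 (nat_lit 359)) (XT.lf (nat_lit 0) (nat_lit 30256642818) (nat_lit 76) (nat_lit 88173910546) (nat_lit 76) (nat_lit 87765793421) (nat_lit 1) (nat_lit 4) (nat_lit 2) (nat_lit 5) (nat_lit 2) (nat_lit 4) (nat_lit 476) (nat_lit 366) (nat_lit 358)))) (XT.nd (nat_lit 156) (nat_lit 0) (nat_lit 0) (XT.nd (nat_lit 78) (nat_lit 0) (nat_lit 0) (XT.lf (nat_lit 0) (nat_lit 48037831003) (nat_lit 76) (nat_lit 87359820037) (nat_lit 76) (nat_lit 86916176029) (nat_lit 1) (nat_lit 4) (nat_lit 2) (nat_lit 5) (nat_lit 2) (nat_lit 4) (nat_lit 477) (nat_lit 366) (nat_lit 357)) (XT.lf (nat_lit 0) (nat_lit 66661304318) (nat_lit 76) (nat_lit 86775113656) (nat_lit 76) (nat_lit 86298574385) (nat_lit 1) (nat_lit 4) (nat_lit 2) (nat_lit 5) (nat_lit 2) (nat_lit 4) (nat_lit 478) (nat_lit 366) (nat_lit 356))) (XT.nd (nat_lit 78) (nat_lit 0) (nat_lit 0) (XT.lf (nat_lit 0) (nat_lit 86237424087) (nat_lit 76) (nat_lit 86416326476)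 (nat_lit 76) (nat_lit 85909328630) (nat_lit 1) (nat_lit 4) (nat_lit 2) (nat_lit 5) (nat_lit 2) (nat_lit 4) (nat_lit 479) (nat_lit 366) (nat_lit 355)) (XT.lf (nat_lit 0) (nat_lit 106882196945) (nat_lit 76) (nat_lit 86281332352) (nat_lit 76) (nat_lit 85746132120) (nat_lit 1) (nat_lit 4) (nat_lit 2) (nat_lit 5) (nat_lit 2) (nat_lit 4) (nat_lit 480) (nat_lit 366) (nat_lit 354))))) (XT.nd (nat_lit 234) (nat_lit 0) (nat_lit 0) (XT.nd (nat_lit 78) (nat_lit 0) (nat_lit 0) (XT.lf (nat_lit 0) (nat_lit 128717962286) (nat_lit 76) (nat_lit 86369331317) (nat_lit 76) (nat_lit 85808017766) (nat_lit 1) (nat_lit 4) (nat_lit 2) (nat_lit 5) (nat_lit 2) (nat_lit 4) (nat_lit 481) (nat_lit 366) (nat_lit 353)) (XT.nd (nat_lit 78) (nat_lit 0) (nat_lit 0) (XT.lf (nat_lit 0) (nat_lit 151874117240) (nat_lit 76) (nat_lit 86680844848) (nat_lit 76) (nat_lit 86095352297) (nat_lit 1) (nat_lit 4) (nat_lit 2) (nat_lit 5) (nat_lit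 2) (nat_lit 4) (nat_lit 482) (nat_lit 366) (nat_lit 352)) (XT.lf (nat_lit 0) (nat_lit 176487883464) (nat_lit 76) (nat_lit 87217718951) (nat_lit 76) (nat_lit 86609838437) (nat_lit 1) (nat_lit 4) (nat_lit 2) (nat_lit 5) (nat_lit 2) (nat_lit 4) (nat_lit 483) (nat_lit 366) (nat_lit 351)))) (XT.nd (nat_lit 156) (nat_lit 0) (nat_lit 0) (XT.nd (nat_lit 78) (nat_lit 0) (nat_lit 0) (XT.lf (nat_lit 0) (nat_lit 202705120315) (nat_lit 76) (nat_lit 87983135101) (nat_lit 76) (nat_lit 87354524993) (nat_lit 1) (nat_lit 4) (nat_lit 2) (nat_lit 5) (nat_lit 2) (nat_lit 4) (nat_lit 484) (nat_lit 366) (nat_lit 350)) (XT.lf (nat_lit 0) (nat_lit 230681189195) (nat_lit 76) (nat_lit 88981629099) (nat_lit 76) (nat_lit 88333824920) (nat_lit 1) (nat_lit 4) (nat_lit 2) (nat_lit 5) (nat_lit 2) (nat_lit 4) (nat_lit 485) (nat_lit 366) (nat_lit 349))) (XT.nd (nat_lit 78) (nat_lit 0) (nat_lit 0) (XT.lf (nat_lit 0) (nat_lit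 260581874217) (nat_lit 76) (nat_lit 90219117945) (nat_lit 76) (nat_lit 89553541480) (nat_lit 1) (nat_lit 4) (nat_lit 2) (nat_lit 5) (nat_lit 2) (nat_lit 4) (nat_lit 486) (nat_lit 366) (nat_lit 348)) (XT.lf (nat_lit 0) (nat_lit 292584364625) (nat_lit 76) (nat_lit 91702934906) (nat_lit 76) (nat_lit 91020902621) (nat_lit 1) (nat_lit 4) (nat_lit 2) (nat_lit 5) (nat_lit 2) (nat_lit 4) (nat_lit 487) (nat_lit 366) (nat_lit 347))))))) (XT.nd (nat_lit 1092) (nat_lit 0) (nat_lit 0) (XT.nd (nat_lit 546) (nat_lit 0) (nat_lit 0) (XT.nd (nat_lit 234) (nat_lit 0) (nat_lit 0) (XT.nd (nat_lit 78) (nat_lit 0) (nat_lit 0) (XT.lf (nat_lit 0) (nat_lit 326878304807) (nat_lit 76) (nat_lit 93441872973) (nat_lit 76) (nat_lit 92744603816) (nat_lit 1) (nat_lit 4) (nat_lit 2) (nat_lit 5) (nat_lit 2) (nat_lit 4) (nat_lit 488) (nat_lit 366) (nat_lit 346)) (XT.nd (nat_lit 78) (nat_lit 0) (nat_lit 0) (XT.lf (nat_lit 0) (nat_lit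 363666918112) (nat_lit 76) (nat_lit 95446236964) (nat_lit 76) (nat_lit 94734859593) (nat_lit 1) (nat_lit 4) (nat_lit 2) (nat_lit 5) (nat_lit 2) (nat_lit 4) (nat_lit 489) (nat_lit 366) (nat_lit 345)) (XT.lf (nat_lit 0) (nat_lit 403168211138) (nat_lit 76) (nat_lit 97727904590) (nat_lit 76) (nat_lit 97003464058) (nat_lit 1) (nat_lit 4) (nat_lit 2) (nat_lit 5) (nat_lit 2) (nat_lit 4) (nat_lit 490) (nat_lit 366) (nat_lit 344)))) (XT.nd (nat_lit 156) (nat_lit 0) (nat_lit 0) (XT.nd (nat_lit 78) (nat_lit 0) (nat_lit 0) (XT.lf (nat_lit 0) (nat_lit 445616265620) (nat_lit 76) (nat_lit 100300396845) (nat_lit 76) (nat_lit 99563860793) (nat_lit 1) (nat_lit 4) (nat_lit 2) (nat_lit 5) (nat_lit 2) (nat_lit 4) (nat_lit 491) (nat_lit 366) (nat_lit 343)) (XT.lf (nat_lit 0) (nat_lit 491262625586) (nat_lit 76) (nat_lit 103178958129) (nat_lit 76) (nat_lit 102431222521) (nat_lit 1) (nat_lit 4) (nat_lit 2) (nat_lit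 5) (nat_lit 2) (nat_lit 4) (nat_lit 492) (nat_lit 366) (nat_lit 342))) (XT.nd (nat_lit 78) (nat_lit 0) (nat_lit 0) (XT.lf (nat_lit 0) (nat_lit 540377787983) (nat_lit 76) (nat_lit 106380646581) (nat_lit 76) (nat_lit 105622541015) (nat_lit 1) (nat_lit 4) (nat_lit 2) (nat_lit 5) (nat_lit 2) (nat_lit 4) (nat_lit 493) (nat_lit 366) (nat_lit 341)) (XT.lf (nat_lit 0) (nat_lit 593252805625) (nat_lit 76) (nat_lit 109924435170) (nat_lit 76) (nat_lit 109156727791) (nat_lit 1) (nat_lit 4) (nat_lit 2) (nat_lit 5) (nat_lit 2) (nat_lit 4) (nat_lit 494) (nat_lit 366) (nat_lit 340))))) (XT.nd (nat_lit 234) (nat_lit 0) (nat_lit 0) (XT.nd (nat_lit 78) (nat_lit 0) (nat_lit 0) (XT.lf (nat_lit 0) (nat_lit 650201011952) (nat_lit 76) (nat_lit 113831324125) (nat_lit 76) (nat_lit 113054726178) (nat_lit 1) (nat_lit 4) (nat_lit 2) (nat_lit 5) (nat_lit 2) (nat_lit 4) (nat_lit 495) (nat_lit 366) (nat_lit 339)) (XT.nd (nat_lit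 78) (nat_lit 0) (nat_lit 0) (XT.lf (nat_lit 0) (nat_lit 711559877813) (nat_lit 76) (nat_lit 118124465381) (nat_lit 76) (nat_lit 117339635427) (nat_lit 1) (nat_lit 4) (nat_lit 2) (nat_lit 5) (nat_lit 2) (nat_lit 4) (nat_lit 496) (nat_lit 366) (nat_lit 338)) (XT.lf (nat_lit 0) (nat_lit 777693011305) (nat_lit 76) (nat_lit 122829299775) (nat_lit 76) (nat_lit 122036847591) (nat_lit 1) (nat_lit 4) (nat_lit 2) (nat_lit 5) (nat_lit 2) (nat_lit 4) (nat_lit 497) (nat_lit 366) (nat_lit 337)))) (XT.nd (nat_lit 156) (nat_lit 0) (nat_lit 0) (XT.nd (nat_lit 78) (nat_lit 0) (nat_lit 0) (XT.lf (nat_lit 0) (nat_lit 848992312477) (nat_lit 76) (nat_lit 127973707806) (nat_lit 76) (nat_lit 127174198003) (nat_lit 1) (nat_lit 4) (nat_lit 2) (nat_lit 5) (nat_lit 2) (nat_lit 4) (nat_lit 498) (nat_lit 366) (nat_lit 336)) (XT.lf (nat_lit 0) (nat_lit 925880295706) (nat_lit 76) (nat_lit 133588174856) (nat_lit 76) (nat_lit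 132782130220) (nat_lit 1) (nat_lit 4) (nat_lit 2) (nat_lit 5) (nat_lit 2) (nat_lit 4) (nat_lit 499) (nat_lit 366) (nat_lit 335))) (XT.nd (nat_lit 78) (nat_lit 0) (nat_lit 0) (XT.lf (nat_lit 0) (nat_lit 1008812593486) (nat_lit 76) (nat_lit 139705971841) (nat_lit 76) (nat_lit 138893876433) (nat_lit 1) (nat_lit 4) (nat_lit 2) (nat_lit 5) (nat_lit 2) (nat_lit 4) (nat_lit 500) (nat_lit 366) (nat_lit 334)) (XT.lf (nat_lit 0) (nat_lit 1098280656469) (nat_lit 76) (nat_lit 146363352371) (nat_lit 76) (nat_lit 145545654398) (nat_lit 1) (nat_lit 4) (nat_lit 2) (nat_lit 5) (nat_lit 2) (nat_lit 4) (nat_lit 501) (nat_lit 366) (nat_lit 333)))))) (XT.nd (nat_lit 60138) (nat_lit 0) (nat_lit 0) (XT.nd (nat_lit 59826) (nat_lit 0) (nat_lit 76) (XT.nd (nat_lit 59670) (nat_lit 0) (nat_lit 76) (XT.lf (nat_lit 0) (nat_lit 1194814665771) (nat_lit 76) (nat_lit 153599767592) (nat_lit 76) (nat_lit 152776882058) (nat_lit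 1) (nat_lit 4) (nat_lit 2) (nat_lit 5) (nat_lit 2) (nat_lit 4) (nat_lit 502) (nat_lit 366) (nat_lit 332)) (XT.nd (nat_lit 78) (nat_lit 152) (nat_lit 0) (XT.lf (nat_lit 0) (nat_lit 39808976031) (nat_lit 76) (nat_lit 4779147403) (nat_lit 76) (nat_lit 4779147403) (nat_lit 4) (nat_lit 4) (nat_lit 5) (nat_lit 5) (nat_lit 5) (nat_lit 4) (nat_lit 466) (nat_lit 367) (nat_lit 367)) (XT.lf (nat_lit 0) (nat_lit 773019342) (nat_lit 152) (nat_lit 104624161385) (nat_lit 0) (nat_lit 702000938) (nat_lit 2) (nat_lit 5) (nat_lit 4) (nat_lit 4) (nat_lit 2) (nat_lit 4) (nat_lit 467) (nat_lit 367) (nat_lit 366)))) (XT.nd (nat_lit 156) (nat_lit 0) (nat_lit 0) (XT.nd (nat_lit 78) (nat_lit 0) (nat_lit 0) (XT.lf (nat_lit 0) (nat_lit 11547063104) (nat_lit 152) (nat_lit 91090256446) (nat_lit 0) (nat_lit 11410286919) (nat_lit 2) (nat_lit 5) (nat_lit 4) (nat_lit 4) (nat_lit 2) (nat_lit 4) (nat_lit 468) (nat_lit 367) (nat_lit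 365)) (XT.lf (nat_lit 0) (nat_lit 22670989307) (nat_lit 152) (nat_lit 77513194784) (nat_lit 0) (nat_lit 22473326287) (nat_lit 2) (nat_lit 5) (nat_lit 4) (nat_lit 4) (nat_lit 2) (nat_lit 4) (nat_lit 469) (nat_lit 367) (nat_lit 364))) (XT.nd (nat_lit 78) (nat_lit 0) (nat_lit 0) (XT.lf (nat_lit 0) (nat_lit 34210717512) (nat_lit 152) (nat_lit 63812519738) (nat_lit 0) (nat_lit 33956677794) (nat_lit 2) (nat_lit 5) (nat_lit 4) (nat_lit 4) (nat_lit 2) (nat_lit 4) (nat_lit 470) (nat_lit 367) (nat_lit 363)) (XT.lf (nat_lit 0) (nat_lit 46234631295) (nat_lit 152) (nat_lit 49907042122) (nat_lit 0) (nat_lit 45928390930) (nat_lit 2) (nat_lit 5) (nat_lit 4) (nat_lit 4) (nat_lit 2) (nat_lit 4) (nat_lit 471) (nat_lit 367) (nat_lit 362))))) (XT.nd (nat_lit 312) (nat_lit 0) (nat_lit 0) (XT.nd (nat_lit 156) (nat_lit 76) (nat_lit 0) (XT.nd (nat_lit 78) (nat_lit 0) (nat_lit 0) (XT.lf (nat_lit 0) (nat_lit 58813983478)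 (nat_lit 152) (nat_lit 35714359106) (nat_lit 0) (nat_lit 58459409180) (nat_lit 2) (nat_lit 5) (nat_lit 4) (nat_lit 4) (nat_lit 2) (nat_lit 4) (nat_lit 472) (nat_lit 367) (nat_lit 361)) (XT.lf (nat_lit 0) (nat_lit 72023318369) (nat_lit 152) (nat_lit 21150365902) (nat_lit 0) (nat_lit 71623990431) (nat_lit 2) (nat_lit 5) (nat_lit 4) (nat_lit 4) (nat_lit 2) (nat_lit 4) (nat_lit 473) (nat_lit 367) (nat_lit 360))) (XT.nd (nat_lit 78) (nat_lit 76) (nat_lit 0) (XT.lf (nat_lit 0) (nat_lit 85940913510) (nat_lit 152) (nat_lit 6128757365) (nat_lit 0) (nat_lit 85500147015) (nat_lit 2) (nat_lit 5) (nat_lit 4) (nat_lit 4) (nat_lit 2) (nat_lit 4) (nat_lit 474) (nat_lit 367) (nat_lit 359)) (XT.lf (nat_lit 0) (nat_lit 9751595397) (nat_lit 76) (nat_lit 91049897873) (nat_lit 76) (nat_lit 90570762345) (nat_lit 1) (nat_lit 4) (nat_lit 2) (nat_lit 5) (nat_lit 2) (nat_lit 4) (nat_lit 475) (nat_lit 367) (nat_lit 358))))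 (XT.nd (nat_lit 156) (nat_lit 0) (nat_lit 0) (XT.nd (nat_lit 78) (nat_lit 0) (nat_lit 0) (XT.lf (nat_lit 0) (nat_lit 26494605610) (nat_lit 76) (nat_lit 90154518360) (nat_lit 76) (nat_lit 89639855949) (nat_lit 1) (nat_lit 4) (nat_lit 2) (nat_lit 5) (nat_lit 2) (nat_lit 4) (nat_lit 476) (nat_lit 367) (nat_lit 357)) (XT.lf (nat_lit 0) (nat_lit 43996846716) (nat_lit 76) (nat_lit 89482019855) (nat_lit 76) (nat_lit 88934462181) (nat_lit 1) (nat_lit 4) (nat_lit 2) (nat_lit 5) (nat_lit 2) (nat_lit 4) (nat_lit 477) (nat_lit 367) (nat_lit 356))) (XT.nd (nat_lit 78) (nat_lit 0) (nat_lit 0) (XT.lf (nat_lit 0) (nat_lit 62362035699) (nat_lit 76) (nat_lit 89028417182) (nat_lit 76) (nat_lit 88450400932) (nat_lit 1) (nat_lit 4) (nat_lit 2) (nat_lit 5) (nat_lit 2) (nat_lit 4) (nat_lit 478) (nat_lit 367) (nat_lit 355)) (XT.lf (nat_lit 0) (nat_lit 81699003308) (nat_lit 76) (nat_lit 88791022324) (nat_lit 76) (nat_lit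 88184803689) (nat_lit 1) (nat_lit 4) (nat_lit 2) (nat_lit 5) (nat_lit 2) (nat_lit 4) (nat_lit 479) (nat_lit 367) (nat_lit 354))))))))
noncomputable def xc6 : XT := (XT.nd (nat_lit 61620) (nat_lit 0) (nat_lit 0) (XT.nd (nat_lit 1092) (nat_lit 0) (nat_lit 0) (XT.nd (nat_lit 546) (nat_lit 0) (nat_lit 0) (XT.nd (nat_lit 234) (nat_lit 0) (nat_lit 0) (XT.nd (nat_lit 78) (nat_lit 0) (nat_lit 0) (XT.lf (nat_lit 0) (nat_lit 102122338980) (nat_lit 76) (nat_lit 88768428498) (nat_lit 76) (nat_lit 88136096543) (nat_lit 1) (nat_lit 4) (nat_lit 2) (nat_lit 5) (nat_lit 2) (nat_lit 4) (nat_lit 480) (nat_lit 367) (nat_lit 353)) (XT.nd (nat_lit 78) (nat_lit 0) (nat_lit 0) (XT.lf (nat_lit 0) (nat_lit 123753069892) (nat_lit 76) (nat_lit 88960501814) (nat_lit 76) (nat_lit 88303990859) (nat_lit 1) (nat_lit 4) (nat_lit 2) (nat_lit 5) (nat_lit 2) (nat_lit 4) (nat_lit 481) (nat_lit 367) (nat_lit 352)) (XT.lf (nat_lit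 0) (nat_lit 146719378150) (nat_lit 76) (nat_lit 89368380484) (nat_lit 76) (nat_lit 88689481566) (nat_lit 1) (nat_lit 4) (nat_lit 2) (nat_lit 5) (nat_lit 2) (nat_lit 4) (nat_lit 482) (nat_lit 367) (nat_lit 351)))) (XT.nd (nat_lit 156) (nat_lit 0) (nat_lit 0) (XT.nd (nat_lit 78) (nat_lit 0) (nat_lit 0) (XT.lf (nat_lit 0) (nat_lit 171157360398) (nat_lit 76) (nat_lit 89994481567) (nat_lit 76) (nat_lit 89294853054) (nat_lit 1) (nat_lit 4) (nat_lit 2) (nat_lit 5) (nat_lit 2) (nat_lit 4) (nat_lit 483) (nat_lit 367) (nat_lit 350)) (XT.lf (nat_lit 0) (nat_lit 197211834307) (nat_lit 76) (nat_lit 90842515292) (nat_lit 76) (nat_lit 90123692710) (nat_lit 1) (nat_lit 4) (nat_lit 2) (nat_lit 5) (nat_lit 2) (nat_lit 4) (nat_lit 484) (nat_lit 367) (nat_lit 349))) (XT.nd (nat_lit 78) (nat_lit 0) (nat_lit 0) (XT.lf (nat_lit 0) (nat_lit 225037196760) (nat_lit 76) (nat_lit 91917507043) (nat_lit 76) (nat_lit 91180912175)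 (nat_lit 1) (nat_lit 4) (nat_lit 2) (nat_lit 5) (nat_lit 2) (nat_lit 4) (nat_lit 485) (nat_lit 367) (nat_lit 348)) (XT.lf (nat_lit 0) (nat_lit 254798338793) (nat_lit 76) (nat_lit 93225827143) (nat_lit 76) (nat_lit 92472776454) (nat_lit 1) (nat_lit 4) (nat_lit 2) (nat_lit 5) (nat_lit 2) (nat_lit 4) (nat_lit 486) (nat_lit 367) (nat_lit 347))))) (XT.nd (nat_lit 234) (nat_lit 0) (nat_lit 0) (XT.nd (nat_lit 78) (nat_lit 0) (nat_lit 0) (XT.lf (nat_lit 0) (nat_lit 286671622731) (nat_lit 76) (nat_lit 94775228599) (nat_lit 76) (nat_lit 94006941039) (nat_lit 1) (nat_lit 4) (nat_lit 2) (nat_lit 5) (nat_lit 2) (nat_lit 4) (nat_lit 487) (nat_lit 367) (nat_lit 346)) (XT.nd (nat_lit 78) (nat_lit 0) (nat_lit 0) (XT.lf (nat_lit 0) (nat_lit 320845927292) (nat_lit 76) (nat_lit 96574893050) (nat_lit 76) (nat_lit 95792497275) (nat_lit 1) (nat_lit 4) (nat_lit 2) (nat_lit 5) (nat_lit 2) (nat_lit 4) (nat_lit 488)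 (nat_lit 367) (nat_lit 345)) (XT.lf (nat_lit 0) (nat_lit 357523766874) (nat_lit 76) (nat_lit 98635485173) (nat_lit 76) (nat_lit 97840026237) (nat_lit 1) (nat_lit 4) (nat_lit 2) (nat_lit 5) (nat_lit 2) (nat_lit 4) (nat_lit 489) (nat_lit 367) (nat_lit 344)))) (XT.nd (nat_lit 156) (nat_lit 0) (nat_lit 0) (XT.nd (nat_lit 78) (nat_lit 0) (nat_lit 0) (XT.lf (nat_lit 0) (nat_lit 396922491637) (nat_lit 76) (nat_lit 100969215886) (nat_lit 76) (nat_lit 100161661430) (nat_lit 1) (nat_lit 4) (nat_lit 2) (nat_lit 5) (nat_lit 2) (nat_lit 4) (nat_lit 490) (nat_lit 367) (nat_lit 343)) (XT.lf (nat_lit 0) (nat_lit 439275575507) (nat_lit 76) (nat_lit 103589914702) (nat_lit 76) (nat_lit 102771160691) (nat_lit 1) (nat_lit 4) (nat_lit 2) (nat_lit 5) (nat_lit 2) (nat_lit 4) (nat_lit 491) (nat_lit 367) (nat_lit 342))) (XT.nd (nat_lit 78) (nat_lit 0) (nat_lit 0) (XT.lf (nat_lit 0) (nat_lit 484833999719) (nat_lit 76)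 (nat_lit 106513111690) (nat_lit 76) (nat_lit 105683987721) (nat_lit 1) (nat_lit 4) (nat_lit 2) (nat_lit 5) (nat_lit 2) (nat_lit 4) (nat_lit 492) (nat_lit 367) (nat_lit 341)) (XT.lf (nat_lit 0) (nat_lit 533867740123) (nat_lit 76) (nat_lit 109756129499) (nat_lit 76) (nat_lit 108917403716) (nat_lit 1) (nat_lit 4) (nat_lit 2) (nat_lit 5) (nat_lit 2) (nat_lit 4) (nat_lit 493) (nat_lit 367) (nat_lit 340)))))) (XT.nd (nat_lit 546) (nat_lit 0) (nat_lit 0) (XT.nd (nat_lit 234) (nat_lit 0) (nat_lit 0) (XT.nd (nat_lit 78) (nat_lit 0) (nat_lit 0) (XT.lf (nat_lit 0) (nat_lit 586667367031) (nat_lit 76) (nat_lit 113338186011) (nat_lit 76) (nat_lit 112490569660) (nat_lit 1) (nat_lit 4) (nat_lit 2) (nat_lit 5) (nat_lit 2) (nat_lit 4) (nat_lit 494) (nat_lit 367) (nat_lit 339)) (XT.nd (nat_lit 78) (nat_lit 0) (nat_lit 0) (XT.lf (nat_lit 0) (nat_lit 643545767122) (nat_lit 76) (nat_lit 117280508228) (nat_lit 76)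 (nat_lit 116424659869) (nat_lit 1) (nat_lit 4) (nat_lit 2) (nat_lit 5) (nat_lit 2) (nat_lit 4) (nat_lit 495) (nat_lit 367) (nat_lit 338)) (XT.lf (nat_lit 0) (nat_lit 704839997580) (nat_lit 76) (nat_lit 121606458059) (nat_lit 76) (nat_lit 120742987472) (nat_lit 1) (nat_lit 4) (nat_lit 2) (nat_lit 5) (nat_lit 2) (nat_lit 4) (nat_lit 496) (nat_lit 367) (nat_lit 337)))) (XT.nd (nat_lit 156) (nat_lit 0) (nat_lit 0) (XT.nd (nat_lit 78) (nat_lit 0) (nat_lit 0) (XT.lf (nat_lit 0) (nat_lit 770913283476) (nat_lit 76) (nat_lit 126341670763) (nat_lit 76) (nat_lit 125471142556) (nat_lit 1) (nat_lit 4) (nat_lit 2) (nat_lit 5) (nat_lit 2) (nat_lit 4) (nat_lit 497) (nat_lit 367) (nat_lit 336)) (XT.lf (nat_lit 0) (nat_lit 842157170207) (nat_lit 76) (nat_lit 131514206860) (nat_lit 76) (nat_lit 130637143820) (nat_lit 1) (nat_lit 4) (nat_lit 2) (nat_lit 5) (nat_lit 2) (nat_lit 4) (nat_lit 498) (nat_lit 367) (nat_lit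 335))) (XT.nd (nat_lit 78) (nat_lit 0) (nat_lit 0) (XT.lf (nat_lit 0) (nat_lit 918993843769) (nat_lit 76) (nat_lit 137154718415) (nat_lit 76) (nat_lit 136271604604) (nat_lit 1) (nat_lit 4) (nat_lit 2) (nat_lit 5) (nat_lit 2) (nat_lit 4) (nat_lit 499) (nat_lit 367) (nat_lit 334)) (XT.lf (nat_lit 0) (nat_lit 1001878632598) (nat_lit 76) (nat_lit 143296630682) (nat_lit 76) (nat_lit 142407914305) (nat_lit 1) (nat_lit 4) (nat_lit 2) (nat_lit 5) (nat_lit 2) (nat_lit 4) (nat_lit 500) (nat_lit 367) (nat_lit 333))))) (XT.nd (nat_lit 59670) (nat_lit 0) (nat_lit 76) (XT.nd (nat_lit 78) (nat_lit 0) (nat_lit 0) (XT.lf (nat_lit 0) (nat_lit 1091302705812) (nat_lit 76) (nat_lit 149976340178) (nat_lit 76) (nat_lit 149082436240) (nat_lit 1) (nat_lit 4) (nat_lit 2) (nat_lit 5) (nat_lit 2) (nat_lit 4) (nat_lit 501) (nat_lit 367) (nat_lit 332)) (XT.nd (nat_lit 59514) (nat_lit 0) (nat_lit 228) (XT.lf (nat_lit 0)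 (nat_lit 1187795983846) (nat_lit 76) (nat_lit 157233430367) (nat_lit 76) (nat_lit 156334723132) (nat_lit 1) (nat_lit 4) (nat_lit 2) (nat_lit 5) (nat_lit 2) (nat_lit 4) (nat_lit 502) (nat_lit 367) (nat_lit 331)) (XT.lf (nat_lit 0) (nat_lit 13615909942) (nat_lit 76) (nat_lit 14607219688) (nat_lit 76) (nat_lit 14607219688) (nat_lit 4) (nat_lit 4) (nat_lit 5) (nat_lit 5) (nat_lit 5) (nat_lit 4) (nat_lit 464) (nat_lit 368) (nat_lit 368)))) (XT.nd (nat_lit 156) (nat_lit 152) (nat_lit 0) (XT.nd (nat_lit 78) (nat_lit 0) (nat_lit 0) (XT.lf (nat_lit 0) (nat_lit 52700938606) (nat_lit 76) (nat_lit 19659402898) (nat_lit 76) (nat_lit 19578868028) (nat_lit 4) (nat_lit 4) (nat_lit 5) (nat_lit 5) (nat_lit 5) (nat_lit 4) (nat_lit 465) (nat_lit 368) (nat_lit 367)) (XT.lf (nat_lit 0) (nat_lit 79071993949) (nat_lit 76) (nat_lit 9915557618) (nat_lit 76) (nat_lit 9760453424) (nat_lit 4) (nat_lit 4) (nat_lit 5) (nat_lit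 5) (nat_lit 5) (nat_lit 4) (nat_lit 466) (nat_lit 368) (nat_lit 366))) (XT.nd (nat_lit 78) (nat_lit 0) (nat_lit 0) (XT.lf (nat_lit 0) (nat_lit 296714872) (nat_lit 152) (nat_lit 105746881511) (nat_lit 0) (nat_lit 83238811) (nat_lit 2) (nat_lit 5) (nat_lit 4) (nat_lit 4) (nat_lit 2) (nat_lit 4) (nat_lit 467) (nat_lit 368) (nat_lit 365)) (XT.lf (nat_lit 0) (nat_lit 10824585048) (nat_lit 152) (nat_lit 92712762953) (nat_lit 0) (nat_lit 10550222152) (nat_lit 2) (nat_lit 5) (nat_lit 4) (nat_lit 4) (nat_lit 2) (nat_lit 4) (nat_lit 468) (nat_lit 368) (nat_lit 364))))))) (XT.nd (nat_lit 1092) (nat_lit 0) (nat_lit 0) (XT.nd (nat_lit 546) (nat_lit 0) (nat_lit 0) (XT.nd (nat_lit 234) (nat_lit 76) (nat_lit 0) (XT.nd (nat_lit 78) (nat_lit 0) (nat_lit 0) (XT.lf (nat_lit 0) (nat_lit 21720572744) (nat_lit 152) (nat_lit 79598466459) (nat_lit 0) (nat_lit 21389833150) (nat_lit 2) (nat_lit 5) (nat_lit 4) (nat_lit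 4) (nat_lit 2) (nat_lit 4) (nat_lit 469) (nat_lit 368) (nat_lit 363)) (XT.nd (nat_lit 78) (nat_lit 0) (nat_lit 0) (XT.lf (nat_lit 0) (nat_lit 33049246777) (nat_lit 152) (nat_lit 66326277679) (nat_lit 0) (nat_lit 32666306536) (nat_lit 2) (nat_lit 5) (nat_lit 4) (nat_lit 4) (nat_lit 2) (nat_lit 4) (nat_lit 470) (nat_lit 368) (nat_lit 362)) (XT.lf (nat_lit 0) (nat_lit 44877740029) (nat_lit 152) (nat_lit 52817546606) (nat_lit 0) (nat_lit 44446465856) (nat_lit 2) (nat_lit 5) (nat_lit 4) (nat_lit 4) (nat_lit 2) (nat_lit 4) (nat_lit 471) (nat_lit 368) (nat_lit 361)))) (XT.nd (nat_lit 156) (nat_lit 76) (nat_lit 0) (XT.nd (nat_lit 78) (nat_lit 0) (nat_lit 0) (XT.lf (nat_lit 0) (nat_lit 57276147276) (nat_lit 152) (nat_lit 38992221501) (nat_lit 0) (nat_lit 56800119462) (nat_lit 2) (nat_lit 5) (nat_lit 4) (nat_lit 4) (nat_lit 2) (nat_lit 4) (nat_lit 472) (nat_lit 368) (nat_lit 360)) (XT.lf (nat_lit 0)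 (nat_lit 70317940561) (nat_lit 152) (nat_lit 24768374510) (nat_lit 0) (nat_lit 69800474190) (nat_lit 2) (nat_lit 5) (nat_lit 4) (nat_lit 4) (nat_lit 2) (nat_lit 4) (nat_lit 473) (nat_lit 368) (nat_lit 359))) (XT.nd (nat_lit 78) (nat_lit 76) (nat_lit 0) (XT.lf (nat_lit 0) (nat_lit 84080404584) (nat_lit 152) (nat_lit 10061716170) (nat_lit 0) (nat_lit 83524569180) (nat_lit 2) (nat_lit 5) (nat_lit 4) (nat_lit 4) (nat_lit 2) (nat_lit 4) (nat_lit 474) (nat_lit 368) (nat_lit 358)) (XT.lf (nat_lit 0) (nat_lit 5387332367) (nat_lit 76) (nat_lit 93341873678) (nat_lit 76) (nat_lit 92750511390) (nat_lit 1) (nat_lit 4) (nat_lit 2) (nat_lit 5) (nat_lit 2) (nat_lit 4) (nat_lit 475) (nat_lit 368) (nat_lit 357))))) (XT.nd (nat_lit 234) (nat_lit 0) (nat_lit 0) (XT.nd (nat_lit 78) (nat_lit 0) (nat_lit 0) (XT.lf (nat_lit 0) (nat_lit 21851395501) (nat_lit 76) (nat_lit 92588086169) (nat_lit 76) (nat_lit 91963828619)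 (nat_lit 1) (nat_lit 4) (nat_lit 2) (nat_lit 5) (nat_lit 2) (nat_lit 4) (nat_lit 476) (nat_lit 368) (nat_lit 356)) (XT.nd (nat_lit 78) (nat_lit 0) (nat_lit 0) (XT.lf (nat_lit 0) (nat_lit 39095352274) (nat_lit 76) (nat_lit 92046691372) (nat_lit 76) (nat_lit 91391975245) (nat_lit 1) (nat_lit 4) (nat_lit 2) (nat_lit 5) (nat_lit 2) (nat_lit 4) (nat_lit 477) (nat_lit 368) (nat_lit 355)) (XT.lf (nat_lit 0) (nat_lit 57221389097) (nat_lit 76) (nat_lit 91714481020) (nat_lit 76) (nat_lit 91031562509) (nat_lit 1) (nat_lit 4) (nat_lit 2) (nat_lit 5) (nat_lit 2) (nat_lit 4) (nat_lit 478) (nat_lit 368) (nat_lit 354)))) (XT.nd (nat_lit 156) (nat_lit 0) (nat_lit 0) (XT.nd (nat_lit 78) (nat_lit 0) (nat_lit 0) (XT.lf (nat_lit 0) (nat_lit 76336919521) (nat_lit 76) (nat_lit 91589486461) (nat_lit 76) (nat_lit 90880454629) (nat_lit 1) (nat_lit 4) (nat_lit 2) (nat_lit 5) (nat_lit 2) (nat_lit 4) (nat_lit 479) (nat_lit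 368) (nat_lit 353)) (XT.lf (nat_lit 0) (nat_lit 96555220763) (nat_lit 76) (nat_lit 91670966984) (nat_lit 76) (nat_lit 90937756153) (nat_lit 1) (nat_lit 4) (nat_lit 2) (nat_lit 5) (nat_lit 2) (nat_lit 4) (nat_lit 480) (nat_lit 368) (nat_lit 352))) (XT.nd (nat_lit 78) (nat_lit 0) (nat_lit 0) (XT.lf (nat_lit 0) (nat_lit 117996104980) (nat_lit 76) (nat_lit 91959405439) (nat_lit 76) (nat_lit 91203806646) (nat_lit 1) (nat_lit 4) (nat_lit 2) (nat_lit 5) (nat_lit 2) (nat_lit 4) (nat_lit 481) (nat_lit 368) (nat_lit 351)) (XT.lf (nat_lit 0) (nat_lit 140786629261) (nat_lit 76) (nat_lit 92456511090) (nat_lit 76) (nat_lit 91680182701) (nat_lit 1) (nat_lit 4) (nat_lit 2) (nat_lit 5) (nat_lit 2) (nat_lit 4) (nat_lit 482) (nat_lit 368) (nat_lit 350)))))) (XT.nd (nat_lit 546) (nat_lit 0) (nat_lit 0) (XT.nd (nat_lit 234) (nat_lit 0) (nat_lit 0) (XT.nd (nat_lit 78) (nat_lit 0) (nat_lit 0) (XT.lf (nat_lit 0) (nat_lit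 165061848567) (nat_lit 76) (nat_lit 93165229747) (nat_lit 76) (nat_lit 92369707289) (nat_lit 1) (nat_lit 4) (nat_lit 2) (nat_lit 5) (nat_lit 2) (nat_lit 4) (nat_lit 483) (nat_lit 368) (nat_lit 349)) (XT.nd (nat_lit 78) (nat_lit 0) (nat_lit 0) (XT.lf (nat_lit 0) (nat_lit 190965616049) (nat_lit 76) (nat_lit 94089761226) (nat_lit 76) (nat_lit 93276466482) (nat_lit 1) (nat_lit 4) (nat_lit 2) (nat_lit 5) (nat_lit 2) (nat_lit 4) (nat_lit 484) (nat_lit 368) (nat_lit 348)) (XT.lf (nat_lit 0) (nat_lit 218651435514) (nat_lit 76) (nat_lit 95235584232) (nat_lit 76) (nat_lit 94405833666) (nat_lit 1) (nat_lit 4) (nat_lit 2) (nat_lit 5) (nat_lit 2) (nat_lit 4) (nat_lit 485) (nat_lit 368) (nat_lit 347)))) (XT.nd (nat_lit 156) (nat_lit 0) (nat_lit 0) (XT.nd (nat_lit 78) (nat_lit 0) (nat_lit 0) (XT.lf (nat_lit 0) (nat_lit 248283371077) (nat_lit 76) (nat_lit 96609488826) (nat_lit 76) (nat_lit 95764501389) (nat_lit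 1) (nat_lit 4) (nat_lit 2) (nat_lit 5) (nat_lit 2) (nat_lit 4) (nat_lit 486) (nat_lit 368) (nat_lit 346)) (XT.lf (nat_lit 0) (nat_lit 280037019394) (nat_lit 76) (nat_lit 98219616666) (nat_lit 76) (nat_lit 97360521015) (nat_lit 1) (nat_lit 4) (nat_lit 2) (nat_lit 5) (nat_lit 2) (nat_lit 4) (nat_lit 487) (nat_lit 368) (nat_lit 345))) (XT.nd (nat_lit 78) (nat_lit 0) (nat_lit 0) (XT.lf (nat_lit 0) (nat_lit 314100550232) (nat_lit 76) (nat_lit 100075509249) (nat_lit 76) (nat_lit 99203350437) (nat_lit 1) (nat_lit 4) (nat_lit 2) (nat_lit 5) (nat_lit 2) (nat_lit 4) (nat_lit 488) (nat_lit 368) (nat_lit 344)) (XT.lf (nat_lit 0) (nat_lit 350675821552) (nat_lit 76) (nat_lit 102188164459) (nat_lit 76) (nat_lit 101303910127) (nat_lit 1) (nat_lit 4) (nat_lit 2) (nat_lit 5) (nat_lit 2) (nat_lit 4) (nat_lit 489) (nat_lit 368) (nat_lit 343))))) (XT.nd (nat_lit 234) (nat_lit 0) (nat_lit 0) (XT.nd (nat_lit 78)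 (nat_lit 0) (nat_lit 0) (XT.lf (nat_lit 0) (nat_lit 389979575702) (nat_lit 76) (nat_lit 104570101732) (nat_lit 76) (nat_lit 103674647845) (nat_lit 1) (nat_lit 4) (nat_lit 2) (nat_lit 5) (nat_lit 2) (nat_lit 4) (nat_lit 490) (nat_lit 368) (nat_lit 342)) (XT.nd (nat_lit 78) (nat_lit 0) (nat_lit 0) (XT.lf (nat_lit 0) (nat_lit 432244723818) (nat_lit 76) (nat_lit 107235436254) (nat_lit 76) (nat_lit 106329612408) (nat_lit 1) (nat_lit 4) (nat_lit 2) (nat_lit 5) (nat_lit 2) (nat_lit 4) (nat_lit 491) (nat_lit 368) (nat_lit 341)) (XT.lf (nat_lit 0) (nat_lit 477721726038) (nat_lit 76) (nat_lit 110199962598) (nat_lit 76) (nat_lit 109284536939) (nat_lit 1) (nat_lit 4) (nat_lit 2) (nat_lit 5) (nat_lit 2) (nat_lit 4) (nat_lit 492) (nat_lit 368) (nat_lit 340)))) (XT.nd (nat_lit 156) (nat_lit 0) (nat_lit 0) (XT.nd (nat_lit 78) (nat_lit 0) (nat_lit 0) (XT.lf (nat_lit 0) (nat_lit 526680075707) (nat_lit 76) (nat_lit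 113481248329) (nat_lit 76) (nat_lit 112556932102) (nat_lit 1) (nat_lit 4) (nat_lit 2) (nat_lit 5) (nat_lit 2) (nat_lit 4) (nat_lit 493) (nat_lit 368) (nat_lit 339)) (XT.lf (nat_lit 0) (nat_lit 579409896379) (nat_lit 76) (nat_lit 117098738103) (nat_lit 76) (nat_lit 116166189868) (nat_lit 1) (nat_lit 4) (nat_lit 2) (nat_lit 5) (nat_lit 2) (nat_lit 4) (nat_lit 494) (nat_lit 368) (nat_lit 338))) (XT.nd (nat_lit 78) (nat_lit 0) (nat_lit 0) (XT.lf (nat_lit 0) (nat_lit 636223661066) (nat_lit 76) (nat_lit 121073868895) (nat_lit 76) (nat_lit 120133698432) (nat_lit 1) (nat_lit 4) (nat_lit 2) (nat_lit 5) (nat_lit 2) (nat_lit 4) (nat_lit 495) (nat_lit 368) (nat_lit 337)) (XT.lf (nat_lit 0) (nat_lit 697458043929) (nat_lit 76) (nat_lit 125430197037) (nat_lit 76) (nat_lit 124482968954) (nat_lit 1) (nat_lit 4) (nat_lit 2) (nat_lit 5) (nat_lit 2) (nat_lit 4) (nat_lit 496) (nat_lit 368) (nat_lit 336))))))))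
noncomputable def xc7 : XT := (XT.nd (nat_lit 61464) (nat_lit 0) (nat_lit 0) (XT.nd (nat_lit 60372) (nat_lit 0) (nat_lit 0) (XT.nd (nat_lit 59826) (nat_lit 0) (nat_lit 76) (XT.nd (nat_lit 234) (nat_lit 0) (nat_lit 0) (XT.nd (nat_lit 78) (nat_lit 0) (nat_lit 0) (XT.lf (nat_lit 0) (nat_lit 763475915384) (nat_lit 76) (nat_lit 130193537807) (nat_lit 76) (nat_lit 129239774891) (nat_lit 1) (nat_lit 4) (nat_lit 2) (nat_lit 5) (nat_lit 2) (nat_lit 4) (nat_lit 497) (nat_lit 368) (nat_lit 335)) (XT.nd (nat_lit 78) (nat_lit 0) (nat_lit 0) (XT.lf (nat_lit 0) (nat_lit 834668492448) (nat_lit 76) (nat_lit 135392118409) (nat_lit 76) (nat_lit 134432304722) (nat_lit 1) (nat_lit 4) (nat_lit 2) (nat_lit 5) (nat_lit 2) (nat_lit 4) (nat_lit 498) (nat_lit 368) (nat_lit 334)) (XT.lf (nat_lit 0) (nat_lit 911457657059) (nat_lit 76) (nat_lit 141056745247) (nat_lit 76) (nat_lit 140091328993) (nat_lit 1) (nat_lit 4) (nat_lit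 2) (nat_lit 5) (nat_lit 2) (nat_lit 4) (nat_lit 499) (nat_lit 368) (nat_lit 333)))) (XT.nd (nat_lit 156) (nat_lit 0) (nat_lit 0) (XT.nd (nat_lit 78) (nat_lit 0) (nat_lit 0) (XT.lf (nat_lit 0) (nat_lit 994298456118) (nat_lit 76) (nat_lit 147220986479) (nat_lit 76) (nat_lit 146250382665) (nat_lit 1) (nat_lit 4) (nat_lit 2) (nat_lit 5) (nat_lit 2) (nat_lit 4) (nat_lit 500) (nat_lit 368) (nat_lit 332)) (XT.lf (nat_lit 0) (nat_lit 1083681798064) (nat_lit 76) (nat_lit 153921370943) (nat_lit 76) (nat_lit 152945963831) (nat_lit 1) (nat_lit 4) (nat_lit 2) (nat_lit 5) (nat_lit 2) (nat_lit 4) (nat_lit 501) (nat_lit 368) (nat_lit 331))) (XT.nd (nat_lit 59358) (nat_lit 0) (nat_lit 304) (XT.lf (nat_lit 0) (nat_lit 1180137361961) (nat_lit 76) (nat_lit 161197604620) (nat_lit 76) (nat_lit 160217750011) (nat_lit 1) (nat_lit 4) (nat_lit 2) (nat_lit 5) (nat_lit 2) (nat_lit 4) (nat_lit 502) (nat_lit 368) (nat_lit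 330)) (XT.lf (nat_lit 0) (nat_lit 13556111278) (nat_lit 152) (nat_lit 10146057601) (nat_lit 0) (nat_lit 13556111278) (nat_lit 5) (nat_lit 5) (nat_lit 7) (nat_lit 4) (nat_lit 5) (nat_lit 4) (nat_lit 462) (nat_lit 369) (nat_lit 369))))) (XT.nd (nat_lit 234) (nat_lit 152) (nat_lit 0) (XT.nd (nat_lit 78) (nat_lit 0) (nat_lit 0) (XT.lf (nat_lit 0) (nat_lit 2513709673) (nat_lit 76) (nat_lit 38724267154) (nat_lit 76) (nat_lit 38637289494) (nat_lit 4) (nat_lit 4) (nat_lit 5) (nat_lit 5) (nat_lit 5) (nat_lit 4) (nat_lit 463) (nat_lit 369) (nat_lit 368)) (XT.nd (nat_lit 78) (nat_lit 0) (nat_lit 0) (XT.lf (nat_lit 0) (nat_lit 26642185122) (nat_lit 76) (nat_lit 29600283213) (nat_lit 76) (nat_lit 29432770684) (nat_lit 4) (nat_lit 4) (nat_lit 5) (nat_lit 5) (nat_lit 5) (nat_lit 4) (nat_lit 464) (nat_lit 369) (nat_lit 367)) (XT.lf (nat_lit 0) (nat_lit 51565345729) (nat_lit 76) (nat_lit 20321974675) (nat_lit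 76) (nat_lit 20079892822) (nat_lit 4) (nat_lit 4) (nat_lit 5) (nat_lit 5) (nat_lit 5) (nat_lit 4) (nat_lit 465) (nat_lit 369) (nat_lit 366)))) (XT.nd (nat_lit 156) (nat_lit 152) (nat_lit 0) (XT.nd (nat_lit 78) (nat_lit 0) (nat_lit 0) (XT.lf (nat_lit 0) (nat_lit 77430884300) (nat_lit 76) (nat_lit 10834358970) (nat_lit 76) (nat_lit 10523231447) (nat_lit 4) (nat_lit 4) (nat_lit 5) (nat_lit 5) (nat_lit 5) (nat_lit 4) (nat_lit 466) (nat_lit 369) (nat_lit 365)) (XT.lf (nat_lit 0) (nat_lit 104392078099) (nat_lit 76) (nat_lit 1081213191) (nat_lit 76) (nat_lit 706154491) (nat_lit 4) (nat_lit 4) (nat_lit 5) (nat_lit 5) (nat_lit 5) (nat_lit 4) (nat_lit 467) (nat_lit 369) (nat_lit 364))) (XT.nd (nat_lit 78) (nat_lit 0) (nat_lit 0) (XT.lf (nat_lit 0) (nat_lit 9570196653) (nat_lit 152) (nat_lit 95427621530) (nat_lit 0) (nat_lit 9156621193) (nat_lit 2) (nat_lit 5) (nat_lit 4) (nat_lit 4) (nat_lit 2) (nat_lit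 4) (nat_lit 468) (nat_lit 369) (nat_lit 363)) (XT.lf (nat_lit 0) (nat_lit 20255130177) (nat_lit 152) (nat_lit 82741811302) (nat_lit 0) (nat_lit 19789354070) (nat_lit 2) (nat_lit 5) (nat_lit 4) (nat_lit 4) (nat_lit 2) (nat_lit 4) (nat_lit 469) (nat_lit 369) (nat_lit 362)))))) (XT.nd (nat_lit 546) (nat_lit 0) (nat_lit 0) (XT.nd (nat_lit 234) (nat_lit 76) (nat_lit 0) (XT.nd (nat_lit 78) (nat_lit 0) (nat_lit 0) (XT.lf (nat_lit 0) (nat_lit 31388383679) (nat_lit 152) (nat_lit 69866369065) (nat_lit 0) (nat_lit 30874273640) (nat_lit 2) (nat_lit 5) (nat_lit 4) (nat_lit 4) (nat_lit 2) (nat_lit 4) (nat_lit 470) (nat_lit 369) (nat_lit 361)) (XT.nd (nat_lit 78) (nat_lit 0) (nat_lit 0) (XT.lf (nat_lit 0) (nat_lit 43035931997) (nat_lit 152) (nat_lit 56724995902) (nat_lit 0) (nat_lit 42477068316) (nat_lit 2) (nat_lit 5) (nat_lit 4) (nat_lit 4) (nat_lit 2) (nat_lit 4) (nat_lit 471) (nat_lit 369) (nat_lit 360))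 (XT.lf (nat_lit 0) (nat_lit 55266797637) (nat_lit 152) (nat_lit 43239817010) (nat_lit 0) (nat_lit 54666495400) (nat_lit 2) (nat_lit 5) (nat_lit 4) (nat_lit 4) (nat_lit 2) (nat_lit 4) (nat_lit 472) (nat_lit 369) (nat_lit 359)))) (XT.nd (nat_lit 156) (nat_lit 76) (nat_lit 0) (XT.nd (nat_lit 78) (nat_lit 0) (nat_lit 0) (XT.lf (nat_lit 0) (nat_lit 68153459804) (nat_lit 152) (nat_lit 29330920216) (nat_lit 0) (nat_lit 67514788533) (nat_lit 2) (nat_lit 5) (nat_lit 4) (nat_lit 4) (nat_lit 2) (nat_lit 4) (nat_lit 473) (nat_lit 369) (nat_lit 358)) (XT.lf (nat_lit 0) (nat_lit 81772283904) (nat_lit 152) (nat_lit 14915882429) (nat_lit 0) (nat_lit 81098085750) (nat_lit 2) (nat_lit 5) (nat_lit 4) (nat_lit 4) (nat_lit 2) (nat_lit 4) (nat_lit 474) (nat_lit 369) (nat_lit 357))) (XT.nd (nat_lit 78) (nat_lit 0) (nat_lit 0) (XT.lf (nat_lit 0) (nat_lit 93718370) (nat_lit 76) (nat_lit 96111718915) (nat_lit 76) (nat_lit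 95404625499) (nat_lit 1) (nat_lit 4) (nat_lit 2) (nat_lit 5) (nat_lit 2) (nat_lit 4) (nat_lit 475) (nat_lit 369) (nat_lit 356)) (XT.lf (nat_lit 0) (nat_lit 16299497171) (nat_lit 76) (nat_lit 95489035114) (nat_lit 76) (nat_lit 94751483122) (nat_lit 1) (nat_lit 4) (nat_lit 2) (nat_lit 5) (nat_lit 2) (nat_lit 4) (nat_lit 476) (nat_lit 369) (nat_lit 355))))) (XT.nd (nat_lit 234) (nat_lit 0) (nat_lit 0) (XT.nd (nat_lit 78) (nat_lit 0) (nat_lit 0) (XT.lf (nat_lit 0) (nat_lit 33304301785) (nat_lit 76) (nat_lit 95069032639) (nat_lit 76) (nat_lit 94303278261) (nat_lit 1) (nat_lit 4) (nat_lit 2) (nat_lit 5) (nat_lit 2) (nat_lit 4) (nat_lit 477) (nat_lit 369) (nat_lit 354)) (XT.nd (nat_lit 78) (nat_lit 0) (nat_lit 0) (XT.lf (nat_lit 0) (nat_lit 51208901423) (nat_lit 76) (nat_lit 94849222585) (nat_lit 76) (nat_lit 94057354888) (nat_lit 1) (nat_lit 4) (nat_lit 2) (nat_lit 5) (nat_lit 2) (nat_lit 4) (nat_lit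 478) (nat_lit 369) (nat_lit 353)) (XT.lf (nat_lit 0) (nat_lit 70119397416) (nat_lit 76) (nat_lit 94828302376) (nat_lit 76) (nat_lit 94012255679) (nat_lit 1) (nat_lit 4) (nat_lit 2) (nat_lit 5) (nat_lit 2) (nat_lit 4) (nat_lit 479) (nat_lit 369) (nat_lit 352)))) (XT.nd (nat_lit 156) (nat_lit 0) (nat_lit 0) (XT.nd (nat_lit 78) (nat_lit 0) (nat_lit 0) (XT.lf (nat_lit 0) (nat_lit 90147851964) (nat_lit 76) (nat_lit 95006148038) (nat_lit 76) (nat_lit 94167713379) (nat_lit 1) (nat_lit 4) (nat_lit 2) (nat_lit 5) (nat_lit 2) (nat_lit 4) (nat_lit 480) (nat_lit 369) (nat_lit 351)) (XT.lf (nat_lit 0) (nat_lit 111412952203) (nat_lit 76) (nat_lit 95383813474) (nat_lit 76) (nat_lit 94524649219) (nat_lit 1) (nat_lit 4) (nat_lit 2) (nat_lit 5) (nat_lit 2) (nat_lit 4) (nat_lit 481) (nat_lit 369) (nat_lit 350))) (XT.nd (nat_lit 78) (nat_lit 0) (nat_lit 0) (XT.lf (nat_lit 0) (nat_lit 134040713543) (nat_lit 76)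 (nat_lit 95963536699) (nat_lit 76) (nat_lit 95085178375) (nat_lit 1) (nat_lit 4) (nat_lit 2) (nat_lit 5) (nat_lit 2) (nat_lit 4) (nat_lit 482) (nat_lit 369) (nat_lit 349)) (XT.lf (nat_lit 0) (nat_lit 158165226422) (nat_lit 76) (nat_lit 96748753111) (nat_lit 76) (nat_lit 95852622500) (nat_lit 1) (nat_lit 4) (nat_lit 2) (nat_lit 5) (nat_lit 2) (nat_lit 4) (nat_lit 483) (nat_lit 369) (nat_lit 348))))))) (XT.nd (nat_lit 1092) (nat_lit 0) (nat_lit 0) (XT.nd (nat_lit 546) (nat_lit 0) (nat_lit 0) (XT.nd (nat_lit 234) (nat_lit 0) (nat_lit 0) (XT.nd (nat_lit 78) (nat_lit 0) (nat_lit 0) (XT.lf (nat_lit 0) (nat_lit 183929450916) (nat_lit 76) (nat_lit 97744115844) (nat_lit 76) (nat_lit 96831529412) (nat_lit 1) (nat_lit 4) (nat_lit 2) (nat_lit 5) (nat_lit 2) (nat_lit 4) (nat_lit 484) (nat_lit 369) (nat_lit 347)) (XT.nd (nat_lit 78) (nat_lit 0) (nat_lit 0) (XT.lf (nat_lit 0) (nat_lit 211486063910) (nat_lit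 76) (nat_lit 98955523344) (nat_lit 76) (nat_lit 98027700041) (nat_lit 1) (nat_lit 4) (nat_lit 2) (nat_lit 5) (nat_lit 2) (nat_lit 4) (nat_lit 485) (nat_lit 369) (nat_lit 346)) (XT.lf (nat_lit 0) (nat_lit 240998363852) (nat_lit 76) (nat_lit 100390154321) (nat_lit 76) (nat_lit 99448222804) (nat_lit 1) (nat_lit 4) (nat_lit 2) (nat_lit 5) (nat_lit 2) (nat_lit 4) (nat_lit 486) (nat_lit 369) (nat_lit 345)))) (XT.nd (nat_lit 156) (nat_lit 0) (nat_lit 0) (XT.nd (nat_lit 78) (nat_lit 0) (nat_lit 0) (XT.lf (nat_lit 0) (nat_lit 272641238445) (nat_lit 76) (nat_lit 102056510294) (nat_lit 76) (nat_lit 101101515616) (nat_lit 1) (nat_lit 4) (nat_lit 2) (nat_lit 5) (nat_lit 2) (nat_lit 4) (nat_lit 487) (nat_lit 369) (nat_lit 344)) (XT.lf (nat_lit 0) (nat_lit 306602201021) (nat_lit 76) (nat_lit 103964465964) (nat_lit 76) (nat_lit 102997375766) (nat_lit 1) (nat_lit 4) (nat_lit 2) (nat_lit 5) (nat_lit 2) (nat_lit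 4) (nat_lit 488) (nat_lit 369) (nat_lit 343))) (XT.nd (nat_lit 78) (nat_lit 0) (nat_lit 0) (XT.lf (nat_lit 0) (nat_lit 343082501728) (nat_lit 76) (nat_lit 106125327735) (nat_lit 76) (nat_lit 105147037981) (nat_lit 1) (nat_lit 4) (nat_lit 2) (nat_lit 5) (nat_lit 2) (nat_lit 4) (nat_lit 489) (nat_lit 369) (nat_lit 342)) (XT.lf (nat_lit 0) (nat_lit 382298320126) (nat_lit 76) (nat_lit 108551900713) (nat_lit 76) (nat_lit 107563241001) (nat_lit 1) (nat_lit 4) (nat_lit 2) (nat_lit 5) (nat_lit 2) (nat_lit 4) (nat_lit 490) (nat_lit 369) (nat_lit 341))))) (XT.nd (nat_lit 234) (nat_lit 0) (nat_lit 0) (XT.nd (nat_lit 78) (nat_lit 0) (nat_lit 0) (XT.lf (nat_lit 0) (nat_lit 424482046249) (nat_lit 76) (nat_lit 111258564591) (nat_lit 76) (nat_lit 110260303066) (nat_lit 1) (nat_lit 4) (nat_lit 2) (nat_lit 5) (nat_lit 2) (nat_lit 4) (nat_lit 491) (nat_lit 369) (nat_lit 340)) (XT.nd (nat_lit 78) (nat_lit 0) (nat_lit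 0) (XT.lf (nat_lit 0) (nat_lit 469883657734) (nat_lit 76) (nat_lit 114261358858) (nat_lit 76) (nat_lit 113254206765) (nat_lit 1) (nat_lit 4) (nat_lit 2) (nat_lit 5) (nat_lit 2) (nat_lit 4) (nat_lit 492) (nat_lit 369) (nat_lit 339)) (XT.lf (nat_lit 0) (nat_lit 518772201167) (nat_lit 76) (nat_lit 117578077850) (nat_lit 76) (nat_lit 116562693750) (nat_lit 1) (nat_lit 4) (nat_lit 2) (nat_lit 5) (nat_lit 2) (nat_lit 4) (nat_lit 493) (nat_lit 369) (nat_lit 338)))) (XT.nd (nat_lit 156) (nat_lit 0) (nat_lit 0) (XT.nd (nat_lit 78) (nat_lit 0) (nat_lit 0) (XT.lf (nat_lit 0) (nat_lit 571437386436) (nat_lit 76) (nat_lit 121228376199) (nat_lit 76) (nat_lit 120205369870) (nat_lit 1) (nat_lit 4) (nat_lit 2) (nat_lit 5) (nat_lit 2) (nat_lit 4) (nat_lit 494) (nat_lit 369) (nat_lit 337)) (XT.lf (nat_lit 0) (nat_lit 628191303527) (nat_lit 76) (nat_lit 125233885303) (nat_lit 76) (nat_lit 124203821353) (nat_lit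 1) (nat_lit 4) (nat_lit 2) (nat_lit 5) (nat_lit 2) (nat_lit 4) (nat_lit 495) (nat_lit 369) (nat_lit 336))) (XT.nd (nat_lit 78) (nat_lit 0) (nat_lit 0) (XT.lf (nat_lit 0) (nat_lit 689370271949) (nat_lit 76) (nat_lit 129618341510) (nat_lit 76) (nat_lit 128581742728) (nat_lit 1) (nat_lit 4) (nat_lit 2) (nat_lit 5) (nat_lit 2) (nat_lit 4) (nat_lit 496) (nat_lit 369) (nat_lit 335)) (XT.lf (nat_lit 0) (nat_lit 755336833737) (nat_lit 76) (nat_lit 134407726785) (nat_lit 76) (nat_lit 133365077232) (nat_lit 1) (nat_lit 4) (nat_lit 2) (nat_lit 5) (nat_lit 2) (nat_lit 4) (nat_lit 497) (nat_lit 369) (nat_lit 334)))))) (XT.nd (nat_lit 59670) (nat_lit 0) (nat_lit 76) (XT.nd (nat_lit 234) (nat_lit 0) (nat_lit 0) (XT.nd (nat_lit 78) (nat_lit 0) (nat_lit 0) (XT.lf (nat_lit 0) (nat_lit 826481901850) (nat_lit 76) (nat_lit 139630422669) (nat_lit 76) (nat_lit 138582170550) (nat_lit 1) (nat_lit 4) (nat_lit 2) (nat_lit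 5) (nat_lit 2) (nat_lit 4) (nat_lit 498) (nat_lit 369) (nat_lit 333)) (XT.nd (nat_lit 78) (nat_lit 0) (nat_lit 0) (XT.lf (nat_lit 0) (nat_lit 903227076691) (nat_lit 76) (nat_lit 145317378472) (nat_lit 76) (nat_lit 144263938792) (nat_lit 1) (nat_lit 4) (nat_lit 2) (nat_lit 5) (nat_lit 2) (nat_lit 4) (nat_lit 499) (nat_lit 369) (nat_lit 332)) (XT.lf (nat_lit 0) (nat_lit 986027144482) (nat_lit 76) (nat_lit 151502294672) (nat_lit 76) (nat_lit 150444051695) (nat_lit 1) (nat_lit 4) (nat_lit 2) (nat_lit 5) (nat_lit 2) (nat_lit 4) (nat_lit 500) (nat_lit 369) (nat_lit 331)))) (XT.nd (nat_lit 59280) (nat_lit 0) (nat_lit 304) (XT.nd (nat_lit 78) (nat_lit 0) (nat_lit 0) (XT.lf (nat_lit 0) (nat_lit 1075372772292) (nat_lit 76) (nat_lit 158221822625) (nat_lit 76) (nat_lit 157159132150) (nat_lit 1) (nat_lit 4) (nat_lit 2) (nat_lit 5) (nat_lit 2) (nat_lit 4) (nat_lit 501) (nat_lit 369) (nat_lit 330)) (XT.lf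 (nat_lit 0) (nat_lit 1171793415691) (nat_lit 76) (nat_lit 165515781755) (nat_lit 76) (nat_lit 164448973227) (nat_lit 1) (nat_lit 4) (nat_lit 2) (nat_lit 5) (nat_lit 2) (nat_lit 4) (nat_lit 502) (nat_lit 369) (nat_lit 329))) (XT.nd (nat_lit 78) (nat_lit 0) (nat_lit 0) (XT.lf (nat_lit 0) (nat_lit 327088856) (nat_lit 152) (nat_lit 31860162182) (nat_lit 0) (nat_lit 327088856) (nat_lit 5) (nat_lit 5) (nat_lit 7) (nat_lit 4) (nat_lit 5) (nat_lit 4) (nat_lit 460) (nat_lit 370) (nat_lit 370)) (XT.lf (nat_lit 0) (nat_lit 13577444775) (nat_lit 152) (nat_lit 42521311453) (nat_lit 0) (nat_lit 13483508903) (nat_lit 5) (nat_lit 5) (nat_lit 7) (nat_lit 4) (nat_lit 5) (nat_lit 4) (nat_lit 461) (nat_lit 370) (nat_lit 369))))) (XT.nd (nat_lit 312) (nat_lit 152) (nat_lit 0) (XT.nd (nat_lit 156) (nat_lit 0) (nat_lit 0) (XT.nd (nat_lit 78) (nat_lit 76) (nat_lit 0) (XT.lf (nat_lit 0) (nat_lit 26902070675) (nat_lit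 152) (nat_lit 20908538992) (nat_lit 0) (nat_lit 26721157144) (nat_lit 5) (nat_lit 5) (nat_lit 7) (nat_lit 4) (nat_lit 5) (nat_lit 4) (nat_lit 462) (nat_lit 370) (nat_lit 368)) (XT.lf (nat_lit 0) (nat_lit 1287269367) (nat_lit 76) (nat_lit 39439844673) (nat_lit 76) (nat_lit 39178396272) (nat_lit 4) (nat_lit 4) (nat_lit 5) (nat_lit 5) (nat_lit 5) (nat_lit 4) (nat_lit 463) (nat_lit 370) (nat_lit 367))) (XT.nd (nat_lit 78) (nat_lit 0) (nat_lit 0) (XT.lf (nat_lit 0) (nat_lit 24869786701) (nat_lit 76) (nat_lit 30592588674) (nat_lit 76) (nat_lit 30256570948) (nat_lit 4) (nat_lit 4) (nat_lit 5) (nat_lit 5) (nat_lit 5) (nat_lit 4) (nat_lit 464) (nat_lit 370) (nat_lit 366)) (XT.lf (nat_lit 0) (nat_lit 49287430537) (nat_lit 76) (nat_lit 21570509711) (nat_lit 76) (nat_lit 21165446315) (nat_lit 4) (nat_lit 4) (nat_lit 5) (nat_lit 5) (nat_lit 5) (nat_lit 4) (nat_lit 465) (nat_lit 370) (nat_lit 365)))) (XT.nd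 (nat_lit 156) (nat_lit 152) (nat_lit 0) (XT.nd (nat_lit 78) (nat_lit 0) (nat_lit 0) (XT.lf (nat_lit 0) (nat_lit 74684898023) (nat_lit 76) (nat_lit 12320143613) (nat_lit 76) (nat_lit 11851149040) (nat_lit 4) (nat_lit 4) (nat_lit 5) (nat_lit 5) (nat_lit 5) (nat_lit 4) (nat_lit 466) (nat_lit 370) (nat_lit 364)) (XT.lf (nat_lit 0) (nat_lit 101212692669) (nat_lit 76) (nat_lit 2786673395) (nat_lit 76) (nat_lit 2258483289) (nat_lit 4) (nat_lit 4) (nat_lit 5) (nat_lit 5) (nat_lit 5) (nat_lit 4) (nat_lit 467) (nat_lit 370) (nat_lit 363))) (XT.nd (nat_lit 78) (nat_lit 0) (nat_lit 0) (XT.lf (nat_lit 0) (nat_lit 7776464508) (nat_lit 152) (nat_lit 99250920227) (nat_lit 0) (nat_lit 7221225665) (nat_lit 2) (nat_lit 5) (nat_lit 4) (nat_lit 4) (nat_lit 2) (nat_lit 4) (nat_lit 468) (nat_lit 370) (nat_lit 362)) (XT.lf (nat_lit 0) (nat_lit 18265977502) (nat_lit 152) (nat_lit 86961856542) (nat_lit 0) (nat_lit 17662404726)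 (nat_lit 2) (nat_lit 5) (nat_lit 4) (nat_lit 4) (nat_lit 2) (nat_lit 4) (nat_lit 469) (nat_lit 370) (nat_lit 361))))))))
noncomputable def xc8 : XT := (XT.nd (nat_lit 2184) (nat_lit 0) (nat_lit 0) (XT.nd (nat_lit 1092) (nat_lit 0) (nat_lit 0) (XT.nd (nat_lit 546) (nat_lit 0) (nat_lit 0) (XT.nd (nat_lit 234) (nat_lit 76) (nat_lit 0) (XT.nd (nat_lit 78) (nat_lit 0) (nat_lit 0) (XT.lf (nat_lit 0) (nat_lit 29218286069) (nat_lit 152) (nat_lit 74453772215) (nat_lit 0) (nat_lit 28569959653) (nat_lit 2) (nat_lit 5) (nat_lit 4) (nat_lit 4) (nat_lit 2) (nat_lit 4) (nat_lit 470) (nat_lit 370) (nat_lit 360)) (XT.nd (nat_lit 78) (nat_lit 0) (nat_lit 0) (XT.lf (nat_lit 0) (nat_lit 40698292779) (nat_lit 152) (nat_lit 61652545265) (nat_lit 0) (nat_lit 40008527806) (nat_lit 2) (nat_lit 5) (nat_lit 4) (nat_lit 4) (nat_lit 2) (nat_lit 4) (nat_lit 471) (nat_lit 370) (nat_lit 359)) (XT.lf (nat_lit 0) (nat_lit 52774027302)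 (nat_lit 152) (nat_lit 48482316570) (nat_lit 0) (nat_lit 52045893296) (nat_lit 2) (nat_lit 5) (nat_lit 4) (nat_lit 4) (nat_lit 2) (nat_lit 4) (nat_lit 472) (nat_lit 370) (nat_lit 358)))) (XT.nd (nat_lit 156) (nat_lit 76) (nat_lit 0) (XT.nd (nat_lit 78) (nat_lit 0) (nat_lit 0) (XT.lf (nat_lit 0) (nat_lit 65517049546) (nat_lit 152) (nat_lit 34865040329) (nat_lit 0) (nat_lit 64753388656) (nat_lit 2) (nat_lit 5) (nat_lit 4) (nat_lit 4) (nat_lit 2) (nat_lit 4) (nat_lit 473) (nat_lit 370) (nat_lit 357)) (XT.lf (nat_lit 0) (nat_lit 79002873716) (nat_lit 152) (nat_lit 20720021573) (nat_lit 0) (nat_lit 78206317564) (nat_lit 2) (nat_lit 5) (nat_lit 4) (nat_lit 4) (nat_lit 2) (nat_lit 4) (nat_lit 474) (nat_lit 370) (nat_lit 356))) (XT.nd (nat_lit 78) (nat_lit 76) (nat_lit 0) (XT.lf (nat_lit 0) (nat_lit 93311415808) (nat_lit 152) (nat_lit 5963437967) (nat_lit 0) (nat_lit 92484401081) (nat_lit 2) (nat_lit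 5) (nat_lit 4) (nat_lit 4) (nat_lit 2) (nat_lit 4) (nat_lit 475) (nat_lit 370) (nat_lit 355)) (XT.lf (nat_lit 0) (nat_lit 9806010483) (nat_lit 76) (nat_lit 98874556004) (nat_lit 76) (nat_lit 98019338891) (nat_lit 1) (nat_lit 4) (nat_lit 2) (nat_lit 5) (nat_lit 2) (nat_lit 4) (nat_lit 476) (nat_lit 370) (nat_lit 354))))) (XT.nd (nat_lit 234) (nat_lit 0) (nat_lit 0) (XT.nd (nat_lit 78) (nat_lit 0) (nat_lit 0) (XT.lf (nat_lit 0) (nat_lit 26589377912) (nat_lit 76) (nat_lit 98566953827) (nat_lit 76) (nat_lit 97685623394) (nat_lit 1) (nat_lit 4) (nat_lit 2) (nat_lit 5) (nat_lit 2) (nat_lit 4) (nat_lit 477) (nat_lit 370) (nat_lit 353)) (XT.nd (nat_lit 78) (nat_lit 0) (nat_lit 0) (XT.lf (nat_lit 0) (nat_lit 44288943119) (nat_lit 76) (nat_lit 98451218124) (nat_lit 76) (nat_lit 97545708691) (nat_lit 1) (nat_lit 4) (nat_lit 2) (nat_lit 5) (nat_lit 2) (nat_lit 4) (nat_lit 478) (nat_lit 370) (nat_lit 352))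 (XT.lf (nat_lit 0) (nat_lit 63009592417) (nat_lit 76) (nat_lit 98526663053) (nat_lit 76) (nat_lit 97598765658) (nat_lit 1) (nat_lit 4) (nat_lit 2) (nat_lit 5) (nat_lit 2) (nat_lit 4) (nat_lit 479) (nat_lit 370) (nat_lit 351)))) (XT.nd (nat_lit 156) (nat_lit 0) (nat_lit 0) (XT.nd (nat_lit 78) (nat_lit 0) (nat_lit 0) (XT.lf (nat_lit 0) (nat_lit 82862262988) (nat_lit 76) (nat_lit 98793735696) (nat_lit 76) (nat_lit 97845108706) (nat_lit 1) (nat_lit 4) (nat_lit 2) (nat_lit 5) (nat_lit 2) (nat_lit 4) (nat_lit 480) (nat_lit 370) (nat_lit 350)) (XT.lf (nat_lit 0) (nat_lit 103964600286) (nat_lit 76) (nat_lit 99254018706) (nat_lit 76) (nat_lit 98286197646) (nat_lit 1) (nat_lit 4) (nat_lit 2) (nat_lit 5) (nat_lit 2) (nat_lit 4) (nat_lit 481) (nat_lit 370) (nat_lit 349))) (XT.nd (nat_lit 78) (nat_lit 0) (nat_lit 0) (XT.lf (nat_lit 0) (nat_lit 126441655199) (nat_lit 76) (nat_lit 99910239686) (nat_lit 76)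 (nat_lit 98924646339) (nat_lit 1) (nat_lit 4) (nat_lit 2) (nat_lit 5) (nat_lit 2) (nat_lit 4) (nat_lit 482) (nat_lit 370) (nat_lit 348)) (XT.lf (nat_lit 0) (nat_lit 150426625089) (nat_lit 76) (nat_lit 100766287351) (nat_lit 76) (nat_lit 99764238184) (nat_lit 1) (nat_lit 4) (nat_lit 2) (nat_lit 5) (nat_lit 2) (nat_lit 4) (nat_lit 483) (nat_lit 370) (nat_lit 347)))))) (XT.nd (nat_lit 546) (nat_lit 0) (nat_lit 0) (XT.nd (nat_lit 234) (nat_lit 0) (nat_lit 0) (XT.nd (nat_lit 78) (nat_lit 0) (nat_lit 0) (XT.lf (nat_lit 0) (nat_lit 176061643112) (nat_lit 76) (nat_lit 101827234579) (nat_lit 76) (nat_lit 100809948540) (nat_lit 1) (nat_lit 4) (nat_lit 2) (nat_lit 5) (nat_lit 2) (nat_lit 4) (nat_lit 484) (nat_lit 370) (nat_lit 346)) (XT.nd (nat_lit 78) (nat_lit 0) (nat_lit 0) (XT.lf (nat_lit 0) (nat_lit 203498620486) (nat_lit 76) (nat_lit 103099368462) (nat_lit 76) (nat_lit 102067974210) (nat_lit 1) (nat_lit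 4) (nat_lit 2) (nat_lit 5) (nat_lit 2) (nat_lit 4) (nat_lit 485) (nat_lit 370) (nat_lit 345)) (XT.lf (nat_lit 0) (nat_lit 232900146705) (nat_lit 76) (nat_lit 104590227573) (nat_lit 76) (nat_lit 103545770159) (nat_lit 1) (nat_lit 4) (nat_lit 2) (nat_lit 5) (nat_lit 2) (nat_lit 4) (nat_lit 486) (nat_lit 370) (nat_lit 344)))) (XT.nd (nat_lit 156) (nat_lit 0) (nat_lit 0) (XT.nd (nat_lit 78) (nat_lit 0) (nat_lit 0) (XT.lf (nat_lit 0) (nat_lit 264440453036) (nat_lit 76) (nat_lit 106308646632) (nat_lit 76) (nat_lit 105252093699) (nat_lit 1) (nat_lit 4) (nat_lit 2) (nat_lit 5) (nat_lit 2) (nat_lit 4) (nat_lit 487) (nat_lit 370) (nat_lit 343)) (XT.lf (nat_lit 0) (nat_lit 298306444999) (nat_lit 76) (nat_lit 108264808863) (nat_lit 76) (nat_lit 107197056374) (nat_lit 1) (nat_lit 4) (nat_lit 2) (nat_lit 5) (nat_lit 2) (nat_lit 4) (nat_lit 488) (nat_lit 370) (nat_lit 342))) (XT.nd (nat_lit 78) (nat_lit 0)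 (nat_lit 0) (XT.lf (nat_lit 0) (nat_lit 334698809953) (nat_lit 76) (nat_lit 110470306339) (nat_lit 76) (nat_lit 109392183891) (nat_lit 1) (nat_lit 4) (nat_lit 2) (nat_lit 5) (nat_lit 2) (nat_lit 4) (nat_lit 489) (nat_lit 370) (nat_lit 341)) (XT.lf (nat_lit 0) (nat_lit 373833206357) (nat_lit 76) (nat_lit 112938208673) (nat_lit 76) (nat_lit 111850484413) (nat_lit 1) (nat_lit 4) (nat_lit 2) (nat_lit 5) (nat_lit 2) (nat_lit 4) (nat_lit 490) (nat_lit 370) (nat_lit 340))))) (XT.nd (nat_lit 234) (nat_lit 0) (nat_lit 0) (XT.nd (nat_lit 78) (nat_lit 0) (nat_lit 0) (XT.lf (nat_lit 0) (nat_lit 415941541746) (nat_lit 76) (nat_lit 115683140474) (nat_lit 76) (nat_lit 114586525645) (nat_lit 1) (nat_lit 4) (nat_lit 2) (nat_lit 5) (nat_lit 2) (nat_lit 4) (nat_lit 491) (nat_lit 370) (nat_lit 339)) (XT.nd (nat_lit 78) (nat_lit 0) (nat_lit 0) (XT.lf (nat_lit 0) (nat_lit 461273346995) (nat_lit 76) (nat_lit 118721368002)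 (nat_lit 76) (nat_lit 117616521166) (nat_lit 1) (nat_lit 4) (nat_lit 2) (nat_lit 5) (nat_lit 2) (nat_lit 4) (nat_lit 492) (nat_lit 370) (nat_lit 338)) (XT.lf (nat_lit 0) (nat_lit 510097255025) (nat_lit 76) (nat_lit 122070895570) (nat_lit 76) (nat_lit 120958426505) (nat_lit 1) (nat_lit 4) (nat_lit 2) (nat_lit 5) (nat_lit 2) (nat_lit 4) (nat_lit 493) (nat_lit 370) (nat_lit 337)))) (XT.nd (nat_lit 156) (nat_lit 0) (nat_lit 0) (XT.nd (nat_lit 78) (nat_lit 0) (nat_lit 0) (XT.lf (nat_lit 0) (nat_lit 562702592698) (nat_lit 76) (nat_lit 125751572230) (nat_lit 76) (nat_lit 124632045545) (nat_lit 1) (nat_lit 4) (nat_lit 2) (nat_lit 5) (nat_lit 2) (nat_lit 4) (nat_lit 494) (nat_lit 370) (nat_lit 336)) (XT.lf (nat_lit 0) (nat_lit 619401095348) (nat_lit 76) (nat_lit 129785209399) (nat_lit 76) (nat_lit 128659147881) (nat_lit 1) (nat_lit 4) (nat_lit 2) (nat_lit 5) (nat_lit 2) (nat_lit 4) (nat_lit 495) (nat_lit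 370) (nat_lit 335))) (XT.nd (nat_lit 78) (nat_lit 0) (nat_lit 0) (XT.lf (nat_lit 0) (nat_lit 680528754103) (nat_lit 76) (nat_lit 134195710111) (nat_lit 76) (nat_lit 133063597823) (nat_lit 1) (nat_lit 4) (nat_lit 2) (nat_lit 5) (nat_lit 2) (nat_lit 4) (nat_lit 496) (nat_lit 370) (nat_lit 334)) (XT.lf (nat_lit 0) (nat_lit 746447806940) (nat_lit 76) (nat_lit 139009210669) (nat_lit 76) (nat_lit 137871495814) (nat_lit 1) (nat_lit 4) (nat_lit 2) (nat_lit 5) (nat_lit 2) (nat_lit 4) (nat_lit 497) (nat_lit 370) (nat_lit 333))))))) (XT.nd (nat_lit 60060) (nat_lit 0) (nat_lit 0) (XT.nd (nat_lit 59514) (nat_lit 0) (nat_lit 228) (XT.nd (nat_lit 234) (nat_lit 0) (nat_lit 0) (XT.nd (nat_lit 78) (nat_lit 0) (nat_lit 0) (XT.lf (nat_lit 0) (nat_lit 817548885284) (nat_lit 76) (nat_lit 144254235518) (nat_lit 76) (nat_lit 143111333102) (nat_lit 1) (nat_lit 4) (nat_lit 2) (nat_lit 5) (nat_lit 2) (nat_lit 4) (nat_lit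 498) (nat_lit 370) (nat_lit 332)) (XT.nd (nat_lit 78) (nat_lit 0) (nat_lit 0) (XT.lf (nat_lit 0) (nat_lit 894253328857) (nat_lit 76) (nat_lit 149961866289) (nat_lit 76) (nat_lit 148814160576) (nat_lit 1) (nat_lit 4) (nat_lit 2) (nat_lit 5) (nat_lit 2) (nat_lit 4) (nat_lit 499) (nat_lit 370) (nat_lit 331)) (XT.lf (nat_lit 0) (nat_lit 977015682511) (nat_lit 76) (nat_lit 156165925978) (nat_lit 76) (nat_lit 155013772767) (nat_lit 1) (nat_lit 4) (nat_lit 2) (nat_lit 5) (nat_lit 2) (nat_lit 4) (nat_lit 500) (nat_lit 370) (nat_lit 330)))) (XT.nd (nat_lit 59124) (nat_lit 0) (nat_lit 456) (XT.nd (nat_lit 78) (nat_lit 0) (nat_lit 0) (XT.lf (nat_lit 0) (nat_lit 1066326389823) (nat_lit 76) (nat_lit 162903179383) (nat_lit 76) (nat_lit 161746908119) (nat_lit 1) (nat_lit 4) (nat_lit 2) (nat_lit 5) (nat_lit 2) (nat_lit 4) (nat_lit 501) (nat_lit 370) (nat_lit 329)) (XT.lf (nat_lit 0) (nat_lit 1162714699428)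 (nat_lit 76) (nat_lit 170213550969) (nat_lit 76) (nat_lit 169053466693) (nat_lit 1) (nat_lit 4) (nat_lit 2) (nat_lit 5) (nat_lit 2) (nat_lit 4) (nat_lit 502) (nat_lit 370) (nat_lit 328))) (XT.nd (nat_lit 78) (nat_lit 0) (nat_lit 0) (XT.lf (nat_lit 0) (nat_lit 5003269200) (nat_lit 76) (nat_lit 11726042740) (nat_lit 76) (nat_lit 11726042740) (nat_lit 7) (nat_lit 4) (nat_lit 8) (nat_lit 5) (nat_lit 8) (nat_lit 4) (nat_lit 458) (nat_lit 371) (nat_lit 371)) (XT.lf (nat_lit 0) (nat_lit 37403062825) (nat_lit 76) (nat_lit 11755017050) (nat_lit 76) (nat_lit 11648493771) (nat_lit 7) (nat_lit 4) (nat_lit 8) (nat_lit 5) (nat_lit 8) (nat_lit 4) (nat_lit 459) (nat_lit 371) (nat_lit 370))))) (XT.nd (nat_lit 234) (nat_lit 76) (nat_lit 0) (XT.nd (nat_lit 78) (nat_lit 0) (nat_lit 0) (XT.lf (nat_lit 0) (nat_lit 427213680) (nat_lit 152) (nat_lit 64386062057) (nat_lit 0) (nat_lit 231827065) (nat_lit 5) (nat_lit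 5) (nat_lit 7) (nat_lit 4) (nat_lit 5) (nat_lit 4) (nat_lit 460) (nat_lit 371) (nat_lit 369)) (XT.nd (nat_lit 78) (nat_lit 0) (nat_lit 0) (XT.lf (nat_lit 0) (nat_lit 13046392989) (nat_lit 152) (nat_lit 43803472935) (nat_lit 0) (nat_lit 12764028715) (nat_lit 5) (nat_lit 5) (nat_lit 7) (nat_lit 4) (nat_lit 5) (nat_lit 4) (nat_lit 461) (nat_lit 371) (nat_lit 368)) (XT.lf (nat_lit 0) (nat_lit 26089456154) (nat_lit 152) (nat_lit 22761463242) (nat_lit 0) (nat_lit 25726557010) (nat_lit 5) (nat_lit 5) (nat_lit 7) (nat_lit 4) (nat_lit 5) (nat_lit 4) (nat_lit 462) (nat_lit 371) (nat_lit 367)))) (XT.nd (nat_lit 156) (nat_lit 0) (nat_lit 0) (XT.nd (nat_lit 78) (nat_lit 76) (nat_lit 0) (XT.lf (nat_lit 0) (nat_lit 39633695400) (nat_lit 152) (nat_lit 1135339586) (nat_lit 0) (nat_lit 39196226932) (nat_lit 5) (nat_lit 5) (nat_lit 7) (nat_lit 4) (nat_lit 5) (nat_lit 4) (nat_lit 463) (nat_lit 371) (nat_lit 366))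 (XT.lf (nat_lit 0) (nat_lit 21904121522) (nat_lit 76) (nat_lit 32197236087) (nat_lit 76) (nat_lit 31690721949) (nat_lit 4) (nat_lit 4) (nat_lit 5) (nat_lit 5) (nat_lit 5) (nat_lit 4) (nat_lit 464) (nat_lit 371) (nat_lit 365))) (XT.nd (nat_lit 78) (nat_lit 0) (nat_lit 0) (XT.lf (nat_lit 0) (nat_lit 45853694272) (nat_lit 76) (nat_lit 23412406731) (nat_lit 76) (nat_lit 22841961417) (nat_lit 4) (nat_lit 4) (nat_lit 5) (nat_lit 5) (nat_lit 5) (nat_lit 4) (nat_lit 465) (nat_lit 371) (nat_lit 364)) (XT.lf (nat_lit 0) (nat_lit 70817762605) (nat_lit 76) (nat_lit 14381716194) (nat_lit 76) (nat_lit 13752075347) (nat_lit 4) (nat_lit 4) (nat_lit 5) (nat_lit 5) (nat_lit 5) (nat_lit 4) (nat_lit 466) (nat_lit 371) (nat_lit 363)))))) (XT.nd (nat_lit 546) (nat_lit 76) (nat_lit 0) (XT.nd (nat_lit 234) (nat_lit 0) (nat_lit 0) (XT.nd (nat_lit 78) (nat_lit 152) (nat_lit 0) (XT.lf (nat_lit 0) (nat_lit 96944261739)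 (nat_lit 76) (nat_lit 5051649274) (nat_lit 76) (nat_lit 4367197747) (nat_lit 4) (nat_lit 4) (nat_lit 5) (nat_lit 5) (nat_lit 5) (nat_lit 4) (nat_lit 467) (nat_lit 371) (nat_lit 362)) (XT.nd (nat_lit 78) (nat_lit 0) (nat_lit 0) (XT.lf (nat_lit 0) (nat_lit 5432759089) (nat_lit 152) (nat_lit 104205315628) (nat_lit 0) (nat_lit 4732566559) (nat_lit 2) (nat_lit 5) (nat_lit 4) (nat_lit 4) (nat_lit 2) (nat_lit 4) (nat_lit 468) (nat_lit 371) (nat_lit 361)) (XT.lf (nat_lit 0) (nat_lit 15741327147) (nat_lit 152) (nat_lit 92283609854) (nat_lit 0) (nat_lit 14996380976) (nat_lit 2) (nat_lit 5) (nat_lit 4) (nat_lit 4) (nat_lit 2) (nat_lit 4) (nat_lit 469) (nat_lit 371) (nat_lit 360)))) (XT.nd (nat_lit 156) (nat_lit 0) (nat_lit 0) (XT.nd (nat_lit 78) (nat_lit 0) (nat_lit 0) (XT.lf (nat_lit 0) (nat_lit 26526094107) (nat_lit 152) (nat_lit 80115671740) (nat_lit 0) (nat_lit 25739709380) (nat_lit 2) (nat_lit 5)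 (nat_lit 4) (nat_lit 4) (nat_lit 2) (nat_lit 4) (nat_lit 470) (nat_lit 371) (nat_lit 359)) (XT.lf (nat_lit 0) (nat_lit 37850969700) (nat_lit 152) (nat_lit 67629394987) (nat_lit 0) (nat_lit 37026215939) (nat_lit 2) (nat_lit 5) (nat_lit 4) (nat_lit 4) (nat_lit 2) (nat_lit 4) (nat_lit 471) (nat_lit 371) (nat_lit 358))) (XT.nd (nat_lit 78) (nat_lit 0) (nat_lit 0) (XT.lf (nat_lit 0) (nat_lit 49783064299) (nat_lit 152) (nat_lit 54750786845) (nat_lit 0) (nat_lit 48922783655) (nat_lit 2) (nat_lit 5) (nat_lit 4) (nat_lit 4) (nat_lit 2) (nat_lit 4) (nat_lit 472) (nat_lit 371) (nat_lit 357)) (XT.lf (nat_lit 0) (nat_lit 62393086614) (nat_lit 152) (nat_lit 41403529635) (nat_lit 0) (nat_lit 61499910708) (nat_lit 2) (nat_lit 5) (nat_lit 4) (nat_lit 4) (nat_lit 2) (nat_lit 4) (nat_lit 473) (nat_lit 371) (nat_lit 356))))) (XT.nd (nat_lit 234) (nat_lit 0) (nat_lit 0) (XT.nd (nat_lit 78) (nat_lit 76) (nat_lit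 0) (XT.lf (nat_lit 0) (nat_lit 75755762702) (nat_lit 152) (nat_lit 27508528499) (nat_lit 0) (nat_lit 74832128219) (nat_lit 2) (nat_lit 5) (nat_lit 4) (nat_lit 4) (nat_lit 2) (nat_lit 4) (nat_lit 474) (nat_lit 371) (nat_lit 355)) (XT.nd (nat_lit 78) (nat_lit 76) (nat_lit 0) (XT.lf (nat_lit 0) (nat_lit 89950278791) (nat_lit 152) (nat_lit 12983442691) (nat_lit 0) (nat_lit 88998441924) (nat_lit 2) (nat_lit 5) (nat_lit 4) (nat_lit 4) (nat_lit 2) (nat_lit 4) (nat_lit 475) (nat_lit 371) (nat_lit 354)) (XT.lf (nat_lit 0) (nat_lit 2332455515) (nat_lit 76) (nat_lit 102764711186) (nat_lit 76) (nat_lit 101786760999) (nat_lit 1) (nat_lit 4) (nat_lit 2) (nat_lit 5) (nat_lit 2) (nat_lit 4) (nat_lit 476) (nat_lit 371) (nat_lit 353)))) (XT.nd (nat_lit 156) (nat_lit 0) (nat_lit 0) (XT.nd (nat_lit 78) (nat_lit 0) (nat_lit 0) (XT.lf (nat_lit 0) (nat_lit 18910788513) (nat_lit 76) (nat_lit 102561183359) (nat_lit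 76) (nat_lit 101559054172) (nat_lit 1) (nat_lit 4) (nat_lit 2) (nat_lit 5) (nat_lit 2) (nat_lit 4) (nat_lit 477) (nat_lit 371) (nat_lit 352)) (XT.lf (nat_lit 0) (nat_lit 36420507025) (nat_lit 76) (nat_lit 102541812794) (nat_lit 76) (nat_lit 101517295645) (nat_lit 1) (nat_lit 4) (nat_lit 2) (nat_lit 5) (nat_lit 2) (nat_lit 4) (nat_lit 478) (nat_lit 371) (nat_lit 351))) (XT.nd (nat_lit 78) (nat_lit 0) (nat_lit 0) (XT.lf (nat_lit 0) (nat_lit 54965372347) (nat_lit 76) (nat_lit 102706484704) (nat_lit 76) (nat_lit 101661237960) (nat_lit 1) (nat_lit 4) (nat_lit 2) (nat_lit 5) (nat_lit 2) (nat_lit 4) (nat_lit 479) (nat_lit 371) (nat_lit 350)) (XT.lf (nat_lit 0) (nat_lit 74655279976) (nat_lit 76) (nat_lit 103056174922) (nat_lit 76) (nat_lit 101991734108) (nat_lit 1) (nat_lit 4) (nat_lit 2) (nat_lit 5) (nat_lit 2) (nat_lit 4) (nat_lit 480) (nat_lit 371) (nat_lit 349))))))))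
noncomputable def xc9 : XT := (XT.nd (nat_lit 60996) (nat_lit 0) (nat_lit 0) (XT.nd (nat_lit 1092) (nat_lit 0) (nat_lit 0) (XT.nd (nat_lit 546) (nat_lit 0) (nat_lit 0) (XT.nd (nat_lit 234) (nat_lit 0) (nat_lit 0) (XT.nd (nat_lit 78) (nat_lit 0) (nat_lit 0) (XT.lf (nat_lit 0) (nat_lit 95606910847) (nat_lit 76) (nat_lit 103592955686) (nat_lit 76) (nat_lit 102510742586) (nat_lit 1) (nat_lit 4) (nat_lit 2) (nat_lit 5) (nat_lit 2) (nat_lit 4) (nat_lit 481) (nat_lit 371) (nat_lit 348)) (XT.nd (nat_lit 78) (nat_lit 0) (nat_lit 0) (XT.lf (nat_lit 0) (nat_lit 117944422771) (nat_lit 76) (nat_lit 104320007919) (nat_lit 76) (nat_lit 103221338998) (nat_lit 1) (nat_lit 4) (nat_lit 2) (nat_lit 5) (nat_lit 2) (nat_lit 4) (nat_lit 482) (nat_lit 371) (nat_lit 347)) (XT.lf (nat_lit 0) (nat_lit 141800186191) (nat_lit 76) (nat_lit 105241640080) (nat_lit 76) (nat_lit 104127734287) (nat_lit 1) (nat_lit 4) (nat_lit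 2) (nat_lit 5) (nat_lit 2) (nat_lit 4) (nat_lit 483) (nat_lit 371) (nat_lit 346)))) (XT.nd (nat_lit 156) (nat_lit 0) (nat_lit 0) (XT.nd (nat_lit 78) (nat_lit 0) (nat_lit 0) (XT.lf (nat_lit 0) (nat_lit 167315568593) (nat_lit 76) (nat_lit 106363313691) (nat_lit 76) (nat_lit 105235299684) (nat_lit 1) (nat_lit 4) (nat_lit 2) (nat_lit 5) (nat_lit 2) (nat_lit 4) (nat_lit 484) (nat_lit 371) (nat_lit 345)) (XT.lf (nat_lit 0) (nat_lit 194641772244) (nat_lit 76) (nat_lit 107691675707) (nat_lit 76) (nat_lit 106550598539) (nat_lit 1) (nat_lit 4) (nat_lit 2) (nat_lit 5) (nat_lit 2) (nat_lit 4) (nat_lit 485) (nat_lit 371) (nat_lit 344))) (XT.nd (nat_lit 78) (nat_lit 0) (nat_lit 0) (XT.lf (nat_lit 0) (nat_lit 223940730201) (nat_lit 76) (nat_lit 109234597904) (nat_lit 76) (nat_lit 108081425216) (nat_lit 1) (nat_lit 4) (nat_lit 2) (nat_lit 5) (nat_lit 2) (nat_lit 4) (nat_lit 486) (nat_lit 371) (nat_lit 343))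 (XT.lf (nat_lit 0) (nat_lit 255386065919) (nat_lit 76) (nat_lit 111001223524) (nat_lit 76) (nat_lit 109836851281) (nat_lit 1) (nat_lit 4) (nat_lit 2) (nat_lit 5) (nat_lit 2) (nat_lit 4) (nat_lit 487) (nat_lit 371) (nat_lit 342))))) (XT.nd (nat_lit 234) (nat_lit 0) (nat_lit 0) (XT.nd (nat_lit 78) (nat_lit 0) (nat_lit 0) (XT.lf (nat_lit 0) (nat_lit 289164122129) (nat_lit 76) (nat_lit 113002021460) (nat_lit 76) (nat_lit 111827279259) (nat_lit 1) (nat_lit 4) (nat_lit 2) (nat_lit 5) (nat_lit 2) (nat_lit 4) (nat_lit 488) (nat_lit 371) (nat_lit 341)) (XT.nd (nat_lit 78) (nat_lit 0) (nat_lit 0) (XT.lf (nat_lit 0) (nat_lit 325475065090) (nat_lit 76) (nat_lit 115248848292) (nat_lit 76) (nat_lit 114064504277) (nat_lit 1) (nat_lit 4) (nat_lit 2) (nat_lit 5) (nat_lit 2) (nat_lit 4) (nat_lit 489) (nat_lit 371) (nat_lit 340)) (XT.lf (nat_lit 0) (nat_lit 364534070759) (nat_lit 76) (nat_lit 117755018549) (nat_lit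 76) (nat_lit 116561783966) (nat_lit 1) (nat_lit 4) (nat_lit 2) (nat_lit 5) (nat_lit 2) (nat_lit 4) (nat_lit 490) (nat_lit 371) (nat_lit 339)))) (XT.nd (nat_lit 156) (nat_lit 0) (nat_lit 0) (XT.nd (nat_lit 78) (nat_lit 0) (nat_lit 0) (XT.lf (nat_lit 0) (nat_lit 406572599912) (nat_lit 76) (nat_lit 120535383611) (nat_lit 76) (nat_lit 119333917021) (nat_lit 1) (nat_lit 4) (nat_lit 2) (nat_lit 5) (nat_lit 2) (nat_lit 4) (nat_lit 491) (nat_lit 371) (nat_lit 338)) (XT.lf (nat_lit 0) (nat_lit 451839769758) (nat_lit 76) (nat_lit 123606419715) (nat_lit 76) (nat_lit 122397330896) (nat_lit 1) (nat_lit 4) (nat_lit 2) (nat_lit 5) (nat_lit 2) (nat_lit 4) (nat_lit 492) (nat_lit 371) (nat_lit 337))) (XT.nd (nat_lit 78) (nat_lit 0) (nat_lit 0) (XT.lf (nat_lit 0) (nat_lit 500603830192) (nat_lit 76) (nat_lit 126986325594) (nat_lit 76) (nat_lit 125770179155) (nat_lit 1) (nat_lit 4) (nat_lit 2) (nat_lit 5) (nat_lit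 2) (nat_lit 4) (nat_lit 493) (nat_lit 371) (nat_lit 336)) (XT.lf (nat_lit 0) (nat_lit 553153753424) (nat_lit 76) (nat_lit 130695130319) (nat_lit 76) (nat_lit 129472449047) (nat_lit 1) (nat_lit 4) (nat_lit 2) (nat_lit 5) (nat_lit 2) (nat_lit 4) (nat_lit 494) (nat_lit 371) (nat_lit 335)))))) (XT.nd (nat_lit 546) (nat_lit 0) (nat_lit 0) (XT.nd (nat_lit 234) (nat_lit 0) (nat_lit 0) (XT.nd (nat_lit 78) (nat_lit 0) (nat_lit 0) (XT.lf (nat_lit 0) (nat_lit 609800946408) (nat_lit 76) (nat_lit 134754811993) (nat_lit 76) (nat_lit 133526079950) (nat_lit 1) (nat_lit 4) (nat_lit 2) (nat_lit 5) (nat_lit 2) (nat_lit 4) (nat_lit 495) (nat_lit 371) (nat_lit 334)) (XT.nd (nat_lit 78) (nat_lit 0) (nat_lit 0) (XT.lf (nat_lit 0) (nat_lit 670881096211) (nat_lit 76) (nat_lit 139189427988) (nat_lit 76) (nat_lit 137955093379) (nat_lit 1) (nat_lit 4) (nat_lit 2) (nat_lit 5) (nat_lit 2) (nat_lit 4) (nat_lit 496) (nat_lit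 371) (nat_lit 333)) (XT.lf (nat_lit 0) (nat_lit 736756159279) (nat_lit 76) (nat_lit 144025257511) (nat_lit 76) (nat_lit 142785735341) (nat_lit 1) (nat_lit 4) (nat_lit 2) (nat_lit 5) (nat_lit 2) (nat_lit 4) (nat_lit 497) (nat_lit 371) (nat_lit 332)))) (XT.nd (nat_lit 156) (nat_lit 0) (nat_lit 0) (XT.nd (nat_lit 78) (nat_lit 0) (nat_lit 0) (XT.lf (nat_lit 0) (nat_lit 807816506354) (nat_lit 76) (nat_lit 149290957328) (nat_lit 76) (nat_lit 148046631861) (nat_lit 1) (nat_lit 4) (nat_lit 2) (nat_lit 5) (nat_lit 2) (nat_lit 4) (nat_lit 498) (nat_lit 371) (nat_lit 331)) (XT.lf (nat_lit 0) (nat_lit 884483235790) (nat_lit 76) (nat_lit 155017731587) (nat_lit 76) (nat_lit 153768958623) (nat_lit 1) (nat_lit 4) (nat_lit 2) (nat_lit 5) (nat_lit 2) (nat_lit 4) (nat_lit 499) (nat_lit 371) (nat_lit 330))) (XT.nd (nat_lit 78) (nat_lit 0) (nat_lit 0) (XT.lf (nat_lit 0) (nat_lit 967210668947) (nat_lit 76) (nat_lit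 161239516729) (nat_lit 76) (nat_lit 159986625711) (nat_lit 1) (nat_lit 4) (nat_lit 2) (nat_lit 5) (nat_lit 2) (nat_lit 4) (nat_lit 500) (nat_lit 371) (nat_lit 329)) (XT.lf (nat_lit 0) (nat_lit 1056489042465) (nat_lit 76) (nat_lit 167993182590) (nat_lit 76) (nat_lit 166736478560) (nat_lit 1) (nat_lit 4) (nat_lit 2) (nat_lit 5) (nat_lit 2) (nat_lit 4) (nat_lit 501) (nat_lit 371) (nat_lit 328))))) (XT.nd (nat_lit 59046) (nat_lit 0) (nat_lit 304) (XT.nd (nat_lit 58890) (nat_lit 0) (nat_lit 532) (XT.lf (nat_lit 0) (nat_lit 1152847413373) (nat_lit 76) (nat_lit 175318750894) (nat_lit 76) (nat_lit 174058516297) (nat_lit 1) (nat_lit 4) (nat_lit 2) (nat_lit 5) (nat_lit 2) (nat_lit 4) (nat_lit 502) (nat_lit 371) (nat_lit 327)) (XT.nd (nat_lit 78) (nat_lit 0) (nat_lit 0) (XT.lf (nat_lit 0) (nat_lit 2333567292) (nat_lit 152) (nat_lit 20337303650) (nat_lit 0) (nat_lit 2333567292) (nat_lit 8) (nat_lit 5)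 (nat_lit 10) (nat_lit 4) (nat_lit 8) (nat_lit 4) (nat_lit 456) (nat_lit 372) (nat_lit 372)) (XT.lf (nat_lit 0) (nat_lit 18656635558) (nat_lit 152) (nat_lit 16124231613) (nat_lit 0) (nat_lit 18541590416) (nat_lit 8) (nat_lit 5) (nat_lit 10) (nat_lit 4) (nat_lit 8) (nat_lit 4) (nat_lit 457) (nat_lit 372) (nat_lit 371)))) (XT.nd (nat_lit 156) (nat_lit 152) (nat_lit 0) (XT.nd (nat_lit 78) (nat_lit 0) (nat_lit 0) (XT.lf (nat_lit 0) (nat_lit 9333221910) (nat_lit 76) (nat_lit 23907844295) (nat_lit 76) (nat_lit 23686275875) (nat_lit 7) (nat_lit 4) (nat_lit 8) (nat_lit 5) (nat_lit 8) (nat_lit 4) (nat_lit 458) (nat_lit 372) (nat_lit 370)) (XT.lf (nat_lit 0) (nat_lit 36106305140) (nat_lit 76) (nat_lit 12526251489) (nat_lit 76) (nat_lit 12206050403) (nat_lit 7) (nat_lit 4) (nat_lit 8) (nat_lit 5) (nat_lit 8) (nat_lit 4) (nat_lit 459) (nat_lit 372) (nat_lit 369))) (XT.nd (nat_lit 78) (nat_lit 152) (nat_lit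 0) (XT.lf (nat_lit 0) (nat_lit 63820533470) (nat_lit 76) (nat_lit 841713943) (nat_lit 76) (nat_lit 430186314) (nat_lit 7) (nat_lit 4) (nat_lit 8) (nat_lit 5) (nat_lit 8) (nat_lit 4) (nat_lit 460) (nat_lit 372) (nat_lit 368)) (XT.lf (nat_lit 0) (nat_lit 11887206570) (nat_lit 152) (nat_lit 46375393894) (nat_lit 0) (nat_lit 11414740625) (nat_lit 5) (nat_lit 5) (nat_lit 7) (nat_lit 4) (nat_lit 5) (nat_lit 4) (nat_lit 461) (nat_lit 372) (nat_lit 367))))))) (XT.nd (nat_lit 1092) (nat_lit 76) (nat_lit 0) (XT.nd (nat_lit 546) (nat_lit 0) (nat_lit 0) (XT.nd (nat_lit 234) (nat_lit 152) (nat_lit 0) (XT.nd (nat_lit 78) (nat_lit 76) (nat_lit 0) (XT.lf (nat_lit 0) (nat_lit 24669563499) (nat_lit 152) (nat_lit 25861868245) (nat_lit 0) (nat_lit 24122528230) (nat_lit 5) (nat_lit 5) (nat_lit 7) (nat_lit 4) (nat_lit 5) (nat_lit 4) (nat_lit 462) (nat_lit 372) (nat_lit 366)) (XT.nd (nat_lit 78) (nat_lit 76) (nat_lit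 0) (XT.lf (nat_lit 0) (nat_lit 37972408082) (nat_lit 152) (nat_lit 4725081667) (nat_lit 0) (nat_lit 37356327142) (nat_lit 5) (nat_lit 5) (nat_lit 7) (nat_lit 4) (nat_lit 5) (nat_lit 4) (nat_lit 463) (nat_lit 372) (nat_lit 365)) (XT.lf (nat_lit 0) (nat_lit 17727615271) (nat_lit 76) (nat_lit 34423734476) (nat_lit 76) (nat_lit 33743722360) (nat_lit 4) (nat_lit 4) (nat_lit 5) (nat_lit 5) (nat_lit 5) (nat_lit 4) (nat_lit 464) (nat_lit 372) (nat_lit 364)))) (XT.nd (nat_lit 156) (nat_lit 152) (nat_lit 0) (XT.nd (nat_lit 78) (nat_lit 0) (nat_lit 0) (XT.lf (nat_lit 0) (nat_lit 41243788868) (nat_lit 76) (nat_lit 25858580681) (nat_lit 76) (nat_lit 25119373032) (nat_lit 4) (nat_lit 4) (nat_lit 5) (nat_lit 5) (nat_lit 5) (nat_lit 4) (nat_lit 465) (nat_lit 372) (nat_lit 363)) (XT.lf (nat_lit 0) (nat_lit 65806561689) (nat_lit 76) (nat_lit 17031293442) (nat_lit 76) (nat_lit 16237275114) (nat_lit 4) (nat_lit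 4) (nat_lit 5) (nat_lit 5) (nat_lit 5) (nat_lit 4) (nat_lit 466) (nat_lit 372) (nat_lit 362))) (XT.nd (nat_lit 78) (nat_lit 152) (nat_lit 0) (XT.lf (nat_lit 0) (nat_lit 91561490905) (nat_lit 76) (nat_lit 7889562909) (nat_lit 76) (nat_lit 7044793952) (nat_lit 4) (nat_lit 4) (nat_lit 5) (nat_lit 5) (nat_lit 5) (nat_lit 4) (nat_lit 467) (nat_lit 372) (nat_lit 361)) (XT.lf (nat_lit 0) (nat_lit 2525191770) (nat_lit 152) (nat_lit 110320167115) (nat_lit 0) (nat_lit 1675896265) (nat_lit 2) (nat_lit 5) (nat_lit 4) (nat_lit 4) (nat_lit 2) (nat_lit 4) (nat_lit 468) (nat_lit 372) (nat_lit 360))))) (XT.nd (nat_lit 234) (nat_lit 0) (nat_lit 0) (XT.nd (nat_lit 78) (nat_lit 0) (nat_lit 0) (XT.lf (nat_lit 0) (nat_lit 12666218221) (nat_lit 152) (nat_lit 98738607553) (nat_lit 0) (nat_lit 11775484159) (nat_lit 2) (nat_lit 5) (nat_lit 4) (nat_lit 4) (nat_lit 2) (nat_lit 4) (nat_lit 469) (nat_lit 372) (nat_lit 359))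 (XT.nd (nat_lit 78) (nat_lit 0) (nat_lit 0) (XT.lf (nat_lit 0) (nat_lit 23295854064) (nat_lit 152) (nat_lit 86885619637) (nat_lit 0) (nat_lit 22366750969) (nat_lit 2) (nat_lit 5) (nat_lit 4) (nat_lit 4) (nat_lit 2) (nat_lit 4) (nat_lit 470) (nat_lit 372) (nat_lit 358)) (XT.lf (nat_lit 0) (nat_lit 34477089733) (nat_lit 152) (nat_lit 74690963437) (nat_lit 0) (nat_lit 33512459755) (nat_lit 2) (nat_lit 5) (nat_lit 4) (nat_lit 4) (nat_lit 2) (nat_lit 4) (nat_lit 471) (nat_lit 372) (nat_lit 357)))) (XT.nd (nat_lit 156) (nat_lit 0) (nat_lit 0) (XT.nd (nat_lit 78) (nat_lit 0) (nat_lit 0) (XT.lf (nat_lit 0) (nat_lit 46276184403) (nat_lit 152) (nat_lit 62082374326) (nat_lit 0) (nat_lit 45278659163) (nat_lit 2) (nat_lit 5) (nat_lit 4) (nat_lit 4) (nat_lit 2) (nat_lit 4) (nat_lit 472) (nat_lit 372) (nat_lit 356)) (XT.lf (nat_lit 0) (nat_lit 58763058635) (nat_lit 152) (nat_lit 48985134736) (nat_lit 0) (nat_lit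 57735074819) (nat_lit 2) (nat_lit 5) (nat_lit 4) (nat_lit 4) (nat_lit 2) (nat_lit 4) (nat_lit 473) (nat_lit 372) (nat_lit 355))) (XT.nd (nat_lit 78) (nat_lit 0) (nat_lit 0) (XT.lf (nat_lit 0) (nat_lit 72011708721) (nat_lit 152) (nat_lit 35321631398) (nat_lit 0) (nat_lit 70955522519) (nat_lit 2) (nat_lit 5) (nat_lit 4) (nat_lit 4) (nat_lit 2) (nat_lit 4) (nat_lit 474) (nat_lit 372) (nat_lit 354)) (XT.lf (nat_lit 0) (nat_lit 86100645179) (nat_lit 152) (nat_lit 21010895402) (nat_lit 0) (nat_lit 85018345657) (nat_lit 2) (nat_lit 5) (nat_lit 4) (nat_lit 4) (nat_lit 2) (nat_lit 4) (nat_lit 475) (nat_lit 372) (nat_lit 353)))))) (XT.nd (nat_lit 546) (nat_lit 0) (nat_lit 0) (XT.nd (nat_lit 234) (nat_lit 0) (nat_lit 0) (XT.nd (nat_lit 78) (nat_lit 76) (nat_lit 0) (XT.lf (nat_lit 0) (nat_lit 101113358003) (nat_lit 152) (nat_lit 5968122386) (nat_lit 0) (nat_lit 100006879482) (nat_lit 2) (nat_lit 5) (nat_lit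 4) (nat_lit 4) (nat_lit 2) (nat_lit 4) (nat_lit 476) (nat_lit 372) (nat_lit 352)) (XT.nd (nat_lit 78) (nat_lit 0) (nat_lit 0) (XT.lf (nat_lit 0) (nat_lit 10223030837) (nat_lit 76) (nat_lit 107075390742) (nat_lit 76) (nat_lit 105946524258) (nat_lit 1) (nat_lit 4) (nat_lit 2) (nat_lit 5) (nat_lit 2) (nat_lit 4) (nat_lit 477) (nat_lit 372) (nat_lit 351)) (XT.lf (nat_lit 0) (nat_lit 27556965373) (nat_lit 76) (nat_lit 107145247158) (nat_lit 76) (nat_lit 105995651079) (nat_lit 1) (nat_lit 4) (nat_lit 2) (nat_lit 5) (nat_lit 2) (nat_lit 4) (nat_lit 478) (nat_lit 372) (nat_lit 350)))) (XT.nd (nat_lit 156) (nat_lit 0) (nat_lit 0) (XT.nd (nat_lit 78) (nat_lit 0) (nat_lit 0) (XT.lf (nat_lit 0) (nat_lit 45939067753) (nat_lit 76) (nat_lit 107392536643) (nat_lit 76) (nat_lit 106223746494) (nat_lit 1) (nat_lit 4) (nat_lit 2) (nat_lit 5) (nat_lit 2) (nat_lit 4) (nat_lit 479) (nat_lit 372) (nat_lit 349)) (XT.lf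 (nat_lit 0) (nat_lit 65478268954) (nat_lit 76) (nat_lit 107818724615) (nat_lit 76) (nat_lit 106632162179) (nat_lit 1) (nat_lit 4) (nat_lit 2) (nat_lit 5) (nat_lit 2) (nat_lit 4) (nat_lit 480) (nat_lit 372) (nat_lit 348))) (XT.nd (nat_lit 78) (nat_lit 0) (nat_lit 0) (XT.lf (nat_lit 0) (nat_lit 86290356837) (nat_lit 76) (nat_lit 108426336633) (nat_lit 76) (nat_lit 107223318376) (nat_lit 1) (nat_lit 4) (nat_lit 2) (nat_lit 5) (nat_lit 2) (nat_lit 4) (nat_lit 481) (nat_lit 372) (nat_lit 347)) (XT.lf (nat_lit 0) (nat_lit 108498662291) (nat_lit 76) (nat_lit 109218973360) (nat_lit 76) (nat_lit 108000718233) (nat_lit 1) (nat_lit 4) (nat_lit 2) (nat_lit 5) (nat_lit 2) (nat_lit 4) (nat_lit 482) (nat_lit 372) (nat_lit 346))))) (XT.nd (nat_lit 234) (nat_lit 0) (nat_lit 0) (XT.nd (nat_lit 78) (nat_lit 0) (nat_lit 0) (XT.lf (nat_lit 0) (nat_lit 132234790090) (nat_lit 76) (nat_lit 110201331904) (nat_lit 76)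 (nat_lit 108968968562) (nat_lit 1) (nat_lit 4) (nat_lit 2) (nat_lit 5) (nat_lit 2) (nat_lit 4) (nat_lit 483) (nat_lit 372) (nat_lit 345)) (XT.nd (nat_lit 78) (nat_lit 0) (nat_lit 0) (XT.lf (nat_lit 0) (nat_lit 157639398769) (nat_lit 76) (nat_lit 111379233648) (nat_lit 76) (nat_lit 110133807145) (nat_lit 1) (nat_lit 4) (nat_lit 2) (nat_lit 5) (nat_lit 2) (nat_lit 4) (nat_lit 484) (nat_lit 372) (nat_lit 344)) (XT.lf (nat_lit 0) (nat_lit 184863034157) (nat_lit 76) (nat_lit 112759658751) (nat_lit 76) (nat_lit 111502136728) (nat_lit 1) (nat_lit 4) (nat_lit 2) (nat_lit 5) (nat_lit 2) (nat_lit 4) (nat_lit 485) (nat_lit 372) (nat_lit 343)))) (XT.nd (nat_lit 156) (nat_lit 0) (nat_lit 0) (XT.nd (nat_lit 78) (nat_lit 0) (nat_lit 0) (XT.lf (nat_lit 0) (nat_lit 214067021501) (nat_lit 76) (nat_lit 114350787509) (nat_lit 76) (nat_lit 113082065931) (nat_lit 1) (nat_lit 4) (nat_lit 2) (nat_lit 5) (nat_lit 2)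 (nat_lit 4) (nat_lit 486) (nat_lit 372) (nat_lit 342)) (XT.lf (nat_lit 0) (nat_lit 245424421467) (nat_lit 76) (nat_lit 116162048834) (nat_lit 76) (nat_lit 114882957298) (nat_lit 1) (nat_lit 4) (nat_lit 2) (nat_lit 5) (nat_lit 2) (nat_lit 4) (nat_lit 487) (nat_lit 372) (nat_lit 341))) (XT.nd (nat_lit 78) (nat_lit 0) (nat_lit 0) (XT.lf (nat_lit 0) (nat_lit 279121055683) (nat_lit 76) (nat_lit 118204176126) (nat_lit 76) (nat_lit 116915482776) (nat_lit 1) (nat_lit 4) (nat_lit 2) (nat_lit 5) (nat_lit 2) (nat_lit 4) (nat_lit 488) (nat_lit 372) (nat_lit 340)) (XT.lf (nat_lit 0) (nat_lit 315356607909) (nat_lit 76) (nat_lit 120489270880) (nat_lit 76) (nat_lit 119191686963) (nat_lit 1) (nat_lit 4) (nat_lit 2) (nat_lit 5) (nat_lit 2) (nat_lit 4) (nat_lit 489) (nat_lit 372) (nat_lit 339))))))))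
noncomputable def xc10 : XT := (XT.nd (nat_lit 60840) (nat_lit 0) (nat_lit 0) (XT.nd (nat_lit 59748) (nat_lit 0) (nat_lit 228) (XT.nd (nat_lit 546) (nat_lit 0) (nat_lit 0) (XT.nd (nat_lit 234) (nat_lit 0) (nat_lit 0) (XT.nd (nat_lit 78) (nat_lit 0) (nat_lit 0) (XT.lf (nat_lit 0) (nat_lit 354345807343) (nat_lit 76) (nat_lit 123030874399) (nat_lit 76) (nat_lit 121725058474) (nat_lit 1) (nat_lit 4) (nat_lit 2) (nat_lit 5) (nat_lit 2) (nat_lit 4) (nat_lit 490) (nat_lit 372) (nat_lit 338)) (XT.nd (nat_lit 78) (nat_lit 0) (nat_lit 0) (XT.lf (nat_lit 0) (nat_lit 396319701092) (nat_lit 76) (nat_lit 125844048037) (nat_lit 76) (nat_lit 124530609883) (nat_lit 1) (nat_lit 4) (nat_lit 2) (nat_lit 5) (nat_lit 2) (nat_lit 4) (nat_lit 491) (nat_lit 372) (nat_lit 337)) (XT.lf (nat_lit 0) (nat_lit 441527023342) (nat_lit 76) (nat_lit 128945462452) (nat_lit 76) (nat_lit 127624966678) (nat_lit 1) (nat_lit 4) (nat_lit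 2) (nat_lit 5) (nat_lit 2) (nat_lit 4) (nat_lit 492) (nat_lit 372) (nat_lit 336)))) (XT.nd (nat_lit 156) (nat_lit 0) (nat_lit 0) (XT.nd (nat_lit 78) (nat_lit 0) (nat_lit 0) (XT.lf (nat_lit 0) (nat_lit 490235669336) (nat_lit 76) (nat_lit 132353496396) (nat_lit 76) (nat_lit 131026465789) (nat_lit 1) (nat_lit 4) (nat_lit 2) (nat_lit 5) (nat_lit 2) (nat_lit 4) (nat_lit 493) (nat_lit 372) (nat_lit 335)) (XT.lf (nat_lit 0) (nat_lit 542734282901) (nat_lit 76) (nat_lit 136088345626) (nat_lit 76) (nat_lit 134755264248) (nat_lit 1) (nat_lit 4) (nat_lit 2) (nat_lit 5) (nat_lit 2) (nat_lit 4) (nat_lit 494) (nat_lit 372) (nat_lit 334))) (XT.nd (nat_lit 78) (nat_lit 0) (nat_lit 0) (XT.lf (nat_lit 0) (nat_lit 599333966933) (nat_lit 76) (nat_lit 140172142582) (nat_lit 76) (nat_lit 138833458639) (nat_lit 1) (nat_lit 4) (nat_lit 2) (nat_lit 5) (nat_lit 2) (nat_lit 4) (nat_lit 495) (nat_lit 372) (nat_lit 333))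 (XT.lf (nat_lit 0) (nat_lit 660370126968) (nat_lit 76) (nat_lit 144629087543) (nat_lit 76) (nat_lit 143285216038) (nat_lit 1) (nat_lit 4) (nat_lit 2) (nat_lit 5) (nat_lit 2) (nat_lit 4) (nat_lit 496) (nat_lit 372) (nat_lit 332))))) (XT.nd (nat_lit 234) (nat_lit 0) (nat_lit 0) (XT.nd (nat_lit 78) (nat_lit 0) (nat_lit 0) (XT.lf (nat_lit 0) (nat_lit 726204458767) (nat_lit 76) (nat_lit 149485592033) (nat_lit 76) (nat_lit 148136917231) (nat_lit 1) (nat_lit 4) (nat_lit 2) (nat_lit 5) (nat_lit 2) (nat_lit 4) (nat_lit 497) (nat_lit 372) (nat_lit 331)) (XT.nd (nat_lit 78) (nat_lit 0) (nat_lit 0) (XT.lf (nat_lit 0) (nat_lit 797227091705) (nat_lit 76) (nat_lit 154770435339) (nat_lit 76) (nat_lit 153417313040) (nat_lit 1) (nat_lit 4) (nat_lit 2) (nat_lit 5) (nat_lit 2) (nat_lit 4) (nat_lit 498) (nat_lit 372) (nat_lit 330)) (XT.lf (nat_lit 0) (nat_lit 873858900644) (nat_lit 76) (nat_lit 160514935051) (nat_lit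 76) (nat_lit 159157694698) (nat_lit 1) (nat_lit 4) (nat_lit 2) (nat_lit 5) (nat_lit 2) (nat_lit 4) (nat_lit 499) (nat_lit 372) (nat_lit 329)))) (XT.nd (nat_lit 156) (nat_lit 0) (nat_lit 0) (XT.nd (nat_lit 78) (nat_lit 0) (nat_lit 0) (XT.lf (nat_lit 0) (nat_lit 956554000007) (nat_lit 76) (nat_lit 166753132648) (nat_lit 76) (nat_lit 165392079284) (nat_lit 1) (nat_lit 4) (nat_lit 2) (nat_lit 5) (nat_lit 2) (nat_lit 4) (nat_lit 500) (nat_lit 372) (nat_lit 328)) (XT.lf (nat_lit 0) (nat_lit 1045802434827) (nat_lit 76) (nat_lit 173521995228) (nat_lit 76) (nat_lit 172157411296) (nat_lit 1) (nat_lit 4) (nat_lit 2) (nat_lit 5) (nat_lit 2) (nat_lit 4) (nat_lit 501) (nat_lit 372) (nat_lit 327))) (XT.nd (nat_lit 58734) (nat_lit 0) (nat_lit 684) (XT.lf (nat_lit 0) (nat_lit 1142133084718) (nat_lit 76) (nat_lit 180861634568) (nat_lit 76) (nat_lit 179493781593) (nat_lit 1) (nat_lit 4) (nat_lit 2) (nat_lit 5)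 (nat_lit 2) (nat_lit 4) (nat_lit 502) (nat_lit 372) (nat_lit 326)) (XT.lf (nat_lit 0) (nat_lit 614370541) (nat_lit 76) (nat_lit 10721108511) (nat_lit 76) (nat_lit 10721108511) (nat_lit 10) (nat_lit 4) (nat_lit 11) (nat_lit 5) (nat_lit 11) (nat_lit 4) (nat_lit 454) (nat_lit 373) (nat_lit 373)))))) (XT.nd (nat_lit 546) (nat_lit 76) (nat_lit 0) (XT.nd (nat_lit 234) (nat_lit 228) (nat_lit 0) (XT.nd (nat_lit 78) (nat_lit 152) (nat_lit 0) (XT.lf (nat_lit 0) (nat_lit 29445280908) (nat_lit 76) (nat_lit 8815710931) (nat_lit 76) (nat_lit 8685249740) (nat_lit 10) (nat_lit 4) (nat_lit 11) (nat_lit 5) (nat_lit 11) (nat_lit 4) (nat_lit 455) (nat_lit 373) (nat_lit 372)) (XT.nd (nat_lit 78) (nat_lit 0) (nat_lit 0) (XT.lf (nat_lit 0) (nat_lit 4443525643) (nat_lit 152) (nat_lit 41378514751) (nat_lit 0) (nat_lit 4204231748) (nat_lit 8) (nat_lit 5) (nat_lit 10) (nat_lit 4) (nat_lit 8) (nat_lit 4) (nat_lit 456)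 (nat_lit 373) (nat_lit 371)) (XT.lf (nat_lit 0) (nat_lit 18110936157) (nat_lit 152) (nat_lit 17479905220) (nat_lit 0) (nat_lit 17765118984) (nat_lit 8) (nat_lit 5) (nat_lit 10) (nat_lit 4) (nat_lit 8) (nat_lit 4) (nat_lit 457) (nat_lit 373) (nat_lit 370)))) (XT.nd (nat_lit 156) (nat_lit 152) (nat_lit 0) (XT.nd (nat_lit 78) (nat_lit 0) (nat_lit 0) (XT.lf (nat_lit 0) (nat_lit 7309282416) (nat_lit 76) (nat_lit 25056253114) (nat_lit 76) (nat_lit 24611803275) (nat_lit 7) (nat_lit 4) (nat_lit 8) (nat_lit 5) (nat_lit 8) (nat_lit 4) (nat_lit 458) (nat_lit 373) (nat_lit 369)) (XT.lf (nat_lit 0) (nat_lit 33505105282) (nat_lit 76) (nat_lit 13966767368) (nat_lit 76) (nat_lit 13430990986) (nat_lit 7) (nat_lit 4) (nat_lit 8) (nat_lit 5) (nat_lit 8) (nat_lit 4) (nat_lit 459) (nat_lit 373) (nat_lit 368))) (XT.nd (nat_lit 78) (nat_lit 152) (nat_lit 0) (XT.lf (nat_lit 0) (nat_lit 60684833273) (nat_lit 76) (nat_lit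 2552699321) (nat_lit 76) (nat_lit 1932361326) (nat_lit 7) (nat_lit 4) (nat_lit 8) (nat_lit 5) (nat_lit 8) (nat_lit 4) (nat_lit 460) (nat_lit 373) (nat_lit 367)) (XT.lf (nat_lit 0) (nat_lit 10093016267) (nat_lit 152) (nat_lit 50252315341) (nat_lit 0) (nat_lit 9427648852) (nat_lit 5) (nat_lit 5) (nat_lit 7) (nat_lit 4) (nat_lit 5) (nat_lit 4) (nat_lit 461) (nat_lit 373) (nat_lit 366))))) (XT.nd (nat_lit 234) (nat_lit 0) (nat_lit 0) (XT.nd (nat_lit 78) (nat_lit 76) (nat_lit 0) (XT.lf (nat_lit 0) (nat_lit 22633978532) (nat_lit 152) (nat_lit 30228126771) (nat_lit 0) (nat_lit 21899565447) (nat_lit 5) (nat_lit 5) (nat_lit 7) (nat_lit 4) (nat_lit 5) (nat_lit 4) (nat_lit 462) (nat_lit 373) (nat_lit 365)) (XT.nd (nat_lit 78) (nat_lit 76) (nat_lit 0) (XT.lf (nat_lit 0) (nat_lit 35713309538) (nat_lit 152) (nat_lit 9544430080) (nat_lit 0) (nat_lit 34914965277) (nat_lit 5) (nat_lit 5) (nat_lit 7) (nat_lit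 4) (nat_lit 5) (nat_lit 4) (nat_lit 463) (nat_lit 373) (nat_lit 364)) (XT.lf (nat_lit 0) (nat_lit 12315518281) (nat_lit 76) (nat_lit 37285277904) (nat_lit 76) (nat_lit 36427738109) (nat_lit 4) (nat_lit 4) (nat_lit 5) (nat_lit 5) (nat_lit 5) (nat_lit 4) (nat_lit 464) (nat_lit 373) (nat_lit 363)))) (XT.nd (nat_lit 156) (nat_lit 0) (nat_lit 0) (XT.nd (nat_lit 78) (nat_lit 0) (nat_lit 0) (XT.lf (nat_lit 0) (nat_lit 35430396367) (nat_lit 76) (nat_lit 28923527407) (nat_lit 76) (nat_lit 28011176933) (nat_lit 4) (nat_lit 4) (nat_lit 5) (nat_lit 5) (nat_lit 5) (nat_lit 4) (nat_lit 465) (nat_lit 373) (nat_lit 362)) (XT.lf (nat_lit 0) (nat_lit 59621599269) (nat_lit 76) (nat_lit 20284576555) (nat_lit 76) (nat_lit 19321475452) (nat_lit 4) (nat_lit 4) (nat_lit 5) (nat_lit 5) (nat_lit 5) (nat_lit 4) (nat_lit 466) (nat_lit 373) (nat_lit 361))) (XT.nd (nat_lit 78) (nat_lit 0) (nat_lit 0) (XT.lf (nat_lit 0)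 (nat_lit 85032482265) (nat_lit 76) (nat_lit 11317231565) (nat_lit 76) (nat_lit 10307139140) (nat_lit 4) (nat_lit 4) (nat_lit 5) (nat_lit 5) (nat_lit 5) (nat_lit 4) (nat_lit 467) (nat_lit 373) (nat_lit 360)) (XT.lf (nat_lit 0) (nat_lit 111813628363) (nat_lit 76) (nat_lit 1968352616) (nat_lit 76) (nat_lit 914749706) (nat_lit 4) (nat_lit 4) (nat_lit 5) (nat_lit 5) (nat_lit 5) (nat_lit 4) (nat_lit 468) (nat_lit 373) (nat_lit 359))))))) (XT.nd (nat_lit 1092) (nat_lit 0) (nat_lit 0) (XT.nd (nat_lit 546) (nat_lit 76) (nat_lit 0) (XT.nd (nat_lit 234) (nat_lit 0) (nat_lit 0) (XT.nd (nat_lit 78) (nat_lit 0) (nat_lit 0) (XT.lf (nat_lit 0) (nat_lit 9022427857) (nat_lit 152) (nat_lit 106365101480) (nat_lit 0) (nat_lit 7980627480) (nat_lit 2) (nat_lit 5) (nat_lit 4) (nat_lit 4) (nat_lit 2) (nat_lit 4) (nat_lit 469) (nat_lit 373) (nat_lit 358)) (XT.nd (nat_lit 78) (nat_lit 0) (nat_lit 0) (XT.lf (nat_lit 0)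 (nat_lit 19508423777) (nat_lit 152) (nat_lit 94803734116) (nat_lit 0) (nat_lit 18431096517) (nat_lit 2) (nat_lit 5) (nat_lit 4) (nat_lit 4) (nat_lit 2) (nat_lit 4) (nat_lit 470) (nat_lit 373) (nat_lit 357)) (XT.lf (nat_lit 0) (nat_lit 30556659517) (nat_lit 152) (nat_lit 82879096947) (nat_lit 0) (nat_lit 29446436995) (nat_lit 2) (nat_lit 5) (nat_lit 4) (nat_lit 4) (nat_lit 2) (nat_lit 4) (nat_lit 471) (nat_lit 373) (nat_lit 356)))) (XT.nd (nat_lit 156) (nat_lit 0) (nat_lit 0) (XT.nd (nat_lit 78) (nat_lit 0) (nat_lit 0) (XT.lf (nat_lit 0) (nat_lit 42232606104) (nat_lit 152) (nat_lit 70520525456) (nat_lit 0) (nat_lit 41091925006) (nat_lit 2) (nat_lit 5) (nat_lit 4) (nat_lit 4) (nat_lit 2) (nat_lit 4) (nat_lit 472) (nat_lit 373) (nat_lit 355)) (XT.lf (nat_lit 0) (nat_lit 54605454334) (nat_lit 152) (nat_lit 57654783664) (nat_lit 0) (nat_lit 53436570850) (nat_lit 2) (nat_lit 5) (nat_lit 4) (nat_lit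 4) (nat_lit 2) (nat_lit 4) (nat_lit 473) (nat_lit 373) (nat_lit 354))) (XT.nd (nat_lit 78) (nat_lit 0) (nat_lit 0) (XT.lf (nat_lit 0) (nat_lit 67748524787) (nat_lit 152) (nat_lit 44205630138) (nat_lit 0) (nat_lit 66553527984) (nat_lit 2) (nat_lit 5) (nat_lit 4) (nat_lit 4) (nat_lit 2) (nat_lit 4) (nat_lit 474) (nat_lit 373) (nat_lit 353)) (XT.lf (nat_lit 0) (nat_lit 81739702327) (nat_lit 152) (nat_lit 30093366190) (nat_lit 0) (nat_lit 80520526524) (nat_lit 2) (nat_lit 5) (nat_lit 4) (nat_lit 4) (nat_lit 2) (nat_lit 4) (nat_lit 475) (nat_lit 373) (nat_lit 352))))) (XT.nd (nat_lit 234) (nat_lit 0) (nat_lit 0) (XT.nd (nat_lit 78) (nat_lit 76) (nat_lit 0) (XT.lf (nat_lit 0) (nat_lit 96661897634) (nat_lit 152) (nat_lit 15234363590) (nat_lit 0) (nat_lit 95420333869) (nat_lit 2) (nat_lit 5) (nat_lit 4) (nat_lit 4) (nat_lit 2) (nat_lit 4) (nat_lit 476) (nat_lit 373) (nat_lit 351)) (XT.nd (nat_lit 78)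 (nat_lit 0) (nat_lit 0) (XT.lf (nat_lit 0) (nat_lit 474621875) (nat_lit 76) (nat_lit 112136326835) (nat_lit 76) (nat_lit 110874033475) (nat_lit 1) (nat_lit 4) (nat_lit 2) (nat_lit 5) (nat_lit 2) (nat_lit 4) (nat_lit 477) (nat_lit 373) (nat_lit 350)) (XT.lf (nat_lit 0) (nat_lit 17645793469) (nat_lit 76) (nat_lit 112288800826) (nat_lit 76) (nat_lit 111007313396) (nat_lit 1) (nat_lit 4) (nat_lit 2) (nat_lit 5) (nat_lit 2) (nat_lit 4) (nat_lit 478) (nat_lit 373) (nat_lit 349)))) (XT.nd (nat_lit 156) (nat_lit 0) (nat_lit 0) (XT.nd (nat_lit 78) (nat_lit 0) (nat_lit 0) (XT.lf (nat_lit 0) (nat_lit 35877189422) (nat_lit 76) (nat_lit 112612588065) (nat_lit 76) (nat_lit 111313328348) (nat_lit 1) (nat_lit 4) (nat_lit 2) (nat_lit 5) (nat_lit 2) (nat_lit 4) (nat_lit 479) (nat_lit 373) (nat_lit 348)) (XT.lf (nat_lit 0) (nat_lit 55276847636) (nat_lit 76) (nat_lit 113109607291) (nat_lit 76) (nat_lit 111793891753)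 (nat_lit 1) (nat_lit 4) (nat_lit 2) (nat_lit 5) (nat_lit 2) (nat_lit 4) (nat_lit 480) (nat_lit 373) (nat_lit 347))) (XT.nd (nat_lit 78) (nat_lit 0) (nat_lit 0) (XT.lf (nat_lit 0) (nat_lit 75959729047) (nat_lit 76) (nat_lit 113782803803) (nat_lit 76) (nat_lit 112451851394) (nat_lit 1) (nat_lit 4) (nat_lit 2) (nat_lit 5) (nat_lit 2) (nat_lit 4) (nat_lit 481) (nat_lit 373) (nat_lit 346)) (XT.lf (nat_lit 0) (nat_lit 98048398881) (nat_lit 76) (nat_lit 114636166914) (nat_lit 76) (nat_lit 113291106291) (nat_lit 1) (nat_lit 4) (nat_lit 2) (nat_lit 5) (nat_lit 2) (nat_lit 4) (nat_lit 482) (nat_lit 373) (nat_lit 345)))))) (XT.nd (nat_lit 546) (nat_lit 0) (nat_lit 0) (XT.nd (nat_lit 234) (nat_lit 0) (nat_lit 0) (XT.nd (nat_lit 78) (nat_lit 0) (nat_lit 0) (XT.lf (nat_lit 0) (nat_lit 121673752957) (nat_lit 76) (nat_lit 115674753591) (nat_lit 76) (nat_lit 114316629807) (nat_lit 1) (nat_lit 4) (nat_lit 2)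 (nat_lit 5) (nat_lit 2) (nat_lit 4) (nat_lit 483) (nat_lit 373) (nat_lit 344)) (XT.nd (nat_lit 78) (nat_lit 0) (nat_lit 0) (XT.lf (nat_lit 0) (nat_lit 146975793373) (nat_lit 76) (nat_lit 116904718421) (nat_lit 76) (nat_lit 115534499117) (nat_lit 1) (nat_lit 4) (nat_lit 2) (nat_lit 5) (nat_lit 2) (nat_lit 4) (nat_lit 484) (nat_lit 373) (nat_lit 343)) (XT.lf (nat_lit 0) (nat_lit 174104458148) (nat_lit 76) (nat_lit 118333350085) (nat_lit 76) (nat_lit 116951931226) (nat_lit 1) (nat_lit 4) (nat_lit 2) (nat_lit 5) (nat_lit 2) (nat_lit 4) (nat_lit 485) (nat_lit 373) (nat_lit 342)))) (XT.nd (nat_lit 156) (nat_lit 0) (nat_lit 0) (XT.nd (nat_lit 78) (nat_lit 0) (nat_lit 0) (XT.lf (nat_lit 0) (nat_lit 203220509740) (nat_lit 76) (nat_lit 119969114548) (nat_lit 76) (nat_lit 118577325731) (nat_lit 1) (nat_lit 4) (nat_lit 2) (nat_lit 5) (nat_lit 2) (nat_lit 4) (nat_lit 486) (nat_lit 373) (nat_lit 341)) (XT.lf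 (nat_lit 0) (nat_lit 234496487712) (nat_lit 76) (nat_lit 121821705230) (nat_lit 76) (nat_lit 120420314599) (nat_lit 1) (nat_lit 4) (nat_lit 2) (nat_lit 5) (nat_lit 2) (nat_lit 4) (nat_lit 487) (nat_lit 373) (nat_lit 340))) (XT.nd (nat_lit 78) (nat_lit 0) (nat_lit 0) (XT.lf (nat_lit 0) (nat_lit 268117731194) (nat_lit 76) (nat_lit 123902100444) (nat_lit 76) (nat_lit 122491819245) (nat_lit 1) (nat_lit 4) (nat_lit 2) (nat_lit 5) (nat_lit 2) (nat_lit 4) (nat_lit 488) (nat_lit 373) (nat_lit 339)) (XT.lf (nat_lit 0) (nat_lit 304283477184) (nat_lit 76) (nat_lit 126222628460) (nat_lit 76) (nat_lit 124804115254) (nat_lit 1) (nat_lit 4) (nat_lit 2) (nat_lit 5) (nat_lit 2) (nat_lit 4) (nat_lit 489) (nat_lit 373) (nat_lit 338))))) (XT.nd (nat_lit 234) (nat_lit 0) (nat_lit 0) (XT.nd (nat_lit 78) (nat_lit 0) (nat_lit 0) (XT.lf (nat_lit 0) (nat_lit 343208041214) (nat_lit 76) (nat_lit 128797040555) (nat_lit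 76) (nat_lit 127370905119) (nat_lit 1) (nat_lit 4) (nat_lit 2) (nat_lit 5) (nat_lit 2) (nat_lit 4) (nat_lit 490) (nat_lit 373) (nat_lit 337)) (XT.nd (nat_lit 78) (nat_lit 0) (nat_lit 0) (XT.lf (nat_lit 0) (nat_lit 385122087368) (nat_lit 76) (nat_lit 131640592503) (nat_lit 76) (nat_lit 130207399448) (nat_lit 1) (nat_lit 4) (nat_lit 2) (nat_lit 5) (nat_lit 2) (nat_lit 4) (nat_lit 491) (nat_lit 373) (nat_lit 336)) (XT.lf (nat_lit 0) (nat_lit 430273995177) (nat_lit 76) (nat_lit 134770134983) (nat_lit 76) (nat_lit 133330407095) (nat_lit 1) (nat_lit 4) (nat_lit 2) (nat_lit 5) (nat_lit 2) (nat_lit 4) (nat_lit 492) (nat_lit 373) (nat_lit 335)))) (XT.nd (nat_lit 156) (nat_lit 0) (nat_lit 0) (XT.nd (nat_lit 78) (nat_lit 0) (nat_lit 0) (XT.lf (nat_lit 0) (nat_lit 478931331504) (nat_lit 76) (nat_lit 138204213433) (nat_lit 76) (nat_lit 136758434773) (nat_lit 1) (nat_lit 4) (nat_lit 2) (nat_lit 5) (nat_lit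 2) (nat_lit 4) (nat_lit 493) (nat_lit 373) (nat_lit 334)) (XT.lf (nat_lit 0) (nat_lit 531382436118) (nat_lit 76) (nat_lit 141963177945) (nat_lit 76) (nat_lit 140511796720) (nat_lit 1) (nat_lit 4) (nat_lit 2) (nat_lit 5) (nat_lit 2) (nat_lit 4) (nat_lit 494) (nat_lit 373) (nat_lit 333))) (XT.nd (nat_lit 78) (nat_lit 0) (nat_lit 0) (XT.lf (nat_lit 0) (nat_lit 587938130381) (nat_lit 76) (nat_lit 146069303867) (nat_lit 76) (nat_lit 144612735081) (nat_lit 1) (nat_lit 4) (nat_lit 2) (nat_lit 5) (nat_lit 2) (nat_lit 4) (nat_lit 495) (nat_lit 373) (nat_lit 332)) (XT.lf (nat_lit 0) (nat_lit 648933559147) (nat_lit 76) (nat_lit 150546923795) (nat_lit 76) (nat_lit 149085551712) (nat_lit 1) (nat_lit 4) (nat_lit 2) (nat_lit 5) (nat_lit 2) (nat_lit 4) (nat_lit 496) (nat_lit 373) (nat_lit 331))))))))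
noncomputable def xc11 : XT := (XT.nd (nat_lit 60684) (nat_lit 0) (nat_lit 0) (XT.nd (nat_lit 59592) (nat_lit 0) (nat_lit 76) (XT.nd (nat_lit 59046) (nat_lit 0) (nat_lit 456) (XT.nd (nat_lit 234) (nat_lit 0) (nat_lit 0) (XT.nd (nat_lit 78) (nat_lit 0) (nat_lit 0) (XT.lf (nat_lit 0) (nat_lit 714730176809) (nat_lit 76) (nat_lit 155422571774) (nat_lit 76) (nat_lit 153956752193) (nat_lit 1) (nat_lit 4) (nat_lit 2) (nat_lit 5) (nat_lit 2) (nat_lit 4) (nat_lit 497) (nat_lit 373) (nat_lit 330)) (XT.nd (nat_lit 78) (nat_lit 0) (nat_lit 0) (XT.lf (nat_lit 0) (nat_lit 785717889250) (nat_lit 76) (nat_lit 160725140533) (nat_lit 76) (nat_lit 159255202899) (nat_lit 1) (nat_lit 4) (nat_lit 2) (nat_lit 5) (nat_lit 2) (nat_lit 4) (nat_lit 498) (nat_lit 373) (nat_lit 329)) (XT.lf (nat_lit 0) (nat_lit 862317364395) (nat_lit 76) (nat_lit 166486052701) (nat_lit 76) (nat_lit 165012302054) (nat_lit 1) (nat_lit 4)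 (nat_lit 2) (nat_lit 5) (nat_lit 2) (nat_lit 4) (nat_lit 499) (nat_lit 373) (nat_lit 328)))) (XT.nd (nat_lit 156) (nat_lit 0) (nat_lit 0) (XT.nd (nat_lit 78) (nat_lit 0) (nat_lit 0) (XT.lf (nat_lit 0) (nat_lit 944982525060) (nat_lit 76) (nat_lit 172739447016) (nat_lit 76) (nat_lit 171262165803) (nat_lit 1) (nat_lit 4) (nat_lit 2) (nat_lit 5) (nat_lit 2) (nat_lit 4) (nat_lit 500) (nat_lit 373) (nat_lit 327)) (XT.lf (nat_lit 0) (nat_lit 1034203238863) (nat_lit 76) (nat_lit 179522380632) (nat_lit 76) (nat_lit 178041830375) (nat_lit 1) (nat_lit 4) (nat_lit 2) (nat_lit 5) (nat_lit 2) (nat_lit 4) (nat_lit 501) (nat_lit 373) (nat_lit 326))) (XT.nd (nat_lit 58578) (nat_lit 0) (nat_lit 912) (XT.lf (nat_lit 0) (nat_lit 1130508221146) (nat_lit 76) (nat_lit 186875048709) (nat_lit 76) (nat_lit 185391471560) (nat_lit 1) (nat_lit 4) (nat_lit 2) (nat_lit 5) (nat_lit 2) (nat_lit 4) (nat_lit 502) (nat_lit 373)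 (nat_lit 325)) (XT.lf (nat_lit 0) (nat_lit 13806637732) (nat_lit 76) (nat_lit 2867868060) (nat_lit 76) (nat_lit 2867868060) (nat_lit 13) (nat_lit 4) (nat_lit 14) (nat_lit 5) (nat_lit 14) (nat_lit 4) (nat_lit 452) (nat_lit 374) (nat_lit 374))))) (XT.nd (nat_lit 234) (nat_lit 228) (nat_lit 0) (XT.nd (nat_lit 78) (nat_lit 76) (nat_lit 0) (XT.lf (nat_lit 0) (nat_lit 8108195004) (nat_lit 152) (nat_lit 25427901851) (nat_lit 0) (nat_lit 7967296919) (nat_lit 11) (nat_lit 5) (nat_lit 13) (nat_lit 4) (nat_lit 11) (nat_lit 4) (nat_lit 453) (nat_lit 374) (nat_lit 373)) (XT.nd (nat_lit 78) (nat_lit 0) (nat_lit 0) (XT.lf (nat_lit 0) (nat_lit 516886892) (nat_lit 76) (nat_lit 21942633725) (nat_lit 76) (nat_lit 21671274449) (nat_lit 10) (nat_lit 4) (nat_lit 11) (nat_lit 5) (nat_lit 11) (nat_lit 4) (nat_lit 454) (nat_lit 374) (nat_lit 372)) (XT.lf (nat_lit 0) (nat_lit 28074302466) (nat_lit 76) (nat_lit 9649015242)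 (nat_lit 76) (nat_lit 9256858567) (nat_lit 10) (nat_lit 4) (nat_lit 11) (nat_lit 5) (nat_lit 11) (nat_lit 4) (nat_lit 455) (nat_lit 374) (nat_lit 371)))) (XT.nd (nat_lit 156) (nat_lit 76) (nat_lit 0) (XT.nd (nat_lit 78) (nat_lit 0) (nat_lit 0) (XT.lf (nat_lit 0) (nat_lit 3532079831) (nat_lit 152) (nat_lit 43494408404) (nat_lit 0) (nat_lit 3052074005) (nat_lit 8) (nat_lit 5) (nat_lit 10) (nat_lit 4) (nat_lit 8) (nat_lit 4) (nat_lit 456) (nat_lit 374) (nat_lit 370)) (XT.lf (nat_lit 0) (nat_lit 16901258439) (nat_lit 152) (nat_lit 20199286056) (nat_lit 0) (nat_lit 16322619947) (nat_lit 8) (nat_lit 5) (nat_lit 10) (nat_lit 4) (nat_lit 8) (nat_lit 4) (nat_lit 457) (nat_lit 374) (nat_lit 369))) (XT.nd (nat_lit 78) (nat_lit 0) (nat_lit 0) (XT.lf (nat_lit 0) (nat_lit 3922726204) (nat_lit 76) (nat_lit 26904117322) (nat_lit 76) (nat_lit 26234152288) (nat_lit 7) (nat_lit 4) (nat_lit 8) (nat_lit 5) (nat_lit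 8) (nat_lit 4) (nat_lit 458) (nat_lit 374) (nat_lit 368)) (XT.lf (nat_lit 0) (nat_lit 29584048731) (nat_lit 76) (nat_lit 16085101075) (nat_lit 76) (nat_lit 15330574427) (nat_lit 7) (nat_lit 4) (nat_lit 8) (nat_lit 5) (nat_lit 8) (nat_lit 4) (nat_lit 459) (nat_lit 374) (nat_lit 367)))))) (XT.nd (nat_lit 546) (nat_lit 152) (nat_lit 0) (XT.nd (nat_lit 234) (nat_lit 76) (nat_lit 0) (XT.nd (nat_lit 78) (nat_lit 152) (nat_lit 0) (XT.lf (nat_lit 0) (nat_lit 56268869002) (nat_lit 76) (nat_lit 4921467750) (nat_lit 76) (nat_lit 4088643312) (nat_lit 7) (nat_lit 4) (nat_lit 8) (nat_lit 5) (nat_lit 8) (nat_lit 4) (nat_lit 460) (nat_lit 374) (nat_lit 366)) (XT.nd (nat_lit 78) (nat_lit 0) (nat_lit 0) (XT.lf (nat_lit 0) (nat_lit 7653189839) (nat_lit 152) (nat_lit 55457211627) (nat_lit 0) (nat_lit 6790978037) (nat_lit 5) (nat_lit 5) (nat_lit 7) (nat_lit 4) (nat_lit 5) (nat_lit 4) (nat_lit 461) (nat_lit 374)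 (nat_lit 365)) (XT.lf (nat_lit 0) (nat_lit 19970638527) (nat_lit 152) (nat_lit 35886112944) (nat_lit 0) (nat_lit 19044495549) (nat_lit 5) (nat_lit 5) (nat_lit 7) (nat_lit 4) (nat_lit 5) (nat_lit 4) (nat_lit 462) (nat_lit 374) (nat_lit 364)))) (XT.nd (nat_lit 156) (nat_lit 0) (nat_lit 0) (XT.nd (nat_lit 78) (nat_lit 76) (nat_lit 0) (XT.lf (nat_lit 0) (nat_lit 32843012517) (nat_lit 152) (nat_lit 15621943926) (nat_lit 0) (nat_lit 31857674005) (nat_lit 5) (nat_lit 5) (nat_lit 7) (nat_lit 4) (nat_lit 5) (nat_lit 4) (nat_lit 463) (nat_lit 374) (nat_lit 363)) (XT.lf (nat_lit 0) (nat_lit 5635758868) (nat_lit 76) (nat_lit 40798823665) (nat_lit 76) (nat_lit 39758674474) (nat_lit 4) (nat_lit 4) (nat_lit 5) (nat_lit 5) (nat_lit 5) (nat_lit 4) (nat_lit 464) (nat_lit 374) (nat_lit 362))) (XT.nd (nat_lit 78) (nat_lit 0) (nat_lit 0) (XT.lf (nat_lit 0) (nat_lit 28379067036) (nat_lit 76) (nat_lit 32625409555)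 (nat_lit 76) (nat_lit 31534509735) (nat_lit 4) (nat_lit 4) (nat_lit 5) (nat_lit 5) (nat_lit 5) (nat_lit 4) (nat_lit 465) (nat_lit 374) (nat_lit 361)) (XT.lf (nat_lit 0) (nat_lit 52226223717) (nat_lit 76) (nat_lit 24160844247) (nat_lit 76) (nat_lit 23022953104) (nat_lit 4) (nat_lit 4) (nat_lit 5) (nat_lit 5) (nat_lit 5) (nat_lit 4) (nat_lit 466) (nat_lit 374) (nat_lit 360))))) (XT.nd (nat_lit 234) (nat_lit 0) (nat_lit 0) (XT.nd (nat_lit 78) (nat_lit 152) (nat_lit 0) (XT.lf (nat_lit 0) (nat_lit 77318545397) (nat_lit 76) (nat_lit 15354967353) (nat_lit 76) (nat_lit 14173565726) (nat_lit 4) (nat_lit 4) (nat_lit 5) (nat_lit 5) (nat_lit 5) (nat_lit 4) (nat_lit 467) (nat_lit 374) (nat_lit 359)) (XT.nd (nat_lit 78) (nat_lit 152) (nat_lit 0) (XT.lf (nat_lit 0) (nat_lit 103804727314) (nat_lit 76) (nat_lit 6155595900) (nat_lit 76) (nat_lit 4933906787) (nat_lit 4) (nat_lit 4) (nat_lit 5) (nat_lit 5) (nat_lit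 5) (nat_lit 4) (nat_lit 468) (nat_lit 374) (nat_lit 358)) (XT.lf (nat_lit 0) (nat_lit 4788363223) (nat_lit 152) (nat_lit 115208285670) (nat_lit 0) (nat_lit 3589322899) (nat_lit 2) (nat_lit 5) (nat_lit 4) (nat_lit 4) (nat_lit 2) (nat_lit 4) (nat_lit 469) (nat_lit 374) (nat_lit 357)))) (XT.nd (nat_lit 156) (nat_lit 0) (nat_lit 0) (XT.nd (nat_lit 78) (nat_lit 0) (nat_lit 0) (XT.lf (nat_lit 0) (nat_lit 15141359213) (nat_lit 152) (nat_lit 103916937337) (nat_lit 0) (nat_lit 13909423627) (nat_lit 2) (nat_lit 5) (nat_lit 4) (nat_lit 4) (nat_lit 2) (nat_lit 4) (nat_lit 470) (nat_lit 374) (nat_lit 356)) (XT.lf (nat_lit 0) (nat_lit 26066446871) (nat_lit 152) (nat_lit 92242317789) (nat_lit 0) (nat_lit 24804052709) (nat_lit 2) (nat_lit 5) (nat_lit 4) (nat_lit 4) (nat_lit 2) (nat_lit 4) (nat_lit 471) (nat_lit 374) (nat_lit 355))) (XT.nd (nat_lit 78) (nat_lit 0) (nat_lit 0) (XT.lf (nat_lit 0) (nat_lit 37628367456)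 (nat_lit 152) (nat_lit 80115244095) (nat_lit 0) (nat_lit 36337770909) (nat_lit 2) (nat_lit 5) (nat_lit 4) (nat_lit 4) (nat_lit 2) (nat_lit 4) (nat_lit 472) (nat_lit 374) (nat_lit 354)) (XT.lf (nat_lit 0) (nat_lit 49895636054) (nat_lit 152) (nat_lit 67463852115) (nat_lit 0) (nat_lit 48578926187) (nat_lit 2) (nat_lit 5) (nat_lit 4) (nat_lit 4) (nat_lit 2) (nat_lit 4) (nat_lit 473) (nat_lit 374) (nat_lit 353))))))) (XT.nd (nat_lit 1092) (nat_lit 0) (nat_lit 0) (XT.nd (nat_lit 546) (nat_lit 0) (nat_lit 0) (XT.nd (nat_lit 234) (nat_lit 76) (nat_lit 0) (XT.nd (nat_lit 78) (nat_lit 0) (nat_lit 0) (XT.lf (nat_lit 0) (nat_lit 62940947589) (nat_lit 152) (nat_lit 54213170637) (nat_lit 0) (nat_lit 61600058722) (nat_lit 2) (nat_lit 5) (nat_lit 4) (nat_lit 4) (nat_lit 2) (nat_lit 4) (nat_lit 474) (nat_lit 374) (nat_lit 352)) (XT.nd (nat_lit 78) (nat_lit 0) (nat_lit 0) (XT.lf (nat_lit 0) (nat_lit 76841607611)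 (nat_lit 152) (nat_lit 40284677105) (nat_lit 0) (nat_lit 75478330782) (nat_lit 2) (nat_lit 5) (nat_lit 4) (nat_lit 4) (nat_lit 2) (nat_lit 4) (nat_lit 475) (nat_lit 374) (nat_lit 351)) (XT.lf (nat_lit 0) (nat_lit 91679990403) (nat_lit 152) (nat_lit 25595832296) (nat_lit 0) (nat_lit 90295983978) (nat_lit 2) (nat_lit 5) (nat_lit 4) (nat_lit 4) (nat_lit 2) (nat_lit 4) (nat_lit 476) (nat_lit 374) (nat_lit 350)))) (XT.nd (nat_lit 156) (nat_lit 0) (nat_lit 0) (XT.nd (nat_lit 78) (nat_lit 76) (nat_lit 0) (XT.lf (nat_lit 0) (nat_lit 107544027121) (nat_lit 152) (nat_lit 10059591205) (nat_lit 0) (nat_lit 106140826627) (nat_lit 2) (nat_lit 5) (nat_lit 4) (nat_lit 4) (nat_lit 2) (nat_lit 4) (nat_lit 477) (nat_lit 374) (nat_lit 349)) (XT.lf (nat_lit 0) (nat_lit 6628258445) (nat_lit 76) (nat_lit 118002954116) (nat_lit 76) (nat_lit 116581981336) (nat_lit 1) (nat_lit 4) (nat_lit 2) (nat_lit 5) (nat_lit 2)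 (nat_lit 4) (nat_lit 478) (nat_lit 374) (nat_lit 348))) (XT.nd (nat_lit 78) (nat_lit 0) (nat_lit 0) (XT.lf (nat_lit 0) (nat_lit 24720111409) (nat_lit 76) (nat_lit 118397572609) (nat_lit 76) (nat_lit 116960144007) (nat_lit 1) (nat_lit 4) (nat_lit 2) (nat_lit 5) (nat_lit 2) (nat_lit 4) (nat_lit 479) (nat_lit 374) (nat_lit 347)) (XT.lf (nat_lit 0) (nat_lit 43990563152) (nat_lit 76) (nat_lit 118960176329) (nat_lit 76) (nat_lit 117507510856) (nat_lit 1) (nat_lit 4) (nat_lit 2) (nat_lit 5) (nat_lit 2) (nat_lit 4) (nat_lit 480) (nat_lit 374) (nat_lit 346))))) (XT.nd (nat_lit 234) (nat_lit 0) (nat_lit 0) (XT.nd (nat_lit 78) (nat_lit 0) (nat_lit 0) (XT.lf (nat_lit 0) (nat_lit 64553808943) (nat_lit 76) (nat_lit 119694099225) (nat_lit 76) (nat_lit 118227325538) (nat_lit 1) (nat_lit 4) (nat_lit 2) (nat_lit 5) (nat_lit 2) (nat_lit 4) (nat_lit 481) (nat_lit 374) (nat_lit 345)) (XT.nd (nat_lit 78) (nat_lit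 0) (nat_lit 0) (XT.lf (nat_lit 0) (nat_lit 86531705053) (nat_lit 76) (nat_lit 120603690469) (nat_lit 76) (nat_lit 119123853621) (nat_lit 1) (nat_lit 4) (nat_lit 2) (nat_lit 5) (nat_lit 2) (nat_lit 4) (nat_lit 482) (nat_lit 374) (nat_lit 344)) (XT.lf (nat_lit 0) (nat_lit 110054490867) (nat_lit 76) (nat_lit 121694340232) (nat_lit 76) (nat_lit 120202407865) (nat_lit 1) (nat_lit 4) (nat_lit 2) (nat_lit 5) (nat_lit 2) (nat_lit 4) (nat_lit 483) (nat_lit 374) (nat_lit 343)))) (XT.nd (nat_lit 156) (nat_lit 0) (nat_lit 0) (XT.nd (nat_lit 78) (nat_lit 0) (nat_lit 0) (XT.lf (nat_lit 0) (nat_lit 135261560671) (nat_lit 76) (nat_lit 122972511624) (nat_lit 76) (nat_lit 121469379701) (nat_lit 1) (nat_lit 4) (nat_lit 2) (nat_lit 5) (nat_lit 2) (nat_lit 4) (nat_lit 484) (nat_lit 374) (nat_lit 342)) (XT.lf (nat_lit 0) (nat_lit 162302289693) (nat_lit 76) (nat_lit 124445778992) (nat_lit 76) (nat_lit 122932277111)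 (nat_lit 1) (nat_lit 4) (nat_lit 2) (nat_lit 5) (nat_lit 2) (nat_lit 4) (nat_lit 485) (nat_lit 374) (nat_lit 341))) (XT.nd (nat_lit 78) (nat_lit 0) (nat_lit 0) (XT.lf (nat_lit 0) (nat_lit 191336919291) (nat_lit 76) (nat_lit 126122872812) (nat_lit 76) (nat_lit 124599769117) (nat_lit 1) (nat_lit 4) (nat_lit 2) (nat_lit 5) (nat_lit 2) (nat_lit 4) (nat_lit 486) (nat_lit 374) (nat_lit 340)) (XT.lf (nat_lit 0) (nat_lit 222537506529) (nat_lit 76) (nat_lit 128013731416) (nat_lit 76) (nat_lit 126481737153) (nat_lit 1) (nat_lit 4) (nat_lit 2) (nat_lit 5) (nat_lit 2) (nat_lit 4) (nat_lit 487) (nat_lit 374) (nat_lit 339)))))) (XT.nd (nat_lit 546) (nat_lit 0) (nat_lit 0) (XT.nd (nat_lit 234) (nat_lit 0) (nat_lit 0) (XT.nd (nat_lit 78) (nat_lit 0) (nat_lit 0) (XT.lf (nat_lit 0) (nat_lit 256088943775) (nat_lit 76) (nat_lit 130129559892) (nat_lit 76) (nat_lit 128589333622) (nat_lit 1) (nat_lit 4) (nat_lit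 2) (nat_lit 5) (nat_lit 2) (nat_lit 4) (nat_lit 488) (nat_lit 374) (nat_lit 338)) (XT.nd (nat_lit 78) (nat_lit 0) (nat_lit 0) (XT.lf (nat_lit 0) (nat_lit 292190054362) (nat_lit 76) (nat_lit 132482896484) (nat_lit 76) (nat_lit 130935047984) (nat_lit 1) (nat_lit 4) (nat_lit 2) (nat_lit 5) (nat_lit 2) (nat_lit 4) (nat_lit 489) (nat_lit 374) (nat_lit 337)) (XT.lf (nat_lit 0) (nat_lit 331054770796) (nat_lit 76) (nat_lit 135087686889) (nat_lit 76) (nat_lit 133532780770) (nat_lit 1) (nat_lit 4) (nat_lit 2) (nat_lit 5) (nat_lit 2) (nat_lit 4) (nat_lit 490) (nat_lit 374) (nat_lit 336)))) (XT.nd (nat_lit 156) (nat_lit 0) (nat_lit 0) (XT.nd (nat_lit 78) (nat_lit 0) (nat_lit 0) (XT.lf (nat_lit 0) (nat_lit 372913402509) (nat_lit 76) (nat_lit 137959366902) (nat_lit 76) (nat_lit 136397925951) (nat_lit 1) (nat_lit 4) (nat_lit 2) (nat_lit 5) (nat_lit 2) (nat_lit 4) (nat_lit 491) (nat_lit 374) (nat_lit 335))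 (XT.lf (nat_lit 0) (nat_lit 418014000651) (nat_lit 76) (nat_lit 141114953888) (nat_lit 76) (nat_lit 139547462165) (nat_lit 1) (nat_lit 4) (nat_lit 2) (nat_lit 5) (nat_lit 2) (nat_lit 4) (nat_lit 492) (nat_lit 374) (nat_lit 334))) (XT.nd (nat_lit 78) (nat_lit 0) (nat_lit 0) (XT.lf (nat_lit 0) (nat_lit 466623828027) (nat_lit 76) (nat_lit 144573147620) (nat_lit 76) (nat_lit 143000053331) (nat_lit 1) (nat_lit 4) (nat_lit 2) (nat_lit 5) (nat_lit 2) (nat_lit 4) (nat_lit 493) (nat_lit 374) (nat_lit 333)) (XT.lf (nat_lit 0) (nat_lit 519030942871) (nat_lit 76) (nat_lit 148354441098) (nat_lit 76) (nat_lit 146776159247) (nat_lit 1) (nat_lit 4) (nat_lit 2) (nat_lit 5) (nat_lit 2) (nat_lit 4) (nat_lit 494) (nat_lit 374) (nat_lit 332))))) (XT.nd (nat_lit 312) (nat_lit 0) (nat_lit 0) (XT.nd (nat_lit 156) (nat_lit 0) (nat_lit 0) (XT.nd (nat_lit 78) (nat_lit 0) (nat_lit 0) (XT.lf (nat_lit 0) (nat_lit 575545905866)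 (nat_lit 76) (nat_lit 152481241987) (nat_lit 76) (nat_lit 150898156839) (nat_lit 1) (nat_lit 4) (nat_lit 2) (nat_lit 5) (nat_lit 2) (nat_lit 4) (nat_lit 495) (nat_lit 374) (nat_lit 331)) (XT.lf (nat_lit 0) (nat_lit 636503620495) (nat_lit 76) (nat_lit 156978005404) (nat_lit 76) (nat_lit 155390472759) (nat_lit 1) (nat_lit 4) (nat_lit 2) (nat_lit 5) (nat_lit 2) (nat_lit 4) (nat_lit 496) (nat_lit 374) (nat_lit 330))) (XT.nd (nat_lit 78) (nat_lit 0) (nat_lit 0) (XT.lf (nat_lit 0) (nat_lit 702265317660) (nat_lit 76) (nat_lit 161871378835) (nat_lit 76) (nat_lit 160279728137) (nat_lit 1) (nat_lit 4) (nat_lit 2) (nat_lit 5) (nat_lit 2) (nat_lit 4) (nat_lit 497) (nat_lit 374) (nat_lit 329)) (XT.lf (nat_lit 0) (nat_lit 773220696307) (nat_lit 76) (nat_lit 167190360050) (nat_lit 76) (nat_lit 165594896340) (nat_lit 1) (nat_lit 4) (nat_lit 2) (nat_lit 5) (nat_lit 2) (nat_lit 4) (nat_lit 498) (nat_lit 374)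 (nat_lit 328)))) (XT.nd (nat_lit 156) (nat_lit 0) (nat_lit 0) (XT.nd (nat_lit 78) (nat_lit 0) (nat_lit 0) (XT.lf (nat_lit 0) (nat_lit 849790232754) (nat_lit 76) (nat_lit 172966468936) (nat_lit 76) (nat_lit 171367474659) (nat_lit 1) (nat_lit 4) (nat_lit 2) (nat_lit 5) (nat_lit 2) (nat_lit 4) (nat_lit 499) (nat_lit 374) (nat_lit 327)) (XT.lf (nat_lit 0) (nat_lit 932427672402) (nat_lit 76) (nat_lit 179233934288) (nat_lit 76) (nat_lit 177631670967) (nat_lit 1) (nat_lit 4) (nat_lit 2) (nat_lit 5) (nat_lit 2) (nat_lit 4) (nat_lit 500) (nat_lit 374) (nat_lit 326))) (XT.nd (nat_lit 78) (nat_lit 0) (nat_lit 0) (XT.lf (nat_lit 0) (nat_lit 1021622718598) (nat_lit 76) (nat_lit 186029896640) (nat_lit 76) (nat_lit 184424606428) (nat_lit 1) (nat_lit 4) (nat_lit 2) (nat_lit 5) (nat_lit 2) (nat_lit 4) (nat_lit 501) (nat_lit 374) (nat_lit 325)) (XT.lf (nat_lit 0) (nat_lit 1117903934577) (nat_lit 76) (nat_lit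 193394628362) (nat_lit 76) (nat_lit 191786535472) (nat_lit 1) (nat_lit 4) (nat_lit 2) (nat_lit 5) (nat_lit 2) (nat_lit 4) (nat_lit 502) (nat_lit 374) (nat_lit 324))))))))
noncomputable def xc12 : XT := (XT.nd (nat_lit 2184) (nat_lit 76) (nat_lit 0) (XT.nd (nat_lit 1092) (nat_lit 228) (nat_lit 0) (XT.nd (nat_lit 546) (nat_lit 228) (nat_lit 0) (XT.nd (nat_lit 234) (nat_lit 380) (nat_lit 0) (XT.nd (nat_lit 78) (nat_lit 76) (nat_lit 0) (XT.lf (nat_lit 0) (nat_lit 1754090298) (nat_lit 152) (nat_lit 13884587953) (nat_lit 0) (nat_lit 1754090298) (nat_lit 14) (nat_lit 5) (nat_lit 16) (nat_lit 4) (nat_lit 14) (nat_lit 4) (nat_lit 450) (nat_lit 375) (nat_lit 375)) (XT.nd (nat_lit 78) (nat_lit 76) (nat_lit 0) (XT.lf (nat_lit 0) (nat_lit 17898110536) (nat_lit 152) (nat_lit 1217692770) (nat_lit 0) (nat_lit 17738332107) (nat_lit 14) (nat_lit 5) (nat_lit 16) (nat_lit 4) (nat_lit 14) (nat_lit 4) (nat_lit 451)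 (nat_lit 375) (nat_lit 374)) (XT.lf (nat_lit 0) (nat_lit 26916501364) (nat_lit 76) (nat_lit 6246627207) (nat_lit 76) (nat_lit 5938905788) (nat_lit 13) (nat_lit 4) (nat_lit 14) (nat_lit 5) (nat_lit 14) (nat_lit 4) (nat_lit 452) (nat_lit 375) (nat_lit 373)))) (XT.nd (nat_lit 156) (nat_lit 228) (nat_lit 0) (XT.nd (nat_lit 78) (nat_lit 0) (nat_lit 0) (XT.lf (nat_lit 0) (nat_lit 7550624144) (nat_lit 152) (nat_lit 26861168306) (nat_lit 0) (nat_lit 7127094935) (nat_lit 11) (nat_lit 5) (nat_lit 13) (nat_lit 4) (nat_lit 11) (nat_lit 4) (nat_lit 453) (nat_lit 375) (nat_lit 372)) (XT.lf (nat_lit 0) (nat_lit 21577933838) (nat_lit 152) (nat_lit 1570951329) (nat_lit 0) (nat_lit 21033607231) (nat_lit 11) (nat_lit 5) (nat_lit 13) (nat_lit 4) (nat_lit 11) (nat_lit 4) (nat_lit 454) (nat_lit 375) (nat_lit 371))) (XT.nd (nat_lit 78) (nat_lit 152) (nat_lit 0) (XT.lf (nat_lit 0) (nat_lit 25324221266) (nat_lit 76)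 (nat_lit 11190100772) (nat_lit 76) (nat_lit 10533924722) (nat_lit 10) (nat_lit 4) (nat_lit 11) (nat_lit 5) (nat_lit 11) (nat_lit 4) (nat_lit 455) (nat_lit 375) (nat_lit 370)) (XT.lf (nat_lit 0) (nat_lit 1927395990) (nat_lit 152) (nat_lit 47034826889) (nat_lit 0) (nat_lit 1203833753) (nat_lit 8) (nat_lit 5) (nat_lit 10) (nat_lit 4) (nat_lit 8) (nat_lit 4) (nat_lit 456) (nat_lit 375) (nat_lit 369))))) (XT.nd (nat_lit 234) (nat_lit 152) (nat_lit 0) (XT.nd (nat_lit 78) (nat_lit 76) (nat_lit 0) (XT.lf (nat_lit 0) (nat_lit 15020433945) (nat_lit 152) (nat_lit 24298488970) (nat_lit 0) (nat_lit 14205545165) (nat_lit 8) (nat_lit 5) (nat_lit 10) (nat_lit 4) (nat_lit 8) (nat_lit 4) (nat_lit 457) (nat_lit 375) (nat_lit 368)) (XT.nd (nat_lit 78) (nat_lit 76) (nat_lit 0) (XT.lf (nat_lit 0) (nat_lit 28629088492) (nat_lit 152) (nat_lit 819421435) (nat_lit 0) (nat_lit 27729638099) (nat_lit 8) (nat_lit 5) (nat_lit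 10) (nat_lit 4) (nat_lit 8) (nat_lit 4) (nat_lit 458) (nat_lit 375) (nat_lit 367)) (XT.lf (nat_lit 0) (nat_lit 24319899598) (nat_lit 76) (nat_lit 18893805701) (nat_lit 76) (nat_lit 17916057517) (nat_lit 7) (nat_lit 4) (nat_lit 8) (nat_lit 5) (nat_lit 8) (nat_lit 4) (nat_lit 459) (nat_lit 375) (nat_lit 366)))) (XT.nd (nat_lit 156) (nat_lit 0) (nat_lit 0) (XT.nd (nat_lit 78) (nat_lit 152) (nat_lit 0) (XT.lf (nat_lit 0) (nat_lit 50546471979) (nat_lit 76) (nat_lit 7962056377) (nat_lit 76) (nat_lit 6911810240) (nat_lit 7) (nat_lit 4) (nat_lit 8) (nat_lit 5) (nat_lit 8) (nat_lit 4) (nat_lit 460) (nat_lit 375) (nat_lit 365)) (XT.lf (nat_lit 0) (nat_lit 4553269057) (nat_lit 152) (nat_lit 62020926582) (nat_lit 0) (nat_lit 3489103464) (nat_lit 5) (nat_lit 5) (nat_lit 7) (nat_lit 4) (nat_lit 5) (nat_lit 4) (nat_lit 461) (nat_lit 375) (nat_lit 364))) (XT.nd (nat_lit 78) (nat_lit 0) (nat_lit 0) (XT.lf (nat_lit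 0) (nat_lit 16663760729) (nat_lit 152) (nat_lit 42869355572) (nat_lit 0) (nat_lit 15540399603) (nat_lit 5) (nat_lit 5) (nat_lit 7) (nat_lit 4) (nat_lit 5) (nat_lit 4) (nat_lit 462) (nat_lit 375) (nat_lit 363)) (XT.lf (nat_lit 0) (nat_lit 29344507852) (nat_lit 152) (nat_lit 22993638104) (nat_lit 0) (nat_lit 28166336047) (nat_lit 5) (nat_lit 5) (nat_lit 7) (nat_lit 4) (nat_lit 5) (nat_lit 4) (nat_lit 463) (nat_lit 375) (nat_lit 362)))))) (XT.nd (nat_lit 546) (nat_lit 0) (nat_lit 0) (XT.nd (nat_lit 234) (nat_lit 152) (nat_lit 0) (XT.nd (nat_lit 78) (nat_lit 76) (nat_lit 0) (XT.lf (nat_lit 0) (nat_lit 42670655596) (nat_lit 152) (nat_lit 2275992148) (nat_lit 0) (nat_lit 41441733161) (nat_lit 5) (nat_lit 5) (nat_lit 7) (nat_lit 4) (nat_lit 5) (nat_lit 4) (nat_lit 464) (nat_lit 375) (nat_lit 361)) (XT.nd (nat_lit 78) (nat_lit 0) (nat_lit 0) (XT.lf (nat_lit 0) (nat_lit 20048015218) (nat_lit 76) (nat_lit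 36986164206) (nat_lit 76) (nat_lit 35710250449) (nat_lit 4) (nat_lit 4) (nat_lit 5) (nat_lit 5) (nat_lit 5) (nat_lit 4) (nat_lit 465) (nat_lit 375) (nat_lit 360)) (XT.lf (nat_lit 0) (nat_lit 43576610584) (nat_lit 76) (nat_lit 28683066994) (nat_lit 76) (nat_lit 27363642752) (nat_lit 4) (nat_lit 4) (nat_lit 5) (nat_lit 5) (nat_lit 5) (nat_lit 4) (nat_lit 466) (nat_lit 375) (nat_lit 359)))) (XT.nd (nat_lit 156) (nat_lit 152) (nat_lit 0) (XT.nd (nat_lit 78) (nat_lit 0) (nat_lit 0) (XT.lf (nat_lit 0) (nat_lit 68373968082) (nat_lit 76) (nat_lit 20026697596) (nat_lit 76) (nat_lit 18666985868) (nat_lit 4) (nat_lit 4) (nat_lit 5) (nat_lit 5) (nat_lit 5) (nat_lit 4) (nat_lit 467) (nat_lit 375) (nat_lit 358)) (XT.lf (nat_lit 0) (nat_lit 94587035017) (nat_lit 76) (nat_lit 10965759009) (nat_lit 76) (nat_lit 9568744054) (nat_lit 4) (nat_lit 4) (nat_lit 5) (nat_lit 5) (nat_lit 5) (nat_lit 4) (nat_lit 468)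 (nat_lit 375) (nat_lit 357))) (XT.nd (nat_lit 78) (nat_lit 152) (nat_lit 0) (XT.lf (nat_lit 0) (nat_lit 122371148081) (nat_lit 76) (nat_lit 1446556782) (nat_lit 76) (nat_lit 15001802) (nat_lit 4) (nat_lit 4) (nat_lit 5) (nat_lit 5) (nat_lit 5) (nat_lit 4) (nat_lit 469) (nat_lit 375) (nat_lit 356)) (XT.lf (nat_lit 0) (nat_lit 10168781473) (nat_lit 152) (nat_lit 114279233468) (nat_lit 0) (nat_lit 8774937202) (nat_lit 2) (nat_lit 5) (nat_lit 4) (nat_lit 4) (nat_lit 2) (nat_lit 4) (nat_lit 470) (nat_lit 375) (nat_lit 355))))) (XT.nd (nat_lit 234) (nat_lit 0) (nat_lit 0) (XT.nd (nat_lit 78) (nat_lit 0) (nat_lit 0) (XT.lf (nat_lit 0) (nat_lit 20979843128) (nat_lit 152) (nat_lit 102836111717) (nat_lit 0) (nat_lit 19557796472) (nat_lit 2) (nat_lit 5) (nat_lit 4) (nat_lit 4) (nat_lit 2) (nat_lit 4) (nat_lit 471) (nat_lit 375) (nat_lit 354)) (XT.nd (nat_lit 78) (nat_lit 0) (nat_lit 0) (XT.lf (nat_lit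 0) (nat_lit 32436184082) (nat_lit 152) (nat_lit 90923387835) (nat_lit 0) (nat_lit 30988024106) (nat_lit 2) (nat_lit 5) (nat_lit 4) (nat_lit 4) (nat_lit 2) (nat_lit 4) (nat_lit 472) (nat_lit 375) (nat_lit 353)) (XT.lf (nat_lit 0) (nat_lit 44605693761) (nat_lit 152) (nat_lit 78470467903) (nat_lit 0) (nat_lit 43133354785) (nat_lit 2) (nat_lit 5) (nat_lit 4) (nat_lit 4) (nat_lit 2) (nat_lit 4) (nat_lit 473) (nat_lit 375) (nat_lit 352)))) (XT.nd (nat_lit 156) (nat_lit 0) (nat_lit 0) (XT.nd (nat_lit 78) (nat_lit 0) (nat_lit 0) (XT.lf (nat_lit 0) (nat_lit 57560487779) (nat_lit 152) (nat_lit 65403556840) (nat_lit 0) (nat_lit 56065760841) (nat_lit 2) (nat_lit 5) (nat_lit 4) (nat_lit 4) (nat_lit 2) (nat_lit 4) (nat_lit 474) (nat_lit 375) (nat_lit 351)) (XT.lf (nat_lit 0) (nat_lit 71377335286) (nat_lit 152) (nat_lit 51645221099) (nat_lit 0) (nat_lit 69861878752) (nat_lit 2) (nat_lit 5) (nat_lit 4) (nat_lit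 4) (nat_lit 2) (nat_lit 4) (nat_lit 475) (nat_lit 375) (nat_lit 350))) (XT.nd (nat_lit 78) (nat_lit 0) (nat_lit 0) (XT.lf (nat_lit 0) (nat_lit 86138113896) (nat_lit 152) (nat_lit 37113929802) (nat_lit 0) (nat_lit 84603463293) (nat_lit 2) (nat_lit 5) (nat_lit 4) (nat_lit 4) (nat_lit 2) (nat_lit 4) (nat_lit 476) (nat_lit 375) (nat_lit 349)) (XT.lf (nat_lit 0) (nat_lit 101930294891) (nat_lit 152) (nat_lit 21723571591) (nat_lit 0) (nat_lit 100377872001) (nat_lit 2) (nat_lit 5) (nat_lit 4) (nat_lit 4) (nat_lit 2) (nat_lit 4) (nat_lit 477) (nat_lit 375) (nat_lit 348))))))) (XT.nd (nat_lit 1092) (nat_lit 0) (nat_lit 0) (XT.nd (nat_lit 546) (nat_lit 0) (nat_lit 0) (XT.nd (nat_lit 234) (nat_lit 0) (nat_lit 0) (XT.nd (nat_lit 78) (nat_lit 76) (nat_lit 0) (XT.lf (nat_lit 0) (nat_lit 118847461564) (nat_lit 152) (nat_lit 5382944346) (nat_lit 0) (nat_lit 117278582853) (nat_lit 2) (nat_lit 5) (nat_lit 4)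 (nat_lit 4) (nat_lit 2) (nat_lit 4) (nat_lit 478) (nat_lit 375) (nat_lit 347)) (XT.nd (nat_lit 78) (nat_lit 0) (nat_lit 0) (XT.lf (nat_lit 0) (nat_lit 12401717697) (nat_lit 76) (nat_lit 124781771665) (nat_lit 76) (nat_lit 123197656083) (nat_lit 1) (nat_lit 4) (nat_lit 2) (nat_lit 5) (nat_lit 2) (nat_lit 4) (nat_lit 479) (nat_lit 375) (nat_lit 346)) (XT.lf (nat_lit 0) (nat_lit 31552533819) (nat_lit 76) (nat_lit 125405101769) (nat_lit 76) (nat_lit 123806877973) (nat_lit 1) (nat_lit 4) (nat_lit 2) (nat_lit 5) (nat_lit 2) (nat_lit 4) (nat_lit 480) (nat_lit 375) (nat_lit 345)))) (XT.nd (nat_lit 156) (nat_lit 0) (nat_lit 0) (XT.nd (nat_lit 78) (nat_lit 0) (nat_lit 0) (XT.lf (nat_lit 0) (nat_lit 52005005887) (nat_lit 76) (nat_lit 126195252798) (nat_lit 76) (nat_lit 124583965840) (nat_lit 1) (nat_lit 4) (nat_lit 2) (nat_lit 5) (nat_lit 2) (nat_lit 4) (nat_lit 481) (nat_lit 375) (nat_lit 344)) (XT.lf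 (nat_lit 0) (nat_lit 73880333735) (nat_lit 76) (nat_lit 127156907128) (nat_lit 76) (nat_lit 125533524651) (nat_lit 1) (nat_lit 4) (nat_lit 2) (nat_lit 5) (nat_lit 2) (nat_lit 4) (nat_lit 482) (nat_lit 375) (nat_lit 343))) (XT.nd (nat_lit 78) (nat_lit 0) (nat_lit 0) (XT.lf (nat_lit 0) (nat_lit 97308148936) (nat_lit 76) (nat_lit 128295763452) (nat_lit 76) (nat_lit 126661181420) (nat_lit 1) (nat_lit 4) (nat_lit 2) (nat_lit 5) (nat_lit 2) (nat_lit 4) (nat_lit 483) (nat_lit 375) (nat_lit 342)) (XT.lf (nat_lit 0) (nat_lit 122427282987) (nat_lit 76) (nat_lit 129618570548) (nat_lit 76) (nat_lit 127973618558) (nat_lit 1) (nat_lit 4) (nat_lit 2) (nat_lit 5) (nat_lit 2) (nat_lit 4) (nat_lit 484) (nat_lit 375) (nat_lit 341))))) (XT.nd (nat_lit 234) (nat_lit 0) (nat_lit 0) (XT.nd (nat_lit 78) (nat_lit 0) (nat_lit 0) (XT.lf (nat_lit 0) (nat_lit 149386590015) (nat_lit 76) (nat_lit 131133167273) (nat_lit 76)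 (nat_lit 129478613469) (nat_lit 1) (nat_lit 4) (nat_lit 2) (nat_lit 5) (nat_lit 2) (nat_lit 4) (nat_lit 485) (nat_lit 375) (nat_lit 340)) (XT.nd (nat_lit 78) (nat_lit 0) (nat_lit 0) (XT.lf (nat_lit 0) (nat_lit 178345828879) (nat_lit 76) (nat_lit 132848529015) (nat_lit 76) (nat_lit 131185084643) (nat_lit 1) (nat_lit 4) (nat_lit 2) (nat_lit 5) (nat_lit 2) (nat_lit 4) (nat_lit 486) (nat_lit 375) (nat_lit 339)) (XT.lf (nat_lit 0) (nat_lit 209476609880) (nat_lit 76) (nat_lit 134774820881) (nat_lit 76) (nat_lit 133103144501) (nat_lit 1) (nat_lit 4) (nat_lit 2) (nat_lit 5) (nat_lit 2) (nat_lit 4) (nat_lit 487) (nat_lit 375) (nat_lit 338)))) (XT.nd (nat_lit 156) (nat_lit 0) (nat_lit 0) (XT.nd (nat_lit 78) (nat_lit 0) (nat_lit 0) (XT.lf (nat_lit 0) (nat_lit 242963411723) (nat_lit 76) (nat_lit 136923457933) (nat_lit 76) (nat_lit 135244159324) (nat_lit 1) (nat_lit 4) (nat_lit 2) (nat_lit 5) (nat_lit 2)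 (nat_lit 4) (nat_lit 488) (nat_lit 375) (nat_lit 337)) (XT.lf (nat_lit 0) (nat_lit 279004674714) (nat_lit 76) (nat_lit 139307172835) (nat_lit 76) (nat_lit 137620816607) (nat_lit 1) (nat_lit 4) (nat_lit 2) (nat_lit 5) (nat_lit 2) (nat_lit 4) (nat_lit 489) (nat_lit 375) (nat_lit 336))) (XT.nd (nat_lit 78) (nat_lit 0) (nat_lit 0) (XT.lf (nat_lit 0) (nat_lit 317813976708) (nat_lit 76) (nat_lit 141940091306) (nat_lit 76) (nat_lit 140247200245) (nat_lit 1) (nat_lit 4) (nat_lit 2) (nat_lit 5) (nat_lit 2) (nat_lit 4) (nat_lit 490) (nat_lit 375) (nat_lit 335)) (XT.lf (nat_lit 0) (nat_lit 359621298754) (nat_lit 76) (nat_lit 144837815824) (nat_lit 76) (nat_lit 143138873992) (nat_lit 1) (nat_lit 4) (nat_lit 2) (nat_lit 5) (nat_lit 2) (nat_lit 4) (nat_lit 491) (nat_lit 375) (nat_lit 334)))))) (XT.nd (nat_lit 546) (nat_lit 0) (nat_lit 0) (XT.nd (nat_lit 234) (nat_lit 0) (nat_lit 0) (XT.nd (nat_lit 78) (nat_lit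 0) (nat_lit 0) (XT.lf (nat_lit 0) (nat_lit 404674387945) (nat_lit 76) (nat_lit 148017518092) (nat_lit 76) (nat_lit 146312973694) (nat_lit 1) (nat_lit 4) (nat_lit 2) (nat_lit 5) (nat_lit 2) (nat_lit 4) (nat_lit 492) (nat_lit 375) (nat_lit 333)) (XT.nd (nat_lit 78) (nat_lit 0) (nat_lit 0) (XT.lf (nat_lit 0) (nat_lit 453240225551) (nat_lit 76) (nat_lit 151498040789) (nat_lit 76) (nat_lit 149788308830) (nat_lit 1) (nat_lit 4) (nat_lit 2) (nat_lit 5) (nat_lit 2) (nat_lit 4) (nat_lit 493) (nat_lit 375) (nat_lit 332)) (XT.lf (nat_lit 0) (nat_lit 505606609128) (nat_lit 76) (nat_lit 155300009235) (nat_lit 76) (nat_lit 153585473979) (nat_lit 1) (nat_lit 4) (nat_lit 2) (nat_lit 5) (nat_lit 2) (nat_lit 4) (nat_lit 494) (nat_lit 375) (nat_lit 331)))) (XT.nd (nat_lit 156) (nat_lit 0) (nat_lit 0) (XT.nd (nat_lit 78) (nat_lit 0) (nat_lit 0) (XT.lf (nat_lit 0) (nat_lit 562083857985) (nat_lit 76) (nat_lit 159445953613)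 (nat_lit 76) (nat_lit 157726970859) (nat_lit 1) (nat_lit 4) (nat_lit 2) (nat_lit 5) (nat_lit 2) (nat_lit 4) (nat_lit 495) (nat_lit 375) (nat_lit 330)) (XT.lf (nat_lit 0) (nat_lit 623006652117) (nat_lit 76) (nat_lit 163960442483) (nat_lit 76) (nat_lit 162237341675) (nat_lit 1) (nat_lit 4) (nat_lit 2) (nat_lit 5) (nat_lit 2) (nat_lit 4) (nat_lit 496) (nat_lit 375) (nat_lit 329))) (XT.nd (nat_lit 78) (nat_lit 0) (nat_lit 0) (XT.lf (nat_lit 0) (nat_lit 688736015488) (nat_lit 76) (nat_lit 168870228370) (nat_lit 76) (nat_lit 167143314551) (nat_lit 1) (nat_lit 4) (nat_lit 2) (nat_lit 5) (nat_lit 2) (nat_lit 4) (nat_lit 497) (nat_lit 375) (nat_lit 328)) (XT.lf (nat_lit 0) (nat_lit 759661455437) (nat_lit 76) (nat_lit 174204406303) (nat_lit 76) (nat_lit 172473961917) (nat_lit 1) (nat_lit 4) (nat_lit 2) (nat_lit 5) (nat_lit 2) (nat_lit 4) (nat_lit 498) (nat_lit 375) (nat_lit 327))))) (XT.nd (nat_lit 234)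 (nat_lit 0) (nat_lit 0) (XT.nd (nat_lit 78) (nat_lit 0) (nat_lit 0) (XT.lf (nat_lit 0) (nat_lit 836203270868) (nat_lit 76) (nat_lit 179994586225) (nat_lit 76) (nat_lit 178260872796) (nat_lit 1) (nat_lit 4) (nat_lit 2) (nat_lit 5) (nat_lit 2) (nat_lit 4) (nat_lit 499) (nat_lit 375) (nat_lit 326)) (XT.nd (nat_lit 78) (nat_lit 0) (nat_lit 0) (XT.lf (nat_lit 0) (nat_lit 918815042908) (nat_lit 76) (nat_lit 186275080314) (nat_lit 76) (nat_lit 184538339992) (nat_lit 1) (nat_lit 4) (nat_lit 2) (nat_lit 5) (nat_lit 2) (nat_lit 4) (nat_lit 500) (nat_lit 375) (nat_lit 325)) (XT.lf (nat_lit 0) (nat_lit 1007986322799) (nat_lit 76) (nat_lit 193083106311) (nat_lit 76) (nat_lit 191343563312) (nat_lit 1) (nat_lit 4) (nat_lit 2) (nat_lit 5) (nat_lit 2) (nat_lit 4) (nat_lit 501) (nat_lit 375) (nat_lit 324)))) (XT.nd (nat_lit 58344) (nat_lit 0) (nat_lit 988) (XT.nd (nat_lit 58266) (nat_lit 0) (nat_lit 1216) (XT.lf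 (nat_lit 0) (nat_lit 1104245532942) (nat_lit 76) (nat_lit 200459008075) (nat_lit 76) (nat_lit 198716870004) (nat_lit 1) (nat_lit 4) (nat_lit 2) (nat_lit 5) (nat_lit 2) (nat_lit 4) (nat_lit 502) (nat_lit 375) (nat_lit 323)) (XT.lf (nat_lit 0) (nat_lit 4024079721) (nat_lit 152) (nat_lit 7499419203) (nat_lit 0) (nat_lit 4024079721) (nat_lit 17) (nat_lit 5) (nat_lit 19) (nat_lit 4) (nat_lit 17) (nat_lit 4) (nat_lit 448) (nat_lit 376) (nat_lit 376))) (XT.nd (nat_lit 78) (nat_lit 152) (nat_lit 0) (XT.lf (nat_lit 0) (nat_lit 12356688097) (nat_lit 76) (nat_lit 10348331319) (nat_lit 76) (nat_lit 10167142580) (nat_lit 16) (nat_lit 4) (nat_lit 17) (nat_lit 5) (nat_lit 17) (nat_lit 4) (nat_lit 449) (nat_lit 376) (nat_lit 375)) (XT.lf (nat_lit 0) (nat_lit 3319175827) (nat_lit 152) (nat_lit 28497606721) (nat_lit 0) (nat_lit 2986836695) (nat_lit 14) (nat_lit 5) (nat_lit 16) (nat_lit 4) (nat_lit 14) (nat_lit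 4) (nat_lit 450) (nat_lit 376) (nat_lit 374))))))))
noncomputable def xc13 : XT := (XT.nd (nat_lit 2184) (nat_lit 76) (nat_lit 0) (XT.nd (nat_lit 1092) (nat_lit 228) (nat_lit 0) (XT.nd (nat_lit 546) (nat_lit 228) (nat_lit 0) (XT.nd (nat_lit 234) (nat_lit 228) (nat_lit 0) (XT.nd (nat_lit 78) (nat_lit 228) (nat_lit 0) (XT.lf (nat_lit 0) (nat_lit 17374322921) (nat_lit 152) (nat_lit 2620596562) (nat_lit 0) (nat_lit 16894040798) (nat_lit 14) (nat_lit 5) (nat_lit 16) (nat_lit 4) (nat_lit 14) (nat_lit 4) (nat_lit 451) (nat_lit 376) (nat_lit 373)) (XT.nd (nat_lit 78) (nat_lit 152) (nat_lit 0) (XT.lf (nat_lit 0) (nat_lit 24822050033) (nat_lit 76) (nat_lit 7474606551) (nat_lit 76) (nat_lit 6857340179) (nat_lit 13) (nat_lit 4) (nat_lit 14) (nat_lit 5) (nat_lit 14) (nat_lit 4) (nat_lit 452) (nat_lit 376) (nat_lit 372)) (XT.lf (nat_lit 0) (nat_lit 6291280214) (nat_lit 152) (nat_lit 29736194647) (nat_lit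 0) (nat_lit 5582610080) (nat_lit 11) (nat_lit 5) (nat_lit 13) (nat_lit 4) (nat_lit 11) (nat_lit 4) (nat_lit 453) (nat_lit 376) (nat_lit 371)))) (XT.nd (nat_lit 156) (nat_lit 152) (nat_lit 0) (XT.nd (nat_lit 78) (nat_lit 76) (nat_lit 0) (XT.lf (nat_lit 0) (nat_lit 20026047440) (nat_lit 152) (nat_lit 5036744484) (nat_lit 0) (nat_lit 19205527863) (nat_lit 11) (nat_lit 5) (nat_lit 13) (nat_lit 4) (nat_lit 11) (nat_lit 4) (nat_lit 454) (nat_lit 376) (nat_lit 370)) (XT.lf (nat_lit 0) (nat_lit 21178740531) (nat_lit 76) (nat_lit 13448099882) (nat_lit 76) (nat_lit 12524016005) (nat_lit 10) (nat_lit 4) (nat_lit 11) (nat_lit 5) (nat_lit 11) (nat_lit 4) (nat_lit 455) (nat_lit 376) (nat_lit 369))) (XT.nd (nat_lit 78) (nat_lit 152) (nat_lit 0) (XT.lf (nat_lit 0) (nat_lit 48582997979) (nat_lit 76) (nat_lit 1361763180) (nat_lit 76) (nat_lit 341786434) (nat_lit 10) (nat_lit 4) (nat_lit 11) (nat_lit 5) (nat_lit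 11) (nat_lit 4) (nat_lit 456) (nat_lit 376) (nat_lit 368)) (XT.lf (nat_lit 0) (nat_lit 12457317047) (nat_lit 152) (nat_lit 29801805535) (nat_lit 0) (nat_lit 11401349009) (nat_lit 8) (nat_lit 5) (nat_lit 10) (nat_lit 4) (nat_lit 8) (nat_lit 4) (nat_lit 457) (nat_lit 376) (nat_lit 367))))) (XT.nd (nat_lit 234) (nat_lit 152) (nat_lit 0) (XT.nd (nat_lit 78) (nat_lit 76) (nat_lit 0) (XT.lf (nat_lit 0) (nat_lit 25829225491) (nat_lit 152) (nat_lit 6801805583) (nat_lit 0) (nat_lit 24694959663) (nat_lit 8) (nat_lit 5) (nat_lit 10) (nat_lit 4) (nat_lit 8) (nat_lit 4) (nat_lit 458) (nat_lit 376) (nat_lit 366)) (XT.nd (nat_lit 78) (nat_lit 0) (nat_lit 0) (XT.lf (nat_lit 0) (nat_lit 17681462924) (nat_lit 76) (nat_lit 22409525420) (nat_lit 76) (nat_lit 21202761637) (nat_lit 7) (nat_lit 4) (nat_lit 8) (nat_lit 5) (nat_lit 8) (nat_lit 4) (nat_lit 459) (nat_lit 376) (nat_lit 365)) (XT.lf (nat_lit 0) (nat_lit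 43483731704) (nat_lit 76) (nat_lit 11692483505) (nat_lit 76) (nat_lit 10418591987) (nat_lit 7) (nat_lit 4) (nat_lit 8) (nat_lit 5) (nat_lit 8) (nat_lit 4) (nat_lit 460) (nat_lit 376) (nat_lit 364)))) (XT.nd (nat_lit 156) (nat_lit 0) (nat_lit 0) (XT.nd (nat_lit 78) (nat_lit 0) (nat_lit 0) (XT.lf (nat_lit 0) (nat_lit 268916382) (nat_lit 76) (nat_lit 513992500) (nat_lit 152) (nat_lit 69476388656) (nat_lit 5) (nat_lit 5) (nat_lit 6) (nat_lit 5) (nat_lit 7) (nat_lit 4) (nat_lit 461) (nat_lit 376) (nat_lit 363)) (XT.lf (nat_lit 0) (nat_lit 12693748825) (nat_lit 152) (nat_lit 51219236832) (nat_lit 0) (nat_lit 11366512595) (nat_lit 5) (nat_lit 5) (nat_lit 7) (nat_lit 4) (nat_lit 5) (nat_lit 4) (nat_lit 462) (nat_lit 376) (nat_lit 362))) (XT.nd (nat_lit 78) (nat_lit 0) (nat_lit 0) (XT.lf (nat_lit 0) (nat_lit 25197063664) (nat_lit 152) (nat_lit 31703196725) (nat_lit 0) (nat_lit 23819076806) (nat_lit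 5) (nat_lit 5) (nat_lit 7) (nat_lit 4) (nat_lit 5) (nat_lit 4) (nat_lit 463) (nat_lit 376) (nat_lit 361)) (XT.lf (nat_lit 0) (nat_lit 38358922256) (nat_lit 152) (nat_lit 11318585363) (nat_lit 0) (nat_lit 36933944075) (nat_lit 5) (nat_lit 5) (nat_lit 7) (nat_lit 4) (nat_lit 5) (nat_lit 4) (nat_lit 464) (nat_lit 376) (nat_lit 360)))))) (XT.nd (nat_lit 546) (nat_lit 0) (nat_lit 0) (XT.nd (nat_lit 234) (nat_lit 152) (nat_lit 0) (XT.nd (nat_lit 78) (nat_lit 0) (nat_lit 0) (XT.lf (nat_lit 0) (nat_lit 10387871719) (nat_lit 76) (nat_lit 42031632868) (nat_lit 76) (nat_lit 40563144203) (nat_lit 4) (nat_lit 4) (nat_lit 5) (nat_lit 5) (nat_lit 5) (nat_lit 4) (nat_lit 465) (nat_lit 376) (nat_lit 359)) (XT.nd (nat_lit 78) (nat_lit 0) (nat_lit 0) (XT.lf (nat_lit 0) (nat_lit 33621502904) (nat_lit 76) (nat_lit 33878043152) (nat_lit 76) (nat_lit 32369267001) (nat_lit 4) (nat_lit 4) (nat_lit 5) (nat_lit 5) (nat_lit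 5) (nat_lit 4) (nat_lit 466) (nat_lit 376) (nat_lit 358)) (XT.lf (nat_lit 0) (nat_lit 58145745420) (nat_lit 76) (nat_lit 25360106621) (nat_lit 76) (nat_lit 23814027242) (nat_lit 4) (nat_lit 4) (nat_lit 5) (nat_lit 5) (nat_lit 5) (nat_lit 4) (nat_lit 467) (nat_lit 376) (nat_lit 357)))) (XT.nd (nat_lit 156) (nat_lit 152) (nat_lit 0) (XT.nd (nat_lit 78) (nat_lit 0) (nat_lit 0) (XT.lf (nat_lit 0) (nat_lit 84105928111) (nat_lit 76) (nat_lit 16427346614) (nat_lit 76) (nat_lit 14846727211) (nat_lit 4) (nat_lit 4) (nat_lit 5) (nat_lit 5) (nat_lit 5) (nat_lit 4) (nat_lit 468) (nat_lit 376) (nat_lit 356)) (XT.lf (nat_lit 0) (nat_lit 111655889099) (nat_lit 76) (nat_lit 7026828258) (nat_lit 76) (nat_lit 5414227350) (nat_lit 4) (nat_lit 4) (nat_lit 5) (nat_lit 5) (nat_lit 5) (nat_lit 4) (nat_lit 469) (nat_lit 376) (nat_lit 355))) (XT.nd (nat_lit 78) (nat_lit 0) (nat_lit 0) (XT.lf (nat_lit 0) (nat_lit 4561223429)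 (nat_lit 152) (nat_lit 125952028706) (nat_lit 0) (nat_lit 2997210655) (nat_lit 2) (nat_lit 5) (nat_lit 4) (nat_lit 4) (nat_lit 2) (nat_lit 4) (nat_lit 470) (nat_lit 376) (nat_lit 354)) (XT.lf (nat_lit 0) (nat_lit 15266705452) (nat_lit 152) (nat_lit 114723256768) (nat_lit 0) (nat_lit 13676579358) (nat_lit 2) (nat_lit 5) (nat_lit 4) (nat_lit 4) (nat_lit 2) (nat_lit 4) (nat_lit 471) (nat_lit 376) (nat_lit 353))))) (XT.nd (nat_lit 234) (nat_lit 0) (nat_lit 0) (XT.nd (nat_lit 78) (nat_lit 0) (nat_lit 0) (XT.lf (nat_lit 0) (nat_lit 26625287487) (nat_lit 152) (nat_lit 103009004934) (nat_lit 0) (nat_lit 25010982394) (nat_lit 2) (nat_lit 5) (nat_lit 4) (nat_lit 4) (nat_lit 2) (nat_lit 4) (nat_lit 472) (nat_lit 376) (nat_lit 352)) (XT.nd (nat_lit 78) (nat_lit 0) (nat_lit 0) (XT.lf (nat_lit 0) (nat_lit 38704279649) (nat_lit 152) (nat_lit 90739855418) (nat_lit 0) (nat_lit 37067586593) (nat_lit 2) (nat_lit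 5) (nat_lit 4) (nat_lit 4) (nat_lit 2) (nat_lit 4) (nat_lit 473) (nat_lit 376) (nat_lit 351)) (XT.lf (nat_lit 0) (nat_lit 51575261152) (nat_lit 152) (nat_lit 77843102146) (nat_lit 0) (nat_lit 49917838500) (nat_lit 2) (nat_lit 5) (nat_lit 4) (nat_lit 4) (nat_lit 2) (nat_lit 4) (nat_lit 474) (nat_lit 376) (nat_lit 350)))) (XT.nd (nat_lit 156) (nat_lit 0) (nat_lit 0) (XT.nd (nat_lit 78) (nat_lit 0) (nat_lit 0) (XT.lf (nat_lit 0) (nat_lit 65314504477) (nat_lit 152) (nat_lit 64242319916) (nat_lit 0) (nat_lit 63637887756) (nat_lit 2) (nat_lit 5) (nat_lit 4) (nat_lit 4) (nat_lit 2) (nat_lit 4) (nat_lit 475) (nat_lit 376) (nat_lit 349)) (XT.lf (nat_lit 0) (nat_lit 80003427364) (nat_lit 152) (nat_lit 49856911499) (nat_lit 0) (nat_lit 78309038357) (nat_lit 2) (nat_lit 5) (nat_lit 4) (nat_lit 4) (nat_lit 2) (nat_lit 4) (nat_lit 476) (nat_lit 376) (nat_lit 348))) (XT.nd (nat_lit 78) (nat_lit 0) (nat_lit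 0) (XT.lf (nat_lit 0) (nat_lit 95729075281) (nat_lit 152) (nat_lit 34601630030) (nat_lit 0) (nat_lit 94018230453) (nat_lit 2) (nat_lit 5) (nat_lit 4) (nat_lit 4) (nat_lit 2) (nat_lit 4) (nat_lit 477) (nat_lit 376) (nat_lit 347)) (XT.lf (nat_lit 0) (nat_lit 112584637254) (nat_lit 152) (nat_lit 18386073841) (nat_lit 0) (nat_lit 110858555554) (nat_lit 2) (nat_lit 5) (nat_lit 4) (nat_lit 4) (nat_lit 2) (nat_lit 4) (nat_lit 478) (nat_lit 376) (nat_lit 346))))))) (XT.nd (nat_lit 1092) (nat_lit 0) (nat_lit 0) (XT.nd (nat_lit 546) (nat_lit 0) (nat_lit 0) (XT.nd (nat_lit 234) (nat_lit 0) (nat_lit 0) (XT.nd (nat_lit 78) (nat_lit 76) (nat_lit 0) (XT.lf (nat_lit 0) (nat_lit 130669998093) (nat_lit 152) (nat_lit 1114150748) (nat_lit 0) (nat_lit 128929808179) (nat_lit 2) (nat_lit 5) (nat_lit 4) (nat_lit 4) (nat_lit 2) (nat_lit 4) (nat_lit 479) (nat_lit 376) (nat_lit 345)) (XT.nd (nat_lit 78) (nat_lit 0) (nat_lit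 0) (XT.lf (nat_lit 0) (nat_lit 17889052795) (nat_lit 76) (nat_lit 132482575760) (nat_lit 76) (nat_lit 130729322685) (nat_lit 1) (nat_lit 4) (nat_lit 2) (nat_lit 5) (nat_lit 2) (nat_lit 4) (nat_lit 480) (nat_lit 376) (nat_lit 344)) (XT.lf (nat_lit 0) (nat_lit 38238956601) (nat_lit 76) (nat_lit 133324789875) (nat_lit 76) (nat_lit 131559441280) (nat_lit 1) (nat_lit 4) (nat_lit 2) (nat_lit 5) (nat_lit 2) (nat_lit 4) (nat_lit 481) (nat_lit 376) (nat_lit 343)))) (XT.nd (nat_lit 156) (nat_lit 0) (nat_lit 0) (XT.nd (nat_lit 78) (nat_lit 0) (nat_lit 0) (XT.lf (nat_lit 0) (nat_lit 60019313836) (nat_lit 76) (nat_lit 134334650767) (nat_lit 76) (nat_lit 132558102617) (nat_lit 1) (nat_lit 4) (nat_lit 2) (nat_lit 5) (nat_lit 2) (nat_lit 4) (nat_lit 482) (nat_lit 376) (nat_lit 342)) (XT.lf (nat_lit 0) (nat_lit 83359193284) (nat_lit 76) (nat_lit 135518142796) (nat_lit 76) (nat_lit 133731224687) (nat_lit 1)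 (nat_lit 4) (nat_lit 2) (nat_lit 5) (nat_lit 2) (nat_lit 4) (nat_lit 483) (nat_lit 376) (nat_lit 341))) (XT.nd (nat_lit 78) (nat_lit 0) (nat_lit 0) (XT.lf (nat_lit 0) (nat_lit 108396905341) (nat_lit 76) (nat_lit 136882279248) (nat_lit 76) (nat_lit 135085759326) (nat_lit 1) (nat_lit 4) (nat_lit 2) (nat_lit 5) (nat_lit 2) (nat_lit 4) (nat_lit 484) (nat_lit 376) (nat_lit 340)) (XT.lf (nat_lit 0) (nat_lit 135280821635) (nat_lit 76) (nat_lit 138435143896) (nat_lit 76) (nat_lit 136629733406) (nat_lit 1) (nat_lit 4) (nat_lit 2) (nat_lit 5) (nat_lit 2) (nat_lit 4) (nat_lit 485) (nat_lit 376) (nat_lit 339))))) (XT.nd (nat_lit 234) (nat_lit 0) (nat_lit 0) (XT.nd (nat_lit 78) (nat_lit 0) (nat_lit 0) (XT.lf (nat_lit 0) (nat_lit 164170254263) (nat_lit 76) (nat_lit 140185938899) (nat_lit 76) (nat_lit 138372296402) (nat_lit 1) (nat_lit 4) (nat_lit 2) (nat_lit 5) (nat_lit 2) (nat_lit 4) (nat_lit 486) (nat_lit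 376) (nat_lit 338)) (XT.nd (nat_lit 78) (nat_lit 0) (nat_lit 0) (XT.lf (nat_lit 0) (nat_lit 195236399861) (nat_lit 76) (nat_lit 142145039340) (nat_lit 76) (nat_lit 140323774614) (nat_lit 1) (nat_lit 4) (nat_lit 2) (nat_lit 5) (nat_lit 2) (nat_lit 4) (nat_lit 487) (nat_lit 376) (nat_lit 337)) (XT.lf (nat_lit 0) (nat_lit 228663354108) (nat_lit 76) (nat_lit 144324054703) (nat_lit 76) (nat_lit 142495732357) (nat_lit 1) (nat_lit 4) (nat_lit 2) (nat_lit 5) (nat_lit 2) (nat_lit 4) (nat_lit 488) (nat_lit 376) (nat_lit 336)))) (XT.nd (nat_lit 156) (nat_lit 0) (nat_lit 0) (XT.nd (nat_lit 78) (nat_lit 0) (nat_lit 0) (XT.lf (nat_lit 0) (nat_lit 264649202659) (nat_lit 76) (nat_lit 146735897671) (nat_lit 76) (nat_lit 144901040492) (nat_lit 1) (nat_lit 4) (nat_lit 2) (nat_lit 5) (nat_lit 2) (nat_lit 4) (nat_lit 489) (nat_lit 376) (nat_lit 335)) (XT.lf (nat_lit 0) (nat_lit 303407194986) (nat_lit 76) (nat_lit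 149394860646) (nat_lit 76) (nat_lit 147553952696) (nat_lit 1) (nat_lit 4) (nat_lit 2) (nat_lit 5) (nat_lit 2) (nat_lit 4) (nat_lit 490) (nat_lit 376) (nat_lit 334))) (XT.nd (nat_lit 78) (nat_lit 0) (nat_lit 0) (XT.lf (nat_lit 0) (nat_lit 345167008080) (nat_lit 76) (nat_lit 152316700448) (nat_lit 76) (nat_lit 150470189932) (nat_lit 1) (nat_lit 4) (nat_lit 2) (nat_lit 5) (nat_lit 2) (nat_lit 4) (nat_lit 491) (nat_lit 376) (nat_lit 333)) (XT.lf (nat_lit 0) (nat_lit 390176107502) (nat_lit 76) (nat_lit 155518731681) (nat_lit 76) (nat_lit 153667033604) (nat_lit 1) (nat_lit 4) (nat_lit 2) (nat_lit 5) (nat_lit 2) (nat_lit 4) (nat_lit 492) (nat_lit 376) (nat_lit 332)))))) (XT.nd (nat_lit 546) (nat_lit 0) (nat_lit 0) (XT.nd (nat_lit 234) (nat_lit 0) (nat_lit 0) (XT.nd (nat_lit 78) (nat_lit 0) (nat_lit 0) (XT.lf (nat_lit 0) (nat_lit 438701213840) (nat_lit 76) (nat_lit 159019929346) (nat_lit 76) (nat_lit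 157163427971) (nat_lit 1) (nat_lit 4) (nat_lit 2) (nat_lit 5) (nat_lit 2) (nat_lit 4) (nat_lit 493) (nat_lit 376) (nat_lit 331)) (XT.nd (nat_lit 78) (nat_lit 0) (nat_lit 0) (XT.lf (nat_lit 0) (nat_lit 491029883279) (nat_lit 76) (nat_lit 162841041280) (nat_lit 76) (nat_lit 160980092408) (nat_lit 1) (nat_lit 4) (nat_lit 2) (nat_lit 5) (nat_lit 2) (nat_lit 4) (nat_lit 494) (nat_lit 376) (nat_lit 330)) (XT.lf (nat_lit 0) (nat_lit 547472211639) (nat_lit 76) (nat_lit 167004711111) (nat_lit 76) (nat_lit 165139644186) (nat_lit 1) (nat_lit 4) (nat_lit 2) (nat_lit 5) (nat_lit 2) (nat_lit 4) (nat_lit 495) (nat_lit 376) (nat_lit 329)))) (XT.nd (nat_lit 156) (nat_lit 0) (nat_lit 0) (XT.nd (nat_lit 78) (nat_lit 0) (nat_lit 0) (XT.lf (nat_lit 0) (nat_lit 608362671977) (nat_lit 76) (nat_lit 171535612436) (nat_lit 76) (nat_lit 169666732499) (nat_lit 1) (nat_lit 4) (nat_lit 2) (nat_lit 5) (nat_lit 2) (nat_lit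 4) (nat_lit 496) (nat_lit 376) (nat_lit 328)) (XT.lf (nat_lit 0) (nat_lit 674062096650) (nat_lit 76) (nat_lit 176460595042) (nat_lit 76) (nat_lit 174588184538) (nat_lit 1) (nat_lit 4) (nat_lit 2) (nat_lit 5) (nat_lit 2) (nat_lit 4) (nat_lit 497) (nat_lit 376) (nat_lit 327))) (XT.nd (nat_lit 78) (nat_lit 0) (nat_lit 0) (XT.lf (nat_lit 0) (nat_lit 744959815583) (nat_lit 76) (nat_lit 181808844011) (nat_lit 76) (nat_lit 179933164464) (nat_lit 1) (nat_lit 4) (nat_lit 2) (nat_lit 5) (nat_lit 2) (nat_lit 4) (nat_lit 498) (nat_lit 376) (nat_lit 326)) (XT.lf (nat_lit 0) (nat_lit 821475963405) (nat_lit 76) (nat_lit 187612052670) (nat_lit 76) (nat_lit 185733346231) (nat_lit 1) (nat_lit 4) (nat_lit 2) (nat_lit 5) (nat_lit 2) (nat_lit 4) (nat_lit 499) (nat_lit 376) (nat_lit 325))))) (XT.nd (nat_lit 58344) (nat_lit 0) (nat_lit 988) (XT.nd (nat_lit 156) (nat_lit 0) (nat_lit 0) (XT.nd (nat_lit 78) (nat_lit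 0) (nat_lit 0) (XT.lf (nat_lit 0) (nat_lit 904063969142) (nat_lit 76) (nat_lit 193904610404) (nat_lit 76) (nat_lit 192023101286) (nat_lit 1) (nat_lit 4) (nat_lit 2) (nat_lit 5) (nat_lit 2) (nat_lit 4) (nat_lit 500) (nat_lit 376) (nat_lit 324)) (XT.lf (nat_lit 0) (nat_lit 993213243196) (nat_lit 76) (nat_lit 200723806443) (nat_lit 76) (nat_lit 198839702253) (nat_lit 1) (nat_lit 4) (nat_lit 2) (nat_lit 5) (nat_lit 2) (nat_lit 4) (nat_lit 501) (nat_lit 376) (nat_lit 323))) (XT.nd (nat_lit 58110) (nat_lit 0) (nat_lit 1444) (XT.lf (nat_lit 0) (nat_lit 1089452077564) (nat_lit 76) (nat_lit 208110050838) (nat_lit 76) (nat_lit 206223543804) (nat_lit 1) (nat_lit 4) (nat_lit 2) (nat_lit 5) (nat_lit 2) (nat_lit 4) (nat_lit 502) (nat_lit 376) (nat_lit 322)) (XT.lf (nat_lit 0) (nat_lit 4588183933) (nat_lit 152) (nat_lit 4785837713) (nat_lit 0) (nat_lit 4588183933) (nat_lit 20) (nat_lit 5) (nat_lit 22) (nat_lit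 4) (nat_lit 20) (nat_lit 4) (nat_lit 446) (nat_lit 377) (nat_lit 377)))) (XT.nd (nat_lit 156) (nat_lit 228) (nat_lit 0) (XT.nd (nat_lit 78) (nat_lit 152) (nat_lit 0) (XT.lf (nat_lit 0) (nat_lit 17787824684) (nat_lit 76) (nat_lit 5936999124) (nat_lit 76) (nat_lit 5731531094) (nat_lit 19) (nat_lit 4) (nat_lit 20) (nat_lit 5) (nat_lit 20) (nat_lit 4) (nat_lit 447) (nat_lit 377) (nat_lit 376)) (XT.lf (nat_lit 0) (nat_lit 7889013698) (nat_lit 152) (nat_lit 15711748340) (nat_lit 0) (nat_lit 7512141122) (nat_lit 17) (nat_lit 5) (nat_lit 19) (nat_lit 4) (nat_lit 17) (nat_lit 4) (nat_lit 448) (nat_lit 377) (nat_lit 375))) (XT.nd (nat_lit 78) (nat_lit 152) (nat_lit 0) (XT.lf (nat_lit 0) (nat_lit 10938278404) (nat_lit 76) (nat_lit 11256904006) (nat_lit 76) (nat_lit 10712264079) (nat_lit 16) (nat_lit 4) (nat_lit 17) (nat_lit 5) (nat_lit 17) (nat_lit 4) (nat_lit 449) (nat_lit 377) (nat_lit 374)) (XT.lf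 (nat_lit 0) (nat_lit 2418702357) (nat_lit 152) (nat_lit 30687215794) (nat_lit 0) (nat_lit 1752054675) (nat_lit 14) (nat_lit 5) (nat_lit 16) (nat_lit 4) (nat_lit 14) (nat_lit 4) (nat_lit 450) (nat_lit 377) (nat_lit 373))))))))
noncomputable def xc14 : XT := (XT.nd (nat_lit 2184) (nat_lit 76) (nat_lit 0) (XT.nd (nat_lit 1092) (nat_lit 228) (nat_lit 0) (XT.nd (nat_lit 546) (nat_lit 228) (nat_lit 0) (XT.nd (nat_lit 234) (nat_lit 228) (nat_lit 0) (XT.nd (nat_lit 78) (nat_lit 228) (nat_lit 0) (XT.lf (nat_lit 0) (nat_lit 16163865334) (nat_lit 152) (nat_lit 5434717652) (nat_lit 0) (nat_lit 15360233402) (nat_lit 14) (nat_lit 5) (nat_lit 16) (nat_lit 4) (nat_lit 14) (nat_lit 4) (nat_lit 451) (nat_lit 377) (nat_lit 372)) (XT.nd (nat_lit 78) (nat_lit 152) (nat_lit 0) (XT.lf (nat_lit 0) (nat_lit 21317509906) (nat_lit 76) (nat_lit 9426951068) (nat_lit 76) (nat_lit 8496481867) (nat_lit 13) (nat_lit 4) (nat_lit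 14) (nat_lit 5) (nat_lit 14) (nat_lit 4) (nat_lit 452) (nat_lit 377) (nat_lit 371)) (XT.lf (nat_lit 0) (nat_lit 4322700435) (nat_lit 152) (nat_lit 34070018067) (nat_lit 0) (nat_lit 3324689849) (nat_lit 11) (nat_lit 5) (nat_lit 13) (nat_lit 4) (nat_lit 11) (nat_lit 4) (nat_lit 453) (nat_lit 377) (nat_lit 370)))) (XT.nd (nat_lit 156) (nat_lit 152) (nat_lit 0) (XT.nd (nat_lit 78) (nat_lit 76) (nat_lit 0) (XT.lf (nat_lit 0) (nat_lit 17786595005) (nat_lit 152) (nat_lit 9917574212) (nat_lit 0) (nat_lit 16685020120) (nat_lit 11) (nat_lit 5) (nat_lit 13) (nat_lit 4) (nat_lit 11) (nat_lit 4) (nat_lit 454) (nat_lit 377) (nat_lit 369)) (XT.lf (nat_lit 0) (nat_lit 15613294447) (nat_lit 76) (nat_lit 16436393306) (nat_lit 76) (nat_lit 15238925550) (nat_lit 10) (nat_lit 4) (nat_lit 11) (nat_lit 5) (nat_lit 11) (nat_lit 4) (nat_lit 455) (nat_lit 377) (nat_lit 368))) (XT.nd (nat_lit 78) (nat_lit 152) (nat_lit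 0) (XT.lf (nat_lit 0) (nat_lit 42533075895) (nat_lit 76) (nat_lit 4594738934) (nat_lit 76) (nat_lit 3308481484) (nat_lit 10) (nat_lit 4) (nat_lit 11) (nat_lit 5) (nat_lit 11) (nat_lit 4) (nat_lit 456) (nat_lit 377) (nat_lit 367)) (XT.lf (nat_lit 0) (nat_lit 9196718904) (nat_lit 152) (nat_lit 36741847997) (nat_lit 0) (nat_lit 7893414019) (nat_lit 8) (nat_lit 5) (nat_lit 10) (nat_lit 4) (nat_lit 8) (nat_lit 4) (nat_lit 457) (nat_lit 377) (nat_lit 366))))) (XT.nd (nat_lit 234) (nat_lit 152) (nat_lit 0) (XT.nd (nat_lit 78) (nat_lit 76) (nat_lit 0) (XT.lf (nat_lit 0) (nat_lit 22349417994) (nat_lit 152) (nat_lit 14185429140) (nat_lit 0) (nat_lit 20973615156) (nat_lit 8) (nat_lit 5) (nat_lit 10) (nat_lit 4) (nat_lit 8) (nat_lit 4) (nat_lit 458) (nat_lit 377) (nat_lit 365)) (XT.nd (nat_lit 78) (nat_lit 0) (nat_lit 0) (XT.lf (nat_lit 0) (nat_lit 9629399825) (nat_lit 76) (nat_lit 26653094126) (nat_lit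 76) (nat_lit 25210163553) (nat_lit 7) (nat_lit 4) (nat_lit 8) (nat_lit 5) (nat_lit 8) (nat_lit 4) (nat_lit 459) (nat_lit 377) (nat_lit 364)) (XT.lf (nat_lit 0) (nat_lit 35038794901) (nat_lit 76) (nat_lit 16134855368) (nat_lit 76) (nat_lit 14629769484) (nat_lit 7) (nat_lit 4) (nat_lit 8) (nat_lit 5) (nat_lit 8) (nat_lit 4) (nat_lit 460) (nat_lit 377) (nat_lit 363)))) (XT.nd (nat_lit 156) (nat_lit 0) (nat_lit 0) (XT.nd (nat_lit 78) (nat_lit 152) (nat_lit 0) (XT.lf (nat_lit 0) (nat_lit 61724295929) (nat_lit 76) (nat_lit 5158037661) (nat_lit 76) (nat_lit 3595400564) (nat_lit 7) (nat_lit 4) (nat_lit 8) (nat_lit 5) (nat_lit 8) (nat_lit 4) (nat_lit 461) (nat_lit 377) (nat_lit 362)) (XT.lf (nat_lit 0) (nat_lit 8037076818) (nat_lit 152) (nat_lit 60985237504) (nat_lit 0) (nat_lit 6498100382) (nat_lit 5) (nat_lit 5) (nat_lit 7) (nat_lit 4) (nat_lit 5) (nat_lit 4) (nat_lit 462) (nat_lit 377) (nat_lit 361)))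 (XT.nd (nat_lit 78) (nat_lit 0) (nat_lit 0) (XT.lf (nat_lit 0) (nat_lit 20376102506) (nat_lit 152) (nat_lit 41802231990) (nat_lit 0) (nat_lit 18790134747) (nat_lit 5) (nat_lit 5) (nat_lit 7) (nat_lit 4) (nat_lit 5) (nat_lit 4) (nat_lit 463) (nat_lit 377) (nat_lit 360)) (XT.lf (nat_lit 0) (nat_lit 33385841512) (nat_lit 152) (nat_lit 21725985991) (nat_lit 0) (nat_lit 31756363269) (nat_lit 5) (nat_lit 5) (nat_lit 7) (nat_lit 4) (nat_lit 5) (nat_lit 4) (nat_lit 464) (nat_lit 377) (nat_lit 359)))))) (XT.nd (nat_lit 546) (nat_lit 0) (nat_lit 0) (XT.nd (nat_lit 234) (nat_lit 152) (nat_lit 0) (XT.nd (nat_lit 78) (nat_lit 76) (nat_lit 0) (XT.lf (nat_lit 0) (nat_lit 47143388587) (nat_lit 152) (nat_lit 637529163) (nat_lit 0) (nat_lit 45473622859) (nat_lit 5) (nat_lit 5) (nat_lit 7) (nat_lit 4) (nat_lit 5) (nat_lit 4) (nat_lit 465) (nat_lit 377) (nat_lit 358)) (XT.nd (nat_lit 78) (nat_lit 0) (nat_lit 0)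 (XT.lf (nat_lit 0) (nat_lit 22301907445) (nat_lit 76) (nat_lit 39776557765) (nat_lit 76) (nat_lit 38069488809) (nat_lit 4) (nat_lit 4) (nat_lit 5) (nat_lit 5) (nat_lit 5) (nat_lit 4) (nat_lit 466) (nat_lit 377) (nat_lit 357)) (XT.lf (nat_lit 0) (nat_lit 46573265718) (nat_lit 76) (nat_lit 31386799814) (nat_lit 76) (nat_lit 29645190833) (nat_lit 4) (nat_lit 4) (nat_lit 5) (nat_lit 5) (nat_lit 5) (nat_lit 4) (nat_lit 467) (nat_lit 377) (nat_lit 356)))) (XT.nd (nat_lit 156) (nat_lit 152) (nat_lit 0) (XT.nd (nat_lit 78) (nat_lit 0) (nat_lit 0) (XT.lf (nat_lit 0) (nat_lit 72299296333) (nat_lit 76) (nat_lit 22572723679) (nat_lit 76) (nat_lit 20799133193) (nat_lit 4) (nat_lit 4) (nat_lit 5) (nat_lit 5) (nat_lit 5) (nat_lit 4) (nat_lit 468) (nat_lit 377) (nat_lit 355)) (XT.lf (nat_lit 0) (nat_lit 99632449842) (nat_lit 76) (nat_lit 13282097795) (nat_lit 76) (nat_lit 11478894805) (nat_lit 4) (nat_lit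 4) (nat_lit 5) (nat_lit 5) (nat_lit 5) (nat_lit 4) (nat_lit 469) (nat_lit 377) (nat_lit 354))) (XT.nd (nat_lit 78) (nat_lit 152) (nat_lit 0) (XT.lf (nat_lit 0) (nat_lit 128734700487) (nat_lit 76) (nat_lit 3459866604) (nat_lit 76) (nat_lit 1629244628) (nat_lit 4) (nat_lit 4) (nat_lit 5) (nat_lit 5) (nat_lit 5) (nat_lit 4) (nat_lit 470) (nat_lit 377) (nat_lit 353)) (XT.lf (nat_lit 0) (nat_lit 8893178212) (nat_lit 152) (nat_lit 127974195283) (nat_lit 0) (nat_lit 7125549711) (nat_lit 2) (nat_lit 5) (nat_lit 4) (nat_lit 4) (nat_lit 2) (nat_lit 4) (nat_lit 471) (nat_lit 377) (nat_lit 352))))) (XT.nd (nat_lit 234) (nat_lit 0) (nat_lit 0) (XT.nd (nat_lit 78) (nat_lit 0) (nat_lit 0) (XT.lf (nat_lit 0) (nat_lit 20161242730) (nat_lit 152) (nat_lit 116443713865) (nat_lit 0) (nat_lit 18371226266) (nat_lit 2) (nat_lit 5) (nat_lit 4) (nat_lit 4) (nat_lit 2) (nat_lit 4) (nat_lit 472) (nat_lit 377) (nat_lit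 351)) (XT.nd (nat_lit 78) (nat_lit 0) (nat_lit 0) (XT.lf (nat_lit 0) (nat_lit 32156422376) (nat_lit 152) (nat_lit 104344722140) (nat_lit 0) (nat_lit 30345676318) (nat_lit 2) (nat_lit 5) (nat_lit 4) (nat_lit 4) (nat_lit 2) (nat_lit 4) (nat_lit 473) (nat_lit 377) (nat_lit 350)) (XT.lf (nat_lit 0) (nat_lit 44949799697) (nat_lit 152) (nat_lit 91605522380) (nat_lit 0) (nat_lit 43119859569) (nat_lit 2) (nat_lit 5) (nat_lit 4) (nat_lit 4) (nat_lit 2) (nat_lit 4) (nat_lit 474) (nat_lit 377) (nat_lit 349)))) (XT.nd (nat_lit 156) (nat_lit 0) (nat_lit 0) (XT.nd (nat_lit 78) (nat_lit 0) (nat_lit 0) (XT.lf (nat_lit 0) (nat_lit 58617187299) (nat_lit 152) (nat_lit 78150623030) (nat_lit 0) (nat_lit 56769474885) (nat_lit 2) (nat_lit 5) (nat_lit 4) (nat_lit 4) (nat_lit 2) (nat_lit 4) (nat_lit 475) (nat_lit 377) (nat_lit 348)) (XT.lf (nat_lit 0) (nat_lit 73239577109) (nat_lit 152) (nat_lit 63900291354) (nat_lit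 0) (nat_lit 71375408873) (nat_lit 2) (nat_lit 5) (nat_lit 4) (nat_lit 4) (nat_lit 2) (nat_lit 4) (nat_lit 476) (nat_lit 377) (nat_lit 347))) (XT.nd (nat_lit 78) (nat_lit 0) (nat_lit 0) (XT.lf (nat_lit 0) (nat_lit 88903620325) (nat_lit 152) (nat_lit 48770080941) (nat_lit 0) (nat_lit 87024215218) (nat_lit 2) (nat_lit 5) (nat_lit 4) (nat_lit 4) (nat_lit 2) (nat_lit 4) (nat_lit 477) (nat_lit 377) (nat_lit 346)) (XT.lf (nat_lit 0) (nat_lit 105702140908) (nat_lit 152) (nat_lit 32670331286) (nat_lit 0) (nat_lit 103808627587) (nat_lit 2) (nat_lit 5) (nat_lit 4) (nat_lit 4) (nat_lit 2) (nat_lit 4) (nat_lit 478) (nat_lit 377) (nat_lit 345))))))) (XT.nd (nat_lit 1092) (nat_lit 0) (nat_lit 0) (XT.nd (nat_lit 546) (nat_lit 0) (nat_lit 0) (XT.nd (nat_lit 234) (nat_lit 0) (nat_lit 0) (XT.nd (nat_lit 78) (nat_lit 76) (nat_lit 0) (XT.lf (nat_lit 0) (nat_lit 123734685645) (nat_lit 152) (nat_lit 15505636465)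 (nat_lit 0) (nat_lit 121828109163) (nat_lit 2) (nat_lit 5) (nat_lit 4) (nat_lit 4) (nat_lit 2) (nat_lit 4) (nat_lit 479) (nat_lit 377) (nat_lit 344)) (XT.nd (nat_lit 78) (nat_lit 0) (nat_lit 0) (XT.lf (nat_lit 0) (nat_lit 2919151304) (nat_lit 76) (nat_lit 140234538890) (nat_lit 76) (nat_lit 138315866888) (nat_lit 1) (nat_lit 4) (nat_lit 2) (nat_lit 5) (nat_lit 2) (nat_lit 4) (nat_lit 480) (nat_lit 377) (nat_lit 343)) (XT.lf (nat_lit 0) (nat_lit 23174084496) (nat_lit 76) (nat_lit 141124959566) (nat_lit 76) (nat_lit 139195088009) (nat_lit 1) (nat_lit 4) (nat_lit 2) (nat_lit 5) (nat_lit 2) (nat_lit 4) (nat_lit 481) (nat_lit 377) (nat_lit 342)))) (XT.nd (nat_lit 156) (nat_lit 0) (nat_lit 0) (XT.nd (nat_lit 78) (nat_lit 0) (nat_lit 0) (XT.lf (nat_lit 0) (nat_lit 44866505979) (nat_lit 76) (nat_lit 142179456162) (nat_lit 76) (nat_lit 140239214647) (nat_lit 1) (nat_lit 4) (nat_lit 2) (nat_lit 5) (nat_lit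 2) (nat_lit 4) (nat_lit 482) (nat_lit 377) (nat_lit 341)) (XT.lf (nat_lit 0) (nat_lit 68124963433) (nat_lit 76) (nat_lit 143404277548) (nat_lit 76) (nat_lit 141454434219) (nat_lit 1) (nat_lit 4) (nat_lit 2) (nat_lit 5) (nat_lit 2) (nat_lit 4) (nat_lit 483) (nat_lit 377) (nat_lit 340))) (XT.nd (nat_lit 78) (nat_lit 0) (nat_lit 0) (XT.lf (nat_lit 0) (nat_lit 93087284756) (nat_lit 76) (nat_lit 144806681923) (nat_lit 76) (nat_lit 142847948026) (nat_lit 1) (nat_lit 4) (nat_lit 2) (nat_lit 5) (nat_lit 2) (nat_lit 4) (nat_lit 484) (nat_lit 377) (nat_lit 339)) (XT.lf (nat_lit 0) (nat_lit 119901394815) (nat_lit 76) (nat_lit 146394979832) (nat_lit 76) (nat_lit 144428013928) (nat_lit 1) (nat_lit 4) (nat_lit 2) (nat_lit 5) (nat_lit 2) (nat_lit 4) (nat_lit 485) (nat_lit 377) (nat_lit 338))))) (XT.nd (nat_lit 234) (nat_lit 0) (nat_lit 0) (XT.nd (nat_lit 78) (nat_lit 0) (nat_lit 0) (XT.lf (nat_lit 0) (nat_lit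 148726192039) (nat_lit 76) (nat_lit 148178583411) (nat_lit 76) (nat_lit 146203995278) (nat_lit 1) (nat_lit 4) (nat_lit 2) (nat_lit 5) (nat_lit 2) (nat_lit 4) (nat_lit 486) (nat_lit 377) (nat_lit 337)) (XT.nd (nat_lit 78) (nat_lit 0) (nat_lit 0) (XT.lf (nat_lit 0) (nat_lit 179732490041) (nat_lit 76) (nat_lit 150168062163) (nat_lit 76) (nat_lit 148186416410) (nat_lit 1) (nat_lit 4) (nat_lit 2) (nat_lit 5) (nat_lit 2) (nat_lit 4) (nat_lit 487) (nat_lit 377) (nat_lit 336)) (XT.lf (nat_lit 0) (nat_lit 213104029848) (nat_lit 76) (nat_lit 152375205591) (nat_lit 76) (nat_lit 150387025005) (nat_lit 1) (nat_lit 4) (nat_lit 2) (nat_lit 5) (nat_lit 2) (nat_lit 4) (nat_lit 488) (nat_lit 377) (nat_lit 335)))) (XT.nd (nat_lit 156) (nat_lit 0) (nat_lit 0) (XT.nd (nat_lit 78) (nat_lit 0) (nat_lit 0) (XT.lf (nat_lit 0) (nat_lit 249038568731) (nat_lit 76) (nat_lit 154813093064) (nat_lit 76) (nat_lit 152818861707)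 (nat_lit 1) (nat_lit 4) (nat_lit 2) (nat_lit 5) (nat_lit 2) (nat_lit 4) (nat_lit 489) (nat_lit 377) (nat_lit 334)) (XT.lf (nat_lit 0) (nat_lit 287749052107) (nat_lit 76) (nat_lit 157496171322) (nat_lit 76) (nat_lit 155496337399) (nat_lit 1) (nat_lit 4) (nat_lit 2) (nat_lit 5) (nat_lit 2) (nat_lit 4) (nat_lit 490) (nat_lit 377) (nat_lit 333))) (XT.nd (nat_lit 78) (nat_lit 0) (nat_lit 0) (XT.lf (nat_lit 0) (nat_lit 329464875432) (nat_lit 76) (nat_lit 160440340089) (nat_lit 76) (nat_lit 158435318604) (nat_lit 1) (nat_lit 4) (nat_lit 2) (nat_lit 5) (nat_lit 2) (nat_lit 4) (nat_lit 491) (nat_lit 377) (nat_lit 332)) (XT.lf (nat_lit 0) (nat_lit 374433243585) (nat_lit 76) (nat_lit 163663046289) (nat_lit 76) (nat_lit 161653221508) (nat_lit 1) (nat_lit 4) (nat_lit 2) (nat_lit 5) (nat_lit 2) (nat_lit 4) (nat_lit 492) (nat_lit 377) (nat_lit 331)))))) (XT.nd (nat_lit 546) (nat_lit 0) (nat_lit 0) (XT.nd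 (nat_lit 234) (nat_lit 0) (nat_lit 0) (XT.nd (nat_lit 78) (nat_lit 0) (nat_lit 0) (XT.lf (nat_lit 0) (nat_lit 422920635786) (nat_lit 76) (nat_lit 167183387443) (nat_lit 76) (nat_lit 165169115164) (nat_lit 1) (nat_lit 4) (nat_lit 2) (nat_lit 5) (nat_lit 2) (nat_lit 4) (nat_lit 493) (nat_lit 377) (nat_lit 330)) (XT.nd (nat_lit 78) (nat_lit 0) (nat_lit 0) (XT.lf (nat_lit 0) (nat_lit 475214384728) (nat_lit 76) (nat_lit 171022224830) (nat_lit 76) (nat_lit 169003834498) (nat_lit 1) (nat_lit 4) (nat_lit 2) (nat_lit 5) (nat_lit 2) (nat_lit 4) (nat_lit 494) (nat_lit 377) (nat_lit 329)) (XT.lf (nat_lit 0) (nat_lit 531624379295) (nat_lit 76) (nat_lit 175202307117) (nat_lit 76) (nat_lit 173180103772) (nat_lit 1) (nat_lit 4) (nat_lit 2) (nat_lit 5) (nat_lit 2) (nat_lit 4) (nat_lit 495) (nat_lit 377) (nat_lit 328)))) (XT.nd (nat_lit 156) (nat_lit 0) (nat_lit 0) (XT.nd (nat_lit 78) (nat_lit 0) (nat_lit 0)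 (XT.lf (nat_lit 0) (nat_lit 592484900935) (nat_lit 76) (nat_lit 179748405161) (nat_lit 76) (nat_lit 177722671249) (nat_lit 1) (nat_lit 4) (nat_lit 2) (nat_lit 5) (nat_lit 2) (nat_lit 4) (nat_lit 496) (nat_lit 377) (nat_lit 327)) (XT.lf (nat_lit 0) (nat_lit 658156604591) (nat_lit 76) (nat_lit 184687458802) (nat_lit 76) (nat_lit 182658455848) (nat_lit 1) (nat_lit 4) (nat_lit 2) (nat_lit 5) (nat_lit 2) (nat_lit 4) (nat_lit 497) (nat_lit 377) (nat_lit 326))) (XT.nd (nat_lit 78) (nat_lit 0) (nat_lit 0) (XT.lf (nat_lit 0) (nat_lit 729028655916) (nat_lit 76) (nat_lit 190048736508) (nat_lit 76) (nat_lit 188016706661) (nat_lit 1) (nat_lit 4) (nat_lit 2) (nat_lit 5) (nat_lit 2) (nat_lit 4) (nat_lit 498) (nat_lit 377) (nat_lit 325)) (XT.lf (nat_lit 0) (nat_lit 805521037434) (nat_lit 76) (nat_lit 195864008812) (nat_lit 76) (nat_lit 193829176288) (nat_lit 1) (nat_lit 4) (nat_lit 2) (nat_lit 5) (nat_lit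 2) (nat_lit 4) (nat_lit 499) (nat_lit 377) (nat_lit 324))))) (XT.nd (nat_lit 58110) (nat_lit 0) (nat_lit 1368) (XT.nd (nat_lit 78) (nat_lit 0) (nat_lit 0) (XT.lf (nat_lit 0) (nat_lit 888087037334) (nat_lit 76) (nat_lit 202167736587) (nat_lit 76) (nat_lit 200130308991) (nat_lit 1) (nat_lit 4) (nat_lit 2) (nat_lit 5) (nat_lit 2) (nat_lit 4) (nat_lit 500) (nat_lit 377) (nat_lit 323)) (XT.nd (nat_lit 78) (nat_lit 0) (nat_lit 0) (XT.lf (nat_lit 0) (nat_lit 977215935614) (nat_lit 76) (nat_lit 208997275258) (nat_lit 76) (nat_lit 206957444817) (nat_lit 1) (nat_lit 4) (nat_lit 2) (nat_lit 5) (nat_lit 2) (nat_lit 4) (nat_lit 501) (nat_lit 377) (nat_lit 322)) (XT.lf (nat_lit 0) (nat_lit 1073435903523) (nat_lit 76) (nat_lit 216393096164) (nat_lit 76) (nat_lit 214351040867) (nat_lit 1) (nat_lit 4) (nat_lit 2) (nat_lit 5) (nat_lit 2) (nat_lit 4) (nat_lit 502) (nat_lit 377) (nat_lit 321)))) (XT.nd (nat_lit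 156) (nat_lit 228) (nat_lit 0) (XT.nd (nat_lit 78) (nat_lit 76) (nat_lit 0) (XT.lf (nat_lit 0) (nat_lit 3969531289) (nat_lit 152) (nat_lit 4654243128) (nat_lit 0) (nat_lit 3969531289) (nat_lit 23) (nat_lit 5) (nat_lit 25) (nat_lit 4) (nat_lit 23) (nat_lit 4) (nat_lit 444) (nat_lit 378) (nat_lit 378)) (XT.lf (nat_lit 0) (nat_lit 17466139300) (nat_lit 76) (nat_lit 4639511832) (nat_lit 76) (nat_lit 4406511086) (nat_lit 22) (nat_lit 4) (nat_lit 23) (nat_lit 5) (nat_lit 23) (nat_lit 4) (nat_lit 445) (nat_lit 378) (nat_lit 377))) (XT.nd (nat_lit 78) (nat_lit 76) (nat_lit 0) (XT.lf (nat_lit 0) (nat_lit 9049956018) (nat_lit 152) (nat_lit 10269293468) (nat_lit 0) (nat_lit 8622582516) (nat_lit 20) (nat_lit 5) (nat_lit 22) (nat_lit 4) (nat_lit 20) (nat_lit 4) (nat_lit 446) (nat_lit 378) (nat_lit 376)) (XT.lf (nat_lit 0) (nat_lit 16399839826) (nat_lit 76) (nat_lit 6854385760) (nat_lit 76) (nat_lit 6236764083)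 (nat_lit 19) (nat_lit 4) (nat_lit 20) (nat_lit 5) (nat_lit 20) (nat_lit 4) (nat_lit 447) (nat_lit 378) (nat_lit 375))))))))
noncomputable def xc15 : XT := (XT.nd (nat_lit 2184) (nat_lit 76) (nat_lit 0) (XT.nd (nat_lit 1092) (nat_lit 380) (nat_lit 0) (XT.nd (nat_lit 546) (nat_lit 304) (nat_lit 0) (XT.nd (nat_lit 234) (nat_lit 228) (nat_lit 0) (XT.nd (nat_lit 78) (nat_lit 228) (nat_lit 0) (XT.lf (nat_lit 0) (nat_lit 7033760800) (nat_lit 152) (nat_lit 17854702793) (nat_lit 0) (nat_lit 6277782328) (nat_lit 17) (nat_lit 5) (nat_lit 19) (nat_lit 4) (nat_lit 17) (nat_lit 4) (nat_lit 448) (nat_lit 378) (nat_lit 374)) (XT.nd (nat_lit 78) (nat_lit 152) (nat_lit 0) (XT.lf (nat_lit 0) (nat_lit 8093053628) (nat_lit 76) (nat_lit 12898244776) (nat_lit 76) (nat_lit 11986926165) (nat_lit 16) (nat_lit 4) (nat_lit 17) (nat_lit 5) (nat_lit 17) (nat_lit 4) (nat_lit 449) (nat_lit 378) (nat_lit 373)) (XT.lf (nat_lit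 0) (nat_lit 594495280) (nat_lit 76) (nat_lit 210210745) (nat_lit 152) (nat_lit 34144049820) (nat_lit 14) (nat_lit 5) (nat_lit 15) (nat_lit 5) (nat_lit 16) (nat_lit 4) (nat_lit 450) (nat_lit 378) (nat_lit 372)))) (XT.nd (nat_lit 156) (nat_lit 152) (nat_lit 0) (XT.nd (nat_lit 78) (nat_lit 76) (nat_lit 0) (XT.lf (nat_lit 0) (nat_lit 14259564694) (nat_lit 152) (nat_lit 9676732311) (nat_lit 0) (nat_lit 13127820689) (nat_lit 14) (nat_lit 5) (nat_lit 16) (nat_lit 4) (nat_lit 14) (nat_lit 4) (nat_lit 451) (nat_lit 378) (nat_lit 371)) (XT.lf (nat_lit 0) (nat_lit 16382113340) (nat_lit 76) (nat_lit 12115230206) (nat_lit 76) (nat_lit 10866044286) (nat_lit 13) (nat_lit 4) (nat_lit 14) (nat_lit 5) (nat_lit 14) (nat_lit 4) (nat_lit 452) (nat_lit 378) (nat_lit 370))) (XT.nd (nat_lit 78) (nat_lit 0) (nat_lit 0) (XT.lf (nat_lit 0) (nat_lit 1633219150) (nat_lit 152) (nat_lit 39888320483) (nat_lit 0) (nat_lit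 339953975) (nat_lit 11) (nat_lit 5) (nat_lit 13) (nat_lit 4) (nat_lit 11) (nat_lit 4) (nat_lit 453) (nat_lit 378) (nat_lit 369)) (XT.lf (nat_lit 0) (nat_lit 14846305706) (nat_lit 152) (nat_lit 16242363951) (nat_lit 0) (nat_lit 13457147660) (nat_lit 11) (nat_lit 5) (nat_lit 13) (nat_lit 4) (nat_lit 11) (nat_lit 4) (nat_lit 454) (nat_lit 378) (nat_lit 368))))) (XT.nd (nat_lit 234) (nat_lit 76) (nat_lit 0) (XT.nd (nat_lit 78) (nat_lit 152) (nat_lit 0) (XT.lf (nat_lit 0) (nat_lit 8594902595) (nat_lit 76) (nat_lit 20172689449) (nat_lit 76) (nat_lit 18694741710) (nat_lit 10) (nat_lit 4) (nat_lit 11) (nat_lit 5) (nat_lit 11) (nat_lit 4) (nat_lit 455) (nat_lit 378) (nat_lit 367)) (XT.nd (nat_lit 78) (nat_lit 152) (nat_lit 0) (XT.lf (nat_lit 0) (nat_lit 35066095153) (nat_lit 76) (nat_lit 8557592790) (nat_lit 76) (nat_lit 6997432371) (nat_lit 10) (nat_lit 4) (nat_lit 11) (nat_lit 5) (nat_lit 11) (nat_lit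 4) (nat_lit 456) (nat_lit 378) (nat_lit 366)) (XT.lf (nat_lit 0) (nat_lit 5219317453) (nat_lit 152) (nat_lit 45159742533) (nat_lit 0) (nat_lit 3660952434) (nat_lit 8) (nat_lit 5) (nat_lit 10) (nat_lit 4) (nat_lit 8) (nat_lit 4) (nat_lit 457) (nat_lit 378) (nat_lit 365)))) (XT.nd (nat_lit 156) (nat_lit 0) (nat_lit 0) (XT.nd (nat_lit 78) (nat_lit 76) (nat_lit 0) (XT.lf (nat_lit 0) (nat_lit 18169044920) (nat_lit 152) (nat_lit 23014046912) (nat_lit 0) (nat_lit 16543552165) (nat_lit 8) (nat_lit 5) (nat_lit 10) (nat_lit 4) (nat_lit 8) (nat_lit 4) (nat_lit 458) (nat_lit 378) (nat_lit 364)) (XT.lf (nat_lit 0) (nat_lit 115994373) (nat_lit 76) (nat_lit 31649658895) (nat_lit 76) (nat_lit 29962010830) (nat_lit 7) (nat_lit 4) (nat_lit 8) (nat_lit 5) (nat_lit 8) (nat_lit 4) (nat_lit 459) (nat_lit 378) (nat_lit 363))) (XT.nd (nat_lit 78) (nat_lit 0) (nat_lit 0) (XT.lf (nat_lit 0) (nat_lit 25161617499) (nat_lit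 76) (nat_lit 21315497133) (nat_lit 76) (nat_lit 19570297855) (nat_lit 7) (nat_lit 4) (nat_lit 8) (nat_lit 5) (nat_lit 8) (nat_lit 4) (nat_lit 460) (nat_lit 378) (nat_lit 362)) (XT.lf (nat_lit 0) (nat_lit 51510292649) (nat_lit 76) (nat_lit 10509121090) (nat_lit 76) (nat_lit 8710633652) (nat_lit 7) (nat_lit 4) (nat_lit 8) (nat_lit 5) (nat_lit 8) (nat_lit 4) (nat_lit 461) (nat_lit 378) (nat_lit 361)))))) (XT.nd (nat_lit 546) (nat_lit 152) (nat_lit 0) (XT.nd (nat_lit 234) (nat_lit 76) (nat_lit 0) (XT.nd (nat_lit 78) (nat_lit 0) (nat_lit 0) (XT.lf (nat_lit 0) (nat_lit 2666149615) (nat_lit 152) (nat_lit 72225230183) (nat_lit 0) (nat_lit 906313112) (nat_lit 5) (nat_lit 5) (nat_lit 7) (nat_lit 4) (nat_lit 5) (nat_lit 4) (nat_lit 462) (nat_lit 378) (nat_lit 360)) (XT.nd (nat_lit 78) (nat_lit 0) (nat_lit 0) (XT.lf (nat_lit 0) (nat_lit 14853055718) (nat_lit 152) (nat_lit 53350590033) (nat_lit 0) (nat_lit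 13049708731) (nat_lit 5) (nat_lit 5) (nat_lit 7) (nat_lit 4) (nat_lit 5) (nat_lit 4) (nat_lit 463) (nat_lit 378) (nat_lit 359)) (XT.lf (nat_lit 0) (nat_lit 27721943257) (nat_lit 152) (nat_lit 33559867520) (nat_lit 0) (nat_lit 25878308785) (nat_lit 5) (nat_lit 5) (nat_lit 7) (nat_lit 4) (nat_lit 5) (nat_lit 4) (nat_lit 464) (nat_lit 378) (nat_lit 358)))) (XT.nd (nat_lit 156) (nat_lit 0) (nat_lit 0) (XT.nd (nat_lit 78) (nat_lit 76) (nat_lit 0) (XT.lf (nat_lit 0) (nat_lit 41349072306) (nat_lit 152) (nat_lit 12735784288) (nat_lit 0) (nat_lit 39468134607) (nat_lit 5) (nat_lit 5) (nat_lit 7) (nat_lit 4) (nat_lit 5) (nat_lit 4) (nat_lit 465) (nat_lit 378) (nat_lit 357)) (XT.lf (nat_lit 0) (nat_lit 9550745125) (nat_lit 76) (nat_lit 46413564995) (nat_lit 76) (nat_lit 44498087270) (nat_lit 4) (nat_lit 4) (nat_lit 5) (nat_lit 5) (nat_lit 5) (nat_lit 4) (nat_lit 466) (nat_lit 378) (nat_lit 356))) (XT.nd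 (nat_lit 78) (nat_lit 0) (nat_lit 0) (XT.lf (nat_lit 0) (nat_lit 33587951321) (nat_lit 76) (nat_lit 38142490915) (nat_lit 76) (nat_lit 36195031685) (nat_lit 4) (nat_lit 4) (nat_lit 5) (nat_lit 5) (nat_lit 5) (nat_lit 4) (nat_lit 467) (nat_lit 378) (nat_lit 355)) (XT.lf (nat_lit 0) (nat_lit 59097174457) (nat_lit 76) (nat_lit 29438307252) (nat_lit 76) (nat_lit 27461235518) (nat_lit 4) (nat_lit 4) (nat_lit 5) (nat_lit 5) (nat_lit 5) (nat_lit 4) (nat_lit 468) (nat_lit 378) (nat_lit 354))))) (XT.nd (nat_lit 234) (nat_lit 0) (nat_lit 0) (XT.nd (nat_lit 78) (nat_lit 152) (nat_lit 0) (XT.lf (nat_lit 0) (nat_lit 86229580301) (nat_lit 76) (nat_lit 20249433658) (nat_lit 76) (nat_lit 18244942938) (nat_lit 4) (nat_lit 4) (nat_lit 5) (nat_lit 5) (nat_lit 5) (nat_lit 4) (nat_lit 469) (nat_lit 378) (nat_lit 353)) (XT.nd (nat_lit 78) (nat_lit 152) (nat_lit 0) (XT.lf (nat_lit 0) (nat_lit 115145953478) (nat_lit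 76) (nat_lit 10521417550) (nat_lit 76) (nat_lit 8491538880) (nat_lit 4) (nat_lit 4) (nat_lit 5) (nat_lit 5) (nat_lit 5) (nat_lit 4) (nat_lit 470) (nat_lit 378) (nat_lit 352)) (XT.lf (nat_lit 0) (nat_lit 1685107696) (nat_lit 76) (nat_lit 138547780) (nat_lit 152) (nat_lit 142531066682) (nat_lit 2) (nat_lit 5) (nat_lit 3) (nat_lit 5) (nat_lit 4) (nat_lit 4) (nat_lit 471) (nat_lit 378) (nat_lit 351)))) (XT.nd (nat_lit 156) (nat_lit 0) (nat_lit 0) (XT.nd (nat_lit 78) (nat_lit 0) (nat_lit 0) (XT.lf (nat_lit 0) (nat_lit 13005744359) (nat_lit 152) (nat_lit 131307127717) (nat_lit 0) (nat_lit 11029409020) (nat_lit 2) (nat_lit 5) (nat_lit 4) (nat_lit 4) (nat_lit 2) (nat_lit 4) (nat_lit 472) (nat_lit 378) (nat_lit 350)) (XT.lf (nat_lit 0) (nat_lit 24923319824) (nat_lit 152) (nat_lit 119365689503) (nat_lit 0) (nat_lit 22927790416) (nat_lit 2) (nat_lit 5) (nat_lit 4) (nat_lit 4) (nat_lit 2) (nat_lit 4) (nat_lit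 473) (nat_lit 378) (nat_lit 349))) (XT.nd (nat_lit 78) (nat_lit 0) (nat_lit 0) (XT.lf (nat_lit 0) (nat_lit 37644841422) (nat_lit 152) (nat_lit 106772372623) (nat_lit 0) (nat_lit 35631539727) (nat_lit 2) (nat_lit 5) (nat_lit 4) (nat_lit 4) (nat_lit 2) (nat_lit 4) (nat_lit 474) (nat_lit 378) (nat_lit 348)) (XT.lf (nat_lit 0) (nat_lit 51245695947) (nat_lit 152) (nat_lit 93452550014) (nat_lit 0) (nat_lit 49215938431) (nat_lit 2) (nat_lit 5) (nat_lit 4) (nat_lit 4) (nat_lit 2) (nat_lit 4) (nat_lit 475) (nat_lit 378) (nat_lit 347))))))) (XT.nd (nat_lit 1092) (nat_lit 0) (nat_lit 0) (XT.nd (nat_lit 546) (nat_lit 0) (nat_lit 0) (XT.nd (nat_lit 234) (nat_lit 76) (nat_lit 0) (XT.nd (nat_lit 78) (nat_lit 0) (nat_lit 0) (XT.lf (nat_lit 0) (nat_lit 65806481055) (nat_lit 152) (nat_lit 79327289395) (nat_lit 0) (nat_lit 63761486668) (nat_lit 2) (nat_lit 5) (nat_lit 4) (nat_lit 4) (nat_lit 2) (nat_lit 4) (nat_lit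 476) (nat_lit 378) (nat_lit 346)) (XT.nd (nat_lit 78) (nat_lit 0) (nat_lit 0) (XT.lf (nat_lit 0) (nat_lit 81413482881) (nat_lit 152) (nat_lit 64312885516) (nat_lit 0) (nat_lit 79354380281) (nat_lit 2) (nat_lit 5) (nat_lit 4) (nat_lit 4) (nat_lit 2) (nat_lit 4) (nat_lit 477) (nat_lit 378) (nat_lit 345)) (XT.lf (nat_lit 0) (nat_lit 98159187362) (nat_lit 152) (nat_lit 48320364133) (nat_lit 0) (nat_lit 96087021600) (nat_lit 2) (nat_lit 5) (nat_lit 4) (nat_lit 4) (nat_lit 2) (nat_lit 4) (nat_lit 478) (nat_lit 378) (nat_lit 344)))) (XT.nd (nat_lit 156) (nat_lit 76) (nat_lit 0) (XT.nd (nat_lit 78) (nat_lit 0) (nat_lit 0) (XT.lf (nat_lit 0) (nat_lit 116142828301) (nat_lit 152) (nat_lit 31254954749) (nat_lit 0) (nat_lit 114058567020) (nat_lit 2) (nat_lit 5) (nat_lit 4) (nat_lit 4) (nat_lit 2) (nat_lit 4) (nat_lit 479) (nat_lit 378) (nat_lit 343)) (XT.lf (nat_lit 0) (nat_lit 135470975423) (nat_lit 152)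 (nat_lit 13015529012) (nat_lit 0) (nat_lit 133375514586) (nat_lit 2) (nat_lit 5) (nat_lit 4) (nat_lit 4) (nat_lit 2) (nat_lit 4) (nat_lit 480) (nat_lit 378) (nat_lit 342))) (XT.nd (nat_lit 78) (nat_lit 0) (nat_lit 0) (XT.lf (nat_lit 0) (nat_lit 6721116258) (nat_lit 76) (nat_lit 149641985098) (nat_lit 76) (nat_lit 147536154303) (nat_lit 1) (nat_lit 4) (nat_lit 2) (nat_lit 5) (nat_lit 2) (nat_lit 4) (nat_lit 481) (nat_lit 378) (nat_lit 341)) (XT.lf (nat_lit 0) (nat_lit 28332115747) (nat_lit 76) (nat_lit 150737811051) (nat_lit 76) (nat_lit 148622378442) (nat_lit 1) (nat_lit 4) (nat_lit 2) (nat_lit 5) (nat_lit 2) (nat_lit 4) (nat_lit 482) (nat_lit 378) (nat_lit 340))))) (XT.nd (nat_lit 234) (nat_lit 0) (nat_lit 0) (XT.nd (nat_lit 78) (nat_lit 0) (nat_lit 0) (XT.lf (nat_lit 0) (nat_lit 51515182467) (nat_lit 76) (nat_lit 152000900359) (nat_lit 76) (nat_lit 149876577182) (nat_lit 1) (nat_lit 4) (nat_lit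 2) (nat_lit 5) (nat_lit 2) (nat_lit 4) (nat_lit 483) (nat_lit 378) (nat_lit 339)) (XT.nd (nat_lit 78) (nat_lit 0) (nat_lit 0) (XT.lf (nat_lit 0) (nat_lit 76407697554) (nat_lit 76) (nat_lit 153438737996) (nat_lit 76) (nat_lit 151306182812) (nat_lit 1) (nat_lit 4) (nat_lit 2) (nat_lit 5) (nat_lit 2) (nat_lit 4) (nat_lit 484) (nat_lit 378) (nat_lit 338)) (XT.lf (nat_lit 0) (nat_lit 103157172209) (nat_lit 76) (nat_lit 155059844481) (nat_lit 76) (nat_lit 152919667067) (nat_lit 1) (nat_lit 4) (nat_lit 2) (nat_lit 5) (nat_lit 2) (nat_lit 4) (nat_lit 485) (nat_lit 378) (nat_lit 337)))) (XT.nd (nat_lit 156) (nat_lit 0) (nat_lit 0) (XT.nd (nat_lit 78) (nat_lit 0) (nat_lit 0) (XT.lf (nat_lit 0) (nat_lit 131922121837) (nat_lit 76) (nat_lit 156873826370) (nat_lit 76) (nat_lit 154726591338) (nat_lit 1) (nat_lit 4) (nat_lit 2) (nat_lit 5) (nat_lit 2) (nat_lit 4) (nat_lit 486) (nat_lit 378) (nat_lit 336))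 (XT.lf (nat_lit 0) (nat_lit 162873005399) (nat_lit 76) (nat_lit 158891433188) (nat_lit 76) (nat_lit 156737663322) (nat_lit 1) (nat_lit 4) (nat_lit 2) (nat_lit 5) (nat_lit 2) (nat_lit 4) (nat_lit 487) (nat_lit 378) (nat_lit 335))) (XT.nd (nat_lit 78) (nat_lit 0) (nat_lit 0) (XT.lf (nat_lit 0) (nat_lit 196193235539) (nat_lit 76) (nat_lit 161124621121) (nat_lit 76) (nat_lit 158964800484) (nat_lit 1) (nat_lit 4) (nat_lit 2) (nat_lit 5) (nat_lit 2) (nat_lit 4) (nat_lit 488) (nat_lit 378) (nat_lit 334)) (XT.lf (nat_lit 0) (nat_lit 232080265471) (nat_lit 76) (nat_lit 163586623876) (nat_lit 76) (nat_lit 161421200673) (nat_lit 1) (nat_lit 4) (nat_lit 2) (nat_lit 5) (nat_lit 2) (nat_lit 4) (nat_lit 489) (nat_lit 378) (nat_lit 333)))))) (XT.nd (nat_lit 546) (nat_lit 0) (nat_lit 0) (XT.nd (nat_lit 234) (nat_lit 0) (nat_lit 0) (XT.nd (nat_lit 78) (nat_lit 0) (nat_lit 0) (XT.lf (nat_lit 0) (nat_lit 270746759077)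 (nat_lit 76) (nat_lit 166292031099) (nat_lit 76) (nat_lit 164121420335) (nat_lit 1) (nat_lit 4) (nat_lit 2) (nat_lit 5) (nat_lit 2) (nat_lit 4) (nat_lit 490) (nat_lit 378) (nat_lit 332)) (XT.nd (nat_lit 78) (nat_lit 0) (nat_lit 0) (XT.lf (nat_lit 0) (nat_lit 312421851134) (nat_lit 76) (nat_lit 169256874834) (nat_lit 76) (nat_lit 167081460773) (nat_lit 1) (nat_lit 4) (nat_lit 2) (nat_lit 5) (nat_lit 2) (nat_lit 4) (nat_lit 491) (nat_lit 378) (nat_lit 331)) (XT.lf (nat_lit 0) (nat_lit 357352505151) (nat_lit 76) (nat_lit 172498724523) (nat_lit 76) (nat_lit 170318862965) (nat_lit 1) (nat_lit 4) (nat_lit 2) (nat_lit 5) (nat_lit 2) (nat_lit 4) (nat_lit 492) (nat_lit 378) (nat_lit 330)))) (XT.nd (nat_lit 156) (nat_lit 0) (nat_lit 0) (XT.nd (nat_lit 78) (nat_lit 0) (nat_lit 0) (XT.lf (nat_lit 0) (nat_lit 405804976854) (nat_lit 76) (nat_lit 176036791129) (nat_lit 76) (nat_lit 173852811517) (nat_lit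 1) (nat_lit 4) (nat_lit 2) (nat_lit 5) (nat_lit 2) (nat_lit 4) (nat_lit 493) (nat_lit 378) (nat_lit 329)) (XT.lf (nat_lit 0) (nat_lit 458066392002) (nat_lit 76) (nat_lit 179892040972) (nat_lit 76) (nat_lit 177704248348) (nat_lit 1) (nat_lit 4) (nat_lit 2) (nat_lit 5) (nat_lit 2) (nat_lit 4) (nat_lit 494) (nat_lit 378) (nat_lit 328))) (XT.nd (nat_lit 78) (nat_lit 0) (nat_lit 0) (XT.lf (nat_lit 0) (nat_lit 514446447871) (nat_lit 76) (nat_lit 184087319978) (nat_lit 76) (nat_lit 181895996787) (nat_lit 1) (nat_lit 4) (nat_lit 2) (nat_lit 5) (nat_lit 2) (nat_lit 4) (nat_lit 495) (nat_lit 378) (nat_lit 327)) (XT.lf (nat_lit 0) (nat_lit 575279248494) (nat_lit 76) (nat_lit 188647489057) (nat_lit 76) (nat_lit 186452896823) (nat_lit 1) (nat_lit 4) (nat_lit 2) (nat_lit 5) (nat_lit 2) (nat_lit 4) (nat_lit 496) (nat_lit 378) (nat_lit 326))))) (XT.nd (nat_lit 312) (nat_lit 0) (nat_lit 0) (XT.nd (nat_lit 156)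 (nat_lit 0) (nat_lit 0) (XT.nd (nat_lit 78) (nat_lit 0) (nat_lit 0) (XT.lf (nat_lit 0) (nat_lit 640925284542) (nat_lit 76) (nat_lit 193599571436) (nat_lit 76) (nat_lit 191401952310) (nat_lit 1) (nat_lit 4) (nat_lit 2) (nat_lit 5) (nat_lit 2) (nat_lit 4) (nat_lit 497) (nat_lit 378) (nat_lit 325)) (XT.lf (nat_lit 0) (nat_lit 711773569563) (nat_lit 76) (nat_lit 198972912787) (nat_lit 76) (nat_lit 196772490982) (nat_lit 1) (nat_lit 4) (nat_lit 2) (nat_lit 5) (nat_lit 2) (nat_lit 4) (nat_lit 498) (nat_lit 378) (nat_lit 324))) (XT.nd (nat_lit 78) (nat_lit 0) (nat_lit 0) (XT.lf (nat_lit 0) (nat_lit 788243945245) (nat_lit 76) (nat_lit 204799355133) (nat_lit 76) (nat_lit 202596338256) (nat_lit 1) (nat_lit 4) (nat_lit 2) (nat_lit 5) (nat_lit 2) (nat_lit 4) (nat_lit 499) (nat_lit 378) (nat_lit 323)) (XT.lf (nat_lit 0) (nat_lit 870789569370) (nat_lit 76) (nat_lit 211113425539) (nat_lit 76) (nat_lit 208908005818)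 (nat_lit 1) (nat_lit 4) (nat_lit 2) (nat_lit 5) (nat_lit 2) (nat_lit 4) (nat_lit 500) (nat_lit 378) (nat_lit 322)))) (XT.nd (nat_lit 57876) (nat_lit 0) (nat_lit 1824) (XT.nd (nat_lit 78) (nat_lit 0) (nat_lit 0) (XT.lf (nat_lit 0) (nat_lit 959899601192) (nat_lit 76) (nat_lit 217952540720) (nat_lit 76) (nat_lit 215744896143) (nat_lit 1) (nat_lit 4) (nat_lit 2) (nat_lit 5) (nat_lit 2) (nat_lit 4) (nat_lit 501) (nat_lit 378) (nat_lit 321)) (XT.lf (nat_lit 0) (nat_lit 1056102100159) (nat_lit 76) (nat_lit 225357228765) (nat_lit 76) (nat_lit 223147524136) (nat_lit 1) (nat_lit 4) (nat_lit 2) (nat_lit 5) (nat_lit 2) (nat_lit 4) (nat_lit 502) (nat_lit 378) (nat_lit 320))) (XT.nd (nat_lit 78) (nat_lit 76) (nat_lit 0) (XT.lf (nat_lit 0) (nat_lit 2560732623) (nat_lit 152) (nat_lit 6284341899) (nat_lit 0) (nat_lit 2560732623) (nat_lit 26) (nat_lit 5) (nat_lit 28) (nat_lit 4) (nat_lit 26) (nat_lit 4) (nat_lit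 442) (nat_lit 379) (nat_lit 379)) (XT.lf (nat_lit 0) (nat_lit 13221329650) (nat_lit 76) (nat_lit 5502638281) (nat_lit 76) (nat_lit 5238415436) (nat_lit 25) (nat_lit 4) (nat_lit 26) (nat_lit 5) (nat_lit 26) (nat_lit 4) (nat_lit 443) (nat_lit 379) (nat_lit 378))))))))
noncomputable def xc16 : XT := (XT.nd (nat_lit 2184) (nat_lit 228) (nat_lit 0) (XT.nd (nat_lit 1092) (nat_lit 380) (nat_lit 0) (XT.nd (nat_lit 546) (nat_lit 532) (nat_lit 0) (XT.nd (nat_lit 234) (nat_lit 304) (nat_lit 0) (XT.nd (nat_lit 78) (nat_lit 228) (nat_lit 0) (XT.lf (nat_lit 0) (nat_lit 7848667713) (nat_lit 152) (nat_lit 9991024964) (nat_lit 0) (nat_lit 7364026162) (nat_lit 23) (nat_lit 5) (nat_lit 25) (nat_lit 4) (nat_lit 23) (nat_lit 4) (nat_lit 444) (nat_lit 379) (nat_lit 377)) (XT.nd (nat_lit 78) (nat_lit 152) (nat_lit 0) (XT.lf (nat_lit 0) (nat_lit 16108156375) (nat_lit 76) (nat_lit 5569198278) (nat_lit 76) (nat_lit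 4868815297) (nat_lit 22) (nat_lit 4) (nat_lit 23) (nat_lit 5) (nat_lit 23) (nat_lit 4) (nat_lit 445) (nat_lit 379) (nat_lit 376)) (XT.lf (nat_lit 0) (nat_lit 8242597861) (nat_lit 152) (nat_lit 12366281628) (nat_lit 0) (nat_lit 7385318274) (nat_lit 20) (nat_lit 5) (nat_lit 22) (nat_lit 4) (nat_lit 20) (nat_lit 4) (nat_lit 446) (nat_lit 379) (nat_lit 375)))) (XT.nd (nat_lit 156) (nat_lit 76) (nat_lit 0) (XT.nd (nat_lit 78) (nat_lit 152) (nat_lit 0) (XT.lf (nat_lit 0) (nat_lit 13615645016) (nat_lit 76) (nat_lit 8489127369) (nat_lit 76) (nat_lit 7455692064) (nat_lit 19) (nat_lit 4) (nat_lit 20) (nat_lit 5) (nat_lit 20) (nat_lit 4) (nat_lit 447) (nat_lit 379) (nat_lit 374)) (XT.lf (nat_lit 0) (nat_lit 5477332584) (nat_lit 152) (nat_lit 21440400755) (nat_lit 0) (nat_lit 4337768345) (nat_lit 17) (nat_lit 5) (nat_lit 19) (nat_lit 4) (nat_lit 17) (nat_lit 4) (nat_lit 448) (nat_lit 379) (nat_lit 373)))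 (XT.nd (nat_lit 78) (nat_lit 0) (nat_lit 0) (XT.lf (nat_lit 0) (nat_lit 3804153176) (nat_lit 76) (nat_lit 15282080093) (nat_lit 76) (nat_lit 13998682391) (nat_lit 16) (nat_lit 4) (nat_lit 17) (nat_lit 5) (nat_lit 17) (nat_lit 4) (nat_lit 449) (nat_lit 379) (nat_lit 372)) (XT.lf (nat_lit 0) (nat_lit 30707921873) (nat_lit 76) (nat_lit 2889336894) (nat_lit 76) (nat_lit 1472760060) (nat_lit 16) (nat_lit 4) (nat_lit 17) (nat_lit 5) (nat_lit 17) (nat_lit 4) (nat_lit 450) (nat_lit 379) (nat_lit 371))))) (XT.nd (nat_lit 234) (nat_lit 304) (nat_lit 0) (XT.nd (nat_lit 78) (nat_lit 76) (nat_lit 0) (XT.lf (nat_lit 0) (nat_lit 11650136257) (nat_lit 152) (nat_lit 15371778404) (nat_lit 0) (nat_lit 10183573548) (nat_lit 14) (nat_lit 5) (nat_lit 16) (nat_lit 4) (nat_lit 14) (nat_lit 4) (nat_lit 451) (nat_lit 379) (nat_lit 370)) (XT.nd (nat_lit 78) (nat_lit 0) (nat_lit 0) (XT.lf (nat_lit 0) (nat_lit 9986613539)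 (nat_lit 76) (nat_lit 15555374508) (nat_lit 76) (nat_lit 13980069285) (nat_lit 13) (nat_lit 4) (nat_lit 14) (nat_lit 5) (nat_lit 14) (nat_lit 4) (nat_lit 452) (nat_lit 379) (nat_lit 369)) (XT.lf (nat_lit 0) (nat_lit 36936235579) (nat_lit 76) (nat_lit 3387396018) (nat_lit 76) (nat_lit 1711403281) (nat_lit 13) (nat_lit 4) (nat_lit 14) (nat_lit 5) (nat_lit 14) (nat_lit 4) (nat_lit 453) (nat_lit 379) (nat_lit 368)))) (XT.nd (nat_lit 156) (nat_lit 76) (nat_lit 0) (XT.nd (nat_lit 78) (nat_lit 76) (nat_lit 0) (XT.lf (nat_lit 0) (nat_lit 11187755604) (nat_lit 152) (nat_lit 24048593935) (nat_lit 0) (nat_lit 9502782352) (nat_lit 11) (nat_lit 5) (nat_lit 13) (nat_lit 4) (nat_lit 11) (nat_lit 4) (nat_lit 454) (nat_lit 379) (nat_lit 367)) (XT.lf (nat_lit 0) (nat_lit 81974504) (nat_lit 76) (nat_lit 24679129326) (nat_lit 76) (nat_lit 22911943394) (nat_lit 10) (nat_lit 4) (nat_lit 11) (nat_lit 5) (nat_lit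 11) (nat_lit 4) (nat_lit 455) (nat_lit 379) (nat_lit 366))) (XT.nd (nat_lit 78) (nat_lit 76) (nat_lit 0) (XT.lf (nat_lit 0) (nat_lit 26137806978) (nat_lit 76) (nat_lit 13273808327) (nat_lit 76) (nat_lit 11430499543) (nat_lit 10) (nat_lit 4) (nat_lit 11) (nat_lit 5) (nat_lit 11) (nat_lit 4) (nat_lit 456) (nat_lit 379) (nat_lit 365)) (XT.lf (nat_lit 0) (nat_lit 535996413) (nat_lit 152) (nat_lit 815000258) (nat_lit 76) (nat_lit 52933079526) (nat_lit 9) (nat_lit 5) (nat_lit 11) (nat_lit 5) (nat_lit 10) (nat_lit 4) (nat_lit 457) (nat_lit 379) (nat_lit 364)))))) (XT.nd (nat_lit 546) (nat_lit 76) (nat_lit 0) (XT.nd (nat_lit 234) (nat_lit 152) (nat_lit 0) (XT.nd (nat_lit 78) (nat_lit 76) (nat_lit 0) (XT.lf (nat_lit 0) (nat_lit 13263333686) (nat_lit 152) (nat_lit 33339976636) (nat_lit 0) (nat_lit 11378518466) (nat_lit 8) (nat_lit 5) (nat_lit 10) (nat_lit 4) (nat_lit 8) (nat_lit 4) (nat_lit 458) (nat_lit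 379) (nat_lit 363)) (XT.nd (nat_lit 78) (nat_lit 76) (nat_lit 0) (XT.lf (nat_lit 0) (nat_lit 26684115585) (nat_lit 152) (nat_lit 10565776869) (nat_lit 0) (nat_lit 24741749151) (nat_lit 8) (nat_lit 5) (nat_lit 10) (nat_lit 4) (nat_lit 8) (nat_lit 4) (nat_lit 459) (nat_lit 379) (nat_lit 362)) (XT.lf (nat_lit 0) (nat_lit 13793668078) (nat_lit 76) (nat_lit 27265108899) (nat_lit 76) (nat_lit 25269454306) (nat_lit 7) (nat_lit 4) (nat_lit 8) (nat_lit 5) (nat_lit 8) (nat_lit 4) (nat_lit 460) (nat_lit 379) (nat_lit 361)))) (XT.nd (nat_lit 156) (nat_lit 152) (nat_lit 0) (XT.nd (nat_lit 78) (nat_lit 0) (nat_lit 0) (XT.lf (nat_lit 0) (nat_lit 39830467414) (nat_lit 76) (nat_lit 16616549212) (nat_lit 76) (nat_lit 14571553729) (nat_lit 7) (nat_lit 4) (nat_lit 8) (nat_lit 5) (nat_lit 8) (nat_lit 4) (nat_lit 461) (nat_lit 379) (nat_lit 360)) (XT.lf (nat_lit 0) (nat_lit 67349560981) (nat_lit 76) (nat_lit 5420047359)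 (nat_lit 76) (nat_lit 3329365868) (nat_lit 7) (nat_lit 4) (nat_lit 8) (nat_lit 5) (nat_lit 8) (nat_lit 4) (nat_lit 462) (nat_lit 379) (nat_lit 359))) (XT.nd (nat_lit 78) (nat_lit 0) (nat_lit 0) (XT.lf (nat_lit 0) (nat_lit 8595194135) (nat_lit 152) (nat_lit 66416705569) (nat_lit 0) (nat_lit 6563781419) (nat_lit 5) (nat_lit 5) (nat_lit 7) (nat_lit 4) (nat_lit 5) (nat_lit 4) (nat_lit 463) (nat_lit 379) (nat_lit 358)) (XT.lf (nat_lit 0) (nat_lit 21333663648) (nat_lit 152) (nat_lit 46890356653) (nat_lit 0) (nat_lit 19264947705) (nat_lit 5) (nat_lit 5) (nat_lit 7) (nat_lit 4) (nat_lit 5) (nat_lit 4) (nat_lit 464) (nat_lit 379) (nat_lit 357))))) (XT.nd (nat_lit 234) (nat_lit 0) (nat_lit 0) (XT.nd (nat_lit 78) (nat_lit 76) (nat_lit 0) (XT.lf (nat_lit 0) (nat_lit 34840035267) (nat_lit 152) (nat_lit 26311063789) (nat_lit 0) (nat_lit 32736779298) (nat_lit 5) (nat_lit 5) (nat_lit 7) (nat_lit 4) (nat_lit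 5) (nat_lit 4) (nat_lit 465) (nat_lit 379) (nat_lit 356)) (XT.nd (nat_lit 78) (nat_lit 76) (nat_lit 0) (XT.lf (nat_lit 0) (nat_lit 49194346747) (nat_lit 152) (nat_lit 4556875613) (nat_lit 0) (nat_lit 47059109274) (nat_lit 5) (nat_lit 5) (nat_lit 7) (nat_lit 4) (nat_lit 5) (nat_lit 4) (nat_lit 466) (nat_lit 379) (nat_lit 355)) (XT.lf (nat_lit 0) (nat_lit 19112852216) (nat_lit 76) (nat_lit 45667213647) (nat_lit 76) (nat_lit 43502363669) (nat_lit 4) (nat_lit 4) (nat_lit 5) (nat_lit 5) (nat_lit 5) (nat_lit 4) (nat_lit 467) (nat_lit 379) (nat_lit 354)))) (XT.nd (nat_lit 156) (nat_lit 0) (nat_lit 0) (XT.nd (nat_lit 78) (nat_lit 0) (nat_lit 0) (XT.lf (nat_lit 0) (nat_lit 44421327687) (nat_lit 76) (nat_lit 37064782273) (nat_lit 76) (nat_lit 34872513310) (nat_lit 4) (nat_lit 4) (nat_lit 5) (nat_lit 5) (nat_lit 5) (nat_lit 4) (nat_lit 468) (nat_lit 379) (nat_lit 353)) (XT.lf (nat_lit 0) (nat_lit 71367856063)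 (nat_lit 76) (nat_lit 27970123763) (nat_lit 76) (nat_lit 25752466850) (nat_lit 4) (nat_lit 4) (nat_lit 5) (nat_lit 5) (nat_lit 5) (nat_lit 4) (nat_lit 469) (nat_lit 379) (nat_lit 352))) (XT.nd (nat_lit 78) (nat_lit 0) (nat_lit 0) (XT.lf (nat_lit 0) (nat_lit 100112120473) (nat_lit 76) (nat_lit 18329343843) (nat_lit 76) (nat_lit 16088179569) (nat_lit 4) (nat_lit 4) (nat_lit 5) (nat_lit 5) (nat_lit 5) (nat_lit 4) (nat_lit 470) (nat_lit 379) (nat_lit 351)) (XT.lf (nat_lit 0) (nat_lit 130824457301) (nat_lit 76) (nat_lit 8085311965) (nat_lit 76) (nat_lit 5822381616) (nat_lit 4) (nat_lit 4) (nat_lit 5) (nat_lit 5) (nat_lit 5) (nat_lit 4) (nat_lit 471) (nat_lit 379) (nat_lit 350))))))) (XT.nd (nat_lit 1092) (nat_lit 0) (nat_lit 0) (XT.nd (nat_lit 546) (nat_lit 76) (nat_lit 0) (XT.nd (nat_lit 234) (nat_lit 0) (nat_lit 0) (XT.nd (nat_lit 78) (nat_lit 0) (nat_lit 0) (XT.lf (nat_lit 0) (nat_lit 5116389421)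 (nat_lit 152) (nat_lit 147687325979) (nat_lit 0) (nat_lit 2942023591) (nat_lit 2) (nat_lit 5) (nat_lit 4) (nat_lit 4) (nat_lit 2) (nat_lit 4) (nat_lit 472) (nat_lit 379) (nat_lit 349)) (XT.nd (nat_lit 78) (nat_lit 0) (nat_lit 0) (XT.lf (nat_lit 0) (nat_lit 16962109163) (nat_lit 152) (nat_lit 135891770646) (nat_lit 0) (nat_lit 14769971046) (nat_lit 2) (nat_lit 5) (nat_lit 4) (nat_lit 4) (nat_lit 2) (nat_lit 4) (nat_lit 473) (nat_lit 379) (nat_lit 348)) (XT.lf (nat_lit 0) (nat_lit 29617097683) (nat_lit 152) (nat_lit 123433530507) (nat_lit 0) (nat_lit 27408503746) (nat_lit 2) (nat_lit 5) (nat_lit 4) (nat_lit 4) (nat_lit 2) (nat_lit 4) (nat_lit 474) (nat_lit 379) (nat_lit 347)))) (XT.nd (nat_lit 156) (nat_lit 0) (nat_lit 0) (XT.nd (nat_lit 78) (nat_lit 0) (nat_lit 0) (XT.lf (nat_lit 0) (nat_lit 43156347507) (nat_lit 152) (nat_lit 110238778955) (nat_lit 0) (nat_lit 40932516698) (nat_lit 2) (nat_lit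 5) (nat_lit 4) (nat_lit 4) (nat_lit 2) (nat_lit 4) (nat_lit 475) (nat_lit 379) (nat_lit 346)) (XT.lf (nat_lit 0) (nat_lit 57660091226) (nat_lit 152) (nat_lit 96229324869) (nat_lit 0) (nat_lit 55422152203) (nat_lit 2) (nat_lit 5) (nat_lit 4) (nat_lit 4) (nat_lit 2) (nat_lit 4) (nat_lit 476) (nat_lit 379) (nat_lit 345))) (XT.nd (nat_lit 78) (nat_lit 0) (nat_lit 0) (XT.lf (nat_lit 0) (nat_lit 73214276950) (nat_lit 152) (nat_lit 81322149263) (nat_lit 0) (nat_lit 70963274766) (nat_lit 2) (nat_lit 5) (nat_lit 4) (nat_lit 4) (nat_lit 2) (nat_lit 4) (nat_lit 477) (nat_lit 379) (nat_lit 344)) (XT.lf (nat_lit 0) (nat_lit 89911077633) (nat_lit 152) (nat_lit 65428913317) (nat_lit 0) (nat_lit 87647979929) (nat_lit 2) (nat_lit 5) (nat_lit 4) (nat_lit 4) (nat_lit 2) (nat_lit 4) (nat_lit 478) (nat_lit 379) (nat_lit 343))))) (XT.nd (nat_lit 234) (nat_lit 76) (nat_lit 0) (XT.nd (nat_lit 78) (nat_lit 0) (nat_lit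 0) (XT.lf (nat_lit 0) (nat_lit 107849437278) (nat_lit 152) (nat_lit 48455434894) (nat_lit 0) (nat_lit 105575140019) (nat_lit 2) (nat_lit 5) (nat_lit 4) (nat_lit 4) (nat_lit 2) (nat_lit 4) (nat_lit 479) (nat_lit 379) (nat_lit 342)) (XT.nd (nat_lit 78) (nat_lit 0) (nat_lit 0) (XT.lf (nat_lit 0) (nat_lit 127135657275) (nat_lit 152) (nat_lit 30301130416) (nat_lit 0) (nat_lit 124850990058) (nat_lit 2) (nat_lit 5) (nat_lit 4) (nat_lit 4) (nat_lit 2) (nat_lit 4) (nat_lit 480) (nat_lit 379) (nat_lit 341)) (XT.lf (nat_lit 0) (nat_lit 147884026337) (nat_lit 152) (nat_lit 10858418820) (nat_lit 0) (nat_lit 145589757306) (nat_lit 2) (nat_lit 5) (nat_lit 4) (nat_lit 4) (nat_lit 2) (nat_lit 4) (nat_lit 481) (nat_lit 379) (nat_lit 340)))) (XT.nd (nat_lit 156) (nat_lit 0) (nat_lit 0) (XT.nd (nat_lit 78) (nat_lit 0) (nat_lit 0) (XT.lf (nat_lit 0) (nat_lit 10318161569) (nat_lit 76) (nat_lit 160060431610) (nat_lit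 76) (nat_lit 157757272011) (nat_lit 1) (nat_lit 4) (nat_lit 2) (nat_lit 5) (nat_lit 2) (nat_lit 4) (nat_lit 482) (nat_lit 379) (nat_lit 339)) (XT.lf (nat_lit 0) (nat_lit 33431422053) (nat_lit 76) (nat_lit 161358954179) (nat_lit 76) (nat_lit 159047562573) (nat_lit 1) (nat_lit 4) (nat_lit 2) (nat_lit 5) (nat_lit 2) (nat_lit 4) (nat_lit 483) (nat_lit 379) (nat_lit 338))) (XT.nd (nat_lit 78) (nat_lit 0) (nat_lit 0) (XT.lf (nat_lit 0) (nat_lit 58259301737) (nat_lit 76) (nat_lit 162829600392) (nat_lit 76) (nat_lit 160510586556) (nat_lit 1) (nat_lit 4) (nat_lit 2) (nat_lit 5) (nat_lit 2) (nat_lit 4) (nat_lit 484) (nat_lit 379) (nat_lit 337)) (XT.lf (nat_lit 0) (nat_lit 84948928796) (nat_lit 76) (nat_lit 164481085187) (nat_lit 76) (nat_lit 162155013732) (nat_lit 1) (nat_lit 4) (nat_lit 2) (nat_lit 5) (nat_lit 2) (nat_lit 4) (nat_lit 485) (nat_lit 379) (nat_lit 336)))))) (XT.nd (nat_lit 546) (nat_lit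 0) (nat_lit 0) (XT.nd (nat_lit 234) (nat_lit 0) (nat_lit 0) (XT.nd (nat_lit 78) (nat_lit 0) (nat_lit 0) (XT.lf (nat_lit 0) (nat_lit 113658463983) (nat_lit 76) (nat_lit 166323195142) (nat_lit 76) (nat_lit 163990588854) (nat_lit 1) (nat_lit 4) (nat_lit 2) (nat_lit 5) (nat_lit 2) (nat_lit 4) (nat_lit 486) (nat_lit 379) (nat_lit 335)) (XT.nd (nat_lit 78) (nat_lit 0) (nat_lit 0) (XT.lf (nat_lit 0) (nat_lit 144558037878) (nat_lit 76) (nat_lit 168366846465) (nat_lit 76) (nat_lit 166028189406) (nat_lit 1) (nat_lit 4) (nat_lit 2) (nat_lit 5) (nat_lit 2) (nat_lit 4) (nat_lit 487) (nat_lit 379) (nat_lit 334)) (XT.lf (nat_lit 0) (nat_lit 177830759067) (nat_lit 76) (nat_lit 170624149680) (nat_lit 76) (nat_lit 168279890055) (nat_lit 1) (nat_lit 4) (nat_lit 2) (nat_lit 5) (nat_lit 2) (nat_lit 4) (nat_lit 488) (nat_lit 379) (nat_lit 333)))) (XT.nd (nat_lit 156) (nat_lit 0) (nat_lit 0) (XT.nd (nat_lit 78) (nat_lit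 0) (nat_lit 0) (XT.lf (nat_lit 0) (nat_lit 213673799229) (nat_lit 76) (nat_lit 173108481401) (nat_lit 76) (nat_lit 170759034215) (nat_lit 1) (nat_lit 4) (nat_lit 2) (nat_lit 5) (nat_lit 2) (nat_lit 4) (nat_lit 489) (nat_lit 379) (nat_lit 332)) (XT.lf (nat_lit 0) (nat_lit 252299561567) (nat_lit 76) (nat_lit 175834563592) (nat_lit 76) (nat_lit 173480313109) (nat_lit 1) (nat_lit 4) (nat_lit 2) (nat_lit 5) (nat_lit 2) (nat_lit 4) (nat_lit 490) (nat_lit 379) (nat_lit 331))) (XT.nd (nat_lit 78) (nat_lit 0) (nat_lit 0) (XT.lf (nat_lit 0) (nat_lit 293936939487) (nat_lit 76) (nat_lit 178818550815) (nat_lit 76) (nat_lit 176459852834) (nat_lit 1) (nat_lit 4) (nat_lit 2) (nat_lit 5) (nat_lit 2) (nat_lit 4) (nat_lit 491) (nat_lit 379) (nat_lit 330)) (XT.lf (nat_lit 0) (nat_lit 338832673006) (nat_lit 76) (nat_lit 182078125957) (nat_lit 76) (nat_lit 179715309923) (nat_lit 1) (nat_lit 4) (nat_lit 2) (nat_lit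 5) (nat_lit 2) (nat_lit 4) (nat_lit 492) (nat_lit 379) (nat_lit 329))))) (XT.nd (nat_lit 234) (nat_lit 0) (nat_lit 0) (XT.nd (nat_lit 78) (nat_lit 0) (nat_lit 0) (XT.lf (nat_lit 0) (nat_lit 387252810916) (nat_lit 76) (nat_lit 185632605019) (nat_lit 76) (nat_lit 183265975973) (nat_lit 1) (nat_lit 4) (nat_lit 2) (nat_lit 5) (nat_lit 2) (nat_lit 4) (nat_lit 493) (nat_lit 379) (nat_lit 328)) (XT.nd (nat_lit 78) (nat_lit 0) (nat_lit 0) (XT.lf (nat_lit 0) (nat_lit 439484287366) (nat_lit 76) (nat_lit 189503051581) (nat_lit 76) (nat_lit 187132891968) (nat_lit 1) (nat_lit 4) (nat_lit 2) (nat_lit 5) (nat_lit 2) (nat_lit 4) (nat_lit 494) (nat_lit 379) (nat_lit 327)) (XT.lf (nat_lit 0) (nat_lit 495836622218) (nat_lit 76) (nat_lit 193712401622) (nat_lit 76) (nat_lit 191338972965) (nat_lit 1) (nat_lit 4) (nat_lit 2) (nat_lit 5) (nat_lit 2) (nat_lit 4) (nat_lit 495) (nat_lit 379) (nat_lit 326)))) (XT.nd (nat_lit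 156) (nat_lit 0) (nat_lit 0) (XT.nd (nat_lit 78) (nat_lit 0) (nat_lit 0) (XT.lf (nat_lit 0) (nat_lit 556643755233) (nat_lit 76) (nat_lit 198285599438) (nat_lit 76) (nat_lit 195909143890) (nat_lit 1) (nat_lit 4) (nat_lit 2) (nat_lit 5) (nat_lit 2) (nat_lit 4) (nat_lit 496) (nat_lit 379) (nat_lit 325)) (XT.lf (nat_lit 0) (nat_lit 622266024978) (nat_lit 76) (nat_lit 203249745462) (nat_lit 76) (nat_lit 200870487236) (nat_lit 1) (nat_lit 4) (nat_lit 2) (nat_lit 5) (nat_lit 2) (nat_lit 4) (nat_lit 497) (nat_lit 379) (nat_lit 324))) (XT.nd (nat_lit 78) (nat_lit 0) (nat_lit 0) (XT.lf (nat_lit 0) (nat_lit 693092304162) (nat_lit 76) (nat_lit 208634256855) (nat_lit 76) (nat_lit 206252403556) (nat_lit 1) (nat_lit 4) (nat_lit 2) (nat_lit 5) (nat_lit 2) (nat_lit 4) (nat_lit 498) (nat_lit 379) (nat_lit 323)) (XT.lf (nat_lit 0) (nat_lit 769542304069) (nat_lit 76) (nat_lit 214471041832) (nat_lit 76) (nat_lit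 212086785689) (nat_lit 1) (nat_lit 4) (nat_lit 2) (nat_lit 5) (nat_lit 2) (nat_lit 4) (nat_lit 499) (nat_lit 379) (nat_lit 322))))))))
noncomputable def xc17 : XT := (XT.nd (nat_lit 59748) (nat_lit 0) (nat_lit 0) (XT.nd (nat_lit 58656) (nat_lit 0) (nat_lit 304) (XT.nd (nat_lit 58110) (nat_lit 0) (nat_lit 1140) (XT.nd (nat_lit 57798) (nat_lit 0) (nat_lit 1824) (XT.nd (nat_lit 78) (nat_lit 0) (nat_lit 0) (XT.lf (nat_lit 0) (nat_lit 852069061736) (nat_lit 76) (nat_lit 220794688749) (nat_lit 76) (nat_lit 218408207750) (nat_lit 1) (nat_lit 4) (nat_lit 2) (nat_lit 5) (nat_lit 2) (nat_lit 4) (nat_lit 500) (nat_lit 379) (nat_lit 321)) (XT.nd (nat_lit 78) (nat_lit 0) (nat_lit 0) (XT.lf (nat_lit 0) (nat_lit 941161624615) (nat_lit 76) (nat_lit 227642671069) (nat_lit 76) (nat_lit 225254130018) (nat_lit 1) (nat_lit 4) (nat_lit 2) (nat_lit 5) (nat_lit 2) (nat_lit 4) (nat_lit 501) (nat_lit 379) (nat_lit 320))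 (XT.lf (nat_lit 0) (nat_lit 1037347948635) (nat_lit 76) (nat_lit 235055569428) (nat_lit 76) (nat_lit 232665120922) (nat_lit 1) (nat_lit 4) (nat_lit 2) (nat_lit 5) (nat_lit 2) (nat_lit 4) (nat_lit 502) (nat_lit 379) (nat_lit 319)))) (XT.nd (nat_lit 156) (nat_lit 228) (nat_lit 0) (XT.nd (nat_lit 78) (nat_lit 76) (nat_lit 0) (XT.lf (nat_lit 0) (nat_lit 654403887) (nat_lit 152) (nat_lit 9062405754) (nat_lit 0) (nat_lit 654403887) (nat_lit 29) (nat_lit 5) (nat_lit 31) (nat_lit 4) (nat_lit 29) (nat_lit 4) (nat_lit 440) (nat_lit 380) (nat_lit 380)) (XT.lf (nat_lit 0) (nat_lit 6422101460) (nat_lit 76) (nat_lit 7810952408) (nat_lit 76) (nat_lit 7511323702) (nat_lit 28) (nat_lit 4) (nat_lit 29) (nat_lit 5) (nat_lit 29) (nat_lit 4) (nat_lit 441) (nat_lit 380) (nat_lit 379))) (XT.nd (nat_lit 78) (nat_lit 76) (nat_lit 0) (XT.lf (nat_lit 0) (nat_lit 5070832903) (nat_lit 152) (nat_lit 13236338052) (nat_lit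 0) (nat_lit 4521249384) (nat_lit 26) (nat_lit 5) (nat_lit 28) (nat_lit 4) (nat_lit 26) (nat_lit 4) (nat_lit 442) (nat_lit 380) (nat_lit 378)) (XT.lf (nat_lit 0) (nat_lit 11892960917) (nat_lit 76) (nat_lit 6448530468) (nat_lit 76) (nat_lit 5654296167) (nat_lit 25) (nat_lit 4) (nat_lit 26) (nat_lit 5) (nat_lit 26) (nat_lit 4) (nat_lit 443) (nat_lit 380) (nat_lit 377))))) (XT.nd (nat_lit 234) (nat_lit 304) (nat_lit 0) (XT.nd (nat_lit 78) (nat_lit 228) (nat_lit 0) (XT.lf (nat_lit 0) (nat_lit 7092305894) (nat_lit 152) (nat_lit 12042685759) (nat_lit 0) (nat_lit 6120150843) (nat_lit 23) (nat_lit 5) (nat_lit 25) (nat_lit 4) (nat_lit 23) (nat_lit 4) (nat_lit 444) (nat_lit 380) (nat_lit 376)) (XT.nd (nat_lit 78) (nat_lit 152) (nat_lit 0) (XT.lf (nat_lit 0) (nat_lit 13384143218) (nat_lit 76) (nat_lit 7201079680) (nat_lit 76) (nat_lit 6029164044) (nat_lit 22) (nat_lit 4) (nat_lit 23) (nat_lit 5) (nat_lit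 23) (nat_lit 4) (nat_lit 445) (nat_lit 380) (nat_lit 375)) (XT.lf (nat_lit 0) (nat_lit 6749509053) (nat_lit 152) (nat_lit 15875066501) (nat_lit 0) (nat_lit 5457243205) (nat_lit 20) (nat_lit 5) (nat_lit 22) (nat_lit 4) (nat_lit 20) (nat_lit 4) (nat_lit 446) (nat_lit 380) (nat_lit 374)))) (XT.nd (nat_lit 156) (nat_lit 76) (nat_lit 0) (XT.nd (nat_lit 78) (nat_lit 152) (nat_lit 0) (XT.lf (nat_lit 0) (nat_lit 9418741320) (nat_lit 76) (nat_lit 10850911308) (nat_lit 76) (nat_lit 9395538314) (nat_lit 19) (nat_lit 4) (nat_lit 20) (nat_lit 5) (nat_lit 20) (nat_lit 4) (nat_lit 447) (nat_lit 380) (nat_lit 373)) (XT.lf (nat_lit 0) (nat_lit 3210505772) (nat_lit 152) (nat_lit 26490090806) (nat_lit 0) (nat_lit 1680602792) (nat_lit 17) (nat_lit 5) (nat_lit 19) (nat_lit 4) (nat_lit 17) (nat_lit 4) (nat_lit 448) (nat_lit 380) (nat_lit 372))) (XT.nd (nat_lit 78) (nat_lit 76) (nat_lit 0) (XT.lf (nat_lit 0) (nat_lit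 16499202630) (nat_lit 152) (nat_lit 1891303616) (nat_lit 0) (nat_lit 14836120517) (nat_lit 17) (nat_lit 5) (nat_lit 19) (nat_lit 4) (nat_lit 17) (nat_lit 4) (nat_lit 449) (nat_lit 380) (nat_lit 371)) (XT.lf (nat_lit 0) (nat_lit 24448692796) (nat_lit 76) (nat_lit 6281713663) (nat_lit 76) (nat_lit 4495317540) (nat_lit 16) (nat_lit 4) (nat_lit 17) (nat_lit 5) (nat_lit 17) (nat_lit 4) (nat_lit 450) (nat_lit 380) (nat_lit 370)))))) (XT.nd (nat_lit 546) (nat_lit 380) (nat_lit 0) (XT.nd (nat_lit 234) (nat_lit 228) (nat_lit 0) (XT.nd (nat_lit 78) (nat_lit 76) (nat_lit 0) (XT.lf (nat_lit 0) (nat_lit 8320116742) (nat_lit 152) (nat_lit 22553604353) (nat_lit 0) (nat_lit 6510044587) (nat_lit 14) (nat_lit 5) (nat_lit 16) (nat_lit 4) (nat_lit 14) (nat_lit 4) (nat_lit 451) (nat_lit 380) (nat_lit 369)) (XT.nd (nat_lit 78) (nat_lit 0) (nat_lit 0) (XT.lf (nat_lit 0) (nat_lit 2093111246) (nat_lit 76) (nat_lit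 19767770015) (nat_lit 76) (nat_lit 17857010347) (nat_lit 13) (nat_lit 4) (nat_lit 14) (nat_lit 5) (nat_lit 14) (nat_lit 4) (nat_lit 452) (nat_lit 380) (nat_lit 368)) (XT.lf (nat_lit 0) (nat_lit 28603647411) (nat_lit 76) (nat_lit 7821052057) (nat_lit 76) (nat_lit 5817063210) (nat_lit 13) (nat_lit 4) (nat_lit 14) (nat_lit 5) (nat_lit 14) (nat_lit 4) (nat_lit 453) (nat_lit 380) (nat_lit 367)))) (XT.nd (nat_lit 156) (nat_lit 76) (nat_lit 0) (XT.nd (nat_lit 78) (nat_lit 0) (nat_lit 0) (XT.lf (nat_lit 0) (nat_lit 6789264404) (nat_lit 152) (nat_lit 33382523305) (nat_lit 0) (nat_lit 4798490917) (nat_lit 11) (nat_lit 5) (nat_lit 13) (nat_lit 4) (nat_lit 11) (nat_lit 4) (nat_lit 454) (nat_lit 380) (nat_lit 366)) (XT.lf (nat_lit 0) (nat_lit 20162233290) (nat_lit 152) (nat_lit 9656644528) (nat_lit 0) (nat_lit 18095336952) (nat_lit 11) (nat_lit 5) (nat_lit 13) (nat_lit 4) (nat_lit 11) (nat_lit 4) (nat_lit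 455) (nat_lit 380) (nat_lit 365))) (XT.nd (nat_lit 78) (nat_lit 0) (nat_lit 0) (XT.lf (nat_lit 0) (nat_lit 15695302997) (nat_lit 76) (nat_lit 18771333489) (nat_lit 76) (nat_lit 16633953029) (nat_lit 10) (nat_lit 4) (nat_lit 11) (nat_lit 5) (nat_lit 11) (nat_lit 4) (nat_lit 456) (nat_lit 380) (nat_lit 364)) (XT.lf (nat_lit 0) (nat_lit 42679544993) (nat_lit 76) (nat_lit 7037448008) (nat_lit 76) (nat_lit 4834804473) (nat_lit 10) (nat_lit 4) (nat_lit 11) (nat_lit 5) (nat_lit 11) (nat_lit 4) (nat_lit 457) (nat_lit 380) (nat_lit 363))))) (XT.nd (nat_lit 234) (nat_lit 152) (nat_lit 0) (XT.nd (nat_lit 78) (nat_lit 76) (nat_lit 0) (XT.lf (nat_lit 0) (nat_lit 7603213412) (nat_lit 152) (nat_lit 45224409005) (nat_lit 0) (nat_lit 5447906451) (nat_lit 8) (nat_lit 5) (nat_lit 10) (nat_lit 4) (nat_lit 8) (nat_lit 4) (nat_lit 458) (nat_lit 380) (nat_lit 362)) (XT.nd (nat_lit 78) (nat_lit 76) (nat_lit 0) (XT.lf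 (nat_lit 0) (nat_lit 20862869892) (nat_lit 152) (nat_lit 22776254585) (nat_lit 0) (nat_lit 18654274770) (nat_lit 8) (nat_lit 5) (nat_lit 10) (nat_lit 4) (nat_lit 8) (nat_lit 4) (nat_lit 459) (nat_lit 380) (nat_lit 361)) (XT.lf (nat_lit 0) (nat_lit 867581011) (nat_lit 76) (nat_lit 34018947626) (nat_lit 76) (nat_lit 31761011615) (nat_lit 7) (nat_lit 4) (nat_lit 8) (nat_lit 5) (nat_lit 8) (nat_lit 4) (nat_lit 460) (nat_lit 380) (nat_lit 360)))) (XT.nd (nat_lit 156) (nat_lit 152) (nat_lit 0) (XT.nd (nat_lit 78) (nat_lit 0) (nat_lit 0) (XT.lf (nat_lit 0) (nat_lit 26615606446) (nat_lit 76) (nat_lit 23516514193) (nat_lit 76) (nat_lit 21212892174) (nat_lit 7) (nat_lit 4) (nat_lit 8) (nat_lit 5) (nat_lit 8) (nat_lit 4) (nat_lit 461) (nat_lit 380) (nat_lit 359)) (XT.lf (nat_lit 0) (nat_lit 53867316771) (nat_lit 76) (nat_lit 12455314428) (nat_lit 76) (nat_lit 10109390549) (nat_lit 7) (nat_lit 4) (nat_lit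 8) (nat_lit 5) (nat_lit 8) (nat_lit 4) (nat_lit 462) (nat_lit 380) (nat_lit 358))) (XT.nd (nat_lit 78) (nat_lit 0) (nat_lit 0) (XT.lf (nat_lit 0) (nat_lit 847393973) (nat_lit 76) (nat_lit 729428583) (nat_lit 152) (nat_lit 80359967271) (nat_lit 5) (nat_lit 5) (nat_lit 6) (nat_lit 5) (nat_lit 7) (nat_lit 4) (nat_lit 463) (nat_lit 380) (nat_lit 357)) (XT.lf (nat_lit 0) (nat_lit 14183146214) (nat_lit 152) (nat_lit 61796448882) (nat_lit 0) (nat_lit 11877089743) (nat_lit 5) (nat_lit 5) (nat_lit 7) (nat_lit 4) (nat_lit 5) (nat_lit 4) (nat_lit 464) (nat_lit 380) (nat_lit 356))))))) (XT.nd (nat_lit 1092) (nat_lit 76) (nat_lit 0) (XT.nd (nat_lit 546) (nat_lit 152) (nat_lit 0) (XT.nd (nat_lit 234) (nat_lit 0) (nat_lit 0) (XT.nd (nat_lit 78) (nat_lit 76) (nat_lit 0) (XT.lf (nat_lit 0) (nat_lit 27577705397) (nat_lit 152) (nat_lit 41443813767) (nat_lit 0) (nat_lit 25239667421) (nat_lit 5) (nat_lit 5) (nat_lit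 7) (nat_lit 4) (nat_lit 5) (nat_lit 4) (nat_lit 465) (nat_lit 380) (nat_lit 355)) (XT.nd (nat_lit 78) (nat_lit 76) (nat_lit 0) (XT.lf (nat_lit 0) (nat_lit 41828486844) (nat_lit 152) (nat_lit 19899493875) (nat_lit 0) (nat_lit 39460836364) (nat_lit 5) (nat_lit 5) (nat_lit 7) (nat_lit 4) (nat_lit 5) (nat_lit 4) (nat_lit 466) (nat_lit 380) (nat_lit 354)) (XT.lf (nat_lit 0) (nat_lit 3062190040) (nat_lit 76) (nat_lit 54005558960) (nat_lit 76) (nat_lit 51610489494) (nat_lit 4) (nat_lit 4) (nat_lit 5) (nat_lit 5) (nat_lit 5) (nat_lit 4) (nat_lit 467) (nat_lit 380) (nat_lit 353)))) (XT.nd (nat_lit 156) (nat_lit 0) (nat_lit 0) (XT.nd (nat_lit 78) (nat_lit 0) (nat_lit 0) (XT.lf (nat_lit 0) (nat_lit 28184788043) (nat_lit 76) (nat_lit 45497342669) (nat_lit 76) (nat_lit 43076885254) (nat_lit 4) (nat_lit 4) (nat_lit 5) (nat_lit 5) (nat_lit 5) (nat_lit 4) (nat_lit 468) (nat_lit 380) (nat_lit 352)) (XT.lf (nat_lit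 0) (nat_lit 54959207651) (nat_lit 76) (nat_lit 36489920347) (nat_lit 76) (nat_lit 34045955570) (nat_lit 4) (nat_lit 4) (nat_lit 5) (nat_lit 5) (nat_lit 5) (nat_lit 4) (nat_lit 469) (nat_lit 380) (nat_lit 351))) (XT.nd (nat_lit 78) (nat_lit 0) (nat_lit 0) (XT.lf (nat_lit 0) (nat_lit 83544112093) (nat_lit 76) (nat_lit 26929914675) (nat_lit 76) (nat_lit 24464183823) (nat_lit 4) (nat_lit 4) (nat_lit 5) (nat_lit 5) (nat_lit 5) (nat_lit 4) (nat_lit 470) (nat_lit 380) (nat_lit 350)) (XT.lf (nat_lit 0) (nat_lit 114108893394) (nat_lit 76) (nat_lit 16760673767) (nat_lit 76) (nat_lit 14274789143) (nat_lit 4) (nat_lit 4) (nat_lit 5) (nat_lit 5) (nat_lit 5) (nat_lit 4) (nat_lit 471) (nat_lit 380) (nat_lit 349))))) (XT.nd (nat_lit 234) (nat_lit 0) (nat_lit 0) (XT.nd (nat_lit 78) (nat_lit 152) (nat_lit 0) (XT.lf (nat_lit 0) (nat_lit 146834676184) (nat_lit 76) (nat_lit 5921935457) (nat_lit 76) (nat_lit 3417389931)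 (nat_lit 4) (nat_lit 4) (nat_lit 5) (nat_lit 5) (nat_lit 5) (nat_lit 4) (nat_lit 472) (nat_lit 380) (nat_lit 348)) (XT.nd (nat_lit 78) (nat_lit 0) (nat_lit 0) (XT.lf (nat_lit 0) (nat_lit 8225612848) (nat_lit 152) (nat_lit 154020897902) (nat_lit 0) (nat_lit 5823875575) (nat_lit 2) (nat_lit 5) (nat_lit 4) (nat_lit 4) (nat_lit 2) (nat_lit 4) (nat_lit 473) (nat_lit 380) (nat_lit 347)) (XT.lf (nat_lit 0) (nat_lit 20818996668) (nat_lit 152) (nat_lit 141687728820) (nat_lit 0) (nat_lit 18402022523) (nat_lit 2) (nat_lit 5) (nat_lit 4) (nat_lit 4) (nat_lit 2) (nat_lit 4) (nat_lit 474) (nat_lit 380) (nat_lit 346)))) (XT.nd (nat_lit 156) (nat_lit 0) (nat_lit 0) (XT.nd (nat_lit 78) (nat_lit 0) (nat_lit 0) (XT.lf (nat_lit 0) (nat_lit 34301205102) (nat_lit 152) (nat_lit 128608783802) (nat_lit 0) (nat_lit 31870122743) (nat_lit 2) (nat_lit 5) (nat_lit 4) (nat_lit 4) (nat_lit 2) (nat_lit 4) (nat_lit 475) (nat_lit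 380) (nat_lit 345)) (XT.lf (nat_lit 0) (nat_lit 48752132718) (nat_lit 152) (nat_lit 114706557988) (nat_lit 0) (nat_lit 46307987198) (nat_lit 2) (nat_lit 5) (nat_lit 4) (nat_lit 4) (nat_lit 2) (nat_lit 4) (nat_lit 476) (nat_lit 380) (nat_lit 344))) (XT.nd (nat_lit 78) (nat_lit 0) (nat_lit 0) (XT.lf (nat_lit 0) (nat_lit 64257414645) (nat_lit 152) (nat_lit 99898667819) (nat_lit 0) (nat_lit 61801173605) (nat_lit 2) (nat_lit 5) (nat_lit 4) (nat_lit 4) (nat_lit 2) (nat_lit 4) (nat_lit 477) (nat_lit 380) (nat_lit 343)) (XT.lf (nat_lit 0) (nat_lit 80908934033) (nat_lit 152) (nat_lit 84097362834) (nat_lit 0) (nat_lit 78441493438) (nat_lit 2) (nat_lit 5) (nat_lit 4) (nat_lit 4) (nat_lit 2) (nat_lit 4) (nat_lit 478) (nat_lit 380) (nat_lit 342)))))) (XT.nd (nat_lit 546) (nat_lit 0) (nat_lit 0) (XT.nd (nat_lit 234) (nat_lit 76) (nat_lit 0) (XT.nd (nat_lit 78) (nat_lit 0) (nat_lit 0) (XT.lf (nat_lit 0) (nat_lit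 98805366554) (nat_lit 152) (nat_lit 67209005669) (nat_lit 0) (nat_lit 96327556000) (nat_lit 2) (nat_lit 5) (nat_lit 4) (nat_lit 4) (nat_lit 2) (nat_lit 4) (nat_lit 479) (nat_lit 380) (nat_lit 341)) (XT.nd (nat_lit 78) (nat_lit 0) (nat_lit 0) (XT.lf (nat_lit 0) (nat_lit 118052765140) (nat_lit 152) (nat_lit 49133517173) (nat_lit 0) (nat_lit 115565352773) (nat_lit 2) (nat_lit 5) (nat_lit 4) (nat_lit 4) (nat_lit 2) (nat_lit 4) (nat_lit 480) (nat_lit 380) (nat_lit 340)) (XT.lf (nat_lit 0) (nat_lit 138765188450) (nat_lit 152) (nat_lit 29763783338) (nat_lit 0) (nat_lit 136268885515) (nat_lit 2) (nat_lit 5) (nat_lit 4) (nat_lit 4) (nat_lit 2) (nat_lit 4) (nat_lit 481) (nat_lit 380) (nat_lit 339)))) (XT.nd (nat_lit 156) (nat_lit 0) (nat_lit 0) (XT.nd (nat_lit 78) (nat_lit 76) (nat_lit 0) (XT.lf (nat_lit 0) (nat_lit 161065376770) (nat_lit 152) (nat_lit 8985020556) (nat_lit 0) (nat_lit 158560841828) (nat_lit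 2) (nat_lit 5) (nat_lit 4) (nat_lit 4) (nat_lit 2) (nat_lit 4) (nat_lit 482) (nat_lit 380) (nat_lit 338)) (XT.lf (nat_lit 0) (nat_lit 13766519166) (nat_lit 76) (nat_lit 171533894142) (nat_lit 76) (nat_lit 169021736971) (nat_lit 1) (nat_lit 4) (nat_lit 2) (nat_lit 5) (nat_lit 2) (nat_lit 4) (nat_lit 483) (nat_lit 380) (nat_lit 337))) (XT.nd (nat_lit 78) (nat_lit 0) (nat_lit 0) (XT.lf (nat_lit 0) (nat_lit 38534551254) (nat_lit 76) (nat_lit 173034918665) (nat_lit 76) (nat_lit 170515703874) (nat_lit 1) (nat_lit 4) (nat_lit 2) (nat_lit 5) (nat_lit 2) (nat_lit 4) (nat_lit 484) (nat_lit 380) (nat_lit 336)) (XT.lf (nat_lit 0) (nat_lit 65168763873) (nat_lit 76) (nat_lit 174714531526) (nat_lit 76) (nat_lit 172188781902) (nat_lit 1) (nat_lit 4) (nat_lit 2) (nat_lit 5) (nat_lit 2) (nat_lit 4) (nat_lit 485) (nat_lit 380) (nat_lit 335))))) (XT.nd (nat_lit 234) (nat_lit 0) (nat_lit 0) (XT.nd (nat_lit 78)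 (nat_lit 0) (nat_lit 0) (XT.lf (nat_lit 0) (nat_lit 93826989394) (nat_lit 76) (nat_lit 176582685987) (nat_lit 76) (nat_lit 174050885592) (nat_lit 1) (nat_lit 4) (nat_lit 2) (nat_lit 5) (nat_lit 2) (nat_lit 4) (nat_lit 486) (nat_lit 380) (nat_lit 334)) (XT.nd (nat_lit 78) (nat_lit 0) (nat_lit 0) (XT.lf (nat_lit 0) (nat_lit 124679054337) (nat_lit 76) (nat_lit 178650452591) (nat_lit 76) (nat_lit 176113049630) (nat_lit 1) (nat_lit 4) (nat_lit 2) (nat_lit 5) (nat_lit 2) (nat_lit 4) (nat_lit 487) (nat_lit 380) (nat_lit 333)) (XT.lf (nat_lit 0) (nat_lit 157907785756) (nat_lit 76) (nat_lit 180930084772) (nat_lit 76) (nat_lit 178387494250) (nat_lit 1) (nat_lit 4) (nat_lit 2) (nat_lit 5) (nat_lit 2) (nat_lit 4) (nat_lit 488) (nat_lit 380) (nat_lit 332)))) (XT.nd (nat_lit 156) (nat_lit 0) (nat_lit 0) (XT.nd (nat_lit 78) (nat_lit 0) (nat_lit 0) (XT.lf (nat_lit 0) (nat_lit 193710094651) (nat_lit 76) (nat_lit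 183435091461) (nat_lit 76) (nat_lit 180887697641) (nat_lit 1) (nat_lit 4) (nat_lit 2) (nat_lit 5) (nat_lit 2) (nat_lit 4) (nat_lit 489) (nat_lit 380) (nat_lit 331)) (XT.lf (nat_lit 0) (nat_lit 232298142852) (nat_lit 76) (nat_lit 186180317140) (nat_lit 76) (nat_lit 183628475824) (nat_lit 1) (nat_lit 4) (nat_lit 2) (nat_lit 5) (nat_lit 2) (nat_lit 4) (nat_lit 490) (nat_lit 380) (nat_lit 330))) (XT.nd (nat_lit 78) (nat_lit 0) (nat_lit 0) (XT.lf (nat_lit 0) (nat_lit 273900600274) (nat_lit 76) (nat_lit 189182029816) (nat_lit 76) (nat_lit 186626070446) (nat_lit 1) (nat_lit 4) (nat_lit 2) (nat_lit 5) (nat_lit 2) (nat_lit 4) (nat_lit 491) (nat_lit 380) (nat_lit 329)) (XT.lf (nat_lit 0) (nat_lit 318764000000) (nat_lit 76) (nat_lit 192458017414) (nat_lit 76) (nat_lit 189898245032) (nat_lit 1) (nat_lit 4) (nat_lit 2) (nat_lit 5) (nat_lit 2) (nat_lit 4) (nat_lit 492) (nat_lit 380) (nat_lit 328))))))))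
noncomputable def xc18 : XT := (XT.nd (nat_lit 59670) (nat_lit 0) (nat_lit 0) (XT.nd (nat_lit 58578) (nat_lit 0) (nat_lit 684) (XT.nd (nat_lit 546) (nat_lit 0) (nat_lit 0) (XT.nd (nat_lit 234) (nat_lit 0) (nat_lit 0) (XT.nd (nat_lit 78) (nat_lit 0) (nat_lit 0) (XT.lf (nat_lit 0) (nat_lit 367154199211) (nat_lit 76) (nat_lit 196027693195) (nat_lit 76) (nat_lit 193464390246) (nat_lit 1) (nat_lit 4) (nat_lit 2) (nat_lit 5) (nat_lit 2) (nat_lit 4) (nat_lit 493) (nat_lit 380) (nat_lit 327)) (XT.nd (nat_lit 78) (nat_lit 0) (nat_lit 0) (XT.lf (nat_lit 0) (nat_lit 419357954645) (nat_lit 76) (nat_lit 199912210792) (nat_lit 76) (nat_lit 197345638800) (nat_lit 1) (nat_lit 4) (nat_lit 2) (nat_lit 5) (nat_lit 2) (nat_lit 4) (nat_lit 494) (nat_lit 380) (nat_lit 326)) (XT.lf (nat_lit 0) (nat_lit 475684621889) (nat_lit 76) (nat_lit 204134589570) (nat_lit 76) (nat_lit 201564990685) (nat_lit 1) (nat_lit 4) (nat_lit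 2) (nat_lit 5) (nat_lit 2) (nat_lit 4) (nat_lit 495) (nat_lit 380) (nat_lit 325)))) (XT.nd (nat_lit 156) (nat_lit 0) (nat_lit 0) (XT.nd (nat_lit 78) (nat_lit 0) (nat_lit 0) (XT.lf (nat_lit 0) (nat_lit 536467988600) (nat_lit 76) (nat_lit 208719851031) (nat_lit 76) (nat_lit 206147449469) (nat_lit 1) (nat_lit 4) (nat_lit 2) (nat_lit 5) (nat_lit 2) (nat_lit 4) (nat_lit 496) (nat_lit 380) (nat_lit 324)) (XT.lf (nat_lit 0) (nat_lit 602068252508) (nat_lit 76) (nat_lit 213695167097) (nat_lit 76) (nat_lit 211120170463) (nat_lit 1) (nat_lit 4) (nat_lit 2) (nat_lit 5) (nat_lit 2) (nat_lit 4) (nat_lit 497) (nat_lit 380) (nat_lit 323))) (XT.nd (nat_lit 78) (nat_lit 0) (nat_lit 0) (XT.lf (nat_lit 0) (nat_lit 672874155917) (nat_lit 76) (nat_lit 219090021121) (nat_lit 76) (nat_lit 216512621642) (nat_lit 1) (nat_lit 4) (nat_lit 2) (nat_lit 5) (nat_lit 2) (nat_lit 4) (nat_lit 498) (nat_lit 380) (nat_lit 322))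 (XT.lf (nat_lit 0) (nat_lit 749305289366) (nat_lit 76) (nat_lit 224936382608) (nat_lit 76) (nat_lit 222356758274) (nat_lit 1) (nat_lit 4) (nat_lit 2) (nat_lit 5) (nat_lit 2) (nat_lit 4) (nat_lit 499) (nat_lit 380) (nat_lit 321))))) (XT.nd (nat_lit 57720) (nat_lit 0) (nat_lit 1900) (XT.nd (nat_lit 78) (nat_lit 0) (nat_lit 0) (XT.lf (nat_lit 0) (nat_lit 831814578090) (nat_lit 76) (nat_lit 231268896665) (nat_lit 76) (nat_lit 228687212278) (nat_lit 1) (nat_lit 4) (nat_lit 2) (nat_lit 5) (nat_lit 2) (nat_lit 4) (nat_lit 500) (nat_lit 380) (nat_lit 320)) (XT.nd (nat_lit 57564) (nat_lit 0) (nat_lit 2508) (XT.lf (nat_lit 0) (nat_lit 920890966022) (nat_lit 76) (nat_lit 238125089299) (nat_lit 76) (nat_lit 235541497457) (nat_lit 1) (nat_lit 4) (nat_lit 2) (nat_lit 5) (nat_lit 2) (nat_lit 4) (nat_lit 501) (nat_lit 380) (nat_lit 319)) (XT.lf (nat_lit 0) (nat_lit 6444426345) (nat_lit 76) (nat_lit 1508508564)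 (nat_lit 76) (nat_lit 1508508564) (nat_lit 34) (nat_lit 4) (nat_lit 35) (nat_lit 5) (nat_lit 35) (nat_lit 4) (nat_lit 438) (nat_lit 381) (nat_lit 381)))) (XT.nd (nat_lit 156) (nat_lit 228) (nat_lit 0) (XT.nd (nat_lit 78) (nat_lit 228) (nat_lit 0) (XT.lf (nat_lit 0) (nat_lit 9145565544) (nat_lit 152) (nat_lit 1854253511) (nat_lit 0) (nat_lit 8805786591) (nat_lit 32) (nat_lit 5) (nat_lit 34) (nat_lit 4) (nat_lit 32) (nat_lit 4) (nat_lit 439) (nat_lit 381) (nat_lit 380)) (XT.lf (nat_lit 0) (nat_lit 1302207449) (nat_lit 152) (nat_lit 18777757092) (nat_lit 0) (nat_lit 678979739) (nat_lit 29) (nat_lit 5) (nat_lit 31) (nat_lit 4) (nat_lit 29) (nat_lit 4) (nat_lit 440) (nat_lit 381) (nat_lit 379))) (XT.nd (nat_lit 78) (nat_lit 152) (nat_lit 0) (XT.lf (nat_lit 0) (nat_lit 5122997184) (nat_lit 76) (nat_lit 8777433583) (nat_lit 76) (nat_lit 7876771885) (nat_lit 28) (nat_lit 4) (nat_lit 29) (nat_lit 5)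 (nat_lit 29) (nat_lit 4) (nat_lit 441) (nat_lit 381) (nat_lit 378)) (XT.lf (nat_lit 0) (nat_lit 4369052312) (nat_lit 152) (nat_lit 15243257283) (nat_lit 0) (nat_lit 3266628484) (nat_lit 26) (nat_lit 5) (nat_lit 28) (nat_lit 4) (nat_lit 26) (nat_lit 4) (nat_lit 442) (nat_lit 381) (nat_lit 377)))))) (XT.nd (nat_lit 546) (nat_lit 532) (nat_lit 0) (XT.nd (nat_lit 234) (nat_lit 380) (nat_lit 0) (XT.nd (nat_lit 78) (nat_lit 228) (nat_lit 0) (XT.lf (nat_lit 0) (nat_lit 9228351637) (nat_lit 76) (nat_lit 8081697283) (nat_lit 76) (nat_lit 6752744952) (nat_lit 25) (nat_lit 4) (nat_lit 26) (nat_lit 5) (nat_lit 26) (nat_lit 4) (nat_lit 443) (nat_lit 381) (nat_lit 376)) (XT.nd (nat_lit 78) (nat_lit 76) (nat_lit 0) (XT.lf (nat_lit 0) (nat_lit 5665494977) (nat_lit 152) (nat_lit 15475626631) (nat_lit 0) (nat_lit 4200065506) (nat_lit 23) (nat_lit 5) (nat_lit 25) (nat_lit 4) (nat_lit 23) (nat_lit 4) (nat_lit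 444) (nat_lit 381) (nat_lit 375)) (XT.lf (nat_lit 0) (nat_lit 9277957529) (nat_lit 76) (nat_lit 9544826443) (nat_lit 76) (nat_lit 7894433468) (nat_lit 22) (nat_lit 4) (nat_lit 23) (nat_lit 5) (nat_lit 23) (nat_lit 4) (nat_lit 445) (nat_lit 381) (nat_lit 374)))) (XT.nd (nat_lit 156) (nat_lit 152) (nat_lit 0) (XT.nd (nat_lit 78) (nat_lit 76) (nat_lit 0) (XT.lf (nat_lit 0) (nat_lit 4561841658) (nat_lit 152) (nat_lit 20816440887) (nat_lit 0) (nat_lit 2826931678) (nat_lit 20) (nat_lit 5) (nat_lit 22) (nat_lit 4) (nat_lit 20) (nat_lit 4) (nat_lit 446) (nat_lit 381) (nat_lit 373)) (XT.lf (nat_lit 0) (nat_lit 3784258199) (nat_lit 76) (nat_lit 13953733333) (nat_lit 76) (nat_lit 12067798217) (nat_lit 19) (nat_lit 4) (nat_lit 20) (nat_lit 5) (nat_lit 20) (nat_lit 4) (nat_lit 447) (nat_lit 381) (nat_lit 372))) (XT.nd (nat_lit 78) (nat_lit 76) (nat_lit 0) (XT.lf (nat_lit 0) (nat_lit 271128295) (nat_lit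 152) (nat_lit 1469960197) (nat_lit 76) (nat_lit 29800431313) (nat_lit 18) (nat_lit 5) (nat_lit 20) (nat_lit 5) (nat_lit 19) (nat_lit 4) (nat_lit 448) (nat_lit 381) (nat_lit 371)) (XT.lf (nat_lit 0) (nat_lit 13267053122) (nat_lit 152) (nat_lit 8920104367) (nat_lit 0) (nat_lit 11214431298) (nat_lit 17) (nat_lit 5) (nat_lit 19) (nat_lit 4) (nat_lit 17) (nat_lit 4) (nat_lit 449) (nat_lit 381) (nat_lit 370))))) (XT.nd (nat_lit 234) (nat_lit 304) (nat_lit 0) (XT.nd (nat_lit 78) (nat_lit 152) (nat_lit 0) (XT.lf (nat_lit 0) (nat_lit 16723379590) (nat_lit 76) (nat_lit 10430660746) (nat_lit 76) (nat_lit 8263859282) (nat_lit 16) (nat_lit 4) (nat_lit 17) (nat_lit 5) (nat_lit 17) (nat_lit 4) (nat_lit 450) (nat_lit 381) (nat_lit 369)) (XT.nd (nat_lit 78) (nat_lit 0) (nat_lit 0) (XT.lf (nat_lit 0) (nat_lit 4249772701) (nat_lit 152) (nat_lit 31264769126) (nat_lit 0) (nat_lit 2085464746) (nat_lit 14) (nat_lit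 5) (nat_lit 16) (nat_lit 4) (nat_lit 14) (nat_lit 4) (nat_lit 451) (nat_lit 381) (nat_lit 368)) (XT.lf (nat_lit 0) (nat_lit 17546887907) (nat_lit 152) (nat_lit 7110078542) (nat_lit 0) (nat_lit 15289350773) (nat_lit 14) (nat_lit 5) (nat_lit 16) (nat_lit 4) (nat_lit 14) (nat_lit 4) (nat_lit 452) (nat_lit 381) (nat_lit 367)))) (XT.nd (nat_lit 156) (nat_lit 76) (nat_lit 0) (XT.nd (nat_lit 78) (nat_lit 152) (nat_lit 0) (XT.lf (nat_lit 0) (nat_lit 18758805320) (nat_lit 76) (nat_lit 13035531975) (nat_lit 76) (nat_lit 10691671528) (nat_lit 13) (nat_lit 4) (nat_lit 14) (nat_lit 5) (nat_lit 14) (nat_lit 4) (nat_lit 453) (nat_lit 381) (nat_lit 366)) (XT.lf (nat_lit 0) (nat_lit 929585884) (nat_lit 76) (nat_lit 706206957) (nat_lit 152) (nat_lit 43604283148) (nat_lit 11) (nat_lit 5) (nat_lit 12) (nat_lit 5) (nat_lit 13) (nat_lit 4) (nat_lit 454) (nat_lit 381) (nat_lit 365))) (XT.nd (nat_lit 78) (nat_lit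 76) (nat_lit 0) (XT.lf (nat_lit 0) (nat_lit 14813384480) (nat_lit 152) (nat_lit 20945868760) (nat_lit 0) (nat_lit 12434529461) (nat_lit 11) (nat_lit 5) (nat_lit 13) (nat_lit 4) (nat_lit 11) (nat_lit 4) (nat_lit 455) (nat_lit 381) (nat_lit 364)) (XT.lf (nat_lit 0) (nat_lit 3676701704) (nat_lit 76) (nat_lit 25082746203) (nat_lit 76) (nat_lit 22638628108) (nat_lit 10) (nat_lit 4) (nat_lit 11) (nat_lit 5) (nat_lit 11) (nat_lit 4) (nat_lit 456) (nat_lit 381) (nat_lit 363))))))) (XT.nd (nat_lit 1092) (nat_lit 228) (nat_lit 0) (XT.nd (nat_lit 546) (nat_lit 228) (nat_lit 0) (XT.nd (nat_lit 234) (nat_lit 76) (nat_lit 0) (XT.nd (nat_lit 78) (nat_lit 152) (nat_lit 0) (XT.lf (nat_lit 0) (nat_lit 30331217475) (nat_lit 76) (nat_lit 13515387404) (nat_lit 76) (nat_lit 11010840536) (nat_lit 10) (nat_lit 4) (nat_lit 11) (nat_lit 5) (nat_lit 11) (nat_lit 4) (nat_lit 457) (nat_lit 381) (nat_lit 362)) (XT.nd (nat_lit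 78) (nat_lit 76) (nat_lit 0) (XT.lf (nat_lit 0) (nat_lit 1178185350) (nat_lit 152) (nat_lit 145219468) (nat_lit 76) (nat_lit 57284927730) (nat_lit 9) (nat_lit 5) (nat_lit 11) (nat_lit 5) (nat_lit 10) (nat_lit 4) (nat_lit 458) (nat_lit 381) (nat_lit 361)) (XT.lf (nat_lit 0) (nat_lit 14265608921) (nat_lit 152) (nat_lit 36591509705) (nat_lit 0) (nat_lit 11777697140) (nat_lit 8) (nat_lit 5) (nat_lit 10) (nat_lit 4) (nat_lit 8) (nat_lit 4) (nat_lit 459) (nat_lit 381) (nat_lit 360)))) (XT.nd (nat_lit 156) (nat_lit 0) (nat_lit 0) (XT.nd (nat_lit 78) (nat_lit 76) (nat_lit 0) (XT.lf (nat_lit 0) (nat_lit 28137583219) (nat_lit 152) (nat_lit 13254973451) (nat_lit 0) (nat_lit 25603985430) (nat_lit 8) (nat_lit 5) (nat_lit 10) (nat_lit 4) (nat_lit 8) (nat_lit 4) (nat_lit 460) (nat_lit 381) (nat_lit 359)) (XT.lf (nat_lit 0) (nat_lit 11787399456) (nat_lit 76) (nat_lit 31249904715) (nat_lit 76) (nat_lit 28674005066)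 (nat_lit 7) (nat_lit 4) (nat_lit 8) (nat_lit 5) (nat_lit 8) (nat_lit 4) (nat_lit 461) (nat_lit 381) (nat_lit 358))) (XT.nd (nat_lit 78) (nat_lit 0) (nat_lit 0) (XT.lf (nat_lit 0) (nat_lit 38791532705) (nat_lit 76) (nat_lit 20313984661) (nat_lit 76) (nat_lit 17698916623) (nat_lit 7) (nat_lit 4) (nat_lit 8) (nat_lit 5) (nat_lit 8) (nat_lit 4) (nat_lit 462) (nat_lit 381) (nat_lit 357)) (XT.lf (nat_lit 0) (nat_lit 67479181505) (nat_lit 76) (nat_lit 8744470446) (nat_lit 76) (nat_lit 6093135382) (nat_lit 7) (nat_lit 4) (nat_lit 8) (nat_lit 5) (nat_lit 8) (nat_lit 4) (nat_lit 463) (nat_lit 381) (nat_lit 356))))) (XT.nd (nat_lit 234) (nat_lit 76) (nat_lit 0) (XT.nd (nat_lit 78) (nat_lit 0) (nat_lit 0) (XT.lf (nat_lit 0) (nat_lit 6228017519) (nat_lit 152) (nat_lit 78366476606) (nat_lit 0) (nat_lit 3670955000) (nat_lit 5) (nat_lit 5) (nat_lit 7) (nat_lit 4) (nat_lit 5) (nat_lit 4) (nat_lit 464) (nat_lit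 381) (nat_lit 355)) (XT.nd (nat_lit 78) (nat_lit 0) (nat_lit 0) (XT.lf (nat_lit 0) (nat_lit 19519046667) (nat_lit 152) (nat_lit 58223709775) (nat_lit 0) (nat_lit 16932371644) (nat_lit 5) (nat_lit 5) (nat_lit 7) (nat_lit 4) (nat_lit 5) (nat_lit 4) (nat_lit 465) (nat_lit 381) (nat_lit 354)) (XT.lf (nat_lit 0) (nat_lit 33673966973) (nat_lit 152) (nat_lit 36873712371) (nat_lit 0) (nat_lit 31059872964) (nat_lit 5) (nat_lit 5) (nat_lit 7) (nat_lit 4) (nat_lit 5) (nat_lit 4) (nat_lit 466) (nat_lit 381) (nat_lit 353)))) (XT.nd (nat_lit 156) (nat_lit 0) (nat_lit 0) (XT.nd (nat_lit 78) (nat_lit 76) (nat_lit 0) (XT.lf (nat_lit 0) (nat_lit 48776659444) (nat_lit 152) (nat_lit 14189965888) (nat_lit 0) (nat_lit 46137177485) (nat_lit 5) (nat_lit 5) (nat_lit 7) (nat_lit 4) (nat_lit 5) (nat_lit 4) (nat_lit 467) (nat_lit 381) (nat_lit 352)) (XT.lf (nat_lit 0) (nat_lit 10291338992) (nat_lit 76) (nat_lit 54785959168)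 (nat_lit 76) (nat_lit 52122969849) (nat_lit 4) (nat_lit 4) (nat_lit 5) (nat_lit 5) (nat_lit 5) (nat_lit 4) (nat_lit 468) (nat_lit 381) (nat_lit 351))) (XT.nd (nat_lit 78) (nat_lit 0) (nat_lit 0) (XT.lf (nat_lit 0) (nat_lit 36906398631) (nat_lit 76) (nat_lit 45859311094) (nat_lit 76) (nat_lit 43174555700) (nat_lit 4) (nat_lit 4) (nat_lit 5) (nat_lit 5) (nat_lit 5) (nat_lit 4) (nat_lit 469) (nat_lit 381) (nat_lit 350)) (XT.lf (nat_lit 0) (nat_lit 65343747546) (nat_lit 76) (nat_lit 36374096392) (nat_lit 76) (nat_lit 33669187225) (nat_lit 4) (nat_lit 4) (nat_lit 5) (nat_lit 5) (nat_lit 5) (nat_lit 4) (nat_lit 470) (nat_lit 381) (nat_lit 349)))))) (XT.nd (nat_lit 546) (nat_lit 76) (nat_lit 0) (XT.nd (nat_lit 234) (nat_lit 152) (nat_lit 0) (XT.nd (nat_lit 78) (nat_lit 0) (nat_lit 0) (XT.lf (nat_lit 0) (nat_lit 95771903359) (nat_lit 76) (nat_lit 26274106383) (nat_lit 76) (nat_lit 23550536315) (nat_lit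 4) (nat_lit 4) (nat_lit 5) (nat_lit 5) (nat_lit 5) (nat_lit 4) (nat_lit 471) (nat_lit 381) (nat_lit 348)) (XT.nd (nat_lit 78) (nat_lit 0) (nat_lit 0) (XT.lf (nat_lit 0) (nat_lit 128371181068) (nat_lit 76) (nat_lit 15499489275) (nat_lit 76) (nat_lit 12758640595) (nat_lit 4) (nat_lit 4) (nat_lit 5) (nat_lit 5) (nat_lit 5) (nat_lit 4) (nat_lit 472) (nat_lit 381) (nat_lit 347)) (XT.lf (nat_lit 0) (nat_lit 163334761578) (nat_lit 76) (nat_lit 3986395484) (nat_lit 76) (nat_lit 1229548089) (nat_lit 4) (nat_lit 4) (nat_lit 5) (nat_lit 5) (nat_lit 5) (nat_lit 4) (nat_lit 473) (nat_lit 381) (nat_lit 346)))) (XT.nd (nat_lit 156) (nat_lit 0) (nat_lit 0) (XT.nd (nat_lit 78) (nat_lit 0) (nat_lit 0) (XT.lf (nat_lit 0) (nat_lit 11198401480) (nat_lit 152) (nat_lit 161643140588) (nat_lit 0) (nat_lit 8558724318) (nat_lit 2) (nat_lit 5) (nat_lit 4) (nat_lit 4) (nat_lit 2) (nat_lit 4) (nat_lit 474) (nat_lit 381)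 (nat_lit 345)) (XT.lf (nat_lit 0) (nat_lit 24627793812) (nat_lit 152) (nat_lit 148671423842) (nat_lit 0) (nat_lit 21975053489) (nat_lit 2) (nat_lit 5) (nat_lit 4) (nat_lit 4) (nat_lit 2) (nat_lit 4) (nat_lit 475) (nat_lit 381) (nat_lit 344))) (XT.nd (nat_lit 78) (nat_lit 0) (nat_lit 0) (XT.lf (nat_lit 0) (nat_lit 39029817631) (nat_lit 152) (nat_lit 134868483466) (nat_lit 0) (nat_lit 36364981788) (nat_lit 2) (nat_lit 5) (nat_lit 4) (nat_lit 4) (nat_lit 2) (nat_lit 4) (nat_lit 476) (nat_lit 381) (nat_lit 343)) (XT.lf (nat_lit 0) (nat_lit 54489818263) (nat_lit 152) (nat_lit 120152524257) (nat_lit 0) (nat_lit 51813782865) (nat_lit 2) (nat_lit 5) (nat_lit 4) (nat_lit 4) (nat_lit 2) (nat_lit 4) (nat_lit 477) (nat_lit 381) (nat_lit 342))))) (XT.nd (nat_lit 234) (nat_lit 76) (nat_lit 0) (XT.nd (nat_lit 78) (nat_lit 0) (nat_lit 0) (XT.lf (nat_lit 0) (nat_lit 71099410527) (nat_lit 152) (nat_lit 104436340531)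 (nat_lit 0) (nat_lit 68413005170) (nat_lit 2) (nat_lit 5) (nat_lit 4) (nat_lit 4) (nat_lit 2) (nat_lit 4) (nat_lit 478) (nat_lit 381) (nat_lit 341)) (XT.nd (nat_lit 78) (nat_lit 0) (nat_lit 0) (XT.lf (nat_lit 0) (nat_lit 88957021635) (nat_lit 152) (nat_lit 87626799348) (nat_lit 0) (nat_lit 86261014466) (nat_lit 2) (nat_lit 5) (nat_lit 4) (nat_lit 4) (nat_lit 2) (nat_lit 4) (nat_lit 479) (nat_lit 381) (nat_lit 340)) (XT.lf (nat_lit 0) (nat_lit 108168474470) (nat_lit 152) (nat_lit 69624288611) (nat_lit 0) (nat_lit 105463576732) (nat_lit 2) (nat_lit 5) (nat_lit 4) (nat_lit 4) (nat_lit 2) (nat_lit 4) (nat_lit 480) (nat_lit 381) (nat_lit 339)))) (XT.nd (nat_lit 156) (nat_lit 76) (nat_lit 0) (XT.nd (nat_lit 78) (nat_lit 0) (nat_lit 0) (XT.lf (nat_lit 0) (nat_lit 128847614677) (nat_lit 152) (nat_lit 50322126777) (nat_lit 0) (nat_lit 126134484932) (nat_lit 2) (nat_lit 5) (nat_lit 4) (nat_lit 4) (nat_lit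 2) (nat_lit 4) (nat_lit 481) (nat_lit 381) (nat_lit 338)) (XT.lf (nat_lit 0) (nat_lit 151116985309) (nat_lit 152) (nat_lit 29605930662) (nat_lit 0) (nat_lit 148396233335) (nat_lit 2) (nat_lit 5) (nat_lit 4) (nat_lit 4) (nat_lit 2) (nat_lit 4) (nat_lit 482) (nat_lit 381) (nat_lit 337))) (XT.nd (nat_lit 78) (nat_lit 76) (nat_lit 0) (XT.lf (nat_lit 0) (nat_lit 175108553007) (nat_lit 152) (nat_lit 7352937624) (nat_lit 0) (nat_lit 172380743414) (nat_lit 2) (nat_lit 5) (nat_lit 4) (nat_lit 4) (nat_lit 2) (nat_lit 4) (nat_lit 483) (nat_lit 381) (nat_lit 336)) (XT.lf (nat_lit 0) (nat_lit 17116558697) (nat_lit 76) (nat_lit 184115168777) (nat_lit 76) (nat_lit 181380824351) (nat_lit 1) (nat_lit 4) (nat_lit 2) (nat_lit 5) (nat_lit 2) (nat_lit 4) (nat_lit 484) (nat_lit 381) (nat_lit 335))))))))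
noncomputable def xc19 : XT := (XT.nd (nat_lit 59514) (nat_lit 0) (nat_lit 76) (XT.nd (nat_lit 1092) (nat_lit 0) (nat_lit 0) (XT.nd (nat_lit 546) (nat_lit 0) (nat_lit 0) (XT.nd (nat_lit 234) (nat_lit 0) (nat_lit 0) (XT.nd (nat_lit 78) (nat_lit 0) (nat_lit 0) (XT.lf (nat_lit 0) (nat_lit 43699461649) (nat_lit 76) (nat_lit 185820826143) (nat_lit 76) (nat_lit 183080430945) (nat_lit 1) (nat_lit 4) (nat_lit 2) (nat_lit 5) (nat_lit 2) (nat_lit 4) (nat_lit 485) (nat_lit 381) (nat_lit 334)) (XT.nd (nat_lit 78) (nat_lit 0) (nat_lit 0) (XT.lf (nat_lit 0) (nat_lit 72310178218) (nat_lit 76) (nat_lit 187713095886) (nat_lit 76) (nat_lit 184967098122) (nat_lit 1) (nat_lit 4) (nat_lit 2) (nat_lit 5) (nat_lit 2) (nat_lit 4) (nat_lit 486) (nat_lit 381) (nat_lit 333)) (XT.lf (nat_lit 0) (nat_lit 103118253393) (nat_lit 76) (nat_lit 189803191456) (nat_lit 76) (nat_lit 187052006131) (nat_lit 1) (nat_lit 4) (nat_lit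 2) (nat_lit 5) (nat_lit 2) (nat_lit 4) (nat_lit 487) (nat_lit 381) (nat_lit 332)))) (XT.nd (nat_lit 156) (nat_lit 0) (nat_lit 0) (XT.nd (nat_lit 78) (nat_lit 0) (nat_lit 0) (XT.lf (nat_lit 0) (nat_lit 136306253543) (nat_lit 76) (nat_lit 192103498605) (nat_lit 76) (nat_lit 189347509983) (nat_lit 1) (nat_lit 4) (nat_lit 2) (nat_lit 5) (nat_lit 2) (nat_lit 4) (nat_lit 488) (nat_lit 381) (nat_lit 331)) (XT.lf (nat_lit 0) (nat_lit 172070848301) (nat_lit 76) (nat_lit 194627648782) (nat_lit 76) (nat_lit 191867212662) (nat_lit 1) (nat_lit 4) (nat_lit 2) (nat_lit 5) (nat_lit 2) (nat_lit 4) (nat_lit 489) (nat_lit 381) (nat_lit 330))) (XT.nd (nat_lit 78) (nat_lit 0) (nat_lit 0) (XT.lf (nat_lit 0) (nat_lit 210623976004) (nat_lit 76) (nat_lit 197390599914) (nat_lit 76) (nat_lit 194626045741) (nat_lit 1) (nat_lit 4) (nat_lit 2) (nat_lit 5) (nat_lit 2) (nat_lit 4) (nat_lit 490) (nat_lit 381) (nat_lit 329))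 (XT.lf (nat_lit 0) (nat_lit 252194099633) (nat_lit 76) (nat_lit 200408725046) (nat_lit 76) (nat_lit 197640357861) (nat_lit 1) (nat_lit 4) (nat_lit 2) (nat_lit 5) (nat_lit 2) (nat_lit 4) (nat_lit 491) (nat_lit 381) (nat_lit 328))))) (XT.nd (nat_lit 234) (nat_lit 0) (nat_lit 0) (XT.nd (nat_lit 78) (nat_lit 0) (nat_lit 0) (XT.lf (nat_lit 0) (nat_lit 297027560660) (nat_lit 76) (nat_lit 203699909362) (nat_lit 76) (nat_lit 200928011611) (nat_lit 1) (nat_lit 4) (nat_lit 2) (nat_lit 5) (nat_lit 2) (nat_lit 4) (nat_lit 492) (nat_lit 381) (nat_lit 327)) (XT.nd (nat_lit 78) (nat_lit 0) (nat_lit 0) (XT.lf (nat_lit 0) (nat_lit 345390038855) (nat_lit 76) (nat_lit 207283656179) (nat_lit 76) (nat_lit 204508489384) (nat_lit 1) (nat_lit 4) (nat_lit 2) (nat_lit 5) (nat_lit 2) (nat_lit 4) (nat_lit 493) (nat_lit 381) (nat_lit 326)) (XT.lf (nat_lit 0) (nat_lit 397568126681) (nat_lit 76) (nat_lit 211181202513) (nat_lit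 76) (nat_lit 208403008826) (nat_lit 1) (nat_lit 4) (nat_lit 2) (nat_lit 5) (nat_lit 2) (nat_lit 4) (nat_lit 494) (nat_lit 381) (nat_lit 325)))) (XT.nd (nat_lit 156) (nat_lit 0) (nat_lit 0) (XT.nd (nat_lit 78) (nat_lit 0) (nat_lit 0) (XT.lf (nat_lit 0) (nat_lit 453871027621) (nat_lit 76) (nat_lit 215415644936) (nat_lit 76) (nat_lit 212634648570) (nat_lit 1) (nat_lit 4) (nat_lit 2) (nat_lit 5) (nat_lit 2) (nat_lit 4) (nat_lit 495) (nat_lit 381) (nat_lit 324)) (XT.lf (nat_lit 0) (nat_lit 514632388496) (nat_lit 76) (nat_lit 220012076439) (nat_lit 76) (nat_lit 217228485002) (nat_lit 1) (nat_lit 4) (nat_lit 2) (nat_lit 5) (nat_lit 2) (nat_lit 4) (nat_lit 496) (nat_lit 381) (nat_lit 323))) (XT.nd (nat_lit 78) (nat_lit 0) (nat_lit 0) (XT.lf (nat_lit 0) (nat_lit 580212276629) (nat_lit 76) (nat_lit 224997735136) (nat_lit 76) (nat_lit 222211740854) (nat_lit 1) (nat_lit 4) (nat_lit 2) (nat_lit 5) (nat_lit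 2) (nat_lit 4) (nat_lit 497) (nat_lit 381) (nat_lit 322)) (XT.lf (nat_lit 0) (nat_lit 650999313580) (nat_lit 76) (nat_lit 230402165670) (nat_lit 76) (nat_lit 227613946533) (nat_lit 1) (nat_lit 4) (nat_lit 2) (nat_lit 5) (nat_lit 2) (nat_lit 4) (nat_lit 498) (nat_lit 381) (nat_lit 321)))))) (XT.nd (nat_lit 57876) (nat_lit 0) (nat_lit 1444) (XT.nd (nat_lit 57564) (nat_lit 0) (nat_lit 2356) (XT.nd (nat_lit 78) (nat_lit 0) (nat_lit 0) (XT.lf (nat_lit 0) (nat_lit 727412978086) (nat_lit 76) (nat_lit 236257394297) (nat_lit 76) (nat_lit 233467115108) (nat_lit 1) (nat_lit 4) (nat_lit 2) (nat_lit 5) (nat_lit 2) (nat_lit 4) (nat_lit 499) (nat_lit 381) (nat_lit 320)) (XT.nd (nat_lit 78) (nat_lit 0) (nat_lit 0) (XT.lf (nat_lit 0) (nat_lit 809906091863) (nat_lit 76) (nat_lit 242598118668) (nat_lit 76) (nat_lit 239805932023) (nat_lit 1) (nat_lit 4) (nat_lit 2) (nat_lit 5) (nat_lit 2) (nat_lit 4) (nat_lit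 500) (nat_lit 381) (nat_lit 319)) (XT.lf (nat_lit 0) (nat_lit 898967502993) (nat_lit 76) (nat_lit 249461913445) (nat_lit 76) (nat_lit 246667960637) (nat_lit 1) (nat_lit 4) (nat_lit 2) (nat_lit 5) (nat_lit 2) (nat_lit 4) (nat_lit 501) (nat_lit 381) (nat_lit 318)))) (XT.nd (nat_lit 156) (nat_lit 228) (nat_lit 0) (XT.nd (nat_lit 78) (nat_lit 152) (nat_lit 0) (XT.lf (nat_lit 0) (nat_lit 1095519246) (nat_lit 76) (nat_lit 3782149491) (nat_lit 76) (nat_lit 3782149491) (nat_lit 37) (nat_lit 4) (nat_lit 38) (nat_lit 5) (nat_lit 38) (nat_lit 4) (nat_lit 436) (nat_lit 382) (nat_lit 382)) (XT.lf (nat_lit 0) (nat_lit 3897109490) (nat_lit 152) (nat_lit 10691245868) (nat_lit 0) (nat_lit 3511800156) (nat_lit 35) (nat_lit 5) (nat_lit 37) (nat_lit 4) (nat_lit 35) (nat_lit 4) (nat_lit 437) (nat_lit 382) (nat_lit 381))) (XT.nd (nat_lit 78) (nat_lit 152) (nat_lit 0) (XT.lf (nat_lit 0) (nat_lit 12291998934) (nat_lit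 76) (nat_lit 3694113609) (nat_lit 76) (nat_lit 2952036375) (nat_lit 34) (nat_lit 4) (nat_lit 35) (nat_lit 5) (nat_lit 35) (nat_lit 4) (nat_lit 438) (nat_lit 382) (nat_lit 380)) (XT.lf (nat_lit 0) (nat_lit 8887243447) (nat_lit 152) (nat_lit 3083749133) (nat_lit 0) (nat_lit 7865893082) (nat_lit 32) (nat_lit 5) (nat_lit 34) (nat_lit 4) (nat_lit 32) (nat_lit 4) (nat_lit 439) (nat_lit 382) (nat_lit 379))))) (XT.nd (nat_lit 234) (nat_lit 456) (nat_lit 0) (XT.nd (nat_lit 78) (nat_lit 228) (nat_lit 0) (XT.lf (nat_lit 0) (nat_lit 58121658) (nat_lit 76) (nat_lit 610550395) (nat_lit 152) (nat_lit 20139445155) (nat_lit 29) (nat_lit 5) (nat_lit 30) (nat_lit 5) (nat_lit 31) (nat_lit 4) (nat_lit 440) (nat_lit 382) (nat_lit 378)) (XT.nd (nat_lit 78) (nat_lit 152) (nat_lit 0) (XT.lf (nat_lit 0) (nat_lit 2517090234) (nat_lit 76) (nat_lit 10416494520) (nat_lit 76) (nat_lit 8909462577) (nat_lit 28) (nat_lit 4)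 (nat_lit 29) (nat_lit 5) (nat_lit 29) (nat_lit 4) (nat_lit 441) (nat_lit 382) (nat_lit 377)) (XT.lf (nat_lit 0) (nat_lit 3011964774) (nat_lit 152) (nat_lit 18601334348) (nat_lit 0) (nat_lit 1350167754) (nat_lit 26) (nat_lit 5) (nat_lit 28) (nat_lit 4) (nat_lit 26) (nat_lit 4) (nat_lit 442) (nat_lit 382) (nat_lit 376)))) (XT.nd (nat_lit 156) (nat_lit 228) (nat_lit 0) (XT.nd (nat_lit 78) (nat_lit 152) (nat_lit 0) (XT.lf (nat_lit 0) (nat_lit 5211711532) (nat_lit 76) (nat_lit 10411816752) (nat_lit 76) (nat_lit 8540271118) (nat_lit 25) (nat_lit 4) (nat_lit 26) (nat_lit 5) (nat_lit 26) (nat_lit 4) (nat_lit 443) (nat_lit 382) (nat_lit 375)) (XT.lf (nat_lit 0) (nat_lit 3559779787) (nat_lit 152) (nat_lit 20310190934) (nat_lit 0) (nat_lit 1592391870) (nat_lit 23) (nat_lit 5) (nat_lit 25) (nat_lit 4) (nat_lit 23) (nat_lit 4) (nat_lit 444) (nat_lit 382) (nat_lit 374))) (XT.nd (nat_lit 78) (nat_lit 152)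 (nat_lit 0) (XT.lf (nat_lit 0) (nat_lit 3765266355) (nat_lit 76) (nat_lit 12614327439) (nat_lit 76) (nat_lit 10475677018) (nat_lit 22) (nat_lit 4) (nat_lit 23) (nat_lit 5) (nat_lit 23) (nat_lit 4) (nat_lit 445) (nat_lit 382) (nat_lit 373)) (XT.lf (nat_lit 0) (nat_lit 1136601556) (nat_lit 76) (nat_lit 538436672) (nat_lit 152) (nat_lit 26689656838) (nat_lit 20) (nat_lit 5) (nat_lit 21) (nat_lit 5) (nat_lit 22) (nat_lit 4) (nat_lit 446) (nat_lit 382) (nat_lit 372))))))) (XT.nd (nat_lit 1092) (nat_lit 456) (nat_lit 0) (XT.nd (nat_lit 546) (nat_lit 380) (nat_lit 0) (XT.nd (nat_lit 234) (nat_lit 304) (nat_lit 0) (XT.nd (nat_lit 78) (nat_lit 228) (nat_lit 0) (XT.lf (nat_lit 0) (nat_lit 14546639805) (nat_lit 152) (nat_lit 3214894931) (nat_lit 0) (nat_lit 12218966657) (nat_lit 20) (nat_lit 5) (nat_lit 22) (nat_lit 4) (nat_lit 20) (nat_lit 4) (nat_lit 447) (nat_lit 382) (nat_lit 371)) (XT.nd (nat_lit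 78) (nat_lit 152) (nat_lit 0) (XT.lf (nat_lit 0) (nat_lit 22516545773) (nat_lit 76) (nat_lit 5835491230) (nat_lit 76) (nat_lit 3378338370) (nat_lit 19) (nat_lit 4) (nat_lit 20) (nat_lit 5) (nat_lit 20) (nat_lit 4) (nat_lit 448) (nat_lit 382) (nat_lit 370)) (XT.lf (nat_lit 0) (nat_lit 9311237775) (nat_lit 152) (nat_lit 17445657888) (nat_lit 0) (nat_lit 6856912554) (nat_lit 17) (nat_lit 5) (nat_lit 19) (nat_lit 4) (nat_lit 17) (nat_lit 4) (nat_lit 449) (nat_lit 382) (nat_lit 369)))) (XT.nd (nat_lit 156) (nat_lit 228) (nat_lit 0) (XT.nd (nat_lit 78) (nat_lit 0) (nat_lit 0) (XT.lf (nat_lit 0) (nat_lit 7486202620) (nat_lit 76) (nat_lit 15360764496) (nat_lit 76) (nat_lit 12800717386) (nat_lit 16) (nat_lit 4) (nat_lit 17) (nat_lit 5) (nat_lit 17) (nat_lit 4) (nat_lit 450) (nat_lit 382) (nat_lit 368)) (XT.lf (nat_lit 0) (nat_lit 34207962353) (nat_lit 76) (nat_lit 3149819921) (nat_lit 76) (nat_lit 491882174)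 (nat_lit 16) (nat_lit 4) (nat_lit 17) (nat_lit 5) (nat_lit 17) (nat_lit 4) (nat_lit 451) (nat_lit 382) (nat_lit 367))) (XT.nd (nat_lit 78) (nat_lit 76) (nat_lit 0) (XT.lf (nat_lit 0) (nat_lit 12516756207) (nat_lit 152) (nat_lit 17795752361) (nat_lit 0) (nat_lit 9899063610) (nat_lit 14) (nat_lit 5) (nat_lit 16) (nat_lit 4) (nat_lit 14) (nat_lit 4) (nat_lit 452) (nat_lit 382) (nat_lit 366)) (XT.lf (nat_lit 0) (nat_lit 7343369502) (nat_lit 76) (nat_lit 19061736395) (nat_lit 76) (nat_lit 16364114804) (nat_lit 13) (nat_lit 4) (nat_lit 14) (nat_lit 5) (nat_lit 14) (nat_lit 4) (nat_lit 453) (nat_lit 382) (nat_lit 365))))) (XT.nd (nat_lit 234) (nat_lit 228) (nat_lit 0) (XT.nd (nat_lit 78) (nat_lit 152) (nat_lit 0) (XT.lf (nat_lit 0) (nat_lit 34404095801) (nat_lit 76) (nat_lit 6950751385) (nat_lit 76) (nat_lit 4179121466) (nat_lit 13) (nat_lit 4) (nat_lit 14) (nat_lit 5) (nat_lit 14) (nat_lit 4) (nat_lit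 454) (nat_lit 382) (nat_lit 364)) (XT.nd (nat_lit 78) (nat_lit 0) (nat_lit 0) (XT.lf (nat_lit 0) (nat_lit 8681580666) (nat_lit 152) (nat_lit 33855220995) (nat_lit 0) (nat_lit 5976670049) (nat_lit 11) (nat_lit 5) (nat_lit 13) (nat_lit 4) (nat_lit 11) (nat_lit 4) (nat_lit 455) (nat_lit 382) (nat_lit 363)) (XT.lf (nat_lit 0) (nat_lit 22412188883) (nat_lit 152) (nat_lit 9669500873) (nat_lit 0) (nat_lit 19646849492) (nat_lit 11) (nat_lit 5) (nat_lit 13) (nat_lit 4) (nat_lit 11) (nat_lit 4) (nat_lit 456) (nat_lit 382) (nat_lit 362)))) (XT.nd (nat_lit 156) (nat_lit 152) (nat_lit 0) (XT.nd (nat_lit 78) (nat_lit 0) (nat_lit 0) (XT.lf (nat_lit 0) (nat_lit 16359995468) (nat_lit 76) (nat_lit 20832280007) (nat_lit 76) (nat_lit 18010988047) (nat_lit 10) (nat_lit 4) (nat_lit 11) (nat_lit 5) (nat_lit 11) (nat_lit 4) (nat_lit 457) (nat_lit 382) (nat_lit 361)) (XT.lf (nat_lit 0) (nat_lit 44229157120) (nat_lit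 76) (nat_lit 8803020348) (nat_lit 76) (nat_lit 5929920455) (nat_lit 10) (nat_lit 4) (nat_lit 11) (nat_lit 5) (nat_lit 11) (nat_lit 4) (nat_lit 458) (nat_lit 382) (nat_lit 360))) (XT.nd (nat_lit 78) (nat_lit 0) (nat_lit 0) (XT.lf (nat_lit 0) (nat_lit 6853237793) (nat_lit 152) (nat_lit 52093410408) (nat_lit 0) (nat_lit 4071266172) (nat_lit 8) (nat_lit 5) (nat_lit 10) (nat_lit 4) (nat_lit 8) (nat_lit 4) (nat_lit 459) (nat_lit 382) (nat_lit 359)) (XT.lf (nat_lit 0) (nat_lit 20597305539) (nat_lit 152) (nat_lit 29015699463) (nat_lit 0) (nat_lit 17773032058) (nat_lit 8) (nat_lit 5) (nat_lit 10) (nat_lit 4) (nat_lit 8) (nat_lit 4) (nat_lit 460) (nat_lit 382) (nat_lit 358)))))) (XT.nd (nat_lit 546) (nat_lit 228) (nat_lit 0) (XT.nd (nat_lit 234) (nat_lit 152) (nat_lit 0) (XT.nd (nat_lit 78) (nat_lit 76) (nat_lit 0) (XT.lf (nat_lit 0) (nat_lit 35194560159) (nat_lit 152) (nat_lit 4590250014) (nat_lit 0)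 (nat_lit 32331118289) (nat_lit 8) (nat_lit 5) (nat_lit 10) (nat_lit 4) (nat_lit 8) (nat_lit 4) (nat_lit 461) (nat_lit 382) (nat_lit 357)) (XT.nd (nat_lit 78) (nat_lit 0) (nat_lit 0) (XT.lf (nat_lit 0) (nat_lit 22032870805) (nat_lit 76) (nat_lit 29042627956) (nat_lit 76) (nat_lit 26142919060) (nat_lit 7) (nat_lit 4) (nat_lit 8) (nat_lit 5) (nat_lit 8) (nat_lit 4) (nat_lit 462) (nat_lit 382) (nat_lit 356)) (XT.lf (nat_lit 0) (nat_lit 50508262167) (nat_lit 76) (nat_lit 17580520901) (nat_lit 76) (nat_lit 14647231424) (nat_lit 7) (nat_lit 4) (nat_lit 8) (nat_lit 5) (nat_lit 8) (nat_lit 4) (nat_lit 463) (nat_lit 382) (nat_lit 355)))) (XT.nd (nat_lit 156) (nat_lit 0) (nat_lit 0) (XT.nd (nat_lit 78) (nat_lit 152) (nat_lit 0) (XT.lf (nat_lit 0) (nat_lit 80852892734) (nat_lit 76) (nat_lit 5408303514) (nat_lit 76) (nat_lit 2443920908) (nat_lit 7) (nat_lit 4) (nat_lit 8) (nat_lit 5) (nat_lit 8) (nat_lit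 4) (nat_lit 464) (nat_lit 382) (nat_lit 354)) (XT.lf (nat_lit 0) (nat_lit 10616304065) (nat_lit 152) (nat_lit 76750188237) (nat_lit 0) (nat_lit 7765663549) (nat_lit 5) (nat_lit 5) (nat_lit 7) (nat_lit 4) (nat_lit 5) (nat_lit 4) (nat_lit 465) (nat_lit 382) (nat_lit 353))) (XT.nd (nat_lit 78) (nat_lit 0) (nat_lit 0) (XT.lf (nat_lit 0) (nat_lit 24682464053) (nat_lit 152) (nat_lit 55580119060) (nat_lit 0) (nat_lit 21806435588) (nat_lit 5) (nat_lit 5) (nat_lit 7) (nat_lit 4) (nat_lit 5) (nat_lit 4) (nat_lit 466) (nat_lit 382) (nat_lit 352)) (XT.lf (nat_lit 0) (nat_lit 39702971046) (nat_lit 152) (nat_lit 33062972788) (nat_lit 0) (nat_lit 36803435220) (nat_lit 5) (nat_lit 5) (nat_lit 7) (nat_lit 4) (nat_lit 5) (nat_lit 4) (nat_lit 467) (nat_lit 382) (nat_lit 351))))) (XT.nd (nat_lit 312) (nat_lit 152) (nat_lit 0) (XT.nd (nat_lit 156) (nat_lit 0) (nat_lit 0) (XT.nd (nat_lit 78) (nat_lit 76) (nat_lit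 0) (XT.lf (nat_lit 0) (nat_lit 55766835454) (nat_lit 152) (nat_lit 9065314481) (nat_lit 0) (nat_lit 52845533553) (nat_lit 5) (nat_lit 5) (nat_lit 7) (nat_lit 4) (nat_lit 5) (nat_lit 4) (nat_lit 468) (nat_lit 382) (nat_lit 350)) (XT.lf (nat_lit 0) (nat_lit 17102449393) (nat_lit 76) (nat_lit 56133818319) (nat_lit 76) (nat_lit 53192362645) (nat_lit 4) (nat_lit 4) (nat_lit 5) (nat_lit 5) (nat_lit 5) (nat_lit 4) (nat_lit 469) (nat_lit 382) (nat_lit 349))) (XT.nd (nat_lit 78) (nat_lit 0) (nat_lit 0) (XT.lf (nat_lit 0) (nat_lit 45403172820) (nat_lit 76) (nat_lit 46717854516) (nat_lit 76) (nat_lit 43757737941) (nat_lit 4) (nat_lit 4) (nat_lit 5) (nat_lit 5) (nat_lit 5) (nat_lit 4) (nat_lit 470) (nat_lit 382) (nat_lit 348)) (XT.lf (nat_lit 0) (nat_lit 75704823552) (nat_lit 76) (nat_lit 36681985710) (nat_lit 76) (nat_lit 33704590523) (nat_lit 4) (nat_lit 4) (nat_lit 5) (nat_lit 5) (nat_lit 5) (nat_lit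 4) (nat_lit 471) (nat_lit 382) (nat_lit 347)))) (XT.nd (nat_lit 156) (nat_lit 152) (nat_lit 0) (XT.nd (nat_lit 78) (nat_lit 0) (nat_lit 0) (XT.lf (nat_lit 0) (nat_lit 108186966926) (nat_lit 76) (nat_lit 25966740085) (nat_lit 76) (nat_lit 22973346184) (nat_lit 4) (nat_lit 4) (nat_lit 5) (nat_lit 5) (nat_lit 5) (nat_lit 4) (nat_lit 472) (nat_lit 382) (nat_lit 346)) (XT.lf (nat_lit 0) (nat_lit 143042089719) (nat_lit 76) (nat_lit 14508619890) (nat_lit 76) (nat_lit 11500412364) (nat_lit 4) (nat_lit 4) (nat_lit 5) (nat_lit 5) (nat_lit 5) (nat_lit 4) (nat_lit 473) (nat_lit 382) (nat_lit 345))) (XT.nd (nat_lit 78) (nat_lit 76) (nat_lit 0) (XT.lf (nat_lit 0) (nat_lit 757163448) (nat_lit 152) (nat_lit 1469738775) (nat_lit 76) (nat_lit 179706754427) (nat_lit 3) (nat_lit 5) (nat_lit 5) (nat_lit 5) (nat_lit 4) (nat_lit 4) (nat_lit 474) (nat_lit 382) (nat_lit 344)) (XT.lf (nat_lit 0) (nat_lit 14078789719)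 (nat_lit 152) (nat_lit 170545588795) (nat_lit 0) (nat_lit 11188671490) (nat_lit 2) (nat_lit 5) (nat_lit 4) (nat_lit 4) (nat_lit 2) (nat_lit 4) (nat_lit 475) (nat_lit 382) (nat_lit 343))))))))
noncomputable def xc20 : XT := (XT.nd (nat_lit 59358) (nat_lit 0) (nat_lit 456) (XT.nd (nat_lit 1092) (nat_lit 0) (nat_lit 0) (XT.nd (nat_lit 546) (nat_lit 76) (nat_lit 0) (XT.nd (nat_lit 234) (nat_lit 0) (nat_lit 0) (XT.nd (nat_lit 78) (nat_lit 0) (nat_lit 0) (XT.lf (nat_lit 0) (nat_lit 28435532244) (nat_lit 152) (nat_lit 156834579379) (nat_lit 0) (nat_lit 25534214459) (nat_lit 2) (nat_lit 5) (nat_lit 4) (nat_lit 4) (nat_lit 2) (nat_lit 4) (nat_lit 476) (nat_lit 382) (nat_lit 342)) (XT.nd (nat_lit 78) (nat_lit 0) (nat_lit 0) (XT.lf (nat_lit 0) (nat_lit 43853605751) (nat_lit 152) (nat_lit 142203741429) (nat_lit 0) (nat_lit 40941918008) (nat_lit 2) (nat_lit 5) (nat_lit 4) (nat_lit 4) (nat_lit 2) (nat_lit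 4) (nat_lit 477) (nat_lit 382) (nat_lit 341)) (XT.lf (nat_lit 0) (nat_lit 60424376604) (nat_lit 152) (nat_lit 126566373685) (nat_lit 0) (nat_lit 57503087047) (nat_lit 2) (nat_lit 5) (nat_lit 4) (nat_lit 4) (nat_lit 2) (nat_lit 4) (nat_lit 478) (nat_lit 382) (nat_lit 340)))) (XT.nd (nat_lit 156) (nat_lit 0) (nat_lit 0) (XT.nd (nat_lit 78) (nat_lit 0) (nat_lit 0) (XT.lf (nat_lit 0) (nat_lit 78246041961) (nat_lit 152) (nat_lit 109829810262) (nat_lit 0) (nat_lit 75315861836) (nat_lit 2) (nat_lit 5) (nat_lit 4) (nat_lit 4) (nat_lit 2) (nat_lit 4) (nat_lit 479) (nat_lit 382) (nat_lit 339)) (XT.lf (nat_lit 0) (nat_lit 97424211693) (nat_lit 152) (nat_lit 91894871526) (nat_lit 0) (nat_lit 94485799560) (nat_lit 2) (nat_lit 5) (nat_lit 4) (nat_lit 4) (nat_lit 2) (nat_lit 4) (nat_lit 480) (nat_lit 382) (nat_lit 338))) (XT.nd (nat_lit 78) (nat_lit 0) (nat_lit 0) (XT.lf (nat_lit 0) (nat_lit 118072534211)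 (nat_lit 152) (nat_lit 72655276358) (nat_lit 0) (nat_lit 115126499850) (nat_lit 2) (nat_lit 5) (nat_lit 4) (nat_lit 4) (nat_lit 2) (nat_lit 4) (nat_lit 481) (nat_lit 382) (nat_lit 337)) (XT.lf (nat_lit 0) (nat_lit 140313369947) (nat_lit 152) (nat_lit 51997012342) (nat_lit 0) (nat_lit 137360277966) (nat_lit 2) (nat_lit 5) (nat_lit 4) (nat_lit 4) (nat_lit 2) (nat_lit 4) (nat_lit 482) (nat_lit 382) (nat_lit 336))))) (XT.nd (nat_lit 234) (nat_lit 0) (nat_lit 0) (XT.nd (nat_lit 78) (nat_lit 76) (nat_lit 0) (XT.lf (nat_lit 0) (nat_lit 164278516445) (nat_lit 152) (nat_lit 29797660137) (nat_lit 0) (nat_lit 161318889631) (nat_lit 2) (nat_lit 5) (nat_lit 4) (nat_lit 4) (nat_lit 2) (nat_lit 4) (nat_lit 483) (nat_lit 382) (nat_lit 335)) (XT.nd (nat_lit 78) (nat_lit 76) (nat_lit 0) (XT.lf (nat_lit 0) (nat_lit 190109989388) (nat_lit 152) (nat_lit 5925668025) (nat_lit 0) (nat_lit 187144311803) (nat_lit 2)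 (nat_lit 5) (nat_lit 4) (nat_lit 4) (nat_lit 2) (nat_lit 4) (nat_lit 484) (nat_lit 382) (nat_lit 334)) (XT.lf (nat_lit 0) (nat_lit 20413796629) (nat_lit 76) (nat_lit 197865784117) (nat_lit 76) (nat_lit 194894503966) (nat_lit 1) (nat_lit 4) (nat_lit 2) (nat_lit 5) (nat_lit 2) (nat_lit 4) (nat_lit 485) (nat_lit 382) (nat_lit 333)))) (XT.nd (nat_lit 156) (nat_lit 0) (nat_lit 0) (XT.nd (nat_lit 78) (nat_lit 0) (nat_lit 0) (XT.lf (nat_lit 0) (nat_lit 48980523428) (nat_lit 76) (nat_lit 199780382825) (nat_lit 76) (nat_lit 196803915113) (nat_lit 1) (nat_lit 4) (nat_lit 2) (nat_lit 5) (nat_lit 2) (nat_lit 4) (nat_lit 486) (nat_lit 382) (nat_lit 332)) (XT.lf (nat_lit 0) (nat_lit 79747867335) (nat_lit 76) (nat_lit 201891153363) (nat_lit 76) (nat_lit 198909882354) (nat_lit 1) (nat_lit 4) (nat_lit 2) (nat_lit 5) (nat_lit 2) (nat_lit 4) (nat_lit 487) (nat_lit 382) (nat_lit 331))) (XT.nd (nat_lit 78) (nat_lit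 0) (nat_lit 0) (XT.lf (nat_lit 0) (nat_lit 112898153348) (nat_lit 76) (nat_lit 204210604000) (nat_lit 76) (nat_lit 201224885494) (nat_lit 1) (nat_lit 4) (nat_lit 2) (nat_lit 5) (nat_lit 2) (nat_lit 4) (nat_lit 488) (nat_lit 382) (nat_lit 330)) (XT.lf (nat_lit 0) (nat_lit 148627827608) (nat_lit 76) (nat_lit 206752479630) (nat_lit 76) (nat_lit 203762643070) (nat_lit 1) (nat_lit 4) (nat_lit 2) (nat_lit 5) (nat_lit 2) (nat_lit 4) (nat_lit 489) (nat_lit 382) (nat_lit 329)))))) (XT.nd (nat_lit 546) (nat_lit 0) (nat_lit 0) (XT.nd (nat_lit 234) (nat_lit 0) (nat_lit 0) (XT.nd (nat_lit 78) (nat_lit 0) (nat_lit 0) (XT.lf (nat_lit 0) (nat_lit 187148621518) (nat_lit 76) (nat_lit 209531843218) (nat_lit 76) (nat_lit 206538193646) (nat_lit 1) (nat_lit 4) (nat_lit 2) (nat_lit 5) (nat_lit 2) (nat_lit 4) (nat_lit 490) (nat_lit 382) (nat_lit 328)) (XT.nd (nat_lit 78) (nat_lit 0) (nat_lit 0) (XT.lf (nat_lit 0)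 (nat_lit 228688806449) (nat_lit 76) (nat_lit 212565165068) (nat_lit 76) (nat_lit 209567984930) (nat_lit 1) (nat_lit 4) (nat_lit 2) (nat_lit 5) (nat_lit 2) (nat_lit 4) (nat_lit 491) (nat_lit 382) (nat_lit 327)) (XT.lf (nat_lit 0) (nat_lit 273494546459) (nat_lit 76) (nat_lit 215870420421) (nat_lit 76) (nat_lit 212869971239) (nat_lit 1) (nat_lit 4) (nat_lit 2) (nat_lit 5) (nat_lit 2) (nat_lit 4) (nat_lit 492) (nat_lit 382) (nat_lit 326)))) (XT.nd (nat_lit 156) (nat_lit 0) (nat_lit 0) (XT.nd (nat_lit 78) (nat_lit 0) (nat_lit 0) (XT.lf (nat_lit 0) (nat_lit 321831357046) (nat_lit 76) (nat_lit 219467195974) (nat_lit 76) (nat_lit 216463719900) (nat_lit 1) (nat_lit 4) (nat_lit 2) (nat_lit 5) (nat_lit 2) (nat_lit 4) (nat_lit 493) (nat_lit 382) (nat_lit 325)) (XT.lf (nat_lit 0) (nat_lit 373985678568) (nat_lit 76) (nat_lit 223376805953) (nat_lit 76) (nat_lit 220370527201) (nat_lit 1) (nat_lit 4) (nat_lit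 2) (nat_lit 5) (nat_lit 2) (nat_lit 4) (nat_lit 494) (nat_lit 382) (nat_lit 324))) (XT.nd (nat_lit 78) (nat_lit 0) (nat_lit 0) (XT.lf (nat_lit 0) (nat_lit 430266573672) (nat_lit 76) (nat_lit 227622418418) (nat_lit 76) (nat_lit 224613544593) (nat_lit 1) (nat_lit 4) (nat_lit 2) (nat_lit 5) (nat_lit 2) (nat_lit 4) (nat_lit 495) (nat_lit 382) (nat_lit 323)) (XT.lf (nat_lit 0) (nat_lit 491007558772) (nat_lit 76) (nat_lit 232229192552) (nat_lit 76) (nat_lit 229217915884) (nat_lit 1) (nat_lit 4) (nat_lit 2) (nat_lit 5) (nat_lit 2) (nat_lit 4) (nat_lit 496) (nat_lit 382) (nat_lit 322))))) (XT.nd (nat_lit 234) (nat_lit 0) (nat_lit 0) (XT.nd (nat_lit 78) (nat_lit 0) (nat_lit 0) (XT.lf (nat_lit 0) (nat_lit 556568580447) (nat_lit 76) (nat_lit 237224427760) (nat_lit 76) (nat_lit 234210926235) (nat_lit 1) (nat_lit 4) (nat_lit 2) (nat_lit 5) (nat_lit 2) (nat_lit 4) (nat_lit 497) (nat_lit 382) (nat_lit 321))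 (XT.nd (nat_lit 78) (nat_lit 0) (nat_lit 0) (XT.lf (nat_lit 0) (nat_lit 627338148455) (nat_lit 76) (nat_lit 242637725433) (nat_lit 76) (nat_lit 239622163857) (nat_lit 1) (nat_lit 4) (nat_lit 2) (nat_lit 5) (nat_lit 2) (nat_lit 4) (nat_lit 498) (nat_lit 382) (nat_lit 320)) (XT.lf (nat_lit 0) (nat_lit 703735638014) (nat_lit 76) (nat_lit 248501164375) (nat_lit 76) (nat_lit 245483695343) (nat_lit 1) (nat_lit 4) (nat_lit 2) (nat_lit 5) (nat_lit 2) (nat_lit 4) (nat_lit 499) (nat_lit 382) (nat_lit 319)))) (XT.nd (nat_lit 57330) (nat_lit 0) (nat_lit 2964) (XT.nd (nat_lit 78) (nat_lit 0) (nat_lit 0) (XT.lf (nat_lit 0) (nat_lit 786213774989) (nat_lit 76) (nat_lit 254849490888) (nat_lit 76) (nat_lit 251830255693) (nat_lit 1) (nat_lit 4) (nat_lit 2) (nat_lit 5) (nat_lit 2) (nat_lit 4) (nat_lit 500) (nat_lit 382) (nat_lit 318)) (XT.lf (nat_lit 0) (nat_lit 875261318708) (nat_lit 76) (nat_lit 261720324686)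 (nat_lit 76) (nat_lit 258699454156) (nat_lit 1) (nat_lit 4) (nat_lit 2) (nat_lit 5) (nat_lit 2) (nat_lit 4) (nat_lit 501) (nat_lit 382) (nat_lit 317))) (XT.nd (nat_lit 78) (nat_lit 76) (nat_lit 0) (XT.lf (nat_lit 0) (nat_lit 1953298810) (nat_lit 152) (nat_lit 4043210732) (nat_lit 0) (nat_lit 1953298810) (nat_lit 41) (nat_lit 5) (nat_lit 43) (nat_lit 4) (nat_lit 41) (nat_lit 4) (nat_lit 434) (nat_lit 383) (nat_lit 383)) (XT.lf (nat_lit 0) (nat_lit 13475039167) (nat_lit 76) (nat_lit 1788939311) (nat_lit 76) (nat_lit 1330151488) (nat_lit 40) (nat_lit 4) (nat_lit 41) (nat_lit 5) (nat_lit 41) (nat_lit 4) (nat_lit 435) (nat_lit 383) (nat_lit 382))))))) (XT.nd (nat_lit 1092) (nat_lit 760) (nat_lit 0) (XT.nd (nat_lit 546) (nat_lit 760) (nat_lit 0) (XT.nd (nat_lit 234) (nat_lit 532) (nat_lit 0) (XT.nd (nat_lit 78) (nat_lit 228) (nat_lit 0) (XT.lf (nat_lit 0) (nat_lit 1607876205) (nat_lit 76) (nat_lit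 8284149140) (nat_lit 76) (nat_lit 7442633556) (nat_lit 37) (nat_lit 4) (nat_lit 38) (nat_lit 5) (nat_lit 38) (nat_lit 4) (nat_lit 436) (nat_lit 383) (nat_lit 381)) (XT.nd (nat_lit 78) (nat_lit 76) (nat_lit 0) (XT.lf (nat_lit 0) (nat_lit 3698087628) (nat_lit 152) (nat_lit 11892967341) (nat_lit 0) (nat_lit 2539876314) (nat_lit 35) (nat_lit 5) (nat_lit 37) (nat_lit 4) (nat_lit 35) (nat_lit 4) (nat_lit 437) (nat_lit 383) (nat_lit 380)) (XT.lf (nat_lit 0) (nat_lit 10497900755) (nat_lit 76) (nat_lit 4987338240) (nat_lit 76) (nat_lit 3498786276) (nat_lit 34) (nat_lit 4) (nat_lit 35) (nat_lit 5) (nat_lit 35) (nat_lit 4) (nat_lit 438) (nat_lit 383) (nat_lit 379)))) (XT.nd (nat_lit 156) (nat_lit 304) (nat_lit 0) (XT.nd (nat_lit 78) (nat_lit 76) (nat_lit 0) (XT.lf (nat_lit 0) (nat_lit 8029289502) (nat_lit 152) (nat_lit 5550026276) (nat_lit 0) (nat_lit 6320315279) (nat_lit 32) (nat_lit 5) (nat_lit 34)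 (nat_lit 4) (nat_lit 32) (nat_lit 4) (nat_lit 439) (nat_lit 383) (nat_lit 378)) (XT.lf (nat_lit 0) (nat_lit 17804377071) (nat_lit 76) (nat_lit 2530530912) (nat_lit 76) (nat_lit 551829200) (nat_lit 31) (nat_lit 4) (nat_lit 32) (nat_lit 5) (nat_lit 32) (nat_lit 4) (nat_lit 440) (nat_lit 383) (nat_lit 377))) (XT.nd (nat_lit 78) (nat_lit 152) (nat_lit 0) (XT.lf (nat_lit 0) (nat_lit 11348817005) (nat_lit 152) (nat_lit 1365899009) (nat_lit 0) (nat_lit 9226484257) (nat_lit 29) (nat_lit 5) (nat_lit 31) (nat_lit 4) (nat_lit 29) (nat_lit 4) (nat_lit 441) (nat_lit 383) (nat_lit 376)) (XT.lf (nat_lit 0) (nat_lit 1015719161) (nat_lit 152) (nat_lit 260344512) (nat_lit 76) (nat_lit 21805234421) (nat_lit 27) (nat_lit 5) (nat_lit 29) (nat_lit 5) (nat_lit 28) (nat_lit 4) (nat_lit 442) (nat_lit 383) (nat_lit 375))))) (XT.nd (nat_lit 234) (nat_lit 456) (nat_lit 0) (XT.nd (nat_lit 78) (nat_lit 228) (nat_lit 0)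 (XT.lf (nat_lit 0) (nat_lit 13274757479) (nat_lit 152) (nat_lit 174976204) (nat_lit 0) (nat_lit 10849527902) (nat_lit 26) (nat_lit 5) (nat_lit 28) (nat_lit 4) (nat_lit 26) (nat_lit 4) (nat_lit 443) (nat_lit 383) (nat_lit 374)) (XT.nd (nat_lit 78) (nat_lit 76) (nat_lit 0) (XT.lf (nat_lit 0) (nat_lit 805771472) (nat_lit 152) (nat_lit 953223687) (nat_lit 76) (nat_lit 23858237368) (nat_lit 24) (nat_lit 5) (nat_lit 26) (nat_lit 5) (nat_lit 25) (nat_lit 4) (nat_lit 444) (nat_lit 383) (nat_lit 373)) (XT.lf (nat_lit 0) (nat_lit 13290925928) (nat_lit 152) (nat_lit 3084607061) (nat_lit 0) (nat_lit 10651344578) (nat_lit 23) (nat_lit 5) (nat_lit 25) (nat_lit 4) (nat_lit 23) (nat_lit 4) (nat_lit 445) (nat_lit 383) (nat_lit 372)))) (XT.nd (nat_lit 156) (nat_lit 228) (nat_lit 0) (XT.nd (nat_lit 78) (nat_lit 152) (nat_lit 0) (XT.lf (nat_lit 0) (nat_lit 22097671437) (nat_lit 76) (nat_lit 4620440282) (nat_lit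 76) (nat_lit 1834028939) (nat_lit 22) (nat_lit 4) (nat_lit 23) (nat_lit 5) (nat_lit 23) (nat_lit 4) (nat_lit 446) (nat_lit 383) (nat_lit 371)) (XT.lf (nat_lit 0) (nat_lit 10707231534) (nat_lit 152) (nat_lit 11557575644) (nat_lit 0) (nat_lit 7924026733) (nat_lit 20) (nat_lit 5) (nat_lit 22) (nat_lit 4) (nat_lit 20) (nat_lit 4) (nat_lit 447) (nat_lit 383) (nat_lit 370))) (XT.nd (nat_lit 78) (nat_lit 152) (nat_lit 0) (XT.lf (nat_lit 0) (nat_lit 13477505907) (nat_lit 76) (nat_lit 10690758269) (nat_lit 76) (nat_lit 7787664847) (nat_lit 19) (nat_lit 4) (nat_lit 20) (nat_lit 5) (nat_lit 20) (nat_lit 4) (nat_lit 448) (nat_lit 383) (nat_lit 369)) (XT.lf (nat_lit 0) (nat_lit 4608314722) (nat_lit 152) (nat_lit 27518485976) (nat_lit 0) (nat_lit 1737741955) (nat_lit 17) (nat_lit 5) (nat_lit 19) (nat_lit 4) (nat_lit 17) (nat_lit 4) (nat_lit 449) (nat_lit 383) (nat_lit 368)))))) (XT.nd (nat_lit 546) (nat_lit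 304) (nat_lit 0) (XT.nd (nat_lit 234) (nat_lit 228) (nat_lit 0) (XT.nd (nat_lit 78) (nat_lit 228) (nat_lit 0) (XT.lf (nat_lit 0) (nat_lit 17835460077) (nat_lit 152) (nat_lit 3211393758) (nat_lit 0) (nat_lit 14866996672) (nat_lit 17) (nat_lit 5) (nat_lit 19) (nat_lit 4) (nat_lit 17) (nat_lit 4) (nat_lit 450) (nat_lit 383) (nat_lit 367)) (XT.nd (nat_lit 78) (nat_lit 152) (nat_lit 0) (XT.lf (nat_lit 0) (nat_lit 23035758456) (nat_lit 76) (nat_lit 9075464837) (nat_lit 76) (nat_lit 6016361953) (nat_lit 16) (nat_lit 4) (nat_lit 17) (nat_lit 5) (nat_lit 17) (nat_lit 4) (nat_lit 451) (nat_lit 383) (nat_lit 366)) (XT.lf (nat_lit 0) (nat_lit 6707998642) (nat_lit 152) (nat_lit 30094225352) (nat_lit 0) (nat_lit 3714638330) (nat_lit 14) (nat_lit 5) (nat_lit 16) (nat_lit 4) (nat_lit 14) (nat_lit 4) (nat_lit 452) (nat_lit 383) (nat_lit 365)))) (XT.nd (nat_lit 156) (nat_lit 152) (nat_lit 0) (XT.nd (nat_lit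 78) (nat_lit 76) (nat_lit 0) (XT.lf (nat_lit 0) (nat_lit 20314222981) (nat_lit 152) (nat_lit 5527541583) (nat_lit 0) (nat_lit 17246854341) (nat_lit 14) (nat_lit 5) (nat_lit 16) (nat_lit 4) (nat_lit 14) (nat_lit 4) (nat_lit 453) (nat_lit 383) (nat_lit 364)) (XT.lf (nat_lit 0) (nat_lit 21027678002) (nat_lit 76) (nat_lit 13987024243) (nat_lit 76) (nat_lit 10851129373) (nat_lit 13) (nat_lit 4) (nat_lit 14) (nat_lit 5) (nat_lit 14) (nat_lit 4) (nat_lit 454) (nat_lit 383) (nat_lit 363))) (XT.nd (nat_lit 78) (nat_lit 0) (nat_lit 0) (XT.lf (nat_lit 0) (nat_lit 391679416) (nat_lit 76) (nat_lit 1360039850) (nat_lit 152) (nat_lit 47122395280) (nat_lit 11) (nat_lit 5) (nat_lit 12) (nat_lit 5) (nat_lit 13) (nat_lit 4) (nat_lit 455) (nat_lit 383) (nat_lit 362)) (XT.lf (nat_lit 0) (nat_lit 15314749383) (nat_lit 152) (nat_lit 24571011463) (nat_lit 0) (nat_lit 12211801499) (nat_lit 11) (nat_lit 5) (nat_lit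 13) (nat_lit 4) (nat_lit 11) (nat_lit 4) (nat_lit 456) (nat_lit 383) (nat_lit 361))))) (XT.nd (nat_lit 234) (nat_lit 228) (nat_lit 0) (XT.nd (nat_lit 78) (nat_lit 0) (nat_lit 0) (XT.lf (nat_lit 0) (nat_lit 683086547) (nat_lit 76) (nat_lit 29031485179) (nat_lit 76) (nat_lit 25876729360) (nat_lit 10) (nat_lit 4) (nat_lit 11) (nat_lit 5) (nat_lit 11) (nat_lit 4) (nat_lit 457) (nat_lit 383) (nat_lit 360)) (XT.nd (nat_lit 78) (nat_lit 0) (nat_lit 0) (XT.lf (nat_lit 0) (nat_lit 28290500890) (nat_lit 76) (nat_lit 17134419770) (nat_lit 76) (nat_lit 13931693643) (nat_lit 10) (nat_lit 4) (nat_lit 11) (nat_lit 5) (nat_lit 11) (nat_lit 4) (nat_lit 458) (nat_lit 383) (nat_lit 359)) (XT.lf (nat_lit 0) (nat_lit 57602402453) (nat_lit 76) (nat_lit 4540185460) (nat_lit 76) (nat_lit 1293042380) (nat_lit 10) (nat_lit 4) (nat_lit 11) (nat_lit 5) (nat_lit 11) (nat_lit 4) (nat_lit 459) (nat_lit 383) (nat_lit 358))))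 (XT.nd (nat_lit 156) (nat_lit 76) (nat_lit 0) (XT.nd (nat_lit 78) (nat_lit 0) (nat_lit 0) (XT.lf (nat_lit 0) (nat_lit 12207467098) (nat_lit 152) (nat_lit 46535761927) (nat_lit 0) (nat_lit 9075781490) (nat_lit 8) (nat_lit 5) (nat_lit 10) (nat_lit 4) (nat_lit 8) (nat_lit 4) (nat_lit 460) (nat_lit 383) (nat_lit 357)) (XT.lf (nat_lit 0) (nat_lit 26695062465) (nat_lit 152) (nat_lit 22332213463) (nat_lit 0) (nat_lit 23527109831) (nat_lit 8) (nat_lit 5) (nat_lit 10) (nat_lit 4) (nat_lit 8) (nat_lit 4) (nat_lit 461) (nat_lit 383) (nat_lit 356))) (XT.nd (nat_lit 78) (nat_lit 0) (nat_lit 0) (XT.lf (nat_lit 0) (nat_lit 3492020482) (nat_lit 76) (nat_lit 38692969607) (nat_lit 76) (nat_lit 35491436392) (nat_lit 7) (nat_lit 4) (nat_lit 8) (nat_lit 5) (nat_lit 8) (nat_lit 4) (nat_lit 462) (nat_lit 383) (nat_lit 355)) (XT.lf (nat_lit 0) (nat_lit 31770877178) (nat_lit 76) (nat_lit 27330313625) (nat_lit 76) (nat_lit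 24097687280) (nat_lit 7) (nat_lit 4) (nat_lit 8) (nat_lit 5) (nat_lit 8) (nat_lit 4) (nat_lit 463) (nat_lit 383) (nat_lit 354))))))))
noncomputable def xc21 : XT := (XT.nd (nat_lit 2184) (nat_lit 0) (nat_lit 0) (XT.nd (nat_lit 1092) (nat_lit 76) (nat_lit 0) (XT.nd (nat_lit 546) (nat_lit 152) (nat_lit 0) (XT.nd (nat_lit 234) (nat_lit 76) (nat_lit 0) (XT.nd (nat_lit 78) (nat_lit 152) (nat_lit 0) (XT.lf (nat_lit 0) (nat_lit 61933531204) (nat_lit 76) (nat_lit 15250180565) (nat_lit 76) (nat_lit 11988764286) (nat_lit 7) (nat_lit 4) (nat_lit 8) (nat_lit 5) (nat_lit 8) (nat_lit 4) (nat_lit 464) (nat_lit 383) (nat_lit 353)) (XT.nd (nat_lit 78) (nat_lit 76) (nat_lit 0) (XT.lf (nat_lit 0) (nat_lit 878056653) (nat_lit 152) (nat_lit 1488057487) (nat_lit 76) (nat_lit 93265797245) (nat_lit 6) (nat_lit 5) (nat_lit 8) (nat_lit 5) (nat_lit 7) (nat_lit 4) (nat_lit 465) (nat_lit 383) (nat_lit 352)) (XT.lf (nat_lit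 0) (nat_lit 14800695105) (nat_lit 152) (nat_lit 76129566724) (nat_lit 0) (nat_lit 11645689052) (nat_lit 5) (nat_lit 5) (nat_lit 7) (nat_lit 4) (nat_lit 5) (nat_lit 4) (nat_lit 466) (nat_lit 383) (nat_lit 351)))) (XT.nd (nat_lit 156) (nat_lit 76) (nat_lit 0) (XT.nd (nat_lit 78) (nat_lit 0) (nat_lit 0) (XT.lf (nat_lit 0) (nat_lit 29745104432) (nat_lit 152) (nat_lit 53766679907) (nat_lit 0) (nat_lit 26568332305) (nat_lit 5) (nat_lit 5) (nat_lit 7) (nat_lit 4) (nat_lit 5) (nat_lit 4) (nat_lit 467) (nat_lit 383) (nat_lit 350)) (XT.lf (nat_lit 0) (nat_lit 45738508039) (nat_lit 152) (nat_lit 29911854429) (nat_lit 0) (nat_lit 42541582139) (nat_lit 5) (nat_lit 5) (nat_lit 7) (nat_lit 4) (nat_lit 5) (nat_lit 4) (nat_lit 468) (nat_lit 383) (nat_lit 349))) (XT.nd (nat_lit 78) (nat_lit 76) (nat_lit 0) (XT.lf (nat_lit 0) (nat_lit 62875681651) (nat_lit 152) (nat_lit 4423728359) (nat_lit 0) (nat_lit 59660094850)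 (nat_lit 5) (nat_lit 5) (nat_lit 7) (nat_lit 4) (nat_lit 5) (nat_lit 4) (nat_lit 469) (nat_lit 383) (nat_lit 348)) (XT.lf (nat_lit 0) (nat_lit 23604221547) (nat_lit 76) (nat_lit 58022485391) (nat_lit 76) (nat_lit 54789619977) (nat_lit 4) (nat_lit 4) (nat_lit 5) (nat_lit 5) (nat_lit 5) (nat_lit 4) (nat_lit 470) (nat_lit 383) (nat_lit 347))))) (XT.nd (nat_lit 234) (nat_lit 152) (nat_lit 0) (XT.nd (nat_lit 78) (nat_lit 0) (nat_lit 0) (XT.lf (nat_lit 0) (nat_lit 53788737945) (nat_lit 76) (nat_lit 48045988068) (nat_lit 76) (nat_lit 44797123940) (nat_lit 4) (nat_lit 4) (nat_lit 5) (nat_lit 5) (nat_lit 5) (nat_lit 4) (nat_lit 471) (nat_lit 383) (nat_lit 346)) (XT.nd (nat_lit 78) (nat_lit 0) (nat_lit 0) (XT.lf (nat_lit 0) (nat_lit 86162423602) (nat_lit 76) (nat_lit 37385716039) (nat_lit 76) (nat_lit 34122038286) (nat_lit 4) (nat_lit 4) (nat_lit 5) (nat_lit 5) (nat_lit 5) (nat_lit 4) (nat_lit 472) (nat_lit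 383) (nat_lit 345)) (XT.lf (nat_lit 0) (nat_lit 120917122582) (nat_lit 76) (nat_lit 25978497322) (nat_lit 76) (nat_lit 22701103250) (nat_lit 4) (nat_lit 4) (nat_lit 5) (nat_lit 5) (nat_lit 5) (nat_lit 4) (nat_lit 473) (nat_lit 383) (nat_lit 344)))) (XT.nd (nat_lit 156) (nat_lit 0) (nat_lit 0) (XT.nd (nat_lit 78) (nat_lit 152) (nat_lit 0) (XT.lf (nat_lit 0) (nat_lit 158258788657) (nat_lit 76) (nat_lit 13756733584) (nat_lit 76) (nat_lit 10466639216) (nat_lit 4) (nat_lit 4) (nat_lit 5) (nat_lit 5) (nat_lit 5) (nat_lit 4) (nat_lit 474) (nat_lit 383) (nat_lit 343)) (XT.lf (nat_lit 0) (nat_lit 2029373302) (nat_lit 76) (nat_lit 571225333) (nat_lit 152) (nat_lit 193798596436) (nat_lit 2) (nat_lit 5) (nat_lit 3) (nat_lit 5) (nat_lit 4) (nat_lit 4) (nat_lit 475) (nat_lit 383) (nat_lit 342))) (XT.nd (nat_lit 78) (nat_lit 0) (nat_lit 0) (XT.lf (nat_lit 0) (nat_lit 16906495607) (nat_lit 152) (nat_lit 180735015185)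 (nat_lit 0) (nat_lit 13751502886) (nat_lit 2) (nat_lit 5) (nat_lit 4) (nat_lit 4) (nat_lit 2) (nat_lit 4) (nat_lit 476) (nat_lit 383) (nat_lit 341)) (XT.lf (nat_lit 0) (nat_lit 32285747703) (nat_lit 152) (nat_lit 166182993217) (nat_lit 0) (nat_lit 29121153168) (nat_lit 2) (nat_lit 5) (nat_lit 4) (nat_lit 4) (nat_lit 2) (nat_lit 4) (nat_lit 477) (nat_lit 383) (nat_lit 340)))))) (XT.nd (nat_lit 546) (nat_lit 76) (nat_lit 0) (XT.nd (nat_lit 234) (nat_lit 0) (nat_lit 0) (XT.nd (nat_lit 78) (nat_lit 0) (nat_lit 0) (XT.lf (nat_lit 0) (nat_lit 48820572804) (nat_lit 152) (nat_lit 150618603232) (nat_lit 0) (nat_lit 45647087701) (nat_lit 2) (nat_lit 5) (nat_lit 4) (nat_lit 4) (nat_lit 2) (nat_lit 4) (nat_lit 478) (nat_lit 383) (nat_lit 339)) (XT.nd (nat_lit 78) (nat_lit 0) (nat_lit 0) (XT.lf (nat_lit 0) (nat_lit 66608955058) (nat_lit 152) (nat_lit 133949611810) (nat_lit 0) (nat_lit 63427237948) (nat_lit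 2) (nat_lit 5) (nat_lit 4) (nat_lit 4) (nat_lit 2) (nat_lit 4) (nat_lit 479) (nat_lit 383) (nat_lit 338)) (XT.lf (nat_lit 0) (nat_lit 85756307101) (nat_lit 152) (nat_lit 116077239740) (nat_lit 0) (nat_lit 82566967762) (nat_lit 2) (nat_lit 5) (nat_lit 4) (nat_lit 4) (nat_lit 2) (nat_lit 4) (nat_lit 480) (nat_lit 383) (nat_lit 337)))) (XT.nd (nat_lit 156) (nat_lit 0) (nat_lit 0) (XT.nd (nat_lit 78) (nat_lit 0) (nat_lit 0) (XT.lf (nat_lit 0) (nat_lit 106376094724) (nat_lit 152) (nat_lit 96895576671) (nat_lit 0) (nat_lit 103179697765) (nat_lit 2) (nat_lit 5) (nat_lit 4) (nat_lit 4) (nat_lit 2) (nat_lit 4) (nat_lit 481) (nat_lit 383) (nat_lit 336)) (XT.lf (nat_lit 0) (nat_lit 128590509259) (nat_lit 152) (nat_lit 76290953488) (nat_lit 0) (nat_lit 125387577468) (nat_lit 2) (nat_lit 5) (nat_lit 4) (nat_lit 4) (nat_lit 2) (nat_lit 4) (nat_lit 482) (nat_lit 383) (nat_lit 335))) (XT.nd (nat_lit 78) (nat_lit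 0) (nat_lit 0) (XT.lf (nat_lit 0) (nat_lit 152531191683) (nat_lit 152) (nat_lit 54141268720) (nat_lit 0) (nat_lit 149322209120) (nat_lit 2) (nat_lit 5) (nat_lit 4) (nat_lit 4) (nat_lit 2) (nat_lit 4) (nat_lit 483) (nat_lit 383) (nat_lit 334)) (XT.lf (nat_lit 0) (nat_lit 178340012705) (nat_lit 152) (nat_lit 30315264976) (nat_lit 0) (nat_lit 175125427576) (nat_lit 2) (nat_lit 5) (nat_lit 4) (nat_lit 4) (nat_lit 2) (nat_lit 4) (nat_lit 484) (nat_lit 383) (nat_lit 333))))) (XT.nd (nat_lit 234) (nat_lit 0) (nat_lit 0) (XT.nd (nat_lit 78) (nat_lit 76) (nat_lit 0) (XT.lf (nat_lit 0) (nat_lit 206169913487) (nat_lit 152) (nat_lit 4671751123) (nat_lit 0) (nat_lit 202950140797) (nat_lit 2) (nat_lit 5) (nat_lit 4) (nat_lit 4) (nat_lit 2) (nat_lit 4) (nat_lit 485) (nat_lit 383) (nat_lit 332)) (XT.nd (nat_lit 78) (nat_lit 0) (nat_lit 0) (XT.lf (nat_lit 0) (nat_lit 23699775218) (nat_lit 76) (nat_lit 212856056652)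 (nat_lit 76) (nat_lit 209631480665) (nat_lit 1) (nat_lit 4) (nat_lit 2) (nat_lit 5) (nat_lit 2) (nat_lit 4) (nat_lit 486) (nat_lit 383) (nat_lit 331)) (XT.lf (nat_lit 0) (nat_lit 54429404987) (nat_lit 76) (nat_lit 214985970679) (nat_lit 76) (nat_lit 211756947194) (nat_lit 1) (nat_lit 4) (nat_lit 2) (nat_lit 5) (nat_lit 2) (nat_lit 4) (nat_lit 487) (nat_lit 383) (nat_lit 330)))) (XT.nd (nat_lit 156) (nat_lit 0) (nat_lit 0) (XT.nd (nat_lit 78) (nat_lit 0) (nat_lit 0) (XT.lf (nat_lit 0) (nat_lit 87544770503) (nat_lit 76) (nat_lit 217323146769) (nat_lit 76) (nat_lit 214090005231) (nat_lit 1) (nat_lit 4) (nat_lit 2) (nat_lit 5) (nat_lit 2) (nat_lit 4) (nat_lit 488) (nat_lit 383) (nat_lit 329)) (XT.lf (nat_lit 0) (nat_lit 123242110969) (nat_lit 76) (nat_lit 219881434854) (nat_lit 76) (nat_lit 216644480304) (nat_lit 1) (nat_lit 4) (nat_lit 2) (nat_lit 5) (nat_lit 2) (nat_lit 4) (nat_lit 489) (nat_lit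 383) (nat_lit 328))) (XT.nd (nat_lit 78) (nat_lit 0) (nat_lit 0) (XT.lf (nat_lit 0) (nat_lit 161732966181) (nat_lit 76) (nat_lit 222675995161) (nat_lit 76) (nat_lit 219435510044) (nat_lit 1) (nat_lit 4) (nat_lit 2) (nat_lit 5) (nat_lit 2) (nat_lit 4) (nat_lit 490) (nat_lit 383) (nat_lit 327)) (XT.lf (nat_lit 0) (nat_lit 203245430095) (nat_lit 76) (nat_lit 225723388047) (nat_lit 76) (nat_lit 222479633887) (nat_lit 1) (nat_lit 4) (nat_lit 2) (nat_lit 5) (nat_lit 2) (nat_lit 4) (nat_lit 491) (nat_lit 383) (nat_lit 326))))))) (XT.nd (nat_lit 58110) (nat_lit 0) (nat_lit 1216) (XT.nd (nat_lit 546) (nat_lit 0) (nat_lit 0) (XT.nd (nat_lit 234) (nat_lit 0) (nat_lit 0) (XT.nd (nat_lit 78) (nat_lit 0) (nat_lit 0) (XT.lf (nat_lit 0) (nat_lit 248025502498) (nat_lit 76) (nat_lit 229041672136) (nat_lit 76) (nat_lit 225794891084) (nat_lit 1) (nat_lit 4) (nat_lit 2) (nat_lit 5) (nat_lit 2) (nat_lit 4) (nat_lit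 492) (nat_lit 383) (nat_lit 325)) (XT.nd (nat_lit 78) (nat_lit 0) (nat_lit 0) (XT.lf (nat_lit 0) (nat_lit 296338546781) (nat_lit 76) (nat_lit 232650511335) (nat_lit 76) (nat_lit 229400927604) (nat_lit 1) (nat_lit 4) (nat_lit 2) (nat_lit 5) (nat_lit 2) (nat_lit 4) (nat_lit 493) (nat_lit 383) (nat_lit 324)) (XT.lf (nat_lit 0) (nat_lit 348470862466) (nat_lit 76) (nat_lit 236571291356) (nat_lit 76) (nat_lit 233319112553) (nat_lit 1) (nat_lit 4) (nat_lit 2) (nat_lit 5) (nat_lit 2) (nat_lit 4) (nat_lit 494) (nat_lit 383) (nat_lit 323)))) (XT.nd (nat_lit 156) (nat_lit 0) (nat_lit 0) (XT.nd (nat_lit 78) (nat_lit 0) (nat_lit 0) (XT.lf (nat_lit 0) (nat_lit 404731381795) (nat_lit 76) (nat_lit 240827246451) (nat_lit 76) (nat_lit 237572664805) (nat_lit 1) (nat_lit 4) (nat_lit 2) (nat_lit 5) (nat_lit 2) (nat_lit 4) (nat_lit 495) (nat_lit 383) (nat_lit 322)) (XT.lf (nat_lit 0) (nat_lit 465453500437) (nat_lit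 76) (nat_lit 245443597097) (nat_lit 76) (nat_lit 242186790594) (nat_lit 1) (nat_lit 4) (nat_lit 2) (nat_lit 5) (nat_lit 2) (nat_lit 4) (nat_lit 496) (nat_lit 383) (nat_lit 321))) (XT.nd (nat_lit 78) (nat_lit 0) (nat_lit 0) (XT.lf (nat_lit 0) (nat_lit 530997053169) (nat_lit 76) (nat_lit 250447699443) (nat_lit 76) (nat_lit 247188832889) (nat_lit 1) (nat_lit 4) (nat_lit 2) (nat_lit 5) (nat_lit 2) (nat_lit 4) (nat_lit 497) (nat_lit 383) (nat_lit 320)) (XT.lf (nat_lit 0) (nat_lit 601750446230) (nat_lit 76) (nat_lit 255869207431) (nat_lit 76) (nat_lit 252608433421) (nat_lit 1) (nat_lit 4) (nat_lit 2) (nat_lit 5) (nat_lit 2) (nat_lit 4) (nat_lit 498) (nat_lit 383) (nat_lit 319))))) (XT.nd (nat_lit 57252) (nat_lit 0) (nat_lit 2964) (XT.nd (nat_lit 78) (nat_lit 0) (nat_lit 0) (XT.lf (nat_lit 0) (nat_lit 678132958987) (nat_lit 76) (nat_lit 261740248515) (nat_lit 76) (nat_lit 258477708343) (nat_lit 1)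 (nat_lit 4) (nat_lit 2) (nat_lit 5) (nat_lit 2) (nat_lit 4) (nat_lit 499) (nat_lit 383) (nat_lit 318)) (XT.nd (nat_lit 78) (nat_lit 0) (nat_lit 0) (XT.lf (nat_lit 0) (nat_lit 760597228551) (nat_lit 76) (nat_lit 268095614049) (nat_lit 76) (nat_lit 264831438541) (nat_lit 1) (nat_lit 4) (nat_lit 2) (nat_lit 5) (nat_lit 2) (nat_lit 4) (nat_lit 500) (nat_lit 383) (nat_lit 317)) (XT.lf (nat_lit 0) (nat_lit 849631932076) (nat_lit 76) (nat_lit 274972965460) (nat_lit 76) (nat_lit 271707275752) (nat_lit 1) (nat_lit 4) (nat_lit 2) (nat_lit 5) (nat_lit 2) (nat_lit 4) (nat_lit 501) (nat_lit 383) (nat_lit 316)))) (XT.nd (nat_lit 156) (nat_lit 228) (nat_lit 0) (XT.nd (nat_lit 78) (nat_lit 228) (nat_lit 0) (XT.lf (nat_lit 0) (nat_lit 5734468280) (nat_lit 76) (nat_lit 792136803) (nat_lit 76) (nat_lit 792136803) (nat_lit 46) (nat_lit 4) (nat_lit 47) (nat_lit 5) (nat_lit 47) (nat_lit 4) (nat_lit 432) (nat_lit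 384) (nat_lit 384)) (XT.lf (nat_lit 0) (nat_lit 2031299949) (nat_lit 76) (nat_lit 6871128766) (nat_lit 76) (nat_lit 6350863374) (nat_lit 43) (nat_lit 4) (nat_lit 44) (nat_lit 5) (nat_lit 44) (nat_lit 4) (nat_lit 433) (nat_lit 384) (nat_lit 383))) (XT.nd (nat_lit 78) (nat_lit 76) (nat_lit 0) (XT.lf (nat_lit 0) (nat_lit 4115254019) (nat_lit 152) (nat_lit 8637740171) (nat_lit 0) (nat_lit 3160975347) (nat_lit 41) (nat_lit 5) (nat_lit 43) (nat_lit 4) (nat_lit 41) (nat_lit 4) (nat_lit 434) (nat_lit 384) (nat_lit 382)) (XT.lf (nat_lit 0) (nat_lit 12378132305) (nat_lit 76) (nat_lit 2811789328) (nat_lit 76) (nat_lit 1432707116) (nat_lit 40) (nat_lit 4) (nat_lit 41) (nat_lit 5) (nat_lit 41) (nat_lit 4) (nat_lit 435) (nat_lit 384) (nat_lit 381)))))) (XT.nd (nat_lit 546) (nat_lit 836) (nat_lit 0) (XT.nd (nat_lit 234) (nat_lit 456) (nat_lit 0) (XT.nd (nat_lit 78) (nat_lit 304) (nat_lit 0) (XT.lf (nat_lit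 0) (nat_lit 9463648266) (nat_lit 152) (nat_lit 140423403) (nat_lit 0) (nat_lit 7775630340) (nat_lit 38) (nat_lit 5) (nat_lit 40) (nat_lit 4) (nat_lit 38) (nat_lit 4) (nat_lit 436) (nat_lit 384) (nat_lit 380)) (XT.nd (nat_lit 78) (nat_lit 76) (nat_lit 0) (XT.lf (nat_lit 0) (nat_lit 2913555182) (nat_lit 152) (nat_lit 14303531600) (nat_lit 0) (nat_lit 975578413) (nat_lit 35) (nat_lit 5) (nat_lit 37) (nat_lit 4) (nat_lit 35) (nat_lit 4) (nat_lit 437) (nat_lit 384) (nat_lit 379)) (XT.lf (nat_lit 0) (nat_lit 7495926461) (nat_lit 76) (nat_lit 6904354574) (nat_lit 76) (nat_lit 4660506832) (nat_lit 34) (nat_lit 4) (nat_lit 35) (nat_lit 5) (nat_lit 35) (nat_lit 4) (nat_lit 438) (nat_lit 384) (nat_lit 378)))) (XT.nd (nat_lit 156) (nat_lit 228) (nat_lit 0) (XT.nd (nat_lit 78) (nat_lit 76) (nat_lit 0) (XT.lf (nat_lit 0) (nat_lit 6566619538) (nat_lit 152) (nat_lit 9267699917) (nat_lit 0) (nat_lit 4159894202)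 (nat_lit 32) (nat_lit 5) (nat_lit 34) (nat_lit 4) (nat_lit 32) (nat_lit 4) (nat_lit 439) (nat_lit 384) (nat_lit 377)) (XT.lf (nat_lit 0) (nat_lit 13479028104) (nat_lit 76) (nat_lit 5087039626) (nat_lit 76) (nat_lit 2430566615) (nat_lit 31) (nat_lit 4) (nat_lit 32) (nat_lit 5) (nat_lit 32) (nat_lit 4) (nat_lit 440) (nat_lit 384) (nat_lit 376))) (XT.nd (nat_lit 78) (nat_lit 76) (nat_lit 0) (XT.lf (nat_lit 0) (nat_lit 9174881338) (nat_lit 152) (nat_lit 6470783528) (nat_lit 0) (nat_lit 6424670998) (nat_lit 29) (nat_lit 5) (nat_lit 31) (nat_lit 4) (nat_lit 29) (nat_lit 4) (nat_lit 441) (nat_lit 384) (nat_lit 375)) (XT.lf (nat_lit 0) (nat_lit 17105403094) (nat_lit 76) (nat_lit 4537849443) (nat_lit 76) (nat_lit 1583716839) (nat_lit 28) (nat_lit 4) (nat_lit 29) (nat_lit 5) (nat_lit 29) (nat_lit 4) (nat_lit 442) (nat_lit 384) (nat_lit 374))))) (XT.nd (nat_lit 312) (nat_lit 380) (nat_lit 0) (XT.nd (nat_lit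 156) (nat_lit 228) (nat_lit 0) (XT.nd (nat_lit 78) (nat_lit 76) (nat_lit 0) (XT.lf (nat_lit 0) (nat_lit 10350327887) (nat_lit 152) (nat_lit 6757587133) (nat_lit 0) (nat_lit 7357042635) (nat_lit 26) (nat_lit 5) (nat_lit 28) (nat_lit 4) (nat_lit 26) (nat_lit 4) (nat_lit 443) (nat_lit 384) (nat_lit 373)) (XT.lf (nat_lit 0) (nat_lit 17442746350) (nat_lit 76) (nat_lit 5758430524) (nat_lit 76) (nat_lit 2598640061) (nat_lit 25) (nat_lit 4) (nat_lit 26) (nat_lit 5) (nat_lit 26) (nat_lit 4) (nat_lit 444) (nat_lit 384) (nat_lit 372))) (XT.nd (nat_lit 78) (nat_lit 76) (nat_lit 0) (XT.lf (nat_lit 0) (nat_lit 9570329681) (nat_lit 152) (nat_lit 11246956888) (nat_lit 0) (nat_lit 6414175437) (nat_lit 23) (nat_lit 5) (nat_lit 25) (nat_lit 4) (nat_lit 23) (nat_lit 4) (nat_lit 445) (nat_lit 384) (nat_lit 371)) (XT.lf (nat_lit 0) (nat_lit 13254014581) (nat_lit 76) (nat_lit 9405852094) (nat_lit 76) (nat_lit 6113744153)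 (nat_lit 22) (nat_lit 4) (nat_lit 23) (nat_lit 5) (nat_lit 23) (nat_lit 4) (nat_lit 446) (nat_lit 384) (nat_lit 370)))) (XT.nd (nat_lit 156) (nat_lit 152) (nat_lit 0) (XT.nd (nat_lit 78) (nat_lit 76) (nat_lit 0) (XT.lf (nat_lit 0) (nat_lit 6137931792) (nat_lit 152) (nat_lit 21414341943) (nat_lit 0) (nat_lit 2882702275) (nat_lit 20) (nat_lit 5) (nat_lit 22) (nat_lit 4) (nat_lit 20) (nat_lit 4) (nat_lit 447) (nat_lit 384) (nat_lit 369)) (XT.lf (nat_lit 0) (nat_lit 2905467019) (nat_lit 76) (nat_lit 16340253250) (nat_lit 76) (nat_lit 12974015749) (nat_lit 19) (nat_lit 4) (nat_lit 20) (nat_lit 5) (nat_lit 20) (nat_lit 4) (nat_lit 448) (nat_lit 384) (nat_lit 368))) (XT.nd (nat_lit 78) (nat_lit 152) (nat_lit 0) (XT.lf (nat_lit 0) (nat_lit 29185674911) (nat_lit 76) (nat_lit 4215342737) (nat_lit 76) (nat_lit 746320067) (nat_lit 19) (nat_lit 4) (nat_lit 20) (nat_lit 5) (nat_lit 20) (nat_lit 4) (nat_lit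 449) (nat_lit 384) (nat_lit 367)) (XT.lf (nat_lit 0) (nat_lit 12180057010) (nat_lit 152) (nat_lit 15247819705) (nat_lit 0) (nat_lit 8785586416) (nat_lit 17) (nat_lit 5) (nat_lit 19) (nat_lit 4) (nat_lit 17) (nat_lit 4) (nat_lit 450) (nat_lit 384) (nat_lit 366))))))))
noncomputable def xc22 : XT := (XT.nd (nat_lit 2184) (nat_lit 76) (nat_lit 0) (XT.nd (nat_lit 1092) (nat_lit 380) (nat_lit 0) (XT.nd (nat_lit 546) (nat_lit 304) (nat_lit 0) (XT.nd (nat_lit 234) (nat_lit 228) (nat_lit 0) (XT.nd (nat_lit 78) (nat_lit 152) (nat_lit 0) (XT.lf (nat_lit 0) (nat_lit 10260220263) (nat_lit 76) (nat_lit 15831783256) (nat_lit 76) (nat_lit 12353387218) (nat_lit 16) (nat_lit 4) (nat_lit 17) (nat_lit 5) (nat_lit 17) (nat_lit 4) (nat_lit 451) (nat_lit 384) (nat_lit 365)) (XT.nd (nat_lit 78) (nat_lit 76) (nat_lit 0) (XT.lf (nat_lit 0) (nat_lit 190486196) (nat_lit 152) (nat_lit 3165608080) (nat_lit 76) (nat_lit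 37502687847) (nat_lit 15) (nat_lit 5) (nat_lit 17) (nat_lit 5) (nat_lit 16) (nat_lit 4) (nat_lit 452) (nat_lit 384) (nat_lit 364)) (XT.lf (nat_lit 0) (nat_lit 13537348050) (nat_lit 152) (nat_lit 19824105078) (nat_lit 0) (nat_lit 10082055361) (nat_lit 14) (nat_lit 5) (nat_lit 16) (nat_lit 4) (nat_lit 14) (nat_lit 4) (nat_lit 453) (nat_lit 384) (nat_lit 363)))) (XT.nd (nat_lit 156) (nat_lit 152) (nat_lit 0) (XT.nd (nat_lit 78) (nat_lit 0) (nat_lit 0) (XT.lf (nat_lit 0) (nat_lit 5959571084) (nat_lit 76) (nat_lit 21899418227) (nat_lit 76) (nat_lit 18380675326) (nat_lit 13) (nat_lit 4) (nat_lit 14) (nat_lit 5) (nat_lit 14) (nat_lit 4) (nat_lit 454) (nat_lit 384) (nat_lit 362)) (XT.lf (nat_lit 0) (nat_lit 33938320688) (nat_lit 76) (nat_lit 9447849125) (nat_lit 76) (nat_lit 5870356027) (nat_lit 13) (nat_lit 4) (nat_lit 14) (nat_lit 5) (nat_lit 14) (nat_lit 4) (nat_lit 455) (nat_lit 384) (nat_lit 361)))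 (XT.nd (nat_lit 78) (nat_lit 0) (nat_lit 0) (XT.lf (nat_lit 0) (nat_lit 7367666890) (nat_lit 152) (nat_lit 41233812730) (nat_lit 0) (nat_lit 3908722672) (nat_lit 11) (nat_lit 5) (nat_lit 13) (nat_lit 4) (nat_lit 11) (nat_lit 4) (nat_lit 456) (nat_lit 384) (nat_lit 360)) (XT.lf (nat_lit 0) (nat_lit 21631357887) (nat_lit 152) (nat_lit 16254947514) (nat_lit 0) (nat_lit 18124443360) (nat_lit 11) (nat_lit 5) (nat_lit 13) (nat_lit 4) (nat_lit 11) (nat_lit 4) (nat_lit 457) (nat_lit 384) (nat_lit 359))))) (XT.nd (nat_lit 234) (nat_lit 76) (nat_lit 0) (XT.nd (nat_lit 78) (nat_lit 152) (nat_lit 0) (XT.lf (nat_lit 0) (nat_lit 10572646234) (nat_lit 76) (nat_lit 26386927477) (nat_lit 76) (nat_lit 22835595998) (nat_lit 10) (nat_lit 4) (nat_lit 11) (nat_lit 5) (nat_lit 11) (nat_lit 4) (nat_lit 458) (nat_lit 384) (nat_lit 358)) (XT.nd (nat_lit 78) (nat_lit 152) (nat_lit 0) (XT.lf (nat_lit 0) (nat_lit 39660141669)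 (nat_lit 76) (nat_lit 13906028429) (nat_lit 76) (nat_lit 10313570142) (nat_lit 10) (nat_lit 4) (nat_lit 11) (nat_lit 5) (nat_lit 11) (nat_lit 4) (nat_lit 459) (nat_lit 384) (nat_lit 357)) (XT.lf (nat_lit 0) (nat_lit 2369911401) (nat_lit 76) (nat_lit 557137411) (nat_lit 152) (nat_lit 65370544501) (nat_lit 8) (nat_lit 5) (nat_lit 9) (nat_lit 5) (nat_lit 10) (nat_lit 4) (nat_lit 460) (nat_lit 384) (nat_lit 356)))) (XT.nd (nat_lit 156) (nat_lit 76) (nat_lit 0) (XT.nd (nat_lit 78) (nat_lit 0) (nat_lit 0) (XT.lf (nat_lit 0) (nat_lit 17304409358) (nat_lit 152) (nat_lit 41920898847) (nat_lit 0) (nat_lit 13813172906) (nat_lit 8) (nat_lit 5) (nat_lit 10) (nat_lit 4) (nat_lit 8) (nat_lit 4) (nat_lit 461) (nat_lit 384) (nat_lit 355)) (XT.lf (nat_lit 0) (nat_lit 32645801621) (nat_lit 152) (nat_lit 16398675693) (nat_lit 0) (nat_lit 29123472040) (nat_lit 8) (nat_lit 5) (nat_lit 10) (nat_lit 4) (nat_lit 8)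 (nat_lit 4) (nat_lit 462) (nat_lit 384) (nat_lit 354))) (XT.nd (nat_lit 78) (nat_lit 0) (nat_lit 0) (XT.lf (nat_lit 0) (nat_lit 11155990184) (nat_lit 76) (nat_lit 38051625168) (nat_lit 76) (nat_lit 34500505651) (nat_lit 7) (nat_lit 4) (nat_lit 8) (nat_lit 5) (nat_lit 8) (nat_lit 4) (nat_lit 463) (nat_lit 384) (nat_lit 353)) (XT.lf (nat_lit 0) (nat_lit 41150147412) (nat_lit 76) (nat_lit 26056755374) (nat_lit 76) (nat_lit 22478978511) (nat_lit 7) (nat_lit 4) (nat_lit 8) (nat_lit 5) (nat_lit 8) (nat_lit 4) (nat_lit 464) (nat_lit 384) (nat_lit 352)))))) (XT.nd (nat_lit 546) (nat_lit 152) (nat_lit 0) (XT.nd (nat_lit 234) (nat_lit 76) (nat_lit 0) (XT.nd (nat_lit 78) (nat_lit 152) (nat_lit 0) (XT.lf (nat_lit 0) (nat_lit 73219324866) (nat_lit 76) (nat_lit 13266506732) (nat_lit 76) (nat_lit 9664047140) (nat_lit 7) (nat_lit 4) (nat_lit 8) (nat_lit 5) (nat_lit 8) (nat_lit 4) (nat_lit 465) (nat_lit 384)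 (nat_lit 351)) (XT.nd (nat_lit 78) (nat_lit 0) (nat_lit 0) (XT.lf (nat_lit 0) (nat_lit 3970101497) (nat_lit 152) (nat_lit 98643829867) (nat_lit 0) (nat_lit 517421525) (nat_lit 5) (nat_lit 5) (nat_lit 7) (nat_lit 4) (nat_lit 5) (nat_lit 4) (nat_lit 466) (nat_lit 384) (nat_lit 350)) (XT.lf (nat_lit 0) (nat_lit 18844050023) (nat_lit 152) (nat_lit 76423775879) (nat_lit 0) (nat_lit 15371216278) (nat_lit 5) (nat_lit 5) (nat_lit 7) (nat_lit 4) (nat_lit 5) (nat_lit 4) (nat_lit 467) (nat_lit 384) (nat_lit 349)))) (XT.nd (nat_lit 156) (nat_lit 76) (nat_lit 0) (XT.nd (nat_lit 78) (nat_lit 0) (nat_lit 0) (XT.lf (nat_lit 0) (nat_lit 34772212148) (nat_lit 152) (nat_lit 52701203019) (nat_lit 0) (nat_lit 31280717501) (nat_lit 5) (nat_lit 5) (nat_lit 7) (nat_lit 4) (nat_lit 5) (nat_lit 4) (nat_lit 468) (nat_lit 384) (nat_lit 348)) (XT.lf (nat_lit 0) (nat_lit 51848976980) (nat_lit 152) (nat_lit 27335533079)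 (nat_lit 0) (nat_lit 48340203721) (nat_lit 5) (nat_lit 5) (nat_lit 7) (nat_lit 4) (nat_lit 5) (nat_lit 4) (nat_lit 469) (nat_lit 384) (nat_lit 347))) (XT.nd (nat_lit 78) (nat_lit 76) (nat_lit 0) (XT.lf (nat_lit 0) (nat_lit 70175540162) (nat_lit 152) (nat_lit 176450976) (nat_lit 0) (nat_lit 66650768189) (nat_lit 5) (nat_lit 5) (nat_lit 7) (nat_lit 4) (nat_lit 5) (nat_lit 4) (nat_lit 470) (nat_lit 384) (nat_lit 346)) (XT.lf (nat_lit 0) (nat_lit 29893773437) (nat_lit 76) (nat_lit 60433455695) (nat_lit 76) (nat_lit 56893870097) (nat_lit 4) (nat_lit 4) (nat_lit 5) (nat_lit 5) (nat_lit 5) (nat_lit 4) (nat_lit 471) (nat_lit 384) (nat_lit 345))))) (XT.nd (nat_lit 234) (nat_lit 152) (nat_lit 0) (XT.nd (nat_lit 78) (nat_lit 0) (nat_lit 0) (XT.lf (nat_lit 0) (nat_lit 62167035281) (nat_lit 76) (nat_lit 49824085144) (nat_lit 76) (nat_lit 46270783227) (nat_lit 4) (nat_lit 4) (nat_lit 5) (nat_lit 5) (nat_lit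 5) (nat_lit 4) (nat_lit 472) (nat_lit 384) (nat_lit 344)) (XT.nd (nat_lit 78) (nat_lit 0) (nat_lit 0) (XT.lf (nat_lit 0) (nat_lit 96828749250) (nat_lit 76) (nat_lit 38463997425) (nat_lit 76) (nat_lit 34897995212) (nat_lit 4) (nat_lit 4) (nat_lit 5) (nat_lit 5) (nat_lit 5) (nat_lit 4) (nat_lit 473) (nat_lit 384) (nat_lit 343)) (XT.lf (nat_lit 0) (nat_lit 134084318092) (nat_lit 76) (nat_lit 26285873499) (nat_lit 76) (nat_lit 22708111753) (nat_lit 4) (nat_lit 4) (nat_lit 5) (nat_lit 5) (nat_lit 5) (nat_lit 4) (nat_lit 474) (nat_lit 384) (nat_lit 342)))) (XT.nd (nat_lit 156) (nat_lit 0) (nat_lit 0) (XT.nd (nat_lit 78) (nat_lit 152) (nat_lit 0) (XT.lf (nat_lit 0) (nat_lit 174154515549) (nat_lit 76) (nat_lit 13217546706) (nat_lit 76) (nat_lit 9628896504) (nat_lit 4) (nat_lit 4) (nat_lit 5) (nat_lit 5) (nat_lit 5) (nat_lit 4) (nat_lit 475) (nat_lit 384) (nat_lit 341)) (XT.lf (nat_lit 0) (nat_lit 4374387503)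 (nat_lit 152) (nat_lit 206711423096) (nat_lit 0) (nat_lit 947023592) (nat_lit 2) (nat_lit 5) (nat_lit 4) (nat_lit 4) (nat_lit 2) (nat_lit 4) (nat_lit 476) (nat_lit 384) (nat_lit 340))) (XT.nd (nat_lit 78) (nat_lit 0) (nat_lit 0) (XT.lf (nat_lit 0) (nat_lit 19717693848) (nat_lit 152) (nat_lit 192232378888) (nat_lit 0) (nat_lit 16281439369) (nat_lit 2) (nat_lit 5) (nat_lit 4) (nat_lit 4) (nat_lit 2) (nat_lit 4) (nat_lit 477) (nat_lit 384) (nat_lit 339)) (XT.lf (nat_lit 0) (nat_lit 36219235845) (nat_lit 152) (nat_lit 176735560904) (nat_lit 0) (nat_lit 32774749359) (nat_lit 2) (nat_lit 5) (nat_lit 4) (nat_lit 4) (nat_lit 2) (nat_lit 4) (nat_lit 478) (nat_lit 384) (nat_lit 338))))))) (XT.nd (nat_lit 1092) (nat_lit 0) (nat_lit 0) (XT.nd (nat_lit 546) (nat_lit 76) (nat_lit 0) (XT.nd (nat_lit 234) (nat_lit 0) (nat_lit 0) (XT.nd (nat_lit 78) (nat_lit 0) (nat_lit 0) (XT.lf (nat_lit 0) (nat_lit 53976800412)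 (nat_lit 152) (nat_lit 160129136148) (nat_lit 0) (nat_lit 50524691696) (nat_lit 2) (nat_lit 5) (nat_lit 4) (nat_lit 4) (nat_lit 2) (nat_lit 4) (nat_lit 479) (nat_lit 384) (nat_lit 337)) (XT.nd (nat_lit 78) (nat_lit 0) (nat_lit 0) (XT.lf (nat_lit 0) (nat_lit 73095617559) (nat_lit 152) (nat_lit 142314696178) (nat_lit 0) (nat_lit 69636451224) (nat_lit 2) (nat_lit 5) (nat_lit 4) (nat_lit 4) (nat_lit 2) (nat_lit 4) (nat_lit 480) (nat_lit 384) (nat_lit 336)) (XT.lf (nat_lit 0) (nat_lit 93688983981) (nat_lit 152) (nat_lit 123186673942) (nat_lit 0) (nat_lit 90223282813) (nat_lit 2) (nat_lit 5) (nat_lit 4) (nat_lit 4) (nat_lit 2) (nat_lit 4) (nat_lit 481) (nat_lit 384) (nat_lit 335)))) (XT.nd (nat_lit 156) (nat_lit 0) (nat_lit 0) (XT.nd (nat_lit 78) (nat_lit 0) (nat_lit 0) (XT.lf (nat_lit 0) (nat_lit 115878934442) (nat_lit 152) (nat_lit 102631718196) (nat_lit 0) (nat_lit 112407182502) (nat_lit 2) (nat_lit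 5) (nat_lit 4) (nat_lit 4) (nat_lit 2) (nat_lit 4) (nat_lit 482) (nat_lit 384) (nat_lit 334)) (XT.lf (nat_lit 0) (nat_lit 139796964944) (nat_lit 152) (nat_lit 80528021796) (nat_lit 0) (nat_lit 136319610439) (nat_lit 2) (nat_lit 5) (nat_lit 4) (nat_lit 4) (nat_lit 2) (nat_lit 4) (nat_lit 483) (nat_lit 384) (nat_lit 333))) (XT.nd (nat_lit 78) (nat_lit 0) (nat_lit 0) (XT.lf (nat_lit 0) (nat_lit 165584811966) (nat_lit 152) (nat_lit 56744599874) (nat_lit 0) (nat_lit 162102269900) (nat_lit 2) (nat_lit 5) (nat_lit 4) (nat_lit 4) (nat_lit 2) (nat_lit 4) (nat_lit 484) (nat_lit 384) (nat_lit 332)) (XT.lf (nat_lit 0) (nat_lit 193395292377) (nat_lit 152) (nat_lit 31140513634) (nat_lit 0) (nat_lit 189907947014) (nat_lit 2) (nat_lit 5) (nat_lit 4) (nat_lit 4) (nat_lit 2) (nat_lit 4) (nat_lit 485) (nat_lit 384) (nat_lit 331))))) (XT.nd (nat_lit 234) (nat_lit 0) (nat_lit 0) (XT.nd (nat_lit 78) (nat_lit 76)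 (nat_lit 0) (XT.lf (nat_lit 0) (nat_lit 223393209025) (nat_lit 152) (nat_lit 3564035156) (nat_lit 0) (nat_lit 219901416165) (nat_lit 2) (nat_lit 5) (nat_lit 4) (nat_lit 4) (nat_lit 2) (nat_lit 4) (nat_lit 486) (nat_lit 384) (nat_lit 330)) (XT.nd (nat_lit 78) (nat_lit 0) (nat_lit 0) (XT.lf (nat_lit 0) (nat_lit 27012831017) (nat_lit 76) (nat_lit 229165242321) (nat_lit 76) (nat_lit 225669331407) (nat_lit 1) (nat_lit 4) (nat_lit 2) (nat_lit 5) (nat_lit 2) (nat_lit 4) (nat_lit 487) (nat_lit 384) (nat_lit 329)) (XT.lf (nat_lit 0) (nat_lit 60095862739) (nat_lit 76) (nat_lit 231518830867) (nat_lit 76) (nat_lit 228019106941) (nat_lit 1) (nat_lit 4) (nat_lit 2) (nat_lit 5) (nat_lit 2) (nat_lit 4) (nat_lit 488) (nat_lit 384) (nat_lit 328)))) (XT.nd (nat_lit 156) (nat_lit 0) (nat_lit 0) (XT.nd (nat_lit 78) (nat_lit 0) (nat_lit 0) (XT.lf (nat_lit 0) (nat_lit 95763264507) (nat_lit 76) (nat_lit 234092315671)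 (nat_lit 76) (nat_lit 230589061178) (nat_lit 1) (nat_lit 4) (nat_lit 2) (nat_lit 5) (nat_lit 2) (nat_lit 4) (nat_lit 489) (nat_lit 384) (nat_lit 327)) (XT.lf (nat_lit 0) (nat_lit 134226398702) (nat_lit 76) (nat_lit 236900947014) (nat_lit 76) (nat_lit 233394423478) (nat_lit 1) (nat_lit 4) (nat_lit 2) (nat_lit 5) (nat_lit 2) (nat_lit 4) (nat_lit 490) (nat_lit 384) (nat_lit 326))) (XT.nd (nat_lit 78) (nat_lit 0) (nat_lit 0) (XT.lf (nat_lit 0) (nat_lit 175713195009) (nat_lit 76) (nat_lit 239961368637) (nat_lit 76) (nat_lit 236451818208) (nat_lit 1) (nat_lit 4) (nat_lit 2) (nat_lit 5) (nat_lit 2) (nat_lit 4) (nat_lit 491) (nat_lit 384) (nat_lit 325)) (XT.lf (nat_lit 0) (nat_lit 220469501107) (nat_lit 76) (nat_lit 243291716371) (nat_lit 76) (nat_lit 239779363265) (nat_lit 1) (nat_lit 4) (nat_lit 2) (nat_lit 5) (nat_lit 2) (nat_lit 4) (nat_lit 492) (nat_lit 384) (nat_lit 324)))))) (XT.nd (nat_lit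 546) (nat_lit 0) (nat_lit 0) (XT.nd (nat_lit 234) (nat_lit 0) (nat_lit 0) (XT.nd (nat_lit 78) (nat_lit 0) (nat_lit 0) (XT.lf (nat_lit 0) (nat_lit 268760539554) (nat_lit 76) (nat_lit 246911725611) (nat_lit 76) (nat_lit 243396777433) (nat_lit 1) (nat_lit 4) (nat_lit 2) (nat_lit 5) (nat_lit 2) (nat_lit 4) (nat_lit 493) (nat_lit 384) (nat_lit 323)) (XT.nd (nat_lit 78) (nat_lit 0) (nat_lit 0) (XT.lf (nat_lit 0) (nat_lit 320872479464) (nat_lit 76) (nat_lit 250842848263) (nat_lit 76) (nat_lit 247325497240) (nat_lit 1) (nat_lit 4) (nat_lit 2) (nat_lit 5) (nat_lit 2) (nat_lit 4) (nat_lit 494) (nat_lit 384) (nat_lit 322)) (XT.lf (nat_lit 0) (nat_lit 377114132335) (nat_lit 76) (nat_lit 255108379870) (nat_lit 76) (nat_lit 251588803991) (nat_lit 1) (nat_lit 4) (nat_lit 2) (nat_lit 5) (nat_lit 2) (nat_lit 4) (nat_lit 495) (nat_lit 384) (nat_lit 321)))) (XT.nd (nat_lit 156) (nat_lit 0) (nat_lit 0) (XT.nd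 (nat_lit 78) (nat_lit 0) (nat_lit 0) (XT.lf (nat_lit 0) (nat_lit 437818782034) (nat_lit 76) (nat_lit 259733597654) (nat_lit 76) (nat_lit 256211961723) (nat_lit 1) (nat_lit 4) (nat_lit 2) (nat_lit 5) (nat_lit 2) (nat_lit 4) (nat_lit 496) (nat_lit 384) (nat_lit 320)) (XT.lf (nat_lit 0) (nat_lit 503346159819) (nat_lit 76) (nat_lit 264745910315) (nat_lit 76) (nat_lit 261222366929) (nat_lit 1) (nat_lit 4) (nat_lit 2) (nat_lit 5) (nat_lit 2) (nat_lit 4) (nat_lit 497) (nat_lit 384) (nat_lit 319))) (XT.nd (nat_lit 78) (nat_lit 0) (nat_lit 0) (XT.lf (nat_lit 0) (nat_lit 574084576078) (nat_lit 76) (nat_lit 270175020446) (nat_lit 76) (nat_lit 266649710897) (nat_lit 1) (nat_lit 4) (nat_lit 2) (nat_lit 5) (nat_lit 2) (nat_lit 4) (nat_lit 498) (nat_lit 384) (nat_lit 318)) (XT.lf (nat_lit 0) (nat_lit 650453221424) (nat_lit 76) (nat_lit 276053100550) (nat_lit 76) (nat_lit 272526155666) (nat_lit 1) (nat_lit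 4) (nat_lit 2) (nat_lit 5) (nat_lit 2) (nat_lit 4) (nat_lit 499) (nat_lit 384) (nat_lit 317))))) (XT.nd (nat_lit 57096) (nat_lit 0) (nat_lit 3040) (XT.nd (nat_lit 78) (nat_lit 0) (nat_lit 0) (XT.lf (nat_lit 0) (nat_lit 732904650794) (nat_lit 76) (nat_lit 282414983697) (nat_lit 76) (nat_lit 278886524613) (nat_lit 1) (nat_lit 4) (nat_lit 2) (nat_lit 5) (nat_lit 2) (nat_lit 4) (nat_lit 500) (nat_lit 384) (nat_lit 316)) (XT.nd (nat_lit 56940) (nat_lit 0) (nat_lit 3648) (XT.lf (nat_lit 0) (nat_lit 821927465251) (nat_lit 76) (nat_lit 289298369933) (nat_lit 76) (nat_lit 285768508813) (nat_lit 1) (nat_lit 4) (nat_lit 2) (nat_lit 5) (nat_lit 2) (nat_lit 4) (nat_lit 501) (nat_lit 384) (nat_lit 315)) (XT.lf (nat_lit 0) (nat_lit 118684044) (nat_lit 152) (nat_lit 3317632249) (nat_lit 152) (nat_lit 3317632249) (nat_lit 49) (nat_lit 4) (nat_lit 51) (nat_lit 5) (nat_lit 51) (nat_lit 4) (nat_lit 430) (nat_lit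 385) (nat_lit 385)))) (XT.nd (nat_lit 156) (nat_lit 380) (nat_lit 0) (XT.nd (nat_lit 78) (nat_lit 76) (nat_lit 0) (XT.lf (nat_lit 0) (nat_lit 3105632268) (nat_lit 152) (nat_lit 8438298131) (nat_lit 0) (nat_lit 2515651315) (nat_lit 47) (nat_lit 5) (nat_lit 49) (nat_lit 4) (nat_lit 47) (nat_lit 4) (nat_lit 431) (nat_lit 385) (nat_lit 384)) (XT.lf (nat_lit 0) (nat_lit 10966684818) (nat_lit 76) (nat_lit 2410193714) (nat_lit 76) (nat_lit 1273934100) (nat_lit 46) (nat_lit 4) (nat_lit 47) (nat_lit 5) (nat_lit 47) (nat_lit 4) (nat_lit 432) (nat_lit 385) (nat_lit 383))) (XT.nd (nat_lit 78) (nat_lit 152) (nat_lit 0) (XT.lf (nat_lit 0) (nat_lit 960520621) (nat_lit 76) (nat_lit 7942373024) (nat_lit 76) (nat_lit 6378493795) (nat_lit 43) (nat_lit 4) (nat_lit 44) (nat_lit 5) (nat_lit 44) (nat_lit 4) (nat_lit 433) (nat_lit 385) (nat_lit 382)) (XT.lf (nat_lit 0) (nat_lit 3788181027) (nat_lit 152) (nat_lit 10294963368)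 (nat_lit 0) (nat_lit 1873968698) (nat_lit 41) (nat_lit 5) (nat_lit 43) (nat_lit 4) (nat_lit 41) (nat_lit 4) (nat_lit 434) (nat_lit 385) (nat_lit 381))))))))
noncomputable def xc23 : XT := (XT.nd (nat_lit 2184) (nat_lit 532) (nat_lit 0) (XT.nd (nat_lit 1092) (nat_lit 912) (nat_lit 0) (XT.nd (nat_lit 546) (nat_lit 684) (nat_lit 0) (XT.nd (nat_lit 234) (nat_lit 456) (nat_lit 0) (XT.nd (nat_lit 78) (nat_lit 380) (nat_lit 0) (XT.lf (nat_lit 0) (nat_lit 10177818392) (nat_lit 76) (nat_lit 4404762873) (nat_lit 76) (nat_lit 2097213933) (nat_lit 40) (nat_lit 4) (nat_lit 41) (nat_lit 5) (nat_lit 41) (nat_lit 4) (nat_lit 435) (nat_lit 385) (nat_lit 380)) (XT.nd (nat_lit 78) (nat_lit 228) (nat_lit 0) (XT.lf (nat_lit 0) (nat_lit 8508918579) (nat_lit 152) (nat_lit 2979656341) (nat_lit 0) (nat_lit 5964395240) (nat_lit 38) (nat_lit 5) (nat_lit 40) (nat_lit 4) (nat_lit 38) (nat_lit 4) (nat_lit 436) (nat_lit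 385) (nat_lit 379)) (XT.lf (nat_lit 0) (nat_lit 328340231) (nat_lit 76) (nat_lit 1229722251) (nat_lit 152) (nat_lit 16726700629) (nat_lit 35) (nat_lit 5) (nat_lit 36) (nat_lit 5) (nat_lit 37) (nat_lit 4) (nat_lit 437) (nat_lit 385) (nat_lit 378)))) (XT.nd (nat_lit 156) (nat_lit 228) (nat_lit 0) (XT.nd (nat_lit 78) (nat_lit 152) (nat_lit 0) (XT.lf (nat_lit 0) (nat_lit 3268286573) (nat_lit 76) (nat_lit 9456522708) (nat_lit 76) (nat_lit 6444082313) (nat_lit 34) (nat_lit 4) (nat_lit 35) (nat_lit 5) (nat_lit 35) (nat_lit 4) (nat_lit 438) (nat_lit 385) (nat_lit 377)) (XT.lf (nat_lit 0) (nat_lit 4490565881) (nat_lit 152) (nat_lit 14258800714) (nat_lit 0) (nat_lit 1371827355) (nat_lit 32) (nat_lit 5) (nat_lit 34) (nat_lit 4) (nat_lit 32) (nat_lit 4) (nat_lit 439) (nat_lit 385) (nat_lit 376))) (XT.nd (nat_lit 78) (nat_lit 152) (nat_lit 0) (XT.lf (nat_lit 0) (nat_lit 7874054302) (nat_lit 76) (nat_lit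 8307487950) (nat_lit 76) (nat_lit 4957501578) (nat_lit 31) (nat_lit 4) (nat_lit 32) (nat_lit 5) (nat_lit 32) (nat_lit 4) (nat_lit 440) (nat_lit 385) (nat_lit 375)) (XT.lf (nat_lit 0) (nat_lit 6359596339) (nat_lit 152) (nat_lit 12908377097) (nat_lit 0) (nat_lit 2965210864) (nat_lit 29) (nat_lit 5) (nat_lit 31) (nat_lit 4) (nat_lit 29) (nat_lit 4) (nat_lit 441) (nat_lit 385) (nat_lit 374))))) (XT.nd (nat_lit 234) (nat_lit 380) (nat_lit 0) (XT.nd (nat_lit 78) (nat_lit 228) (nat_lit 0) (XT.lf (nat_lit 0) (nat_lit 10029882194) (nat_lit 76) (nat_lit 8479535046) (nat_lit 76) (nat_lit 4896332660) (nat_lit 28) (nat_lit 4) (nat_lit 29) (nat_lit 5) (nat_lit 29) (nat_lit 4) (nat_lit 442) (nat_lit 385) (nat_lit 373)) (XT.nd (nat_lit 78) (nat_lit 76) (nat_lit 0) (XT.lf (nat_lit 0) (nat_lit 6751540133) (nat_lit 152) (nat_lit 14741936636) (nat_lit 0) (nat_lit 3172461221) (nat_lit 26) (nat_lit 5) (nat_lit 28)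 (nat_lit 4) (nat_lit 26) (nat_lit 4) (nat_lit 443) (nat_lit 385) (nat_lit 372)) (XT.lf (nat_lit 0) (nat_lit 8791947412) (nat_lit 76) (nat_lit 10479329796) (nat_lit 76) (nat_lit 6746079391) (nat_lit 25) (nat_lit 4) (nat_lit 26) (nat_lit 5) (nat_lit 26) (nat_lit 4) (nat_lit 444) (nat_lit 385) (nat_lit 371)))) (XT.nd (nat_lit 156) (nat_lit 152) (nat_lit 0) (XT.nd (nat_lit 78) (nat_lit 76) (nat_lit 0) (XT.lf (nat_lit 0) (nat_lit 5136970714) (nat_lit 152) (nat_lit 20890664643) (nat_lit 0) (nat_lit 1445540441) (nat_lit 23) (nat_lit 5) (nat_lit 25) (nat_lit 4) (nat_lit 23) (nat_lit 4) (nat_lit 445) (nat_lit 385) (nat_lit 370)) (XT.lf (nat_lit 0) (nat_lit 2910495182) (nat_lit 76) (nat_lit 14969729971) (nat_lit 76) (nat_lit 11152416645) (nat_lit 22) (nat_lit 4) (nat_lit 23) (nat_lit 5) (nat_lit 23) (nat_lit 4) (nat_lit 446) (nat_lit 385) (nat_lit 369))) (XT.nd (nat_lit 78) (nat_lit 76) (nat_lit 0) (XT.lf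 (nat_lit 0) (nat_lit 892925440) (nat_lit 152) (nat_lit 2103374555) (nat_lit 76) (nat_lit 27720023205) (nat_lit 21) (nat_lit 5) (nat_lit 23) (nat_lit 5) (nat_lit 22) (nat_lit 4) (nat_lit 447) (nat_lit 385) (nat_lit 368)) (XT.lf (nat_lit 0) (nat_lit 13699843864) (nat_lit 152) (nat_lit 8965771126) (nat_lit 0) (nat_lit 9850514210) (nat_lit 20) (nat_lit 5) (nat_lit 22) (nat_lit 4) (nat_lit 20) (nat_lit 4) (nat_lit 448) (nat_lit 385) (nat_lit 367)))))) (XT.nd (nat_lit 546) (nat_lit 380) (nat_lit 0) (XT.nd (nat_lit 234) (nat_lit 304) (nat_lit 0) (XT.nd (nat_lit 78) (nat_lit 152) (nat_lit 0) (XT.lf (nat_lit 0) (nat_lit 16684171539) (nat_lit 76) (nat_lit 10859810368) (nat_lit 76) (nat_lit 6915309261) (nat_lit 19) (nat_lit 4) (nat_lit 20) (nat_lit 5) (nat_lit 20) (nat_lit 4) (nat_lit 449) (nat_lit 385) (nat_lit 366)) (XT.nd (nat_lit 78) (nat_lit 0) (nat_lit 0) (XT.lf (nat_lit 0) (nat_lit 5730363814)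 (nat_lit 152) (nat_lit 28934007424) (nat_lit 0) (nat_lit 1889770649) (nat_lit 17) (nat_lit 5) (nat_lit 19) (nat_lit 4) (nat_lit 17) (nat_lit 4) (nat_lit 450) (nat_lit 385) (nat_lit 365)) (XT.lf (nat_lit 0) (nat_lit 19329939204) (nat_lit 152) (nat_lit 4060113432) (nat_lit 0) (nat_lit 15411637295) (nat_lit 17) (nat_lit 5) (nat_lit 19) (nat_lit 4) (nat_lit 17) (nat_lit 4) (nat_lit 451) (nat_lit 385) (nat_lit 364)))) (XT.nd (nat_lit 156) (nat_lit 76) (nat_lit 0) (XT.nd (nat_lit 78) (nat_lit 152) (nat_lit 0) (XT.lf (nat_lit 0) (nat_lit 22949353519) (nat_lit 76) (nat_lit 11133342794) (nat_lit 76) (nat_lit 7143088344) (nat_lit 16) (nat_lit 4) (nat_lit 17) (nat_lit 5) (nat_lit 17) (nat_lit 4) (nat_lit 452) (nat_lit 385) (nat_lit 363)) (XT.lf (nat_lit 0) (nat_lit 5919671265) (nat_lit 152) (nat_lit 35866075042) (nat_lit 0) (nat_lit 2055978719) (nat_lit 14) (nat_lit 5) (nat_lit 16) (nat_lit 4) (nat_lit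 14) (nat_lit 4) (nat_lit 453) (nat_lit 385) (nat_lit 362))) (XT.nd (nat_lit 78) (nat_lit 76) (nat_lit 0) (XT.lf (nat_lit 0) (nat_lit 20015320047) (nat_lit 152) (nat_lit 10540984871) (nat_lit 0) (nat_lit 16092877304) (nat_lit 14) (nat_lit 5) (nat_lit 16) (nat_lit 4) (nat_lit 14) (nat_lit 4) (nat_lit 454) (nat_lit 385) (nat_lit 361)) (XT.lf (nat_lit 0) (nat_lit 16833029777) (nat_lit 76) (nat_lit 18412355891) (nat_lit 76) (nat_lit 14435514818) (nat_lit 13) (nat_lit 4) (nat_lit 14) (nat_lit 5) (nat_lit 14) (nat_lit 4) (nat_lit 455) (nat_lit 385) (nat_lit 360))))) (XT.nd (nat_lit 234) (nat_lit 228) (nat_lit 0) (XT.nd (nat_lit 78) (nat_lit 152) (nat_lit 0) (XT.lf (nat_lit 0) (nat_lit 46279953941) (nat_lit 76) (nat_lit 5352736505) (nat_lit 76) (nat_lit 1325526608) (nat_lit 13) (nat_lit 4) (nat_lit 14) (nat_lit 5) (nat_lit 14) (nat_lit 4) (nat_lit 456) (nat_lit 385) (nat_lit 359)) (XT.nd (nat_lit 78)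 (nat_lit 0) (nat_lit 0) (XT.lf (nat_lit 0) (nat_lit 12671365938) (nat_lit 152) (nat_lit 35012383614) (nat_lit 0) (nat_lit 8791510987) (nat_lit 11) (nat_lit 5) (nat_lit 13) (nat_lit 4) (nat_lit 11) (nat_lit 4) (nat_lit 457) (nat_lit 385) (nat_lit 358)) (XT.lf (nat_lit 0) (nat_lit 27726945867) (nat_lit 152) (nat_lit 8740404302) (nat_lit 0) (nat_lit 23805964108) (nat_lit 11) (nat_lit 5) (nat_lit 13) (nat_lit 4) (nat_lit 11) (nat_lit 4) (nat_lit 458) (nat_lit 385) (nat_lit 357)))) (XT.nd (nat_lit 156) (nat_lit 152) (nat_lit 0) (XT.nd (nat_lit 78) (nat_lit 0) (nat_lit 0) (XT.lf (nat_lit 0) (nat_lit 19850310440) (nat_lit 76) (nat_lit 24239414155) (nat_lit 76) (nat_lit 20280352018) (nat_lit 10) (nat_lit 4) (nat_lit 11) (nat_lit 5) (nat_lit 11) (nat_lit 4) (nat_lit 459) (nat_lit 385) (nat_lit 356)) (XT.lf (nat_lit 0) (nat_lit 50640223842) (nat_lit 76) (nat_lit 11075485222) (nat_lit 76) (nat_lit 7081163476)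 (nat_lit 10) (nat_lit 4) (nat_lit 11) (nat_lit 5) (nat_lit 11) (nat_lit 4) (nat_lit 460) (nat_lit 385) (nat_lit 355))) (XT.nd (nat_lit 78) (nat_lit 0) (nat_lit 0) (XT.lf (nat_lit 0) (nat_lit 6966952522) (nat_lit 152) (nat_lit 63472387264) (nat_lit 0) (nat_lit 3131743444) (nat_lit 8) (nat_lit 5) (nat_lit 10) (nat_lit 4) (nat_lit 8) (nat_lit 4) (nat_lit 461) (nat_lit 385) (nat_lit 354)) (XT.lf (nat_lit 0) (nat_lit 22221293735) (nat_lit 152) (nat_lit 38126316267) (nat_lit 0) (nat_lit 18357294722) (nat_lit 8) (nat_lit 5) (nat_lit 10) (nat_lit 4) (nat_lit 8) (nat_lit 4) (nat_lit 462) (nat_lit 385) (nat_lit 353))))))) (XT.nd (nat_lit 1092) (nat_lit 228) (nat_lit 0) (XT.nd (nat_lit 546) (nat_lit 76) (nat_lit 0) (XT.nd (nat_lit 234) (nat_lit 152) (nat_lit 0) (XT.nd (nat_lit 78) (nat_lit 76) (nat_lit 0) (XT.lf (nat_lit 0) (nat_lit 38528328370) (nat_lit 152) (nat_lit 11091815593) (nat_lit 0) (nat_lit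 34637672010) (nat_lit 8) (nat_lit 5) (nat_lit 10) (nat_lit 4) (nat_lit 8) (nat_lit 4) (nat_lit 463) (nat_lit 385) (nat_lit 352)) (XT.nd (nat_lit 78) (nat_lit 0) (nat_lit 0) (XT.lf (nat_lit 0) (nat_lit 18379580564) (nat_lit 76) (nat_lit 37892066903) (nat_lit 76) (nat_lit 33976727814) (nat_lit 7) (nat_lit 4) (nat_lit 8) (nat_lit 5) (nat_lit 8) (nat_lit 4) (nat_lit 464) (nat_lit 385) (nat_lit 351)) (XT.lf (nat_lit 0) (nat_lit 50304299173) (nat_lit 76) (nat_lit 25174917769) (nat_lit 76) (nat_lit 21236724302) (nat_lit 7) (nat_lit 4) (nat_lit 8) (nat_lit 5) (nat_lit 8) (nat_lit 4) (nat_lit 465) (nat_lit 385) (nat_lit 350)))) (XT.nd (nat_lit 156) (nat_lit 0) (nat_lit 0) (XT.nd (nat_lit 78) (nat_lit 152) (nat_lit 0) (XT.lf (nat_lit 0) (nat_lit 84504778233) (nat_lit 76) (nat_lit 11581180942) (nat_lit 76) (nat_lit 7621826013) (nat_lit 7) (nat_lit 4) (nat_lit 8) (nat_lit 5) (nat_lit 8) (nat_lit 4) (nat_lit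 466) (nat_lit 385) (nat_lit 349)) (XT.lf (nat_lit 0) (nat_lit 6935208978) (nat_lit 152) (nat_lit 101168524976) (nat_lit 0) (nat_lit 3145733859) (nat_lit 5) (nat_lit 5) (nat_lit 7) (nat_lit 4) (nat_lit 5) (nat_lit 4) (nat_lit 467) (nat_lit 385) (nat_lit 348))) (XT.nd (nat_lit 78) (nat_lit 0) (nat_lit 0) (XT.lf (nat_lit 0) (nat_lit 22802962322) (nat_lit 152) (nat_lit 77568408245) (nat_lit 0) (nat_lit 18996208591) (nat_lit 5) (nat_lit 5) (nat_lit 7) (nat_lit 4) (nat_lit 5) (nat_lit 4) (nat_lit 468) (nat_lit 385) (nat_lit 347)) (XT.lf (nat_lit 0) (nat_lit 39823793098) (nat_lit 152) (nat_lit 52316123609) (nat_lit 0) (nat_lit 36001040653) (nat_lit 5) (nat_lit 5) (nat_lit 7) (nat_lit 4) (nat_lit 5) (nat_lit 4) (nat_lit 469) (nat_lit 385) (nat_lit 346))))) (XT.nd (nat_lit 234) (nat_lit 0) (nat_lit 0) (XT.nd (nat_lit 78) (nat_lit 76) (nat_lit 0) (XT.lf (nat_lit 0) (nat_lit 58098565489) (nat_lit 152)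 (nat_lit 25262027899) (nat_lit 0) (nat_lit 54260999418) (nat_lit 5) (nat_lit 5) (nat_lit 7) (nat_lit 4) (nat_lit 5) (nat_lit 4) (nat_lit 470) (nat_lit 385) (nat_lit 345)) (XT.nd (nat_lit 78) (nat_lit 0) (nat_lit 0) (XT.lf (nat_lit 0) (nat_lit 3878330239) (nat_lit 76) (nat_lit 73917795806) (nat_lit 76) (nat_lit 70066513416) (nat_lit 4) (nat_lit 4) (nat_lit 5) (nat_lit 5) (nat_lit 5) (nat_lit 4) (nat_lit 471) (nat_lit 385) (nat_lit 344)) (XT.lf (nat_lit 0) (nat_lit 36058607072) (nat_lit 76) (nat_lit 63355556253) (nat_lit 76) (nat_lit 59491573567) (nat_lit 4) (nat_lit 4) (nat_lit 5) (nat_lit 5) (nat_lit 5) (nat_lit 4) (nat_lit 472) (nat_lit 385) (nat_lit 343)))) (XT.nd (nat_lit 156) (nat_lit 0) (nat_lit 0) (XT.nd (nat_lit 78) (nat_lit 0) (nat_lit 0) (XT.lf (nat_lit 0) (nat_lit 70634223808) (nat_lit 76) (nat_lit 52039108347) (nat_lit 76) (nat_lit 48163366128) (nat_lit 4) (nat_lit 4) (nat_lit 5)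 (nat_lit 5) (nat_lit 5) (nat_lit 4) (nat_lit 473) (nat_lit 385) (nat_lit 342)) (XT.lf (nat_lit 0) (nat_lit 107810072990) (nat_lit 76) (nat_lit 39901391655) (nat_lit 76) (nat_lit 36014760980) (nat_lit 4) (nat_lit 4) (nat_lit 5) (nat_lit 5) (nat_lit 5) (nat_lit 4) (nat_lit 474) (nat_lit 385) (nat_lit 341))) (XT.nd (nat_lit 78) (nat_lit 0) (nat_lit 0) (XT.lf (nat_lit 0) (nat_lit 147806455947) (nat_lit 76) (nat_lit 26870478968) (nat_lit 76) (nat_lit 22973766389) (nat_lit 4) (nat_lit 4) (nat_lit 5) (nat_lit 5) (nat_lit 5) (nat_lit 4) (nat_lit 475) (nat_lit 385) (nat_lit 340)) (XT.lf (nat_lit 0) (nat_lit 190860388282) (nat_lit 76) (nat_lit 12869150063) (nat_lit 76) (nat_lit 8963102387) (nat_lit 4) (nat_lit 4) (nat_lit 5) (nat_lit 5) (nat_lit 5) (nat_lit 4) (nat_lit 476) (nat_lit 385) (nat_lit 339)))))) (XT.nd (nat_lit 546) (nat_lit 76) (nat_lit 0) (XT.nd (nat_lit 234) (nat_lit 0) (nat_lit 0) (XT.nd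 (nat_lit 78) (nat_lit 0) (nat_lit 0) (XT.lf (nat_lit 0) (nat_lit 6074966829) (nat_lit 152) (nat_lit 220506265174) (nat_lit 0) (nat_lit 2346689417) (nat_lit 2) (nat_lit 5) (nat_lit 4) (nat_lit 4) (nat_lit 2) (nat_lit 4) (nat_lit 477) (nat_lit 385) (nat_lit 338)) (XT.nd (nat_lit 78) (nat_lit 0) (nat_lit 0) (XT.lf (nat_lit 0) (nat_lit 22545691139) (nat_lit 152) (nat_lit 205072013857) (nat_lit 0) (nat_lit 18809791497) (nat_lit 2) (nat_lit 5) (nat_lit 4) (nat_lit 4) (nat_lit 2) (nat_lit 4) (nat_lit 478) (nat_lit 385) (nat_lit 337)) (XT.lf (nat_lit 0) (nat_lit 40274720809) (nat_lit 152) (nat_lit 188523521200) (nat_lit 0) (nat_lit 36531763548) (nat_lit 2) (nat_lit 5) (nat_lit 4) (nat_lit 4) (nat_lit 2) (nat_lit 4) (nat_lit 479) (nat_lit 385) (nat_lit 336)))) (XT.nd (nat_lit 156) (nat_lit 0) (nat_lit 0) (XT.nd (nat_lit 78) (nat_lit 0) (nat_lit 0) (XT.lf (nat_lit 0) (nat_lit 59367116755) (nat_lit 152)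 (nat_lit 170762722062) (nat_lit 0) (nat_lit 55617624661) (nat_lit 2) (nat_lit 5) (nat_lit 4) (nat_lit 4) (nat_lit 2) (nat_lit 4) (nat_lit 480) (nat_lit 385) (nat_lit 335)) (XT.lf (nat_lit 0) (nat_lit 79936019103) (nat_lit 152) (nat_lit 151684367263) (nat_lit 0) (nat_lit 76180476238) (nat_lit 2) (nat_lit 5) (nat_lit 4) (nat_lit 4) (nat_lit 2) (nat_lit 4) (nat_lit 481) (nat_lit 385) (nat_lit 334))) (XT.nd (nat_lit 78) (nat_lit 0) (nat_lit 0) (XT.lf (nat_lit 0) (nat_lit 102103317643) (nat_lit 152) (nat_lit 131175399885) (nat_lit 0) (nat_lit 98342172212) (nat_lit 2) (nat_lit 5) (nat_lit 4) (nat_lit 4) (nat_lit 2) (nat_lit 4) (nat_lit 482) (nat_lit 385) (nat_lit 333)) (XT.lf (nat_lit 0) (nat_lit 126000374145) (nat_lit 152) (nat_lit 109114285307) (nat_lit 0) (nat_lit 122234041153) (nat_lit 2) (nat_lit 5) (nat_lit 4) (nat_lit 4) (nat_lit 2) (nat_lit 4) (nat_lit 483) (nat_lit 385) (nat_lit 332)))))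 (XT.nd (nat_lit 312) (nat_lit 76) (nat_lit 0) (XT.nd (nat_lit 156) (nat_lit 0) (nat_lit 0) (XT.nd (nat_lit 78) (nat_lit 0) (nat_lit 0) (XT.lf (nat_lit 0) (nat_lit 151768800796) (nat_lit 152) (nat_lit 85370290999) (nat_lit 0) (nat_lit 147997664506) (nat_lit 2) (nat_lit 5) (nat_lit 4) (nat_lit 4) (nat_lit 2) (nat_lit 4) (nat_lit 484) (nat_lit 385) (nat_lit 331)) (XT.lf (nat_lit 0) (nat_lit 179561299382) (nat_lit 152) (nat_lit 59802711808) (nat_lit 0) (nat_lit 175785715595) (nat_lit 2) (nat_lit 5) (nat_lit 4) (nat_lit 4) (nat_lit 2) (nat_lit 4) (nat_lit 485) (nat_lit 385) (nat_lit 330))) (XT.nd (nat_lit 78) (nat_lit 0) (nat_lit 0) (XT.lf (nat_lit 0) (nat_lit 209542566192) (nat_lit 152) (nat_lit 32260036154) (nat_lit 0) (nat_lit 205762864352) (nat_lit 2) (nat_lit 5) (nat_lit 4) (nat_lit 4) (nat_lit 2) (nat_lit 4) (nat_lit 486) (nat_lit 385) (nat_lit 329)) (XT.lf (nat_lit 0) (nat_lit 241890267993)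 (nat_lit 152) (nat_lit 2579048181) (nat_lit 0) (nat_lit 238106753140) (nat_lit 2) (nat_lit 5) (nat_lit 4) (nat_lit 4) (nat_lit 2) (nat_lit 4) (nat_lit 487) (nat_lit 385) (nat_lit 328)))) (XT.nd (nat_lit 156) (nat_lit 0) (nat_lit 0) (XT.nd (nat_lit 78) (nat_lit 0) (nat_lit 0) (XT.lf (nat_lit 0) (nat_lit 30388769862) (nat_lit 76) (nat_lit 246881778868) (nat_lit 76) (nat_lit 243094733449) (nat_lit 1) (nat_lit 4) (nat_lit 2) (nat_lit 5) (nat_lit 2) (nat_lit 4) (nat_lit 488) (nat_lit 385) (nat_lit 327)) (XT.lf (nat_lit 0) (nat_lit 66028450614) (nat_lit 76) (nat_lit 249469334708) (nat_lit 76) (nat_lit 245679020245) (nat_lit 1) (nat_lit 4) (nat_lit 2) (nat_lit 5) (nat_lit 2) (nat_lit 4) (nat_lit 489) (nat_lit 385) (nat_lit 326))) (XT.nd (nat_lit 78) (nat_lit 0) (nat_lit 0) (XT.lf (nat_lit 0) (nat_lit 104465917201) (nat_lit 76) (nat_lit 252290994787) (nat_lit 76) (nat_lit 248497653433) (nat_lit 1)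 (nat_lit 4) (nat_lit 2) (nat_lit 5) (nat_lit 2) (nat_lit 4) (nat_lit 490) (nat_lit 385) (nat_lit 325)) (XT.lf (nat_lit 0) (nat_lit 145928947203) (nat_lit 76) (nat_lit 255363480055) (nat_lit 76) (nat_lit 251567336022) (nat_lit 1) (nat_lit 4) (nat_lit 2) (nat_lit 5) (nat_lit 2) (nat_lit 4) (nat_lit 491) (nat_lit 385) (nat_lit 324))))))))
noncomputable def xc24 : XT := (XT.nd (nat_lit 58890) (nat_lit 0) (nat_lit 228) (XT.nd (nat_lit 57798) (nat_lit 0) (nat_lit 1748) (XT.nd (nat_lit 546) (nat_lit 0) (nat_lit 0) (XT.nd (nat_lit 234) (nat_lit 0) (nat_lit 0) (XT.nd (nat_lit 78) (nat_lit 0) (nat_lit 0) (XT.lf (nat_lit 0) (nat_lit 190663247465) (nat_lit 76) (nat_lit 258704997831) (nat_lit 76) (nat_lit 254906258727) (nat_lit 1) (nat_lit 4) (nat_lit 2) (nat_lit 5) (nat_lit 2) (nat_lit 4) (nat_lit 492) (nat_lit 385) (nat_lit 323)) (XT.nd (nat_lit 78) (nat_lit 0) (nat_lit 0) (XT.lf (nat_lit 0) (nat_lit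 238933910137) (nat_lit 76) (nat_lit 262335349703) (nat_lit 76) (nat_lit 258534207753) (nat_lit 1) (nat_lit 4) (nat_lit 2) (nat_lit 5) (nat_lit 2) (nat_lit 4) (nat_lit 493) (nat_lit 385) (nat_lit 322)) (XT.lf (nat_lit 0) (nat_lit 291026983589) (nat_lit 76) (nat_lit 266276048865) (nat_lit 76) (nat_lit 262472682060) (nat_lit 1) (nat_lit 4) (nat_lit 2) (nat_lit 5) (nat_lit 2) (nat_lit 4) (nat_lit 494) (nat_lit 385) (nat_lit 321)))) (XT.nd (nat_lit 156) (nat_lit 0) (nat_lit 0) (XT.nd (nat_lit 78) (nat_lit 0) (nat_lit 0) (XT.lf (nat_lit 0) (nat_lit 347251167517) (nat_lit 76) (nat_lit 270550447611) (nat_lit 76) (nat_lit 266745020754) (nat_lit 1) (nat_lit 4) (nat_lit 2) (nat_lit 5) (nat_lit 2) (nat_lit 4) (nat_lit 495) (nat_lit 385) (nat_lit 320)) (XT.lf (nat_lit 0) (nat_lit 407939642269) (nat_lit 76) (nat_lit 275183875710) (nat_lit 76) (nat_lit 271376541397) (nat_lit 1) (nat_lit 4) (nat_lit 2) (nat_lit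 5) (nat_lit 2) (nat_lit 4) (nat_lit 496) (nat_lit 385) (nat_lit 319))) (XT.nd (nat_lit 78) (nat_lit 0) (nat_lit 0) (XT.lf (nat_lit 0) (nat_lit 473452043252) (nat_lit 76) (nat_lit 280203790513) (nat_lit 76) (nat_lit 276394690038) (nat_lit 1) (nat_lit 4) (nat_lit 2) (nat_lit 5) (nat_lit 2) (nat_lit 4) (nat_lit 497) (nat_lit 385) (nat_lit 318)) (XT.lf (nat_lit 0) (nat_lit 544176592101) (nat_lit 76) (nat_lit 285639939665) (nat_lit 76) (nat_lit 281829203854) (nat_lit 1) (nat_lit 4) (nat_lit 2) (nat_lit 5) (nat_lit 2) (nat_lit 4) (nat_lit 498) (nat_lit 385) (nat_lit 317))))) (XT.nd (nat_lit 56940) (nat_lit 0) (nat_lit 3496) (XT.nd (nat_lit 78) (nat_lit 0) (nat_lit 0) (XT.lf (nat_lit 0) (nat_lit 620532397253) (nat_lit 76) (nat_lit 291524537382) (nat_lit 76) (nat_lit 287712287372) (nat_lit 1) (nat_lit 4) (nat_lit 2) (nat_lit 5) (nat_lit 2) (nat_lit 4) (nat_lit 499) (nat_lit 385) (nat_lit 316)) (XT.nd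 (nat_lit 78) (nat_lit 0) (nat_lit 0) (XT.lf (nat_lit 0) (nat_lit 702971937554) (nat_lit 76) (nat_lit 297892455355) (nat_lit 76) (nat_lit 294078803308) (nat_lit 1) (nat_lit 4) (nat_lit 2) (nat_lit 5) (nat_lit 2) (nat_lit 4) (nat_lit 500) (nat_lit 385) (nat_lit 315)) (XT.lf (nat_lit 0) (nat_lit 791983743613) (nat_lit 76) (nat_lit 304781429393) (nat_lit 76) (nat_lit 300966479164) (nat_lit 1) (nat_lit 4) (nat_lit 2) (nat_lit 5) (nat_lit 2) (nat_lit 4) (nat_lit 501) (nat_lit 385) (nat_lit 314)))) (XT.nd (nat_lit 156) (nat_lit 456) (nat_lit 0) (XT.nd (nat_lit 78) (nat_lit 152) (nat_lit 0) (XT.lf (nat_lit 0) (nat_lit 702597740) (nat_lit 152) (nat_lit 4843759915) (nat_lit 0) (nat_lit 702597740) (nat_lit 55) (nat_lit 5) (nat_lit 57) (nat_lit 4) (nat_lit 55) (nat_lit 4) (nat_lit 428) (nat_lit 386) (nat_lit 386)) (XT.lf (nat_lit 0) (nat_lit 8035865131) (nat_lit 152) (nat_lit 2829194955) (nat_lit 152)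 (nat_lit 2126704633) (nat_lit 53) (nat_lit 4) (nat_lit 55) (nat_lit 5) (nat_lit 55) (nat_lit 4) (nat_lit 429) (nat_lit 386) (nat_lit 385))) (XT.nd (nat_lit 78) (nat_lit 304) (nat_lit 0) (XT.lf (nat_lit 0) (nat_lit 7282570507) (nat_lit 152) (nat_lit 244244504) (nat_lit 0) (nat_lit 5994052103) (nat_lit 51) (nat_lit 5) (nat_lit 53) (nat_lit 4) (nat_lit 51) (nat_lit 4) (nat_lit 430) (nat_lit 386) (nat_lit 384)) (XT.lf (nat_lit 0) (nat_lit 3205191955) (nat_lit 152) (nat_lit 9449545355) (nat_lit 0) (nat_lit 1431752910) (nat_lit 47) (nat_lit 5) (nat_lit 49) (nat_lit 4) (nat_lit 47) (nat_lit 4) (nat_lit 431) (nat_lit 386) (nat_lit 383)))))) (XT.nd (nat_lit 546) (nat_lit 836) (nat_lit 0) (XT.nd (nat_lit 234) (nat_lit 456) (nat_lit 0) (XT.nd (nat_lit 78) (nat_lit 380) (nat_lit 0) (XT.lf (nat_lit 0) (nat_lit 9456953284) (nat_lit 76) (nat_lit 3756588765) (nat_lit 76) (nat_lit 1477336146) (nat_lit 46) (nat_lit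 4) (nat_lit 47) (nat_lit 5) (nat_lit 47) (nat_lit 4) (nat_lit 432) (nat_lit 386) (nat_lit 382)) (XT.nd (nat_lit 78) (nat_lit 228) (nat_lit 0) (XT.lf (nat_lit 0) (nat_lit 8402099251) (nat_lit 152) (nat_lit 1149379709) (nat_lit 0) (nat_lit 5785338753) (nat_lit 44) (nat_lit 5) (nat_lit 46) (nat_lit 4) (nat_lit 44) (nat_lit 4) (nat_lit 433) (nat_lit 386) (nat_lit 381)) (XT.lf (nat_lit 0) (nat_lit 2923440432) (nat_lit 152) (nat_lit 13067911634) (nat_lit 0) (nat_lit 37950966) (nat_lit 41) (nat_lit 5) (nat_lit 43) (nat_lit 4) (nat_lit 41) (nat_lit 4) (nat_lit 434) (nat_lit 386) (nat_lit 380)))) (XT.nd (nat_lit 156) (nat_lit 228) (nat_lit 0) (XT.nd (nat_lit 78) (nat_lit 152) (nat_lit 0) (XT.lf (nat_lit 0) (nat_lit 6861058531) (nat_lit 76) (nat_lit 6577299788) (nat_lit 76) (nat_lit 3327609756) (nat_lit 40) (nat_lit 4) (nat_lit 41) (nat_lit 5) (nat_lit 41) (nat_lit 4) (nat_lit 435) (nat_lit 386) (nat_lit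 379)) (XT.lf (nat_lit 0) (nat_lit 6997075171) (nat_lit 152) (nat_lit 6978109774) (nat_lit 0) (nat_lit 3580967764) (nat_lit 38) (nat_lit 5) (nat_lit 40) (nat_lit 4) (nat_lit 38) (nat_lit 4) (nat_lit 436) (nat_lit 386) (nat_lit 378))) (XT.nd (nat_lit 78) (nat_lit 152) (nat_lit 0) (XT.lf (nat_lit 0) (nat_lit 14069848396) (nat_lit 76) (nat_lit 4023677207) (nat_lit 76) (nat_lit 310195244) (nat_lit 37) (nat_lit 4) (nat_lit 38) (nat_lit 5) (nat_lit 38) (nat_lit 4) (nat_lit 437) (nat_lit 386) (nat_lit 377)) (XT.lf (nat_lit 0) (nat_lit 10483400424) (nat_lit 152) (nat_lit 2139335495) (nat_lit 0) (nat_lit 6684515878) (nat_lit 35) (nat_lit 5) (nat_lit 37) (nat_lit 4) (nat_lit 35) (nat_lit 4) (nat_lit 438) (nat_lit 386) (nat_lit 376))))) (XT.nd (nat_lit 234) (nat_lit 380) (nat_lit 0) (XT.nd (nat_lit 78) (nat_lit 304) (nat_lit 0) (XT.lf (nat_lit 0) (nat_lit 1826843299) (nat_lit 152) (nat_lit 296666021) (nat_lit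 76) (nat_lit 18155914227) (nat_lit 33) (nat_lit 5) (nat_lit 35) (nat_lit 5) (nat_lit 34) (nat_lit 4) (nat_lit 439) (nat_lit 386) (nat_lit 375)) (XT.nd (nat_lit 78) (nat_lit 152) (nat_lit 0) (XT.lf (nat_lit 0) (nat_lit 956241006) (nat_lit 76) (nat_lit 12210960022) (nat_lit 76) (nat_lit 8147608517) (nat_lit 31) (nat_lit 4) (nat_lit 32) (nat_lit 5) (nat_lit 32) (nat_lit 4) (nat_lit 440) (nat_lit 386) (nat_lit 374)) (XT.lf (nat_lit 0) (nat_lit 1694027085) (nat_lit 76) (nat_lit 1211161376) (nat_lit 152) (nat_lit 19524576666) (nat_lit 29) (nat_lit 5) (nat_lit 30) (nat_lit 5) (nat_lit 31) (nat_lit 4) (nat_lit 441) (nat_lit 386) (nat_lit 373)))) (XT.nd (nat_lit 156) (nat_lit 152) (nat_lit 0) (XT.nd (nat_lit 78) (nat_lit 152) (nat_lit 0) (XT.lf (nat_lit 0) (nat_lit 1569663565) (nat_lit 76) (nat_lit 13141680315) (nat_lit 76) (nat_lit 8908174356) (nat_lit 28) (nat_lit 4) (nat_lit 29) (nat_lit 5) (nat_lit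 29) (nat_lit 4) (nat_lit 442) (nat_lit 386) (nat_lit 372)) (XT.lf (nat_lit 0) (nat_lit 698772520) (nat_lit 76) (nat_lit 1786182868) (nat_lit 152) (nat_lit 22417043827) (nat_lit 26) (nat_lit 5) (nat_lit 27) (nat_lit 5) (nat_lit 28) (nat_lit 4) (nat_lit 443) (nat_lit 386) (nat_lit 371))) (XT.nd (nat_lit 78) (nat_lit 152) (nat_lit 0) (XT.lf (nat_lit 0) (nat_lit 14658011633) (nat_lit 152) (nat_lit 1283565369) (nat_lit 0) (nat_lit 10329178321) (nat_lit 26) (nat_lit 5) (nat_lit 28) (nat_lit 4) (nat_lit 26) (nat_lit 4) (nat_lit 444) (nat_lit 386) (nat_lit 370)) (XT.lf (nat_lit 0) (nat_lit 102245208) (nat_lit 152) (nat_lit 4251407840) (nat_lit 76) (nat_lit 23392914880) (nat_lit 24) (nat_lit 5) (nat_lit 26) (nat_lit 5) (nat_lit 25) (nat_lit 4) (nat_lit 445) (nat_lit 386) (nat_lit 369))))))) (XT.nd (nat_lit 1092) (nat_lit 532) (nat_lit 0) (XT.nd (nat_lit 546) (nat_lit 380) (nat_lit 0) (XT.nd (nat_lit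 234) (nat_lit 304) (nat_lit 0) (XT.nd (nat_lit 78) (nat_lit 228) (nat_lit 0) (XT.lf (nat_lit 0) (nat_lit 12491287734) (nat_lit 152) (nat_lit 8706311704) (nat_lit 0) (nat_lit 8126147907) (nat_lit 23) (nat_lit 5) (nat_lit 25) (nat_lit 4) (nat_lit 23) (nat_lit 4) (nat_lit 446) (nat_lit 386) (nat_lit 368)) (XT.nd (nat_lit 78) (nat_lit 152) (nat_lit 0) (XT.lf (nat_lit 0) (nat_lit 16396793151) (nat_lit 76) (nat_lit 9549810089) (nat_lit 76) (nat_lit 5076745834) (nat_lit 22) (nat_lit 4) (nat_lit 23) (nat_lit 5) (nat_lit 23) (nat_lit 4) (nat_lit 447) (nat_lit 386) (nat_lit 367)) (XT.lf (nat_lit 0) (nat_lit 7423705132) (nat_lit 152) (nat_lit 22358390627) (nat_lit 0) (nat_lit 3068472483) (nat_lit 20) (nat_lit 5) (nat_lit 22) (nat_lit 4) (nat_lit 20) (nat_lit 4) (nat_lit 448) (nat_lit 386) (nat_lit 366)))) (XT.nd (nat_lit 156) (nat_lit 228) (nat_lit 0) (XT.nd (nat_lit 78) (nat_lit 0) (nat_lit 0) (XT.lf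 (nat_lit 0) (nat_lit 2539642349) (nat_lit 76) (nat_lit 18357977756) (nat_lit 76) (nat_lit 13914623392) (nat_lit 19) (nat_lit 4) (nat_lit 20) (nat_lit 5) (nat_lit 20) (nat_lit 4) (nat_lit 449) (nat_lit 386) (nat_lit 365)) (XT.lf (nat_lit 0) (nat_lit 29632645967) (nat_lit 76) (nat_lit 5909268087) (nat_lit 76) (nat_lit 1384319541) (nat_lit 19) (nat_lit 4) (nat_lit 20) (nat_lit 5) (nat_lit 20) (nat_lit 4) (nat_lit 450) (nat_lit 386) (nat_lit 364))) (XT.nd (nat_lit 78) (nat_lit 76) (nat_lit 0) (XT.lf (nat_lit 0) (nat_lit 11906827764) (nat_lit 152) (nat_lit 19760272602) (nat_lit 0) (nat_lit 7525400417) (nat_lit 17) (nat_lit 5) (nat_lit 19) (nat_lit 4) (nat_lit 17) (nat_lit 4) (nat_lit 451) (nat_lit 386) (nat_lit 363)) (XT.lf (nat_lit 0) (nat_lit 6459273296) (nat_lit 76) (nat_lit 19812385111) (nat_lit 76) (nat_lit 15364335041) (nat_lit 16) (nat_lit 4) (nat_lit 17) (nat_lit 5) (nat_lit 17) (nat_lit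 4) (nat_lit 452) (nat_lit 386) (nat_lit 362))))) (XT.nd (nat_lit 234) (nat_lit 228) (nat_lit 0) (XT.nd (nat_lit 78) (nat_lit 152) (nat_lit 0) (XT.lf (nat_lit 0) (nat_lit 34960469527) (nat_lit 76) (nat_lit 6909998625) (nat_lit 76) (nat_lit 2400260848) (nat_lit 16) (nat_lit 4) (nat_lit 17) (nat_lit 5) (nat_lit 17) (nat_lit 4) (nat_lit 453) (nat_lit 386) (nat_lit 361)) (XT.nd (nat_lit 78) (nat_lit 0) (nat_lit 0) (XT.lf (nat_lit 0) (nat_lit 11388600664) (nat_lit 152) (nat_lit 28671427144) (nat_lit 0) (nat_lit 7039213975) (nat_lit 14) (nat_lit 5) (nat_lit 16) (nat_lit 4) (nat_lit 14) (nat_lit 4) (nat_lit 454) (nat_lit 386) (nat_lit 360)) (XT.lf (nat_lit 0) (nat_lit 26241875000) (nat_lit 152) (nat_lit 2065806345) (nat_lit 0) (nat_lit 21842119487) (nat_lit 14) (nat_lit 5) (nat_lit 16) (nat_lit 4) (nat_lit 14) (nat_lit 4) (nat_lit 455) (nat_lit 386) (nat_lit 359)))) (XT.nd (nat_lit 156) (nat_lit 0)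 (nat_lit 0) (XT.nd (nat_lit 78) (nat_lit 152) (nat_lit 0) (XT.lf (nat_lit 0) (nat_lit 27093160676) (nat_lit 76) (nat_lit 15393732743) (nat_lit 76) (nat_lit 10947339428) (nat_lit 13) (nat_lit 4) (nat_lit 14) (nat_lit 5) (nat_lit 14) (nat_lit 4) (nat_lit 456) (nat_lit 386) (nat_lit 358)) (XT.lf (nat_lit 0) (nat_lit 1240395267) (nat_lit 76) (nat_lit 1554712893) (nat_lit 152) (nat_lit 54191800493) (nat_lit 11) (nat_lit 5) (nat_lit 12) (nat_lit 5) (nat_lit 13) (nat_lit 4) (nat_lit 457) (nat_lit 386) (nat_lit 357))) (XT.nd (nat_lit 78) (nat_lit 0) (nat_lit 0) (XT.lf (nat_lit 0) (nat_lit 17726815351) (nat_lit 152) (nat_lit 29651393734) (nat_lit 0) (nat_lit 13412947866) (nat_lit 11) (nat_lit 5) (nat_lit 13) (nat_lit 4) (nat_lit 11) (nat_lit 4) (nat_lit 458) (nat_lit 386) (nat_lit 356)) (XT.lf (nat_lit 0) (nat_lit 33687453516) (nat_lit 152) (nat_lit 1882247231) (nat_lit 0) (nat_lit 29338326422) (nat_lit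 11) (nat_lit 5) (nat_lit 13) (nat_lit 4) (nat_lit 11) (nat_lit 4) (nat_lit 459) (nat_lit 386) (nat_lit 355)))))) (XT.nd (nat_lit 546) (nat_lit 228) (nat_lit 0) (XT.nd (nat_lit 234) (nat_lit 76) (nat_lit 0) (XT.nd (nat_lit 78) (nat_lit 152) (nat_lit 0) (XT.lf (nat_lit 0) (nat_lit 28667289756) (nat_lit 76) (nat_lit 22527617767) (nat_lit 76) (nat_lit 18145842886) (nat_lit 10) (nat_lit 4) (nat_lit 11) (nat_lit 5) (nat_lit 11) (nat_lit 4) (nat_lit 460) (nat_lit 386) (nat_lit 354)) (XT.nd (nat_lit 78) (nat_lit 152) (nat_lit 0) (XT.lf (nat_lit 0) (nat_lit 61384918120) (nat_lit 76) (nat_lit 8581015224) (nat_lit 76) (nat_lit 4169010912) (nat_lit 10) (nat_lit 4) (nat_lit 11) (nat_lit 5) (nat_lit 11) (nat_lit 4) (nat_lit 461) (nat_lit 386) (nat_lit 353)) (XT.lf (nat_lit 0) (nat_lit 10795171343) (nat_lit 152) (nat_lit 61931424090) (nat_lit 0) (nat_lit 6566605127) (nat_lit 8) (nat_lit 5) (nat_lit 10) (nat_lit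 4) (nat_lit 8) (nat_lit 4) (nat_lit 462) (nat_lit 386) (nat_lit 352)))) (XT.nd (nat_lit 156) (nat_lit 76) (nat_lit 0) (XT.nd (nat_lit 78) (nat_lit 0) (nat_lit 0) (XT.lf (nat_lit 0) (nat_lit 27027573733) (nat_lit 152) (nat_lit 35047945498) (nat_lit 0) (nat_lit 22774324788) (nat_lit 8) (nat_lit 5) (nat_lit 10) (nat_lit 4) (nat_lit 8) (nat_lit 4) (nat_lit 463) (nat_lit 386) (nat_lit 351)) (XT.lf (nat_lit 0) (nat_lit 44414832139) (nat_lit 152) (nat_lit 6304645961) (nat_lit 0) (nat_lit 40138728815) (nat_lit 8) (nat_lit 5) (nat_lit 10) (nat_lit 4) (nat_lit 8) (nat_lit 4) (nat_lit 464) (nat_lit 386) (nat_lit 350))) (XT.nd (nat_lit 78) (nat_lit 0) (nat_lit 0) (XT.lf (nat_lit 0) (nat_lit 25277854387) (nat_lit 76) (nat_lit 38176785926) (nat_lit 76) (nat_lit 33879521141) (nat_lit 7) (nat_lit 4) (nat_lit 8) (nat_lit 5) (nat_lit 8) (nat_lit 4) (nat_lit 465) (nat_lit 386) (nat_lit 349)) (XT.lf (nat_lit 0)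 (nat_lit 59354483271) (nat_lit 76) (nat_lit 24645720145) (nat_lit 76) (nat_lit 20328861414) (nat_lit 7) (nat_lit 4) (nat_lit 8) (nat_lit 5) (nat_lit 8) (nat_lit 4) (nat_lit 466) (nat_lit 386) (nat_lit 348))))) (XT.nd (nat_lit 234) (nat_lit 76) (nat_lit 0) (XT.nd (nat_lit 78) (nat_lit 152) (nat_lit 0) (XT.lf (nat_lit 0) (nat_lit 95918716200) (nat_lit 76) (nat_lit 10152868894) (nat_lit 76) (nat_lit 5817867620) (nat_lit 7) (nat_lit 4) (nat_lit 8) (nat_lit 5) (nat_lit 8) (nat_lit 4) (nat_lit 467) (nat_lit 386) (nat_lit 347)) (XT.nd (nat_lit 78) (nat_lit 0) (nat_lit 0) (XT.lf (nat_lit 0) (nat_lit 9759829675) (nat_lit 152) (nat_lit 104660831322) (nat_lit 0) (nat_lit 5615258319) (nat_lit 5) (nat_lit 5) (nat_lit 7) (nat_lit 4) (nat_lit 5) (nat_lit 4) (nat_lit 468) (nat_lit 386) (nat_lit 346)) (XT.lf (nat_lit 0) (nat_lit 26728869659) (nat_lit 152) (nat_lit 79513533079) (nat_lit 0) (nat_lit 22569484678)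 (nat_lit 5) (nat_lit 5) (nat_lit 7) (nat_lit 4) (nat_lit 5) (nat_lit 4) (nat_lit 469) (nat_lit 386) (nat_lit 345)))) (XT.nd (nat_lit 156) (nat_lit 76) (nat_lit 0) (XT.nd (nat_lit 78) (nat_lit 0) (nat_lit 0) (XT.lf (nat_lit 0) (nat_lit 44955687612) (nat_lit 152) (nat_lit 52556646992) (nat_lit 0) (nat_lit 40782586312) (nat_lit 5) (nat_lit 5) (nat_lit 7) (nat_lit 4) (nat_lit 5) (nat_lit 4) (nat_lit 470) (nat_lit 386) (nat_lit 344)) (XT.lf (nat_lit 0) (nat_lit 64548294307) (nat_lit 152) (nat_lit 23630428552) (nat_lit 0) (nat_lit 60362492711) (nat_lit 5) (nat_lit 5) (nat_lit 7) (nat_lit 4) (nat_lit 5) (nat_lit 4) (nat_lit 471) (nat_lit 386) (nat_lit 343))) (XT.nd (nat_lit 78) (nat_lit 0) (nat_lit 0) (XT.lf (nat_lit 0) (nat_lit 7682422362) (nat_lit 76) (nat_lit 78060315861) (nat_lit 76) (nat_lit 73862754732) (nat_lit 4) (nat_lit 4) (nat_lit 5) (nat_lit 5) (nat_lit 5) (nat_lit 4) (nat_lit 472) (nat_lit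 386) (nat_lit 342)) (XT.lf (nat_lit 0) (nat_lit 42178319438) (nat_lit 76) (nat_lit 66784275189) (nat_lit 76) (nat_lit 62575825604) (nat_lit 4) (nat_lit 4) (nat_lit 5) (nat_lit 5) (nat_lit 5) (nat_lit 4) (nat_lit 473) (nat_lit 386) (nat_lit 341))))))))
noncomputable def xc25 : XT := (XT.nd (nat_lit 58734) (nat_lit 0) (nat_lit 1064) (XT.nd (nat_lit 1092) (nat_lit 76) (nat_lit 0) (XT.nd (nat_lit 546) (nat_lit 0) (nat_lit 0) (XT.nd (nat_lit 234) (nat_lit 152) (nat_lit 0) (XT.nd (nat_lit 78) (nat_lit 0) (nat_lit 0) (XT.lf (nat_lit 0) (nat_lit 79280354120) (nat_lit 76) (nat_lit 54683972603) (nat_lit 76) (nat_lit 50465441114) (nat_lit 4) (nat_lit 4) (nat_lit 5) (nat_lit 5) (nat_lit 5) (nat_lit 4) (nat_lit 474) (nat_lit 386) (nat_lit 340)) (XT.nd (nat_lit 78) (nat_lit 0) (nat_lit 0) (XT.lf (nat_lit 0) (nat_lit 119208390318) (nat_lit 76) (nat_lit 41687702607) (nat_lit 76) (nat_lit 37459836021) (nat_lit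 4) (nat_lit 4) (nat_lit 5) (nat_lit 5) (nat_lit 5) (nat_lit 4) (nat_lit 475) (nat_lit 386) (nat_lit 339)) (XT.lf (nat_lit 0) (nat_lit 162199038616) (nat_lit 76) (nat_lit 27718450267) (nat_lit 76) (nat_lit 23481940073) (nat_lit 4) (nat_lit 4) (nat_lit 5) (nat_lit 5) (nat_lit 5) (nat_lit 4) (nat_lit 476) (nat_lit 386) (nat_lit 338)))) (XT.nd (nat_lit 156) (nat_lit 0) (nat_lit 0) (XT.nd (nat_lit 78) (nat_lit 152) (nat_lit 0) (XT.lf (nat_lit 0) (nat_lit 208507058412) (nat_lit 76) (nat_lit 12693434828) (nat_lit 76) (nat_lit 8448921293) (nat_lit 4) (nat_lit 4) (nat_lit 5) (nat_lit 5) (nat_lit 5) (nat_lit 4) (nat_lit 477) (nat_lit 386) (nat_lit 337)) (XT.lf (nat_lit 0) (nat_lit 7718910272) (nat_lit 152) (nat_lit 235795881812) (nat_lit 0) (nat_lit 3669458810) (nat_lit 2) (nat_lit 5) (nat_lit 4) (nat_lit 4) (nat_lit 2) (nat_lit 4) (nat_lit 478) (nat_lit 386) (nat_lit 336))) (XT.nd (nat_lit 78) (nat_lit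 0) (nat_lit 0) (XT.lf (nat_lit 0) (nat_lit 25421518741) (nat_lit 152) (nat_lit 219301029987) (nat_lit 0) (nat_lit 21365532447) (nat_lit 2) (nat_lit 5) (nat_lit 4) (nat_lit 4) (nat_lit 2) (nat_lit 4) (nat_lit 479) (nat_lit 386) (nat_lit 335)) (XT.lf (nat_lit 0) (nat_lit 44489450613) (nat_lit 152) (nat_lit 201589898287) (nat_lit 0) (nat_lit 40427413548) (nat_lit 2) (nat_lit 5) (nat_lit 4) (nat_lit 4) (nat_lit 2) (nat_lit 4) (nat_lit 480) (nat_lit 386) (nat_lit 334))))) (XT.nd (nat_lit 234) (nat_lit 0) (nat_lit 0) (XT.nd (nat_lit 78) (nat_lit 0) (nat_lit 0) (XT.lf (nat_lit 0) (nat_lit 65035701040) (nat_lit 152) (nat_lit 182557531856) (nat_lit 0) (nat_lit 60968061408) (nat_lit 2) (nat_lit 5) (nat_lit 4) (nat_lit 4) (nat_lit 2) (nat_lit 4) (nat_lit 481) (nat_lit 386) (nat_lit 333)) (XT.nd (nat_lit 78) (nat_lit 0) (nat_lit 0) (XT.lf (nat_lit 0) (nat_lit 87182025580) (nat_lit 152) (nat_lit 162091146300)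 (nat_lit 0) (nat_lit 83109198387) (nat_lit 2) (nat_lit 5) (nat_lit 4) (nat_lit 4) (nat_lit 2) (nat_lit 4) (nat_lit 482) (nat_lit 386) (nat_lit 332)) (XT.lf (nat_lit 0) (nat_lit 111059661711) (nat_lit 152) (nat_lit 140069459335) (nat_lit 0) (nat_lit 106982031221) (nat_lit 2) (nat_lit 5) (nat_lit 4) (nat_lit 4) (nat_lit 2) (nat_lit 4) (nat_lit 483) (nat_lit 386) (nat_lit 331)))) (XT.nd (nat_lit 156) (nat_lit 0) (nat_lit 0) (XT.nd (nat_lit 78) (nat_lit 0) (nat_lit 0) (XT.lf (nat_lit 0) (nat_lit 136810106536) (nat_lit 152) (nat_lit 116361972076) (nat_lit 0) (nat_lit 132728028549) (nat_lit 2) (nat_lit 5) (nat_lit 4) (nat_lit 4) (nat_lit 2) (nat_lit 4) (nat_lit 484) (nat_lit 386) (nat_lit 330)) (XT.lf (nat_lit 0) (nat_lit 164585955285) (nat_lit 152) (nat_lit 90828195708) (nat_lit 0) (nat_lit 160499759244) (nat_lit 2) (nat_lit 5) (nat_lit 4) (nat_lit 4) (nat_lit 2) (nat_lit 4) (nat_lit 485) (nat_lit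 386) (nat_lit 329))) (XT.nd (nat_lit 78) (nat_lit 0) (nat_lit 0) (XT.lf (nat_lit 0) (nat_lit 194551805578) (nat_lit 152) (nat_lit 63316818964) (nat_lit 0) (nat_lit 190461796525) (nat_lit 2) (nat_lit 5) (nat_lit 4) (nat_lit 4) (nat_lit 2) (nat_lit 4) (nat_lit 486) (nat_lit 386) (nat_lit 328)) (XT.lf (nat_lit 0) (nat_lit 226885232826) (nat_lit 152) (nat_lit 33664811465) (nat_lit 0) (nat_lit 222791693206) (nat_lit 2) (nat_lit 5) (nat_lit 4) (nat_lit 4) (nat_lit 2) (nat_lit 4) (nat_lit 487) (nat_lit 386) (nat_lit 327)))))) (XT.nd (nat_lit 546) (nat_lit 0) (nat_lit 0) (XT.nd (nat_lit 234) (nat_lit 0) (nat_lit 0) (XT.nd (nat_lit 78) (nat_lit 76) (nat_lit 0) (XT.lf (nat_lit 0) (nat_lit 261777842524) (nat_lit 152) (nat_lit 1696457609) (nat_lit 0) (nat_lit 257681033860) (nat_lit 2) (nat_lit 5) (nat_lit 4) (nat_lit 4) (nat_lit 2) (nat_lit 4) (nat_lit 488) (nat_lit 386) (nat_lit 326)) (XT.nd (nat_lit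 78) (nat_lit 0) (nat_lit 0) (XT.lf (nat_lit 0) (nat_lit 33861462984) (nat_lit 76) (nat_lit 266103615040) (nat_lit 76) (nat_lit 262003779485) (nat_lit 1) (nat_lit 4) (nat_lit 2) (nat_lit 5) (nat_lit 2) (nat_lit 4) (nat_lit 489) (nat_lit 386) (nat_lit 325)) (XT.lf (nat_lit 0) (nat_lit 72275163267) (nat_lit 76) (nat_lit 268937338765) (nat_lit 76) (nat_lit 264834700531) (nat_lit 1) (nat_lit 4) (nat_lit 2) (nat_lit 5) (nat_lit 2) (nat_lit 4) (nat_lit 490) (nat_lit 386) (nat_lit 324)))) (XT.nd (nat_lit 156) (nat_lit 0) (nat_lit 0) (XT.nd (nat_lit 78) (nat_lit 0) (nat_lit 0) (XT.lf (nat_lit 0) (nat_lit 113716187433) (nat_lit 76) (nat_lit 272020994074) (nat_lit 76) (nat_lit 267915760769) (nat_lit 1) (nat_lit 4) (nat_lit 2) (nat_lit 5) (nat_lit 2) (nat_lit 4) (nat_lit 491) (nat_lit 386) (nat_lit 323)) (XT.lf (nat_lit 0) (nat_lit 158430111920) (nat_lit 76) (nat_lit 275372854482) (nat_lit 76) (nat_lit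 271265218332) (nat_lit 1) (nat_lit 4) (nat_lit 2) (nat_lit 5) (nat_lit 2) (nat_lit 4) (nat_lit 492) (nat_lit 386) (nat_lit 322))) (XT.nd (nat_lit 78) (nat_lit 0) (nat_lit 0) (XT.lf (nat_lit 0) (nat_lit 206681908134) (nat_lit 76) (nat_lit 279012782863) (nat_lit 76) (nat_lit 274902921858) (nat_lit 1) (nat_lit 4) (nat_lit 2) (nat_lit 5) (nat_lit 2) (nat_lit 4) (nat_lit 493) (nat_lit 386) (nat_lit 321)) (XT.lf (nat_lit 0) (nat_lit 258757512644) (nat_lit 76) (nat_lit 282962349165) (nat_lit 76) (nat_lit 278850428108) (nat_lit 1) (nat_lit 4) (nat_lit 2) (nat_lit 5) (nat_lit 2) (nat_lit 4) (nat_lit 494) (nat_lit 386) (nat_lit 320))))) (XT.nd (nat_lit 234) (nat_lit 0) (nat_lit 0) (XT.nd (nat_lit 78) (nat_lit 0) (nat_lit 0) (XT.lf (nat_lit 0) (nat_lit 314965521624) (nat_lit 76) (nat_lit 287244958225) (nat_lit 76) (nat_lit 283131129712) (nat_lit 1) (nat_lit 4) (nat_lit 2) (nat_lit 5) (nat_lit 2) (nat_lit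 4) (nat_lit 495) (nat_lit 386) (nat_lit 319)) (XT.nd (nat_lit 78) (nat_lit 0) (nat_lit 0) (XT.lf (nat_lit 0) (nat_lit 375639019574) (nat_lit 76) (nat_lit 291885988467) (nat_lit 76) (nat_lit 287770393791) (nat_lit 1) (nat_lit 4) (nat_lit 2) (nat_lit 5) (nat_lit 2) (nat_lit 4) (nat_lit 496) (nat_lit 386) (nat_lit 318)) (XT.lf (nat_lit 0) (nat_lit 441137553146) (nat_lit 76) (nat_lit 296912942291) (nat_lit 76) (nat_lit 292795712280) (nat_lit 1) (nat_lit 4) (nat_lit 2) (nat_lit 5) (nat_lit 2) (nat_lit 4) (nat_lit 497) (nat_lit 386) (nat_lit 317)))) (XT.nd (nat_lit 156) (nat_lit 0) (nat_lit 0) (XT.nd (nat_lit 78) (nat_lit 0) (nat_lit 0) (XT.lf (nat_lit 0) (nat_lit 511849261801) (nat_lit 76) (nat_lit 302355609055) (nat_lit 76) (nat_lit 298236864845) (nat_lit 1) (nat_lit 4) (nat_lit 2) (nat_lit 5) (nat_lit 2) (nat_lit 4) (nat_lit 498) (nat_lit 386) (nat_lit 316)) (XT.lf (nat_lit 0) (nat_lit 588193177884)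 (nat_lit 76) (nat_lit 308246241598) (nat_lit 76) (nat_lit 304126095351) (nat_lit 1) (nat_lit 4) (nat_lit 2) (nat_lit 5) (nat_lit 2) (nat_lit 4) (nat_lit 499) (nat_lit 386) (nat_lit 315))) (XT.nd (nat_lit 78) (nat_lit 0) (nat_lit 0) (XT.lf (nat_lit 0) (nat_lit 670621709788) (nat_lit 76) (nat_lit 314619747373) (nat_lit 76) (nat_lit 310498302943) (nat_lit 1) (nat_lit 4) (nat_lit 2) (nat_lit 5) (nat_lit 2) (nat_lit 4) (nat_lit 500) (nat_lit 386) (nat_lit 314)) (XT.lf (nat_lit 0) (nat_lit 759623322887) (nat_lit 76) (nat_lit 321513895301) (nat_lit 76) (nat_lit 317391248852) (nat_lit 1) (nat_lit 4) (nat_lit 2) (nat_lit 5) (nat_lit 2) (nat_lit 4) (nat_lit 501) (nat_lit 386) (nat_lit 313))))))) (XT.nd (nat_lit 1092) (nat_lit 1444) (nat_lit 0) (XT.nd (nat_lit 546) (nat_lit 912) (nat_lit 0) (XT.nd (nat_lit 234) (nat_lit 684) (nat_lit 0) (XT.nd (nat_lit 78) (nat_lit 456) (nat_lit 0) (XT.lf (nat_lit 0)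 (nat_lit 2349041893) (nat_lit 152) (nat_lit 1723039488) (nat_lit 152) (nat_lit 1723039488) (nat_lit 61) (nat_lit 4) (nat_lit 63) (nat_lit 5) (nat_lit 63) (nat_lit 4) (nat_lit 426) (nat_lit 387) (nat_lit 387)) (XT.nd (nat_lit 78) (nat_lit 304) (nat_lit 0) (XT.lf (nat_lit 0) (nat_lit 5245524927) (nat_lit 152) (nat_lit 2339752329) (nat_lit 0) (nat_lit 4448900902) (nat_lit 59) (nat_lit 5) (nat_lit 61) (nat_lit 4) (nat_lit 59) (nat_lit 4) (nat_lit 427) (nat_lit 387) (nat_lit 386)) (XT.lf (nat_lit 0) (nat_lit 1911209683) (nat_lit 152) (nat_lit 10149322076) (nat_lit 0) (nat_lit 450029813) (nat_lit 55) (nat_lit 5) (nat_lit 57) (nat_lit 4) (nat_lit 55) (nat_lit 4) (nat_lit 428) (nat_lit 387) (nat_lit 385)))) (XT.nd (nat_lit 156) (nat_lit 380) (nat_lit 0) (XT.nd (nat_lit 78) (nat_lit 152) (nat_lit 0) (XT.lf (nat_lit 0) (nat_lit 7117060736) (nat_lit 152) (nat_lit 4005709788) (nat_lit 152) (nat_lit 1894075917)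 (nat_lit 53) (nat_lit 4) (nat_lit 55) (nat_lit 5) (nat_lit 55) (nat_lit 4) (nat_lit 429) (nat_lit 387) (nat_lit 384)) (XT.lf (nat_lit 0) (nat_lit 7237435023) (nat_lit 152) (nat_lit 1669099483) (nat_lit 0) (nat_lit 4652762552) (nat_lit 51) (nat_lit 5) (nat_lit 53) (nat_lit 4) (nat_lit 51) (nat_lit 4) (nat_lit 430) (nat_lit 387) (nat_lit 383))) (XT.nd (nat_lit 78) (nat_lit 76) (nat_lit 0) (XT.lf (nat_lit 0) (nat_lit 2659851884) (nat_lit 76) (nat_lit 157527924) (nat_lit 152) (nat_lit 11322963907) (nat_lit 47) (nat_lit 5) (nat_lit 48) (nat_lit 5) (nat_lit 49) (nat_lit 4) (nat_lit 431) (nat_lit 387) (nat_lit 382)) (XT.lf (nat_lit 0) (nat_lit 6930795402) (nat_lit 76) (nat_lit 5631437397) (nat_lit 76) (nat_lit 2195685090) (nat_lit 46) (nat_lit 4) (nat_lit 47) (nat_lit 5) (nat_lit 47) (nat_lit 4) (nat_lit 432) (nat_lit 387) (nat_lit 381))))) (XT.nd (nat_lit 234) (nat_lit 456) (nat_lit 0) (XT.nd (nat_lit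 78) (nat_lit 304) (nat_lit 0) (XT.lf (nat_lit 0) (nat_lit 7410441701) (nat_lit 152) (nat_lit 4283508286) (nat_lit 0) (nat_lit 3725293206) (nat_lit 44) (nat_lit 5) (nat_lit 46) (nat_lit 4) (nat_lit 44) (nat_lit 4) (nat_lit 433) (nat_lit 387) (nat_lit 380)) (XT.nd (nat_lit 78) (nat_lit 152) (nat_lit 0) (XT.lf (nat_lit 0) (nat_lit 1567709657) (nat_lit 152) (nat_lit 853754291) (nat_lit 76) (nat_lit 13706913112) (nat_lit 42) (nat_lit 5) (nat_lit 44) (nat_lit 5) (nat_lit 43) (nat_lit 4) (nat_lit 434) (nat_lit 387) (nat_lit 379)) (XT.lf (nat_lit 0) (nat_lit 2408197850) (nat_lit 76) (nat_lit 9342274367) (nat_lit 76) (nat_lit 5131185821) (nat_lit 40) (nat_lit 4) (nat_lit 41) (nat_lit 5) (nat_lit 41) (nat_lit 4) (nat_lit 435) (nat_lit 387) (nat_lit 378)))) (XT.nd (nat_lit 156) (nat_lit 228) (nat_lit 0) (XT.nd (nat_lit 78) (nat_lit 76) (nat_lit 0) (XT.lf (nat_lit 0) (nat_lit 4919158973) (nat_lit 152)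 (nat_lit 12159478238) (nat_lit 0) (nat_lit 611223897) (nat_lit 38) (nat_lit 5) (nat_lit 40) (nat_lit 4) (nat_lit 38) (nat_lit 4) (nat_lit 436) (nat_lit 387) (nat_lit 377)) (XT.lf (nat_lit 0) (nat_lit 8320270035) (nat_lit 76) (nat_lit 7407421821) (nat_lit 76) (nat_lit 2824139935) (nat_lit 37) (nat_lit 4) (nat_lit 38) (nat_lit 5) (nat_lit 38) (nat_lit 4) (nat_lit 437) (nat_lit 387) (nat_lit 376))) (XT.nd (nat_lit 78) (nat_lit 76) (nat_lit 0) (XT.lf (nat_lit 0) (nat_lit 7699123344) (nat_lit 152) (nat_lit 8684464744) (nat_lit 0) (nat_lit 3091282737) (nat_lit 35) (nat_lit 5) (nat_lit 37) (nat_lit 4) (nat_lit 35) (nat_lit 4) (nat_lit 438) (nat_lit 387) (nat_lit 375)) (XT.lf (nat_lit 0) (nat_lit 12876036113) (nat_lit 76) (nat_lit 6210020292) (nat_lit 76) (nat_lit 1377355390) (nat_lit 34) (nat_lit 4) (nat_lit 35) (nat_lit 5) (nat_lit 35) (nat_lit 4) (nat_lit 439) (nat_lit 387) (nat_lit 374)))))) (XT.nd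 (nat_lit 546) (nat_lit 608) (nat_lit 0) (XT.nd (nat_lit 234) (nat_lit 456) (nat_lit 0) (XT.nd (nat_lit 78) (nat_lit 228) (nat_lit 0) (XT.lf (nat_lit 0) (nat_lit 9619395287) (nat_lit 152) (nat_lit 7081267548) (nat_lit 0) (nat_lit 4818599529) (nat_lit 32) (nat_lit 5) (nat_lit 34) (nat_lit 4) (nat_lit 32) (nat_lit 4) (nat_lit 440) (nat_lit 387) (nat_lit 373)) (XT.nd (nat_lit 78) (nat_lit 152) (nat_lit 0) (XT.lf (nat_lit 0) (nat_lit 15491693435) (nat_lit 76) (nat_lit 6072649952) (nat_lit 76) (nat_lit 1088282199) (nat_lit 31) (nat_lit 4) (nat_lit 32) (nat_lit 5) (nat_lit 32) (nat_lit 4) (nat_lit 441) (nat_lit 387) (nat_lit 372)) (XT.lf (nat_lit 0) (nat_lit 10356507984) (nat_lit 152) (nat_lit 8058923031) (nat_lit 0) (nat_lit 5447611009) (nat_lit 29) (nat_lit 5) (nat_lit 31) (nat_lit 4) (nat_lit 29) (nat_lit 4) (nat_lit 442) (nat_lit 387) (nat_lit 371)))) (XT.nd (nat_lit 156) (nat_lit 228) (nat_lit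 0) (XT.nd (nat_lit 78) (nat_lit 152) (nat_lit 0) (XT.lf (nat_lit 0) (nat_lit 15388364919) (nat_lit 76) (nat_lit 7416754985) (nat_lit 76) (nat_lit 2357969059) (nat_lit 28) (nat_lit 4) (nat_lit 29) (nat_lit 5) (nat_lit 29) (nat_lit 4) (nat_lit 443) (nat_lit 387) (nat_lit 370)) (XT.lf (nat_lit 0) (nat_lit 9474326374) (nat_lit 152) (nat_lit 12555916342) (nat_lit 0) (nat_lit 4524257809) (nat_lit 26) (nat_lit 5) (nat_lit 28) (nat_lit 4) (nat_lit 26) (nat_lit 4) (nat_lit 444) (nat_lit 387) (nat_lit 369))) (XT.nd (nat_lit 78) (nat_lit 152) (nat_lit 0) (XT.lf (nat_lit 0) (nat_lit 11532347450) (nat_lit 76) (nat_lit 10793813728) (nat_lit 76) (nat_lit 5721358863) (nat_lit 25) (nat_lit 4) (nat_lit 26) (nat_lit 5) (nat_lit 26) (nat_lit 4) (nat_lit 445) (nat_lit 387) (nat_lit 368)) (XT.lf (nat_lit 0) (nat_lit 6390779901) (nat_lit 152) (nat_lit 21809443565) (nat_lit 0) (nat_lit 1451946077) (nat_lit 23) (nat_lit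 5) (nat_lit 25) (nat_lit 4) (nat_lit 23) (nat_lit 4) (nat_lit 446) (nat_lit 387) (nat_lit 367))))) (XT.nd (nat_lit 312) (nat_lit 304) (nat_lit 0) (XT.nd (nat_lit 156) (nat_lit 152) (nat_lit 0) (XT.nd (nat_lit 78) (nat_lit 76) (nat_lit 0) (XT.lf (nat_lit 0) (nat_lit 2558004475) (nat_lit 76) (nat_lit 16925335421) (nat_lit 76) (nat_lit 11886571572) (nat_lit 22) (nat_lit 4) (nat_lit 23) (nat_lit 5) (nat_lit 23) (nat_lit 4) (nat_lit 447) (nat_lit 387) (nat_lit 366)) (XT.lf (nat_lit 0) (nat_lit 475221939) (nat_lit 152) (nat_lit 4157086674) (nat_lit 76) (nat_lit 28587970900) (nat_lit 21) (nat_lit 5) (nat_lit 23) (nat_lit 5) (nat_lit 22) (nat_lit 4) (nat_lit 448) (nat_lit 387) (nat_lit 365))) (XT.nd (nat_lit 78) (nat_lit 76) (nat_lit 0) (XT.lf (nat_lit 0) (nat_lit 13630692097) (nat_lit 152) (nat_lit 12905033404) (nat_lit 0) (nat_lit 8662153485) (nat_lit 20) (nat_lit 5) (nat_lit 22) (nat_lit 4) (nat_lit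 20) (nat_lit 4) (nat_lit 449) (nat_lit 387) (nat_lit 364)) (XT.lf (nat_lit 0) (nat_lit 13496277353) (nat_lit 76) (nat_lit 14438350134) (nat_lit 76) (nat_lit 9394261354) (nat_lit 19) (nat_lit 4) (nat_lit 20) (nat_lit 5) (nat_lit 20) (nat_lit 4) (nat_lit 450) (nat_lit 387) (nat_lit 363)))) (XT.nd (nat_lit 156) (nat_lit 152) (nat_lit 0) (XT.nd (nat_lit 78) (nat_lit 0) (nat_lit 0) (XT.lf (nat_lit 0) (nat_lit 2345258712) (nat_lit 76) (nat_lit 1293424873) (nat_lit 152) (nat_lit 35988455467) (nat_lit 17) (nat_lit 5) (nat_lit 18) (nat_lit 5) (nat_lit 19) (nat_lit 4) (nat_lit 451) (nat_lit 387) (nat_lit 362)) (XT.lf (nat_lit 0) (nat_lit 17761667234) (nat_lit 152) (nat_lit 11491595597) (nat_lit 0) (nat_lit 12829462728) (nat_lit 17) (nat_lit 5) (nat_lit 19) (nat_lit 4) (nat_lit 17) (nat_lit 4) (nat_lit 452) (nat_lit 387) (nat_lit 361))) (XT.nd (nat_lit 78) (nat_lit 76) (nat_lit 0) (XT.lf (nat_lit 0) (nat_lit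 16397466758) (nat_lit 76) (nat_lit 16662180000) (nat_lit 76) (nat_lit 11672857248) (nat_lit 16) (nat_lit 4) (nat_lit 17) (nat_lit 5) (nat_lit 17) (nat_lit 4) (nat_lit 453) (nat_lit 387) (nat_lit 360)) (XT.lf (nat_lit 0) (nat_lit 1900996635) (nat_lit 152) (nat_lit 1145166916) (nat_lit 76) (nat_lit 44547682451) (nat_lit 15) (nat_lit 5) (nat_lit 17) (nat_lit 5) (nat_lit 16) (nat_lit 4) (nat_lit 454) (nat_lit 387) (nat_lit 359))))))))
noncomputable def xc26 : XT := (XT.nd (nat_lit 2184) (nat_lit 76) (nat_lit 0) (XT.nd (nat_lit 1092) (nat_lit 380) (nat_lit 0) (XT.nd (nat_lit 546) (nat_lit 228) (nat_lit 0) (XT.nd (nat_lit 234) (nat_lit 228) (nat_lit 0) (XT.nd (nat_lit 78) (nat_lit 76) (nat_lit 0) (XT.lf (nat_lit 0) (nat_lit 16582401078) (nat_lit 152) (nat_lit 22336940098) (nat_lit 0) (nat_lit 11733658498) (nat_lit 14) (nat_lit 5) (nat_lit 16) (nat_lit 4) (nat_lit 14) (nat_lit 4) (nat_lit 455) (nat_lit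 387) (nat_lit 358)) (XT.nd (nat_lit 78) (nat_lit 0) (nat_lit 0) (XT.lf (nat_lit 0) (nat_lit 5948389976) (nat_lit 76) (nat_lit 26451180470) (nat_lit 76) (nat_lit 21559254741) (nat_lit 13) (nat_lit 4) (nat_lit 14) (nat_lit 5) (nat_lit 14) (nat_lit 4) (nat_lit 456) (nat_lit 387) (nat_lit 357)) (XT.lf (nat_lit 0) (nat_lit 36902493260) (nat_lit 76) (nat_lit 12774398354) (nat_lit 76) (nat_lit 7842488229) (nat_lit 13) (nat_lit 4) (nat_lit 14) (nat_lit 5) (nat_lit 14) (nat_lit 4) (nat_lit 457) (nat_lit 387) (nat_lit 356)))) (XT.nd (nat_lit 156) (nat_lit 76) (nat_lit 0) (XT.nd (nat_lit 78) (nat_lit 0) (nat_lit 0) (XT.lf (nat_lit 0) (nat_lit 6734853494) (nat_lit 152) (nat_lit 52622629743) (nat_lit 0) (nat_lit 2002536623) (nat_lit 11) (nat_lit 5) (nat_lit 13) (nat_lit 4) (nat_lit 11) (nat_lit 4) (nat_lit 458) (nat_lit 387) (nat_lit 355)) (XT.lf (nat_lit 0) (nat_lit 22610101301) (nat_lit 152) (nat_lit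 25025922441) (nat_lit 0) (nat_lit 17845136644) (nat_lit 11) (nat_lit 5) (nat_lit 13) (nat_lit 4) (nat_lit 11) (nat_lit 4) (nat_lit 459) (nat_lit 387) (nat_lit 354))) (XT.nd (nat_lit 78) (nat_lit 0) (nat_lit 0) (XT.lf (nat_lit 0) (nat_lit 4593434919) (nat_lit 76) (nat_lit 35069194901) (nat_lit 76) (nat_lit 30274000812) (nat_lit 10) (nat_lit 4) (nat_lit 11) (nat_lit 5) (nat_lit 11) (nat_lit 4) (nat_lit 460) (nat_lit 387) (nat_lit 353)) (XT.lf (nat_lit 0) (nat_lit 37158336243) (nat_lit 76) (nat_lit 21199726433) (nat_lit 76) (nat_lit 16376542130) (nat_lit 10) (nat_lit 4) (nat_lit 11) (nat_lit 5) (nat_lit 11) (nat_lit 4) (nat_lit 461) (nat_lit 387) (nat_lit 352))))) (XT.nd (nat_lit 234) (nat_lit 76) (nat_lit 0) (XT.nd (nat_lit 78) (nat_lit 152) (nat_lit 0) (XT.lf (nat_lit 0) (nat_lit 72034288706) (nat_lit 76) (nat_lit 6369255003) (nat_lit 76) (nat_lit 1520153834) (nat_lit 10) (nat_lit 4) (nat_lit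 11) (nat_lit 5) (nat_lit 11) (nat_lit 4) (nat_lit 462) (nat_lit 387) (nat_lit 351)) (XT.nd (nat_lit 78) (nat_lit 0) (nat_lit 0) (XT.lf (nat_lit 0) (nat_lit 14463022549) (nat_lit 152) (nat_lit 61211423138) (nat_lit 0) (nat_lit 9821976582) (nat_lit 8) (nat_lit 5) (nat_lit 10) (nat_lit 4) (nat_lit 8) (nat_lit 4) (nat_lit 463) (nat_lit 387) (nat_lit 350)) (XT.lf (nat_lit 0) (nat_lit 31786295835) (nat_lit 152) (nat_lit 32597600695) (nat_lit 0) (nat_lit 27124088405) (nat_lit 8) (nat_lit 5) (nat_lit 10) (nat_lit 4) (nat_lit 8) (nat_lit 4) (nat_lit 464) (nat_lit 387) (nat_lit 349)))) (XT.nd (nat_lit 156) (nat_lit 0) (nat_lit 0) (XT.nd (nat_lit 78) (nat_lit 76) (nat_lit 0) (XT.lf (nat_lit 0) (nat_lit 50372200379) (nat_lit 152) (nat_lit 1944035746) (nat_lit 0) (nat_lit 45690399004) (nat_lit 8) (nat_lit 5) (nat_lit 10) (nat_lit 4) (nat_lit 8) (nat_lit 4) (nat_lit 465) (nat_lit 387) (nat_lit 348)) (XT.lf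 (nat_lit 0) (nat_lit 31953638446) (nat_lit 76) (nat_lit 38876122277) (nat_lit 76) (nat_lit 34176178359) (nat_lit 7) (nat_lit 4) (nat_lit 8) (nat_lit 5) (nat_lit 8) (nat_lit 4) (nat_lit 466) (nat_lit 387) (nat_lit 347))) (XT.nd (nat_lit 78) (nat_lit 0) (nat_lit 0) (XT.lf (nat_lit 0) (nat_lit 68411689811) (nat_lit 76) (nat_lit 24437001346) (nat_lit 76) (nat_lit 19720258778) (nat_lit 7) (nat_lit 4) (nat_lit 8) (nat_lit 5) (nat_lit 8) (nat_lit 4) (nat_lit 467) (nat_lit 387) (nat_lit 346)) (XT.lf (nat_lit 0) (nat_lit 107581887457) (nat_lit 76) (nat_lit 8946231359) (nat_lit 76) (nat_lit 4213934484) (nat_lit 7) (nat_lit 4) (nat_lit 8) (nat_lit 5) (nat_lit 8) (nat_lit 4) (nat_lit 468) (nat_lit 387) (nat_lit 345)))))) (XT.nd (nat_lit 546) (nat_lit 152) (nat_lit 0) (XT.nd (nat_lit 234) (nat_lit 76) (nat_lit 0) (XT.nd (nat_lit 78) (nat_lit 0) (nat_lit 0) (XT.lf (nat_lit 0) (nat_lit 12486607115) (nat_lit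 152) (nat_lit 109088931322) (nat_lit 0) (nat_lit 7965941391) (nat_lit 5) (nat_lit 5) (nat_lit 7) (nat_lit 4) (nat_lit 5) (nat_lit 4) (nat_lit 469) (nat_lit 387) (nat_lit 344)) (XT.nd (nat_lit 78) (nat_lit 0) (nat_lit 0) (XT.lf (nat_lit 0) (nat_lit 30669022811) (nat_lit 152) (nat_lit 82222054146) (nat_lit 0) (nat_lit 26135656792) (nat_lit 5) (nat_lit 5) (nat_lit 7) (nat_lit 4) (nat_lit 5) (nat_lit 4) (nat_lit 470) (nat_lit 387) (nat_lit 343)) (XT.lf (nat_lit 0) (nat_lit 50220516305) (nat_lit 152) (nat_lit 53379177289) (nat_lit 0) (nat_lit 45675390753) (nat_lit 5) (nat_lit 5) (nat_lit 7) (nat_lit 4) (nat_lit 5) (nat_lit 4) (nat_lit 471) (nat_lit 387) (nat_lit 342)))) (XT.nd (nat_lit 156) (nat_lit 0) (nat_lit 0) (XT.nd (nat_lit 78) (nat_lit 76) (nat_lit 0) (XT.lf (nat_lit 0) (nat_lit 71256948300) (nat_lit 152) (nat_lit 22389380001) (nat_lit 0) (nat_lit 66700934292) (nat_lit 5) (nat_lit 5) (nat_lit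 7) (nat_lit 4) (nat_lit 5) (nat_lit 4) (nat_lit 472) (nat_lit 387) (nat_lit 341)) (XT.lf (nat_lit 0) (nat_lit 11292408558) (nat_lit 76) (nat_lit 82786876719) (nat_lit 76) (nat_lit 78220780806) (nat_lit 4) (nat_lit 4) (nat_lit 5) (nat_lit 5) (nat_lit 5) (nat_lit 4) (nat_lit 473) (nat_lit 387) (nat_lit 340))) (XT.nd (nat_lit 78) (nat_lit 0) (nat_lit 0) (XT.lf (nat_lit 0) (nat_lit 48326096481) (nat_lit 76) (nat_lit 70721216824) (nat_lit 76) (nat_lit 66145785815) (nat_lit 4) (nat_lit 4) (nat_lit 5) (nat_lit 5) (nat_lit 5) (nat_lit 4) (nat_lit 474) (nat_lit 387) (nat_lit 339)) (XT.lf (nat_lit 0) (nat_lit 88190848643) (nat_lit 76) (nat_lit 57757023393) (nat_lit 76) (nat_lit 53172948776) (nat_lit 4) (nat_lit 4) (nat_lit 5) (nat_lit 5) (nat_lit 5) (nat_lit 4) (nat_lit 475) (nat_lit 387) (nat_lit 338))))) (XT.nd (nat_lit 234) (nat_lit 152) (nat_lit 0) (XT.nd (nat_lit 78) (nat_lit 0) (nat_lit 0) (XT.lf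 (nat_lit 0) (nat_lit 131122900611) (nat_lit 76) (nat_lit 43817471576) (nat_lit 76) (nat_lit 39225393618) (nat_lit 4) (nat_lit 4) (nat_lit 5) (nat_lit 5) (nat_lit 5) (nat_lit 4) (nat_lit 476) (nat_lit 387) (nat_lit 337)) (XT.nd (nat_lit 78) (nat_lit 0) (nat_lit 0) (XT.lf (nat_lit 0) (nat_lit 177376664546) (nat_lit 76) (nat_lit 28819956622) (nat_lit 76) (nat_lit 24220468163) (nat_lit 4) (nat_lit 4) (nat_lit 5) (nat_lit 5) (nat_lit 5) (nat_lit 4) (nat_lit 477) (nat_lit 387) (nat_lit 336)) (XT.lf (nat_lit 0) (nat_lit 227226236826) (nat_lit 76) (nat_lit 12675604367) (nat_lit 76) (nat_lit 8069254335) (nat_lit 4) (nat_lit 4) (nat_lit 5) (nat_lit 5) (nat_lit 5) (nat_lit 4) (nat_lit 478) (nat_lit 387) (nat_lit 335)))) (XT.nd (nat_lit 156) (nat_lit 0) (nat_lit 0) (XT.nd (nat_lit 78) (nat_lit 0) (nat_lit 0) (XT.lf (nat_lit 0) (nat_lit 9329175233) (nat_lit 152) (nat_lit 252644047747) (nat_lit 0) (nat_lit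 4936124431) (nat_lit 2) (nat_lit 5) (nat_lit 4) (nat_lit 4) (nat_lit 2) (nat_lit 4) (nat_lit 479) (nat_lit 387) (nat_lit 334)) (XT.lf (nat_lit 0) (nat_lit 28374455185) (nat_lit 152) (nat_lit 234978904415) (nat_lit 0) (nat_lit 23975801816) (nat_lit 2) (nat_lit 5) (nat_lit 4) (nat_lit 4) (nat_lit 2) (nat_lit 4) (nat_lit 480) (nat_lit 387) (nat_lit 333))) (XT.nd (nat_lit 78) (nat_lit 0) (nat_lit 0) (XT.lf (nat_lit 0) (nat_lit 48899731611) (nat_lit 152) (nat_lit 215989119806) (nat_lit 0) (nat_lit 44495890682) (nat_lit 2) (nat_lit 5) (nat_lit 4) (nat_lit 4) (nat_lit 2) (nat_lit 4) (nat_lit 481) (nat_lit 387) (nat_lit 332)) (XT.lf (nat_lit 0) (nat_lit 71026635779) (nat_lit 152) (nat_lit 195562161863) (nat_lit 0) (nat_lit 66617991553) (nat_lit 2) (nat_lit 5) (nat_lit 4) (nat_lit 4) (nat_lit 2) (nat_lit 4) (nat_lit 482) (nat_lit 387) (nat_lit 331))))))) (XT.nd (nat_lit 1092) (nat_lit 0) (nat_lit 0)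 (XT.nd (nat_lit 546) (nat_lit 76) (nat_lit 0) (XT.nd (nat_lit 234) (nat_lit 0) (nat_lit 0) (XT.nd (nat_lit 78) (nat_lit 0) (nat_lit 0) (XT.lf (nat_lit 0) (nat_lit 94886290085) (nat_lit 152) (nat_lit 173576981948) (nat_lit 0) (nat_lit 90473198361) (nat_lit 2) (nat_lit 5) (nat_lit 4) (nat_lit 4) (nat_lit 2) (nat_lit 4) (nat_lit 483) (nat_lit 387) (nat_lit 330)) (XT.nd (nat_lit 78) (nat_lit 0) (nat_lit 0) (XT.lf (nat_lit 0) (nat_lit 120620085073) (nat_lit 152) (nat_lit 149903297511) (nat_lit 0) (nat_lit 116202875296) (nat_lit 2) (nat_lit 5) (nat_lit 4) (nat_lit 4) (nat_lit 2) (nat_lit 4) (nat_lit 484) (nat_lit 387) (nat_lit 329)) (XT.lf (nat_lit 0) (nat_lit 148380517305) (nat_lit 152) (nat_lit 124400820054) (nat_lit 0) (nat_lit 143959494515) (nat_lit 2) (nat_lit 5) (nat_lit 4) (nat_lit 4) (nat_lit 2) (nat_lit 4) (nat_lit 485) (nat_lit 387) (nat_lit 328)))) (XT.nd (nat_lit 156) (nat_lit 0) (nat_lit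 0) (XT.nd (nat_lit 78) (nat_lit 0) (nat_lit 0) (XT.lf (nat_lit 0) (nat_lit 178332093046) (nat_lit 152) (nat_lit 96918423783) (nat_lit 0) (nat_lit 173907539689) (nat_lit 2) (nat_lit 5) (nat_lit 4) (nat_lit 4) (nat_lit 2) (nat_lit 4) (nat_lit 486) (nat_lit 387) (nat_lit 327)) (XT.lf (nat_lit 0) (nat_lit 210652303116) (nat_lit 152) (nat_lit 67293250055) (nat_lit 0) (nat_lit 206224480716) (nat_lit 2) (nat_lit 5) (nat_lit 4) (nat_lit 4) (nat_lit 2) (nat_lit 4) (nat_lit 487) (nat_lit 387) (nat_lit 326))) (XT.nd (nat_lit 78) (nat_lit 0) (nat_lit 0) (XT.lf (nat_lit 0) (nat_lit 245532674685) (nat_lit 152) (nat_lit 35349742283) (nat_lit 0) (nat_lit 241101825393) (nat_lit 2) (nat_lit 5) (nat_lit 4) (nat_lit 4) (nat_lit 2) (nat_lit 4) (nat_lit 488) (nat_lit 387) (nat_lit 325)) (XT.lf (nat_lit 0) (nat_lit 283179906252) (nat_lit 152) (nat_lit 898605607) (nat_lit 0) (nat_lit 278746254282) (nat_lit 2) (nat_lit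 5) (nat_lit 4) (nat_lit 4) (nat_lit 2) (nat_lit 4) (nat_lit 489) (nat_lit 387) (nat_lit 324))))) (XT.nd (nat_lit 234) (nat_lit 0) (nat_lit 0) (XT.nd (nat_lit 78) (nat_lit 0) (nat_lit 0) (XT.lf (nat_lit 0) (nat_lit 37463376879) (nat_lit 76) (nat_lit 286938623947) (nat_lit 76) (nat_lit 282502376905) (nat_lit 1) (nat_lit 4) (nat_lit 2) (nat_lit 5) (nat_lit 2) (nat_lit 4) (nat_lit 490) (nat_lit 387) (nat_lit 323)) (XT.nd (nat_lit 78) (nat_lit 0) (nat_lit 0) (XT.lf (nat_lit 0) (nat_lit 78884025270) (nat_lit 76) (nat_lit 290032621888) (nat_lit 76) (nat_lit 285593972002) (nat_lit 1) (nat_lit 4) (nat_lit 2) (nat_lit 5) (nat_lit 2) (nat_lit 4) (nat_lit 491) (nat_lit 387) (nat_lit 322)) (XT.lf (nat_lit 0) (nat_lit 123579083299) (nat_lit 76) (nat_lit 293394058806) (nat_lit 76) (nat_lit 288953184063) (nat_lit 1) (nat_lit 4) (nat_lit 2) (nat_lit 5) (nat_lit 2) (nat_lit 4) (nat_lit 492) (nat_lit 387) (nat_lit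 321)))) (XT.nd (nat_lit 156) (nat_lit 0) (nat_lit 0) (XT.nd (nat_lit 78) (nat_lit 0) (nat_lit 0) (XT.lf (nat_lit 0) (nat_lit 171813410570) (nat_lit 76) (nat_lit 297042854327) (nat_lit 76) (nat_lit 292599919533) (nat_lit 1) (nat_lit 4) (nat_lit 2) (nat_lit 5) (nat_lit 2) (nat_lit 4) (nat_lit 493) (nat_lit 387) (nat_lit 320)) (XT.lf (nat_lit 0) (nat_lit 223872840132) (nat_lit 76) (nat_lit 301000630943) (nat_lit 76) (nat_lit 296555788694) (nat_lit 1) (nat_lit 4) (nat_lit 2) (nat_lit 5) (nat_lit 2) (nat_lit 4) (nat_lit 494) (nat_lit 387) (nat_lit 319))) (XT.nd (nat_lit 78) (nat_lit 0) (nat_lit 0) (XT.lf (nat_lit 0) (nat_lit 280065872310) (nat_lit 76) (nat_lit 305290842146) (nat_lit 76) (nat_lit 300844233734) (nat_lit 1) (nat_lit 4) (nat_lit 2) (nat_lit 5) (nat_lit 2) (nat_lit 4) (nat_lit 495) (nat_lit 387) (nat_lit 318)) (XT.lf (nat_lit 0) (nat_lit 340725502850) (nat_lit 76) (nat_lit 309938911408)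 (nat_lit 76) (nat_lit 305490667661) (nat_lit 1) (nat_lit 4) (nat_lit 2) (nat_lit 5) (nat_lit 2) (nat_lit 4) (nat_lit 496) (nat_lit 387) (nat_lit 317)))))) (XT.nd (nat_lit 56940) (nat_lit 0) (nat_lit 3420) (XT.nd (nat_lit 234) (nat_lit 0) (nat_lit 0) (XT.nd (nat_lit 78) (nat_lit 0) (nat_lit 0) (XT.lf (nat_lit 0) (nat_lit 406211196228) (nat_lit 76) (nat_lit 314972382845) (nat_lit 76) (nat_lit 310522624898) (nat_lit 1) (nat_lit 4) (nat_lit 2) (nat_lit 5) (nat_lit 2) (nat_lit 4) (nat_lit 497) (nat_lit 387) (nat_lit 316)) (XT.nd (nat_lit 78) (nat_lit 0) (nat_lit 0) (XT.lf (nat_lit 0) (nat_lit 476911015814) (nat_lit 76) (nat_lit 320421084435) (nat_lit 76) (nat_lit 315969924451) (nat_lit 1) (nat_lit 4) (nat_lit 2) (nat_lit 5) (nat_lit 2) (nat_lit 4) (nat_lit 498) (nat_lit 387) (nat_lit 315)) (XT.lf (nat_lit 0) (nat_lit 553243923500) (nat_lit 76) (nat_lit 326317304780) (nat_lit 76) (nat_lit 321864846614)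 (nat_lit 1) (nat_lit 4) (nat_lit 2) (nat_lit 5) (nat_lit 2) (nat_lit 4) (nat_lit 499) (nat_lit 387) (nat_lit 314)))) (XT.nd (nat_lit 56550) (nat_lit 0) (nat_lit 4864) (XT.nd (nat_lit 78) (nat_lit 0) (nat_lit 0) (XT.lf (nat_lit 0) (nat_lit 635662262443) (nat_lit 76) (nat_lit 332695984445) (nat_lit 76) (nat_lit 328242324258) (nat_lit 1) (nat_lit 4) (nat_lit 2) (nat_lit 5) (nat_lit 2) (nat_lit 4) (nat_lit 500) (nat_lit 387) (nat_lit 313)) (XT.lf (nat_lit 0) (nat_lit 724654437616) (nat_lit 76) (nat_lit 339594923013) (nat_lit 76) (nat_lit 335140149845) (nat_lit 1) (nat_lit 4) (nat_lit 2) (nat_lit 5) (nat_lit 2) (nat_lit 4) (nat_lit 501) (nat_lit 387) (nat_lit 312))) (XT.nd (nat_lit 78) (nat_lit 228) (nat_lit 0) (XT.lf (nat_lit 0) (nat_lit 1563688166) (nat_lit 228) (nat_lit 2261326178) (nat_lit 0) (nat_lit 1563688166) (nat_lit 68) (nat_lit 5) (nat_lit 71) (nat_lit 4) (nat_lit 68) (nat_lit 4) (nat_lit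 424) (nat_lit 388) (nat_lit 388)) (XT.lf (nat_lit 0) (nat_lit 368233904) (nat_lit 228) (nat_lit 193660721) (nat_lit 76) (nat_lit 10616214814) (nat_lit 65) (nat_lit 5) (nat_lit 68) (nat_lit 5) (nat_lit 66) (nat_lit 4) (nat_lit 425) (nat_lit 388) (nat_lit 387))))) (XT.nd (nat_lit 234) (nat_lit 684) (nat_lit 0) (XT.nd (nat_lit 78) (nat_lit 456) (nat_lit 0) (XT.lf (nat_lit 0) (nat_lit 4280018580) (nat_lit 152) (nat_lit 4530949307) (nat_lit 152) (nat_lit 2791122437) (nat_lit 61) (nat_lit 4) (nat_lit 63) (nat_lit 5) (nat_lit 63) (nat_lit 4) (nat_lit 426) (nat_lit 388) (nat_lit 386)) (XT.nd (nat_lit 78) (nat_lit 304) (nat_lit 0) (XT.lf (nat_lit 0) (nat_lit 5623731523) (nat_lit 152) (nat_lit 3205452445) (nat_lit 0) (nat_lit 3229138714) (nat_lit 59) (nat_lit 5) (nat_lit 61) (nat_lit 4) (nat_lit 59) (nat_lit 4) (nat_lit 427) (nat_lit 388) (nat_lit 385)) (XT.lf (nat_lit 0) (nat_lit 994866287) (nat_lit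 76) (nat_lit 991687760) (nat_lit 152) (nat_lit 10561260681) (nat_lit 55) (nat_lit 5) (nat_lit 56) (nat_lit 5) (nat_lit 57) (nat_lit 4) (nat_lit 428) (nat_lit 388) (nat_lit 384)))) (XT.nd (nat_lit 156) (nat_lit 380) (nat_lit 0) (XT.nd (nat_lit 78) (nat_lit 152) (nat_lit 0) (XT.lf (nat_lit 0) (nat_lit 5274007179) (nat_lit 152) (nat_lit 5663221071) (nat_lit 152) (nat_lit 2129930265) (nat_lit 53) (nat_lit 4) (nat_lit 55) (nat_lit 5) (nat_lit 55) (nat_lit 4) (nat_lit 429) (nat_lit 388) (nat_lit 383)) (XT.lf (nat_lit 0) (nat_lit 6733252688) (nat_lit 152) (nat_lit 4053237693) (nat_lit 0) (nat_lit 2837109572) (nat_lit 51) (nat_lit 5) (nat_lit 53) (nat_lit 4) (nat_lit 51) (nat_lit 4) (nat_lit 430) (nat_lit 388) (nat_lit 382))) (XT.nd (nat_lit 78) (nat_lit 152) (nat_lit 0) (XT.lf (nat_lit 0) (nat_lit 1974233484) (nat_lit 228) (nat_lit 340727671) (nat_lit 76) (nat_lit 11904783388) (nat_lit 48) (nat_lit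 5) (nat_lit 51) (nat_lit 5) (nat_lit 49) (nat_lit 4) (nat_lit 431) (nat_lit 388) (nat_lit 381)) (XT.lf (nat_lit 0) (nat_lit 3373241347) (nat_lit 76) (nat_lit 8045849822) (nat_lit 76) (nat_lit 3433237814) (nat_lit 46) (nat_lit 4) (nat_lit 47) (nat_lit 5) (nat_lit 47) (nat_lit 4) (nat_lit 432) (nat_lit 388) (nat_lit 380))))))))
noncomputable def xc27 : XT := (XT.nd (nat_lit 2184) (nat_lit 684) (nat_lit 0) (XT.nd (nat_lit 1092) (nat_lit 1064) (nat_lit 0) (XT.nd (nat_lit 546) (nat_lit 684) (nat_lit 0) (XT.nd (nat_lit 234) (nat_lit 532) (nat_lit 0) (XT.nd (nat_lit 78) (nat_lit 228) (nat_lit 0) (XT.lf (nat_lit 0) (nat_lit 5907048089) (nat_lit 152) (nat_lit 8491180382) (nat_lit 0) (nat_lit 1131673677) (nat_lit 44) (nat_lit 5) (nat_lit 46) (nat_lit 4) (nat_lit 44) (nat_lit 4) (nat_lit 433) (nat_lit 388) (nat_lit 379)) (XT.nd (nat_lit 78) (nat_lit 152) (nat_lit 0) (XT.lf (nat_lit 0) (nat_lit 10575984237)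 (nat_lit 76) (nat_lit 5403547983) (nat_lit 76) (nat_lit 274089689) (nat_lit 43) (nat_lit 4) (nat_lit 44) (nat_lit 5) (nat_lit 44) (nat_lit 4) (nat_lit 434) (nat_lit 388) (nat_lit 378)) (XT.lf (nat_lit 0) (nat_lit 9558993283) (nat_lit 152) (nat_lit 3104502115) (nat_lit 0) (nat_lit 4361551624) (nat_lit 41) (nat_lit 5) (nat_lit 43) (nat_lit 4) (nat_lit 41) (nat_lit 4) (nat_lit 435) (nat_lit 388) (nat_lit 377)))) (XT.nd (nat_lit 156) (nat_lit 228) (nat_lit 0) (XT.nd (nat_lit 78) (nat_lit 152) (nat_lit 0) (XT.lf (nat_lit 0) (nat_lit 2322343290) (nat_lit 152) (nat_lit 725752064) (nat_lit 76) (nat_lit 14803818004) (nat_lit 39) (nat_lit 5) (nat_lit 41) (nat_lit 5) (nat_lit 40) (nat_lit 4) (nat_lit 436) (nat_lit 388) (nat_lit 376)) (XT.lf (nat_lit 0) (nat_lit 1346343790) (nat_lit 76) (nat_lit 11432690265) (nat_lit 76) (nat_lit 5952448266) (nat_lit 37) (nat_lit 4) (nat_lit 38) (nat_lit 5) (nat_lit 38)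 (nat_lit 4) (nat_lit 437) (nat_lit 388) (nat_lit 375))) (XT.nd (nat_lit 78) (nat_lit 76) (nat_lit 0) (XT.lf (nat_lit 0) (nat_lit 3145500085) (nat_lit 76) (nat_lit 1177332887) (nat_lit 152) (nat_lit 15351541283) (nat_lit 35) (nat_lit 5) (nat_lit 36) (nat_lit 5) (nat_lit 37) (nat_lit 4) (nat_lit 438) (nat_lit 388) (nat_lit 374)) (XT.lf (nat_lit 0) (nat_lit 4442985890) (nat_lit 76) (nat_lit 10944168983) (nat_lit 76) (nat_lit 5291895951) (nat_lit 34) (nat_lit 4) (nat_lit 35) (nat_lit 5) (nat_lit 35) (nat_lit 4) (nat_lit 439) (nat_lit 388) (nat_lit 373))))) (XT.nd (nat_lit 234) (nat_lit 304) (nat_lit 0) (XT.nd (nat_lit 78) (nat_lit 228) (nat_lit 0) (XT.lf (nat_lit 0) (nat_lit 5309233501) (nat_lit 76) (nat_lit 131867537) (nat_lit 152) (nat_lit 16316312820) (nat_lit 32) (nat_lit 5) (nat_lit 33) (nat_lit 5) (nat_lit 34) (nat_lit 4) (nat_lit 440) (nat_lit 388) (nat_lit 372)) (XT.nd (nat_lit 78) (nat_lit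 152) (nat_lit 0) (XT.lf (nat_lit 0) (nat_lit 5487280849) (nat_lit 76) (nat_lit 11578098538) (nat_lit 76) (nat_lit 5841435297) (nat_lit 31) (nat_lit 4) (nat_lit 32) (nat_lit 5) (nat_lit 32) (nat_lit 4) (nat_lit 441) (nat_lit 388) (nat_lit 371)) (XT.lf (nat_lit 0) (nat_lit 5054276307) (nat_lit 76) (nat_lit 286369032) (nat_lit 152) (nat_lit 18801041923) (nat_lit 29) (nat_lit 5) (nat_lit 30) (nat_lit 5) (nat_lit 31) (nat_lit 4) (nat_lit 442) (nat_lit 388) (nat_lit 370)))) (XT.nd (nat_lit 156) (nat_lit 76) (nat_lit 0) (XT.nd (nat_lit 78) (nat_lit 152) (nat_lit 0) (XT.lf (nat_lit 0) (nat_lit 3687404055) (nat_lit 76) (nat_lit 13761751212) (nat_lit 76) (nat_lit 8009587394) (nat_lit 28) (nat_lit 4) (nat_lit 29) (nat_lit 5) (nat_lit 29) (nat_lit 4) (nat_lit 443) (nat_lit 388) (nat_lit 369)) (XT.lf (nat_lit 0) (nat_lit 1469144493) (nat_lit 76) (nat_lit 2116130592) (nat_lit 152) (nat_lit 23290209983) (nat_lit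 26) (nat_lit 5) (nat_lit 27) (nat_lit 5) (nat_lit 28) (nat_lit 4) (nat_lit 444) (nat_lit 388) (nat_lit 368))) (XT.nd (nat_lit 78) (nat_lit 76) (nat_lit 0) (XT.lf (nat_lit 0) (nat_lit 16079917254) (nat_lit 152) (nat_lit 1940490658) (nat_lit 0) (nat_lit 10365959048) (nat_lit 26) (nat_lit 5) (nat_lit 28) (nat_lit 4) (nat_lit 26) (nat_lit 4) (nat_lit 445) (nat_lit 388) (nat_lit 367)) (XT.lf (nat_lit 0) (nat_lit 23569847587) (nat_lit 76) (nat_lit 6130427316) (nat_lit 76) (nat_lit 311542583) (nat_lit 25) (nat_lit 4) (nat_lit 26) (nat_lit 5) (nat_lit 26) (nat_lit 4) (nat_lit 446) (nat_lit 388) (nat_lit 366)))))) (XT.nd (nat_lit 546) (nat_lit 456) (nat_lit 0) (XT.nd (nat_lit 234) (nat_lit 228) (nat_lit 0) (XT.nd (nat_lit 78) (nat_lit 228) (nat_lit 0) (XT.lf (nat_lit 0) (nat_lit 12413904816) (nat_lit 152) (nat_lit 12555172201) (nat_lit 0) (nat_lit 6779582031) (nat_lit 23) (nat_lit 5) (nat_lit 25) (nat_lit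 4) (nat_lit 23) (nat_lit 4) (nat_lit 447) (nat_lit 388) (nat_lit 365)) (XT.nd (nat_lit 78) (nat_lit 152) (nat_lit 0) (XT.lf (nat_lit 0) (nat_lit 13283667380) (nat_lit 76) (nat_lit 13026178766) (nat_lit 76) (nat_lit 7306182090) (nat_lit 22) (nat_lit 4) (nat_lit 23) (nat_lit 5) (nat_lit 23) (nat_lit 4) (nat_lit 448) (nat_lit 388) (nat_lit 364)) (XT.lf (nat_lit 0) (nat_lit 5558835699) (nat_lit 152) (nat_lit 30031042478) (nat_lit 0) (nat_lit 35669649) (nat_lit 20) (nat_lit 5) (nat_lit 22) (nat_lit 4) (nat_lit 20) (nat_lit 4) (nat_lit 449) (nat_lit 388) (nat_lit 363)))) (XT.nd (nat_lit 156) (nat_lit 152) (nat_lit 0) (XT.nd (nat_lit 78) (nat_lit 76) (nat_lit 0) (XT.lf (nat_lit 0) (nat_lit 19533467899) (nat_lit 152) (nat_lit 4299208647) (nat_lit 0) (nat_lit 13940347989) (nat_lit 20) (nat_lit 5) (nat_lit 22) (nat_lit 4) (nat_lit 20) (nat_lit 4) (nat_lit 450) (nat_lit 388) (nat_lit 362)) (XT.lf (nat_lit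 0) (nat_lit 23795341352) (nat_lit 76) (nat_lit 10973848663) (nat_lit 76) (nat_lit 5315956661) (nat_lit 19) (nat_lit 4) (nat_lit 20) (nat_lit 5) (nat_lit 20) (nat_lit 4) (nat_lit 451) (nat_lit 388) (nat_lit 361))) (XT.nd (nat_lit 78) (nat_lit 0) (nat_lit 0) (XT.lf (nat_lit 0) (nat_lit 8447129182) (nat_lit 152) (nat_lit 31122714953) (nat_lit 0) (nat_lit 3001542362) (nat_lit 17) (nat_lit 5) (nat_lit 19) (nat_lit 4) (nat_lit 17) (nat_lit 4) (nat_lit 452) (nat_lit 388) (nat_lit 360)) (XT.lf (nat_lit 0) (nat_lit 23385526923) (nat_lit 152) (nat_lit 3966565551) (nat_lit 0) (nat_lit 17887052838) (nat_lit 17) (nat_lit 5) (nat_lit 19) (nat_lit 4) (nat_lit 17) (nat_lit 4) (nat_lit 453) (nat_lit 388) (nat_lit 359))))) (XT.nd (nat_lit 234) (nat_lit 228) (nat_lit 0) (XT.nd (nat_lit 78) (nat_lit 152) (nat_lit 0) (XT.lf (nat_lit 0) (nat_lit 25786640297) (nat_lit 76) (nat_lit 13935487117) (nat_lit 76) (nat_lit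 8388043341) (nat_lit 16) (nat_lit 4) (nat_lit 17) (nat_lit 5) (nat_lit 17) (nat_lit 4) (nat_lit 454) (nat_lit 388) (nat_lit 358)) (XT.nd (nat_lit 78) (nat_lit 0) (nat_lit 0) (XT.lf (nat_lit 0) (nat_lit 5946911805) (nat_lit 152) (nat_lit 44639258795) (nat_lit 0) (nat_lit 620448870) (nat_lit 14) (nat_lit 5) (nat_lit 16) (nat_lit 4) (nat_lit 14) (nat_lit 4) (nat_lit 455) (nat_lit 388) (nat_lit 357)) (XT.lf (nat_lit 0) (nat_lit 21580728727) (nat_lit 152) (nat_lit 16726603452) (nat_lit 0) (nat_lit 16214281396) (nat_lit 14) (nat_lit 5) (nat_lit 16) (nat_lit 4) (nat_lit 14) (nat_lit 4) (nat_lit 456) (nat_lit 388) (nat_lit 356)))) (XT.nd (nat_lit 156) (nat_lit 152) (nat_lit 0) (XT.nd (nat_lit 78) (nat_lit 0) (nat_lit 0) (XT.lf (nat_lit 0) (nat_lit 13500075739) (nat_lit 76) (nat_lit 25001688789) (nat_lit 76) (nat_lit 19598218868) (nat_lit 13) (nat_lit 4) (nat_lit 14) (nat_lit 5) (nat_lit 14) (nat_lit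 4) (nat_lit 457) (nat_lit 388) (nat_lit 355)) (XT.lf (nat_lit 0) (nat_lit 46406372873) (nat_lit 76) (nat_lit 10494881595) (nat_lit 76) (nat_lit 5057131498) (nat_lit 13) (nat_lit 4) (nat_lit 14) (nat_lit 5) (nat_lit 14) (nat_lit 4) (nat_lit 458) (nat_lit 388) (nat_lit 354))) (XT.nd (nat_lit 78) (nat_lit 0) (nat_lit 0) (XT.lf (nat_lit 0) (nat_lit 10482105405) (nat_lit 152) (nat_lit 50353196797) (nat_lit 0) (nat_lit 5273066357) (nat_lit 11) (nat_lit 5) (nat_lit 13) (nat_lit 4) (nat_lit 11) (nat_lit 4) (nat_lit 459) (nat_lit 388) (nat_lit 353)) (XT.lf (nat_lit 0) (nat_lit 27389709064) (nat_lit 152) (nat_lit 21028696861) (nat_lit 0) (nat_lit 22152679801) (nat_lit 11) (nat_lit 5) (nat_lit 13) (nat_lit 4) (nat_lit 11) (nat_lit 4) (nat_lit 460) (nat_lit 388) (nat_lit 352))))))) (XT.nd (nat_lit 1092) (nat_lit 152) (nat_lit 0) (XT.nd (nat_lit 546) (nat_lit 228) (nat_lit 0) (XT.nd (nat_lit 234) (nat_lit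 152) (nat_lit 0) (XT.nd (nat_lit 78) (nat_lit 76) (nat_lit 0) (XT.lf (nat_lit 0) (nat_lit 10699486849) (nat_lit 76) (nat_lit 34976489054) (nat_lit 76) (nat_lit 29713542926) (nat_lit 10) (nat_lit 4) (nat_lit 11) (nat_lit 5) (nat_lit 11) (nat_lit 4) (nat_lit 461) (nat_lit 388) (nat_lit 351)) (XT.nd (nat_lit 78) (nat_lit 76) (nat_lit 0) (XT.lf (nat_lit 0) (nat_lit 45444500490) (nat_lit 76) (nat_lit 20212147660) (nat_lit 76) (nat_lit 14925204434) (nat_lit 10) (nat_lit 4) (nat_lit 11) (nat_lit 5) (nat_lit 11) (nat_lit 4) (nat_lit 462) (nat_lit 388) (nat_lit 350)) (XT.lf (nat_lit 0) (nat_lit 885851985) (nat_lit 152) (nat_lit 3493166188) (nat_lit 76) (nat_lit 81816082436) (nat_lit 9) (nat_lit 5) (nat_lit 11) (nat_lit 5) (nat_lit 10) (nat_lit 4) (nat_lit 463) (nat_lit 388) (nat_lit 349)))) (XT.nd (nat_lit 156) (nat_lit 76) (nat_lit 0) (XT.nd (nat_lit 78) (nat_lit 0) (nat_lit 0) (XT.lf (nat_lit 0) (nat_lit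 18024246023) (nat_lit 152) (nat_lit 61243355097) (nat_lit 0) (nat_lit 12948306591) (nat_lit 8) (nat_lit 5) (nat_lit 10) (nat_lit 4) (nat_lit 8) (nat_lit 4) (nat_lit 464) (nat_lit 388) (nat_lit 348)) (XT.lf (nat_lit 0) (nat_lit 36555293640) (nat_lit 152) (nat_lit 30700795887) (nat_lit 0) (nat_lit 31461211666) (nat_lit 8) (nat_lit 5) (nat_lit 10) (nat_lit 4) (nat_lit 8) (nat_lit 4) (nat_lit 465) (nat_lit 388) (nat_lit 347))) (XT.nd (nat_lit 78) (nat_lit 0) (nat_lit 0) (XT.lf (nat_lit 0) (nat_lit 2139868382) (nat_lit 76) (nat_lit 54356715646) (nat_lit 76) (nat_lit 49245835022) (nat_lit 7) (nat_lit 4) (nat_lit 8) (nat_lit 5) (nat_lit 8) (nat_lit 4) (nat_lit 466) (nat_lit 388) (nat_lit 346)) (XT.lf (nat_lit 0) (nat_lit 38499603483) (nat_lit 76) (nat_lit 39967345013) (nat_lit 76) (nat_lit 34840910082) (nat_lit 7) (nat_lit 4) (nat_lit 8) (nat_lit 5) (nat_lit 8) (nat_lit 4) (nat_lit 467) (nat_lit 388)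 (nat_lit 345))))) (XT.nd (nat_lit 234) (nat_lit 76) (nat_lit 0) (XT.nd (nat_lit 78) (nat_lit 152) (nat_lit 0) (XT.lf (nat_lit 0) (nat_lit 77578767552) (nat_lit 76) (nat_lit 24522640114) (nat_lit 76) (nat_lit 19381803049) (nat_lit 7) (nat_lit 4) (nat_lit 8) (nat_lit 5) (nat_lit 8) (nat_lit 4) (nat_lit 468) (nat_lit 388) (nat_lit 344)) (XT.nd (nat_lit 78) (nat_lit 152) (nat_lit 0) (XT.lf (nat_lit 0) (nat_lit 119608940820) (nat_lit 76) (nat_lit 7931076775) (nat_lit 76) (nat_lit 2776904399) (nat_lit 7) (nat_lit 4) (nat_lit 8) (nat_lit 5) (nat_lit 8) (nat_lit 4) (nat_lit 469) (nat_lit 388) (nat_lit 343)) (XT.lf (nat_lit 0) (nat_lit 15153909368) (nat_lit 152) (nat_lit 114434044366) (nat_lit 0) (nat_lit 10233414239) (nat_lit 5) (nat_lit 5) (nat_lit 7) (nat_lit 4) (nat_lit 5) (nat_lit 4) (nat_lit 470) (nat_lit 388) (nat_lit 342)))) (XT.nd (nat_lit 156) (nat_lit 76) (nat_lit 0) (XT.nd (nat_lit 78) (nat_lit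 0) (nat_lit 0) (XT.lf (nat_lit 0) (nat_lit 34667335084) (nat_lit 152) (nat_lit 85668335642) (nat_lit 0) (nat_lit 29735951499) (nat_lit 5) (nat_lit 5) (nat_lit 7) (nat_lit 4) (nat_lit 5) (nat_lit 4) (nat_lit 471) (nat_lit 388) (nat_lit 341)) (XT.lf (nat_lit 0) (nat_lit 55668519136) (nat_lit 152) (nat_lit 54749990329) (nat_lit 0) (nat_lit 50727053646) (nat_lit 5) (nat_lit 5) (nat_lit 7) (nat_lit 4) (nat_lit 5) (nat_lit 4) (nat_lit 472) (nat_lit 388) (nat_lit 340))) (XT.nd (nat_lit 78) (nat_lit 76) (nat_lit 0) (XT.lf (nat_lit 0) (nat_lit 78281912985) (nat_lit 152) (nat_lit 21495788601) (nat_lit 0) (nat_lit 73331112399) (nat_lit 5) (nat_lit 5) (nat_lit 7) (nat_lit 4) (nat_lit 5) (nat_lit 4) (nat_lit 473) (nat_lit 388) (nat_lit 339)) (XT.lf (nat_lit 0) (nat_lit 14763867436) (nat_lit 76) (nat_lit 88108159838) (nat_lit 76) (nat_lit 83148715644) (nat_lit 4) (nat_lit 4) (nat_lit 5) (nat_lit 5) (nat_lit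 5) (nat_lit 4) (nat_lit 474) (nat_lit 388) (nat_lit 338)))))) (XT.nd (nat_lit 546) (nat_lit 0) (nat_lit 0) (XT.nd (nat_lit 234) (nat_lit 152) (nat_lit 0) (XT.nd (nat_lit 78) (nat_lit 0) (nat_lit 0) (XT.lf (nat_lit 0) (nat_lit 54570023268) (nat_lit 76) (nat_lit 75173666930) (nat_lit 76) (nat_lit 70206219395) (nat_lit 4) (nat_lit 4) (nat_lit 5) (nat_lit 5) (nat_lit 5) (nat_lit 4) (nat_lit 475) (nat_lit 388) (nat_lit 337)) (XT.nd (nat_lit 78) (nat_lit 0) (nat_lit 0) (XT.lf (nat_lit 0) (nat_lit 97447819375) (nat_lit 76) (nat_lit 61261615598) (nat_lit 76) (nat_lit 56286757563) (nat_lit 4) (nat_lit 4) (nat_lit 5) (nat_lit 5) (nat_lit 5) (nat_lit 4) (nat_lit 476) (nat_lit 388) (nat_lit 336)) (XT.lf (nat_lit 0) (nat_lit 143651346401) (nat_lit 76) (nat_lit 46289564055) (nat_lit 76) (nat_lit 41307844445) (nat_lit 4) (nat_lit 4) (nat_lit 5) (nat_lit 5) (nat_lit 5) (nat_lit 4) (nat_lit 477) (nat_lit 388)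 (nat_lit 335)))) (XT.nd (nat_lit 156) (nat_lit 152) (nat_lit 0) (XT.nd (nat_lit 78) (nat_lit 0) (nat_lit 0) (XT.lf (nat_lit 0) (nat_lit 193454403025) (nat_lit 76) (nat_lit 30168789034) (nat_lit 76) (nat_lit 25180716114) (nat_lit 4) (nat_lit 4) (nat_lit 5) (nat_lit 5) (nat_lit 5) (nat_lit 4) (nat_lit 478) (nat_lit 388) (nat_lit 334)) (XT.lf (nat_lit 0) (nat_lit 247152118472) (nat_lit 76) (nat_lit 12803760015) (nat_lit 76) (nat_lit 7809804402) (nat_lit 4) (nat_lit 4) (nat_lit 5) (nat_lit 5) (nat_lit 5) (nat_lit 4) (nat_lit 479) (nat_lit 388) (nat_lit 333))) (XT.nd (nat_lit 78) (nat_lit 0) (nat_lit 0) (XT.lf (nat_lit 0) (nat_lit 10926634200) (nat_lit 152) (nat_lit 271127601223) (nat_lit 0) (nat_lit 6165298436) (nat_lit 2) (nat_lit 5) (nat_lit 4) (nat_lit 4) (nat_lit 2) (nat_lit 4) (nat_lit 480) (nat_lit 388) (nat_lit 332)) (XT.lf (nat_lit 0) (nat_lit 31432490255) (nat_lit 152) (nat_lit 252177244227)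 (nat_lit 0) (nat_lit 26666351193) (nat_lit 2) (nat_lit 5) (nat_lit 4) (nat_lit 4) (nat_lit 2) (nat_lit 4) (nat_lit 481) (nat_lit 388) (nat_lit 331))))) (XT.nd (nat_lit 312) (nat_lit 0) (nat_lit 0) (XT.nd (nat_lit 156) (nat_lit 0) (nat_lit 0) (XT.nd (nat_lit 78) (nat_lit 0) (nat_lit 0) (XT.lf (nat_lit 0) (nat_lit 53541412599) (nat_lit 152) (nat_lit 231786793334) (nat_lit 0) (nat_lit 48770826040) (nat_lit 2) (nat_lit 5) (nat_lit 4) (nat_lit 4) (nat_lit 2) (nat_lit 4) (nat_lit 482) (nat_lit 388) (nat_lit 330)) (XT.lf (nat_lit 0) (nat_lit 77384417067) (nat_lit 152) (nat_lit 209835416242) (nat_lit 0) (nat_lit 72609712454) (nat_lit 2) (nat_lit 5) (nat_lit 4) (nat_lit 4) (nat_lit 2) (nat_lit 4) (nat_lit 483) (nat_lit 388) (nat_lit 329))) (XT.nd (nat_lit 78) (nat_lit 0) (nat_lit 0) (XT.lf (nat_lit 0) (nat_lit 103102795538) (nat_lit 152) (nat_lit 186193030716) (nat_lit 0) (nat_lit 98324277913) (nat_lit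 2) (nat_lit 5) (nat_lit 4) (nat_lit 4) (nat_lit 2) (nat_lit 4) (nat_lit 484) (nat_lit 388) (nat_lit 328)) (XT.lf (nat_lit 0) (nat_lit 130848953217) (nat_lit 152) (nat_lit 160719533731) (nat_lit 0) (nat_lit 126066905025) (nat_lit 2) (nat_lit 5) (nat_lit 4) (nat_lit 4) (nat_lit 2) (nat_lit 4) (nat_lit 485) (nat_lit 388) (nat_lit 327)))) (XT.nd (nat_lit 156) (nat_lit 0) (nat_lit 0) (XT.nd (nat_lit 78) (nat_lit 0) (nat_lit 0) (XT.lf (nat_lit 0) (nat_lit 160787311780) (nat_lit 152) (nat_lit 133263971231) (nat_lit 0) (nat_lit 156001994545) (nat_lit 2) (nat_lit 5) (nat_lit 4) (nat_lit 4) (nat_lit 2) (nat_lit 4) (nat_lit 486) (nat_lit 388) (nat_lit 326)) (XT.lf (nat_lit 0) (nat_lit 193095283722) (nat_lit 152) (nat_lit 103663643587) (nat_lit 0) (nat_lit 188306939595) (nat_lit 2) (nat_lit 5) (nat_lit 4) (nat_lit 4) (nat_lit 2) (nat_lit 4) (nat_lit 487) (nat_lit 388) (nat_lit 325))) (XT.nd (nat_lit 78)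 (nat_lit 0) (nat_lit 0) (XT.lf (nat_lit 0) (nat_lit 227964323691) (nat_lit 152) (nat_lit 71743141449) (nat_lit 0) (nat_lit 223173176886) (nat_lit 2) (nat_lit 5) (nat_lit 4) (nat_lit 4) (nat_lit 2) (nat_lit 4) (nat_lit 488) (nat_lit 388) (nat_lit 324)) (XT.lf (nat_lit 0) (nat_lit 265601063036) (nat_lit 152) (nat_lit 37313306286) (nat_lit 0) (nat_lit 260807321159) (nat_lit 2) (nat_lit 5) (nat_lit 4) (nat_lit 4) (nat_lit 2) (nat_lit 4) (nat_lit 489) (nat_lit 388) (nat_lit 323))))))))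
noncomputable def xc28 : XT := (XT.nd (nat_lit 58422) (nat_lit 0) (nat_lit 532) (XT.nd (nat_lit 57330) (nat_lit 0) (nat_lit 2812) (XT.nd (nat_lit 546) (nat_lit 0) (nat_lit 0) (XT.nd (nat_lit 234) (nat_lit 0) (nat_lit 0) (XT.nd (nat_lit 78) (nat_lit 76) (nat_lit 0) (XT.lf (nat_lit 0) (nat_lit 306228534286) (nat_lit 152) (nat_lit 170109445) (nat_lit 0) (nat_lit 301432389564) (nat_lit 2) (nat_lit 5) (nat_lit 4) (nat_lit 4) (nat_lit 2) (nat_lit 4) (nat_lit 490) (nat_lit 388) (nat_lit 322)) (XT.nd (nat_lit 78) (nat_lit 0) (nat_lit 0) (XT.lf (nat_lit 0) (nat_lit 41226047900) (nat_lit 76) (nat_lit 309505099068) (nat_lit 76) (nat_lit 304706729491) (nat_lit 1) (nat_lit 4) (nat_lit 2) (nat_lit 5) (nat_lit 2) (nat_lit 4) (nat_lit 491) (nat_lit 388) (nat_lit 321)) (XT.lf (nat_lit 0) (nat_lit 85903636987) (nat_lit 76) (nat_lit 312875403125) (nat_lit 76) (nat_lit 308074973496) (nat_lit 1) (nat_lit 4) (nat_lit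 2) (nat_lit 5) (nat_lit 2) (nat_lit 4) (nat_lit 492) (nat_lit 388) (nat_lit 320)))) (XT.nd (nat_lit 156) (nat_lit 0) (nat_lit 0) (XT.nd (nat_lit 78) (nat_lit 0) (nat_lit 0) (XT.lf (nat_lit 0) (nat_lit 134121789311) (nat_lit 76) (nat_lit 316532408961) (nat_lit 76) (nat_lit 311730071876) (nat_lit 1) (nat_lit 4) (nat_lit 2) (nat_lit 5) (nat_lit 2) (nat_lit 4) (nat_lit 493) (nat_lit 388) (nat_lit 319)) (XT.lf (nat_lit 0) (nat_lit 186166242071) (nat_lit 76) (nat_lit 320497787720) (nat_lit 76) (nat_lit 315693684472) (nat_lit 1) (nat_lit 4) (nat_lit 2) (nat_lit 5) (nat_lit 2) (nat_lit 4) (nat_lit 494) (nat_lit 388) (nat_lit 318))) (XT.nd (nat_lit 78) (nat_lit 0) (nat_lit 0) (XT.lf (nat_lit 0) (nat_lit 242345406839) (nat_lit 76) (nat_lit 324795037943) (nat_lit 76) (nat_lit 319989299360) (nat_lit 1) (nat_lit 4) (nat_lit 2) (nat_lit 5) (nat_lit 2) (nat_lit 4) (nat_lit 495) (nat_lit 388) (nat_lit 317))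 (XT.lf (nat_lit 0) (nat_lit 302992197184) (nat_lit 76) (nat_lit 329449624818) (nat_lit 76) (nat_lit 324642372036) (nat_lit 1) (nat_lit 4) (nat_lit 2) (nat_lit 5) (nat_lit 2) (nat_lit 4) (nat_lit 496) (nat_lit 388) (nat_lit 316))))) (XT.nd (nat_lit 234) (nat_lit 0) (nat_lit 0) (XT.nd (nat_lit 78) (nat_lit 0) (nat_lit 0) (XT.lf (nat_lit 0) (nat_lit 368466001493) (nat_lit 76) (nat_lit 334489131081) (nat_lit 76) (nat_lit 329680476262) (nat_lit 1) (nat_lit 4) (nat_lit 2) (nat_lit 5) (nat_lit 2) (nat_lit 4) (nat_lit 497) (nat_lit 388) (nat_lit 315)) (XT.nd (nat_lit 78) (nat_lit 0) (nat_lit 0) (XT.lf (nat_lit 0) (nat_lit 439154812681) (nat_lit 76) (nat_lit 339943420472) (nat_lit 76) (nat_lit 335133467471) (nat_lit 1) (nat_lit 4) (nat_lit 2) (nat_lit 5) (nat_lit 2) (nat_lit 4) (nat_lit 498) (nat_lit 388) (nat_lit 314)) (XT.lf (nat_lit 0) (nat_lit 515477527407) (nat_lit 76) (nat_lit 345844814708) (nat_lit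 76) (nat_lit 341033659686) (nat_lit 1) (nat_lit 4) (nat_lit 2) (nat_lit 5) (nat_lit 2) (nat_lit 4) (nat_lit 499) (nat_lit 388) (nat_lit 313)))) (XT.nd (nat_lit 56394) (nat_lit 0) (nat_lit 5320) (XT.nd (nat_lit 78) (nat_lit 0) (nat_lit 0) (XT.lf (nat_lit 0) (nat_lit 597886428425) (nat_lit 76) (nat_lit 352228285012) (nat_lit 76) (nat_lit 347416017009) (nat_lit 1) (nat_lit 4) (nat_lit 2) (nat_lit 5) (nat_lit 2) (nat_lit 4) (nat_lit 500) (nat_lit 388) (nat_lit 312)) (XT.lf (nat_lit 0) (nat_lit 686869864777) (nat_lit 76) (nat_lit 359131659358) (nat_lit 76) (nat_lit 354318360816) (nat_lit 1) (nat_lit 4) (nat_lit 2) (nat_lit 5) (nat_lit 2) (nat_lit 4) (nat_lit 501) (nat_lit 388) (nat_lit 311))) (XT.nd (nat_lit 78) (nat_lit 380) (nat_lit 0) (XT.lf (nat_lit 0) (nat_lit 3843046888) (nat_lit 228) (nat_lit 591087309) (nat_lit 228) (nat_lit 591087309) (nat_lit 76) (nat_lit 4) (nat_lit 79) (nat_lit 5) (nat_lit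 79) (nat_lit 4) (nat_lit 422) (nat_lit 389) (nat_lit 389)) (XT.lf (nat_lit 0) (nat_lit 1651943055) (nat_lit 152) (nat_lit 4914961723) (nat_lit 152) (nat_lit 3839317106) (nat_lit 71) (nat_lit 4) (nat_lit 73) (nat_lit 5) (nat_lit 73) (nat_lit 4) (nat_lit 423) (nat_lit 389) (nat_lit 388)))))) (XT.nd (nat_lit 546) (nat_lit 988) (nat_lit 0) (XT.nd (nat_lit 234) (nat_lit 760) (nat_lit 0) (XT.nd (nat_lit 78) (nat_lit 532) (nat_lit 0) (XT.lf (nat_lit 0) (nat_lit 3923088958) (nat_lit 228) (nat_lit 4915649291) (nat_lit 0) (nat_lit 1950125287) (nat_lit 68) (nat_lit 5) (nat_lit 71) (nat_lit 4) (nat_lit 68) (nat_lit 4) (nat_lit 424) (nat_lit 389) (nat_lit 387)) (XT.nd (nat_lit 78) (nat_lit 304) (nat_lit 0) (XT.lf (nat_lit 0) (nat_lit 899717574) (nat_lit 228) (nat_lit 1006820630) (nat_lit 76) (nat_lit 9293821256) (nat_lit 65) (nat_lit 5) (nat_lit 68) (nat_lit 5) (nat_lit 66) (nat_lit 4) (nat_lit 425) (nat_lit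 389) (nat_lit 386)) (XT.lf (nat_lit 0) (nat_lit 3023345535) (nat_lit 152) (nat_lit 6052162289) (nat_lit 152) (nat_lit 2562198463) (nat_lit 61) (nat_lit 4) (nat_lit 63) (nat_lit 5) (nat_lit 63) (nat_lit 4) (nat_lit 426) (nat_lit 389) (nat_lit 385)))) (XT.nd (nat_lit 156) (nat_lit 380) (nat_lit 0) (XT.nd (nat_lit 78) (nat_lit 228) (nat_lit 0) (XT.lf (nat_lit 0) (nat_lit 5585761916) (nat_lit 152) (nat_lit 4941982751) (nat_lit 0) (nat_lit 1579010142) (nat_lit 59) (nat_lit 5) (nat_lit 61) (nat_lit 4) (nat_lit 59) (nat_lit 4) (nat_lit 427) (nat_lit 389) (nat_lit 384)) (XT.lf (nat_lit 0) (nat_lit 1651062485) (nat_lit 228) (nat_lit 1254459513) (nat_lit 76) (nat_lit 9703399652) (nat_lit 56) (nat_lit 5) (nat_lit 59) (nat_lit 5) (nat_lit 57) (nat_lit 4) (nat_lit 428) (nat_lit 389) (nat_lit 383))) (XT.nd (nat_lit 78) (nat_lit 152) (nat_lit 0) (XT.lf (nat_lit 0) (nat_lit 2495782662) (nat_lit 152) (nat_lit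 7811551094) (nat_lit 152) (nat_lit 2835665334) (nat_lit 53) (nat_lit 4) (nat_lit 55) (nat_lit 5) (nat_lit 55) (nat_lit 4) (nat_lit 429) (nat_lit 389) (nat_lit 382)) (XT.lf (nat_lit 0) (nat_lit 5767035754) (nat_lit 152) (nat_lit 7410787360) (nat_lit 0) (nat_lit 536333737) (nat_lit 51) (nat_lit 5) (nat_lit 53) (nat_lit 4) (nat_lit 51) (nat_lit 4) (nat_lit 430) (nat_lit 389) (nat_lit 381))))) (XT.nd (nat_lit 234) (nat_lit 456) (nat_lit 0) (XT.nd (nat_lit 78) (nat_lit 304) (nat_lit 0) (XT.lf (nat_lit 0) (nat_lit 699718811) (nat_lit 228) (nat_lit 4251614748) (nat_lit 76) (nat_lit 9372381554) (nat_lit 48) (nat_lit 5) (nat_lit 51) (nat_lit 5) (nat_lit 49) (nat_lit 4) (nat_lit 431) (nat_lit 389) (nat_lit 380)) (XT.nd (nat_lit 78) (nat_lit 228) (nat_lit 0) (XT.lf (nat_lit 0) (nat_lit 9796652757) (nat_lit 152) (nat_lit 1197205657) (nat_lit 0) (nat_lit 3979847051) (nat_lit 47) (nat_lit 5) (nat_lit 49)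 (nat_lit 4) (nat_lit 47) (nat_lit 4) (nat_lit 432) (nat_lit 389) (nat_lit 379)) (XT.lf (nat_lit 0) (nat_lit 1838064600) (nat_lit 76) (nat_lit 2077378513) (nat_lit 152) (nat_lit 11752385536) (nat_lit 44) (nat_lit 5) (nat_lit 45) (nat_lit 5) (nat_lit 46) (nat_lit 4) (nat_lit 433) (nat_lit 389) (nat_lit 378)))) (XT.nd (nat_lit 156) (nat_lit 228) (nat_lit 0) (XT.nd (nat_lit 78) (nat_lit 152) (nat_lit 0) (XT.lf (nat_lit 0) (nat_lit 4744026287) (nat_lit 76) (nat_lit 8942185073) (nat_lit 76) (nat_lit 2720430784) (nat_lit 43) (nat_lit 4) (nat_lit 44) (nat_lit 5) (nat_lit 44) (nat_lit 4) (nat_lit 434) (nat_lit 389) (nat_lit 377)) (XT.lf (nat_lit 0) (nat_lit 6856833583) (nat_lit 152) (nat_lit 9697617070) (nat_lit 0) (nat_lit 642239157) (nat_lit 41) (nat_lit 5) (nat_lit 43) (nat_lit 4) (nat_lit 41) (nat_lit 4) (nat_lit 435) (nat_lit 389) (nat_lit 376))) (XT.nd (nat_lit 78) (nat_lit 152) (nat_lit 0) (XT.lf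 (nat_lit 0) (nat_lit 10022052523) (nat_lit 76) (nat_lit 7249810195) (nat_lit 76) (nat_lit 767517481) (nat_lit 40) (nat_lit 4) (nat_lit 41) (nat_lit 5) (nat_lit 41) (nat_lit 4) (nat_lit 436) (nat_lit 389) (nat_lit 375)) (XT.lf (nat_lit 0) (nat_lit 9337701737) (nat_lit 152) (nat_lit 6672630026) (nat_lit 0) (nat_lit 2928024118) (nat_lit 38) (nat_lit 5) (nat_lit 40) (nat_lit 4) (nat_lit 38) (nat_lit 4) (nat_lit 437) (nat_lit 389) (nat_lit 374))))))) (XT.nd (nat_lit 1092) (nat_lit 836) (nat_lit 0) (XT.nd (nat_lit 546) (nat_lit 684) (nat_lit 0) (XT.nd (nat_lit 234) (nat_lit 380) (nat_lit 0) (XT.nd (nat_lit 78) (nat_lit 228) (nat_lit 0) (XT.lf (nat_lit 0) (nat_lit 468013286) (nat_lit 152) (nat_lit 5668829558) (nat_lit 76) (nat_lit 13763426906) (nat_lit 36) (nat_lit 5) (nat_lit 38) (nat_lit 5) (nat_lit 37) (nat_lit 4) (nat_lit 438) (nat_lit 389) (nat_lit 373)) (XT.nd (nat_lit 78) (nat_lit 152) (nat_lit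 0) (XT.lf (nat_lit 0) (nat_lit 11132820777) (nat_lit 152) (nat_lit 5164661270) (nat_lit 0) (nat_lit 4627444662) (nat_lit 35) (nat_lit 5) (nat_lit 37) (nat_lit 4) (nat_lit 35) (nat_lit 4) (nat_lit 439) (nat_lit 389) (nat_lit 372)) (XT.lf (nat_lit 0) (nat_lit 762252058) (nat_lit 152) (nat_lit 5121232169) (nat_lit 76) (nat_lit 16139456367) (nat_lit 33) (nat_lit 5) (nat_lit 35) (nat_lit 5) (nat_lit 34) (nat_lit 4) (nat_lit 440) (nat_lit 389) (nat_lit 371)))) (XT.nd (nat_lit 156) (nat_lit 228) (nat_lit 0) (XT.nd (nat_lit 78) (nat_lit 76) (nat_lit 0) (XT.lf (nat_lit 0) (nat_lit 11976721748) (nat_lit 152) (nat_lit 5762345938) (nat_lit 0) (nat_lit 5453767979) (nat_lit 32) (nat_lit 5) (nat_lit 34) (nat_lit 4) (nat_lit 32) (nat_lit 4) (nat_lit 441) (nat_lit 389) (nat_lit 370)) (XT.lf (nat_lit 0) (nat_lit 17404246497) (nat_lit 76) (nat_lit 6856081682) (nat_lit 76) (nat_lit 187402544) (nat_lit 31) (nat_lit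 4) (nat_lit 32) (nat_lit 5) (nat_lit 32) (nat_lit 4) (nat_lit 442) (nat_lit 389) (nat_lit 369))) (XT.nd (nat_lit 78) (nat_lit 76) (nat_lit 0) (XT.lf (nat_lit 0) (nat_lit 11509879310) (nat_lit 152) (nat_lit 9245666820) (nat_lit 0) (nat_lit 5030250705) (nat_lit 29) (nat_lit 5) (nat_lit 31) (nat_lit 4) (nat_lit 29) (nat_lit 4) (nat_lit 443) (nat_lit 389) (nat_lit 368)) (XT.lf (nat_lit 0) (nat_lit 14852443079) (nat_lit 76) (nat_lit 9483477842) (nat_lit 76) (nat_lit 2884862555) (nat_lit 28) (nat_lit 4) (nat_lit 29) (nat_lit 5) (nat_lit 29) (nat_lit 4) (nat_lit 444) (nat_lit 389) (nat_lit 367))))) (XT.nd (nat_lit 234) (nat_lit 304) (nat_lit 0) (XT.nd (nat_lit 78) (nat_lit 228) (nat_lit 0) (XT.lf (nat_lit 0) (nat_lit 9250901165) (nat_lit 152) (nat_lit 16644000262) (nat_lit 0) (nat_lit 2861579126) (nat_lit 26) (nat_lit 5) (nat_lit 28) (nat_lit 4) (nat_lit 26) (nat_lit 4) (nat_lit 445) (nat_lit 389)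 (nat_lit 366)) (XT.nd (nat_lit 78) (nat_lit 152) (nat_lit 0) (XT.lf (nat_lit 0) (nat_lit 8126561293) (nat_lit 76) (nat_lit 14380040606) (nat_lit 76) (nat_lit 7893564375) (nat_lit 25) (nat_lit 4) (nat_lit 26) (nat_lit 5) (nat_lit 26) (nat_lit 4) (nat_lit 446) (nat_lit 389) (nat_lit 365)) (XT.lf (nat_lit 0) (nat_lit 2828801055) (nat_lit 76) (nat_lit 1759118393) (nat_lit 152) (nat_lit 27579341076) (nat_lit 23) (nat_lit 5) (nat_lit 24) (nat_lit 5) (nat_lit 25) (nat_lit 4) (nat_lit 447) (nat_lit 389) (nat_lit 364)))) (XT.nd (nat_lit 156) (nat_lit 228) (nat_lit 0) (XT.nd (nat_lit 78) (nat_lit 76) (nat_lit 0) (XT.lf (nat_lit 0) (nat_lit 18132550915) (nat_lit 152) (nat_lit 4129693273) (nat_lit 0) (nat_lit 11789952938) (nat_lit 23) (nat_lit 5) (nat_lit 25) (nat_lit 4) (nat_lit 23) (nat_lit 4) (nat_lit 448) (nat_lit 389) (nat_lit 363)) (XT.lf (nat_lit 0) (nat_lit 23366441829) (nat_lit 76) (nat_lit 9564514932)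 (nat_lit 76) (nat_lit 3148465402) (nat_lit 22) (nat_lit 4) (nat_lit 23) (nat_lit 5) (nat_lit 23) (nat_lit 4) (nat_lit 449) (nat_lit 389) (nat_lit 362))) (XT.nd (nat_lit 78) (nat_lit 76) (nat_lit 0) (XT.lf (nat_lit 0) (nat_lit 10459394809) (nat_lit 152) (nat_lit 23509241220) (nat_lit 0) (nat_lit 4284099356) (nat_lit 20) (nat_lit 5) (nat_lit 22) (nat_lit 4) (nat_lit 20) (nat_lit 4) (nat_lit 450) (nat_lit 389) (nat_lit 361)) (XT.lf (nat_lit 0) (nat_lit 3739777427) (nat_lit 76) (nat_lit 21540545433) (nat_lit 76) (nat_lit 15305275821) (nat_lit 19) (nat_lit 4) (nat_lit 20) (nat_lit 5) (nat_lit 20) (nat_lit 4) (nat_lit 451) (nat_lit 389) (nat_lit 360)))))) (XT.nd (nat_lit 546) (nat_lit 380) (nat_lit 0) (XT.nd (nat_lit 234) (nat_lit 228) (nat_lit 0) (XT.nd (nat_lit 78) (nat_lit 228) (nat_lit 0) (XT.lf (nat_lit 0) (nat_lit 33603085438) (nat_lit 76) (nat_lit 7891220306) (nat_lit 76) (nat_lit 1600419064)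 (nat_lit 19) (nat_lit 4) (nat_lit 20) (nat_lit 5) (nat_lit 20) (nat_lit 4) (nat_lit 452) (nat_lit 389) (nat_lit 359)) (XT.nd (nat_lit 78) (nat_lit 76) (nat_lit 0) (XT.lf (nat_lit 0) (nat_lit 13014497952) (nat_lit 152) (nat_lit 25793682433) (nat_lit 0) (nat_lit 6974288984) (nat_lit 17) (nat_lit 5) (nat_lit 19) (nat_lit 4) (nat_lit 17) (nat_lit 4) (nat_lit 453) (nat_lit 389) (nat_lit 358)) (XT.lf (nat_lit 0) (nat_lit 3053516463) (nat_lit 76) (nat_lit 25853858448) (nat_lit 76) (nat_lit 19768307174) (nat_lit 16) (nat_lit 4) (nat_lit 17) (nat_lit 5) (nat_lit 17) (nat_lit 4) (nat_lit 454) (nat_lit 389) (nat_lit 357)))) (XT.nd (nat_lit 156) (nat_lit 76) (nat_lit 0) (XT.nd (nat_lit 78) (nat_lit 152) (nat_lit 0) (XT.lf (nat_lit 0) (nat_lit 34774619702) (nat_lit 76) (nat_lit 11569815727) (nat_lit 76) (nat_lit 5442280836) (nat_lit 16) (nat_lit 4) (nat_lit 17) (nat_lit 5) (nat_lit 17) (nat_lit 4) (nat_lit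 455) (nat_lit 389) (nat_lit 356)) (XT.lf (nat_lit 0) (nat_lit 9822419901) (nat_lit 152) (nat_lit 41361055189) (nat_lit 0) (nat_lit 3949649796) (nat_lit 14) (nat_lit 5) (nat_lit 16) (nat_lit 4) (nat_lit 14) (nat_lit 4) (nat_lit 456) (nat_lit 389) (nat_lit 355))) (XT.nd (nat_lit 78) (nat_lit 76) (nat_lit 0) (XT.lf (nat_lit 0) (nat_lit 26455108461) (nat_lit 152) (nat_lit 11722746256) (nat_lit 0) (nat_lit 20548058181) (nat_lit 14) (nat_lit 5) (nat_lit 16) (nat_lit 4) (nat_lit 14) (nat_lit 4) (nat_lit 457) (nat_lit 389) (nat_lit 354)) (XT.lf (nat_lit 0) (nat_lit 20646452309) (nat_lit 76) (nat_lit 23944908496) (nat_lit 76) (nat_lit 18006117312) (nat_lit 13) (nat_lit 4) (nat_lit 14) (nat_lit 5) (nat_lit 14) (nat_lit 4) (nat_lit 458) (nat_lit 389) (nat_lit 353))))) (XT.nd (nat_lit 234) (nat_lit 228) (nat_lit 0) (XT.nd (nat_lit 78) (nat_lit 152) (nat_lit 0) (XT.lf (nat_lit 0) (nat_lit 55735892435) (nat_lit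 76) (nat_lit 8503994904) (nat_lit 76) (nat_lit 2535813995) (nat_lit 13) (nat_lit 4) (nat_lit 14) (nat_lit 5) (nat_lit 14) (nat_lit 4) (nat_lit 459) (nat_lit 389) (nat_lit 352)) (XT.nd (nat_lit 78) (nat_lit 0) (nat_lit 0) (XT.lf (nat_lit 0) (nat_lit 14071414262) (nat_lit 152) (nat_lit 48826545711) (nat_lit 0) (nat_lit 8361515579) (nat_lit 11) (nat_lit 5) (nat_lit 13) (nat_lit 4) (nat_lit 11) (nat_lit 4) (nat_lit 460) (nat_lit 389) (nat_lit 351)) (XT.lf (nat_lit 0) (nat_lit 32127867664) (nat_lit 152) (nat_lit 17567560360) (nat_lit 0) (nat_lit 26393971883) (nat_lit 11) (nat_lit 5) (nat_lit 13) (nat_lit 4) (nat_lit 11) (nat_lit 4) (nat_lit 461) (nat_lit 389) (nat_lit 350)))) (XT.nd (nat_lit 156) (nat_lit 152) (nat_lit 0) (XT.nd (nat_lit 78) (nat_lit 0) (nat_lit 0) (XT.lf (nat_lit 0) (nat_lit 16475350749) (nat_lit 76) (nat_lit 35289833281) (nat_lit 76) (nat_lit 29533717966) (nat_lit 10) (nat_lit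 4) (nat_lit 11) (nat_lit 5) (nat_lit 11) (nat_lit 4) (nat_lit 462) (nat_lit 389) (nat_lit 349)) (XT.lf (nat_lit 0) (nat_lit 53635528078) (nat_lit 76) (nat_lit 19528401975) (nat_lit 76) (nat_lit 13751713017) (nat_lit 10) (nat_lit 4) (nat_lit 11) (nat_lit 5) (nat_lit 11) (nat_lit 4) (nat_lit 463) (nat_lit 389) (nat_lit 348))) (XT.nd (nat_lit 78) (nat_lit 0) (nat_lit 0) (XT.lf (nat_lit 0) (nat_lit 532633521) (nat_lit 76) (nat_lit 2554377283) (nat_lit 152) (nat_lit 89897165492) (nat_lit 8) (nat_lit 5) (nat_lit 9) (nat_lit 5) (nat_lit 10) (nat_lit 4) (nat_lit 464) (nat_lit 389) (nat_lit 347)) (XT.lf (nat_lit 0) (nat_lit 21527383981) (nat_lit 152) (nat_lit 61971885668) (nat_lit 0) (nat_lit 15990834256) (nat_lit 8) (nat_lit 5) (nat_lit 10) (nat_lit 4) (nat_lit 8) (nat_lit 4) (nat_lit 465) (nat_lit 389) (nat_lit 346))))))))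
noncomputable def xc29 : XT := (XT.nd (nat_lit 2184) (nat_lit 0) (nat_lit 0) (XT.nd (nat_lit 1092) (nat_lit 228) (nat_lit 0) (XT.nd (nat_lit 546) (nat_lit 76) (nat_lit 0) (XT.nd (nat_lit 234) (nat_lit 152) (nat_lit 0) (XT.nd (nat_lit 78) (nat_lit 76) (nat_lit 0) (XT.lf (nat_lit 0) (nat_lit 41388234053) (nat_lit 152) (nat_lit 29294880080) (nat_lit 0) (nat_lit 35836130022) (nat_lit 8) (nat_lit 5) (nat_lit 10) (nat_lit 4) (nat_lit 8) (nat_lit 4) (nat_lit 466) (nat_lit 389) (nat_lit 345)) (XT.nd (nat_lit 78) (nat_lit 0) (nat_lit 0) (XT.lf (nat_lit 0) (nat_lit 6005200409) (nat_lit 76) (nat_lit 56835931559) (nat_lit 76) (nat_lit 51269425392) (nat_lit 7) (nat_lit 4) (nat_lit 8) (nat_lit 5) (nat_lit 8) (nat_lit 4) (nat_lit 467) (nat_lit 389) (nat_lit 344)) (XT.lf (nat_lit 0) (nat_lit 45000074128) (nat_lit 76) (nat_lit 41433879521) (nat_lit 76) (nat_lit 35854038045) (nat_lit 7) (nat_lit 4) (nat_lit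 8) (nat_lit 5) (nat_lit 8) (nat_lit 4) (nat_lit 468) (nat_lit 389) (nat_lit 343)))) (XT.nd (nat_lit 156) (nat_lit 152) (nat_lit 0) (XT.nd (nat_lit 78) (nat_lit 0) (nat_lit 0) (XT.lf (nat_lit 0) (nat_lit 86952200777) (nat_lit 76) (nat_lit 24881809572) (nat_lit 76) (nat_lit 19289620585) (nat_lit 7) (nat_lit 4) (nat_lit 8) (nat_lit 5) (nat_lit 8) (nat_lit 4) (nat_lit 469) (nat_lit 389) (nat_lit 342)) (XT.lf (nat_lit 0) (nat_lit 132110185550) (nat_lit 76) (nat_lit 7081635369) (nat_lit 76) (nat_lit 1478013503) (nat_lit 7) (nat_lit 4) (nat_lit 8) (nat_lit 5) (nat_lit 8) (nat_lit 4) (nat_lit 470) (nat_lit 389) (nat_lit 341))) (XT.nd (nat_lit 78) (nat_lit 0) (nat_lit 0) (XT.lf (nat_lit 0) (nat_lit 17796583644) (nat_lit 152) (nat_lit 120689246771) (nat_lit 0) (nat_lit 12449719011) (nat_lit 5) (nat_lit 5) (nat_lit 7) (nat_lit 4) (nat_lit 5) (nat_lit 4) (nat_lit 471) (nat_lit 389) (nat_lit 340)) (XT.lf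 (nat_lit 0) (nat_lit 38765130712) (nat_lit 152) (nat_lit 89837060694) (nat_lit 0) (nat_lit 33408930982) (nat_lit 5) (nat_lit 5) (nat_lit 7) (nat_lit 4) (nat_lit 5) (nat_lit 4) (nat_lit 472) (nat_lit 389) (nat_lit 339))))) (XT.nd (nat_lit 234) (nat_lit 0) (nat_lit 0) (XT.nd (nat_lit 78) (nat_lit 76) (nat_lit 0) (XT.lf (nat_lit 0) (nat_lit 61348305131) (nat_lit 152) (nat_lit 56644117518) (nat_lit 0) (nat_lit 55983461794) (nat_lit 5) (nat_lit 5) (nat_lit 7) (nat_lit 4) (nat_lit 5) (nat_lit 4) (nat_lit 473) (nat_lit 389) (nat_lit 338)) (XT.nd (nat_lit 78) (nat_lit 76) (nat_lit 0) (XT.lf (nat_lit 0) (nat_lit 85679933120) (nat_lit 152) (nat_lit 20913718322) (nat_lit 0) (nat_lit 80307086442) (nat_lit 5) (nat_lit 5) (nat_lit 7) (nat_lit 4) (nat_lit 5) (nat_lit 4) (nat_lit 474) (nat_lit 389) (nat_lit 337)) (XT.lf (nat_lit 0) (nat_lit 18146679671) (nat_lit 76) (nat_lit 94040842958) (nat_lit 76) (nat_lit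 88660585780) (nat_lit 4) (nat_lit 4) (nat_lit 5) (nat_lit 5) (nat_lit 5) (nat_lit 4) (nat_lit 475) (nat_lit 389) (nat_lit 336)))) (XT.nd (nat_lit 156) (nat_lit 0) (nat_lit 0) (XT.nd (nat_lit 78) (nat_lit 0) (nat_lit 0) (XT.lf (nat_lit 0) (nat_lit 60974238870) (nat_lit 76) (nat_lit 80154255038) (nat_lit 76) (nat_lit 74767136285) (nat_lit 4) (nat_lit 4) (nat_lit 5) (nat_lit 5) (nat_lit 5) (nat_lit 4) (nat_lit 476) (nat_lit 389) (nat_lit 335)) (XT.lf (nat_lit 0) (nat_lit 107131250241) (nat_lit 76) (nat_lit 65205780728) (nat_lit 76) (nat_lit 59812308665) (nat_lit 4) (nat_lit 4) (nat_lit 5) (nat_lit 5) (nat_lit 5) (nat_lit 4) (nat_lit 477) (nat_lit 389) (nat_lit 334))) (XT.nd (nat_lit 78) (nat_lit 0) (nat_lit 0) (XT.lf (nat_lit 0) (nat_lit 156891236813) (nat_lit 76) (nat_lit 49106836478) (nat_lit 76) (nat_lit 43707481721) (nat_lit 4) (nat_lit 4) (nat_lit 5) (nat_lit 5) (nat_lit 5) (nat_lit 4) (nat_lit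 478) (nat_lit 389) (nat_lit 333)) (XT.lf (nat_lit 0) (nat_lit 210549072582) (nat_lit 76) (nat_lit 31762021137) (nat_lit 76) (nat_lit 26357219441) (nat_lit 4) (nat_lit 4) (nat_lit 5) (nat_lit 5) (nat_lit 5) (nat_lit 4) (nat_lit 479) (nat_lit 389) (nat_lit 332)))))) (XT.nd (nat_lit 546) (nat_lit 76) (nat_lit 0) (XT.nd (nat_lit 234) (nat_lit 0) (nat_lit 0) (XT.nd (nat_lit 78) (nat_lit 152) (nat_lit 0) (XT.lf (nat_lit 0) (nat_lit 268422729908) (nat_lit 76) (nat_lit 13068550613) (nat_lit 76) (nat_lit 7658705455) (nat_lit 4) (nat_lit 4) (nat_lit 5) (nat_lit 5) (nat_lit 5) (nat_lit 4) (nat_lit 480) (nat_lit 389) (nat_lit 331)) (XT.nd (nat_lit 78) (nat_lit 0) (nat_lit 0) (XT.lf (nat_lit 0) (nat_lit 12530467396) (nat_lit 152) (nat_lit 291336353265) (nat_lit 0) (nat_lit 7373786414) (nat_lit 2) (nat_lit 5) (nat_lit 4) (nat_lit 4) (nat_lit 2) (nat_lit 4) (nat_lit 481) (nat_lit 389) (nat_lit 330)) (XT.lf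 (nat_lit 0) (nat_lit 34622739901) (nat_lit 152) (nat_lit 270979705195) (nat_lit 0) (nat_lit 29461940866) (nat_lit 2) (nat_lit 5) (nat_lit 4) (nat_lit 4) (nat_lit 2) (nat_lit 4) (nat_lit 482) (nat_lit 389) (nat_lit 329)))) (XT.nd (nat_lit 156) (nat_lit 0) (nat_lit 0) (XT.nd (nat_lit 78) (nat_lit 0) (nat_lit 0) (XT.lf (nat_lit 0) (nat_lit 58450327852) (nat_lit 152) (nat_lit 249059627013) (nat_lit 0) (nat_lit 53285715805) (nat_lit 2) (nat_lit 5) (nat_lit 4) (nat_lit 4) (nat_lit 2) (nat_lit 4) (nat_lit 483) (nat_lit 389) (nat_lit 328)) (XT.lf (nat_lit 0) (nat_lit 84154431771) (nat_lit 152) (nat_lit 225446221960) (nat_lit 0) (nat_lit 78986289157) (nat_lit 2) (nat_lit 5) (nat_lit 4) (nat_lit 4) (nat_lit 2) (nat_lit 4) (nat_lit 484) (nat_lit 389) (nat_lit 327))) (XT.nd (nat_lit 78) (nat_lit 0) (nat_lit 0) (XT.lf (nat_lit 0) (nat_lit 111887372272) (nat_lit 152) (nat_lit 199999558746) (nat_lit 0) (nat_lit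 106715960615) (nat_lit 2) (nat_lit 5) (nat_lit 4) (nat_lit 4) (nat_lit 2) (nat_lit 4) (nat_lit 485) (nat_lit 389) (nat_lit 326)) (XT.lf (nat_lit 0) (nat_lit 141813492707) (nat_lit 152) (nat_lit 172568842331) (nat_lit 0) (nat_lit 136639054158) (nat_lit 2) (nat_lit 5) (nat_lit 4) (nat_lit 4) (nat_lit 2) (nat_lit 4) (nat_lit 486) (nat_lit 389) (nat_lit 325))))) (XT.nd (nat_lit 234) (nat_lit 76) (nat_lit 0) (XT.nd (nat_lit 78) (nat_lit 0) (nat_lit 0) (XT.lf (nat_lit 0) (nat_lit 174110133049) (nat_lit 152) (nat_lit 142991520320) (nat_lit 0) (nat_lit 168932891822) (nat_lit 2) (nat_lit 5) (nat_lit 4) (nat_lit 4) (nat_lit 2) (nat_lit 4) (nat_lit 487) (nat_lit 389) (nat_lit 324)) (XT.nd (nat_lit 78) (nat_lit 0) (nat_lit 0) (XT.lf (nat_lit 0) (nat_lit 208968680796) (nat_lit 152) (nat_lit 111092319694) (nat_lit 0) (nat_lit 203788844497) (nat_lit 2) (nat_lit 5) (nat_lit 4) (nat_lit 4) (nat_lit 2) (nat_lit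 4) (nat_lit 488) (nat_lit 389) (nat_lit 323)) (XT.lf (nat_lit 0) (nat_lit 246595705120) (nat_lit 152) (nat_lit 76682208154) (nat_lit 0) (nat_lit 241413465977) (nat_lit 2) (nat_lit 5) (nat_lit 4) (nat_lit 4) (nat_lit 2) (nat_lit 4) (nat_lit 489) (nat_lit 389) (nat_lit 322)))) (XT.nd (nat_lit 156) (nat_lit 0) (nat_lit 0) (XT.nd (nat_lit 78) (nat_lit 76) (nat_lit 0) (XT.lf (nat_lit 0) (nat_lit 287214180981) (nat_lit 152) (nat_lit 39557273927) (nat_lit 0) (nat_lit 282029716981) (nat_lit 2) (nat_lit 5) (nat_lit 4) (nat_lit 4) (nat_lit 2) (nat_lit 4) (nat_lit 490) (nat_lit 389) (nat_lit 321)) (XT.lf (nat_lit 0) (nat_lit 519096941) (nat_lit 76) (nat_lit 330553818073) (nat_lit 76) (nat_lit 325367294021) (nat_lit 1) (nat_lit 4) (nat_lit 2) (nat_lit 5) (nat_lit 2) (nat_lit 4) (nat_lit 491) (nat_lit 389) (nat_lit 320))) (XT.nd (nat_lit 78) (nat_lit 0) (nat_lit 0) (XT.lf (nat_lit 0) (nat_lit 45180511080)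 (nat_lit 76) (nat_lit 333932332444) (nat_lit 76) (nat_lit 328743900937) (nat_lit 1) (nat_lit 4) (nat_lit 2) (nat_lit 5) (nat_lit 2) (nat_lit 4) (nat_lit 492) (nat_lit 389) (nat_lit 319)) (XT.lf (nat_lit 0) (nat_lit 93383686601) (nat_lit 76) (nat_lit 337596940422) (nat_lit 76) (nat_lit 332406742753) (nat_lit 1) (nat_lit 4) (nat_lit 2) (nat_lit 5) (nat_lit 2) (nat_lit 4) (nat_lit 493) (nat_lit 389) (nat_lit 318))))))) (XT.nd (nat_lit 57174) (nat_lit 0) (nat_lit 2508) (XT.nd (nat_lit 546) (nat_lit 0) (nat_lit 0) (XT.nd (nat_lit 234) (nat_lit 0) (nat_lit 0) (XT.nd (nat_lit 78) (nat_lit 0) (nat_lit 0) (XT.lf (nat_lit 0) (nat_lit 145414271951) (nat_lit 76) (nat_lit 341569358202) (nat_lit 76) (nat_lit 336377525197) (nat_lit 1) (nat_lit 4) (nat_lit 2) (nat_lit 5) (nat_lit 2) (nat_lit 4) (nat_lit 494) (nat_lit 389) (nat_lit 317)) (XT.nd (nat_lit 78) (nat_lit 0) (nat_lit 0) (XT.lf (nat_lit 0) (nat_lit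 201580596525) (nat_lit 76) (nat_lit 345873126038) (nat_lit 76) (nat_lit 340679778833) (nat_lit 1) (nat_lit 4) (nat_lit 2) (nat_lit 5) (nat_lit 2) (nat_lit 4) (nat_lit 495) (nat_lit 389) (nat_lit 316)) (XT.lf (nat_lit 0) (nat_lit 262215497801) (nat_lit 76) (nat_lit 350533747739) (nat_lit 76) (nat_lit 345338998497) (nat_lit 1) (nat_lit 4) (nat_lit 2) (nat_lit 5) (nat_lit 2) (nat_lit 4) (nat_lit 496) (nat_lit 389) (nat_lit 315)))) (XT.nd (nat_lit 156) (nat_lit 0) (nat_lit 0) (XT.nd (nat_lit 78) (nat_lit 0) (nat_lit 0) (XT.lf (nat_lit 0) (nat_lit 327678293713) (nat_lit 76) (nat_lit 355578841803) (nat_lit 76) (nat_lit 350382794380) (nat_lit 1) (nat_lit 4) (nat_lit 2) (nat_lit 5) (nat_lit 2) (nat_lit 4) (nat_lit 497) (nat_lit 389) (nat_lit 314)) (XT.lf (nat_lit 0) (nat_lit 398356911941) (nat_lit 76) (nat_lit 361038305086) (nat_lit 76) (nat_lit 355841055642) (nat_lit 1) (nat_lit 4) (nat_lit 2) (nat_lit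 5) (nat_lit 2) (nat_lit 4) (nat_lit 498) (nat_lit 389) (nat_lit 313))) (XT.nd (nat_lit 78) (nat_lit 0) (nat_lit 0) (XT.lf (nat_lit 0) (nat_lit 474670188741) (nat_lit 76) (nat_lit 366944489961) (nat_lit 76) (nat_lit 361746127535) (nat_lit 1) (nat_lit 4) (nat_lit 2) (nat_lit 5) (nat_lit 2) (nat_lit 4) (nat_lit 499) (nat_lit 389) (nat_lit 312)) (XT.lf (nat_lit 0) (nat_lit 557070350938) (nat_lit 76) (nat_lit 373332396042) (nat_lit 76) (nat_lit 368133003078) (nat_lit 1) (nat_lit 4) (nat_lit 2) (nat_lit 5) (nat_lit 2) (nat_lit 4) (nat_lit 500) (nat_lit 389) (nat_lit 311))))) (XT.nd (nat_lit 56316) (nat_lit 0) (nat_lit 4864) (XT.nd (nat_lit 56160) (nat_lit 0) (nat_lit 5928) (XT.lf (nat_lit 0) (nat_lit 646045695790) (nat_lit 76) (nat_lit 380239877589) (nat_lit 76) (nat_lit 375039530422) (nat_lit 1) (nat_lit 4) (nat_lit 2) (nat_lit 5) (nat_lit 2) (nat_lit 4) (nat_lit 501) (nat_lit 389) (nat_lit 310))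 (XT.nd (nat_lit 78) (nat_lit 456) (nat_lit 0) (XT.lf (nat_lit 0) (nat_lit 2273572713) (nat_lit 228) (nat_lit 152688130) (nat_lit 0) (nat_lit 2273572713) (nat_lit 85) (nat_lit 5) (nat_lit 88) (nat_lit 4) (nat_lit 85) (nat_lit 4) (nat_lit 420) (nat_lit 390) (nat_lit 390)) (XT.lf (nat_lit 0) (nat_lit 2338112011) (nat_lit 228) (nat_lit 6261698568) (nat_lit 0) (nat_lit 1118331016) (nat_lit 79) (nat_lit 5) (nat_lit 82) (nat_lit 4) (nat_lit 79) (nat_lit 4) (nat_lit 421) (nat_lit 390) (nat_lit 389)))) (XT.nd (nat_lit 156) (nat_lit 456) (nat_lit 0) (XT.nd (nat_lit 78) (nat_lit 380) (nat_lit 0) (XT.lf (nat_lit 0) (nat_lit 7333223852) (nat_lit 228) (nat_lit 2538632017) (nat_lit 228) (nat_lit 189424174) (nat_lit 76) (nat_lit 4) (nat_lit 79) (nat_lit 5) (nat_lit 79) (nat_lit 4) (nat_lit 422) (nat_lit 390) (nat_lit 388)) (XT.lf (nat_lit 0) (nat_lit 893727319) (nat_lit 152) (nat_lit 6384193394) (nat_lit 152)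 (nat_lit 3150885354) (nat_lit 71) (nat_lit 4) (nat_lit 73) (nat_lit 5) (nat_lit 73) (nat_lit 4) (nat_lit 423) (nat_lit 390) (nat_lit 387))) (XT.nd (nat_lit 78) (nat_lit 228) (nat_lit 0) (XT.lf (nat_lit 0) (nat_lit 4341978494) (nat_lit 228) (nat_lit 6096968966) (nat_lit 0) (nat_lit 384359516) (nat_lit 68) (nat_lit 5) (nat_lit 71) (nat_lit 4) (nat_lit 68) (nat_lit 4) (nat_lit 424) (nat_lit 390) (nat_lit 386)) (XT.lf (nat_lit 0) (nat_lit 1047653431) (nat_lit 228) (nat_lit 2623149802) (nat_lit 76) (nat_lit 7574928588) (nat_lit 65) (nat_lit 5) (nat_lit 68) (nat_lit 5) (nat_lit 66) (nat_lit 4) (nat_lit 425) (nat_lit 390) (nat_lit 385)))))) (XT.nd (nat_lit 546) (nat_lit 988) (nat_lit 0) (XT.nd (nat_lit 234) (nat_lit 684) (nat_lit 0) (XT.nd (nat_lit 78) (nat_lit 380) (nat_lit 0) (XT.lf (nat_lit 0) (nat_lit 920617702) (nat_lit 152) (nat_lit 8018732517) (nat_lit 152) (nat_lit 2757950469) (nat_lit 61)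 (nat_lit 4) (nat_lit 63) (nat_lit 5) (nat_lit 63) (nat_lit 4) (nat_lit 426) (nat_lit 390) (nat_lit 384)) (XT.nd (nat_lit 78) (nat_lit 228) (nat_lit 0) (XT.lf (nat_lit 0) (nat_lit 4611469254) (nat_lit 76) (nat_lit 528168028) (nat_lit 152) (nat_lit 7039711952) (nat_lit 59) (nat_lit 5) (nat_lit 60) (nat_lit 5) (nat_lit 61) (nat_lit 4) (nat_lit 427) (nat_lit 390) (nat_lit 383)) (XT.lf (nat_lit 0) (nat_lit 905193791) (nat_lit 228) (nat_lit 4372549619) (nat_lit 76) (nat_lit 7416378697) (nat_lit 56) (nat_lit 5) (nat_lit 59) (nat_lit 5) (nat_lit 57) (nat_lit 4) (nat_lit 428) (nat_lit 390) (nat_lit 382)))) (XT.nd (nat_lit 156) (nat_lit 304) (nat_lit 0) (XT.nd (nat_lit 78) (nat_lit 304) (nat_lit 0) (XT.lf (nat_lit 0) (nat_lit 9248621723) (nat_lit 152) (nat_lit 1194578218) (nat_lit 0) (nat_lit 2800654278) (nat_lit 55) (nat_lit 5) (nat_lit 57) (nat_lit 4) (nat_lit 55) (nat_lit 4) (nat_lit 429) (nat_lit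 390) (nat_lit 381)) (XT.lf (nat_lit 0) (nat_lit 2031530939) (nat_lit 76) (nat_lit 2338030764) (nat_lit 152) (nat_lit 9460117522) (nat_lit 51) (nat_lit 5) (nat_lit 52) (nat_lit 5) (nat_lit 53) (nat_lit 4) (nat_lit 430) (nat_lit 390) (nat_lit 380))) (XT.nd (nat_lit 78) (nat_lit 152) (nat_lit 0) (XT.lf (nat_lit 0) (nat_lit 5255960011) (nat_lit 152) (nat_lit 8108001135) (nat_lit 152) (nat_lit 1090135785) (nat_lit 49) (nat_lit 4) (nat_lit 51) (nat_lit 5) (nat_lit 51) (nat_lit 4) (nat_lit 431) (nat_lit 390) (nat_lit 379)) (XT.lf (nat_lit 0) (nat_lit 7735403319) (nat_lit 152) (nat_lit 6704924318) (nat_lit 0) (nat_lit 679933955) (nat_lit 47) (nat_lit 5) (nat_lit 49) (nat_lit 4) (nat_lit 47) (nat_lit 4) (nat_lit 432) (nat_lit 390) (nat_lit 378))))) (XT.nd (nat_lit 312) (nat_lit 456) (nat_lit 0) (XT.nd (nat_lit 156) (nat_lit 304) (nat_lit 0) (XT.nd (nat_lit 78) (nat_lit 76) (nat_lit 0) (XT.lf (nat_lit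 0) (nat_lit 1488731949) (nat_lit 152) (nat_lit 4347817086) (nat_lit 76) (nat_lit 9994045640) (nat_lit 45) (nat_lit 5) (nat_lit 47) (nat_lit 5) (nat_lit 46) (nat_lit 4) (nat_lit 433) (nat_lit 390) (nat_lit 377)) (XT.lf (nat_lit 0) (nat_lit 10890438943) (nat_lit 152) (nat_lit 2157910636) (nat_lit 0) (nat_lit 3539519005) (nat_lit 44) (nat_lit 5) (nat_lit 46) (nat_lit 4) (nat_lit 44) (nat_lit 4) (nat_lit 434) (nat_lit 390) (nat_lit 376))) (XT.nd (nat_lit 78) (nat_lit 152) (nat_lit 0) (XT.lf (nat_lit 0) (nat_lit 3652050825) (nat_lit 152) (nat_lit 145298948) (nat_lit 76) (nat_lit 13599050248) (nat_lit 42) (nat_lit 5) (nat_lit 44) (nat_lit 5) (nat_lit 43) (nat_lit 4) (nat_lit 435) (nat_lit 390) (nat_lit 375)) (XT.lf (nat_lit 0) (nat_lit 1667104025) (nat_lit 76) (nat_lit 12052894825) (nat_lit 76) (nat_lit 4536451620) (nat_lit 40) (nat_lit 4) (nat_lit 41) (nat_lit 5) (nat_lit 41) (nat_lit 4) (nat_lit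 436) (nat_lit 390) (nat_lit 374)))) (XT.nd (nat_lit 156) (nat_lit 228) (nat_lit 0) (XT.nd (nat_lit 78) (nat_lit 76) (nat_lit 0) (XT.lf (nat_lit 0) (nat_lit 3221176215) (nat_lit 76) (nat_lit 2128642104) (nat_lit 152) (nat_lit 13825534242) (nat_lit 38) (nat_lit 5) (nat_lit 39) (nat_lit 5) (nat_lit 40) (nat_lit 4) (nat_lit 437) (nat_lit 390) (nat_lit 373)) (XT.lf (nat_lit 0) (nat_lit 4393536670) (nat_lit 76) (nat_lit 11670113406) (nat_lit 76) (nat_lit 4090628765) (nat_lit 37) (nat_lit 4) (nat_lit 38) (nat_lit 5) (nat_lit 38) (nat_lit 4) (nat_lit 438) (nat_lit 390) (nat_lit 372))) (XT.nd (nat_lit 78) (nat_lit 76) (nat_lit 0) (XT.lf (nat_lit 0) (nat_lit 5195133262) (nat_lit 76) (nat_lit 1127800549) (nat_lit 152) (nat_lit 14878308148) (nat_lit 35) (nat_lit 5) (nat_lit 36) (nat_lit 5) (nat_lit 37) (nat_lit 4) (nat_lit 439) (nat_lit 390) (nat_lit 371)) (XT.lf (nat_lit 0) (nat_lit 5456434450) (nat_lit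 76) (nat_lit 12211198406) (nat_lit 76) (nat_lit 4648916263) (nat_lit 34) (nat_lit 4) (nat_lit 35) (nat_lit 5) (nat_lit 35) (nat_lit 4) (nat_lit 440) (nat_lit 390) (nat_lit 370))))))))
noncomputable def xc30 : XT := (XT.nd (nat_lit 2184) (nat_lit 456) (nat_lit 0) (XT.nd (nat_lit 1092) (nat_lit 760) (nat_lit 0) (XT.nd (nat_lit 546) (nat_lit 608) (nat_lit 0) (XT.nd (nat_lit 234) (nat_lit 304) (nat_lit 0) (XT.nd (nat_lit 78) (nat_lit 228) (nat_lit 0) (XT.lf (nat_lit 0) (nat_lit 5201821102) (nat_lit 76) (nat_lit 1099210547) (nat_lit 152) (nat_lit 17209711007) (nat_lit 32) (nat_lit 5) (nat_lit 33) (nat_lit 5) (nat_lit 34) (nat_lit 4) (nat_lit 441) (nat_lit 390) (nat_lit 369)) (XT.nd (nat_lit 78) (nat_lit 152) (nat_lit 0) (XT.lf (nat_lit 0) (nat_lit 4198657076) (nat_lit 76) (nat_lit 14033713509) (nat_lit 76) (nat_lit 6550883773) (nat_lit 31) (nat_lit 4) (nat_lit 32) (nat_lit 5) (nat_lit 32) (nat_lit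 4) (nat_lit 442) (nat_lit 390) (nat_lit 368)) (XT.lf (nat_lit 0) (nat_lit 2484319188) (nat_lit 76) (nat_lit 2438649075) (nat_lit 152) (nat_lit 21224677725) (nat_lit 29) (nat_lit 5) (nat_lit 30) (nat_lit 5) (nat_lit 31) (nat_lit 4) (nat_lit 443) (nat_lit 390) (nat_lit 367)))) (XT.nd (nat_lit 156) (nat_lit 152) (nat_lit 0) (XT.nd (nat_lit 78) (nat_lit 152) (nat_lit 0) (XT.lf (nat_lit 0) (nat_lit 17357633860) (nat_lit 152) (nat_lit 242600423) (nat_lit 0) (nat_lit 10001969814) (nat_lit 29) (nat_lit 5) (nat_lit 31) (nat_lit 4) (nat_lit 29) (nat_lit 4) (nat_lit 444) (nat_lit 390) (nat_lit 366)) (XT.lf (nat_lit 0) (nat_lit 1768842484) (nat_lit 152) (nat_lit 3831548854) (nat_lit 76) (nat_lit 23561152852) (nat_lit 27) (nat_lit 5) (nat_lit 29) (nat_lit 5) (nat_lit 28) (nat_lit 4) (nat_lit 445) (nat_lit 390) (nat_lit 365))) (XT.nd (nat_lit 78) (nat_lit 76) (nat_lit 0) (XT.lf (nat_lit 0) (nat_lit 14633022211)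 (nat_lit 152) (nat_lit 8751269827) (nat_lit 0) (nat_lit 7440516104) (nat_lit 26) (nat_lit 5) (nat_lit 28) (nat_lit 4) (nat_lit 26) (nat_lit 4) (nat_lit 446) (nat_lit 390) (nat_lit 364)) (XT.lf (nat_lit 0) (nat_lit 17600061969) (nat_lit 76) (nat_lit 11143019180) (nat_lit 76) (nat_lit 3867219014) (nat_lit 25) (nat_lit 4) (nat_lit 26) (nat_lit 5) (nat_lit 26) (nat_lit 4) (nat_lit 447) (nat_lit 390) (nat_lit 363))))) (XT.nd (nat_lit 234) (nat_lit 304) (nat_lit 0) (XT.nd (nat_lit 78) (nat_lit 152) (nat_lit 0) (XT.lf (nat_lit 0) (nat_lit 9300785235) (nat_lit 152) (nat_lit 22924492144) (nat_lit 0) (nat_lit 2298000190) (nat_lit 23) (nat_lit 5) (nat_lit 25) (nat_lit 4) (nat_lit 23) (nat_lit 4) (nat_lit 448) (nat_lit 390) (nat_lit 362)) (XT.nd (nat_lit 78) (nat_lit 76) (nat_lit 0) (XT.lf (nat_lit 0) (nat_lit 3744388156) (nat_lit 76) (nat_lit 19948610724) (nat_lit 76) (nat_lit 12877814983) (nat_lit 22)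 (nat_lit 4) (nat_lit 23) (nat_lit 5) (nat_lit 23) (nat_lit 4) (nat_lit 449) (nat_lit 390) (nat_lit 361)) (XT.lf (nat_lit 0) (nat_lit 644044159) (nat_lit 152) (nat_lit 5813478080) (nat_lit 76) (nat_lit 32314071470) (nat_lit 21) (nat_lit 5) (nat_lit 23) (nat_lit 5) (nat_lit 22) (nat_lit 4) (nat_lit 450) (nat_lit 390) (nat_lit 360)))) (XT.nd (nat_lit 156) (nat_lit 152) (nat_lit 0) (XT.nd (nat_lit 78) (nat_lit 76) (nat_lit 0) (XT.lf (nat_lit 0) (nat_lit 15116321509) (nat_lit 152) (nat_lit 17738844838) (nat_lit 0) (nat_lit 8266724539) (nat_lit 20) (nat_lit 5) (nat_lit 22) (nat_lit 4) (nat_lit 20) (nat_lit 4) (nat_lit 451) (nat_lit 390) (nat_lit 359)) (XT.lf (nat_lit 0) (nat_lit 11357586268) (nat_lit 76) (nat_lit 19596625874) (nat_lit 76) (nat_lit 12695610729) (nat_lit 19) (nat_lit 4) (nat_lit 20) (nat_lit 5) (nat_lit 20) (nat_lit 4) (nat_lit 452) (nat_lit 390) (nat_lit 358))) (XT.nd (nat_lit 78)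 (nat_lit 76) (nat_lit 0) (XT.lf (nat_lit 0) (nat_lit 1763324635) (nat_lit 152) (nat_lit 3333809064) (nat_lit 76) (nat_lit 41274651037) (nat_lit 18) (nat_lit 5) (nat_lit 20) (nat_lit 5) (nat_lit 19) (nat_lit 4) (nat_lit 453) (nat_lit 390) (nat_lit 357)) (XT.lf (nat_lit 0) (nat_lit 17392076200) (nat_lit 152) (nat_lit 21153773636) (nat_lit 0) (nat_lit 10732354902) (nat_lit 17) (nat_lit 5) (nat_lit 19) (nat_lit 4) (nat_lit 17) (nat_lit 4) (nat_lit 454) (nat_lit 390) (nat_lit 356)))))) (XT.nd (nat_lit 546) (nat_lit 304) (nat_lit 0) (XT.nd (nat_lit 234) (nat_lit 228) (nat_lit 0) (XT.nd (nat_lit 78) (nat_lit 152) (nat_lit 0) (XT.lf (nat_lit 0) (nat_lit 9709879429) (nat_lit 76) (nat_lit 24699472347) (nat_lit 76) (nat_lit 18000877329) (nat_lit 16) (nat_lit 4) (nat_lit 17) (nat_lit 5) (nat_lit 17) (nat_lit 4) (nat_lit 455) (nat_lit 390) (nat_lit 355)) (XT.nd (nat_lit 78) (nat_lit 152) (nat_lit 0) (XT.lf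 (nat_lit 0) (nat_lit 43493701916) (nat_lit 76) (nat_lit 9511424339) (nat_lit 76) (nat_lit 2776835137) (nat_lit 16) (nat_lit 4) (nat_lit 17) (nat_lit 5) (nat_lit 17) (nat_lit 4) (nat_lit 456) (nat_lit 390) (nat_lit 354)) (XT.lf (nat_lit 0) (nat_lit 13522955563) (nat_lit 152) (nat_lit 38797730835) (nat_lit 0) (nat_lit 7077320182) (nat_lit 14) (nat_lit 5) (nat_lit 16) (nat_lit 4) (nat_lit 14) (nat_lit 4) (nat_lit 457) (nat_lit 390) (nat_lit 353)))) (XT.nd (nat_lit 156) (nat_lit 152) (nat_lit 0) (XT.nd (nat_lit 78) (nat_lit 76) (nat_lit 0) (XT.lf (nat_lit 0) (nat_lit 31270352389) (nat_lit 152) (nat_lit 7223335615) (nat_lit 0) (nat_lit 24795327282) (nat_lit 14) (nat_lit 5) (nat_lit 16) (nat_lit 4) (nat_lit 14) (nat_lit 4) (nat_lit 458) (nat_lit 390) (nat_lit 352)) (XT.lf (nat_lit 0) (nat_lit 27499103432) (nat_lit 76) (nat_lit 23239688936) (nat_lit 76) (nat_lit 16737451121) (nat_lit 13) (nat_lit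 4) (nat_lit 14) (nat_lit 5) (nat_lit 14) (nat_lit 4) (nat_lit 459) (nat_lit 390) (nat_lit 351))) (XT.nd (nat_lit 78) (nat_lit 152) (nat_lit 0) (XT.lf (nat_lit 0) (nat_lit 65010444328) (nat_lit 76) (nat_lit 6757636496) (nat_lit 76) (nat_lit 230201729) (nat_lit 13) (nat_lit 4) (nat_lit 14) (nat_lit 5) (nat_lit 14) (nat_lit 4) (nat_lit 460) (nat_lit 390) (nat_lit 350)) (XT.lf (nat_lit 0) (nat_lit 17555443953) (nat_lit 152) (nat_lit 47970232100) (nat_lit 0) (nat_lit 11316619878) (nat_lit 11) (nat_lit 5) (nat_lit 13) (nat_lit 4) (nat_lit 11) (nat_lit 4) (nat_lit 461) (nat_lit 390) (nat_lit 349))))) (XT.nd (nat_lit 234) (nat_lit 228) (nat_lit 0) (XT.nd (nat_lit 78) (nat_lit 76) (nat_lit 0) (XT.lf (nat_lit 0) (nat_lit 36881723513) (nat_lit 152) (nat_lit 14563301052) (nat_lit 0) (nat_lit 30622325794) (nat_lit 11) (nat_lit 5) (nat_lit 13) (nat_lit 4) (nat_lit 11) (nat_lit 4) (nat_lit 462) (nat_lit 390)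 (nat_lit 348)) (XT.nd (nat_lit 78) (nat_lit 0) (nat_lit 0) (XT.lf (nat_lit 0) (nat_lit 22011404316) (nat_lit 76) (nat_lit 35982725965) (nat_lit 76) (nat_lit 29704278577) (nat_lit 10) (nat_lit 4) (nat_lit 11) (nat_lit 5) (nat_lit 11) (nat_lit 4) (nat_lit 463) (nat_lit 390) (nat_lit 347)) (XT.lf (nat_lit 0) (nat_lit 61831949498) (nat_lit 76) (nat_lit 19118179709) (nat_lit 76) (nat_lit 12822093737) (nat_lit 10) (nat_lit 4) (nat_lit 11) (nat_lit 5) (nat_lit 11) (nat_lit 4) (nat_lit 464) (nat_lit 390) (nat_lit 346)))) (XT.nd (nat_lit 156) (nat_lit 76) (nat_lit 0) (XT.nd (nat_lit 78) (nat_lit 0) (nat_lit 0) (XT.lf (nat_lit 0) (nat_lit 4373249040) (nat_lit 76) (nat_lit 839271463) (nat_lit 152) (nat_lit 95116447168) (nat_lit 8) (nat_lit 5) (nat_lit 9) (nat_lit 5) (nat_lit 10) (nat_lit 4) (nat_lit 465) (nat_lit 390) (nat_lit 345)) (XT.lf (nat_lit 0) (nat_lit 25016719998) (nat_lit 152) (nat_lit 63353729598)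 (nat_lit 0) (nat_lit 18990491203) (nat_lit 8) (nat_lit 5) (nat_lit 10) (nat_lit 4) (nat_lit 8) (nat_lit 4) (nat_lit 466) (nat_lit 390) (nat_lit 344))) (XT.nd (nat_lit 78) (nat_lit 76) (nat_lit 0) (XT.lf (nat_lit 0) (nat_lit 46335538425) (nat_lit 152) (nat_lit 28327445556) (nat_lit 0) (nat_lit 40295974319) (nat_lit 8) (nat_lit 5) (nat_lit 10) (nat_lit 4) (nat_lit 8) (nat_lit 4) (nat_lit 467) (nat_lit 390) (nat_lit 343)) (XT.lf (nat_lit 0) (nat_lit 9652748263) (nat_lit 76) (nat_lit 59780164331) (nat_lit 76) (nat_lit 53728252716) (nat_lit 7) (nat_lit 4) (nat_lit 8) (nat_lit 5) (nat_lit 8) (nat_lit 4) (nat_lit 468) (nat_lit 390) (nat_lit 342))))))) (XT.nd (nat_lit 1092) (nat_lit 76) (nat_lit 0) (XT.nd (nat_lit 546) (nat_lit 228) (nat_lit 0) (XT.nd (nat_lit 234) (nat_lit 152) (nat_lit 0) (XT.nd (nat_lit 78) (nat_lit 0) (nat_lit 0) (XT.lf (nat_lit 0) (nat_lit 51532609523) (nat_lit 76) (nat_lit 43264662335)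 (nat_lit 76) (nat_lit 37201317841) (nat_lit 7) (nat_lit 4) (nat_lit 8) (nat_lit 5) (nat_lit 8) (nat_lit 4) (nat_lit 469) (nat_lit 390) (nat_lit 341)) (XT.nd (nat_lit 78) (nat_lit 0) (nat_lit 0) (XT.lf (nat_lit 0) (nat_lit 96623681899) (nat_lit 76) (nat_lit 25498347348) (nat_lit 76) (nat_lit 19424416855) (nat_lit 7) (nat_lit 4) (nat_lit 8) (nat_lit 5) (nat_lit 8) (nat_lit 4) (nat_lit 470) (nat_lit 390) (nat_lit 340)) (XT.lf (nat_lit 0) (nat_lit 145193171745) (nat_lit 76) (nat_lit 6375937505) (nat_lit 76) (nat_lit 292205160) (nat_lit 7) (nat_lit 4) (nat_lit 8) (nat_lit 5) (nat_lit 8) (nat_lit 4) (nat_lit 471) (nat_lit 390) (nat_lit 339)))) (XT.nd (nat_lit 156) (nat_lit 0) (nat_lit 0) (XT.nd (nat_lit 78) (nat_lit 0) (nat_lit 0) (XT.lf (nat_lit 0) (nat_lit 20446614800) (nat_lit 152) (nat_lit 127858514476) (nat_lit 0) (nat_lit 14643940387) (nat_lit 5) (nat_lit 5) (nat_lit 7) (nat_lit 4) (nat_lit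 5) (nat_lit 4) (nat_lit 472) (nat_lit 390) (nat_lit 338)) (XT.lf (nat_lit 0) (nat_lit 43001808265) (nat_lit 152) (nat_lit 94722292182) (nat_lit 0) (nat_lit 37191130512) (nat_lit 5) (nat_lit 5) (nat_lit 7) (nat_lit 4) (nat_lit 5) (nat_lit 4) (nat_lit 473) (nat_lit 390) (nat_lit 337))) (XT.nd (nat_lit 78) (nat_lit 0) (nat_lit 0) (XT.lf (nat_lit 0) (nat_lit 67307527964) (nat_lit 152) (nat_lit 59044412320) (nat_lit 0) (nat_lit 61489439710) (nat_lit 5) (nat_lit 5) (nat_lit 7) (nat_lit 4) (nat_lit 5) (nat_lit 4) (nat_lit 474) (nat_lit 390) (nat_lit 336)) (XT.lf (nat_lit 0) (nat_lit 93507807790) (nat_lit 152) (nat_lit 20613450417) (nat_lit 0) (nat_lit 87682857962) (nat_lit 5) (nat_lit 5) (nat_lit 7) (nat_lit 4) (nat_lit 5) (nat_lit 4) (nat_lit 475) (nat_lit 390) (nat_lit 335))))) (XT.nd (nat_lit 234) (nat_lit 152) (nat_lit 0) (XT.nd (nat_lit 78) (nat_lit 0) (nat_lit 0) (XT.lf (nat_lit 0) (nat_lit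 21486019361) (nat_lit 76) (nat_lit 100607346278) (nat_lit 76) (nat_lit 94776043140) (nat_lit 4) (nat_lit 4) (nat_lit 5) (nat_lit 5) (nat_lit 5) (nat_lit 4) (nat_lit 476) (nat_lit 390) (nat_lit 334)) (XT.nd (nat_lit 78) (nat_lit 0) (nat_lit 0) (XT.lf (nat_lit 0) (nat_lit 67599960680) (nat_lit 76) (nat_lit 85680702740) (nat_lit 76) (nat_lit 79843516908) (nat_lit 4) (nat_lit 4) (nat_lit 5) (nat_lit 5) (nat_lit 5) (nat_lit 4) (nat_lit 477) (nat_lit 390) (nat_lit 333)) (XT.lf (nat_lit 0) (nat_lit 117320067575) (nat_lit 76) (nat_lit 69601972167) (nat_lit 76) (nat_lit 63759339396) (nat_lit 4) (nat_lit 4) (nat_lit 5) (nat_lit 5) (nat_lit 5) (nat_lit 4) (nat_lit 478) (nat_lit 390) (nat_lit 332)))) (XT.nd (nat_lit 156) (nat_lit 152) (nat_lit 0) (XT.nd (nat_lit 78) (nat_lit 0) (nat_lit 0) (XT.lf (nat_lit 0) (nat_lit 170940977716) (nat_lit 76) (nat_lit 52275873193) (nat_lit 76) (nat_lit 46428196960) (nat_lit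 4) (nat_lit 4) (nat_lit 5) (nat_lit 5) (nat_lit 5) (nat_lit 4) (nat_lit 479) (nat_lit 390) (nat_lit 331)) (XT.lf (nat_lit 0) (nat_lit 228780444646) (nat_lit 76) (nat_lit 33599732640) (nat_lit 76) (nat_lit 27747386534) (nat_lit 4) (nat_lit 4) (nat_lit 5) (nat_lit 5) (nat_lit 5) (nat_lit 4) (nat_lit 480) (nat_lit 390) (nat_lit 330))) (XT.nd (nat_lit 78) (nat_lit 152) (nat_lit 0) (XT.lf (nat_lit 0) (nat_lit 291181220761) (nat_lit 76) (nat_lit 13462877081) (nat_lit 76) (nat_lit 7606207019) (nat_lit 4) (nat_lit 4) (nat_lit 5) (nat_lit 5) (nat_lit 5) (nat_lit 4) (nat_lit 481) (nat_lit 390) (nat_lit 329)) (XT.lf (nat_lit 0) (nat_lit 14158507033) (nat_lit 152) (nat_lit 313373151738) (nat_lit 0) (nat_lit 8576913010) (nat_lit 2) (nat_lit 5) (nat_lit 4) (nat_lit 4) (nat_lit 2) (nat_lit 4) (nat_lit 482) (nat_lit 390) (nat_lit 328)))))) (XT.nd (nat_lit 546) (nat_lit 76) (nat_lit 0) (XT.nd (nat_lit 234)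 (nat_lit 0) (nat_lit 0) (XT.nd (nat_lit 78) (nat_lit 0) (nat_lit 0) (XT.lf (nat_lit 0) (nat_lit 37971820432) (nat_lit 152) (nat_lit 291482054029) (nat_lit 0) (nat_lit 32386695842) (nat_lit 2) (nat_lit 5) (nat_lit 4) (nat_lit 4) (nat_lit 2) (nat_lit 4) (nat_lit 483) (nat_lit 390) (nat_lit 327)) (XT.nd (nat_lit 78) (nat_lit 0) (nat_lit 0) (XT.lf (nat_lit 0) (nat_lit 63662707172) (nat_lit 152) (nat_lit 267895482747) (nat_lit 0) (nat_lit 58074313538) (nat_lit 2) (nat_lit 5) (nat_lit 4) (nat_lit 4) (nat_lit 2) (nat_lit 4) (nat_lit 484) (nat_lit 390) (nat_lit 326)) (XT.lf (nat_lit 0) (nat_lit 91383409545) (nat_lit 152) (nat_lit 242473665618) (nat_lit 0) (nat_lit 85791989020) (nat_lit 2) (nat_lit 5) (nat_lit 4) (nat_lit 4) (nat_lit 2) (nat_lit 4) (nat_lit 485) (nat_lit 390) (nat_lit 325)))) (XT.nd (nat_lit 156) (nat_lit 0) (nat_lit 0) (XT.nd (nat_lit 78) (nat_lit 0) (nat_lit 0) (XT.lf (nat_lit 0)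 (nat_lit 121298198380) (nat_lit 152) (nat_lit 215065954836) (nat_lit 0) (nat_lit 115703975177) (nat_lit 2) (nat_lit 5) (nat_lit 4) (nat_lit 4) (nat_lit 2) (nat_lit 4) (nat_lit 486) (nat_lit 390) (nat_lit 324)) (XT.lf (nat_lit 0) (nat_lit 153584346500) (nat_lit 152) (nat_lit 185509934337) (nat_lit 0) (nat_lit 147987528225) (nat_lit 2) (nat_lit 5) (nat_lit 4) (nat_lit 4) (nat_lit 2) (nat_lit 4) (nat_lit 487) (nat_lit 390) (nat_lit 323))) (XT.nd (nat_lit 78) (nat_lit 0) (nat_lit 0) (XT.lf (nat_lit 0) (nat_lit 188433179227) (nat_lit 152) (nat_lit 153630457334) (nat_lit 0) (nat_lit 182833958107) (nat_lit 2) (nat_lit 5) (nat_lit 4) (nat_lit 4) (nat_lit 2) (nat_lit 4) (nat_lit 488) (nat_lit 390) (nat_lit 322)) (XT.lf (nat_lit 0) (nat_lit 226051208161) (nat_lit 152) (nat_lit 119238608408) (nat_lit 0) (nat_lit 220449762186) (nat_lit 2) (nat_lit 5) (nat_lit 4) (nat_lit 4) (nat_lit 2) (nat_lit 4) (nat_lit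 489) (nat_lit 390) (nat_lit 321))))) (XT.nd (nat_lit 234) (nat_lit 0) (nat_lit 0) (XT.nd (nat_lit 78) (nat_lit 76) (nat_lit 0) (XT.lf (nat_lit 0) (nat_lit 266661354957) (nat_lit 152) (nat_lit 82130584008) (nat_lit 0) (nat_lit 261057848930) (nat_lit 2) (nat_lit 5) (nat_lit 4) (nat_lit 4) (nat_lit 2) (nat_lit 4) (nat_lit 490) (nat_lit 390) (nat_lit 320)) (XT.nd (nat_lit 78) (nat_lit 76) (nat_lit 0) (XT.lf (nat_lit 0) (nat_lit 310504272336) (nat_lit 152) (nat_lit 42086484731) (nat_lit 0) (nat_lit 304898858853) (nat_lit 2) (nat_lit 5) (nat_lit 4) (nat_lit 4) (nat_lit 2) (nat_lit 4) (nat_lit 491) (nat_lit 390) (nat_lit 319)) (XT.lf (nat_lit 0) (nat_lit 1168383351) (nat_lit 76) (nat_lit 356689628565) (nat_lit 76) (nat_lit 351082448920) (nat_lit 1) (nat_lit 4) (nat_lit 2) (nat_lit 5) (nat_lit 2) (nat_lit 4) (nat_lit 492) (nat_lit 390) (nat_lit 318)))) (XT.nd (nat_lit 156) (nat_lit 0) (nat_lit 0) (XT.nd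 (nat_lit 78) (nat_lit 0) (nat_lit 0) (XT.lf (nat_lit 0) (nat_lit 49357691462) (nat_lit 76) (nat_lit 360361275565) (nat_lit 76) (nat_lit 354752460584) (nat_lit 1) (nat_lit 4) (nat_lit 2) (nat_lit 5) (nat_lit 2) (nat_lit 4) (nat_lit 493) (nat_lit 390) (nat_lit 317)) (XT.lf (nat_lit 0) (nat_lit 101375436618) (nat_lit 76) (nat_lit 364340210957) (nat_lit 76) (nat_lit 358729881776) (nat_lit 1) (nat_lit 4) (nat_lit 2) (nat_lit 5) (nat_lit 2) (nat_lit 4) (nat_lit 494) (nat_lit 390) (nat_lit 316))) (XT.nd (nat_lit 78) (nat_lit 0) (nat_lit 0) (XT.lf (nat_lit 0) (nat_lit 157529872123) (nat_lit 76) (nat_lit 368650013619) (nat_lit 76) (nat_lit 363038282401) (nat_lit 1) (nat_lit 4) (nat_lit 2) (nat_lit 5) (nat_lit 2) (nat_lit 4) (nat_lit 495) (nat_lit 390) (nat_lit 315)) (XT.lf (nat_lit 0) (nat_lit 218153765002) (nat_lit 76) (nat_lit 373316223121) (nat_lit 76) (nat_lit 367703193722) (nat_lit 1) (nat_lit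 4) (nat_lit 2) (nat_lit 5) (nat_lit 2) (nat_lit 4) (nat_lit 496) (nat_lit 390) (nat_lit 314))))))))
noncomputable def xc31 : XT := (XT.nd (nat_lit 58110) (nat_lit 0) (nat_lit 456) (XT.nd (nat_lit 57018) (nat_lit 0) (nat_lit 2584) (XT.nd (nat_lit 56472) (nat_lit 0) (nat_lit 4712) (XT.nd (nat_lit 234) (nat_lit 0) (nat_lit 0) (XT.nd (nat_lit 78) (nat_lit 0) (nat_lit 0) (XT.lf (nat_lit 0) (nat_lit 283606367954) (nat_lit 76) (nat_lit 378366491076) (nat_lit 76) (nat_lit 372752259656) (nat_lit 1) (nat_lit 4) (nat_lit 2) (nat_lit 5) (nat_lit 2) (nat_lit 4) (nat_lit 497) (nat_lit 390) (nat_lit 313)) (XT.nd (nat_lit 78) (nat_lit 0) (nat_lit 0) (XT.lf (nat_lit 0) (nat_lit 354275548256) (nat_lit 76) (nat_lit 383830744998) (nat_lit 76) (nat_lit 378215400596) (nat_lit 1) (nat_lit 4) (nat_lit 2) (nat_lit 5) (nat_lit 2) (nat_lit 4) (nat_lit 498) (nat_lit 390) (nat_lit 312)) (XT.lf (nat_lit 0) (nat_lit 430580086235)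 (nat_lit 76) (nat_lit 389741365650) (nat_lit 76) (nat_lit 384124990710) (nat_lit 1) (nat_lit 4) (nat_lit 2) (nat_lit 5) (nat_lit 2) (nat_lit 4) (nat_lit 499) (nat_lit 390) (nat_lit 311)))) (XT.nd (nat_lit 56082) (nat_lit 0) (nat_lit 6612) (XT.nd (nat_lit 78) (nat_lit 0) (nat_lit 0) (XT.lf (nat_lit 0) (nat_lit 512972156931) (nat_lit 76) (nat_lit 396133378933) (nat_lit 76) (nat_lit 390516049790) (nat_lit 1) (nat_lit 4) (nat_lit 2) (nat_lit 5) (nat_lit 2) (nat_lit 4) (nat_lit 500) (nat_lit 390) (nat_lit 310)) (XT.lf (nat_lit 0) (nat_lit 601940009653) (nat_lit 76) (nat_lit 403044663444) (nat_lit 76) (nat_lit 397426450780) (nat_lit 1) (nat_lit 4) (nat_lit 2) (nat_lit 5) (nat_lit 2) (nat_lit 4) (nat_lit 501) (nat_lit 390) (nat_lit 309))) (XT.nd (nat_lit 78) (nat_lit 228) (nat_lit 0) (XT.lf (nat_lit 0) (nat_lit 483608350) (nat_lit 304) (nat_lit 3444037894) (nat_lit 0) (nat_lit 483608350) (nat_lit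 91) (nat_lit 5) (nat_lit 95) (nat_lit 4) (nat_lit 91) (nat_lit 4) (nat_lit 418) (nat_lit 391) (nat_lit 391)) (XT.lf (nat_lit 0) (nat_lit 5290868928) (nat_lit 228) (nat_lit 2633025304) (nat_lit 228) (nat_lit 1180632073) (nat_lit 88) (nat_lit 4) (nat_lit 91) (nat_lit 5) (nat_lit 91) (nat_lit 4) (nat_lit 419) (nat_lit 391) (nat_lit 390))))) (XT.nd (nat_lit 234) (nat_lit 912) (nat_lit 0) (XT.nd (nat_lit 78) (nat_lit 760) (nat_lit 0) (XT.lf (nat_lit 0) (nat_lit 5719447364) (nat_lit 228) (nat_lit 635351582) (nat_lit 0) (nat_lit 3055445670) (nat_lit 85) (nat_lit 5) (nat_lit 88) (nat_lit 4) (nat_lit 85) (nat_lit 4) (nat_lit 420) (nat_lit 391) (nat_lit 389)) (XT.nd (nat_lit 78) (nat_lit 304) (nat_lit 0) (XT.lf (nat_lit 0) (nat_lit 2760323808) (nat_lit 152) (nat_lit 464175553) (nat_lit 228) (nat_lit 6515247933) (nat_lit 79) (nat_lit 5) (nat_lit 81) (nat_lit 5) (nat_lit 82) (nat_lit 4) (nat_lit 421) (nat_lit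 391) (nat_lit 388)) (XT.lf (nat_lit 0) (nat_lit 431243427) (nat_lit 304) (nat_lit 3828287891) (nat_lit 76) (nat_lit 5833976254) (nat_lit 75) (nat_lit 5) (nat_lit 79) (nat_lit 5) (nat_lit 76) (nat_lit 4) (nat_lit 422) (nat_lit 391) (nat_lit 387)))) (XT.nd (nat_lit 156) (nat_lit 380) (nat_lit 0) (XT.nd (nat_lit 78) (nat_lit 380) (nat_lit 0) (XT.lf (nat_lit 0) (nat_lit 7638313702) (nat_lit 228) (nat_lit 607123054) (nat_lit 0) (nat_lit 2228181894) (nat_lit 73) (nat_lit 5) (nat_lit 76) (nat_lit 4) (nat_lit 73) (nat_lit 4) (nat_lit 423) (nat_lit 391) (nat_lit 386)) (XT.lf (nat_lit 0) (nat_lit 2780583150) (nat_lit 152) (nat_lit 1631415061) (nat_lit 228) (nat_lit 6467667694) (nat_lit 68) (nat_lit 5) (nat_lit 70) (nat_lit 5) (nat_lit 71) (nat_lit 4) (nat_lit 424) (nat_lit 391) (nat_lit 385))) (XT.nd (nat_lit 78) (nat_lit 152) (nat_lit 0) (XT.lf (nat_lit 0) (nat_lit 812918132) (nat_lit 228) (nat_lit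 5052226484) (nat_lit 76) (nat_lit 5449350781) (nat_lit 65) (nat_lit 5) (nat_lit 68) (nat_lit 5) (nat_lit 66) (nat_lit 4) (nat_lit 425) (nat_lit 391) (nat_lit 384)) (XT.lf (nat_lit 0) (nat_lit 8433548097) (nat_lit 228) (nat_lit 1975312767) (nat_lit 0) (nat_lit 1370772822) (nat_lit 63) (nat_lit 5) (nat_lit 66) (nat_lit 4) (nat_lit 63) (nat_lit 4) (nat_lit 426) (nat_lit 391) (nat_lit 383)))))) (XT.nd (nat_lit 546) (nat_lit 836) (nat_lit 0) (XT.nd (nat_lit 234) (nat_lit 684) (nat_lit 0) (XT.nd (nat_lit 78) (nat_lit 304) (nat_lit 0) (XT.lf (nat_lit 0) (nat_lit 1152135798) (nat_lit 76) (nat_lit 3155049877) (nat_lit 152) (nat_lit 7968126882) (nat_lit 59) (nat_lit 5) (nat_lit 60) (nat_lit 5) (nat_lit 61) (nat_lit 4) (nat_lit 427) (nat_lit 391) (nat_lit 382)) (XT.nd (nat_lit 78) (nat_lit 152) (nat_lit 0) (XT.lf (nat_lit 0) (nat_lit 4390384493) (nat_lit 152) (nat_lit 8134129293) (nat_lit 152) (nat_lit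 279965285) (nat_lit 57) (nat_lit 4) (nat_lit 59) (nat_lit 5) (nat_lit 59) (nat_lit 4) (nat_lit 428) (nat_lit 391) (nat_lit 381)) (XT.lf (nat_lit 0) (nat_lit 7618095792) (nat_lit 76) (nat_lit 174230092) (nat_lit 152) (nat_lit 5576120298) (nat_lit 55) (nat_lit 5) (nat_lit 56) (nat_lit 5) (nat_lit 57) (nat_lit 4) (nat_lit 429) (nat_lit 391) (nat_lit 380)))) (XT.nd (nat_lit 156) (nat_lit 380) (nat_lit 0) (XT.nd (nat_lit 78) (nat_lit 76) (nat_lit 0) (XT.lf (nat_lit 0) (nat_lit 2563529559) (nat_lit 228) (nat_lit 3145711773) (nat_lit 76) (nat_lit 8260061304) (nat_lit 52) (nat_lit 5) (nat_lit 55) (nat_lit 5) (nat_lit 53) (nat_lit 4) (nat_lit 430) (nat_lit 391) (nat_lit 379)) (XT.lf (nat_lit 0) (nat_lit 11210723788) (nat_lit 152) (nat_lit 580922221) (nat_lit 0) (nat_lit 2819444048) (nat_lit 51) (nat_lit 5) (nat_lit 53) (nat_lit 4) (nat_lit 51) (nat_lit 4) (nat_lit 431) (nat_lit 391) (nat_lit 378)))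 (XT.nd (nat_lit 78) (nat_lit 76) (nat_lit 0) (XT.lf (nat_lit 0) (nat_lit 1951372422) (nat_lit 76) (nat_lit 3270146012) (nat_lit 152) (nat_lit 10071427888) (nat_lit 47) (nat_lit 5) (nat_lit 48) (nat_lit 5) (nat_lit 49) (nat_lit 4) (nat_lit 432) (nat_lit 391) (nat_lit 377)) (XT.lf (nat_lit 0) (nat_lit 4411588018) (nat_lit 76) (nat_lit 10131612286) (nat_lit 76) (nat_lit 1476920724) (nat_lit 46) (nat_lit 4) (nat_lit 47) (nat_lit 5) (nat_lit 47) (nat_lit 4) (nat_lit 433) (nat_lit 391) (nat_lit 376))))) (XT.nd (nat_lit 234) (nat_lit 456) (nat_lit 0) (XT.nd (nat_lit 78) (nat_lit 228) (nat_lit 0) (XT.lf (nat_lit 0) (nat_lit 6727609185) (nat_lit 76) (nat_lit 919921599) (nat_lit 152) (nat_lit 9147250212) (nat_lit 44) (nat_lit 5) (nat_lit 45) (nat_lit 5) (nat_lit 46) (nat_lit 4) (nat_lit 434) (nat_lit 391) (nat_lit 375)) (XT.nd (nat_lit 78) (nat_lit 76) (nat_lit 0) (XT.lf (nat_lit 0) (nat_lit 20400503)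 (nat_lit 152) (nat_lit 8742087786) (nat_lit 76) (nat_lit 8858135493) (nat_lit 42) (nat_lit 5) (nat_lit 44) (nat_lit 5) (nat_lit 43) (nat_lit 4) (nat_lit 435) (nat_lit 391) (nat_lit 374)) (XT.lf (nat_lit 0) (nat_lit 9700381034) (nat_lit 152) (nat_lit 7694451678) (nat_lit 0) (nat_lit 1105245452) (nat_lit 41) (nat_lit 5) (nat_lit 43) (nat_lit 4) (nat_lit 41) (nat_lit 4) (nat_lit 436) (nat_lit 391) (nat_lit 373)))) (XT.nd (nat_lit 156) (nat_lit 228) (nat_lit 0) (XT.nd (nat_lit 78) (nat_lit 76) (nat_lit 0) (XT.lf (nat_lit 0) (nat_lit 907363940) (nat_lit 152) (nat_lit 6947547036) (nat_lit 76) (nat_lit 11583185208) (nat_lit 39) (nat_lit 5) (nat_lit 41) (nat_lit 5) (nat_lit 40) (nat_lit 4) (nat_lit 437) (nat_lit 391) (nat_lit 372)) (XT.lf (nat_lit 0) (nat_lit 11214445046) (nat_lit 152) (nat_lit 6584102393) (nat_lit 0) (nat_lit 2638817096) (nat_lit 38) (nat_lit 5) (nat_lit 40) (nat_lit 4) (nat_lit 38)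 (nat_lit 4) (nat_lit 438) (nat_lit 391) (nat_lit 371))) (XT.nd (nat_lit 78) (nat_lit 76) (nat_lit 0) (XT.lf (nat_lit 0) (nat_lit 1034973314) (nat_lit 152) (nat_lit 6627447852) (nat_lit 76) (nat_lit 13841913719) (nat_lit 36) (nat_lit 5) (nat_lit 38) (nat_lit 5) (nat_lit 37) (nat_lit 4) (nat_lit 439) (nat_lit 391) (nat_lit 370)) (XT.lf (nat_lit 0) (nat_lit 11956970429) (nat_lit 152) (nat_lit 7212368909) (nat_lit 0) (nat_lit 3471441509) (nat_lit 35) (nat_lit 5) (nat_lit 37) (nat_lit 4) (nat_lit 35) (nat_lit 4) (nat_lit 440) (nat_lit 391) (nat_lit 369))))))) (XT.nd (nat_lit 1092) (nat_lit 760) (nat_lit 0) (XT.nd (nat_lit 546) (nat_lit 684) (nat_lit 0) (XT.nd (nat_lit 234) (nat_lit 380) (nat_lit 0) (XT.nd (nat_lit 78) (nat_lit 152) (nat_lit 0) (XT.lf (nat_lit 0) (nat_lit 136705764) (nat_lit 152) (nat_lit 8346959545) (nat_lit 76) (nat_lit 15372152724) (nat_lit 33) (nat_lit 5) (nat_lit 35) (nat_lit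 5) (nat_lit 34) (nat_lit 4) (nat_lit 441) (nat_lit 391) (nat_lit 368)) (XT.nd (nat_lit 78) (nat_lit 76) (nat_lit 0) (XT.lf (nat_lit 0) (nat_lit 11630985311) (nat_lit 152) (nat_lit 10229538135) (nat_lit 0) (nat_lit 3289662283) (nat_lit 32) (nat_lit 5) (nat_lit 34) (nat_lit 4) (nat_lit 32) (nat_lit 4) (nat_lit 442) (nat_lit 391) (nat_lit 367)) (XT.lf (nat_lit 0) (nat_lit 13646142752) (nat_lit 76) (nat_lit 10672635934) (nat_lit 76) (nat_lit 2215631410) (nat_lit 31) (nat_lit 4) (nat_lit 32) (nat_lit 5) (nat_lit 32) (nat_lit 4) (nat_lit 443) (nat_lit 391) (nat_lit 366)))) (XT.nd (nat_lit 156) (nat_lit 152) (nat_lit 0) (XT.nd (nat_lit 78) (nat_lit 76) (nat_lit 0) (XT.lf (nat_lit 0) (nat_lit 9837689539) (nat_lit 152) (nat_lit 16494236068) (nat_lit 0) (nat_lit 1681387615) (nat_lit 29) (nat_lit 5) (nat_lit 31) (nat_lit 4) (nat_lit 29) (nat_lit 4) (nat_lit 444) (nat_lit 391) (nat_lit 365)) (XT.lf (nat_lit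 0) (nat_lit 8358321891) (nat_lit 76) (nat_lit 14742497185) (nat_lit 76) (nat_lit 6491739796) (nat_lit 28) (nat_lit 4) (nat_lit 29) (nat_lit 5) (nat_lit 29) (nat_lit 4) (nat_lit 445) (nat_lit 391) (nat_lit 364))) (XT.nd (nat_lit 78) (nat_lit 0) (nat_lit 0) (XT.lf (nat_lit 0) (nat_lit 4119297509) (nat_lit 76) (nat_lit 1957538423) (nat_lit 152) (nat_lit 25209225633) (nat_lit 26) (nat_lit 5) (nat_lit 27) (nat_lit 5) (nat_lit 28) (nat_lit 4) (nat_lit 446) (nat_lit 391) (nat_lit 363)) (XT.lf (nat_lit 0) (nat_lit 19783472761) (nat_lit 152) (nat_lit 1543063408) (nat_lit 0) (nat_lit 11765190391) (nat_lit 26) (nat_lit 5) (nat_lit 28) (nat_lit 4) (nat_lit 26) (nat_lit 4) (nat_lit 447) (nat_lit 391) (nat_lit 362))))) (XT.nd (nat_lit 234) (nat_lit 380) (nat_lit 0) (XT.nd (nat_lit 78) (nat_lit 228) (nat_lit 0) (XT.lf (nat_lit 0) (nat_lit 26572689503) (nat_lit 76) (nat_lit 8272951221) (nat_lit 76) (nat_lit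 183257619) (nat_lit 25) (nat_lit 4) (nat_lit 26) (nat_lit 5) (nat_lit 26) (nat_lit 4) (nat_lit 448) (nat_lit 391) (nat_lit 361)) (XT.nd (nat_lit 78) (nat_lit 76) (nat_lit 0) (XT.lf (nat_lit 0) (nat_lit 13796129071) (nat_lit 152) (nat_lit 17272698658) (nat_lit 0) (nat_lit 6028686107) (nat_lit 23) (nat_lit 5) (nat_lit 25) (nat_lit 4) (nat_lit 23) (nat_lit 4) (nat_lit 449) (nat_lit 391) (nat_lit 360)) (XT.lf (nat_lit 0) (nat_lit 11204370369) (nat_lit 76) (nat_lit 17969271168) (nat_lit 76) (nat_lit 10143519994) (nat_lit 22) (nat_lit 4) (nat_lit 23) (nat_lit 5) (nat_lit 23) (nat_lit 4) (nat_lit 450) (nat_lit 391) (nat_lit 359)))) (XT.nd (nat_lit 156) (nat_lit 228) (nat_lit 0) (XT.nd (nat_lit 78) (nat_lit 0) (nat_lit 0) (XT.lf (nat_lit 0) (nat_lit 478397884) (nat_lit 76) (nat_lit 3598742672) (nat_lit 152) (nat_lit 37627051474) (nat_lit 20) (nat_lit 5) (nat_lit 21) (nat_lit 5) (nat_lit 22) (nat_lit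 4) (nat_lit 451) (nat_lit 391) (nat_lit 358)) (XT.lf (nat_lit 0) (nat_lit 19600811655) (nat_lit 152) (nat_lit 12598336788) (nat_lit 0) (nat_lit 12048687703) (nat_lit 20) (nat_lit 5) (nat_lit 22) (nat_lit 4) (nat_lit 20) (nat_lit 4) (nat_lit 452) (nat_lit 391) (nat_lit 357))) (XT.nd (nat_lit 78) (nat_lit 152) (nat_lit 0) (XT.lf (nat_lit 0) (nat_lit 18540735905) (nat_lit 76) (nat_lit 18020354577) (nat_lit 76) (nat_lit 10424147827) (nat_lit 19) (nat_lit 4) (nat_lit 20) (nat_lit 5) (nat_lit 20) (nat_lit 4) (nat_lit 453) (nat_lit 391) (nat_lit 356)) (XT.lf (nat_lit 0) (nat_lit 2382971074) (nat_lit 76) (nat_lit 2504831476) (nat_lit 152) (nat_lit 45044516163) (nat_lit 17) (nat_lit 5) (nat_lit 18) (nat_lit 5) (nat_lit 19) (nat_lit 4) (nat_lit 454) (nat_lit 391) (nat_lit 355)))))) (XT.nd (nat_lit 546) (nat_lit 380) (nat_lit 0) (XT.nd (nat_lit 234) (nat_lit 304) (nat_lit 0) (XT.nd (nat_lit 78) (nat_lit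 76) (nat_lit 0) (XT.lf (nat_lit 0) (nat_lit 21643883322) (nat_lit 152) (nat_lit 17098987571) (nat_lit 0) (nat_lit 14334532799) (nat_lit 17) (nat_lit 5) (nat_lit 19) (nat_lit 4) (nat_lit 17) (nat_lit 4) (nat_lit 455) (nat_lit 391) (nat_lit 354)) (XT.nd (nat_lit 78) (nat_lit 0) (nat_lit 0) (XT.lf (nat_lit 0) (nat_lit 15983996300) (nat_lit 76) (nat_lit 23912488796) (nat_lit 76) (nat_lit 16569810325) (nat_lit 16) (nat_lit 4) (nat_lit 17) (nat_lit 5) (nat_lit 17) (nat_lit 4) (nat_lit 456) (nat_lit 391) (nat_lit 353)) (XT.lf (nat_lit 0) (nat_lit 52063315215) (nat_lit 76) (nat_lit 7714059269) (nat_lit 76) (nat_lit 340521586) (nat_lit 16) (nat_lit 4) (nat_lit 17) (nat_lit 5) (nat_lit 17) (nat_lit 4) (nat_lit 457) (nat_lit 391) (nat_lit 352)))) (XT.nd (nat_lit 156) (nat_lit 152) (nat_lit 0) (XT.nd (nat_lit 78) (nat_lit 0) (nat_lit 0) (XT.lf (nat_lit 0) (nat_lit 17103713536) (nat_lit 152) (nat_lit 36867076762)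 (nat_lit 0) (nat_lit 10054083987) (nat_lit 14) (nat_lit 5) (nat_lit 16) (nat_lit 4) (nat_lit 14) (nat_lit 4) (nat_lit 458) (nat_lit 391) (nat_lit 351)) (XT.lf (nat_lit 0) (nat_lit 36085796810) (nat_lit 152) (nat_lit 3139653816) (nat_lit 0) (nat_lit 29010970308) (nat_lit 14) (nat_lit 5) (nat_lit 16) (nat_lit 4) (nat_lit 14) (nat_lit 4) (nat_lit 459) (nat_lit 391) (nat_lit 350))) (XT.nd (nat_lit 78) (nat_lit 76) (nat_lit 0) (XT.lf (nat_lit 0) (nat_lit 34157995131) (nat_lit 76) (nat_lit 22851939977) (nat_lit 76) (nat_lit 15753782964) (nat_lit 13) (nat_lit 4) (nat_lit 14) (nat_lit 5) (nat_lit 14) (nat_lit 4) (nat_lit 460) (nat_lit 391) (nat_lit 349)) (XT.lf (nat_lit 0) (nat_lit 1841121387) (nat_lit 152) (nat_lit 3345460494) (nat_lit 76) (nat_lit 72467648043) (nat_lit 12) (nat_lit 5) (nat_lit 14) (nat_lit 5) (nat_lit 13) (nat_lit 4) (nat_lit 461) (nat_lit 391) (nat_lit 348))))) (XT.nd (nat_lit 312)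 (nat_lit 228) (nat_lit 0) (XT.nd (nat_lit 156) (nat_lit 76) (nat_lit 0) (XT.nd (nat_lit 78) (nat_lit 0) (nat_lit 0) (XT.lf (nat_lit 0) (nat_lit 20981755799) (nat_lit 152) (nat_lit 47724828319) (nat_lit 0) (nat_lit 14181982950) (nat_lit 11) (nat_lit 5) (nat_lit 13) (nat_lit 4) (nat_lit 11) (nat_lit 4) (nat_lit 462) (nat_lit 391) (nat_lit 347)) (XT.lf (nat_lit 0) (nat_lit 41704369106) (nat_lit 152) (nat_lit 11947788887) (nat_lit 0) (nat_lit 34886957674) (nat_lit 11) (nat_lit 5) (nat_lit 13) (nat_lit 4) (nat_lit 11) (nat_lit 4) (nat_lit 463) (nat_lit 391) (nat_lit 346))) (XT.nd (nat_lit 78) (nat_lit 0) (nat_lit 0) (XT.lf (nat_lit 0) (nat_lit 27388593674) (nat_lit 76) (nat_lit 37034960315) (nat_lit 76) (nat_lit 30201216862) (nat_lit 10) (nat_lit 4) (nat_lit 11) (nat_lit 5) (nat_lit 11) (nat_lit 4) (nat_lit 464) (nat_lit 391) (nat_lit 345)) (XT.lf (nat_lit 0) (nat_lit 70126910099) (nat_lit 76) (nat_lit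 18956538042) (nat_lit 76) (nat_lit 12107672347) (nat_lit 10) (nat_lit 4) (nat_lit 11) (nat_lit 5) (nat_lit 11) (nat_lit 4) (nat_lit 465) (nat_lit 391) (nat_lit 344)))) (XT.nd (nat_lit 156) (nat_lit 76) (nat_lit 0) (XT.nd (nat_lit 78) (nat_lit 0) (nat_lit 0) (XT.lf (nat_lit 0) (nat_lit 7251616141) (nat_lit 152) (nat_lit 100306999543) (nat_lit 0) (nat_lit 715551597) (nat_lit 8) (nat_lit 5) (nat_lit 10) (nat_lit 4) (nat_lit 8) (nat_lit 4) (nat_lit 466) (nat_lit 391) (nat_lit 343)) (XT.lf (nat_lit 0) (nat_lit 28533099864) (nat_lit 152) (nat_lit 65356264142) (nat_lit 0) (nat_lit 21984687810) (nat_lit 8) (nat_lit 5) (nat_lit 10) (nat_lit 4) (nat_lit 8) (nat_lit 4) (nat_lit 467) (nat_lit 391) (nat_lit 342))) (XT.nd (nat_lit 78) (nat_lit 76) (nat_lit 0) (XT.lf (nat_lit 0) (nat_lit 51445198411) (nat_lit 152) (nat_lit 27754970993) (nat_lit 0) (nat_lit 44885353478) (nat_lit 8) (nat_lit 5) (nat_lit 10)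 (nat_lit 4) (nat_lit 8) (nat_lit 4) (nat_lit 468) (nat_lit 391) (nat_lit 341)) (XT.lf (nat_lit 0) (nat_lit 13140273183) (nat_lit 76) (nat_lit 63188570488) (nat_lit 76) (nat_lit 56618139556) (nat_lit 7) (nat_lit 4) (nat_lit 8) (nat_lit 5) (nat_lit 8) (nat_lit 4) (nat_lit 469) (nat_lit 391) (nat_lit 340))))))))
noncomputable def xc32 : XT := (XT.nd (nat_lit 2184) (nat_lit 0) (nat_lit 0) (XT.nd (nat_lit 1092) (nat_lit 76) (nat_lit 0) (XT.nd (nat_lit 546) (nat_lit 228) (nat_lit 0) (XT.nd (nat_lit 234) (nat_lit 76) (nat_lit 0) (XT.nd (nat_lit 78) (nat_lit 76) (nat_lit 0) (XT.lf (nat_lit 0) (nat_lit 58169389636) (nat_lit 76) (nat_lit 45453606628) (nat_lit 76) (nat_lit 38873373844) (nat_lit 7) (nat_lit 4) (nat_lit 8) (nat_lit 5) (nat_lit 8) (nat_lit 4) (nat_lit 470) (nat_lit 391) (nat_lit 339)) (XT.nd (nat_lit 78) (nat_lit 76) (nat_lit 0) (XT.lf (nat_lit 0) (nat_lit 106681512887) (nat_lit 76) (nat_lit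 26360225605) (nat_lit 76) (nat_lit 19770917033) (nat_lit 7) (nat_lit 4) (nat_lit 8) (nat_lit 5) (nat_lit 8) (nat_lit 4) (nat_lit 471) (nat_lit 391) (nat_lit 338)) (XT.lf (nat_lit 0) (nat_lit 776747829) (nat_lit 152) (nat_lit 5005379028) (nat_lit 76) (nat_lit 158174219755) (nat_lit 6) (nat_lit 5) (nat_lit 8) (nat_lit 5) (nat_lit 7) (nat_lit 4) (nat_lit 472) (nat_lit 391) (nat_lit 337)))) (XT.nd (nat_lit 156) (nat_lit 0) (nat_lit 0) (XT.nd (nat_lit 78) (nat_lit 0) (nat_lit 0) (XT.lf (nat_lit 0) (nat_lit 23133702406) (nat_lit 152) (nat_lit 135955961035) (nat_lit 0) (nat_lit 16842756592) (nat_lit 5) (nat_lit 5) (nat_lit 7) (nat_lit 4) (nat_lit 5) (nat_lit 4) (nat_lit 473) (nat_lit 391) (nat_lit 336)) (XT.lf (nat_lit 0) (nat_lit 47415432947) (nat_lit 152) (nat_lit 100326710186) (nat_lit 0) (nat_lit 41117625558) (nat_lit 5) (nat_lit 5) (nat_lit 7) (nat_lit 4) (nat_lit 5) (nat_lit 4) (nat_lit 474)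 (nat_lit 391) (nat_lit 335))) (XT.nd (nat_lit 78) (nat_lit 0) (nat_lit 0) (XT.lf (nat_lit 0) (nat_lit 73593500590) (nat_lit 152) (nat_lit 61940775148) (nat_lit 0) (nat_lit 67289339892) (nat_lit 5) (nat_lit 5) (nat_lit 7) (nat_lit 4) (nat_lit 5) (nat_lit 4) (nat_lit 475) (nat_lit 391) (nat_lit 334)) (XT.lf (nat_lit 0) (nat_lit 101823034626) (nat_lit 152) (nat_lit 20570683713) (nat_lit 0) (nat_lit 95512991233) (nat_lit 5) (nat_lit 5) (nat_lit 7) (nat_lit 4) (nat_lit 5) (nat_lit 4) (nat_lit 476) (nat_lit 391) (nat_lit 333))))) (XT.nd (nat_lit 234) (nat_lit 152) (nat_lit 0) (XT.nd (nat_lit 78) (nat_lit 0) (nat_lit 0) (XT.lf (nat_lit 0) (nat_lit 24823218224) (nat_lit 76) (nat_lit 107835662960) (nat_lit 76) (nat_lit 101520172629) (nat_lit 4) (nat_lit 4) (nat_lit 5) (nat_lit 5) (nat_lit 5) (nat_lit 4) (nat_lit 477) (nat_lit 391) (nat_lit 332)) (XT.nd (nat_lit 78) (nat_lit 0) (nat_lit 0) (XT.lf (nat_lit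 0) (nat_lit 74506399492) (nat_lit 76) (nat_lit 91775648755) (nat_lit 76) (nat_lit 85455114962) (nat_lit 4) (nat_lit 4) (nat_lit 5) (nat_lit 5) (nat_lit 5) (nat_lit 4) (nat_lit 478) (nat_lit 391) (nat_lit 331)) (XT.lf (nat_lit 0) (nat_lit 128093119238) (nat_lit 76) (nat_lit 74466879752) (nat_lit 76) (nat_lit 68141676086) (nat_lit 4) (nat_lit 4) (nat_lit 5) (nat_lit 5) (nat_lit 5) (nat_lit 4) (nat_lit 479) (nat_lit 391) (nat_lit 330)))) (XT.nd (nat_lit 156) (nat_lit 152) (nat_lit 0) (XT.nd (nat_lit 78) (nat_lit 0) (nat_lit 0) (XT.lf (nat_lit 0) (nat_lit 185900928394) (nat_lit 76) (nat_lit 55806785467) (nat_lit 76) (nat_lit 49477257845) (nat_lit 4) (nat_lit 4) (nat_lit 5) (nat_lit 5) (nat_lit 5) (nat_lit 4) (nat_lit 480) (nat_lit 391) (nat_lit 329)) (XT.lf (nat_lit 0) (nat_lit 248272391755) (nat_lit 76) (nat_lit 35684787564) (nat_lit 76) (nat_lit 29351256279) (nat_lit 4) (nat_lit 4) (nat_lit 5)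 (nat_lit 5) (nat_lit 5) (nat_lit 4) (nat_lit 481) (nat_lit 391) (nat_lit 328))) (XT.nd (nat_lit 78) (nat_lit 152) (nat_lit 0) (XT.lf (nat_lit 0) (nat_lit 315577117994) (nat_lit 76) (nat_lit 13981644574) (nat_lit 76) (nat_lit 7644406194) (nat_lit 4) (nat_lit 4) (nat_lit 5) (nat_lit 5) (nat_lit 5) (nat_lit 4) (nat_lit 482) (nat_lit 391) (nat_lit 327)) (XT.lf (nat_lit 0) (nat_lit 15827540686) (nat_lit 152) (nat_lit 337354089450) (nat_lit 0) (nat_lit 9788806519) (nat_lit 2) (nat_lit 5) (nat_lit 4) (nat_lit 4) (nat_lit 2) (nat_lit 4) (nat_lit 483) (nat_lit 391) (nat_lit 326)))))) (XT.nd (nat_lit 546) (nat_lit 76) (nat_lit 0) (XT.nd (nat_lit 234) (nat_lit 0) (nat_lit 0) (XT.nd (nat_lit 78) (nat_lit 0) (nat_lit 0) (XT.lf (nat_lit 0) (nat_lit 41506189299) (nat_lit 152) (nat_lit 313792364252) (nat_lit 0) (nat_lit 35464428239) (nat_lit 2) (nat_lit 5) (nat_lit 4) (nat_lit 4) (nat_lit 2) (nat_lit 4) (nat_lit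 484) (nat_lit 391) (nat_lit 325)) (XT.nd (nat_lit 78) (nat_lit 0) (nat_lit 0) (XT.lf (nat_lit 0) (nat_lit 69215560072) (nat_lit 152) (nat_lit 288393552756) (nat_lit 0) (nat_lit 63170996335) (nat_lit 2) (nat_lit 5) (nat_lit 4) (nat_lit 4) (nat_lit 2) (nat_lit 4) (nat_lit 485) (nat_lit 391) (nat_lit 324)) (XT.lf (nat_lit 0) (nat_lit 99119856685) (nat_lit 152) (nat_lit 261007143487) (nat_lit 0) (nat_lit 93072697876) (nat_lit 2) (nat_lit 5) (nat_lit 4) (nat_lit 4) (nat_lit 2) (nat_lit 4) (nat_lit 486) (nat_lit 391) (nat_lit 323)))) (XT.nd (nat_lit 156) (nat_lit 0) (nat_lit 0) (XT.nd (nat_lit 78) (nat_lit 0) (nat_lit 0) (XT.lf (nat_lit 0) (nat_lit 131396289784) (nat_lit 152) (nat_lit 231470846612) (nat_lit 0) (nat_lit 125346728130) (nat_lit 2) (nat_lit 5) (nat_lit 4) (nat_lit 4) (nat_lit 2) (nat_lit 4) (nat_lit 487) (nat_lit 391) (nat_lit 322)) (XT.lf (nat_lit 0) (nat_lit 166236127121) (nat_lit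 152) (nat_lit 199609632222) (nat_lit 0) (nat_lit 160184340612) (nat_lit 2) (nat_lit 5) (nat_lit 4) (nat_lit 4) (nat_lit 2) (nat_lit 4) (nat_lit 488) (nat_lit 391) (nat_lit 321))) (XT.nd (nat_lit 78) (nat_lit 0) (nat_lit 0) (XT.lf (nat_lit 0) (nat_lit 203845826992) (nat_lit 152) (nat_lit 165234693123) (nat_lit 0) (nat_lit 197791980430) (nat_lit 2) (nat_lit 5) (nat_lit 4) (nat_lit 4) (nat_lit 2) (nat_lit 4) (nat_lit 489) (nat_lit 391) (nat_lit 320)) (XT.lf (nat_lit 0) (nat_lit 244448261691) (nat_lit 152) (nat_lit 128142325971) (nat_lit 0) (nat_lit 238392507674) (nat_lit 2) (nat_lit 5) (nat_lit 4) (nat_lit 4) (nat_lit 2) (nat_lit 4) (nat_lit 490) (nat_lit 391) (nat_lit 319))))) (XT.nd (nat_lit 234) (nat_lit 0) (nat_lit 0) (XT.nd (nat_lit 78) (nat_lit 76) (nat_lit 0) (XT.lf (nat_lit 0) (nat_lit 288284038240) (nat_lit 152) (nat_lit 88112724146) (nat_lit 0) (nat_lit 282226518061) (nat_lit 2) (nat_lit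 5) (nat_lit 4) (nat_lit 4) (nat_lit 2) (nat_lit 4) (nat_lit 491) (nat_lit 391) (nat_lit 318)) (XT.nd (nat_lit 78) (nat_lit 76) (nat_lit 0) (XT.lf (nat_lit 0) (nat_lit 335612924203) (nat_lit 152) (nat_lit 44908675192) (nat_lit 0) (nat_lit 329553768688) (nat_lit 2) (nat_lit 5) (nat_lit 4) (nat_lit 4) (nat_lit 2) (nat_lit 4) (nat_lit 492) (nat_lit 391) (nat_lit 317)) (XT.lf (nat_lit 0) (nat_lit 1782909108) (nat_lit 76) (nat_lit 384960314152) (nat_lit 76) (nat_lit 378899644437) (nat_lit 1) (nat_lit 4) (nat_lit 2) (nat_lit 5) (nat_lit 2) (nat_lit 4) (nat_lit 493) (nat_lit 391) (nat_lit 316)))) (XT.nd (nat_lit 156) (nat_lit 0) (nat_lit 0) (XT.nd (nat_lit 78) (nat_lit 0) (nat_lit 0) (XT.lf (nat_lit 0) (nat_lit 53788765195) (nat_lit 76) (nat_lit 388945284370) (nat_lit 76) (nat_lit 382883212618) (nat_lit 1) (nat_lit 4) (nat_lit 2) (nat_lit 5) (nat_lit 2) (nat_lit 4) (nat_lit 494) (nat_lit 391) (nat_lit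 315)) (XT.lf (nat_lit 0) (nat_lit 109932192302) (nat_lit 76) (nat_lit 393260674833) (nat_lit 76) (nat_lit 387197304900) (nat_lit 1) (nat_lit 4) (nat_lit 2) (nat_lit 5) (nat_lit 2) (nat_lit 4) (nat_lit 495) (nat_lit 391) (nat_lit 314))) (XT.nd (nat_lit 78) (nat_lit 0) (nat_lit 0) (XT.lf (nat_lit 0) (nat_lit 170545892221) (nat_lit 76) (nat_lit 397932058227) (nat_lit 76) (nat_lit 391867486273) (nat_lit 1) (nat_lit 4) (nat_lit 2) (nat_lit 5) (nat_lit 2) (nat_lit 4) (nat_lit 496) (nat_lit 391) (nat_lit 313)) (XT.lf (nat_lit 0) (nat_lit 235989057247) (nat_lit 76) (nat_lit 402987116821) (nat_lit 76) (nat_lit 396921431885) (nat_lit 1) (nat_lit 4) (nat_lit 2) (nat_lit 5) (nat_lit 2) (nat_lit 4) (nat_lit 497) (nat_lit 391) (nat_lit 312))))))) (XT.nd (nat_lit 56862) (nat_lit 0) (nat_lit 2736) (XT.nd (nat_lit 56316) (nat_lit 0) (nat_lit 4864) (XT.nd (nat_lit 234) (nat_lit 0) (nat_lit 0) (XT.nd (nat_lit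 78) (nat_lit 0) (nat_lit 0) (XT.lf (nat_lit 0) (nat_lit 306649498728) (nat_lit 76) (nat_lit 408455806520) (nat_lit 76) (nat_lit 402389091046) (nat_lit 1) (nat_lit 4) (nat_lit 2) (nat_lit 5) (nat_lit 2) (nat_lit 4) (nat_lit 498) (nat_lit 391) (nat_lit 311)) (XT.nd (nat_lit 78) (nat_lit 0) (nat_lit 0) (XT.lf (nat_lit 0) (nat_lit 382945945207) (nat_lit 76) (nat_lit 414370534374) (nat_lit 76) (nat_lit 408302864696) (nat_lit 1) (nat_lit 4) (nat_lit 2) (nat_lit 5) (nat_lit 2) (nat_lit 4) (nat_lit 499) (nat_lit 391) (nat_lit 310)) (XT.lf (nat_lit 0) (nat_lit 465330523773) (nat_lit 76) (nat_lit 420766350621) (nat_lit 76) (nat_lit 414697797423) (nat_lit 1) (nat_lit 4) (nat_lit 2) (nat_lit 5) (nat_lit 2) (nat_lit 4) (nat_lit 500) (nat_lit 391) (nat_lit 309)))) (XT.nd (nat_lit 55926) (nat_lit 0) (nat_lit 6840) (XT.nd (nat_lit 55848) (nat_lit 0) (nat_lit 7676) (XT.lf (nat_lit 0) (nat_lit 554291439337)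 (nat_lit 76) (nat_lit 427681156395) (nat_lit 76) (nat_lit 421611785121) (nat_lit 1) (nat_lit 4) (nat_lit 2) (nat_lit 5) (nat_lit 2) (nat_lit 4) (nat_lit 501) (nat_lit 391) (nat_lit 308)) (XT.lf (nat_lit 0) (nat_lit 2169568782) (nat_lit 304) (nat_lit 993261572) (nat_lit 304) (nat_lit 993261572) (nat_lit 102) (nat_lit 4) (nat_lit 106) (nat_lit 5) (nat_lit 106) (nat_lit 4) (nat_lit 416) (nat_lit 392) (nat_lit 392))) (XT.nd (nat_lit 78) (nat_lit 532) (nat_lit 0) (XT.lf (nat_lit 0) (nat_lit 4466040728) (nat_lit 304) (nat_lit 1276110649) (nat_lit 0) (nat_lit 2819026804) (nat_lit 98) (nat_lit 5) (nat_lit 102) (nat_lit 4) (nat_lit 98) (nat_lit 4) (nat_lit 417) (nat_lit 392) (nat_lit 391)) (XT.lf (nat_lit 0) (nat_lit 1615263115) (nat_lit 228) (nat_lit 720000265) (nat_lit 304) (nat_lit 6497307881) (nat_lit 91) (nat_lit 5) (nat_lit 94) (nat_lit 5) (nat_lit 95) (nat_lit 4) (nat_lit 418) (nat_lit 392) (nat_lit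 390))))) (XT.nd (nat_lit 234) (nat_lit 1064) (nat_lit 0) (XT.nd (nat_lit 78) (nat_lit 684) (nat_lit 0) (XT.lf (nat_lit 0) (nat_lit 4658191937) (nat_lit 228) (nat_lit 4416538014) (nat_lit 228) (nat_lit 50751546) (nat_lit 88) (nat_lit 4) (nat_lit 91) (nat_lit 5) (nat_lit 91) (nat_lit 4) (nat_lit 419) (nat_lit 392) (nat_lit 389)) (XT.nd (nat_lit 78) (nat_lit 456) (nat_lit 0) (XT.lf (nat_lit 0) (nat_lit 6579298457) (nat_lit 228) (nat_lit 1627232958) (nat_lit 0) (nat_lit 1235508392) (nat_lit 85) (nat_lit 5) (nat_lit 88) (nat_lit 4) (nat_lit 85) (nat_lit 4) (nat_lit 420) (nat_lit 392) (nat_lit 388)) (XT.lf (nat_lit 0) (nat_lit 1346626612) (nat_lit 152) (nat_lit 2452627317) (nat_lit 228) (nat_lit 5983007388) (nat_lit 79) (nat_lit 5) (nat_lit 81) (nat_lit 5) (nat_lit 82) (nat_lit 4) (nat_lit 421) (nat_lit 392) (nat_lit 387)))) (XT.nd (nat_lit 156) (nat_lit 608) (nat_lit 0) (XT.nd (nat_lit 78) (nat_lit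 152) (nat_lit 0) (XT.lf (nat_lit 0) (nat_lit 703118989) (nat_lit 304) (nat_lit 5661997021) (nat_lit 76) (nat_lit 3782678926) (nat_lit 75) (nat_lit 5) (nat_lit 79) (nat_lit 5) (nat_lit 76) (nat_lit 4) (nat_lit 422) (nat_lit 392) (nat_lit 386)) (XT.lf (nat_lit 0) (nat_lit 7666371397) (nat_lit 228) (nat_lit 2826390409) (nat_lit 0) (nat_lit 47355781) (nat_lit 73) (nat_lit 5) (nat_lit 76) (nat_lit 4) (nat_lit 73) (nat_lit 4) (nat_lit 423) (nat_lit 392) (nat_lit 385))) (XT.nd (nat_lit 78) (nat_lit 228) (nat_lit 0) (XT.lf (nat_lit 0) (nat_lit 37879063) (nat_lit 152) (nat_lit 4082865123) (nat_lit 228) (nat_lit 6838171059) (nat_lit 68) (nat_lit 5) (nat_lit 70) (nat_lit 5) (nat_lit 71) (nat_lit 4) (nat_lit 424) (nat_lit 392) (nat_lit 384)) (XT.lf (nat_lit 0) (nat_lit 194120653) (nat_lit 228) (nat_lit 8308445204) (nat_lit 76) (nat_lit 2904491816) (nat_lit 65) (nat_lit 5) (nat_lit 68) (nat_lit 5) (nat_lit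 66) (nat_lit 4) (nat_lit 425) (nat_lit 392) (nat_lit 383)))))) (XT.nd (nat_lit 546) (nat_lit 836) (nat_lit 0) (XT.nd (nat_lit 234) (nat_lit 836) (nat_lit 0) (XT.nd (nat_lit 78) (nat_lit 304) (nat_lit 0) (XT.lf (nat_lit 0) (nat_lit 6172635020) (nat_lit 152) (nat_lit 1400334787) (nat_lit 228) (nat_lit 4311330088) (nat_lit 63) (nat_lit 5) (nat_lit 65) (nat_lit 5) (nat_lit 66) (nat_lit 4) (nat_lit 426) (nat_lit 392) (nat_lit 382)) (XT.nd (nat_lit 78) (nat_lit 76) (nat_lit 0) (XT.lf (nat_lit 0) (nat_lit 3108076195) (nat_lit 228) (nat_lit 3104343156) (nat_lit 76) (nat_lit 6181563994) (nat_lit 60) (nat_lit 5) (nat_lit 63) (nat_lit 5) (nat_lit 61) (nat_lit 4) (nat_lit 427) (nat_lit 392) (nat_lit 381)) (XT.lf (nat_lit 0) (nat_lit 11000472842) (nat_lit 152) (nat_lit 465137225) (nat_lit 0) (nat_lit 1473798523) (nat_lit 59) (nat_lit 5) (nat_lit 61) (nat_lit 4) (nat_lit 59) (nat_lit 4) (nat_lit 428) (nat_lit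 392) (nat_lit 380)))) (XT.nd (nat_lit 156) (nat_lit 304) (nat_lit 0) (XT.nd (nat_lit 78) (nat_lit 228) (nat_lit 0) (XT.lf (nat_lit 0) (nat_lit 2188108323) (nat_lit 76) (nat_lit 3753162461) (nat_lit 152) (nat_lit 7575669800) (nat_lit 55) (nat_lit 5) (nat_lit 56) (nat_lit 5) (nat_lit 57) (nat_lit 4) (nat_lit 429) (nat_lit 392) (nat_lit 379)) (XT.lf (nat_lit 0) (nat_lit 326372920) (nat_lit 228) (nat_lit 9256543092) (nat_lit 76) (nat_lit 4551531669) (nat_lit 52) (nat_lit 5) (nat_lit 55) (nat_lit 5) (nat_lit 53) (nat_lit 4) (nat_lit 430) (nat_lit 392) (nat_lit 378))) (XT.nd (nat_lit 78) (nat_lit 228) (nat_lit 0) (XT.lf (nat_lit 0) (nat_lit 7493875849) (nat_lit 76) (nat_lit 1188571512) (nat_lit 152) (nat_lit 6108352484) (nat_lit 51) (nat_lit 5) (nat_lit 52) (nat_lit 5) (nat_lit 53) (nat_lit 4) (nat_lit 431) (nat_lit 392) (nat_lit 377)) (XT.lf (nat_lit 0) (nat_lit 2296633143) (nat_lit 228) (nat_lit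 5441008057) (nat_lit 76) (nat_lit 7752315171) (nat_lit 48) (nat_lit 5) (nat_lit 51) (nat_lit 5) (nat_lit 49) (nat_lit 4) (nat_lit 432) (nat_lit 392) (nat_lit 376))))) (XT.nd (nat_lit 234) (nat_lit 532) (nat_lit 0) (XT.nd (nat_lit 78) (nat_lit 228) (nat_lit 0) (XT.lf (nat_lit 0) (nat_lit 11250846930) (nat_lit 152) (nat_lit 3694770368) (nat_lit 0) (nat_lit 1289894329) (nat_lit 47) (nat_lit 5) (nat_lit 49) (nat_lit 4) (nat_lit 47) (nat_lit 4) (nat_lit 433) (nat_lit 392) (nat_lit 375)) (XT.nd (nat_lit 78) (nat_lit 76) (nat_lit 0) (XT.lf (nat_lit 0) (nat_lit 3951036705) (nat_lit 152) (nat_lit 2134602690) (nat_lit 76) (nat_lit 10942327780) (nat_lit 45) (nat_lit 5) (nat_lit 47) (nat_lit 5) (nat_lit 46) (nat_lit 4) (nat_lit 434) (nat_lit 392) (nat_lit 374)) (XT.lf (nat_lit 0) (nat_lit 13559948532) (nat_lit 152) (nat_lit 741066110) (nat_lit 0) (nat_lit 3572081241) (nat_lit 44) (nat_lit 5) (nat_lit 46)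 (nat_lit 4) (nat_lit 44) (nat_lit 4) (nat_lit 435) (nat_lit 392) (nat_lit 373)))) (XT.nd (nat_lit 156) (nat_lit 228) (nat_lit 0) (XT.nd (nat_lit 78) (nat_lit 76) (nat_lit 0) (XT.lf (nat_lit 0) (nat_lit 419012310) (nat_lit 76) (nat_lit 4766359645) (nat_lit 152) (nat_lit 13586525914) (nat_lit 41) (nat_lit 5) (nat_lit 42) (nat_lit 5) (nat_lit 43) (nat_lit 4) (nat_lit 436) (nat_lit 392) (nat_lit 372)) (XT.lf (nat_lit 0) (nat_lit 1327673437) (nat_lit 76) (nat_lit 14161552603) (nat_lit 76) (nat_lit 4240024275) (nat_lit 40) (nat_lit 4) (nat_lit 41) (nat_lit 5) (nat_lit 41) (nat_lit 4) (nat_lit 437) (nat_lit 392) (nat_lit 371))) (XT.nd (nat_lit 78) (nat_lit 76) (nat_lit 0) (XT.lf (nat_lit 0) (nat_lit 1895852198) (nat_lit 76) (nat_lit 3957597305) (nat_lit 152) (nat_lit 14895849028) (nat_lit 38) (nat_lit 5) (nat_lit 39) (nat_lit 5) (nat_lit 40) (nat_lit 4) (nat_lit 438) (nat_lit 392) (nat_lit 370)) (XT.lf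 (nat_lit 0) (nat_lit 2051641392) (nat_lit 76) (nat_lit 14783807020) (nat_lit 76) (nat_lit 5000555005) (nat_lit 37) (nat_lit 4) (nat_lit 38) (nat_lit 5) (nat_lit 38) (nat_lit 4) (nat_lit 439) (nat_lit 392) (nat_lit 369))))))))
noncomputable def xc33 : XT := (XT.nd (nat_lit 2184) (nat_lit 532) (nat_lit 0) (XT.nd (nat_lit 1092) (nat_lit 912) (nat_lit 0) (XT.nd (nat_lit 546) (nat_lit 608) (nat_lit 0) (XT.nd (nat_lit 234) (nat_lit 380) (nat_lit 0) (XT.nd (nat_lit 78) (nat_lit 152) (nat_lit 0) (XT.lf (nat_lit 0) (nat_lit 1750561328) (nat_lit 76) (nat_lit 3948255577) (nat_lit 152) (nat_lit 17296673249) (nat_lit 35) (nat_lit 5) (nat_lit 36) (nat_lit 5) (nat_lit 37) (nat_lit 4) (nat_lit 440) (nat_lit 392) (nat_lit 368)) (XT.nd (nat_lit 78) (nat_lit 76) (nat_lit 0) (XT.lf (nat_lit 0) (nat_lit 858853600) (nat_lit 76) (nat_lit 16480993974) (nat_lit 76) (nat_lit 6890750843) (nat_lit 34) (nat_lit 4) (nat_lit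 35) (nat_lit 5) (nat_lit 35) (nat_lit 4) (nat_lit 441) (nat_lit 392) (nat_lit 367)) (XT.lf (nat_lit 0) (nat_lit 4431624930) (nat_lit 152) (nat_lit 626877593) (nat_lit 76) (nat_lit 20491468130) (nat_lit 33) (nat_lit 5) (nat_lit 35) (nat_lit 5) (nat_lit 34) (nat_lit 4) (nat_lit 442) (nat_lit 392) (nat_lit 366)))) (XT.nd (nat_lit 156) (nat_lit 152) (nat_lit 0) (XT.nd (nat_lit 78) (nat_lit 152) (nat_lit 0) (XT.lf (nat_lit 0) (nat_lit 16714761313) (nat_lit 152) (nat_lit 2881266716) (nat_lit 0) (nat_lit 7358402434) (nat_lit 32) (nat_lit 5) (nat_lit 34) (nat_lit 4) (nat_lit 32) (nat_lit 4) (nat_lit 443) (nat_lit 392) (nat_lit 365)) (XT.lf (nat_lit 0) (nat_lit 1716450767) (nat_lit 152) (nat_lit 5936813043) (nat_lit 76) (nat_lit 20804036970) (nat_lit 30) (nat_lit 5) (nat_lit 32) (nat_lit 5) (nat_lit 31) (nat_lit 4) (nat_lit 444) (nat_lit 392) (nat_lit 364))) (XT.nd (nat_lit 78) (nat_lit 76) (nat_lit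 0) (XT.lf (nat_lit 0) (nat_lit 14535887738) (nat_lit 152) (nat_lit 10079689907) (nat_lit 0) (nat_lit 5443155531) (nat_lit 29) (nat_lit 5) (nat_lit 31) (nat_lit 4) (nat_lit 29) (nat_lit 4) (nat_lit 445) (nat_lit 392) (nat_lit 363)) (XT.lf (nat_lit 0) (nat_lit 16424958777) (nat_lit 76) (nat_lit 12260894661) (nat_lit 76) (nat_lit 3087182117) (nat_lit 28) (nat_lit 4) (nat_lit 29) (nat_lit 5) (nat_lit 29) (nat_lit 4) (nat_lit 446) (nat_lit 392) (nat_lit 362))))) (XT.nd (nat_lit 234) (nat_lit 304) (nat_lit 0) (XT.nd (nat_lit 78) (nat_lit 152) (nat_lit 0) (XT.lf (nat_lit 0) (nat_lit 10214983256) (nat_lit 152) (nat_lit 21984590096) (nat_lit 0) (nat_lit 1406702935) (nat_lit 26) (nat_lit 5) (nat_lit 28) (nat_lit 4) (nat_lit 26) (nat_lit 4) (nat_lit 447) (nat_lit 392) (nat_lit 361)) (XT.nd (nat_lit 78) (nat_lit 76) (nat_lit 0) (XT.lf (nat_lit 0) (nat_lit 5282669384) (nat_lit 76) (nat_lit 19578003029)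 (nat_lit 76) (nat_lit 10703601198) (nat_lit 25) (nat_lit 4) (nat_lit 26) (nat_lit 5) (nat_lit 26) (nat_lit 4) (nat_lit 448) (nat_lit 392) (nat_lit 360)) (XT.lf (nat_lit 0) (nat_lit 3122482861) (nat_lit 152) (nat_lit 2534535586) (nat_lit 76) (nat_lit 32008585639) (nat_lit 24) (nat_lit 5) (nat_lit 26) (nat_lit 5) (nat_lit 25) (nat_lit 4) (nat_lit 449) (nat_lit 392) (nat_lit 359)))) (XT.nd (nat_lit 156) (nat_lit 152) (nat_lit 0) (XT.nd (nat_lit 78) (nat_lit 76) (nat_lit 0) (XT.lf (nat_lit 0) (nat_lit 18115938239) (nat_lit 152) (nat_lit 12236688027) (nat_lit 0) (nat_lit 9551829677) (nat_lit 23) (nat_lit 5) (nat_lit 25) (nat_lit 4) (nat_lit 23) (nat_lit 4) (nat_lit 450) (nat_lit 392) (nat_lit 358)) (XT.lf (nat_lit 0) (nat_lit 18239635603) (nat_lit 76) (nat_lit 16341630751) (nat_lit 76) (nat_lit 7727532297) (nat_lit 22) (nat_lit 4) (nat_lit 23) (nat_lit 5) (nat_lit 23) (nat_lit 4) (nat_lit 451) (nat_lit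 392) (nat_lit 357))) (XT.nd (nat_lit 78) (nat_lit 0) (nat_lit 0) (XT.lf (nat_lit 0) (nat_lit 6487650201) (nat_lit 76) (nat_lit 901635453) (nat_lit 152) (nat_lit 37501899723) (nat_lit 20) (nat_lit 5) (nat_lit 21) (nat_lit 5) (nat_lit 22) (nat_lit 4) (nat_lit 452) (nat_lit 392) (nat_lit 356)) (XT.lf (nat_lit 0) (nat_lit 23976819340) (nat_lit 152) (nat_lit 7982390599) (nat_lit 0) (nat_lit 15688015848) (nat_lit 20) (nat_lit 5) (nat_lit 22) (nat_lit 4) (nat_lit 20) (nat_lit 4) (nat_lit 453) (nat_lit 392) (nat_lit 355)))))) (XT.nd (nat_lit 546) (nat_lit 380) (nat_lit 0) (XT.nd (nat_lit 234) (nat_lit 304) (nat_lit 0) (XT.nd (nat_lit 78) (nat_lit 152) (nat_lit 0) (XT.lf (nat_lit 0) (nat_lit 25403403844) (nat_lit 76) (nat_lit 16766508521) (nat_lit 76) (nat_lit 8439911135) (nat_lit 19) (nat_lit 4) (nat_lit 20) (nat_lit 5) (nat_lit 20) (nat_lit 4) (nat_lit 454) (nat_lit 392) (nat_lit 354)) (XT.nd (nat_lit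 78) (nat_lit 0) (nat_lit 0) (XT.lf (nat_lit 0) (nat_lit 7805548155) (nat_lit 76) (nat_lit 80861545) (nat_lit 152) (nat_lit 45910082609) (nat_lit 17) (nat_lit 5) (nat_lit 18) (nat_lit 5) (nat_lit 19) (nat_lit 4) (nat_lit 455) (nat_lit 392) (nat_lit 353)) (XT.lf (nat_lit 0) (nat_lit 25827761122) (nat_lit 152) (nat_lit 13539704968) (nat_lit 0) (nat_lit 17833481213) (nat_lit 17) (nat_lit 5) (nat_lit 19) (nat_lit 4) (nat_lit 17) (nat_lit 4) (nat_lit 456) (nat_lit 392) (nat_lit 352)))) (XT.nd (nat_lit 156) (nat_lit 152) (nat_lit 0) (XT.nd (nat_lit 78) (nat_lit 76) (nat_lit 0) (XT.lf (nat_lit 0) (nat_lit 21975787435) (nat_lit 76) (nat_lit 23456711032) (nat_lit 76) (nat_lit 15433857779) (nat_lit 16) (nat_lit 4) (nat_lit 17) (nat_lit 5) (nat_lit 17) (nat_lit 4) (nat_lit 457) (nat_lit 392) (nat_lit 351)) (XT.lf (nat_lit 0) (nat_lit 1850260004) (nat_lit 152) (nat_lit 4256277042) (nat_lit 76) (nat_lit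 58710740407) (nat_lit 15) (nat_lit 5) (nat_lit 17) (nat_lit 5) (nat_lit 16) (nat_lit 4) (nat_lit 458) (nat_lit 392) (nat_lit 350))) (XT.nd (nat_lit 78) (nat_lit 76) (nat_lit 0) (XT.lf (nat_lit 0) (nat_lit 20614433054) (nat_lit 152) (nat_lit 35500194155) (nat_lit 0) (nat_lit 12925092969) (nat_lit 14) (nat_lit 5) (nat_lit 16) (nat_lit 4) (nat_lit 14) (nat_lit 4) (nat_lit 459) (nat_lit 392) (nat_lit 349)) (XT.lf (nat_lit 0) (nat_lit 625727689) (nat_lit 76) (nat_lit 40340426704) (nat_lit 76) (nat_lit 32629484294) (nat_lit 13) (nat_lit 4) (nat_lit 14) (nat_lit 5) (nat_lit 14) (nat_lit 4) (nat_lit 460) (nat_lit 392) (nat_lit 348))))) (XT.nd (nat_lit 234) (nat_lit 228) (nat_lit 0) (XT.nd (nat_lit 78) (nat_lit 152) (nat_lit 0) (XT.lf (nat_lit 0) (nat_lit 40713477183) (nat_lit 76) (nat_lit 22753719941) (nat_lit 76) (nat_lit 15022775377) (nat_lit 13) (nat_lit 4) (nat_lit 14) (nat_lit 5) (nat_lit 14)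 (nat_lit 4) (nat_lit 461) (nat_lit 392) (nat_lit 347)) (XT.nd (nat_lit 78) (nat_lit 76) (nat_lit 0) (XT.lf (nat_lit 0) (nat_lit 3773203562) (nat_lit 152) (nat_lit 14397772) (nat_lit 76) (nat_lit 79989710025) (nat_lit 12) (nat_lit 5) (nat_lit 14) (nat_lit 5) (nat_lit 13) (nat_lit 4) (nat_lit 462) (nat_lit 392) (nat_lit 346)) (XT.lf (nat_lit 0) (nat_lit 24393729330) (nat_lit 152) (nat_lit 48042281021) (nat_lit 0) (nat_lit 16996954379) (nat_lit 11) (nat_lit 5) (nat_lit 13) (nat_lit 4) (nat_lit 11) (nat_lit 4) (nat_lit 463) (nat_lit 392) (nat_lit 345)))) (XT.nd (nat_lit 156) (nat_lit 152) (nat_lit 0) (XT.nd (nat_lit 78) (nat_lit 76) (nat_lit 0) (XT.lf (nat_lit 0) (nat_lit 46645749252) (nat_lit 152) (nat_lit 9662377217) (nat_lit 0) (nat_lit 39233852059) (nat_lit 11) (nat_lit 5) (nat_lit 13) (nat_lit 4) (nat_lit 11) (nat_lit 4) (nat_lit 464) (nat_lit 392) (nat_lit 344)) (XT.lf (nat_lit 0) (nat_lit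 32680055835) (nat_lit 76) (nat_lit 38431927471) (nat_lit 76) (nat_lit 31006028202) (nat_lit 10) (nat_lit 4) (nat_lit 11) (nat_lit 5) (nat_lit 11) (nat_lit 4) (nat_lit 465) (nat_lit 392) (nat_lit 343))) (XT.nd (nat_lit 78) (nat_lit 152) (nat_lit 0) (XT.lf (nat_lit 0) (nat_lit 78607780191) (nat_lit 76) (nat_lit 19023218799) (nat_lit 76) (nat_lit 11584354645) (nat_lit 10) (nat_lit 4) (nat_lit 11) (nat_lit 5) (nat_lit 11) (nat_lit 4) (nat_lit 466) (nat_lit 392) (nat_lit 342)) (XT.lf (nat_lit 0) (nat_lit 9234562345) (nat_lit 152) (nat_lit 105492889299) (nat_lit 0) (nat_lit 2138496938) (nat_lit 8) (nat_lit 5) (nat_lit 10) (nat_lit 4) (nat_lit 8) (nat_lit 4) (nat_lit 467) (nat_lit 392) (nat_lit 341))))))) (XT.nd (nat_lit 1092) (nat_lit 228) (nat_lit 0) (XT.nd (nat_lit 546) (nat_lit 76) (nat_lit 0) (XT.nd (nat_lit 234) (nat_lit 152) (nat_lit 0) (XT.nd (nat_lit 78) (nat_lit 76) (nat_lit 0) (XT.lf (nat_lit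 0) (nat_lit 32114652402) (nat_lit 152) (nat_lit 67956366933) (nat_lit 0) (nat_lit 25008000995) (nat_lit 8) (nat_lit 5) (nat_lit 10) (nat_lit 4) (nat_lit 8) (nat_lit 4) (nat_lit 468) (nat_lit 392) (nat_lit 340)) (XT.nd (nat_lit 78) (nat_lit 76) (nat_lit 0) (XT.lf (nat_lit 0) (nat_lit 56763503681) (nat_lit 152) (nat_lit 27541666506) (nat_lit 0) (nat_lit 49647050424) (nat_lit 8) (nat_lit 5) (nat_lit 10) (nat_lit 4) (nat_lit 8) (nat_lit 4) (nat_lit 469) (nat_lit 392) (nat_lit 339)) (XT.lf (nat_lit 0) (nat_lit 16519431474) (nat_lit 76) (nat_lit 67065666596) (nat_lit 76) (nat_lit 59940137551) (nat_lit 7) (nat_lit 4) (nat_lit 8) (nat_lit 5) (nat_lit 8) (nat_lit 4) (nat_lit 470) (nat_lit 392) (nat_lit 338)))) (XT.nd (nat_lit 156) (nat_lit 152) (nat_lit 0) (XT.nd (nat_lit 78) (nat_lit 0) (nat_lit 0) (XT.lf (nat_lit 0) (nat_lit 64978437508) (nat_lit 76) (nat_lit 47999164111) (nat_lit 76) (nat_lit 40865231558)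 (nat_lit 7) (nat_lit 4) (nat_lit 8) (nat_lit 5) (nat_lit 8) (nat_lit 4) (nat_lit 471) (nat_lit 392) (nat_lit 337)) (XT.lf (nat_lit 0) (nat_lit 117211864197) (nat_lit 76) (nat_lit 27459107498) (nat_lit 76) (nat_lit 20317393920) (nat_lit 7) (nat_lit 4) (nat_lit 8) (nat_lit 5) (nat_lit 8) (nat_lit 4) (nat_lit 472) (nat_lit 392) (nat_lit 336))) (XT.nd (nat_lit 78) (nat_lit 76) (nat_lit 0) (XT.lf (nat_lit 0) (nat_lit 1766724437) (nat_lit 152) (nat_lit 3527133134) (nat_lit 76) (nat_lit 171732598188) (nat_lit 6) (nat_lit 5) (nat_lit 8) (nat_lit 5) (nat_lit 7) (nat_lit 4) (nat_lit 473) (nat_lit 392) (nat_lit 335)) (XT.lf (nat_lit 0) (nat_lit 25885768988) (nat_lit 152) (nat_lit 145005247760) (nat_lit 0) (nat_lit 19070922124) (nat_lit 5) (nat_lit 5) (nat_lit 7) (nat_lit 4) (nat_lit 5) (nat_lit 4) (nat_lit 474) (nat_lit 392) (nat_lit 334))))) (XT.nd (nat_lit 234) (nat_lit 76) (nat_lit 0) (XT.nd (nat_lit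 78) (nat_lit 0) (nat_lit 0) (XT.lf (nat_lit 0) (nat_lit 52043269795) (nat_lit 152) (nat_lit 106661004263) (nat_lit 0) (nat_lit 45222540237) (nat_lit 5) (nat_lit 5) (nat_lit 7) (nat_lit 4) (nat_lit 5) (nat_lit 4) (nat_lit 475) (nat_lit 392) (nat_lit 333)) (XT.nd (nat_lit 78) (nat_lit 0) (nat_lit 0) (XT.lf (nat_lit 0) (nat_lit 80253760464) (nat_lit 152) (nat_lit 65329516106) (nat_lit 0) (nat_lit 73427583967) (nat_lit 5) (nat_lit 5) (nat_lit 7) (nat_lit 4) (nat_lit 5) (nat_lit 4) (nat_lit 476) (nat_lit 392) (nat_lit 332)) (XT.lf (nat_lit 0) (nat_lit 110684414272) (nat_lit 152) (nat_lit 20765855952) (nat_lit 0) (nat_lit 103853194313) (nat_lit 5) (nat_lit 5) (nat_lit 7) (nat_lit 4) (nat_lit 5) (nat_lit 4) (nat_lit 477) (nat_lit 392) (nat_lit 331)))) (XT.nd (nat_lit 156) (nat_lit 0) (nat_lit 0) (XT.nd (nat_lit 78) (nat_lit 0) (nat_lit 0) (XT.lf (nat_lit 0) (nat_lit 28196521940) (nat_lit 76) (nat_lit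 115759265809) (nat_lit 76) (nat_lit 108923375977) (nat_lit 4) (nat_lit 4) (nat_lit 5) (nat_lit 5) (nat_lit 5) (nat_lit 4) (nat_lit 478) (nat_lit 392) (nat_lit 330)) (XT.lf (nat_lit 0) (nat_lit 81751583912) (nat_lit 76) (nat_lit 98466543074) (nat_lit 76) (nat_lit 91626329286) (nat_lit 4) (nat_lit 4) (nat_lit 5) (nat_lit 5) (nat_lit 5) (nat_lit 4) (nat_lit 479) (nat_lit 392) (nat_lit 329))) (XT.nd (nat_lit 78) (nat_lit 0) (nat_lit 0) (XT.lf (nat_lit 0) (nat_lit 139530080315) (nat_lit 76) (nat_lit 79821306445) (nat_lit 76) (nat_lit 72977088995) (nat_lit 4) (nat_lit 4) (nat_lit 5) (nat_lit 5) (nat_lit 5) (nat_lit 4) (nat_lit 480) (nat_lit 392) (nat_lit 328)) (XT.lf (nat_lit 0) (nat_lit 201874402237) (nat_lit 76) (nat_lit 59713065631) (nat_lit 76) (nat_lit 52865141086) (nat_lit 4) (nat_lit 4) (nat_lit 5) (nat_lit 5) (nat_lit 5) (nat_lit 4) (nat_lit 481) (nat_lit 392) (nat_lit 327)))))) (XT.nd (nat_lit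 546) (nat_lit 76) (nat_lit 0) (XT.nd (nat_lit 234) (nat_lit 0) (nat_lit 0) (XT.nd (nat_lit 78) (nat_lit 152) (nat_lit 0) (XT.lf (nat_lit 0) (nat_lit 269153997514) (nat_lit 76) (nat_lit 38022660687) (nat_lit 76) (nat_lit 31171303645) (nat_lit 4) (nat_lit 4) (nat_lit 5) (nat_lit 5) (nat_lit 5) (nat_lit 4) (nat_lit 482) (nat_lit 392) (nat_lit 326)) (XT.nd (nat_lit 78) (nat_lit 152) (nat_lit 0) (XT.lf (nat_lit 0) (nat_lit 341767560043) (nat_lit 76) (nat_lit 14621555879) (nat_lit 76) (nat_lit 7767020600) (nat_lit 4) (nat_lit 4) (nat_lit 5) (nat_lit 5) (nat_lit 5) (nat_lit 4) (nat_lit 483) (nat_lit 392) (nat_lit 325)) (XT.lf (nat_lit 0) (nat_lit 17553580268) (nat_lit 152) (nat_lit 363408847996) (nat_lit 0) (nat_lit 11022648754) (nat_lit 2) (nat_lit 5) (nat_lit 4) (nat_lit 4) (nat_lit 2) (nat_lit 4) (nat_lit 484) (nat_lit 392) (nat_lit 324)))) (XT.nd (nat_lit 156) (nat_lit 0) (nat_lit 0) (XT.nd (nat_lit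 78) (nat_lit 0) (nat_lit 0) (XT.lf (nat_lit 0) (nat_lit 45252458819) (nat_lit 152) (nat_lit 338031338013) (nat_lit 0) (nat_lit 38718932233) (nat_lit 2) (nat_lit 5) (nat_lit 4) (nat_lit 4) (nat_lit 2) (nat_lit 4) (nat_lit 485) (nat_lit 392) (nat_lit 323)) (XT.lf (nat_lit 0) (nat_lit 75147040411) (nat_lit 152) (nat_lit 310664652366) (nat_lit 0) (nat_lit 68611110981) (nat_lit 2) (nat_lit 5) (nat_lit 4) (nat_lit 4) (nat_lit 2) (nat_lit 4) (nat_lit 486) (nat_lit 392) (nat_lit 322))) (XT.nd (nat_lit 78) (nat_lit 0) (nat_lit 0) (XT.lf (nat_lit 0) (nat_lit 107414478121) (nat_lit 152) (nat_lit 281146618104) (nat_lit 0) (nat_lit 100876323835) (nat_lit 2) (nat_lit 5) (nat_lit 4) (nat_lit 4) (nat_lit 2) (nat_lit 4) (nat_lit 487) (nat_lit 392) (nat_lit 321)) (XT.lf (nat_lit 0) (nat_lit 142245986394) (nat_lit 152) (nat_lit 249302313542) (nat_lit 0) (nat_lit 135705772056) (nat_lit 2) (nat_lit 5) (nat_lit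 4) (nat_lit 4) (nat_lit 2) (nat_lit 4) (nat_lit 488) (nat_lit 392) (nat_lit 320))))) (XT.nd (nat_lit 234) (nat_lit 76) (nat_lit 0) (XT.nd (nat_lit 78) (nat_lit 0) (nat_lit 0) (XT.lf (nat_lit 0) (nat_lit 179847974168) (nat_lit 152) (nat_lit 214943031691) (nat_lit 0) (nat_lit 173305852374) (nat_lit 2) (nat_lit 5) (nat_lit 4) (nat_lit 4) (nat_lit 2) (nat_lit 4) (nat_lit 489) (nat_lit 392) (nat_lit 319)) (XT.nd (nat_lit 78) (nat_lit 0) (nat_lit 0) (XT.lf (nat_lit 0) (nat_lit 220443268038) (nat_lit 152) (nat_lit 177865161990) (nat_lit 0) (nat_lit 213899380081) (nat_lit 2) (nat_lit 5) (nat_lit 4) (nat_lit 4) (nat_lit 2) (nat_lit 4) (nat_lit 490) (nat_lit 392) (nat_lit 318)) (XT.lf (nat_lit 0) (nat_lit 264272432707) (nat_lit 152) (nat_lit 137848983731) (nat_lit 0) (nat_lit 257726909415) (nat_lit 2) (nat_lit 5) (nat_lit 4) (nat_lit 4) (nat_lit 2) (nat_lit 4) (nat_lit 491) (nat_lit 392) (nat_lit 317))))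 (XT.nd (nat_lit 156) (nat_lit 76) (nat_lit 0) (XT.nd (nat_lit 78) (nat_lit 0) (nat_lit 0) (XT.lf (nat_lit 0) (nat_lit 311595196559) (nat_lit 152) (nat_lit 94657364006) (nat_lit 0) (nat_lit 305048159067) (nat_lit 2) (nat_lit 5) (nat_lit 4) (nat_lit 4) (nat_lit 2) (nat_lit 4) (nat_lit 492) (nat_lit 392) (nat_lit 316)) (XT.lf (nat_lit 0) (nat_lit 362691990787) (nat_lit 152) (nat_lit 48034352475) (nat_lit 0) (nat_lit 356143551258) (nat_lit 2) (nat_lit 5) (nat_lit 4) (nat_lit 4) (nat_lit 2) (nat_lit 4) (nat_lit 493) (nat_lit 392) (nat_lit 315))) (XT.nd (nat_lit 78) (nat_lit 0) (nat_lit 0) (XT.lf (nat_lit 0) (nat_lit 2372262592) (nat_lit 76) (nat_lit 415530386284) (nat_lit 76) (nat_lit 408980648573) (nat_lit 1) (nat_lit 4) (nat_lit 2) (nat_lit 5) (nat_lit 2) (nat_lit 4) (nat_lit 494) (nat_lit 392) (nat_lit 314)) (XT.lf (nat_lit 0) (nat_lit 58505496739) (nat_lit 76) (nat_lit 419850950638) (nat_lit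 76) (nat_lit 413300010907) (nat_lit 1) (nat_lit 4) (nat_lit 2) (nat_lit 5) (nat_lit 2) (nat_lit 4) (nat_lit 495) (nat_lit 392) (nat_lit 313))))))))
noncomputable def xc34 : XT := (XT.nd (nat_lit 57798) (nat_lit 0) (nat_lit 760) (XT.nd (nat_lit 56706) (nat_lit 0) (nat_lit 3268) (XT.nd (nat_lit 56160) (nat_lit 0) (nat_lit 6080) (XT.nd (nat_lit 234) (nat_lit 0) (nat_lit 0) (XT.nd (nat_lit 78) (nat_lit 0) (nat_lit 0) (XT.lf (nat_lit 0) (nat_lit 119109758732) (nat_lit 76) (nat_lit 424527124671) (nat_lit 76) (nat_lit 417975071958) (nat_lit 1) (nat_lit 4) (nat_lit 2) (nat_lit 5) (nat_lit 2) (nat_lit 4) (nat_lit 496) (nat_lit 392) (nat_lit 312)) (XT.nd (nat_lit 78) (nat_lit 0) (nat_lit 0) (XT.lf (nat_lit 0) (nat_lit 184544184937) (nat_lit 76) (nat_lit 429586619043) (nat_lit 76) (nat_lit 423033535791) (nat_lit 1) (nat_lit 4) (nat_lit 2) (nat_lit 5) (nat_lit 2) (nat_lit 4) (nat_lit 497) (nat_lit 392)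 (nat_lit 311)) (XT.lf (nat_lit 0) (nat_lit 255196534918) (nat_lit 76) (nat_lit 435059415943) (nat_lit 76) (nat_lit 428505378489) (nat_lit 1) (nat_lit 4) (nat_lit 2) (nat_lit 5) (nat_lit 2) (nat_lit 4) (nat_lit 498) (nat_lit 392) (nat_lit 310)))) (XT.nd (nat_lit 156) (nat_lit 0) (nat_lit 0) (XT.nd (nat_lit 78) (nat_lit 0) (nat_lit 0) (XT.lf (nat_lit 0) (nat_lit 331485489266) (nat_lit 76) (nat_lit 440977946760) (nat_lit 76) (nat_lit 434423025785) (nat_lit 1) (nat_lit 4) (nat_lit 2) (nat_lit 5) (nat_lit 2) (nat_lit 4) (nat_lit 499) (nat_lit 392) (nat_lit 309)) (XT.lf (nat_lit 0) (nat_lit 413863130675) (nat_lit 76) (nat_lit 447377284270) (nat_lit 76) (nat_lit 440821545220) (nat_lit 1) (nat_lit 4) (nat_lit 2) (nat_lit 5) (nat_lit 2) (nat_lit 4) (nat_lit 500) (nat_lit 392) (nat_lit 308))) (XT.nd (nat_lit 55692) (nat_lit 0) (nat_lit 8664) (XT.lf (nat_lit 0) (nat_lit 502817622945) (nat_lit 76) (nat_lit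 454295350473) (nat_lit 76) (nat_lit 447738853946) (nat_lit 1) (nat_lit 4) (nat_lit 2) (nat_lit 5) (nat_lit 2) (nat_lit 4) (nat_lit 501) (nat_lit 392) (nat_lit 307)) (XT.lf (nat_lit 0) (nat_lit 1758379148) (nat_lit 380) (nat_lit 417129375) (nat_lit 0) (nat_lit 1758379148) (nat_lit 115) (nat_lit 5) (nat_lit 120) (nat_lit 4) (nat_lit 115) (nat_lit 4) (nat_lit 414) (nat_lit 393) (nat_lit 393))))) (XT.nd (nat_lit 234) (nat_lit 1292) (nat_lit 0) (XT.nd (nat_lit 78) (nat_lit 608) (nat_lit 0) (XT.lf (nat_lit 0) (nat_lit 1542598294) (nat_lit 304) (nat_lit 166522570) (nat_lit 380) (nat_lit 6376210654) (nat_lit 106) (nat_lit 5) (nat_lit 110) (nat_lit 5) (nat_lit 111) (nat_lit 4) (nat_lit 415) (nat_lit 393) (nat_lit 392)) (XT.nd (nat_lit 78) (nat_lit 304) (nat_lit 0) (XT.lf (nat_lit 0) (nat_lit 4059290821) (nat_lit 304) (nat_lit 3930106103) (nat_lit 304) (nat_lit 333027693) (nat_lit 102) (nat_lit 4) (nat_lit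 106) (nat_lit 5) (nat_lit 106) (nat_lit 4) (nat_lit 416) (nat_lit 393) (nat_lit 391)) (XT.lf (nat_lit 0) (nat_lit 5834011768) (nat_lit 304) (nat_lit 1864573519) (nat_lit 0) (nat_lit 883209913) (nat_lit 98) (nat_lit 5) (nat_lit 102) (nat_lit 4) (nat_lit 98) (nat_lit 4) (nat_lit 417) (nat_lit 393) (nat_lit 390)))) (XT.nd (nat_lit 156) (nat_lit 456) (nat_lit 0) (XT.nd (nat_lit 78) (nat_lit 304) (nat_lit 0) (XT.lf (nat_lit 0) (nat_lit 657784687) (nat_lit 228) (nat_lit 2766915564) (nat_lit 304) (nat_lit 5438208471) (nat_lit 91) (nat_lit 5) (nat_lit 94) (nat_lit 5) (nat_lit 95) (nat_lit 4) (nat_lit 418) (nat_lit 393) (nat_lit 389)) (XT.lf (nat_lit 0) (nat_lit 738881119) (nat_lit 304) (nat_lit 5790344737) (nat_lit 76) (nat_lit 2637694330) (nat_lit 87) (nat_lit 5) (nat_lit 91) (nat_lit 5) (nat_lit 88) (nat_lit 4) (nat_lit 419) (nat_lit 393) (nat_lit 388))) (XT.nd (nat_lit 78) (nat_lit 304) (nat_lit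 0) (XT.lf (nat_lit 0) (nat_lit 6192703806) (nat_lit 152) (nat_lit 953984687) (nat_lit 228) (nat_lit 2347807891) (nat_lit 85) (nat_lit 5) (nat_lit 87) (nat_lit 5) (nat_lit 88) (nat_lit 4) (nat_lit 420) (nat_lit 393) (nat_lit 387)) (XT.lf (nat_lit 0) (nat_lit 4059829731) (nat_lit 304) (nat_lit 749310944) (nat_lit 76) (nat_lit 5037092520) (nat_lit 81) (nat_lit 5) (nat_lit 85) (nat_lit 5) (nat_lit 82) (nat_lit 4) (nat_lit 421) (nat_lit 393) (nat_lit 386)))))) (XT.nd (nat_lit 546) (nat_lit 1140) (nat_lit 0) (XT.nd (nat_lit 234) (nat_lit 836) (nat_lit 0) (XT.nd (nat_lit 78) (nat_lit 380) (nat_lit 0) (XT.lf (nat_lit 0) (nat_lit 633876384) (nat_lit 304) (nat_lit 8237092564) (nat_lit 76) (nat_lit 1353642767) (nat_lit 75) (nat_lit 5) (nat_lit 79) (nat_lit 5) (nat_lit 76) (nat_lit 4) (nat_lit 422) (nat_lit 393) (nat_lit 385)) (XT.nd (nat_lit 78) (nat_lit 228) (nat_lit 0) (XT.lf (nat_lit 0) (nat_lit 4780806074)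 (nat_lit 152) (nat_lit 2608222060) (nat_lit 228) (nat_lit 3238330412) (nat_lit 73) (nat_lit 5) (nat_lit 75) (nat_lit 5) (nat_lit 76) (nat_lit 4) (nat_lit 423) (nat_lit 393) (nat_lit 384)) (XT.lf (nat_lit 0) (nat_lit 3515115759) (nat_lit 228) (nat_lit 3399127490) (nat_lit 76) (nat_lit 4144850107) (nat_lit 70) (nat_lit 5) (nat_lit 73) (nat_lit 5) (nat_lit 71) (nat_lit 4) (nat_lit 424) (nat_lit 393) (nat_lit 383)))) (XT.nd (nat_lit 156) (nat_lit 304) (nat_lit 0) (XT.nd (nat_lit 78) (nat_lit 380) (nat_lit 0) (XT.lf (nat_lit 0) (nat_lit 10649744102) (nat_lit 152) (nat_lit 49132710) (nat_lit 228) (nat_lit 823693563) (nat_lit 68) (nat_lit 5) (nat_lit 70) (nat_lit 5) (nat_lit 71) (nat_lit 4) (nat_lit 425) (nat_lit 393) (nat_lit 382)) (XT.lf (nat_lit 0) (nat_lit 1664865985) (nat_lit 152) (nat_lit 4680635037) (nat_lit 228) (nat_lit 5666769264) (nat_lit 63) (nat_lit 5) (nat_lit 65) (nat_lit 5) (nat_lit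 66) (nat_lit 4) (nat_lit 426) (nat_lit 393) (nat_lit 381))) (XT.nd (nat_lit 78) (nat_lit 76) (nat_lit 0) (XT.lf (nat_lit 0) (nat_lit 1517275850) (nat_lit 228) (nat_lit 8219941862) (nat_lit 76) (nat_lit 2799743478) (nat_lit 60) (nat_lit 5) (nat_lit 63) (nat_lit 5) (nat_lit 61) (nat_lit 4) (nat_lit 427) (nat_lit 393) (nat_lit 380)) (XT.lf (nat_lit 0) (nat_lit 6957680403) (nat_lit 76) (nat_lit 2201393425) (nat_lit 152) (nat_lit 3935853797) (nat_lit 59) (nat_lit 5) (nat_lit 60) (nat_lit 5) (nat_lit 61) (nat_lit 4) (nat_lit 428) (nat_lit 393) (nat_lit 379))))) (XT.nd (nat_lit 234) (nat_lit 608) (nat_lit 0) (XT.nd (nat_lit 78) (nat_lit 304) (nat_lit 0) (XT.lf (nat_lit 0) (nat_lit 3705286224) (nat_lit 228) (nat_lit 4090193408) (nat_lit 76) (nat_lit 5893697806) (nat_lit 56) (nat_lit 5) (nat_lit 59) (nat_lit 5) (nat_lit 57) (nat_lit 4) (nat_lit 429) (nat_lit 393) (nat_lit 378)) (XT.nd (nat_lit 78) (nat_lit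 228) (nat_lit 0) (XT.lf (nat_lit 0) (nat_lit 11892969675) (nat_lit 152) (nat_lit 2047249833) (nat_lit 0) (nat_lit 383883470) (nat_lit 55) (nat_lit 5) (nat_lit 57) (nat_lit 4) (nat_lit 55) (nat_lit 4) (nat_lit 430) (nat_lit 393) (nat_lit 377)) (XT.lf (nat_lit 0) (nat_lit 5719922600) (nat_lit 228) (nat_lit 134664930) (nat_lit 76) (nat_lit 9141915056) (nat_lit 52) (nat_lit 5) (nat_lit 55) (nat_lit 5) (nat_lit 53) (nat_lit 4) (nat_lit 431) (nat_lit 393) (nat_lit 376)))) (XT.nd (nat_lit 156) (nat_lit 228) (nat_lit 0) (XT.nd (nat_lit 78) (nat_lit 152) (nat_lit 0) (XT.lf (nat_lit 0) (nat_lit 1820180849) (nat_lit 152) (nat_lit 12749773672) (nat_lit 152) (nat_lit 1144159191) (nat_lit 49) (nat_lit 4) (nat_lit 51) (nat_lit 5) (nat_lit 51) (nat_lit 4) (nat_lit 432) (nat_lit 393) (nat_lit 375)) (XT.lf (nat_lit 0) (nat_lit 3610066532) (nat_lit 76) (nat_lit 3952187182) (nat_lit 152) (nat_lit 8912536104) (nat_lit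 47) (nat_lit 5) (nat_lit 48) (nat_lit 5) (nat_lit 49) (nat_lit 4) (nat_lit 433) (nat_lit 393) (nat_lit 374))) (XT.nd (nat_lit 78) (nat_lit 152) (nat_lit 0) (XT.lf (nat_lit 0) (nat_lit 5318229448) (nat_lit 76) (nat_lit 11774040452) (nat_lit 76) (nat_lit 194766225) (nat_lit 46) (nat_lit 4) (nat_lit 47) (nat_lit 5) (nat_lit 47) (nat_lit 4) (nat_lit 434) (nat_lit 393) (nat_lit 373)) (XT.lf (nat_lit 0) (nat_lit 6809798284) (nat_lit 76) (nat_lit 2274768576) (nat_lit 152) (nat_lit 9064546042) (nat_lit 44) (nat_lit 5) (nat_lit 45) (nat_lit 5) (nat_lit 46) (nat_lit 4) (nat_lit 435) (nat_lit 393) (nat_lit 372))))))) (XT.nd (nat_lit 1092) (nat_lit 1064) (nat_lit 0) (XT.nd (nat_lit 546) (nat_lit 684) (nat_lit 0) (XT.nd (nat_lit 234) (nat_lit 380) (nat_lit 0) (XT.nd (nat_lit 78) (nat_lit 228) (nat_lit 0) (XT.lf (nat_lit 0) (nat_lit 252584268) (nat_lit 152) (nat_lit 10939819919) (nat_lit 76) (nat_lit 7875897771)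 (nat_lit 42) (nat_lit 5) (nat_lit 44) (nat_lit 5) (nat_lit 43) (nat_lit 4) (nat_lit 436) (nat_lit 393) (nat_lit 371)) (XT.nd (nat_lit 78) (nat_lit 152) (nat_lit 0) (XT.lf (nat_lit 0) (nat_lit 9173936120) (nat_lit 76) (nat_lit 983553779) (nat_lit 152) (nat_lit 9888116340) (nat_lit 41) (nat_lit 5) (nat_lit 42) (nat_lit 5) (nat_lit 43) (nat_lit 4) (nat_lit 437) (nat_lit 393) (nat_lit 370)) (XT.lf (nat_lit 0) (nat_lit 52427326) (nat_lit 152) (nat_lit 11155427096) (nat_lit 76) (nat_lit 9878898268) (nat_lit 39) (nat_lit 5) (nat_lit 41) (nat_lit 5) (nat_lit 40) (nat_lit 4) (nat_lit 438) (nat_lit 393) (nat_lit 369)))) (XT.nd (nat_lit 156) (nat_lit 228) (nat_lit 0) (XT.nd (nat_lit 78) (nat_lit 76) (nat_lit 0) (XT.lf (nat_lit 0) (nat_lit 10318523171) (nat_lit 76) (nat_lit 285196666) (nat_lit 152) (nat_lit 11591276662) (nat_lit 38) (nat_lit 5) (nat_lit 39) (nat_lit 5) (nat_lit 40) (nat_lit 4) (nat_lit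 439) (nat_lit 393) (nat_lit 368)) (XT.lf (nat_lit 0) (nat_lit 10272689843) (nat_lit 76) (nat_lit 12057861400) (nat_lit 76) (nat_lit 1044783732) (nat_lit 37) (nat_lit 4) (nat_lit 38) (nat_lit 5) (nat_lit 38) (nat_lit 4) (nat_lit 440) (nat_lit 393) (nat_lit 367))) (XT.nd (nat_lit 78) (nat_lit 76) (nat_lit 0) (XT.lf (nat_lit 0) (nat_lit 9730857463) (nat_lit 76) (nat_lit 450349356) (nat_lit 152) (nat_lit 14452478947) (nat_lit 35) (nat_lit 5) (nat_lit 36) (nat_lit 5) (nat_lit 37) (nat_lit 4) (nat_lit 441) (nat_lit 393) (nat_lit 366)) (XT.lf (nat_lit 0) (nat_lit 8562818566) (nat_lit 76) (nat_lit 14066783964) (nat_lit 76) (nat_lit 3344204873) (nat_lit 34) (nat_lit 4) (nat_lit 35) (nat_lit 5) (nat_lit 35) (nat_lit 4) (nat_lit 442) (nat_lit 393) (nat_lit 365))))) (XT.nd (nat_lit 234) (nat_lit 304) (nat_lit 0) (XT.nd (nat_lit 78) (nat_lit 228) (nat_lit 0) (XT.lf (nat_lit 0) (nat_lit 6729580552) (nat_lit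 76) (nat_lit 1834466663) (nat_lit 152) (nat_lit 18840929008) (nat_lit 32) (nat_lit 5) (nat_lit 33) (nat_lit 5) (nat_lit 34) (nat_lit 4) (nat_lit 443) (nat_lit 393) (nat_lit 364)) (XT.nd (nat_lit 78) (nat_lit 152) (nat_lit 0) (XT.lf (nat_lit 0) (nat_lit 4018419219) (nat_lit 76) (nat_lit 17657044686) (nat_lit 76) (nat_lit 7254054661) (nat_lit 31) (nat_lit 4) (nat_lit 32) (nat_lit 5) (nat_lit 32) (nat_lit 4) (nat_lit 444) (nat_lit 393) (nat_lit 363)) (XT.lf (nat_lit 0) (nat_lit 413156246) (nat_lit 76) (nat_lit 4904490399) (nat_lit 152) (nat_lit 25242964621) (nat_lit 29) (nat_lit 5) (nat_lit 30) (nat_lit 5) (nat_lit 31) (nat_lit 4) (nat_lit 445) (nat_lit 393) (nat_lit 362)))) (XT.nd (nat_lit 156) (nat_lit 152) (nat_lit 0) (XT.nd (nat_lit 78) (nat_lit 152) (nat_lit 0) (XT.lf (nat_lit 0) (nat_lit 19051967808) (nat_lit 152) (nat_lit 4255333750) (nat_lit 0) (nat_lit 8988396131) (nat_lit 29) (nat_lit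 5) (nat_lit 31) (nat_lit 4) (nat_lit 29) (nat_lit 4) (nat_lit 446) (nat_lit 393) (nat_lit 361)) (XT.lf (nat_lit 0) (nat_lit 28993755) (nat_lit 152) (nat_lit 10073562063) (nat_lit 76) (nat_lit 24052038546) (nat_lit 27) (nat_lit 5) (nat_lit 29) (nat_lit 5) (nat_lit 28) (nat_lit 4) (nat_lit 447) (nat_lit 393) (nat_lit 360))) (XT.nd (nat_lit 78) (nat_lit 76) (nat_lit 0) (XT.lf (nat_lit 0) (nat_lit 14191482434) (nat_lit 152) (nat_lit 17465487438) (nat_lit 0) (nat_lit 4479783324) (nat_lit 26) (nat_lit 5) (nat_lit 28) (nat_lit 4) (nat_lit 26) (nat_lit 4) (nat_lit 448) (nat_lit 393) (nat_lit 359)) (XT.lf (nat_lit 0) (nat_lit 11710324227) (nat_lit 76) (nat_lit 18158235760) (nat_lit 76) (nat_lit 8389848113) (nat_lit 25) (nat_lit 4) (nat_lit 26) (nat_lit 5) (nat_lit 26) (nat_lit 4) (nat_lit 449) (nat_lit 393) (nat_lit 358)))))) (XT.nd (nat_lit 546) (nat_lit 456) (nat_lit 0) (XT.nd (nat_lit 234) (nat_lit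 380) (nat_lit 0) (XT.nd (nat_lit 78) (nat_lit 76) (nat_lit 0) (XT.lf (nat_lit 0) (nat_lit 3013366124) (nat_lit 76) (nat_lit 3247240294) (nat_lit 152) (nat_lit 34273780620) (nat_lit 23) (nat_lit 5) (nat_lit 24) (nat_lit 5) (nat_lit 25) (nat_lit 4) (nat_lit 450) (nat_lit 393) (nat_lit 357)) (XT.nd (nat_lit 78) (nat_lit 76) (nat_lit 0) (XT.lf (nat_lit 0) (nat_lit 22322516833) (nat_lit 152) (nat_lit 7713371248) (nat_lit 0) (nat_lit 12923013672) (nat_lit 23) (nat_lit 5) (nat_lit 25) (nat_lit 4) (nat_lit 23) (nat_lit 4) (nat_lit 451) (nat_lit 393) (nat_lit 356)) (XT.lf (nat_lit 0) (nat_lit 24961937113) (nat_lit 76) (nat_lit 15021061597) (nat_lit 76) (nat_lit 5578700161) (nat_lit 22) (nat_lit 4) (nat_lit 23) (nat_lit 5) (nat_lit 23) (nat_lit 4) (nat_lit 452) (nat_lit 393) (nat_lit 355)))) (XT.nd (nat_lit 156) (nat_lit 228) (nat_lit 0) (XT.nd (nat_lit 78) (nat_lit 0) (nat_lit 0) (XT.lf (nat_lit 0)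 (nat_lit 10565172279) (nat_lit 152) (nat_lit 36253380389) (nat_lit 0) (nat_lit 1534653209) (nat_lit 20) (nat_lit 5) (nat_lit 22) (nat_lit 4) (nat_lit 20) (nat_lit 4) (nat_lit 453) (nat_lit 393) (nat_lit 354)) (XT.lf (nat_lit 0) (nat_lit 28302323214) (nat_lit 152) (nat_lit 3799468531) (nat_lit 0) (nat_lit 19236809798) (nat_lit 20) (nat_lit 5) (nat_lit 22) (nat_lit 4) (nat_lit 20) (nat_lit 4) (nat_lit 454) (nat_lit 393) (nat_lit 353))) (XT.nd (nat_lit 78) (nat_lit 152) (nat_lit 0) (XT.lf (nat_lit 0) (nat_lit 32047652375) (nat_lit 76) (nat_lit 15796894341) (nat_lit 76) (nat_lit 6698978752) (nat_lit 19) (nat_lit 4) (nat_lit 20) (nat_lit 5) (nat_lit 20) (nat_lit 4) (nat_lit 455) (nat_lit 393) (nat_lit 352)) (XT.lf (nat_lit 0) (nat_lit 10786669313) (nat_lit 152) (nat_lit 45106632502) (nat_lit 0) (nat_lit 2093414456) (nat_lit 17) (nat_lit 5) (nat_lit 19) (nat_lit 4) (nat_lit 17) (nat_lit 4) (nat_lit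 456) (nat_lit 393) (nat_lit 351))))) (XT.nd (nat_lit 234) (nat_lit 304) (nat_lit 0) (XT.nd (nat_lit 78) (nat_lit 152) (nat_lit 0) (XT.lf (nat_lit 0) (nat_lit 29996491557) (nat_lit 152) (nat_lit 10398600152) (nat_lit 0) (nat_lit 21276779901) (nat_lit 17) (nat_lit 5) (nat_lit 19) (nat_lit 4) (nat_lit 17) (nat_lit 4) (nat_lit 457) (nat_lit 393) (nat_lit 350)) (XT.nd (nat_lit 78) (nat_lit 76) (nat_lit 0) (XT.lf (nat_lit 0) (nat_lit 27774549531) (nat_lit 76) (nat_lit 23302403549) (nat_lit 76) (nat_lit 14558194855) (nat_lit 16) (nat_lit 4) (nat_lit 17) (nat_lit 5) (nat_lit 17) (nat_lit 4) (nat_lit 458) (nat_lit 393) (nat_lit 349)) (XT.lf (nat_lit 0) (nat_lit 3889786802) (nat_lit 152) (nat_lit 792828189) (nat_lit 76) (nat_lit 65225448129) (nat_lit 15) (nat_lit 5) (nat_lit 17) (nat_lit 5) (nat_lit 16) (nat_lit 4) (nat_lit 459) (nat_lit 393) (nat_lit 348)))) (XT.nd (nat_lit 156) (nat_lit 152) (nat_lit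 0) (XT.nd (nat_lit 78) (nat_lit 76) (nat_lit 0) (XT.lf (nat_lit 0) (nat_lit 24100369622) (nat_lit 152) (nat_lit 34639722078) (nat_lit 0) (nat_lit 15730947339) (nat_lit 14) (nat_lit 5) (nat_lit 16) (nat_lit 4) (nat_lit 14) (nat_lit 4) (nat_lit 460) (nat_lit 393) (nat_lit 347)) (XT.lf (nat_lit 0) (nat_lit 4215454832) (nat_lit 76) (nat_lit 41783980068) (nat_lit 76) (nat_lit 33396037273) (nat_lit 13) (nat_lit 4) (nat_lit 14) (nat_lit 5) (nat_lit 14) (nat_lit 4) (nat_lit 461) (nat_lit 393) (nat_lit 346))) (XT.nd (nat_lit 78) (nat_lit 152) (nat_lit 0) (XT.lf (nat_lit 0) (nat_lit 47248026587) (nat_lit 76) (nat_lit 22922461265) (nat_lit 76) (nat_lit 14517369848) (nat_lit 13) (nat_lit 4) (nat_lit 14) (nat_lit 5) (nat_lit 14) (nat_lit 4) (nat_lit 462) (nat_lit 393) (nat_lit 345)) (XT.lf (nat_lit 0) (nat_lit 3171255213) (nat_lit 76) (nat_lit 2483488681) (nat_lit 152) (nat_lit 84745753310) (nat_lit 11)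 (nat_lit 5) (nat_lit 12) (nat_lit 5) (nat_lit 13) (nat_lit 4) (nat_lit 463) (nat_lit 393) (nat_lit 344))))))))
noncomputable def xc35 : XT := (XT.nd (nat_lit 2184) (nat_lit 76) (nat_lit 0) (XT.nd (nat_lit 1092) (nat_lit 228) (nat_lit 0) (XT.nd (nat_lit 546) (nat_lit 228) (nat_lit 0) (XT.nd (nat_lit 234) (nat_lit 152) (nat_lit 0) (XT.nd (nat_lit 78) (nat_lit 76) (nat_lit 0) (XT.lf (nat_lit 0) (nat_lit 27831367138) (nat_lit 152) (nat_lit 48884520187) (nat_lit 0) (nat_lit 19797393851) (nat_lit 11) (nat_lit 5) (nat_lit 13) (nat_lit 4) (nat_lit 11) (nat_lit 4) (nat_lit 464) (nat_lit 393) (nat_lit 343)) (XT.nd (nat_lit 78) (nat_lit 76) (nat_lit 0) (XT.lf (nat_lit 0) (nat_lit 51753464249) (nat_lit 152) (nat_lit 7656530990) (nat_lit 0) (nat_lit 43706526077) (nat_lit 11) (nat_lit 5) (nat_lit 13) (nat_lit 4) (nat_lit 11) (nat_lit 4) (nat_lit 465) (nat_lit 393) (nat_lit 342)) (XT.lf (nat_lit 0) (nat_lit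 37952531862) (nat_lit 76) (nat_lit 40164035107) (nat_lit 76) (nat_lit 32105092412) (nat_lit 10) (nat_lit 4) (nat_lit 11) (nat_lit 5) (nat_lit 11) (nat_lit 4) (nat_lit 466) (nat_lit 393) (nat_lit 341)))) (XT.nd (nat_lit 156) (nat_lit 0) (nat_lit 0) (XT.nd (nat_lit 78) (nat_lit 152) (nat_lit 0) (XT.lf (nat_lit 0) (nat_lit 87357579977) (nat_lit 76) (nat_lit 19302070227) (nat_lit 76) (nat_lit 11232012233) (nat_lit 10) (nat_lit 4) (nat_lit 11) (nat_lit 5) (nat_lit 11) (nat_lit 4) (nat_lit 467) (nat_lit 393) (nat_lit 340)) (XT.lf (nat_lit 0) (nat_lit 11176016729) (nat_lit 152) (nat_lit 111498618276) (nat_lit 0) (nat_lit 3480445360) (nat_lit 8) (nat_lit 5) (nat_lit 10) (nat_lit 4) (nat_lit 8) (nat_lit 4) (nat_lit 468) (nat_lit 393) (nat_lit 339))) (XT.nd (nat_lit 78) (nat_lit 0) (nat_lit 0) (XT.lf (nat_lit 0) (nat_lit 35797425887) (nat_lit 152) (nat_lit 71139448355) (nat_lit 0) (nat_lit 28092778730)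 (nat_lit 8) (nat_lit 5) (nat_lit 10) (nat_lit 4) (nat_lit 8) (nat_lit 4) (nat_lit 469) (nat_lit 393) (nat_lit 338)) (XT.lf (nat_lit 0) (nat_lit 62335696284) (nat_lit 152) (nat_lit 27658492482) (nat_lit 0) (nat_lit 54622645619) (nat_lit 8) (nat_lit 5) (nat_lit 10) (nat_lit 4) (nat_lit 8) (nat_lit 4) (nat_lit 470) (nat_lit 393) (nat_lit 337))))) (XT.nd (nat_lit 234) (nat_lit 152) (nat_lit 0) (XT.nd (nat_lit 78) (nat_lit 0) (nat_lit 0) (XT.lf (nat_lit 0) (nat_lit 19836816270) (nat_lit 76) (nat_lit 71420983769) (nat_lit 76) (nat_lit 63700152079) (nat_lit 7) (nat_lit 4) (nat_lit 8) (nat_lit 5) (nat_lit 8) (nat_lit 4) (nat_lit 471) (nat_lit 393) (nat_lit 336)) (XT.nd (nat_lit 78) (nat_lit 0) (nat_lit 0) (XT.lf (nat_lit 0) (nat_lit 72024703506) (nat_lit 76) (nat_lit 50903971170) (nat_lit 76) (nat_lit 43175934826) (nat_lit 7) (nat_lit 4) (nat_lit 8) (nat_lit 5) (nat_lit 8) (nat_lit 4) (nat_lit 472)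 (nat_lit 393) (nat_lit 335)) (XT.lf (nat_lit 0) (nat_lit 128299916108) (nat_lit 76) (nat_lit 28789978627) (nat_lit 76) (nat_lit 21055271307) (nat_lit 7) (nat_lit 4) (nat_lit 8) (nat_lit 5) (nat_lit 8) (nat_lit 4) (nat_lit 473) (nat_lit 393) (nat_lit 334)))) (XT.nd (nat_lit 156) (nat_lit 0) (nat_lit 0) (XT.nd (nat_lit 78) (nat_lit 76) (nat_lit 0) (XT.lf (nat_lit 0) (nat_lit 2703532884) (nat_lit 152) (nat_lit 2198641734) (nat_lit 76) (nat_lit 186246618296) (nat_lit 6) (nat_lit 5) (nat_lit 8) (nat_lit 5) (nat_lit 7) (nat_lit 4) (nat_lit 474) (nat_lit 393) (nat_lit 333)) (XT.lf (nat_lit 0) (nat_lit 28729410333) (nat_lit 152) (nat_lit 155039146527) (nat_lit 0) (nat_lit 21351692777) (nat_lit 5) (nat_lit 5) (nat_lit 7) (nat_lit 4) (nat_lit 5) (nat_lit 4) (nat_lit 475) (nat_lit 393) (nat_lit 332))) (XT.nd (nat_lit 78) (nat_lit 0) (nat_lit 0) (XT.lf (nat_lit 0) (nat_lit 56922268255) (nat_lit 152) (nat_lit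 113743402147) (nat_lit 0) (nat_lit 49539507237) (nat_lit 5) (nat_lit 5) (nat_lit 7) (nat_lit 4) (nat_lit 5) (nat_lit 4) (nat_lit 476) (nat_lit 393) (nat_lit 331)) (XT.lf (nat_lit 0) (nat_lit 87336595446) (nat_lit 152) (nat_lit 69212838082) (nat_lit 0) (nat_lit 79949164555) (nat_lit 5) (nat_lit 5) (nat_lit 7) (nat_lit 4) (nat_lit 5) (nat_lit 4) (nat_lit 477) (nat_lit 393) (nat_lit 330)))))) (XT.nd (nat_lit 546) (nat_lit 152) (nat_lit 0) (XT.nd (nat_lit 234) (nat_lit 0) (nat_lit 0) (XT.nd (nat_lit 78) (nat_lit 76) (nat_lit 0) (XT.lf (nat_lit 0) (nat_lit 120152624956) (nat_lit 152) (nat_lit 21183569510) (nat_lit 0) (nat_lit 112760870109) (nat_lit 5) (nat_lit 5) (nat_lit 7) (nat_lit 4) (nat_lit 5) (nat_lit 4) (nat_lit 478) (nat_lit 393) (nat_lit 329)) (XT.nd (nat_lit 78) (nat_lit 0) (nat_lit 0) (XT.lf (nat_lit 0) (nat_lit 31641755232) (nat_lit 76) (nat_lit 124417083387) (nat_lit 76) (nat_lit 117021324877)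 (nat_lit 4) (nat_lit 4) (nat_lit 5) (nat_lit 5) (nat_lit 5) (nat_lit 4) (nat_lit 479) (nat_lit 393) (nat_lit 328)) (XT.lf (nat_lit 0) (nat_lit 89393110197) (nat_lit 76) (nat_lit 105785603847) (nat_lit 76) (nat_lit 98386138242) (nat_lit 4) (nat_lit 4) (nat_lit 5) (nat_lit 5) (nat_lit 5) (nat_lit 4) (nat_lit 480) (nat_lit 393) (nat_lit 327)))) (XT.nd (nat_lit 156) (nat_lit 0) (nat_lit 0) (XT.nd (nat_lit 78) (nat_lit 0) (nat_lit 0) (XT.lf (nat_lit 0) (nat_lit 151712301158) (nat_lit 76) (nat_lit 85690101079) (nat_lit 76) (nat_lit 78287202978) (nat_lit 4) (nat_lit 4) (nat_lit 5) (nat_lit 5) (nat_lit 5) (nat_lit 4) (nat_lit 481) (nat_lit 393) (nat_lit 326)) (XT.lf (nat_lit 0) (nat_lit 218968627026) (nat_lit 76) (nat_lit 64011490620) (nat_lit 76) (nat_lit 56605414283) (nat_lit 4) (nat_lit 4) (nat_lit 5) (nat_lit 5) (nat_lit 5) (nat_lit 4) (nat_lit 482) (nat_lit 393) (nat_lit 325))) (XT.nd (nat_lit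 78) (nat_lit 0) (nat_lit 0) (XT.lf (nat_lit 0) (nat_lit 291560643806) (nat_lit 76) (nat_lit 40621306633) (nat_lit 76) (nat_lit 33212287484) (nat_lit 4) (nat_lit 4) (nat_lit 5) (nat_lit 5) (nat_lit 5) (nat_lit 4) (nat_lit 483) (nat_lit 393) (nat_lit 324)) (XT.lf (nat_lit 0) (nat_lit 369918526412) (nat_lit 76) (nat_lit 15380940618) (nat_lit 76) (nat_lit 7969196644) (nat_lit 4) (nat_lit 4) (nat_lit 5) (nat_lit 5) (nat_lit 5) (nat_lit 4) (nat_lit 484) (nat_lit 393) (nat_lit 323))))) (XT.nd (nat_lit 234) (nat_lit 0) (nat_lit 0) (XT.nd (nat_lit 78) (nat_lit 0) (nat_lit 0) (XT.lf (nat_lit 0) (nat_lit 19352102223) (nat_lit 152) (nat_lit 391681171225) (nat_lit 0) (nat_lit 12290895593) (nat_lit 2) (nat_lit 5) (nat_lit 4) (nat_lit 4) (nat_lit 2) (nat_lit 4) (nat_lit 485) (nat_lit 393) (nat_lit 322)) (XT.nd (nat_lit 78) (nat_lit 0) (nat_lit 0) (XT.lf (nat_lit 0) (nat_lit 49237688426) (nat_lit 152) (nat_lit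 364332748192) (nat_lit 0) (nat_lit 42174256940) (nat_lit 2) (nat_lit 5) (nat_lit 4) (nat_lit 4) (nat_lit 2) (nat_lit 4) (nat_lit 486) (nat_lit 393) (nat_lit 321)) (XT.lf (nat_lit 0) (nat_lit 81496797072) (nat_lit 152) (nat_lit 334831623757) (nat_lit 0) (nat_lit 74431305534) (nat_lit 2) (nat_lit 5) (nat_lit 4) (nat_lit 4) (nat_lit 2) (nat_lit 4) (nat_lit 487) (nat_lit 393) (nat_lit 320)))) (XT.nd (nat_lit 156) (nat_lit 0) (nat_lit 0) (XT.nd (nat_lit 78) (nat_lit 0) (nat_lit 0) (XT.lf (nat_lit 0) (nat_lit 116320593248) (nat_lit 152) (nat_lit 303002976443) (nat_lit 0) (nat_lit 109253194255) (nat_lit 2) (nat_lit 5) (nat_lit 4) (nat_lit 4) (nat_lit 2) (nat_lit 4) (nat_lit 488) (nat_lit 393) (nat_lit 319)) (XT.lf (nat_lit 0) (nat_lit 153915440192) (nat_lit 152) (nat_lit 268658192043) (nat_lit 0) (nat_lit 146846275037) (nat_lit 2) (nat_lit 5) (nat_lit 4) (nat_lit 4) (nat_lit 2) (nat_lit 4) (nat_lit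 489) (nat_lit 393) (nat_lit 318))) (XT.nd (nat_lit 78) (nat_lit 0) (nat_lit 0) (XT.lf (nat_lit 0) (nat_lit 194504122182) (nat_lit 152) (nat_lit 231593745909) (nat_lit 0) (nat_lit 187433321691) (nat_lit 2) (nat_lit 5) (nat_lit 4) (nat_lit 4) (nat_lit 2) (nat_lit 4) (nat_lit 490) (nat_lit 393) (nat_lit 317)) (XT.lf (nat_lit 0) (nat_lit 238327164740) (nat_lit 152) (nat_lit 191589996878) (nat_lit 0) (nat_lit 231254850049) (nat_lit 2) (nat_lit 5) (nat_lit 4) (nat_lit 4) (nat_lit 2) (nat_lit 4) (nat_lit 491) (nat_lit 393) (nat_lit 316))))))) (XT.nd (nat_lit 56550) (nat_lit 0) (nat_lit 4104) (XT.nd (nat_lit 546) (nat_lit 0) (nat_lit 0) (XT.nd (nat_lit 234) (nat_lit 76) (nat_lit 0) (XT.nd (nat_lit 78) (nat_lit 0) (nat_lit 0) (XT.lf (nat_lit 0) (nat_lit 285644259971) (nat_lit 152) (nat_lit 148409885697) (nat_lit 0) (nat_lit 278570543243) (nat_lit 2) (nat_lit 5) (nat_lit 4) (nat_lit 4) (nat_lit 2) (nat_lit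 4) (nat_lit 492) (nat_lit 393) (nat_lit 315)) (XT.nd (nat_lit 78) (nat_lit 0) (nat_lit 0) (XT.lf (nat_lit 0) (nat_lit 336735805475) (nat_lit 152) (nat_lit 101797530225) (nat_lit 0) (nat_lit 329660790566) (nat_lit 2) (nat_lit 5) (nat_lit 4) (nat_lit 4) (nat_lit 2) (nat_lit 4) (nat_lit 493) (nat_lit 393) (nat_lit 314)) (XT.lf (nat_lit 0) (nat_lit 391904565968) (nat_lit 152) (nat_lit 51476709098) (nat_lit 0) (nat_lit 384828349038) (nat_lit 2) (nat_lit 5) (nat_lit 4) (nat_lit 4) (nat_lit 2) (nat_lit 4) (nat_lit 494) (nat_lit 393) (nat_lit 313)))) (XT.nd (nat_lit 156) (nat_lit 0) (nat_lit 0) (XT.nd (nat_lit 78) (nat_lit 0) (nat_lit 0) (XT.lf (nat_lit 0) (nat_lit 2945034644) (nat_lit 76) (nat_lit 448578413037) (nat_lit 76) (nat_lit 441501083125) (nat_lit 1) (nat_lit 4) (nat_lit 2) (nat_lit 5) (nat_lit 2) (nat_lit 4) (nat_lit 495) (nat_lit 393) (nat_lit 312)) (XT.lf (nat_lit 0) (nat_lit 63540557816)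 (nat_lit 76) (nat_lit 453259022847) (nat_lit 76) (nat_lit 446180662396) (nat_lit 1) (nat_lit 4) (nat_lit 2) (nat_lit 5) (nat_lit 2) (nat_lit 4) (nat_lit 496) (nat_lit 393) (nat_lit 311))) (XT.nd (nat_lit 78) (nat_lit 0) (nat_lit 0) (XT.lf (nat_lit 0) (nat_lit 128966892521) (nat_lit 76) (nat_lit 458322624420) (nat_lit 76) (nat_lit 451243309767) (nat_lit 1) (nat_lit 4) (nat_lit 2) (nat_lit 5) (nat_lit 2) (nat_lit 4) (nat_lit 497) (nat_lit 393) (nat_lit 310)) (XT.lf (nat_lit 0) (nat_lit 199611750372) (nat_lit 76) (nat_lit 463799224284) (nat_lit 76) (nat_lit 456719026110) (nat_lit 1) (nat_lit 4) (nat_lit 2) (nat_lit 5) (nat_lit 2) (nat_lit 4) (nat_lit 498) (nat_lit 393) (nat_lit 309))))) (XT.nd (nat_lit 55692) (nat_lit 0) (nat_lit 7980) (XT.nd (nat_lit 78) (nat_lit 0) (nat_lit 0) (XT.lf (nat_lit 0) (nat_lit 275893767563) (nat_lit 76) (nat_lit 469721276365) (nat_lit 76) (nat_lit 462640260116) (nat_lit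 1) (nat_lit 4) (nat_lit 2) (nat_lit 5) (nat_lit 2) (nat_lit 4) (nat_lit 499) (nat_lit 393) (nat_lit 308)) (XT.nd (nat_lit 78) (nat_lit 0) (nat_lit 0) (XT.lf (nat_lit 0) (nat_lit 358264985677) (nat_lit 76) (nat_lit 476123874304) (nat_lit 76) (nat_lit 469042100578) (nat_lit 1) (nat_lit 4) (nat_lit 2) (nat_lit 5) (nat_lit 2) (nat_lit 4) (nat_lit 500) (nat_lit 393) (nat_lit 307)) (XT.lf (nat_lit 0) (nat_lit 447213530453) (nat_lit 76) (nat_lit 483044959422) (nat_lit 76) (nat_lit 475962484328) (nat_lit 1) (nat_lit 4) (nat_lit 2) (nat_lit 5) (nat_lit 2) (nat_lit 4) (nat_lit 501) (nat_lit 393) (nat_lit 306)))) (XT.nd (nat_lit 156) (nat_lit 1064) (nat_lit 0) (XT.nd (nat_lit 78) (nat_lit 380) (nat_lit 0) (XT.lf (nat_lit 0) (nat_lit 680686182) (nat_lit 456) (nat_lit 2381662231) (nat_lit 0) (nat_lit 680686182) (nat_lit 125) (nat_lit 5) (nat_lit 131) (nat_lit 4) (nat_lit 125) (nat_lit 4) (nat_lit 412) (nat_lit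 394) (nat_lit 394)) (XT.lf (nat_lit 0) (nat_lit 4681489373) (nat_lit 380) (nat_lit 2607109524) (nat_lit 380) (nat_lit 383222715) (nat_lit 120) (nat_lit 4) (nat_lit 125) (nat_lit 5) (nat_lit 125) (nat_lit 4) (nat_lit 413) (nat_lit 394) (nat_lit 393))) (XT.nd (nat_lit 78) (nat_lit 684) (nat_lit 0) (XT.lf (nat_lit 0) (nat_lit 5432251502) (nat_lit 380) (nat_lit 1092531460) (nat_lit 0) (nat_lit 1353164585) (nat_lit 115) (nat_lit 5) (nat_lit 120) (nat_lit 4) (nat_lit 115) (nat_lit 4) (nat_lit 414) (nat_lit 394) (nat_lit 392)) (XT.lf (nat_lit 0) (nat_lit 963674694) (nat_lit 304) (nat_lit 2381981141) (nat_lit 380) (nat_lit 4758792594) (nat_lit 106) (nat_lit 5) (nat_lit 110) (nat_lit 5) (nat_lit 111) (nat_lit 4) (nat_lit 415) (nat_lit 394) (nat_lit 391)))))) (XT.nd (nat_lit 546) (nat_lit 1748) (nat_lit 0) (XT.nd (nat_lit 234) (nat_lit 1216) (nat_lit 0) (XT.nd (nat_lit 78) (nat_lit 532) (nat_lit 0) (XT.lf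 (nat_lit 0) (nat_lit 1006886530) (nat_lit 380) (nat_lit 5151355453) (nat_lit 76) (nat_lit 2194153596) (nat_lit 101) (nat_lit 5) (nat_lit 106) (nat_lit 5) (nat_lit 102) (nat_lit 4) (nat_lit 416) (nat_lit 394) (nat_lit 390)) (XT.nd (nat_lit 78) (nat_lit 304) (nat_lit 0) (XT.lf (nat_lit 0) (nat_lit 5555253267) (nat_lit 228) (nat_lit 1397613821) (nat_lit 304) (nat_lit 1669193294) (nat_lit 98) (nat_lit 5) (nat_lit 101) (nat_lit 5) (nat_lit 102) (nat_lit 4) (nat_lit 417) (nat_lit 394) (nat_lit 389)) (XT.lf (nat_lit 0) (nat_lit 4240860646) (nat_lit 304) (nat_lit 897616299) (nat_lit 76) (nat_lit 3775280530) (nat_lit 94) (nat_lit 5) (nat_lit 98) (nat_lit 5) (nat_lit 95) (nat_lit 4) (nat_lit 418) (nat_lit 394) (nat_lit 388)))) (XT.nd (nat_lit 156) (nat_lit 532) (nat_lit 0) (XT.nd (nat_lit 78) (nat_lit 152) (nat_lit 0) (XT.lf (nat_lit 0) (nat_lit 1225850101) (nat_lit 304) (nat_lit 7774612078) (nat_lit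 76) (nat_lit 229428314) (nat_lit 87) (nat_lit 5) (nat_lit 91) (nat_lit 5) (nat_lit 88) (nat_lit 4) (nat_lit 419) (nat_lit 394) (nat_lit 387)) (XT.lf (nat_lit 0) (nat_lit 3887821101) (nat_lit 152) (nat_lit 3547778055) (nat_lit 228) (nat_lit 2131795074) (nat_lit 85) (nat_lit 5) (nat_lit 87) (nat_lit 5) (nat_lit 88) (nat_lit 4) (nat_lit 420) (nat_lit 394) (nat_lit 386))) (XT.nd (nat_lit 78) (nat_lit 228) (nat_lit 0) (XT.lf (nat_lit 0) (nat_lit 4027872965) (nat_lit 304) (nat_lit 3498700038) (nat_lit 76) (nat_lit 2404463914) (nat_lit 81) (nat_lit 5) (nat_lit 85) (nat_lit 5) (nat_lit 82) (nat_lit 4) (nat_lit 421) (nat_lit 394) (nat_lit 385)) (XT.lf (nat_lit 0) (nat_lit 266591999) (nat_lit 228) (nat_lit 1228649788) (nat_lit 76) (nat_lit 8826996995) (nat_lit 78) (nat_lit 5) (nat_lit 81) (nat_lit 5) (nat_lit 79) (nat_lit 5) (nat_lit 422) (nat_lit 394) (nat_lit 384))))) (XT.nd (nat_lit 312) (nat_lit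 760) (nat_lit 0) (XT.nd (nat_lit 156) (nat_lit 380) (nat_lit 0) (XT.nd (nat_lit 78) (nat_lit 228) (nat_lit 0) (XT.lf (nat_lit 0) (nat_lit 1085676616) (nat_lit 152) (nat_lit 5685321301) (nat_lit 228) (nat_lit 3966542716) (nat_lit 73) (nat_lit 5) (nat_lit 75) (nat_lit 5) (nat_lit 76) (nat_lit 4) (nat_lit 423) (nat_lit 394) (nat_lit 383)) (XT.lf (nat_lit 0) (nat_lit 2549889024) (nat_lit 228) (nat_lit 7636155699) (nat_lit 76) (nat_lit 996830914) (nat_lit 70) (nat_lit 5) (nat_lit 73) (nat_lit 5) (nat_lit 71) (nat_lit 4) (nat_lit 424) (nat_lit 394) (nat_lit 382))) (XT.nd (nat_lit 78) (nat_lit 228) (nat_lit 0) (XT.lf (nat_lit 0) (nat_lit 6030555669) (nat_lit 152) (nat_lit 3492181975) (nat_lit 228) (nat_lit 2134175111) (nat_lit 68) (nat_lit 5) (nat_lit 70) (nat_lit 5) (nat_lit 71) (nat_lit 4) (nat_lit 425) (nat_lit 394) (nat_lit 381)) (XT.lf (nat_lit 0) (nat_lit 4779877027) (nat_lit 228) (nat_lit 3603341445)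 (nat_lit 76) (nat_lit 3779284275) (nat_lit 65) (nat_lit 5) (nat_lit 68) (nat_lit 5) (nat_lit 66) (nat_lit 4) (nat_lit 426) (nat_lit 394) (nat_lit 380)))) (XT.nd (nat_lit 156) (nat_lit 304) (nat_lit 0) (XT.nd (nat_lit 78) (nat_lit 304) (nat_lit 0) (XT.lf (nat_lit 0) (nat_lit 11172779805) (nat_lit 152) (nat_lit 1064945037) (nat_lit 228) (nat_lit 465818228) (nat_lit 63) (nat_lit 5) (nat_lit 65) (nat_lit 5) (nat_lit 66) (nat_lit 4) (nat_lit 427) (nat_lit 394) (nat_lit 379)) (XT.lf (nat_lit 0) (nat_lit 478214747) (nat_lit 76) (nat_lit 6439874857) (nat_lit 152) (nat_lit 6357433922) (nat_lit 59) (nat_lit 5) (nat_lit 60) (nat_lit 5) (nat_lit 61) (nat_lit 4) (nat_lit 428) (nat_lit 394) (nat_lit 378))) (XT.nd (nat_lit 78) (nat_lit 76) (nat_lit 0) (XT.lf (nat_lit 0) (nat_lit 1054872054) (nat_lit 228) (nat_lit 11287326390) (nat_lit 76) (nat_lit 1544791458) (nat_lit 56) (nat_lit 5) (nat_lit 59) (nat_lit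 5) (nat_lit 57) (nat_lit 4) (nat_lit 429) (nat_lit 394) (nat_lit 377)) (XT.lf (nat_lit 0) (nat_lit 4621899602) (nat_lit 76) (nat_lit 4373566136) (nat_lit 152) (nat_lit 5538812702) (nat_lit 55) (nat_lit 5) (nat_lit 56) (nat_lit 5) (nat_lit 57) (nat_lit 4) (nat_lit 430) (nat_lit 394) (nat_lit 376))))))))
noncomputable def xc36 : XT := (XT.nd (nat_lit 2184) (nat_lit 1140) (nat_lit 0) (XT.nd (nat_lit 1092) (nat_lit 1140) (nat_lit 0) (XT.nd (nat_lit 546) (nat_lit 760) (nat_lit 0) (XT.nd (nat_lit 234) (nat_lit 456) (nat_lit 0) (XT.nd (nat_lit 78) (nat_lit 304) (nat_lit 0) (XT.lf (nat_lit 0) (nat_lit 2392017715) (nat_lit 228) (nat_lit 8582519448) (nat_lit 76) (nat_lit 4250558902) (nat_lit 52) (nat_lit 5) (nat_lit 55) (nat_lit 5) (nat_lit 53) (nat_lit 4) (nat_lit 431) (nat_lit 394) (nat_lit 375)) (XT.nd (nat_lit 78) (nat_lit 228) (nat_lit 0) (XT.lf (nat_lit 0) (nat_lit 8584747157) (nat_lit 76) (nat_lit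 2328515759) (nat_lit 152) (nat_lit 5045890558) (nat_lit 51) (nat_lit 5) (nat_lit 52) (nat_lit 5) (nat_lit 53) (nat_lit 4) (nat_lit 432) (nat_lit 394) (nat_lit 374)) (XT.lf (nat_lit 0) (nat_lit 3457123362) (nat_lit 228) (nat_lit 6309478433) (nat_lit 76) (nat_lit 6972693700) (nat_lit 48) (nat_lit 5) (nat_lit 51) (nat_lit 5) (nat_lit 49) (nat_lit 4) (nat_lit 433) (nat_lit 394) (nat_lit 373)))) (XT.nd (nat_lit 156) (nat_lit 228) (nat_lit 0) (XT.nd (nat_lit 78) (nat_lit 152) (nat_lit 0) (XT.lf (nat_lit 0) (nat_lit 12198470515) (nat_lit 76) (nat_lit 406922593) (nat_lit 152) (nat_lit 4965241689) (nat_lit 47) (nat_lit 5) (nat_lit 48) (nat_lit 5) (nat_lit 49) (nat_lit 4) (nat_lit 434) (nat_lit 394) (nat_lit 372)) (XT.lf (nat_lit 0) (nat_lit 4158539709) (nat_lit 152) (nat_lit 4684866804) (nat_lit 76) (nat_lit 9608445924) (nat_lit 45) (nat_lit 5) (nat_lit 47) (nat_lit 5) (nat_lit 46) (nat_lit 4) (nat_lit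 435) (nat_lit 394) (nat_lit 371))) (XT.nd (nat_lit 78) (nat_lit 152) (nat_lit 0) (XT.lf (nat_lit 0) (nat_lit 13993088341) (nat_lit 152) (nat_lit 4177721575) (nat_lit 0) (nat_lit 1220956208) (nat_lit 44) (nat_lit 5) (nat_lit 46) (nat_lit 4) (nat_lit 44) (nat_lit 4) (nat_lit 436) (nat_lit 394) (nat_lit 370)) (XT.lf (nat_lit 0) (nat_lit 4366423090) (nat_lit 152) (nat_lit 3998094894) (nat_lit 76) (nat_lit 12024400739) (nat_lit 42) (nat_lit 5) (nat_lit 44) (nat_lit 5) (nat_lit 43) (nat_lit 4) (nat_lit 437) (nat_lit 394) (nat_lit 369))))) (XT.nd (nat_lit 234) (nat_lit 456) (nat_lit 0) (XT.nd (nat_lit 78) (nat_lit 228) (nat_lit 0) (XT.lf (nat_lit 0) (nat_lit 14916383253) (nat_lit 152) (nat_lit 4107850091) (nat_lit 0) (nat_lit 2427553178) (nat_lit 41) (nat_lit 5) (nat_lit 43) (nat_lit 4) (nat_lit 41) (nat_lit 4) (nat_lit 438) (nat_lit 394) (nat_lit 368)) (XT.nd (nat_lit 78) (nat_lit 76) (nat_lit 0)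 (XT.lf (nat_lit 0) (nat_lit 3901863030) (nat_lit 152) (nat_lit 4634639918) (nat_lit 76) (nat_lit 14044792513) (nat_lit 39) (nat_lit 5) (nat_lit 41) (nat_lit 5) (nat_lit 40) (nat_lit 4) (nat_lit 439) (nat_lit 394) (nat_lit 367)) (XT.lf (nat_lit 0) (nat_lit 15171723211) (nat_lit 152) (nat_lit 5600443855) (nat_lit 0) (nat_lit 3012318522) (nat_lit 38) (nat_lit 5) (nat_lit 40) (nat_lit 4) (nat_lit 38) (nat_lit 4) (nat_lit 440) (nat_lit 394) (nat_lit 366)))) (XT.nd (nat_lit 156) (nat_lit 228) (nat_lit 0) (XT.nd (nat_lit 78) (nat_lit 76) (nat_lit 0) (XT.lf (nat_lit 0) (nat_lit 2522633774) (nat_lit 152) (nat_lit 7106096978) (nat_lit 76) (nat_lit 15436657068) (nat_lit 36) (nat_lit 5) (nat_lit 38) (nat_lit 5) (nat_lit 37) (nat_lit 4) (nat_lit 441) (nat_lit 394) (nat_lit 365)) (XT.lf (nat_lit 0) (nat_lit 14491220204) (nat_lit 152) (nat_lit 9244052724) (nat_lit 0) (nat_lit 2694229516) (nat_lit 35) (nat_lit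 5) (nat_lit 37) (nat_lit 4) (nat_lit 35) (nat_lit 4) (nat_lit 442) (nat_lit 394) (nat_lit 364))) (XT.nd (nat_lit 78) (nat_lit 152) (nat_lit 0) (XT.lf (nat_lit 0) (nat_lit 15793846005) (nat_lit 76) (nat_lit 11991947044) (nat_lit 76) (nat_lit 98533069) (nat_lit 34) (nat_lit 4) (nat_lit 35) (nat_lit 5) (nat_lit 35) (nat_lit 4) (nat_lit 443) (nat_lit 394) (nat_lit 363)) (XT.lf (nat_lit 0) (nat_lit 12515259739) (nat_lit 152) (nat_lit 15815557122) (nat_lit 0) (nat_lit 1103169457) (nat_lit 32) (nat_lit 5) (nat_lit 34) (nat_lit 4) (nat_lit 32) (nat_lit 4) (nat_lit 444) (nat_lit 394) (nat_lit 362)))))) (XT.nd (nat_lit 546) (nat_lit 456) (nat_lit 0) (XT.nd (nat_lit 234) (nat_lit 380) (nat_lit 0) (XT.nd (nat_lit 78) (nat_lit 228) (nat_lit 0) (XT.lf (nat_lit 0) (nat_lit 10541089926) (nat_lit 76) (nat_lit 16018026571) (nat_lit 76) (nat_lit 4527205407) (nat_lit 31) (nat_lit 4) (nat_lit 32) (nat_lit 5) (nat_lit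 32) (nat_lit 4) (nat_lit 445) (nat_lit 394) (nat_lit 361)) (XT.nd (nat_lit 78) (nat_lit 76) (nat_lit 0) (XT.lf (nat_lit 0) (nat_lit 6479230019) (nat_lit 76) (nat_lit 2322209077) (nat_lit 152) (nat_lit 24051033805) (nat_lit 29) (nat_lit 5) (nat_lit 30) (nat_lit 5) (nat_lit 31) (nat_lit 4) (nat_lit 446) (nat_lit 394) (nat_lit 360)) (XT.lf (nat_lit 0) (nat_lit 1125030958) (nat_lit 76) (nat_lit 22343495451) (nat_lit 76) (nat_lit 11266143859) (nat_lit 28) (nat_lit 4) (nat_lit 29) (nat_lit 5) (nat_lit 29) (nat_lit 4) (nat_lit 447) (nat_lit 394) (nat_lit 359)))) (XT.nd (nat_lit 156) (nat_lit 228) (nat_lit 0) (XT.nd (nat_lit 78) (nat_lit 76) (nat_lit 0) (XT.lf (nat_lit 0) (nat_lit 2823182775) (nat_lit 152) (nat_lit 5349349868) (nat_lit 76) (nat_lit 28574780084) (nat_lit 27) (nat_lit 5) (nat_lit 29) (nat_lit 5) (nat_lit 28) (nat_lit 4) (nat_lit 448) (nat_lit 394) (nat_lit 358)) (XT.lf (nat_lit 0) (nat_lit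 18035392007) (nat_lit 152) (nat_lit 13480464888) (nat_lit 0) (nat_lit 7376355423) (nat_lit 26) (nat_lit 5) (nat_lit 28) (nat_lit 4) (nat_lit 26) (nat_lit 4) (nat_lit 449) (nat_lit 394) (nat_lit 357))) (XT.nd (nat_lit 78) (nat_lit 152) (nat_lit 0) (XT.lf (nat_lit 0) (nat_lit 17795505182) (nat_lit 76) (nat_lit 17050874464) (nat_lit 76) (nat_lit 6343236595) (nat_lit 25) (nat_lit 4) (nat_lit 26) (nat_lit 5) (nat_lit 26) (nat_lit 4) (nat_lit 450) (nat_lit 394) (nat_lit 356)) (XT.lf (nat_lit 0) (nat_lit 8262298932) (nat_lit 76) (nat_lit 1013280574) (nat_lit 152) (nat_lit 34375810147) (nat_lit 23) (nat_lit 5) (nat_lit 24) (nat_lit 5) (nat_lit 25) (nat_lit 4) (nat_lit 451) (nat_lit 394) (nat_lit 355))))) (XT.nd (nat_lit 234) (nat_lit 228) (nat_lit 0) (XT.nd (nat_lit 78) (nat_lit 228) (nat_lit 0) (XT.lf (nat_lit 0) (nat_lit 26472261539) (nat_lit 152) (nat_lit 3613146862) (nat_lit 0) (nat_lit 16191969324)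 (nat_lit 23) (nat_lit 5) (nat_lit 25) (nat_lit 4) (nat_lit 23) (nat_lit 4) (nat_lit 452) (nat_lit 394) (nat_lit 354)) (XT.nd (nat_lit 78) (nat_lit 152) (nat_lit 0) (XT.lf (nat_lit 0) (nat_lit 31471178316) (nat_lit 76) (nat_lit 13969746169) (nat_lit 76) (nat_lit 3652709892) (nat_lit 22) (nat_lit 4) (nat_lit 23) (nat_lit 5) (nat_lit 23) (nat_lit 4) (nat_lit 453) (nat_lit 394) (nat_lit 353)) (XT.lf (nat_lit 0) (nat_lit 13639421549) (nat_lit 152) (nat_lit 34689286638) (nat_lit 0) (nat_lit 3781270542) (nat_lit 20) (nat_lit 5) (nat_lit 22) (nat_lit 4) (nat_lit 20) (nat_lit 4) (nat_lit 454) (nat_lit 394) (nat_lit 352)))) (XT.nd (nat_lit 156) (nat_lit 152) (nat_lit 0) (XT.nd (nat_lit 78) (nat_lit 0) (nat_lit 0) (XT.lf (nat_lit 0) (nat_lit 31244545) (nat_lit 76) (nat_lit 32599674088) (nat_lit 76) (nat_lit 22711521069) (nat_lit 19) (nat_lit 4) (nat_lit 20) (nat_lit 5) (nat_lit 20) (nat_lit 4) (nat_lit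 455) (nat_lit 394) (nat_lit 351)) (XT.lf (nat_lit 0) (nat_lit 38565490820) (nat_lit 76) (nat_lit 15079391720) (nat_lit 76) (nat_lit 5163459061) (nat_lit 19) (nat_lit 4) (nat_lit 20) (nat_lit 5) (nat_lit 20) (nat_lit 4) (nat_lit 456) (nat_lit 394) (nat_lit 350))) (XT.nd (nat_lit 78) (nat_lit 0) (nat_lit 0) (XT.lf (nat_lit 0) (nat_lit 13596370956) (nat_lit 152) (nat_lit 44803791608) (nat_lit 0) (nat_lit 4128128530) (nat_lit 17) (nat_lit 5) (nat_lit 19) (nat_lit 4) (nat_lit 17) (nat_lit 4) (nat_lit 457) (nat_lit 394) (nat_lit 349)) (XT.lf (nat_lit 0) (nat_lit 34198773936) (nat_lit 152) (nat_lit 7608847891) (nat_lit 0) (nat_lit 24707849068) (nat_lit 17) (nat_lit 5) (nat_lit 19) (nat_lit 4) (nat_lit 17) (nat_lit 4) (nat_lit 458) (nat_lit 394) (nat_lit 348))))))) (XT.nd (nat_lit 1092) (nat_lit 380) (nat_lit 0) (XT.nd (nat_lit 546) (nat_lit 304) (nat_lit 0) (XT.nd (nat_lit 234) (nat_lit 228) (nat_lit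 0) (XT.nd (nat_lit 78) (nat_lit 152) (nat_lit 0) (XT.lf (nat_lit 0) (nat_lit 33460761693) (nat_lit 76) (nat_lit 23425474120) (nat_lit 76) (nat_lit 13913546991) (nat_lit 16) (nat_lit 4) (nat_lit 17) (nat_lit 5) (nat_lit 17) (nat_lit 4) (nat_lit 459) (nat_lit 394) (nat_lit 347)) (XT.nd (nat_lit 78) (nat_lit 0) (nat_lit 0) (XT.lf (nat_lit 0) (nat_lit 2484541269) (nat_lit 76) (nat_lit 3376880650) (nat_lit 152) (nat_lit 69556245441) (nat_lit 14) (nat_lit 5) (nat_lit 15) (nat_lit 5) (nat_lit 16) (nat_lit 4) (nat_lit 460) (nat_lit 394) (nat_lit 346)) (XT.lf (nat_lit 0) (nat_lit 27603143638) (nat_lit 152) (nat_lit 34238328163) (nat_lit 0) (nat_lit 18508496286) (nat_lit 14) (nat_lit 5) (nat_lit 16) (nat_lit 4) (nat_lit 14) (nat_lit 4) (nat_lit 461) (nat_lit 394) (nat_lit 345)))) (XT.nd (nat_lit 156) (nat_lit 152) (nat_lit 0) (XT.nd (nat_lit 78) (nat_lit 0) (nat_lit 0) (XT.lf (nat_lit 0) (nat_lit 7587386801)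 (nat_lit 76) (nat_lit 43597479704) (nat_lit 76) (nat_lit 34486953997) (nat_lit 13) (nat_lit 4) (nat_lit 14) (nat_lit 5) (nat_lit 14) (nat_lit 4) (nat_lit 462) (nat_lit 394) (nat_lit 344)) (XT.lf (nat_lit 0) (nat_lit 53837772031) (nat_lit 76) (nat_lit 23340314861) (nat_lit 76) (nat_lit 14215086974) (nat_lit 13) (nat_lit 4) (nat_lit 14) (nat_lit 5) (nat_lit 14) (nat_lit 4) (nat_lit 463) (nat_lit 394) (nat_lit 343))) (XT.nd (nat_lit 78) (nat_lit 0) (nat_lit 0) (XT.lf (nat_lit 0) (nat_lit 6157567897) (nat_lit 76) (nat_lit 1304094986) (nat_lit 152) (nat_lit 90103134382) (nat_lit 11) (nat_lit 5) (nat_lit 12) (nat_lit 5) (nat_lit 13) (nat_lit 4) (nat_lit 464) (nat_lit 394) (nat_lit 342)) (XT.lf (nat_lit 0) (nat_lit 31332001561) (nat_lit 152) (nat_lit 50222285131) (nat_lit 0) (nat_lit 22616338927) (nat_lit 11) (nat_lit 5) (nat_lit 13) (nat_lit 4) (nat_lit 11) (nat_lit 4) (nat_lit 465) (nat_lit 394)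 (nat_lit 341))))) (XT.nd (nat_lit 234) (nat_lit 228) (nat_lit 0) (XT.nd (nat_lit 78) (nat_lit 76) (nat_lit 0) (XT.lf (nat_lit 0) (nat_lit 57073486807) (nat_lit 152) (nat_lit 5886649145) (nat_lit 0) (nat_lit 48346708875) (nat_lit 11) (nat_lit 5) (nat_lit 13) (nat_lit 4) (nat_lit 11) (nat_lit 4) (nat_lit 466) (nat_lit 394) (nat_lit 340)) (XT.nd (nat_lit 78) (nat_lit 0) (nat_lit 0) (XT.lf (nat_lit 0) (nat_lit 43267602347) (nat_lit 76) (nat_lit 42226226364) (nat_lit 76) (nat_lit 33489156488) (nat_lit 10) (nat_lit 4) (nat_lit 11) (nat_lit 5) (nat_lit 11) (nat_lit 4) (nat_lit 467) (nat_lit 394) (nat_lit 339)) (XT.lf (nat_lit 0) (nat_lit 96456249279) (nat_lit 76) (nat_lit 19780558483) (nat_lit 76) (nat_lit 11033959029) (nat_lit 10) (nat_lit 4) (nat_lit 11) (nat_lit 5) (nat_lit 11) (nat_lit 4) (nat_lit 468) (nat_lit 394) (nat_lit 338)))) (XT.nd (nat_lit 156) (nat_lit 76) (nat_lit 0) (XT.nd (nat_lit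 78) (nat_lit 0) (nat_lit 0) (XT.lf (nat_lit 0) (nat_lit 13101210376) (nat_lit 152) (nat_lit 118332000393) (nat_lit 0) (nat_lit 4762712150) (nat_lit 8) (nat_lit 5) (nat_lit 10) (nat_lit 4) (nat_lit 8) (nat_lit 4) (nat_lit 469) (nat_lit 394) (nat_lit 337)) (XT.lf (nat_lit 0) (nat_lit 39615953577) (nat_lit 152) (nat_lit 74898652979) (nat_lit 0) (nat_lit 31269674326) (nat_lit 8) (nat_lit 5) (nat_lit 10) (nat_lit 4) (nat_lit 8) (nat_lit 4) (nat_lit 470) (nat_lit 394) (nat_lit 336))) (XT.nd (nat_lit 78) (nat_lit 76) (nat_lit 0) (XT.lf (nat_lit 0) (nat_lit 68206564598) (nat_lit 152) (nat_lit 28082328135) (nat_lit 0) (nat_lit 59853080693) (nat_lit 8) (nat_lit 5) (nat_lit 10) (nat_lit 4) (nat_lit 8) (nat_lit 4) (nat_lit 471) (nat_lit 394) (nat_lit 335)) (XT.lf (nat_lit 0) (nat_lit 23134864348) (nat_lit 76) (nat_lit 76268804999) (nat_lit 76) (nat_lit 67908650119) (nat_lit 7) (nat_lit 4) (nat_lit 8) (nat_lit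 5) (nat_lit 8) (nat_lit 4) (nat_lit 472) (nat_lit 394) (nat_lit 334)))))) (XT.nd (nat_lit 546) (nat_lit 228) (nat_lit 0) (XT.nd (nat_lit 234) (nat_lit 76) (nat_lit 0) (XT.nd (nat_lit 78) (nat_lit 76) (nat_lit 0) (XT.lf (nat_lit 0) (nat_lit 79371034209) (nat_lit 76) (nat_lit 54174568983) (nat_lit 76) (nat_lit 45808237274) (nat_lit 7) (nat_lit 4) (nat_lit 8) (nat_lit 5) (nat_lit 8) (nat_lit 4) (nat_lit 473) (nat_lit 394) (nat_lit 333)) (XT.nd (nat_lit 78) (nat_lit 76) (nat_lit 0) (XT.lf (nat_lit 0) (nat_lit 140030904233) (nat_lit 76) (nat_lit 30350843693) (nat_lit 76) (nat_lit 21978792699) (nat_lit 7) (nat_lit 4) (nat_lit 8) (nat_lit 5) (nat_lit 8) (nat_lit 4) (nat_lit 474) (nat_lit 394) (nat_lit 332)) (XT.lf (nat_lit 0) (nat_lit 3601803248) (nat_lit 152) (nat_lit 993649971) (nat_lit 76) (nat_lit 201811138786) (nat_lit 6) (nat_lit 5) (nat_lit 8) (nat_lit 5) (nat_lit 7) (nat_lit 4) (nat_lit 475)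 (nat_lit 394) (nat_lit 331)))) (XT.nd (nat_lit 156) (nat_lit 0) (nat_lit 0) (XT.nd (nat_lit 78) (nat_lit 0) (nat_lit 0) (XT.lf (nat_lit 0) (nat_lit 31690297305) (nat_lit 152) (nat_lit 166099238937) (nat_lit 0) (nat_lit 23707202070) (nat_lit 5) (nat_lit 5) (nat_lit 7) (nat_lit 4) (nat_lit 5) (nat_lit 4) (nat_lit 476) (nat_lit 394) (nat_lit 330)) (XT.lf (nat_lit 0) (nat_lit 62089507257) (nat_lit 152) (nat_lit 121599319400) (nat_lit 0) (nat_lit 54102088067) (nat_lit 5) (nat_lit 5) (nat_lit 7) (nat_lit 4) (nat_lit 5) (nat_lit 4) (nat_lit 477) (nat_lit 394) (nat_lit 329))) (XT.nd (nat_lit 78) (nat_lit 0) (nat_lit 0) (XT.lf (nat_lit 0) (nat_lit 94891539324) (nat_lit 152) (nat_lit 73598425389) (nat_lit 0) (nat_lit 86900116470) (nat_lit 5) (nat_lit 5) (nat_lit 7) (nat_lit 4) (nat_lit 5) (nat_lit 4) (nat_lit 478) (nat_lit 394) (nat_lit 328)) (XT.lf (nat_lit 0) (nat_lit 130290775917) (nat_lit 152) (nat_lit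 21812107163) (nat_lit 0) (nat_lit 122295645969) (nat_lit 5) (nat_lit 5) (nat_lit 7) (nat_lit 4) (nat_lit 5) (nat_lit 4) (nat_lit 479) (nat_lit 394) (nat_lit 327))))) (XT.nd (nat_lit 234) (nat_lit 152) (nat_lit 0) (XT.nd (nat_lit 78) (nat_lit 0) (nat_lit 0) (XT.lf (nat_lit 0) (nat_lit 35192910069) (nat_lit 76) (nat_lit 133853540175) (nat_lit 76) (nat_lit 125854977731) (nat_lit 4) (nat_lit 4) (nat_lit 5) (nat_lit 5) (nat_lit 5) (nat_lit 4) (nat_lit 480) (nat_lit 394) (nat_lit 326)) (XT.nd (nat_lit 78) (nat_lit 0) (nat_lit 0) (XT.lf (nat_lit 0) (nat_lit 97488831622) (nat_lit 76) (nat_lit 113769831893) (nat_lit 76) (nat_lit 105768091213) (nat_lit 4) (nat_lit 4) (nat_lit 5) (nat_lit 5) (nat_lit 5) (nat_lit 4) (nat_lit 481) (nat_lit 394) (nat_lit 325)) (XT.lf (nat_lit 0) (nat_lit 164723611741) (nat_lit 76) (nat_lit 92102142256) (nat_lit 76) (nat_lit 84097458764) (nat_lit 4) (nat_lit 4) (nat_lit 5)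 (nat_lit 5) (nat_lit 5) (nat_lit 4) (nat_lit 482) (nat_lit 394) (nat_lit 324)))) (XT.nd (nat_lit 156) (nat_lit 152) (nat_lit 0) (XT.nd (nat_lit 78) (nat_lit 0) (nat_lit 0) (XT.lf (nat_lit 0) (nat_lit 237295678753) (nat_lit 76) (nat_lit 68722070140) (nat_lit 76) (nat_lit 60714661822) (nat_lit 4) (nat_lit 4) (nat_lit 5) (nat_lit 5) (nat_lit 5) (nat_lit 4) (nat_lit 483) (nat_lit 394) (nat_lit 323)) (XT.lf (nat_lit 0) (nat_lit 315635089352) (nat_lit 76) (nat_lit 43491066969) (nat_lit 76) (nat_lit 35481135664) (nat_lit 4) (nat_lit 4) (nat_lit 5) (nat_lit 5) (nat_lit 5) (nat_lit 4) (nat_lit 484) (nat_lit 394) (nat_lit 322))) (XT.nd (nat_lit 78) (nat_lit 152) (nat_lit 0) (XT.lf (nat_lit 0) (nat_lit 400206077082) (nat_lit 76) (nat_lit 16259615688) (nat_lit 76) (nat_lit 8247348284) (nat_lit 4) (nat_lit 4) (nat_lit 5) (nat_lit 5) (nat_lit 5) (nat_lit 4) (nat_lit 485) (nat_lit 394) (nat_lit 321)) (XT.lf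 (nat_lit 0) (nat_lit 21238263828) (nat_lit 152) (nat_lit 422329464124) (nat_lit 0) (nat_lit 13605472916) (nat_lit 2) (nat_lit 5) (nat_lit 4) (nat_lit 4) (nat_lit 2) (nat_lit 4) (nat_lit 486) (nat_lit 394) (nat_lit 320))))))))
noncomputable def xc37 : XT := (XT.nd (nat_lit 57486) (nat_lit 0) (nat_lit 1824) (XT.nd (nat_lit 1092) (nat_lit 0) (nat_lit 0) (XT.nd (nat_lit 546) (nat_lit 76) (nat_lit 0) (XT.nd (nat_lit 234) (nat_lit 0) (nat_lit 0) (XT.nd (nat_lit 78) (nat_lit 0) (nat_lit 0) (XT.lf (nat_lit 0) (nat_lit 53489660377) (nat_lit 152) (nat_lit 392843996938) (nat_lit 0) (nat_lit 45854962010) (nat_lit 2) (nat_lit 5) (nat_lit 4) (nat_lit 4) (nat_lit 2) (nat_lit 4) (nat_lit 487) (nat_lit 394) (nat_lit 319)) (XT.nd (nat_lit 78) (nat_lit 0) (nat_lit 0) (XT.lf (nat_lit 0) (nat_lit 88306315724) (nat_lit 152) (nat_lit 361029847075) (nat_lit 0) (nat_lit 80669851193) (nat_lit 2) (nat_lit 5) (nat_lit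 4) (nat_lit 4) (nat_lit 2) (nat_lit 4) (nat_lit 488) (nat_lit 394) (nat_lit 318)) (XT.lf (nat_lit 0) (nat_lit 125894550788) (nat_lit 152) (nat_lit 326698486241) (nat_lit 0) (nat_lit 118256450922) (nat_lit 2) (nat_lit 5) (nat_lit 4) (nat_lit 4) (nat_lit 2) (nat_lit 4) (nat_lit 489) (nat_lit 394) (nat_lit 317)))) (XT.nd (nat_lit 156) (nat_lit 0) (nat_lit 0) (XT.nd (nat_lit 78) (nat_lit 0) (nat_lit 0) (XT.lf (nat_lit 0) (nat_lit 166477110667) (nat_lit 152) (nat_lit 289646469335) (nat_lit 0) (nat_lit 158837496601) (nat_lit 2) (nat_lit 5) (nat_lit 4) (nat_lit 4) (nat_lit 2) (nat_lit 4) (nat_lit 490) (nat_lit 394) (nat_lit 316)) (XT.lf (nat_lit 0) (nat_lit 210294484604) (nat_lit 152) (nat_lit 249654228848) (nat_lit 0) (nat_lit 202653468502) (nat_lit 2) (nat_lit 5) (nat_lit 4) (nat_lit 4) (nat_lit 2) (nat_lit 4) (nat_lit 491) (nat_lit 394) (nat_lit 315))) (XT.nd (nat_lit 78) (nat_lit 0) (nat_lit 0)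 (XT.lf (nat_lit 0) (nat_lit 257606331111) (nat_lit 152) (nat_lit 206484773727) (nat_lit 0) (nat_lit 249964016827) (nat_lit 2) (nat_lit 5) (nat_lit 4) (nat_lit 4) (nat_lit 2) (nat_lit 4) (nat_lit 492) (nat_lit 394) (nat_lit 314)) (XT.lf (nat_lit 0) (nat_lit 308693016687) (nat_lit 152) (nat_lit 159882284977) (nat_lit 0) (nat_lit 301049500382) (nat_lit 2) (nat_lit 5) (nat_lit 4) (nat_lit 4) (nat_lit 2) (nat_lit 4) (nat_lit 493) (nat_lit 394) (nat_lit 313))))) (XT.nd (nat_lit 234) (nat_lit 0) (nat_lit 0) (XT.nd (nat_lit 78) (nat_lit 76) (nat_lit 0) (XT.lf (nat_lit 0) (nat_lit 363857277245) (nat_lit 152) (nat_lit 109570599704) (nat_lit 0) (nat_lit 356212647959) (nat_lit 2) (nat_lit 5) (nat_lit 4) (nat_lit 4) (nat_lit 2) (nat_lit 4) (nat_lit 494) (nat_lit 394) (nat_lit 312)) (XT.nd (nat_lit 78) (nat_lit 76) (nat_lit 0) (XT.lf (nat_lit 0) (nat_lit 423426012109) (nat_lit 152) (nat_lit 55251574585)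 (nat_lit 0) (nat_lit 415780352283) (nat_lit 2) (nat_lit 5) (nat_lit 4) (nat_lit 4) (nat_lit 2) (nat_lit 4) (nat_lit 495) (nat_lit 394) (nat_lit 311)) (XT.lf (nat_lit 0) (nat_lit 3508990506) (nat_lit 76) (nat_lit 484298015856) (nat_lit 76) (nat_lit 476651401828) (nat_lit 1) (nat_lit 4) (nat_lit 2) (nat_lit 5) (nat_lit 2) (nat_lit 4) (nat_lit 496) (nat_lit 394) (nat_lit 310)))) (XT.nd (nat_lit 156) (nat_lit 0) (nat_lit 0) (XT.nd (nat_lit 78) (nat_lit 0) (nat_lit 0) (XT.lf (nat_lit 0) (nat_lit 68927833081) (nat_lit 76) (nat_lit 489365420393) (nat_lit 76) (nat_lit 481717922844) (nat_lit 1) (nat_lit 4) (nat_lit 2) (nat_lit 5) (nat_lit 2) (nat_lit 4) (nat_lit 497) (nat_lit 394) (nat_lit 309)) (XT.lf (nat_lit 0) (nat_lit 139565753774) (nat_lit 76) (nat_lit 494845541520) (nat_lit 76) (nat_lit 487197225896) (nat_lit 1) (nat_lit 4) (nat_lit 2) (nat_lit 5) (nat_lit 2) (nat_lit 4) (nat_lit 498) (nat_lit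 394) (nat_lit 308))) (XT.nd (nat_lit 78) (nat_lit 0) (nat_lit 0) (XT.lf (nat_lit 0) (nat_lit 215841347671) (nat_lit 76) (nat_lit 500770854029) (nat_lit 76) (nat_lit 493121780929) (nat_lit 1) (nat_lit 4) (nat_lit 2) (nat_lit 5) (nat_lit 2) (nat_lit 4) (nat_lit 499) (nat_lit 394) (nat_lit 307)) (XT.lf (nat_lit 0) (nat_lit 298206618292) (nat_lit 76) (nat_lit 507176470884) (nat_lit 76) (nat_lit 499526696416) (nat_lit 1) (nat_lit 4) (nat_lit 2) (nat_lit 5) (nat_lit 2) (nat_lit 4) (nat_lit 500) (nat_lit 394) (nat_lit 306)))))) (XT.nd (nat_lit 55848) (nat_lit 0) (nat_lit 5928) (XT.nd (nat_lit 55536) (nat_lit 0) (nat_lit 8284) (XT.nd (nat_lit 55380) (nat_lit 0) (nat_lit 9880) (XT.lf (nat_lit 0) (nat_lit 387149656128) (nat_lit 76) (nat_lit 514100351294) (nat_lit 76) (nat_lit 506449927412) (nat_lit 1) (nat_lit 4) (nat_lit 2) (nat_lit 5) (nat_lit 2) (nat_lit 4) (nat_lit 501) (nat_lit 394) (nat_lit 305))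 (XT.nd (nat_lit 78) (nat_lit 1216) (nat_lit 0) (XT.lf (nat_lit 0) (nat_lit 3358525932) (nat_lit 684) (nat_lit 112280920) (nat_lit 684) (nat_lit 112280920) (nat_lit 147) (nat_lit 4) (nat_lit 156) (nat_lit 5) (nat_lit 156) (nat_lit 4) (nat_lit 410) (nat_lit 395) (nat_lit 395)) (XT.lf (nat_lit 0) (nat_lit 914512937) (nat_lit 380) (nat_lit 4463890418) (nat_lit 380) (nat_lit 1942002776) (nat_lit 131) (nat_lit 4) (nat_lit 136) (nat_lit 5) (nat_lit 136) (nat_lit 4) (nat_lit 411) (nat_lit 395) (nat_lit 394)))) (XT.nd (nat_lit 156) (nat_lit 684) (nat_lit 0) (XT.nd (nat_lit 78) (nat_lit 456) (nat_lit 0) (XT.lf (nat_lit 0) (nat_lit 2470048058) (nat_lit 380) (nat_lit 1104106502) (nat_lit 456) (nat_lit 3921419268) (nat_lit 125) (nat_lit 5) (nat_lit 130) (nat_lit 5) (nat_lit 131) (nat_lit 4) (nat_lit 412) (nat_lit 395) (nat_lit 393)) (XT.lf (nat_lit 0) (nat_lit 1542392100) (nat_lit 456) (nat_lit 3522935210)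 (nat_lit 76) (nat_lit 2625596105) (nat_lit 119) (nat_lit 5) (nat_lit 125) (nat_lit 5) (nat_lit 120) (nat_lit 4) (nat_lit 413) (nat_lit 395) (nat_lit 392))) (XT.nd (nat_lit 78) (nat_lit 380) (nat_lit 0) (XT.lf (nat_lit 0) (nat_lit 6021500501) (nat_lit 304) (nat_lit 1106774626) (nat_lit 380) (nat_lit 779385324) (nat_lit 115) (nat_lit 5) (nat_lit 119) (nat_lit 5) (nat_lit 120) (nat_lit 4) (nat_lit 414) (nat_lit 395) (nat_lit 391)) (XT.lf (nat_lit 0) (nat_lit 4733176850) (nat_lit 380) (nat_lit 160660371) (nat_lit 76) (nat_lit 3250334969) (nat_lit 110) (nat_lit 5) (nat_lit 115) (nat_lit 5) (nat_lit 111) (nat_lit 4) (nat_lit 415) (nat_lit 395) (nat_lit 390))))) (XT.nd (nat_lit 234) (nat_lit 1140) (nat_lit 0) (XT.nd (nat_lit 78) (nat_lit 532) (nat_lit 0) (XT.lf (nat_lit 0) (nat_lit 1770420735) (nat_lit 304) (nat_lit 307074397) (nat_lit 380) (nat_lit 6325308796) (nat_lit 101) (nat_lit 5) (nat_lit 105)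 (nat_lit 5) (nat_lit 106) (nat_lit 5) (nat_lit 416) (nat_lit 395) (nat_lit 389)) (XT.nd (nat_lit 78) (nat_lit 304) (nat_lit 0) (XT.lf (nat_lit 0) (nat_lit 3795056732) (nat_lit 228) (nat_lit 4031532415) (nat_lit 304) (nat_lit 855755575) (nat_lit 98) (nat_lit 5) (nat_lit 101) (nat_lit 5) (nat_lit 102) (nat_lit 4) (nat_lit 417) (nat_lit 395) (nat_lit 388)) (XT.lf (nat_lit 0) (nat_lit 4794232732) (nat_lit 304) (nat_lit 3048571129) (nat_lit 76) (nat_lit 1142332402) (nat_lit 94) (nat_lit 5) (nat_lit 98) (nat_lit 5) (nat_lit 95) (nat_lit 4) (nat_lit 418) (nat_lit 395) (nat_lit 387)))) (XT.nd (nat_lit 156) (nat_lit 456) (nat_lit 0) (XT.nd (nat_lit 78) (nat_lit 380) (nat_lit 0) (XT.lf (nat_lit 0) (nat_lit 1473583803) (nat_lit 304) (nat_lit 1122016039) (nat_lit 76) (nat_lit 6716259439) (nat_lit 90) (nat_lit 5) (nat_lit 94) (nat_lit 5) (nat_lit 91) (nat_lit 5) (nat_lit 419) (nat_lit 395) (nat_lit 386))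 (XT.lf (nat_lit 0) (nat_lit 907424103) (nat_lit 152) (nat_lit 6520390851) (nat_lit 228) (nat_lit 2234346757) (nat_lit 85) (nat_lit 5) (nat_lit 87) (nat_lit 5) (nat_lit 88) (nat_lit 4) (nat_lit 420) (nat_lit 395) (nat_lit 385))) (XT.nd (nat_lit 78) (nat_lit 152) (nat_lit 0) (XT.lf (nat_lit 0) (nat_lit 3067048562) (nat_lit 228) (nat_lit 624877164) (nat_lit 304) (nat_lit 6345812726) (nat_lit 81) (nat_lit 5) (nat_lit 84) (nat_lit 5) (nat_lit 85) (nat_lit 5) (nat_lit 421) (nat_lit 395) (nat_lit 384)) (XT.lf (nat_lit 0) (nat_lit 5294723296) (nat_lit 152) (nat_lit 4759524144) (nat_lit 228) (nat_lit 385309777) (nat_lit 79) (nat_lit 5) (nat_lit 81) (nat_lit 5) (nat_lit 82) (nat_lit 4) (nat_lit 422) (nat_lit 395) (nat_lit 383))))))) (XT.nd (nat_lit 1092) (nat_lit 1444) (nat_lit 0) (XT.nd (nat_lit 546) (nat_lit 1140) (nat_lit 0) (XT.nd (nat_lit 234) (nat_lit 684) (nat_lit 0) (XT.nd (nat_lit 78) (nat_lit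 532) (nat_lit 0) (XT.lf (nat_lit 0) (nat_lit 5860824974) (nat_lit 304) (nat_lit 3284166877) (nat_lit 76) (nat_lit 1723714597) (nat_lit 75) (nat_lit 5) (nat_lit 79) (nat_lit 5) (nat_lit 76) (nat_lit 4) (nat_lit 423) (nat_lit 395) (nat_lit 382)) (XT.nd (nat_lit 78) (nat_lit 304) (nat_lit 0) (XT.lf (nat_lit 0) (nat_lit 1282532854) (nat_lit 228) (nat_lit 1367114477) (nat_lit 76) (nat_lit 8678188846) (nat_lit 72) (nat_lit 5) (nat_lit 75) (nat_lit 5) (nat_lit 73) (nat_lit 5) (nat_lit 424) (nat_lit 395) (nat_lit 381)) (XT.lf (nat_lit 0) (nat_lit 575633025) (nat_lit 152) (nat_lit 7402288763) (nat_lit 228) (nat_lit 3837837893) (nat_lit 68) (nat_lit 5) (nat_lit 70) (nat_lit 5) (nat_lit 71) (nat_lit 4) (nat_lit 425) (nat_lit 395) (nat_lit 380)))) (XT.nd (nat_lit 156) (nat_lit 304) (nat_lit 0) (XT.nd (nat_lit 78) (nat_lit 152) (nat_lit 0) (XT.lf (nat_lit 0) (nat_lit 2632607701) (nat_lit 152) (nat_lit 219399360)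 (nat_lit 228) (nat_lit 9484621132) (nat_lit 65) (nat_lit 5) (nat_lit 67) (nat_lit 5) (nat_lit 68) (nat_lit 5) (nat_lit 426) (nat_lit 395) (nat_lit 379)) (XT.lf (nat_lit 0) (nat_lit 4660017579) (nat_lit 152) (nat_lit 5425207411) (nat_lit 228) (nat_lit 2803685966) (nat_lit 63) (nat_lit 5) (nat_lit 65) (nat_lit 5) (nat_lit 66) (nat_lit 4) (nat_lit 427) (nat_lit 395) (nat_lit 378))) (XT.nd (nat_lit 78) (nat_lit 76) (nat_lit 0) (XT.lf (nat_lit 0) (nat_lit 4349408634) (nat_lit 228) (nat_lit 6754237354) (nat_lit 76) (nat_lit 2374362089) (nat_lit 60) (nat_lit 5) (nat_lit 63) (nat_lit 5) (nat_lit 61) (nat_lit 4) (nat_lit 428) (nat_lit 395) (nat_lit 377)) (XT.lf (nat_lit 0) (nat_lit 8789177201) (nat_lit 76) (nat_lit 3331380295) (nat_lit 152) (nat_lit 1984194245) (nat_lit 59) (nat_lit 5) (nat_lit 60) (nat_lit 5) (nat_lit 61) (nat_lit 4) (nat_lit 429) (nat_lit 395) (nat_lit 376))))) (XT.nd (nat_lit 234)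 (nat_lit 608) (nat_lit 0) (XT.nd (nat_lit 78) (nat_lit 304) (nat_lit 0) (XT.lf (nat_lit 0) (nat_lit 5696294976) (nat_lit 228) (nat_lit 3957554323) (nat_lit 76) (nat_lit 5115928356) (nat_lit 56) (nat_lit 5) (nat_lit 59) (nat_lit 5) (nat_lit 57) (nat_lit 4) (nat_lit 430) (nat_lit 395) (nat_lit 375)) (XT.nd (nat_lit 78) (nat_lit 228) (nat_lit 0) (XT.lf (nat_lit 0) (nat_lit 12866624110) (nat_lit 76) (nat_lit 1190904424) (nat_lit 152) (nat_lit 1422074810) (nat_lit 55) (nat_lit 5) (nat_lit 56) (nat_lit 5) (nat_lit 57) (nat_lit 4) (nat_lit 431) (nat_lit 395) (nat_lit 374)) (XT.lf (nat_lit 0) (nat_lit 6844225934) (nat_lit 228) (nat_lit 1440028632) (nat_lit 76) (nat_lit 7945545739) (nat_lit 52) (nat_lit 5) (nat_lit 55) (nat_lit 5) (nat_lit 53) (nat_lit 4) (nat_lit 432) (nat_lit 395) (nat_lit 373)))) (XT.nd (nat_lit 156) (nat_lit 228) (nat_lit 0) (XT.nd (nat_lit 78) (nat_lit 304) (nat_lit 0) (XT.lf (nat_lit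 0) (nat_lit 15862711746) (nat_lit 152) (nat_lit 286397326) (nat_lit 0) (nat_lit 882715526) (nat_lit 51) (nat_lit 5) (nat_lit 53) (nat_lit 4) (nat_lit 51) (nat_lit 4) (nat_lit 433) (nat_lit 395) (nat_lit 372)) (XT.lf (nat_lit 0) (nat_lit 645267426) (nat_lit 76) (nat_lit 7087925333) (nat_lit 152) (nat_lit 10145058204) (nat_lit 47) (nat_lit 5) (nat_lit 48) (nat_lit 5) (nat_lit 49) (nat_lit 4) (nat_lit 434) (nat_lit 395) (nat_lit 371))) (XT.nd (nat_lit 78) (nat_lit 152) (nat_lit 0) (XT.lf (nat_lit 0) (nat_lit 1507502198) (nat_lit 76) (nat_lit 15979690472) (nat_lit 76) (nat_lit 1295227103) (nat_lit 46) (nat_lit 4) (nat_lit 47) (nat_lit 5) (nat_lit 47) (nat_lit 4) (nat_lit 435) (nat_lit 395) (nat_lit 370)) (XT.lf (nat_lit 0) (nat_lit 2069474590) (nat_lit 76) (nat_lit 6193903244) (nat_lit 152) (nat_lit 11475840974) (nat_lit 44) (nat_lit 5) (nat_lit 45) (nat_lit 5) (nat_lit 46) (nat_lit 4) (nat_lit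 436) (nat_lit 395) (nat_lit 369)))))) (XT.nd (nat_lit 546) (nat_lit 760) (nat_lit 0) (XT.nd (nat_lit 234) (nat_lit 380) (nat_lit 0) (XT.nd (nat_lit 78) (nat_lit 228) (nat_lit 0) (XT.lf (nat_lit 0) (nat_lit 2451274559) (nat_lit 76) (nat_lit 16317598716) (nat_lit 76) (nat_lit 1991256062) (nat_lit 43) (nat_lit 4) (nat_lit 44) (nat_lit 5) (nat_lit 44) (nat_lit 4) (nat_lit 437) (nat_lit 395) (nat_lit 368)) (XT.nd (nat_lit 78) (nat_lit 76) (nat_lit 0) (XT.lf (nat_lit 0) (nat_lit 2462617584) (nat_lit 76) (nat_lit 5801197413) (nat_lit 152) (nat_lit 13578671184) (nat_lit 41) (nat_lit 5) (nat_lit 42) (nat_lit 5) (nat_lit 43) (nat_lit 4) (nat_lit 438) (nat_lit 395) (nat_lit 367)) (XT.lf (nat_lit 0) (nat_lit 2163077202) (nat_lit 76) (nat_lit 17377918136) (nat_lit 76) (nat_lit 3455237427) (nat_lit 40) (nat_lit 4) (nat_lit 41) (nat_lit 5) (nat_lit 41) (nat_lit 4) (nat_lit 439) (nat_lit 395) (nat_lit 366))))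 (XT.nd (nat_lit 156) (nat_lit 152) (nat_lit 0) (XT.nd (nat_lit 78) (nat_lit 76) (nat_lit 0) (XT.lf (nat_lit 0) (nat_lit 1394876077) (nat_lit 76) (nat_lit 6137588747) (nat_lit 152) (nat_lit 16689295581) (nat_lit 38) (nat_lit 5) (nat_lit 39) (nat_lit 5) (nat_lit 40) (nat_lit 4) (nat_lit 440) (nat_lit 395) (nat_lit 365)) (XT.lf (nat_lit 0) (nat_lit 147371180) (nat_lit 76) (nat_lit 19433561823) (nat_lit 76) (nat_lit 5946430376) (nat_lit 37) (nat_lit 4) (nat_lit 38) (nat_lit 5) (nat_lit 38) (nat_lit 4) (nat_lit 441) (nat_lit 395) (nat_lit 364))) (XT.nd (nat_lit 78) (nat_lit 76) (nat_lit 0) (XT.lf (nat_lit 0) (nat_lit 5823626088) (nat_lit 152) (nat_lit 1649942416) (nat_lit 76) (nat_lit 19441996499) (nat_lit 36) (nat_lit 5) (nat_lit 38) (nat_lit 5) (nat_lit 37) (nat_lit 4) (nat_lit 442) (nat_lit 395) (nat_lit 363)) (XT.lf (nat_lit 0) (nat_lit 18653870488) (nat_lit 152) (nat_lit 4116457488) (nat_lit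 0) (nat_lit 5623279288) (nat_lit 35) (nat_lit 5) (nat_lit 37) (nat_lit 4) (nat_lit 35) (nat_lit 4) (nat_lit 443) (nat_lit 395) (nat_lit 362))))) (XT.nd (nat_lit 312) (nat_lit 304) (nat_lit 0) (XT.nd (nat_lit 156) (nat_lit 228) (nat_lit 0) (XT.nd (nat_lit 78) (nat_lit 76) (nat_lit 0) (XT.lf (nat_lit 0) (nat_lit 2812596897) (nat_lit 152) (nat_lit 7347434987) (nat_lit 76) (nat_lit 19809265690) (nat_lit 33) (nat_lit 5) (nat_lit 35) (nat_lit 5) (nat_lit 34) (nat_lit 4) (nat_lit 444) (nat_lit 395) (nat_lit 361)) (XT.lf (nat_lit 0) (nat_lit 16343144789) (nat_lit 152) (nat_lit 11522727495) (nat_lit 0) (nat_lit 3781428084) (nat_lit 32) (nat_lit 5) (nat_lit 34) (nat_lit 4) (nat_lit 32) (nat_lit 4) (nat_lit 445) (nat_lit 395) (nat_lit 360))) (XT.nd (nat_lit 78) (nat_lit 152) (nat_lit 0) (XT.lf (nat_lit 0) (nat_lit 16700904186) (nat_lit 76) (nat_lit 14683229251) (nat_lit 76) (nat_lit 2054013503) (nat_lit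 31) (nat_lit 4) (nat_lit 32) (nat_lit 5) (nat_lit 32) (nat_lit 4) (nat_lit 446) (nat_lit 395) (nat_lit 359)) (XT.lf (nat_lit 0) (nat_lit 12128282992) (nat_lit 152) (nat_lit 23180257300) (nat_lit 0) (nat_lit 40935506) (nat_lit 29) (nat_lit 5) (nat_lit 31) (nat_lit 4) (nat_lit 29) (nat_lit 4) (nat_lit 447) (nat_lit 395) (nat_lit 358)))) (XT.nd (nat_lit 156) (nat_lit 152) (nat_lit 0) (XT.nd (nat_lit 78) (nat_lit 76) (nat_lit 0) (XT.lf (nat_lit 0) (nat_lit 6249968282) (nat_lit 76) (nat_lit 21639358438) (nat_lit 76) (nat_lit 9496897096) (nat_lit 28) (nat_lit 4) (nat_lit 29) (nat_lit 5) (nat_lit 29) (nat_lit 4) (nat_lit 448) (nat_lit 395) (nat_lit 357)) (XT.lf (nat_lit 0) (nat_lit 5442615516) (nat_lit 152) (nat_lit 1036130881) (nat_lit 76) (nat_lit 33088624678) (nat_lit 27) (nat_lit 5) (nat_lit 29) (nat_lit 5) (nat_lit 28) (nat_lit 4) (nat_lit 449) (nat_lit 395) (nat_lit 356))) (XT.nd (nat_lit 78)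 (nat_lit 76) (nat_lit 0) (XT.lf (nat_lit 0) (nat_lit 21800403561) (nat_lit 152) (nat_lit 9944480316) (nat_lit 0) (nat_lit 10142552191) (nat_lit 26) (nat_lit 5) (nat_lit 28) (nat_lit 4) (nat_lit 26) (nat_lit 4) (nat_lit 450) (nat_lit 395) (nat_lit 355)) (XT.lf (nat_lit 0) (nat_lit 23633030213) (nat_lit 76) (nat_lit 16220139759) (nat_lit 76) (nat_lit 4520620621) (nat_lit 25) (nat_lit 4) (nat_lit 26) (nat_lit 5) (nat_lit 26) (nat_lit 4) (nat_lit 451) (nat_lit 395) (nat_lit 354))))))))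
noncomputable def xc38 : XT := (XT.nd (nat_lit 2184) (nat_lit 304) (nat_lit 0) (XT.nd (nat_lit 1092) (nat_lit 456) (nat_lit 0) (XT.nd (nat_lit 546) (nat_lit 456) (nat_lit 0) (XT.nd (nat_lit 234) (nat_lit 380) (nat_lit 0) (XT.nd (nat_lit 78) (nat_lit 76) (nat_lit 0) (XT.lf (nat_lit 0) (nat_lit 12189376549) (nat_lit 152) (nat_lit 33835267325) (nat_lit 0) (nat_lit 1010233307) (nat_lit 23) (nat_lit 5) (nat_lit 25) (nat_lit 4) (nat_lit 23) (nat_lit 4) (nat_lit 452) (nat_lit 395) (nat_lit 353)) (XT.nd (nat_lit 78) (nat_lit 0) (nat_lit 0) (XT.lf (nat_lit 0) (nat_lit 146819887) (nat_lit 76) (nat_lit 30472215255) (nat_lit 76) (nat_lit 19259049731) (nat_lit 22) (nat_lit 4) (nat_lit 23) (nat_lit 5) (nat_lit 23) (nat_lit 4) (nat_lit 453) (nat_lit 395) (nat_lit 352)) (XT.lf (nat_lit 0) (nat_lit 37857430737) (nat_lit 76) (nat_lit 13155741196) (nat_lit 76) (nat_lit 1911073561) (nat_lit 22) (nat_lit 4) (nat_lit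 23) (nat_lit 5) (nat_lit 23) (nat_lit 4) (nat_lit 454) (nat_lit 395) (nat_lit 351)))) (XT.nd (nat_lit 156) (nat_lit 152) (nat_lit 0) (XT.nd (nat_lit 78) (nat_lit 76) (nat_lit 0) (XT.lf (nat_lit 0) (nat_lit 16641613928) (nat_lit 152) (nat_lit 33636956849) (nat_lit 0) (nat_lit 5904627017) (nat_lit 20) (nat_lit 5) (nat_lit 22) (nat_lit 4) (nat_lit 20) (nat_lit 4) (nat_lit 455) (nat_lit 395) (nat_lit 350)) (XT.lf (nat_lit 0) (nat_lit 3694879530) (nat_lit 76) (nat_lit 33373153415) (nat_lit 76) (nat_lit 22610444614) (nat_lit 19) (nat_lit 4) (nat_lit 20) (nat_lit 5) (nat_lit 20) (nat_lit 4) (nat_lit 456) (nat_lit 395) (nat_lit 349))) (XT.nd (nat_lit 78) (nat_lit 152) (nat_lit 0) (XT.lf (nat_lit 0) (nat_lit 45040670290) (nat_lit 76) (nat_lit 14587136946) (nat_lit 76) (nat_lit 3800611582) (nat_lit 19) (nat_lit 4) (nat_lit 20) (nat_lit 5) (nat_lit 20) (nat_lit 4) (nat_lit 457) (nat_lit 395) (nat_lit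 348)) (XT.lf (nat_lit 0) (nat_lit 16353120497) (nat_lit 152) (nat_lit 45034724313) (nat_lit 0) (nat_lit 6059236937) (nat_lit 17) (nat_lit 5) (nat_lit 19) (nat_lit 4) (nat_lit 17) (nat_lit 4) (nat_lit 458) (nat_lit 395) (nat_lit 347))))) (XT.nd (nat_lit 234) (nat_lit 228) (nat_lit 0) (XT.nd (nat_lit 78) (nat_lit 228) (nat_lit 0) (XT.lf (nat_lit 0) (nat_lit 38480083133) (nat_lit 152) (nat_lit 5112582923) (nat_lit 0) (nat_lit 28166753035) (nat_lit 17) (nat_lit 5) (nat_lit 19) (nat_lit 4) (nat_lit 17) (nat_lit 4) (nat_lit 459) (nat_lit 395) (nat_lit 346)) (XT.nd (nat_lit 78) (nat_lit 152) (nat_lit 0) (XT.lf (nat_lit 0) (nat_lit 39107657094) (nat_lit 76) (nat_lit 23806780815) (nat_lit 76) (nat_lit 13475444663) (nat_lit 16) (nat_lit 4) (nat_lit 17) (nat_lit 5) (nat_lit 17) (nat_lit 4) (nat_lit 460) (nat_lit 395) (nat_lit 345)) (XT.lf (nat_lit 0) (nat_lit 5571771093) (nat_lit 76) (nat_lit 2193975011)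 (nat_lit 152) (nat_lit 73613548518) (nat_lit 14) (nat_lit 5) (nat_lit 15) (nat_lit 5) (nat_lit 16) (nat_lit 4) (nat_lit 461) (nat_lit 395) (nat_lit 344)))) (XT.nd (nat_lit 156) (nat_lit 152) (nat_lit 0) (XT.nd (nat_lit 78) (nat_lit 76) (nat_lit 0) (XT.lf (nat_lit 0) (nat_lit 31161484676) (nat_lit 152) (nat_lit 34257425553) (nat_lit 0) (nat_lit 21291536379) (nat_lit 14) (nat_lit 5) (nat_lit 16) (nat_lit 4) (nat_lit 14) (nat_lit 4) (nat_lit 462) (nat_lit 395) (nat_lit 343)) (XT.lf (nat_lit 0) (nat_lit 10796140076) (nat_lit 76) (nat_lit 45774219464) (nat_lit 76) (nat_lit 35890658038) (nat_lit 13) (nat_lit 4) (nat_lit 14) (nat_lit 5) (nat_lit 14) (nat_lit 4) (nat_lit 463) (nat_lit 395) (nat_lit 342))) (XT.nd (nat_lit 78) (nat_lit 152) (nat_lit 0) (XT.lf (nat_lit 0) (nat_lit 60553832988) (nat_lit 76) (nat_lit 23993596887) (nat_lit 76) (nat_lit 14097430711) (nat_lit 13) (nat_lit 4) (nat_lit 14) (nat_lit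 5) (nat_lit 14) (nat_lit 4) (nat_lit 464) (nat_lit 395) (nat_lit 341)) (XT.lf (nat_lit 0) (nat_lit 8992947906) (nat_lit 76) (nat_lit 226947286) (nat_lit 152) (nat_lit 96092009966) (nat_lit 11) (nat_lit 5) (nat_lit 12) (nat_lit 5) (nat_lit 13) (nat_lit 4) (nat_lit 465) (nat_lit 395) (nat_lit 340)))))) (XT.nd (nat_lit 546) (nat_lit 228) (nat_lit 0) (XT.nd (nat_lit 234) (nat_lit 152) (nat_lit 0) (XT.nd (nat_lit 78) (nat_lit 76) (nat_lit 0) (XT.lf (nat_lit 0) (nat_lit 34930918555) (nat_lit 152) (nat_lit 52034138012) (nat_lit 0) (nat_lit 25484591144) (nat_lit 11) (nat_lit 5) (nat_lit 13) (nat_lit 4) (nat_lit 11) (nat_lit 4) (nat_lit 466) (nat_lit 395) (nat_lit 339)) (XT.nd (nat_lit 78) (nat_lit 76) (nat_lit 0) (XT.lf (nat_lit 0) (nat_lit 62650807298) (nat_lit 152) (nat_lit 4315053364) (nat_lit 0) (nat_lit 53194950309) (nat_lit 11) (nat_lit 5) (nat_lit 13) (nat_lit 4) (nat_lit 11) (nat_lit 4) (nat_lit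 467) (nat_lit 395) (nat_lit 338)) (XT.lf (nat_lit 0) (nat_lit 48682772483) (nat_lit 76) (nat_lit 44617586175) (nat_lit 76) (nat_lit 35152905504) (nat_lit 10) (nat_lit 4) (nat_lit 11) (nat_lit 5) (nat_lit 11) (nat_lit 4) (nat_lit 468) (nat_lit 395) (nat_lit 337)))) (XT.nd (nat_lit 156) (nat_lit 0) (nat_lit 0) (XT.nd (nat_lit 78) (nat_lit 152) (nat_lit 0) (XT.lf (nat_lit 0) (nat_lit 105981788062) (nat_lit 76) (nat_lit 20449356589) (nat_lit 76) (nat_lit 10976505841) (nat_lit 10) (nat_lit 4) (nat_lit 11) (nat_lit 5) (nat_lit 11) (nat_lit 4) (nat_lit 469) (nat_lit 395) (nat_lit 336)) (XT.lf (nat_lit 0) (nat_lit 15033319817) (nat_lit 152) (nat_lit 126009716679) (nat_lit 0) (nat_lit 6004352546) (nat_lit 8) (nat_lit 5) (nat_lit 10) (nat_lit 4) (nat_lit 8) (nat_lit 4) (nat_lit 470) (nat_lit 395) (nat_lit 335))) (XT.nd (nat_lit 78) (nat_lit 0) (nat_lit 0) (XT.lf (nat_lit 0) (nat_lit 43603760058) (nat_lit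 152) (nat_lit 79234208416) (nat_lit 0) (nat_lit 34568121813) (nat_lit 8) (nat_lit 5) (nat_lit 10) (nat_lit 4) (nat_lit 8) (nat_lit 4) (nat_lit 471) (nat_lit 395) (nat_lit 334)) (XT.lf (nat_lit 0) (nat_lit 74420988094) (nat_lit 152) (nat_lit 28795269200) (nat_lit 0) (nat_lit 65379173019) (nat_lit 8) (nat_lit 5) (nat_lit 10) (nat_lit 4) (nat_lit 8) (nat_lit 4) (nat_lit 472) (nat_lit 395) (nat_lit 333))))) (XT.nd (nat_lit 234) (nat_lit 152) (nat_lit 0) (XT.nd (nat_lit 78) (nat_lit 0) (nat_lit 0) (XT.lf (nat_lit 0) (nat_lit 26452648332) (nat_lit 76) (nat_lit 81627976176) (nat_lit 76) (nat_lit 72580441815) (nat_lit 7) (nat_lit 4) (nat_lit 8) (nat_lit 5) (nat_lit 8) (nat_lit 4) (nat_lit 473) (nat_lit 395) (nat_lit 332)) (XT.nd (nat_lit 78) (nat_lit 0) (nat_lit 0) (XT.lf (nat_lit 0) (nat_lit 87079045498) (nat_lit 76) (nat_lit 57821188924) (nat_lit 76) (nat_lit 48768358929) (nat_lit 7) (nat_lit 4)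 (nat_lit 8) (nat_lit 5) (nat_lit 8) (nat_lit 4) (nat_lit 474) (nat_lit 395) (nat_lit 331)) (XT.lf (nat_lit 0) (nat_lit 152491088193) (nat_lit 76) (nat_lit 32142480099) (nat_lit 76) (nat_lit 23084746737) (nat_lit 7) (nat_lit 4) (nat_lit 8) (nat_lit 5) (nat_lit 8) (nat_lit 4) (nat_lit 475) (nat_lit 395) (nat_lit 330)))) (XT.nd (nat_lit 156) (nat_lit 0) (nat_lit 0) (XT.nd (nat_lit 78) (nat_lit 0) (nat_lit 0) (XT.lf (nat_lit 0) (nat_lit 114404375) (nat_lit 76) (nat_lit 4362023863) (nat_lit 152) (nat_lit 218413362840) (nat_lit 5) (nat_lit 5) (nat_lit 6) (nat_lit 5) (nat_lit 7) (nat_lit 4) (nat_lit 476) (nat_lit 395) (nat_lit 329)) (XT.lf (nat_lit 0) (nat_lit 34793537331) (nat_lit 152) (nat_lit 178235738312) (nat_lit 0) (nat_lit 26158796987) (nat_lit 5) (nat_lit 5) (nat_lit 7) (nat_lit 4) (nat_lit 5) (nat_lit 4) (nat_lit 477) (nat_lit 395) (nat_lit 328))) (XT.nd (nat_lit 78) (nat_lit 0) (nat_lit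 0) (XT.lf (nat_lit 0) (nat_lit 67582608802) (nat_lit 152) (nat_lit 130261117044) (nat_lit 0) (nat_lit 58944161363) (nat_lit 5) (nat_lit 5) (nat_lit 7) (nat_lit 4) (nat_lit 5) (nat_lit 4) (nat_lit 478) (nat_lit 395) (nat_lit 327)) (XT.lf (nat_lit 0) (nat_lit 102969844844) (nat_lit 152) (nat_lit 78499125432) (nat_lit 0) (nat_lit 94327964909) (nat_lit 5) (nat_lit 5) (nat_lit 7) (nat_lit 4) (nat_lit 5) (nat_lit 4) (nat_lit 479) (nat_lit 395) (nat_lit 326))))))) (XT.nd (nat_lit 1092) (nat_lit 76) (nat_lit 0) (XT.nd (nat_lit 546) (nat_lit 152) (nat_lit 0) (XT.nd (nat_lit 234) (nat_lit 0) (nat_lit 0) (XT.nd (nat_lit 78) (nat_lit 76) (nat_lit 0) (XT.lf (nat_lit 0) (nat_lit 141164947597) (nat_lit 152) (nat_lit 22643025747) (nat_lit 0) (nat_lit 132519889425) (nat_lit 5) (nat_lit 5) (nat_lit 7) (nat_lit 4) (nat_lit 5) (nat_lit 4) (nat_lit 480) (nat_lit 395) (nat_lit 325)) (XT.nd (nat_lit 78) (nat_lit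 0) (nat_lit 0) (XT.lf (nat_lit 0) (nat_lit 38882669365) (nat_lit 76) (nat_lit 144118656481) (nat_lit 76) (nat_lit 135470655497) (nat_lit 4) (nat_lit 4) (nat_lit 5) (nat_lit 5) (nat_lit 5) (nat_lit 4) (nat_lit 481) (nat_lit 395) (nat_lit 324)) (XT.lf (nat_lit 0) (nat_lit 106097499717) (nat_lit 76) (nat_lit 122461078714) (nat_lit 76) (nat_lit 113810352905) (nat_lit 4) (nat_lit 4) (nat_lit 5) (nat_lit 5) (nat_lit 5) (nat_lit 4) (nat_lit 482) (nat_lit 395) (nat_lit 323)))) (XT.nd (nat_lit 156) (nat_lit 0) (nat_lit 0) (XT.nd (nat_lit 78) (nat_lit 0) (nat_lit 0) (XT.lf (nat_lit 0) (nat_lit 178651094722) (nat_lit 76) (nat_lit 99090369442) (nat_lit 76) (nat_lit 90437120646) (nat_lit 4) (nat_lit 4) (nat_lit 5) (nat_lit 5) (nat_lit 5) (nat_lit 4) (nat_lit 483) (nat_lit 395) (nat_lit 322)) (XT.lf (nat_lit 0) (nat_lit 256973401611) (nat_lit 76) (nat_lit 73868035571) (nat_lit 76) (nat_lit 65212450676) (nat_lit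 4) (nat_lit 4) (nat_lit 5) (nat_lit 5) (nat_lit 5) (nat_lit 4) (nat_lit 484) (nat_lit 395) (nat_lit 321))) (XT.nd (nat_lit 78) (nat_lit 0) (nat_lit 0) (XT.lf (nat_lit 0) (nat_lit 341528552572) (nat_lit 76) (nat_lit 46644611419) (nat_lit 76) (nat_lit 37986863470) (nat_lit 4) (nat_lit 4) (nat_lit 5) (nat_lit 5) (nat_lit 5) (nat_lit 4) (nat_lit 485) (nat_lit 395) (nat_lit 320)) (XT.lf (nat_lit 0) (nat_lit 432817615166) (nat_lit 76) (nat_lit 17258772991) (nat_lit 76) (nat_lit 8599022214) (nat_lit 4) (nat_lit 4) (nat_lit 5) (nat_lit 5) (nat_lit 5) (nat_lit 4) (nat_lit 486) (nat_lit 395) (nat_lit 319))))) (XT.nd (nat_lit 234) (nat_lit 0) (nat_lit 0) (XT.nd (nat_lit 78) (nat_lit 0) (nat_lit 0) (XT.lf (nat_lit 0) (nat_lit 23227099821) (nat_lit 152) (nat_lit 455527514672) (nat_lit 0) (nat_lit 14977951966) (nat_lit 2) (nat_lit 5) (nat_lit 4) (nat_lit 4) (nat_lit 2) (nat_lit 4) (nat_lit 487) (nat_lit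 395) (nat_lit 318)) (XT.nd (nat_lit 78) (nat_lit 0) (nat_lit 0) (XT.lf (nat_lit 0) (nat_lit 58037143287) (nat_lit 152) (nat_lit 423726788375) (nat_lit 0) (nat_lit 49786360097) (nat_lit 2) (nat_lit 5) (nat_lit 4) (nat_lit 4) (nat_lit 2) (nat_lit 4) (nat_lit 488) (nat_lit 395) (nat_lit 317)) (XT.lf (nat_lit 0) (nat_lit 95619256241) (nat_lit 152) (nat_lit 389407856769) (nat_lit 0) (nat_lit 87366958850) (nat_lit 2) (nat_lit 5) (nat_lit 4) (nat_lit 4) (nat_lit 2) (nat_lit 4) (nat_lit 489) (nat_lit 395) (nat_lit 316)))) (XT.nd (nat_lit 156) (nat_lit 0) (nat_lit 0) (XT.nd (nat_lit 78) (nat_lit 0) (nat_lit 0) (XT.lf (nat_lit 0) (nat_lit 136196147498) (nat_lit 152) (nat_lit 352367348407) (nat_lit 0) (nat_lit 127942448071) (nat_lit 2) (nat_lit 5) (nat_lit 4) (nat_lit 4) (nat_lit 2) (nat_lit 4) (nat_lit 490) (nat_lit 395) (nat_lit 315)) (XT.lf (nat_lit 0) (nat_lit 180008272712) (nat_lit 152) (nat_lit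 312385763981) (nat_lit 0) (nat_lit 171753275103) (nat_lit 2) (nat_lit 5) (nat_lit 4) (nat_lit 4) (nat_lit 2) (nat_lit 4) (nat_lit 491) (nat_lit 395) (nat_lit 314))) (XT.nd (nat_lit 78) (nat_lit 0) (nat_lit 0) (XT.lf (nat_lit 0) (nat_lit 227315259290) (nat_lit 152) (nat_lit 269226175581) (nat_lit 0) (nat_lit 219059059661) (nat_lit 2) (nat_lit 5) (nat_lit 4) (nat_lit 4) (nat_lit 2) (nat_lit 4) (nat_lit 492) (nat_lit 395) (nat_lit 313)) (XT.lf (nat_lit 0) (nat_lit 278397444932) (nat_lit 152) (nat_lit 222632822685) (nat_lit 0) (nat_lit 270140132320) (nat_lit 2) (nat_lit 5) (nat_lit 4) (nat_lit 4) (nat_lit 2) (nat_lit 4) (nat_lit 493) (nat_lit 395) (nat_lit 312)))))) (XT.nd (nat_lit 546) (nat_lit 0) (nat_lit 0) (XT.nd (nat_lit 234) (nat_lit 76) (nat_lit 0) (XT.nd (nat_lit 78) (nat_lit 0) (nat_lit 0) (XT.lf (nat_lit 0) (nat_lit 333557538885) (nat_lit 152) (nat_lit 172329596535) (nat_lit 0) (nat_lit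 325299195734) (nat_lit 2) (nat_lit 5) (nat_lit 4) (nat_lit 4) (nat_lit 2) (nat_lit 4) (nat_lit 494) (nat_lit 395) (nat_lit 311)) (XT.nd (nat_lit 78) (nat_lit 0) (nat_lit 0) (XT.lf (nat_lit 0) (nat_lit 393122415780) (nat_lit 152) (nat_lit 118018403939) (nat_lit 0) (nat_lit 384863118427) (nat_lit 2) (nat_lit 5) (nat_lit 4) (nat_lit 4) (nat_lit 2) (nat_lit 4) (nat_lit 495) (nat_lit 395) (nat_lit 310)) (XT.lf (nat_lit 0) (nat_lit 457445052665) (nat_lit 152) (nat_lit 59377400792) (nat_lit 0) (nat_lit 449184871791) (nat_lit 2) (nat_lit 5) (nat_lit 4) (nat_lit 4) (nat_lit 2) (nat_lit 4) (nat_lit 496) (nat_lit 395) (nat_lit 309)))) (XT.nd (nat_lit 156) (nat_lit 0) (nat_lit 0) (XT.nd (nat_lit 78) (nat_lit 0) (nat_lit 0) (XT.lf (nat_lit 0) (nat_lit 4071219598) (nat_lit 76) (nat_lit 522898964271) (nat_lit 76) (nat_lit 514637965322) (nat_lit 1) (nat_lit 4) (nat_lit 2) (nat_lit 5) (nat_lit 2) (nat_lit 4)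 (nat_lit 497) (nat_lit 395) (nat_lit 308)) (XT.lf (nat_lit 0) (nat_lit 74702716997) (nat_lit 76) (nat_lit 528382345827) (nat_lit 76) (nat_lit 520120589401) (nat_lit 1) (nat_lit 4) (nat_lit 2) (nat_lit 5) (nat_lit 2) (nat_lit 4) (nat_lit 498) (nat_lit 395) (nat_lit 307))) (XT.nd (nat_lit 78) (nat_lit 0) (nat_lit 0) (XT.lf (nat_lit 0) (nat_lit 150972363400) (nat_lit 76) (nat_lit 534310677251) (nat_lit 76) (nat_lit 526048219459) (nat_lit 1) (nat_lit 4) (nat_lit 2) (nat_lit 5) (nat_lit 2) (nat_lit 4) (nat_lit 499) (nat_lit 395) (nat_lit 306)) (XT.lf (nat_lit 0) (nat_lit 233332127081) (nat_lit 76) (nat_lit 540719089398) (nat_lit 76) (nat_lit 532455982191) (nat_lit 1) (nat_lit 4) (nat_lit 2) (nat_lit 5) (nat_lit 2) (nat_lit 4) (nat_lit 500) (nat_lit 395) (nat_lit 305))))) (XT.nd (nat_lit 55380) (nat_lit 0) (nat_lit 8968) (XT.nd (nat_lit 55224) (nat_lit 0) (nat_lit 11780) (XT.lf (nat_lit 0) (nat_lit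 322270065900) (nat_lit 76) (nat_lit 547645558041) (nat_lit 76) (nat_lit 539381849525) (nat_lit 1) (nat_lit 4) (nat_lit 2) (nat_lit 5) (nat_lit 2) (nat_lit 4) (nat_lit 501) (nat_lit 395) (nat_lit 304)) (XT.nd (nat_lit 78) (nat_lit 684) (nat_lit 0) (XT.lf (nat_lit 0) (nat_lit 2205389655) (nat_lit 532) (nat_lit 623194967) (nat_lit 532) (nat_lit 623194967) (nat_lit 165) (nat_lit 4) (nat_lit 172) (nat_lit 5) (nat_lit 172) (nat_lit 4) (nat_lit 408) (nat_lit 396) (nat_lit 396)) (XT.lf (nat_lit 0) (nat_lit 4108284063) (nat_lit 684) (nat_lit 1672416073) (nat_lit 0) (nat_lit 1248463477) (nat_lit 156) (nat_lit 5) (nat_lit 165) (nat_lit 4) (nat_lit 156) (nat_lit 4) (nat_lit 409) (nat_lit 396) (nat_lit 395)))) (XT.nd (nat_lit 156) (nat_lit 836) (nat_lit 0) (XT.nd (nat_lit 78) (nat_lit 1216) (nat_lit 0) (XT.lf (nat_lit 0) (nat_lit 2343509963) (nat_lit 760) (nat_lit 703607184) (nat_lit 76) (nat_lit 4127432485)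 (nat_lit 146) (nat_lit 5) (nat_lit 156) (nat_lit 5) (nat_lit 147) (nat_lit 4) (nat_lit 410) (nat_lit 396) (nat_lit 394)) (XT.lf (nat_lit 0) (nat_lit 336195716) (nat_lit 456) (nat_lit 6891406226) (nat_lit 76) (nat_lit 113327184) (nat_lit 130) (nat_lit 5) (nat_lit 136) (nat_lit 5) (nat_lit 131) (nat_lit 4) (nat_lit 411) (nat_lit 396) (nat_lit 393))) (XT.nd (nat_lit 78) (nat_lit 456) (nat_lit 0) (XT.lf (nat_lit 0) (nat_lit 1719495662) (nat_lit 380) (nat_lit 3871828866) (nat_lit 456) (nat_lit 1933249774) (nat_lit 125) (nat_lit 5) (nat_lit 130) (nat_lit 5) (nat_lit 131) (nat_lit 4) (nat_lit 412) (nat_lit 396) (nat_lit 392)) (XT.lf (nat_lit 0) (nat_lit 3160681726) (nat_lit 380) (nat_lit 68102052) (nat_lit 456) (nat_lit 4501539240) (nat_lit 119) (nat_lit 5) (nat_lit 124) (nat_lit 5) (nat_lit 125) (nat_lit 5) (nat_lit 413) (nat_lit 396) (nat_lit 391))))))))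
noncomputable def xc39 : XT := (XT.nd (nat_lit 2184) (nat_lit 2128) (nat_lit 0) (XT.nd (nat_lit 1092) (nat_lit 2052) (nat_lit 0) (XT.nd (nat_lit 546) (nat_lit 1672) (nat_lit 0) (XT.nd (nat_lit 234) (nat_lit 1368) (nat_lit 0) (XT.nd (nat_lit 78) (nat_lit 684) (nat_lit 0) (XT.lf (nat_lit 0) (nat_lit 645764937) (nat_lit 380) (nat_lit 3239145899) (nat_lit 76) (nat_lit 4071214358) (nat_lit 114) (nat_lit 5) (nat_lit 119) (nat_lit 5) (nat_lit 115) (nat_lit 5) (nat_lit 414) (nat_lit 396) (nat_lit 390)) (XT.nd (nat_lit 78) (nat_lit 380) (nat_lit 0) (XT.lf (nat_lit 0) (nat_lit 5901048123) (nat_lit 380) (nat_lit 1793728804) (nat_lit 76) (nat_lit 508904183) (nat_lit 110) (nat_lit 5) (nat_lit 115) (nat_lit 5) (nat_lit 111) (nat_lit 4) (nat_lit 415) (nat_lit 396) (nat_lit 389)) (XT.lf (nat_lit 0) (nat_lit 2935681945) (nat_lit 380) (nat_lit 264247779) (nat_lit 76) (nat_lit 5272284608) (nat_lit 105) (nat_lit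 5) (nat_lit 110) (nat_lit 5) (nat_lit 106) (nat_lit 5) (nat_lit 416) (nat_lit 396) (nat_lit 388)))) (XT.nd (nat_lit 156) (nat_lit 532) (nat_lit 0) (XT.nd (nat_lit 78) (nat_lit 304) (nat_lit 0) (XT.lf (nat_lit 0) (nat_lit 1441158870) (nat_lit 228) (nat_lit 7004951366) (nat_lit 304) (nat_lit 317607493) (nat_lit 98) (nat_lit 5) (nat_lit 101) (nat_lit 5) (nat_lit 102) (nat_lit 4) (nat_lit 417) (nat_lit 396) (nat_lit 387)) (XT.lf (nat_lit 0) (nat_lit 3218131826) (nat_lit 228) (nat_lit 1889189607) (nat_lit 304) (nat_lit 3969185355) (nat_lit 94) (nat_lit 5) (nat_lit 97) (nat_lit 5) (nat_lit 98) (nat_lit 5) (nat_lit 418) (nat_lit 396) (nat_lit 386))) (XT.nd (nat_lit 78) (nat_lit 228) (nat_lit 0) (XT.lf (nat_lit 0) (nat_lit 1467194793) (nat_lit 304) (nat_lit 4306707021) (nat_lit 76) (nat_lit 3640228250) (nat_lit 90) (nat_lit 5) (nat_lit 94) (nat_lit 5) (nat_lit 91) (nat_lit 5) (nat_lit 419) (nat_lit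 396) (nat_lit 385)) (XT.lf (nat_lit 0) (nat_lit 7098453458) (nat_lit 228) (nat_lit 69102521) (nat_lit 304) (nat_lit 2609591124) (nat_lit 87) (nat_lit 5) (nat_lit 90) (nat_lit 5) (nat_lit 91) (nat_lit 5) (nat_lit 420) (nat_lit 396) (nat_lit 384))))) (XT.nd (nat_lit 234) (nat_lit 760) (nat_lit 0) (XT.nd (nat_lit 78) (nat_lit 684) (nat_lit 0) (XT.lf (nat_lit 0) (nat_lit 3101815492) (nat_lit 228) (nat_lit 1022185084) (nat_lit 76) (nat_lit 6040378616) (nat_lit 84) (nat_lit 5) (nat_lit 87) (nat_lit 5) (nat_lit 85) (nat_lit 5) (nat_lit 421) (nat_lit 396) (nat_lit 383)) (XT.nd (nat_lit 78) (nat_lit 304) (nat_lit 0) (XT.lf (nat_lit 0) (nat_lit 750523220) (nat_lit 152) (nat_lit 8443011070) (nat_lit 228) (nat_lit 1386211049) (nat_lit 79) (nat_lit 5) (nat_lit 81) (nat_lit 5) (nat_lit 82) (nat_lit 4) (nat_lit 422) (nat_lit 396) (nat_lit 382)) (XT.lf (nat_lit 0) (nat_lit 2585596752) (nat_lit 228) (nat_lit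 2076244967) (nat_lit 304) (nat_lit 6359355248) (nat_lit 75) (nat_lit 5) (nat_lit 78) (nat_lit 5) (nat_lit 79) (nat_lit 5) (nat_lit 423) (nat_lit 396) (nat_lit 381)))) (XT.nd (nat_lit 156) (nat_lit 380) (nat_lit 0) (XT.nd (nat_lit 78) (nat_lit 228) (nat_lit 0) (XT.lf (nat_lit 0) (nat_lit 4493148482) (nat_lit 152) (nat_lit 6724826931) (nat_lit 228) (nat_lit 275242207) (nat_lit 73) (nat_lit 5) (nat_lit 75) (nat_lit 5) (nat_lit 76) (nat_lit 4) (nat_lit 424) (nat_lit 396) (nat_lit 380)) (XT.lf (nat_lit 0) (nat_lit 6145007011) (nat_lit 228) (nat_lit 5563398225) (nat_lit 76) (nat_lit 287160624) (nat_lit 70) (nat_lit 5) (nat_lit 73) (nat_lit 5) (nat_lit 71) (nat_lit 4) (nat_lit 425) (nat_lit 396) (nat_lit 379))) (XT.nd (nat_lit 78) (nat_lit 152) (nat_lit 0) (XT.lf (nat_lit 0) (nat_lit 656354333) (nat_lit 228) (nat_lit 4122005891) (nat_lit 76) (nat_lit 7752023874) (nat_lit 67) (nat_lit 5) (nat_lit 70)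 (nat_lit 5) (nat_lit 68) (nat_lit 5) (nat_lit 426) (nat_lit 396) (nat_lit 378)) (XT.lf (nat_lit 0) (nat_lit 7567395807) (nat_lit 228) (nat_lit 2696571663) (nat_lit 76) (nat_lit 2834818347) (nat_lit 65) (nat_lit 5) (nat_lit 68) (nat_lit 5) (nat_lit 66) (nat_lit 4) (nat_lit 427) (nat_lit 396) (nat_lit 377)))))) (XT.nd (nat_lit 546) (nat_lit 760) (nat_lit 0) (XT.nd (nat_lit 234) (nat_lit 608) (nat_lit 0) (XT.nd (nat_lit 78) (nat_lit 456) (nat_lit 0) (XT.lf (nat_lit 0) (nat_lit 1413831257) (nat_lit 228) (nat_lit 1253946414) (nat_lit 76) (nat_lit 11037002403) (nat_lit 62) (nat_lit 5) (nat_lit 65) (nat_lit 5) (nat_lit 63) (nat_lit 5) (nat_lit 428) (nat_lit 396) (nat_lit 376)) (XT.nd (nat_lit 78) (nat_lit 228) (nat_lit 0) (XT.lf (nat_lit 0) (nat_lit 124144311) (nat_lit 76) (nat_lit 8760211374) (nat_lit 152) (nat_lit 5462207550) (nat_lit 59) (nat_lit 5) (nat_lit 60) (nat_lit 5) (nat_lit 61) (nat_lit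 4) (nat_lit 429) (nat_lit 396) (nat_lit 375)) (XT.lf (nat_lit 0) (nat_lit 1569640914) (nat_lit 152) (nat_lit 431950572) (nat_lit 228) (nat_lit 13029120452) (nat_lit 56) (nat_lit 5) (nat_lit 58) (nat_lit 5) (nat_lit 59) (nat_lit 5) (nat_lit 430) (nat_lit 396) (nat_lit 374)))) (XT.nd (nat_lit 156) (nat_lit 304) (nat_lit 0) (XT.nd (nat_lit 78) (nat_lit 228) (nat_lit 0) (XT.lf (nat_lit 0) (nat_lit 2876159582) (nat_lit 76) (nat_lit 7227665334) (nat_lit 152) (nat_lit 5649669473) (nat_lit 55) (nat_lit 5) (nat_lit 56) (nat_lit 5) (nat_lit 57) (nat_lit 4) (nat_lit 431) (nat_lit 396) (nat_lit 373)) (XT.lf (nat_lit 0) (nat_lit 2392200814) (nat_lit 228) (nat_lit 12341608277) (nat_lit 76) (nat_lit 1791175441) (nat_lit 52) (nat_lit 5) (nat_lit 55) (nat_lit 5) (nat_lit 53) (nat_lit 4) (nat_lit 432) (nat_lit 396) (nat_lit 372))) (XT.nd (nat_lit 78) (nat_lit 228) (nat_lit 0) (XT.lf (nat_lit 0) (nat_lit 5327466079)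 (nat_lit 76) (nat_lit 5800463975) (nat_lit 152) (nat_lit 6213222117) (nat_lit 51) (nat_lit 5) (nat_lit 52) (nat_lit 5) (nat_lit 53) (nat_lit 4) (nat_lit 433) (nat_lit 396) (nat_lit 371)) (XT.lf (nat_lit 0) (nat_lit 2466612027) (nat_lit 228) (nat_lit 11806535609) (nat_lit 76) (nat_lit 3937569121) (nat_lit 48) (nat_lit 5) (nat_lit 51) (nat_lit 5) (nat_lit 49) (nat_lit 4) (nat_lit 434) (nat_lit 396) (nat_lit 370))))) (XT.nd (nat_lit 234) (nat_lit 456) (nat_lit 0) (XT.nd (nat_lit 78) (nat_lit 228) (nat_lit 0) (XT.lf (nat_lit 0) (nat_lit 7285377824) (nat_lit 76) (nat_lit 4589624137) (nat_lit 152) (nat_lit 7257168609) (nat_lit 47) (nat_lit 5) (nat_lit 48) (nat_lit 5) (nat_lit 49) (nat_lit 4) (nat_lit 435) (nat_lit 396) (nat_lit 369)) (XT.nd (nat_lit 78) (nat_lit 76) (nat_lit 0) (XT.lf (nat_lit 0) (nat_lit 2108745632) (nat_lit 152) (nat_lit 12095353839) (nat_lit 76) (nat_lit 5908703740) (nat_lit 45)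 (nat_lit 5) (nat_lit 47) (nat_lit 5) (nat_lit 46) (nat_lit 4) (nat_lit 436) (nat_lit 396) (nat_lit 368)) (XT.lf (nat_lit 0) (nat_lit 8490541663) (nat_lit 76) (nat_lit 3737886425) (nat_lit 152) (nat_lit 8924579979) (nat_lit 44) (nat_lit 5) (nat_lit 45) (nat_lit 5) (nat_lit 46) (nat_lit 4) (nat_lit 437) (nat_lit 396) (nat_lit 367)))) (XT.nd (nat_lit 156) (nat_lit 228) (nat_lit 0) (XT.nd (nat_lit 78) (nat_lit 76) (nat_lit 0) (XT.lf (nat_lit 0) (nat_lit 1167931820) (nat_lit 152) (nat_lit 13534671272) (nat_lit 76) (nat_lit 7557400939) (nat_lit 42) (nat_lit 5) (nat_lit 44) (nat_lit 5) (nat_lit 43) (nat_lit 4) (nat_lit 438) (nat_lit 396) (nat_lit 366)) (XT.lf (nat_lit 0) (nat_lit 8595267209) (nat_lit 76) (nat_lit 3431266753) (nat_lit 152) (nat_lit 11408148567) (nat_lit 41) (nat_lit 5) (nat_lit 42) (nat_lit 5) (nat_lit 43) (nat_lit 4) (nat_lit 439) (nat_lit 396) (nat_lit 365))) (XT.nd (nat_lit 78)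 (nat_lit 152) (nat_lit 0) (XT.lf (nat_lit 0) (nat_lit 8119941369) (nat_lit 76) (nat_lit 15987469334) (nat_lit 76) (nat_lit 578251065) (nat_lit 40) (nat_lit 4) (nat_lit 41) (nat_lit 5) (nat_lit 41) (nat_lit 4) (nat_lit 440) (nat_lit 396) (nat_lit 364)) (XT.lf (nat_lit 0) (nat_lit 7135571689) (nat_lit 76) (nat_lit 3913743740) (nat_lit 152) (nat_lit 14964373637) (nat_lit 38) (nat_lit 5) (nat_lit 39) (nat_lit 5) (nat_lit 40) (nat_lit 4) (nat_lit 441) (nat_lit 396) (nat_lit 363))))))) (XT.nd (nat_lit 1092) (nat_lit 912) (nat_lit 0) (XT.nd (nat_lit 546) (nat_lit 532) (nat_lit 0) (XT.nd (nat_lit 234) (nat_lit 380) (nat_lit 0) (XT.nd (nat_lit 78) (nat_lit 228) (nat_lit 0) (XT.lf (nat_lit 0) (nat_lit 5642563299) (nat_lit 76) (nat_lit 18328085132) (nat_lit 76) (nat_lit 3457649849) (nat_lit 37) (nat_lit 4) (nat_lit 38) (nat_lit 5) (nat_lit 38) (nat_lit 4) (nat_lit 442) (nat_lit 396) (nat_lit 362)) (XT.nd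 (nat_lit 78) (nat_lit 76) (nat_lit 0) (XT.lf (nat_lit 0) (nat_lit 3495086526) (nat_lit 76) (nat_lit 5506046453) (nat_lit 152) (nat_lit 19932015143) (nat_lit 35) (nat_lit 5) (nat_lit 36) (nat_lit 5) (nat_lit 37) (nat_lit 4) (nat_lit 443) (nat_lit 396) (nat_lit 361)) (XT.lf (nat_lit 0) (nat_lit 603655944) (nat_lit 76) (nat_lit 22126839777) (nat_lit 76) (nat_lit 7805309119) (nat_lit 34) (nat_lit 4) (nat_lit 35) (nat_lit 5) (nat_lit 35) (nat_lit 4) (nat_lit 444) (nat_lit 396) (nat_lit 360)))) (XT.nd (nat_lit 156) (nat_lit 228) (nat_lit 0) (XT.nd (nat_lit 78) (nat_lit 76) (nat_lit 0) (XT.lf (nat_lit 0) (nat_lit 5537267411) (nat_lit 152) (nat_lit 3041006458) (nat_lit 76) (nat_lit 23663518037) (nat_lit 33) (nat_lit 5) (nat_lit 35) (nat_lit 5) (nat_lit 34) (nat_lit 4) (nat_lit 445) (nat_lit 396) (nat_lit 359)) (XT.lf (nat_lit 0) (nat_lit 20074005384) (nat_lit 152) (nat_lit 7679392920) (nat_lit 0) (nat_lit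 6304454222) (nat_lit 32) (nat_lit 5) (nat_lit 34) (nat_lit 4) (nat_lit 32) (nat_lit 4) (nat_lit 446) (nat_lit 396) (nat_lit 358))) (XT.nd (nat_lit 78) (nat_lit 76) (nat_lit 0) (XT.lf (nat_lit 0) (nat_lit 205734256) (nat_lit 152) (nat_lit 13405665485) (nat_lit 76) (nat_lit 22385823098) (nat_lit 30) (nat_lit 5) (nat_lit 32) (nat_lit 5) (nat_lit 31) (nat_lit 4) (nat_lit 447) (nat_lit 396) (nat_lit 357)) (XT.lf (nat_lit 0) (nat_lit 15380683367) (nat_lit 152) (nat_lit 20521913543) (nat_lit 0) (nat_lit 2160679913) (nat_lit 29) (nat_lit 5) (nat_lit 31) (nat_lit 4) (nat_lit 29) (nat_lit 4) (nat_lit 448) (nat_lit 396) (nat_lit 356))))) (XT.nd (nat_lit 234) (nat_lit 304) (nat_lit 0) (XT.nd (nat_lit 78) (nat_lit 152) (nat_lit 0) (XT.lf (nat_lit 0) (nat_lit 11066610846) (nat_lit 76) (nat_lit 21234347435) (nat_lit 76) (nat_lit 7967092732) (nat_lit 28) (nat_lit 4) (nat_lit 29) (nat_lit 5) (nat_lit 29) (nat_lit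 4) (nat_lit 449) (nat_lit 396) (nat_lit 355)) (XT.nd (nat_lit 78) (nat_lit 0) (nat_lit 0) (XT.lf (nat_lit 0) (nat_lit 3043165449) (nat_lit 76) (nat_lit 4934479091) (nat_lit 152) (nat_lit 34650094283) (nat_lit 26) (nat_lit 5) (nat_lit 27) (nat_lit 5) (nat_lit 28) (nat_lit 4) (nat_lit 450) (nat_lit 396) (nat_lit 354)) (XT.lf (nat_lit 0) (nat_lit 25535331075) (nat_lit 152) (nat_lit 6783915830) (nat_lit 0) (nat_lit 12819601371) (nat_lit 26) (nat_lit 5) (nat_lit 28) (nat_lit 4) (nat_lit 26) (nat_lit 4) (nat_lit 451) (nat_lit 396) (nat_lit 353)))) (XT.nd (nat_lit 156) (nat_lit 76) (nat_lit 0) (XT.nd (nat_lit 78) (nat_lit 152) (nat_lit 0) (XT.lf (nat_lit 0) (nat_lit 29307867261) (nat_lit 76) (nat_lit 15636059700) (nat_lit 76) (nat_lit 2884606602) (nat_lit 25) (nat_lit 4) (nat_lit 26) (nat_lit 5) (nat_lit 26) (nat_lit 4) (nat_lit 452) (nat_lit 396) (nat_lit 352)) (XT.lf (nat_lit 0) (nat_lit 15041101128)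 (nat_lit 152) (nat_lit 32797348575) (nat_lit 0) (nat_lit 2865357970) (nat_lit 23) (nat_lit 5) (nat_lit 25) (nat_lit 4) (nat_lit 23) (nat_lit 4) (nat_lit 453) (nat_lit 396) (nat_lit 351))) (XT.nd (nat_lit 78) (nat_lit 0) (nat_lit 0) (XT.lf (nat_lit 0) (nat_lit 3740563771) (nat_lit 76) (nat_lit 31121488154) (nat_lit 76) (nat_lit 18916576374) (nat_lit 22) (nat_lit 4) (nat_lit 23) (nat_lit 5) (nat_lit 23) (nat_lit 4) (nat_lit 454) (nat_lit 396) (nat_lit 350)) (XT.lf (nat_lit 0) (nat_lit 44202690281) (nat_lit 76) (nat_lit 12552177972) (nat_lit 76) (nat_lit 320258209) (nat_lit 22) (nat_lit 4) (nat_lit 23) (nat_lit 5) (nat_lit 23) (nat_lit 4) (nat_lit 455) (nat_lit 396) (nat_lit 349)))))) (XT.nd (nat_lit 546) (nat_lit 304) (nat_lit 0) (XT.nd (nat_lit 234) (nat_lit 380) (nat_lit 0) (XT.nd (nat_lit 78) (nat_lit 76) (nat_lit 0) (XT.lf (nat_lit 0) (nat_lit 19611350669) (nat_lit 152) (nat_lit 33046472449)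 (nat_lit 0) (nat_lit 7938086712) (nat_lit 20) (nat_lit 5) (nat_lit 22) (nat_lit 4) (nat_lit 20) (nat_lit 4) (nat_lit 456) (nat_lit 396) (nat_lit 348)) (XT.nd (nat_lit 78) (nat_lit 0) (nat_lit 0) (XT.lf (nat_lit 0) (nat_lit 7129303415) (nat_lit 76) (nat_lit 34470222252) (nat_lit 76) (nat_lit 22774905921) (nat_lit 19) (nat_lit 4) (nat_lit 20) (nat_lit 5) (nat_lit 20) (nat_lit 4) (nat_lit 457) (nat_lit 396) (nat_lit 347)) (XT.lf (nat_lit 0) (nat_lit 51550251249) (nat_lit 76) (nat_lit 14297826942) (nat_lit 76) (nat_lit 2582091746) (nat_lit 19) (nat_lit 4) (nat_lit 20) (nat_lit 5) (nat_lit 20) (nat_lit 4) (nat_lit 458) (nat_lit 396) (nat_lit 346)))) (XT.nd (nat_lit 156) (nat_lit 228) (nat_lit 0) (XT.nd (nat_lit 78) (nat_lit 0) (nat_lit 0) (XT.lf (nat_lit 0) (nat_lit 19092302805) (nat_lit 152) (nat_lit 45762527445) (nat_lit 0) (nat_lit 7916453708) (nat_lit 17) (nat_lit 5) (nat_lit 19) (nat_lit 4)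 (nat_lit 17) (nat_lit 4) (nat_lit 459) (nat_lit 396) (nat_lit 345)) (XT.lf (nat_lit 0) (nat_lit 42883427439) (nat_lit 152) (nat_lit 2859575841) (nat_lit 0) (nat_lit 31690906070) (nat_lit 17) (nat_lit 5) (nat_lit 19) (nat_lit 4) (nat_lit 17) (nat_lit 4) (nat_lit 460) (nat_lit 396) (nat_lit 344))) (XT.nd (nat_lit 78) (nat_lit 152) (nat_lit 0) (XT.lf (nat_lit 0) (nat_lit 44782595506) (nat_lit 76) (nat_lit 24431546844) (nat_lit 76) (nat_lit 13223588186) (nat_lit 16) (nat_lit 4) (nat_lit 17) (nat_lit 5) (nat_lit 17) (nat_lit 4) (nat_lit 461) (nat_lit 396) (nat_lit 343)) (XT.lf (nat_lit 0) (nat_lit 8493907263) (nat_lit 76) (nat_lit 1123731618) (nat_lit 152) (nat_lit 78210454280) (nat_lit 14) (nat_lit 5) (nat_lit 15) (nat_lit 5) (nat_lit 16) (nat_lit 4) (nat_lit 462) (nat_lit 396) (nat_lit 342))))) (XT.nd (nat_lit 312) (nat_lit 76) (nat_lit 0) (XT.nd (nat_lit 156) (nat_lit 152) (nat_lit 0) (XT.nd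 (nat_lit 78) (nat_lit 76) (nat_lit 0) (XT.lf (nat_lit 0) (nat_lit 34811887629) (nat_lit 152) (nat_lit 34666084702) (nat_lit 0) (nat_lit 24111423410) (nat_lit 14) (nat_lit 5) (nat_lit 16) (nat_lit 4) (nat_lit 14) (nat_lit 4) (nat_lit 463) (nat_lit 396) (nat_lit 341)) (XT.lf (nat_lit 0) (nat_lit 13890423129) (nat_lit 76) (nat_lit 48312135574) (nat_lit 76) (nat_lit 37600000291) (nat_lit 13) (nat_lit 4) (nat_lit 14) (nat_lit 5) (nat_lit 14) (nat_lit 4) (nat_lit 464) (nat_lit 396) (nat_lit 340))) (XT.nd (nat_lit 78) (nat_lit 152) (nat_lit 0) (XT.lf (nat_lit 0) (nat_lit 67463502449) (nat_lit 76) (nat_lit 24872324039) (nat_lit 76) (nat_lit 14149382214) (nat_lit 13) (nat_lit 4) (nat_lit 14) (nat_lit 5) (nat_lit 14) (nat_lit 4) (nat_lit 465) (nat_lit 396) (nat_lit 339)) (XT.lf (nat_lit 0) (nat_lit 10965101608) (nat_lit 152) (nat_lit 101978119375) (nat_lit 0) (nat_lit 743246484) (nat_lit 11) (nat_lit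 5) (nat_lit 13) (nat_lit 4) (nat_lit 11) (nat_lit 4) (nat_lit 466) (nat_lit 396) (nat_lit 338)))) (XT.nd (nat_lit 156) (nat_lit 76) (nat_lit 0) (XT.nd (nat_lit 78) (nat_lit 0) (nat_lit 0) (XT.lf (nat_lit 0) (nat_lit 38661911989) (nat_lit 152) (nat_lit 54305639689) (nat_lit 0) (nat_lit 28431233181) (nat_lit 11) (nat_lit 5) (nat_lit 13) (nat_lit 4) (nat_lit 11) (nat_lit 4) (nat_lit 467) (nat_lit 396) (nat_lit 337)) (XT.lf (nat_lit 0) (nat_lit 68530019983) (nat_lit 152) (nat_lit 2909119333) (nat_lit 0) (nat_lit 58291171098) (nat_lit 11) (nat_lit 5) (nat_lit 13) (nat_lit 4) (nat_lit 11) (nat_lit 4) (nat_lit 468) (nat_lit 396) (nat_lit 336))) (XT.nd (nat_lit 78) (nat_lit 0) (nat_lit 0) (XT.lf (nat_lit 0) (nat_lit 54252430245) (nat_lit 76) (nat_lit 47341024020) (nat_lit 76) (nat_lit 37094610249) (nat_lit 10) (nat_lit 4) (nat_lit 11) (nat_lit 5) (nat_lit 11) (nat_lit 4) (nat_lit 469) (nat_lit 396)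 (nat_lit 335)) (XT.lf (nat_lit 0) (nat_lit 116011290332) (nat_lit 76) (nat_lit 21302000441) (nat_lit 76) (nat_lit 11048582146) (nat_lit 10) (nat_lit 4) (nat_lit 11) (nat_lit 5) (nat_lit 11) (nat_lit 4) (nat_lit 470) (nat_lit 396) (nat_lit 334))))))))
noncomputable def xc40 : XT := (XT.nd (nat_lit 2184) (nat_lit 0) (nat_lit 0) (XT.nd (nat_lit 1092) (nat_lit 228) (nat_lit 0) (XT.nd (nat_lit 546) (nat_lit 76) (nat_lit 0) (XT.nd (nat_lit 234) (nat_lit 228) (nat_lit 0) (XT.nd (nat_lit 78) (nat_lit 0) (nat_lit 0) (XT.lf (nat_lit 0) (nat_lit 16993883731) (nat_lit 152) (nat_lit 134556848827) (nat_lit 0) (nat_lit 7222546621) (nat_lit 8) (nat_lit 5) (nat_lit 10) (nat_lit 4) (nat_lit 8) (nat_lit 4) (nat_lit 471) (nat_lit 396) (nat_lit 333)) (XT.nd (nat_lit 78) (nat_lit 0) (nat_lit 0) (XT.lf (nat_lit 0) (nat_lit 47793818575) (nat_lit 152) (nat_lit 84152903250) (nat_lit 0) (nat_lit 38016762179) (nat_lit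 8) (nat_lit 5) (nat_lit 10) (nat_lit 4) (nat_lit 8) (nat_lit 4) (nat_lit 472) (nat_lit 396) (nat_lit 332)) (XT.lf (nat_lit 0) (nat_lit 81024442800) (nat_lit 152) (nat_lit 29784037181) (nat_lit 0) (nat_lit 71242090770) (nat_lit 8) (nat_lit 5) (nat_lit 10) (nat_lit 4) (nat_lit 8) (nat_lit 4) (nat_lit 473) (nat_lit 396) (nat_lit 331)))) (XT.nd (nat_lit 156) (nat_lit 152) (nat_lit 0) (XT.nd (nat_lit 78) (nat_lit 0) (nat_lit 0) (XT.lf (nat_lit 0) (nat_lit 29826571820) (nat_lit 76) (nat_lit 87521783180) (nat_lit 76) (nat_lit 77734527783) (nat_lit 7) (nat_lit 4) (nat_lit 8) (nat_lit 5) (nat_lit 8) (nat_lit 4) (nat_lit 474) (nat_lit 396) (nat_lit 330)) (XT.lf (nat_lit 0) (nat_lit 95209916935) (nat_lit 76) (nat_lit 61857595992) (nat_lit 76) (nat_lit 52065800442) (nat_lit 7) (nat_lit 4) (nat_lit 8) (nat_lit 5) (nat_lit 8) (nat_lit 4) (nat_lit 475) (nat_lit 396) (nat_lit 329))) (XT.nd (nat_lit 78) (nat_lit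 152) (nat_lit 0) (XT.lf (nat_lit 0) (nat_lit 165768660247) (nat_lit 76) (nat_lit 34168241427) (nat_lit 76) (nat_lit 24372242031) (nat_lit 7) (nat_lit 4) (nat_lit 8) (nat_lit 5) (nat_lit 8) (nat_lit 4) (nat_lit 476) (nat_lit 396) (nat_lit 328)) (XT.lf (nat_lit 0) (nat_lit 1172107192) (nat_lit 76) (nat_lit 4180087460) (nat_lit 152) (nat_lit 235342893462) (nat_lit 5) (nat_lit 5) (nat_lit 6) (nat_lit 5) (nat_lit 7) (nat_lit 4) (nat_lit 477) (nat_lit 396) (nat_lit 327))))) (XT.nd (nat_lit 234) (nat_lit 76) (nat_lit 0) (XT.nd (nat_lit 78) (nat_lit 0) (nat_lit 0) (XT.lf (nat_lit 0) (nat_lit 38064002692) (nat_lit 152) (nat_lit 191507423389) (nat_lit 0) (nat_lit 28727339867) (nat_lit 5) (nat_lit 5) (nat_lit 7) (nat_lit 4) (nat_lit 5) (nat_lit 4) (nat_lit 478) (nat_lit 396) (nat_lit 326)) (XT.nd (nat_lit 78) (nat_lit 0) (nat_lit 0) (XT.lf (nat_lit 0) (nat_lit 73440127113) (nat_lit 152) (nat_lit 139767956419)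 (nat_lit 0) (nat_lit 64100286051) (nat_lit 5) (nat_lit 5) (nat_lit 7) (nat_lit 4) (nat_lit 5) (nat_lit 4) (nat_lit 479) (nat_lit 396) (nat_lit 325)) (XT.lf (nat_lit 0) (nat_lit 111624941327) (nat_lit 152) (nat_lit 83932712884) (nat_lit 0) (nat_lit 102282157453) (nat_lit 5) (nat_lit 5) (nat_lit 7) (nat_lit 4) (nat_lit 5) (nat_lit 4) (nat_lit 480) (nat_lit 396) (nat_lit 324)))) (XT.nd (nat_lit 156) (nat_lit 0) (nat_lit 0) (XT.nd (nat_lit 78) (nat_lit 76) (nat_lit 0) (XT.lf (nat_lit 0) (nat_lit 152844725714) (nat_lit 152) (nat_lit 23670817268) (nat_lit 0) (nat_lit 143499217015) (nat_lit 5) (nat_lit 5) (nat_lit 7) (nat_lit 4) (nat_lit 5) (nat_lit 4) (nat_lit 481) (nat_lit 396) (nat_lit 323)) (XT.lf (nat_lit 0) (nat_lit 42742876956) (nat_lit 76) (nat_lit 155268204804) (nat_lit 76) (nat_lit 145920173118) (nat_lit 4) (nat_lit 4) (nat_lit 5) (nat_lit 5) (nat_lit 5) (nat_lit 4) (nat_lit 482) (nat_lit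 396) (nat_lit 322))) (XT.nd (nat_lit 78) (nat_lit 0) (nat_lit 0) (XT.lf (nat_lit 0) (nat_lit 115279368252) (nat_lit 76) (nat_lit 131906164831) (nat_lit 76) (nat_lit 122555797046) (nat_lit 4) (nat_lit 4) (nat_lit 5) (nat_lit 5) (nat_lit 5) (nat_lit 4) (nat_lit 483) (nat_lit 396) (nat_lit 321)) (XT.lf (nat_lit 0) (nat_lit 193585838372) (nat_lit 76) (nat_lit 106691858089) (nat_lit 76) (nat_lit 97339327250) (nat_lit 4) (nat_lit 4) (nat_lit 5) (nat_lit 5) (nat_lit 5) (nat_lit 4) (nat_lit 484) (nat_lit 396) (nat_lit 320)))))) (XT.nd (nat_lit 546) (nat_lit 76) (nat_lit 0) (XT.nd (nat_lit 234) (nat_lit 152) (nat_lit 0) (XT.nd (nat_lit 78) (nat_lit 0) (nat_lit 0) (XT.lf (nat_lit 0) (nat_lit 278126325658) (nat_lit 76) (nat_lit 79475866465) (nat_lit 76) (nat_lit 70121332797) (nat_lit 4) (nat_lit 4) (nat_lit 5) (nat_lit 5) (nat_lit 5) (nat_lit 4) (nat_lit 485) (nat_lit 396) (nat_lit 319)) (XT.nd (nat_lit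 78) (nat_lit 0) (nat_lit 0) (XT.lf (nat_lit 0) (nat_lit 369401810776) (nat_lit 76) (nat_lit 50096910007) (nat_lit 76) (nat_lit 40740521869) (nat_lit 4) (nat_lit 4) (nat_lit 5) (nat_lit 5) (nat_lit 5) (nat_lit 4) (nat_lit 486) (nat_lit 396) (nat_lit 318)) (XT.lf (nat_lit 0) (nat_lit 467953185489) (nat_lit 76) (nat_lit 18380891196) (nat_lit 76) (nat_lit 9022785955) (nat_lit 4) (nat_lit 4) (nat_lit 5) (nat_lit 5) (nat_lit 5) (nat_lit 4) (nat_lit 487) (nat_lit 396) (nat_lit 317)))) (XT.nd (nat_lit 156) (nat_lit 0) (nat_lit 0) (XT.nd (nat_lit 78) (nat_lit 0) (nat_lit 0) (XT.lf (nat_lit 0) (nat_lit 25333703066) (nat_lit 152) (nat_lit 491465337774) (nat_lit 0) (nat_lit 16419707685) (nat_lit 2) (nat_lit 5) (nat_lit 4) (nat_lit 4) (nat_lit 2) (nat_lit 4) (nat_lit 488) (nat_lit 396) (nat_lit 316)) (XT.lf (nat_lit 0) (nat_lit 62910147398) (nat_lit 152) (nat_lit 457157914712) (nat_lit 0) (nat_lit 53994749980)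 (nat_lit 2) (nat_lit 5) (nat_lit 4) (nat_lit 4) (nat_lit 2) (nat_lit 4) (nat_lit 489) (nat_lit 396) (nat_lit 315))) (XT.nd (nat_lit 78) (nat_lit 0) (nat_lit 0) (XT.lf (nat_lit 0) (nat_lit 103481789932) (nat_lit 152) (nat_lit 420128062410) (nat_lit 0) (nat_lit 94565094332) (nat_lit 2) (nat_lit 5) (nat_lit 4) (nat_lit 4) (nat_lit 2) (nat_lit 4) (nat_lit 490) (nat_lit 396) (nat_lit 314)) (XT.lf (nat_lit 0) (nat_lit 147289055217) (nat_lit 152) (nat_lit 380156344705) (nat_lit 0) (nat_lit 138371157596) (nat_lit 2) (nat_lit 5) (nat_lit 4) (nat_lit 4) (nat_lit 2) (nat_lit 4) (nat_lit 491) (nat_lit 396) (nat_lit 313))))) (XT.nd (nat_lit 234) (nat_lit 76) (nat_lit 0) (XT.nd (nat_lit 78) (nat_lit 0) (nat_lit 0) (XT.lf (nat_lit 0) (nat_lit 194591541861) (nat_lit 152) (nat_lit 337005892159) (nat_lit 0) (nat_lit 185672531259) (nat_lit 2) (nat_lit 5) (nat_lit 4) (nat_lit 4) (nat_lit 2) (nat_lit 4) (nat_lit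 492) (nat_lit 396) (nat_lit 312)) (XT.nd (nat_lit 78) (nat_lit 0) (nat_lit 0) (XT.lf (nat_lit 0) (nat_lit 245669560897) (nat_lit 152) (nat_lit 290420998387) (nat_lit 0) (nat_lit 236749519756) (nat_lit 2) (nat_lit 5) (nat_lit 4) (nat_lit 4) (nat_lit 2) (nat_lit 4) (nat_lit 493) (nat_lit 396) (nat_lit 311)) (XT.lf (nat_lit 0) (nat_lit 300825796881) (nat_lit 152) (nat_lit 240125604759) (nat_lit 0) (nat_lit 291904801537) (nat_lit 2) (nat_lit 5) (nat_lit 4) (nat_lit 4) (nat_lit 2) (nat_lit 4) (nat_lit 494) (nat_lit 396) (nat_lit 310)))) (XT.nd (nat_lit 156) (nat_lit 76) (nat_lit 0) (XT.nd (nat_lit 78) (nat_lit 0) (nat_lit 0) (XT.lf (nat_lit 0) (nat_lit 360387101583) (nat_lit 152) (nat_lit 185821664498) (nat_lit 0) (nat_lit 351465222718) (nat_lit 2) (nat_lit 5) (nat_lit 4) (nat_lit 4) (nat_lit 2) (nat_lit 4) (nat_lit 495) (nat_lit 396) (nat_lit 309)) (XT.lf (nat_lit 0) (nat_lit 424706430882) (nat_lit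 152) (nat_lit 127187376476) (nat_lit 0) (nat_lit 415783733943) (nat_lit 2) (nat_lit 5) (nat_lit 4) (nat_lit 4) (nat_lit 2) (nat_lit 4) (nat_lit 496) (nat_lit 396) (nat_lit 308))) (XT.nd (nat_lit 78) (nat_lit 76) (nat_lit 0) (XT.lf (nat_lit 0) (nat_lit 494164936360) (nat_lit 152) (nat_lit 63875278246) (nat_lit 0) (nat_lit 485241481944) (nat_lit 2) (nat_lit 5) (nat_lit 4) (nat_lit 4) (nat_lit 2) (nat_lit 4) (nat_lit 497) (nat_lit 396) (nat_lit 307)) (XT.lf (nat_lit 0) (nat_lit 4638266490) (nat_lit 76) (nat_lit 564608373822) (nat_lit 76) (nat_lit 555684218038) (nat_lit 1) (nat_lit 4) (nat_lit 2) (nat_lit 5) (nat_lit 2) (nat_lit 4) (nat_lit 498) (nat_lit 396) (nat_lit 306))))))) (XT.nd (nat_lit 56082) (nat_lit 0) (nat_lit 4408) (XT.nd (nat_lit 55536) (nat_lit 0) (nat_lit 7904) (XT.nd (nat_lit 55224) (nat_lit 0) (nat_lit 11780) (XT.nd (nat_lit 78) (nat_lit 0) (nat_lit 0) (XT.lf (nat_lit 0) (nat_lit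 80902405954) (nat_lit 76) (nat_lit 570539500539) (nat_lit 76) (nat_lit 561614695341) (nat_lit 1) (nat_lit 4) (nat_lit 2) (nat_lit 5) (nat_lit 2) (nat_lit 4) (nat_lit 499) (nat_lit 396) (nat_lit 305)) (XT.nd (nat_lit 78) (nat_lit 0) (nat_lit 0) (XT.lf (nat_lit 0) (nat_lit 163257070617) (nat_lit 76) (nat_lit 576950500919) (nat_lit 76) (nat_lit 568025094411) (nat_lit 1) (nat_lit 4) (nat_lit 2) (nat_lit 5) (nat_lit 2) (nat_lit 4) (nat_lit 500) (nat_lit 396) (nat_lit 304)) (XT.lf (nat_lit 0) (nat_lit 252190288122) (nat_lit 76) (nat_lit 583879366075) (nat_lit 76) (nat_lit 574953402799) (nat_lit 1) (nat_lit 4) (nat_lit 2) (nat_lit 5) (nat_lit 2) (nat_lit 4) (nat_lit 501) (nat_lit 396) (nat_lit 303)))) (XT.nd (nat_lit 156) (nat_lit 1216) (nat_lit 0) (XT.nd (nat_lit 78) (nat_lit 532) (nat_lit 0) (XT.lf (nat_lit 0) (nat_lit 1615289051) (nat_lit 380) (nat_lit 867503112) (nat_lit 380) (nat_lit 867503112)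 (nat_lit 179) (nat_lit 4) (nat_lit 184) (nat_lit 5) (nat_lit 184) (nat_lit 4) (nat_lit 406) (nat_lit 397) (nat_lit 397)) (XT.lf (nat_lit 0) (nat_lit 3437854214) (nat_lit 532) (nat_lit 3164618019) (nat_lit 0) (nat_lit 194817670) (nat_lit 172) (nat_lit 5) (nat_lit 179) (nat_lit 4) (nat_lit 172) (nat_lit 4) (nat_lit 407) (nat_lit 397) (nat_lit 396))) (XT.nd (nat_lit 78) (nat_lit 608) (nat_lit 0) (XT.lf (nat_lit 0) (nat_lit 1718907518) (nat_lit 608) (nat_lit 2722087746) (nat_lit 76) (nat_lit 2471766209) (nat_lit 164) (nat_lit 5) (nat_lit 172) (nat_lit 5) (nat_lit 165) (nat_lit 4) (nat_lit 408) (nat_lit 397) (nat_lit 395)) (XT.lf (nat_lit 0) (nat_lit 4931374044) (nat_lit 608) (nat_lit 1877212945) (nat_lit 684) (nat_lit 240125178) (nat_lit 156) (nat_lit 5) (nat_lit 164) (nat_lit 5) (nat_lit 165) (nat_lit 4) (nat_lit 409) (nat_lit 397) (nat_lit 394))))) (XT.nd (nat_lit 234) (nat_lit 1520) (nat_lit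 0) (XT.nd (nat_lit 78) (nat_lit 1596) (nat_lit 0) (XT.lf (nat_lit 0) (nat_lit 4709820314) (nat_lit 760) (nat_lit 1393112405) (nat_lit 76) (nat_lit 1100561470) (nat_lit 146) (nat_lit 5) (nat_lit 156) (nat_lit 5) (nat_lit 147) (nat_lit 4) (nat_lit 410) (nat_lit 397) (nat_lit 393)) (XT.nd (nat_lit 78) (nat_lit 760) (nat_lit 0) (XT.lf (nat_lit 0) (nat_lit 2394792042) (nat_lit 836) (nat_lit 536199853) (nat_lit 76) (nat_lit 4447304973) (nat_lit 135) (nat_lit 5) (nat_lit 146) (nat_lit 5) (nat_lit 136) (nat_lit 5) (nat_lit 411) (nat_lit 397) (nat_lit 392)) (XT.lf (nat_lit 0) (nat_lit 489695323) (nat_lit 380) (nat_lit 6913182924) (nat_lit 456) (nat_lit 171462101) (nat_lit 125) (nat_lit 5) (nat_lit 130) (nat_lit 5) (nat_lit 131) (nat_lit 4) (nat_lit 412) (nat_lit 397) (nat_lit 391)))) (XT.nd (nat_lit 156) (nat_lit 684) (nat_lit 0) (XT.nd (nat_lit 78) (nat_lit 380) (nat_lit 0) (XT.lf (nat_lit 0) (nat_lit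 1611894351) (nat_lit 380) (nat_lit 3132020445) (nat_lit 456) (nat_lit 3044353088) (nat_lit 119) (nat_lit 5) (nat_lit 124) (nat_lit 5) (nat_lit 125) (nat_lit 5) (nat_lit 413) (nat_lit 397) (nat_lit 390)) (XT.lf (nat_lit 0) (nat_lit 1819311177) (nat_lit 380) (nat_lit 5135717083) (nat_lit 76) (nat_lit 1069790210) (nat_lit 114) (nat_lit 5) (nat_lit 119) (nat_lit 5) (nat_lit 115) (nat_lit 5) (nat_lit 414) (nat_lit 397) (nat_lit 389))) (XT.nd (nat_lit 78) (nat_lit 380) (nat_lit 0) (XT.lf (nat_lit 0) (nat_lit 4265128911) (nat_lit 304) (nat_lit 2616872510) (nat_lit 380) (nat_lit 1400035859) (nat_lit 110) (nat_lit 5) (nat_lit 114) (nat_lit 5) (nat_lit 115) (nat_lit 5) (nat_lit 415) (nat_lit 397) (nat_lit 388)) (XT.lf (nat_lit 0) (nat_lit 3583673065) (nat_lit 380) (nat_lit 2811176905) (nat_lit 76) (nat_lit 2166331110) (nat_lit 105) (nat_lit 5) (nat_lit 110) (nat_lit 5) (nat_lit 106) (nat_lit 5) (nat_lit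 416) (nat_lit 397) (nat_lit 387)))))) (XT.nd (nat_lit 546) (nat_lit 1444) (nat_lit 0) (XT.nd (nat_lit 234) (nat_lit 912) (nat_lit 0) (XT.nd (nat_lit 78) (nat_lit 836) (nat_lit 0) (XT.lf (nat_lit 0) (nat_lit 7369274021) (nat_lit 304) (nat_lit 1492873043) (nat_lit 380) (nat_lit 2162276) (nat_lit 101) (nat_lit 5) (nat_lit 105) (nat_lit 5) (nat_lit 106) (nat_lit 5) (nat_lit 417) (nat_lit 397) (nat_lit 386)) (XT.nd (nat_lit 78) (nat_lit 532) (nat_lit 0) (XT.lf (nat_lit 0) (nat_lit 5178807671) (nat_lit 304) (nat_lit 144699849) (nat_lit 76) (nat_lit 3865061707) (nat_lit 97) (nat_lit 5) (nat_lit 101) (nat_lit 5) (nat_lit 98) (nat_lit 5) (nat_lit 418) (nat_lit 397) (nat_lit 385)) (XT.lf (nat_lit 0) (nat_lit 1180163116) (nat_lit 304) (nat_lit 8160483650) (nat_lit 76) (nat_lit 197986230) (nat_lit 90) (nat_lit 5) (nat_lit 94) (nat_lit 5) (nat_lit 91) (nat_lit 5) (nat_lit 419) (nat_lit 397) (nat_lit 384))))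 (XT.nd (nat_lit 156) (nat_lit 456) (nat_lit 0) (XT.nd (nat_lit 78) (nat_lit 228) (nat_lit 0) (XT.lf (nat_lit 0) (nat_lit 2926722345) (nat_lit 228) (nat_lit 3763967109) (nat_lit 304) (nat_lit 3220471869) (nat_lit 87) (nat_lit 5) (nat_lit 90) (nat_lit 5) (nat_lit 91) (nat_lit 5) (nat_lit 420) (nat_lit 397) (nat_lit 383)) (XT.lf (nat_lit 0) (nat_lit 2258140498) (nat_lit 228) (nat_lit 5730978224) (nat_lit 76) (nat_lit 2322386117) (nat_lit 84) (nat_lit 5) (nat_lit 87) (nat_lit 5) (nat_lit 85) (nat_lit 5) (nat_lit 421) (nat_lit 397) (nat_lit 382))) (XT.nd (nat_lit 78) (nat_lit 228) (nat_lit 0) (XT.lf (nat_lit 0) (nat_lit 6295101871) (nat_lit 228) (nat_lit 1815073680) (nat_lit 304) (nat_lit 2628695583) (nat_lit 81) (nat_lit 5) (nat_lit 84) (nat_lit 5) (nat_lit 85) (nat_lit 5) (nat_lit 422) (nat_lit 397) (nat_lit 381)) (XT.lf (nat_lit 0) (nat_lit 3202928279) (nat_lit 228) (nat_lit 3135921841) (nat_lit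 76) (nat_lit 4855266457) (nat_lit 78) (nat_lit 5) (nat_lit 81) (nat_lit 5) (nat_lit 79) (nat_lit 5) (nat_lit 423) (nat_lit 397) (nat_lit 380))))) (XT.nd (nat_lit 234) (nat_lit 684) (nat_lit 0) (XT.nd (nat_lit 78) (nat_lit 532) (nat_lit 0) (XT.lf (nat_lit 0) (nat_lit 9461014776) (nat_lit 304) (nat_lit 1764105711) (nat_lit 76) (nat_lit 455932136) (nat_lit 75) (nat_lit 5) (nat_lit 79) (nat_lit 5) (nat_lit 76) (nat_lit 4) (nat_lit 424) (nat_lit 397) (nat_lit 379)) (XT.nd (nat_lit 78) (nat_lit 304) (nat_lit 0) (XT.lf (nat_lit 0) (nat_lit 4022196915) (nat_lit 228) (nat_lit 418869427) (nat_lit 76) (nat_lit 7755877201) (nat_lit 72) (nat_lit 5) (nat_lit 75) (nat_lit 5) (nat_lit 73) (nat_lit 5) (nat_lit 425) (nat_lit 397) (nat_lit 378)) (XT.lf (nat_lit 0) (nat_lit 1013057406) (nat_lit 152) (nat_lit 9779245151) (nat_lit 228) (nat_lit 1954692038) (nat_lit 68) (nat_lit 5) (nat_lit 70) (nat_lit 5) (nat_lit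 71) (nat_lit 4) (nat_lit 426) (nat_lit 397) (nat_lit 377)))) (XT.nd (nat_lit 156) (nat_lit 304) (nat_lit 0) (XT.nd (nat_lit 78) (nat_lit 152) (nat_lit 0) (XT.lf (nat_lit 0) (nat_lit 2444563004) (nat_lit 152) (nat_lit 2305001903) (nat_lit 228) (nat_lit 8580834045) (nat_lit 65) (nat_lit 5) (nat_lit 67) (nat_lit 5) (nat_lit 68) (nat_lit 5) (nat_lit 427) (nat_lit 397) (nat_lit 376)) (XT.lf (nat_lit 0) (nat_lit 3882111299) (nat_lit 152) (nat_lit 8201533426) (nat_lit 228) (nat_lit 1867148536) (nat_lit 63) (nat_lit 5) (nat_lit 65) (nat_lit 5) (nat_lit 66) (nat_lit 4) (nat_lit 428) (nat_lit 397) (nat_lit 375))) (XT.nd (nat_lit 78) (nat_lit 76) (nat_lit 0) (XT.lf (nat_lit 0) (nat_lit 5319761315) (nat_lit 152) (nat_lit 15282382) (nat_lit 228) (nat_lit 9275402587) (nat_lit 60) (nat_lit 5) (nat_lit 62) (nat_lit 5) (nat_lit 63) (nat_lit 5) (nat_lit 429) (nat_lit 397) (nat_lit 374)) (XT.lf (nat_lit 0) (nat_lit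 6701216022) (nat_lit 76) (nat_lit 6584430656) (nat_lit 152) (nat_lit 2023826620) (nat_lit 59) (nat_lit 5) (nat_lit 60) (nat_lit 5) (nat_lit 61) (nat_lit 4) (nat_lit 430) (nat_lit 397) (nat_lit 373))))))))
noncomputable def xc41 : XT := (XT.nd (nat_lit 2184) (nat_lit 1140) (nat_lit 0) (XT.nd (nat_lit 1092) (nat_lit 1216) (nat_lit 0) (XT.nd (nat_lit 546) (nat_lit 760) (nat_lit 0) (XT.nd (nat_lit 234) (nat_lit 532) (nat_lit 0) (XT.nd (nat_lit 78) (nat_lit 304) (nat_lit 0) (XT.lf (nat_lit 0) (nat_lit 5771955174) (nat_lit 228) (nat_lit 7995244357) (nat_lit 76) (nat_lit 2285203692) (nat_lit 56) (nat_lit 5) (nat_lit 59) (nat_lit 5) (nat_lit 57) (nat_lit 4) (nat_lit 431) (nat_lit 397) (nat_lit 372)) (XT.nd (nat_lit 78) (nat_lit 228) (nat_lit 0) (XT.lf (nat_lit 0) (nat_lit 9357659449) (nat_lit 76) (nat_lit 5001628857) (nat_lit 152) (nat_lit 2481892717) (nat_lit 55) (nat_lit 5) (nat_lit 56) (nat_lit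 5) (nat_lit 57) (nat_lit 4) (nat_lit 432) (nat_lit 397) (nat_lit 371)) (XT.lf (nat_lit 0) (nat_lit 5965974444) (nat_lit 228) (nat_lit 7113950997) (nat_lit 76) (nat_lit 4597730701) (nat_lit 52) (nat_lit 5) (nat_lit 55) (nat_lit 5) (nat_lit 53) (nat_lit 4) (nat_lit 433) (nat_lit 397) (nat_lit 370)))) (XT.nd (nat_lit 156) (nat_lit 228) (nat_lit 0) (XT.nd (nat_lit 78) (nat_lit 228) (nat_lit 0) (XT.lf (nat_lit 0) (nat_lit 11698553592) (nat_lit 76) (nat_lit 3544276860) (nat_lit 152) (nat_lit 3324188672) (nat_lit 51) (nat_lit 5) (nat_lit 52) (nat_lit 5) (nat_lit 53) (nat_lit 4) (nat_lit 434) (nat_lit 397) (nat_lit 369)) (XT.lf (nat_lit 0) (nat_lit 5830875253) (nat_lit 228) (nat_lit 6845858263) (nat_lit 76) (nat_lit 6832324627) (nat_lit 48) (nat_lit 5) (nat_lit 51) (nat_lit 5) (nat_lit 49) (nat_lit 4) (nat_lit 435) (nat_lit 397) (nat_lit 368))) (XT.nd (nat_lit 78) (nat_lit 152) (nat_lit 0) (XT.lf (nat_lit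 0) (nat_lit 13516775441) (nat_lit 76) (nat_lit 2328763185) (nat_lit 152) (nat_lit 4666022059) (nat_lit 47) (nat_lit 5) (nat_lit 48) (nat_lit 5) (nat_lit 49) (nat_lit 4) (nat_lit 436) (nat_lit 397) (nat_lit 367)) (XT.lf (nat_lit 0) (nat_lit 5246254542) (nat_lit 152) (nat_lit 7456228675) (nat_lit 76) (nat_lit 8870765599) (nat_lit 45) (nat_lit 5) (nat_lit 47) (nat_lit 5) (nat_lit 46) (nat_lit 4) (nat_lit 437) (nat_lit 397) (nat_lit 366))))) (XT.nd (nat_lit 234) (nat_lit 456) (nat_lit 0) (XT.nd (nat_lit 78) (nat_lit 228) (nat_lit 0) (XT.lf (nat_lit 0) (nat_lit 14532875794) (nat_lit 76) (nat_lit 1506456882) (nat_lit 152) (nat_lit 6664156569) (nat_lit 44) (nat_lit 5) (nat_lit 45) (nat_lit 5) (nat_lit 46) (nat_lit 4) (nat_lit 438) (nat_lit 397) (nat_lit 365)) (XT.nd (nat_lit 78) (nat_lit 76) (nat_lit 0) (XT.lf (nat_lit 0) (nat_lit 4047423575) (nat_lit 152) (nat_lit 9297386954) (nat_lit 76) (nat_lit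 10556578132) (nat_lit 42) (nat_lit 5) (nat_lit 44) (nat_lit 5) (nat_lit 43) (nat_lit 4) (nat_lit 439) (nat_lit 397) (nat_lit 364)) (XT.lf (nat_lit 0) (nat_lit 14371743367) (nat_lit 76) (nat_lit 1276047198) (nat_lit 152) (nat_lit 9528605398) (nat_lit 41) (nat_lit 5) (nat_lit 42) (nat_lit 5) (nat_lit 43) (nat_lit 4) (nat_lit 440) (nat_lit 397) (nat_lit 363)))) (XT.nd (nat_lit 156) (nat_lit 228) (nat_lit 0) (XT.nd (nat_lit 78) (nat_lit 76) (nat_lit 0) (XT.lf (nat_lit 0) (nat_lit 2012483871) (nat_lit 152) (nat_lit 12835913778) (nat_lit 76) (nat_lit 11681662111) (nat_lit 39) (nat_lit 5) (nat_lit 41) (nat_lit 5) (nat_lit 40) (nat_lit 4) (nat_lit 441) (nat_lit 397) (nat_lit 362)) (XT.lf (nat_lit 0) (nat_lit 12532468115) (nat_lit 76) (nat_lit 1899295138) (nat_lit 152) (nat_lit 13538010505) (nat_lit 38) (nat_lit 5) (nat_lit 39) (nat_lit 5) (nat_lit 40) (nat_lit 4) (nat_lit 442) (nat_lit 397) (nat_lit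 361))) (XT.nd (nat_lit 78) (nat_lit 152) (nat_lit 0) (XT.lf (nat_lit 0) (nat_lit 10795102129) (nat_lit 76) (nat_lit 17513672104) (nat_lit 76) (nat_lit 1192685228) (nat_lit 37) (nat_lit 4) (nat_lit 38) (nat_lit 5) (nat_lit 38) (nat_lit 4) (nat_lit 443) (nat_lit 397) (nat_lit 360)) (XT.lf (nat_lit 0) (nat_lit 8349404737) (nat_lit 76) (nat_lit 3721233948) (nat_lit 152) (nat_lit 19059620880) (nat_lit 35) (nat_lit 5) (nat_lit 36) (nat_lit 5) (nat_lit 37) (nat_lit 4) (nat_lit 444) (nat_lit 397) (nat_lit 359)))))) (XT.nd (nat_lit 546) (nat_lit 532) (nat_lit 0) (XT.nd (nat_lit 234) (nat_lit 456) (nat_lit 0) (XT.nd (nat_lit 78) (nat_lit 152) (nat_lit 0) (XT.lf (nat_lit 0) (nat_lit 5107047356) (nat_lit 76) (nat_lit 21718998471) (nat_lit 76) (nat_lit 6038703384) (nat_lit 34) (nat_lit 4) (nat_lit 35) (nat_lit 5) (nat_lit 35) (nat_lit 4) (nat_lit 445) (nat_lit 397) (nat_lit 358)) (XT.nd (nat_lit 78) (nat_lit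 0) (nat_lit 0) (XT.lf (nat_lit 0) (nat_lit 941866281) (nat_lit 76) (nat_lit 7196145618) (nat_lit 152) (nat_lit 26575178333) (nat_lit 32) (nat_lit 5) (nat_lit 33) (nat_lit 5) (nat_lit 34) (nat_lit 4) (nat_lit 446) (nat_lit 397) (nat_lit 357)) (XT.lf (nat_lit 0) (nat_lit 23757608438) (nat_lit 152) (nat_lit 4208393895) (nat_lit 0) (nat_lit 8712541605) (nat_lit 32) (nat_lit 5) (nat_lit 34) (nat_lit 4) (nat_lit 32) (nat_lit 4) (nat_lit 447) (nat_lit 397) (nat_lit 356)))) (XT.nd (nat_lit 156) (nat_lit 228) (nat_lit 0) (XT.nd (nat_lit 78) (nat_lit 76) (nat_lit 0) (XT.lf (nat_lit 0) (nat_lit 2239569780) (nat_lit 152) (nat_lit 10503562593) (nat_lit 76) (nat_lit 26032953016) (nat_lit 30) (nat_lit 5) (nat_lit 32) (nat_lit 5) (nat_lit 31) (nat_lit 4) (nat_lit 448) (nat_lit 397) (nat_lit 355)) (XT.lf (nat_lit 0) (nat_lit 18567703311) (nat_lit 152) (nat_lit 18294698570) (nat_lit 0) (nat_lit 4148065827) (nat_lit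 29) (nat_lit 5) (nat_lit 31) (nat_lit 4) (nat_lit 29) (nat_lit 4) (nat_lit 449) (nat_lit 397) (nat_lit 354))) (XT.nd (nat_lit 78) (nat_lit 152) (nat_lit 0) (XT.lf (nat_lit 0) (nat_lit 15652767133) (nat_lit 76) (nat_lit 21101682611) (nat_lit 76) (nat_lit 6641534798) (nat_lit 28) (nat_lit 4) (nat_lit 29) (nat_lit 5) (nat_lit 29) (nat_lit 4) (nat_lit 450) (nat_lit 397) (nat_lit 353)) (XT.lf (nat_lit 0) (nat_lit 6886744457) (nat_lit 76) (nat_lit 3544671071) (nat_lit 152) (nat_lit 35515729321) (nat_lit 26) (nat_lit 5) (nat_lit 27) (nat_lit 5) (nat_lit 28) (nat_lit 4) (nat_lit 451) (nat_lit 397) (nat_lit 352))))) (XT.nd (nat_lit 234) (nat_lit 304) (nat_lit 0) (XT.nd (nat_lit 78) (nat_lit 228) (nat_lit 0) (XT.lf (nat_lit 0) (nat_lit 29285029327) (nat_lit 152) (nat_lit 3934891347) (nat_lit 0) (nat_lit 15444659369) (nat_lit 26) (nat_lit 5) (nat_lit 28) (nat_lit 4) (nat_lit 26) (nat_lit 4) (nat_lit 452)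 (nat_lit 397) (nat_lit 351)) (XT.nd (nat_lit 78) (nat_lit 152) (nat_lit 0) (XT.lf (nat_lit 0) (nat_lit 34896833602) (nat_lit 76) (nat_lit 15273697529) (nat_lit 76) (nat_lit 1402700518) (nat_lit 25) (nat_lit 4) (nat_lit 26) (nat_lit 5) (nat_lit 26) (nat_lit 4) (nat_lit 453) (nat_lit 397) (nat_lit 350)) (XT.lf (nat_lit 0) (nat_lit 17853249347) (nat_lit 152) (nat_lit 32210625371) (nat_lit 0) (nat_lit 4615768020) (nat_lit 23) (nat_lit 5) (nat_lit 25) (nat_lit 4) (nat_lit 23) (nat_lit 4) (nat_lit 454) (nat_lit 397) (nat_lit 349)))) (XT.nd (nat_lit 156) (nat_lit 152) (nat_lit 0) (XT.nd (nat_lit 78) (nat_lit 76) (nat_lit 0) (XT.lf (nat_lit 0) (nat_lit 7110795063) (nat_lit 76) (nat_lit 32077853021) (nat_lit 76) (nat_lit 18815364302) (nat_lit 22) (nat_lit 4) (nat_lit 23) (nat_lit 5) (nat_lit 23) (nat_lit 4) (nat_lit 455) (nat_lit 397) (nat_lit 348)) (XT.lf (nat_lit 0) (nat_lit 1112286674) (nat_lit 152)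 (nat_lit 11005456029) (nat_lit 76) (nat_lit 49451287448) (nat_lit 21) (nat_lit 5) (nat_lit 23) (nat_lit 5) (nat_lit 22) (nat_lit 4) (nat_lit 456) (nat_lit 397) (nat_lit 347))) (XT.nd (nat_lit 78) (nat_lit 76) (nat_lit 0) (XT.lf (nat_lit 0) (nat_lit 22584929184) (nat_lit 152) (nat_lit 32876883534) (nat_lit 0) (nat_lit 9911516308) (nat_lit 20) (nat_lit 5) (nat_lit 22) (nat_lit 4) (nat_lit 20) (nat_lit 4) (nat_lit 457) (nat_lit 397) (nat_lit 346)) (XT.lf (nat_lit 0) (nat_lit 10390691518) (nat_lit 76) (nat_lit 35879431736) (nat_lit 76) (nat_lit 23187112504) (nat_lit 19) (nat_lit 4) (nat_lit 20) (nat_lit 5) (nat_lit 20) (nat_lit 4) (nat_lit 458) (nat_lit 397) (nat_lit 345))))))) (XT.nd (nat_lit 1092) (nat_lit 304) (nat_lit 0) (XT.nd (nat_lit 546) (nat_lit 380) (nat_lit 0) (XT.nd (nat_lit 234) (nat_lit 304) (nat_lit 0) (XT.nd (nat_lit 78) (nat_lit 152) (nat_lit 0) (XT.lf (nat_lit 0) (nat_lit 58165978598)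 (nat_lit 76) (nat_lit 14193126898) (nat_lit 76) (nat_lit 1483301780) (nat_lit 19) (nat_lit 4) (nat_lit 20) (nat_lit 5) (nat_lit 20) (nat_lit 4) (nat_lit 459) (nat_lit 397) (nat_lit 344)) (XT.nd (nat_lit 78) (nat_lit 0) (nat_lit 0) (XT.lf (nat_lit 0) (nat_lit 21846481156) (nat_lit 152) (nat_lit 46958702125) (nat_lit 0) (nat_lit 9726448517) (nat_lit 17) (nat_lit 5) (nat_lit 19) (nat_lit 4) (nat_lit 17) (nat_lit 4) (nat_lit 460) (nat_lit 397) (nat_lit 343)) (XT.lf (nat_lit 0) (nat_lit 47450022121) (nat_lit 152) (nat_lit 806094209) (nat_lit 0) (nat_lit 35315695697) (nat_lit 17) (nat_lit 5) (nat_lit 19) (nat_lit 4) (nat_lit 17) (nat_lit 4) (nat_lit 461) (nat_lit 397) (nat_lit 342)))) (XT.nd (nat_lit 156) (nat_lit 76) (nat_lit 0) (XT.nd (nat_lit 78) (nat_lit 152) (nat_lit 0) (XT.lf (nat_lit 0) (nat_lit 50548267142) (nat_lit 76) (nat_lit 25288868572) (nat_lit 76) (nat_lit 13141307160) (nat_lit 16)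 (nat_lit 4) (nat_lit 17) (nat_lit 5) (nat_lit 17) (nat_lit 4) (nat_lit 462) (nat_lit 397) (nat_lit 341)) (XT.lf (nat_lit 0) (nat_lit 11296528967) (nat_lit 76) (nat_lit 145590542) (nat_lit 152) (nat_lit 83359456158) (nat_lit 14) (nat_lit 5) (nat_lit 15) (nat_lit 5) (nat_lit 16) (nat_lit 4) (nat_lit 463) (nat_lit 397) (nat_lit 340))) (XT.nd (nat_lit 78) (nat_lit 76) (nat_lit 0) (XT.lf (nat_lit 0) (nat_lit 38589194760) (nat_lit 152) (nat_lit 35440113165) (nat_lit 0) (nat_lit 26997611049) (nat_lit 14) (nat_lit 5) (nat_lit 16) (nat_lit 4) (nat_lit 14) (nat_lit 4) (nat_lit 464) (nat_lit 397) (nat_lit 339)) (XT.lf (nat_lit 0) (nat_lit 16914029963) (nat_lit 76) (nat_lit 51213439199) (nat_lit 76) (nat_lit 39611849431) (nat_lit 13) (nat_lit 4) (nat_lit 14) (nat_lit 5) (nat_lit 14) (nat_lit 4) (nat_lit 465) (nat_lit 397) (nat_lit 338))))) (XT.nd (nat_lit 234) (nat_lit 228) (nat_lit 0) (XT.nd (nat_lit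 78) (nat_lit 152) (nat_lit 0) (XT.lf (nat_lit 0) (nat_lit 74631298370) (nat_lit 76) (nat_lit 25969825497) (nat_lit 76) (nat_lit 14358970862) (nat_lit 13) (nat_lit 4) (nat_lit 14) (nat_lit 5) (nat_lit 14) (nat_lit 4) (nat_lit 466) (nat_lit 397) (nat_lit 337)) (XT.nd (nat_lit 78) (nat_lit 0) (nat_lit 0) (XT.lf (nat_lit 0) (nat_lit 12709457838) (nat_lit 152) (nat_lit 108385230625) (nat_lit 0) (nat_lit 1643330966) (nat_lit 11) (nat_lit 5) (nat_lit 13) (nat_lit 4) (nat_lit 11) (nat_lit 4) (nat_lit 467) (nat_lit 397) (nat_lit 336)) (XT.lf (nat_lit 0) (nat_lit 42557779857) (nat_lit 152) (nat_lit 57028666513) (nat_lit 0) (nat_lit 31484088099) (nat_lit 11) (nat_lit 5) (nat_lit 13) (nat_lit 4) (nat_lit 11) (nat_lit 4) (nat_lit 468) (nat_lit 397) (nat_lit 335)))) (XT.nd (nat_lit 156) (nat_lit 152) (nat_lit 0) (XT.nd (nat_lit 78) (nat_lit 76) (nat_lit 0) (XT.lf (nat_lit 0) (nat_lit 74755861312) (nat_lit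 152) (nat_lit 1640530036) (nat_lit 0) (nat_lit 63675165030) (nat_lit 11) (nat_lit 5) (nat_lit 13) (nat_lit 4) (nat_lit 11) (nat_lit 4) (nat_lit 469) (nat_lit 397) (nat_lit 334)) (XT.lf (nat_lit 0) (nat_lit 60028698021) (nat_lit 76) (nat_lit 50403023835) (nat_lit 76) (nat_lit 39315841883) (nat_lit 10) (nat_lit 4) (nat_lit 11) (nat_lit 5) (nat_lit 11) (nat_lit 4) (nat_lit 470) (nat_lit 397) (nat_lit 333))) (XT.nd (nat_lit 78) (nat_lit 152) (nat_lit 0) (XT.lf (nat_lit 0) (nat_lit 126621891111) (nat_lit 76) (nat_lit 22334602970) (nat_lit 76) (nat_lit 11241415767) (nat_lit 10) (nat_lit 4) (nat_lit 11) (nat_lit 5) (nat_lit 11) (nat_lit 4) (nat_lit 471) (nat_lit 397) (nat_lit 332)) (XT.lf (nat_lit 0) (nat_lit 19003170088) (nat_lit 152) (nat_lit 144006543179) (nat_lit 0) (nat_lit 8432934260) (nat_lit 8) (nat_lit 5) (nat_lit 10) (nat_lit 4) (nat_lit 8) (nat_lit 4) (nat_lit 472) (nat_lit 397) (nat_lit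 331)))))) (XT.nd (nat_lit 546) (nat_lit 76) (nat_lit 0) (XT.nd (nat_lit 234) (nat_lit 152) (nat_lit 0) (XT.nd (nat_lit 78) (nat_lit 76) (nat_lit 0) (XT.lf (nat_lit 0) (nat_lit 52218968189) (nat_lit 152) (nat_lit 89667678514) (nat_lit 0) (nat_lit 41643828995) (nat_lit 8) (nat_lit 5) (nat_lit 10) (nat_lit 4) (nat_lit 8) (nat_lit 4) (nat_lit 473) (nat_lit 397) (nat_lit 330)) (XT.nd (nat_lit 78) (nat_lit 76) (nat_lit 0) (XT.lf (nat_lit 0) (nat_lit 88063476121) (nat_lit 152) (nat_lit 31039485160) (nat_lit 0) (nat_lit 77483796773) (nat_lit 8) (nat_lit 5) (nat_lit 10) (nat_lit 4) (nat_lit 8) (nat_lit 4) (nat_lit 474) (nat_lit 397) (nat_lit 329)) (XT.lf (nat_lit 0) (nat_lit 33290982564) (nat_lit 76) (nat_lit 93977888755) (nat_lit 76) (nat_lit 83394005561) (nat_lit 7) (nat_lit 4) (nat_lit 8) (nat_lit 5) (nat_lit 8) (nat_lit 4) (nat_lit 475) (nat_lit 397) (nat_lit 328)))) (XT.nd (nat_lit 156) (nat_lit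 152) (nat_lit 0) (XT.nd (nat_lit 78) (nat_lit 0) (nat_lit 0) (XT.lf (nat_lit 0) (nat_lit 103825122325) (nat_lit 76) (nat_lit 66300984153) (nat_lit 76) (nat_lit 55713208509) (nat_lit 7) (nat_lit 4) (nat_lit 8) (nat_lit 5) (nat_lit 8) (nat_lit 4) (nat_lit 476) (nat_lit 397) (nat_lit 327)) (XT.lf (nat_lit 0) (nat_lit 179954608655) (nat_lit 76) (nat_lit 36433904891) (nat_lit 76) (nat_lit 25842525127) (nat_lit 7) (nat_lit 4) (nat_lit 8) (nat_lit 5) (nat_lit 8) (nat_lit 4) (nat_lit 477) (nat_lit 397) (nat_lit 326))) (XT.nd (nat_lit 78) (nat_lit 0) (nat_lit 0) (XT.lf (nat_lit 0) (nat_lit 2164838787) (nat_lit 76) (nat_lit 4059334724) (nat_lit 152) (nat_lit 253704328364) (nat_lit 5) (nat_lit 5) (nat_lit 6) (nat_lit 5) (nat_lit 7) (nat_lit 4) (nat_lit 478) (nat_lit 397) (nat_lit 325)) (XT.lf (nat_lit 0) (nat_lit 41526631803) (nat_lit 152) (nat_lit 205981674678) (nat_lit 0) (nat_lit 31433482407) (nat_lit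 5) (nat_lit 5) (nat_lit 7) (nat_lit 4) (nat_lit 5) (nat_lit 4) (nat_lit 479) (nat_lit 397) (nat_lit 324))))) (XT.nd (nat_lit 234) (nat_lit 76) (nat_lit 0) (XT.nd (nat_lit 78) (nat_lit 0) (nat_lit 0) (XT.lf (nat_lit 0) (nat_lit 79701919592) (nat_lit 152) (nat_lit 150165742393) (nat_lit 0) (nat_lit 69606045371) (nat_lit 5) (nat_lit 5) (nat_lit 7) (nat_lit 4) (nat_lit 5) (nat_lit 4) (nat_lit 480) (nat_lit 397) (nat_lit 323)) (XT.nd (nat_lit 78) (nat_lit 0) (nat_lit 0) (XT.lf (nat_lit 0) (nat_lit 120912883216) (nat_lit 152) (nat_lit 89921727564) (nat_lit 0) (nat_lit 110814486008) (nat_lit 5) (nat_lit 5) (nat_lit 7) (nat_lit 4) (nat_lit 5) (nat_lit 4) (nat_lit 481) (nat_lit 397) (nat_lit 322)) (XT.lf (nat_lit 0) (nat_lit 165403735793) (nat_lit 152) (nat_lit 24892628620) (nat_lit 0) (nat_lit 155303002487) (nat_lit 5) (nat_lit 5) (nat_lit 7) (nat_lit 4) (nat_lit 5) (nat_lit 4) (nat_lit 482) (nat_lit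 397) (nat_lit 321)))) (XT.nd (nat_lit 156) (nat_lit 0) (nat_lit 0) (XT.nd (nat_lit 78) (nat_lit 0) (nat_lit 0) (XT.lf (nat_lit 0) (nat_lit 46804963184) (nat_lit 76) (nat_lit 167363920281) (nat_lit 76) (nat_lit 157261023920) (nat_lit 4) (nat_lit 4) (nat_lit 5) (nat_lit 5) (nat_lit 5) (nat_lit 4) (nat_lit 483) (nat_lit 397) (nat_lit 320)) (XT.lf (nat_lit 0) (nat_lit 125096769630) (nat_lit 76) (nat_lit 142157046066) (nat_lit 76) (nat_lit 132052146877) (nat_lit 4) (nat_lit 4) (nat_lit 5) (nat_lit 5) (nat_lit 5) (nat_lit 4) (nat_lit 484) (nat_lit 397) (nat_lit 319))) (XT.nd (nat_lit 78) (nat_lit 0) (nat_lit 0) (XT.lf (nat_lit 0) (nat_lit 209623679440) (nat_lit 76) (nat_lit 114947936411) (nat_lit 76) (nat_lit 104841182751) (nat_lit 4) (nat_lit 4) (nat_lit 5) (nat_lit 5) (nat_lit 5) (nat_lit 4) (nat_lit 485) (nat_lit 397) (nat_lit 318)) (XT.lf (nat_lit 0) (nat_lit 300886592820) (nat_lit 76) (nat_lit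 85575352147) (nat_lit 76) (nat_lit 75466881385) (nat_lit 4) (nat_lit 4) (nat_lit 5) (nat_lit 5) (nat_lit 5) (nat_lit 4) (nat_lit 486) (nat_lit 397) (nat_lit 317))))))))
noncomputable def xc42 : XT := (XT.nd (nat_lit 57018) (nat_lit 0) (nat_lit 2660) (XT.nd (nat_lit 1092) (nat_lit 0) (nat_lit 0) (XT.nd (nat_lit 546) (nat_lit 76) (nat_lit 0) (XT.nd (nat_lit 234) (nat_lit 0) (nat_lit 0) (XT.nd (nat_lit 78) (nat_lit 152) (nat_lit 0) (XT.lf (nat_lit 0) (nat_lit 399426327036) (nat_lit 76) (nat_lit 53865233516) (nat_lit 76) (nat_lit 43755172844) (nat_lit 4) (nat_lit 4) (nat_lit 5) (nat_lit 5) (nat_lit 5) (nat_lit 4) (nat_lit 487) (nat_lit 397) (nat_lit 316)) (XT.nd (nat_lit 78) (nat_lit 152) (nat_lit 0) (XT.lf (nat_lit 0) (nat_lit 505826821252) (nat_lit 76) (nat_lit 19629668703) (nat_lit 76) (nat_lit 9518135893) (nat_lit 4) (nat_lit 4) (nat_lit 5) (nat_lit 5) (nat_lit 5) (nat_lit 4) (nat_lit 488)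 (nat_lit 397) (nat_lit 315)) (XT.lf (nat_lit 0) (nat_lit 27573392503) (nat_lit 152) (nat_lit 530350141895) (nat_lit 0) (nat_lit 17942063073) (nat_lit 2) (nat_lit 5) (nat_lit 4) (nat_lit 4) (nat_lit 2) (nat_lit 4) (nat_lit 489) (nat_lit 397) (nat_lit 314)))) (XT.nd (nat_lit 156) (nat_lit 0) (nat_lit 0) (XT.nd (nat_lit 78) (nat_lit 0) (nat_lit 0) (XT.lf (nat_lit 0) (nat_lit 68140175108) (nat_lit 152) (nat_lit 493330156314) (nat_lit 0) (nat_lit 58507643658) (nat_lit 2) (nat_lit 5) (nat_lit 4) (nat_lit 4) (nat_lit 2) (nat_lit 4) (nat_lit 490) (nat_lit 397) (nat_lit 313)) (XT.lf (nat_lit 0) (nat_lit 111942940459) (nat_lit 152) (nat_lit 453367574463) (nat_lit 0) (nat_lit 102309296026) (nat_lit 2) (nat_lit 5) (nat_lit 4) (nat_lit 4) (nat_lit 2) (nat_lit 4) (nat_lit 491) (nat_lit 397) (nat_lit 312))) (XT.nd (nat_lit 78) (nat_lit 0) (nat_lit 0) (XT.lf (nat_lit 0) (nat_lit 159241260497) (nat_lit 152)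 (nat_lit 410225581041) (nat_lit 0) (nat_lit 149606585526) (nat_lit 2) (nat_lit 5) (nat_lit 4) (nat_lit 4) (nat_lit 2) (nat_lit 4) (nat_lit 492) (nat_lit 397) (nat_lit 311)) (XT.lf (nat_lit 0) (nat_lit 210315421564) (nat_lit 152) (nat_lit 363648519791) (nat_lit 0) (nat_lit 200679792391) (nat_lit 2) (nat_lit 5) (nat_lit 4) (nat_lit 4) (nat_lit 2) (nat_lit 4) (nat_lit 493) (nat_lit 397) (nat_lit 310))))) (XT.nd (nat_lit 234) (nat_lit 76) (nat_lit 0) (XT.nd (nat_lit 78) (nat_lit 0) (nat_lit 0) (XT.lf (nat_lit 0) (nat_lit 265468085356) (nat_lit 152) (nat_lit 313360378498) (nat_lit 0) (nat_lit 255831572661) (nat_lit 2) (nat_lit 5) (nat_lit 4) (nat_lit 4) (nat_lit 2) (nat_lit 4) (nat_lit 494) (nat_lit 397) (nat_lit 309)) (XT.nd (nat_lit 78) (nat_lit 0) (nat_lit 0) (XT.lf (nat_lit 0) (nat_lit 325026082472) (nat_lit 152) (nat_lit 259063153362) (nat_lit 0) (nat_lit 315388751702) (nat_lit 2) (nat_lit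 5) (nat_lit 4) (nat_lit 4) (nat_lit 2) (nat_lit 4) (nat_lit 495) (nat_lit 397) (nat_lit 308)) (XT.lf (nat_lit 0) (nat_lit 389342349192) (nat_lit 152) (nat_lit 200435083048) (nat_lit 0) (nat_lit 379704260945) (nat_lit 2) (nat_lit 5) (nat_lit 4) (nat_lit 4) (nat_lit 2) (nat_lit 4) (nat_lit 496) (nat_lit 397) (nat_lit 307)))) (XT.nd (nat_lit 156) (nat_lit 76) (nat_lit 0) (XT.nd (nat_lit 78) (nat_lit 0) (nat_lit 0) (XT.lf (nat_lit 0) (nat_lit 458798018947) (nat_lit 152) (nat_lit 137128741955) (nat_lit 0) (nat_lit 449159229333) (nat_lit 2) (nat_lit 5) (nat_lit 4) (nat_lit 4) (nat_lit 2) (nat_lit 4) (nat_lit 497) (nat_lit 397) (nat_lit 306)) (XT.lf (nat_lit 0) (nat_lit 533804680893) (nat_lit 152) (nat_lit 68768981396) (nat_lit 0) (nat_lit 524165241865) (nat_lit 2) (nat_lit 5) (nat_lit 4) (nat_lit 4) (nat_lit 2) (nat_lit 4) (nat_lit 498) (nat_lit 397) (nat_lit 305))) (XT.nd (nat_lit 78) (nat_lit 0)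 (nat_lit 0) (XT.lf (nat_lit 0) (nat_lit 5216245954) (nat_lit 76) (nat_lit 609672013215) (nat_lit 76) (nat_lit 600031972877) (nat_lit 1) (nat_lit 4) (nat_lit 2) (nat_lit 5) (nat_lit 2) (nat_lit 4) (nat_lit 499) (nat_lit 397) (nat_lit 304)) (XT.lf (nat_lit 0) (nat_lit 87566189305) (nat_lit 76) (nat_lit 616085410107) (nat_lit 76) (nat_lit 606444813001) (nat_lit 1) (nat_lit 4) (nat_lit 2) (nat_lit 5) (nat_lit 2) (nat_lit 4) (nat_lit 500) (nat_lit 397) (nat_lit 303)))))) (XT.nd (nat_lit 55380) (nat_lit 0) (nat_lit 7904) (XT.nd (nat_lit 55068) (nat_lit 0) (nat_lit 11704) (XT.nd (nat_lit 54912) (nat_lit 0) (nat_lit 13908) (XT.lf (nat_lit 0) (nat_lit 176495035224) (nat_lit 76) (nat_lit 623016494256) (nat_lit 76) (nat_lit 613375381624) (nat_lit 1) (nat_lit 4) (nat_lit 2) (nat_lit 5) (nat_lit 2) (nat_lit 4) (nat_lit 501) (nat_lit 397) (nat_lit 302)) (XT.nd (nat_lit 78) (nat_lit 380) (nat_lit 0) (XT.lf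 (nat_lit 0) (nat_lit 1584649162) (nat_lit 228) (nat_lit 846715367) (nat_lit 228) (nat_lit 846715367) (nat_lit 189) (nat_lit 4) (nat_lit 192) (nat_lit 5) (nat_lit 192) (nat_lit 4) (nat_lit 404) (nat_lit 398) (nat_lit 398)) (XT.lf (nat_lit 0) (nat_lit 3015164850) (nat_lit 304) (nat_lit 339297814) (nat_lit 380) (nat_lit 3269267437) (nat_lit 184) (nat_lit 5) (nat_lit 188) (nat_lit 5) (nat_lit 189) (nat_lit 4) (nat_lit 405) (nat_lit 398) (nat_lit 397)))) (XT.nd (nat_lit 156) (nat_lit 1292) (nat_lit 0) (XT.nd (nat_lit 78) (nat_lit 456) (nat_lit 0) (XT.lf (nat_lit 0) (nat_lit 1658860589) (nat_lit 456) (nat_lit 3682127605) (nat_lit 76) (nat_lit 1369242499) (nat_lit 178) (nat_lit 5) (nat_lit 184) (nat_lit 5) (nat_lit 179) (nat_lit 4) (nat_lit 406) (nat_lit 398) (nat_lit 396)) (XT.lf (nat_lit 0) (nat_lit 3214973026) (nat_lit 456) (nat_lit 3346352356) (nat_lit 532) (nat_lit 255066197) (nat_lit 172) (nat_lit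 5) (nat_lit 178) (nat_lit 5) (nat_lit 179) (nat_lit 4) (nat_lit 407) (nat_lit 398) (nat_lit 395))) (XT.nd (nat_lit 78) (nat_lit 684) (nat_lit 0) (XT.lf (nat_lit 0) (nat_lit 3554842128) (nat_lit 532) (nat_lit 926134240) (nat_lit 608) (nat_lit 2460674586) (nat_lit 164) (nat_lit 5) (nat_lit 171) (nat_lit 5) (nat_lit 172) (nat_lit 5) (nat_lit 408) (nat_lit 398) (nat_lit 394)) (XT.lf (nat_lit 0) (nat_lit 2198728553) (nat_lit 684) (nat_lit 3039548366) (nat_lit 76) (nat_lit 1848161719) (nat_lit 155) (nat_lit 5) (nat_lit 164) (nat_lit 5) (nat_lit 156) (nat_lit 5) (nat_lit 409) (nat_lit 398) (nat_lit 393))))) (XT.nd (nat_lit 234) (nat_lit 1824) (nat_lit 0) (XT.nd (nat_lit 78) (nat_lit 1292) (nat_lit 0) (XT.lf (nat_lit 0) (nat_lit 4698548641) (nat_lit 684) (nat_lit 2231876376) (nat_lit 760) (nat_lit 321188729) (nat_lit 146) (nat_lit 5) (nat_lit 155) (nat_lit 5) (nat_lit 156) (nat_lit 5) (nat_lit 410)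 (nat_lit 398) (nat_lit 392)) (XT.nd (nat_lit 78) (nat_lit 456) (nat_lit 0) (XT.lf (nat_lit 0) (nat_lit 4273716275) (nat_lit 836) (nat_lit 1962955136) (nat_lit 76) (nat_lit 1199296651) (nat_lit 135) (nat_lit 5) (nat_lit 146) (nat_lit 5) (nat_lit 136) (nat_lit 5) (nat_lit 411) (nat_lit 398) (nat_lit 391)) (XT.lf (nat_lit 0) (nat_lit 1392186150) (nat_lit 456) (nat_lit 1251478234) (nat_lit 76) (nat_lit 4997340043) (nat_lit 129) (nat_lit 5) (nat_lit 135) (nat_lit 5) (nat_lit 130) (nat_lit 5) (nat_lit 412) (nat_lit 398) (nat_lit 390)))) (XT.nd (nat_lit 156) (nat_lit 684) (nat_lit 0) (XT.nd (nat_lit 78) (nat_lit 760) (nat_lit 0) (XT.lf (nat_lit 0) (nat_lit 6061333200) (nat_lit 456) (nat_lit 428904653) (nat_lit 76) (nat_lit 1376635060) (nat_lit 124) (nat_lit 5) (nat_lit 130) (nat_lit 5) (nat_lit 125) (nat_lit 5) (nat_lit 413) (nat_lit 398) (nat_lit 389)) (XT.lf (nat_lit 0) (nat_lit 501989005) (nat_lit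 304) (nat_lit 2307185569) (nat_lit 380) (nat_lit 5303780116) (nat_lit 114) (nat_lit 5) (nat_lit 118) (nat_lit 5) (nat_lit 119) (nat_lit 5) (nat_lit 414) (nat_lit 398) (nat_lit 388))) (XT.nd (nat_lit 78) (nat_lit 380) (nat_lit 0) (XT.lf (nat_lit 0) (nat_lit 1565470877) (nat_lit 304) (nat_lit 6088627206) (nat_lit 380) (nat_lit 726994538) (nat_lit 110) (nat_lit 5) (nat_lit 114) (nat_lit 5) (nat_lit 115) (nat_lit 5) (nat_lit 415) (nat_lit 398) (nat_lit 387)) (XT.lf (nat_lit 0) (nat_lit 2708012165) (nat_lit 304) (nat_lit 1310109529) (nat_lit 380) (nat_lit 4652469029) (nat_lit 105) (nat_lit 5) (nat_lit 109) (nat_lit 5) (nat_lit 110) (nat_lit 5) (nat_lit 416) (nat_lit 398) (nat_lit 386))))))) (XT.nd (nat_lit 1092) (nat_lit 1824) (nat_lit 0) (XT.nd (nat_lit 546) (nat_lit 1368) (nat_lit 0) (XT.nd (nat_lit 234) (nat_lit 1140) (nat_lit 0) (XT.nd (nat_lit 78) (nat_lit 532) (nat_lit 0) (XT.lf (nat_lit 0)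 (nat_lit 108298613) (nat_lit 380) (nat_lit 5025607566) (nat_lit 76) (nat_lit 3849796893) (nat_lit 100) (nat_lit 5) (nat_lit 105) (nat_lit 5) (nat_lit 101) (nat_lit 5) (nat_lit 417) (nat_lit 398) (nat_lit 385)) (XT.nd (nat_lit 78) (nat_lit 304) (nat_lit 0) (XT.lf (nat_lit 0) (nat_lit 5048731798) (nat_lit 304) (nat_lit 4033526861) (nat_lit 76) (nat_lit 237748156) (nat_lit 97) (nat_lit 5) (nat_lit 101) (nat_lit 5) (nat_lit 98) (nat_lit 5) (nat_lit 418) (nat_lit 398) (nat_lit 384)) (XT.lf (nat_lit 0) (nat_lit 717462092) (nat_lit 304) (nat_lit 2982938293) (nat_lit 76) (nat_lit 5980371774) (nat_lit 93) (nat_lit 5) (nat_lit 97) (nat_lit 5) (nat_lit 94) (nat_lit 5) (nat_lit 419) (nat_lit 398) (nat_lit 383)))) (XT.nd (nat_lit 156) (nat_lit 608) (nat_lit 0) (XT.nd (nat_lit 78) (nat_lit 304) (nat_lit 0) (XT.lf (nat_lit 0) (nat_lit 5960154629) (nat_lit 304) (nat_lit 1883421846) (nat_lit 76) (nat_lit 2223133801)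 (nat_lit 90) (nat_lit 5) (nat_lit 94) (nat_lit 5) (nat_lit 91) (nat_lit 5) (nat_lit 420) (nat_lit 398) (nat_lit 382)) (XT.lf (nat_lit 0) (nat_lit 1148681130) (nat_lit 304) (nat_lit 710206126) (nat_lit 76) (nat_lit 8621460998) (nat_lit 86) (nat_lit 5) (nat_lit 90) (nat_lit 5) (nat_lit 87) (nat_lit 5) (nat_lit 421) (nat_lit 398) (nat_lit 381))) (XT.nd (nat_lit 78) (nat_lit 228) (nat_lit 0) (XT.lf (nat_lit 0) (nat_lit 490673302) (nat_lit 228) (nat_lit 6272381664) (nat_lit 304) (nat_lit 4156557422) (nat_lit 81) (nat_lit 5) (nat_lit 84) (nat_lit 5) (nat_lit 85) (nat_lit 5) (nat_lit 422) (nat_lit 398) (nat_lit 380)) (XT.lf (nat_lit 0) (nat_lit 1450110162) (nat_lit 228) (nat_lit 9579660388) (nat_lit 76) (nat_lit 359985892) (nat_lit 78) (nat_lit 5) (nat_lit 81) (nat_lit 5) (nat_lit 79) (nat_lit 5) (nat_lit 423) (nat_lit 398) (nat_lit 379))))) (XT.nd (nat_lit 234) (nat_lit 760) (nat_lit 0) (XT.nd (nat_lit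 78) (nat_lit 380) (nat_lit 0) (XT.lf (nat_lit 0) (nat_lit 3105132627) (nat_lit 228) (nat_lit 4390952304) (nat_lit 304) (nat_lit 4391225209) (nat_lit 75) (nat_lit 5) (nat_lit 78) (nat_lit 5) (nat_lit 79) (nat_lit 5) (nat_lit 424) (nat_lit 398) (nat_lit 378)) (XT.nd (nat_lit 78) (nat_lit 152) (nat_lit 0) (XT.lf (nat_lit 0) (nat_lit 1638554400) (nat_lit 228) (nat_lit 7939435695) (nat_lit 76) (nat_lit 2841013857) (nat_lit 72) (nat_lit 5) (nat_lit 75) (nat_lit 5) (nat_lit 73) (nat_lit 5) (nat_lit 425) (nat_lit 398) (nat_lit 377)) (XT.lf (nat_lit 0) (nat_lit 5853420525) (nat_lit 152) (nat_lit 2277022980) (nat_lit 228) (nat_lit 4852532179) (nat_lit 70) (nat_lit 5) (nat_lit 72) (nat_lit 5) (nat_lit 73) (nat_lit 5) (nat_lit 426) (nat_lit 398) (nat_lit 376)))) (XT.nd (nat_lit 156) (nat_lit 380) (nat_lit 0) (XT.nd (nat_lit 78) (nat_lit 152) (nat_lit 0) (XT.lf (nat_lit 0) (nat_lit 1662551557) (nat_lit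 228) (nat_lit 6326647964) (nat_lit 76) (nat_lit 5593547487) (nat_lit 67) (nat_lit 5) (nat_lit 70) (nat_lit 5) (nat_lit 68) (nat_lit 5) (nat_lit 427) (nat_lit 398) (nat_lit 375)) (XT.lf (nat_lit 0) (nat_lit 8655706721) (nat_lit 228) (nat_lit 5541765087) (nat_lit 76) (nat_lit 22723786) (nat_lit 65) (nat_lit 5) (nat_lit 68) (nat_lit 5) (nat_lit 66) (nat_lit 4) (nat_lit 428) (nat_lit 398) (nat_lit 374))) (XT.nd (nat_lit 78) (nat_lit 152) (nat_lit 0) (XT.lf (nat_lit 0) (nat_lit 1497140788) (nat_lit 228) (nat_lit 4820694967) (nat_lit 76) (nat_lit 8577851277) (nat_lit 62) (nat_lit 5) (nat_lit 65) (nat_lit 5) (nat_lit 63) (nat_lit 5) (nat_lit 429) (nat_lit 398) (nat_lit 373)) (XT.lf (nat_lit 0) (nat_lit 9083821984) (nat_lit 228) (nat_lit 4147616644) (nat_lit 76) (nat_lit 2381478075) (nat_lit 60) (nat_lit 5) (nat_lit 63) (nat_lit 5) (nat_lit 61) (nat_lit 4) (nat_lit 430) (nat_lit 398) (nat_lit 372))))))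 (XT.nd (nat_lit 546) (nat_lit 836) (nat_lit 0) (XT.nd (nat_lit 234) (nat_lit 532) (nat_lit 0) (XT.nd (nat_lit 78) (nat_lit 304) (nat_lit 0) (XT.lf (nat_lit 0) (nat_lit 1100378233) (nat_lit 152) (nat_lit 3525952621) (nat_lit 76) (nat_lit 11748563836) (nat_lit 58) (nat_lit 5) (nat_lit 60) (nat_lit 5) (nat_lit 59) (nat_lit 5) (nat_lit 431) (nat_lit 398) (nat_lit 371)) (XT.nd (nat_lit 78) (nat_lit 152) (nat_lit 0) (XT.lf (nat_lit 0) (nat_lit 9335151783) (nat_lit 228) (nat_lit 3031787024) (nat_lit 76) (nat_lit 4814367026) (nat_lit 56) (nat_lit 5) (nat_lit 59) (nat_lit 5) (nat_lit 57) (nat_lit 4) (nat_lit 432) (nat_lit 398) (nat_lit 370)) (XT.lf (nat_lit 0) (nat_lit 409372621) (nat_lit 152) (nat_lit 2581261489) (nat_lit 76) (nat_lit 15049540648) (nat_lit 54) (nat_lit 5) (nat_lit 56) (nat_lit 5) (nat_lit 55) (nat_lit 5) (nat_lit 433) (nat_lit 398) (nat_lit 369)))) (XT.nd (nat_lit 156) (nat_lit 304)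 (nat_lit 0) (XT.nd (nat_lit 78) (nat_lit 76) (nat_lit 0) (XT.lf (nat_lit 0) (nat_lit 9343113138) (nat_lit 228) (nat_lit 2354718361) (nat_lit 76) (nat_lit 7248866394) (nat_lit 52) (nat_lit 5) (nat_lit 55) (nat_lit 5) (nat_lit 53) (nat_lit 4) (nat_lit 434) (nat_lit 398) (nat_lit 368)) (XT.lf (nat_lit 0) (nat_lit 17731223054) (nat_lit 76) (nat_lit 1495665175) (nat_lit 152) (nat_lit 687096318) (nat_lit 51) (nat_lit 5) (nat_lit 52) (nat_lit 5) (nat_lit 53) (nat_lit 4) (nat_lit 435) (nat_lit 398) (nat_lit 367))) (XT.nd (nat_lit 78) (nat_lit 76) (nat_lit 0) (XT.lf (nat_lit 0) (nat_lit 9012480959) (nat_lit 228) (nat_lit 2330769556) (nat_lit 76) (nat_lit 9590630398) (nat_lit 48) (nat_lit 5) (nat_lit 51) (nat_lit 5) (nat_lit 49) (nat_lit 4) (nat_lit 436) (nat_lit 398) (nat_lit 366)) (XT.lf (nat_lit 0) (nat_lit 19440853579) (nat_lit 76) (nat_lit 261951343) (nat_lit 152) (nat_lit 2320065108) (nat_lit 47)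 (nat_lit 5) (nat_lit 48) (nat_lit 5) (nat_lit 49) (nat_lit 4) (nat_lit 437) (nat_lit 398) (nat_lit 365))))) (XT.nd (nat_lit 234) (nat_lit 456) (nat_lit 0) (XT.nd (nat_lit 78) (nat_lit 228) (nat_lit 0) (XT.lf (nat_lit 0) (nat_lit 8211230334) (nat_lit 152) (nat_lit 3245839563) (nat_lit 76) (nat_lit 11714656580) (nat_lit 45) (nat_lit 5) (nat_lit 47) (nat_lit 5) (nat_lit 46) (nat_lit 4) (nat_lit 438) (nat_lit 398) (nat_lit 364)) (XT.nd (nat_lit 78) (nat_lit 152) (nat_lit 0) (XT.lf (nat_lit 0) (nat_lit 19759473011) (nat_lit 152) (nat_lit 4113210461) (nat_lit 0) (nat_lit 525125528) (nat_lit 44) (nat_lit 5) (nat_lit 46) (nat_lit 4) (nat_lit 44) (nat_lit 4) (nat_lit 439) (nat_lit 398) (nat_lit 363)) (XT.lf (nat_lit 0) (nat_lit 6759812462) (nat_lit 152) (nat_lit 5480085644) (nat_lit 76) (nat_lit 13454075163) (nat_lit 42) (nat_lit 5) (nat_lit 44) (nat_lit 5) (nat_lit 43) (nat_lit 4) (nat_lit 440) (nat_lit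 398) (nat_lit 362)))) (XT.nd (nat_lit 156) (nat_lit 228) (nat_lit 0) (XT.nd (nat_lit 78) (nat_lit 152) (nat_lit 0) (XT.lf (nat_lit 0) (nat_lit 19190398968) (nat_lit 152) (nat_lit 7203079992) (nat_lit 0) (nat_lit 682399851) (nat_lit 41) (nat_lit 5) (nat_lit 43) (nat_lit 4) (nat_lit 41) (nat_lit 4) (nat_lit 441) (nat_lit 398) (nat_lit 361)) (XT.lf (nat_lit 0) (nat_lit 4417144074) (nat_lit 152) (nat_lit 9537243427) (nat_lit 76) (nat_lit 14585814979) (nat_lit 39) (nat_lit 5) (nat_lit 41) (nat_lit 5) (nat_lit 40) (nat_lit 4) (nat_lit 442) (nat_lit 398) (nat_lit 360))) (XT.nd (nat_lit 78) (nat_lit 152) (nat_lit 0) (XT.lf (nat_lit 0) (nat_lit 17672626170) (nat_lit 76) (nat_lit 55741405) (nat_lit 152) (nat_lit 12371811785) (nat_lit 38) (nat_lit 5) (nat_lit 39) (nat_lit 5) (nat_lit 40) (nat_lit 4) (nat_lit 443) (nat_lit 398) (nat_lit 359)) (XT.lf (nat_lit 0) (nat_lit 862378128) (nat_lit 152) (nat_lit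 16082484736) (nat_lit 76) (nat_lit 14812191857) (nat_lit 36) (nat_lit 5) (nat_lit 38) (nat_lit 5) (nat_lit 37) (nat_lit 4) (nat_lit 444) (nat_lit 398) (nat_lit 358))))))))
noncomputable def xc43 : XT := (XT.nd (nat_lit 2184) (nat_lit 684) (nat_lit 0) (XT.nd (nat_lit 1092) (nat_lit 760) (nat_lit 0) (XT.nd (nat_lit 546) (nat_lit 608) (nat_lit 0) (XT.nd (nat_lit 234) (nat_lit 304) (nat_lit 0) (XT.nd (nat_lit 78) (nat_lit 228) (nat_lit 0) (XT.lf (nat_lit 0) (nat_lit 12939434695) (nat_lit 76) (nat_lit 2111099828) (nat_lit 152) (nat_lit 18469373854) (nat_lit 35) (nat_lit 5) (nat_lit 36) (nat_lit 5) (nat_lit 37) (nat_lit 4) (nat_lit 445) (nat_lit 398) (nat_lit 357)) (XT.nd (nat_lit 78) (nat_lit 152) (nat_lit 0) (XT.lf (nat_lit 0) (nat_lit 9335140412) (nat_lit 76) (nat_lit 21589244268) (nat_lit 76) (nat_lit 4471876418) (nat_lit 34) (nat_lit 4) (nat_lit 35) (nat_lit 5) (nat_lit 35) (nat_lit 4) (nat_lit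 446) (nat_lit 398) (nat_lit 356)) (XT.lf (nat_lit 0) (nat_lit 4733562134) (nat_lit 76) (nat_lit 5950840053) (nat_lit 152) (nat_lit 26711027038) (nat_lit 32) (nat_lit 5) (nat_lit 33) (nat_lit 5) (nat_lit 34) (nat_lit 4) (nat_lit 447) (nat_lit 398) (nat_lit 355)))) (XT.nd (nat_lit 156) (nat_lit 152) (nat_lit 0) (XT.nd (nat_lit 78) (nat_lit 152) (nat_lit 0) (XT.lf (nat_lit 0) (nat_lit 27439495082) (nat_lit 152) (nat_lit 1042535863) (nat_lit 0) (nat_lit 11041687462) (nat_lit 32) (nat_lit 5) (nat_lit 34) (nat_lit 4) (nat_lit 32) (nat_lit 4) (nat_lit 448) (nat_lit 398) (nat_lit 354)) (XT.lf (nat_lit 0) (nat_lit 4148310794) (nat_lit 152) (nat_lit 7936306337) (nat_lit 76) (nat_lit 29707036507) (nat_lit 30) (nat_lit 5) (nat_lit 32) (nat_lit 5) (nat_lit 31) (nat_lit 4) (nat_lit 449) (nat_lit 398) (nat_lit 353))) (XT.nd (nat_lit 78) (nat_lit 76) (nat_lit 0) (XT.lf (nat_lit 0) (nat_lit 21730558940) (nat_lit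 152) (nat_lit 16441257947) (nat_lit 0) (nat_lit 6035579407) (nat_lit 29) (nat_lit 5) (nat_lit 31) (nat_lit 4) (nat_lit 29) (nat_lit 4) (nat_lit 450) (nat_lit 398) (nat_lit 352)) (XT.lf (nat_lit 0) (nat_lit 20077851517) (nat_lit 76) (nat_lit 21219676086) (nat_lit 76) (nat_lit 5489965476) (nat_lit 28) (nat_lit 4) (nat_lit 29) (nat_lit 5) (nat_lit 29) (nat_lit 4) (nat_lit 451) (nat_lit 398) (nat_lit 351))))) (XT.nd (nat_lit 234) (nat_lit 380) (nat_lit 0) (XT.nd (nat_lit 78) (nat_lit 76) (nat_lit 0) (XT.lf (nat_lit 0) (nat_lit 10524211596) (nat_lit 76) (nat_lit 2298266751) (nat_lit 152) (nat_lit 36722580513) (nat_lit 26) (nat_lit 5) (nat_lit 27) (nat_lit 5) (nat_lit 28) (nat_lit 4) (nat_lit 452) (nat_lit 398) (nat_lit 350)) (XT.nd (nat_lit 78) (nat_lit 76) (nat_lit 0) (XT.lf (nat_lit 0) (nat_lit 33091199099) (nat_lit 152) (nat_lit 1341814214) (nat_lit 0) (nat_lit 18051536892) (nat_lit 26) (nat_lit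 5) (nat_lit 28) (nat_lit 4) (nat_lit 26) (nat_lit 4) (nat_lit 453) (nat_lit 398) (nat_lit 349)) (XT.lf (nat_lit 0) (nat_lit 40470076312) (nat_lit 76) (nat_lit 15112494097) (nat_lit 76) (nat_lit 46574127) (nat_lit 25) (nat_lit 4) (nat_lit 26) (nat_lit 5) (nat_lit 26) (nat_lit 4) (nat_lit 454) (nat_lit 398) (nat_lit 348)))) (XT.nd (nat_lit 156) (nat_lit 152) (nat_lit 0) (XT.nd (nat_lit 78) (nat_lit 76) (nat_lit 0) (XT.lf (nat_lit 0) (nat_lit 20660847540) (nat_lit 152) (nat_lit 32034979611) (nat_lit 0) (nat_lit 6289197339) (nat_lit 23) (nat_lit 5) (nat_lit 25) (nat_lit 4) (nat_lit 23) (nat_lit 4) (nat_lit 455) (nat_lit 398) (nat_lit 347)) (XT.lf (nat_lit 0) (nat_lit 10312534345) (nat_lit 76) (nat_lit 33329477195) (nat_lit 76) (nat_lit 18936387186) (nat_lit 22) (nat_lit 4) (nat_lit 23) (nat_lit 5) (nat_lit 23) (nat_lit 4) (nat_lit 456) (nat_lit 398) (nat_lit 346))) (XT.nd (nat_lit 78) (nat_lit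 76) (nat_lit 0) (XT.lf (nat_lit 0) (nat_lit 2441920548) (nat_lit 152) (nat_lit 9407004558) (nat_lit 76) (nat_lit 54583576329) (nat_lit 21) (nat_lit 5) (nat_lit 23) (nat_lit 5) (nat_lit 22) (nat_lit 4) (nat_lit 457) (nat_lit 398) (nat_lit 345)) (XT.lf (nat_lit 0) (nat_lit 25596002035) (nat_lit 152) (nat_lit 33095077161) (nat_lit 0) (nat_lit 11851885023) (nat_lit 20) (nat_lit 5) (nat_lit 22) (nat_lit 4) (nat_lit 20) (nat_lit 4) (nat_lit 458) (nat_lit 398) (nat_lit 344)))))) (XT.nd (nat_lit 546) (nat_lit 304) (nat_lit 0) (XT.nd (nat_lit 234) (nat_lit 228) (nat_lit 0) (XT.nd (nat_lit 78) (nat_lit 152) (nat_lit 0) (XT.lf (nat_lit 0) (nat_lit 13529083181) (nat_lit 76) (nat_lit 37593743497) (nat_lit 76) (nat_lit 23833417332) (nat_lit 19) (nat_lit 4) (nat_lit 20) (nat_lit 5) (nat_lit 20) (nat_lit 4) (nat_lit 459) (nat_lit 398) (nat_lit 343)) (XT.nd (nat_lit 78) (nat_lit 152) (nat_lit 0) (XT.lf (nat_lit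 0) (nat_lit 64955494240) (nat_lit 76) (nat_lit 14258167070) (nat_lit 76) (nat_lit 482832429) (nat_lit 19) (nat_lit 4) (nat_lit 20) (nat_lit 5) (nat_lit 20) (nat_lit 4) (nat_lit 460) (nat_lit 398) (nat_lit 342)) (XT.lf (nat_lit 0) (nat_lit 24645977877) (nat_lit 152) (nat_lit 48602205981) (nat_lit 0) (nat_lit 11513376566) (nat_lit 17) (nat_lit 5) (nat_lit 19) (nat_lit 4) (nat_lit 17) (nat_lit 4) (nat_lit 461) (nat_lit 398) (nat_lit 341)))) (XT.nd (nat_lit 156) (nat_lit 152) (nat_lit 0) (XT.nd (nat_lit 78) (nat_lit 0) (nat_lit 0) (XT.lf (nat_lit 0) (nat_lit 1121988441) (nat_lit 76) (nat_lit 51115421564) (nat_lit 76) (nat_lit 37970565635) (nat_lit 16) (nat_lit 4) (nat_lit 17) (nat_lit 5) (nat_lit 17) (nat_lit 4) (nat_lit 462) (nat_lit 398) (nat_lit 340)) (XT.lf (nat_lit 0) (nat_lit 56463754024) (nat_lit 76) (nat_lit 26371304172) (nat_lit 76) (nat_lit 13215101375) (nat_lit 16) (nat_lit 4) (nat_lit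 17) (nat_lit 5) (nat_lit 17) (nat_lit 4) (nat_lit 463) (nat_lit 398) (nat_lit 339))) (XT.nd (nat_lit 78) (nat_lit 0) (nat_lit 0) (XT.lf (nat_lit 0) (nat_lit 13273882408) (nat_lit 152) (nat_lit 88331830410) (nat_lit 0) (nat_lit 734159402) (nat_lit 14) (nat_lit 5) (nat_lit 16) (nat_lit 4) (nat_lit 14) (nat_lit 4) (nat_lit 464) (nat_lit 398) (nat_lit 338)) (XT.lf (nat_lit 0) (nat_lit 42527115767) (nat_lit 152) (nat_lit 36561280455) (nat_lit 0) (nat_lit 29978127894) (nat_lit 14) (nat_lit 5) (nat_lit 16) (nat_lit 4) (nat_lit 14) (nat_lit 4) (nat_lit 465) (nat_lit 398) (nat_lit 337))))) (XT.nd (nat_lit 234) (nat_lit 76) (nat_lit 0) (XT.nd (nat_lit 78) (nat_lit 152) (nat_lit 0) (XT.lf (nat_lit 0) (nat_lit 19906703957) (nat_lit 76) (nat_lit 54484325016) (nat_lit 76) (nat_lit 41926758562) (nat_lit 13) (nat_lit 4) (nat_lit 14) (nat_lit 5) (nat_lit 14) (nat_lit 4) (nat_lit 466) (nat_lit 398) (nat_lit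 336)) (XT.nd (nat_lit 78) (nat_lit 152) (nat_lit 0) (XT.lf (nat_lit 0) (nat_lit 82119905570) (nat_lit 76) (nat_lit 27282421427) (nat_lit 76) (nat_lit 14716911843) (nat_lit 13) (nat_lit 4) (nat_lit 14) (nat_lit 5) (nat_lit 14) (nat_lit 4) (nat_lit 467) (nat_lit 398) (nat_lit 335)) (XT.lf (nat_lit 0) (nat_lit 14469654196) (nat_lit 152) (nat_lit 115554730231) (nat_lit 0) (nat_lit 2495497687) (nat_lit 11) (nat_lit 5) (nat_lit 13) (nat_lit 4) (nat_lit 11) (nat_lit 4) (nat_lit 468) (nat_lit 398) (nat_lit 334)))) (XT.nd (nat_lit 156) (nat_lit 76) (nat_lit 0) (XT.nd (nat_lit 78) (nat_lit 0) (nat_lit 0) (XT.lf (nat_lit 0) (nat_lit 46650772366) (nat_lit 152) (nat_lit 60200849793) (nat_lit 0) (nat_lit 34670130187) (nat_lit 11) (nat_lit 5) (nat_lit 13) (nat_lit 4) (nat_lit 11) (nat_lit 4) (nat_lit 469) (nat_lit 398) (nat_lit 333)) (XT.lf (nat_lit 0) (nat_lit 81373709958) (nat_lit 152) (nat_lit 484633512)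 (nat_lit 0) (nat_lit 69387062529) (nat_lit 11) (nat_lit 5) (nat_lit 13) (nat_lit 4) (nat_lit 11) (nat_lit 4) (nat_lit 470) (nat_lit 398) (nat_lit 332))) (XT.nd (nat_lit 78) (nat_lit 0) (nat_lit 0) (XT.lf (nat_lit 0) (nat_lit 66062195300) (nat_lit 76) (nat_lit 53813453236) (nat_lit 76) (nat_lit 41821245390) (nat_lit 10) (nat_lit 4) (nat_lit 11) (nat_lit 5) (nat_lit 11) (nat_lit 4) (nat_lit 471) (nat_lit 398) (nat_lit 331)) (XT.lf (nat_lit 0) (nat_lit 137891643731) (nat_lit 76) (nat_lit 23545618888) (nat_lit 76) (nat_lit 11548262507) (nat_lit 10) (nat_lit 4) (nat_lit 11) (nat_lit 5) (nat_lit 11) (nat_lit 4) (nat_lit 472) (nat_lit 398) (nat_lit 330))))))) (XT.nd (nat_lit 1092) (nat_lit 228) (nat_lit 0) (XT.nd (nat_lit 546) (nat_lit 76) (nat_lit 0) (XT.nd (nat_lit 234) (nat_lit 228) (nat_lit 0) (XT.nd (nat_lit 78) (nat_lit 0) (nat_lit 0) (XT.lf (nat_lit 0) (nat_lit 21080501592) (nat_lit 152) (nat_lit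 154399791638) (nat_lit 0) (nat_lit 9649907742) (nat_lit 8) (nat_lit 5) (nat_lit 10) (nat_lit 4) (nat_lit 8) (nat_lit 4) (nat_lit 473) (nat_lit 398) (nat_lit 329)) (XT.nd (nat_lit 78) (nat_lit 0) (nat_lit 0) (XT.lf (nat_lit 0) (nat_lit 56912298512) (nat_lit 152) (nat_lit 95797319652) (nat_lit 0) (nat_lit 45477500816) (nat_lit 8) (nat_lit 5) (nat_lit 10) (nat_lit 4) (nat_lit 8) (nat_lit 4) (nat_lit 474) (nat_lit 398) (nat_lit 328)) (XT.lf (nat_lit 0) (nat_lit 95586158718) (nat_lit 152) (nat_lit 32556187358) (nat_lit 0) (nat_lit 84147468573) (nat_lit 8) (nat_lit 5) (nat_lit 10) (nat_lit 4) (nat_lit 8) (nat_lit 4) (nat_lit 475) (nat_lit 398) (nat_lit 327)))) (XT.nd (nat_lit 156) (nat_lit 152) (nat_lit 0) (XT.nd (nat_lit 78) (nat_lit 0) (nat_lit 0) (XT.lf (nat_lit 0) (nat_lit 36878716757) (nat_lit 76) (nat_lit 101028324005) (nat_lit 76) (nat_lit 89586029739) (nat_lit 7) (nat_lit 4) (nat_lit 8) (nat_lit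 5) (nat_lit 8) (nat_lit 4) (nat_lit 476) (nat_lit 398) (nat_lit 326)) (XT.lf (nat_lit 0) (nat_lit 112987109508) (nat_lit 76) (nat_lit 71171918579) (nat_lit 76) (nat_lit 59726287165) (nat_lit 7) (nat_lit 4) (nat_lit 8) (nat_lit 5) (nat_lit 8) (nat_lit 4) (nat_lit 477) (nat_lit 398) (nat_lit 325))) (XT.nd (nat_lit 78) (nat_lit 152) (nat_lit 0) (XT.lf (nat_lit 0) (nat_lit 195143549010) (nat_lit 76) (nat_lit 38947557740) (nat_lit 76) (nat_lit 27498836373) (nat_lit 7) (nat_lit 4) (nat_lit 8) (nat_lit 5) (nat_lit 8) (nat_lit 4) (nat_lit 478) (nat_lit 398) (nat_lit 324)) (XT.lf (nat_lit 0) (nat_lit 3108741786) (nat_lit 76) (nat_lit 3993855394) (nat_lit 152) (nat_lit 273601157679) (nat_lit 5) (nat_lit 5) (nat_lit 6) (nat_lit 5) (nat_lit 7) (nat_lit 4) (nat_lit 479) (nat_lit 398) (nat_lit 323))))) (XT.nd (nat_lit 234) (nat_lit 76) (nat_lit 0) (XT.nd (nat_lit 78) (nat_lit 0) (nat_lit 0) (XT.lf (nat_lit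 0) (nat_lit 45206708930) (nat_lit 152) (nat_lit 221734606301) (nat_lit 0) (nat_lit 34297916959) (nat_lit 5) (nat_lit 5) (nat_lit 7) (nat_lit 4) (nat_lit 5) (nat_lit 4) (nat_lit 480) (nat_lit 398) (nat_lit 322)) (XT.nd (nat_lit 78) (nat_lit 0) (nat_lit 0) (XT.lf (nat_lit 0) (nat_lit 86409505181) (nat_lit 152) (nat_lit 161507147756) (nat_lit 0) (nat_lit 75498377111) (nat_lit 5) (nat_lit 5) (nat_lit 7) (nat_lit 4) (nat_lit 5) (nat_lit 4) (nat_lit 481) (nat_lit 398) (nat_lit 321)) (XT.lf (nat_lit 0) (nat_lit 130892795375) (nat_lit 152) (nat_lit 96493378706) (nat_lit 0) (nat_lit 119979504251) (nat_lit 5) (nat_lit 5) (nat_lit 7) (nat_lit 4) (nat_lit 5) (nat_lit 4) (nat_lit 482) (nat_lit 398) (nat_lit 320)))) (XT.nd (nat_lit 156) (nat_lit 0) (nat_lit 0) (XT.nd (nat_lit 78) (nat_lit 76) (nat_lit 0) (XT.lf (nat_lit 0) (nat_lit 178920184195) (nat_lit 152) (nat_lit 26308032370) (nat_lit 0) (nat_lit 168004890243)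 (nat_lit 5) (nat_lit 5) (nat_lit 7) (nat_lit 4) (nat_lit 5) (nat_lit 4) (nat_lit 483) (nat_lit 398) (nat_lit 319)) (XT.lf (nat_lit 0) (nat_lit 51100334237) (nat_lit 76) (nat_lit 180473763578) (nat_lit 76) (nat_lit 169556615155) (nat_lit 4) (nat_lit 4) (nat_lit 5) (nat_lit 5) (nat_lit 5) (nat_lit 4) (nat_lit 484) (nat_lit 398) (nat_lit 318))) (XT.nd (nat_lit 78) (nat_lit 0) (nat_lit 0) (XT.lf (nat_lit 0) (nat_lit 135614672310) (nat_lit 76) (nat_lit 153271026117) (nat_lit 76) (nat_lit 142352160591) (nat_lit 4) (nat_lit 4) (nat_lit 5) (nat_lit 5) (nat_lit 5) (nat_lit 4) (nat_lit 485) (nat_lit 398) (nat_lit 317)) (XT.lf (nat_lit 0) (nat_lit 226865945192) (nat_lit 76) (nat_lit 123904342033) (nat_lit 76) (nat_lit 112983886598) (nat_lit 4) (nat_lit 4) (nat_lit 5) (nat_lit 5) (nat_lit 5) (nat_lit 4) (nat_lit 486) (nat_lit 398) (nat_lit 316)))))) (XT.nd (nat_lit 546) (nat_lit 76) (nat_lit 0) (XT.nd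 (nat_lit 234) (nat_lit 152) (nat_lit 0) (XT.nd (nat_lit 78) (nat_lit 0) (nat_lit 0) (XT.lf (nat_lit 0) (nat_lit 325394901169) (nat_lit 76) (nat_lit 92199686531) (nat_lit 76) (nat_lit 81277758957) (nat_lit 4) (nat_lit 4) (nat_lit 5) (nat_lit 5) (nat_lit 5) (nat_lit 4) (nat_lit 487) (nat_lit 398) (nat_lit 315)) (XT.nd (nat_lit 78) (nat_lit 0) (nat_lit 0) (XT.lf (nat_lit 0) (nat_lit 431785415535) (nat_lit 76) (nat_lit 57969180171) (nat_lit 76) (nat_lit 47045889506) (nat_lit 4) (nat_lit 4) (nat_lit 5) (nat_lit 5) (nat_lit 5) (nat_lit 4) (nat_lit 488) (nat_lit 398) (nat_lit 314)) (XT.lf (nat_lit 0) (nat_lit 546667950597) (nat_lit 76) (nat_lit 21009975508) (nat_lit 76) (nat_lit 10085422722) (nat_lit 4) (nat_lit 4) (nat_lit 5) (nat_lit 5) (nat_lit 5) (nat_lit 4) (nat_lit 489) (nat_lit 398) (nat_lit 313)))) (XT.nd (nat_lit 156) (nat_lit 0) (nat_lit 0) (XT.nd (nat_lit 78) (nat_lit 0) (nat_lit 0) (XT.lf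 (nat_lit 0) (nat_lit 29961871235) (nat_lit 152) (nat_lit 572407420307) (nat_lit 0) (nat_lit 19556422266) (nat_lit 2) (nat_lit 5) (nat_lit 4) (nat_lit 4) (nat_lit 2) (nat_lit 4) (nat_lit 490) (nat_lit 398) (nat_lit 312)) (XT.lf (nat_lit 0) (nat_lit 73760469980) (nat_lit 152) (nat_lit 532453297579) (nat_lit 0) (nat_lit 63353990472) (nat_lit 2) (nat_lit 5) (nat_lit 4) (nat_lit 4) (nat_lit 2) (nat_lit 4) (nat_lit 491) (nat_lit 398) (nat_lit 311))) (XT.nd (nat_lit 78) (nat_lit 0) (nat_lit 0) (XT.lf (nat_lit 0) (nat_lit 121054932050) (nat_lit 152) (nat_lit 489319136679) (nat_lit 0) (nat_lit 110647498340) (nat_lit 2) (nat_lit 5) (nat_lit 4) (nat_lit 4) (nat_lit 2) (nat_lit 4) (nat_lit 492) (nat_lit 398) (nat_lit 310)) (XT.lf (nat_lit 0) (nat_lit 172125520924) (nat_lit 152) (nat_lit 442749327764) (nat_lit 0) (nat_lit 161717203693) (nat_lit 2) (nat_lit 5) (nat_lit 4) (nat_lit 4) (nat_lit 2) (nat_lit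 4) (nat_lit 493) (nat_lit 398) (nat_lit 309))))) (XT.nd (nat_lit 312) (nat_lit 76) (nat_lit 0) (XT.nd (nat_lit 156) (nat_lit 0) (nat_lit 0) (XT.nd (nat_lit 78) (nat_lit 0) (nat_lit 0) (XT.lf (nat_lit 0) (nat_lit 227274877130) (nat_lit 152) (nat_lit 392467901596) (nat_lit 0) (nat_lit 216865741824) (nat_lit 2) (nat_lit 5) (nat_lit 4) (nat_lit 4) (nat_lit 2) (nat_lit 4) (nat_lit 494) (nat_lit 398) (nat_lit 308)) (XT.lf (nat_lit 0) (nat_lit 286829811666) (nat_lit 152) (nat_lit 338176894168) (nat_lit 0) (nat_lit 276419918883) (nat_lit 2) (nat_lit 5) (nat_lit 4) (nat_lit 4) (nat_lit 2) (nat_lit 4) (nat_lit 495) (nat_lit 398) (nat_lit 307))) (XT.nd (nat_lit 78) (nat_lit 0) (nat_lit 0) (XT.lf (nat_lit 0) (nat_lit 351143242664) (nat_lit 152) (nat_lit 279554580992) (nat_lit 0) (nat_lit 340732648514) (nat_lit 2) (nat_lit 5) (nat_lit 4) (nat_lit 4) (nat_lit 2) (nat_lit 4) (nat_lit 496) (nat_lit 398) (nat_lit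 306)) (XT.lf (nat_lit 0) (nat_lit 420596286751) (nat_lit 152) (nat_lit 216253570582) (nat_lit 0) (nat_lit 410185043187) (nat_lit 2) (nat_lit 5) (nat_lit 4) (nat_lit 4) (nat_lit 2) (nat_lit 4) (nat_lit 497) (nat_lit 398) (nat_lit 305)))) (XT.nd (nat_lit 156) (nat_lit 76) (nat_lit 0) (XT.nd (nat_lit 78) (nat_lit 0) (nat_lit 0) (XT.lf (nat_lit 0) (nat_lit 495600517523) (nat_lit 152) (nat_lit 147898745840) (nat_lit 0) (nat_lit 485188672648) (nat_lit 2) (nat_lit 5) (nat_lit 4) (nat_lit 4) (nat_lit 2) (nat_lit 4) (nat_lit 498) (nat_lit 398) (nat_lit 304)) (XT.lf (nat_lit 0) (nat_lit 576600404494) (nat_lit 152) (nat_lit 74085041137) (nat_lit 0) (nat_lit 566188002851) (nat_lit 2) (nat_lit 5) (nat_lit 4) (nat_lit 4) (nat_lit 2) (nat_lit 4) (nat_lit 499) (nat_lit 398) (nat_lit 303))) (XT.nd (nat_lit 78) (nat_lit 0) (nat_lit 0) (XT.lf (nat_lit 0) (nat_lit 5810944589) (nat_lit 76) (nat_lit 658355727536)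 (nat_lit 76) (nat_lit 647942810368) (nat_lit 1) (nat_lit 4) (nat_lit 2) (nat_lit 5) (nat_lit 2) (nat_lit 4) (nat_lit 500) (nat_lit 398) (nat_lit 302)) (XT.lf (nat_lit 0) (nat_lit 94735742744) (nat_lit 76) (nat_lit 665288866308) (nat_lit 76) (nat_lit 654875471801) (nat_lit 1) (nat_lit 4) (nat_lit 2) (nat_lit 5) (nat_lit 2) (nat_lit 4) (nat_lit 501) (nat_lit 398) (nat_lit 301))))))))
noncomputable def xc44 : XT := (XT.nd (nat_lit 2184) (nat_lit 3268) (nat_lit 0) (XT.nd (nat_lit 1092) (nat_lit 3724) (nat_lit 0) (XT.nd (nat_lit 546) (nat_lit 3724) (nat_lit 0) (XT.nd (nat_lit 234) (nat_lit 1900) (nat_lit 0) (XT.nd (nat_lit 78) (nat_lit 532) (nat_lit 0) (XT.lf (nat_lit 0) (nat_lit 2116571476) (nat_lit 76) (nat_lit 559202342) (nat_lit 76) (nat_lit 559202342) (nat_lit 195) (nat_lit 4) (nat_lit 196) (nat_lit 5) (nat_lit 196) (nat_lit 4) (nat_lit 402) (nat_lit 399) (nat_lit 399)) (XT.nd (nat_lit 78)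 (nat_lit 304) (nat_lit 0) (XT.lf (nat_lit 0) (nat_lit 3514891625) (nat_lit 152) (nat_lit 335749371) (nat_lit 228) (nat_lit 2657666336) (nat_lit 192) (nat_lit 5) (nat_lit 194) (nat_lit 5) (nat_lit 195) (nat_lit 4) (nat_lit 403) (nat_lit 399) (nat_lit 398)) (XT.lf (nat_lit 0) (nat_lit 2166941625) (nat_lit 304) (nat_lit 3589655585) (nat_lit 76) (nat_lit 809255592) (nat_lit 188) (nat_lit 5) (nat_lit 192) (nat_lit 5) (nat_lit 189) (nat_lit 4) (nat_lit 404) (nat_lit 399) (nat_lit 397)))) (XT.nd (nat_lit 156) (nat_lit 1140) (nat_lit 0) (XT.nd (nat_lit 78) (nat_lit 380) (nat_lit 0) (XT.lf (nat_lit 0) (nat_lit 288126877) (nat_lit 380) (nat_lit 4026458255) (nat_lit 76) (nat_lit 2328356478) (nat_lit 183) (nat_lit 5) (nat_lit 188) (nat_lit 5) (nat_lit 184) (nat_lit 5) (nat_lit 405) (nat_lit 399) (nat_lit 396)) (XT.lf (nat_lit 0) (nat_lit 2409660026) (nat_lit 380) (nat_lit 2466399804) (nat_lit 456) (nat_lit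 1862680876) (nat_lit 178) (nat_lit 5) (nat_lit 183) (nat_lit 5) (nat_lit 184) (nat_lit 5) (nat_lit 406) (nat_lit 399) (nat_lit 395))) (XT.nd (nat_lit 78) (nat_lit 608) (nat_lit 0) (XT.lf (nat_lit 0) (nat_lit 2377842646) (nat_lit 456) (nat_lit 220528705) (nat_lit 532) (nat_lit 4256372139) (nat_lit 171) (nat_lit 5) (nat_lit 177) (nat_lit 5) (nat_lit 178) (nat_lit 5) (nat_lit 407) (nat_lit 399) (nat_lit 394)) (XT.lf (nat_lit 0) (nat_lit 130734603) (nat_lit 608) (nat_lit 4502438226) (nat_lit 76) (nat_lit 2356648191) (nat_lit 163) (nat_lit 5) (nat_lit 171) (nat_lit 5) (nat_lit 164) (nat_lit 5) (nat_lit 408) (nat_lit 399) (nat_lit 393))))) (XT.nd (nat_lit 234) (nat_lit 1596) (nat_lit 0) (XT.nd (nat_lit 78) (nat_lit 1520) (nat_lit 0) (XT.lf (nat_lit 0) (nat_lit 2726729498) (nat_lit 608) (nat_lit 1760813557) (nat_lit 684) (nat_lit 2656388996) (nat_lit 155) (nat_lit 5) (nat_lit 163) (nat_lit 5) (nat_lit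 164) (nat_lit 5) (nat_lit 409) (nat_lit 399) (nat_lit 392)) (XT.nd (nat_lit 78) (nat_lit 760) (nat_lit 0) (XT.lf (nat_lit 0) (nat_lit 1631471931) (nat_lit 760) (nat_lit 4203439818) (nat_lit 76) (nat_lit 1483626673) (nat_lit 145) (nat_lit 5) (nat_lit 155) (nat_lit 5) (nat_lit 146) (nat_lit 5) (nat_lit 410) (nat_lit 399) (nat_lit 391)) (XT.lf (nat_lit 0) (nat_lit 3623842096) (nat_lit 760) (nat_lit 2388678514) (nat_lit 836) (nat_lit 1500342962) (nat_lit 135) (nat_lit 5) (nat_lit 145) (nat_lit 5) (nat_lit 146) (nat_lit 5) (nat_lit 411) (nat_lit 399) (nat_lit 390)))) (XT.nd (nat_lit 156) (nat_lit 760) (nat_lit 0) (XT.nd (nat_lit 78) (nat_lit 380) (nat_lit 0) (XT.lf (nat_lit 0) (nat_lit 2781175820) (nat_lit 456) (nat_lit 3472827397) (nat_lit 76) (nat_lit 1473623454) (nat_lit 129) (nat_lit 5) (nat_lit 135) (nat_lit 5) (nat_lit 130) (nat_lit 5) (nat_lit 412) (nat_lit 399) (nat_lit 389)) (XT.lf (nat_lit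 0) (nat_lit 5008650428) (nat_lit 380) (nat_lit 2241492055) (nat_lit 456) (nat_lit 713396604) (nat_lit 124) (nat_lit 5) (nat_lit 129) (nat_lit 5) (nat_lit 130) (nat_lit 5) (nat_lit 413) (nat_lit 399) (nat_lit 388))) (XT.nd (nat_lit 78) (nat_lit 304) (nat_lit 0) (XT.lf (nat_lit 0) (nat_lit 3645580460) (nat_lit 456) (nat_lit 2365791571) (nat_lit 76) (nat_lit 2208466137) (nat_lit 118) (nat_lit 5) (nat_lit 124) (nat_lit 5) (nat_lit 119) (nat_lit 5) (nat_lit 414) (nat_lit 399) (nat_lit 387)) (XT.lf (nat_lit 0) (nat_lit 6835013406) (nat_lit 304) (nat_lit 1427464253) (nat_lit 380) (nat_lit 236928260) (nat_lit 114) (nat_lit 5) (nat_lit 118) (nat_lit 5) (nat_lit 119) (nat_lit 5) (nat_lit 415) (nat_lit 399) (nat_lit 386)))))) (XT.nd (nat_lit 546) (nat_lit 1444) (nat_lit 0) (XT.nd (nat_lit 234) (nat_lit 988) (nat_lit 0) (XT.nd (nat_lit 78) (nat_lit 912) (nat_lit 0) (XT.lf (nat_lit 0) (nat_lit 4276536920)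 (nat_lit 380) (nat_lit 926397527) (nat_lit 76) (nat_lit 3596410438) (nat_lit 109) (nat_lit 5) (nat_lit 114) (nat_lit 5) (nat_lit 110) (nat_lit 5) (nat_lit 416) (nat_lit 399) (nat_lit 385)) (XT.nd (nat_lit 78) (nat_lit 608) (nat_lit 0) (XT.lf (nat_lit 0) (nat_lit 9067766980) (nat_lit 304) (nat_lit 31198253) (nat_lit 380) (nat_lit 26358604) (nat_lit 105) (nat_lit 5) (nat_lit 109) (nat_lit 5) (nat_lit 110) (nat_lit 5) (nat_lit 417) (nat_lit 399) (nat_lit 384)) (XT.lf (nat_lit 0) (nat_lit 835931043) (nat_lit 228) (nat_lit 3890895681) (nat_lit 304) (nat_lit 4744246532) (nat_lit 97) (nat_lit 5) (nat_lit 100) (nat_lit 5) (nat_lit 101) (nat_lit 5) (nat_lit 418) (nat_lit 399) (nat_lit 383)))) (XT.nd (nat_lit 156) (nat_lit 456) (nat_lit 0) (XT.nd (nat_lit 78) (nat_lit 228) (nat_lit 0) (XT.lf (nat_lit 0) (nat_lit 11366818) (nat_lit 304) (nat_lit 7982643636) (nat_lit 76) (nat_lit 1850628556) (nat_lit 93)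 (nat_lit 5) (nat_lit 97) (nat_lit 5) (nat_lit 94) (nat_lit 5) (nat_lit 419) (nat_lit 399) (nat_lit 382)) (XT.lf (nat_lit 0) (nat_lit 2902384425) (nat_lit 228) (nat_lit 2129004754) (nat_lit 304) (nat_lit 5210338213) (nat_lit 90) (nat_lit 5) (nat_lit 93) (nat_lit 5) (nat_lit 94) (nat_lit 5) (nat_lit 420) (nat_lit 399) (nat_lit 381))) (XT.nd (nat_lit 78) (nat_lit 228) (nat_lit 0) (XT.lf (nat_lit 0) (nat_lit 4036366043) (nat_lit 228) (nat_lit 6480748254) (nat_lit 304) (nat_lit 150295774) (nat_lit 87) (nat_lit 5) (nat_lit 90) (nat_lit 5) (nat_lit 91) (nat_lit 5) (nat_lit 421) (nat_lit 399) (nat_lit 380)) (XT.lf (nat_lit 0) (nat_lit 5193511358) (nat_lit 228) (nat_lit 5909467436) (nat_lit 76) (nat_lit 17595277) (nat_lit 84) (nat_lit 5) (nat_lit 87) (nat_lit 5) (nat_lit 85) (nat_lit 5) (nat_lit 422) (nat_lit 399) (nat_lit 379))))) (XT.nd (nat_lit 234) (nat_lit 760) (nat_lit 0) (XT.nd (nat_lit 78) (nat_lit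 456) (nat_lit 0) (XT.lf (nat_lit 0) (nat_lit 6432517331) (nat_lit 228) (nat_lit 4664528852) (nat_lit 304) (nat_lit 505973728) (nat_lit 81) (nat_lit 5) (nat_lit 84) (nat_lit 5) (nat_lit 85) (nat_lit 5) (nat_lit 423) (nat_lit 399) (nat_lit 378)) (XT.nd (nat_lit 78) (nat_lit 228) (nat_lit 0) (XT.lf (nat_lit 0) (nat_lit 5259121352) (nat_lit 228) (nat_lit 4427010460) (nat_lit 76) (nat_lit 2429701653) (nat_lit 78) (nat_lit 5) (nat_lit 81) (nat_lit 5) (nat_lit 79) (nat_lit 5) (nat_lit 424) (nat_lit 399) (nat_lit 377)) (XT.lf (nat_lit 0) (nat_lit 9015332480) (nat_lit 228) (nat_lit 2588282288) (nat_lit 304) (nat_lit 1058868240) (nat_lit 75) (nat_lit 5) (nat_lit 78) (nat_lit 5) (nat_lit 79) (nat_lit 5) (nat_lit 425) (nat_lit 399) (nat_lit 376)))) (XT.nd (nat_lit 156) (nat_lit 380) (nat_lit 0) (XT.nd (nat_lit 78) (nat_lit 152) (nat_lit 0) (XT.lf (nat_lit 0) (nat_lit 5191011472) (nat_lit 228) (nat_lit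 2909355833) (nat_lit 76) (nat_lit 5140718140) (nat_lit 72) (nat_lit 5) (nat_lit 75) (nat_lit 5) (nat_lit 73) (nat_lit 5) (nat_lit 426) (nat_lit 399) (nat_lit 375)) (XT.lf (nat_lit 0) (nat_lit 11740724688) (nat_lit 152) (nat_lit 292698255) (nat_lit 228) (nat_lit 1825220832) (nat_lit 70) (nat_lit 5) (nat_lit 72) (nat_lit 5) (nat_lit 73) (nat_lit 5) (nat_lit 427) (nat_lit 399) (nat_lit 374))) (XT.nd (nat_lit 78) (nat_lit 152) (nat_lit 0) (XT.lf (nat_lit 0) (nat_lit 4972897604) (nat_lit 228) (nat_lit 1420361657) (nat_lit 76) (nat_lit 8116938149) (nat_lit 67) (nat_lit 5) (nat_lit 70) (nat_lit 5) (nat_lit 68) (nat_lit 5) (nat_lit 428) (nat_lit 399) (nat_lit 373)) (XT.lf (nat_lit 0) (nat_lit 12404613159) (nat_lit 228) (nat_lit 690120703) (nat_lit 76) (nat_lit 2109975013) (nat_lit 65) (nat_lit 5) (nat_lit 68) (nat_lit 5) (nat_lit 66) (nat_lit 4) (nat_lit 429) (nat_lit 399) (nat_lit 372))))))) (XT.nd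 (nat_lit 1092) (nat_lit 1292) (nat_lit 0) (XT.nd (nat_lit 546) (nat_lit 684) (nat_lit 0) (XT.nd (nat_lit 234) (nat_lit 608) (nat_lit 0) (XT.nd (nat_lit 78) (nat_lit 456) (nat_lit 0) (XT.lf (nat_lit 0) (nat_lit 4573976489) (nat_lit 228) (nat_lit 43457888) (nat_lit 76) (nat_lit 11321807594) (nat_lit 62) (nat_lit 5) (nat_lit 65) (nat_lit 5) (nat_lit 63) (nat_lit 5) (nat_lit 430) (nat_lit 399) (nat_lit 371)) (XT.nd (nat_lit 78) (nat_lit 228) (nat_lit 0) (XT.lf (nat_lit 0) (nat_lit 585671566) (nat_lit 76) (nat_lit 12082279024) (nat_lit 152) (nat_lit 4050899787) (nat_lit 59) (nat_lit 5) (nat_lit 60) (nat_lit 5) (nat_lit 61) (nat_lit 4) (nat_lit 431) (nat_lit 399) (nat_lit 370)) (XT.lf (nat_lit 0) (nat_lit 1147101052) (nat_lit 152) (nat_lit 2816550478) (nat_lit 228) (nat_lit 13582271066) (nat_lit 56) (nat_lit 5) (nat_lit 58) (nat_lit 5) (nat_lit 59) (nat_lit 5) (nat_lit 432) (nat_lit 399) (nat_lit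 369)))) (XT.nd (nat_lit 156) (nat_lit 304) (nat_lit 0) (XT.nd (nat_lit 78) (nat_lit 228) (nat_lit 0) (XT.lf (nat_lit 0) (nat_lit 1579974383) (nat_lit 76) (nat_lit 11185642449) (nat_lit 152) (nat_lit 5655824234) (nat_lit 55) (nat_lit 5) (nat_lit 56) (nat_lit 5) (nat_lit 57) (nat_lit 4) (nat_lit 433) (nat_lit 399) (nat_lit 368)) (XT.lf (nat_lit 0) (nat_lit 1955105148) (nat_lit 152) (nat_lit 1093009892) (nat_lit 228) (nat_lit 16304809527) (nat_lit 52) (nat_lit 5) (nat_lit 54) (nat_lit 5) (nat_lit 55) (nat_lit 5) (nat_lit 434) (nat_lit 399) (nat_lit 367))) (XT.nd (nat_lit 78) (nat_lit 228) (nat_lit 0) (XT.lf (nat_lit 0) (nat_lit 2092063467) (nat_lit 76) (nat_lit 10517324879) (nat_lit 152) (nat_lit 7726951718) (nat_lit 51) (nat_lit 5) (nat_lit 52) (nat_lit 5) (nat_lit 53) (nat_lit 4) (nat_lit 435) (nat_lit 399) (nat_lit 366)) (XT.lf (nat_lit 0) (nat_lit 1731835921) (nat_lit 228) (nat_lit 19219165583)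 (nat_lit 76) (nat_lit 434039279) (nat_lit 48) (nat_lit 5) (nat_lit 51) (nat_lit 5) (nat_lit 49) (nat_lit 4) (nat_lit 436) (nat_lit 399) (nat_lit 365))))) (XT.nd (nat_lit 234) (nat_lit 380) (nat_lit 0) (XT.nd (nat_lit 78) (nat_lit 228) (nat_lit 0) (XT.lf (nat_lit 0) (nat_lit 1883552760) (nat_lit 76) (nat_lit 10207125438) (nat_lit 152) (nat_lit 10399928853) (nat_lit 47) (nat_lit 5) (nat_lit 48) (nat_lit 5) (nat_lit 49) (nat_lit 4) (nat_lit 437) (nat_lit 399) (nat_lit 364)) (XT.nd (nat_lit 78) (nat_lit 152) (nat_lit 0) (XT.lf (nat_lit 0) (nat_lit 1496569902) (nat_lit 76) (nat_lit 22051751547) (nat_lit 76) (nat_lit 122798394) (nat_lit 46) (nat_lit 4) (nat_lit 47) (nat_lit 5) (nat_lit 47) (nat_lit 4) (nat_lit 438) (nat_lit 399) (nat_lit 363)) (XT.lf (nat_lit 0) (nat_lit 635979773) (nat_lit 76) (nat_lit 10424241846) (nat_lit 152) (nat_lit 13855536760) (nat_lit 44) (nat_lit 5) (nat_lit 45) (nat_lit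 5) (nat_lit 46) (nat_lit 4) (nat_lit 439) (nat_lit 399) (nat_lit 362)))) (XT.nd (nat_lit 156) (nat_lit 228) (nat_lit 0) (XT.nd (nat_lit 78) (nat_lit 152) (nat_lit 0) (XT.lf (nat_lit 0) (nat_lit 23451337963) (nat_lit 152) (nat_lit 425077267) (nat_lit 0) (nat_lit 2367569085) (nat_lit 44) (nat_lit 5) (nat_lit 46) (nat_lit 4) (nat_lit 44) (nat_lit 4) (nat_lit 440) (nat_lit 399) (nat_lit 361)) (XT.lf (nat_lit 0) (nat_lit 9348432679) (nat_lit 152) (nat_lit 2008091032) (nat_lit 76) (nat_lit 16290492723) (nat_lit 42) (nat_lit 5) (nat_lit 44) (nat_lit 5) (nat_lit 43) (nat_lit 4) (nat_lit 441) (nat_lit 399) (nat_lit 360))) (XT.nd (nat_lit 78) (nat_lit 152) (nat_lit 0) (XT.lf (nat_lit 0) (nat_lit 22708056849) (nat_lit 152) (nat_lit 3968945455) (nat_lit 0) (nat_lit 2465748722) (nat_lit 41) (nat_lit 5) (nat_lit 43) (nat_lit 4) (nat_lit 41) (nat_lit 4) (nat_lit 442) (nat_lit 399) (nat_lit 359)) (XT.lf (nat_lit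 0) (nat_lit 6694093698) (nat_lit 152) (nat_lit 6591766580) (nat_lit 76) (nat_lit 17441311778) (nat_lit 39) (nat_lit 5) (nat_lit 41) (nat_lit 5) (nat_lit 40) (nat_lit 4) (nat_lit 443) (nat_lit 399) (nat_lit 358)))))) (XT.nd (nat_lit 546) (nat_lit 608) (nat_lit 0) (XT.nd (nat_lit 234) (nat_lit 380) (nat_lit 0) (XT.nd (nat_lit 78) (nat_lit 228) (nat_lit 0) (XT.lf (nat_lit 0) (nat_lit 21008881723) (nat_lit 152) (nat_lit 9808350467) (nat_lit 0) (nat_lit 1597786581) (nat_lit 38) (nat_lit 5) (nat_lit 40) (nat_lit 4) (nat_lit 38) (nat_lit 4) (nat_lit 444) (nat_lit 399) (nat_lit 357)) (XT.nd (nat_lit 78) (nat_lit 76) (nat_lit 0) (XT.lf (nat_lit 0) (nat_lit 2739711083) (nat_lit 152) (nat_lit 13853762586) (nat_lit 76) (nat_lit 17613673003) (nat_lit 36) (nat_lit 5) (nat_lit 38) (nat_lit 5) (nat_lit 37) (nat_lit 4) (nat_lit 445) (nat_lit 399) (nat_lit 356)) (XT.lf (nat_lit 0) (nat_lit 17337138836) (nat_lit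 76) (nat_lit 644328661) (nat_lit 152) (nat_lit 18133637844) (nat_lit 35) (nat_lit 5) (nat_lit 36) (nat_lit 5) (nat_lit 37) (nat_lit 4) (nat_lit 446) (nat_lit 399) (nat_lit 355)))) (XT.nd (nat_lit 156) (nat_lit 152) (nat_lit 0) (XT.nd (nat_lit 78) (nat_lit 152) (nat_lit 0) (XT.lf (nat_lit 0) (nat_lit 13356582361) (nat_lit 76) (nat_lit 21715497252) (nat_lit 76) (nat_lit 3072147761) (nat_lit 34) (nat_lit 4) (nat_lit 35) (nat_lit 5) (nat_lit 35) (nat_lit 4) (nat_lit 447) (nat_lit 399) (nat_lit 354)) (XT.lf (nat_lit 0) (nat_lit 8298415272) (nat_lit 76) (nat_lit 4865695655) (nat_lit 152) (nat_lit 27141663006) (nat_lit 32) (nat_lit 5) (nat_lit 33) (nat_lit 5) (nat_lit 34) (nat_lit 4) (nat_lit 448) (nat_lit 399) (nat_lit 353))) (XT.nd (nat_lit 78) (nat_lit 76) (nat_lit 0) (XT.lf (nat_lit 0) (nat_lit 1938975126) (nat_lit 76) (nat_lit 29253111150) (nat_lit 76) (nat_lit 11415619318) (nat_lit 31) (nat_lit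 4) (nat_lit 32) (nat_lit 5) (nat_lit 32) (nat_lit 4) (nat_lit 449) (nat_lit 399) (nat_lit 352)) (XT.lf (nat_lit 0) (nat_lit 5963007818) (nat_lit 152) (nat_lit 5649793436) (nat_lit 76) (nat_lit 33448008934) (nat_lit 30) (nat_lit 5) (nat_lit 32) (nat_lit 5) (nat_lit 31) (nat_lit 4) (nat_lit 450) (nat_lit 399) (nat_lit 351))))) (XT.nd (nat_lit 234) (nat_lit 304) (nat_lit 0) (XT.nd (nat_lit 78) (nat_lit 228) (nat_lit 0) (XT.lf (nat_lit 0) (nat_lit 24907137540) (nat_lit 152) (nat_lit 14912751562) (nat_lit 0) (nat_lit 7852160597) (nat_lit 29) (nat_lit 5) (nat_lit 31) (nat_lit 4) (nat_lit 29) (nat_lit 4) (nat_lit 451) (nat_lit 399) (nat_lit 350)) (XT.nd (nat_lit 78) (nat_lit 152) (nat_lit 0) (XT.lf (nat_lit 0) (nat_lit 24404298272) (nat_lit 76) (nat_lit 21571107226) (nat_lit 76) (nat_lit 4486353981) (nat_lit 28) (nat_lit 4) (nat_lit 29) (nat_lit 5) (nat_lit 29) (nat_lit 4) (nat_lit 452) (nat_lit 399)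 (nat_lit 349)) (XT.lf (nat_lit 0) (nat_lit 14012348440) (nat_lit 76) (nat_lit 1170418552) (nat_lit 152) (nat_lit 38259146252) (nat_lit 26) (nat_lit 5) (nat_lit 27) (nat_lit 5) (nat_lit 28) (nat_lit 4) (nat_lit 453) (nat_lit 399) (nat_lit 348)))) (XT.nd (nat_lit 156) (nat_lit 152) (nat_lit 0) (XT.nd (nat_lit 78) (nat_lit 76) (nat_lit 0) (XT.lf (nat_lit 0) (nat_lit 1078384175) (nat_lit 76) (nat_lit 35931549154) (nat_lit 76) (nat_lit 19609785084) (nat_lit 25) (nat_lit 4) (nat_lit 26) (nat_lit 5) (nat_lit 26) (nat_lit 4) (nat_lit 454) (nat_lit 399) (nat_lit 347)) (XT.lf (nat_lit 0) (nat_lit 1169885221) (nat_lit 152) (nat_lit 13946011164) (nat_lit 76) (nat_lit 44902669142) (nat_lit 24) (nat_lit 5) (nat_lit 26) (nat_lit 5) (nat_lit 25) (nat_lit 4) (nat_lit 455) (nat_lit 399) (nat_lit 346))) (XT.nd (nat_lit 78) (nat_lit 76) (nat_lit 0) (XT.lf (nat_lit 0) (nat_lit 23496275567) (nat_lit 152) (nat_lit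 32237956486) (nat_lit 0) (nat_lit 7910446875) (nat_lit 23) (nat_lit 5) (nat_lit 25) (nat_lit 4) (nat_lit 23) (nat_lit 4) (nat_lit 456) (nat_lit 399) (nat_lit 345)) (XT.lf (nat_lit 0) (nat_lit 13394803621) (nat_lit 76) (nat_lit 34868774270) (nat_lit 76) (nat_lit 19264564398) (nat_lit 22) (nat_lit 4) (nat_lit 23) (nat_lit 5) (nat_lit 23) (nat_lit 4) (nat_lit 457) (nat_lit 399) (nat_lit 344))))))))
noncomputable def xc45 : XT := (XT.nd (nat_lit 2184) (nat_lit 152) (nat_lit 0) (XT.nd (nat_lit 1092) (nat_lit 456) (nat_lit 0) (XT.nd (nat_lit 546) (nat_lit 456) (nat_lit 0) (XT.nd (nat_lit 234) (nat_lit 228) (nat_lit 0) (XT.nd (nat_lit 78) (nat_lit 152) (nat_lit 0) (XT.lf (nat_lit 0) (nat_lit 3700932406) (nat_lit 152) (nat_lit 8034318049) (nat_lit 76) (nat_lit 59958652255) (nat_lit 21) (nat_lit 5) (nat_lit 23) (nat_lit 5) (nat_lit 22) (nat_lit 4) (nat_lit 458) (nat_lit 399) (nat_lit 343)) (XT.nd (nat_lit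 78) (nat_lit 76) (nat_lit 0) (XT.lf (nat_lit 0) (nat_lit 28676156921) (nat_lit 152) (nat_lit 33674818916) (nat_lit 0) (nat_lit 13783787034) (nat_lit 20) (nat_lit 5) (nat_lit 22) (nat_lit 4) (nat_lit 20) (nat_lit 4) (nat_lit 459) (nat_lit 399) (nat_lit 342)) (XT.lf (nat_lit 0) (nat_lit 16589407385) (nat_lit 76) (nat_lit 39610122626) (nat_lit 76) (nat_lit 24703856002) (nat_lit 19) (nat_lit 4) (nat_lit 20) (nat_lit 5) (nat_lit 20) (nat_lit 4) (nat_lit 460) (nat_lit 399) (nat_lit 341)))) (XT.nd (nat_lit 156) (nat_lit 76) (nat_lit 0) (XT.nd (nat_lit 78) (nat_lit 76) (nat_lit 0) (XT.lf (nat_lit 0) (nat_lit 423998266) (nat_lit 152) (nat_lit 14049937524) (nat_lit 76) (nat_lit 71552234109) (nat_lit 18) (nat_lit 5) (nat_lit 20) (nat_lit 5) (nat_lit 19) (nat_lit 4) (nat_lit 461) (nat_lit 399) (nat_lit 340)) (XT.lf (nat_lit 0) (nat_lit 27519386413) (nat_lit 152) (nat_lit 50678660653) (nat_lit 0) (nat_lit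 13299340524) (nat_lit 17) (nat_lit 5) (nat_lit 19) (nat_lit 4) (nat_lit 17) (nat_lit 4) (nat_lit 462) (nat_lit 399) (nat_lit 339))) (XT.nd (nat_lit 78) (nat_lit 0) (nat_lit 0) (XT.lf (nat_lit 0) (nat_lit 2944734100) (nat_lit 76) (nat_lit 54333660951) (nat_lit 76) (nat_lit 40103108703) (nat_lit 16) (nat_lit 4) (nat_lit 17) (nat_lit 5) (nat_lit 17) (nat_lit 4) (nat_lit 463) (nat_lit 399) (nat_lit 338)) (XT.lf (nat_lit 0) (nat_lit 62585471553) (nat_lit 76) (nat_lit 27674532266) (nat_lit 76) (nat_lit 13434251908) (nat_lit 16) (nat_lit 4) (nat_lit 17) (nat_lit 5) (nat_lit 17) (nat_lit 4) (nat_lit 464) (nat_lit 399) (nat_lit 337))))) (XT.nd (nat_lit 234) (nat_lit 228) (nat_lit 0) (XT.nd (nat_lit 78) (nat_lit 76) (nat_lit 0) (XT.lf (nat_lit 0) (nat_lit 15123557284) (nat_lit 152) (nat_lit 93811301136) (nat_lit 0) (nat_lit 1552806933) (nat_lit 14) (nat_lit 5) (nat_lit 16) (nat_lit 4) (nat_lit 14) (nat_lit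 4) (nat_lit 465) (nat_lit 399) (nat_lit 336)) (XT.nd (nat_lit 78) (nat_lit 76) (nat_lit 0) (XT.lf (nat_lit 0) (nat_lit 46658696402) (nat_lit 152) (nat_lit 38016668348) (nat_lit 0) (nat_lit 33080002921) (nat_lit 14) (nat_lit 5) (nat_lit 16) (nat_lit 4) (nat_lit 14) (nat_lit 4) (nat_lit 466) (nat_lit 399) (nat_lit 335)) (XT.lf (nat_lit 0) (nat_lit 22904891506) (nat_lit 76) (nat_lit 58134746841) (nat_lit 76) (nat_lit 44548698610) (nat_lit 13) (nat_lit 4) (nat_lit 14) (nat_lit 5) (nat_lit 14) (nat_lit 4) (nat_lit 467) (nat_lit 399) (nat_lit 334)))) (XT.nd (nat_lit 156) (nat_lit 76) (nat_lit 0) (XT.nd (nat_lit 78) (nat_lit 152) (nat_lit 0) (XT.lf (nat_lit 0) (nat_lit 89991026935) (nat_lit 76) (nat_lit 28809159423) (nat_lit 76) (nat_lit 15216301238) (nat_lit 13) (nat_lit 4) (nat_lit 14) (nat_lit 5) (nat_lit 14) (nat_lit 4) (nat_lit 468) (nat_lit 399) (nat_lit 333)) (XT.lf (nat_lit 0) (nat_lit 16264606273)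 (nat_lit 152) (nat_lit 123511969723) (nat_lit 0) (nat_lit 3313021799) (nat_lit 11) (nat_lit 5) (nat_lit 13) (nat_lit 4) (nat_lit 11) (nat_lit 4) (nat_lit 469) (nat_lit 399) (nat_lit 332))) (XT.nd (nat_lit 78) (nat_lit 76) (nat_lit 0) (XT.lf (nat_lit 0) (nat_lit 50973000582) (nat_lit 152) (nat_lit 63825122474) (nat_lit 0) (nat_lit 38015855691) (nat_lit 11) (nat_lit 5) (nat_lit 13) (nat_lit 4) (nat_lit 11) (nat_lit 4) (nat_lit 470) (nat_lit 399) (nat_lit 331)) (XT.lf (nat_lit 0) (nat_lit 599291030) (nat_lit 76) (nat_lit 87840122732) (nat_lit 76) (nat_lit 74877829307) (nat_lit 10) (nat_lit 4) (nat_lit 11) (nat_lit 5) (nat_lit 11) (nat_lit 4) (nat_lit 471) (nat_lit 399) (nat_lit 330)))))) (XT.nd (nat_lit 546) (nat_lit 228) (nat_lit 0) (XT.nd (nat_lit 234) (nat_lit 76) (nat_lit 0) (XT.nd (nat_lit 78) (nat_lit 152) (nat_lit 0) (XT.lf (nat_lit 0) (nat_lit 72402727712) (nat_lit 76) (nat_lit 57585425495)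 (nat_lit 76) (nat_lit 44618364909) (nat_lit 10) (nat_lit 4) (nat_lit 11) (nat_lit 5) (nat_lit 11) (nat_lit 4) (nat_lit 472) (nat_lit 399) (nat_lit 329)) (XT.nd (nat_lit 78) (nat_lit 152) (nat_lit 0) (XT.lf (nat_lit 0) (nat_lit 149900342626) (nat_lit 76) (nat_lit 24935653584) (nat_lit 76) (nat_lit 11964178959) (nat_lit 10) (nat_lit 4) (nat_lit 11) (nat_lit 5) (nat_lit 11) (nat_lit 4) (nat_lit 473) (nat_lit 399) (nat_lit 328)) (XT.lf (nat_lit 0) (nat_lit 23244546226) (nat_lit 152) (nat_lit 165785318354) (nat_lit 0) (nat_lit 10886868419) (nat_lit 8) (nat_lit 5) (nat_lit 10) (nat_lit 4) (nat_lit 8) (nat_lit 4) (nat_lit 474) (nat_lit 399) (nat_lit 327)))) (XT.nd (nat_lit 156) (nat_lit 76) (nat_lit 0) (XT.nd (nat_lit 78) (nat_lit 0) (nat_lit 0) (XT.lf (nat_lit 0) (nat_lit 61907508788) (nat_lit 152) (nat_lit 102566237988) (nat_lit 0) (nat_lit 49546226861) (nat_lit 8) (nat_lit 5) (nat_lit 10) (nat_lit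 4) (nat_lit 8) (nat_lit 4) (nat_lit 475) (nat_lit 399) (nat_lit 326)) (XT.lf (nat_lit 0) (nat_lit 103642520300) (nat_lit 152) (nat_lit 34332101572) (nat_lit 0) (nat_lit 91277901224) (nat_lit 8) (nat_lit 5) (nat_lit 10) (nat_lit 4) (nat_lit 8) (nat_lit 4) (nat_lit 476) (nat_lit 399) (nat_lit 325))) (XT.nd (nat_lit 78) (nat_lit 0) (nat_lit 0) (XT.lf (nat_lit 0) (nat_lit 40621585761) (nat_lit 76) (nat_lit 108709530382) (nat_lit 76) (nat_lit 96341821354) (nat_lit 7) (nat_lit 4) (nat_lit 8) (nat_lit 5) (nat_lit 8) (nat_lit 4) (nat_lit 477) (nat_lit 399) (nat_lit 324)) (XT.lf (nat_lit 0) (nat_lit 122759940920) (nat_lit 76) (nat_lit 76494320638) (nat_lit 76) (nat_lit 64123750543) (nat_lit 7) (nat_lit 4) (nat_lit 8) (nat_lit 5) (nat_lit 8) (nat_lit 4) (nat_lit 478) (nat_lit 399) (nat_lit 323))))) (XT.nd (nat_lit 234) (nat_lit 76) (nat_lit 0) (XT.nd (nat_lit 78) (nat_lit 152) (nat_lit 0) (XT.lf (nat_lit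 0) (nat_lit 211434535386) (nat_lit 76) (nat_lit 41719518444) (nat_lit 76) (nat_lit 29346299213) (nat_lit 7) (nat_lit 4) (nat_lit 8) (nat_lit 5) (nat_lit 8) (nat_lit 4) (nat_lit 479) (nat_lit 399) (nat_lit 322)) (XT.nd (nat_lit 78) (nat_lit 0) (nat_lit 0) (XT.lf (nat_lit 0) (nat_lit 4018205785) (nat_lit 76) (nat_lit 3978807834) (nat_lit 152) (nat_lit 295146728899) (nat_lit 5) (nat_lit 5) (nat_lit 6) (nat_lit 5) (nat_lit 7) (nat_lit 4) (nat_lit 480) (nat_lit 399) (nat_lit 321)) (XT.lf (nat_lit 0) (nat_lit 49130127146) (nat_lit 152) (nat_lit 238851287741) (nat_lit 0) (nat_lit 37341609677) (nat_lit 5) (nat_lit 5) (nat_lit 7) (nat_lit 4) (nat_lit 5) (nat_lit 4) (nat_lit 481) (nat_lit 399) (nat_lit 320)))) (XT.nd (nat_lit 156) (nat_lit 76) (nat_lit 0) (XT.nd (nat_lit 78) (nat_lit 0) (nat_lit 0) (XT.lf (nat_lit 0) (nat_lit 93606415134) (nat_lit 152) (nat_lit 173851713036) (nat_lit 0) (nat_lit 81815894837)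 (nat_lit 5) (nat_lit 5) (nat_lit 7) (nat_lit 4) (nat_lit 5) (nat_lit 4) (nat_lit 482) (nat_lit 399) (nat_lit 319)) (XT.lf (nat_lit 0) (nat_lit 141627320429) (nat_lit 152) (nat_lit 103679509613) (nat_lit 0) (nat_lit 129834945662) (nat_lit 5) (nat_lit 5) (nat_lit 7) (nat_lit 4) (nat_lit 5) (nat_lit 4) (nat_lit 483) (nat_lit 399) (nat_lit 318))) (XT.nd (nat_lit 78) (nat_lit 76) (nat_lit 0) (XT.lf (nat_lit 0) (nat_lit 193477411361) (nat_lit 152) (nat_lit 27918842191) (nat_lit 0) (nat_lit 181683319491) (nat_lit 5) (nat_lit 5) (nat_lit 7) (nat_lit 4) (nat_lit 5) (nat_lit 4) (nat_lit 484) (nat_lit 399) (nat_lit 317)) (XT.lf (nat_lit 0) (nat_lit 55660732374) (nat_lit 76) (nat_lit 194672235373) (nat_lit 76) (nat_lit 182876553593) (nat_lit 4) (nat_lit 4) (nat_lit 5) (nat_lit 5) (nat_lit 5) (nat_lit 4) (nat_lit 485) (nat_lit 399) (nat_lit 316))))))) (XT.nd (nat_lit 1092) (nat_lit 0) (nat_lit 0) (XT.nd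 (nat_lit 546) (nat_lit 0) (nat_lit 0) (XT.nd (nat_lit 234) (nat_lit 152) (nat_lit 0) (XT.nd (nat_lit 78) (nat_lit 0) (nat_lit 0) (XT.lf (nat_lit 0) (nat_lit 146901227018) (nat_lit 76) (nat_lit 165311014418) (nat_lit 76) (nat_lit 153513860500) (nat_lit 4) (nat_lit 4) (nat_lit 5) (nat_lit 5) (nat_lit 5) (nat_lit 4) (nat_lit 486) (nat_lit 399) (nat_lit 315)) (XT.nd (nat_lit 78) (nat_lit 0) (nat_lit 0) (XT.lf (nat_lit 0) (nat_lit 245420203145) (nat_lit 76) (nat_lit 133611417369) (nat_lit 76) (nat_lit 121812900360) (nat_lit 4) (nat_lit 4) (nat_lit 5) (nat_lit 5) (nat_lit 5) (nat_lit 4) (nat_lit 487) (nat_lit 399) (nat_lit 314)) (XT.lf (nat_lit 0) (nat_lit 351801476908) (nat_lit 76) (nat_lit 99385594762) (nat_lit 76) (nat_lit 87585815631) (nat_lit 4) (nat_lit 4) (nat_lit 5) (nat_lit 5) (nat_lit 5) (nat_lit 4) (nat_lit 488) (nat_lit 399) (nat_lit 313)))) (XT.nd (nat_lit 156) (nat_lit 152) (nat_lit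 0) (XT.nd (nat_lit 78) (nat_lit 0) (nat_lit 0) (XT.lf (nat_lit 0) (nat_lit 466675455857) (nat_lit 76) (nat_lit 62430726908) (nat_lit 76) (nat_lit 50629779146) (nat_lit 4) (nat_lit 4) (nat_lit 5) (nat_lit 5) (nat_lit 5) (nat_lit 4) (nat_lit 489) (nat_lit 399) (nat_lit 312)) (XT.lf (nat_lit 0) (nat_lit 590722874681) (nat_lit 76) (nat_lit 22527821996) (nat_lit 76) (nat_lit 10725792169) (nat_lit 4) (nat_lit 4) (nat_lit 5) (nat_lit 5) (nat_lit 5) (nat_lit 4) (nat_lit 490) (nat_lit 399) (nat_lit 311))) (XT.nd (nat_lit 78) (nat_lit 0) (nat_lit 0) (XT.lf (nat_lit 0) (nat_lit 32515377288) (nat_lit 152) (nat_lit 617882170190) (nat_lit 0) (nat_lit 21274394679) (nat_lit 2) (nat_lit 5) (nat_lit 4) (nat_lit 4) (nat_lit 2) (nat_lit 4) (nat_lit 491) (nat_lit 399) (nat_lit 310)) (XT.lf (nat_lit 0) (nat_lit 79806267166) (nat_lit 152) (nat_lit 574755261625) (nat_lit 0) (nat_lit 68564401035) (nat_lit 2) (nat_lit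 5) (nat_lit 4) (nat_lit 4) (nat_lit 2) (nat_lit 4) (nat_lit 492) (nat_lit 399) (nat_lit 309))))) (XT.nd (nat_lit 234) (nat_lit 0) (nat_lit 0) (XT.nd (nat_lit 78) (nat_lit 0) (nat_lit 0) (XT.lf (nat_lit 0) (nat_lit 130873548454) (nat_lit 152) (nat_lit 528192167835) (nat_lit 0) (nat_lit 119630864249) (nat_lit 2) (nat_lit 5) (nat_lit 4) (nat_lit 4) (nat_lit 2) (nat_lit 4) (nat_lit 493) (nat_lit 399) (nat_lit 308)) (XT.nd (nat_lit 78) (nat_lit 0) (nat_lit 0) (XT.lf (nat_lit 0) (nat_lit 186019842080) (nat_lit 152) (nat_lit 477916959376) (nat_lit 0) (nat_lit 174776400398) (nat_lit 2) (nat_lit 5) (nat_lit 4) (nat_lit 4) (nat_lit 2) (nat_lit 4) (nat_lit 494) (nat_lit 399) (nat_lit 307)) (XT.lf (nat_lit 0) (nat_lit 245571940895) (nat_lit 152) (nat_lit 423631709085) (nat_lit 0) (nat_lit 234327797845) (nat_lit 2) (nat_lit 5) (nat_lit 4) (nat_lit 4) (nat_lit 2) (nat_lit 4) (nat_lit 495) (nat_lit 399) (nat_lit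 306)))) (XT.nd (nat_lit 156) (nat_lit 0) (nat_lit 0) (XT.nd (nat_lit 78) (nat_lit 0) (nat_lit 0) (XT.lf (nat_lit 0) (nat_lit 309882746224) (nat_lit 152) (nat_lit 365014726592) (nat_lit 0) (nat_lit 298637953760) (nat_lit 2) (nat_lit 5) (nat_lit 4) (nat_lit 4) (nat_lit 2) (nat_lit 4) (nat_lit 496) (nat_lit 399) (nat_lit 305)) (XT.lf (nat_lit 0) (nat_lit 379333359137) (nat_lit 152) (nat_lit 301718652000) (nat_lit 0) (nat_lit 368087965363) (nat_lit 2) (nat_lit 5) (nat_lit 4) (nat_lit 4) (nat_lit 2) (nat_lit 4) (nat_lit 497) (nat_lit 399) (nat_lit 304))) (XT.nd (nat_lit 78) (nat_lit 0) (nat_lit 0) (XT.lf (nat_lit 0) (nat_lit 454335338820) (nat_lit 152) (nat_lit 233368397459) (nat_lit 0) (nat_lit 443089388279) (nat_lit 2) (nat_lit 5) (nat_lit 4) (nat_lit 4) (nat_lit 2) (nat_lit 4) (nat_lit 498) (nat_lit 399) (nat_lit 303)) (XT.lf (nat_lit 0) (nat_lit 535333141451) (nat_lit 152) (nat_lit 159558924424)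 (nat_lit 0) (nat_lit 524086675384) (nat_lit 2) (nat_lit 5) (nat_lit 4) (nat_lit 4) (nat_lit 2) (nat_lit 4) (nat_lit 499) (nat_lit 399) (nat_lit 302)))))) (XT.nd (nat_lit 55146) (nat_lit 0) (nat_lit 9196) (XT.nd (nat_lit 54834) (nat_lit 0) (nat_lit 13756) (XT.nd (nat_lit 54678) (nat_lit 0) (nat_lit 14744) (XT.lf (nat_lit 0) (nat_lit 622806754008) (nat_lit 152) (nat_lit 79852843425) (nat_lit 0) (nat_lit 611559810601) (nat_lit 2) (nat_lit 5) (nat_lit 4) (nat_lit 4) (nat_lit 2) (nat_lit 4) (nat_lit 500) (nat_lit 399) (nat_lit 301)) (XT.nd (nat_lit 78) (nat_lit 76) (nat_lit 0) (XT.lf (nat_lit 0) (nat_lit 1073741823) (nat_lit 0) (nat_lit 0) (nat_lit 0) (nat_lit 0) (nat_lit 197) (nat_lit 0) (nat_lit 1) (nat_lit 0) (nat_lit 1) (nat_lit 0) (nat_lit 400) (nat_lit 400) (nat_lit 400)) (XT.lf (nat_lit 0) (nat_lit 4937012490) (nat_lit 76) (nat_lit 1306304836) (nat_lit 0) (nat_lit 207776279) (nat_lit 196)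 (nat_lit 5) (nat_lit 197) (nat_lit 0) (nat_lit 196) (nat_lit 4) (nat_lit 401) (nat_lit 400) (nat_lit 399)))) (XT.nd (nat_lit 156) (nat_lit 608) (nat_lit 0) (XT.nd (nat_lit 78) (nat_lit 228) (nat_lit 0) (XT.lf (nat_lit 0) (nat_lit 3253671170) (nat_lit 152) (nat_lit 2438132728) (nat_lit 76) (nat_lit 787510221) (nat_lit 194) (nat_lit 5) (nat_lit 196) (nat_lit 5) (nat_lit 195) (nat_lit 4) (nat_lit 402) (nat_lit 400) (nat_lit 398)) (XT.lf (nat_lit 0) (nat_lit 1383430395) (nat_lit 228) (nat_lit 3400448489) (nat_lit 76) (nat_lit 1743364473) (nat_lit 191) (nat_lit 5) (nat_lit 194) (nat_lit 5) (nat_lit 192) (nat_lit 5) (nat_lit 403) (nat_lit 400) (nat_lit 397))) (XT.nd (nat_lit 78) (nat_lit 380) (nat_lit 0) (XT.lf (nat_lit 0) (nat_lit 2386573693) (nat_lit 228) (nat_lit 3501288545) (nat_lit 304) (nat_lit 706690086) (nat_lit 188) (nat_lit 5) (nat_lit 191) (nat_lit 5) (nat_lit 192) (nat_lit 5) (nat_lit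 404) (nat_lit 400) (nat_lit 396)) (XT.lf (nat_lit 0) (nat_lit 1803018067) (nat_lit 304) (nat_lit 1819302945) (nat_lit 380) (nat_lit 3058503187) (nat_lit 183) (nat_lit 5) (nat_lit 187) (nat_lit 5) (nat_lit 188) (nat_lit 5) (nat_lit 405) (nat_lit 400) (nat_lit 395))))) (XT.nd (nat_lit 312) (nat_lit 2432) (nat_lit 0) (XT.nd (nat_lit 156) (nat_lit 1216) (nat_lit 0) (XT.nd (nat_lit 78) (nat_lit 456) (nat_lit 0) (XT.lf (nat_lit 0) (nat_lit 1151536414) (nat_lit 456) (nat_lit 5392921712) (nat_lit 76) (nat_lit 242920605) (nat_lit 177) (nat_lit 5) (nat_lit 183) (nat_lit 5) (nat_lit 178) (nat_lit 5) (nat_lit 406) (nat_lit 400) (nat_lit 394)) (XT.lf (nat_lit 0) (nat_lit 1103368519) (nat_lit 456) (nat_lit 4250215532) (nat_lit 532) (nat_lit 1558372116) (nat_lit 171) (nat_lit 5) (nat_lit 177) (nat_lit 5) (nat_lit 178) (nat_lit 5) (nat_lit 407) (nat_lit 400) (nat_lit 393))) (XT.nd (nat_lit 78) (nat_lit 608)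 (nat_lit 0) (XT.lf (nat_lit 0) (nat_lit 963065570) (nat_lit 532) (nat_lit 1545775873) (nat_lit 608) (nat_lit 4547815467) (nat_lit 163) (nat_lit 5) (nat_lit 170) (nat_lit 5) (nat_lit 171) (nat_lit 5) (nat_lit 408) (nat_lit 400) (nat_lit 392)) (XT.lf (nat_lit 0) (nat_lit 960439357) (nat_lit 608) (nat_lit 5693380841) (nat_lit 684) (nat_lit 567587711) (nat_lit 155) (nat_lit 5) (nat_lit 163) (nat_lit 5) (nat_lit 164) (nat_lit 5) (nat_lit 409) (nat_lit 400) (nat_lit 391)))) (XT.nd (nat_lit 156) (nat_lit 912) (nat_lit 0) (XT.nd (nat_lit 78) (nat_lit 760) (nat_lit 0) (XT.lf (nat_lit 0) (nat_lit 1055488276) (nat_lit 684) (nat_lit 2388553255) (nat_lit 760) (nat_lit 3960853750) (nat_lit 145) (nat_lit 5) (nat_lit 154) (nat_lit 5) (nat_lit 155) (nat_lit 5) (nat_lit 410) (nat_lit 400) (nat_lit 390)) (XT.lf (nat_lit 0) (nat_lit 1297891370) (nat_lit 760) (nat_lit 6310032092) (nat_lit 836) (nat_lit 2194895)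 (nat_lit 135) (nat_lit 5) (nat_lit 145) (nat_lit 5) (nat_lit 146) (nat_lit 5) (nat_lit 411) (nat_lit 400) (nat_lit 389))) (XT.nd (nat_lit 78) (nat_lit 456) (nat_lit 0) (XT.lf (nat_lit 0) (nat_lit 1606397530) (nat_lit 380) (nat_lit 2422160843) (nat_lit 456) (nat_lit 3805329249) (nat_lit 129) (nat_lit 5) (nat_lit 134) (nat_lit 5) (nat_lit 135) (nat_lit 5) (nat_lit 412) (nat_lit 400) (nat_lit 388)) (XT.lf (nat_lit 0) (nat_lit 197252155) (nat_lit 456) (nat_lit 6027846725) (nat_lit 76) (nat_lit 1855237190) (nat_lit 123) (nat_lit 5) (nat_lit 129) (nat_lit 5) (nat_lit 124) (nat_lit 5) (nat_lit 413) (nat_lit 400) (nat_lit 387))))))))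
noncomputable def xc46 : XT := (XT.nd (nat_lit 2184) (nat_lit 2280) (nat_lit 0) (XT.nd (nat_lit 1092) (nat_lit 2052) (nat_lit 0) (XT.nd (nat_lit 546) (nat_lit 1748) (nat_lit 0) (XT.nd (nat_lit 234) (nat_lit 1216) (nat_lit 0) (XT.nd (nat_lit 78) (nat_lit 684) (nat_lit 0) (XT.lf (nat_lit 0) (nat_lit 2561324107) (nat_lit 380) (nat_lit 1760562821) (nat_lit 456) (nat_lit 4024795280) (nat_lit 118) (nat_lit 5) (nat_lit 123) (nat_lit 5) (nat_lit 124) (nat_lit 5) (nat_lit 414) (nat_lit 400) (nat_lit 386)) (XT.nd (nat_lit 78) (nat_lit 304) (nat_lit 0) (XT.lf (nat_lit 0) (nat_lit 97702204) (nat_lit 380) (nat_lit 5450736638) (nat_lit 76) (nat_lit 3087833721) (nat_lit 113) (nat_lit 5) (nat_lit 118) (nat_lit 5) (nat_lit 114) (nat_lit 5) (nat_lit 415) (nat_lit 400) (nat_lit 385)) (XT.lf (nat_lit 0) (nat_lit 3877289093) (nat_lit 304) (nat_lit 492654940) (nat_lit 380) (nat_lit 4577787822) (nat_lit 109) (nat_lit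 5) (nat_lit 113) (nat_lit 5) (nat_lit 114) (nat_lit 5) (nat_lit 416) (nat_lit 400) (nat_lit 384)))) (XT.nd (nat_lit 156) (nat_lit 532) (nat_lit 0) (XT.nd (nat_lit 78) (nat_lit 380) (nat_lit 0) (XT.lf (nat_lit 0) (nat_lit 4654477686) (nat_lit 304) (nat_lit 4354891054) (nat_lit 380) (nat_lit 273513798) (nat_lit 105) (nat_lit 5) (nat_lit 109) (nat_lit 5) (nat_lit 110) (nat_lit 5) (nat_lit 417) (nat_lit 400) (nat_lit 383)) (XT.lf (nat_lit 0) (nat_lit 4227207068) (nat_lit 380) (nat_lit 4143785039) (nat_lit 76) (nat_lit 1270870540) (nat_lit 100) (nat_lit 5) (nat_lit 105) (nat_lit 5) (nat_lit 101) (nat_lit 5) (nat_lit 418) (nat_lit 400) (nat_lit 382))) (XT.nd (nat_lit 78) (nat_lit 304) (nat_lit 0) (XT.lf (nat_lit 0) (nat_lit 6426682447) (nat_lit 228) (nat_lit 2705559845) (nat_lit 304) (nat_lit 894439317) (nat_lit 97) (nat_lit 5) (nat_lit 100) (nat_lit 5) (nat_lit 101) (nat_lit 5) (nat_lit 419) (nat_lit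 400) (nat_lit 381)) (XT.lf (nat_lit 0) (nat_lit 3911550020) (nat_lit 304) (nat_lit 3036937205) (nat_lit 76) (nat_lit 3488129551) (nat_lit 93) (nat_lit 5) (nat_lit 97) (nat_lit 5) (nat_lit 94) (nat_lit 5) (nat_lit 420) (nat_lit 400) (nat_lit 380))))) (XT.nd (nat_lit 234) (nat_lit 1064) (nat_lit 0) (XT.nd (nat_lit 78) (nat_lit 456) (nat_lit 0) (XT.lf (nat_lit 0) (nat_lit 8476205449) (nat_lit 228) (nat_lit 651531439) (nat_lit 304) (nat_lit 1748053847) (nat_lit 90) (nat_lit 5) (nat_lit 93) (nat_lit 5) (nat_lit 94) (nat_lit 5) (nat_lit 421) (nat_lit 400) (nat_lit 379)) (XT.nd (nat_lit 78) (nat_lit 152) (nat_lit 0) (XT.lf (nat_lit 0) (nat_lit 3427401087) (nat_lit 304) (nat_lit 1777854639) (nat_lit 76) (nat_lit 6135933474) (nat_lit 86) (nat_lit 5) (nat_lit 90) (nat_lit 5) (nat_lit 87) (nat_lit 5) (nat_lit 422) (nat_lit 400) (nat_lit 378)) (XT.lf (nat_lit 0) (nat_lit 9035650457) (nat_lit 228) (nat_lit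 1091789259) (nat_lit 76) (nat_lit 1710971327) (nat_lit 84) (nat_lit 5) (nat_lit 87) (nat_lit 5) (nat_lit 85) (nat_lit 5) (nat_lit 423) (nat_lit 400) (nat_lit 377)))) (XT.nd (nat_lit 156) (nat_lit 380) (nat_lit 0) (XT.nd (nat_lit 78) (nat_lit 380) (nat_lit 0) (XT.lf (nat_lit 0) (nat_lit 2776614325) (nat_lit 304) (nat_lit 405374391) (nat_lit 76) (nat_lit 9184000774) (nat_lit 80) (nat_lit 5) (nat_lit 84) (nat_lit 5) (nat_lit 81) (nat_lit 5) (nat_lit 424) (nat_lit 400) (nat_lit 376)) (XT.lf (nat_lit 0) (nat_lit 303139035) (nat_lit 228) (nat_lit 8547599176) (nat_lit 304) (nat_lit 4075428878) (nat_lit 75) (nat_lit 5) (nat_lit 78) (nat_lit 5) (nat_lit 79) (nat_lit 5) (nat_lit 425) (nat_lit 400) (nat_lit 375))) (XT.nd (nat_lit 78) (nat_lit 152) (nat_lit 0) (XT.lf (nat_lit 0) (nat_lit 1068629388) (nat_lit 152) (nat_lit 898139043) (nat_lit 228) (nat_lit 11555575950) (nat_lit 72) (nat_lit 5) (nat_lit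 74) (nat_lit 5) (nat_lit 75) (nat_lit 5) (nat_lit 426) (nat_lit 400) (nat_lit 374)) (XT.lf (nat_lit 0) (nat_lit 1771624393) (nat_lit 152) (nat_lit 6795603671) (nat_lit 228) (nat_lit 5584780059) (nat_lit 70) (nat_lit 5) (nat_lit 72) (nat_lit 5) (nat_lit 73) (nat_lit 5) (nat_lit 427) (nat_lit 400) (nat_lit 373)))))) (XT.nd (nat_lit 546) (nat_lit 912) (nat_lit 0) (XT.nd (nat_lit 234) (nat_lit 608) (nat_lit 0) (XT.nd (nat_lit 78) (nat_lit 304) (nat_lit 0) (XT.lf (nat_lit 0) (nat_lit 991403693) (nat_lit 228) (nat_lit 12284347675) (nat_lit 76) (nat_lit 1547865353) (nat_lit 67) (nat_lit 5) (nat_lit 70) (nat_lit 5) (nat_lit 68) (nat_lit 5) (nat_lit 428) (nat_lit 400) (nat_lit 372)) (XT.nd (nat_lit 78) (nat_lit 152) (nat_lit 0) (XT.lf (nat_lit 0) (nat_lit 3208993425) (nat_lit 152) (nat_lit 4935895943) (nat_lit 228) (nat_lit 7387156696) (nat_lit 65) (nat_lit 5) (nat_lit 67) (nat_lit 5) (nat_lit 68) (nat_lit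 5) (nat_lit 429) (nat_lit 400) (nat_lit 371)) (XT.lf (nat_lit 0) (nat_lit 3919721921) (nat_lit 152) (nat_lit 12158871286) (nat_lit 228) (nat_lit 208171882) (nat_lit 63) (nat_lit 5) (nat_lit 65) (nat_lit 5) (nat_lit 66) (nat_lit 4) (nat_lit 430) (nat_lit 400) (nat_lit 370)))) (XT.nd (nat_lit 156) (nat_lit 304) (nat_lit 0) (XT.nd (nat_lit 78) (nat_lit 76) (nat_lit 0) (XT.lf (nat_lit 0) (nat_lit 4524216994) (nat_lit 152) (nat_lit 3021519457) (nat_lit 228) (nat_lit 9538141194) (nat_lit 60) (nat_lit 5) (nat_lit 62) (nat_lit 5) (nat_lit 63) (nat_lit 5) (nat_lit 431) (nat_lit 400) (nat_lit 369)) (XT.lf (nat_lit 0) (nat_lit 5102010542) (nat_lit 76) (nat_lit 11091097336) (nat_lit 152) (nat_lit 1737468550) (nat_lit 59) (nat_lit 5) (nat_lit 60) (nat_lit 5) (nat_lit 61) (nat_lit 4) (nat_lit 432) (nat_lit 400) (nat_lit 368))) (XT.nd (nat_lit 78) (nat_lit 76) (nat_lit 0) (XT.lf (nat_lit 0) (nat_lit 5595042418)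 (nat_lit 152) (nat_lit 1117682426) (nat_lit 228) (nat_lit 12115099735) (nat_lit 56) (nat_lit 5) (nat_lit 58) (nat_lit 5) (nat_lit 59) (nat_lit 5) (nat_lit 433) (nat_lit 400) (nat_lit 367)) (XT.lf (nat_lit 0) (nat_lit 5960974964) (nat_lit 76) (nat_lit 10171968616) (nat_lit 152) (nat_lit 3644748931) (nat_lit 55) (nat_lit 5) (nat_lit 56) (nat_lit 5) (nat_lit 57) (nat_lit 4) (nat_lit 434) (nat_lit 400) (nat_lit 366))))) (XT.nd (nat_lit 234) (nat_lit 380) (nat_lit 0) (XT.nd (nat_lit 78) (nat_lit 304) (nat_lit 0) (XT.lf (nat_lit 0) (nat_lit 5575537048) (nat_lit 228) (nat_lit 14541399827) (nat_lit 76) (nat_lit 669901949) (nat_lit 52) (nat_lit 5) (nat_lit 55) (nat_lit 5) (nat_lit 53) (nat_lit 4) (nat_lit 435) (nat_lit 400) (nat_lit 365)) (XT.nd (nat_lit 78) (nat_lit 228) (nat_lit 0) (XT.lf (nat_lit 0) (nat_lit 6305420941) (nat_lit 76) (nat_lit 9507371965) (nat_lit 152) (nat_lit 6040591071) (nat_lit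 51) (nat_lit 5) (nat_lit 52) (nat_lit 5) (nat_lit 53) (nat_lit 4) (nat_lit 436) (nat_lit 400) (nat_lit 364)) (XT.lf (nat_lit 0) (nat_lit 4025745041) (nat_lit 228) (nat_lit 16737718802) (nat_lit 76) (nat_lit 2224496908) (nat_lit 48) (nat_lit 5) (nat_lit 51) (nat_lit 5) (nat_lit 49) (nat_lit 4) (nat_lit 437) (nat_lit 400) (nat_lit 363)))) (XT.nd (nat_lit 156) (nat_lit 152) (nat_lit 0) (XT.nd (nat_lit 78) (nat_lit 152) (nat_lit 0) (XT.lf (nat_lit 0) (nat_lit 5878557034) (nat_lit 76) (nat_lit 9235101813) (nat_lit 152) (nat_lit 9073303797) (nat_lit 47) (nat_lit 5) (nat_lit 48) (nat_lit 5) (nat_lit 49) (nat_lit 4) (nat_lit 438) (nat_lit 400) (nat_lit 362)) (XT.lf (nat_lit 0) (nat_lit 1892144171) (nat_lit 152) (nat_lit 20130581130) (nat_lit 76) (nat_lit 3441067527) (nat_lit 45) (nat_lit 5) (nat_lit 47) (nat_lit 5) (nat_lit 46) (nat_lit 4) (nat_lit 439) (nat_lit 400) (nat_lit 361))) (XT.nd (nat_lit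 78) (nat_lit 76) (nat_lit 0) (XT.lf (nat_lit 0) (nat_lit 4336887636) (nat_lit 76) (nat_lit 9535992326) (nat_lit 152) (nat_lit 12939659976) (nat_lit 44) (nat_lit 5) (nat_lit 45) (nat_lit 5) (nat_lit 46) (nat_lit 4) (nat_lit 440) (nat_lit 400) (nat_lit 360)) (XT.lf (nat_lit 0) (nat_lit 3083707407) (nat_lit 76) (nat_lit 24101816988) (nat_lit 76) (nat_lit 1064994065) (nat_lit 43) (nat_lit 4) (nat_lit 44) (nat_lit 5) (nat_lit 44) (nat_lit 4) (nat_lit 441) (nat_lit 400) (nat_lit 359))))))) (XT.nd (nat_lit 1092) (nat_lit 912) (nat_lit 0) (XT.nd (nat_lit 546) (nat_lit 684) (nat_lit 0) (XT.nd (nat_lit 234) (nat_lit 380) (nat_lit 0) (XT.nd (nat_lit 78) (nat_lit 152) (nat_lit 0) (XT.lf (nat_lit 0) (nat_lit 1222942458) (nat_lit 76) (nat_lit 10648147026) (nat_lit 152) (nat_lit 17898878052) (nat_lit 41) (nat_lit 5) (nat_lit 42) (nat_lit 5) (nat_lit 43) (nat_lit 4) (nat_lit 442) (nat_lit 400) (nat_lit 358))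 (XT.nd (nat_lit 78) (nat_lit 152) (nat_lit 0) (XT.lf (nat_lit 0) (nat_lit 26224312135) (nat_lit 152) (nat_lit 1019673594) (nat_lit 0) (nat_lit 4145139007) (nat_lit 41) (nat_lit 5) (nat_lit 43) (nat_lit 4) (nat_lit 41) (nat_lit 4) (nat_lit 443) (nat_lit 400) (nat_lit 357)) (XT.lf (nat_lit 0) (nat_lit 8878779371) (nat_lit 152) (nat_lit 3939704339) (nat_lit 76) (nat_lit 20284346146) (nat_lit 39) (nat_lit 5) (nat_lit 41) (nat_lit 5) (nat_lit 40) (nat_lit 4) (nat_lit 444) (nat_lit 400) (nat_lit 356)))) (XT.nd (nat_lit 156) (nat_lit 152) (nat_lit 0) (XT.nd (nat_lit 78) (nat_lit 152) (nat_lit 0) (XT.lf (nat_lit 0) (nat_lit 24286972785) (nat_lit 152) (nat_lit 7495910242) (nat_lit 0) (nat_lit 3145414462) (nat_lit 38) (nat_lit 5) (nat_lit 40) (nat_lit 4) (nat_lit 38) (nat_lit 4) (nat_lit 445) (nat_lit 400) (nat_lit 355)) (XT.lf (nat_lit 0) (nat_lit 4509250370) (nat_lit 152) (nat_lit 11948242495) (nat_lit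 76) (nat_lit 20408660016) (nat_lit 36) (nat_lit 5) (nat_lit 38) (nat_lit 5) (nat_lit 37) (nat_lit 4) (nat_lit 446) (nat_lit 400) (nat_lit 354))) (XT.nd (nat_lit 78) (nat_lit 76) (nat_lit 0) (XT.lf (nat_lit 0) (nat_lit 20911544409) (nat_lit 152) (nat_lit 17334318820) (nat_lit 0) (nat_lit 683828670) (nat_lit 35) (nat_lit 5) (nat_lit 37) (nat_lit 4) (nat_lit 35) (nat_lit 4) (nat_lit 447) (nat_lit 400) (nat_lit 353)) (XT.lf (nat_lit 0) (nat_lit 17232576984) (nat_lit 76) (nat_lit 22080234839) (nat_lit 76) (nat_lit 1811164806) (nat_lit 34) (nat_lit 4) (nat_lit 35) (nat_lit 5) (nat_lit 35) (nat_lit 4) (nat_lit 448) (nat_lit 400) (nat_lit 352))))) (XT.nd (nat_lit 234) (nat_lit 380) (nat_lit 0) (XT.nd (nat_lit 78) (nat_lit 152) (nat_lit 0) (XT.lf (nat_lit 0) (nat_lit 11693914152) (nat_lit 76) (nat_lit 3916463993) (nat_lit 152) (nat_lit 27850164946) (nat_lit 32) (nat_lit 5) (nat_lit 33) (nat_lit 5) (nat_lit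 34) (nat_lit 4) (nat_lit 449) (nat_lit 400) (nat_lit 351)) (XT.nd (nat_lit 78) (nat_lit 76) (nat_lit 0) (XT.lf (nat_lit 0) (nat_lit 4753680309) (nat_lit 76) (nat_lit 30284588962) (nat_lit 76) (nat_lit 10910478782) (nat_lit 31) (nat_lit 4) (nat_lit 32) (nat_lit 5) (nat_lit 32) (nat_lit 4) (nat_lit 450) (nat_lit 400) (nat_lit 350)) (XT.lf (nat_lit 0) (nat_lit 7711338019) (nat_lit 152) (nat_lit 3597132357) (nat_lit 76) (nat_lit 37293610886) (nat_lit 30) (nat_lit 5) (nat_lit 32) (nat_lit 5) (nat_lit 31) (nat_lit 4) (nat_lit 451) (nat_lit 400) (nat_lit 349)))) (XT.nd (nat_lit 156) (nat_lit 228) (nat_lit 0) (XT.nd (nat_lit 78) (nat_lit 76) (nat_lit 0) (XT.lf (nat_lit 0) (nat_lit 28132676552) (nat_lit 152) (nat_lit 13667665531) (nat_lit 0) (nat_lit 9623796096) (nat_lit 29) (nat_lit 5) (nat_lit 31) (nat_lit 4) (nat_lit 29) (nat_lit 4) (nat_lit 452) (nat_lit 400) (nat_lit 348)) (XT.lf (nat_lit 0) (nat_lit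 28688791168) (nat_lit 76) (nat_lit 22142695197) (nat_lit 76) (nat_lit 3608286362) (nat_lit 28) (nat_lit 4) (nat_lit 29) (nat_lit 5) (nat_lit 29) (nat_lit 4) (nat_lit 453) (nat_lit 400) (nat_lit 347))) (XT.nd (nat_lit 78) (nat_lit 76) (nat_lit 0) (XT.lf (nat_lit 0) (nat_lit 17402026230) (nat_lit 76) (nat_lit 139472527) (nat_lit 152) (nat_lit 40118539903) (nat_lit 26) (nat_lit 5) (nat_lit 27) (nat_lit 5) (nat_lit 28) (nat_lit 4) (nat_lit 454) (nat_lit 400) (nat_lit 346)) (XT.lf (nat_lit 0) (nat_lit 3372696129) (nat_lit 76) (nat_lit 37708124322) (nat_lit 76) (nat_lit 20012950327) (nat_lit 25) (nat_lit 4) (nat_lit 26) (nat_lit 5) (nat_lit 26) (nat_lit 4) (nat_lit 455) (nat_lit 400) (nat_lit 345)))))) (XT.nd (nat_lit 546) (nat_lit 380) (nat_lit 0) (XT.nd (nat_lit 234) (nat_lit 304) (nat_lit 0) (XT.nd (nat_lit 78) (nat_lit 152) (nat_lit 0) (XT.lf (nat_lit 0) (nat_lit 2308208003) (nat_lit 152) (nat_lit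 12982647825) (nat_lit 76) (nat_lit 49476940279) (nat_lit 24) (nat_lit 5) (nat_lit 26) (nat_lit 5) (nat_lit 25) (nat_lit 4) (nat_lit 456) (nat_lit 400) (nat_lit 344)) (XT.nd (nat_lit 78) (nat_lit 76) (nat_lit 0) (XT.lf (nat_lit 0) (nat_lit 26389832400) (nat_lit 152) (nat_lit 32793826429) (nat_lit 0) (nat_lit 9501884948) (nat_lit 23) (nat_lit 5) (nat_lit 25) (nat_lit 4) (nat_lit 23) (nat_lit 4) (nat_lit 457) (nat_lit 400) (nat_lit 343)) (XT.lf (nat_lit 0) (nat_lit 16401630132) (nat_lit 76) (nat_lit 36692002977) (nat_lit 76) (nat_lit 19788296626) (nat_lit 22) (nat_lit 4) (nat_lit 23) (nat_lit 5) (nat_lit 23) (nat_lit 4) (nat_lit 458) (nat_lit 400) (nat_lit 342)))) (XT.nd (nat_lit 156) (nat_lit 152) (nat_lit 0) (XT.nd (nat_lit 78) (nat_lit 76) (nat_lit 0) (XT.lf (nat_lit 0) (nat_lit 4908922477) (nat_lit 152) (nat_lit 6855006845) (nat_lit 76) (nat_lit 65619876174) (nat_lit 21) (nat_lit 5) (nat_lit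 23) (nat_lit 5) (nat_lit 22) (nat_lit 4) (nat_lit 459) (nat_lit 400) (nat_lit 341)) (XT.lf (nat_lit 0) (nat_lit 31855430135) (nat_lit 152) (nat_lit 34595943989) (nat_lit 0) (nat_lit 15729898097) (nat_lit 20) (nat_lit 5) (nat_lit 22) (nat_lit 4) (nat_lit 20) (nat_lit 4) (nat_lit 460) (nat_lit 400) (nat_lit 340))) (XT.nd (nat_lit 78) (nat_lit 76) (nat_lit 0) (XT.lf (nat_lit 0) (nat_lit 19612374062) (nat_lit 76) (nat_lit 41929206483) (nat_lit 76) (nat_lit 25791760234) (nat_lit 19) (nat_lit 4) (nat_lit 20) (nat_lit 5) (nat_lit 20) (nat_lit 4) (nat_lit 461) (nat_lit 400) (nat_lit 339)) (XT.lf (nat_lit 0) (nat_lit 1254186428) (nat_lit 152) (nat_lit 13577395747) (nat_lit 76) (nat_lit 78036857576) (nat_lit 18) (nat_lit 5) (nat_lit 20) (nat_lit 5) (nat_lit 19) (nat_lit 4) (nat_lit 462) (nat_lit 400) (nat_lit 338))))) (XT.nd (nat_lit 234) (nat_lit 228) (nat_lit 0) (XT.nd (nat_lit 78) (nat_lit 76) (nat_lit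 0) (XT.lf (nat_lit 0) (nat_lit 30494025723) (nat_lit 152) (nat_lit 53179694070) (nat_lit 0) (nat_lit 15104794825) (nat_lit 17) (nat_lit 5) (nat_lit 19) (nat_lit 4) (nat_lit 17) (nat_lit 4) (nat_lit 463) (nat_lit 400) (nat_lit 337)) (XT.nd (nat_lit 78) (nat_lit 0) (nat_lit 0) (XT.lf (nat_lit 0) (nat_lit 4666069502) (nat_lit 76) (nat_lit 57933616568) (nat_lit 76) (nat_lit 42535378161) (nat_lit 16) (nat_lit 4) (nat_lit 17) (nat_lit 5) (nat_lit 17) (nat_lit 4) (nat_lit 464) (nat_lit 400) (nat_lit 336)) (XT.lf (nat_lit 0) (nat_lit 68968009901) (nat_lit 76) (nat_lit 29197071460) (nat_lit 76) (nat_lit 13790492766) (nat_lit 16) (nat_lit 4) (nat_lit 17) (nat_lit 5) (nat_lit 17) (nat_lit 4) (nat_lit 465) (nat_lit 400) (nat_lit 335)))) (XT.nd (nat_lit 156) (nat_lit 76) (nat_lit 0) (XT.nd (nat_lit 78) (nat_lit 0) (nat_lit 0) (XT.lf (nat_lit 0) (nat_lit 17008822768) (nat_lit 152) (nat_lit 99955543612) (nat_lit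 0) (nat_lit 2328535928) (nat_lit 14) (nat_lit 5) (nat_lit 16) (nat_lit 4) (nat_lit 14) (nat_lit 4) (nat_lit 466) (nat_lit 400) (nat_lit 334)) (XT.lf (nat_lit 0) (nat_lit 51016744800) (nat_lit 152) (nat_lit 39798129950) (nat_lit 0) (nat_lit 36329648006) (nat_lit 14) (nat_lit 5) (nat_lit 16) (nat_lit 4) (nat_lit 14) (nat_lit 4) (nat_lit 467) (nat_lit 400) (nat_lit 333))) (XT.nd (nat_lit 78) (nat_lit 0) (nat_lit 0) (XT.lf (nat_lit 0) (nat_lit 25942402196) (nat_lit 76) (nat_lit 62178252775) (nat_lit 76) (nat_lit 47484850469) (nat_lit 13) (nat_lit 4) (nat_lit 14) (nat_lit 5) (nat_lit 14) (nat_lit 4) (nat_lit 468) (nat_lit 400) (nat_lit 332)) (XT.lf (nat_lit 0) (nat_lit 98306160357) (nat_lit 76) (nat_lit 30551601609) (nat_lit 76) (nat_lit 15852360865) (nat_lit 13) (nat_lit 4) (nat_lit 14) (nat_lit 5) (nat_lit 14) (nat_lit 4) (nat_lit 469) (nat_lit 400) (nat_lit 331))))))))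
noncomputable def xc47 : XT := (XT.nd (nat_lit 2184) (nat_lit 0) (nat_lit 0) (XT.nd (nat_lit 1092) (nat_lit 228) (nat_lit 0) (XT.nd (nat_lit 546) (nat_lit 228) (nat_lit 0) (XT.nd (nat_lit 234) (nat_lit 152) (nat_lit 0) (XT.nd (nat_lit 78) (nat_lit 76) (nat_lit 0) (XT.lf (nat_lit 0) (nat_lit 18112225170) (nat_lit 152) (nat_lit 132289413131) (nat_lit 0) (nat_lit 4107799737) (nat_lit 11) (nat_lit 5) (nat_lit 13) (nat_lit 4) (nat_lit 11) (nat_lit 4) (nat_lit 470) (nat_lit 400) (nat_lit 330)) (XT.nd (nat_lit 78) (nat_lit 76) (nat_lit 0) (XT.lf (nat_lit 0) (nat_lit 55556813217) (nat_lit 152) (nat_lit 67909359893) (nat_lit 0) (nat_lit 41547620622) (nat_lit 11) (nat_lit 5) (nat_lit 13) (nat_lit 4) (nat_lit 11) (nat_lit 4) (nat_lit 471) (nat_lit 400) (nat_lit 329)) (XT.lf (nat_lit 0) (nat_lit 1624601709) (nat_lit 76) (nat_lit 94373717736) (nat_lit 76) (nat_lit 80360111103) (nat_lit 10) (nat_lit 4) (nat_lit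 11) (nat_lit 5) (nat_lit 11) (nat_lit 4) (nat_lit 472) (nat_lit 400) (nat_lit 328)))) (XT.nd (nat_lit 156) (nat_lit 152) (nat_lit 0) (XT.nd (nat_lit 78) (nat_lit 0) (nat_lit 0) (XT.lf (nat_lit 0) (nat_lit 79099915741) (nat_lit 76) (nat_lit 61735208781) (nat_lit 76) (nat_lit 47717515075) (nat_lit 10) (nat_lit 4) (nat_lit 11) (nat_lit 5) (nat_lit 11) (nat_lit 4) (nat_lit 473) (nat_lit 400) (nat_lit 327)) (XT.lf (nat_lit 0) (nat_lit 162730305047) (nat_lit 76) (nat_lit 26507310728) (nat_lit 76) (nat_lit 12485832696) (nat_lit 10) (nat_lit 4) (nat_lit 11) (nat_lit 5) (nat_lit 11) (nat_lit 4) (nat_lit 474) (nat_lit 400) (nat_lit 326))) (XT.nd (nat_lit 78) (nat_lit 0) (nat_lit 0) (XT.lf (nat_lit 0) (nat_lit 25513578809) (nat_lit 152) (nat_lit 178219563048) (nat_lit 0) (nat_lit 12156453058) (nat_lit 8) (nat_lit 5) (nat_lit 10) (nat_lit 4) (nat_lit 8) (nat_lit 4) (nat_lit 475) (nat_lit 400) (nat_lit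 325)) (XT.lf (nat_lit 0) (nat_lit 67239247347) (nat_lit 152) (nat_lit 110004332606) (nat_lit 0) (nat_lit 53879031645) (nat_lit 8) (nat_lit 5) (nat_lit 10) (nat_lit 4) (nat_lit 8) (nat_lit 4) (nat_lit 476) (nat_lit 400) (nat_lit 324))))) (XT.nd (nat_lit 234) (nat_lit 152) (nat_lit 0) (XT.nd (nat_lit 78) (nat_lit 76) (nat_lit 0) (XT.lf (nat_lit 0) (nat_lit 112284975494) (nat_lit 152) (nat_lit 36368295235) (nat_lit 0) (nat_lit 98921898725) (nat_lit 8) (nat_lit 5) (nat_lit 10) (nat_lit 4) (nat_lit 8) (nat_lit 4) (nat_lit 477) (nat_lit 400) (nat_lit 323)) (XT.nd (nat_lit 78) (nat_lit 0) (nat_lit 0) (XT.lf (nat_lit 0) (nat_lit 44550815077) (nat_lit 76) (nat_lit 117062448898) (nat_lit 76) (nat_lit 103696722992) (nat_lit 7) (nat_lit 4) (nat_lit 8) (nat_lit 5) (nat_lit 8) (nat_lit 4) (nat_lit 478) (nat_lit 400) (nat_lit 322)) (XT.lf (nat_lit 0) (nat_lit 133209905133) (nat_lit 76) (nat_lit 82295492293)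 (nat_lit 76) (nat_lit 68927313484) (nat_lit 7) (nat_lit 4) (nat_lit 8) (nat_lit 5) (nat_lit 8) (nat_lit 4) (nat_lit 479) (nat_lit 400) (nat_lit 321)))) (XT.nd (nat_lit 156) (nat_lit 0) (nat_lit 0) (XT.nd (nat_lit 78) (nat_lit 152) (nat_lit 0) (XT.lf (nat_lit 0) (nat_lit 228931862050) (nat_lit 76) (nat_lit 44762289183) (nat_lit 76) (nat_lit 31391839166) (nat_lit 7) (nat_lit 4) (nat_lit 8) (nat_lit 5) (nat_lit 8) (nat_lit 4) (nat_lit 480) (nat_lit 400) (nat_lit 320)) (XT.lf (nat_lit 0) (nat_lit 4906161439) (nat_lit 76) (nat_lit 4010284621) (nat_lit 152) (nat_lit 318464810323) (nat_lit 5) (nat_lit 5) (nat_lit 6) (nat_lit 5) (nat_lit 7) (nat_lit 4) (nat_lit 481) (nat_lit 400) (nat_lit 319))) (XT.nd (nat_lit 78) (nat_lit 0) (nat_lit 0) (XT.lf (nat_lit 0) (nat_lit 53323638742) (nat_lit 152) (nat_lit 257426051371) (nat_lit 0) (nat_lit 40586019523) (nat_lit 5) (nat_lit 5) (nat_lit 7) (nat_lit 4) (nat_lit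 5) (nat_lit 4) (nat_lit 482) (nat_lit 400) (nat_lit 318)) (XT.lf (nat_lit 0) (nat_lit 101338540774) (nat_lit 152) (nat_lit 187266017311) (nat_lit 0) (nat_lit 88599204453) (nat_lit 5) (nat_lit 5) (nat_lit 7) (nat_lit 4) (nat_lit 5) (nat_lit 4) (nat_lit 483) (nat_lit 400) (nat_lit 317)))))) (XT.nd (nat_lit 546) (nat_lit 152) (nat_lit 0) (XT.nd (nat_lit 234) (nat_lit 0) (nat_lit 0) (XT.nd (nat_lit 78) (nat_lit 76) (nat_lit 0) (XT.lf (nat_lit 0) (nat_lit 153183073129) (nat_lit 152) (nat_lit 111516617819) (nat_lit 0) (nat_lit 140442146897) (nat_lit 5) (nat_lit 5) (nat_lit 7) (nat_lit 4) (nat_lit 5) (nat_lit 4) (nat_lit 484) (nat_lit 400) (nat_lit 316)) (XT.nd (nat_lit 78) (nat_lit 76) (nat_lit 0) (XT.lf (nat_lit 0) (nat_lit 209164462663) (nat_lit 152) (nat_lit 29728967564) (nat_lit 0) (nat_lit 196422064293) (nat_lit 5) (nat_lit 5) (nat_lit 7) (nat_lit 4) (nat_lit 5) (nat_lit 4) (nat_lit 485) (nat_lit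 400) (nat_lit 315)) (XT.lf (nat_lit 0) (nat_lit 60518573301) (nat_lit 76) (nat_lit 210040742176) (nat_lit 76) (nat_lit 197296980715) (nat_lit 4) (nat_lit 4) (nat_lit 5) (nat_lit 5) (nat_lit 5) (nat_lit 4) (nat_lit 486) (nat_lit 400) (nat_lit 314)))) (XT.nd (nat_lit 156) (nat_lit 0) (nat_lit 0) (XT.nd (nat_lit 78) (nat_lit 0) (nat_lit 0) (XT.lf (nat_lit 0) (nat_lit 159028308825) (nat_lit 76) (nat_lit 178345828880) (nat_lit 76) (nat_lit 165600805298) (nat_lit 4) (nat_lit 4) (nat_lit 5) (nat_lit 5) (nat_lit 5) (nat_lit 4) (nat_lit 487) (nat_lit 400) (nat_lit 313)) (XT.lf (nat_lit 0) (nat_lit 265401026475) (nat_lit 76) (nat_lit 144124343082) (nat_lit 76) (nat_lit 131378150868) (nat_lit 4) (nat_lit 4) (nat_lit 5) (nat_lit 5) (nat_lit 5) (nat_lit 4) (nat_lit 488) (nat_lit 400) (nat_lit 312))) (XT.nd (nat_lit 78) (nat_lit 0) (nat_lit 0) (XT.lf (nat_lit 0) (nat_lit 380267083097) (nat_lit 76) (nat_lit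 107173490790) (nat_lit 76) (nat_lit 94426216511) (nat_lit 4) (nat_lit 4) (nat_lit 5) (nat_lit 5) (nat_lit 5) (nat_lit 4) (nat_lit 489) (nat_lit 400) (nat_lit 311)) (XT.lf (nat_lit 0) (nat_lit 504307166433) (nat_lit 76) (nat_lit 67274303993) (nat_lit 76) (nat_lit 54526027801) (nat_lit 4) (nat_lit 4) (nat_lit 5) (nat_lit 5) (nat_lit 5) (nat_lit 4) (nat_lit 490) (nat_lit 400) (nat_lit 310))))) (XT.nd (nat_lit 234) (nat_lit 0) (nat_lit 0) (XT.nd (nat_lit 78) (nat_lit 152) (nat_lit 0) (XT.lf (nat_lit 0) (nat_lit 638256328829) (nat_lit 76) (nat_lit 24190343064) (nat_lit 76) (nat_lit 11441139175) (nat_lit 4) (nat_lit 4) (nat_lit 5) (nat_lit 5) (nat_lit 5) (nat_lit 4) (nat_lit 491) (nat_lit 400) (nat_lit 309)) (XT.nd (nat_lit 78) (nat_lit 0) (nat_lit 0) (XT.lf (nat_lit 0) (nat_lit 35250829312) (nat_lit 152) (nat_lit 667040244027) (nat_lit 0) (nat_lit 23107912295) (nat_lit 2) (nat_lit 5) (nat_lit 4)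 (nat_lit 4) (nat_lit 2) (nat_lit 4) (nat_lit 492) (nat_lit 400) (nat_lit 308)) (XT.lf (nat_lit 0) (nat_lit 86315048021) (nat_lit 152) (nat_lit 620483367946) (nat_lit 0) (nat_lit 74171373527) (nat_lit 2) (nat_lit 5) (nat_lit 4) (nat_lit 4) (nat_lit 2) (nat_lit 4) (nat_lit 493) (nat_lit 400) (nat_lit 307)))) (XT.nd (nat_lit 156) (nat_lit 0) (nat_lit 0) (XT.nd (nat_lit 78) (nat_lit 0) (nat_lit 0) (XT.lf (nat_lit 0) (nat_lit 141458505925) (nat_lit 152) (nat_lit 570213916624) (nat_lit 0) (nat_lit 129314130064) (nat_lit 2) (nat_lit 5) (nat_lit 4) (nat_lit 4) (nat_lit 2) (nat_lit 4) (nat_lit 494) (nat_lit 400) (nat_lit 306)) (XT.lf (nat_lit 0) (nat_lit 201007979071) (nat_lit 152) (nat_lit 515933997016) (nat_lit 0) (nat_lit 188862953795) (nat_lit 2) (nat_lit 5) (nat_lit 4) (nat_lit 4) (nat_lit 2) (nat_lit 4) (nat_lit 495) (nat_lit 400) (nat_lit 305))) (XT.nd (nat_lit 78) (nat_lit 0) (nat_lit 0) (XT.lf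 (nat_lit 0) (nat_lit 265316353226) (nat_lit 152) (nat_lit 457321950340) (nat_lit 0) (nat_lit 253170726641) (nat_lit 2) (nat_lit 5) (nat_lit 4) (nat_lit 4) (nat_lit 2) (nat_lit 4) (nat_lit 496) (nat_lit 400) (nat_lit 304)) (XT.lf (nat_lit 0) (nat_lit 334764715051) (nat_lit 152) (nat_lit 394030445949) (nat_lit 0) (nat_lit 322618531698) (nat_lit 2) (nat_lit 5) (nat_lit 4) (nat_lit 4) (nat_lit 2) (nat_lit 4) (nat_lit 497) (nat_lit 400) (nat_lit 303))))))) (XT.nd (nat_lit 55770) (nat_lit 0) (nat_lit 5548) (XT.nd (nat_lit 55224) (nat_lit 0) (nat_lit 10792) (XT.nd (nat_lit 54912) (nat_lit 0) (nat_lit 13984) (XT.nd (nat_lit 78) (nat_lit 0) (nat_lit 0) (XT.lf (nat_lit 0) (nat_lit 409764610395) (nat_lit 152) (nat_lit 325684423076) (nat_lit 0) (nat_lit 397617911516) (nat_lit 2) (nat_lit 5) (nat_lit 4) (nat_lit 4) (nat_lit 2) (nat_lit 4) (nat_lit 498) (nat_lit 400) (nat_lit 302)) (XT.nd (nat_lit 78) (nat_lit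 0) (nat_lit 0) (XT.lf (nat_lit 0) (nat_lit 490760483081) (nat_lit 152) (nat_lit 251878868252) (nat_lit 0) (nat_lit 478613306863) (nat_lit 2) (nat_lit 5) (nat_lit 4) (nat_lit 4) (nat_lit 2) (nat_lit 4) (nat_lit 499) (nat_lit 400) (nat_lit 301)) (XT.lf (nat_lit 0) (nat_lit 578232308651) (nat_lit 152) (nat_lit 172176415227) (nat_lit 0) (nat_lit 566084690453) (nat_lit 2) (nat_lit 5) (nat_lit 4) (nat_lit 4) (nat_lit 2) (nat_lit 4) (nat_lit 500) (nat_lit 400) (nat_lit 300)))) (XT.nd (nat_lit 156) (nat_lit 304) (nat_lit 0) (XT.nd (nat_lit 78) (nat_lit 228) (nat_lit 0) (XT.lf (nat_lit 0) (nat_lit 1528447748) (nat_lit 228) (nat_lit 853170543) (nat_lit 228) (nat_lit 853170543) (nat_lit 193) (nat_lit 3) (nat_lit 196) (nat_lit 3) (nat_lit 196) (nat_lit 5) (nat_lit 401) (nat_lit 401) (nat_lit 398)) (XT.lf (nat_lit 0) (nat_lit 993062827) (nat_lit 228) (nat_lit 3032713082) (nat_lit 304) (nat_lit 2482208221)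 (nat_lit 190) (nat_lit 5) (nat_lit 193) (nat_lit 3) (nat_lit 194) (nat_lit 5) (nat_lit 402) (nat_lit 401) (nat_lit 397))) (XT.nd (nat_lit 78) (nat_lit 304) (nat_lit 0) (XT.lf (nat_lit 76) (nat_lit 2353426984) (nat_lit 0) (nat_lit 2905589971) (nat_lit 304) (nat_lit 1306454738) (nat_lit 191) (nat_lit 5) (nat_lit 190) (nat_lit 5) (nat_lit 194) (nat_lit 5) (nat_lit 403) (nat_lit 401) (nat_lit 396)) (XT.lf (nat_lit 76) (nat_lit 1395618807) (nat_lit 0) (nat_lit 1395721204) (nat_lit 380) (nat_lit 3851025805) (nat_lit 187) (nat_lit 5) (nat_lit 186) (nat_lit 5) (nat_lit 191) (nat_lit 5) (nat_lit 404) (nat_lit 401) (nat_lit 395))))) (XT.nd (nat_lit 234) (nat_lit 2432) (nat_lit 0) (XT.nd (nat_lit 78) (nat_lit 456) (nat_lit 0) (XT.lf (nat_lit 0) (nat_lit 126341943) (nat_lit 380) (nat_lit 6130995662) (nat_lit 76) (nat_lit 482097667) (nat_lit 182) (nat_lit 5) (nat_lit 187) (nat_lit 5) (nat_lit 183) (nat_lit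 5) (nat_lit 405) (nat_lit 401) (nat_lit 394)) (XT.nd (nat_lit 78) (nat_lit 456) (nat_lit 0) (XT.lf (nat_lit 0) (nat_lit 4034521225) (nat_lit 380) (nat_lit 73860744) (nat_lit 76) (nat_lit 2745478078) (nat_lit 182) (nat_lit 5) (nat_lit 187) (nat_lit 5) (nat_lit 183) (nat_lit 5) (nat_lit 406) (nat_lit 401) (nat_lit 393)) (XT.lf (nat_lit 0) (nat_lit 990076753) (nat_lit 456) (nat_lit 576100888) (nat_lit 76) (nat_lit 5422719384) (nat_lit 176) (nat_lit 5) (nat_lit 182) (nat_lit 5) (nat_lit 177) (nat_lit 5) (nat_lit 407) (nat_lit 401) (nat_lit 392)))) (XT.nd (nat_lit 156) (nat_lit 1368) (nat_lit 0) (XT.nd (nat_lit 78) (nat_lit 608) (nat_lit 0) (XT.lf (nat_lit 0) (nat_lit 4800046588) (nat_lit 532) (nat_lit 973364178) (nat_lit 76) (nat_lit 1369387262) (nat_lit 170) (nat_lit 5) (nat_lit 177) (nat_lit 5) (nat_lit 171) (nat_lit 5) (nat_lit 408) (nat_lit 401) (nat_lit 391)) (XT.lf (nat_lit 0) (nat_lit 1377946888)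 (nat_lit 608) (nat_lit 1255447084) (nat_lit 76) (nat_lit 4683275526) (nat_lit 162) (nat_lit 5) (nat_lit 170) (nat_lit 5) (nat_lit 163) (nat_lit 5) (nat_lit 409) (nat_lit 401) (nat_lit 390))) (XT.nd (nat_lit 78) (nat_lit 760) (nat_lit 0) (XT.lf (nat_lit 0) (nat_lit 5151661780) (nat_lit 684) (nat_lit 1430522463) (nat_lit 76) (nat_lit 928556534) (nat_lit 154) (nat_lit 5) (nat_lit 163) (nat_lit 5) (nat_lit 155) (nat_lit 5) (nat_lit 410) (nat_lit 401) (nat_lit 389)) (XT.lf (nat_lit 0) (nat_lit 1348094240) (nat_lit 760) (nat_lit 1517191702) (nat_lit 76) (nat_lit 4859478577) (nat_lit 144) (nat_lit 5) (nat_lit 154) (nat_lit 5) (nat_lit 145) (nat_lit 5) (nat_lit 411) (nat_lit 401) (nat_lit 388)))))) (XT.nd (nat_lit 546) (nat_lit 1900) (nat_lit 0) (XT.nd (nat_lit 234) (nat_lit 1748) (nat_lit 0) (XT.nd (nat_lit 78) (nat_lit 836) (nat_lit 0) (XT.lf (nat_lit 0) (nat_lit 5156952081) (nat_lit 836) (nat_lit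 1511772350) (nat_lit 76) (nat_lit 1290931222) (nat_lit 134) (nat_lit 5) (nat_lit 145) (nat_lit 5) (nat_lit 135) (nat_lit 5) (nat_lit 412) (nat_lit 401) (nat_lit 387)) (XT.nd (nat_lit 78) (nat_lit 380) (nat_lit 0) (XT.lf (nat_lit 0) (nat_lit 958882180) (nat_lit 456) (nat_lit 1422295235) (nat_lit 76) (nat_lit 5834617768) (nat_lit 128) (nat_lit 5) (nat_lit 134) (nat_lit 5) (nat_lit 129) (nat_lit 5) (nat_lit 413) (nat_lit 401) (nat_lit 386)) (XT.lf (nat_lit 0) (nat_lit 4868315675) (nat_lit 456) (nat_lit 1270633424) (nat_lit 76) (nat_lit 2353978679) (nat_lit 123) (nat_lit 5) (nat_lit 129) (nat_lit 5) (nat_lit 124) (nat_lit 5) (nat_lit 414) (nat_lit 401) (nat_lit 385)))) (XT.nd (nat_lit 156) (nat_lit 988) (nat_lit 0) (XT.nd (nat_lit 78) (nat_lit 304) (nat_lit 0) (XT.lf (nat_lit 0) (nat_lit 253945793) (nat_lit 456) (nat_lit 1020114912) (nat_lit 76) (nat_lit 7519724864) (nat_lit 117) (nat_lit 5) (nat_lit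 123) (nat_lit 5) (nat_lit 118) (nat_lit 5) (nat_lit 415) (nat_lit 401) (nat_lit 384)) (XT.lf (nat_lit 0) (nat_lit 4325056684) (nat_lit 380) (nat_lit 750924736) (nat_lit 76) (nat_lit 4039341539) (nat_lit 113) (nat_lit 5) (nat_lit 118) (nat_lit 5) (nat_lit 114) (nat_lit 5) (nat_lit 416) (nat_lit 401) (nat_lit 383))) (XT.nd (nat_lit 78) (nat_lit 684) (nat_lit 0) (XT.lf (nat_lit 0) (nat_lit 8709417148) (nat_lit 380) (nat_lit 369609398) (nat_lit 76) (nat_lit 384220262) (nat_lit 109) (nat_lit 5) (nat_lit 114) (nat_lit 5) (nat_lit 110) (nat_lit 5) (nat_lit 417) (nat_lit 401) (nat_lit 382)) (XT.lf (nat_lit 0) (nat_lit 10584283) (nat_lit 304) (nat_lit 3544463589) (nat_lit 380) (nat_lit 6277932416) (nat_lit 100) (nat_lit 5) (nat_lit 104) (nat_lit 5) (nat_lit 105) (nat_lit 5) (nat_lit 418) (nat_lit 401) (nat_lit 381))))) (XT.nd (nat_lit 312) (nat_lit 836) (nat_lit 0) (XT.nd (nat_lit 156) (nat_lit 532)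 (nat_lit 0) (XT.nd (nat_lit 78) (nat_lit 304) (nat_lit 0) (XT.lf (nat_lit 0) (nat_lit 491439782) (nat_lit 228) (nat_lit 7730714966) (nat_lit 304) (nat_lit 2007557212) (nat_lit 97) (nat_lit 5) (nat_lit 100) (nat_lit 5) (nat_lit 101) (nat_lit 5) (nat_lit 419) (nat_lit 401) (nat_lit 380)) (XT.lf (nat_lit 0) (nat_lit 1011942518) (nat_lit 228) (nat_lit 1578709336) (nat_lit 304) (nat_lit 8062048934) (nat_lit 93) (nat_lit 5) (nat_lit 96) (nat_lit 5) (nat_lit 97) (nat_lit 5) (nat_lit 420) (nat_lit 401) (nat_lit 379))) (XT.nd (nat_lit 78) (nat_lit 304) (nat_lit 0) (XT.lf (nat_lit 0) (nat_lit 1557613723) (nat_lit 228) (nat_lit 6034177862) (nat_lit 304) (nat_lit 3510848822) (nat_lit 90) (nat_lit 5) (nat_lit 93) (nat_lit 5) (nat_lit 94) (nat_lit 5) (nat_lit 421) (nat_lit 401) (nat_lit 378)) (XT.lf (nat_lit 0) (nat_lit 1438060801) (nat_lit 304) (nat_lit 9401502071) (nat_lit 76) (nat_lit 744012127) (nat_lit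 86) (nat_lit 5) (nat_lit 90) (nat_lit 5) (nat_lit 87) (nat_lit 5) (nat_lit 422) (nat_lit 401) (nat_lit 377)))) (XT.nd (nat_lit 156) (nat_lit 380) (nat_lit 0) (XT.nd (nat_lit 78) (nat_lit 304) (nat_lit 0) (XT.lf (nat_lit 0) (nat_lit 2782431228) (nat_lit 152) (nat_lit 4035756177) (nat_lit 228) (nat_lit 5274026438) (nat_lit 84) (nat_lit 5) (nat_lit 86) (nat_lit 5) (nat_lit 87) (nat_lit 5) (nat_lit 423) (nat_lit 401) (nat_lit 376)) (XT.lf (nat_lit 0) (nat_lit 111289435) (nat_lit 304) (nat_lit 9169726993) (nat_lit 76) (nat_lit 3354372360) (nat_lit 80) (nat_lit 5) (nat_lit 84) (nat_lit 5) (nat_lit 81) (nat_lit 5) (nat_lit 424) (nat_lit 401) (nat_lit 375))) (XT.nd (nat_lit 78) (nat_lit 228) (nat_lit 0) (XT.lf (nat_lit 0) (nat_lit 4126927798) (nat_lit 152) (nat_lit 1770247283) (nat_lit 228) (nat_lit 7312812084) (nat_lit 78) (nat_lit 5) (nat_lit 80) (nat_lit 5) (nat_lit 81) (nat_lit 5) (nat_lit 425)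 (nat_lit 401) (nat_lit 374)) (XT.lf (nat_lit 0) (nat_lit 4821901001) (nat_lit 228) (nat_lit 7521535171) (nat_lit 304) (nat_lit 1477259095) (nat_lit 75) (nat_lit 5) (nat_lit 78) (nat_lit 5) (nat_lit 79) (nat_lit 5) (nat_lit 426) (nat_lit 401) (nat_lit 373))))))))
noncomputable def xc48 : XT := (XT.nd (nat_lit 2184) (nat_lit 1748) (nat_lit 0) (XT.nd (nat_lit 1092) (nat_lit 1292) (nat_lit 0) (XT.nd (nat_lit 546) (nat_lit 988) (nat_lit 0) (XT.nd (nat_lit 234) (nat_lit 684) (nat_lit 0) (XT.nd (nat_lit 78) (nat_lit 380) (nat_lit 0) (XT.lf (nat_lit 0) (nat_lit 4824961615) (nat_lit 228) (nat_lit 8937621956) (nat_lit 76) (nat_lit 706211908) (nat_lit 72) (nat_lit 5) (nat_lit 75) (nat_lit 5) (nat_lit 73) (nat_lit 5) (nat_lit 427) (nat_lit 401) (nat_lit 372)) (XT.nd (nat_lit 78) (nat_lit 228) (nat_lit 0) (XT.lf (nat_lit 0) (nat_lit 6215155487) (nat_lit 152) (nat_lit 5619425081) (nat_lit 228) (nat_lit 3320217394)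 (nat_lit 70) (nat_lit 5) (nat_lit 72) (nat_lit 5) (nat_lit 73) (nat_lit 5) (nat_lit 428) (nat_lit 401) (nat_lit 371)) (XT.lf (nat_lit 0) (nat_lit 3592992447) (nat_lit 228) (nat_lit 8970543465) (nat_lit 76) (nat_lit 3319616378) (nat_lit 67) (nat_lit 5) (nat_lit 70) (nat_lit 5) (nat_lit 68) (nat_lit 5) (nat_lit 429) (nat_lit 401) (nat_lit 370)))) (XT.nd (nat_lit 156) (nat_lit 304) (nat_lit 0) (XT.nd (nat_lit 78) (nat_lit 228) (nat_lit 0) (XT.lf (nat_lit 0) (nat_lit 7575542009) (nat_lit 152) (nat_lit 3620545625) (nat_lit 228) (nat_lit 5458319589) (nat_lit 65) (nat_lit 5) (nat_lit 67) (nat_lit 5) (nat_lit 68) (nat_lit 5) (nat_lit 430) (nat_lit 401) (nat_lit 369)) (XT.lf (nat_lit 0) (nat_lit 2129783281) (nat_lit 228) (nat_lit 9254425800) (nat_lit 76) (nat_lit 6088106150) (nat_lit 62) (nat_lit 5) (nat_lit 65) (nat_lit 5) (nat_lit 63) (nat_lit 5) (nat_lit 431) (nat_lit 401) (nat_lit 368))) (XT.nd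 (nat_lit 78) (nat_lit 152) (nat_lit 0) (XT.lf (nat_lit 0) (nat_lit 8806510476) (nat_lit 152) (nat_lit 1577623276) (nat_lit 228) (nat_lit 7954535779) (nat_lit 60) (nat_lit 5) (nat_lit 62) (nat_lit 5) (nat_lit 63) (nat_lit 5) (nat_lit 432) (nat_lit 401) (nat_lit 367)) (XT.lf (nat_lit 0) (nat_lit 372452890) (nat_lit 152) (nat_lit 9921157475) (nat_lit 76) (nat_lit 8963274036) (nat_lit 58) (nat_lit 5) (nat_lit 60) (nat_lit 5) (nat_lit 59) (nat_lit 5) (nat_lit 433) (nat_lit 401) (nat_lit 366))))) (XT.nd (nat_lit 234) (nat_lit 532) (nat_lit 0) (XT.nd (nat_lit 78) (nat_lit 304) (nat_lit 0) (XT.lf (nat_lit 0) (nat_lit 9341684748) (nat_lit 228) (nat_lit 10459198590) (nat_lit 76) (nat_lit 428421991) (nat_lit 56) (nat_lit 5) (nat_lit 59) (nat_lit 5) (nat_lit 57) (nat_lit 4) (nat_lit 434) (nat_lit 401) (nat_lit 365)) (XT.nd (nat_lit 78) (nat_lit 228) (nat_lit 0) (XT.lf (nat_lit 0) (nat_lit 10085488960)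 (nat_lit 76) (nat_lit 9349473337) (nat_lit 152) (nat_lit 1824239305) (nat_lit 55) (nat_lit 5) (nat_lit 56) (nat_lit 5) (nat_lit 57) (nat_lit 4) (nat_lit 435) (nat_lit 401) (nat_lit 364)) (XT.lf (nat_lit 0) (nat_lit 7995176505) (nat_lit 228) (nat_lit 12078327210) (nat_lit 76) (nat_lit 2277481450) (nat_lit 52) (nat_lit 5) (nat_lit 55) (nat_lit 5) (nat_lit 53) (nat_lit 4) (nat_lit 436) (nat_lit 401) (nat_lit 363)))) (XT.nd (nat_lit 156) (nat_lit 228) (nat_lit 0) (XT.nd (nat_lit 78) (nat_lit 228) (nat_lit 0) (XT.lf (nat_lit 0) (nat_lit 10278640965) (nat_lit 76) (nat_lit 8680737010) (nat_lit 152) (nat_lit 4548086656) (nat_lit 51) (nat_lit 5) (nat_lit 52) (nat_lit 5) (nat_lit 53) (nat_lit 4) (nat_lit 437) (nat_lit 401) (nat_lit 362)) (XT.lf (nat_lit 0) (nat_lit 6195680369) (nat_lit 228) (nat_lit 14631108711) (nat_lit 76) (nat_lit 3907715994) (nat_lit 48) (nat_lit 5) (nat_lit 51) (nat_lit 5) (nat_lit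 49) (nat_lit 4) (nat_lit 438) (nat_lit 401) (nat_lit 361))) (XT.nd (nat_lit 78) (nat_lit 152) (nat_lit 0) (XT.lf (nat_lit 0) (nat_lit 9644726416) (nat_lit 76) (nat_lit 8440479179) (nat_lit 152) (nat_lit 7948499923) (nat_lit 47) (nat_lit 5) (nat_lit 48) (nat_lit 5) (nat_lit 49) (nat_lit 4) (nat_lit 439) (nat_lit 401) (nat_lit 360)) (XT.lf (nat_lit 0) (nat_lit 3775787393) (nat_lit 152) (nat_lit 18469540821) (nat_lit 76) (nat_lit 5168873824) (nat_lit 45) (nat_lit 5) (nat_lit 47) (nat_lit 5) (nat_lit 46) (nat_lit 4) (nat_lit 440) (nat_lit 401) (nat_lit 359)))))) (XT.nd (nat_lit 546) (nat_lit 608) (nat_lit 0) (XT.nd (nat_lit 234) (nat_lit 380) (nat_lit 0) (XT.nd (nat_lit 78) (nat_lit 228) (nat_lit 0) (XT.lf (nat_lit 0) (nat_lit 7813150616) (nat_lit 76) (nat_lit 8822372339) (nat_lit 152) (nat_lit 12239304889) (nat_lit 44) (nat_lit 5) (nat_lit 45) (nat_lit 5) (nat_lit 46) (nat_lit 4) (nat_lit 441)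 (nat_lit 401) (nat_lit 358)) (XT.nd (nat_lit 78) (nat_lit 76) (nat_lit 0) (XT.lf (nat_lit 0) (nat_lit 512257409) (nat_lit 152) (nat_lit 24057995435) (nat_lit 76) (nat_lit 5859857262) (nat_lit 42) (nat_lit 5) (nat_lit 44) (nat_lit 5) (nat_lit 43) (nat_lit 4) (nat_lit 442) (nat_lit 401) (nat_lit 357)) (XT.lf (nat_lit 0) (nat_lit 4290075743) (nat_lit 76) (nat_lit 10082279982) (nat_lit 152) (nat_lit 17701569300) (nat_lit 41) (nat_lit 5) (nat_lit 42) (nat_lit 5) (nat_lit 43) (nat_lit 4) (nat_lit 443) (nat_lit 401) (nat_lit 356)))) (XT.nd (nat_lit 156) (nat_lit 228) (nat_lit 0) (XT.nd (nat_lit 78) (nat_lit 76) (nat_lit 0) (XT.lf (nat_lit 0) (nat_lit 1755689278) (nat_lit 76) (nat_lit 28051121322) (nat_lit 76) (nat_lit 4019159996) (nat_lit 40) (nat_lit 4) (nat_lit 41) (nat_lit 5) (nat_lit 41) (nat_lit 4) (nat_lit 444) (nat_lit 401) (nat_lit 355)) (XT.lf (nat_lit 0) (nat_lit 11002969047) (nat_lit 152)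 (nat_lit 1529054582) (nat_lit 76) (nat_lit 23148288475) (nat_lit 39) (nat_lit 5) (nat_lit 41) (nat_lit 5) (nat_lit 40) (nat_lit 4) (nat_lit 445) (nat_lit 401) (nat_lit 354))) (XT.nd (nat_lit 78) (nat_lit 152) (nat_lit 0) (XT.lf (nat_lit 0) (nat_lit 27599426942) (nat_lit 152) (nat_lit 5440311918) (nat_lit 0) (nat_lit 4614301525) (nat_lit 38) (nat_lit 5) (nat_lit 40) (nat_lit 4) (nat_lit 38) (nat_lit 4) (nat_lit 446) (nat_lit 401) (nat_lit 353)) (XT.lf (nat_lit 0) (nat_lit 6199176271) (nat_lit 152) (nat_lit 10320236069) (nat_lit 76) (nat_lit 23229532836) (nat_lit 36) (nat_lit 5) (nat_lit 38) (nat_lit 5) (nat_lit 37) (nat_lit 4) (nat_lit 447) (nat_lit 401) (nat_lit 352))))) (XT.nd (nat_lit 234) (nat_lit 304) (nat_lit 0) (XT.nd (nat_lit 78) (nat_lit 228) (nat_lit 0) (XT.lf (nat_lit 0) (nat_lit 23872554441) (nat_lit 152) (nat_lit 16204757358) (nat_lit 0) (nat_lit 1902313497) (nat_lit 35) (nat_lit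 5) (nat_lit 37) (nat_lit 4) (nat_lit 35) (nat_lit 4) (nat_lit 448) (nat_lit 401) (nat_lit 351)) (XT.nd (nat_lit 78) (nat_lit 152) (nat_lit 0) (XT.lf (nat_lit 0) (nat_lit 21018134476) (nat_lit 76) (nat_lit 22669954215) (nat_lit 76) (nat_lit 664258628) (nat_lit 34) (nat_lit 4) (nat_lit 35) (nat_lit 5) (nat_lit 35) (nat_lit 4) (nat_lit 449) (nat_lit 401) (nat_lit 350)) (XT.lf (nat_lit 0) (nat_lit 14971356003) (nat_lit 76) (nat_lit 3082243978) (nat_lit 152) (nat_lit 28824036252) (nat_lit 32) (nat_lit 5) (nat_lit 33) (nat_lit 5) (nat_lit 34) (nat_lit 4) (nat_lit 450) (nat_lit 401) (nat_lit 349)))) (XT.nd (nat_lit 156) (nat_lit 152) (nat_lit 0) (XT.nd (nat_lit 78) (nat_lit 76) (nat_lit 0) (XT.lf (nat_lit 0) (nat_lit 7414142064) (nat_lit 76) (nat_lit 31585295824) (nat_lit 76) (nat_lit 10567276205) (nat_lit 31) (nat_lit 4) (nat_lit 32) (nat_lit 5) (nat_lit 32) (nat_lit 4) (nat_lit 451) (nat_lit 401)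 (nat_lit 348)) (XT.lf (nat_lit 0) (nat_lit 9418170964) (nat_lit 152) (nat_lit 1737573939) (nat_lit 76) (nat_lit 41279981475) (nat_lit 30) (nat_lit 5) (nat_lit 32) (nat_lit 5) (nat_lit 31) (nat_lit 4) (nat_lit 452) (nat_lit 401) (nat_lit 347))) (XT.nd (nat_lit 78) (nat_lit 76) (nat_lit 0) (XT.lf (nat_lit 0) (nat_lit 31440362015) (nat_lit 152) (nat_lit 12670795717) (nat_lit 0) (nat_lit 11374034705) (nat_lit 29) (nat_lit 5) (nat_lit 31) (nat_lit 4) (nat_lit 29) (nat_lit 4) (nat_lit 453) (nat_lit 401) (nat_lit 346)) (XT.lf (nat_lit 0) (nat_lit 32983336363) (nat_lit 76) (nat_lit 22924655561) (nat_lit 76) (nat_lit 2836441780) (nat_lit 28) (nat_lit 4) (nat_lit 29) (nat_lit 5) (nat_lit 29) (nat_lit 4) (nat_lit 454) (nat_lit 401) (nat_lit 345))))))) (XT.nd (nat_lit 1092) (nat_lit 684) (nat_lit 0) (XT.nd (nat_lit 546) (nat_lit 456) (nat_lit 0) (XT.nd (nat_lit 234) (nat_lit 304) (nat_lit 0) (XT.nd (nat_lit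 78) (nat_lit 152) (nat_lit 0) (XT.lf (nat_lit 0) (nat_lit 19938410178) (nat_lit 152) (nat_lit 41497255263) (nat_lit 0) (nat_lit 787477768) (nat_lit 26) (nat_lit 5) (nat_lit 28) (nat_lit 4) (nat_lit 26) (nat_lit 4) (nat_lit 455) (nat_lit 401) (nat_lit 344)) (XT.nd (nat_lit 78) (nat_lit 76) (nat_lit 0) (XT.lf (nat_lit 0) (nat_lit 5535551275) (nat_lit 76) (nat_lit 39783460168) (nat_lit 76) (nat_lit 20614657167) (nat_lit 25) (nat_lit 4) (nat_lit 26) (nat_lit 5) (nat_lit 26) (nat_lit 4) (nat_lit 456) (nat_lit 401) (nat_lit 343)) (XT.lf (nat_lit 0) (nat_lit 3388553914) (nat_lit 152) (nat_lit 12238814321) (nat_lit 76) (nat_lit 54277051610) (nat_lit 24) (nat_lit 5) (nat_lit 26) (nat_lit 5) (nat_lit 25) (nat_lit 4) (nat_lit 457) (nat_lit 401) (nat_lit 342)))) (XT.nd (nat_lit 156) (nat_lit 152) (nat_lit 0) (XT.nd (nat_lit 78) (nat_lit 76) (nat_lit 0) (XT.lf (nat_lit 0) (nat_lit 29370236059) (nat_lit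 152) (nat_lit 33682793298) (nat_lit 0) (nat_lit 11083882728) (nat_lit 23) (nat_lit 5) (nat_lit 25) (nat_lit 4) (nat_lit 23) (nat_lit 4) (nat_lit 458) (nat_lit 401) (nat_lit 341)) (XT.lf (nat_lit 0) (nat_lit 19372918826) (nat_lit 76) (nat_lit 38798939660) (nat_lit 76) (nat_lit 20499075614) (nat_lit 22) (nat_lit 4) (nat_lit 23) (nat_lit 5) (nat_lit 23) (nat_lit 4) (nat_lit 459) (nat_lit 401) (nat_lit 340))) (XT.nd (nat_lit 78) (nat_lit 76) (nat_lit 0) (XT.lf (nat_lit 0) (nat_lit 6083456815) (nat_lit 152) (nat_lit 5841287497) (nat_lit 76) (nat_lit 71610662888) (nat_lit 21) (nat_lit 5) (nat_lit 23) (nat_lit 5) (nat_lit 22) (nat_lit 4) (nat_lit 460) (nat_lit 401) (nat_lit 339)) (XT.lf (nat_lit 0) (nat_lit 35162764289) (nat_lit 152) (nat_lit 35843677430) (nat_lit 0) (nat_lit 17711376452) (nat_lit 20) (nat_lit 5) (nat_lit 22) (nat_lit 4) (nat_lit 20) (nat_lit 4) (nat_lit 461) (nat_lit 401) (nat_lit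 338))))) (XT.nd (nat_lit 234) (nat_lit 228) (nat_lit 0) (XT.nd (nat_lit 78) (nat_lit 152) (nat_lit 0) (XT.lf (nat_lit 0) (nat_lit 22635251235) (nat_lit 76) (nat_lit 44555039956) (nat_lit 76) (nat_lit 27093437602) (nat_lit 19) (nat_lit 4) (nat_lit 20) (nat_lit 5) (nat_lit 20) (nat_lit 4) (nat_lit 462) (nat_lit 401) (nat_lit 337)) (XT.nd (nat_lit 78) (nat_lit 76) (nat_lit 0) (XT.lf (nat_lit 0) (nat_lit 2037193068) (nat_lit 152) (nat_lit 13294814448) (nat_lit 76) (nat_lit 84931764977) (nat_lit 18) (nat_lit 5) (nat_lit 20) (nat_lit 5) (nat_lit 19) (nat_lit 4) (nat_lit 463) (nat_lit 401) (nat_lit 336)) (XT.lf (nat_lit 0) (nat_lit 33596346474) (nat_lit 152) (nat_lit 56102399983) (nat_lit 0) (nat_lit 16948901198) (nat_lit 17) (nat_lit 5) (nat_lit 19) (nat_lit 4) (nat_lit 17) (nat_lit 4) (nat_lit 464) (nat_lit 401) (nat_lit 335)))) (XT.nd (nat_lit 156) (nat_lit 152) (nat_lit 0) (XT.nd (nat_lit 78)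 (nat_lit 0) (nat_lit 0) (XT.lf (nat_lit 0) (nat_lit 6313151936) (nat_lit 76) (nat_lit 61928099053) (nat_lit 76) (nat_lit 45272931289) (nat_lit 16) (nat_lit 4) (nat_lit 17) (nat_lit 5) (nat_lit 17) (nat_lit 4) (nat_lit 465) (nat_lit 401) (nat_lit 334)) (XT.lf (nat_lit 0) (nat_lit 75664892243) (nat_lit 76) (nat_lit 30940053066) (nat_lit 76) (nat_lit 14277734850) (nat_lit 16) (nat_lit 4) (nat_lit 17) (nat_lit 5) (nat_lit 17) (nat_lit 4) (nat_lit 466) (nat_lit 401) (nat_lit 333))) (XT.nd (nat_lit 78) (nat_lit 0) (nat_lit 0) (XT.lf (nat_lit 0) (nat_lit 18948558854) (nat_lit 152) (nat_lit 106785439078) (nat_lit 0) (nat_lit 3073378851) (nat_lit 14) (nat_lit 5) (nat_lit 16) (nat_lit 4) (nat_lit 14) (nat_lit 4) (nat_lit 467) (nat_lit 401) (nat_lit 332)) (XT.lf (nat_lit 0) (nat_lit 55634223518) (nat_lit 152) (nat_lit 41901843288) (nat_lit 0) (nat_lit 39753205077) (nat_lit 14) (nat_lit 5) (nat_lit 16)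 (nat_lit 4) (nat_lit 14) (nat_lit 4) (nat_lit 468) (nat_lit 401) (nat_lit 331)))))) (XT.nd (nat_lit 546) (nat_lit 380) (nat_lit 0) (XT.nd (nat_lit 234) (nat_lit 76) (nat_lit 0) (XT.nd (nat_lit 78) (nat_lit 152) (nat_lit 0) (XT.lf (nat_lit 0) (nat_lit 29050989989) (nat_lit 76) (nat_lit 66631873583) (nat_lit 76) (nat_lit 50745449180) (nat_lit 13) (nat_lit 4) (nat_lit 14) (nat_lit 5) (nat_lit 14) (nat_lit 4) (nat_lit 469) (nat_lit 401) (nat_lit 330)) (XT.nd (nat_lit 78) (nat_lit 152) (nat_lit 0) (XT.lf (nat_lit 0) (nat_lit 107127315795) (nat_lit 76) (nat_lit 32513656205) (nat_lit 76) (nat_lit 16622226283) (nat_lit 13) (nat_lit 4) (nat_lit 14) (nat_lit 5) (nat_lit 14) (nat_lit 4) (nat_lit 470) (nat_lit 401) (nat_lit 329)) (XT.lf (nat_lit 0) (nat_lit 20029696321) (nat_lit 152) (nat_lit 141926480646) (nat_lit 0) (nat_lit 4890587119) (nat_lit 11) (nat_lit 5) (nat_lit 13) (nat_lit 4) (nat_lit 11) (nat_lit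 4) (nat_lit 471) (nat_lit 401) (nat_lit 328)))) (XT.nd (nat_lit 156) (nat_lit 0) (nat_lit 0) (XT.nd (nat_lit 78) (nat_lit 76) (nat_lit 0) (XT.lf (nat_lit 0) (nat_lit 60435148217) (nat_lit 152) (nat_lit 72466103559) (nat_lit 0) (nat_lit 45291951942) (nat_lit 11) (nat_lit 5) (nat_lit 13) (nat_lit 4) (nat_lit 11) (nat_lit 4) (nat_lit 472) (nat_lit 401) (nat_lit 327)) (XT.lf (nat_lit 0) (nat_lit 2592504857) (nat_lit 76) (nat_lit 101500420012) (nat_lit 76) (nat_lit 86353439411) (nat_lit 10) (nat_lit 4) (nat_lit 11) (nat_lit 5) (nat_lit 11) (nat_lit 4) (nat_lit 473) (nat_lit 401) (nat_lit 326))) (XT.nd (nat_lit 78) (nat_lit 0) (nat_lit 0) (XT.lf (nat_lit 0) (nat_lit 86203774750) (nat_lit 76) (nat_lit 66282178129) (nat_lit 76) (nat_lit 51131693522) (nat_lit 10) (nat_lit 4) (nat_lit 11) (nat_lit 5) (nat_lit 11) (nat_lit 4) (nat_lit 474) (nat_lit 401) (nat_lit 325)) (XT.lf (nat_lit 0) (nat_lit 176467123664)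 (nat_lit 76) (nat_lit 28265073962) (nat_lit 76) (nat_lit 13111344905) (nat_lit 10) (nat_lit 4) (nat_lit 11) (nat_lit 5) (nat_lit 11) (nat_lit 4) (nat_lit 475) (nat_lit 401) (nat_lit 324))))) (XT.nd (nat_lit 234) (nat_lit 228) (nat_lit 0) (XT.nd (nat_lit 78) (nat_lit 0) (nat_lit 0) (XT.lf (nat_lit 0) (nat_lit 27905718684) (nat_lit 152) (nat_lit 191766753628) (nat_lit 0) (nat_lit 13470734706) (nat_lit 8) (nat_lit 5) (nat_lit 10) (nat_lit 4) (nat_lit 8) (nat_lit 4) (nat_lit 476) (nat_lit 401) (nat_lit 323)) (XT.nd (nat_lit 78) (nat_lit 0) (nat_lit 0) (XT.lf (nat_lit 0) (nat_lit 72943436737) (nat_lit 152) (nat_lit 118146925082) (nat_lit 0) (nat_lit 58505803623) (nat_lit 8) (nat_lit 5) (nat_lit 10) (nat_lit 4) (nat_lit 8) (nat_lit 4) (nat_lit 477) (nat_lit 401) (nat_lit 322)) (XT.lf (nat_lit 0) (nat_lit 121568745388) (nat_lit 152) (nat_lit 38668727249) (nat_lit 0) (nat_lit 107128659370) (nat_lit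 8) (nat_lit 5) (nat_lit 10) (nat_lit 4) (nat_lit 8) (nat_lit 4) (nat_lit 478) (nat_lit 401) (nat_lit 321)))) (XT.nd (nat_lit 156) (nat_lit 152) (nat_lit 0) (XT.nd (nat_lit 78) (nat_lit 0) (nat_lit 0) (XT.lf (nat_lit 0) (nat_lit 48697444116) (nat_lit 76) (nat_lit 126132654074) (nat_lit 76) (nat_lit 111690296848) (nat_lit 7) (nat_lit 4) (nat_lit 8) (nat_lit 5) (nat_lit 8) (nat_lit 4) (nat_lit 479) (nat_lit 401) (nat_lit 320)) (XT.lf (nat_lit 0) (nat_lit 144406108500) (nat_lit 76) (nat_lit 88606177291) (nat_lit 76) (nat_lit 74161717096) (nat_lit 7) (nat_lit 4) (nat_lit 8) (nat_lit 5) (nat_lit 8) (nat_lit 4) (nat_lit 480) (nat_lit 401) (nat_lit 319))) (XT.nd (nat_lit 78) (nat_lit 152) (nat_lit 0) (XT.lf (nat_lit 0) (nat_lit 247745865604) (nat_lit 76) (nat_lit 48090536776) (nat_lit 76) (nat_lit 33644129387) (nat_lit 7) (nat_lit 4) (nat_lit 8) (nat_lit 5) (nat_lit 8) (nat_lit 4) (nat_lit 481) (nat_lit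 401) (nat_lit 318)) (XT.lf (nat_lit 0) (nat_lit 5784336102) (nat_lit 76) (nat_lit 4085198750) (nat_lit 152) (nat_lit 343690231699) (nat_lit 5) (nat_lit 5) (nat_lit 6) (nat_lit 5) (nat_lit 7) (nat_lit 4) (nat_lit 482) (nat_lit 401) (nat_lit 317))))))))
noncomputable def xc49 : XT := (XT.nd (nat_lit 56940) (nat_lit 0) (nat_lit 3496) (XT.nd (nat_lit 1092) (nat_lit 0) (nat_lit 0) (XT.nd (nat_lit 546) (nat_lit 152) (nat_lit 0) (XT.nd (nat_lit 234) (nat_lit 76) (nat_lit 0) (XT.nd (nat_lit 78) (nat_lit 0) (nat_lit 0) (XT.lf (nat_lit 0) (nat_lit 57815096906) (nat_lit 152) (nat_lit 277562882918) (nat_lit 0) (nat_lit 44053306667) (nat_lit 5) (nat_lit 5) (nat_lit 7) (nat_lit 4) (nat_lit 5) (nat_lit 4) (nat_lit 483) (nat_lit 401) (nat_lit 316)) (XT.nd (nat_lit 78) (nat_lit 0) (nat_lit 0) (XT.lf (nat_lit 0) (nat_lit 109654482430) (nat_lit 152) (nat_lit 201823916693) (nat_lit 0) (nat_lit 95891220052) (nat_lit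 5) (nat_lit 5) (nat_lit 7) (nat_lit 4) (nat_lit 5) (nat_lit 4) (nat_lit 484) (nat_lit 401) (nat_lit 315)) (XT.lf (nat_lit 0) (nat_lit 165631106380) (nat_lit 152) (nat_lit 120045926872) (nat_lit 0) (nat_lit 151866480911) (nat_lit 5) (nat_lit 5) (nat_lit 7) (nat_lit 4) (nat_lit 5) (nat_lit 4) (nat_lit 485) (nat_lit 401) (nat_lit 314)))) (XT.nd (nat_lit 156) (nat_lit 0) (nat_lit 0) (XT.nd (nat_lit 78) (nat_lit 76) (nat_lit 0) (XT.lf (nat_lit 0) (nat_lit 226076682085) (nat_lit 152) (nat_lit 31744303142) (nat_lit 0) (nat_lit 212310794494) (nat_lit 5) (nat_lit 5) (nat_lit 7) (nat_lit 4) (nat_lit 5) (nat_lit 4) (nat_lit 486) (nat_lit 401) (nat_lit 313)) (XT.lf (nat_lit 0) (nat_lit 65707266244) (nat_lit 76) (nat_lit 226668013874) (nat_lit 76) (nat_lit 212900957652) (nat_lit 4) (nat_lit 4) (nat_lit 5) (nat_lit 5) (nat_lit 5) (nat_lit 4) (nat_lit 487) (nat_lit 401) (nat_lit 312))) (XT.nd (nat_lit 78)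 (nat_lit 0) (nat_lit 0) (XT.lf (nat_lit 0) (nat_lit 172072061567) (nat_lit 76) (nat_lit 192450543638) (nat_lit 76) (nat_lit 178682405351) (nat_lit 4) (nat_lit 4) (nat_lit 5) (nat_lit 5) (nat_lit 5) (nat_lit 4) (nat_lit 488) (nat_lit 401) (nat_lit 311)) (XT.lf (nat_lit 0) (nat_lit 286930782701) (nat_lit 76) (nat_lit 155503409461) (nat_lit 76) (nat_lit 141734269261) (nat_lit 4) (nat_lit 4) (nat_lit 5) (nat_lit 5) (nat_lit 5) (nat_lit 4) (nat_lit 489) (nat_lit 401) (nat_lit 310))))) (XT.nd (nat_lit 234) (nat_lit 152) (nat_lit 0) (XT.nd (nat_lit 78) (nat_lit 0) (nat_lit 0) (XT.lf (nat_lit 0) (nat_lit 410964073918) (nat_lit 76) (nat_lit 115607665362) (nat_lit 76) (nat_lit 101837597464) (nat_lit 4) (nat_lit 4) (nat_lit 5) (nat_lit 5) (nat_lit 5) (nat_lit 4) (nat_lit 490) (nat_lit 401) (nat_lit 309)) (XT.nd (nat_lit 78) (nat_lit 0) (nat_lit 0) (XT.lf (nat_lit 0) (nat_lit 544906947316) (nat_lit 76)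 (nat_lit 72526892116) (nat_lit 76) (nat_lit 58755965240) (nat_lit 4) (nat_lit 4) (nat_lit 5) (nat_lit 5) (nat_lit 5) (nat_lit 4) (nat_lit 491) (nat_lit 401) (nat_lit 308)) (XT.lf (nat_lit 0) (nat_lit 689553138440) (nat_lit 76) (nat_lit 26005796253) (nat_lit 76) (nat_lit 12234074027) (nat_lit 4) (nat_lit 4) (nat_lit 5) (nat_lit 5) (nat_lit 5) (nat_lit 4) (nat_lit 492) (nat_lit 401) (nat_lit 307)))) (XT.nd (nat_lit 156) (nat_lit 0) (nat_lit 0) (XT.nd (nat_lit 78) (nat_lit 0) (nat_lit 0) (XT.lf (nat_lit 0) (nat_lit 38185969251) (nat_lit 152) (nat_lit 720169838911) (nat_lit 0) (nat_lit 25069341954) (nat_lit 2) (nat_lit 5) (nat_lit 4) (nat_lit 4) (nat_lit 2) (nat_lit 4) (nat_lit 493) (nat_lit 401) (nat_lit 306)) (XT.lf (nat_lit 0) (nat_lit 93326801487) (nat_lit 152) (nat_lit 669905718272) (nat_lit 0) (nat_lit 80209524775) (nat_lit 2) (nat_lit 5) (nat_lit 4) (nat_lit 4) (nat_lit 2) (nat_lit 4) (nat_lit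 494) (nat_lit 401) (nat_lit 305))) (XT.nd (nat_lit 78) (nat_lit 0) (nat_lit 0) (XT.lf (nat_lit 0) (nat_lit 152873843458) (nat_lit 152) (nat_lit 615630734482) (nat_lit 0) (nat_lit 139755965437) (nat_lit 2) (nat_lit 5) (nat_lit 4) (nat_lit 4) (nat_lit 2) (nat_lit 4) (nat_lit 495) (nat_lit 401) (nat_lit 304)) (XT.lf (nat_lit 0) (nat_lit 217179966526) (nat_lit 152) (nat_lit 557023258007) (nat_lit 0) (nat_lit 204061531736) (nat_lit 2) (nat_lit 5) (nat_lit 4) (nat_lit 4) (nat_lit 2) (nat_lit 4) (nat_lit 496) (nat_lit 401) (nat_lit 303)))))) (XT.nd (nat_lit 55302) (nat_lit 0) (nat_lit 10792) (XT.nd (nat_lit 234) (nat_lit 0) (nat_lit 0) (XT.nd (nat_lit 78) (nat_lit 0) (nat_lit 0) (XT.lf (nat_lit 0) (nat_lit 286626244011) (nat_lit 152) (nat_lit 493735985284) (nat_lit 0) (nat_lit 273507293696) (nat_lit 2) (nat_lit 5) (nat_lit 4) (nat_lit 4) (nat_lit 2) (nat_lit 4) (nat_lit 497) (nat_lit 401) (nat_lit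 302)) (XT.nd (nat_lit 78) (nat_lit 0) (nat_lit 0) (XT.lf (nat_lit 0) (nat_lit 361624209410) (nat_lit 152) (nat_lit 425393880622) (nat_lit 0) (nat_lit 348504781756) (nat_lit 2) (nat_lit 5) (nat_lit 4) (nat_lit 4) (nat_lit 2) (nat_lit 4) (nat_lit 498) (nat_lit 401) (nat_lit 301)) (XT.lf (nat_lit 0) (nat_lit 442618295110) (nat_lit 152) (nat_lit 351591953771) (nat_lit 0) (nat_lit 429498425476) (nat_lit 2) (nat_lit 5) (nat_lit 4) (nat_lit 4) (nat_lit 2) (nat_lit 4) (nat_lit 499) (nat_lit 401) (nat_lit 300)))) (XT.nd (nat_lit 54912) (nat_lit 0) (nat_lit 13908) (XT.nd (nat_lit 54834) (nat_lit 0) (nat_lit 14288) (XT.lf (nat_lit 0) (nat_lit 530088466064) (nat_lit 152) (nat_lit 271892859980) (nat_lit 0) (nat_lit 516968187189) (nat_lit 2) (nat_lit 5) (nat_lit 4) (nat_lit 4) (nat_lit 2) (nat_lit 4) (nat_lit 500) (nat_lit 401) (nat_lit 299)) (XT.lf (nat_lit 0) (nat_lit 1262472495) (nat_lit 0) (nat_lit 1262472495)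 (nat_lit 228) (nat_lit 752951766) (nat_lit 190) (nat_lit 5) (nat_lit 190) (nat_lit 3) (nat_lit 193) (nat_lit 3) (nat_lit 402) (nat_lit 402) (nat_lit 396))) (XT.nd (nat_lit 78) (nat_lit 0) (nat_lit 76) (XT.lf (nat_lit 76) (nat_lit 1189436975) (nat_lit 0) (nat_lit 1187862566) (nat_lit 380) (nat_lit 4245882761) (nat_lit 186) (nat_lit 5) (nat_lit 185) (nat_lit 3) (nat_lit 190) (nat_lit 5) (nat_lit 403) (nat_lit 402) (nat_lit 395)) (XT.lf (nat_lit 76) (nat_lit 15971417) (nat_lit 0) (nat_lit 6190623883) (nat_lit 380) (nat_lit 503862802) (nat_lit 187) (nat_lit 5) (nat_lit 186) (nat_lit 5) (nat_lit 191) (nat_lit 5) (nat_lit 404) (nat_lit 402) (nat_lit 394))))) (XT.nd (nat_lit 234) (nat_lit 2432) (nat_lit 0) (XT.nd (nat_lit 78) (nat_lit 380) (nat_lit 0) (XT.lf (nat_lit 0) (nat_lit 3171604111) (nat_lit 380) (nat_lit 1016126453) (nat_lit 456) (nat_lit 2626981979) (nat_lit 181) (nat_lit 5) (nat_lit 186)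 (nat_lit 5) (nat_lit 187) (nat_lit 5) (nat_lit 405) (nat_lit 402) (nat_lit 393)) (XT.nd (nat_lit 78) (nat_lit 380) (nat_lit 0) (XT.lf (nat_lit 76) (nat_lit 5052080506) (nat_lit 0) (nat_lit 1808890427) (nat_lit 456) (nat_lit 79161988) (nat_lit 182) (nat_lit 5) (nat_lit 181) (nat_lit 5) (nat_lit 187) (nat_lit 5) (nat_lit 406) (nat_lit 402) (nat_lit 392)) (XT.lf (nat_lit 0) (nat_lit 3427441945) (nat_lit 456) (nat_lit 2669558669) (nat_lit 76) (nat_lit 986834120) (nat_lit 176) (nat_lit 5) (nat_lit 182) (nat_lit 5) (nat_lit 177) (nat_lit 5) (nat_lit 407) (nat_lit 402) (nat_lit 391)))) (XT.nd (nat_lit 156) (nat_lit 1368) (nat_lit 0) (XT.nd (nat_lit 78) (nat_lit 608) (nat_lit 0) (XT.lf (nat_lit 0) (nat_lit 3917569361) (nat_lit 456) (nat_lit 3116748331) (nat_lit 532) (nat_lit 213617640) (nat_lit 170) (nat_lit 5) (nat_lit 176) (nat_lit 5) (nat_lit 177) (nat_lit 5) (nat_lit 408) (nat_lit 402) (nat_lit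 390)) (XT.lf (nat_lit 0) (nat_lit 3211710122) (nat_lit 608) (nat_lit 3901144255) (nat_lit 76) (nat_lit 318691177) (nat_lit 162) (nat_lit 5) (nat_lit 170) (nat_lit 5) (nat_lit 163) (nat_lit 5) (nat_lit 409) (nat_lit 402) (nat_lit 389))) (XT.nd (nat_lit 78) (nat_lit 760) (nat_lit 0) (XT.lf (nat_lit 0) (nat_lit 3248206133) (nat_lit 608) (nat_lit 3548221329) (nat_lit 684) (nat_lit 838675902) (nat_lit 154) (nat_lit 5) (nat_lit 162) (nat_lit 5) (nat_lit 163) (nat_lit 5) (nat_lit 410) (nat_lit 402) (nat_lit 388)) (XT.lf (nat_lit 0) (nat_lit 2590730183) (nat_lit 760) (nat_lit 4785947004) (nat_lit 76) (nat_lit 482750593) (nat_lit 144) (nat_lit 5) (nat_lit 154) (nat_lit 5) (nat_lit 145) (nat_lit 5) (nat_lit 411) (nat_lit 402) (nat_lit 387))))))) (XT.nd (nat_lit 1092) (nat_lit 2432) (nat_lit 0) (XT.nd (nat_lit 546) (nat_lit 1824) (nat_lit 0) (XT.nd (nat_lit 234) (nat_lit 1444) (nat_lit 0) (XT.nd (nat_lit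 78) (nat_lit 836) (nat_lit 0) (XT.lf (nat_lit 0) (nat_lit 2977815588) (nat_lit 760) (nat_lit 3230467406) (nat_lit 836) (nat_lit 1895631100) (nat_lit 134) (nat_lit 5) (nat_lit 144) (nat_lit 5) (nat_lit 145) (nat_lit 5) (nat_lit 412) (nat_lit 402) (nat_lit 386)) (XT.nd (nat_lit 78) (nat_lit 380) (nat_lit 0) (XT.lf (nat_lit 0) (nat_lit 1614583494) (nat_lit 456) (nat_lit 5385615239) (nat_lit 76) (nat_lit 1370290147) (nat_lit 128) (nat_lit 5) (nat_lit 134) (nat_lit 5) (nat_lit 129) (nat_lit 5) (nat_lit 413) (nat_lit 402) (nat_lit 385)) (XT.lf (nat_lit 0) (nat_lit 3053445092) (nat_lit 380) (nat_lit 2262587924) (nat_lit 456) (nat_lit 3342012094) (nat_lit 123) (nat_lit 5) (nat_lit 128) (nat_lit 5) (nat_lit 129) (nat_lit 5) (nat_lit 414) (nat_lit 402) (nat_lit 384)))) (XT.nd (nat_lit 156) (nat_lit 684) (nat_lit 0) (XT.nd (nat_lit 78) (nat_lit 304) (nat_lit 0) (XT.lf (nat_lit 0) (nat_lit 319325198) (nat_lit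 456) (nat_lit 5751677340) (nat_lit 76) (nat_lit 2898110086) (nat_lit 117) (nat_lit 5) (nat_lit 123) (nat_lit 5) (nat_lit 118) (nat_lit 5) (nat_lit 415) (nat_lit 402) (nat_lit 383)) (XT.lf (nat_lit 0) (nat_lit 3432172135) (nat_lit 304) (nat_lit 720778564) (nat_lit 380) (nat_lit 5149593538) (nat_lit 113) (nat_lit 5) (nat_lit 117) (nat_lit 5) (nat_lit 118) (nat_lit 5) (nat_lit 416) (nat_lit 402) (nat_lit 382))) (XT.nd (nat_lit 78) (nat_lit 380) (nat_lit 0) (XT.lf (nat_lit 0) (nat_lit 3710956510) (nat_lit 304) (nat_lit 4635617131) (nat_lit 380) (nat_lit 1313449796) (nat_lit 109) (nat_lit 5) (nat_lit 113) (nat_lit 5) (nat_lit 114) (nat_lit 5) (nat_lit 417) (nat_lit 402) (nat_lit 381)) (XT.lf (nat_lit 0) (nat_lit 2761695133) (nat_lit 380) (nat_lit 5986567632) (nat_lit 76) (nat_lit 1294529504) (nat_lit 104) (nat_lit 5) (nat_lit 109) (nat_lit 5) (nat_lit 105) (nat_lit 5) (nat_lit 418) (nat_lit 402)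 (nat_lit 380))))) (XT.nd (nat_lit 234) (nat_lit 988) (nat_lit 0) (XT.nd (nat_lit 78) (nat_lit 532) (nat_lit 0) (XT.lf (nat_lit 0) (nat_lit 4443680627) (nat_lit 304) (nat_lit 2757857610) (nat_lit 380) (nat_lit 3249363977) (nat_lit 100) (nat_lit 5) (nat_lit 104) (nat_lit 5) (nat_lit 105) (nat_lit 5) (nat_lit 419) (nat_lit 402) (nat_lit 379)) (XT.nd (nat_lit 78) (nat_lit 228) (nat_lit 0) (XT.lf (nat_lit 0) (nat_lit 1151167376) (nat_lit 304) (nat_lit 5990453932) (nat_lit 76) (nat_lit 3745123607) (nat_lit 96) (nat_lit 5) (nat_lit 100) (nat_lit 5) (nat_lit 97) (nat_lit 5) (nat_lit 420) (nat_lit 402) (nat_lit 378)) (XT.lf (nat_lit 0) (nat_lit 5390665295) (nat_lit 228) (nat_lit 483537464) (nat_lit 304) (nat_lit 5476399310) (nat_lit 93) (nat_lit 5) (nat_lit 96) (nat_lit 5) (nat_lit 97) (nat_lit 5) (nat_lit 421) (nat_lit 402) (nat_lit 377)))) (XT.nd (nat_lit 156) (nat_lit 456) (nat_lit 0) (XT.nd (nat_lit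 78) (nat_lit 304) (nat_lit 0) (XT.lf (nat_lit 0) (nat_lit 5922581149) (nat_lit 228) (nat_lit 5208840329) (nat_lit 304) (nat_lit 712353014) (nat_lit 90) (nat_lit 5) (nat_lit 93) (nat_lit 5) (nat_lit 94) (nat_lit 5) (nat_lit 422) (nat_lit 402) (nat_lit 376)) (XT.lf (nat_lit 0) (nat_lit 4398617408) (nat_lit 304) (nat_lit 5881900882) (nat_lit 76) (nat_lit 2087058991) (nat_lit 86) (nat_lit 5) (nat_lit 90) (nat_lit 5) (nat_lit 87) (nat_lit 5) (nat_lit 423) (nat_lit 402) (nat_lit 375))) (XT.nd (nat_lit 78) (nat_lit 304) (nat_lit 0) (XT.lf (nat_lit 0) (nat_lit 7091103276) (nat_lit 152) (nat_lit 2971067338) (nat_lit 228) (nat_lit 2862116027) (nat_lit 84) (nat_lit 5) (nat_lit 86) (nat_lit 5) (nat_lit 87) (nat_lit 5) (nat_lit 424) (nat_lit 402) (nat_lit 374)) (XT.lf (nat_lit 0) (nat_lit 2744265463) (nat_lit 304) (nat_lit 5799004523) (nat_lit 76) (nat_lit 4971413017) (nat_lit 80) (nat_lit 5) (nat_lit 84)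 (nat_lit 5) (nat_lit 81) (nat_lit 5) (nat_lit 425) (nat_lit 402) (nat_lit 373)))))) (XT.nd (nat_lit 546) (nat_lit 1064) (nat_lit 0) (XT.nd (nat_lit 234) (nat_lit 760) (nat_lit 0) (XT.nd (nat_lit 78) (nat_lit 456) (nat_lit 0) (XT.lf (nat_lit 0) (nat_lit 8383014748) (nat_lit 152) (nat_lit 476926258) (nat_lit 228) (nat_lit 5281986979) (nat_lit 78) (nat_lit 5) (nat_lit 80) (nat_lit 5) (nat_lit 81) (nat_lit 5) (nat_lit 426) (nat_lit 402) (nat_lit 372)) (XT.nd (nat_lit 78) (nat_lit 152) (nat_lit 0) (XT.lf (nat_lit 0) (nat_lit 882417166) (nat_lit 304) (nat_lit 5759957064) (nat_lit 76) (nat_lit 8163610376) (nat_lit 74) (nat_lit 5) (nat_lit 78) (nat_lit 5) (nat_lit 75) (nat_lit 5) (nat_lit 427) (nat_lit 402) (nat_lit 371)) (XT.lf (nat_lit 0) (nat_lit 7539487329) (nat_lit 228) (nat_lit 5796968157) (nat_lit 76) (nat_lit 2173165251) (nat_lit 72) (nat_lit 5) (nat_lit 75) (nat_lit 5) (nat_lit 73) (nat_lit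 5) (nat_lit 428) (nat_lit 402) (nat_lit 370)))) (XT.nd (nat_lit 156) (nat_lit 380) (nat_lit 0) (XT.nd (nat_lit 78) (nat_lit 228) (nat_lit 0) (XT.lf (nat_lit 0) (nat_lit 10400469042) (nat_lit 152) (nat_lit 4594504736) (nat_lit 228) (nat_lit 1261293402) (nat_lit 70) (nat_lit 5) (nat_lit 72) (nat_lit 5) (nat_lit 73) (nat_lit 5) (nat_lit 429) (nat_lit 402) (nat_lit 369)) (XT.lf (nat_lit 0) (nat_lit 6042877367) (nat_lit 228) (nat_lit 6004586098) (nat_lit 76) (nat_lit 4998013018) (nat_lit 67) (nat_lit 5) (nat_lit 70) (nat_lit 5) (nat_lit 68) (nat_lit 5) (nat_lit 430) (nat_lit 402) (nat_lit 368))) (XT.nd (nat_lit 78) (nat_lit 228) (nat_lit 0) (XT.lf (nat_lit 0) (nat_lit 11705101409) (nat_lit 152) (nat_lit 2443949568) (nat_lit 228) (nat_lit 3734654529) (nat_lit 65) (nat_lit 5) (nat_lit 67) (nat_lit 5) (nat_lit 68) (nat_lit 5) (nat_lit 431) (nat_lit 402) (nat_lit 367)) (XT.lf (nat_lit 0) (nat_lit 4312694313)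 (nat_lit 228) (nat_lit 6481001861) (nat_lit 76) (nat_lit 7975609889) (nat_lit 62) (nat_lit 5) (nat_lit 65) (nat_lit 5) (nat_lit 63) (nat_lit 5) (nat_lit 432) (nat_lit 402) (nat_lit 366))))) (XT.nd (nat_lit 234) (nat_lit 608) (nat_lit 0) (XT.nd (nat_lit 78) (nat_lit 304) (nat_lit 0) (XT.lf (nat_lit 0) (nat_lit 12872104808) (nat_lit 152) (nat_lit 258687615) (nat_lit 228) (nat_lit 6579018746) (nat_lit 60) (nat_lit 5) (nat_lit 62) (nat_lit 5) (nat_lit 63) (nat_lit 5) (nat_lit 433) (nat_lit 402) (nat_lit 365)) (XT.nd (nat_lit 78) (nat_lit 152) (nat_lit 0) (XT.lf (nat_lit 0) (nat_lit 2278844023) (nat_lit 152) (nat_lit 7367459137) (nat_lit 76) (nat_lit 11057165100) (nat_lit 58) (nat_lit 5) (nat_lit 60) (nat_lit 5) (nat_lit 59) (nat_lit 5) (nat_lit 434) (nat_lit 402) (nat_lit 364)) (XT.lf (nat_lit 0) (nat_lit 11898680093) (nat_lit 228) (nat_lit 8026592933) (nat_lit 76) (nat_lit 1831766711) (nat_lit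 56) (nat_lit 5) (nat_lit 59) (nat_lit 5) (nat_lit 57) (nat_lit 4) (nat_lit 435) (nat_lit 402) (nat_lit 363)))) (XT.nd (nat_lit 156) (nat_lit 304) (nat_lit 0) (XT.nd (nat_lit 78) (nat_lit 228) (nat_lit 0) (XT.lf (nat_lit 0) (nat_lit 14019588022) (nat_lit 76) (nat_lit 8694608186) (nat_lit 152) (nat_lit 159402093) (nat_lit 55) (nat_lit 5) (nat_lit 56) (nat_lit 5) (nat_lit 57) (nat_lit 4) (nat_lit 436) (nat_lit 402) (nat_lit 362)) (XT.lf (nat_lit 0) (nat_lit 10326831514) (nat_lit 228) (nat_lit 9935553088) (nat_lit 76) (nat_lit 3791973643) (nat_lit 52) (nat_lit 5) (nat_lit 55) (nat_lit 5) (nat_lit 53) (nat_lit 4) (nat_lit 437) (nat_lit 402) (nat_lit 361))) (XT.nd (nat_lit 78) (nat_lit 228) (nat_lit 0) (XT.lf (nat_lit 0) (nat_lit 14074857438) (nat_lit 76) (nat_lit 8014406608) (nat_lit 152) (nat_lit 3218044955) (nat_lit 51) (nat_lit 5) (nat_lit 52) (nat_lit 5) (nat_lit 53) (nat_lit 4) (nat_lit 438)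 (nat_lit 402) (nat_lit 360)) (XT.lf (nat_lit 0) (nat_lit 8275590393) (nat_lit 228) (nat_lit 12847527110) (nat_lit 76) (nat_lit 5510850534) (nat_lit 48) (nat_lit 5) (nat_lit 51) (nat_lit 5) (nat_lit 49) (nat_lit 4) (nat_lit 439) (nat_lit 402) (nat_lit 359))))))))
noncomputable def xc50 : XT := (XT.nd (nat_lit 2184) (nat_lit 1064) (nat_lit 0) (XT.nd (nat_lit 1092) (nat_lit 1064) (nat_lit 0) (XT.nd (nat_lit 546) (nat_lit 608) (nat_lit 0) (XT.nd (nat_lit 234) (nat_lit 456) (nat_lit 0) (XT.nd (nat_lit 78) (nat_lit 228) (nat_lit 0) (XT.lf (nat_lit 0) (nat_lit 13241994532) (nat_lit 76) (nat_lit 7801047779) (nat_lit 152) (nat_lit 6997730243) (nat_lit 47) (nat_lit 5) (nat_lit 48) (nat_lit 5) (nat_lit 49) (nat_lit 4) (nat_lit 440) (nat_lit 402) (nat_lit 358)) (XT.nd (nat_lit 78) (nat_lit 76) (nat_lit 0) (XT.lf (nat_lit 0) (nat_lit 5562994150) (nat_lit 152) (nat_lit 17142331455) (nat_lit 76) (nat_lit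 6827686280) (nat_lit 45) (nat_lit 5) (nat_lit 47) (nat_lit 5) (nat_lit 46) (nat_lit 4) (nat_lit 441) (nat_lit 402) (nat_lit 357)) (XT.lf (nat_lit 0) (nat_lit 11121083298) (nat_lit 76) (nat_lit 8262301896) (nat_lit 152) (nat_lit 11730513850) (nat_lit 44) (nat_lit 5) (nat_lit 45) (nat_lit 5) (nat_lit 46) (nat_lit 4) (nat_lit 442) (nat_lit 402) (nat_lit 356)))) (XT.nd (nat_lit 156) (nat_lit 228) (nat_lit 0) (XT.nd (nat_lit 78) (nat_lit 76) (nat_lit 0) (XT.lf (nat_lit 0) (nat_lit 1946960243) (nat_lit 152) (nat_lit 23321281541) (nat_lit 76) (nat_lit 7526534575) (nat_lit 42) (nat_lit 5) (nat_lit 44) (nat_lit 5) (nat_lit 43) (nat_lit 4) (nat_lit 443) (nat_lit 402) (nat_lit 355)) (XT.lf (nat_lit 0) (nat_lit 7178976151) (nat_lit 76) (nat_lit 9673397012) (nat_lit 152) (nat_lit 17720902152) (nat_lit 41) (nat_lit 5) (nat_lit 42) (nat_lit 5) (nat_lit 43) (nat_lit 4) (nat_lit 444) (nat_lit 402) (nat_lit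 354))) (XT.nd (nat_lit 78) (nat_lit 152) (nat_lit 0) (XT.lf (nat_lit 0) (nat_lit 4376724818) (nat_lit 76) (nat_lit 29102624072) (nat_lit 76) (nat_lit 2988251290) (nat_lit 40) (nat_lit 4) (nat_lit 41) (nat_lit 5) (nat_lit 41) (nat_lit 4) (nat_lit 445) (nat_lit 402) (nat_lit 353)) (XT.lf (nat_lit 0) (nat_lit 708245878) (nat_lit 76) (nat_lit 12398198887) (nat_lit 152) (nat_lit 25367087723) (nat_lit 38) (nat_lit 5) (nat_lit 39) (nat_lit 5) (nat_lit 40) (nat_lit 4) (nat_lit 446) (nat_lit 402) (nat_lit 352))))) (XT.nd (nat_lit 234) (nat_lit 380) (nat_lit 0) (XT.nd (nat_lit 78) (nat_lit 228) (nat_lit 0) (XT.lf (nat_lit 0) (nat_lit 30981503469) (nat_lit 152) (nat_lit 3599069841) (nat_lit 0) (nat_lit 6027044674) (nat_lit 38) (nat_lit 5) (nat_lit 40) (nat_lit 4) (nat_lit 38) (nat_lit 4) (nat_lit 447) (nat_lit 402) (nat_lit 351)) (XT.nd (nat_lit 78) (nat_lit 76) (nat_lit 0) (XT.lf (nat_lit 0) (nat_lit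 7834673020) (nat_lit 152) (nat_lit 8930606477) (nat_lit 76) (nat_lit 26106568318) (nat_lit 36) (nat_lit 5) (nat_lit 38) (nat_lit 5) (nat_lit 37) (nat_lit 4) (nat_lit 448) (nat_lit 402) (nat_lit 350)) (XT.lf (nat_lit 0) (nat_lit 26886685339) (nat_lit 152) (nat_lit 15343810300) (nat_lit 0) (nat_lit 3052251091) (nat_lit 35) (nat_lit 5) (nat_lit 37) (nat_lit 4) (nat_lit 35) (nat_lit 4) (nat_lit 449) (nat_lit 402) (nat_lit 349)))) (XT.nd (nat_lit 156) (nat_lit 152) (nat_lit 0) (XT.nd (nat_lit 78) (nat_lit 76) (nat_lit 0) (XT.lf (nat_lit 0) (nat_lit 377624451) (nat_lit 152) (nat_lit 23090700763) (nat_lit 76) (nat_lit 24379138346) (nat_lit 33) (nat_lit 5) (nat_lit 35) (nat_lit 5) (nat_lit 34) (nat_lit 4) (nat_lit 450) (nat_lit 402) (nat_lit 348)) (XT.lf (nat_lit 0) (nat_lit 18176890889) (nat_lit 76) (nat_lit 2344995362) (nat_lit 152) (nat_lit 30054734624) (nat_lit 32) (nat_lit 5) (nat_lit 33) (nat_lit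 5) (nat_lit 34) (nat_lit 4) (nat_lit 451) (nat_lit 402) (nat_lit 347))) (XT.nd (nat_lit 78) (nat_lit 76) (nat_lit 0) (XT.lf (nat_lit 0) (nat_lit 9962149397) (nat_lit 76) (nat_lit 33150133675) (nat_lit 76) (nat_lit 10370099248) (nat_lit 31) (nat_lit 4) (nat_lit 32) (nat_lit 5) (nat_lit 32) (nat_lit 4) (nat_lit 452) (nat_lit 402) (nat_lit 346)) (XT.lf (nat_lit 0) (nat_lit 11106060431) (nat_lit 152) (nat_lit 35591336) (nat_lit 76) (nat_lit 45442189423) (nat_lit 30) (nat_lit 5) (nat_lit 32) (nat_lit 5) (nat_lit 31) (nat_lit 4) (nat_lit 453) (nat_lit 402) (nat_lit 345)))))) (XT.nd (nat_lit 546) (nat_lit 456) (nat_lit 0) (XT.nd (nat_lit 234) (nat_lit 304) (nat_lit 0) (XT.nd (nat_lit 78) (nat_lit 228) (nat_lit 0) (XT.lf (nat_lit 0) (nat_lit 34861859270) (nat_lit 152) (nat_lit 11892378566) (nat_lit 0) (nat_lit 13124436666) (nat_lit 29) (nat_lit 5) (nat_lit 31) (nat_lit 4) (nat_lit 29) (nat_lit 4) (nat_lit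 454) (nat_lit 402) (nat_lit 344)) (XT.nd (nat_lit 78) (nat_lit 152) (nat_lit 0) (XT.lf (nat_lit 0) (nat_lit 37336202433) (nat_lit 76) (nat_lit 23910329607) (nat_lit 76) (nat_lit 2154142882) (nat_lit 28) (nat_lit 4) (nat_lit 29) (nat_lit 5) (nat_lit 29) (nat_lit 4) (nat_lit 455) (nat_lit 402) (nat_lit 343)) (XT.lf (nat_lit 0) (nat_lit 22387343831) (nat_lit 152) (nat_lit 43120322378) (nat_lit 0) (nat_lit 1650619154) (nat_lit 26) (nat_lit 5) (nat_lit 28) (nat_lit 4) (nat_lit 26) (nat_lit 4) (nat_lit 456) (nat_lit 402) (nat_lit 342)))) (XT.nd (nat_lit 156) (nat_lit 152) (nat_lit 0) (XT.nd (nat_lit 78) (nat_lit 76) (nat_lit 0) (XT.lf (nat_lit 0) (nat_lit 7601371590) (nat_lit 76) (nat_lit 42159111863) (nat_lit 76) (nat_lit 21407066034) (nat_lit 25) (nat_lit 4) (nat_lit 26) (nat_lit 5) (nat_lit 26) (nat_lit 4) (nat_lit 457) (nat_lit 402) (nat_lit 341)) (XT.lf (nat_lit 0) (nat_lit 4427547409) (nat_lit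 152) (nat_lit 11689759890) (nat_lit 76) (nat_lit 59341057396) (nat_lit 24) (nat_lit 5) (nat_lit 26) (nat_lit 5) (nat_lit 25) (nat_lit 4) (nat_lit 458) (nat_lit 402) (nat_lit 340))) (XT.nd (nat_lit 78) (nat_lit 76) (nat_lit 0) (XT.lf (nat_lit 0) (nat_lit 32465068479) (nat_lit 152) (nat_lit 34890328932) (nat_lit 0) (nat_lit 12675194671) (nat_lit 23) (nat_lit 5) (nat_lit 25) (nat_lit 4) (nat_lit 23) (nat_lit 4) (nat_lit 459) (nat_lit 402) (nat_lit 339)) (XT.lf (nat_lit 0) (nat_lit 22345213138) (nat_lit 76) (nat_lit 41192615160) (nat_lit 76) (nat_lit 21391158091) (nat_lit 22) (nat_lit 4) (nat_lit 23) (nat_lit 5) (nat_lit 23) (nat_lit 4) (nat_lit 460) (nat_lit 402) (nat_lit 338))))) (XT.nd (nat_lit 234) (nat_lit 228) (nat_lit 0) (XT.nd (nat_lit 78) (nat_lit 152) (nat_lit 0) (XT.lf (nat_lit 0) (nat_lit 7240418460) (nat_lit 152) (nat_lit 4969324467) (nat_lit 76) (nat_lit 77974972555) (nat_lit 21)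 (nat_lit 5) (nat_lit 23) (nat_lit 5) (nat_lit 22) (nat_lit 4) (nat_lit 461) (nat_lit 402) (nat_lit 337)) (XT.nd (nat_lit 78) (nat_lit 76) (nat_lit 0) (XT.lf (nat_lit 0) (nat_lit 38626419643) (nat_lit 152) (nat_lit 37408066276) (nat_lit 0) (nat_lit 19748216700) (nat_lit 20) (nat_lit 5) (nat_lit 22) (nat_lit 4) (nat_lit 20) (nat_lit 4) (nat_lit 462) (nat_lit 402) (nat_lit 336)) (XT.lf (nat_lit 0) (nat_lit 25692545312) (nat_lit 76) (nat_lit 47494869211) (nat_lit 76) (nat_lit 28607908966) (nat_lit 19) (nat_lit 4) (nat_lit 20) (nat_lit 5) (nat_lit 20) (nat_lit 4) (nat_lit 463) (nat_lit 402) (nat_lit 335)))) (XT.nd (nat_lit 156) (nat_lit 76) (nat_lit 0) (XT.nd (nat_lit 78) (nat_lit 76) (nat_lit 0) (XT.lf (nat_lit 0) (nat_lit 2785449485) (nat_lit 152) (nat_lit 13184897410) (nat_lit 76) (nat_lit 92285255759) (nat_lit 18) (nat_lit 5) (nat_lit 20) (nat_lit 5) (nat_lit 19) (nat_lit 4) (nat_lit 464) (nat_lit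 402) (nat_lit 334)) (XT.lf (nat_lit 0) (nat_lit 36852297243) (nat_lit 152) (nat_lit 59448899928) (nat_lit 0) (nat_lit 18849843118) (nat_lit 17) (nat_lit 5) (nat_lit 19) (nat_lit 4) (nat_lit 17) (nat_lit 4) (nat_lit 465) (nat_lit 402) (nat_lit 333))) (XT.nd (nat_lit 78) (nat_lit 0) (nat_lit 0) (XT.lf (nat_lit 0) (nat_lit 7910279600) (nat_lit 76) (nat_lit 66333472800) (nat_lit 76) (nat_lit 48324397888) (nat_lit 16) (nat_lit 4) (nat_lit 17) (nat_lit 5) (nat_lit 17) (nat_lit 4) (nat_lit 466) (nat_lit 402) (nat_lit 332)) (XT.lf (nat_lit 0) (nat_lit 82729264649) (nat_lit 76) (nat_lit 32907040480) (nat_lit 76) (nat_lit 14891835208) (nat_lit 16) (nat_lit 4) (nat_lit 17) (nat_lit 5) (nat_lit 17) (nat_lit 4) (nat_lit 467) (nat_lit 402) (nat_lit 331))))))) (XT.nd (nat_lit 1092) (nat_lit 380) (nat_lit 0) (XT.nd (nat_lit 546) (nat_lit 228) (nat_lit 0) (XT.nd (nat_lit 234) (nat_lit 228) (nat_lit 0) (XT.nd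 (nat_lit 78) (nat_lit 76) (nat_lit 0) (XT.lf (nat_lit 0) (nat_lit 20960868687) (nat_lit 152) (nat_lit 114328147298) (nat_lit 0) (nat_lit 3798124371) (nat_lit 14) (nat_lit 5) (nat_lit 16) (nat_lit 4) (nat_lit 14) (nat_lit 4) (nat_lit 468) (nat_lit 402) (nat_lit 330)) (XT.nd (nat_lit 78) (nat_lit 76) (nat_lit 0) (XT.lf (nat_lit 0) (nat_lit 60544614293) (nat_lit 152) (nat_lit 44327947320) (nat_lit 0) (nat_lit 43376864457) (nat_lit 14) (nat_lit 5) (nat_lit 16) (nat_lit 4) (nat_lit 14) (nat_lit 4) (nat_lit 469) (nat_lit 402) (nat_lit 329)) (XT.lf (nat_lit 0) (nat_lit 32260867901) (nat_lit 76) (nat_lit 71516059088) (nat_lit 76) (nat_lit 54343674512) (nat_lit 13) (nat_lit 4) (nat_lit 14) (nat_lit 5) (nat_lit 14) (nat_lit 4) (nat_lit 470) (nat_lit 402) (nat_lit 328)))) (XT.nd (nat_lit 156) (nat_lit 76) (nat_lit 0) (XT.nd (nat_lit 78) (nat_lit 152) (nat_lit 0) (XT.lf (nat_lit 0) (nat_lit 116517685052)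 (nat_lit 76) (nat_lit 34701448349) (nat_lit 76) (nat_lit 17524772347) (nat_lit 13) (nat_lit 4) (nat_lit 14) (nat_lit 5) (nat_lit 14) (nat_lit 4) (nat_lit 471) (nat_lit 402) (nat_lit 327)) (XT.lf (nat_lit 0) (nat_lit 22033729381) (nat_lit 152) (nat_lit 152469483241) (nat_lit 0) (nat_lit 5671206005) (nat_lit 11) (nat_lit 5) (nat_lit 13) (nat_lit 4) (nat_lit 11) (nat_lit 4) (nat_lit 472) (nat_lit 402) (nat_lit 326))) (XT.nd (nat_lit 78) (nat_lit 76) (nat_lit 0) (XT.lf (nat_lit 0) (nat_lit 65641865031) (nat_lit 152) (nat_lit 77512358642) (nat_lit 0) (nat_lit 49275837650) (nat_lit 11) (nat_lit 5) (nat_lit 13) (nat_lit 4) (nat_lit 11) (nat_lit 4) (nat_lit 473) (nat_lit 402) (nat_lit 325)) (XT.lf (nat_lit 0) (nat_lit 3518299459) (nat_lit 76) (nat_lit 109257631988) (nat_lit 76) (nat_lit 92888360157) (nat_lit 10) (nat_lit 4) (nat_lit 11) (nat_lit 5) (nat_lit 11) (nat_lit 4) (nat_lit 474) (nat_lit 402)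 (nat_lit 324))))) (XT.nd (nat_lit 234) (nat_lit 76) (nat_lit 0) (XT.nd (nat_lit 78) (nat_lit 152) (nat_lit 0) (XT.lf (nat_lit 0) (nat_lit 93765256558) (nat_lit 76) (nat_lit 71248806430) (nat_lit 76) (nat_lit 54876530479) (nat_lit 10) (nat_lit 4) (nat_lit 11) (nat_lit 5) (nat_lit 11) (nat_lit 4) (nat_lit 475) (nat_lit 402) (nat_lit 323)) (XT.nd (nat_lit 78) (nat_lit 152) (nat_lit 0) (XT.lf (nat_lit 0) (nat_lit 191200400804) (nat_lit 76) (nat_lit 30215218815) (nat_lit 76) (nat_lit 13840161271) (nat_lit 10) (nat_lit 4) (nat_lit 11) (nat_lit 5) (nat_lit 11) (nat_lit 4) (nat_lit 476) (nat_lit 402) (nat_lit 322)) (XT.lf (nat_lit 0) (nat_lit 30439148033) (nat_lit 152) (nat_lit 206499062314) (nat_lit 0) (nat_lit 14841402230) (nat_lit 8) (nat_lit 5) (nat_lit 10) (nat_lit 4) (nat_lit 8) (nat_lit 4) (nat_lit 477) (nat_lit 402) (nat_lit 321)))) (XT.nd (nat_lit 156) (nat_lit 76) (nat_lit 0) (XT.nd (nat_lit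 78) (nat_lit 0) (nat_lit 0) (XT.lf (nat_lit 0) (nat_lit 79057589319) (nat_lit 152) (nat_lit 127034760937) (nat_lit 0) (nat_lit 63457572309) (nat_lit 8) (nat_lit 5) (nat_lit 10) (nat_lit 4) (nat_lit 8) (nat_lit 4) (nat_lit 478) (nat_lit 402) (nat_lit 320)) (XT.lf (nat_lit 0) (nat_lit 131552279873) (nat_lit 152) (nat_lit 41240078992) (nat_lit 0) (nat_lit 115950159893) (nat_lit 8) (nat_lit 5) (nat_lit 10) (nat_lit 4) (nat_lit 8) (nat_lit 4) (nat_lit 479) (nat_lit 402) (nat_lit 319))) (XT.nd (nat_lit 78) (nat_lit 0) (nat_lit 0) (XT.lf (nat_lit 0) (nat_lit 53092694235) (nat_lit 76) (nat_lit 135970530857) (nat_lit 76) (nat_lit 120366463683) (nat_lit 7) (nat_lit 4) (nat_lit 8) (nat_lit 5) (nat_lit 8) (nat_lit 4) (nat_lit 480) (nat_lit 402) (nat_lit 318)) (XT.lf (nat_lit 0) (nat_lit 156421055134) (nat_lit 76) (nat_lit 95460657084) (nat_lit 76) (nat_lit 79854786952) (nat_lit 7) (nat_lit 4) (nat_lit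 8) (nat_lit 5) (nat_lit 8) (nat_lit 4) (nat_lit 481) (nat_lit 402) (nat_lit 317)))))) (XT.nd (nat_lit 546) (nat_lit 152) (nat_lit 0) (XT.nd (nat_lit 234) (nat_lit 76) (nat_lit 0) (XT.nd (nat_lit 78) (nat_lit 152) (nat_lit 0) (XT.lf (nat_lit 0) (nat_lit 267993736660) (nat_lit 76) (nat_lit 51721099726) (nat_lit 76) (nat_lit 36113560189) (nat_lit 7) (nat_lit 4) (nat_lit 8) (nat_lit 5) (nat_lit 8) (nat_lit 4) (nat_lit 482) (nat_lit 402) (nat_lit 316)) (XT.nd (nat_lit 78) (nat_lit 0) (nat_lit 0) (XT.lf (nat_lit 0) (nat_lit 6663476807) (nat_lit 76) (nat_lit 4201187626) (nat_lit 152) (nat_lit 370969603656) (nat_lit 5) (nat_lit 5) (nat_lit 6) (nat_lit 5) (nat_lit 7) (nat_lit 4) (nat_lit 483) (nat_lit 402) (nat_lit 315)) (XT.lf (nat_lit 0) (nat_lit 62633692060) (nat_lit 152) (nat_lit 299375893179) (nat_lit 0) (nat_lit 47766533462) (nat_lit 5) (nat_lit 5) (nat_lit 7) (nat_lit 4) (nat_lit 5) (nat_lit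 4) (nat_lit 484) (nat_lit 402) (nat_lit 314)))) (XT.nd (nat_lit 156) (nat_lit 76) (nat_lit 0) (XT.nd (nat_lit 78) (nat_lit 0) (nat_lit 0) (XT.lf (nat_lit 0) (nat_lit 118605903433) (nat_lit 152) (nat_lit 217606848202) (nat_lit 0) (nat_lit 103737482713) (nat_lit 5) (nat_lit 5) (nat_lit 7) (nat_lit 4) (nat_lit 5) (nat_lit 4) (nat_lit 485) (nat_lit 402) (nat_lit 313)) (XT.lf (nat_lit 0) (nat_lit 179047393417) (nat_lit 152) (nat_lit 129313506737) (nat_lit 0) (nat_lit 164177804067) (nat_lit 5) (nat_lit 5) (nat_lit 7) (nat_lit 4) (nat_lit 5) (nat_lit 4) (nat_lit 486) (nat_lit 402) (nat_lit 312))) (XT.nd (nat_lit 78) (nat_lit 76) (nat_lit 0) (XT.lf (nat_lit 0) (nat_lit 244316333806) (nat_lit 152) (nat_lit 33972648983) (nat_lit 0) (nat_lit 229445662389) (nat_lit 5) (nat_lit 5) (nat_lit 7) (nat_lit 4) (nat_lit 5) (nat_lit 4) (nat_lit 487) (nat_lit 402) (nat_lit 311)) (XT.lf (nat_lit 0) (nat_lit 71261521651)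 (nat_lit 76) (nat_lit 244650573916) (nat_lit 76) (nat_lit 229778900587) (nat_lit 4) (nat_lit 4) (nat_lit 5) (nat_lit 5) (nat_lit 5) (nat_lit 4) (nat_lit 488) (nat_lit 402) (nat_lit 310))))) (XT.nd (nat_lit 234) (nat_lit 152) (nat_lit 0) (XT.nd (nat_lit 78) (nat_lit 0) (nat_lit 0) (XT.lf (nat_lit 0) (nat_lit 186113450666) (nat_lit 76) (nat_lit 207706882437) (nat_lit 76) (nat_lit 192834281411) (nat_lit 4) (nat_lit 4) (nat_lit 5) (nat_lit 5) (nat_lit 5) (nat_lit 4) (nat_lit 489) (nat_lit 402) (nat_lit 309)) (XT.nd (nat_lit 78) (nat_lit 0) (nat_lit 0) (XT.lf (nat_lit 0) (nat_lit 310140452885) (nat_lit 76) (nat_lit 167814326022) (nat_lit 76) (nat_lit 152940866017) (nat_lit 4) (nat_lit 4) (nat_lit 5) (nat_lit 5) (nat_lit 5) (nat_lit 4) (nat_lit 490) (nat_lit 402) (nat_lit 308)) (XT.lf (nat_lit 0) (nat_lit 444077503135) (nat_lit 76) (nat_lit 124736504335) (nat_lit 76) (nat_lit 109862248980) (nat_lit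 4) (nat_lit 4) (nat_lit 5) (nat_lit 5) (nat_lit 5) (nat_lit 4) (nat_lit 491) (nat_lit 402) (nat_lit 307)))) (XT.nd (nat_lit 156) (nat_lit 152) (nat_lit 0) (XT.nd (nat_lit 78) (nat_lit 0) (nat_lit 0) (XT.lf (nat_lit 0) (nat_lit 588718302456) (nat_lit 76) (nat_lit 78218141397) (nat_lit 76) (nat_lit 63343149606) (nat_lit 4) (nat_lit 4) (nat_lit 5) (nat_lit 5) (nat_lit 5) (nat_lit 4) (nat_lit 492) (nat_lit 402) (nat_lit 306)) (XT.lf (nat_lit 0) (nat_lit 744919981510) (nat_lit 76) (nat_lit 27983572835) (nat_lit 76) (nat_lit 13107899159) (nat_lit 4) (nat_lit 4) (nat_lit 5) (nat_lit 5) (nat_lit 5) (nat_lit 4) (nat_lit 493) (nat_lit 402) (nat_lit 305))) (XT.nd (nat_lit 78) (nat_lit 0) (nat_lit 0) (XT.lf (nat_lit 0) (nat_lit 41339503851) (nat_lit 152) (nat_lit 777583130552) (nat_lit 0) (nat_lit 27171594278) (nat_lit 2) (nat_lit 5) (nat_lit 4) (nat_lit 4) (nat_lit 2) (nat_lit 4) (nat_lit 494) (nat_lit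 402) (nat_lit 304)) (XT.lf (nat_lit 0) (nat_lit 100884294735) (nat_lit 152) (nat_lit 723312716963) (nat_lit 0) (nat_lit 86715828394) (nat_lit 2) (nat_lit 5) (nat_lit 4) (nat_lit 4) (nat_lit 2) (nat_lit 4) (nat_lit 495) (nat_lit 402) (nat_lit 303))))))))
noncomputable def xc51 : XT := (XT.nd (nat_lit 57018) (nat_lit 0) (nat_lit 2052) (XT.nd (nat_lit 55926) (nat_lit 0) (nat_lit 6232) (XT.nd (nat_lit 55380) (nat_lit 0) (nat_lit 11476) (XT.nd (nat_lit 234) (nat_lit 0) (nat_lit 0) (XT.nd (nat_lit 78) (nat_lit 0) (nat_lit 0) (XT.lf (nat_lit 0) (nat_lit 165188333462) (nat_lit 152) (nat_lit 664709472157) (nat_lit 0) (nat_lit 151019351596) (nat_lit 2) (nat_lit 5) (nat_lit 4) (nat_lit 4) (nat_lit 2) (nat_lit 4) (nat_lit 496) (nat_lit 402) (nat_lit 302)) (XT.nd (nat_lit 78) (nat_lit 0) (nat_lit 0) (XT.lf (nat_lit 0) (nat_lit 234632681002) (nat_lit 152) (nat_lit 601426117645) (nat_lit 0) (nat_lit 220463221797)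 (nat_lit 2) (nat_lit 5) (nat_lit 4) (nat_lit 4) (nat_lit 2) (nat_lit 4) (nat_lit 497) (nat_lit 402) (nat_lit 301)) (XT.lf (nat_lit 0) (nat_lit 309628859416) (nat_lit 152) (nat_lit 533087640956) (nat_lit 0) (nat_lit 295458958230) (nat_lit 2) (nat_lit 5) (nat_lit 4) (nat_lit 4) (nat_lit 2) (nat_lit 4) (nat_lit 498) (nat_lit 402) (nat_lit 300)))) (XT.nd (nat_lit 54990) (nat_lit 0) (nat_lit 13528) (XT.nd (nat_lit 78) (nat_lit 0) (nat_lit 0) (XT.lf (nat_lit 0) (nat_lit 390621290500) (nat_lit 152) (nat_lit 459289073339) (nat_lit 0) (nat_lit 376450980073) (nat_lit 2) (nat_lit 5) (nat_lit 4) (nat_lit 4) (nat_lit 2) (nat_lit 4) (nat_lit 499) (nat_lit 402) (nat_lit 299)) (XT.lf (nat_lit 0) (nat_lit 478089929401) (nat_lit 152) (nat_lit 379593089950) (nat_lit 0) (nat_lit 463919240048) (nat_lit 2) (nat_lit 5) (nat_lit 4) (nat_lit 4) (nat_lit 2) (nat_lit 4) (nat_lit 500) (nat_lit 402) (nat_lit 298))) (XT.nd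 (nat_lit 78) (nat_lit 380) (nat_lit 0) (XT.lf (nat_lit 0) (nat_lit 2994394054) (nat_lit 380) (nat_lit 177962638) (nat_lit 380) (nat_lit 177962638) (nat_lit 185) (nat_lit 3) (nat_lit 190) (nat_lit 3) (nat_lit 190) (nat_lit 5) (nat_lit 403) (nat_lit 403) (nat_lit 394)) (XT.lf (nat_lit 0) (nat_lit 2741634156) (nat_lit 380) (nat_lit 1757644268) (nat_lit 456) (nat_lit 2295907491) (nat_lit 180) (nat_lit 5) (nat_lit 185) (nat_lit 3) (nat_lit 186) (nat_lit 5) (nat_lit 404) (nat_lit 403) (nat_lit 393))))) (XT.nd (nat_lit 234) (nat_lit 1672) (nat_lit 0) (XT.nd (nat_lit 78) (nat_lit 380) (nat_lit 0) (XT.lf (nat_lit 76) (nat_lit 3899202348) (nat_lit 0) (nat_lit 2273985409) (nat_lit 456) (nat_lit 737303571) (nat_lit 181) (nat_lit 5) (nat_lit 180) (nat_lit 5) (nat_lit 186) (nat_lit 5) (nat_lit 405) (nat_lit 403) (nat_lit 392)) (XT.nd (nat_lit 78) (nat_lit 0) (nat_lit 0) (XT.lf (nat_lit 0) (nat_lit 2511767001)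 (nat_lit 456) (nat_lit 4159965836) (nat_lit 532) (nat_lit 373241045) (nat_lit 175) (nat_lit 5) (nat_lit 181) (nat_lit 5) (nat_lit 182) (nat_lit 5) (nat_lit 406) (nat_lit 403) (nat_lit 391)) (XT.lf (nat_lit 76) (nat_lit 1981961510) (nat_lit 0) (nat_lit 3835098095) (nat_lit 532) (nat_lit 1381538067) (nat_lit 176) (nat_lit 5) (nat_lit 175) (nat_lit 5) (nat_lit 182) (nat_lit 5) (nat_lit 407) (nat_lit 403) (nat_lit 390)))) (XT.nd (nat_lit 156) (nat_lit 684) (nat_lit 0) (XT.nd (nat_lit 78) (nat_lit 456) (nat_lit 0) (XT.lf (nat_lit 76) (nat_lit 1205197343) (nat_lit 0) (nat_lit 558545555) (nat_lit 608) (nat_lit 5608961961) (nat_lit 169) (nat_lit 5) (nat_lit 168) (nat_lit 5) (nat_lit 176) (nat_lit 5) (nat_lit 408) (nat_lit 403) (nat_lit 389)) (XT.lf (nat_lit 0) (nat_lit 506457470) (nat_lit 532) (nat_lit 4486276183) (nat_lit 608) (nat_lit 2572926320) (nat_lit 162) (nat_lit 5) (nat_lit 169) (nat_lit 5)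 (nat_lit 170) (nat_lit 5) (nat_lit 409) (nat_lit 403) (nat_lit 388))) (XT.nd (nat_lit 78) (nat_lit 608) (nat_lit 0) (XT.lf (nat_lit 0) (nat_lit 547533174) (nat_lit 608) (nat_lit 64991548) (nat_lit 76) (nat_lit 7167836022) (nat_lit 161) (nat_lit 5) (nat_lit 169) (nat_lit 5) (nat_lit 162) (nat_lit 5) (nat_lit 410) (nat_lit 403) (nat_lit 387)) (XT.lf (nat_lit 0) (nat_lit 3769081658) (nat_lit 684) (nat_lit 583179620) (nat_lit 76) (nat_lit 3660849843) (nat_lit 153) (nat_lit 5) (nat_lit 162) (nat_lit 5) (nat_lit 154) (nat_lit 5) (nat_lit 411) (nat_lit 403) (nat_lit 386)))))) (XT.nd (nat_lit 546) (nat_lit 1824) (nat_lit 0) (XT.nd (nat_lit 234) (nat_lit 1520) (nat_lit 0) (XT.nd (nat_lit 78) (nat_lit 1216) (nat_lit 0) (XT.lf (nat_lit 0) (nat_lit 7155256346) (nat_lit 760) (nat_lit 982643198) (nat_lit 76) (nat_lit 131294510) (nat_lit 144) (nat_lit 5) (nat_lit 154) (nat_lit 5) (nat_lit 145) (nat_lit 5)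 (nat_lit 412) (nat_lit 403) (nat_lit 385)) (XT.nd (nat_lit 78) (nat_lit 380) (nat_lit 0) (XT.lf (nat_lit 0) (nat_lit 2183441272) (nat_lit 836) (nat_lit 1361257378) (nat_lit 76) (nat_lit 4999875232) (nat_lit 133) (nat_lit 5) (nat_lit 144) (nat_lit 5) (nat_lit 134) (nat_lit 5) (nat_lit 413) (nat_lit 403) (nat_lit 384)) (XT.lf (nat_lit 0) (nat_lit 5662979271) (nat_lit 456) (nat_lit 1657395351) (nat_lit 76) (nat_lit 1522873694) (nat_lit 128) (nat_lit 5) (nat_lit 134) (nat_lit 5) (nat_lit 129) (nat_lit 5) (nat_lit 414) (nat_lit 403) (nat_lit 383)))) (XT.nd (nat_lit 156) (nat_lit 684) (nat_lit 0) (XT.nd (nat_lit 78) (nat_lit 380) (nat_lit 0) (XT.lf (nat_lit 0) (nat_lit 258509644) (nat_lit 456) (nat_lit 1893414868) (nat_lit 76) (nat_lit 7013154100) (nat_lit 122) (nat_lit 5) (nat_lit 128) (nat_lit 5) (nat_lit 123) (nat_lit 5) (nat_lit 415) (nat_lit 403) (nat_lit 382)) (XT.lf (nat_lit 0) (nat_lit 3886633637)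 (nat_lit 456) (nat_lit 2115473288) (nat_lit 76) (nat_lit 3506696850) (nat_lit 117) (nat_lit 5) (nat_lit 123) (nat_lit 5) (nat_lit 118) (nat_lit 5) (nat_lit 416) (nat_lit 403) (nat_lit 381))) (XT.nd (nat_lit 78) (nat_lit 380) (nat_lit 0) (XT.lf (nat_lit 0) (nat_lit 7625062277) (nat_lit 304) (nat_lit 200710028) (nat_lit 380) (nat_lit 2053251991) (nat_lit 113) (nat_lit 5) (nat_lit 117) (nat_lit 5) (nat_lit 118) (nat_lit 5) (nat_lit 417) (nat_lit 403) (nat_lit 380)) (XT.lf (nat_lit 0) (nat_lit 1841714318) (nat_lit 380) (nat_lit 2396098332) (nat_lit 76) (nat_lit 6034765928) (nat_lit 108) (nat_lit 5) (nat_lit 113) (nat_lit 5) (nat_lit 109) (nat_lit 5) (nat_lit 418) (nat_lit 403) (nat_lit 379))))) (XT.nd (nat_lit 234) (nat_lit 912) (nat_lit 0) (XT.nd (nat_lit 78) (nat_lit 608) (nat_lit 0) (XT.lf (nat_lit 0) (nat_lit 6031599907) (nat_lit 380) (nat_lit 2492909770) (nat_lit 76) (nat_lit 2168690690) (nat_lit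 104) (nat_lit 5) (nat_lit 109) (nat_lit 5) (nat_lit 105) (nat_lit 5) (nat_lit 419) (nat_lit 403) (nat_lit 378)) (XT.nd (nat_lit 78) (nat_lit 304) (nat_lit 0) (XT.lf (nat_lit 0) (nat_lit 8599114723) (nat_lit 304) (nat_lit 2060993877) (nat_lit 380) (nat_lit 482218588) (nat_lit 100) (nat_lit 5) (nat_lit 104) (nat_lit 5) (nat_lit 105) (nat_lit 5) (nat_lit 420) (nat_lit 403) (nat_lit 377)) (XT.lf (nat_lit 0) (nat_lit 4029555731) (nat_lit 304) (nat_lit 2617642118) (nat_lit 76) (nat_lit 4970709091) (nat_lit 96) (nat_lit 5) (nat_lit 100) (nat_lit 5) (nat_lit 97) (nat_lit 5) (nat_lit 421) (nat_lit 403) (nat_lit 376)))) (XT.nd (nat_lit 156) (nat_lit 380) (nat_lit 0) (XT.nd (nat_lit 78) (nat_lit 304) (nat_lit 0) (XT.lf (nat_lit 0) (nat_lit 8989765922) (nat_lit 304) (nat_lit 2627985447) (nat_lit 76) (nat_lit 508188981) (nat_lit 93) (nat_lit 5) (nat_lit 97) (nat_lit 5) (nat_lit 94) (nat_lit 5) (nat_lit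 422) (nat_lit 403) (nat_lit 375)) (XT.lf (nat_lit 0) (nat_lit 1810842178) (nat_lit 304) (nat_lit 2662577187) (nat_lit 76) (nat_lit 8190301781) (nat_lit 89) (nat_lit 5) (nat_lit 93) (nat_lit 5) (nat_lit 90) (nat_lit 5) (nat_lit 423) (nat_lit 403) (nat_lit 374))) (XT.nd (nat_lit 78) (nat_lit 152) (nat_lit 0) (XT.lf (nat_lit 0) (nat_lit 7190074482) (nat_lit 304) (nat_lit 2690140406) (nat_lit 76) (nat_lit 3354440287) (nat_lit 86) (nat_lit 5) (nat_lit 90) (nat_lit 5) (nat_lit 87) (nat_lit 5) (nat_lit 424) (nat_lit 403) (nat_lit 373)) (XT.lf (nat_lit 0) (nat_lit 11161544445) (nat_lit 152) (nat_lit 2019152817) (nat_lit 228) (nat_lit 661530674) (nat_lit 84) (nat_lit 5) (nat_lit 86) (nat_lit 5) (nat_lit 87) (nat_lit 5) (nat_lit 425) (nat_lit 403) (nat_lit 372))))))) (XT.nd (nat_lit 1092) (nat_lit 1672) (nat_lit 0) (XT.nd (nat_lit 546) (nat_lit 1064) (nat_lit 0) (XT.nd (nat_lit 234) (nat_lit 684) (nat_lit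 0) (XT.nd (nat_lit 78) (nat_lit 456) (nat_lit 0) (XT.lf (nat_lit 0) (nat_lit 5213526241) (nat_lit 304) (nat_lit 2744148625) (nat_lit 76) (nat_lit 6525411096) (nat_lit 80) (nat_lit 5) (nat_lit 84) (nat_lit 5) (nat_lit 81) (nat_lit 5) (nat_lit 426) (nat_lit 403) (nat_lit 371)) (XT.nd (nat_lit 78) (nat_lit 304) (nat_lit 0) (XT.lf (nat_lit 0) (nat_lit 11715525855) (nat_lit 228) (nat_lit 2757891519) (nat_lit 76) (nat_lit 692260831) (nat_lit 78) (nat_lit 5) (nat_lit 81) (nat_lit 5) (nat_lit 79) (nat_lit 5) (nat_lit 427) (nat_lit 403) (nat_lit 370)) (XT.lf (nat_lit 0) (nat_lit 3033594347) (nat_lit 304) (nat_lit 2848127209) (nat_lit 76) (nat_lit 10004479349) (nat_lit 74) (nat_lit 5) (nat_lit 78) (nat_lit 5) (nat_lit 75) (nat_lit 5) (nat_lit 428) (nat_lit 403) (nat_lit 369)))) (XT.nd (nat_lit 156) (nat_lit 304) (nat_lit 0) (XT.nd (nat_lit 78) (nat_lit 228) (nat_lit 0) (XT.lf (nat_lit 0) (nat_lit 10138984437)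 (nat_lit 228) (nat_lit 2955115565) (nat_lit 76) (nat_lit 3556257488) (nat_lit 72) (nat_lit 5) (nat_lit 75) (nat_lit 5) (nat_lit 73) (nat_lit 5) (nat_lit 429) (nat_lit 403) (nat_lit 368)) (XT.lf (nat_lit 0) (nat_lit 610535627) (nat_lit 228) (nat_lit 3077065670) (nat_lit 76) (nat_lit 13773583483) (nat_lit 69) (nat_lit 5) (nat_lit 72) (nat_lit 5) (nat_lit 70) (nat_lit 5) (nat_lit 430) (nat_lit 403) (nat_lit 367))) (XT.nd (nat_lit 78) (nat_lit 152) (nat_lit 0) (XT.lf (nat_lit 0) (nat_lit 8380256050) (nat_lit 228) (nat_lit 3326858984) (nat_lit 76) (nat_lit 6609125775) (nat_lit 67) (nat_lit 5) (nat_lit 70) (nat_lit 5) (nat_lit 68) (nat_lit 5) (nat_lit 431) (nat_lit 403) (nat_lit 366)) (XT.lf (nat_lit 0) (nat_lit 15662356607) (nat_lit 152) (nat_lit 1382401314) (nat_lit 228) (nat_lit 2181291581) (nat_lit 65) (nat_lit 5) (nat_lit 67) (nat_lit 5) (nat_lit 68) (nat_lit 5) (nat_lit 432) (nat_lit 403) (nat_lit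 365))))) (XT.nd (nat_lit 234) (nat_lit 532) (nat_lit 0) (XT.nd (nat_lit 78) (nat_lit 304) (nat_lit 0) (XT.lf (nat_lit 0) (nat_lit 6383128556) (nat_lit 228) (nat_lit 3986983721) (nat_lit 76) (nat_lit 9814323330) (nat_lit 62) (nat_lit 5) (nat_lit 65) (nat_lit 5) (nat_lit 63) (nat_lit 5) (nat_lit 433) (nat_lit 403) (nat_lit 364)) (XT.nd (nat_lit 78) (nat_lit 152) (nat_lit 0) (XT.lf (nat_lit 0) (nat_lit 15838837237) (nat_lit 228) (nat_lit 4435862771) (nat_lit 76) (nat_lit 928883644) (nat_lit 60) (nat_lit 5) (nat_lit 63) (nat_lit 5) (nat_lit 61) (nat_lit 4) (nat_lit 434) (nat_lit 403) (nat_lit 363)) (XT.lf (nat_lit 0) (nat_lit 4070029204) (nat_lit 152) (nat_lit 5087007671) (nat_lit 76) (nat_lit 13122147380) (nat_lit 58) (nat_lit 5) (nat_lit 60) (nat_lit 5) (nat_lit 59) (nat_lit 5) (nat_lit 435) (nat_lit 403) (nat_lit 362)))) (XT.nd (nat_lit 156) (nat_lit 228) (nat_lit 0) (XT.nd (nat_lit 78) (nat_lit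 152) (nat_lit 0) (XT.lf (nat_lit 0) (nat_lit 14402066755) (nat_lit 228) (nat_lit 5865786945) (nat_lit 76) (nat_lit 3152065730) (nat_lit 56) (nat_lit 5) (nat_lit 59) (nat_lit 5) (nat_lit 57) (nat_lit 4) (nat_lit 436) (nat_lit 403) (nat_lit 361)) (XT.lf (nat_lit 0) (nat_lit 1336116556) (nat_lit 152) (nat_lit 6828737873) (nat_lit 76) (nat_lit 16463532079) (nat_lit 54) (nat_lit 5) (nat_lit 56) (nat_lit 5) (nat_lit 55) (nat_lit 5) (nat_lit 437) (nat_lit 403) (nat_lit 360))) (XT.nd (nat_lit 78) (nat_lit 76) (nat_lit 0) (XT.lf (nat_lit 0) (nat_lit 12603630374) (nat_lit 228) (nat_lit 8064896394) (nat_lit 76) (nat_lit 5237558623) (nat_lit 52) (nat_lit 5) (nat_lit 55) (nat_lit 5) (nat_lit 53) (nat_lit 4) (nat_lit 438) (nat_lit 403) (nat_lit 359)) (XT.lf (nat_lit 0) (nat_lit 17750507552) (nat_lit 76) (nat_lit 7488901590) (nat_lit 152) (nat_lit 2023252070) (nat_lit 51) (nat_lit 5) (nat_lit 52) (nat_lit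 5) (nat_lit 53) (nat_lit 4) (nat_lit 439) (nat_lit 403) (nat_lit 358)))))) (XT.nd (nat_lit 546) (nat_lit 836) (nat_lit 0) (XT.nd (nat_lit 234) (nat_lit 380) (nat_lit 0) (XT.nd (nat_lit 78) (nat_lit 228) (nat_lit 0) (XT.lf (nat_lit 0) (nat_lit 10295881447) (nat_lit 228) (nat_lit 11342690134) (nat_lit 76) (nat_lit 7058129123) (nat_lit 48) (nat_lit 5) (nat_lit 51) (nat_lit 5) (nat_lit 49) (nat_lit 4) (nat_lit 440) (nat_lit 403) (nat_lit 357)) (XT.nd (nat_lit 78) (nat_lit 152) (nat_lit 0) (XT.lf (nat_lit 0) (nat_lit 16723927828) (nat_lit 76) (nat_lit 7298014201) (nat_lit 152) (nat_lit 6197252304) (nat_lit 47) (nat_lit 5) (nat_lit 48) (nat_lit 5) (nat_lit 49) (nat_lit 4) (nat_lit 441) (nat_lit 403) (nat_lit 356)) (XT.lf (nat_lit 0) (nat_lit 7281305086) (nat_lit 152) (nat_lit 16109077511) (nat_lit 76) (nat_lit 8441547402) (nat_lit 45) (nat_lit 5) (nat_lit 47) (nat_lit 5) (nat_lit 46) (nat_lit 4)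 (nat_lit 442) (nat_lit 403) (nat_lit 355)))) (XT.nd (nat_lit 156) (nat_lit 152) (nat_lit 0) (XT.nd (nat_lit 78) (nat_lit 152) (nat_lit 0) (XT.lf (nat_lit 0) (nat_lit 14310907678) (nat_lit 76) (nat_lit 7838014931) (nat_lit 152) (nat_lit 11393290152) (nat_lit 44) (nat_lit 5) (nat_lit 45) (nat_lit 5) (nat_lit 46) (nat_lit 4) (nat_lit 443) (nat_lit 403) (nat_lit 354)) (XT.lf (nat_lit 0) (nat_lit 3297609245) (nat_lit 152) (nat_lit 22905302368) (nat_lit 76) (nat_lit 9155653854) (nat_lit 42) (nat_lit 5) (nat_lit 44) (nat_lit 5) (nat_lit 43) (nat_lit 4) (nat_lit 444) (nat_lit 403) (nat_lit 353))) (XT.nd (nat_lit 78) (nat_lit 76) (nat_lit 0) (XT.lf (nat_lit 0) (nat_lit 9935816832) (nat_lit 76) (nat_lit 9405203128) (nat_lit 152) (nat_lit 17941049726) (nat_lit 41) (nat_lit 5) (nat_lit 42) (nat_lit 5) (nat_lit 43) (nat_lit 4) (nat_lit 445) (nat_lit 403) (nat_lit 352)) (XT.lf (nat_lit 0) (nat_lit 6853560675)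 (nat_lit 76) (nat_lit 30408382904) (nat_lit 76) (nat_lit 2067810788) (nat_lit 40) (nat_lit 4) (nat_lit 41) (nat_lit 5) (nat_lit 41) (nat_lit 4) (nat_lit 446) (nat_lit 403) (nat_lit 351))))) (XT.nd (nat_lit 312) (nat_lit 456) (nat_lit 0) (XT.nd (nat_lit 156) (nat_lit 228) (nat_lit 0) (XT.nd (nat_lit 78) (nat_lit 0) (nat_lit 0) (XT.lf (nat_lit 0) (nat_lit 2834715968) (nat_lit 76) (nat_lit 12391809313) (nat_lit 152) (nat_lit 26271274974) (nat_lit 38) (nat_lit 5) (nat_lit 39) (nat_lit 5) (nat_lit 40) (nat_lit 4) (nat_lit 447) (nat_lit 403) (nat_lit 350)) (XT.lf (nat_lit 0) (nat_lit 34466644436) (nat_lit 152) (nat_lit 1935291871) (nat_lit 0) (nat_lit 7403926207) (nat_lit 38) (nat_lit 5) (nat_lit 40) (nat_lit 4) (nat_lit 38) (nat_lit 4) (nat_lit 448) (nat_lit 403) (nat_lit 349))) (XT.nd (nat_lit 78) (nat_lit 76) (nat_lit 0) (XT.lf (nat_lit 0) (nat_lit 9438438157) (nat_lit 152) (nat_lit 7745836478)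 (nat_lit 76) (nat_lit 29068441567) (nat_lit 36) (nat_lit 5) (nat_lit 38) (nat_lit 5) (nat_lit 37) (nat_lit 4) (nat_lit 449) (nat_lit 403) (nat_lit 348)) (XT.lf (nat_lit 0) (nat_lit 29984402182) (nat_lit 152) (nat_lit 14721754384) (nat_lit 0) (nat_lit 4151843142) (nat_lit 35) (nat_lit 5) (nat_lit 37) (nat_lit 4) (nat_lit 35) (nat_lit 4) (nat_lit 450) (nat_lit 403) (nat_lit 347)))) (XT.nd (nat_lit 156) (nat_lit 228) (nat_lit 0) (XT.nd (nat_lit 78) (nat_lit 76) (nat_lit 0) (XT.lf (nat_lit 0) (nat_lit 1326955217) (nat_lit 152) (nat_lit 23138361063) (nat_lit 76) (nat_lit 27163963932) (nat_lit 33) (nat_lit 5) (nat_lit 35) (nat_lit 5) (nat_lit 34) (nat_lit 4) (nat_lit 451) (nat_lit 403) (nat_lit 346)) (XT.lf (nat_lit 0) (nat_lit 21352429682) (nat_lit 76) (nat_lit 1689120940) (nat_lit 152) (nat_lit 31537281665) (nat_lit 32) (nat_lit 5) (nat_lit 33) (nat_lit 5) (nat_lit 34) (nat_lit 4) (nat_lit 452)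 (nat_lit 403) (nat_lit 345))) (XT.nd (nat_lit 78) (nat_lit 152) (nat_lit 0) (XT.lf (nat_lit 0) (nat_lit 12435112406) (nat_lit 76) (nat_lit 34977396586) (nat_lit 76) (nat_lit 10305880840) (nat_lit 31) (nat_lit 4) (nat_lit 32) (nat_lit 5) (nat_lit 32) (nat_lit 4) (nat_lit 453) (nat_lit 403) (nat_lit 344)) (XT.lf (nat_lit 0) (nat_lit 1590828734) (nat_lit 76) (nat_lit 11229681903) (nat_lit 152) (nat_lit 48248721140) (nat_lit 29) (nat_lit 5) (nat_lit 30) (nat_lit 5) (nat_lit 31) (nat_lit 4) (nat_lit 454) (nat_lit 403) (nat_lit 343))))))))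
noncomputable def xc52 : XT := (XT.nd (nat_lit 2184) (nat_lit 380) (nat_lit 0) (XT.nd (nat_lit 1092) (nat_lit 684) (nat_lit 0) (XT.nd (nat_lit 546) (nat_lit 456) (nat_lit 0) (XT.nd (nat_lit 234) (nat_lit 304) (nat_lit 0) (XT.nd (nat_lit 78) (nat_lit 228) (nat_lit 0) (XT.lf (nat_lit 0) (nat_lit 38427787002) (nat_lit 152) (nat_lit 11307348404) (nat_lit 0) (nat_lit 14894967032) (nat_lit 29) (nat_lit 5) (nat_lit 31) (nat_lit 4) (nat_lit 29) (nat_lit 4) (nat_lit 455) (nat_lit 403) (nat_lit 342)) (XT.nd (nat_lit 78) (nat_lit 152) (nat_lit 0) (XT.lf (nat_lit 0) (nat_lit 41792748114) (nat_lit 76) (nat_lit 25095876827) (nat_lit 76) (nat_lit 1546969648) (nat_lit 28) (nat_lit 4) (nat_lit 29) (nat_lit 5) (nat_lit 29) (nat_lit 4) (nat_lit 456) (nat_lit 403) (nat_lit 341)) (XT.lf (nat_lit 0) (nat_lit 24910379381) (nat_lit 152) (nat_lit 45115289984) (nat_lit 0) (nat_lit 2468662482) (nat_lit 26) (nat_lit 5)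 (nat_lit 28) (nat_lit 4) (nat_lit 26) (nat_lit 4) (nat_lit 457) (nat_lit 403) (nat_lit 340)))) (XT.nd (nat_lit 156) (nat_lit 152) (nat_lit 0) (XT.nd (nat_lit 78) (nat_lit 76) (nat_lit 0) (XT.lf (nat_lit 0) (nat_lit 9600921830) (nat_lit 76) (nat_lit 44839946848) (nat_lit 76) (nat_lit 22385094532) (nat_lit 25) (nat_lit 4) (nat_lit 26) (nat_lit 5) (nat_lit 26) (nat_lit 4) (nat_lit 458) (nat_lit 403) (nat_lit 339)) (XT.lf (nat_lit 0) (nat_lit 5440109554) (nat_lit 152) (nat_lit 11314790152) (nat_lit 76) (nat_lit 64707204863) (nat_lit 24) (nat_lit 5) (nat_lit 26) (nat_lit 5) (nat_lit 25) (nat_lit 4) (nat_lit 459) (nat_lit 403) (nat_lit 338))) (XT.nd (nat_lit 78) (nat_lit 76) (nat_lit 0) (XT.lf (nat_lit 0) (nat_lit 35701174450) (nat_lit 152) (nat_lit 36406617120) (nat_lit 0) (nat_lit 14293292312) (nat_lit 23) (nat_lit 5) (nat_lit 25) (nat_lit 4) (nat_lit 23) (nat_lit 4) (nat_lit 460) (nat_lit 403)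 (nat_lit 337)) (XT.lf (nat_lit 0) (nat_lit 25352361057) (nat_lit 76) (nat_lit 43879108329) (nat_lit 76) (nat_lit 22461295412) (nat_lit 22) (nat_lit 4) (nat_lit 23) (nat_lit 5) (nat_lit 23) (nat_lit 4) (nat_lit 461) (nat_lit 403) (nat_lit 336))))) (XT.nd (nat_lit 234) (nat_lit 228) (nat_lit 0) (XT.nd (nat_lit 78) (nat_lit 152) (nat_lit 0) (XT.lf (nat_lit 0) (nat_lit 8394313373) (nat_lit 152) (nat_lit 4218665667) (nat_lit 76) (nat_lit 84757772003) (nat_lit 21) (nat_lit 5) (nat_lit 23) (nat_lit 5) (nat_lit 22) (nat_lit 4) (nat_lit 462) (nat_lit 403) (nat_lit 335)) (XT.nd (nat_lit 78) (nat_lit 76) (nat_lit 0) (XT.lf (nat_lit 0) (nat_lit 42274347181) (nat_lit 152) (nat_lit 39283508776) (nat_lit 0) (nat_lit 21859564204) (nat_lit 20) (nat_lit 5) (nat_lit 22) (nat_lit 4) (nat_lit 20) (nat_lit 4) (nat_lit 463) (nat_lit 403) (nat_lit 334)) (XT.lf (nat_lit 0) (nat_lit 28816599467) (nat_lit 76) (nat_lit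 50758987261) (nat_lit 76) (nat_lit 30336696310) (nat_lit 19) (nat_lit 4) (nat_lit 20) (nat_lit 5) (nat_lit 20) (nat_lit 4) (nat_lit 464) (nat_lit 403) (nat_lit 333)))) (XT.nd (nat_lit 156) (nat_lit 76) (nat_lit 0) (XT.nd (nat_lit 78) (nat_lit 76) (nat_lit 0) (XT.lf (nat_lit 0) (nat_lit 3510069542) (nat_lit 152) (nat_lit 13233600217) (nat_lit 76) (nat_lit 100147285397) (nat_lit 18) (nat_lit 5) (nat_lit 20) (nat_lit 5) (nat_lit 19) (nat_lit 4) (nat_lit 465) (nat_lit 403) (nat_lit 332)) (XT.lf (nat_lit 0) (nat_lit 40287657849) (nat_lit 152) (nat_lit 63225995003) (nat_lit 0) (nat_lit 20825105794) (nat_lit 17) (nat_lit 5) (nat_lit 19) (nat_lit 4) (nat_lit 17) (nat_lit 4) (nat_lit 466) (nat_lit 403) (nat_lit 331))) (XT.nd (nat_lit 78) (nat_lit 0) (nat_lit 0) (XT.lf (nat_lit 0) (nat_lit 9479380696) (nat_lit 76) (nat_lit 71169579485) (nat_lit 76) (nat_lit 51701351172) (nat_lit 16) (nat_lit 4) (nat_lit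 17) (nat_lit 5) (nat_lit 17) (nat_lit 4) (nat_lit 467) (nat_lit 403) (nat_lit 330)) (XT.lf (nat_lit 0) (nat_lit 90214530570) (nat_lit 76) (nat_lit 35103889701) (nat_lit 76) (nat_lit 15630405592) (nat_lit 16) (nat_lit 4) (nat_lit 17) (nat_lit 5) (nat_lit 17) (nat_lit 4) (nat_lit 468) (nat_lit 403) (nat_lit 329)))))) (XT.nd (nat_lit 546) (nat_lit 228) (nat_lit 0) (XT.nd (nat_lit 234) (nat_lit 228) (nat_lit 0) (XT.nd (nat_lit 78) (nat_lit 76) (nat_lit 0) (XT.lf (nat_lit 0) (nat_lit 23063342713) (nat_lit 152) (nat_lit 122616951460) (nat_lit 0) (nat_lit 4512532631) (nat_lit 14) (nat_lit 5) (nat_lit 16) (nat_lit 4) (nat_lit 14) (nat_lit 4) (nat_lit 469) (nat_lit 403) (nat_lit 328)) (XT.nd (nat_lit 78) (nat_lit 76) (nat_lit 0) (XT.lf (nat_lit 0) (nat_lit 65782261705) (nat_lit 152) (nat_lit 47080250122) (nat_lit 0) (nat_lit 47227160197) (nat_lit 14) (nat_lit 5) (nat_lit 16) (nat_lit 4) (nat_lit 14)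 (nat_lit 4) (nat_lit 470) (nat_lit 403) (nat_lit 327)) (XT.lf (nat_lit 0) (nat_lit 35601166956) (nat_lit 76) (nat_lit 76854658302) (nat_lit 76) (nat_lit 58295583252) (nat_lit 13) (nat_lit 4) (nat_lit 14) (nat_lit 5) (nat_lit 14) (nat_lit 4) (nat_lit 471) (nat_lit 403) (nat_lit 326)))) (XT.nd (nat_lit 156) (nat_lit 76) (nat_lit 0) (XT.nd (nat_lit 78) (nat_lit 152) (nat_lit 0) (XT.lf (nat_lit 0) (nat_lit 126542275433) (nat_lit 76) (nat_lit 37123225779) (nat_lit 76) (nat_lit 18560471522) (nat_lit 13) (nat_lit 4) (nat_lit 14) (nat_lit 5) (nat_lit 14) (nat_lit 4) (nat_lit 472) (nat_lit 403) (nat_lit 325)) (XT.lf (nat_lit 0) (nat_lit 24140784173) (nat_lit 152) (nat_lit 163971640788) (nat_lit 0) (nat_lit 6458726146) (nat_lit 11) (nat_lit 5) (nat_lit 13) (nat_lit 4) (nat_lit 11) (nat_lit 4) (nat_lit 473) (nat_lit 403) (nat_lit 324))) (XT.nd (nat_lit 78) (nat_lit 76) (nat_lit 0) (XT.lf (nat_lit 0) (nat_lit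 71212062791) (nat_lit 152) (nat_lit 83069457415) (nat_lit 0) (nat_lit 53527000643) (nat_lit 11) (nat_lit 5) (nat_lit 13) (nat_lit 4) (nat_lit 11) (nat_lit 4) (nat_lit 474) (nat_lit 403) (nat_lit 323)) (XT.lf (nat_lit 0) (nat_lit 4415670663) (nat_lit 76) (nat_lit 117687181484) (nat_lit 76) (nat_lit 99999337743) (nat_lit 10) (nat_lit 4) (nat_lit 11) (nat_lit 5) (nat_lit 11) (nat_lit 4) (nat_lit 475) (nat_lit 403) (nat_lit 322))))) (XT.nd (nat_lit 234) (nat_lit 76) (nat_lit 0) (XT.nd (nat_lit 78) (nat_lit 152) (nat_lit 0) (XT.lf (nat_lit 0) (nat_lit 101836761571) (nat_lit 76) (nat_lit 76660691441) (nat_lit 76) (nat_lit 58970272152) (nat_lit 10) (nat_lit 4) (nat_lit 11) (nat_lit 5) (nat_lit 11) (nat_lit 4) (nat_lit 476) (nat_lit 403) (nat_lit 321)) (XT.nd (nat_lit 78) (nat_lit 152) (nat_lit 0) (XT.lf (nat_lit 0) (nat_lit 207024474062) (nat_lit 76) (nat_lit 32365751595) (nat_lit 76) (nat_lit 14672947538)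 (nat_lit 10) (nat_lit 4) (nat_lit 11) (nat_lit 5) (nat_lit 11) (nat_lit 4) (nat_lit 477) (nat_lit 403) (nat_lit 320)) (XT.lf (nat_lit 0) (nat_lit 33132314730) (nat_lit 152) (nat_lit 222496840862) (nat_lit 0) (nat_lit 16279922182) (nat_lit 8) (nat_lit 5) (nat_lit 10) (nat_lit 4) (nat_lit 8) (nat_lit 4) (nat_lit 478) (nat_lit 403) (nat_lit 319)))) (XT.nd (nat_lit 156) (nat_lit 76) (nat_lit 0) (XT.nd (nat_lit 78) (nat_lit 0) (nat_lit 0) (XT.lf (nat_lit 0) (nat_lit 85621117626) (nat_lit 152) (nat_lit 136714072888) (nat_lit 0) (nat_lit 68766777884) (nat_lit 8) (nat_lit 5) (nat_lit 10) (nat_lit 4) (nat_lit 8) (nat_lit 4) (nat_lit 479) (nat_lit 403) (nat_lit 318)) (XT.lf (nat_lit 0) (nat_lit 142297685561) (nat_lit 152) (nat_lit 44091628901) (nat_lit 0) (nat_lit 125441542861) (nat_lit 8) (nat_lit 5) (nat_lit 10) (nat_lit 4) (nat_lit 8) (nat_lit 4) (nat_lit 480) (nat_lit 403) (nat_lit 317))) (XT.nd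 (nat_lit 78) (nat_lit 0) (nat_lit 0) (XT.lf (nat_lit 0) (nat_lit 57768311582) (nat_lit 76) (nat_lit 146631493334) (nat_lit 76) (nat_lit 129773681229) (nat_lit 7) (nat_lit 4) (nat_lit 8) (nat_lit 5) (nat_lit 8) (nat_lit 4) (nat_lit 481) (nat_lit 403) (nat_lit 316)) (XT.lf (nat_lit 0) (nat_lit 169331222700) (nat_lit 76) (nat_lit 102896880028) (nat_lit 76) (nat_lit 86037522178) (nat_lit 7) (nat_lit 4) (nat_lit 8) (nat_lit 5) (nat_lit 8) (nat_lit 4) (nat_lit 482) (nat_lit 403) (nat_lit 315))))))) (XT.nd (nat_lit 1092) (nat_lit 0) (nat_lit 0) (XT.nd (nat_lit 546) (nat_lit 152) (nat_lit 0) (XT.nd (nat_lit 234) (nat_lit 76) (nat_lit 0) (XT.nd (nat_lit 78) (nat_lit 152) (nat_lit 0) (XT.lf (nat_lit 0) (nat_lit 289800349626) (nat_lit 76) (nat_lit 55673019536) (nat_lit 76) (nat_lit 38812230440) (nat_lit 7) (nat_lit 4) (nat_lit 8) (nat_lit 5) (nat_lit 8) (nat_lit 4) (nat_lit 483) (nat_lit 403) (nat_lit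 314)) (XT.nd (nat_lit 78) (nat_lit 0) (nat_lit 0) (XT.lf (nat_lit 0) (nat_lit 7553545536) (nat_lit 76) (nat_lit 4356532444) (nat_lit 152) (nat_lit 400462118297) (nat_lit 5) (nat_lit 5) (nat_lit 6) (nat_lit 5) (nat_lit 7) (nat_lit 4) (nat_lit 484) (nat_lit 403) (nat_lit 313)) (XT.lf (nat_lit 0) (nat_lit 67810185952) (nat_lit 152) (nat_lit 322989870349) (nat_lit 0) (nat_lit 51749860822) (nat_lit 5) (nat_lit 5) (nat_lit 7) (nat_lit 4) (nat_lit 5) (nat_lit 4) (nat_lit 485) (nat_lit 403) (nat_lit 312)))) (XT.nd (nat_lit 156) (nat_lit 76) (nat_lit 0) (XT.nd (nat_lit 78) (nat_lit 0) (nat_lit 0) (XT.lf (nat_lit 0) (nat_lit 128247892862) (nat_lit 152) (nat_lit 234704197647) (nat_lit 0) (nat_lit 112186485666) (nat_lit 5) (nat_lit 5) (nat_lit 7) (nat_lit 4) (nat_lit 5) (nat_lit 4) (nat_lit 486) (nat_lit 403) (nat_lit 311)) (XT.lf (nat_lit 0) (nat_lit 193513330404) (nat_lit 152) (nat_lit 139370440599)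 (nat_lit 0) (nat_lit 177450921295) (nat_lit 5) (nat_lit 5) (nat_lit 7) (nat_lit 4) (nat_lit 5) (nat_lit 4) (nat_lit 487) (nat_lit 403) (nat_lit 310))) (XT.nd (nat_lit 78) (nat_lit 76) (nat_lit 0) (XT.lf (nat_lit 0) (nat_lit 263993256726) (nat_lit 152) (nat_lit 36423658423) (nat_lit 0) (nat_lit 247929919921) (nat_lit 5) (nat_lit 5) (nat_lit 7) (nat_lit 4) (nat_lit 5) (nat_lit 4) (nat_lit 488) (nat_lit 403) (nat_lit 309)) (XT.lf (nat_lit 0) (nat_lit 77217650951) (nat_lit 76) (nat_lit 264093263633) (nat_lit 76) (nat_lit 248029067850) (nat_lit 4) (nat_lit 4) (nat_lit 5) (nat_lit 5) (nat_lit 5) (nat_lit 4) (nat_lit 489) (nat_lit 403) (nat_lit 308))))) (XT.nd (nat_lit 234) (nat_lit 152) (nat_lit 0) (XT.nd (nat_lit 78) (nat_lit 0) (nat_lit 0) (XT.lf (nat_lit 0) (nat_lit 201238830023) (nat_lit 76) (nat_lit 224203658777) (nat_lit 76) (nat_lit 208138667642) (nat_lit 4) (nat_lit 4) (nat_lit 5) (nat_lit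 5) (nat_lit 5) (nat_lit 4) (nat_lit 490) (nat_lit 403) (nat_lit 307)) (XT.nd (nat_lit 78) (nat_lit 0) (nat_lit 0) (XT.lf (nat_lit 0) (nat_lit 335170488471) (nat_lit 76) (nat_lit 181128570015) (nat_lit 76) (nat_lit 165062842445) (nat_lit 4) (nat_lit 4) (nat_lit 5) (nat_lit 5) (nat_lit 5) (nat_lit 4) (nat_lit 491) (nat_lit 403) (nat_lit 306)) (XT.lf (nat_lit 0) (nat_lit 479806295382) (nat_lit 76) (nat_lit 134612737563) (nat_lit 76) (nat_lit 118546328108) (nat_lit 4) (nat_lit 4) (nat_lit 5) (nat_lit 5) (nat_lit 5) (nat_lit 4) (nat_lit 492) (nat_lit 403) (nat_lit 305)))) (XT.nd (nat_lit 156) (nat_lit 152) (nat_lit 0) (XT.nd (nat_lit 78) (nat_lit 0) (nat_lit 0) (XT.lf (nat_lit 0) (nat_lit 636003351834) (nat_lit 76) (nat_lit 84380512043) (nat_lit 76) (nat_lit 68313471213) (nat_lit 4) (nat_lit 4) (nat_lit 5) (nat_lit 5) (nat_lit 5) (nat_lit 4) (nat_lit 493) (nat_lit 403) (nat_lit 304)) (XT.lf (nat_lit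 0) (nat_lit 804687270014) (nat_lit 76) (nat_lit 30134221008) (nat_lit 76) (nat_lit 14066595571) (nat_lit 4) (nat_lit 4) (nat_lit 5) (nat_lit 5) (nat_lit 5) (nat_lit 4) (nat_lit 494) (nat_lit 403) (nat_lit 303))) (XT.nd (nat_lit 78) (nat_lit 0) (nat_lit 0) (XT.lf (nat_lit 0) (nat_lit 44731246686) (nat_lit 152) (nat_lit 839618059913) (nat_lit 0) (nat_lit 29428230744) (nat_lit 2) (nat_lit 5) (nat_lit 4) (nat_lit 4) (nat_lit 2) (nat_lit 4) (nat_lit 495) (nat_lit 403) (nat_lit 302)) (XT.lf (nat_lit 0) (nat_lit 109033355468) (nat_lit 152) (nat_lit 781018733317) (nat_lit 0) (nat_lit 93729862188) (nat_lit 2) (nat_lit 5) (nat_lit 4) (nat_lit 4) (nat_lit 2) (nat_lit 4) (nat_lit 496) (nat_lit 403) (nat_lit 301)))))) (XT.nd (nat_lit 55458) (nat_lit 0) (nat_lit 9956) (XT.nd (nat_lit 234) (nat_lit 0) (nat_lit 0) (XT.nd (nat_lit 78) (nat_lit 0) (nat_lit 0) (XT.lf (nat_lit 0) (nat_lit 178475916023) (nat_lit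 152) (nat_lit 717739006778) (nat_lit 0) (nat_lit 163171980762) (nat_lit 2) (nat_lit 5) (nat_lit 4) (nat_lit 4) (nat_lit 2) (nat_lit 4) (nat_lit 497) (nat_lit 403) (nat_lit 300)) (XT.nd (nat_lit 78) (nat_lit 0) (nat_lit 0) (XT.lf (nat_lit 0) (nat_lit 253470439820) (nat_lit 152) (nat_lit 649403889324) (nat_lit 0) (nat_lit 238166095317) (nat_lit 2) (nat_lit 5) (nat_lit 4) (nat_lit 4) (nat_lit 2) (nat_lit 4) (nat_lit 498) (nat_lit 403) (nat_lit 299)) (XT.lf (nat_lit 0) (nat_lit 334461338851) (nat_lit 152) (nat_lit 575608432109) (nat_lit 0) (nat_lit 319156615422) (nat_lit 2) (nat_lit 5) (nat_lit 4) (nat_lit 4) (nat_lit 2) (nat_lit 4) (nat_lit 499) (nat_lit 403) (nat_lit 298)))) (XT.nd (nat_lit 55068) (nat_lit 0) (nat_lit 12996) (XT.nd (nat_lit 54990) (nat_lit 0) (nat_lit 13528) (XT.lf (nat_lit 0) (nat_lit 421928559186) (nat_lit 152) (nat_lit 495915328722) (nat_lit 0) (nat_lit 406623484899) (nat_lit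 2) (nat_lit 5) (nat_lit 4) (nat_lit 4) (nat_lit 2) (nat_lit 4) (nat_lit 500) (nat_lit 403) (nat_lit 297)) (XT.lf (nat_lit 0) (nat_lit 1486112256) (nat_lit 0) (nat_lit 1486112256) (nat_lit 380) (nat_lit 478088867) (nat_lit 180) (nat_lit 5) (nat_lit 180) (nat_lit 3) (nat_lit 185) (nat_lit 3) (nat_lit 404) (nat_lit 404) (nat_lit 392))) (XT.nd (nat_lit 78) (nat_lit 0) (nat_lit 76) (XT.lf (nat_lit 76) (nat_lit 1573907555) (nat_lit 0) (nat_lit 480500080) (nat_lit 532) (nat_lit 4971236944) (nat_lit 174) (nat_lit 5) (nat_lit 173) (nat_lit 3) (nat_lit 180) (nat_lit 5) (nat_lit 405) (nat_lit 404) (nat_lit 391)) (XT.lf (nat_lit 76) (nat_lit 276750794) (nat_lit 0) (nat_lit 4804678058) (nat_lit 532) (nat_lit 2088090156) (nat_lit 175) (nat_lit 5) (nat_lit 174) (nat_lit 5) (nat_lit 181) (nat_lit 5) (nat_lit 406) (nat_lit 404) (nat_lit 390))))) (XT.nd (nat_lit 234) (nat_lit 2584) (nat_lit 0) (XT.nd (nat_lit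 78) (nat_lit 0) (nat_lit 76) (XT.lf (nat_lit 0) (nat_lit 812599677) (nat_lit 532) (nat_lit 869110848) (nat_lit 608) (nat_lit 5651488479) (nat_lit 167) (nat_lit 5) (nat_lit 174) (nat_lit 5) (nat_lit 175) (nat_lit 5) (nat_lit 407) (nat_lit 404) (nat_lit 389)) (XT.nd (nat_lit 78) (nat_lit 0) (nat_lit 0) (XT.lf (nat_lit 0) (nat_lit 3726909740) (nat_lit 532) (nat_lit 1934170332) (nat_lit 608) (nat_lit 1854521944) (nat_lit 168) (nat_lit 5) (nat_lit 175) (nat_lit 5) (nat_lit 176) (nat_lit 5) (nat_lit 408) (nat_lit 404) (nat_lit 388)) (XT.lf (nat_lit 76) (nat_lit 4818338325) (nat_lit 0) (nat_lit 1929572514) (nat_lit 608) (nat_lit 971079711) (nat_lit 169) (nat_lit 5) (nat_lit 168) (nat_lit 5) (nat_lit 176) (nat_lit 5) (nat_lit 409) (nat_lit 404) (nat_lit 387)))) (XT.nd (nat_lit 156) (nat_lit 1520) (nat_lit 0) (XT.nd (nat_lit 78) (nat_lit 608) (nat_lit 0) (XT.lf (nat_lit 0) (nat_lit 1907151214) (nat_lit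 608) (nat_lit 3810695472) (nat_lit 76) (nat_lit 2224172073) (nat_lit 161) (nat_lit 5) (nat_lit 169) (nat_lit 5) (nat_lit 162) (nat_lit 5) (nat_lit 410) (nat_lit 404) (nat_lit 386)) (XT.lf (nat_lit 0) (nat_lit 3533513816) (nat_lit 608) (nat_lit 1369447428) (nat_lit 684) (nat_lit 3283122527) (nat_lit 153) (nat_lit 5) (nat_lit 161) (nat_lit 5) (nat_lit 162) (nat_lit 5) (nat_lit 411) (nat_lit 404) (nat_lit 385))) (XT.nd (nat_lit 78) (nat_lit 836) (nat_lit 0) (XT.lf (nat_lit 0) (nat_lit 3016549640) (nat_lit 684) (nat_lit 5084232622) (nat_lit 760) (nat_lit 350827785) (nat_lit 144) (nat_lit 5) (nat_lit 153) (nat_lit 5) (nat_lit 154) (nat_lit 5) (nat_lit 412) (nat_lit 404) (nat_lit 384)) (XT.lf (nat_lit 0) (nat_lit 2564158555) (nat_lit 760) (nat_lit 112313783) (nat_lit 836) (nat_lit 6062227179) (nat_lit 133) (nat_lit 5) (nat_lit 143) (nat_lit 5) (nat_lit 144) (nat_lit 5) (nat_lit 413) (nat_lit 404)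 (nat_lit 383))))))))
noncomputable def xc53 : XT := (XT.nd (nat_lit 2184) (nat_lit 2584) (nat_lit 0) (XT.nd (nat_lit 1092) (nat_lit 2280) (nat_lit 0) (XT.nd (nat_lit 546) (nat_lit 1672) (nat_lit 0) (XT.nd (nat_lit 234) (nat_lit 1292) (nat_lit 0) (XT.nd (nat_lit 78) (nat_lit 836) (nat_lit 0) (XT.lf (nat_lit 0) (nat_lit 2150599549) (nat_lit 380) (nat_lit 3812079049) (nat_lit 456) (nat_lit 3084382892) (nat_lit 128) (nat_lit 5) (nat_lit 133) (nat_lit 5) (nat_lit 134) (nat_lit 5) (nat_lit 414) (nat_lit 404) (nat_lit 382)) (XT.nd (nat_lit 78) (nat_lit 380) (nat_lit 0) (XT.lf (nat_lit 0) (nat_lit 120304548) (nat_lit 456) (nat_lit 7547965388) (nat_lit 76) (nat_lit 1712116587) (nat_lit 122) (nat_lit 5) (nat_lit 128) (nat_lit 5) (nat_lit 123) (nat_lit 5) (nat_lit 415) (nat_lit 404) (nat_lit 381)) (XT.lf (nat_lit 0) (nat_lit 1521647430) (nat_lit 380) (nat_lit 1998344257) (nat_lit 456) (nat_lit 6215558949)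 (nat_lit 117) (nat_lit 5) (nat_lit 122) (nat_lit 5) (nat_lit 123) (nat_lit 5) (nat_lit 416) (nat_lit 404) (nat_lit 380)))) (XT.nd (nat_lit 156) (nat_lit 608) (nat_lit 0) (XT.nd (nat_lit 78) (nat_lit 380) (nat_lit 0) (XT.lf (nat_lit 0) (nat_lit 1267816694) (nat_lit 304) (nat_lit 5986032223) (nat_lit 380) (nat_lit 2862202152) (nat_lit 113) (nat_lit 5) (nat_lit 117) (nat_lit 5) (nat_lit 118) (nat_lit 5) (nat_lit 417) (nat_lit 404) (nat_lit 379)) (XT.lf (nat_lit 0) (nat_lit 786873772) (nat_lit 380) (nat_lit 9437476314) (nat_lit 76) (nat_lit 299489825) (nat_lit 108) (nat_lit 5) (nat_lit 113) (nat_lit 5) (nat_lit 109) (nat_lit 5) (nat_lit 418) (nat_lit 404) (nat_lit 378))) (XT.nd (nat_lit 78) (nat_lit 304) (nat_lit 0) (XT.lf (nat_lit 0) (nat_lit 875370692) (nat_lit 304) (nat_lit 3883553535) (nat_lit 380) (nat_lit 6196442163) (nat_lit 104) (nat_lit 5) (nat_lit 108) (nat_lit 5) (nat_lit 109) (nat_lit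 5) (nat_lit 419) (nat_lit 404) (nat_lit 377)) (XT.lf (nat_lit 0) (nat_lit 737099078) (nat_lit 304) (nat_lit 8402536631) (nat_lit 380) (nat_lit 2277259337) (nat_lit 100) (nat_lit 5) (nat_lit 104) (nat_lit 5) (nat_lit 105) (nat_lit 5) (nat_lit 420) (nat_lit 404) (nat_lit 376))))) (XT.nd (nat_lit 234) (nat_lit 912) (nat_lit 0) (XT.nd (nat_lit 78) (nat_lit 456) (nat_lit 0) (XT.lf (nat_lit 0) (nat_lit 622720959) (nat_lit 228) (nat_lit 1395055676) (nat_lit 304) (nat_lit 9889819547) (nat_lit 96) (nat_lit 5) (nat_lit 99) (nat_lit 5) (nat_lit 100) (nat_lit 5) (nat_lit 421) (nat_lit 404) (nat_lit 375)) (XT.nd (nat_lit 78) (nat_lit 228) (nat_lit 0) (XT.lf (nat_lit 0) (nat_lit 491177663) (nat_lit 228) (nat_lit 6257210025) (nat_lit 304) (nat_lit 5678731639) (nat_lit 93) (nat_lit 5) (nat_lit 96) (nat_lit 5) (nat_lit 97) (nat_lit 5) (nat_lit 422) (nat_lit 404) (nat_lit 374)) (XT.lf (nat_lit 0) (nat_lit 434064359)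 (nat_lit 228) (nat_lit 11556848642) (nat_lit 304) (nat_lit 990636886) (nat_lit 90) (nat_lit 5) (nat_lit 93) (nat_lit 5) (nat_lit 94) (nat_lit 5) (nat_lit 423) (nat_lit 404) (nat_lit 373)))) (XT.nd (nat_lit 156) (nat_lit 456) (nat_lit 0) (XT.nd (nat_lit 78) (nat_lit 152) (nat_lit 0) (XT.lf (nat_lit 0) (nat_lit 324355701) (nat_lit 228) (nat_lit 3827398498) (nat_lit 304) (nat_lit 9414938419) (nat_lit 86) (nat_lit 5) (nat_lit 89) (nat_lit 5) (nat_lit 90) (nat_lit 5) (nat_lit 424) (nat_lit 404) (nat_lit 372)) (XT.lf (nat_lit 0) (nat_lit 242244414) (nat_lit 152) (nat_lit 9618354218) (nat_lit 228) (nat_lit 4327763059) (nat_lit 84) (nat_lit 5) (nat_lit 86) (nat_lit 5) (nat_lit 87) (nat_lit 5) (nat_lit 425) (nat_lit 404) (nat_lit 371))) (XT.nd (nat_lit 78) (nat_lit 152) (nat_lit 0) (XT.lf (nat_lit 0) (nat_lit 192498577) (nat_lit 228) (nat_lit 1135204746) (nat_lit 304) (nat_lit 13521231565) (nat_lit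 80) (nat_lit 5) (nat_lit 83) (nat_lit 5) (nat_lit 84) (nat_lit 5) (nat_lit 426) (nat_lit 404) (nat_lit 370)) (XT.lf (nat_lit 0) (nat_lit 54858795) (nat_lit 152) (nat_lit 7505377942) (nat_lit 228) (nat_lit 7984769739) (nat_lit 78) (nat_lit 5) (nat_lit 80) (nat_lit 5) (nat_lit 81) (nat_lit 5) (nat_lit 427) (nat_lit 404) (nat_lit 369)))))) (XT.nd (nat_lit 546) (nat_lit 1064) (nat_lit 0) (XT.nd (nat_lit 234) (nat_lit 760) (nat_lit 0) (XT.nd (nat_lit 78) (nat_lit 456) (nat_lit 0) (XT.lf (nat_lit 0) (nat_lit 14500188548) (nat_lit 228) (nat_lit 17537819) (nat_lit 76) (nat_lit 1768608263) (nat_lit 78) (nat_lit 5) (nat_lit 81) (nat_lit 5) (nat_lit 79) (nat_lit 5) (nat_lit 428) (nat_lit 404) (nat_lit 368)) (XT.nd (nat_lit 78) (nat_lit 152) (nat_lit 0) (XT.lf (nat_lit 0) (nat_lit 5060047161) (nat_lit 304) (nat_lit 184493829) (nat_lit 76) (nat_lit 11823167724) (nat_lit 74) (nat_lit 5) (nat_lit 78) (nat_lit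 5) (nat_lit 75) (nat_lit 5) (nat_lit 429) (nat_lit 404) (nat_lit 367)) (XT.lf (nat_lit 0) (nat_lit 12661641361) (nat_lit 228) (nat_lit 357496994) (nat_lit 76) (nat_lit 4877485640) (nat_lit 72) (nat_lit 5) (nat_lit 75) (nat_lit 5) (nat_lit 73) (nat_lit 5) (nat_lit 430) (nat_lit 404) (nat_lit 366)))) (XT.nd (nat_lit 156) (nat_lit 380) (nat_lit 0) (XT.nd (nat_lit 78) (nat_lit 152) (nat_lit 0) (XT.lf (nat_lit 0) (nat_lit 2313299684) (nat_lit 228) (nat_lit 557517096) (nat_lit 76) (nat_lit 15904403420) (nat_lit 69) (nat_lit 5) (nat_lit 72) (nat_lit 5) (nat_lit 70) (nat_lit 5) (nat_lit 431) (nat_lit 404) (nat_lit 365)) (XT.lf (nat_lit 0) (nat_lit 10640138549) (nat_lit 228) (nat_lit 885451117) (nat_lit 76) (nat_lit 8176326101) (nat_lit 67) (nat_lit 5) (nat_lit 70) (nat_lit 5) (nat_lit 68) (nat_lit 5) (nat_lit 432) (nat_lit 404) (nat_lit 364))) (XT.nd (nat_lit 78) (nat_lit 228) (nat_lit 0) (XT.lf (nat_lit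 0) (nat_lit 19505234612) (nat_lit 152) (nat_lit 415263463) (nat_lit 228) (nat_lit 767887404) (nat_lit 65) (nat_lit 5) (nat_lit 67) (nat_lit 5) (nat_lit 68) (nat_lit 5) (nat_lit 433) (nat_lit 404) (nat_lit 363)) (XT.lf (nat_lit 0) (nat_lit 8373047271) (nat_lit 228) (nat_lit 1723210691) (nat_lit 76) (nat_lit 11628845610) (nat_lit 62) (nat_lit 5) (nat_lit 65) (nat_lit 5) (nat_lit 63) (nat_lit 5) (nat_lit 434) (nat_lit 404) (nat_lit 362))))) (XT.nd (nat_lit 234) (nat_lit 608) (nat_lit 0) (XT.nd (nat_lit 78) (nat_lit 304) (nat_lit 0) (XT.lf (nat_lit 0) (nat_lit 18530792781) (nat_lit 228) (nat_lit 2266299219) (nat_lit 76) (nat_lit 2031421600) (nat_lit 60) (nat_lit 5) (nat_lit 63) (nat_lit 5) (nat_lit 61) (nat_lit 4) (nat_lit 435) (nat_lit 404) (nat_lit 361)) (XT.nd (nat_lit 78) (nat_lit 152) (nat_lit 0) (XT.lf (nat_lit 0) (nat_lit 5774984815) (nat_lit 152) (nat_lit 3033536018) (nat_lit 76) (nat_lit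 15183929691) (nat_lit 58) (nat_lit 5) (nat_lit 60) (nat_lit 5) (nat_lit 59) (nat_lit 5) (nat_lit 436) (nat_lit 404) (nat_lit 360)) (XT.lf (nat_lit 0) (nat_lit 16884386635) (nat_lit 228) (nat_lit 3931986267) (nat_lit 76) (nat_lit 4410539016) (nat_lit 56) (nat_lit 5) (nat_lit 59) (nat_lit 5) (nat_lit 57) (nat_lit 4) (nat_lit 437) (nat_lit 404) (nat_lit 359)))) (XT.nd (nat_lit 156) (nat_lit 304) (nat_lit 0) (XT.nd (nat_lit 78) (nat_lit 152) (nat_lit 0) (XT.lf (nat_lit 0) (nat_lit 2731381056) (nat_lit 152) (nat_lit 5033725673) (nat_lit 76) (nat_lit 18769049628) (nat_lit 54) (nat_lit 5) (nat_lit 56) (nat_lit 5) (nat_lit 55) (nat_lit 5) (nat_lit 438) (nat_lit 404) (nat_lit 358)) (XT.lf (nat_lit 0) (nat_lit 14855621369) (nat_lit 228) (nat_lit 6424850672) (nat_lit 76) (nat_lit 6635838939) (nat_lit 52) (nat_lit 5) (nat_lit 55) (nat_lit 5) (nat_lit 53) (nat_lit 4) (nat_lit 439) (nat_lit 404) (nat_lit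 357))) (XT.nd (nat_lit 78) (nat_lit 228) (nat_lit 0) (XT.lf (nat_lit 0) (nat_lit 21356471955) (nat_lit 76) (nat_lit 7087792912) (nat_lit 152) (nat_lit 940053523) (nat_lit 51) (nat_lit 5) (nat_lit 52) (nat_lit 5) (nat_lit 53) (nat_lit 4) (nat_lit 440) (nat_lit 404) (nat_lit 356)) (XT.lf (nat_lit 0) (nat_lit 12284027119) (nat_lit 228) (nat_lit 10078775488) (nat_lit 76) (nat_lit 8571348165) (nat_lit 48) (nat_lit 5) (nat_lit 51) (nat_lit 5) (nat_lit 49) (nat_lit 4) (nat_lit 441) (nat_lit 404) (nat_lit 355))))))) (XT.nd (nat_lit 1092) (nat_lit 1140) (nat_lit 0) (XT.nd (nat_lit 546) (nat_lit 684) (nat_lit 0) (XT.nd (nat_lit 234) (nat_lit 456) (nat_lit 0) (XT.nd (nat_lit 78) (nat_lit 228) (nat_lit 0) (XT.lf (nat_lit 0) (nat_lit 20138808561) (nat_lit 76) (nat_lit 6915533836) (nat_lit 152) (nat_lit 5526797613) (nat_lit 47) (nat_lit 5) (nat_lit 48) (nat_lit 5) (nat_lit 49) (nat_lit 4) (nat_lit 442) (nat_lit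 404) (nat_lit 354)) (XT.nd (nat_lit 78) (nat_lit 76) (nat_lit 0) (XT.lf (nat_lit 0) (nat_lit 8955434496) (nat_lit 152) (nat_lit 15336212097) (nat_lit 76) (nat_lit 10032205744) (nat_lit 45) (nat_lit 5) (nat_lit 47) (nat_lit 5) (nat_lit 46) (nat_lit 4) (nat_lit 443) (nat_lit 404) (nat_lit 353)) (XT.lf (nat_lit 0) (nat_lit 17427777648) (nat_lit 76) (nat_lit 7534611067) (nat_lit 152) (nat_lit 11211076405) (nat_lit 44) (nat_lit 5) (nat_lit 45) (nat_lit 5) (nat_lit 46) (nat_lit 4) (nat_lit 444) (nat_lit 404) (nat_lit 352)))) (XT.nd (nat_lit 156) (nat_lit 228) (nat_lit 0) (XT.nd (nat_lit 78) (nat_lit 76) (nat_lit 0) (XT.lf (nat_lit 0) (nat_lit 4585845438) (nat_lit 152) (nat_lit 22781552265) (nat_lit 76) (nat_lit 10768590140) (nat_lit 42) (nat_lit 5) (nat_lit 44) (nat_lit 5) (nat_lit 43) (nat_lit 4) (nat_lit 445) (nat_lit 404) (nat_lit 351)) (XT.lf (nat_lit 0) (nat_lit 12601843521) (nat_lit 76) (nat_lit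 9264216047) (nat_lit 152) (nat_lit 18349649377) (nat_lit 41) (nat_lit 5) (nat_lit 42) (nat_lit 5) (nat_lit 43) (nat_lit 4) (nat_lit 446) (nat_lit 404) (nat_lit 350))) (XT.nd (nat_lit 78) (nat_lit 152) (nat_lit 0) (XT.lf (nat_lit 0) (nat_lit 9225146173) (nat_lit 76) (nat_lit 31964466522) (nat_lit 76) (nat_lit 1239150770) (nat_lit 40) (nat_lit 4) (nat_lit 41) (nat_lit 5) (nat_lit 41) (nat_lit 4) (nat_lit 447) (nat_lit 404) (nat_lit 349)) (XT.lf (nat_lit 0) (nat_lit 4836022069) (nat_lit 76) (nat_lit 12527319451) (nat_lit 152) (nat_lit 27408316678) (nat_lit 38) (nat_lit 5) (nat_lit 39) (nat_lit 5) (nat_lit 40) (nat_lit 4) (nat_lit 448) (nat_lit 404) (nat_lit 348))))) (XT.nd (nat_lit 234) (nat_lit 456) (nat_lit 0) (XT.nd (nat_lit 78) (nat_lit 228) (nat_lit 0) (XT.lf (nat_lit 0) (nat_lit 38086990984) (nat_lit 152) (nat_lit 416843994) (nat_lit 0) (nat_lit 8763316743) (nat_lit 38) (nat_lit 5) (nat_lit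 40) (nat_lit 4) (nat_lit 38) (nat_lit 4) (nat_lit 449) (nat_lit 404) (nat_lit 347)) (XT.nd (nat_lit 78) (nat_lit 76) (nat_lit 0) (XT.lf (nat_lit 0) (nat_lit 11031125775) (nat_lit 152) (nat_lit 6737229634) (nat_lit 76) (nat_lit 32142671851) (nat_lit 36) (nat_lit 5) (nat_lit 38) (nat_lit 5) (nat_lit 37) (nat_lit 4) (nat_lit 450) (nat_lit 404) (nat_lit 346)) (XT.lf (nat_lit 0) (nat_lit 33194867333) (nat_lit 152) (nat_lit 14313794512) (nat_lit 0) (nat_lit 5217368477) (nat_lit 35) (nat_lit 5) (nat_lit 37) (nat_lit 4) (nat_lit 35) (nat_lit 4) (nat_lit 451) (nat_lit 404) (nat_lit 345)))) (XT.nd (nat_lit 156) (nat_lit 228) (nat_lit 0) (XT.nd (nat_lit 78) (nat_lit 76) (nat_lit 0) (XT.lf (nat_lit 0) (nat_lit 2221109586) (nat_lit 152) (nat_lit 23446566642) (nat_lit 76) (nat_lit 30052525593) (nat_lit 33) (nat_lit 5) (nat_lit 35) (nat_lit 5) (nat_lit 34) (nat_lit 4) (nat_lit 452) (nat_lit 404) (nat_lit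 344)) (XT.lf (nat_lit 0) (nat_lit 24536436404) (nat_lit 76) (nat_lit 1101107567) (nat_lit 152) (nat_lit 33269942072) (nat_lit 32) (nat_lit 5) (nat_lit 33) (nat_lit 5) (nat_lit 34) (nat_lit 4) (nat_lit 453) (nat_lit 404) (nat_lit 343))) (XT.nd (nat_lit 78) (nat_lit 152) (nat_lit 0) (XT.lf (nat_lit 0) (nat_lit 14866813594) (nat_lit 76) (nat_lit 37068500021) (nat_lit 76) (nat_lit 10364039280) (nat_lit 31) (nat_lit 4) (nat_lit 32) (nat_lit 5) (nat_lit 32) (nat_lit 4) (nat_lit 454) (nat_lit 404) (nat_lit 342)) (XT.lf (nat_lit 0) (nat_lit 3116018844) (nat_lit 76) (nat_lit 11438796353) (nat_lit 152) (nat_lit 51364506127) (nat_lit 29) (nat_lit 5) (nat_lit 30) (nat_lit 5) (nat_lit 31) (nat_lit 4) (nat_lit 455) (nat_lit 404) (nat_lit 341)))))) (XT.nd (nat_lit 546) (nat_lit 608) (nat_lit 0) (XT.nd (nat_lit 234) (nat_lit 304) (nat_lit 0) (XT.nd (nat_lit 78) (nat_lit 228) (nat_lit 0) (XT.lf (nat_lit 0)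 (nat_lit 42168144213) (nat_lit 152) (nat_lit 10894703383) (nat_lit 0) (nat_lit 16704341686) (nat_lit 29) (nat_lit 5) (nat_lit 31) (nat_lit 4) (nat_lit 29) (nat_lit 4) (nat_lit 456) (nat_lit 404) (nat_lit 340)) (XT.nd (nat_lit 78) (nat_lit 152) (nat_lit 0) (XT.lf (nat_lit 0) (nat_lit 46396155520) (nat_lit 76) (nat_lit 26480022326) (nat_lit 76) (nat_lit 1002427610) (nat_lit 28) (nat_lit 4) (nat_lit 29) (nat_lit 5) (nat_lit 29) (nat_lit 4) (nat_lit 457) (nat_lit 404) (nat_lit 339)) (XT.lf (nat_lit 0) (nat_lit 27530822937) (nat_lit 152) (nat_lit 47477378252) (nat_lit 0) (nat_lit 3254284593) (nat_lit 26) (nat_lit 5) (nat_lit 28) (nat_lit 4) (nat_lit 26) (nat_lit 4) (nat_lit 458) (nat_lit 404) (nat_lit 338)))) (XT.nd (nat_lit 156) (nat_lit 152) (nat_lit 0) (XT.nd (nat_lit 78) (nat_lit 76) (nat_lit 0) (XT.lf (nat_lit 0) (nat_lit 11561931543) (nat_lit 76) (nat_lit 47833955042) (nat_lit 76) (nat_lit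 23546155194) (nat_lit 25) (nat_lit 4) (nat_lit 26) (nat_lit 5) (nat_lit 26) (nat_lit 4) (nat_lit 459) (nat_lit 404) (nat_lit 337)) (XT.lf (nat_lit 0) (nat_lit 6439754492) (nat_lit 152) (nat_lit 11096730456) (nat_lit 76) (nat_lit 70414356419) (nat_lit 24) (nat_lit 5) (nat_lit 26) (nat_lit 5) (nat_lit 25) (nat_lit 4) (nat_lit 460) (nat_lit 404) (nat_lit 336))) (XT.nd (nat_lit 78) (nat_lit 76) (nat_lit 0) (XT.lf (nat_lit 0) (nat_lit 39105022601) (nat_lit 152) (nat_lit 38226092541) (nat_lit 0) (nat_lit 15954658705) (nat_lit 23) (nat_lit 5) (nat_lit 25) (nat_lit 4) (nat_lit 23) (nat_lit 4) (nat_lit 461) (nat_lit 404) (nat_lit 335)) (XT.lf (nat_lit 0) (nat_lit 28426101098) (nat_lit 76) (nat_lit 46867389633) (nat_lit 76) (nat_lit 23708511694) (nat_lit 22) (nat_lit 4) (nat_lit 23) (nat_lit 5) (nat_lit 23) (nat_lit 4) (nat_lit 462) (nat_lit 404) (nat_lit 334))))) (XT.nd (nat_lit 312) (nat_lit 304) (nat_lit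 0) (XT.nd (nat_lit 156) (nat_lit 152) (nat_lit 0) (XT.nd (nat_lit 78) (nat_lit 76) (nat_lit 0) (XT.lf (nat_lit 0) (nat_lit 9558538001) (nat_lit 152) (nat_lit 3571758408) (nat_lit 76) (nat_lit 92005473361) (nat_lit 21) (nat_lit 5) (nat_lit 23) (nat_lit 5) (nat_lit 22) (nat_lit 4) (nat_lit 463) (nat_lit 404) (nat_lit 333)) (XT.lf (nat_lit 0) (nat_lit 46134530524) (nat_lit 152) (nat_lit 41468368146) (nat_lit 0) (nat_lit 24063996495) (nat_lit 20) (nat_lit 5) (nat_lit 22) (nat_lit 4) (nat_lit 20) (nat_lit 4) (nat_lit 464) (nat_lit 404) (nat_lit 332))) (XT.nd (nat_lit 78) (nat_lit 76) (nat_lit 0) (XT.lf (nat_lit 0) (nat_lit 32038123009) (nat_lit 76) (nat_lit 54360625749) (nat_lit 76) (nat_lit 32283654842) (nat_lit 19) (nat_lit 4) (nat_lit 20) (nat_lit 5) (nat_lit 20) (nat_lit 4) (nat_lit 465) (nat_lit 404) (nat_lit 331)) (XT.lf (nat_lit 0) (nat_lit 4221074092) (nat_lit 152) (nat_lit 13429729090)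 (nat_lit 76) (nat_lit 108569912859) (nat_lit 18) (nat_lit 5) (nat_lit 20) (nat_lit 5) (nat_lit 19) (nat_lit 4) (nat_lit 466) (nat_lit 404) (nat_lit 330)))) (XT.nd (nat_lit 156) (nat_lit 152) (nat_lit 0) (XT.nd (nat_lit 78) (nat_lit 76) (nat_lit 0) (XT.lf (nat_lit 0) (nat_lit 43928346082) (nat_lit 152) (nat_lit 67444896861) (nat_lit 0) (nat_lit 22891727449) (nat_lit 17) (nat_lit 5) (nat_lit 19) (nat_lit 4) (nat_lit 17) (nat_lit 4) (nat_lit 467) (nat_lit 404) (nat_lit 329)) (XT.lf (nat_lit 0) (nat_lit 11040439252) (nat_lit 76) (nat_lit 76459706938) (nat_lit 76) (nat_lit 55418221828) (nat_lit 16) (nat_lit 4) (nat_lit 17) (nat_lit 5) (nat_lit 17) (nat_lit 4) (nat_lit 468) (nat_lit 404) (nat_lit 328))) (XT.nd (nat_lit 78) (nat_lit 152) (nat_lit 0) (XT.lf (nat_lit 0) (nat_lit 98174941257) (nat_lit 76) (nat_lit 37538646334) (nat_lit 76) (nat_lit 16492655227) (nat_lit 16) (nat_lit 4) (nat_lit 17) (nat_lit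 5) (nat_lit 17) (nat_lit 4) (nat_lit 469) (nat_lit 404) (nat_lit 327)) (XT.lf (nat_lit 0) (nat_lit 25273297416) (nat_lit 152) (nat_lit 131691184445) (nat_lit 0) (nat_lit 5225522819) (nat_lit 14) (nat_lit 5) (nat_lit 16) (nat_lit 4) (nat_lit 14) (nat_lit 4) (nat_lit 470) (nat_lit 404) (nat_lit 326))))))))
noncomputable def xc54 : XT := (XT.nd (nat_lit 2184) (nat_lit 0) (nat_lit 0) (XT.nd (nat_lit 1092) (nat_lit 380) (nat_lit 0) (XT.nd (nat_lit 546) (nat_lit 228) (nat_lit 0) (XT.nd (nat_lit 234) (nat_lit 228) (nat_lit 0) (XT.nd (nat_lit 78) (nat_lit 76) (nat_lit 0) (XT.lf (nat_lit 0) (nat_lit 71382701240) (nat_lit 152) (nat_lit 50166000565) (nat_lit 0) (nat_lit 51331247436) (nat_lit 14) (nat_lit 5) (nat_lit 16) (nat_lit 4) (nat_lit 14) (nat_lit 4) (nat_lit 471) (nat_lit 404) (nat_lit 325)) (XT.nd (nat_lit 78) (nat_lit 0) (nat_lit 0) (XT.lf (nat_lit 0) (nat_lit 39100348810) (nat_lit 76) (nat_lit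 82674939821) (nat_lit 76) (nat_lit 62620079345) (nat_lit 13) (nat_lit 4) (nat_lit 14) (nat_lit 5) (nat_lit 14) (nat_lit 4) (nat_lit 472) (nat_lit 404) (nat_lit 324)) (XT.lf (nat_lit 0) (nat_lit 137268517188) (nat_lit 76) (nat_lit 39789295744) (nat_lit 76) (nat_lit 19731280941) (nat_lit 13) (nat_lit 4) (nat_lit 14) (nat_lit 5) (nat_lit 14) (nat_lit 4) (nat_lit 473) (nat_lit 404) (nat_lit 323)))) (XT.nd (nat_lit 156) (nat_lit 76) (nat_lit 0) (XT.nd (nat_lit 78) (nat_lit 0) (nat_lit 0) (XT.lf (nat_lit 0) (nat_lit 26367277053) (nat_lit 152) (nat_lit 176493177682) (nat_lit 0) (nat_lit 7261624220) (nat_lit 11) (nat_lit 5) (nat_lit 13) (nat_lit 4) (nat_lit 11) (nat_lit 4) (nat_lit 474) (nat_lit 404) (nat_lit 322)) (XT.lf (nat_lit 0) (nat_lit 77182389060) (nat_lit 152) (nat_lit 89162982185) (nat_lit 0) (nat_lit 58074160679) (nat_lit 11) (nat_lit 5) (nat_lit 13) (nat_lit 4) (nat_lit 11) (nat_lit 4)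 (nat_lit 475) (nat_lit 404) (nat_lit 321))) (XT.nd (nat_lit 78) (nat_lit 0) (nat_lit 0) (XT.lf (nat_lit 0) (nat_lit 5296965509) (nat_lit 76) (nat_lit 126835471277) (nat_lit 76) (nat_lit 107724858128) (nat_lit 10) (nat_lit 4) (nat_lit 11) (nat_lit 5) (nat_lit 11) (nat_lit 4) (nat_lit 476) (nat_lit 404) (nat_lit 320)) (XT.lf (nat_lit 0) (nat_lit 110472629527) (nat_lit 76) (nat_lit 82546616455) (nat_lit 76) (nat_lit 63433795188) (nat_lit 10) (nat_lit 4) (nat_lit 11) (nat_lit 5) (nat_lit 11) (nat_lit 4) (nat_lit 477) (nat_lit 404) (nat_lit 319))))) (XT.nd (nat_lit 234) (nat_lit 76) (nat_lit 0) (XT.nd (nat_lit 78) (nat_lit 152) (nat_lit 0) (XT.lf (nat_lit 0) (nat_lit 224039142200) (nat_lit 76) (nat_lit 34726372555) (nat_lit 76) (nat_lit 15611506734) (nat_lit 10) (nat_lit 4) (nat_lit 11) (nat_lit 5) (nat_lit 11) (nat_lit 4) (nat_lit 478) (nat_lit 404) (nat_lit 318)) (XT.nd (nat_lit 78) (nat_lit 0)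 (nat_lit 0) (XT.lf (nat_lit 0) (nat_lit 36004123205) (nat_lit 152) (nat_lit 239848931721) (nat_lit 0) (nat_lit 17797686132) (nat_lit 8) (nat_lit 5) (nat_lit 10) (nat_lit 4) (nat_lit 8) (nat_lit 4) (nat_lit 479) (nat_lit 404) (nat_lit 317)) (XT.lf (nat_lit 0) (nat_lit 92675643422) (nat_lit 152) (nat_lit 147236702043) (nat_lit 0) (nat_lit 74467536944) (nat_lit 8) (nat_lit 5) (nat_lit 10) (nat_lit 4) (nat_lit 8) (nat_lit 4) (nat_lit 480) (nat_lit 404) (nat_lit 316)))) (XT.nd (nat_lit 156) (nat_lit 0) (nat_lit 0) (XT.nd (nat_lit 78) (nat_lit 76) (nat_lit 0) (XT.lf (nat_lit 0) (nat_lit 153871163726) (nat_lit 152) (nat_lit 47235165994) (nat_lit 0) (nat_lit 135661511503) (nat_lit 8) (nat_lit 5) (nat_lit 10) (nat_lit 4) (nat_lit 8) (nat_lit 4) (nat_lit 481) (nat_lit 404) (nat_lit 315)) (XT.lf (nat_lit 0) (nat_lit 62756890542) (nat_lit 76) (nat_lit 158176244633) (nat_lit 76) (nat_lit 139965161163) (nat_lit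 7) (nat_lit 4) (nat_lit 8) (nat_lit 5) (nat_lit 8) (nat_lit 4) (nat_lit 482) (nat_lit 404) (nat_lit 314))) (XT.nd (nat_lit 78) (nat_lit 0) (nat_lit 0) (XT.lf (nat_lit 0) (nat_lit 183217640918) (nat_lit 76) (nat_lit 110956622867) (nat_lit 76) (nat_lit 92744214170) (nat_lit 7) (nat_lit 4) (nat_lit 8) (nat_lit 5) (nat_lit 8) (nat_lit 4) (nat_lit 483) (nat_lit 404) (nat_lit 313)) (XT.lf (nat_lit 0) (nat_lit 313299118709) (nat_lit 76) (nat_lit 59967594836) (nat_lit 76) (nat_lit 41753959077) (nat_lit 7) (nat_lit 4) (nat_lit 8) (nat_lit 5) (nat_lit 8) (nat_lit 4) (nat_lit 484) (nat_lit 404) (nat_lit 312)))))) (XT.nd (nat_lit 546) (nat_lit 152) (nat_lit 0) (XT.nd (nat_lit 234) (nat_lit 76) (nat_lit 0) (XT.nd (nat_lit 78) (nat_lit 0) (nat_lit 0) (XT.lf (nat_lit 0) (nat_lit 8463891065) (nat_lit 76) (nat_lit 4550090883) (nat_lit 152) (nat_lit 432340434082) (nat_lit 5) (nat_lit 5) (nat_lit 6) (nat_lit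 5) (nat_lit 7) (nat_lit 4) (nat_lit 485) (nat_lit 404) (nat_lit 311)) (XT.nd (nat_lit 78) (nat_lit 0) (nat_lit 0) (XT.lf (nat_lit 0) (nat_lit 73377146341) (nat_lit 152) (nat_lit 348540913300) (nat_lit 0) (nat_lit 56028742591) (nat_lit 5) (nat_lit 5) (nat_lit 7) (nat_lit 4) (nat_lit 5) (nat_lit 4) (nat_lit 486) (nat_lit 404) (nat_lit 310)) (XT.lf (nat_lit 0) (nat_lit 138639340506) (nat_lit 152) (nat_lit 253213730980) (nat_lit 0) (nat_lit 121290009060) (nat_lit 5) (nat_lit 5) (nat_lit 7) (nat_lit 4) (nat_lit 5) (nat_lit 4) (nat_lit 487) (nat_lit 404) (nat_lit 309)))) (XT.nd (nat_lit 156) (nat_lit 76) (nat_lit 0) (XT.nd (nat_lit 78) (nat_lit 0) (nat_lit 0) (XT.lf (nat_lit 0) (nat_lit 209116263702) (nat_lit 152) (nat_lit 150273036515) (nat_lit 0) (nat_lit 191766073277) (nat_lit 5) (nat_lit 5) (nat_lit 7) (nat_lit 4) (nat_lit 5) (nat_lit 4) (nat_lit 488) (nat_lit 404) (nat_lit 308)) (XT.lf (nat_lit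 0) (nat_lit 285225556955) (nat_lit 152) (nat_lit 39108810974) (nat_lit 0) (nat_lit 267874571179) (nat_lit 5) (nat_lit 5) (nat_lit 7) (nat_lit 4) (nat_lit 5) (nat_lit 4) (nat_lit 489) (nat_lit 404) (nat_lit 307))) (XT.nd (nat_lit 78) (nat_lit 0) (nat_lit 0) (XT.lf (nat_lit 0) (nat_lit 83613862383) (nat_lit 76) (nat_lit 285109822635) (nat_lit 76) (nat_lit 267758100424) (nat_lit 4) (nat_lit 4) (nat_lit 5) (nat_lit 5) (nat_lit 5) (nat_lit 4) (nat_lit 490) (nat_lit 404) (nat_lit 306)) (XT.lf (nat_lit 0) (nat_lit 217540528420) (nat_lit 76) (nat_lit 242037264360) (nat_lit 76) (nat_lit 224684860263) (nat_lit 4) (nat_lit 4) (nat_lit 5) (nat_lit 5) (nat_lit 5) (nat_lit 4) (nat_lit 491) (nat_lit 404) (nat_lit 305))))) (XT.nd (nat_lit 234) (nat_lit 152) (nat_lit 0) (XT.nd (nat_lit 78) (nat_lit 0) (nat_lit 0) (XT.lf (nat_lit 0) (nat_lit 362171712730) (nat_lit 76) (nat_lit 195523774950) (nat_lit 76) (nat_lit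 178170739479) (nat_lit 4) (nat_lit 4) (nat_lit 5) (nat_lit 5) (nat_lit 5) (nat_lit 4) (nat_lit 492) (nat_lit 404) (nat_lit 304)) (XT.nd (nat_lit 78) (nat_lit 0) (nat_lit 0) (XT.lf (nat_lit 0) (nat_lit 518364488995) (nat_lit 76) (nat_lit 145293718914) (nat_lit 76) (nat_lit 127940098836) (nat_lit 4) (nat_lit 4) (nat_lit 5) (nat_lit 5) (nat_lit 5) (nat_lit 4) (nat_lit 493) (nat_lit 404) (nat_lit 303)) (XT.lf (nat_lit 0) (nat_lit 687044444039) (nat_lit 76) (nat_lit 91049436660) (nat_lit 76) (nat_lit 73695275280) (nat_lit 4) (nat_lit 4) (nat_lit 5) (nat_lit 5) (nat_lit 5) (nat_lit 4) (nat_lit 494) (nat_lit 404) (nat_lit 302)))) (XT.nd (nat_lit 156) (nat_lit 0) (nat_lit 0) (XT.nd (nat_lit 78) (nat_lit 152) (nat_lit 0) (XT.lf (nat_lit 0) (nat_lit 869211162780) (nat_lit 76) (nat_lit 32469480591) (nat_lit 76) (nat_lit 15114818004) (nat_lit 4) (nat_lit 4) (nat_lit 5) (nat_lit 5) (nat_lit 5) (nat_lit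 4) (nat_lit 495) (nat_lit 404) (nat_lit 301)) (XT.lf (nat_lit 0) (nat_lit 48382262305) (nat_lit 152) (nat_lit 906640281554) (nat_lit 0) (nat_lit 31853570242) (nat_lit 2) (nat_lit 5) (nat_lit 4) (nat_lit 4) (nat_lit 2) (nat_lit 4) (nat_lit 496) (nat_lit 404) (nat_lit 300))) (XT.nd (nat_lit 78) (nat_lit 0) (nat_lit 0) (XT.lf (nat_lit 0) (nat_lit 117823168243) (nat_lit 152) (nat_lit 843363914250) (nat_lit 0) (nat_lit 101294066939) (nat_lit 2) (nat_lit 5) (nat_lit 4) (nat_lit 4) (nat_lit 2) (nat_lit 4) (nat_lit 497) (nat_lit 404) (nat_lit 299)) (XT.lf (nat_lit 0) (nat_lit 192816159987) (nat_lit 152) (nat_lit 775031907198) (nat_lit 0) (nat_lit 176286679757) (nat_lit 2) (nat_lit 5) (nat_lit 4) (nat_lit 4) (nat_lit 2) (nat_lit 4) (nat_lit 498) (nat_lit 404) (nat_lit 298))))))) (XT.nd (nat_lit 56082) (nat_lit 0) (nat_lit 5320) (XT.nd (nat_lit 55536) (nat_lit 0) (nat_lit 9120) (XT.nd (nat_lit 55224)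 (nat_lit 0) (nat_lit 12008) (XT.nd (nat_lit 78) (nat_lit 0) (nat_lit 0) (XT.lf (nat_lit 0) (nat_lit 273805640452) (nat_lit 152) (nat_lit 701239329986) (nat_lit 0) (nat_lit 257275809363) (nat_lit 2) (nat_lit 5) (nat_lit 4) (nat_lit 4) (nat_lit 2) (nat_lit 4) (nat_lit 499) (nat_lit 404) (nat_lit 297)) (XT.nd (nat_lit 55068) (nat_lit 0) (nat_lit 12996) (XT.lf (nat_lit 0) (nat_lit 361271547299) (nat_lit 152) (nat_lit 621548893267) (nat_lit 0) (nat_lit 344741391341) (nat_lit 2) (nat_lit 5) (nat_lit 4) (nat_lit 4) (nat_lit 2) (nat_lit 4) (nat_lit 500) (nat_lit 404) (nat_lit 296)) (XT.lf (nat_lit 0) (nat_lit 2420653514) (nat_lit 532) (nat_lit 579576987) (nat_lit 532) (nat_lit 579576987) (nat_lit 173) (nat_lit 3) (nat_lit 180) (nat_lit 3) (nat_lit 180) (nat_lit 5) (nat_lit 405) (nat_lit 405) (nat_lit 390)))) (XT.nd (nat_lit 156) (nat_lit 456) (nat_lit 0) (XT.nd (nat_lit 78) (nat_lit 0) (nat_lit 76)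 (XT.lf (nat_lit 0) (nat_lit 348022604) (nat_lit 532) (nat_lit 2685006534) (nat_lit 608) (nat_lit 4279995813) (nat_lit 166) (nat_lit 5) (nat_lit 173) (nat_lit 3) (nat_lit 174) (nat_lit 5) (nat_lit 406) (nat_lit 405) (nat_lit 389)) (XT.lf (nat_lit 0) (nat_lit 2963682875) (nat_lit 532) (nat_lit 4130641857) (nat_lit 608) (nat_lit 391696704) (nat_lit 167) (nat_lit 5) (nat_lit 174) (nat_lit 5) (nat_lit 175) (nat_lit 5) (nat_lit 407) (nat_lit 405) (nat_lit 388))) (XT.nd (nat_lit 78) (nat_lit 532) (nat_lit 0) (XT.lf (nat_lit 76) (nat_lit 2166190806) (nat_lit 0) (nat_lit 3510646196) (nat_lit 608) (nat_lit 2001679183) (nat_lit 168) (nat_lit 5) (nat_lit 167) (nat_lit 5) (nat_lit 175) (nat_lit 5) (nat_lit 408) (nat_lit 405) (nat_lit 387)) (XT.lf (nat_lit 0) (nat_lit 564001389) (nat_lit 608) (nat_lit 6803885713) (nat_lit 684) (nat_lit 524701448) (nat_lit 160) (nat_lit 5) (nat_lit 168) (nat_lit 5) (nat_lit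 169) (nat_lit 5) (nat_lit 409) (nat_lit 405) (nat_lit 386))))) (XT.nd (nat_lit 234) (nat_lit 2280) (nat_lit 0) (XT.nd (nat_lit 78) (nat_lit 608) (nat_lit 0) (XT.lf (nat_lit 76) (nat_lit 40699276) (nat_lit 0) (nat_lit 3166098811) (nat_lit 684) (nat_lit 4918306001) (nat_lit 161) (nat_lit 5) (nat_lit 160) (nat_lit 5) (nat_lit 169) (nat_lit 5) (nat_lit 410) (nat_lit 405) (nat_lit 385)) (XT.nd (nat_lit 78) (nat_lit 684) (nat_lit 0) (XT.lf (nat_lit 0) (nat_lit 6000887536) (nat_lit 608) (nat_lit 883504647) (nat_lit 76) (nat_lit 1494888605) (nat_lit 161) (nat_lit 5) (nat_lit 169) (nat_lit 5) (nat_lit 162) (nat_lit 5) (nat_lit 411) (nat_lit 405) (nat_lit 384)) (XT.lf (nat_lit 0) (nat_lit 326756914) (nat_lit 684) (nat_lit 1752621312) (nat_lit 76) (nat_lit 6575489882) (nat_lit 152) (nat_lit 5) (nat_lit 161) (nat_lit 5) (nat_lit 153) (nat_lit 5) (nat_lit 412) (nat_lit 405) (nat_lit 383)))) (XT.nd (nat_lit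 156) (nat_lit 836) (nat_lit 0) (XT.nd (nat_lit 78) (nat_lit 760) (nat_lit 0) (XT.lf (nat_lit 0) (nat_lit 3154816968) (nat_lit 760) (nat_lit 2602619514) (nat_lit 76) (nat_lit 3193668747) (nat_lit 143) (nat_lit 5) (nat_lit 153) (nat_lit 5) (nat_lit 144) (nat_lit 5) (nat_lit 413) (nat_lit 405) (nat_lit 382)) (XT.lf (nat_lit 0) (nat_lit 5888887936) (nat_lit 760) (nat_lit 311133765) (nat_lit 836) (nat_lit 3071514975) (nat_lit 133) (nat_lit 5) (nat_lit 143) (nat_lit 5) (nat_lit 144) (nat_lit 5) (nat_lit 414) (nat_lit 405) (nat_lit 381))) (XT.nd (nat_lit 78) (nat_lit 456) (nat_lit 0) (XT.lf (nat_lit 0) (nat_lit 5468538785) (nat_lit 380) (nat_lit 4081814465) (nat_lit 456) (nat_lit 64211229) (nat_lit 128) (nat_lit 5) (nat_lit 133) (nat_lit 5) (nat_lit 134) (nat_lit 5) (nat_lit 415) (nat_lit 405) (nat_lit 380)) (XT.lf (nat_lit 0) (nat_lit 3108673440) (nat_lit 456) (nat_lit 4894549594) (nat_lit 76) (nat_lit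 1978014405) (nat_lit 122) (nat_lit 5) (nat_lit 128) (nat_lit 5) (nat_lit 123) (nat_lit 5) (nat_lit 416) (nat_lit 405) (nat_lit 379)))))) (XT.nd (nat_lit 546) (nat_lit 1596) (nat_lit 0) (XT.nd (nat_lit 234) (nat_lit 1140) (nat_lit 0) (XT.nd (nat_lit 78) (nat_lit 684) (nat_lit 0) (XT.lf (nat_lit 0) (nat_lit 4759076003) (nat_lit 380) (nat_lit 1849256563) (nat_lit 456) (nat_lit 3765129877) (nat_lit 117) (nat_lit 5) (nat_lit 122) (nat_lit 5) (nat_lit 123) (nat_lit 5) (nat_lit 417) (nat_lit 405) (nat_lit 378)) (XT.nd (nat_lit 78) (nat_lit 380) (nat_lit 0) (XT.lf (nat_lit 0) (nat_lit 4479727896) (nat_lit 304) (nat_lit 6006293448) (nat_lit 380) (nat_lit 306169505) (nat_lit 113) (nat_lit 5) (nat_lit 117) (nat_lit 5) (nat_lit 118) (nat_lit 5) (nat_lit 418) (nat_lit 405) (nat_lit 377)) (XT.lf (nat_lit 0) (nat_lit 3401866057) (nat_lit 380) (nat_lit 7011789638) (nat_lit 76) (nat_lit 824003328) (nat_lit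 108) (nat_lit 5) (nat_lit 113) (nat_lit 5) (nat_lit 109) (nat_lit 5) (nat_lit 419) (nat_lit 405) (nat_lit 376)))) (XT.nd (nat_lit 156) (nat_lit 532) (nat_lit 0) (XT.nd (nat_lit 78) (nat_lit 304) (nat_lit 0) (XT.lf (nat_lit 0) (nat_lit 3987856444) (nat_lit 304) (nat_lit 3562285194) (nat_lit 380) (nat_lit 4160678925) (nat_lit 104) (nat_lit 5) (nat_lit 108) (nat_lit 5) (nat_lit 109) (nat_lit 5) (nat_lit 420) (nat_lit 405) (nat_lit 375)) (XT.lf (nat_lit 0) (nat_lit 3812581608) (nat_lit 304) (nat_lit 8346404560) (nat_lit 380) (nat_lit 56434869) (nat_lit 100) (nat_lit 5) (nat_lit 104) (nat_lit 5) (nat_lit 105) (nat_lit 5) (nat_lit 421) (nat_lit 405) (nat_lit 374))) (XT.nd (nat_lit 78) (nat_lit 228) (nat_lit 0) (XT.lf (nat_lit 0) (nat_lit 3631907448) (nat_lit 228) (nat_lit 747286138) (nat_lit 304) (nat_lit 8370643148) (nat_lit 96) (nat_lit 5) (nat_lit 99) (nat_lit 5) (nat_lit 100) (nat_lit 5) (nat_lit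 422) (nat_lit 405) (nat_lit 373)) (XT.lf (nat_lit 0) (nat_lit 3455460137) (nat_lit 228) (nat_lit 5926475808) (nat_lit 304) (nat_lit 3934328879) (nat_lit 93) (nat_lit 5) (nat_lit 96) (nat_lit 5) (nat_lit 97) (nat_lit 5) (nat_lit 423) (nat_lit 405) (nat_lit 372))))) (XT.nd (nat_lit 234) (nat_lit 912) (nat_lit 0) (XT.nd (nat_lit 78) (nat_lit 380) (nat_lit 0) (XT.lf (nat_lit 0) (nat_lit 993040946) (nat_lit 304) (nat_lit 10581286297) (nat_lit 76) (nat_lit 2344847560) (nat_lit 89) (nat_lit 5) (nat_lit 93) (nat_lit 5) (nat_lit 90) (nat_lit 5) (nat_lit 424) (nat_lit 405) (nat_lit 371)) (XT.nd (nat_lit 78) (nat_lit 152) (nat_lit 0) (XT.lf (nat_lit 0) (nat_lit 3175251720) (nat_lit 228) (nat_lit 3231160840) (nat_lit 304) (nat_lit 8149211800) (nat_lit 86) (nat_lit 5) (nat_lit 89) (nat_lit 5) (nat_lit 90) (nat_lit 5) (nat_lit 425) (nat_lit 405) (nat_lit 370)) (XT.lf (nat_lit 0) (nat_lit 3042539689) (nat_lit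 152) (nat_lit 9443479794) (nat_lit 228) (nat_lit 2745325303) (nat_lit 84) (nat_lit 5) (nat_lit 86) (nat_lit 5) (nat_lit 87) (nat_lit 5) (nat_lit 426) (nat_lit 405) (nat_lit 369)))) (XT.nd (nat_lit 156) (nat_lit 456) (nat_lit 0) (XT.nd (nat_lit 78) (nat_lit 152) (nat_lit 0) (XT.lf (nat_lit 0) (nat_lit 2927239730) (nat_lit 228) (nat_lit 277774985) (nat_lit 304) (nat_lit 12743053408) (nat_lit 80) (nat_lit 5) (nat_lit 83) (nat_lit 5) (nat_lit 84) (nat_lit 5) (nat_lit 427) (nat_lit 405) (nat_lit 368)) (XT.lf (nat_lit 0) (nat_lit 2731171344) (nat_lit 152) (nat_lit 7129211575) (nat_lit 228) (nat_lit 6843247713) (nat_lit 78) (nat_lit 5) (nat_lit 80) (nat_lit 5) (nat_lit 81) (nat_lit 5) (nat_lit 428) (nat_lit 405) (nat_lit 367))) (XT.nd (nat_lit 78) (nat_lit 228) (nat_lit 0) (XT.lf (nat_lit 0) (nat_lit 2602936793) (nat_lit 228) (nat_lit 14681771396) (nat_lit 304) (nat_lit 223113540) (nat_lit 75) (nat_lit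 5) (nat_lit 78) (nat_lit 5) (nat_lit 79) (nat_lit 5) (nat_lit 429) (nat_lit 405) (nat_lit 366)) (XT.lf (nat_lit 0) (nat_lit 2355105860) (nat_lit 152) (nat_lit 4675806085) (nat_lit 228) (nat_lit 11323738948) (nat_lit 72) (nat_lit 5) (nat_lit 74) (nat_lit 5) (nat_lit 75) (nat_lit 5) (nat_lit 430) (nat_lit 405) (nat_lit 365))))))))
noncomputable def xc55 : XT := (XT.nd (nat_lit 2184) (nat_lit 1748) (nat_lit 0) (XT.nd (nat_lit 1092) (nat_lit 1292) (nat_lit 0) (XT.nd (nat_lit 546) (nat_lit 988) (nat_lit 0) (XT.nd (nat_lit 234) (nat_lit 532) (nat_lit 0) (XT.nd (nat_lit 78) (nat_lit 380) (nat_lit 0) (XT.lf (nat_lit 0) (nat_lit 2111196792) (nat_lit 152) (nat_lit 13063705692) (nat_lit 228) (nat_lit 4078276174) (nat_lit 70) (nat_lit 5) (nat_lit 72) (nat_lit 5) (nat_lit 73) (nat_lit 5) (nat_lit 431) (nat_lit 405) (nat_lit 364)) (XT.nd (nat_lit 78) (nat_lit 152) (nat_lit 0) (XT.lf (nat_lit 0) (nat_lit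 1827527664) (nat_lit 152) (nat_lit 2117339678) (nat_lit 228) (nat_lit 16259905283) (nat_lit 67) (nat_lit 5) (nat_lit 69) (nat_lit 5) (nat_lit 70) (nat_lit 5) (nat_lit 432) (nat_lit 405) (nat_lit 363)) (XT.lf (nat_lit 0) (nat_lit 1410139430) (nat_lit 152) (nat_lit 11465933920) (nat_lit 228) (nat_lit 8332629858) (nat_lit 65) (nat_lit 5) (nat_lit 67) (nat_lit 5) (nat_lit 68) (nat_lit 5) (nat_lit 433) (nat_lit 405) (nat_lit 362)))) (XT.nd (nat_lit 156) (nat_lit 152) (nat_lit 0) (XT.nd (nat_lit 78) (nat_lit 152) (nat_lit 0) (XT.lf (nat_lit 0) (nat_lit 538968272) (nat_lit 228) (nat_lit 21252833464) (nat_lit 76) (nat_lit 485100500) (nat_lit 62) (nat_lit 5) (nat_lit 65) (nat_lit 5) (nat_lit 63) (nat_lit 5) (nat_lit 434) (nat_lit 405) (nat_lit 361)) (XT.lf (nat_lit 0) (nat_lit 364887299) (nat_lit 152) (nat_lit 9951934918) (nat_lit 228) (nat_lit 13082487234) (nat_lit 60) (nat_lit 5) (nat_lit 62) (nat_lit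 5) (nat_lit 63) (nat_lit 5) (nat_lit 435) (nat_lit 405) (nat_lit 360))) (XT.nd (nat_lit 78) (nat_lit 152) (nat_lit 0) (XT.lf (nat_lit 0) (nat_lit 21234834191) (nat_lit 228) (nat_lit 283309112) (nat_lit 76) (nat_lit 3075474478) (nat_lit 60) (nat_lit 5) (nat_lit 63) (nat_lit 5) (nat_lit 61) (nat_lit 4) (nat_lit 436) (nat_lit 405) (nat_lit 359)) (XT.lf (nat_lit 0) (nat_lit 7419556709) (nat_lit 152) (nat_lit 1166794802) (nat_lit 76) (nat_lit 17266279973) (nat_lit 58) (nat_lit 5) (nat_lit 60) (nat_lit 5) (nat_lit 59) (nat_lit 5) (nat_lit 437) (nat_lit 405) (nat_lit 358))))) (XT.nd (nat_lit 234) (nat_lit 532) (nat_lit 0) (XT.nd (nat_lit 78) (nat_lit 304) (nat_lit 0) (XT.lf (nat_lit 0) (nat_lit 19375530689) (nat_lit 228) (nat_lit 2186305427) (nat_lit 76) (nat_lit 5626129074) (nat_lit 56) (nat_lit 5) (nat_lit 59) (nat_lit 5) (nat_lit 57) (nat_lit 4) (nat_lit 438) (nat_lit 405) (nat_lit 357)) (XT.nd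 (nat_lit 78) (nat_lit 152) (nat_lit 0) (XT.lf (nat_lit 0) (nat_lit 4054465595) (nat_lit 152) (nat_lit 3429126720) (nat_lit 76) (nat_lit 21117997281) (nat_lit 54) (nat_lit 5) (nat_lit 56) (nat_lit 5) (nat_lit 55) (nat_lit 5) (nat_lit 439) (nat_lit 405) (nat_lit 356)) (XT.lf (nat_lit 0) (nat_lit 17110343854) (nat_lit 228) (nat_lit 4979615961) (nat_lit 76) (nat_lit 8006277063) (nat_lit 52) (nat_lit 5) (nat_lit 55) (nat_lit 5) (nat_lit 53) (nat_lit 4) (nat_lit 440) (nat_lit 405) (nat_lit 355)))) (XT.nd (nat_lit 156) (nat_lit 228) (nat_lit 0) (XT.nd (nat_lit 78) (nat_lit 152) (nat_lit 0) (XT.lf (nat_lit 0) (nat_lit 50509296) (nat_lit 152) (nat_lit 6745923524) (nat_lit 76) (nat_lit 24887702347) (nat_lit 50) (nat_lit 5) (nat_lit 52) (nat_lit 5) (nat_lit 51) (nat_lit 5) (nat_lit 441) (nat_lit 405) (nat_lit 354)) (XT.lf (nat_lit 0) (nat_lit 14265099045) (nat_lit 228) (nat_lit 9023512150) (nat_lit 76)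 (nat_lit 10070300799) (nat_lit 48) (nat_lit 5) (nat_lit 51) (nat_lit 5) (nat_lit 49) (nat_lit 4) (nat_lit 442) (nat_lit 405) (nat_lit 353))) (XT.nd (nat_lit 78) (nat_lit 152) (nat_lit 0) (XT.lf (nat_lit 0) (nat_lit 23530577261) (nat_lit 76) (nat_lit 6640311606) (nat_lit 152) (nat_lit 4969082989) (nat_lit 47) (nat_lit 5) (nat_lit 48) (nat_lit 5) (nat_lit 49) (nat_lit 4) (nat_lit 443) (nat_lit 405) (nat_lit 352)) (XT.lf (nat_lit 0) (nat_lit 10607761748) (nat_lit 152) (nat_lit 14795626541) (nat_lit 76) (nat_lit 11619534047) (nat_lit 45) (nat_lit 5) (nat_lit 47) (nat_lit 5) (nat_lit 46) (nat_lit 4) (nat_lit 444) (nat_lit 405) (nat_lit 351)))))) (XT.nd (nat_lit 546) (nat_lit 608) (nat_lit 0) (XT.nd (nat_lit 234) (nat_lit 380) (nat_lit 0) (XT.nd (nat_lit 78) (nat_lit 228) (nat_lit 0) (XT.lf (nat_lit 0) (nat_lit 20512669747) (nat_lit 76) (nat_lit 7339673283) (nat_lit 152) (nat_lit 11170310802) (nat_lit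 44) (nat_lit 5) (nat_lit 45) (nat_lit 5) (nat_lit 46) (nat_lit 4) (nat_lit 445) (nat_lit 405) (nat_lit 350)) (XT.nd (nat_lit 78) (nat_lit 76) (nat_lit 0) (XT.lf (nat_lit 0) (nat_lit 5830994498) (nat_lit 152) (nat_lit 22926972285) (nat_lit 76) (nat_lit 12384950447) (nat_lit 42) (nat_lit 5) (nat_lit 44) (nat_lit 5) (nat_lit 43) (nat_lit 4) (nat_lit 446) (nat_lit 405) (nat_lit 349)) (XT.lf (nat_lit 0) (nat_lit 15214210261) (nat_lit 76) (nat_lit 9239403973) (nat_lit 152) (nat_lit 18937404997) (nat_lit 41) (nat_lit 5) (nat_lit 42) (nat_lit 5) (nat_lit 43) (nat_lit 4) (nat_lit 447) (nat_lit 405) (nat_lit 348)))) (XT.nd (nat_lit 156) (nat_lit 152) (nat_lit 0) (XT.nd (nat_lit 78) (nat_lit 152) (nat_lit 0) (XT.lf (nat_lit 0) (nat_lit 11526344291) (nat_lit 76) (nat_lit 33770091767) (nat_lit 76) (nat_lit 486015272) (nat_lit 40) (nat_lit 4) (nat_lit 41) (nat_lit 5) (nat_lit 41) (nat_lit 4) (nat_lit 448)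 (nat_lit 405) (nat_lit 347)) (XT.lf (nat_lit 0) (nat_lit 6744276283) (nat_lit 76) (nat_lit 12795764775) (nat_lit 152) (nat_lit 28773941293) (nat_lit 38) (nat_lit 5) (nat_lit 39) (nat_lit 5) (nat_lit 40) (nat_lit 4) (nat_lit 449) (nat_lit 405) (nat_lit 346))) (XT.nd (nat_lit 78) (nat_lit 76) (nat_lit 0) (XT.lf (nat_lit 0) (nat_lit 1016916544) (nat_lit 76) (nat_lit 40872806893) (nat_lit 76) (nat_lit 9120986864) (nat_lit 37) (nat_lit 4) (nat_lit 38) (nat_lit 5) (nat_lit 38) (nat_lit 4) (nat_lit 450) (nat_lit 405) (nat_lit 345)) (XT.lf (nat_lit 0) (nat_lit 12631733605) (nat_lit 152) (nat_lit 5880225697) (nat_lit 76) (nat_lit 35356022292) (nat_lit 36) (nat_lit 5) (nat_lit 38) (nat_lit 5) (nat_lit 37) (nat_lit 4) (nat_lit 451) (nat_lit 405) (nat_lit 344))))) (XT.nd (nat_lit 234) (nat_lit 304) (nat_lit 0) (XT.nd (nat_lit 78) (nat_lit 228) (nat_lit 0) (XT.lf (nat_lit 0) (nat_lit 36546369765) (nat_lit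 152) (nat_lit 14099415715) (nat_lit 0) (nat_lit 6263511285) (nat_lit 35) (nat_lit 5) (nat_lit 37) (nat_lit 4) (nat_lit 35) (nat_lit 4) (nat_lit 452) (nat_lit 405) (nat_lit 343)) (XT.nd (nat_lit 78) (nat_lit 76) (nat_lit 0) (XT.lf (nat_lit 0) (nat_lit 3074379586) (nat_lit 152) (nat_lit 23999535367) (nat_lit 76) (nat_lit 33070106024) (nat_lit 33) (nat_lit 5) (nat_lit 35) (nat_lit 5) (nat_lit 34) (nat_lit 4) (nat_lit 453) (nat_lit 405) (nat_lit 342)) (XT.lf (nat_lit 0) (nat_lit 27764622533) (nat_lit 76) (nat_lit 569217565) (nat_lit 152) (nat_lit 35253963597) (nat_lit 32) (nat_lit 5) (nat_lit 33) (nat_lit 5) (nat_lit 34) (nat_lit 4) (nat_lit 454) (nat_lit 405) (nat_lit 341)))) (XT.nd (nat_lit 156) (nat_lit 76) (nat_lit 0) (XT.nd (nat_lit 78) (nat_lit 152) (nat_lit 0) (XT.lf (nat_lit 0) (nat_lit 17288062141) (nat_lit 76) (nat_lit 39427765781) (nat_lit 76) (nat_lit 10536173373) (nat_lit 31) (nat_lit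 4) (nat_lit 32) (nat_lit 5) (nat_lit 32) (nat_lit 4) (nat_lit 455) (nat_lit 405) (nat_lit 340)) (XT.lf (nat_lit 0) (nat_lit 4563794703) (nat_lit 76) (nat_lit 11762970618) (nat_lit 152) (nat_lit 54835709909) (nat_lit 29) (nat_lit 5) (nat_lit 30) (nat_lit 5) (nat_lit 31) (nat_lit 4) (nat_lit 456) (nat_lit 405) (nat_lit 339))) (XT.nd (nat_lit 78) (nat_lit 76) (nat_lit 0) (XT.lf (nat_lit 0) (nat_lit 46112698502) (nat_lit 152) (nat_lit 10636964759) (nat_lit 0) (nat_lit 18570333475) (nat_lit 29) (nat_lit 5) (nat_lit 31) (nat_lit 4) (nat_lit 29) (nat_lit 4) (nat_lit 457) (nat_lit 405) (nat_lit 338)) (XT.lf (nat_lit 0) (nat_lit 51188084208) (nat_lit 76) (nat_lit 28063852226) (nat_lit 76) (nat_lit 509662620) (nat_lit 28) (nat_lit 4) (nat_lit 29) (nat_lit 5) (nat_lit 29) (nat_lit 4) (nat_lit 458) (nat_lit 405) (nat_lit 337))))))) (XT.nd (nat_lit 1092) (nat_lit 684) (nat_lit 0) (XT.nd (nat_lit 546) (nat_lit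 456) (nat_lit 0) (XT.nd (nat_lit 234) (nat_lit 304) (nat_lit 0) (XT.nd (nat_lit 78) (nat_lit 152) (nat_lit 0) (XT.lf (nat_lit 0) (nat_lit 30271365938) (nat_lit 152) (nat_lit 50206351321) (nat_lit 0) (nat_lit 4018853280) (nat_lit 26) (nat_lit 5) (nat_lit 28) (nat_lit 4) (nat_lit 26) (nat_lit 4) (nat_lit 459) (nat_lit 405) (nat_lit 336)) (XT.nd (nat_lit 78) (nat_lit 76) (nat_lit 0) (XT.lf (nat_lit 0) (nat_lit 13509636382) (nat_lit 76) (nat_lit 51152108727) (nat_lit 76) (nat_lit 24889941144) (nat_lit 25) (nat_lit 4) (nat_lit 26) (nat_lit 5) (nat_lit 26) (nat_lit 4) (nat_lit 460) (nat_lit 405) (nat_lit 335)) (XT.lf (nat_lit 0) (nat_lit 7438847894) (nat_lit 152) (nat_lit 11021469143) (nat_lit 76) (nat_lit 76502387620) (nat_lit 24) (nat_lit 5) (nat_lit 26) (nat_lit 5) (nat_lit 25) (nat_lit 4) (nat_lit 461) (nat_lit 405) (nat_lit 334)))) (XT.nd (nat_lit 156) (nat_lit 152) (nat_lit 0) (XT.nd (nat_lit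 78) (nat_lit 76) (nat_lit 0) (XT.lf (nat_lit 0) (nat_lit 42703035344) (nat_lit 152) (nat_lit 40347062361) (nat_lit 0) (nat_lit 17675049755) (nat_lit 23) (nat_lit 5) (nat_lit 25) (nat_lit 4) (nat_lit 23) (nat_lit 4) (nat_lit 462) (nat_lit 405) (nat_lit 333)) (XT.lf (nat_lit 0) (nat_lit 31596580781) (nat_lit 76) (nat_lit 50169209334) (nat_lit 76) (nat_lit 25133924325) (nat_lit 22) (nat_lit 4) (nat_lit 23) (nat_lit 5) (nat_lit 23) (nat_lit 4) (nat_lit 463) (nat_lit 405) (nat_lit 332))) (XT.nd (nat_lit 78) (nat_lit 76) (nat_lit 0) (XT.lf (nat_lit 0) (nat_lit 10745614352) (nat_lit 152) (nat_lit 3013534307) (nat_lit 76) (nat_lit 99766356701) (nat_lit 21) (nat_lit 5) (nat_lit 23) (nat_lit 5) (nat_lit 22) (nat_lit 4) (nat_lit 464) (nat_lit 405) (nat_lit 331)) (XT.lf (nat_lit 0) (nat_lit 50235302884) (nat_lit 152) (nat_lit 43964660187) (nat_lit 0) (nat_lit 26379777354) (nat_lit 20) (nat_lit 5) (nat_lit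 22) (nat_lit 4) (nat_lit 20) (nat_lit 4) (nat_lit 465) (nat_lit 405) (nat_lit 330))))) (XT.nd (nat_lit 234) (nat_lit 228) (nat_lit 0) (XT.nd (nat_lit 78) (nat_lit 152) (nat_lit 0) (XT.lf (nat_lit 0) (nat_lit 35386662891) (nat_lit 76) (nat_lit 58315888281) (nat_lit 76) (nat_lit 34454844167) (nat_lit 19) (nat_lit 4) (nat_lit 20) (nat_lit 5) (nat_lit 20) (nat_lit 4) (nat_lit 466) (nat_lit 405) (nat_lit 329)) (XT.nd (nat_lit 78) (nat_lit 76) (nat_lit 0) (XT.lf (nat_lit 0) (nat_lit 4927586311) (nat_lit 152) (nat_lit 13764601977) (nat_lit 76) (nat_lit 117607738939) (nat_lit 18) (nat_lit 5) (nat_lit 20) (nat_lit 5) (nat_lit 19) (nat_lit 4) (nat_lit 467) (nat_lit 405) (nat_lit 328)) (XT.lf (nat_lit 0) (nat_lit 47800703280) (nat_lit 152) (nat_lit 72121028954) (nat_lit 0) (nat_lit 25066526886) (nat_lit 17) (nat_lit 5) (nat_lit 19) (nat_lit 4) (nat_lit 17) (nat_lit 4) (nat_lit 468) (nat_lit 405) (nat_lit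 327)))) (XT.nd (nat_lit 156) (nat_lit 152) (nat_lit 0) (XT.nd (nat_lit 78) (nat_lit 0) (nat_lit 0) (XT.lf (nat_lit 0) (nat_lit 12611867209) (nat_lit 76) (nat_lit 82230599658) (nat_lit 76) (nat_lit 59492251045) (nat_lit 16) (nat_lit 4) (nat_lit 17) (nat_lit 5) (nat_lit 17) (nat_lit 4) (nat_lit 469) (nat_lit 405) (nat_lit 326)) (XT.lf (nat_lit 0) (nat_lit 106666152128) (nat_lit 76) (nat_lit 40221475231) (nat_lit 76) (nat_lit 17479263451) (nat_lit 16) (nat_lit 4) (nat_lit 17) (nat_lit 5) (nat_lit 17) (nat_lit 4) (nat_lit 470) (nat_lit 405) (nat_lit 325))) (XT.nd (nat_lit 78) (nat_lit 0) (nat_lit 0) (XT.lf (nat_lit 0) (nat_lit 27607993245) (nat_lit 152) (nat_lit 141596229601) (nat_lit 0) (nat_lit 5945337258) (nat_lit 14) (nat_lit 5) (nat_lit 16) (nat_lit 4) (nat_lit 14) (nat_lit 4) (nat_lit 471) (nat_lit 405) (nat_lit 324)) (XT.lf (nat_lit 0) (nat_lit 77382976631) (nat_lit 152) (nat_lit 53595716166)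 (nat_lit 0) (nat_lit 55717166318) (nat_lit 14) (nat_lit 5) (nat_lit 16) (nat_lit 4) (nat_lit 14) (nat_lit 4) (nat_lit 472) (nat_lit 405) (nat_lit 323)))))) (XT.nd (nat_lit 546) (nat_lit 380) (nat_lit 0) (XT.nd (nat_lit 234) (nat_lit 76) (nat_lit 0) (XT.nd (nat_lit 78) (nat_lit 152) (nat_lit 0) (XT.lf (nat_lit 0) (nat_lit 42786580159) (nat_lit 76) (nat_lit 89007649731) (nat_lit 76) (nat_lit 67338918745) (nat_lit 13) (nat_lit 4) (nat_lit 14) (nat_lit 5) (nat_lit 14) (nat_lit 4) (nat_lit 473) (nat_lit 405) (nat_lit 322)) (XT.nd (nat_lit 78) (nat_lit 152) (nat_lit 0) (XT.lf (nat_lit 0) (nat_lit 148766853604) (nat_lit 76) (nat_lit 42711990074) (nat_lit 76) (nat_lit 21040554762) (nat_lit 13) (nat_lit 4) (nat_lit 14) (nat_lit 5) (nat_lit 14) (nat_lit 4) (nat_lit 474) (nat_lit 405) (nat_lit 321)) (XT.lf (nat_lit 0) (nat_lit 28729771482) (nat_lit 152) (nat_lit 190101491319) (nat_lit 0) (nat_lit 8087924513)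 (nat_lit 11) (nat_lit 5) (nat_lit 13) (nat_lit 4) (nat_lit 11) (nat_lit 4) (nat_lit 475) (nat_lit 405) (nat_lit 320)))) (XT.nd (nat_lit 156) (nat_lit 0) (nat_lit 0) (XT.nd (nat_lit 78) (nat_lit 76) (nat_lit 0) (XT.lf (nat_lit 0) (nat_lit 83591343393) (nat_lit 152) (nat_lit 95822742448) (nat_lit 0) (nat_lit 62947288306) (nat_lit 11) (nat_lit 5) (nat_lit 13) (nat_lit 4) (nat_lit 11) (nat_lit 4) (nat_lit 476) (nat_lit 405) (nat_lit 319)) (XT.lf (nat_lit 0) (nat_lit 6173432963) (nat_lit 76) (nat_lit 136753669811) (nat_lit 76) (nat_lit 116107570171) (nat_lit 10) (nat_lit 4) (nat_lit 11) (nat_lit 5) (nat_lit 11) (nat_lit 4) (nat_lit 477) (nat_lit 405) (nat_lit 318))) (XT.nd (nat_lit 78) (nat_lit 0) (nat_lit 0) (XT.lf (nat_lit 0) (nat_lit 119729616013) (nat_lit 76) (nat_lit 88938642839) (nat_lit 76) (nat_lit 68290650093) (nat_lit 10) (nat_lit 4) (nat_lit 11) (nat_lit 5) (nat_lit 11) (nat_lit 4) (nat_lit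 478) (nat_lit 405) (nat_lit 317)) (XT.lf (nat_lit 0) (nat_lit 242350399617) (nat_lit 76) (nat_lit 37308461125) (nat_lit 76) (nat_lit 16658715504) (nat_lit 10) (nat_lit 4) (nat_lit 11) (nat_lit 5) (nat_lit 11) (nat_lit 4) (nat_lit 479) (nat_lit 405) (nat_lit 316))))) (XT.nd (nat_lit 312) (nat_lit 152) (nat_lit 0) (XT.nd (nat_lit 156) (nat_lit 76) (nat_lit 0) (XT.nd (nat_lit 78) (nat_lit 0) (nat_lit 0) (XT.lf (nat_lit 0) (nat_lit 39074116383) (nat_lit 152) (nat_lit 258653053040) (nat_lit 0) (nat_lit 19406146236) (nat_lit 8) (nat_lit 5) (nat_lit 10) (nat_lit 4) (nat_lit 8) (nat_lit 4) (nat_lit 480) (nat_lit 405) (nat_lit 315)) (XT.lf (nat_lit 0) (nat_lit 100265309082) (nat_lit 152) (nat_lit 158660274115) (nat_lit 0) (nat_lit 80595907690) (nat_lit 8) (nat_lit 5) (nat_lit 10) (nat_lit 4) (nat_lit 8) (nat_lit 4) (nat_lit 481) (nat_lit 405) (nat_lit 314))) (XT.nd (nat_lit 78) (nat_lit 76) (nat_lit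 0) (XT.lf (nat_lit 0) (nat_lit 166343462552) (nat_lit 152) (nat_lit 50684938448) (nat_lit 0) (nat_lit 146672735932) (nat_lit 8) (nat_lit 5) (nat_lit 10) (nat_lit 4) (nat_lit 8) (nat_lit 4) (nat_lit 482) (nat_lit 405) (nat_lit 313)) (XT.lf (nat_lit 0) (nat_lit 68092182897) (nat_lit 76) (nat_lit 170671077941) (nat_lit 76) (nat_lit 150999124258) (nat_lit 7) (nat_lit 4) (nat_lit 8) (nat_lit 5) (nat_lit 8) (nat_lit 4) (nat_lit 483) (nat_lit 405) (nat_lit 312)))) (XT.nd (nat_lit 156) (nat_lit 152) (nat_lit 0) (XT.nd (nat_lit 78) (nat_lit 0) (nat_lit 0) (XT.lf (nat_lit 0) (nat_lit 198166479147) (nat_lit 76) (nat_lit 119685683935) (nat_lit 76) (nat_lit 100012594083) (nat_lit 7) (nat_lit 4) (nat_lit 8) (nat_lit 5) (nat_lit 8) (nat_lit 4) (nat_lit 484) (nat_lit 405) (nat_lit 311)) (XT.lf (nat_lit 0) (nat_lit 338632887979) (nat_lit 76) (nat_lit 64628457274) (nat_lit 76) (nat_lit 44954315413) (nat_lit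 7) (nat_lit 4) (nat_lit 8) (nat_lit 5) (nat_lit 8) (nat_lit 4) (nat_lit 485) (nat_lit 405) (nat_lit 310))) (XT.nd (nat_lit 78) (nat_lit 0) (nat_lit 0) (XT.lf (nat_lit 0) (nat_lit 9403401086) (nat_lit 76) (nat_lit 4781241366) (nat_lit 152) (nat_lit 466791648850) (nat_lit 5) (nat_lit 5) (nat_lit 6) (nat_lit 5) (nat_lit 7) (nat_lit 4) (nat_lit 486) (nat_lit 405) (nat_lit 309)) (XT.lf (nat_lit 0) (nat_lit 79369184915) (nat_lit 152) (nat_lit 376177147032) (nat_lit 0) (nat_lit 60630120277) (nat_lit 5) (nat_lit 5) (nat_lit 7) (nat_lit 4) (nat_lit 5) (nat_lit 4) (nat_lit 487) (nat_lit 405) (nat_lit 308))))))))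
noncomputable def xc56 : XT := (XT.nd (nat_lit 57252) (nat_lit 0) (nat_lit 2964) (XT.nd (nat_lit 56160) (nat_lit 0) (nat_lit 8056) (XT.nd (nat_lit 546) (nat_lit 152) (nat_lit 0) (XT.nd (nat_lit 234) (nat_lit 76) (nat_lit 0) (XT.nd (nat_lit 78) (nat_lit 0) (nat_lit 0) (XT.lf (nat_lit 0) (nat_lit 149843327438) (nat_lit 152) (nat_lit 273242089337) (nat_lit 0) (nat_lit 131103467450) (nat_lit 5) (nat_lit 5) (nat_lit 7) (nat_lit 4) (nat_lit 5) (nat_lit 4) (nat_lit 488) (nat_lit 405) (nat_lit 307)) (XT.nd (nat_lit 78) (nat_lit 0) (nat_lit 0) (XT.lf (nat_lit 0) (nat_lit 225950045994) (nat_lit 152) (nat_lit 162083083027) (nat_lit 0) (nat_lit 207209449570) (nat_lit 5) (nat_lit 5) (nat_lit 7) (nat_lit 4) (nat_lit 5) (nat_lit 4) (nat_lit 489) (nat_lit 405) (nat_lit 306)) (XT.lf (nat_lit 0) (nat_lit 308140343359) (nat_lit 152) (nat_lit 42041408066) (nat_lit 0) (nat_lit 289399065050) (nat_lit 5) (nat_lit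 5) (nat_lit 7) (nat_lit 4) (nat_lit 5) (nat_lit 4) (nat_lit 490) (nat_lit 405) (nat_lit 305)))) (XT.nd (nat_lit 156) (nat_lit 0) (nat_lit 0) (XT.nd (nat_lit 78) (nat_lit 0) (nat_lit 0) (XT.lf (nat_lit 0) (nat_lit 90490556554) (nat_lit 76) (nat_lit 307823527781) (nat_lit 76) (nat_lit 289081618096) (nat_lit 4) (nat_lit 4) (nat_lit 5) (nat_lit 5) (nat_lit 5) (nat_lit 4) (nat_lit 491) (nat_lit 405) (nat_lit 304)) (XT.lf (nat_lit 0) (nat_lit 235117460677) (nat_lit 76) (nat_lit 261312207855) (nat_lit 76) (nat_lit 242569713564) (nat_lit 4) (nat_lit 4) (nat_lit 5) (nat_lit 5) (nat_lit 5) (nat_lit 4) (nat_lit 492) (nat_lit 405) (nat_lit 303))) (XT.nd (nat_lit 78) (nat_lit 0) (nat_lit 0) (XT.lf (nat_lit 0) (nat_lit 391306273806) (nat_lit 76) (nat_lit 211084160600) (nat_lit 76) (nat_lit 192341125007) (nat_lit 4) (nat_lit 4) (nat_lit 5) (nat_lit 5) (nat_lit 5) (nat_lit 4) (nat_lit 493) (nat_lit 405) (nat_lit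 302)) (XT.lf (nat_lit 0) (nat_lit 559982559280) (nat_lit 76) (nat_lit 156841738329) (nat_lit 76) (nat_lit 138098201530) (nat_lit 4) (nat_lit 4) (nat_lit 5) (nat_lit 5) (nat_lit 5) (nat_lit 4) (nat_lit 494) (nat_lit 405) (nat_lit 301))))) (XT.nd (nat_lit 234) (nat_lit 0) (nat_lit 0) (XT.nd (nat_lit 78) (nat_lit 152) (nat_lit 0) (XT.lf (nat_lit 0) (nat_lit 742145880270) (nat_lit 76) (nat_lit 98263504465) (nat_lit 76) (nat_lit 79519503587) (nat_lit 4) (nat_lit 4) (nat_lit 5) (nat_lit 5) (nat_lit 5) (nat_lit 4) (nat_lit 495) (nat_lit 405) (nat_lit 300)) (XT.nd (nat_lit 78) (nat_lit 152) (nat_lit 0) (XT.lf (nat_lit 0) (nat_lit 938875723125) (nat_lit 76) (nat_lit 35002328734) (nat_lit 76) (nat_lit 16257898153) (nat_lit 4) (nat_lit 4) (nat_lit 5) (nat_lit 5) (nat_lit 5) (nat_lit 4) (nat_lit 496) (nat_lit 405) (nat_lit 299)) (XT.lf (nat_lit 0) (nat_lit 52315013972) (nat_lit 152) (nat_lit 979045283956)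 (nat_lit 0) (nat_lit 34462796396) (nat_lit 2) (nat_lit 5) (nat_lit 4) (nat_lit 4) (nat_lit 2) (nat_lit 4) (nat_lit 497) (nat_lit 405) (nat_lit 298)))) (XT.nd (nat_lit 156) (nat_lit 0) (nat_lit 0) (XT.nd (nat_lit 78) (nat_lit 0) (nat_lit 0) (XT.lf (nat_lit 0) (nat_lit 127306587149) (nat_lit 152) (nat_lit 910716156906) (nat_lit 0) (nat_lit 109454018715) (nat_lit 2) (nat_lit 5) (nat_lit 4) (nat_lit 4) (nat_lit 2) (nat_lit 4) (nat_lit 498) (nat_lit 405) (nat_lit 297)) (XT.lf (nat_lit 0) (nat_lit 208294754126) (nat_lit 152) (nat_lit 836926246362) (nat_lit 0) (nat_lit 190441860823) (nat_lit 2) (nat_lit 5) (nat_lit 4) (nat_lit 4) (nat_lit 2) (nat_lit 4) (nat_lit 499) (nat_lit 405) (nat_lit 296))) (XT.nd (nat_lit 55146) (nat_lit 0) (nat_lit 12464) (XT.lf (nat_lit 0) (nat_lit 295759444780) (nat_lit 152) (nat_lit 757238278782) (nat_lit 0) (nat_lit 277906250673) (nat_lit 2) (nat_lit 5) (nat_lit 4) (nat_lit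 4) (nat_lit 2) (nat_lit 4) (nat_lit 500) (nat_lit 405) (nat_lit 295)) (XT.lf (nat_lit 0) (nat_lit 677844152) (nat_lit 0) (nat_lit 677844152) (nat_lit 532) (nat_lit 2382362008) (nat_lit 166) (nat_lit 5) (nat_lit 166) (nat_lit 3) (nat_lit 173) (nat_lit 3) (nat_lit 406) (nat_lit 406) (nat_lit 388)))))) (XT.nd (nat_lit 546) (nat_lit 2660) (nat_lit 0) (XT.nd (nat_lit 234) (nat_lit 1216) (nat_lit 0) (XT.nd (nat_lit 78) (nat_lit 532) (nat_lit 0) (XT.lf (nat_lit 0) (nat_lit 5129910216) (nat_lit 532) (nat_lit 225728424) (nat_lit 608) (nat_lit 2303348744) (nat_lit 166) (nat_lit 5) (nat_lit 173) (nat_lit 3) (nat_lit 174) (nat_lit 5) (nat_lit 407) (nat_lit 406) (nat_lit 387)) (XT.nd (nat_lit 78) (nat_lit 532) (nat_lit 0) (XT.lf (nat_lit 76) (nat_lit 6188840640) (nat_lit 0) (nat_lit 1446943488) (nat_lit 608) (nat_lit 226093441) (nat_lit 167) (nat_lit 5) (nat_lit 166) (nat_lit 5) (nat_lit 174) (nat_lit 5)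 (nat_lit 408) (nat_lit 406) (nat_lit 386)) (XT.lf (nat_lit 0) (nat_lit 2103730869) (nat_lit 608) (nat_lit 3091184684) (nat_lit 684) (nat_lit 2888627321) (nat_lit 159) (nat_lit 5) (nat_lit 167) (nat_lit 5) (nat_lit 168) (nat_lit 5) (nat_lit 409) (nat_lit 406) (nat_lit 385)))) (XT.nd (nat_lit 156) (nat_lit 1216) (nat_lit 0) (XT.nd (nat_lit 78) (nat_lit 0) (nat_lit 76) (XT.lf (nat_lit 76) (nat_lit 3890853061) (nat_lit 0) (nat_lit 636880146) (nat_lit 684) (nat_lit 3799290582) (nat_lit 160) (nat_lit 5) (nat_lit 159) (nat_lit 5) (nat_lit 168) (nat_lit 5) (nat_lit 410) (nat_lit 406) (nat_lit 384)) (XT.lf (nat_lit 76) (nat_lit 2838939318) (nat_lit 0) (nat_lit 4287177395) (nat_lit 684) (nat_lit 1464892833) (nat_lit 161) (nat_lit 5) (nat_lit 160) (nat_lit 5) (nat_lit 169) (nat_lit 5) (nat_lit 411) (nat_lit 406) (nat_lit 383))) (XT.nd (nat_lit 78) (nat_lit 684) (nat_lit 0) (XT.lf (nat_lit 0) (nat_lit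 978501023) (nat_lit 684) (nat_lit 7017257389) (nat_lit 76) (nat_lit 881772218) (nat_lit 152) (nat_lit 5) (nat_lit 161) (nat_lit 5) (nat_lit 153) (nat_lit 5) (nat_lit 412) (nat_lit 406) (nat_lit 382)) (XT.lf (nat_lit 0) (nat_lit 893654567) (nat_lit 684) (nat_lit 2695968316) (nat_lit 760) (nat_lit 5595011178) (nat_lit 143) (nat_lit 5) (nat_lit 152) (nat_lit 5) (nat_lit 153) (nat_lit 5) (nat_lit 413) (nat_lit 406) (nat_lit 381))))) (XT.nd (nat_lit 234) (nat_lit 1444) (nat_lit 0) (XT.nd (nat_lit 78) (nat_lit 1216) (nat_lit 0) (XT.lf (nat_lit 0) (nat_lit 6426392999) (nat_lit 760) (nat_lit 14764150) (nat_lit 76) (nat_lit 3074348053) (nat_lit 143) (nat_lit 5) (nat_lit 153) (nat_lit 5) (nat_lit 144) (nat_lit 5) (nat_lit 414) (nat_lit 406) (nat_lit 380)) (XT.nd (nat_lit 78) (nat_lit 456) (nat_lit 0) (XT.lf (nat_lit 0) (nat_lit 9034550322) (nat_lit 760) (nat_lit 498777277) (nat_lit 836) (nat_lit 337391885)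 (nat_lit 133) (nat_lit 5) (nat_lit 143) (nat_lit 5) (nat_lit 144) (nat_lit 5) (nat_lit 415) (nat_lit 406) (nat_lit 379)) (XT.lf (nat_lit 0) (nat_lit 2644085761) (nat_lit 456) (nat_lit 1689290163) (nat_lit 76) (nat_lit 5914251967) (nat_lit 127) (nat_lit 5) (nat_lit 133) (nat_lit 5) (nat_lit 128) (nat_lit 5) (nat_lit 416) (nat_lit 406) (nat_lit 378)))) (XT.nd (nat_lit 156) (nat_lit 684) (nat_lit 0) (XT.nd (nat_lit 78) (nat_lit 380) (nat_lit 0) (XT.lf (nat_lit 0) (nat_lit 5911160636) (nat_lit 456) (nat_lit 2493544095) (nat_lit 76) (nat_lit 2246790958) (nat_lit 122) (nat_lit 5) (nat_lit 128) (nat_lit 5) (nat_lit 123) (nat_lit 5) (nat_lit 417) (nat_lit 406) (nat_lit 377)) (XT.lf (nat_lit 0) (nat_lit 7811009884) (nat_lit 380) (nat_lit 1732317772) (nat_lit 456) (nat_lit 1539185100) (nat_lit 117) (nat_lit 5) (nat_lit 122) (nat_lit 5) (nat_lit 123) (nat_lit 5) (nat_lit 418) (nat_lit 406) (nat_lit 376)))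 (XT.nd (nat_lit 78) (nat_lit 304) (nat_lit 0) (XT.lf (nat_lit 0) (nat_lit 1991195203) (nat_lit 380) (nat_lit 4068685977) (nat_lit 76) (nat_lit 5479929353) (nat_lit 112) (nat_lit 5) (nat_lit 117) (nat_lit 5) (nat_lit 113) (nat_lit 5) (nat_lit 419) (nat_lit 406) (nat_lit 375)) (XT.lf (nat_lit 0) (nat_lit 5861980348) (nat_lit 380) (nat_lit 4845808272) (nat_lit 76) (nat_lit 1319068242) (nat_lit 108) (nat_lit 5) (nat_lit 113) (nat_lit 5) (nat_lit 109) (nat_lit 5) (nat_lit 420) (nat_lit 406) (nat_lit 374))))))) (XT.nd (nat_lit 1092) (nat_lit 1824) (nat_lit 0) (XT.nd (nat_lit 546) (nat_lit 1444) (nat_lit 0) (XT.nd (nat_lit 234) (nat_lit 912) (nat_lit 0) (XT.nd (nat_lit 78) (nat_lit 608) (nat_lit 0) (XT.lf (nat_lit 0) (nat_lit 6915300679) (nat_lit 304) (nat_lit 3305470493) (nat_lit 380) (nat_lit 2323198354) (nat_lit 104) (nat_lit 5) (nat_lit 108) (nat_lit 5) (nat_lit 109) (nat_lit 5) (nat_lit 421)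 (nat_lit 406) (nat_lit 373)) (XT.nd (nat_lit 78) (nat_lit 228) (nat_lit 0) (XT.lf (nat_lit 0) (nat_lit 1935251833) (nat_lit 380) (nat_lit 6421660795) (nat_lit 76) (nat_lit 4735736949) (nat_lit 99) (nat_lit 5) (nat_lit 104) (nat_lit 5) (nat_lit 100) (nat_lit 5) (nat_lit 422) (nat_lit 406) (nat_lit 372)) (XT.lf (nat_lit 0) (nat_lit 6459641811) (nat_lit 228) (nat_lit 156028226) (nat_lit 304) (nat_lit 7059531600) (nat_lit 96) (nat_lit 5) (nat_lit 99) (nat_lit 5) (nat_lit 100) (nat_lit 5) (nat_lit 423) (nat_lit 406) (nat_lit 371)))) (XT.nd (nat_lit 156) (nat_lit 380) (nat_lit 0) (XT.nd (nat_lit 78) (nat_lit 304) (nat_lit 0) (XT.lf (nat_lit 0) (nat_lit 6239602933) (nat_lit 228) (nat_lit 5687878665) (nat_lit 304) (nat_lit 2364043219) (nat_lit 93) (nat_lit 5) (nat_lit 96) (nat_lit 5) (nat_lit 97) (nat_lit 5) (nat_lit 424) (nat_lit 406) (nat_lit 370)) (XT.lf (nat_lit 0) (nat_lit 2811755218) (nat_lit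 304) (nat_lit 8895815499) (nat_lit 76) (nat_lit 3237917329) (nat_lit 89) (nat_lit 5) (nat_lit 93) (nat_lit 5) (nat_lit 90) (nat_lit 5) (nat_lit 425) (nat_lit 406) (nat_lit 369))) (XT.nd (nat_lit 78) (nat_lit 152) (nat_lit 0) (XT.lf (nat_lit 0) (nat_lit 5851209069) (nat_lit 228) (nat_lit 2715965832) (nat_lit 304) (nat_lit 7070248801) (nat_lit 86) (nat_lit 5) (nat_lit 89) (nat_lit 5) (nat_lit 90) (nat_lit 5) (nat_lit 426) (nat_lit 406) (nat_lit 368)) (XT.lf (nat_lit 0) (nat_lit 5670129869) (nat_lit 152) (nat_lit 9389336469) (nat_lit 228) (nat_lit 1311437266) (nat_lit 84) (nat_lit 5) (nat_lit 86) (nat_lit 5) (nat_lit 87) (nat_lit 5) (nat_lit 427) (nat_lit 406) (nat_lit 367))))) (XT.nd (nat_lit 234) (nat_lit 684) (nat_lit 0) (XT.nd (nat_lit 78) (nat_lit 456) (nat_lit 0) (XT.lf (nat_lit 0) (nat_lit 4987853416) (nat_lit 304) (nat_lit 11662990874) (nat_lit 76) (nat_lit 496552961) (nat_lit 80) (nat_lit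 5) (nat_lit 84) (nat_lit 5) (nat_lit 81) (nat_lit 5) (nat_lit 428) (nat_lit 406) (nat_lit 366)) (XT.nd (nat_lit 78) (nat_lit 304) (nat_lit 0) (XT.lf (nat_lit 0) (nat_lit 5240409089) (nat_lit 152) (nat_lit 6862274321) (nat_lit 228) (nat_lit 5864384138) (nat_lit 78) (nat_lit 5) (nat_lit 80) (nat_lit 5) (nat_lit 81) (nat_lit 5) (nat_lit 429) (nat_lit 406) (nat_lit 365)) (XT.lf (nat_lit 0) (nat_lit 1182760064) (nat_lit 304) (nat_lit 13798160757) (nat_lit 76) (nat_lit 3856755465) (nat_lit 74) (nat_lit 5) (nat_lit 78) (nat_lit 5) (nat_lit 75) (nat_lit 5) (nat_lit 430) (nat_lit 406) (nat_lit 364)))) (XT.nd (nat_lit 156) (nat_lit 380) (nat_lit 0) (XT.nd (nat_lit 78) (nat_lit 152) (nat_lit 0) (XT.lf (nat_lit 0) (nat_lit 4739113962) (nat_lit 152) (nat_lit 4199671124) (nat_lit 228) (nat_lit 10816820863) (nat_lit 72) (nat_lit 5) (nat_lit 74) (nat_lit 5) (nat_lit 75) (nat_lit 5) (nat_lit 431) (nat_lit 406)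 (nat_lit 363)) (XT.lf (nat_lit 0) (nat_lit 4432064113) (nat_lit 152) (nat_lit 13248460525) (nat_lit 228) (nat_lit 3048190698) (nat_lit 70) (nat_lit 5) (nat_lit 72) (nat_lit 5) (nat_lit 73) (nat_lit 5) (nat_lit 432) (nat_lit 406) (nat_lit 362))) (XT.nd (nat_lit 78) (nat_lit 152) (nat_lit 0) (XT.lf (nat_lit 0) (nat_lit 4073828372) (nat_lit 152) (nat_lit 1435098241) (nat_lit 228) (nat_lit 16249684295) (nat_lit 67) (nat_lit 5) (nat_lit 69) (nat_lit 5) (nat_lit 70) (nat_lit 5) (nat_lit 433) (nat_lit 406) (nat_lit 361)) (XT.lf (nat_lit 0) (nat_lit 3578888351) (nat_lit 152) (nat_lit 11527671848) (nat_lit 228) (nat_lit 7738708076) (nat_lit 65) (nat_lit 5) (nat_lit 67) (nat_lit 5) (nat_lit 68) (nat_lit 5) (nat_lit 434) (nat_lit 406) (nat_lit 360)))))) (XT.nd (nat_lit 546) (nat_lit 836) (nat_lit 0) (XT.nd (nat_lit 234) (nat_lit 532) (nat_lit 0) (XT.nd (nat_lit 78) (nat_lit 228) (nat_lit 0) (XT.lf (nat_lit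 0) (nat_lit 1756376707) (nat_lit 228) (nat_lit 20902804425) (nat_lit 76) (nat_lit 1341060726) (nat_lit 62) (nat_lit 5) (nat_lit 65) (nat_lit 5) (nat_lit 63) (nat_lit 5) (nat_lit 435) (nat_lit 406) (nat_lit 359)) (XT.nd (nat_lit 78) (nat_lit 76) (nat_lit 0) (XT.lf (nat_lit 0) (nat_lit 2355232384) (nat_lit 152) (nat_lit 9904861179) (nat_lit 228) (nat_lit 12955173617) (nat_lit 60) (nat_lit 5) (nat_lit 62) (nat_lit 5) (nat_lit 63) (nat_lit 5) (nat_lit 436) (nat_lit 406) (nat_lit 358)) (XT.lf (nat_lit 0) (nat_lit 1600794895) (nat_lit 76) (nat_lit 22405125157) (nat_lit 152) (nat_lit 2501488170) (nat_lit 59) (nat_lit 5) (nat_lit 60) (nat_lit 5) (nat_lit 61) (nat_lit 4) (nat_lit 437) (nat_lit 406) (nat_lit 357)))) (XT.nd (nat_lit 156) (nat_lit 304) (nat_lit 0) (XT.nd (nat_lit 78) (nat_lit 0) (nat_lit 0) (XT.lf (nat_lit 0) (nat_lit 566483800) (nat_lit 152) (nat_lit 8469347680) (nat_lit 228) (nat_lit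 18833800915) (nat_lit 56) (nat_lit 5) (nat_lit 58) (nat_lit 5) (nat_lit 59) (nat_lit 5) (nat_lit 438) (nat_lit 406) (nat_lit 356)) (XT.lf (nat_lit 0) (nat_lit 21903276439) (nat_lit 228) (nat_lit 594886353) (nat_lit 76) (nat_lit 6815885840) (nat_lit 56) (nat_lit 5) (nat_lit 59) (nat_lit 5) (nat_lit 57) (nat_lit 4) (nat_lit 439) (nat_lit 406) (nat_lit 355))) (XT.nd (nat_lit 78) (nat_lit 152) (nat_lit 0) (XT.lf (nat_lit 0) (nat_lit 5325817059) (nat_lit 152) (nat_lit 1982523209) (nat_lit 76) (nat_lit 23533966284) (nat_lit 54) (nat_lit 5) (nat_lit 56) (nat_lit 5) (nat_lit 55) (nat_lit 5) (nat_lit 440) (nat_lit 406) (nat_lit 354)) (XT.lf (nat_lit 0) (nat_lit 19393328406) (nat_lit 228) (nat_lit 3698267505) (nat_lit 76) (nat_lit 9366576047) (nat_lit 52) (nat_lit 5) (nat_lit 55) (nat_lit 5) (nat_lit 53) (nat_lit 4) (nat_lit 441) (nat_lit 406) (nat_lit 353))))) (XT.nd (nat_lit 234) (nat_lit 456) (nat_lit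 0) (XT.nd (nat_lit 78) (nat_lit 228) (nat_lit 0) (XT.lf (nat_lit 0) (nat_lit 940414676) (nat_lit 152) (nat_lit 5649538072) (nat_lit 76) (nat_lit 27584570600) (nat_lit 50) (nat_lit 5) (nat_lit 52) (nat_lit 5) (nat_lit 51) (nat_lit 5) (nat_lit 442) (nat_lit 406) (nat_lit 352)) (XT.nd (nat_lit 78) (nat_lit 76) (nat_lit 0) (XT.lf (nat_lit 0) (nat_lit 16262230972) (nat_lit 228) (nat_lit 8149400857) (nat_lit 76) (nat_lit 11573151185) (nat_lit 48) (nat_lit 5) (nat_lit 51) (nat_lit 5) (nat_lit 49) (nat_lit 4) (nat_lit 443) (nat_lit 406) (nat_lit 351)) (XT.lf (nat_lit 0) (nat_lit 26939655827) (nat_lit 76) (nat_lit 6461261384) (nat_lit 152) (nat_lit 4509392180) (nat_lit 47) (nat_lit 5) (nat_lit 48) (nat_lit 5) (nat_lit 49) (nat_lit 4) (nat_lit 444) (nat_lit 406) (nat_lit 350)))) (XT.nd (nat_lit 156) (nat_lit 228) (nat_lit 0) (XT.nd (nat_lit 78) (nat_lit 76) (nat_lit 0) (XT.lf (nat_lit 0) (nat_lit 12258759654)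 (nat_lit 152) (nat_lit 14463945283) (nat_lit 76) (nat_lit 13221894991) (nat_lit 45) (nat_lit 5) (nat_lit 47) (nat_lit 5) (nat_lit 46) (nat_lit 4) (nat_lit 445) (nat_lit 406) (nat_lit 349)) (XT.lf (nat_lit 0) (nat_lit 23603160253) (nat_lit 76) (nat_lit 7242942251) (nat_lit 152) (nat_lit 11260050452) (nat_lit 44) (nat_lit 5) (nat_lit 45) (nat_lit 5) (nat_lit 46) (nat_lit 4) (nat_lit 446) (nat_lit 406) (nat_lit 348))) (XT.nd (nat_lit 78) (nat_lit 76) (nat_lit 0) (XT.lf (nat_lit 0) (nat_lit 7050458819) (nat_lit 152) (nat_lit 23323283565) (nat_lit 76) (nat_lit 14022928492) (nat_lit 42) (nat_lit 5) (nat_lit 44) (nat_lit 5) (nat_lit 43) (nat_lit 4) (nat_lit 447) (nat_lit 406) (nat_lit 347)) (XT.lf (nat_lit 0) (nat_lit 17806706528) (nat_lit 76) (nat_lit 9321878172) (nat_lit 152) (nat_lit 19697753768) (nat_lit 41) (nat_lit 5) (nat_lit 42) (nat_lit 5) (nat_lit 43) (nat_lit 4) (nat_lit 448) (nat_lit 406)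 (nat_lit 346))))))))
noncomputable def xc57 : XT := (XT.nd (nat_lit 2184) (nat_lit 684) (nat_lit 0) (XT.nd (nat_lit 1092) (nat_lit 988) (nat_lit 0) (XT.nd (nat_lit 546) (nat_lit 608) (nat_lit 0) (XT.nd (nat_lit 234) (nat_lit 380) (nat_lit 0) (XT.nd (nat_lit 78) (nat_lit 152) (nat_lit 0) (XT.lf (nat_lit 0) (nat_lit 199199145) (nat_lit 152) (nat_lit 35624808804) (nat_lit 76) (nat_lit 13586059558) (nat_lit 39) (nat_lit 5) (nat_lit 41) (nat_lit 5) (nat_lit 40) (nat_lit 4) (nat_lit 449) (nat_lit 406) (nat_lit 345)) (XT.nd (nat_lit 78) (nat_lit 76) (nat_lit 0) (XT.lf (nat_lit 0) (nat_lit 8588150046) (nat_lit 76) (nat_lit 13190361972) (nat_lit 152) (nat_lit 30366802483) (nat_lit 38) (nat_lit 5) (nat_lit 39) (nat_lit 5) (nat_lit 40) (nat_lit 4) (nat_lit 450) (nat_lit 406) (nat_lit 344)) (XT.lf (nat_lit 0) (nat_lit 2368840361) (nat_lit 76) (nat_lit 43526239901) (nat_lit 76) (nat_lit 9163756569) (nat_lit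 37) (nat_lit 4) (nat_lit 38) (nat_lit 5) (nat_lit 38) (nat_lit 4) (nat_lit 451) (nat_lit 406) (nat_lit 343)))) (XT.nd (nat_lit 156) (nat_lit 228) (nat_lit 0) (XT.nd (nat_lit 78) (nat_lit 76) (nat_lit 0) (XT.lf (nat_lit 0) (nat_lit 14257942534) (nat_lit 152) (nat_lit 5153813929) (nat_lit 76) (nat_lit 38734861323) (nat_lit 36) (nat_lit 5) (nat_lit 38) (nat_lit 5) (nat_lit 37) (nat_lit 4) (nat_lit 452) (nat_lit 406) (nat_lit 342)) (XT.lf (nat_lit 0) (nat_lit 40066712616) (nat_lit 152) (nat_lit 14061831971) (nat_lit 0) (nat_lit 7303646825) (nat_lit 35) (nat_lit 5) (nat_lit 37) (nat_lit 4) (nat_lit 35) (nat_lit 4) (nat_lit 453) (nat_lit 406) (nat_lit 341))) (XT.nd (nat_lit 78) (nat_lit 76) (nat_lit 0) (XT.lf (nat_lit 0) (nat_lit 3899531971) (nat_lit 152) (nat_lit 24785447607) (nat_lit 76) (nat_lit 36241587605) (nat_lit 33) (nat_lit 5) (nat_lit 35) (nat_lit 5) (nat_lit 34) (nat_lit 4) (nat_lit 454)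 (nat_lit 406) (nat_lit 340)) (XT.lf (nat_lit 0) (nat_lit 31070558468) (nat_lit 76) (nat_lit 83223242) (nat_lit 152) (nat_lit 37493370329) (nat_lit 32) (nat_lit 5) (nat_lit 33) (nat_lit 5) (nat_lit 34) (nat_lit 4) (nat_lit 455) (nat_lit 406) (nat_lit 339))))) (XT.nd (nat_lit 234) (nat_lit 380) (nat_lit 0) (XT.nd (nat_lit 78) (nat_lit 152) (nat_lit 0) (XT.lf (nat_lit 0) (nat_lit 19727265771) (nat_lit 76) (nat_lit 42062256040) (nat_lit 76) (nat_lit 10815805026) (nat_lit 31) (nat_lit 4) (nat_lit 32) (nat_lit 5) (nat_lit 32) (nat_lit 4) (nat_lit 456) (nat_lit 406) (nat_lit 338)) (XT.nd (nat_lit 78) (nat_lit 0) (nat_lit 0) (XT.lf (nat_lit 0) (nat_lit 5956414012) (nat_lit 76) (nat_lit 12197381516) (nat_lit 152) (nat_lit 58675621650) (nat_lit 29) (nat_lit 5) (nat_lit 30) (nat_lit 5) (nat_lit 31) (nat_lit 4) (nat_lit 457) (nat_lit 406) (nat_lit 337)) (XT.lf (nat_lit 0) (nat_lit 50291342943) (nat_lit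 152) (nat_lit 10519716440) (nat_lit 0) (nat_lit 20510044904) (nat_lit 29) (nat_lit 5) (nat_lit 31) (nat_lit 4) (nat_lit 29) (nat_lit 4) (nat_lit 458) (nat_lit 406) (nat_lit 336)))) (XT.nd (nat_lit 156) (nat_lit 152) (nat_lit 0) (XT.nd (nat_lit 78) (nat_lit 152) (nat_lit 0) (XT.lf (nat_lit 0) (nat_lit 56209259413) (nat_lit 76) (nat_lit 29850651175) (nat_lit 76) (nat_lit 59215465) (nat_lit 28) (nat_lit 4) (nat_lit 29) (nat_lit 5) (nat_lit 29) (nat_lit 4) (nat_lit 459) (nat_lit 406) (nat_lit 335)) (XT.lf (nat_lit 0) (nat_lit 33154389656) (nat_lit 152) (nat_lit 53306178021) (nat_lit 0) (nat_lit 4772653997) (nat_lit 26) (nat_lit 5) (nat_lit 28) (nat_lit 4) (nat_lit 26) (nat_lit 4) (nat_lit 460) (nat_lit 406) (nat_lit 334))) (XT.nd (nat_lit 78) (nat_lit 76) (nat_lit 0) (XT.lf (nat_lit 0) (nat_lit 15467250841) (nat_lit 76) (nat_lit 54808266864) (nat_lit 76) (nat_lit 26418253664) (nat_lit 25) (nat_lit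 4) (nat_lit 26) (nat_lit 5) (nat_lit 26) (nat_lit 4) (nat_lit 461) (nat_lit 406) (nat_lit 333)) (XT.lf (nat_lit 0) (nat_lit 8448833163) (nat_lit 152) (nat_lit 11077569604) (nat_lit 76) (nat_lit 83012567217) (nat_lit 24) (nat_lit 5) (nat_lit 26) (nat_lit 5) (nat_lit 25) (nat_lit 4) (nat_lit 462) (nat_lit 406) (nat_lit 332)))))) (XT.nd (nat_lit 546) (nat_lit 456) (nat_lit 0) (XT.nd (nat_lit 234) (nat_lit 304) (nat_lit 0) (XT.nd (nat_lit 78) (nat_lit 152) (nat_lit 0) (XT.lf (nat_lit 0) (nat_lit 46521893857) (nat_lit 152) (nat_lit 42771400067) (nat_lit 0) (nat_lit 19469727907) (nat_lit 23) (nat_lit 5) (nat_lit 25) (nat_lit 4) (nat_lit 23) (nat_lit 4) (nat_lit 463) (nat_lit 406) (nat_lit 331)) (XT.nd (nat_lit 78) (nat_lit 76) (nat_lit 0) (XT.lf (nat_lit 0) (nat_lit 34892818556) (nat_lit 76) (nat_lit 53799025684) (nat_lit 76) (nat_lit 26740601658) (nat_lit 22) (nat_lit 4) (nat_lit 23) (nat_lit 5)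 (nat_lit 23) (nat_lit 4) (nat_lit 464) (nat_lit 406) (nat_lit 330)) (XT.lf (nat_lit 0) (nat_lit 11967397684) (nat_lit 152) (nat_lit 2531053287) (nat_lit 76) (nat_lit 108090982685) (nat_lit 21) (nat_lit 5) (nat_lit 23) (nat_lit 5) (nat_lit 22) (nat_lit 4) (nat_lit 465) (nat_lit 406) (nat_lit 329)))) (XT.nd (nat_lit 156) (nat_lit 152) (nat_lit 0) (XT.nd (nat_lit 78) (nat_lit 76) (nat_lit 0) (XT.lf (nat_lit 0) (nat_lit 54605644534) (nat_lit 152) (nat_lit 46777805729) (nat_lit 0) (nat_lit 28825088504) (nat_lit 20) (nat_lit 5) (nat_lit 22) (nat_lit 4) (nat_lit 20) (nat_lit 4) (nat_lit 466) (nat_lit 406) (nat_lit 328)) (XT.lf (nat_lit 0) (nat_lit 38891027028) (nat_lit 76) (nat_lit 62643721477) (nat_lit 76) (nat_lit 36858434150) (nat_lit 19) (nat_lit 4) (nat_lit 20) (nat_lit 5) (nat_lit 20) (nat_lit 4) (nat_lit 467) (nat_lit 406) (nat_lit 327))) (XT.nd (nat_lit 78) (nat_lit 76) (nat_lit 0) (XT.lf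 (nat_lit 0) (nat_lit 5638002313) (nat_lit 152) (nat_lit 14231763414) (nat_lit 76) (nat_lit 127318341122) (nat_lit 18) (nat_lit 5) (nat_lit 20) (nat_lit 5) (nat_lit 19) (nat_lit 4) (nat_lit 468) (nat_lit 406) (nat_lit 326)) (XT.lf (nat_lit 0) (nat_lit 51931763581) (nat_lit 152) (nat_lit 77273890577) (nat_lit 0) (nat_lit 27366311693) (nat_lit 17) (nat_lit 5) (nat_lit 19) (nat_lit 4) (nat_lit 17) (nat_lit 4) (nat_lit 469) (nat_lit 406) (nat_lit 325))))) (XT.nd (nat_lit 234) (nat_lit 228) (nat_lit 0) (XT.nd (nat_lit 78) (nat_lit 152) (nat_lit 0) (XT.lf (nat_lit 0) (nat_lit 14210831002) (nat_lit 76) (nat_lit 88512507991) (nat_lit 76) (nat_lit 63943479097) (nat_lit 16) (nat_lit 4) (nat_lit 17) (nat_lit 5) (nat_lit 17) (nat_lit 4) (nat_lit 470) (nat_lit 406) (nat_lit 324)) (XT.nd (nat_lit 78) (nat_lit 152) (nat_lit 0) (XT.lf (nat_lit 0) (nat_lit 115745753944) (nat_lit 76) (nat_lit 43164619509) (nat_lit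 76) (nat_lit 18592278572) (nat_lit 16) (nat_lit 4) (nat_lit 17) (nat_lit 5) (nat_lit 17) (nat_lit 4) (nat_lit 471) (nat_lit 406) (nat_lit 323)) (XT.lf (nat_lit 0) (nat_lit 30084835752) (nat_lit 152) (nat_lit 152383590522) (nat_lit 0) (nat_lit 6679685616) (nat_lit 14) (nat_lit 5) (nat_lit 16) (nat_lit 4) (nat_lit 14) (nat_lit 4) (nat_lit 472) (nat_lit 406) (nat_lit 322)))) (XT.nd (nat_lit 156) (nat_lit 152) (nat_lit 0) (XT.nd (nat_lit 78) (nat_lit 76) (nat_lit 0) (XT.lf (nat_lit 0) (nat_lit 83821950917) (nat_lit 152) (nat_lit 57383061008) (nat_lit 0) (nat_lit 60414096455) (nat_lit 14) (nat_lit 5) (nat_lit 16) (nat_lit 4) (nat_lit 14) (nat_lit 4) (nat_lit 473) (nat_lit 406) (nat_lit 321)) (XT.lf (nat_lit 0) (nat_lit 46688076054) (nat_lit 76) (nat_lit 95887104923) (nat_lit 76) (nat_lit 72476746454) (nat_lit 13) (nat_lit 4) (nat_lit 14) (nat_lit 5) (nat_lit 14) (nat_lit 4) (nat_lit 474) (nat_lit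 406) (nat_lit 320))) (XT.nd (nat_lit 78) (nat_lit 152) (nat_lit 0) (XT.lf (nat_lit 0) (nat_lit 161111321783) (nat_lit 76) (nat_lit 45905655959) (nat_lit 76) (nat_lit 22492978966) (nat_lit 13) (nat_lit 4) (nat_lit 14) (nat_lit 5) (nat_lit 14) (nat_lit 4) (nat_lit 475) (nat_lit 406) (nat_lit 319)) (XT.lf (nat_lit 0) (nat_lit 31245156171) (nat_lit 152) (nat_lit 204871389965) (nat_lit 0) (nat_lit 8945324005) (nat_lit 11) (nat_lit 5) (nat_lit 13) (nat_lit 4) (nat_lit 11) (nat_lit 4) (nat_lit 476) (nat_lit 406) (nat_lit 318))))))) (XT.nd (nat_lit 1092) (nat_lit 228) (nat_lit 0) (XT.nd (nat_lit 546) (nat_lit 228) (nat_lit 0) (XT.nd (nat_lit 234) (nat_lit 152) (nat_lit 0) (XT.nd (nat_lit 78) (nat_lit 76) (nat_lit 0) (XT.lf (nat_lit 0) (nat_lit 90479579541) (nat_lit 152) (nat_lit 103082801974) (nat_lit 0) (nat_lit 68177854270) (nat_lit 11) (nat_lit 5) (nat_lit 13) (nat_lit 4) (nat_lit 11) (nat_lit 4)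 (nat_lit 477) (nat_lit 406) (nat_lit 317)) (XT.nd (nat_lit 78) (nat_lit 0) (nat_lit 0) (XT.lf (nat_lit 0) (nat_lit 7055433640) (nat_lit 76) (nat_lit 147497942162) (nat_lit 76) (nat_lit 125194464015) (nat_lit 10) (nat_lit 4) (nat_lit 11) (nat_lit 5) (nat_lit 11) (nat_lit 4) (nat_lit 478) (nat_lit 406) (nat_lit 316)) (XT.lf (nat_lit 0) (nat_lit 129667361257) (nat_lit 76) (nat_lit 95872233123) (nat_lit 76) (nat_lit 73567131944) (nat_lit 10) (nat_lit 4) (nat_lit 11) (nat_lit 5) (nat_lit 11) (nat_lit 4) (nat_lit 479) (nat_lit 406) (nat_lit 315)))) (XT.nd (nat_lit 156) (nat_lit 0) (nat_lit 0) (XT.nd (nat_lit 78) (nat_lit 152) (nat_lit 0) (XT.lf (nat_lit 0) (nat_lit 262071187107) (nat_lit 76) (nat_lit 40125081401) (nat_lit 76) (nat_lit 17818477414) (nat_lit 10) (nat_lit 4) (nat_lit 11) (nat_lit 5) (nat_lit 11) (nat_lit 4) (nat_lit 480) (nat_lit 406) (nat_lit 314)) (XT.lf (nat_lit 0) (nat_lit 42362651421)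 (nat_lit 152) (nat_lit 279016256457) (nat_lit 0) (nat_lit 21116941444) (nat_lit 8) (nat_lit 5) (nat_lit 10) (nat_lit 4) (nat_lit 8) (nat_lit 4) (nat_lit 481) (nat_lit 406) (nat_lit 313))) (XT.nd (nat_lit 78) (nat_lit 0) (nat_lit 0) (XT.lf (nat_lit 0) (nat_lit 108437094668) (nat_lit 152) (nat_lit 171048428613) (nat_lit 0) (nat_lit 87190157628) (nat_lit 8) (nat_lit 5) (nat_lit 10) (nat_lit 4) (nat_lit 8) (nat_lit 4) (nat_lit 482) (nat_lit 406) (nat_lit 312)) (XT.lf (nat_lit 0) (nat_lit 179790347759) (nat_lit 152) (nat_lit 54457634051) (nat_lit 0) (nat_lit 158542274550) (nat_lit 8) (nat_lit 5) (nat_lit 10) (nat_lit 4) (nat_lit 8) (nat_lit 4) (nat_lit 483) (nat_lit 406) (nat_lit 311))))) (XT.nd (nat_lit 234) (nat_lit 152) (nat_lit 0) (XT.nd (nat_lit 78) (nat_lit 0) (nat_lit 0) (XT.lf (nat_lit 0) (nat_lit 73809397303) (nat_lit 76) (nat_lit 184188219027) (nat_lit 76) (nat_lit 162939093809) (nat_lit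 7) (nat_lit 4) (nat_lit 8) (nat_lit 5) (nat_lit 8) (nat_lit 4) (nat_lit 484) (nat_lit 406) (nat_lit 310)) (XT.nd (nat_lit 78) (nat_lit 0) (nat_lit 0) (XT.lf (nat_lit 0) (nat_lit 214269649121) (nat_lit 76) (nat_lit 129134107956) (nat_lit 76) (nat_lit 107884008657) (nat_lit 7) (nat_lit 4) (nat_lit 8) (nat_lit 5) (nat_lit 8) (nat_lit 4) (nat_lit 485) (nat_lit 406) (nat_lit 309)) (XT.lf (nat_lit 0) (nat_lit 365954863131) (nat_lit 76) (nat_lit 69681668398) (nat_lit 76) (nat_lit 48430667171) (nat_lit 7) (nat_lit 4) (nat_lit 8) (nat_lit 5) (nat_lit 8) (nat_lit 4) (nat_lit 486) (nat_lit 406) (nat_lit 308)))) (XT.nd (nat_lit 156) (nat_lit 0) (nat_lit 0) (XT.nd (nat_lit 78) (nat_lit 0) (nat_lit 0) (XT.lf (nat_lit 0) (nat_lit 10380637796) (nat_lit 76) (nat_lit 5049837394) (nat_lit 152) (nat_lit 504018365568) (nat_lit 5) (nat_lit 5) (nat_lit 6) (nat_lit 5) (nat_lit 7) (nat_lit 4) (nat_lit 487) (nat_lit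 406) (nat_lit 307)) (XT.lf (nat_lit 0) (nat_lit 85823200903) (nat_lit 152) (nat_lit 406059522385) (nat_lit 0) (nat_lit 65582620329) (nat_lit 5) (nat_lit 5) (nat_lit 7) (nat_lit 4) (nat_lit 5) (nat_lit 4) (nat_lit 488) (nat_lit 406) (nat_lit 306))) (XT.nd (nat_lit 78) (nat_lit 0) (nat_lit 0) (XT.lf (nat_lit 0) (nat_lit 161927535481) (nat_lit 152) (nat_lit 294905348697) (nat_lit 0) (nat_lit 141686273022) (nat_lit 5) (nat_lit 5) (nat_lit 7) (nat_lit 4) (nat_lit 5) (nat_lit 4) (nat_lit 489) (nat_lit 406) (nat_lit 305)) (XT.lf (nat_lit 0) (nat_lit 244115625459) (nat_lit 152) (nat_lit 174868148385) (nat_lit 0) (nat_lit 223873731625) (nat_lit 5) (nat_lit 5) (nat_lit 7) (nat_lit 4) (nat_lit 5) (nat_lit 4) (nat_lit 490) (nat_lit 406) (nat_lit 304)))))) (XT.nd (nat_lit 546) (nat_lit 152) (nat_lit 0) (XT.nd (nat_lit 234) (nat_lit 0) (nat_lit 0) (XT.nd (nat_lit 78) (nat_lit 76) (nat_lit 0) (XT.lf (nat_lit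 0) (nat_lit 332874511370) (nat_lit 152) (nat_lit 45236589893) (nat_lit 0) (nat_lit 312632032929) (nat_lit 5) (nat_lit 5) (nat_lit 7) (nat_lit 4) (nat_lit 5) (nat_lit 4) (nat_lit 491) (nat_lit 406) (nat_lit 303)) (XT.nd (nat_lit 78) (nat_lit 0) (nat_lit 0) (XT.lf (nat_lit 0) (nat_lit 97890625137) (nat_lit 76) (nat_lit 332367893657) (nat_lit 76) (nat_lit 312124873914) (nat_lit 4) (nat_lit 4) (nat_lit 5) (nat_lit 5) (nat_lit 5) (nat_lit 4) (nat_lit 492) (nat_lit 406) (nat_lit 302)) (XT.lf (nat_lit 0) (nat_lit 254075768696) (nat_lit 76) (nat_lit 282141706385) (nat_lit 76) (nat_lit 261898185437) (nat_lit 4) (nat_lit 4) (nat_lit 5) (nat_lit 5) (nat_lit 5) (nat_lit 4) (nat_lit 493) (nat_lit 406) (nat_lit 301)))) (XT.nd (nat_lit 156) (nat_lit 0) (nat_lit 0) (XT.nd (nat_lit 78) (nat_lit 0) (nat_lit 0) (XT.lf (nat_lit 0) (nat_lit 422748656419) (nat_lit 76) (nat_lit 227901006320) (nat_lit 76) (nat_lit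 207657021293) (nat_lit 4) (nat_lit 4) (nat_lit 5) (nat_lit 5) (nat_lit 5) (nat_lit 4) (nat_lit 494) (nat_lit 406) (nat_lit 300)) (XT.lf (nat_lit 0) (nat_lit 604908831344) (nat_lit 76) (nat_lit 169324367092) (nat_lit 76) (nat_lit 149079952361) (nat_lit 4) (nat_lit 4) (nat_lit 5) (nat_lit 5) (nat_lit 5) (nat_lit 4) (nat_lit 495) (nat_lit 406) (nat_lit 299))) (XT.nd (nat_lit 78) (nat_lit 0) (nat_lit 0) (XT.lf (nat_lit 0) (nat_lit 801635761175) (nat_lit 76) (nat_lit 106064667875) (nat_lit 76) (nat_lit 85819855271) (nat_lit 4) (nat_lit 4) (nat_lit 5) (nat_lit 5) (nat_lit 5) (nat_lit 4) (nat_lit 496) (nat_lit 406) (nat_lit 298)) (XT.lf (nat_lit 0) (nat_lit 1014095235126) (nat_lit 76) (nat_lit 37747036378) (nat_lit 76) (nat_lit 17501855372) (nat_lit 4) (nat_lit 4) (nat_lit 5) (nat_lit 5) (nat_lit 5) (nat_lit 4) (nat_lit 497) (nat_lit 406) (nat_lit 297))))) (XT.nd (nat_lit 55458) (nat_lit 0) (nat_lit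 11856) (XT.nd (nat_lit 156) (nat_lit 0) (nat_lit 0) (XT.nd (nat_lit 78) (nat_lit 0) (nat_lit 0) (XT.lf (nat_lit 0) (nat_lit 56553516429) (nat_lit 152) (nat_lit 1057260693261) (nat_lit 0) (nat_lit 37272066793) (nat_lit 2) (nat_lit 5) (nat_lit 4) (nat_lit 4) (nat_lit 2) (nat_lit 4) (nat_lit 498) (nat_lit 406) (nat_lit 296)) (XT.lf (nat_lit 0) (nat_lit 137540467213) (nat_lit 152) (nat_lit 983473251856) (nat_lit 0) (nat_lit 118258716773) (nat_lit 2) (nat_lit 5) (nat_lit 4) (nat_lit 4) (nat_lit 2) (nat_lit 4) (nat_lit 499) (nat_lit 406) (nat_lit 295))) (XT.nd (nat_lit 55224) (nat_lit 0) (nat_lit 12464) (XT.lf (nat_lit 0) (nat_lit 225004031763) (nat_lit 152) (nat_lit 903787570513) (nat_lit 0) (nat_lit 205722002800) (nat_lit 2) (nat_lit 5) (nat_lit 4) (nat_lit 4) (nat_lit 2) (nat_lit 4) (nat_lit 500) (nat_lit 406) (nat_lit 294)) (XT.lf (nat_lit 0) (nat_lit 1841203579) (nat_lit 0) (nat_lit 1841203579)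 (nat_lit 532) (nat_lit 243136364) (nat_lit 166) (nat_lit 5) (nat_lit 166) (nat_lit 3) (nat_lit 173) (nat_lit 3) (nat_lit 407) (nat_lit 407) (nat_lit 386)))) (XT.nd (nat_lit 156) (nat_lit 0) (nat_lit 76) (XT.nd (nat_lit 78) (nat_lit 0) (nat_lit 0) (XT.lf (nat_lit 0) (nat_lit 1533393455) (nat_lit 608) (nat_lit 5973266618) (nat_lit 684) (nat_lit 557185243) (nat_lit 158) (nat_lit 5) (nat_lit 166) (nat_lit 5) (nat_lit 167) (nat_lit 5) (nat_lit 408) (nat_lit 407) (nat_lit 385)) (XT.lf (nat_lit 76) (nat_lit 536104514) (nat_lit 0) (nat_lit 3107540102) (nat_lit 684) (nat_lit 4652332005) (nat_lit 159) (nat_lit 5) (nat_lit 158) (nat_lit 5) (nat_lit 167) (nat_lit 5) (nat_lit 409) (nat_lit 407) (nat_lit 384))) (XT.nd (nat_lit 78) (nat_lit 0) (nat_lit 0) (XT.lf (nat_lit 0) (nat_lit 5869725545) (nat_lit 608) (nat_lit 913603980) (nat_lit 684) (nat_lit 1766047839) (nat_lit 159) (nat_lit 5) (nat_lit 167) (nat_lit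 5) (nat_lit 168) (nat_lit 5) (nat_lit 410) (nat_lit 407) (nat_lit 383)) (XT.lf (nat_lit 76) (nat_lit 6521614652) (nat_lit 0) (nat_lit 1735751195) (nat_lit 684) (nat_lit 566556434) (nat_lit 160) (nat_lit 5) (nat_lit 159) (nat_lit 5) (nat_lit 168) (nat_lit 5) (nat_lit 411) (nat_lit 407) (nat_lit 382))))))))
noncomputable def xc58 : XT := (XT.nd (nat_lit 2184) (nat_lit 2736) (nat_lit 0) (XT.nd (nat_lit 1092) (nat_lit 2812) (nat_lit 0) (XT.nd (nat_lit 546) (nat_lit 2204) (nat_lit 0) (XT.nd (nat_lit 234) (nat_lit 1596) (nat_lit 0) (XT.nd (nat_lit 78) (nat_lit 608) (nat_lit 0) (XT.lf (nat_lit 0) (nat_lit 1661070782) (nat_lit 684) (nat_lit 3684940404) (nat_lit 760) (nat_lit 3773101014) (nat_lit 151) (nat_lit 5) (nat_lit 160) (nat_lit 5) (nat_lit 161) (nat_lit 5) (nat_lit 412) (nat_lit 407) (nat_lit 381)) (XT.nd (nat_lit 78) (nat_lit 684) (nat_lit 0) (XT.lf (nat_lit 0) (nat_lit 4040830146) (nat_lit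 684) (nat_lit 5025042557) (nat_lit 76) (nat_lit 371929014) (nat_lit 152) (nat_lit 5) (nat_lit 161) (nat_lit 5) (nat_lit 153) (nat_lit 5) (nat_lit 413) (nat_lit 407) (nat_lit 380)) (XT.lf (nat_lit 0) (nat_lit 3407766210) (nat_lit 684) (nat_lit 3270171007) (nat_lit 760) (nat_lit 3100735425) (nat_lit 143) (nat_lit 5) (nat_lit 152) (nat_lit 5) (nat_lit 153) (nat_lit 5) (nat_lit 414) (nat_lit 407) (nat_lit 379)))) (XT.nd (nat_lit 156) (nat_lit 380) (nat_lit 0) (XT.nd (nat_lit 78) (nat_lit 456) (nat_lit 0) (XT.lf (nat_lit 0) (nat_lit 2459963931) (nat_lit 760) (nat_lit 7107416809) (nat_lit 836) (nat_lit 577396138) (nat_lit 133) (nat_lit 5) (nat_lit 143) (nat_lit 5) (nat_lit 144) (nat_lit 5) (nat_lit 415) (nat_lit 407) (nat_lit 378)) (XT.lf (nat_lit 0) (nat_lit 1526809065) (nat_lit 380) (nat_lit 617276680) (nat_lit 456) (nat_lit 8391184348) (nat_lit 127) (nat_lit 5) (nat_lit 132) (nat_lit 5) (nat_lit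 133) (nat_lit 5) (nat_lit 416) (nat_lit 407) (nat_lit 377))) (XT.nd (nat_lit 78) (nat_lit 0) (nat_lit 0) (XT.lf (nat_lit 0) (nat_lit 583946960) (nat_lit 380) (nat_lit 4605211994) (nat_lit 456) (nat_lit 5761091594) (nat_lit 122) (nat_lit 5) (nat_lit 127) (nat_lit 5) (nat_lit 128) (nat_lit 5) (nat_lit 417) (nat_lit 407) (nat_lit 376)) (XT.lf (nat_lit 0) (nat_lit 8573519639) (nat_lit 456) (nat_lit 298849410) (nat_lit 76) (nat_lit 2521300525) (nat_lit 122) (nat_lit 5) (nat_lit 128) (nat_lit 5) (nat_lit 123) (nat_lit 5) (nat_lit 418) (nat_lit 407) (nat_lit 375))))) (XT.nd (nat_lit 234) (nat_lit 1140) (nat_lit 0) (XT.nd (nat_lit 78) (nat_lit 608) (nat_lit 0) (XT.lf (nat_lit 0) (nat_lit 488167306) (nat_lit 456) (nat_lit 1147377218) (nat_lit 76) (nat_lit 10229586164) (nat_lit 116) (nat_lit 5) (nat_lit 122) (nat_lit 5) (nat_lit 117) (nat_lit 5) (nat_lit 419) (nat_lit 407) (nat_lit 374)) (XT.nd (nat_lit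 78) (nat_lit 304) (nat_lit 0) (XT.lf (nat_lit 0) (nat_lit 4132036590) (nat_lit 380) (nat_lit 2041976263) (nat_lit 76) (nat_lit 6189519463) (nat_lit 112) (nat_lit 5) (nat_lit 117) (nat_lit 5) (nat_lit 113) (nat_lit 5) (nat_lit 420) (nat_lit 407) (nat_lit 373)) (XT.lf (nat_lit 0) (nat_lit 8206766113) (nat_lit 380) (nat_lit 2895574667) (nat_lit 76) (nat_lit 1792516068) (nat_lit 108) (nat_lit 5) (nat_lit 113) (nat_lit 5) (nat_lit 109) (nat_lit 5) (nat_lit 421) (nat_lit 407) (nat_lit 372)))) (XT.nd (nat_lit 156) (nat_lit 456) (nat_lit 0) (XT.nd (nat_lit 78) (nat_lit 380) (nat_lit 0) (XT.lf (nat_lit 0) (nat_lit 9704820790) (nat_lit 304) (nat_lit 3105404089) (nat_lit 380) (nat_lit 648341872) (nat_lit 104) (nat_lit 5) (nat_lit 108) (nat_lit 5) (nat_lit 109) (nat_lit 5) (nat_lit 422) (nat_lit 407) (nat_lit 371)) (XT.lf (nat_lit 0) (nat_lit 3799820540) (nat_lit 380) (nat_lit 4661341709) (nat_lit 76)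 (nat_lit 5593120210) (nat_lit 99) (nat_lit 5) (nat_lit 104) (nat_lit 5) (nat_lit 100) (nat_lit 5) (nat_lit 423) (nat_lit 407) (nat_lit 370))) (XT.nd (nat_lit 78) (nat_lit 228) (nat_lit 0) (XT.lf (nat_lit 0) (nat_lit 8768069070) (nat_lit 304) (nat_lit 5542540606) (nat_lit 76) (nat_lit 377180769) (nat_lit 96) (nat_lit 5) (nat_lit 100) (nat_lit 5) (nat_lit 97) (nat_lit 5) (nat_lit 424) (nat_lit 407) (nat_lit 369)) (XT.lf (nat_lit 0) (nat_lit 8888724858) (nat_lit 228) (nat_lit 5531870543) (nat_lit 304) (nat_lit 937055590) (nat_lit 93) (nat_lit 5) (nat_lit 96) (nat_lit 5) (nat_lit 97) (nat_lit 5) (nat_lit 425) (nat_lit 407) (nat_lit 368)))))) (XT.nd (nat_lit 546) (nat_lit 1216) (nat_lit 0) (XT.nd (nat_lit 234) (nat_lit 836) (nat_lit 0) (XT.nd (nat_lit 78) (nat_lit 456) (nat_lit 0) (XT.lf (nat_lit 0) (nat_lit 4527840180) (nat_lit 304) (nat_lit 7436721392) (nat_lit 76) (nat_lit 4101787790) (nat_lit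 89) (nat_lit 5) (nat_lit 93) (nat_lit 5) (nat_lit 90) (nat_lit 5) (nat_lit 426) (nat_lit 407) (nat_lit 367)) (XT.nd (nat_lit 78) (nat_lit 228) (nat_lit 0) (XT.lf (nat_lit 0) (nat_lit 8395726585) (nat_lit 228) (nat_lit 2269930449) (nat_lit 304) (nat_lit 6151900991) (nat_lit 86) (nat_lit 5) (nat_lit 89) (nat_lit 5) (nat_lit 90) (nat_lit 5) (nat_lit 427) (nat_lit 407) (nat_lit 366)) (XT.lf (nat_lit 0) (nat_lit 1228912) (nat_lit 228) (nat_lit 9445113541) (nat_lit 76) (nat_lit 8166546608) (nat_lit 83) (nat_lit 5) (nat_lit 86) (nat_lit 5) (nat_lit 84) (nat_lit 5) (nat_lit 428) (nat_lit 407) (nat_lit 365)))) (XT.nd (nat_lit 156) (nat_lit 456) (nat_lit 0) (XT.nd (nat_lit 78) (nat_lit 152) (nat_lit 0) (XT.lf (nat_lit 0) (nat_lit 6699571434) (nat_lit 304) (nat_lit 10542857994) (nat_lit 76) (nat_lit 1210958411) (nat_lit 80) (nat_lit 5) (nat_lit 84) (nat_lit 5) (nat_lit 81) (nat_lit 5) (nat_lit 429) (nat_lit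 407) (nat_lit 364)) (XT.lf (nat_lit 0) (nat_lit 7623585607) (nat_lit 152) (nat_lit 6693428610) (nat_lit 228) (nat_lit 5024958573) (nat_lit 78) (nat_lit 5) (nat_lit 80) (nat_lit 5) (nat_lit 81) (nat_lit 5) (nat_lit 430) (nat_lit 407) (nat_lit 363))) (XT.nd (nat_lit 78) (nat_lit 152) (nat_lit 0) (XT.lf (nat_lit 0) (nat_lit 2491381537) (nat_lit 304) (nat_lit 12934118495) (nat_lit 76) (nat_lit 4858354208) (nat_lit 74) (nat_lit 5) (nat_lit 78) (nat_lit 5) (nat_lit 75) (nat_lit 5) (nat_lit 431) (nat_lit 407) (nat_lit 362)) (XT.lf (nat_lit 0) (nat_lit 7000615878) (nat_lit 152) (nat_lit 3806735822) (nat_lit 228) (nat_lit 10470903501) (nat_lit 72) (nat_lit 5) (nat_lit 74) (nat_lit 5) (nat_lit 75) (nat_lit 5) (nat_lit 432) (nat_lit 407) (nat_lit 361))))) (XT.nd (nat_lit 234) (nat_lit 684) (nat_lit 0) (XT.nd (nat_lit 78) (nat_lit 380) (nat_lit 0) (XT.lf (nat_lit 0) (nat_lit 6631598017) (nat_lit 152) (nat_lit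 13570733096) (nat_lit 228) (nat_lit 2129196527) (nat_lit 70) (nat_lit 5) (nat_lit 72) (nat_lit 5) (nat_lit 73) (nat_lit 5) (nat_lit 433) (nat_lit 407) (nat_lit 360)) (XT.nd (nat_lit 78) (nat_lit 152) (nat_lit 0) (XT.lf (nat_lit 0) (nat_lit 6200230608) (nat_lit 152) (nat_lit 819771832) (nat_lit 228) (nat_lit 16425676348) (nat_lit 67) (nat_lit 5) (nat_lit 69) (nat_lit 5) (nat_lit 70) (nat_lit 5) (nat_lit 434) (nat_lit 407) (nat_lit 359)) (XT.lf (nat_lit 0) (nat_lit 5627834679) (nat_lit 152) (nat_lit 11716400697) (nat_lit 228) (nat_lit 7277101557) (nat_lit 65) (nat_lit 5) (nat_lit 67) (nat_lit 5) (nat_lit 68) (nat_lit 5) (nat_lit 435) (nat_lit 407) (nat_lit 358)))) (XT.nd (nat_lit 156) (nat_lit 304) (nat_lit 0) (XT.nd (nat_lit 78) (nat_lit 152) (nat_lit 0) (XT.lf (nat_lit 0) (nat_lit 2903652082) (nat_lit 228) (nat_lit 20817264962) (nat_lit 76) (nat_lit 2148921875) (nat_lit 62) (nat_lit 5) (nat_lit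 65) (nat_lit 5) (nat_lit 63) (nat_lit 5) (nat_lit 436) (nat_lit 407) (nat_lit 357)) (XT.lf (nat_lit 0) (nat_lit 4225024518) (nat_lit 152) (nat_lit 9974317519) (nat_lit 228) (nat_lit 12985146667) (nat_lit 60) (nat_lit 5) (nat_lit 62) (nat_lit 5) (nat_lit 63) (nat_lit 5) (nat_lit 437) (nat_lit 407) (nat_lit 356))) (XT.nd (nat_lit 78) (nat_lit 228) (nat_lit 0) (XT.lf (nat_lit 0) (nat_lit 3372278937) (nat_lit 76) (nat_lit 23477669406) (nat_lit 152) (nat_lit 1731802763) (nat_lit 59) (nat_lit 5) (nat_lit 60) (nat_lit 5) (nat_lit 61) (nat_lit 4) (nat_lit 438) (nat_lit 407) (nat_lit 355)) (XT.lf (nat_lit 0) (nat_lit 2213558378) (nat_lit 152) (nat_lit 8439374055) (nat_lit 228) (nat_lit 19401495304) (nat_lit 56) (nat_lit 5) (nat_lit 58) (nat_lit 5) (nat_lit 59) (nat_lit 5) (nat_lit 439) (nat_lit 407) (nat_lit 354))))))) (XT.nd (nat_lit 1092) (nat_lit 1216) (nat_lit 0) (XT.nd (nat_lit 546) (nat_lit 684)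 (nat_lit 0) (XT.nd (nat_lit 234) (nat_lit 532) (nat_lit 0) (XT.nd (nat_lit 78) (nat_lit 228) (nat_lit 0) (XT.lf (nat_lit 0) (nat_lit 900688096) (nat_lit 76) (nat_lit 23607135713) (nat_lit 152) (nat_lit 7108675630) (nat_lit 55) (nat_lit 5) (nat_lit 56) (nat_lit 5) (nat_lit 57) (nat_lit 4) (nat_lit 440) (nat_lit 407) (nat_lit 353)) (XT.nd (nat_lit 78) (nat_lit 152) (nat_lit 0) (XT.lf (nat_lit 0) (nat_lit 6563777328) (nat_lit 152) (nat_lit 665701841) (nat_lit 76) (nat_lit 26039565291) (nat_lit 54) (nat_lit 5) (nat_lit 56) (nat_lit 5) (nat_lit 55) (nat_lit 5) (nat_lit 441) (nat_lit 407) (nat_lit 352)) (XT.lf (nat_lit 0) (nat_lit 21728536999) (nat_lit 228) (nat_lit 2554041685) (nat_lit 76) (nat_lit 10733011886) (nat_lit 52) (nat_lit 5) (nat_lit 55) (nat_lit 5) (nat_lit 53) (nat_lit 4) (nat_lit 442) (nat_lit 407) (nat_lit 351)))) (XT.nd (nat_lit 156) (nat_lit 228) (nat_lit 0) (XT.nd (nat_lit 78)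 (nat_lit 152) (nat_lit 0) (XT.lf (nat_lit 0) (nat_lit 1775133993) (nat_lit 152) (nat_lit 4698843939) (nat_lit 76) (nat_lit 30396490625) (nat_lit 50) (nat_lit 5) (nat_lit 52) (nat_lit 5) (nat_lit 51) (nat_lit 5) (nat_lit 443) (nat_lit 407) (nat_lit 350)) (XT.lf (nat_lit 0) (nat_lit 18297026324) (nat_lit 228) (nat_lit 7433046801) (nat_lit 76) (nat_lit 13096762471) (nat_lit 48) (nat_lit 5) (nat_lit 51) (nat_lit 5) (nat_lit 49) (nat_lit 4) (nat_lit 444) (nat_lit 407) (nat_lit 349))) (XT.nd (nat_lit 78) (nat_lit 152) (nat_lit 0) (XT.lf (nat_lit 0) (nat_lit 30403669502) (nat_lit 76) (nat_lit 6369215834) (nat_lit 152) (nat_lit 4135217758) (nat_lit 47) (nat_lit 5) (nat_lit 48) (nat_lit 5) (nat_lit 49) (nat_lit 4) (nat_lit 445) (nat_lit 407) (nat_lit 348)) (XT.lf (nat_lit 0) (nat_lit 13927369347) (nat_lit 152) (nat_lit 14321908486) (nat_lit 76) (nat_lit 14856462622) (nat_lit 45) (nat_lit 5) (nat_lit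 47) (nat_lit 5) (nat_lit 46) (nat_lit 4) (nat_lit 446) (nat_lit 407) (nat_lit 347))))) (XT.nd (nat_lit 234) (nat_lit 380) (nat_lit 0) (XT.nd (nat_lit 78) (nat_lit 228) (nat_lit 0) (XT.lf (nat_lit 0) (nat_lit 26734105911) (nat_lit 76) (nat_lit 7236039416) (nat_lit 152) (nat_lit 11471652486) (nat_lit 44) (nat_lit 5) (nat_lit 45) (nat_lit 5) (nat_lit 46) (nat_lit 4) (nat_lit 447) (nat_lit 407) (nat_lit 346)) (XT.nd (nat_lit 78) (nat_lit 76) (nat_lit 0) (XT.lf (nat_lit 0) (nat_lit 8260058590) (nat_lit 152) (nat_lit 23956424626) (nat_lit 76) (nat_lit 15699617031) (nat_lit 42) (nat_lit 5) (nat_lit 44) (nat_lit 5) (nat_lit 43) (nat_lit 4) (nat_lit 448) (nat_lit 407) (nat_lit 345)) (XT.lf (nat_lit 0) (nat_lit 20410392095) (nat_lit 76) (nat_lit 9504632782) (nat_lit 152) (nat_lit 20626588790) (nat_lit 41) (nat_lit 5) (nat_lit 42) (nat_lit 5) (nat_lit 43) (nat_lit 4) (nat_lit 449) (nat_lit 407) (nat_lit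 344)))) (XT.nd (nat_lit 156) (nat_lit 152) (nat_lit 0) (XT.nd (nat_lit 78) (nat_lit 76) (nat_lit 0) (XT.lf (nat_lit 0) (nat_lit 821527116) (nat_lit 152) (nat_lit 37305733415) (nat_lit 76) (nat_lit 15205271428) (nat_lit 39) (nat_lit 5) (nat_lit 41) (nat_lit 5) (nat_lit 40) (nat_lit 4) (nat_lit 450) (nat_lit 407) (nat_lit 343)) (XT.lf (nat_lit 0) (nat_lit 10393456216) (nat_lit 76) (nat_lit 13706269955) (nat_lit 152) (nat_lit 32188247064) (nat_lit 38) (nat_lit 5) (nat_lit 39) (nat_lit 5) (nat_lit 40) (nat_lit 4) (nat_lit 451) (nat_lit 407) (nat_lit 342))) (XT.nd (nat_lit 78) (nat_lit 76) (nat_lit 0) (XT.lf (nat_lit 0) (nat_lit 3647656998) (nat_lit 76) (nat_lit 46479882694) (nat_lit 76) (nat_lit 9307943132) (nat_lit 37) (nat_lit 4) (nat_lit 38) (nat_lit 5) (nat_lit 38) (nat_lit 4) (nat_lit 452) (nat_lit 407) (nat_lit 341)) (XT.lf (nat_lit 0) (nat_lit 15926415934) (nat_lit 152) (nat_lit 4540030374)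 (nat_lit 76) (nat_lit 42305492861) (nat_lit 36) (nat_lit 5) (nat_lit 38) (nat_lit 5) (nat_lit 37) (nat_lit 4) (nat_lit 453) (nat_lit 407) (nat_lit 340)))))) (XT.nd (nat_lit 546) (nat_lit 532) (nat_lit 0) (XT.nd (nat_lit 234) (nat_lit 380) (nat_lit 0) (XT.nd (nat_lit 78) (nat_lit 228) (nat_lit 0) (XT.lf (nat_lit 0) (nat_lit 43783566489) (nat_lit 152) (nat_lit 14187518411) (nat_lit 0) (nat_lit 8350091039) (nat_lit 35) (nat_lit 5) (nat_lit 37) (nat_lit 4) (nat_lit 35) (nat_lit 4) (nat_lit 454) (nat_lit 407) (nat_lit 339)) (XT.nd (nat_lit 78) (nat_lit 76) (nat_lit 0) (XT.lf (nat_lit 0) (nat_lit 4708066904) (nat_lit 152) (nat_lit 25796017822) (nat_lit 76) (nat_lit 39591766036) (nat_lit 33) (nat_lit 5) (nat_lit 35) (nat_lit 5) (nat_lit 34) (nat_lit 4) (nat_lit 455) (nat_lit 407) (nat_lit 338)) (XT.lf (nat_lit 0) (nat_lit 34126105080) (nat_lit 152) (nat_lit 39634692774) (nat_lit 0) (nat_lit 354113104)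 (nat_lit 32) (nat_lit 5) (nat_lit 34) (nat_lit 4) (nat_lit 32) (nat_lit 4) (nat_lit 456) (nat_lit 407) (nat_lit 337)))) (XT.nd (nat_lit 156) (nat_lit 152) (nat_lit 0) (XT.nd (nat_lit 78) (nat_lit 152) (nat_lit 0) (XT.lf (nat_lit 0) (nat_lit 22210932852) (nat_lit 76) (nat_lit 44981650958) (nat_lit 76) (nat_lit 11198162864) (nat_lit 31) (nat_lit 4) (nat_lit 32) (nat_lit 5) (nat_lit 32) (nat_lit 4) (nat_lit 457) (nat_lit 407) (nat_lit 336)) (XT.lf (nat_lit 0) (nat_lit 7313856260) (nat_lit 76) (nat_lit 12738821256) (nat_lit 152) (nat_lit 62900754157) (nat_lit 29) (nat_lit 5) (nat_lit 30) (nat_lit 5) (nat_lit 31) (nat_lit 4) (nat_lit 458) (nat_lit 407) (nat_lit 335))) (XT.nd (nat_lit 78) (nat_lit 152) (nat_lit 0) (XT.lf (nat_lit 0) (nat_lit 54734427950) (nat_lit 152) (nat_lit 10531213594) (nat_lit 0) (nat_lit 22540152982) (nat_lit 29) (nat_lit 5) (nat_lit 31) (nat_lit 4) (nat_lit 29) (nat_lit 4)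 (nat_lit 459) (nat_lit 407) (nat_lit 334)) (XT.lf (nat_lit 0) (nat_lit 345757120) (nat_lit 152) (nat_lit 31494164289) (nat_lit 76) (nat_lit 61148393370) (nat_lit 27) (nat_lit 5) (nat_lit 29) (nat_lit 5) (nat_lit 28) (nat_lit 4) (nat_lit 460) (nat_lit 407) (nat_lit 333))))) (XT.nd (nat_lit 234) (nat_lit 304) (nat_lit 0) (XT.nd (nat_lit 78) (nat_lit 152) (nat_lit 0) (XT.lf (nat_lit 0) (nat_lit 36202243608) (nat_lit 152) (nat_lit 56784765709) (nat_lit 0) (nat_lit 5525087421) (nat_lit 26) (nat_lit 5) (nat_lit 28) (nat_lit 4) (nat_lit 26) (nat_lit 4) (nat_lit 461) (nat_lit 407) (nat_lit 332)) (XT.nd (nat_lit 78) (nat_lit 76) (nat_lit 0) (XT.lf (nat_lit 0) (nat_lit 17456382921) (nat_lit 76) (nat_lit 58819119433) (nat_lit 76) (nat_lit 28134866588) (nat_lit 25) (nat_lit 4) (nat_lit 26) (nat_lit 5) (nat_lit 26) (nat_lit 4) (nat_lit 462) (nat_lit 407) (nat_lit 331)) (XT.lf (nat_lit 0) (nat_lit 9480430349)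 (nat_lit 152) (nat_lit 11255941608) (nat_lit 76) (nat_lit 89987924949) (nat_lit 24) (nat_lit 5) (nat_lit 26) (nat_lit 5) (nat_lit 25) (nat_lit 4) (nat_lit 463) (nat_lit 407) (nat_lit 330)))) (XT.nd (nat_lit 156) (nat_lit 152) (nat_lit 0) (XT.nd (nat_lit 78) (nat_lit 76) (nat_lit 0) (XT.lf (nat_lit 0) (nat_lit 50588823423) (nat_lit 152) (nat_lit 45504302673) (nat_lit 0) (nat_lit 21353672885) (nat_lit 23) (nat_lit 5) (nat_lit 25) (nat_lit 4) (nat_lit 23) (nat_lit 4) (nat_lit 464) (nat_lit 407) (nat_lit 329)) (XT.lf (nat_lit 0) (nat_lit 38343118623) (nat_lit 76) (nat_lit 57773969347) (nat_lit 76) (nat_lit 28533453518) (nat_lit 22) (nat_lit 4) (nat_lit 23) (nat_lit 5) (nat_lit 23) (nat_lit 4) (nat_lit 465) (nat_lit 407) (nat_lit 328))) (XT.nd (nat_lit 78) (nat_lit 76) (nat_lit 0) (XT.lf (nat_lit 0) (nat_lit 13235261192) (nat_lit 152) (nat_lit 2113198247) (nat_lit 76) (nat_lit 117032600676) (nat_lit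 21) (nat_lit 5) (nat_lit 23) (nat_lit 5) (nat_lit 22) (nat_lit 4) (nat_lit 466) (nat_lit 407) (nat_lit 327)) (XT.lf (nat_lit 0) (nat_lit 59275465626) (nat_lit 152) (nat_lit 49916440275) (nat_lit 0) (nat_lit 31418243184) (nat_lit 20) (nat_lit 5) (nat_lit 22) (nat_lit 4) (nat_lit 20) (nat_lit 4) (nat_lit 467) (nat_lit 407) (nat_lit 326))))))))
noncomputable def xc59 : XT := (XT.nd (nat_lit 2184) (nat_lit 152) (nat_lit 0) (XT.nd (nat_lit 1092) (nat_lit 456) (nat_lit 0) (XT.nd (nat_lit 546) (nat_lit 304) (nat_lit 0) (XT.nd (nat_lit 234) (nat_lit 228) (nat_lit 0) (XT.nd (nat_lit 78) (nat_lit 152) (nat_lit 0) (XT.lf (nat_lit 0) (nat_lit 42579667820) (nat_lit 76) (nat_lit 67365920612) (nat_lit 76) (nat_lit 39504641846) (nat_lit 19) (nat_lit 4) (nat_lit 20) (nat_lit 5) (nat_lit 20) (nat_lit 4) (nat_lit 468) (nat_lit 407) (nat_lit 325)) (XT.nd (nat_lit 78) (nat_lit 76) (nat_lit 0) (XT.lf (nat_lit 0)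 (nat_lit 6360140833) (nat_lit 152) (nat_lit 14826745913) (nat_lit 76) (nat_lit 137762710220) (nat_lit 18) (nat_lit 5) (nat_lit 20) (nat_lit 5) (nat_lit 19) (nat_lit 4) (nat_lit 469) (nat_lit 407) (nat_lit 324)) (XT.lf (nat_lit 0) (nat_lit 56349511148) (nat_lit 152) (nat_lit 82926977498) (nat_lit 0) (nat_lit 29808070893) (nat_lit 17) (nat_lit 5) (nat_lit 19) (nat_lit 4) (nat_lit 17) (nat_lit 4) (nat_lit 470) (nat_lit 407) (nat_lit 323)))) (XT.nd (nat_lit 156) (nat_lit 152) (nat_lit 0) (XT.nd (nat_lit 78) (nat_lit 0) (nat_lit 0) (XT.lf (nat_lit 0) (nat_lit 15853539747) (nat_lit 76) (nat_lit 95339273686) (nat_lit 76) (nat_lit 68794766725) (nat_lit 16) (nat_lit 4) (nat_lit 17) (nat_lit 5) (nat_lit 17) (nat_lit 4) (nat_lit 471) (nat_lit 407) (nat_lit 322)) (XT.lf (nat_lit 0) (nat_lit 125473786726) (nat_lit 76) (nat_lit 46382386343) (nat_lit 76) (nat_lit 19835039840) (nat_lit 16) (nat_lit 4) (nat_lit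 17) (nat_lit 5) (nat_lit 17) (nat_lit 4) (nat_lit 472) (nat_lit 407) (nat_lit 321))) (XT.nd (nat_lit 78) (nat_lit 0) (nat_lit 0) (XT.lf (nat_lit 0) (nat_lit 32721563497) (nat_lit 152) (nat_lit 164111025493) (nat_lit 0) (nat_lit 7435872345) (nat_lit 14) (nat_lit 5) (nat_lit 16) (nat_lit 4) (nat_lit 14) (nat_lit 4) (nat_lit 473) (nat_lit 407) (nat_lit 320)) (XT.lf (nat_lit 0) (nat_lit 90740615218) (nat_lit 152) (nat_lit 61544768601) (nat_lit 0) (nat_lit 65452605541) (nat_lit 14) (nat_lit 5) (nat_lit 16) (nat_lit 4) (nat_lit 14) (nat_lit 4) (nat_lit 474) (nat_lit 407) (nat_lit 319))))) (XT.nd (nat_lit 234) (nat_lit 76) (nat_lit 0) (XT.nd (nat_lit 78) (nat_lit 152) (nat_lit 0) (XT.lf (nat_lit 0) (nat_lit 50833418334) (nat_lit 76) (nat_lit 103351320241) (nat_lit 76) (nat_lit 78061163784) (nat_lit 13) (nat_lit 4) (nat_lit 14) (nat_lit 5) (nat_lit 14) (nat_lit 4) (nat_lit 475) (nat_lit 407) (nat_lit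 318)) (XT.nd (nat_lit 78) (nat_lit 152) (nat_lit 0) (XT.lf (nat_lit 0) (nat_lit 174380131410) (nat_lit 76) (nat_lit 49386670403) (nat_lit 76) (nat_lit 24094526185) (nat_lit 13) (nat_lit 4) (nat_lit 14) (nat_lit 5) (nat_lit 14) (nat_lit 4) (nat_lit 476) (nat_lit 407) (nat_lit 317)) (XT.lf (nat_lit 0) (nat_lit 33930813735) (nat_lit 152) (nat_lit 220885397580) (nat_lit 0) (nat_lit 9841304462) (nat_lit 11) (nat_lit 5) (nat_lit 13) (nat_lit 4) (nat_lit 11) (nat_lit 4) (nat_lit 477) (nat_lit 407) (nat_lit 316)))) (XT.nd (nat_lit 156) (nat_lit 0) (nat_lit 0) (XT.nd (nat_lit 78) (nat_lit 76) (nat_lit 0) (XT.lf (nat_lit 0) (nat_lit 97890209859) (nat_lit 152) (nat_lit 110981552443) (nat_lit 0) (nat_lit 73799077553) (nat_lit 11) (nat_lit 5) (nat_lit 13) (nat_lit 4) (nat_lit 11) (nat_lit 4) (nat_lit 478) (nat_lit 407) (nat_lit 315)) (XT.lf (nat_lit 0) (nat_lit 7952623853) (nat_lit 76) (nat_lit 159129720921)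 (nat_lit 76) (nat_lit 135037085807) (nat_lit 10) (nat_lit 4) (nat_lit 11) (nat_lit 5) (nat_lit 11) (nat_lit 4) (nat_lit 479) (nat_lit 407) (nat_lit 314))) (XT.nd (nat_lit 78) (nat_lit 0) (nat_lit 0) (XT.lf (nat_lit 0) (nat_lit 140348857122) (nat_lit 76) (nat_lit 103386403797) (nat_lit 76) (nat_lit 79292377194) (nat_lit 10) (nat_lit 4) (nat_lit 11) (nat_lit 5) (nat_lit 11) (nat_lit 4) (nat_lit 480) (nat_lit 407) (nat_lit 313)) (XT.lf (nat_lit 0) (nat_lit 283322166302) (nat_lit 76) (nat_lit 43191006454) (nat_lit 76) (nat_lit 19095691435) (nat_lit 10) (nat_lit 4) (nat_lit 11) (nat_lit 5) (nat_lit 11) (nat_lit 4) (nat_lit 481) (nat_lit 407) (nat_lit 312)))))) (XT.nd (nat_lit 546) (nat_lit 76) (nat_lit 0) (XT.nd (nat_lit 234) (nat_lit 228) (nat_lit 0) (XT.nd (nat_lit 78) (nat_lit 0) (nat_lit 0) (XT.lf (nat_lit 0) (nat_lit 45891071738) (nat_lit 152) (nat_lit 301055457501) (nat_lit 0) (nat_lit 22942016503)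 (nat_lit 8) (nat_lit 5) (nat_lit 10) (nat_lit 4) (nat_lit 8) (nat_lit 4) (nat_lit 482) (nat_lit 407) (nat_lit 311)) (XT.nd (nat_lit 78) (nat_lit 0) (nat_lit 0) (XT.lf (nat_lit 0) (nat_lit 117241143911) (nat_lit 152) (nat_lit 184471099686) (nat_lit 0) (nat_lit 94291036667) (nat_lit 8) (nat_lit 5) (nat_lit 10) (nat_lit 4) (nat_lit 8) (nat_lit 4) (nat_lit 483) (nat_lit 407) (nat_lit 310)) (XT.lf (nat_lit 0) (nat_lit 194293095644) (nat_lit 152) (nat_lit 58572389945) (nat_lit 0) (nat_lit 171342014319) (nat_lit 8) (nat_lit 5) (nat_lit 10) (nat_lit 4) (nat_lit 8) (nat_lit 4) (nat_lit 484) (nat_lit 407) (nat_lit 309)))) (XT.nd (nat_lit 156) (nat_lit 152) (nat_lit 0) (XT.nd (nat_lit 78) (nat_lit 0) (nat_lit 0) (XT.lf (nat_lit 0) (nat_lit 79945493201) (nat_lit 76) (nat_lit 198806211091) (nat_lit 76) (nat_lit 175854227839) (nat_lit 7) (nat_lit 4) (nat_lit 8) (nat_lit 5) (nat_lit 8) (nat_lit 4) (nat_lit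 485) (nat_lit 407) (nat_lit 308)) (XT.lf (nat_lit 0) (nat_lit 231625428563) (nat_lit 76) (nat_lit 139356442651) (nat_lit 76) (nat_lit 116403624280) (nat_lit 7) (nat_lit 4) (nat_lit 8) (nat_lit 5) (nat_lit 8) (nat_lit 4) (nat_lit 486) (nat_lit 407) (nat_lit 307))) (XT.nd (nat_lit 78) (nat_lit 152) (nat_lit 0) (XT.lf (nat_lit 0) (nat_lit 395429592471) (nat_lit 76) (nat_lit 75155837109) (nat_lit 76) (nat_lit 52202245481) (nat_lit 7) (nat_lit 4) (nat_lit 8) (nat_lit 5) (nat_lit 8) (nat_lit 4) (nat_lit 487) (nat_lit 407) (nat_lit 306)) (XT.lf (nat_lit 0) (nat_lit 11403959724) (nat_lit 76) (nat_lit 5356170681) (nat_lit 152) (nat_lit 544239856084) (nat_lit 5) (nat_lit 5) (nat_lit 6) (nat_lit 5) (nat_lit 7) (nat_lit 4) (nat_lit 488) (nat_lit 407) (nat_lit 305))))) (XT.nd (nat_lit 234) (nat_lit 76) (nat_lit 0) (XT.nd (nat_lit 78) (nat_lit 0) (nat_lit 0) (XT.lf (nat_lit 0) (nat_lit 92778632761) (nat_lit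 152) (nat_lit 438362702892) (nat_lit 0) (nat_lit 70916756045) (nat_lit 5) (nat_lit 5) (nat_lit 7) (nat_lit 4) (nat_lit 5) (nat_lit 4) (nat_lit 489) (nat_lit 407) (nat_lit 304)) (XT.nd (nat_lit 78) (nat_lit 0) (nat_lit 0) (XT.lf (nat_lit 0) (nat_lit 174964678861) (nat_lit 152) (nat_lit 318329645774) (nat_lit 0) (nat_lit 153102217539) (nat_lit 5) (nat_lit 5) (nat_lit 7) (nat_lit 4) (nat_lit 5) (nat_lit 4) (nat_lit 490) (nat_lit 407) (nat_lit 303)) (XT.lf (nat_lit 0) (nat_lit 263721672293) (nat_lit 152) (nat_lit 188701923572) (nat_lit 0) (nat_lit 241858669669) (nat_lit 5) (nat_lit 5) (nat_lit 7) (nat_lit 4) (nat_lit 5) (nat_lit 4) (nat_lit 491) (nat_lit 407) (nat_lit 302)))) (XT.nd (nat_lit 156) (nat_lit 0) (nat_lit 0) (XT.nd (nat_lit 78) (nat_lit 76) (nat_lit 0) (XT.lf (nat_lit 0) (nat_lit 359575580426) (nat_lit 152) (nat_lit 48711372007) (nat_lit 0) (nat_lit 337712076595) (nat_lit 5) (nat_lit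 5) (nat_lit 7) (nat_lit 4) (nat_lit 5) (nat_lit 4) (nat_lit 492) (nat_lit 407) (nat_lit 301)) (XT.lf (nat_lit 0) (nat_lit 105859755856) (nat_lit 76) (nat_lit 358887438022) (nat_lit 76) (nat_lit 337023470112) (nat_lit 4) (nat_lit 4) (nat_lit 5) (nat_lit 5) (nat_lit 5) (nat_lit 4) (nat_lit 493) (nat_lit 407) (nat_lit 300))) (XT.nd (nat_lit 78) (nat_lit 0) (nat_lit 0) (XT.lf (nat_lit 0) (nat_lit 274529497514) (nat_lit 76) (nat_lit 304648332592) (nat_lit 76) (nat_lit 282783934980) (nat_lit 4) (nat_lit 4) (nat_lit 5) (nat_lit 5) (nat_lit 5) (nat_lit 4) (nat_lit 494) (nat_lit 407) (nat_lit 299)) (XT.lf (nat_lit 0) (nat_lit 456686759416) (nat_lit 76) (nat_lit 246073169878) (nat_lit 76) (nat_lit 224208374392) (nat_lit 4) (nat_lit 4) (nat_lit 5) (nat_lit 5) (nat_lit 5) (nat_lit 4) (nat_lit 495) (nat_lit 407) (nat_lit 298))))))) (XT.nd (nat_lit 56316) (nat_lit 0) (nat_lit 5776) (XT.nd (nat_lit 55770)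 (nat_lit 0) (nat_lit 9880) (XT.nd (nat_lit 234) (nat_lit 152) (nat_lit 0) (XT.nd (nat_lit 78) (nat_lit 0) (nat_lit 0) (XT.lf (nat_lit 0) (nat_lit 653410992003) (nat_lit 76) (nat_lit 182814837804) (nat_lit 76) (nat_lit 160949673917) (nat_lit 4) (nat_lit 4) (nat_lit 5) (nat_lit 5) (nat_lit 5) (nat_lit 4) (nat_lit 496) (nat_lit 407) (nat_lit 297)) (XT.nd (nat_lit 78) (nat_lit 0) (nat_lit 0) (XT.lf (nat_lit 0) (nat_lit 865867968506) (nat_lit 76) (nat_lit 114498472180) (nat_lit 76) (nat_lit 92632967180) (nat_lit 4) (nat_lit 4) (nat_lit 5) (nat_lit 5) (nat_lit 5) (nat_lit 4) (nat_lit 497) (nat_lit 407) (nat_lit 296)) (XT.lf (nat_lit 0) (nat_lit 1095316693229) (nat_lit 76) (nat_lit 40719235283) (nat_lit 76) (nat_lit 18853414439) (nat_lit 4) (nat_lit 4) (nat_lit 5) (nat_lit 5) (nat_lit 5) (nat_lit 4) (nat_lit 498) (nat_lit 407) (nat_lit 295)))) (XT.nd (nat_lit 55380) (nat_lit 0) (nat_lit 11780) (XT.nd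 (nat_lit 78) (nat_lit 0) (nat_lit 0) (XT.lf (nat_lit 0) (nat_lit 61123495051) (nat_lit 152) (nat_lit 1141748773164) (nat_lit 0) (nat_lit 40298625248) (nat_lit 2) (nat_lit 5) (nat_lit 4) (nat_lit 4) (nat_lit 2) (nat_lit 4) (nat_lit 499) (nat_lit 407) (nat_lit 294)) (XT.lf (nat_lit 0) (nat_lit 148586016912) (nat_lit 152) (nat_lit 1062065208709) (nat_lit 0) (nat_lit 127760889218) (nat_lit 2) (nat_lit 5) (nat_lit 4) (nat_lit 4) (nat_lit 2) (nat_lit 4) (nat_lit 500) (nat_lit 407) (nat_lit 293))) (XT.nd (nat_lit 78) (nat_lit 0) (nat_lit 0) (XT.lf (nat_lit 0) (nat_lit 1679327092) (nat_lit 684) (nat_lit 1231634385) (nat_lit 684) (nat_lit 1231634385) (nat_lit 157) (nat_lit 3) (nat_lit 166) (nat_lit 3) (nat_lit 166) (nat_lit 5) (nat_lit 408) (nat_lit 408) (nat_lit 384)) (XT.lf (nat_lit 76) (nat_lit 4210470142) (nat_lit 0) (nat_lit 1046790084) (nat_lit 684) (nat_lit 3270668820) (nat_lit 158) (nat_lit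 5) (nat_lit 157) (nat_lit 3) (nat_lit 166) (nat_lit 5) (nat_lit 409) (nat_lit 408) (nat_lit 383))))) (XT.nd (nat_lit 234) (nat_lit 1368) (nat_lit 0) (XT.nd (nat_lit 78) (nat_lit 608) (nat_lit 0) (XT.lf (nat_lit 76) (nat_lit 2635568327) (nat_lit 0) (nat_lit 4650984143) (nat_lit 684) (nat_lit 1504638753) (nat_lit 159) (nat_lit 5) (nat_lit 158) (nat_lit 5) (nat_lit 167) (nat_lit 5) (nat_lit 410) (nat_lit 408) (nat_lit 382)) (XT.nd (nat_lit 78) (nat_lit 0) (nat_lit 0) (XT.lf (nat_lit 0) (nat_lit 352317988) (nat_lit 684) (nat_lit 7954718221) (nat_lit 760) (nat_lit 770077556) (nat_lit 150) (nat_lit 5) (nat_lit 159) (nat_lit 5) (nat_lit 160) (nat_lit 5) (nat_lit 411) (nat_lit 408) (nat_lit 381)) (XT.lf (nat_lit 0) (nat_lit 2342786764) (nat_lit 684) (nat_lit 390571341) (nat_lit 760) (nat_lit 6649472520) (nat_lit 150) (nat_lit 5) (nat_lit 159) (nat_lit 5) (nat_lit 160) (nat_lit 5) (nat_lit 412) (nat_lit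 408) (nat_lit 380)))) (XT.nd (nat_lit 156) (nat_lit 1444) (nat_lit 0) (XT.nd (nat_lit 78) (nat_lit 0) (nat_lit 0) (XT.lf (nat_lit 0) (nat_lit 4531026461) (nat_lit 684) (nat_lit 1834164070) (nat_lit 760) (nat_lit 3345922226) (nat_lit 151) (nat_lit 5) (nat_lit 160) (nat_lit 5) (nat_lit 161) (nat_lit 5) (nat_lit 413) (nat_lit 408) (nat_lit 379)) (XT.lf (nat_lit 76) (nat_lit 6824910235) (nat_lit 0) (nat_lit 99074233) (nat_lit 760) (nat_lit 3140222067) (nat_lit 152) (nat_lit 5) (nat_lit 151) (nat_lit 5) (nat_lit 161) (nat_lit 5) (nat_lit 414) (nat_lit 408) (nat_lit 378))) (XT.nd (nat_lit 78) (nat_lit 836) (nat_lit 0) (XT.lf (nat_lit 0) (nat_lit 5774539838) (nat_lit 684) (nat_lit 3839162282) (nat_lit 760) (nat_lit 826609204) (nat_lit 143) (nat_lit 5) (nat_lit 152) (nat_lit 5) (nat_lit 153) (nat_lit 5) (nat_lit 415) (nat_lit 408) (nat_lit 377)) (XT.lf (nat_lit 0) (nat_lit 1686156684) (nat_lit 836)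 (nat_lit 6090496019) (nat_lit 76) (nat_lit 3065193574) (nat_lit 132) (nat_lit 5) (nat_lit 143) (nat_lit 5) (nat_lit 133) (nat_lit 5) (nat_lit 416) (nat_lit 408) (nat_lit 376)))))) (XT.nd (nat_lit 546) (nat_lit 1900) (nat_lit 0) (XT.nd (nat_lit 234) (nat_lit 1064) (nat_lit 0) (XT.nd (nat_lit 78) (nat_lit 760) (nat_lit 0) (XT.lf (nat_lit 0) (nat_lit 3752738035) (nat_lit 380) (nat_lit 715892583) (nat_lit 456) (nat_lit 6801337719) (nat_lit 127) (nat_lit 5) (nat_lit 132) (nat_lit 5) (nat_lit 133) (nat_lit 5) (nat_lit 417) (nat_lit 408) (nat_lit 375)) (XT.nd (nat_lit 78) (nat_lit 380) (nat_lit 0) (XT.lf (nat_lit 0) (nat_lit 2747178786) (nat_lit 380) (nat_lit 4882981091) (nat_lit 456) (nat_lit 4094379839) (nat_lit 122) (nat_lit 5) (nat_lit 127) (nat_lit 5) (nat_lit 128) (nat_lit 5) (nat_lit 418) (nat_lit 408) (nat_lit 374)) (XT.lf (nat_lit 0) (nat_lit 1787061694) (nat_lit 380) (nat_lit 9377354885)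 (nat_lit 456) (nat_lit 1045090733) (nat_lit 117) (nat_lit 5) (nat_lit 122) (nat_lit 5) (nat_lit 123) (nat_lit 5) (nat_lit 419) (nat_lit 408) (nat_lit 373)))) (XT.nd (nat_lit 156) (nat_lit 684) (nat_lit 0) (XT.nd (nat_lit 78) (nat_lit 0) (nat_lit 0) (XT.lf (nat_lit 0) (nat_lit 809984544) (nat_lit 304) (nat_lit 1527964061) (nat_lit 380) (nat_lit 10385498946) (nat_lit 112) (nat_lit 5) (nat_lit 116) (nat_lit 5) (nat_lit 117) (nat_lit 5) (nat_lit 420) (nat_lit 408) (nat_lit 372)) (XT.lf (nat_lit 0) (nat_lit 6161455630) (nat_lit 380) (nat_lit 188698054) (nat_lit 76) (nat_lit 6917187674) (nat_lit 112) (nat_lit 5) (nat_lit 117) (nat_lit 5) (nat_lit 113) (nat_lit 5) (nat_lit 421) (nat_lit 408) (nat_lit 371))) (XT.nd (nat_lit 78) (nat_lit 380) (nat_lit 0) (XT.lf (nat_lit 0) (nat_lit 10471526998) (nat_lit 380) (nat_lit 1122849699) (nat_lit 76) (nat_lit 2251351481) (nat_lit 108) (nat_lit 5) (nat_lit 113)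 (nat_lit 5) (nat_lit 109) (nat_lit 5) (nat_lit 422) (nat_lit 408) (nat_lit 370)) (XT.lf (nat_lit 0) (nat_lit 866404464) (nat_lit 380) (nat_lit 2074521624) (nat_lit 76) (nat_lit 11517392433) (nat_lit 103) (nat_lit 5) (nat_lit 108) (nat_lit 5) (nat_lit 104) (nat_lit 5) (nat_lit 423) (nat_lit 408) (nat_lit 369))))) (XT.nd (nat_lit 312) (nat_lit 836) (nat_lit 0) (XT.nd (nat_lit 156) (nat_lit 532) (nat_lit 0) (XT.nd (nat_lit 78) (nat_lit 228) (nat_lit 0) (XT.lf (nat_lit 0) (nat_lit 5569639998) (nat_lit 380) (nat_lit 3084616030) (nat_lit 76) (nat_lit 6450827290) (nat_lit 99) (nat_lit 5) (nat_lit 104) (nat_lit 5) (nat_lit 100) (nat_lit 5) (nat_lit 424) (nat_lit 408) (nat_lit 368)) (XT.lf (nat_lit 0) (nat_lit 10863355774) (nat_lit 304) (nat_lit 4058960757) (nat_lit 76) (nat_lit 870573566) (nat_lit 96) (nat_lit 5) (nat_lit 100) (nat_lit 5) (nat_lit 97) (nat_lit 5) (nat_lit 425) (nat_lit 408) (nat_lit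 367))) (XT.nd (nat_lit 78) (nat_lit 228) (nat_lit 0) (XT.lf (nat_lit 0) (nat_lit 361579289) (nat_lit 304) (nat_lit 5082850422) (nat_lit 76) (nat_lit 11075358797) (nat_lit 92) (nat_lit 5) (nat_lit 96) (nat_lit 5) (nat_lit 93) (nat_lit 5) (nat_lit 426) (nat_lit 408) (nat_lit 366)) (XT.lf (nat_lit 0) (nat_lit 6168483500) (nat_lit 304) (nat_lit 6170582845) (nat_lit 76) (nat_lit 4948481118) (nat_lit 89) (nat_lit 5) (nat_lit 93) (nat_lit 5) (nat_lit 90) (nat_lit 5) (nat_lit 427) (nat_lit 408) (nat_lit 365)))) (XT.nd (nat_lit 156) (nat_lit 380) (nat_lit 0) (XT.nd (nat_lit 78) (nat_lit 228) (nat_lit 0) (XT.lf (nat_lit 0) (nat_lit 10847580863) (nat_lit 228) (nat_lit 1882841200) (nat_lit 304) (nat_lit 5371789940) (nat_lit 86) (nat_lit 5) (nat_lit 89) (nat_lit 5) (nat_lit 90) (nat_lit 5) (nat_lit 428) (nat_lit 408) (nat_lit 364)) (XT.lf (nat_lit 0) (nat_lit 1177809602) (nat_lit 228) (nat_lit 8409219824)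 (nat_lit 76) (nat_lit 9375912285) (nat_lit 83) (nat_lit 5) (nat_lit 86) (nat_lit 5) (nat_lit 84) (nat_lit 5) (nat_lit 429) (nat_lit 408) (nat_lit 363))) (XT.nd (nat_lit 78) (nat_lit 152) (nat_lit 0) (XT.lf (nat_lit 0) (nat_lit 8360957026) (nat_lit 304) (nat_lit 9626022444) (nat_lit 76) (nat_lit 1886265480) (nat_lit 80) (nat_lit 5) (nat_lit 84) (nat_lit 5) (nat_lit 81) (nat_lit 5) (nat_lit 430) (nat_lit 408) (nat_lit 362)) (XT.lf (nat_lit 0) (nat_lit 9917237709) (nat_lit 152) (nat_lit 6613481382) (nat_lit 228) (nat_lit 4305062000) (nat_lit 78) (nat_lit 5) (nat_lit 80) (nat_lit 5) (nat_lit 81) (nat_lit 5) (nat_lit 431) (nat_lit 408) (nat_lit 361))))))))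
noncomputable def xc60 : XT := (XT.nd (nat_lit 2184) (nat_lit 1672) (nat_lit 0) (XT.nd (nat_lit 1092) (nat_lit 1444) (nat_lit 0) (XT.nd (nat_lit 546) (nat_lit 912) (nat_lit 0) (XT.nd (nat_lit 234) (nat_lit 760) (nat_lit 0) (XT.nd (nat_lit 78) (nat_lit 304) (nat_lit 0) (XT.lf (nat_lit 0) (nat_lit 3731501960) (nat_lit 304) (nat_lit 12281695091) (nat_lit 76) (nat_lit 5841208334) (nat_lit 74) (nat_lit 5) (nat_lit 78) (nat_lit 5) (nat_lit 75) (nat_lit 5) (nat_lit 432) (nat_lit 408) (nat_lit 360)) (XT.nd (nat_lit 78) (nat_lit 152) (nat_lit 0) (XT.lf (nat_lit 0) (nat_lit 9174496424) (nat_lit 152) (nat_lit 3486352712) (nat_lit 228) (nat_lit 10270112963) (nat_lit 72) (nat_lit 5) (nat_lit 74) (nat_lit 5) (nat_lit 75) (nat_lit 5) (nat_lit 433) (nat_lit 408) (nat_lit 359)) (XT.lf (nat_lit 0) (nat_lit 8743889210) (nat_lit 152) (nat_lit 14024014968) (nat_lit 228) (nat_lit 1302576294) (nat_lit 70) (nat_lit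 5) (nat_lit 72) (nat_lit 5) (nat_lit 73) (nat_lit 5) (nat_lit 434) (nat_lit 408) (nat_lit 358)))) (XT.nd (nat_lit 156) (nat_lit 380) (nat_lit 0) (XT.nd (nat_lit 78) (nat_lit 152) (nat_lit 0) (XT.lf (nat_lit 0) (nat_lit 8239884145) (nat_lit 152) (nat_lit 259381126) (nat_lit 228) (nat_lit 16776096461) (nat_lit 67) (nat_lit 5) (nat_lit 69) (nat_lit 5) (nat_lit 70) (nat_lit 5) (nat_lit 435) (nat_lit 408) (nat_lit 357)) (XT.lf (nat_lit 0) (nat_lit 7589237088) (nat_lit 152) (nat_lit 12024867675) (nat_lit 228) (nat_lit 6932740906) (nat_lit 65) (nat_lit 5) (nat_lit 67) (nat_lit 5) (nat_lit 68) (nat_lit 5) (nat_lit 436) (nat_lit 408) (nat_lit 356))) (XT.nd (nat_lit 78) (nat_lit 152) (nat_lit 0) (XT.lf (nat_lit 0) (nat_lit 3999083170) (nat_lit 228) (nat_lit 20975647002) (nat_lit 76) (nat_lit 2921466876) (nat_lit 62) (nat_lit 5) (nat_lit 65) (nat_lit 5) (nat_lit 63) (nat_lit 5) (nat_lit 437) (nat_lit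 408) (nat_lit 355)) (XT.lf (nat_lit 0) (nat_lit 6004533290) (nat_lit 152) (nat_lit 10152464776) (nat_lit 228) (nat_lit 13161097598) (nat_lit 60) (nat_lit 5) (nat_lit 62) (nat_lit 5) (nat_lit 63) (nat_lit 5) (nat_lit 438) (nat_lit 408) (nat_lit 354))))) (XT.nd (nat_lit 234) (nat_lit 532) (nat_lit 0) (XT.nd (nat_lit 78) (nat_lit 304) (nat_lit 0) (XT.lf (nat_lit 0) (nat_lit 5051029402) (nat_lit 76) (nat_lit 24738714094) (nat_lit 152) (nat_lit 1038895972) (nat_lit 59) (nat_lit 5) (nat_lit 60) (nat_lit 5) (nat_lit 61) (nat_lit 4) (nat_lit 439) (nat_lit 408) (nat_lit 353)) (XT.nd (nat_lit 78) (nat_lit 76) (nat_lit 0) (XT.lf (nat_lit 0) (nat_lit 3763890541) (nat_lit 152) (nat_lit 8507938384) (nat_lit 228) (nat_lit 20148565473) (nat_lit 56) (nat_lit 5) (nat_lit 58) (nat_lit 5) (nat_lit 59) (nat_lit 5) (nat_lit 440) (nat_lit 408) (nat_lit 352)) (XT.lf (nat_lit 0) (nat_lit 2313971330) (nat_lit 76) (nat_lit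 24894059823) (nat_lit 152) (nat_lit 6900758740) (nat_lit 55) (nat_lit 5) (nat_lit 56) (nat_lit 5) (nat_lit 57) (nat_lit 4) (nat_lit 441) (nat_lit 408) (nat_lit 351)))) (XT.nd (nat_lit 156) (nat_lit 304) (nat_lit 0) (XT.nd (nat_lit 78) (nat_lit 0) (nat_lit 0) (XT.lf (nat_lit 0) (nat_lit 564032169) (nat_lit 152) (nat_lit 7229722487) (nat_lit 228) (nat_lit 28101525134) (nat_lit 52) (nat_lit 5) (nat_lit 54) (nat_lit 5) (nat_lit 55) (nat_lit 5) (nat_lit 442) (nat_lit 408) (nat_lit 350)) (XT.lf (nat_lit 0) (nat_lit 24138752676) (nat_lit 228) (nat_lit 1523722341) (nat_lit 76) (nat_lit 12120724987) (nat_lit 52) (nat_lit 5) (nat_lit 55) (nat_lit 5) (nat_lit 53) (nat_lit 4) (nat_lit 443) (nat_lit 408) (nat_lit 349))) (XT.nd (nat_lit 78) (nat_lit 152) (nat_lit 0) (XT.lf (nat_lit 0) (nat_lit 2568281665) (nat_lit 152) (nat_lit 3872199003) (nat_lit 76) (nat_lit 33347032215) (nat_lit 50) (nat_lit 5) (nat_lit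 52) (nat_lit 5) (nat_lit 51) (nat_lit 5) (nat_lit 444) (nat_lit 408) (nat_lit 348)) (XT.lf (nat_lit 0) (nat_lit 20389918124) (nat_lit 228) (nat_lit 6854588585) (nat_lit 76) (nat_lit 14656985629) (nat_lit 48) (nat_lit 5) (nat_lit 51) (nat_lit 5) (nat_lit 49) (nat_lit 4) (nat_lit 445) (nat_lit 408) (nat_lit 347)))))) (XT.nd (nat_lit 546) (nat_lit 684) (nat_lit 0) (XT.nd (nat_lit 234) (nat_lit 456) (nat_lit 0) (XT.nd (nat_lit 78) (nat_lit 228) (nat_lit 0) (XT.lf (nat_lit 0) (nat_lit 33958083440) (nat_lit 76) (nat_lit 6356679661) (nat_lit 152) (nat_lit 3835954763) (nat_lit 47) (nat_lit 5) (nat_lit 48) (nat_lit 5) (nat_lit 49) (nat_lit 4) (nat_lit 446) (nat_lit 408) (nat_lit 346)) (XT.nd (nat_lit 78) (nat_lit 76) (nat_lit 0) (XT.lf (nat_lit 0) (nat_lit 15631329918) (nat_lit 152) (nat_lit 14353847363) (nat_lit 76) (nat_lit 16539506408) (nat_lit 45) (nat_lit 5) (nat_lit 47) (nat_lit 5) (nat_lit 46)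 (nat_lit 4) (nat_lit 447) (nat_lit 408) (nat_lit 345)) (XT.lf (nat_lit 0) (nat_lit 29938243196) (nat_lit 76) (nat_lit 7312232056) (nat_lit 152) (nat_lit 11798505054) (nat_lit 44) (nat_lit 5) (nat_lit 45) (nat_lit 5) (nat_lit 46) (nat_lit 4) (nat_lit 448) (nat_lit 408) (nat_lit 344)))) (XT.nd (nat_lit 156) (nat_lit 228) (nat_lit 0) (XT.nd (nat_lit 78) (nat_lit 76) (nat_lit 0) (XT.lf (nat_lit 0) (nat_lit 9474329555) (nat_lit 152) (nat_lit 24816078493) (nat_lit 76) (nat_lit 17431284490) (nat_lit 42) (nat_lit 5) (nat_lit 44) (nat_lit 5) (nat_lit 43) (nat_lit 4) (nat_lit 449) (nat_lit 408) (nat_lit 343)) (XT.lf (nat_lit 0) (nat_lit 23054153713) (nat_lit 76) (nat_lit 9782325383) (nat_lit 152) (nat_lit 21722030297) (nat_lit 41) (nat_lit 5) (nat_lit 42) (nat_lit 5) (nat_lit 43) (nat_lit 4) (nat_lit 450) (nat_lit 408) (nat_lit 342))) (XT.nd (nat_lit 78) (nat_lit 76) (nat_lit 0) (XT.lf (nat_lit 0) (nat_lit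 1407132721) (nat_lit 152) (nat_lit 39287911487) (nat_lit 76) (nat_lit 16878077835) (nat_lit 39) (nat_lit 5) (nat_lit 41) (nat_lit 5) (nat_lit 40) (nat_lit 4) (nat_lit 451) (nat_lit 408) (nat_lit 341)) (XT.lf (nat_lit 0) (nat_lit 12183655421) (nat_lit 76) (nat_lit 14340390743) (nat_lit 152) (nat_lit 34242130888) (nat_lit 38) (nat_lit 5) (nat_lit 39) (nat_lit 5) (nat_lit 40) (nat_lit 4) (nat_lit 452) (nat_lit 408) (nat_lit 340))))) (XT.nd (nat_lit 234) (nat_lit 456) (nat_lit 0) (XT.nd (nat_lit 78) (nat_lit 152) (nat_lit 0) (XT.lf (nat_lit 0) (nat_lit 4873376801) (nat_lit 76) (nat_lit 49745207124) (nat_lit 76) (nat_lit 9547679782) (nat_lit 37) (nat_lit 4) (nat_lit 38) (nat_lit 5) (nat_lit 38) (nat_lit 4) (nat_lit 453) (nat_lit 408) (nat_lit 339)) (XT.nd (nat_lit 78) (nat_lit 76) (nat_lit 0) (XT.lf (nat_lit 0) (nat_lit 17653065214) (nat_lit 152) (nat_lit 4023527154) (nat_lit 76) (nat_lit 46094461297)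 (nat_lit 36) (nat_lit 5) (nat_lit 38) (nat_lit 5) (nat_lit 37) (nat_lit 4) (nat_lit 454) (nat_lit 408) (nat_lit 338)) (XT.lf (nat_lit 0) (nat_lit 47724795072) (nat_lit 152) (nat_lit 14465815393) (nat_lit 0) (nat_lit 9414319573) (nat_lit 35) (nat_lit 5) (nat_lit 37) (nat_lit 4) (nat_lit 35) (nat_lit 4) (nat_lit 455) (nat_lit 408) (nat_lit 337)))) (XT.nd (nat_lit 156) (nat_lit 228) (nat_lit 0) (XT.nd (nat_lit 78) (nat_lit 76) (nat_lit 0) (XT.lf (nat_lit 0) (nat_lit 5510443030) (nat_lit 152) (nat_lit 27026138210) (nat_lit 76) (nat_lit 43145639746) (nat_lit 33) (nat_lit 5) (nat_lit 35) (nat_lit 5) (nat_lit 34) (nat_lit 4) (nat_lit 456) (nat_lit 408) (nat_lit 336)) (XT.lf (nat_lit 0) (nat_lit 37268937081) (nat_lit 152) (nat_lit 41993889847) (nat_lit 0) (nat_lit 760629266) (nat_lit 32) (nat_lit 5) (nat_lit 34) (nat_lit 4) (nat_lit 32) (nat_lit 4) (nat_lit 457) (nat_lit 408) (nat_lit 335))) (XT.nd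 (nat_lit 78) (nat_lit 152) (nat_lit 0) (XT.lf (nat_lit 0) (nat_lit 24764115623) (nat_lit 76) (nat_lit 48198165232) (nat_lit 76) (nat_lit 11680001349) (nat_lit 31) (nat_lit 4) (nat_lit 32) (nat_lit 5) (nat_lit 32) (nat_lit 4) (nat_lit 458) (nat_lit 408) (nat_lit 334)) (XT.lf (nat_lit 0) (nat_lit 8654219499) (nat_lit 76) (nat_lit 13385541169) (nat_lit 152) (nat_lit 67530793549) (nat_lit 29) (nat_lit 5) (nat_lit 30) (nat_lit 5) (nat_lit 31) (nat_lit 4) (nat_lit 459) (nat_lit 408) (nat_lit 333))))))) (XT.nd (nat_lit 1092) (nat_lit 684) (nat_lit 0) (XT.nd (nat_lit 546) (nat_lit 456) (nat_lit 0) (XT.nd (nat_lit 234) (nat_lit 304) (nat_lit 0) (XT.nd (nat_lit 78) (nat_lit 228) (nat_lit 0) (XT.lf (nat_lit 0) (nat_lit 59473073795) (nat_lit 152) (nat_lit 10662050736) (nat_lit 0) (nat_lit 24677131068) (nat_lit 29) (nat_lit 5) (nat_lit 31) (nat_lit 4) (nat_lit 29) (nat_lit 4) (nat_lit 460) (nat_lit 408)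 (nat_lit 332)) (XT.nd (nat_lit 78) (nat_lit 76) (nat_lit 0) (XT.lf (nat_lit 0) (nat_lit 722922952) (nat_lit 152) (nat_lit 33321402164) (nat_lit 76) (nat_lit 66365572609) (nat_lit 27) (nat_lit 5) (nat_lit 29) (nat_lit 5) (nat_lit 28) (nat_lit 4) (nat_lit 461) (nat_lit 408) (nat_lit 331)) (XT.lf (nat_lit 0) (nat_lit 39437502984) (nat_lit 152) (nat_lit 60653758767) (nat_lit 0) (nat_lit 6284842274) (nat_lit 26) (nat_lit 5) (nat_lit 28) (nat_lit 4) (nat_lit 26) (nat_lit 4) (nat_lit 462) (nat_lit 408) (nat_lit 330)))) (XT.nd (nat_lit 156) (nat_lit 152) (nat_lit 0) (XT.nd (nat_lit 78) (nat_lit 76) (nat_lit 0) (XT.lf (nat_lit 0) (nat_lit 19497399739) (nat_lit 76) (nat_lit 63204168210) (nat_lit 76) (nat_lit 30045423259) (nat_lit 25) (nat_lit 4) (nat_lit 26) (nat_lit 5) (nat_lit 26) (nat_lit 4) (nat_lit 463) (nat_lit 408) (nat_lit 329)) (XT.lf (nat_lit 0) (nat_lit 10543812078) (nat_lit 152) (nat_lit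 11549563744) (nat_lit 76) (nat_lit 97473612199) (nat_lit 24) (nat_lit 5) (nat_lit 26) (nat_lit 5) (nat_lit 25) (nat_lit 4) (nat_lit 464) (nat_lit 408) (nat_lit 328))) (XT.nd (nat_lit 78) (nat_lit 76) (nat_lit 0) (XT.lf (nat_lit 0) (nat_lit 54931863844) (nat_lit 152) (nat_lit 48554103849) (nat_lit 0) (nat_lit 23341773596) (nat_lit 23) (nat_lit 5) (nat_lit 25) (nat_lit 4) (nat_lit 23) (nat_lit 4) (nat_lit 465) (nat_lit 408) (nat_lit 327)) (XT.lf (nat_lit 0) (nat_lit 41975446870) (nat_lit 76) (nat_lit 62113840949) (nat_lit 76) (nat_lit 30519150828) (nat_lit 22) (nat_lit 4) (nat_lit 23) (nat_lit 5) (nat_lit 23) (nat_lit 4) (nat_lit 466) (nat_lit 408) (nat_lit 326))))) (XT.nd (nat_lit 234) (nat_lit 228) (nat_lit 0) (XT.nd (nat_lit 78) (nat_lit 152) (nat_lit 0) (XT.lf (nat_lit 0) (nat_lit 14560261522) (nat_lit 152) (nat_lit 1750413140) (nat_lit 76) (nat_lit 126647557303) (nat_lit 21) (nat_lit 5)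 (nat_lit 23) (nat_lit 5) (nat_lit 22) (nat_lit 4) (nat_lit 467) (nat_lit 408) (nat_lit 325)) (XT.nd (nat_lit 78) (nat_lit 76) (nat_lit 0) (XT.lf (nat_lit 0) (nat_lit 64275878673) (nat_lit 152) (nat_lit 53392274435) (nat_lit 0) (nat_lit 34177885424) (nat_lit 20) (nat_lit 5) (nat_lit 22) (nat_lit 4) (nat_lit 20) (nat_lit 4) (nat_lit 468) (nat_lit 408) (nat_lit 324)) (XT.lf (nat_lit 0) (nat_lit 46481033212) (nat_lit 76) (nat_lit 72507167356) (nat_lit 76) (nat_lit 42405696462) (nat_lit 19) (nat_lit 4) (nat_lit 20) (nat_lit 5) (nat_lit 20) (nat_lit 4) (nat_lit 469) (nat_lit 408) (nat_lit 323)))) (XT.nd (nat_lit 156) (nat_lit 76) (nat_lit 0) (XT.nd (nat_lit 78) (nat_lit 76) (nat_lit 0) (XT.lf (nat_lit 0) (nat_lit 7101375226) (nat_lit 152) (nat_lit 15546871719) (nat_lit 76) (nat_lit 149005693607) (nat_lit 18) (nat_lit 5) (nat_lit 20) (nat_lit 5) (nat_lit 19) (nat_lit 4) (nat_lit 470) (nat_lit 408)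 (nat_lit 322)) (XT.lf (nat_lit 0) (nat_lit 61083129174) (nat_lit 152) (nat_lit 89107754075) (nat_lit 0) (nat_lit 32409155407) (nat_lit 17) (nat_lit 5) (nat_lit 19) (nat_lit 4) (nat_lit 17) (nat_lit 4) (nat_lit 471) (nat_lit 408) (nat_lit 321))) (XT.nd (nat_lit 78) (nat_lit 0) (nat_lit 0) (XT.lf (nat_lit 0) (nat_lit 17555501137) (nat_lit 76) (nat_lit 102748450093) (nat_lit 76) (nat_lit 74071847120) (nat_lit 16) (nat_lit 4) (nat_lit 17) (nat_lit 5) (nat_lit 17) (nat_lit 4) (nat_lit 472) (nat_lit 408) (nat_lit 320)) (XT.lf (nat_lit 0) (nat_lit 135913243562) (nat_lit 76) (nat_lit 49891157355) (nat_lit 76) (nat_lit 21212119932) (nat_lit 16) (nat_lit 4) (nat_lit 17) (nat_lit 5) (nat_lit 17) (nat_lit 4) (nat_lit 473) (nat_lit 408) (nat_lit 319)))))) (XT.nd (nat_lit 546) (nat_lit 228) (nat_lit 0) (XT.nd (nat_lit 234) (nat_lit 228) (nat_lit 0) (XT.nd (nat_lit 78) (nat_lit 76) (nat_lit 0) (XT.lf (nat_lit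 0) (nat_lit 35536425824) (nat_lit 152) (nat_lit 176842743378) (nat_lit 0) (nat_lit 8220910069) (nat_lit 14) (nat_lit 5) (nat_lit 16) (nat_lit 4) (nat_lit 14) (nat_lit 4) (nat_lit 474) (nat_lit 408) (nat_lit 318)) (XT.nd (nat_lit 78) (nat_lit 76) (nat_lit 0) (XT.lf (nat_lit 0) (nat_lit 98182398923) (nat_lit 152) (nat_lit 66100605502) (nat_lit 0) (nat_lit 70864895407) (nat_lit 14) (nat_lit 5) (nat_lit 16) (nat_lit 4) (nat_lit 14) (nat_lit 4) (nat_lit 475) (nat_lit 408) (nat_lit 317)) (XT.lf (nat_lit 0) (nat_lit 55251854657) (nat_lit 76) (nat_lit 111442168423) (nat_lit 76) (nat_lit 84122824388) (nat_lit 13) (nat_lit 4) (nat_lit 14) (nat_lit 5) (nat_lit 14) (nat_lit 4) (nat_lit 476) (nat_lit 408) (nat_lit 316)))) (XT.nd (nat_lit 156) (nat_lit 76) (nat_lit 0) (XT.nd (nat_lit 78) (nat_lit 152) (nat_lit 0) (XT.lf (nat_lit 0) (nat_lit 188656248272) (nat_lit 76) (nat_lit 53173476779) (nat_lit 76) (nat_lit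 25852428559) (nat_lit 13) (nat_lit 4) (nat_lit 14) (nat_lit 5) (nat_lit 14) (nat_lit 4) (nat_lit 477) (nat_lit 408) (nat_lit 315)) (XT.lf (nat_lit 0) (nat_lit 36804782496) (nat_lit 152) (nat_lit 238234124119) (nat_lit 0) (nat_lit 10783233764) (nat_lit 11) (nat_lit 5) (nat_lit 13) (nat_lit 4) (nat_lit 11) (nat_lit 4) (nat_lit 478) (nat_lit 408) (nat_lit 314))) (XT.nd (nat_lit 78) (nat_lit 76) (nat_lit 0) (XT.lf (nat_lit 0) (nat_lit 105869115223) (nat_lit 152) (nat_lit 119561831022) (nat_lit 0) (nat_lit 79846175003) (nat_lit 11) (nat_lit 5) (nat_lit 13) (nat_lit 4) (nat_lit 11) (nat_lit 4) (nat_lit 479) (nat_lit 408) (nat_lit 313)) (XT.lf (nat_lit 0) (nat_lit 8874117988) (nat_lit 76) (nat_lit 171716017136) (nat_lit 76) (nat_lit 145691788499) (nat_lit 10) (nat_lit 4) (nat_lit 11) (nat_lit 5) (nat_lit 11) (nat_lit 4) (nat_lit 480) (nat_lit 408) (nat_lit 312))))) (XT.nd (nat_lit 234) (nat_lit 76)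 (nat_lit 0) (XT.nd (nat_lit 78) (nat_lit 152) (nat_lit 0) (XT.lf (nat_lit 0) (nat_lit 151840917753) (nat_lit 76) (nat_lit 111523907342) (nat_lit 76) (nat_lit 85498485729) (nat_lit 10) (nat_lit 4) (nat_lit 11) (nat_lit 5) (nat_lit 11) (nat_lit 4) (nat_lit 481) (nat_lit 408) (nat_lit 311)) (XT.nd (nat_lit 78) (nat_lit 152) (nat_lit 0) (XT.lf (nat_lit 0) (nat_lit 306232524849) (nat_lit 76) (nat_lit 46522760343) (nat_lit 76) (nat_lit 20496234120) (nat_lit 10) (nat_lit 4) (nat_lit 11) (nat_lit 5) (nat_lit 11) (nat_lit 4) (nat_lit 482) (nat_lit 408) (nat_lit 310)) (XT.lf (nat_lit 0) (nat_lit 49681877541) (nat_lit 152) (nat_lit 324898039271) (nat_lit 0) (nat_lit 24893735628) (nat_lit 8) (nat_lit 5) (nat_lit 10) (nat_lit 4) (nat_lit 8) (nat_lit 4) (nat_lit 483) (nat_lit 408) (nat_lit 309)))) (XT.nd (nat_lit 156) (nat_lit 76) (nat_lit 0) (XT.nd (nat_lit 78) (nat_lit 0) (nat_lit 0) (XT.lf (nat_lit 0)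 (nat_lit 126731102150) (nat_lit 152) (nat_lit 199004848004) (nat_lit 0) (nat_lit 101942058309) (nat_lit 8) (nat_lit 5) (nat_lit 10) (nat_lit 4) (nat_lit 8) (nat_lit 4) (nat_lit 484) (nat_lit 408) (nat_lit 308)) (XT.lf (nat_lit 0) (nat_lit 209939012487) (nat_lit 152) (nat_lit 63050829607) (nat_lit 0) (nat_lit 185149133528) (nat_lit 8) (nat_lit 5) (nat_lit 10) (nat_lit 4) (nat_lit 8) (nat_lit 4) (nat_lit 485) (nat_lit 408) (nat_lit 307))) (XT.nd (nat_lit 78) (nat_lit 0) (nat_lit 0) (XT.lf (nat_lit 0) (nat_lit 86539472946) (nat_lit 76) (nat_lit 214610343218) (nat_lit 76) (nat_lit 189819691001) (nat_lit 7) (nat_lit 4) (nat_lit 8) (nat_lit 5) (nat_lit 8) (nat_lit 4) (nat_lit 486) (nat_lit 408) (nat_lit 306)) (XT.lf (nat_lit 0) (nat_lit 250339111264) (nat_lit 76) (nat_lit 150412027728) (nat_lit 76) (nat_lit 125620659533) (nat_lit 7) (nat_lit 4) (nat_lit 8) (nat_lit 5) (nat_lit 8) (nat_lit 4) (nat_lit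 487) (nat_lit 408) (nat_lit 305))))))))
noncomputable def xc61 : XT := (XT.nd (nat_lit 57486) (nat_lit 0) (nat_lit 2812) (XT.nd (nat_lit 56394) (nat_lit 0) (nat_lit 7752) (XT.nd (nat_lit 546) (nat_lit 152) (nat_lit 0) (XT.nd (nat_lit 234) (nat_lit 76) (nat_lit 0) (XT.nd (nat_lit 78) (nat_lit 152) (nat_lit 0) (XT.lf (nat_lit 0) (nat_lit 427234004698) (nat_lit 76) (nat_lit 81082257472) (nat_lit 76) (nat_lit 56290226333) (nat_lit 7) (nat_lit 4) (nat_lit 8) (nat_lit 5) (nat_lit 8) (nat_lit 4) (nat_lit 488) (nat_lit 408) (nat_lit 304)) (XT.nd (nat_lit 78) (nat_lit 0) (nat_lit 0) (XT.lf (nat_lit 0) (nat_lit 12481632216) (nat_lit 76) (nat_lit 5700942023) (nat_lit 152) (nat_lit 587693328924) (nat_lit 5) (nat_lit 5) (nat_lit 6) (nat_lit 5) (nat_lit 7) (nat_lit 4) (nat_lit 489) (nat_lit 408) (nat_lit 303)) (XT.lf (nat_lit 0) (nat_lit 100277720179) (nat_lit 152) (nat_lit 473276042439) (nat_lit 0) (nat_lit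 76665136043) (nat_lit 5) (nat_lit 5) (nat_lit 7) (nat_lit 4) (nat_lit 5) (nat_lit 4) (nat_lit 490) (nat_lit 408) (nat_lit 302)))) (XT.nd (nat_lit 156) (nat_lit 76) (nat_lit 0) (XT.nd (nat_lit 78) (nat_lit 0) (nat_lit 0) (XT.lf (nat_lit 0) (nat_lit 189032961316) (nat_lit 152) (nat_lit 343651872359) (nat_lit 0) (nat_lit 165419875974) (nat_lit 5) (nat_lit 5) (nat_lit 7) (nat_lit 4) (nat_lit 5) (nat_lit 4) (nat_lit 491) (nat_lit 408) (nat_lit 301)) (XT.lf (nat_lit 0) (nat_lit 284885246953) (nat_lit 152) (nat_lit 203664609794) (nat_lit 0) (nat_lit 261271697531) (nat_lit 5) (nat_lit 5) (nat_lit 7) (nat_lit 4) (nat_lit 5) (nat_lit 4) (nat_lit 492) (nat_lit 408) (nat_lit 300))) (XT.nd (nat_lit 78) (nat_lit 76) (nat_lit 0) (XT.lf (nat_lit 0) (nat_lit 388402590634) (nat_lit 152) (nat_lit 52484700596) (nat_lit 0) (nat_lit 364788611509) (nat_lit 5) (nat_lit 5) (nat_lit 7) (nat_lit 4) (nat_lit 5) (nat_lit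 4) (nat_lit 493) (nat_lit 408) (nat_lit 299)) (XT.lf (nat_lit 0) (nat_lit 114446746808) (nat_lit 76) (nat_lit 387538516116) (nat_lit 76) (nat_lit 363924139118) (nat_lit 4) (nat_lit 4) (nat_lit 5) (nat_lit 5) (nat_lit 5) (nat_lit 4) (nat_lit 494) (nat_lit 408) (nat_lit 298))))) (XT.nd (nat_lit 234) (nat_lit 152) (nat_lit 0) (XT.nd (nat_lit 78) (nat_lit 0) (nat_lit 0) (XT.lf (nat_lit 0) (nat_lit 296601311466) (nat_lit 76) (nat_lit 328964720545) (nat_lit 76) (nat_lit 305349975145) (nat_lit 4) (nat_lit 4) (nat_lit 5) (nat_lit 5) (nat_lit 5) (nat_lit 4) (nat_lit 495) (nat_lit 408) (nat_lit 297)) (XT.nd (nat_lit 78) (nat_lit 0) (nat_lit 0) (XT.lf (nat_lit 0) (nat_lit 493323046606) (nat_lit 76) (nat_lit 265707654343) (nat_lit 76) (nat_lit 242092567832) (nat_lit 4) (nat_lit 4) (nat_lit 5) (nat_lit 5) (nat_lit 5) (nat_lit 4) (nat_lit 496) (nat_lit 408) (nat_lit 296)) (XT.lf (nat_lit 0) (nat_lit 705777710657)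 (nat_lit 76) (nat_lit 197392460824) (nat_lit 76) (nat_lit 173777058467) (nat_lit 4) (nat_lit 4) (nat_lit 5) (nat_lit 5) (nat_lit 5) (nat_lit 4) (nat_lit 497) (nat_lit 408) (nat_lit 295)))) (XT.nd (nat_lit 156) (nat_lit 152) (nat_lit 0) (XT.nd (nat_lit 78) (nat_lit 0) (nat_lit 0) (XT.lf (nat_lit 0) (nat_lit 935224294221) (nat_lit 76) (nat_lit 123614309209) (nat_lit 76) (nat_lit 99998614404) (nat_lit 4) (nat_lit 4) (nat_lit 5) (nat_lit 5) (nat_lit 5) (nat_lit 4) (nat_lit 498) (nat_lit 408) (nat_lit 294)) (XT.lf (nat_lit 0) (nat_lit 1183022480757) (nat_lit 76) (nat_lit 43935995638) (nat_lit 76) (nat_lit 20320030047) (nat_lit 4) (nat_lit 4) (nat_lit 5) (nat_lit 5) (nat_lit 5) (nat_lit 4) (nat_lit 499) (nat_lit 408) (nat_lit 293))) (XT.nd (nat_lit 55380) (nat_lit 0) (nat_lit 11780) (XT.lf (nat_lit 0) (nat_lit 66052552731) (nat_lit 152) (nat_lit 1233009134930) (nat_lit 0) (nat_lit 43560918141) (nat_lit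 2) (nat_lit 5) (nat_lit 4) (nat_lit 4) (nat_lit 2) (nat_lit 4) (nat_lit 500) (nat_lit 408) (nat_lit 292)) (XT.lf (nat_lit 0) (nat_lit 3471346385) (nat_lit 684) (nat_lit 459663567) (nat_lit 684) (nat_lit 459663567) (nat_lit 157) (nat_lit 3) (nat_lit 166) (nat_lit 3) (nat_lit 166) (nat_lit 5) (nat_lit 409) (nat_lit 409) (nat_lit 382)))))) (XT.nd (nat_lit 546) (nat_lit 2888) (nat_lit 0) (XT.nd (nat_lit 234) (nat_lit 532) (nat_lit 0) (XT.nd (nat_lit 78) (nat_lit 608) (nat_lit 0) (XT.lf (nat_lit 76) (nat_lit 6212649017) (nat_lit 0) (nat_lit 2560957719) (nat_lit 684) (nat_lit 280941763) (nat_lit 158) (nat_lit 5) (nat_lit 157) (nat_lit 3) (nat_lit 166) (nat_lit 5) (nat_lit 410) (nat_lit 409) (nat_lit 381)) (XT.nd (nat_lit 78) (nat_lit 0) (nat_lit 0) (XT.lf (nat_lit 0) (nat_lit 1348144021) (nat_lit 684) (nat_lit 4762204694) (nat_lit 760) (nat_lit 3238620272) (nat_lit 149) (nat_lit 5) (nat_lit 158)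 (nat_lit 5) (nat_lit 159) (nat_lit 5) (nat_lit 411) (nat_lit 409) (nat_lit 380)) (XT.lf (nat_lit 76) (nat_lit 3005914296) (nat_lit 0) (nat_lit 93722497) (nat_lit 760) (nat_lit 6567014487) (nat_lit 150) (nat_lit 5) (nat_lit 149) (nat_lit 5) (nat_lit 159) (nat_lit 5) (nat_lit 412) (nat_lit 409) (nat_lit 379)))) (XT.nd (nat_lit 156) (nat_lit 608) (nat_lit 0) (XT.nd (nat_lit 78) (nat_lit 0) (nat_lit 76) (XT.lf (nat_lit 76) (nat_lit 1412103111) (nat_lit 0) (nat_lit 3656514680) (nat_lit 760) (nat_lit 4937293956) (nat_lit 151) (nat_lit 5) (nat_lit 150) (nat_lit 5) (nat_lit 160) (nat_lit 5) (nat_lit 413) (nat_lit 409) (nat_lit 378)) (XT.lf (nat_lit 0) (nat_lit 7240104956) (nat_lit 684) (nat_lit 141415401) (nat_lit 760) (nat_lit 2988572969) (nat_lit 151) (nat_lit 5) (nat_lit 160) (nat_lit 5) (nat_lit 161) (nat_lit 5) (nat_lit 414) (nat_lit 409) (nat_lit 377))) (XT.nd (nat_lit 78) (nat_lit 684) (nat_lit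 0) (XT.lf (nat_lit 76) (nat_lit 9130443212) (nat_lit 0) (nat_lit 547705791) (nat_lit 760) (nat_lit 1080645994) (nat_lit 152) (nat_lit 5) (nat_lit 151) (nat_lit 5) (nat_lit 161) (nat_lit 5) (nat_lit 415) (nat_lit 409) (nat_lit 376)) (XT.lf (nat_lit 0) (nat_lit 1228993153) (nat_lit 760) (nat_lit 3160015261) (nat_lit 76) (nat_lit 6782094366) (nat_lit 142) (nat_lit 5) (nat_lit 152) (nat_lit 5) (nat_lit 143) (nat_lit 5) (nat_lit 416) (nat_lit 409) (nat_lit 375))))) (XT.nd (nat_lit 234) (nat_lit 1368) (nat_lit 0) (XT.nd (nat_lit 78) (nat_lit 760) (nat_lit 0) (XT.lf (nat_lit 0) (nat_lit 3784171484) (nat_lit 836) (nat_lit 4692133839) (nat_lit 76) (nat_lit 3134295079) (nat_lit 132) (nat_lit 5) (nat_lit 143) (nat_lit 5) (nat_lit 133) (nat_lit 5) (nat_lit 417) (nat_lit 409) (nat_lit 374)) (XT.nd (nat_lit 78) (nat_lit 380) (nat_lit 0) (XT.lf (nat_lit 0) (nat_lit 5856612981) (nat_lit 380) (nat_lit 815374012)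 (nat_lit 456) (nat_lit 5406880457) (nat_lit 127) (nat_lit 5) (nat_lit 132) (nat_lit 5) (nat_lit 133) (nat_lit 5) (nat_lit 418) (nat_lit 409) (nat_lit 373)) (XT.lf (nat_lit 0) (nat_lit 4781524480) (nat_lit 380) (nat_lit 5195903647) (nat_lit 456) (nat_lit 2597856938) (nat_lit 122) (nat_lit 5) (nat_lit 127) (nat_lit 5) (nat_lit 128) (nat_lit 5) (nat_lit 419) (nat_lit 409) (nat_lit 372)))) (XT.nd (nat_lit 156) (nat_lit 608) (nat_lit 0) (XT.nd (nat_lit 78) (nat_lit 304) (nat_lit 0) (XT.lf (nat_lit 0) (nat_lit 572317935) (nat_lit 456) (nat_lit 9365260447) (nat_lit 76) (nat_lit 3165995358) (nat_lit 116) (nat_lit 5) (nat_lit 122) (nat_lit 5) (nat_lit 117) (nat_lit 5) (nat_lit 420) (nat_lit 409) (nat_lit 371)) (XT.lf (nat_lit 0) (nat_lit 2666728104) (nat_lit 304) (nat_lit 1427798988) (nat_lit 380) (nat_lit 9568012896) (nat_lit 112) (nat_lit 5) (nat_lit 116) (nat_lit 5) (nat_lit 117) (nat_lit 5) (nat_lit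 421) (nat_lit 409) (nat_lit 370))) (XT.nd (nat_lit 78) (nat_lit 304) (nat_lit 0) (XT.lf (nat_lit 0) (nat_lit 1575574933) (nat_lit 304) (nat_lit 6559891584) (nat_lit 380) (nat_lit 6118923876) (nat_lit 108) (nat_lit 5) (nat_lit 112) (nat_lit 5) (nat_lit 113) (nat_lit 5) (nat_lit 422) (nat_lit 409) (nat_lit 369)) (XT.lf (nat_lit 0) (nat_lit 522469633) (nat_lit 304) (nat_lit 12173725832) (nat_lit 380) (nat_lit 2187581103) (nat_lit 104) (nat_lit 5) (nat_lit 108) (nat_lit 5) (nat_lit 109) (nat_lit 5) (nat_lit 423) (nat_lit 409) (nat_lit 368))))))) (XT.nd (nat_lit 1092) (nat_lit 1976) (nat_lit 0) (XT.nd (nat_lit 546) (nat_lit 1368) (nat_lit 0) (XT.nd (nat_lit 234) (nat_lit 988) (nat_lit 0) (XT.nd (nat_lit 78) (nat_lit 532) (nat_lit 0) (XT.lf (nat_lit 0) (nat_lit 2259621673) (nat_lit 380) (nat_lit 552733194) (nat_lit 76) (nat_lit 12736202368) (nat_lit 103) (nat_lit 5) (nat_lit 108) (nat_lit 5) (nat_lit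 104) (nat_lit 5) (nat_lit 424) (nat_lit 409) (nat_lit 367)) (XT.nd (nat_lit 78) (nat_lit 228) (nat_lit 0) (XT.lf (nat_lit 0) (nat_lit 7271927431) (nat_lit 380) (nat_lit 1659889243) (nat_lit 76) (nat_lit 7318623123) (nat_lit 99) (nat_lit 5) (nat_lit 104) (nat_lit 5) (nat_lit 100) (nat_lit 5) (nat_lit 425) (nat_lit 409) (nat_lit 366)) (XT.lf (nat_lit 0) (nat_lit 12927418388) (nat_lit 304) (nat_lit 2731600202) (nat_lit 76) (nat_lit 1337354512) (nat_lit 96) (nat_lit 5) (nat_lit 100) (nat_lit 5) (nat_lit 97) (nat_lit 5) (nat_lit 426) (nat_lit 409) (nat_lit 365)))) (XT.nd (nat_lit 156) (nat_lit 456) (nat_lit 0) (XT.nd (nat_lit 78) (nat_lit 228) (nat_lit 0) (XT.lf (nat_lit 0) (nat_lit 1540375631) (nat_lit 304) (nat_lit 3871003376) (nat_lit 76) (nat_lit 12372324043) (nat_lit 92) (nat_lit 5) (nat_lit 96) (nat_lit 5) (nat_lit 93) (nat_lit 5) (nat_lit 427) (nat_lit 409) (nat_lit 364)) (XT.lf (nat_lit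 0) (nat_lit 7757997935) (nat_lit 304) (nat_lit 5068656550) (nat_lit 76) (nat_lit 5788932913) (nat_lit 89) (nat_lit 5) (nat_lit 93) (nat_lit 5) (nat_lit 90) (nat_lit 5) (nat_lit 428) (nat_lit 409) (nat_lit 363))) (XT.nd (nat_lit 78) (nat_lit 228) (nat_lit 0) (XT.lf (nat_lit 0) (nat_lit 13241618601) (nat_lit 228) (nat_lit 1545913896) (nat_lit 304) (nat_lit 4710772564) (nat_lit 86) (nat_lit 5) (nat_lit 89) (nat_lit 5) (nat_lit 90) (nat_lit 5) (nat_lit 429) (nat_lit 409) (nat_lit 362)) (XT.lf (nat_lit 0) (nat_lit 2280678383) (nat_lit 228) (nat_lit 7546032513) (nat_lit 76) (nat_lit 10602701616) (nat_lit 83) (nat_lit 5) (nat_lit 86) (nat_lit 5) (nat_lit 84) (nat_lit 5) (nat_lit 430) (nat_lit 409) (nat_lit 361))))) (XT.nd (nat_lit 234) (nat_lit 684) (nat_lit 0) (XT.nd (nat_lit 78) (nat_lit 456) (nat_lit 0) (XT.lf (nat_lit 0) (nat_lit 9994699737) (nat_lit 304) (nat_lit 8886961416) (nat_lit 76) (nat_lit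 2533077552) (nat_lit 80) (nat_lit 5) (nat_lit 84) (nat_lit 5) (nat_lit 81) (nat_lit 5) (nat_lit 431) (nat_lit 409) (nat_lit 360)) (XT.nd (nat_lit 78) (nat_lit 304) (nat_lit 0) (XT.lf (nat_lit 0) (nat_lit 12154174041) (nat_lit 152) (nat_lit 6614935135) (nat_lit 228) (nat_lit 3687624317) (nat_lit 78) (nat_lit 5) (nat_lit 80) (nat_lit 5) (nat_lit 81) (nat_lit 5) (nat_lit 432) (nat_lit 409) (nat_lit 359)) (XT.lf (nat_lit 0) (nat_lit 4922348849) (nat_lit 304) (nat_lit 11817769036) (nat_lit 76) (nat_lit 6817923545) (nat_lit 74) (nat_lit 5) (nat_lit 78) (nat_lit 5) (nat_lit 75) (nat_lit 5) (nat_lit 433) (nat_lit 409) (nat_lit 358)))) (XT.nd (nat_lit 156) (nat_lit 380) (nat_lit 0) (XT.nd (nat_lit 78) (nat_lit 152) (nat_lit 0) (XT.lf (nat_lit 0) (nat_lit 11292056339) (nat_lit 152) (nat_lit 3229491060) (nat_lit 228) (nat_lit 10201407512) (nat_lit 72) (nat_lit 5) (nat_lit 74) (nat_lit 5) (nat_lit 75)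 (nat_lit 5) (nat_lit 434) (nat_lit 409) (nat_lit 357)) (XT.lf (nat_lit 0) (nat_lit 10799507474) (nat_lit 152) (nat_lit 14603775006) (nat_lit 228) (nat_lit 552053355) (nat_lit 70) (nat_lit 5) (nat_lit 72) (nat_lit 5) (nat_lit 73) (nat_lit 5) (nat_lit 435) (nat_lit 409) (nat_lit 356))) (XT.nd (nat_lit 78) (nat_lit 152) (nat_lit 0) (XT.lf (nat_lit 0) (nat_lit 9969959585) (nat_lit 228) (nat_lit 17039489770) (nat_lit 76) (nat_lit 248328021) (nat_lit 67) (nat_lit 5) (nat_lit 70) (nat_lit 5) (nat_lit 68) (nat_lit 5) (nat_lit 436) (nat_lit 409) (nat_lit 355)) (XT.lf (nat_lit 0) (nat_lit 9491965590) (nat_lit 152) (nat_lit 12447723792) (nat_lit 228) (nat_lit 6693011090) (nat_lit 65) (nat_lit 5) (nat_lit 67) (nat_lit 5) (nat_lit 68) (nat_lit 5) (nat_lit 437) (nat_lit 409) (nat_lit 354)))))) (XT.nd (nat_lit 546) (nat_lit 988) (nat_lit 0) (XT.nd (nat_lit 234) (nat_lit 532) (nat_lit 0) (XT.nd (nat_lit 78)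 (nat_lit 228) (nat_lit 0) (XT.lf (nat_lit 0) (nat_lit 5059012329) (nat_lit 228) (nat_lit 21361689882) (nat_lit 76) (nat_lit 3670128714) (nat_lit 62) (nat_lit 5) (nat_lit 65) (nat_lit 5) (nat_lit 63) (nat_lit 5) (nat_lit 438) (nat_lit 409) (nat_lit 353)) (XT.nd (nat_lit 78) (nat_lit 76) (nat_lit 0) (XT.lf (nat_lit 0) (nat_lit 7720755702) (nat_lit 152) (nat_lit 10433284948) (nat_lit 228) (nat_lit 13474221344) (nat_lit 60) (nat_lit 5) (nat_lit 62) (nat_lit 5) (nat_lit 63) (nat_lit 5) (nat_lit 439) (nat_lit 409) (nat_lit 352)) (XT.lf (nat_lit 0) (nat_lit 6663074847) (nat_lit 76) (nat_lit 26188688396) (nat_lit 152) (nat_lit 409172420) (nat_lit 59) (nat_lit 5) (nat_lit 60) (nat_lit 5) (nat_lit 61) (nat_lit 4) (nat_lit 440) (nat_lit 409) (nat_lit 351)))) (XT.nd (nat_lit 156) (nat_lit 228) (nat_lit 0) (XT.nd (nat_lit 78) (nat_lit 76) (nat_lit 0) (XT.lf (nat_lit 0) (nat_lit 5242340169) (nat_lit 152)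 (nat_lit 8668524076) (nat_lit 228) (nat_lit 21070250561) (nat_lit 56) (nat_lit 5) (nat_lit 58) (nat_lit 5) (nat_lit 59) (nat_lit 5) (nat_lit 441) (nat_lit 409) (nat_lit 350)) (XT.lf (nat_lit 0) (nat_lit 3648976028) (nat_lit 76) (nat_lit 26369769496) (nat_lit 152) (nat_lit 6787000731) (nat_lit 55) (nat_lit 5) (nat_lit 56) (nat_lit 5) (nat_lit 57) (nat_lit 4) (nat_lit 442) (nat_lit 409) (nat_lit 349))) (XT.nd (nat_lit 78) (nat_lit 0) (nat_lit 0) (XT.lf (nat_lit 0) (nat_lit 1729492668) (nat_lit 152) (nat_lit 7302020967) (nat_lit 228) (nat_lit 29704637482) (nat_lit 52) (nat_lit 5) (nat_lit 54) (nat_lit 5) (nat_lit 55) (nat_lit 5) (nat_lit 443) (nat_lit 409) (nat_lit 348)) (XT.lf (nat_lit 0) (nat_lit 26645926893) (nat_lit 228) (nat_lit 587113030) (nat_lit 76) (nat_lit 13543977078) (nat_lit 52) (nat_lit 5) (nat_lit 55) (nat_lit 5) (nat_lit 53) (nat_lit 4) (nat_lit 444) (nat_lit 409) (nat_lit 347)))))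 (XT.nd (nat_lit 312) (nat_lit 456) (nat_lit 0) (XT.nd (nat_lit 156) (nat_lit 228) (nat_lit 0) (XT.nd (nat_lit 78) (nat_lit 152) (nat_lit 0) (XT.lf (nat_lit 0) (nat_lit 3331989186) (nat_lit 152) (nat_lit 3150980023) (nat_lit 76) (nat_lit 36459601325) (nat_lit 50) (nat_lit 5) (nat_lit 52) (nat_lit 5) (nat_lit 51) (nat_lit 5) (nat_lit 445) (nat_lit 409) (nat_lit 346)) (XT.lf (nat_lit 0) (nat_lit 22560488883) (nat_lit 228) (nat_lit 6397209822) (nat_lit 76) (nat_lit 16268915330) (nat_lit 48) (nat_lit 5) (nat_lit 51) (nat_lit 5) (nat_lit 49) (nat_lit 4) (nat_lit 446) (nat_lit 409) (nat_lit 345))) (XT.nd (nat_lit 78) (nat_lit 152) (nat_lit 0) (XT.lf (nat_lit 0) (nat_lit 37636767476) (nat_lit 76) (nat_lit 6417620207) (nat_lit 152) (nat_lit 3602638744) (nat_lit 47) (nat_lit 5) (nat_lit 48) (nat_lit 5) (nat_lit 49) (nat_lit 4) (nat_lit 447) (nat_lit 409) (nat_lit 344)) (XT.lf (nat_lit 0) (nat_lit 17387469905)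 (nat_lit 152) (nat_lit 14547239341) (nat_lit 76) (nat_lit 18286643924) (nat_lit 45) (nat_lit 5) (nat_lit 47) (nat_lit 5) (nat_lit 46) (nat_lit 4) (nat_lit 448) (nat_lit 409) (nat_lit 343)))) (XT.nd (nat_lit 156) (nat_lit 228) (nat_lit 0) (XT.nd (nat_lit 78) (nat_lit 152) (nat_lit 0) (XT.lf (nat_lit 0) (nat_lit 33246718985) (nat_lit 76) (nat_lit 7466234528) (nat_lit 152) (nat_lit 12235801413) (nat_lit 44) (nat_lit 5) (nat_lit 45) (nat_lit 5) (nat_lit 46) (nat_lit 4) (nat_lit 449) (nat_lit 409) (nat_lit 342)) (XT.lf (nat_lit 0) (nat_lit 10706784045) (nat_lit 152) (nat_lit 25895277579) (nat_lit 76) (nat_lit 19233621695) (nat_lit 42) (nat_lit 5) (nat_lit 44) (nat_lit 5) (nat_lit 43) (nat_lit 4) (nat_lit 450) (nat_lit 409) (nat_lit 341))) (XT.nd (nat_lit 78) (nat_lit 152) (nat_lit 0) (XT.lf (nat_lit 0) (nat_lit 25765195759) (nat_lit 76) (nat_lit 10151092809) (nat_lit 152) (nat_lit 22984239227) (nat_lit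 41) (nat_lit 5) (nat_lit 42) (nat_lit 5) (nat_lit 43) (nat_lit 4) (nat_lit 451) (nat_lit 409) (nat_lit 340)) (XT.lf (nat_lit 0) (nat_lit 1965419590) (nat_lit 152) (nat_lit 41571650337) (nat_lit 76) (nat_lit 18619600375) (nat_lit 39) (nat_lit 5) (nat_lit 41) (nat_lit 5) (nat_lit 40) (nat_lit 4) (nat_lit 452) (nat_lit 409) (nat_lit 339))))))))
noncomputable def xc62 : XT := (XT.nd (nat_lit 2184) (nat_lit 532) (nat_lit 0) (XT.nd (nat_lit 1092) (nat_lit 912) (nat_lit 0) (XT.nd (nat_lit 546) (nat_lit 608) (nat_lit 0) (XT.nd (nat_lit 234) (nat_lit 380) (nat_lit 0) (XT.nd (nat_lit 78) (nat_lit 152) (nat_lit 0) (XT.lf (nat_lit 0) (nat_lit 13980298050) (nat_lit 76) (nat_lit 15091204986) (nat_lit 152) (nat_lit 36534676993) (nat_lit 38) (nat_lit 5) (nat_lit 39) (nat_lit 5) (nat_lit 40) (nat_lit 4) (nat_lit 453) (nat_lit 409) (nat_lit 338)) (XT.nd (nat_lit 78) (nat_lit 76) (nat_lit 0) (XT.lf (nat_lit 0)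 (nat_lit 6063921879) (nat_lit 76) (nat_lit 53336392465) (nat_lit 76) (nat_lit 9878624821) (nat_lit 37) (nat_lit 4) (nat_lit 38) (nat_lit 5) (nat_lit 38) (nat_lit 4) (nat_lit 454) (nat_lit 409) (nat_lit 337)) (XT.lf (nat_lit 0) (nat_lit 19453287117) (nat_lit 152) (nat_lit 3591203523) (nat_lit 76) (nat_lit 50128836622) (nat_lit 36) (nat_lit 5) (nat_lit 38) (nat_lit 5) (nat_lit 37) (nat_lit 4) (nat_lit 455) (nat_lit 409) (nat_lit 336)))) (XT.nd (nat_lit 156) (nat_lit 152) (nat_lit 0) (XT.nd (nat_lit 78) (nat_lit 152) (nat_lit 0) (XT.lf (nat_lit 0) (nat_lit 51918758843) (nat_lit 152) (nat_lit 14888594607) (nat_lit 0) (nat_lit 10507160999) (nat_lit 35) (nat_lit 5) (nat_lit 37) (nat_lit 4) (nat_lit 35) (nat_lit 4) (nat_lit 456) (nat_lit 409) (nat_lit 335)) (XT.lf (nat_lit 0) (nat_lit 6316273992) (nat_lit 152) (nat_lit 28473585031) (nat_lit 76) (nat_lit 46928680180) (nat_lit 33) (nat_lit 5) (nat_lit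 35) (nat_lit 5) (nat_lit 34) (nat_lit 4) (nat_lit 457) (nat_lit 409) (nat_lit 334))) (XT.nd (nat_lit 78) (nat_lit 76) (nat_lit 0) (XT.lf (nat_lit 0) (nat_lit 40604313154) (nat_lit 152) (nat_lit 44657603409) (nat_lit 0) (nat_lit 1145714102) (nat_lit 32) (nat_lit 5) (nat_lit 34) (nat_lit 4) (nat_lit 32) (nat_lit 4) (nat_lit 458) (nat_lit 409) (nat_lit 333)) (XT.lf (nat_lit 0) (nat_lit 27410803981) (nat_lit 76) (nat_lit 51726499759) (nat_lit 76) (nat_lit 12259450716) (nat_lit 31) (nat_lit 4) (nat_lit 32) (nat_lit 5) (nat_lit 32) (nat_lit 4) (nat_lit 459) (nat_lit 409) (nat_lit 332))))) (XT.nd (nat_lit 234) (nat_lit 304) (nat_lit 0) (XT.nd (nat_lit 78) (nat_lit 152) (nat_lit 0) (XT.lf (nat_lit 0) (nat_lit 9994066265) (nat_lit 76) (nat_lit 14137123672) (nat_lit 152) (nat_lit 72588588874) (nat_lit 29) (nat_lit 5) (nat_lit 30) (nat_lit 5) (nat_lit 31) (nat_lit 4) (nat_lit 460) (nat_lit 409) (nat_lit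 331)) (XT.nd (nat_lit 78) (nat_lit 152) (nat_lit 0) (XT.lf (nat_lit 0) (nat_lit 64539468746) (nat_lit 152) (nat_lit 10904881096) (nat_lit 0) (nat_lit 26937451972) (nat_lit 29) (nat_lit 5) (nat_lit 31) (nat_lit 4) (nat_lit 29) (nat_lit 4) (nat_lit 461) (nat_lit 409) (nat_lit 330)) (XT.lf (nat_lit 0) (nat_lit 1080401218) (nat_lit 152) (nat_lit 35393582728) (nat_lit 76) (nat_lit 71953717396) (nat_lit 27) (nat_lit 5) (nat_lit 29) (nat_lit 5) (nat_lit 28) (nat_lit 4) (nat_lit 462) (nat_lit 409) (nat_lit 329)))) (XT.nd (nat_lit 156) (nat_lit 152) (nat_lit 0) (XT.nd (nat_lit 78) (nat_lit 76) (nat_lit 0) (XT.lf (nat_lit 0) (nat_lit 42883209573) (nat_lit 152) (nat_lit 64928394689) (nat_lit 0) (nat_lit 7060047231) (nat_lit 26) (nat_lit 5) (nat_lit 28) (nat_lit 4) (nat_lit 26) (nat_lit 4) (nat_lit 463) (nat_lit 409) (nat_lit 328)) (XT.lf (nat_lit 0) (nat_lit 21609751890) (nat_lit 76) (nat_lit 67985741054)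 (nat_lit 76) (nat_lit 32157362457) (nat_lit 25) (nat_lit 4) (nat_lit 26) (nat_lit 5) (nat_lit 26) (nat_lit 4) (nat_lit 464) (nat_lit 409) (nat_lit 327))) (XT.nd (nat_lit 78) (nat_lit 76) (nat_lit 0) (XT.lf (nat_lit 0) (nat_lit 11648760205) (nat_lit 152) (nat_lit 11953250042) (nat_lit 76) (nat_lit 105517260137) (nat_lit 24) (nat_lit 5) (nat_lit 26) (nat_lit 5) (nat_lit 25) (nat_lit 4) (nat_lit 465) (nat_lit 409) (nat_lit 326)) (XT.lf (nat_lit 0) (nat_lit 59580129128) (nat_lit 152) (nat_lit 51932136686) (nat_lit 0) (nat_lit 25449004784) (nat_lit 23) (nat_lit 5) (nat_lit 25) (nat_lit 4) (nat_lit 23) (nat_lit 4) (nat_lit 466) (nat_lit 409) (nat_lit 325)))))) (XT.nd (nat_lit 546) (nat_lit 380) (nat_lit 0) (XT.nd (nat_lit 234) (nat_lit 304) (nat_lit 0) (XT.nd (nat_lit 78) (nat_lit 152) (nat_lit 0) (XT.lf (nat_lit 0) (nat_lit 45817775107) (nat_lit 76) (nat_lit 66841139286) (nat_lit 76) (nat_lit 32706071293)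 (nat_lit 22) (nat_lit 4) (nat_lit 23) (nat_lit 5) (nat_lit 23) (nat_lit 4) (nat_lit 467) (nat_lit 409) (nat_lit 324)) (XT.nd (nat_lit 78) (nat_lit 76) (nat_lit 0) (XT.lf (nat_lit 0) (nat_lit 15953288407) (nat_lit 152) (nat_lit 1434478284) (nat_lit 76) (nat_lit 136995710116) (nat_lit 21) (nat_lit 5) (nat_lit 23) (nat_lit 5) (nat_lit 22) (nat_lit 4) (nat_lit 468) (nat_lit 409) (nat_lit 323)) (XT.lf (nat_lit 0) (nat_lit 69639464568) (nat_lit 152) (nat_lit 57219999785) (nat_lit 0) (nat_lit 37123178316) (nat_lit 20) (nat_lit 5) (nat_lit 22) (nat_lit 4) (nat_lit 20) (nat_lit 4) (nat_lit 469) (nat_lit 409) (nat_lit 322)))) (XT.nd (nat_lit 156) (nat_lit 152) (nat_lit 0) (XT.nd (nat_lit 78) (nat_lit 76) (nat_lit 0) (XT.lf (nat_lit 0) (nat_lit 50623891698) (nat_lit 76) (nat_lit 78095097649) (nat_lit 76) (nat_lit 45575829878) (nat_lit 19) (nat_lit 4) (nat_lit 20) (nat_lit 5) (nat_lit 20) (nat_lit 4) (nat_lit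 470) (nat_lit 409) (nat_lit 321)) (XT.lf (nat_lit 0) (nat_lit 7868750614) (nat_lit 152) (nat_lit 16391089678) (nat_lit 76) (nat_lit 161116449654) (nat_lit 18) (nat_lit 5) (nat_lit 20) (nat_lit 5) (nat_lit 19) (nat_lit 4) (nat_lit 471) (nat_lit 409) (nat_lit 320))) (XT.nd (nat_lit 78) (nat_lit 76) (nat_lit 0) (XT.lf (nat_lit 0) (nat_lit 66163244128) (nat_lit 152) (nat_lit 95847672736) (nat_lit 0) (nat_lit 35187449261) (nat_lit 17) (nat_lit 5) (nat_lit 19) (nat_lit 4) (nat_lit 17) (nat_lit 4) (nat_lit 472) (nat_lit 409) (nat_lit 319)) (XT.lf (nat_lit 0) (nat_lit 19331750393) (nat_lit 76) (nat_lit 110781455827) (nat_lit 76) (nat_lit 79803406839) (nat_lit 16) (nat_lit 4) (nat_lit 17) (nat_lit 5) (nat_lit 17) (nat_lit 4) (nat_lit 473) (nat_lit 409) (nat_lit 318))))) (XT.nd (nat_lit 234) (nat_lit 228) (nat_lit 0) (XT.nd (nat_lit 78) (nat_lit 152) (nat_lit 0) (XT.lf (nat_lit 0) (nat_lit 147130570793)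 (nat_lit 76) (nat_lit 53709421912) (nat_lit 76) (nat_lit 22729285776) (nat_lit 16) (nat_lit 4) (nat_lit 17) (nat_lit 5) (nat_lit 17) (nat_lit 4) (nat_lit 474) (nat_lit 409) (nat_lit 317)) (XT.nd (nat_lit 78) (nat_lit 0) (nat_lit 0) (XT.lf (nat_lit 0) (nat_lit 38548353305) (nat_lit 152) (nat_lit 190649658600) (nat_lit 0) (nat_lit 9041621228) (nat_lit 14) (nat_lit 5) (nat_lit 16) (nat_lit 4) (nat_lit 14) (nat_lit 4) (nat_lit 475) (nat_lit 409) (nat_lit 316)) (XT.lf (nat_lit 0) (nat_lit 106193484739) (nat_lit 152) (nat_lit 71073372231) (nat_lit 0) (nat_lit 76685048478) (nat_lit 14) (nat_lit 5) (nat_lit 16) (nat_lit 4) (nat_lit 14) (nat_lit 4) (nat_lit 476) (nat_lit 409) (nat_lit 315)))) (XT.nd (nat_lit 156) (nat_lit 152) (nat_lit 0) (XT.nd (nat_lit 78) (nat_lit 0) (nat_lit 0) (XT.lf (nat_lit 0) (nat_lit 59973582982) (nat_lit 76) (nat_lit 120205572215) (nat_lit 76) (nat_lit 90695558005) (nat_lit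 13) (nat_lit 4) (nat_lit 14) (nat_lit 5) (nat_lit 14) (nat_lit 4) (nat_lit 477) (nat_lit 409) (nat_lit 314)) (XT.lf (nat_lit 0) (nat_lit 204027988830) (nat_lit 76) (nat_lit 57286642252) (nat_lit 76) (nat_lit 27775166979) (nat_lit 13) (nat_lit 4) (nat_lit 14) (nat_lit 5) (nat_lit 14) (nat_lit 4) (nat_lit 478) (nat_lit 409) (nat_lit 313))) (XT.nd (nat_lit 78) (nat_lit 0) (nat_lit 0) (XT.lf (nat_lit 0) (nat_lit 39885913776) (nat_lit 152) (nat_lit 257016700699) (nat_lit 0) (nat_lit 11778458433) (nat_lit 11) (nat_lit 5) (nat_lit 13) (nat_lit 4) (nat_lit 11) (nat_lit 4) (nat_lit 479) (nat_lit 409) (nat_lit 312)) (XT.lf (nat_lit 0) (nat_lit 114465263590) (nat_lit 152) (nat_lit 128871079958) (nat_lit 0) (nat_lit 86356615270) (nat_lit 11) (nat_lit 5) (nat_lit 13) (nat_lit 4) (nat_lit 11) (nat_lit 4) (nat_lit 480) (nat_lit 409) (nat_lit 311))))))) (XT.nd (nat_lit 1092) (nat_lit 76) (nat_lit 0) (XT.nd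 (nat_lit 546) (nat_lit 152) (nat_lit 0) (XT.nd (nat_lit 234) (nat_lit 228) (nat_lit 0) (XT.nd (nat_lit 78) (nat_lit 0) (nat_lit 0) (XT.lf (nat_lit 0) (nat_lit 9828632669) (nat_lit 76) (nat_lit 185329771878) (nat_lit 76) (nat_lit 157220018949) (nat_lit 10) (nat_lit 4) (nat_lit 11) (nat_lit 5) (nat_lit 11) (nat_lit 4) (nat_lit 481) (nat_lit 409) (nat_lit 310)) (XT.nd (nat_lit 78) (nat_lit 0) (nat_lit 0) (XT.lf (nat_lit 0) (nat_lit 164214658990) (nat_lit 76) (nat_lit 120331443422) (nat_lit 76) (nat_lit 92220667707) (nat_lit 10) (nat_lit 4) (nat_lit 11) (nat_lit 5) (nat_lit 11) (nat_lit 4) (nat_lit 482) (nat_lit 409) (nat_lit 309)) (XT.lf (nat_lit 0) (nat_lit 330940819259) (nat_lit 76) (nat_lit 50138676996) (nat_lit 76) (nat_lit 22026954257) (nat_lit 10) (nat_lit 4) (nat_lit 11) (nat_lit 5) (nat_lit 11) (nat_lit 4) (nat_lit 483) (nat_lit 409) (nat_lit 308)))) (XT.nd (nat_lit 156) (nat_lit 76) (nat_lit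 0) (XT.nd (nat_lit 78) (nat_lit 0) (nat_lit 0) (XT.lf (nat_lit 0) (nat_lit 53758896935) (nat_lit 152) (nat_lit 350682530879) (nat_lit 0) (nat_lit 26984992542) (nat_lit 8) (nat_lit 5) (nat_lit 10) (nat_lit 4) (nat_lit 8) (nat_lit 4) (nat_lit 484) (nat_lit 409) (nat_lit 307)) (XT.lf (nat_lit 0) (nat_lit 136964469202) (nat_lit 152) (nat_lit 214733243683) (nat_lit 0) (nat_lit 110189791551) (nat_lit 8) (nat_lit 5) (nat_lit 10) (nat_lit 4) (nat_lit 8) (nat_lit 4) (nat_lit 485) (nat_lit 409) (nat_lit 306))) (XT.nd (nat_lit 78) (nat_lit 76) (nat_lit 0) (XT.lf (nat_lit 0) (nat_lit 226821984301) (nat_lit 152) (nat_lit 67917125455) (nat_lit 0) (nat_lit 200046590670) (nat_lit 8) (nat_lit 5) (nat_lit 10) (nat_lit 4) (nat_lit 8) (nat_lit 4) (nat_lit 486) (nat_lit 409) (nat_lit 305)) (XT.lf (nat_lit 0) (nat_lit 93632675611) (nat_lit 76) (nat_lit 231693124069) (nat_lit 76) (nat_lit 204917067495) (nat_lit 7)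 (nat_lit 4) (nat_lit 8) (nat_lit 5) (nat_lit 8) (nat_lit 4) (nat_lit 487) (nat_lit 409) (nat_lit 304))))) (XT.nd (nat_lit 234) (nat_lit 0) (nat_lit 0) (XT.nd (nat_lit 78) (nat_lit 152) (nat_lit 0) (XT.lf (nat_lit 0) (nat_lit 270523689082) (nat_lit 76) (nat_lit 162365317164) (nat_lit 76) (nat_lit 135588646753) (nat_lit 7) (nat_lit 4) (nat_lit 8) (nat_lit 5) (nat_lit 8) (nat_lit 4) (nat_lit 488) (nat_lit 409) (nat_lit 303)) (XT.nd (nat_lit 78) (nat_lit 152) (nat_lit 0) (XT.lf (nat_lit 0) (nat_lit 461558511108) (nat_lit 76) (nat_lit 87495066974) (nat_lit 76) (nat_lit 60717828196) (nat_lit 7) (nat_lit 4) (nat_lit 8) (nat_lit 5) (nat_lit 8) (nat_lit 4) (nat_lit 489) (nat_lit 409) (nat_lit 302)) (XT.lf (nat_lit 0) (nat_lit 13621928666) (nat_lit 76) (nat_lit 6085238997) (nat_lit 152) (nat_lit 634635307887) (nat_lit 5) (nat_lit 5) (nat_lit 6) (nat_lit 5) (nat_lit 7) (nat_lit 4) (nat_lit 490) (nat_lit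 409) (nat_lit 301)))) (XT.nd (nat_lit 156) (nat_lit 0) (nat_lit 0) (XT.nd (nat_lit 78) (nat_lit 0) (nat_lit 0) (XT.lf (nat_lit 0) (nat_lit 108365778670) (nat_lit 152) (nat_lit 511004658170) (nat_lit 0) (nat_lit 82862681215) (nat_lit 5) (nat_lit 5) (nat_lit 7) (nat_lit 4) (nat_lit 5) (nat_lit 4) (nat_lit 491) (nat_lit 409) (nat_lit 300)) (XT.lf (nat_lit 0) (nat_lit 204216561995) (nat_lit 152) (nat_lit 371020440977) (nat_lit 0) (nat_lit 178713034837) (nat_lit 5) (nat_lit 5) (nat_lit 7) (nat_lit 4) (nat_lit 5) (nat_lit 4) (nat_lit 492) (nat_lit 409) (nat_lit 299))) (XT.nd (nat_lit 78) (nat_lit 0) (nat_lit 0) (XT.lf (nat_lit 0) (nat_lit 307732514648) (nat_lit 152) (nat_lit 219843351568) (nat_lit 0) (nat_lit 282228589616) (nat_lit 5) (nat_lit 5) (nat_lit 7) (nat_lit 4) (nat_lit 5) (nat_lit 4) (nat_lit 493) (nat_lit 409) (nat_lit 298)) (XT.lf (nat_lit 0) (nat_lit 419527064495) (nat_lit 152) (nat_lit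 56577525709) (nat_lit 0) (nat_lit 394022771062) (nat_lit 5) (nat_lit 5) (nat_lit 7) (nat_lit 4) (nat_lit 5) (nat_lit 4) (nat_lit 494) (nat_lit 409) (nat_lit 297)))))) (XT.nd (nat_lit 55926) (nat_lit 0) (nat_lit 10412) (XT.nd (nat_lit 234) (nat_lit 0) (nat_lit 0) (XT.nd (nat_lit 78) (nat_lit 0) (nat_lit 0) (XT.lf (nat_lit 0) (nat_lit 123703832989) (nat_lit 76) (nat_lit 418490228280) (nat_lit 76) (nat_lit 392985593735) (nat_lit 4) (nat_lit 4) (nat_lit 5) (nat_lit 5) (nat_lit 5) (nat_lit 4) (nat_lit 495) (nat_lit 409) (nat_lit 296)) (XT.nd (nat_lit 78) (nat_lit 0) (nat_lit 0) (XT.lf (nat_lit 0) (nat_lit 320423255677) (nat_lit 76) (nat_lit 355234334183) (nat_lit 76) (nat_lit 329729383794) (nat_lit 4) (nat_lit 4) (nat_lit 5) (nat_lit 5) (nat_lit 5) (nat_lit 4) (nat_lit 496) (nat_lit 409) (nat_lit 295)) (XT.lf (nat_lit 0) (nat_lit 532875778569) (nat_lit 76) (nat_lit 286920225946) (nat_lit 76) (nat_lit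 261414983107) (nat_lit 4) (nat_lit 4) (nat_lit 5) (nat_lit 5) (nat_lit 5) (nat_lit 4) (nat_lit 497) (nat_lit 409) (nat_lit 294)))) (XT.nd (nat_lit 156) (nat_lit 0) (nat_lit 0) (XT.nd (nat_lit 78) (nat_lit 0) (nat_lit 0) (XT.lf (nat_lit 0) (nat_lit 762320379578) (nat_lit 76) (nat_lit 213143079222) (nat_lit 76) (nat_lit 187637565597) (nat_lit 4) (nat_lit 4) (nat_lit 5) (nat_lit 5) (nat_lit 5) (nat_lit 4) (nat_lit 498) (nat_lit 409) (nat_lit 293)) (XT.lf (nat_lit 0) (nat_lit 1010116730415) (nat_lit 76) (nat_lit 133465696105) (nat_lit 76) (nat_lit 107959931753) (nat_lit 4) (nat_lit 4) (nat_lit 5) (nat_lit 5) (nat_lit 5) (nat_lit 4) (nat_lit 499) (nat_lit 409) (nat_lit 292))) (XT.nd (nat_lit 55458) (nat_lit 0) (nat_lit 10944) (XT.lf (nat_lit 0) (nat_lit 1277733253899) (nat_lit 76) (nat_lit 47415914325) (nat_lit 76) (nat_lit 21909917818) (nat_lit 4) (nat_lit 4) (nat_lit 5) (nat_lit 5) (nat_lit 5)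 (nat_lit 4) (nat_lit 500) (nat_lit 409) (nat_lit 291)) (XT.lf (nat_lit 0) (nat_lit 245847843) (nat_lit 0) (nat_lit 245847843) (nat_lit 684) (nat_lit 4178002795) (nat_lit 148) (nat_lit 5) (nat_lit 148) (nat_lit 3) (nat_lit 157) (nat_lit 3) (nat_lit 410) (nat_lit 410) (nat_lit 380))))) (XT.nd (nat_lit 234) (nat_lit 532) (nat_lit 0) (XT.nd (nat_lit 78) (nat_lit 0) (nat_lit 76) (XT.lf (nat_lit 0) (nat_lit 2404610391) (nat_lit 684) (nat_lit 1546859097) (nat_lit 760) (nat_lit 5692089021) (nat_lit 148) (nat_lit 5) (nat_lit 157) (nat_lit 3) (nat_lit 158) (nat_lit 5) (nat_lit 411) (nat_lit 410) (nat_lit 379)) (XT.nd (nat_lit 78) (nat_lit 0) (nat_lit 0) (XT.lf (nat_lit 0) (nat_lit 3960405190) (nat_lit 684) (nat_lit 3548104701) (nat_lit 760) (nat_lit 2462531209) (nat_lit 149) (nat_lit 5) (nat_lit 158) (nat_lit 5) (nat_lit 159) (nat_lit 5) (nat_lit 412) (nat_lit 410) (nat_lit 378)) (XT.lf (nat_lit 76)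 (nat_lit 4772143733) (nat_lit 0) (nat_lit 918183155) (nat_lit 760) (nat_lit 4631941902) (nat_lit 150) (nat_lit 5) (nat_lit 149) (nat_lit 5) (nat_lit 159) (nat_lit 5) (nat_lit 413) (nat_lit 410) (nat_lit 377)))) (XT.nd (nat_lit 156) (nat_lit 684) (nat_lit 0) (XT.nd (nat_lit 78) (nat_lit 0) (nat_lit 76) (XT.lf (nat_lit 76) (nat_lit 3109319762) (nat_lit 0) (nat_lit 4546896150) (nat_lit 760) (nat_lit 3040527567) (nat_lit 151) (nat_lit 5) (nat_lit 150) (nat_lit 5) (nat_lit 160) (nat_lit 5) (nat_lit 414) (nat_lit 410) (nat_lit 376)) (XT.lf (nat_lit 76) (nat_lit 1471425317) (nat_lit 0) (nat_lit 8382689278) (nat_lit 760) (nat_lit 1243350049) (nat_lit 152) (nat_lit 5) (nat_lit 151) (nat_lit 5) (nat_lit 161) (nat_lit 5) (nat_lit 415) (nat_lit 410) (nat_lit 375))) (XT.nd (nat_lit 78) (nat_lit 0) (nat_lit 76) (XT.lf (nat_lit 0) (nat_lit 787981365) (nat_lit 760) (nat_lit 168030079) (nat_lit 836) (nat_lit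 10568074540) (nat_lit 141) (nat_lit 5) (nat_lit 151) (nat_lit 5) (nat_lit 152) (nat_lit 5) (nat_lit 416) (nat_lit 410) (nat_lit 374)) (XT.lf (nat_lit 0) (nat_lit 3121858135) (nat_lit 760) (nat_lit 1813811163) (nat_lit 76) (nat_lit 7038989368) (nat_lit 142) (nat_lit 5) (nat_lit 152) (nat_lit 5) (nat_lit 143) (nat_lit 5) (nat_lit 417) (nat_lit 410) (nat_lit 373))))))))
noncomputable def xc63 : XT := (XT.nd (nat_lit 2184) (nat_lit 2660) (nat_lit 0) (XT.nd (nat_lit 1092) (nat_lit 2432) (nat_lit 0) (XT.nd (nat_lit 546) (nat_lit 1596) (nat_lit 0) (XT.nd (nat_lit 234) (nat_lit 1368) (nat_lit 0) (XT.nd (nat_lit 78) (nat_lit 760) (nat_lit 0) (XT.lf (nat_lit 0) (nat_lit 5769966129) (nat_lit 836) (nat_lit 3450904870) (nat_lit 76) (nat_lit 3234049333) (nat_lit 132) (nat_lit 5) (nat_lit 143) (nat_lit 5) (nat_lit 133) (nat_lit 5) (nat_lit 418) (nat_lit 410) (nat_lit 372)) (XT.nd (nat_lit 78) (nat_lit 380)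 (nat_lit 0) (XT.lf (nat_lit 0) (nat_lit 7871486243) (nat_lit 380) (nat_lit 916792222) (nat_lit 456) (nat_lit 4177424480) (nat_lit 127) (nat_lit 5) (nat_lit 132) (nat_lit 5) (nat_lit 133) (nat_lit 5) (nat_lit 419) (nat_lit 410) (nat_lit 371)) (XT.lf (nat_lit 0) (nat_lit 6719748933) (nat_lit 380) (nat_lit 5544947054) (nat_lit 456) (nat_lit 1241836653) (nat_lit 122) (nat_lit 5) (nat_lit 127) (nat_lit 5) (nat_lit 128) (nat_lit 5) (nat_lit 420) (nat_lit 410) (nat_lit 370)))) (XT.nd (nat_lit 156) (nat_lit 608) (nat_lit 0) (XT.nd (nat_lit 78) (nat_lit 304) (nat_lit 0) (XT.lf (nat_lit 0) (nat_lit 2045478665) (nat_lit 456) (nat_lit 8508378161) (nat_lit 76) (nat_lit 3526350496) (nat_lit 116) (nat_lit 5) (nat_lit 122) (nat_lit 5) (nat_lit 117) (nat_lit 5) (nat_lit 421) (nat_lit 410) (nat_lit 369)) (XT.lf (nat_lit 0) (nat_lit 4416370190) (nat_lit 304) (nat_lit 1351348868) (nat_lit 380) (nat_lit 8920280089)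 (nat_lit 112) (nat_lit 5) (nat_lit 116) (nat_lit 5) (nat_lit 117) (nat_lit 5) (nat_lit 422) (nat_lit 410) (nat_lit 368))) (XT.nd (nat_lit 78) (nat_lit 304) (nat_lit 0) (XT.lf (nat_lit 0) (nat_lit 3232919949) (nat_lit 304) (nat_lit 6826001717) (nat_lit 380) (nat_lit 5271945965) (nat_lit 108) (nat_lit 5) (nat_lit 112) (nat_lit 5) (nat_lit 113) (nat_lit 5) (nat_lit 423) (nat_lit 410) (nat_lit 367)) (XT.lf (nat_lit 0) (nat_lit 2086252724) (nat_lit 304) (nat_lit 12831490251) (nat_lit 380) (nat_lit 1096218031) (nat_lit 104) (nat_lit 5) (nat_lit 108) (nat_lit 5) (nat_lit 109) (nat_lit 5) (nat_lit 424) (nat_lit 410) (nat_lit 366))))) (XT.nd (nat_lit 234) (nat_lit 988) (nat_lit 0) (XT.nd (nat_lit 78) (nat_lit 228) (nat_lit 0) (XT.lf (nat_lit 0) (nat_lit 878127442) (nat_lit 304) (nat_lit 2711009018) (nat_lit 380) (nat_lit 13145669606) (nat_lit 99) (nat_lit 5) (nat_lit 103) (nat_lit 5) (nat_lit 104) (nat_lit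 5) (nat_lit 425) (nat_lit 410) (nat_lit 365)) (XT.nd (nat_lit 78) (nat_lit 228) (nat_lit 0) (XT.lf (nat_lit 0) (nat_lit 8931113239) (nat_lit 380) (nat_lit 359641914) (nat_lit 76) (nat_lit 8205664456) (nat_lit 99) (nat_lit 5) (nat_lit 104) (nat_lit 5) (nat_lit 100) (nat_lit 5) (nat_lit 426) (nat_lit 410) (nat_lit 364)) (XT.lf (nat_lit 0) (nat_lit 14986126735) (nat_lit 304) (nat_lit 1533738115) (nat_lit 76) (nat_lit 1784822178) (nat_lit 96) (nat_lit 5) (nat_lit 100) (nat_lit 5) (nat_lit 97) (nat_lit 5) (nat_lit 427) (nat_lit 410) (nat_lit 363)))) (XT.nd (nat_lit 156) (nat_lit 456) (nat_lit 0) (XT.nd (nat_lit 78) (nat_lit 228) (nat_lit 0) (XT.lf (nat_lit 0) (nat_lit 2649433870) (nat_lit 304) (nat_lit 2793102130) (nat_lit 76) (nat_lit 13714421815) (nat_lit 92) (nat_lit 5) (nat_lit 96) (nat_lit 5) (nat_lit 93) (nat_lit 5) (nat_lit 428) (nat_lit 410) (nat_lit 362)) (XT.lf (nat_lit 0) (nat_lit 9318311771)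 (nat_lit 304) (nat_lit 4106202466) (nat_lit 76) (nat_lit 6633197500) (nat_lit 89) (nat_lit 5) (nat_lit 93) (nat_lit 5) (nat_lit 90) (nat_lit 5) (nat_lit 429) (nat_lit 410) (nat_lit 361))) (XT.nd (nat_lit 78) (nat_lit 228) (nat_lit 0) (XT.lf (nat_lit 0) (nat_lit 15609445404) (nat_lit 228) (nat_lit 1251587523) (nat_lit 304) (nat_lit 4152482988) (nat_lit 86) (nat_lit 5) (nat_lit 89) (nat_lit 5) (nat_lit 90) (nat_lit 5) (nat_lit 430) (nat_lit 410) (nat_lit 360)) (XT.lf (nat_lit 0) (nat_lit 3327882321) (nat_lit 228) (nat_lit 6832907074) (nat_lit 76) (nat_lit 11859625177) (nat_lit 83) (nat_lit 5) (nat_lit 86) (nat_lit 5) (nat_lit 84) (nat_lit 5) (nat_lit 431) (nat_lit 410) (nat_lit 359)))))) (XT.nd (nat_lit 546) (nat_lit 1064) (nat_lit 0) (XT.nd (nat_lit 234) (nat_lit 684) (nat_lit 0) (XT.nd (nat_lit 78) (nat_lit 456) (nat_lit 0) (XT.lf (nat_lit 0) (nat_lit 11621492923) (nat_lit 304) (nat_lit 8304071602)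 (nat_lit 76) (nat_lit 3160887365) (nat_lit 80) (nat_lit 5) (nat_lit 84) (nat_lit 5) (nat_lit 81) (nat_lit 5) (nat_lit 432) (nat_lit 410) (nat_lit 358)) (XT.nd (nat_lit 78) (nat_lit 304) (nat_lit 0) (XT.lf (nat_lit 0) (nat_lit 14364125690) (nat_lit 152) (nat_lit 6691776759) (nat_lit 228) (nat_lit 3158009226) (nat_lit 78) (nat_lit 5) (nat_lit 80) (nat_lit 5) (nat_lit 81) (nat_lit 5) (nat_lit 433) (nat_lit 410) (nat_lit 357)) (XT.lf (nat_lit 0) (nat_lit 6081163105) (nat_lit 304) (nat_lit 11523082823) (nat_lit 76) (nat_lit 7800101722) (nat_lit 74) (nat_lit 5) (nat_lit 78) (nat_lit 5) (nat_lit 75) (nat_lit 5) (nat_lit 434) (nat_lit 410) (nat_lit 356)))) (XT.nd (nat_lit 156) (nat_lit 304) (nat_lit 0) (XT.nd (nat_lit 78) (nat_lit 228) (nat_lit 0) (XT.lf (nat_lit 0) (nat_lit 13381635011) (nat_lit 152) (nat_lit 3028514037) (nat_lit 228) (nat_lit 10254218940) (nat_lit 72) (nat_lit 5) (nat_lit 74) (nat_lit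 5) (nat_lit 75) (nat_lit 5) (nat_lit 435) (nat_lit 410) (nat_lit 355)) (XT.lf (nat_lit 0) (nat_lit 132203519) (nat_lit 228) (nat_lit 15172818748) (nat_lit 76) (nat_lit 12691668906) (nat_lit 69) (nat_lit 5) (nat_lit 72) (nat_lit 5) (nat_lit 70) (nat_lit 5) (nat_lit 436) (nat_lit 410) (nat_lit 354))) (XT.nd (nat_lit 78) (nat_lit 152) (nat_lit 0) (XT.lf (nat_lit 0) (nat_lit 11449249365) (nat_lit 228) (nat_lit 17241424341) (nat_lit 76) (nat_lit 713576359) (nat_lit 67) (nat_lit 5) (nat_lit 70) (nat_lit 5) (nat_lit 68) (nat_lit 5) (nat_lit 437) (nat_lit 410) (nat_lit 353)) (XT.lf (nat_lit 0) (nat_lit 11362082041) (nat_lit 152) (nat_lit 12981321790) (nat_lit 228) (nat_lit 6547425667) (nat_lit 65) (nat_lit 5) (nat_lit 67) (nat_lit 5) (nat_lit 68) (nat_lit 5) (nat_lit 438) (nat_lit 410) (nat_lit 352))))) (XT.nd (nat_lit 234) (nat_lit 532) (nat_lit 0) (XT.nd (nat_lit 78) (nat_lit 304) (nat_lit 0) (XT.lf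 (nat_lit 0) (nat_lit 6098166189) (nat_lit 228) (nat_lit 21962935704) (nat_lit 76) (nat_lit 4405220911) (nat_lit 62) (nat_lit 5) (nat_lit 65) (nat_lit 5) (nat_lit 63) (nat_lit 5) (nat_lit 439) (nat_lit 410) (nat_lit 351)) (XT.nd (nat_lit 78) (nat_lit 152) (nat_lit 0) (XT.lf (nat_lit 0) (nat_lit 9397966696) (nat_lit 152) (nat_lit 10812377606) (nat_lit 228) (nat_lit 13917930603) (nat_lit 60) (nat_lit 5) (nat_lit 62) (nat_lit 5) (nat_lit 63) (nat_lit 5) (nat_lit 440) (nat_lit 410) (nat_lit 350)) (XT.lf (nat_lit 0) (nat_lit 163818520) (nat_lit 152) (nat_lit 27663553061) (nat_lit 76) (nat_lit 8065161620) (nat_lit 58) (nat_lit 5) (nat_lit 60) (nat_lit 5) (nat_lit 59) (nat_lit 5) (nat_lit 441) (nat_lit 410) (nat_lit 349)))) (XT.nd (nat_lit 156) (nat_lit 304) (nat_lit 0) (XT.nd (nat_lit 78) (nat_lit 76) (nat_lit 0) (XT.lf (nat_lit 0) (nat_lit 6671105285) (nat_lit 152) (nat_lit 8916147481) (nat_lit 228)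 (nat_lit 22164135223) (nat_lit 56) (nat_lit 5) (nat_lit 58) (nat_lit 5) (nat_lit 59) (nat_lit 5) (nat_lit 442) (nat_lit 410) (nat_lit 348)) (XT.lf (nat_lit 0) (nat_lit 4926736868) (nat_lit 76) (nat_lit 28037122736) (nat_lit 152) (nat_lit 6759128564) (nat_lit 55) (nat_lit 5) (nat_lit 56) (nat_lit 5) (nat_lit 57) (nat_lit 4) (nat_lit 443) (nat_lit 410) (nat_lit 347))) (XT.nd (nat_lit 78) (nat_lit 76) (nat_lit 0) (XT.lf (nat_lit 0) (nat_lit 2828361277) (nat_lit 152) (nat_lit 7452301199) (nat_lit 228) (nat_lit 31528016657) (nat_lit 52) (nat_lit 5) (nat_lit 54) (nat_lit 5) (nat_lit 55) (nat_lit 5) (nat_lit 444) (nat_lit 410) (nat_lit 346)) (XT.lf (nat_lit 0) (nat_lit 282457558) (nat_lit 76) (nat_lit 28993444046) (nat_lit 152) (nat_lit 14738331464) (nat_lit 51) (nat_lit 5) (nat_lit 52) (nat_lit 5) (nat_lit 53) (nat_lit 4) (nat_lit 445) (nat_lit 410) (nat_lit 345))))))) (XT.nd (nat_lit 1092) (nat_lit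 1216) (nat_lit 0) (XT.nd (nat_lit 546) (nat_lit 684) (nat_lit 0) (XT.nd (nat_lit 234) (nat_lit 456) (nat_lit 0) (XT.nd (nat_lit 78) (nat_lit 228) (nat_lit 0) (XT.lf (nat_lit 0) (nat_lit 4077153420) (nat_lit 152) (nat_lit 2519146474) (nat_lit 76) (nat_lit 39757719339) (nat_lit 50) (nat_lit 5) (nat_lit 52) (nat_lit 5) (nat_lit 51) (nat_lit 5) (nat_lit 446) (nat_lit 410) (nat_lit 344)) (XT.nd (nat_lit 78) (nat_lit 76) (nat_lit 0) (XT.lf (nat_lit 0) (nat_lit 24827757100) (nat_lit 228) (nat_lit 6046721648) (nat_lit 76) (nat_lit 17947118243) (nat_lit 48) (nat_lit 5) (nat_lit 51) (nat_lit 5) (nat_lit 49) (nat_lit 4) (nat_lit 447) (nat_lit 410) (nat_lit 343)) (XT.lf (nat_lit 0) (nat_lit 41472500850) (nat_lit 76) (nat_lit 6547290260) (nat_lit 152) (nat_lit 3427721929) (nat_lit 47) (nat_lit 5) (nat_lit 48) (nat_lit 5) (nat_lit 49) (nat_lit 4) (nat_lit 448) (nat_lit 410) (nat_lit 342)))) (XT.nd (nat_lit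 156) (nat_lit 228) (nat_lit 0) (XT.nd (nat_lit 78) (nat_lit 76) (nat_lit 0) (XT.lf (nat_lit 0) (nat_lit 19211966805) (nat_lit 152) (nat_lit 14892332093) (nat_lit 76) (nat_lit 20113067381) (nat_lit 45) (nat_lit 5) (nat_lit 47) (nat_lit 5) (nat_lit 46) (nat_lit 4) (nat_lit 449) (nat_lit 410) (nat_lit 341)) (XT.lf (nat_lit 0) (nat_lit 36689563786) (nat_lit 76) (nat_lit 7694040756) (nat_lit 152) (nat_lit 12780351358) (nat_lit 44) (nat_lit 5) (nat_lit 45) (nat_lit 5) (nat_lit 46) (nat_lit 4) (nat_lit 450) (nat_lit 410) (nat_lit 340))) (XT.nd (nat_lit 78) (nat_lit 76) (nat_lit 0) (XT.lf (nat_lit 0) (nat_lit 11970141006) (nat_lit 152) (nat_lit 27190076059) (nat_lit 76) (nat_lit 21121963733) (nat_lit 42) (nat_lit 5) (nat_lit 44) (nat_lit 5) (nat_lit 43) (nat_lit 4) (nat_lit 451) (nat_lit 410) (nat_lit 339)) (XT.lf (nat_lit 0) (nat_lit 28569475334) (nat_lit 76) (nat_lit 10608397479) (nat_lit 152) (nat_lit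 24415267893) (nat_lit 41) (nat_lit 5) (nat_lit 42) (nat_lit 5) (nat_lit 43) (nat_lit 4) (nat_lit 452) (nat_lit 410) (nat_lit 338))))) (XT.nd (nat_lit 234) (nat_lit 380) (nat_lit 0) (XT.nd (nat_lit 78) (nat_lit 152) (nat_lit 0) (XT.lf (nat_lit 0) (nat_lit 2504783002) (nat_lit 152) (nat_lit 44160676202) (nat_lit 76) (nat_lit 20444624778) (nat_lit 39) (nat_lit 5) (nat_lit 41) (nat_lit 5) (nat_lit 40) (nat_lit 4) (nat_lit 453) (nat_lit 410) (nat_lit 337)) (XT.nd (nat_lit 78) (nat_lit 76) (nat_lit 0) (XT.lf (nat_lit 0) (nat_lit 15803411705) (nat_lit 76) (nat_lit 15958637688) (nat_lit 152) (nat_lit 39074371277) (nat_lit 38) (nat_lit 5) (nat_lit 39) (nat_lit 5) (nat_lit 40) (nat_lit 4) (nat_lit 454) (nat_lit 410) (nat_lit 336)) (XT.lf (nat_lit 0) (nat_lit 7235485332) (nat_lit 76) (nat_lit 57270286691) (nat_lit 76) (nat_lit 10297799116) (nat_lit 37) (nat_lit 4) (nat_lit 38) (nat_lit 5) (nat_lit 38)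 (nat_lit 4) (nat_lit 455) (nat_lit 410) (nat_lit 335)))) (XT.nd (nat_lit 156) (nat_lit 228) (nat_lit 0) (XT.nd (nat_lit 78) (nat_lit 76) (nat_lit 0) (XT.lf (nat_lit 0) (nat_lit 21342177560) (nat_lit 152) (nat_lit 3231889891) (nat_lit 76) (nat_lit 54436484447) (nat_lit 36) (nat_lit 5) (nat_lit 38) (nat_lit 5) (nat_lit 37) (nat_lit 4) (nat_lit 456) (nat_lit 410) (nat_lit 334)) (XT.lf (nat_lit 0) (nat_lit 56394601941) (nat_lit 152) (nat_lit 15449978800) (nat_lit 0) (nat_lit 11638968327) (nat_lit 35) (nat_lit 5) (nat_lit 37) (nat_lit 4) (nat_lit 35) (nat_lit 4) (nat_lit 457) (nat_lit 410) (nat_lit 333))) (XT.nd (nat_lit 78) (nat_lit 76) (nat_lit 0) (XT.lf (nat_lit 0) (nat_lit 7134500739) (nat_lit 152) (nat_lit 30138779587) (nat_lit 76) (nat_lit 50967087467) (nat_lit 33) (nat_lit 5) (nat_lit 35) (nat_lit 5) (nat_lit 34) (nat_lit 4) (nat_lit 458) (nat_lit 410) (nat_lit 332)) (XT.lf (nat_lit 0) (nat_lit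 44156037070) (nat_lit 152) (nat_lit 47633677367) (nat_lit 0) (nat_lit 1515350049) (nat_lit 32) (nat_lit 5) (nat_lit 34) (nat_lit 4) (nat_lit 32) (nat_lit 4) (nat_lit 459) (nat_lit 410) (nat_lit 331)))))) (XT.nd (nat_lit 546) (nat_lit 608) (nat_lit 0) (XT.nd (nat_lit 234) (nat_lit 380) (nat_lit 0) (XT.nd (nat_lit 78) (nat_lit 152) (nat_lit 0) (XT.lf (nat_lit 0) (nat_lit 30174277960) (nat_lit 76) (nat_lit 55583825250) (nat_lit 76) (nat_lit 12935893724) (nat_lit 31) (nat_lit 4) (nat_lit 32) (nat_lit 5) (nat_lit 32) (nat_lit 4) (nat_lit 460) (nat_lit 410) (nat_lit 330)) (XT.nd (nat_lit 78) (nat_lit 0) (nat_lit 0) (XT.lf (nat_lit 0) (nat_lit 11348726345) (nat_lit 76) (nat_lit 14994378896) (nat_lit 152) (nat_lit 78100178591) (nat_lit 29) (nat_lit 5) (nat_lit 30) (nat_lit 5) (nat_lit 31) (nat_lit 4) (nat_lit 461) (nat_lit 410) (nat_lit 329)) (XT.lf (nat_lit 0) (nat_lit 69967157322) (nat_lit 152) (nat_lit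 11254180279) (nat_lit 0) (nat_lit 29337775992) (nat_lit 29) (nat_lit 5) (nat_lit 31) (nat_lit 4) (nat_lit 29) (nat_lit 4) (nat_lit 462) (nat_lit 410) (nat_lit 328)))) (XT.nd (nat_lit 156) (nat_lit 152) (nat_lit 0) (XT.nd (nat_lit 78) (nat_lit 76) (nat_lit 0) (XT.lf (nat_lit 0) (nat_lit 1423730116) (nat_lit 152) (nat_lit 37716211657) (nat_lit 76) (nat_lit 77949125709) (nat_lit 27) (nat_lit 5) (nat_lit 29) (nat_lit 5) (nat_lit 28) (nat_lit 4) (nat_lit 463) (nat_lit 410) (nat_lit 327)) (XT.lf (nat_lit 0) (nat_lit 46563100178) (nat_lit 152) (nat_lit 69627411824) (nat_lit 0) (nat_lit 7858405171) (nat_lit 26) (nat_lit 5) (nat_lit 28) (nat_lit 4) (nat_lit 26) (nat_lit 4) (nat_lit 464) (nat_lit 410) (nat_lit 326))) (XT.nd (nat_lit 78) (nat_lit 76) (nat_lit 0) (XT.lf (nat_lit 0) (nat_lit 23812263327) (nat_lit 76) (nat_lit 73189037399) (nat_lit 76) (nat_lit 34479870295) (nat_lit 25) (nat_lit 4) (nat_lit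 26) (nat_lit 5) (nat_lit 26) (nat_lit 4) (nat_lit 465) (nat_lit 410) (nat_lit 325)) (XT.lf (nat_lit 0) (nat_lit 12804806391) (nat_lit 152) (nat_lit 12463454832) (nat_lit 76) (nat_lit 114169339647) (nat_lit 24) (nat_lit 5) (nat_lit 26) (nat_lit 5) (nat_lit 25) (nat_lit 4) (nat_lit 466) (nat_lit 410) (nat_lit 324))))) (XT.nd (nat_lit 312) (nat_lit 304) (nat_lit 0) (XT.nd (nat_lit 156) (nat_lit 152) (nat_lit 0) (XT.nd (nat_lit 78) (nat_lit 76) (nat_lit 0) (XT.lf (nat_lit 0) (nat_lit 64564060185) (nat_lit 152) (nat_lit 55652640859) (nat_lit 0) (nat_lit 27690591577) (nat_lit 23) (nat_lit 5) (nat_lit 25) (nat_lit 4) (nat_lit 23) (nat_lit 4) (nat_lit 467) (nat_lit 410) (nat_lit 323)) (XT.lf (nat_lit 0) (nat_lit 49898399865) (nat_lit 76) (nat_lit 71981118239) (nat_lit 76) (nat_lit 35104268586) (nat_lit 22) (nat_lit 4) (nat_lit 23) (nat_lit 5) (nat_lit 23) (nat_lit 4) (nat_lit 468) (nat_lit 410) (nat_lit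 322))) (XT.nd (nat_lit 78) (nat_lit 76) (nat_lit 0) (XT.lf (nat_lit 0) (nat_lit 17425201311) (nat_lit 152) (nat_lit 1158317560) (nat_lit 76) (nat_lit 148140850660) (nat_lit 21) (nat_lit 5) (nat_lit 23) (nat_lit 5) (nat_lit 22) (nat_lit 4) (nat_lit 469) (nat_lit 410) (nat_lit 321)) (XT.lf (nat_lit 0) (nat_lit 75400535657) (nat_lit 152) (nat_lit 61417235739) (nat_lit 0) (nat_lit 40273984278) (nat_lit 20) (nat_lit 5) (nat_lit 22) (nat_lit 4) (nat_lit 20) (nat_lit 4) (nat_lit 470) (nat_lit 410) (nat_lit 320)))) (XT.nd (nat_lit 156) (nat_lit 152) (nat_lit 0) (XT.nd (nat_lit 78) (nat_lit 76) (nat_lit 0) (XT.lf (nat_lit 0) (nat_lit 55037636906) (nat_lit 76) (nat_lit 84160398281) (nat_lit 76) (nat_lit 49031290730) (nat_lit 19) (nat_lit 4) (nat_lit 20) (nat_lit 5) (nat_lit 20) (nat_lit 4) (nat_lit 471) (nat_lit 410) (nat_lit 319)) (XT.lf (nat_lit 0) (nat_lit 8669088599) (nat_lit 152) (nat_lit 17359842748)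 (nat_lit 76) (nat_lit 174168917681) (nat_lit 18) (nat_lit 5) (nat_lit 20) (nat_lit 5) (nat_lit 19) (nat_lit 4) (nat_lit 472) (nat_lit 410) (nat_lit 318))) (XT.nd (nat_lit 78) (nat_lit 76) (nat_lit 0) (XT.lf (nat_lit 0) (nat_lit 71622168388) (nat_lit 152) (nat_lit 103182237527) (nat_lit 0) (nat_lit 38161534212) (nat_lit 17) (nat_lit 5) (nat_lit 19) (nat_lit 4) (nat_lit 17) (nat_lit 4) (nat_lit 473) (nat_lit 410) (nat_lit 317)) (XT.lf (nat_lit 0) (nat_lit 21197056855) (nat_lit 76) (nat_lit 119483761152) (nat_lit 76) (nat_lit 86021194432) (nat_lit 16) (nat_lit 4) (nat_lit 17) (nat_lit 5) (nat_lit 17) (nat_lit 4) (nat_lit 474) (nat_lit 410) (nat_lit 316))))))))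
noncomputable def xc64 : XT := (XT.nd (nat_lit 57642) (nat_lit 0) (nat_lit 4408) (XT.nd (nat_lit 1092) (nat_lit 228) (nat_lit 0) (XT.nd (nat_lit 546) (nat_lit 304) (nat_lit 0) (XT.nd (nat_lit 234) (nat_lit 228) (nat_lit 0) (XT.nd (nat_lit 78) (nat_lit 152) (nat_lit 0) (XT.lf (nat_lit 0) (nat_lit 159196170559) (nat_lit 76) (nat_lit 57857832016) (nat_lit 76) (nat_lit 24393475902) (nat_lit 16) (nat_lit 4) (nat_lit 17) (nat_lit 5) (nat_lit 17) (nat_lit 4) (nat_lit 475) (nat_lit 410) (nat_lit 315)) (XT.nd (nat_lit 78) (nat_lit 0) (nat_lit 0) (XT.lf (nat_lit 0) (nat_lit 41777123331) (nat_lit 152) (nat_lit 205609703778) (nat_lit 0) (nat_lit 9904730036) (nat_lit 14) (nat_lit 5) (nat_lit 16) (nat_lit 4) (nat_lit 14) (nat_lit 4) (nat_lit 476) (nat_lit 410) (nat_lit 314)) (XT.lf (nat_lit 0) (nat_lit 114823131816) (nat_lit 152) (nat_lit 76488938759) (nat_lit 0) (nat_lit 82949277458) (nat_lit 14) (nat_lit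 5) (nat_lit 16) (nat_lit 4) (nat_lit 14) (nat_lit 4) (nat_lit 477) (nat_lit 410) (nat_lit 313)))) (XT.nd (nat_lit 156) (nat_lit 152) (nat_lit 0) (XT.nd (nat_lit 78) (nat_lit 0) (nat_lit 0) (XT.lf (nat_lit 0) (nat_lit 65030025821) (nat_lit 76) (nat_lit 129691728484) (nat_lit 76) (nat_lit 97816521289) (nat_lit 13) (nat_lit 4) (nat_lit 14) (nat_lit 5) (nat_lit 14) (nat_lit 4) (nat_lit 478) (nat_lit 410) (nat_lit 312)) (XT.lf (nat_lit 0) (nat_lit 220589631825) (nat_lit 76) (nat_lit 61748935199) (nat_lit 76) (nat_lit 29872475377) (nat_lit 13) (nat_lit 4) (nat_lit 14) (nat_lit 5) (nat_lit 14) (nat_lit 4) (nat_lit 479) (nat_lit 410) (nat_lit 311))) (XT.nd (nat_lit 78) (nat_lit 0) (nat_lit 0) (XT.lf (nat_lit 0) (nat_lit 43194026831) (nat_lit 152) (nat_lit 277341279769) (nat_lit 0) (nat_lit 12834389059) (nat_lit 11) (nat_lit 5) (nat_lit 13) (nat_lit 4) (nat_lit 11) (nat_lit 4) (nat_lit 480) (nat_lit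 410) (nat_lit 310)) (XT.lf (nat_lit 0) (nat_lit 123731040189) (nat_lit 152) (nat_lit 138961546922) (nat_lit 0) (nat_lit 93370379631) (nat_lit 11) (nat_lit 5) (nat_lit 13) (nat_lit 4) (nat_lit 11) (nat_lit 4) (nat_lit 481) (nat_lit 410) (nat_lit 309))))) (XT.nd (nat_lit 234) (nat_lit 228) (nat_lit 0) (XT.nd (nat_lit 78) (nat_lit 0) (nat_lit 0) (XT.lf (nat_lit 0) (nat_lit 10824615705) (nat_lit 76) (nat_lit 200050249455) (nat_lit 76) (nat_lit 169688641873) (nat_lit 10) (nat_lit 4) (nat_lit 11) (nat_lit 5) (nat_lit 11) (nat_lit 4) (nat_lit 482) (nat_lit 410) (nat_lit 308)) (XT.nd (nat_lit 78) (nat_lit 0) (nat_lit 0) (XT.lf (nat_lit 0) (nat_lit 177545991360) (nat_lit 76) (nat_lit 129859899476) (nat_lit 76) (nat_lit 99497415020) (nat_lit 10) (nat_lit 4) (nat_lit 11) (nat_lit 5) (nat_lit 11) (nat_lit 4) (nat_lit 483) (nat_lit 410) (nat_lit 307)) (XT.lf (nat_lit 0) (nat_lit 357595862255) (nat_lit 76)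 (nat_lit 54058975397) (nat_lit 76) (nat_lit 23695679020) (nat_lit 10) (nat_lit 4) (nat_lit 11) (nat_lit 5) (nat_lit 11) (nat_lit 4) (nat_lit 484) (nat_lit 410) (nat_lit 306)))) (XT.nd (nat_lit 156) (nat_lit 76) (nat_lit 0) (XT.nd (nat_lit 78) (nat_lit 0) (nat_lit 0) (XT.lf (nat_lit 0) (nat_lit 58147459505) (nat_lit 152) (nat_lit 378559362829) (nat_lit 0) (nat_lit 29229318405) (nat_lit 8) (nat_lit 5) (nat_lit 10) (nat_lit 4) (nat_lit 8) (nat_lit 4) (nat_lit 485) (nat_lit 410) (nat_lit 305)) (XT.lf (nat_lit 0) (nat_lit 148002970086) (nat_lit 152) (nat_lit 231747300845) (nat_lit 0) (nat_lit 119084166042) (nat_lit 8) (nat_lit 5) (nat_lit 10) (nat_lit 4) (nat_lit 8) (nat_lit 4) (nat_lit 486) (nat_lit 410) (nat_lit 304))) (XT.nd (nat_lit 78) (nat_lit 76) (nat_lit 0) (XT.lf (nat_lit 0) (nat_lit 245043060959) (nat_lit 152) (nat_lit 73198085924) (nat_lit 0) (nat_lit 216123643079) (nat_lit 8) (nat_lit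 5) (nat_lit 10) (nat_lit 4) (nat_lit 8) (nat_lit 4) (nat_lit 487) (nat_lit 410) (nat_lit 303)) (XT.lf (nat_lit 0) (nat_lit 101269075694) (nat_lit 76) (nat_lit 250154802899) (nat_lit 76) (nat_lit 221234816651) (nat_lit 7) (nat_lit 4) (nat_lit 8) (nat_lit 5) (nat_lit 8) (nat_lit 4) (nat_lit 488) (nat_lit 410) (nat_lit 302)))))) (XT.nd (nat_lit 546) (nat_lit 76) (nat_lit 0) (XT.nd (nat_lit 234) (nat_lit 0) (nat_lit 0) (XT.nd (nat_lit 78) (nat_lit 152) (nat_lit 0) (XT.lf (nat_lit 0) (nat_lit 292300571277) (nat_lit 76) (nat_lit 175286235967) (nat_lit 76) (nat_lit 146365723453) (nat_lit 7) (nat_lit 4) (nat_lit 8) (nat_lit 5) (nat_lit 8) (nat_lit 4) (nat_lit 489) (nat_lit 410) (nat_lit 301)) (XT.nd (nat_lit 78) (nat_lit 152) (nat_lit 0) (XT.lf (nat_lit 0) (nat_lit 498608180023) (nat_lit 76) (nat_lit 94431425508) (nat_lit 76) (nat_lit 65510425711) (nat_lit 7) (nat_lit 4) (nat_lit 8) (nat_lit 5) (nat_lit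 8) (nat_lit 4) (nat_lit 490) (nat_lit 410) (nat_lit 300)) (XT.lf (nat_lit 0) (nat_lit 14833224345) (nat_lit 76) (nat_lit 6510519718) (nat_lit 152) (nat_lit 685343128959) (nat_lit 5) (nat_lit 5) (nat_lit 6) (nat_lit 5) (nat_lit 7) (nat_lit 4) (nat_lit 491) (nat_lit 410) (nat_lit 299)))) (XT.nd (nat_lit 156) (nat_lit 0) (nat_lit 0) (XT.nd (nat_lit 78) (nat_lit 0) (nat_lit 0) (XT.lf (nat_lit 0) (nat_lit 117091488902) (nat_lit 152) (nat_lit 551770603814) (nat_lit 0) (nat_lit 89546851995) (nat_lit 5) (nat_lit 5) (nat_lit 7) (nat_lit 4) (nat_lit 5) (nat_lit 4) (nat_lit 492) (nat_lit 410) (nat_lit 298)) (XT.lf (nat_lit 0) (nat_lit 220606153565) (nat_lit 152) (nat_lit 400596125320) (nat_lit 0) (nat_lit 193061148257) (nat_lit 5) (nat_lit 5) (nat_lit 7) (nat_lit 4) (nat_lit 5) (nat_lit 4) (nat_lit 493) (nat_lit 410) (nat_lit 297))) (XT.nd (nat_lit 78) (nat_lit 0) (nat_lit 0) (XT.lf (nat_lit 0) (nat_lit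 332399510829) (nat_lit 152) (nat_lit 237332716975) (nat_lit 0) (nat_lit 304854164408) (nat_lit 5) (nat_lit 5) (nat_lit 7) (nat_lit 4) (nat_lit 5) (nat_lit 4) (nat_lit 494) (nat_lit 410) (nat_lit 296)) (XT.lf (nat_lit 0) (nat_lit 453134039848) (nat_lit 152) (nat_lit 61012891916) (nat_lit 0) (nat_lit 425588377583) (nat_lit 5) (nat_lit 5) (nat_lit 7) (nat_lit 4) (nat_lit 5) (nat_lit 4) (nat_lit 495) (nat_lit 410) (nat_lit 295))))) (XT.nd (nat_lit 234) (nat_lit 0) (nat_lit 0) (XT.nd (nat_lit 78) (nat_lit 0) (nat_lit 0) (XT.lf (nat_lit 0) (nat_lit 133687027863) (nat_lit 76) (nat_lit 451925405797) (nat_lit 76) (nat_lit 424379451083) (nat_lit 4) (nat_lit 4) (nat_lit 5) (nat_lit 5) (nat_lit 5) (nat_lit 4) (nat_lit 496) (nat_lit 410) (nat_lit 294)) (XT.nd (nat_lit 78) (nat_lit 0) (nat_lit 0) (XT.lf (nat_lit 0) (nat_lit 346137568200) (nat_lit 76) (nat_lit 383612302450) (nat_lit 76) (nat_lit 356066076950)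 (nat_lit 4) (nat_lit 4) (nat_lit 5) (nat_lit 5) (nat_lit 5) (nat_lit 4) (nat_lit 497) (nat_lit 410) (nat_lit 293)) (XT.lf (nat_lit 0) (nat_lit 575580333511) (nat_lit 76) (nat_lit 309836086181) (nat_lit 76) (nat_lit 282289609953) (nat_lit 4) (nat_lit 4) (nat_lit 5) (nat_lit 5) (nat_lit 5) (nat_lit 4) (nat_lit 498) (nat_lit 410) (nat_lit 292)))) (XT.nd (nat_lit 55614) (nat_lit 0) (nat_lit 10944) (XT.nd (nat_lit 78) (nat_lit 0) (nat_lit 0) (XT.lf (nat_lit 0) (nat_lit 823374984626) (nat_lit 76) (nat_lit 230159564596) (nat_lit 76) (nat_lit 202612856213) (nat_lit 4) (nat_lit 4) (nat_lit 5) (nat_lit 5) (nat_lit 5) (nat_lit 4) (nat_lit 499) (nat_lit 410) (nat_lit 291)) (XT.lf (nat_lit 0) (nat_lit 1090989934294) (nat_lit 76) (nat_lit 144110580531) (nat_lit 76) (nat_lit 116563657189) (nat_lit 4) (nat_lit 4) (nat_lit 5) (nat_lit 5) (nat_lit 5) (nat_lit 4) (nat_lit 500) (nat_lit 410) (nat_lit 290))) (XT.nd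 (nat_lit 78) (nat_lit 0) (nat_lit 0) (XT.lf (nat_lit 0) (nat_lit 895040235) (nat_lit 0) (nat_lit 895040235) (nat_lit 684) (nat_lit 3189928969) (nat_lit 148) (nat_lit 5) (nat_lit 148) (nat_lit 3) (nat_lit 157) (nat_lit 3) (nat_lit 411) (nat_lit 411) (nat_lit 378)) (XT.lf (nat_lit 0) (nat_lit 4910350497) (nat_lit 684) (nat_lit 369463145) (nat_lit 760) (nat_lit 5018982350) (nat_lit 148) (nat_lit 5) (nat_lit 157) (nat_lit 3) (nat_lit 158) (nat_lit 5) (nat_lit 412) (nat_lit 411) (nat_lit 377))))))) (XT.nd (nat_lit 1092) (nat_lit 2812) (nat_lit 0) (XT.nd (nat_lit 546) (nat_lit 2508) (nat_lit 0) (XT.nd (nat_lit 234) (nat_lit 1292) (nat_lit 0) (XT.nd (nat_lit 78) (nat_lit 0) (nat_lit 0) (XT.lf (nat_lit 0) (nat_lit 6424365217) (nat_lit 684) (nat_lit 2464432184) (nat_lit 760) (nat_lit 1772034834) (nat_lit 149) (nat_lit 5) (nat_lit 158) (nat_lit 5) (nat_lit 159) (nat_lit 5) (nat_lit 413) (nat_lit 411)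 (nat_lit 376)) (XT.nd (nat_lit 78) (nat_lit 0) (nat_lit 76) (XT.lf (nat_lit 76) (nat_lit 6462005333) (nat_lit 0) (nat_lit 1692051782) (nat_lit 760) (nat_lit 2893071891) (nat_lit 150) (nat_lit 5) (nat_lit 149) (nat_lit 5) (nat_lit 159) (nat_lit 5) (nat_lit 414) (nat_lit 411) (nat_lit 375)) (XT.lf (nat_lit 76) (nat_lit 4716303000) (nat_lit 0) (nat_lit 5423216684) (nat_lit 760) (nat_lit 1318963612) (nat_lit 151) (nat_lit 5) (nat_lit 150) (nat_lit 5) (nat_lit 160) (nat_lit 5) (nat_lit 415) (nat_lit 411) (nat_lit 374)))) (XT.nd (nat_lit 156) (nat_lit 684) (nat_lit 0) (XT.nd (nat_lit 78) (nat_lit 0) (nat_lit 0) (XT.lf (nat_lit 0) (nat_lit 475831460) (nat_lit 760) (nat_lit 8919260854) (nat_lit 836) (nat_lit 2502029153) (nat_lit 141) (nat_lit 5) (nat_lit 151) (nat_lit 5) (nat_lit 152) (nat_lit 5) (nat_lit 416) (nat_lit 411) (nat_lit 373)) (XT.lf (nat_lit 76) (nat_lit 1205152195) (nat_lit 0) (nat_lit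 1308823251) (nat_lit 836) (nat_lit 9848514583) (nat_lit 142) (nat_lit 5) (nat_lit 141) (nat_lit 5) (nat_lit 152) (nat_lit 5) (nat_lit 417) (nat_lit 411) (nat_lit 372))) (XT.nd (nat_lit 78) (nat_lit 760) (nat_lit 0) (XT.lf (nat_lit 0) (nat_lit 4910140333) (nat_lit 760) (nat_lit 588026722) (nat_lit 76) (nat_lit 7357190353) (nat_lit 142) (nat_lit 5) (nat_lit 152) (nat_lit 5) (nat_lit 143) (nat_lit 5) (nat_lit 418) (nat_lit 411) (nat_lit 371)) (XT.lf (nat_lit 0) (nat_lit 7674516889) (nat_lit 836) (nat_lit 2341003601) (nat_lit 76) (nat_lit 3363324246) (nat_lit 132) (nat_lit 5) (nat_lit 143) (nat_lit 5) (nat_lit 133) (nat_lit 5) (nat_lit 419) (nat_lit 411) (nat_lit 370))))) (XT.nd (nat_lit 234) (nat_lit 1292) (nat_lit 0) (XT.nd (nat_lit 78) (nat_lit 836) (nat_lit 0) (XT.lf (nat_lit 0) (nat_lit 9826946076) (nat_lit 380) (nat_lit 1021161226) (nat_lit 456) (nat_lit 3086715821) (nat_lit 127) (nat_lit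 5) (nat_lit 132) (nat_lit 5) (nat_lit 133) (nat_lit 5) (nat_lit 420) (nat_lit 411) (nat_lit 369)) (XT.nd (nat_lit 78) (nat_lit 456) (nat_lit 0) (XT.lf (nat_lit 0) (nat_lit 8591092990) (nat_lit 380) (nat_lit 5931419289) (nat_lit 456) (nat_lit 435265) (nat_lit 122) (nat_lit 5) (nat_lit 127) (nat_lit 5) (nat_lit 128) (nat_lit 5) (nat_lit 421) (nat_lit 411) (nat_lit 368)) (XT.lf (nat_lit 0) (nat_lit 3432861209) (nat_lit 456) (nat_lit 7812073858) (nat_lit 76) (nat_lit 3900258527) (nat_lit 116) (nat_lit 5) (nat_lit 122) (nat_lit 5) (nat_lit 117) (nat_lit 5) (nat_lit 422) (nat_lit 411) (nat_lit 367)))) (XT.nd (nat_lit 156) (nat_lit 684) (nat_lit 0) (XT.nd (nat_lit 78) (nat_lit 304) (nat_lit 0) (XT.lf (nat_lit 0) (nat_lit 6086812725) (nat_lit 304) (nat_lit 1295984522) (nat_lit 380) (nat_lit 8422333705) (nat_lit 112) (nat_lit 5) (nat_lit 116) (nat_lit 5) (nat_lit 117) (nat_lit 5) (nat_lit 423) (nat_lit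 411) (nat_lit 366)) (XT.lf (nat_lit 0) (nat_lit 4804395642) (nat_lit 304) (nat_lit 7150304424) (nat_lit 380) (nat_lit 4547875321) (nat_lit 108) (nat_lit 5) (nat_lit 112) (nat_lit 5) (nat_lit 113) (nat_lit 5) (nat_lit 424) (nat_lit 411) (nat_lit 365))) (XT.nd (nat_lit 78) (nat_lit 380) (nat_lit 0) (XT.lf (nat_lit 0) (nat_lit 3558010211) (nat_lit 304) (nat_lit 13586975823) (nat_lit 380) (nat_lit 98207689) (nat_lit 104) (nat_lit 5) (nat_lit 108) (nat_lit 5) (nat_lit 109) (nat_lit 5) (nat_lit 425) (nat_lit 411) (nat_lit 364)) (XT.lf (nat_lit 0) (nat_lit 2229942467) (nat_lit 304) (nat_lit 2639443317) (nat_lit 380) (nat_lit 13154378669) (nat_lit 99) (nat_lit 5) (nat_lit 103) (nat_lit 5) (nat_lit 104) (nat_lit 5) (nat_lit 426) (nat_lit 411) (nat_lit 363)))))) (XT.nd (nat_lit 546) (nat_lit 1368) (nat_lit 0) (XT.nd (nat_lit 234) (nat_lit 912) (nat_lit 0) (XT.nd (nat_lit 78) (nat_lit 304) (nat_lit 0)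 (XT.lf (nat_lit 0) (nat_lit 867966593) (nat_lit 228) (nat_lit 9714911043) (nat_lit 304) (nat_lit 8266234202) (nat_lit 96) (nat_lit 5) (nat_lit 99) (nat_lit 5) (nat_lit 100) (nat_lit 5) (nat_lit 427) (nat_lit 411) (nat_lit 362)) (XT.nd (nat_lit 78) (nat_lit 304) (nat_lit 0) (XT.lf (nat_lit 0) (nat_lit 17063373250) (nat_lit 304) (nat_lit 442110944) (nat_lit 76) (nat_lit 2219514078) (nat_lit 96) (nat_lit 5) (nat_lit 100) (nat_lit 5) (nat_lit 97) (nat_lit 5) (nat_lit 428) (nat_lit 411) (nat_lit 361)) (XT.lf (nat_lit 0) (nat_lit 3706577355) (nat_lit 304) (nat_lit 1826922801) (nat_lit 76) (nat_lit 15113626186) (nat_lit 92) (nat_lit 5) (nat_lit 96) (nat_lit 5) (nat_lit 93) (nat_lit 5) (nat_lit 429) (nat_lit 411) (nat_lit 360)))) (XT.nd (nat_lit 156) (nat_lit 456) (nat_lit 0) (XT.nd (nat_lit 78) (nat_lit 228) (nat_lit 0) (XT.lf (nat_lit 0) (nat_lit 10869395712) (nat_lit 304) (nat_lit 3261904932) (nat_lit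 76) (nat_lit 7490627952) (nat_lit 89) (nat_lit 5) (nat_lit 93) (nat_lit 5) (nat_lit 90) (nat_lit 5) (nat_lit 430) (nat_lit 411) (nat_lit 359)) (XT.lf (nat_lit 0) (nat_lit 17980026581) (nat_lit 228) (nat_lit 993347339) (nat_lit 304) (nat_lit 3682940045) (nat_lit 86) (nat_lit 5) (nat_lit 89) (nat_lit 5) (nat_lit 90) (nat_lit 5) (nat_lit 431) (nat_lit 411) (nat_lit 358))) (XT.nd (nat_lit 78) (nat_lit 228) (nat_lit 0) (XT.lf (nat_lit 0) (nat_lit 4335496367) (nat_lit 228) (nat_lit 6250588989) (nat_lit 76) (nat_lit 13158795939) (nat_lit 83) (nat_lit 5) (nat_lit 86) (nat_lit 5) (nat_lit 84) (nat_lit 5) (nat_lit 432) (nat_lit 411) (nat_lit 357)) (XT.lf (nat_lit 0) (nat_lit 13260417781) (nat_lit 304) (nat_lit 7859132302) (nat_lit 76) (nat_lit 3778267622) (nat_lit 80) (nat_lit 5) (nat_lit 84) (nat_lit 5) (nat_lit 81) (nat_lit 5) (nat_lit 433) (nat_lit 411) (nat_lit 356))))) (XT.nd (nat_lit 234) (nat_lit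 760) (nat_lit 0) (XT.nd (nat_lit 78) (nat_lit 456) (nat_lit 0) (XT.lf (nat_lit 0) (nat_lit 16574313467) (nat_lit 152) (nat_lit 6839298952) (nat_lit 228) (nat_lit 2703666908) (nat_lit 78) (nat_lit 5) (nat_lit 80) (nat_lit 5) (nat_lit 81) (nat_lit 5) (nat_lit 434) (nat_lit 411) (nat_lit 355)) (XT.nd (nat_lit 78) (nat_lit 152) (nat_lit 0) (XT.lf (nat_lit 0) (nat_lit 7223542940) (nat_lit 304) (nat_lit 11381736946) (nat_lit 76) (nat_lit 8798547698) (nat_lit 74) (nat_lit 5) (nat_lit 78) (nat_lit 5) (nat_lit 75) (nat_lit 5) (nat_lit 435) (nat_lit 411) (nat_lit 354)) (XT.lf (nat_lit 0) (nat_lit 15469153264) (nat_lit 152) (nat_lit 2876988312) (nat_lit 228) (nat_lit 10420148728) (nat_lit 72) (nat_lit 5) (nat_lit 74) (nat_lit 5) (nat_lit 75) (nat_lit 5) (nat_lit 436) (nat_lit 411) (nat_lit 353)))) (XT.nd (nat_lit 156) (nat_lit 380) (nat_lit 0) (XT.nd (nat_lit 78) (nat_lit 152) (nat_lit 0) (XT.lf (nat_lit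 0) (nat_lit 750923195) (nat_lit 228) (nat_lit 15369697014) (nat_lit 76) (nat_lit 14085339042) (nat_lit 69) (nat_lit 5) (nat_lit 72) (nat_lit 5) (nat_lit 70) (nat_lit 5) (nat_lit 437) (nat_lit 411) (nat_lit 352)) (XT.lf (nat_lit 0) (nat_lit 12949631199) (nat_lit 228) (nat_lit 17625175351) (nat_lit 76) (nat_lit 1152505828) (nat_lit 67) (nat_lit 5) (nat_lit 70) (nat_lit 5) (nat_lit 68) (nat_lit 5) (nat_lit 438) (nat_lit 411) (nat_lit 351))) (XT.nd (nat_lit 78) (nat_lit 228) (nat_lit 0) (XT.lf (nat_lit 0) (nat_lit 13223345590) (nat_lit 152) (nat_lit 13623548466) (nat_lit 228) (nat_lit 6487349427) (nat_lit 65) (nat_lit 5) (nat_lit 67) (nat_lit 5) (nat_lit 68) (nat_lit 5) (nat_lit 439) (nat_lit 411) (nat_lit 350)) (XT.lf (nat_lit 0) (nat_lit 7129943417) (nat_lit 228) (nat_lit 22770305464) (nat_lit 76) (nat_lit 5136138155) (nat_lit 62) (nat_lit 5) (nat_lit 65) (nat_lit 5) (nat_lit 63) (nat_lit 5)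 (nat_lit 440) (nat_lit 411) (nat_lit 349))))))))
noncomputable def xc65 : XT := (XT.nd (nat_lit 2184) (nat_lit 1368) (nat_lit 0) (XT.nd (nat_lit 1092) (nat_lit 1216) (nat_lit 0) (XT.nd (nat_lit 546) (nat_lit 836) (nat_lit 0) (XT.nd (nat_lit 234) (nat_lit 456) (nat_lit 0) (XT.nd (nat_lit 78) (nat_lit 304) (nat_lit 0) (XT.lf (nat_lit 0) (nat_lit 11058197841) (nat_lit 152) (nat_lit 11286789849) (nat_lit 228) (nat_lit 14487616382) (nat_lit 60) (nat_lit 5) (nat_lit 62) (nat_lit 5) (nat_lit 63) (nat_lit 5) (nat_lit 441) (nat_lit 411) (nat_lit 348)) (XT.nd (nat_lit 78) (nat_lit 152) (nat_lit 0) (XT.lf (nat_lit 0) (nat_lit 684109338) (nat_lit 152) (nat_lit 28971941467) (nat_lit 76) (nat_lit 9082488718) (nat_lit 58) (nat_lit 5) (nat_lit 60) (nat_lit 5) (nat_lit 59) (nat_lit 5) (nat_lit 442) (nat_lit 411) (nat_lit 347)) (XT.lf (nat_lit 0) (nat_lit 8070172568) (nat_lit 152) (nat_lit 9247187461) (nat_lit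 228) (nat_lit 23429948326) (nat_lit 56) (nat_lit 5) (nat_lit 58) (nat_lit 5) (nat_lit 59) (nat_lit 5) (nat_lit 443) (nat_lit 411) (nat_lit 346)))) (XT.nd (nat_lit 156) (nat_lit 152) (nat_lit 0) (XT.nd (nat_lit 78) (nat_lit 228) (nat_lit 0) (XT.lf (nat_lit 0) (nat_lit 6166077083) (nat_lit 76) (nat_lit 29900953049) (nat_lit 152) (nat_lit 6810462222) (nat_lit 55) (nat_lit 5) (nat_lit 56) (nat_lit 5) (nat_lit 57) (nat_lit 4) (nat_lit 444) (nat_lit 411) (nat_lit 345)) (XT.lf (nat_lit 0) (nat_lit 3878111999) (nat_lit 152) (nat_lit 7676501887) (nat_lit 228) (nat_lit 33576156632) (nat_lit 52) (nat_lit 5) (nat_lit 54) (nat_lit 5) (nat_lit 55) (nat_lit 5) (nat_lit 445) (nat_lit 411) (nat_lit 344))) (XT.nd (nat_lit 78) (nat_lit 76) (nat_lit 0) (XT.lf (nat_lit 0) (nat_lit 1108813807) (nat_lit 76) (nat_lit 30945140455) (nat_lit 152) (nat_lit 15459592477) (nat_lit 51) (nat_lit 5) (nat_lit 52) (nat_lit 5)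 (nat_lit 53) (nat_lit 4) (nat_lit 446) (nat_lit 411) (nat_lit 343)) (XT.lf (nat_lit 0) (nat_lit 4813652424) (nat_lit 152) (nat_lit 1962866162) (nat_lit 76) (nat_lit 43265282966) (nat_lit 50) (nat_lit 5) (nat_lit 52) (nat_lit 5) (nat_lit 51) (nat_lit 5) (nat_lit 447) (nat_lit 411) (nat_lit 342))))) (XT.nd (nat_lit 234) (nat_lit 456) (nat_lit 0) (XT.nd (nat_lit 78) (nat_lit 228) (nat_lit 0) (XT.lf (nat_lit 0) (nat_lit 27210436092) (nat_lit 228) (nat_lit 5791206156) (nat_lit 76) (nat_lit 19705838394) (nat_lit 48) (nat_lit 5) (nat_lit 51) (nat_lit 5) (nat_lit 49) (nat_lit 4) (nat_lit 448) (nat_lit 411) (nat_lit 341)) (XT.nd (nat_lit 78) (nat_lit 152) (nat_lit 0) (XT.lf (nat_lit 0) (nat_lit 45497427098) (nat_lit 76) (nat_lit 6742078657) (nat_lit 152) (nat_lit 3304882143) (nat_lit 47) (nat_lit 5) (nat_lit 48) (nat_lit 5) (nat_lit 49) (nat_lit 4) (nat_lit 449) (nat_lit 411) (nat_lit 340)) (XT.lf (nat_lit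 0) (nat_lit 21120579935) (nat_lit 152) (nat_lit 15381827032) (nat_lit 76) (nat_lit 22033748526) (nat_lit 45) (nat_lit 5) (nat_lit 47) (nat_lit 5) (nat_lit 46) (nat_lit 4) (nat_lit 450) (nat_lit 411) (nat_lit 339)))) (XT.nd (nat_lit 156) (nat_lit 228) (nat_lit 0) (XT.nd (nat_lit 78) (nat_lit 152) (nat_lit 0) (XT.lf (nat_lit 0) (nat_lit 40296117162) (nat_lit 76) (nat_lit 7992783722) (nat_lit 152) (nat_lit 13430425070) (nat_lit 44) (nat_lit 5) (nat_lit 45) (nat_lit 5) (nat_lit 46) (nat_lit 4) (nat_lit 451) (nat_lit 411) (nat_lit 338)) (XT.lf (nat_lit 0) (nat_lit 13276529924) (nat_lit 152) (nat_lit 28699281007) (nat_lit 76) (nat_lit 23111491323) (nat_lit 42) (nat_lit 5) (nat_lit 44) (nat_lit 5) (nat_lit 43) (nat_lit 4) (nat_lit 452) (nat_lit 411) (nat_lit 337))) (XT.nd (nat_lit 78) (nat_lit 152) (nat_lit 0) (XT.lf (nat_lit 0) (nat_lit 31492090900) (nat_lit 76) (nat_lit 11152900249) (nat_lit 152)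 (nat_lit 26018943309) (nat_lit 41) (nat_lit 5) (nat_lit 42) (nat_lit 5) (nat_lit 43) (nat_lit 4) (nat_lit 453) (nat_lit 411) (nat_lit 336)) (XT.lf (nat_lit 0) (nat_lit 3032780393) (nat_lit 152) (nat_lit 47061923505) (nat_lit 76) (nat_lit 22367794532) (nat_lit 39) (nat_lit 5) (nat_lit 41) (nat_lit 5) (nat_lit 40) (nat_lit 4) (nat_lit 454) (nat_lit 411) (nat_lit 335)))))) (XT.nd (nat_lit 546) (nat_lit 608) (nat_lit 0) (XT.nd (nat_lit 234) (nat_lit 380) (nat_lit 0) (XT.nd (nat_lit 78) (nat_lit 152) (nat_lit 0) (XT.lf (nat_lit 0) (nat_lit 17671842573) (nat_lit 76) (nat_lit 16943950361) (nat_lit 152) (nat_lit 41871891731) (nat_lit 38) (nat_lit 5) (nat_lit 39) (nat_lit 5) (nat_lit 40) (nat_lit 4) (nat_lit 455) (nat_lit 411) (nat_lit 334)) (XT.nd (nat_lit 78) (nat_lit 76) (nat_lit 0) (XT.lf (nat_lit 0) (nat_lit 8402844138) (nat_lit 76) (nat_lit 61566401077) (nat_lit 76) (nat_lit 10803451156) (nat_lit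 37) (nat_lit 4) (nat_lit 38) (nat_lit 5) (nat_lit 38) (nat_lit 4) (nat_lit 456) (nat_lit 411) (nat_lit 333)) (XT.lf (nat_lit 0) (nat_lit 23334726211) (nat_lit 152) (nat_lit 2936077301) (nat_lit 76) (nat_lit 59046325096) (nat_lit 36) (nat_lit 5) (nat_lit 38) (nat_lit 5) (nat_lit 37) (nat_lit 4) (nat_lit 457) (nat_lit 411) (nat_lit 332)))) (XT.nd (nat_lit 156) (nat_lit 152) (nat_lit 0) (XT.nd (nat_lit 78) (nat_lit 152) (nat_lit 0) (XT.lf (nat_lit 0) (nat_lit 61182526741) (nat_lit 152) (nat_lit 16146107955) (nat_lit 0) (nat_lit 12819772391) (nat_lit 35) (nat_lit 5) (nat_lit 37) (nat_lit 4) (nat_lit 35) (nat_lit 4) (nat_lit 458) (nat_lit 411) (nat_lit 331)) (XT.lf (nat_lit 0) (nat_lit 7973543401) (nat_lit 152) (nat_lit 32024597106) (nat_lit 76) (nat_lit 55288035460) (nat_lit 33) (nat_lit 5) (nat_lit 35) (nat_lit 5) (nat_lit 34) (nat_lit 4) (nat_lit 459) (nat_lit 411) (nat_lit 330))) (XT.nd (nat_lit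 78) (nat_lit 76) (nat_lit 0) (XT.lf (nat_lit 0) (nat_lit 47948618513) (nat_lit 152) (nat_lit 50932939531) (nat_lit 0) (nat_lit 1874900085) (nat_lit 32) (nat_lit 5) (nat_lit 34) (nat_lit 4) (nat_lit 32) (nat_lit 4) (nat_lit 460) (nat_lit 411) (nat_lit 329)) (XT.lf (nat_lit 0) (nat_lit 33077426010) (nat_lit 76) (nat_lit 59789795254) (nat_lit 76) (nat_lit 13709865832) (nat_lit 31) (nat_lit 4) (nat_lit 32) (nat_lit 5) (nat_lit 32) (nat_lit 4) (nat_lit 461) (nat_lit 411) (nat_lit 328))))) (XT.nd (nat_lit 234) (nat_lit 304) (nat_lit 0) (XT.nd (nat_lit 78) (nat_lit 152) (nat_lit 0) (XT.lf (nat_lit 0) (nat_lit 12732563050) (nat_lit 76) (nat_lit 15959262995) (nat_lit 152) (nat_lit 84094851492) (nat_lit 29) (nat_lit 5) (nat_lit 30) (nat_lit 5) (nat_lit 31) (nat_lit 4) (nat_lit 462) (nat_lit 411) (nat_lit 327)) (XT.nd (nat_lit 78) (nat_lit 152) (nat_lit 0) (XT.lf (nat_lit 0) (nat_lit 75791322668) (nat_lit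 152) (nat_lit 11706048218) (nat_lit 0) (nat_lit 31895127172) (nat_lit 29) (nat_lit 5) (nat_lit 31) (nat_lit 4) (nat_lit 29) (nat_lit 4) (nat_lit 463) (nat_lit 411) (nat_lit 326)) (XT.lf (nat_lit 0) (nat_lit 1757876127) (nat_lit 152) (nat_lit 40297245138) (nat_lit 76) (nat_lit 84390054842) (nat_lit 27) (nat_lit 5) (nat_lit 29) (nat_lit 5) (nat_lit 28) (nat_lit 4) (nat_lit 464) (nat_lit 411) (nat_lit 325)))) (XT.nd (nat_lit 156) (nat_lit 152) (nat_lit 0) (XT.nd (nat_lit 78) (nat_lit 76) (nat_lit 0) (XT.lf (nat_lit 0) (nat_lit 50501826038) (nat_lit 152) (nat_lit 74773003913) (nat_lit 0) (nat_lit 8687312635) (nat_lit 26) (nat_lit 5) (nat_lit 28) (nat_lit 4) (nat_lit 26) (nat_lit 4) (nat_lit 465) (nat_lit 411) (nat_lit 324)) (XT.lf (nat_lit 0) (nat_lit 26123392615) (nat_lit 76) (nat_lit 78842203138) (nat_lit 76) (nat_lit 37023855633) (nat_lit 25) (nat_lit 4) (nat_lit 26) (nat_lit 5) (nat_lit 26)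 (nat_lit 4) (nat_lit 466) (nat_lit 411) (nat_lit 323))) (XT.nd (nat_lit 78) (nat_lit 76) (nat_lit 0) (XT.lf (nat_lit 0) (nat_lit 14021359430) (nat_lit 152) (nat_lit 13078110769) (nat_lit 76) (nat_lit 123483526993) (nat_lit 24) (nat_lit 5) (nat_lit 26) (nat_lit 5) (nat_lit 25) (nat_lit 4) (nat_lit 467) (nat_lit 411) (nat_lit 322)) (XT.lf (nat_lit 0) (nat_lit 69915673964) (nat_lit 152) (nat_lit 59732709842) (nat_lit 0) (nat_lit 30082164700) (nat_lit 23) (nat_lit 5) (nat_lit 25) (nat_lit 4) (nat_lit 23) (nat_lit 4) (nat_lit 468) (nat_lit 411) (nat_lit 321))))))) (XT.nd (nat_lit 1092) (nat_lit 456) (nat_lit 0) (XT.nd (nat_lit 546) (nat_lit 380) (nat_lit 0) (XT.nd (nat_lit 234) (nat_lit 304) (nat_lit 0) (XT.nd (nat_lit 78) (nat_lit 152) (nat_lit 0) (XT.lf (nat_lit 0) (nat_lit 54246241290) (nat_lit 76) (nat_lit 77561870909) (nat_lit 76) (nat_lit 37725462945) (nat_lit 22) (nat_lit 4) (nat_lit 23)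 (nat_lit 5) (nat_lit 23) (nat_lit 4) (nat_lit 469) (nat_lit 411) (nat_lit 320)) (XT.nd (nat_lit 78) (nat_lit 76) (nat_lit 0) (XT.lf (nat_lit 0) (nat_lit 18986955611) (nat_lit 152) (nat_lit 915832941) (nat_lit 76) (nat_lit 160151141119) (nat_lit 21) (nat_lit 5) (nat_lit 23) (nat_lit 5) (nat_lit 22) (nat_lit 4) (nat_lit 470) (nat_lit 411) (nat_lit 319)) (XT.lf (nat_lit 0) (nat_lit 81595399089) (nat_lit 152) (nat_lit 66004513750) (nat_lit 0) (nat_lit 43651039934) (nat_lit 20) (nat_lit 5) (nat_lit 22) (nat_lit 4) (nat_lit 20) (nat_lit 4) (nat_lit 471) (nat_lit 411) (nat_lit 318)))) (XT.nd (nat_lit 156) (nat_lit 152) (nat_lit 0) (XT.nd (nat_lit 78) (nat_lit 76) (nat_lit 0) (XT.lf (nat_lit 0) (nat_lit 59752576761) (nat_lit 76) (nat_lit 90736931121) (nat_lit 76) (nat_lit 52790380460) (nat_lit 19) (nat_lit 4) (nat_lit 20) (nat_lit 5) (nat_lit 20) (nat_lit 4) (nat_lit 472) (nat_lit 411) (nat_lit 317))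 (XT.lf (nat_lit 0) (nat_lit 9509081682) (nat_lit 152) (nat_lit 18454962383) (nat_lit 76) (nat_lit 188242307687) (nat_lit 18) (nat_lit 5) (nat_lit 20) (nat_lit 5) (nat_lit 19) (nat_lit 4) (nat_lit 473) (nat_lit 411) (nat_lit 316))) (XT.nd (nat_lit 78) (nat_lit 76) (nat_lit 0) (XT.lf (nat_lit 0) (nat_lit 77494144131) (nat_lit 152) (nat_lit 111151109201) (nat_lit 0) (nat_lit 41350850134) (nat_lit 17) (nat_lit 5) (nat_lit 19) (nat_lit 4) (nat_lit 17) (nat_lit 4) (nat_lit 474) (nat_lit 411) (nat_lit 315)) (XT.lf (nat_lit 0) (nat_lit 23166112240) (nat_lit 76) (nat_lit 128905106815) (nat_lit 76) (nat_lit 92760155972) (nat_lit 16) (nat_lit 4) (nat_lit 17) (nat_lit 5) (nat_lit 17) (nat_lit 4) (nat_lit 475) (nat_lit 411) (nat_lit 314))))) (XT.nd (nat_lit 234) (nat_lit 228) (nat_lit 0) (XT.nd (nat_lit 78) (nat_lit 152) (nat_lit 0) (XT.lf (nat_lit 0) (nat_lit 172184911274) (nat_lit 76) (nat_lit 62359277809)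 (nat_lit 76) (nat_lit 26212792850) (nat_lit 16) (nat_lit 4) (nat_lit 17) (nat_lit 5) (nat_lit 17) (nat_lit 4) (nat_lit 476) (nat_lit 411) (nat_lit 313)) (XT.nd (nat_lit 78) (nat_lit 0) (nat_lit 0) (XT.lf (nat_lit 0) (nat_lit 45243523103) (nat_lit 152) (nat_lit 221808199293) (nat_lit 0) (nat_lit 10816946496) (nat_lit 14) (nat_lit 5) (nat_lit 16) (nat_lit 4) (nat_lit 14) (nat_lit 4) (nat_lit 477) (nat_lit 411) (nat_lit 312)) (XT.lf (nat_lit 0) (nat_lit 124124010052) (nat_lit 152) (nat_lit 82376312390) (nat_lit 0) (nat_lit 89696180818) (nat_lit 14) (nat_lit 5) (nat_lit 16) (nat_lit 4) (nat_lit 14) (nat_lit 4) (nat_lit 478) (nat_lit 411) (nat_lit 311)))) (XT.nd (nat_lit 156) (nat_lit 152) (nat_lit 0) (XT.nd (nat_lit 78) (nat_lit 0) (nat_lit 0) (XT.lf (nat_lit 0) (nat_lit 70454098154) (nat_lit 76) (nat_lit 139955364510) (nat_lit 76) (nat_lit 105526375437) (nat_lit 13) (nat_lit 4) (nat_lit 14) (nat_lit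 5) (nat_lit 14) (nat_lit 4) (nat_lit 479) (nat_lit 411) (nat_lit 310)) (XT.lf (nat_lit 0) (nat_lit 238442052619) (nat_lit 76) (nat_lit 66585422003) (nat_lit 76) (nat_lit 32155359004) (nat_lit 13) (nat_lit 4) (nat_lit 14) (nat_lit 5) (nat_lit 14) (nat_lit 4) (nat_lit 480) (nat_lit 411) (nat_lit 309))) (XT.nd (nat_lit 78) (nat_lit 0) (nat_lit 0) (XT.lf (nat_lit 0) (nat_lit 46750063341) (nat_lit 152) (nat_lit 299325601194) (nat_lit 0) (nat_lit 13958580128) (nat_lit 11) (nat_lit 5) (nat_lit 13) (nat_lit 4) (nat_lit 11) (nat_lit 4) (nat_lit 481) (nat_lit 411) (nat_lit 308)) (XT.lf (nat_lit 0) (nat_lit 133722592259) (nat_lit 152) (nat_lit 149890525346) (nat_lit 0) (nat_lit 100930232172) (nat_lit 11) (nat_lit 5) (nat_lit 13) (nat_lit 4) (nat_lit 11) (nat_lit 4) (nat_lit 482) (nat_lit 411) (nat_lit 307)))))) (XT.nd (nat_lit 546) (nat_lit 152) (nat_lit 0) (XT.nd (nat_lit 234) (nat_lit 228) (nat_lit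 0) (XT.nd (nat_lit 78) (nat_lit 0) (nat_lit 0) (XT.lf (nat_lit 0) (nat_lit 11870362416) (nat_lit 76) (nat_lit 215963473652) (nat_lit 76) (nat_lit 183170301645) (nat_lit 10) (nat_lit 4) (nat_lit 11) (nat_lit 5) (nat_lit 11) (nat_lit 4) (nat_lit 483) (nat_lit 411) (nat_lit 306)) (XT.nd (nat_lit 78) (nat_lit 0) (nat_lit 0) (XT.lf (nat_lit 0) (nat_lit 191916131275) (nat_lit 76) (nat_lit 140164621287) (nat_lit 76) (nat_lit 107370697501) (nat_lit 10) (nat_lit 4) (nat_lit 11) (nat_lit 5) (nat_lit 11) (nat_lit 4) (nat_lit 484) (nat_lit 411) (nat_lit 305)) (XT.lf (nat_lit 0) (nat_lit 386357661426) (nat_lit 76) (nat_lit 58305850700) (nat_lit 76) (nat_lit 25511230823) (nat_lit 10) (nat_lit 4) (nat_lit 11) (nat_lit 5) (nat_lit 11) (nat_lit 4) (nat_lit 485) (nat_lit 411) (nat_lit 304)))) (XT.nd (nat_lit 156) (nat_lit 76) (nat_lit 0) (XT.nd (nat_lit 78) (nat_lit 0) (nat_lit 0) (XT.lf (nat_lit 0) (nat_lit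 62874574180) (nat_lit 152) (nat_lit 408691702288) (nat_lit 0) (nat_lit 31640989032) (nat_lit 8) (nat_lit 5) (nat_lit 10) (nat_lit 4) (nat_lit 8) (nat_lit 4) (nat_lit 486) (nat_lit 411) (nat_lit 303)) (XT.lf (nat_lit 0) (nat_lit 159912946502) (nat_lit 152) (nat_lit 250145964942) (nat_lit 0) (nat_lit 128678792987) (nat_lit 8) (nat_lit 5) (nat_lit 10) (nat_lit 4) (nat_lit 8) (nat_lit 4) (nat_lit 487) (nat_lit 411) (nat_lit 302))) (XT.nd (nat_lit 78) (nat_lit 76) (nat_lit 0) (XT.lf (nat_lit 0) (nat_lit 264711078808) (nat_lit 152) (nat_lit 78923266159) (nat_lit 0) (nat_lit 233476399026) (nat_lit 8) (nat_lit 5) (nat_lit 10) (nat_lit 4) (nat_lit 8) (nat_lit 4) (nat_lit 488) (nat_lit 411) (nat_lit 301)) (XT.lf (nat_lit 0) (nat_lit 109495589776) (nat_lit 76) (nat_lit 270103940307) (nat_lit 76) (nat_lit 238868773242) (nat_lit 7) (nat_lit 4) (nat_lit 8) (nat_lit 5) (nat_lit 8) (nat_lit 4) (nat_lit 489)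 (nat_lit 411) (nat_lit 300))))) (XT.nd (nat_lit 234) (nat_lit 0) (nat_lit 0) (XT.nd (nat_lit 78) (nat_lit 152) (nat_lit 0) (XT.lf (nat_lit 0) (nat_lit 315800346633) (nat_lit 76) (nat_lit 189250572970) (nat_lit 76) (nat_lit 158014954717) (nat_lit 7) (nat_lit 4) (nat_lit 8) (nat_lit 5) (nat_lit 8) (nat_lit 4) (nat_lit 490) (nat_lit 411) (nat_lit 299)) (XT.nd (nat_lit 78) (nat_lit 152) (nat_lit 0) (XT.lf (nat_lit 0) (nat_lit 538603991511) (nat_lit 76) (nat_lit 101931715591) (nat_lit 76) (nat_lit 70695679571) (nat_lit 7) (nat_lit 4) (nat_lit 8) (nat_lit 5) (nat_lit 8) (nat_lit 4) (nat_lit 491) (nat_lit 411) (nat_lit 298)) (XT.lf (nat_lit 0) (nat_lit 16124084441) (nat_lit 76) (nat_lit 6978602037) (nat_lit 152) (nat_lit 740116563879) (nat_lit 5) (nat_lit 5) (nat_lit 6) (nat_lit 5) (nat_lit 7) (nat_lit 4) (nat_lit 492) (nat_lit 411) (nat_lit 297)))) (XT.nd (nat_lit 156) (nat_lit 0) (nat_lit 0) (XT.nd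 (nat_lit 78) (nat_lit 0) (nat_lit 0) (XT.lf (nat_lit 0) (nat_lit 126507203024) (nat_lit 152) (nat_lit 595814149401) (nat_lit 0) (nat_lit 96757887777) (nat_lit 5) (nat_lit 5) (nat_lit 7) (nat_lit 4) (nat_lit 5) (nat_lit 4) (nat_lit 493) (nat_lit 411) (nat_lit 296)) (XT.lf (nat_lit 0) (nat_lit 238299456044) (nat_lit 152) (nat_lit 432552979496) (nat_lit 0) (nat_lit 208549824953) (nat_lit 5) (nat_lit 5) (nat_lit 7) (nat_lit 4) (nat_lit 5) (nat_lit 4) (nat_lit 494) (nat_lit 411) (nat_lit 295))) (XT.nd (nat_lit 78) (nat_lit 0) (nat_lit 0) (XT.lf (nat_lit 0) (nat_lit 359032962616) (nat_lit 152) (nat_lit 256235227065) (nat_lit 0) (nat_lit 329283039076) (nat_lit 5) (nat_lit 5) (nat_lit 7) (nat_lit 4) (nat_lit 5) (nat_lit 4) (nat_lit 495) (nat_lit 411) (nat_lit 294)) (XT.lf (nat_lit 0) (nat_lit 489423180555) (nat_lit 152) (nat_lit 65816046169) (nat_lit 0) (nat_lit 459672986229) (nat_lit 5) (nat_lit 5)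 (nat_lit 7) (nat_lit 4) (nat_lit 5) (nat_lit 4) (nat_lit 496) (nat_lit 411) (nat_lit 293))))))))
noncomputable def xc66 : XT := (XT.nd (nat_lit 57720) (nat_lit 0) (nat_lit 1900) (XT.nd (nat_lit 56628) (nat_lit 0) (nat_lit 5624) (XT.nd (nat_lit 56082) (nat_lit 0) (nat_lit 9348) (XT.nd (nat_lit 234) (nat_lit 0) (nat_lit 0) (XT.nd (nat_lit 78) (nat_lit 0) (nat_lit 0) (XT.lf (nat_lit 0) (nat_lit 144456482748) (nat_lit 76) (nat_lit 488041680420) (nat_lit 76) (nat_lit 458291235366) (nat_lit 4) (nat_lit 4) (nat_lit 5) (nat_lit 5) (nat_lit 5) (nat_lit 4) (nat_lit 497) (nat_lit 411) (nat_lit 292)) (XT.nd (nat_lit 78) (nat_lit 0) (nat_lit 0) (XT.lf (nat_lit 0) (nat_lit 373897548338) (nat_lit 76) (nat_lit 414266325683) (nat_lit 76) (nat_lit 384515648474) (nat_lit 4) (nat_lit 4) (nat_lit 5) (nat_lit 5) (nat_lit 5) (nat_lit 4) (nat_lit 498) (nat_lit 411) (nat_lit 291)) (XT.lf (nat_lit 0) (nat_lit 621690625638)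 (nat_lit 76) (nat_lit 334590601813) (nat_lit 76) (nat_lit 304839709645) (nat_lit 4) (nat_lit 4) (nat_lit 5) (nat_lit 5) (nat_lit 5) (nat_lit 4) (nat_lit 499) (nat_lit 411) (nat_lit 290)))) (XT.nd (nat_lit 55692) (nat_lit 0) (nat_lit 10944) (XT.nd (nat_lit 55614) (nat_lit 0) (nat_lit 10944) (XT.lf (nat_lit 0) (nat_lit 889304118069) (nat_lit 76) (nat_lit 248542356372) (nat_lit 76) (nat_lit 218791265169) (nat_lit 4) (nat_lit 4) (nat_lit 5) (nat_lit 5) (nat_lit 5) (nat_lit 4) (nat_lit 500) (nat_lit 411) (nat_lit 289)) (XT.lf (nat_lit 0) (nat_lit 1506359303) (nat_lit 0) (nat_lit 1506359303) (nat_lit 684) (nat_lit 2311452119) (nat_lit 148) (nat_lit 5) (nat_lit 148) (nat_lit 3) (nat_lit 157) (nat_lit 3) (nat_lit 412) (nat_lit 412) (nat_lit 376))) (XT.nd (nat_lit 78) (nat_lit 0) (nat_lit 76) (XT.lf (nat_lit 76) (nat_lit 740192427) (nat_lit 0) (nat_lit 6557885587) (nat_lit 760) (nat_lit 3724380600)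 (nat_lit 149) (nat_lit 5) (nat_lit 148) (nat_lit 5) (nat_lit 158) (nat_lit 5) (nat_lit 413) (nat_lit 412) (nat_lit 375)) (XT.lf (nat_lit 0) (nat_lit 8779130288) (nat_lit 684) (nat_lit 1489158011) (nat_lit 760) (nat_lit 1152910385) (nat_lit 149) (nat_lit 5) (nat_lit 158) (nat_lit 5) (nat_lit 159) (nat_lit 5) (nat_lit 414) (nat_lit 412) (nat_lit 374))))) (XT.nd (nat_lit 234) (nat_lit 988) (nat_lit 0) (XT.nd (nat_lit 78) (nat_lit 684) (nat_lit 0) (XT.lf (nat_lit 76) (nat_lit 8100442184) (nat_lit 0) (nat_lit 2427908014) (nat_lit 760) (nat_lit 1316025390) (nat_lit 150) (nat_lit 5) (nat_lit 149) (nat_lit 5) (nat_lit 159) (nat_lit 5) (nat_lit 415) (nat_lit 412) (nat_lit 373)) (XT.nd (nat_lit 78) (nat_lit 0) (nat_lit 76) (XT.lf (nat_lit 0) (nat_lit 251701506) (nat_lit 760) (nat_lit 6040554991) (nat_lit 836) (nat_lit 6002112917) (nat_lit 140) (nat_lit 5) (nat_lit 150) (nat_lit 5) (nat_lit 151) (nat_lit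 5) (nat_lit 416) (nat_lit 412) (nat_lit 372)) (XT.lf (nat_lit 0) (nat_lit 2036249614) (nat_lit 760) (nat_lit 8384605163) (nat_lit 836) (nat_lit 2351571552) (nat_lit 141) (nat_lit 5) (nat_lit 151) (nat_lit 5) (nat_lit 152) (nat_lit 5) (nat_lit 417) (nat_lit 412) (nat_lit 371)))) (XT.nd (nat_lit 156) (nat_lit 380) (nat_lit 0) (XT.nd (nat_lit 78) (nat_lit 684) (nat_lit 0) (XT.lf (nat_lit 76) (nat_lit 2495515829) (nat_lit 0) (nat_lit 1647803431) (nat_lit 836) (nat_lit 9136437133) (nat_lit 142) (nat_lit 5) (nat_lit 141) (nat_lit 5) (nat_lit 152) (nat_lit 5) (nat_lit 418) (nat_lit 412) (nat_lit 370)) (XT.lf (nat_lit 0) (nat_lit 558110814) (nat_lit 760) (nat_lit 6072598955) (nat_lit 836) (nat_lit 7186390590) (nat_lit 132) (nat_lit 5) (nat_lit 142) (nat_lit 5) (nat_lit 143) (nat_lit 5) (nat_lit 419) (nat_lit 412) (nat_lit 369))) (XT.nd (nat_lit 78) (nat_lit 380) (nat_lit 0) (XT.lf (nat_lit 0) (nat_lit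 9525578265) (nat_lit 836) (nat_lit 1340034867) (nat_lit 76) (nat_lit 3521408504) (nat_lit 132) (nat_lit 5) (nat_lit 143) (nat_lit 5) (nat_lit 133) (nat_lit 5) (nat_lit 420) (nat_lit 412) (nat_lit 368)) (XT.lf (nat_lit 0) (nat_lit 11749710929) (nat_lit 380) (nat_lit 1129453598) (nat_lit 456) (nat_lit 2112028757) (nat_lit 127) (nat_lit 5) (nat_lit 132) (nat_lit 5) (nat_lit 133) (nat_lit 5) (nat_lit 421) (nat_lit 412) (nat_lit 367)))))) (XT.nd (nat_lit 546) (nat_lit 1368) (nat_lit 0) (XT.nd (nat_lit 234) (nat_lit 1216) (nat_lit 0) (XT.nd (nat_lit 78) (nat_lit 684) (nat_lit 0) (XT.lf (nat_lit 0) (nat_lit 1112230144) (nat_lit 456) (nat_lit 5225892313) (nat_lit 76) (nat_lit 9290801906) (nat_lit 121) (nat_lit 5) (nat_lit 127) (nat_lit 5) (nat_lit 122) (nat_lit 5) (nat_lit 422) (nat_lit 412) (nat_lit 366)) (XT.nd (nat_lit 78) (nat_lit 304) (nat_lit 0) (XT.lf (nat_lit 0) (nat_lit 4756653558) (nat_lit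 456) (nat_lit 7256506025) (nat_lit 76) (nat_lit 4290982906) (nat_lit 116) (nat_lit 5) (nat_lit 122) (nat_lit 5) (nat_lit 117) (nat_lit 5) (nat_lit 423) (nat_lit 412) (nat_lit 365)) (XT.lf (nat_lit 0) (nat_lit 7702986927) (nat_lit 304) (nat_lit 1259512174) (nat_lit 380) (nat_lit 8057395442) (nat_lit 112) (nat_lit 5) (nat_lit 116) (nat_lit 5) (nat_lit 117) (nat_lit 5) (nat_lit 424) (nat_lit 412) (nat_lit 364)))) (XT.nd (nat_lit 156) (nat_lit 532) (nat_lit 0) (XT.nd (nat_lit 78) (nat_lit 380) (nat_lit 0) (XT.lf (nat_lit 0) (nat_lit 6314297788) (nat_lit 304) (nat_lit 7532190378) (nat_lit 380) (nat_lit 3929343961) (nat_lit 108) (nat_lit 5) (nat_lit 112) (nat_lit 5) (nat_lit 113) (nat_lit 5) (nat_lit 425) (nat_lit 412) (nat_lit 363)) (XT.lf (nat_lit 0) (nat_lit 798357811) (nat_lit 380) (nat_lit 13629687833) (nat_lit 76) (nat_lit 4149477433) (nat_lit 103) (nat_lit 5) (nat_lit 108) (nat_lit 5) (nat_lit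 104) (nat_lit 5) (nat_lit 426) (nat_lit 412) (nat_lit 362))) (XT.nd (nat_lit 78) (nat_lit 228) (nat_lit 0) (XT.lf (nat_lit 0) (nat_lit 3507073144) (nat_lit 304) (nat_lit 2603302466) (nat_lit 380) (nat_lit 13312572151) (nat_lit 99) (nat_lit 5) (nat_lit 103) (nat_lit 5) (nat_lit 104) (nat_lit 5) (nat_lit 427) (nat_lit 412) (nat_lit 361)) (XT.lf (nat_lit 0) (nat_lit 2025557691) (nat_lit 228) (nat_lit 10212883686) (nat_lit 304) (nat_lit 8078017639) (nat_lit 96) (nat_lit 5) (nat_lit 99) (nat_lit 5) (nat_lit 100) (nat_lit 5) (nat_lit 428) (nat_lit 412) (nat_lit 360))))) (XT.nd (nat_lit 234) (nat_lit 836) (nat_lit 0) (XT.nd (nat_lit 78) (nat_lit 304) (nat_lit 0) (XT.lf (nat_lit 0) (nat_lit 582244653) (nat_lit 228) (nat_lit 18608337946) (nat_lit 304) (nat_lit 2074183475) (nat_lit 93) (nat_lit 5) (nat_lit 96) (nat_lit 5) (nat_lit 97) (nat_lit 5) (nat_lit 429) (nat_lit 412) (nat_lit 359)) (XT.nd (nat_lit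 78) (nat_lit 228) (nat_lit 0) (XT.lf (nat_lit 0) (nat_lit 4727716692) (nat_lit 304) (nat_lit 953162788) (nat_lit 76) (nat_lit 16581676008) (nat_lit 92) (nat_lit 5) (nat_lit 96) (nat_lit 5) (nat_lit 93) (nat_lit 5) (nat_lit 430) (nat_lit 412) (nat_lit 358)) (XT.lf (nat_lit 0) (nat_lit 12429635812) (nat_lit 304) (nat_lit 2517375733) (nat_lit 76) (nat_lit 8370034782) (nat_lit 89) (nat_lit 5) (nat_lit 93) (nat_lit 5) (nat_lit 90) (nat_lit 5) (nat_lit 431) (nat_lit 412) (nat_lit 357)))) (XT.nd (nat_lit 156) (nat_lit 380) (nat_lit 0) (XT.nd (nat_lit 78) (nat_lit 228) (nat_lit 0) (XT.lf (nat_lit 0) (nat_lit 20380213297) (nat_lit 228) (nat_lit 765573026) (nat_lit 304) (nat_lit 3290211067) (nat_lit 86) (nat_lit 5) (nat_lit 89) (nat_lit 5) (nat_lit 90) (nat_lit 5) (nat_lit 432) (nat_lit 412) (nat_lit 356)) (XT.lf (nat_lit 0) (nat_lit 5317952897) (nat_lit 228) (nat_lit 5782742889) (nat_lit 76) (nat_lit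 14511911777) (nat_lit 83) (nat_lit 5) (nat_lit 86) (nat_lit 5) (nat_lit 84) (nat_lit 5) (nat_lit 433) (nat_lit 412) (nat_lit 355))) (XT.nd (nat_lit 78) (nat_lit 152) (nat_lit 0) (XT.lf (nat_lit 0) (nat_lit 14929280545) (nat_lit 304) (nat_lit 7536846917) (nat_lit 76) (nat_lit 4393036976) (nat_lit 80) (nat_lit 5) (nat_lit 84) (nat_lit 5) (nat_lit 81) (nat_lit 5) (nat_lit 434) (nat_lit 412) (nat_lit 354)) (XT.lf (nat_lit 0) (nat_lit 18809944519) (nat_lit 152) (nat_lit 7053949772) (nat_lit 228) (nat_lit 2313836242) (nat_lit 78) (nat_lit 5) (nat_lit 80) (nat_lit 5) (nat_lit 81) (nat_lit 5) (nat_lit 435) (nat_lit 412) (nat_lit 353))))))) (XT.nd (nat_lit 1092) (nat_lit 1444) (nat_lit 0) (XT.nd (nat_lit 546) (nat_lit 912) (nat_lit 0) (XT.nd (nat_lit 234) (nat_lit 684) (nat_lit 0) (XT.nd (nat_lit 78) (nat_lit 380) (nat_lit 0) (XT.lf (nat_lit 0) (nat_lit 8363743579) (nat_lit 304) (nat_lit 11380759695)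 (nat_lit 76) (nat_lit 9823451607) (nat_lit 74) (nat_lit 5) (nat_lit 78) (nat_lit 5) (nat_lit 75) (nat_lit 5) (nat_lit 436) (nat_lit 412) (nat_lit 352)) (XT.nd (nat_lit 78) (nat_lit 228) (nat_lit 0) (XT.lf (nat_lit 0) (nat_lit 17578588348) (nat_lit 152) (nat_lit 2769521479) (nat_lit 228) (nat_lit 10692711478) (nat_lit 72) (nat_lit 5) (nat_lit 74) (nat_lit 5) (nat_lit 75) (nat_lit 5) (nat_lit 437) (nat_lit 412) (nat_lit 351)) (XT.lf (nat_lit 0) (nat_lit 1332381992) (nat_lit 228) (nat_lit 15727404432) (nat_lit 76) (nat_lit 15536528840) (nat_lit 69) (nat_lit 5) (nat_lit 72) (nat_lit 5) (nat_lit 70) (nat_lit 5) (nat_lit 438) (nat_lit 412) (nat_lit 350)))) (XT.nd (nat_lit 156) (nat_lit 380) (nat_lit 0) (XT.nd (nat_lit 78) (nat_lit 152) (nat_lit 0) (XT.lf (nat_lit 0) (nat_lit 14486666410) (nat_lit 228) (nat_lit 18181654624) (nat_lit 76) (nat_lit 1572075431) (nat_lit 67) (nat_lit 5) (nat_lit 70) (nat_lit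 5) (nat_lit 68) (nat_lit 5) (nat_lit 439) (nat_lit 412) (nat_lit 349)) (XT.lf (nat_lit 0) (nat_lit 15097654412) (nat_lit 152) (nat_lit 14373686914) (nat_lit 228) (nat_lit 6505762713) (nat_lit 65) (nat_lit 5) (nat_lit 67) (nat_lit 5) (nat_lit 68) (nat_lit 5) (nat_lit 440) (nat_lit 412) (nat_lit 348))) (XT.nd (nat_lit 78) (nat_lit 152) (nat_lit 0) (XT.lf (nat_lit 0) (nat_lit 8166665992) (nat_lit 228) (nat_lit 23777745148) (nat_lit 76) (nat_lit 5871531584) (nat_lit 62) (nat_lit 5) (nat_lit 65) (nat_lit 5) (nat_lit 63) (nat_lit 5) (nat_lit 441) (nat_lit 412) (nat_lit 347)) (XT.lf (nat_lit 0) (nat_lit 12721654944) (nat_lit 152) (nat_lit 11854875385) (nat_lit 228) (nat_lit 15180448849) (nat_lit 60) (nat_lit 5) (nat_lit 62) (nat_lit 5) (nat_lit 63) (nat_lit 5) (nat_lit 442) (nat_lit 412) (nat_lit 346))))) (XT.nd (nat_lit 234) (nat_lit 532) (nat_lit 0) (XT.nd (nat_lit 78) (nat_lit 228) (nat_lit 0)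 (XT.lf (nat_lit 0) (nat_lit 1173667764) (nat_lit 152) (nat_lit 30514065922) (nat_lit 76) (nat_lit 10128115737) (nat_lit 58) (nat_lit 5) (nat_lit 60) (nat_lit 5) (nat_lit 59) (nat_lit 5) (nat_lit 443) (nat_lit 412) (nat_lit 345)) (XT.nd (nat_lit 78) (nat_lit 76) (nat_lit 0) (XT.lf (nat_lit 0) (nat_lit 9457709264) (nat_lit 152) (nat_lit 9659243135) (nat_lit 228) (nat_lit 24869401021) (nat_lit 56) (nat_lit 5) (nat_lit 58) (nat_lit 5) (nat_lit 59) (nat_lit 5) (nat_lit 444) (nat_lit 412) (nat_lit 344)) (XT.lf (nat_lit 0) (nat_lit 7383987106) (nat_lit 76) (nat_lit 31967978276) (nat_lit 152) (nat_lit 6935720473) (nat_lit 55) (nat_lit 5) (nat_lit 56) (nat_lit 5) (nat_lit 57) (nat_lit 4) (nat_lit 445) (nat_lit 412) (nat_lit 343)))) (XT.nd (nat_lit 156) (nat_lit 228) (nat_lit 0) (XT.nd (nat_lit 78) (nat_lit 76) (nat_lit 0) (XT.lf (nat_lit 0) (nat_lit 4894363892) (nat_lit 152) (nat_lit 7971706223) (nat_lit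 228) (nat_lit 35855783663) (nat_lit 52) (nat_lit 5) (nat_lit 54) (nat_lit 5) (nat_lit 55) (nat_lit 5) (nat_lit 446) (nat_lit 412) (nat_lit 342)) (XT.lf (nat_lit 0) (nat_lit 1886613257) (nat_lit 76) (nat_lit 33105440380) (nat_lit 152) (nat_lit 16303865443) (nat_lit 51) (nat_lit 5) (nat_lit 52) (nat_lit 5) (nat_lit 53) (nat_lit 4) (nat_lit 447) (nat_lit 412) (nat_lit 341))) (XT.nd (nat_lit 78) (nat_lit 152) (nat_lit 0) (XT.lf (nat_lit 0) (nat_lit 5550533654) (nat_lit 152) (nat_lit 1470193784) (nat_lit 76) (nat_lit 47006809171) (nat_lit 50) (nat_lit 5) (nat_lit 52) (nat_lit 5) (nat_lit 51) (nat_lit 5) (nat_lit 448) (nat_lit 412) (nat_lit 340)) (XT.lf (nat_lit 0) (nat_lit 29727170178) (nat_lit 228) (nat_lit 5620712161) (nat_lit 76) (nat_lit 21559183630) (nat_lit 48) (nat_lit 5) (nat_lit 51) (nat_lit 5) (nat_lit 49) (nat_lit 4) (nat_lit 449) (nat_lit 412) (nat_lit 339)))))) (XT.nd (nat_lit 546)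 (nat_lit 684) (nat_lit 0) (XT.nd (nat_lit 234) (nat_lit 456) (nat_lit 0) (XT.nd (nat_lit 78) (nat_lit 228) (nat_lit 0) (XT.lf (nat_lit 0) (nat_lit 49743467991) (nat_lit 76) (nat_lit 6999384914) (nat_lit 152) (nat_lit 3228859871) (nat_lit 47) (nat_lit 5) (nat_lit 48) (nat_lit 5) (nat_lit 49) (nat_lit 4) (nat_lit 450) (nat_lit 412) (nat_lit 338)) (XT.nd (nat_lit 78) (nat_lit 76) (nat_lit 0) (XT.lf (nat_lit 0) (nat_lit 23128861263) (nat_lit 152) (nat_lit 16010614255) (nat_lit 76) (nat_lit 24063625838) (nat_lit 45) (nat_lit 5) (nat_lit 47) (nat_lit 5) (nat_lit 46) (nat_lit 4) (nat_lit 451) (nat_lit 412) (nat_lit 337)) (XT.lf (nat_lit 0) (nat_lit 44095413766) (nat_lit 76) (nat_lit 8360618377) (nat_lit 152) (nat_lit 14185625196) (nat_lit 44) (nat_lit 5) (nat_lit 45) (nat_lit 5) (nat_lit 46) (nat_lit 4) (nat_lit 452) (nat_lit 412) (nat_lit 336)))) (XT.nd (nat_lit 156) (nat_lit 228) (nat_lit 0) (XT.nd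 (nat_lit 78) (nat_lit 76) (nat_lit 0) (XT.lf (nat_lit 0) (nat_lit 14637672926) (nat_lit 152) (nat_lit 30424234858) (nat_lit 76) (nat_lit 25217415509) (nat_lit 42) (nat_lit 5) (nat_lit 44) (nat_lit 5) (nat_lit 43) (nat_lit 4) (nat_lit 453) (nat_lit 412) (nat_lit 335)) (XT.lf (nat_lit 0) (nat_lit 34557632331) (nat_lit 76) (nat_lit 11784356353) (nat_lit 152) (nat_lit 27800779406) (nat_lit 41) (nat_lit 5) (nat_lit 42) (nat_lit 5) (nat_lit 43) (nat_lit 4) (nat_lit 454) (nat_lit 412) (nat_lit 334))) (XT.nd (nat_lit 78) (nat_lit 76) (nat_lit 0) (XT.lf (nat_lit 0) (nat_lit 3556279669) (nat_lit 152) (nat_lit 50285376363) (nat_lit 76) (nat_lit 24403788543) (nat_lit 39) (nat_lit 5) (nat_lit 41) (nat_lit 5) (nat_lit 40) (nat_lit 4) (nat_lit 455) (nat_lit 412) (nat_lit 333)) (XT.lf (nat_lit 0) (nat_lit 19603558027) (nat_lit 76) (nat_lit 18049656427) (nat_lit 152) (nat_lit 44940067926) (nat_lit 38) (nat_lit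 5) (nat_lit 39) (nat_lit 5) (nat_lit 40) (nat_lit 4) (nat_lit 456) (nat_lit 412) (nat_lit 332))))) (XT.nd (nat_lit 234) (nat_lit 456) (nat_lit 0) (XT.nd (nat_lit 78) (nat_lit 152) (nat_lit 0) (XT.lf (nat_lit 0) (nat_lit 9579632693) (nat_lit 76) (nat_lit 66246935601) (nat_lit 76) (nat_lit 11394946136) (nat_lit 37) (nat_lit 4) (nat_lit 38) (nat_lit 5) (nat_lit 38) (nat_lit 4) (nat_lit 457) (nat_lit 412) (nat_lit 331)) (XT.nd (nat_lit 78) (nat_lit 76) (nat_lit 0) (XT.lf (nat_lit 0) (nat_lit 25445995432) (nat_lit 152) (nat_lit 2695685895) (nat_lit 76) (nat_lit 63988585539) (nat_lit 36) (nat_lit 5) (nat_lit 38) (nat_lit 5) (nat_lit 37) (nat_lit 4) (nat_lit 458) (nat_lit 412) (nat_lit 330)) (XT.lf (nat_lit 0) (nat_lit 66314060161) (nat_lit 152) (nat_lit 16974945812) (nat_lit 0) (nat_lit 14059420196) (nat_lit 35) (nat_lit 5) (nat_lit 37) (nat_lit 4) (nat_lit 35) (nat_lit 4) (nat_lit 459) (nat_lit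 412) (nat_lit 329)))) (XT.nd (nat_lit 156) (nat_lit 228) (nat_lit 0) (XT.nd (nat_lit 78) (nat_lit 76) (nat_lit 0) (XT.lf (nat_lit 0) (nat_lit 8841435964) (nat_lit 152) (nat_lit 34136217782) (nat_lit 76) (nat_lit 59919909740) (nat_lit 33) (nat_lit 5) (nat_lit 35) (nat_lit 5) (nat_lit 34) (nat_lit 4) (nat_lit 460) (nat_lit 412) (nat_lit 328)) (XT.lf (nat_lit 0) (nat_lit 52007500515) (nat_lit 152) (nat_lit 54569104164) (nat_lit 0) (nat_lit 2229214822) (nat_lit 32) (nat_lit 5) (nat_lit 34) (nat_lit 4) (nat_lit 32) (nat_lit 4) (nat_lit 461) (nat_lit 412) (nat_lit 327))) (XT.nd (nat_lit 78) (nat_lit 152) (nat_lit 0) (XT.lf (nat_lit 0) (nat_lit 36143035226) (nat_lit 76) (nat_lit 64366586542) (nat_lit 76) (nat_lit 14582975922) (nat_lit 31) (nat_lit 4) (nat_lit 32) (nat_lit 5) (nat_lit 32) (nat_lit 4) (nat_lit 462) (nat_lit 412) (nat_lit 326)) (XT.lf (nat_lit 0) (nat_lit 14159208729) (nat_lit 76) (nat_lit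 17034815581) (nat_lit 152) (nat_lit 90605240206) (nat_lit 29) (nat_lit 5) (nat_lit 30) (nat_lit 5) (nat_lit 31) (nat_lit 4) (nat_lit 463) (nat_lit 412) (nat_lit 325))))))))
noncomputable def xc67 : XT := (XT.nd (nat_lit 2184) (nat_lit 228) (nat_lit 0) (XT.nd (nat_lit 1092) (nat_lit 684) (nat_lit 0) (XT.nd (nat_lit 546) (nat_lit 456) (nat_lit 0) (XT.nd (nat_lit 234) (nat_lit 304) (nat_lit 0) (XT.nd (nat_lit 78) (nat_lit 228) (nat_lit 0) (XT.lf (nat_lit 0) (nat_lit 82049066719) (nat_lit 152) (nat_lit 12258044351) (nat_lit 0) (nat_lit 34627060648) (nat_lit 29) (nat_lit 5) (nat_lit 31) (nat_lit 4) (nat_lit 29) (nat_lit 4) (nat_lit 464) (nat_lit 412) (nat_lit 324)) (XT.nd (nat_lit 78) (nat_lit 76) (nat_lit 0) (XT.lf (nat_lit 0) (nat_lit 2087333035) (nat_lit 152) (nat_lit 43146999157) (nat_lit 76) (nat_lit 91317012894) (nat_lit 27) (nat_lit 5) (nat_lit 29) (nat_lit 5) (nat_lit 28) (nat_lit 4) (nat_lit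 465) (nat_lit 412) (nat_lit 323)) (XT.lf (nat_lit 0) (nat_lit 54725166433) (nat_lit 152) (nat_lit 80390817428) (nat_lit 0) (nat_lit 9553966928) (nat_lit 26) (nat_lit 5) (nat_lit 28) (nat_lit 4) (nat_lit 26) (nat_lit 4) (nat_lit 466) (nat_lit 412) (nat_lit 322)))) (XT.nd (nat_lit 156) (nat_lit 152) (nat_lit 0) (XT.nd (nat_lit 78) (nat_lit 76) (nat_lit 0) (XT.lf (nat_lit 0) (nat_lit 28561470661) (nat_lit 76) (nat_lit 84976433597) (nat_lit 76) (nat_lit 39801946966) (nat_lit 25) (nat_lit 4) (nat_lit 26) (nat_lit 5) (nat_lit 26) (nat_lit 4) (nat_lit 467) (nat_lit 412) (nat_lit 321)) (XT.lf (nat_lit 0) (nat_lit 15307821723) (nat_lit 152) (nat_lit 13796495732) (nat_lit 76) (nat_lit 133517078986) (nat_lit 24) (nat_lit 5) (nat_lit 26) (nat_lit 5) (nat_lit 25) (nat_lit 4) (nat_lit 468) (nat_lit 412) (nat_lit 320))) (XT.nd (nat_lit 78) (nat_lit 76) (nat_lit 0) (XT.lf (nat_lit 0) (nat_lit 75668812109)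 (nat_lit 152) (nat_lit 64192274601) (nat_lit 0) (nat_lit 32639908827) (nat_lit 23) (nat_lit 5) (nat_lit 25) (nat_lit 4) (nat_lit 23) (nat_lit 4) (nat_lit 469) (nat_lit 412) (nat_lit 319)) (XT.lf (nat_lit 0) (nat_lit 58891127009) (nat_lit 76) (nat_lit 83614439933) (nat_lit 76) (nat_lit 40583051483) (nat_lit 22) (nat_lit 4) (nat_lit 23) (nat_lit 5) (nat_lit 23) (nat_lit 4) (nat_lit 470) (nat_lit 412) (nat_lit 318))))) (XT.nd (nat_lit 234) (nat_lit 228) (nat_lit 0) (XT.nd (nat_lit 78) (nat_lit 152) (nat_lit 0) (XT.lf (nat_lit 0) (nat_lit 20649720527) (nat_lit 152) (nat_lit 701762450) (nat_lit 76) (nat_lit 173099568490) (nat_lit 21) (nat_lit 5) (nat_lit 23) (nat_lit 5) (nat_lit 22) (nat_lit 4) (nat_lit 471) (nat_lit 412) (nat_lit 317)) (XT.nd (nat_lit 78) (nat_lit 76) (nat_lit 0) (XT.lf (nat_lit 0) (nat_lit 88262623420) (nat_lit 152) (nat_lit 71005295933) (nat_lit 0) (nat_lit 47276128027) (nat_lit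 20) (nat_lit 5) (nat_lit 22) (nat_lit 4) (nat_lit 20) (nat_lit 4) (nat_lit 472) (nat_lit 412) (nat_lit 316)) (XT.lf (nat_lit 0) (nat_lit 64800211659) (nat_lit 76) (nat_lit 97861884392) (nat_lit 76) (nat_lit 56873510136) (nat_lit 19) (nat_lit 4) (nat_lit 20) (nat_lit 5) (nat_lit 20) (nat_lit 4) (nat_lit 473) (nat_lit 412) (nat_lit 315)))) (XT.nd (nat_lit 156) (nat_lit 76) (nat_lit 0) (XT.nd (nat_lit 78) (nat_lit 76) (nat_lit 0) (XT.lf (nat_lit 0) (nat_lit 10395379200) (nat_lit 152) (nat_lit 19679586582) (nat_lit 76) (nat_lit 203421613933) (nat_lit 18) (nat_lit 5) (nat_lit 20) (nat_lit 5) (nat_lit 19) (nat_lit 4) (nat_lit 474) (nat_lit 412) (nat_lit 314)) (XT.lf (nat_lit 0) (nat_lit 83815591189) (nat_lit 152) (nat_lit 119798249954) (nat_lit 0) (nat_lit 44775853316) (nat_lit 17) (nat_lit 5) (nat_lit 19) (nat_lit 4) (nat_lit 17) (nat_lit 4) (nat_lit 475) (nat_lit 412) (nat_lit 313))) (XT.nd (nat_lit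 78) (nat_lit 0) (nat_lit 0) (XT.lf (nat_lit 0) (nat_lit 25253704062) (nat_lit 76) (nat_lit 139099755389) (nat_lit 76) (nat_lit 100058597038) (nat_lit 16) (nat_lit 4) (nat_lit 17) (nat_lit 5) (nat_lit 17) (nat_lit 4) (nat_lit 476) (nat_lit 412) (nat_lit 312)) (XT.lf (nat_lit 0) (nat_lit 186176651253) (nat_lit 76) (nat_lit 67238983024) (nat_lit 76) (nat_lit 28196509415) (nat_lit 16) (nat_lit 4) (nat_lit 17) (nat_lit 5) (nat_lit 17) (nat_lit 4) (nat_lit 477) (nat_lit 412) (nat_lit 311)))))) (XT.nd (nat_lit 546) (nat_lit 228) (nat_lit 0) (XT.nd (nat_lit 234) (nat_lit 228) (nat_lit 0) (XT.nd (nat_lit 78) (nat_lit 76) (nat_lit 0) (XT.lf (nat_lit 0) (nat_lit 48969512072) (nat_lit 152) (nat_lit 239338279802) (nat_lit 0) (nat_lit 11785044034) (nat_lit 14) (nat_lit 5) (nat_lit 16) (nat_lit 4) (nat_lit 14) (nat_lit 4) (nat_lit 478) (nat_lit 412) (nat_lit 310)) (XT.nd (nat_lit 78) (nat_lit 76) (nat_lit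 0) (XT.lf (nat_lit 0) (nat_lit 134152548560) (nat_lit 152) (nat_lit 88767736423) (nat_lit 0) (nat_lit 96967006597) (nat_lit 14) (nat_lit 5) (nat_lit 16) (nat_lit 4) (nat_lit 14) (nat_lit 4) (nat_lit 479) (nat_lit 412) (nat_lit 309)) (XT.lf (nat_lit 0) (nat_lit 76280472532) (nat_lit 76) (nat_lit 151056026993) (nat_lit 76) (nat_lit 113869490654) (nat_lit 13) (nat_lit 4) (nat_lit 14) (nat_lit 5) (nat_lit 14) (nat_lit 4) (nat_lit 480) (nat_lit 412) (nat_lit 308)))) (XT.nd (nat_lit 156) (nat_lit 76) (nat_lit 0) (XT.nd (nat_lit 78) (nat_lit 152) (nat_lit 0) (XT.lf (nat_lit 0) (nat_lit 257693385834) (nat_lit 76) (nat_lit 71823582913) (nat_lit 76) (nat_lit 34636125857) (nat_lit 13) (nat_lit 4) (nat_lit 14) (nat_lit 5) (nat_lit 14) (nat_lit 4) (nat_lit 481) (nat_lit 412) (nat_lit 307)) (XT.lf (nat_lit 0) (nat_lit 50576243273) (nat_lit 152) (nat_lit 323097625837) (nat_lit 0) (nat_lit 15158805585) (nat_lit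 11) (nat_lit 5) (nat_lit 13) (nat_lit 4) (nat_lit 11) (nat_lit 4) (nat_lit 482) (nat_lit 412) (nat_lit 306))) (XT.nd (nat_lit 78) (nat_lit 76) (nat_lit 0) (XT.lf (nat_lit 0) (nat_lit 144500191182) (nat_lit 152) (nat_lit 161720634547) (nat_lit 0) (nat_lit 109082001715) (nat_lit 11) (nat_lit 5) (nat_lit 13) (nat_lit 4) (nat_lit 11) (nat_lit 4) (nat_lit 483) (nat_lit 412) (nat_lit 305)) (XT.lf (nat_lit 0) (nat_lit 12974121600) (nat_lit 76) (nat_lit 233162708815) (nat_lit 76) (nat_lit 197743823258) (nat_lit 10) (nat_lit 4) (nat_lit 11) (nat_lit 5) (nat_lit 11) (nat_lit 4) (nat_lit 484) (nat_lit 412) (nat_lit 304))))) (XT.nd (nat_lit 234) (nat_lit 76) (nat_lit 0) (XT.nd (nat_lit 78) (nat_lit 152) (nat_lit 0) (XT.lf (nat_lit 0) (nat_lit 207412134917) (nat_lit 76) (nat_lit 151305714389) (nat_lit 76) (nat_lit 115886184303) (nat_lit 10) (nat_lit 4) (nat_lit 11) (nat_lit 5) (nat_lit 11) (nat_lit 4) (nat_lit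 485) (nat_lit 412) (nat_lit 303)) (XT.nd (nat_lit 78) (nat_lit 152) (nat_lit 0) (XT.lf (nat_lit 0) (nat_lit 417398416136) (nat_lit 76) (nat_lit 62903581162) (nat_lit 76) (nat_lit 27483454290) (nat_lit 10) (nat_lit 4) (nat_lit 11) (nat_lit 5) (nat_lit 11) (nat_lit 4) (nat_lit 486) (nat_lit 412) (nat_lit 302)) (XT.lf (nat_lit 0) (nat_lit 67969113086) (nat_lit 152) (nat_lit 441256371832) (nat_lit 0) (nat_lit 34235132656) (nat_lit 8) (nat_lit 5) (nat_lit 10) (nat_lit 4) (nat_lit 8) (nat_lit 4) (nat_lit 487) (nat_lit 412) (nat_lit 301)))) (XT.nd (nat_lit 156) (nat_lit 76) (nat_lit 0) (XT.nd (nat_lit 78) (nat_lit 0) (nat_lit 0) (XT.lf (nat_lit 0) (nat_lit 172765772011) (nat_lit 152) (nat_lit 270036654509) (nat_lit 0) (nat_lit 139031304298) (nat_lit 8) (nat_lit 5) (nat_lit 10) (nat_lit 4) (nat_lit 8) (nat_lit 4) (nat_lit 488) (nat_lit 412) (nat_lit 300)) (XT.lf (nat_lit 0) (nat_lit 285943326028) (nat_lit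 152) (nat_lit 85125101870) (nat_lit 0) (nat_lit 252208407126) (nat_lit 8) (nat_lit 5) (nat_lit 10) (nat_lit 4) (nat_lit 8) (nat_lit 4) (nat_lit 489) (nat_lit 412) (nat_lit 299))) (XT.nd (nat_lit 78) (nat_lit 0) (nat_lit 0) (XT.lf (nat_lit 0) (nat_lit 118362394045) (nat_lit 76) (nat_lit 291658031574) (nat_lit 76) (nat_lit 257922694906) (nat_lit 7) (nat_lit 4) (nat_lit 8) (nat_lit 5) (nat_lit 8) (nat_lit 4) (nat_lit 490) (nat_lit 412) (nat_lit 298)) (XT.lf (nat_lit 0) (nat_lit 341163593888) (nat_lit 76) (nat_lit 204340411439) (nat_lit 76) (nat_lit 170604687950) (nat_lit 7) (nat_lit 4) (nat_lit 8) (nat_lit 5) (nat_lit 8) (nat_lit 4) (nat_lit 491) (nat_lit 412) (nat_lit 297))))))) (XT.nd (nat_lit 56706) (nat_lit 0) (nat_lit 6460) (XT.nd (nat_lit 546) (nat_lit 0) (nat_lit 0) (XT.nd (nat_lit 234) (nat_lit 76) (nat_lit 0) (XT.nd (nat_lit 78) (nat_lit 152) (nat_lit 0) (XT.lf (nat_lit 0) (nat_lit 581784180763)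 (nat_lit 76) (nat_lit 110039764535) (nat_lit 76) (nat_lit 76303682877) (nat_lit 7) (nat_lit 4) (nat_lit 8) (nat_lit 5) (nat_lit 8) (nat_lit 4) (nat_lit 492) (nat_lit 412) (nat_lit 296)) (XT.nd (nat_lit 78) (nat_lit 0) (nat_lit 0) (XT.lf (nat_lit 0) (nat_lit 17503347743) (nat_lit 76) (nat_lit 7491657640) (nat_lit 152) (nat_lit 799279579493) (nat_lit 5) (nat_lit 5) (nat_lit 6) (nat_lit 5) (nat_lit 7) (nat_lit 4) (nat_lit 493) (nat_lit 412) (nat_lit 295)) (XT.lf (nat_lit 0) (nat_lit 136669270186) (nat_lit 152) (nat_lit 643395174085) (nat_lit 0) (nat_lit 104539060314) (nat_lit 5) (nat_lit 5) (nat_lit 7) (nat_lit 4) (nat_lit 5) (nat_lit 4) (nat_lit 494) (nat_lit 412) (nat_lit 294)))) (XT.nd (nat_lit 156) (nat_lit 76) (nat_lit 0) (XT.nd (nat_lit 78) (nat_lit 0) (nat_lit 0) (XT.lf (nat_lit 0) (nat_lit 257401830047) (nat_lit 152) (nat_lit 467079340755) (nat_lit 0) (nat_lit 225271349389) (nat_lit 5)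 (nat_lit 5) (nat_lit 7) (nat_lit 4) (nat_lit 5) (nat_lit 4) (nat_lit 495) (nat_lit 412) (nat_lit 293)) (XT.lf (nat_lit 0) (nat_lit 387791171402) (nat_lit 152) (nat_lit 276661936804) (nat_lit 0) (nat_lit 355660440016) (nat_lit 5) (nat_lit 5) (nat_lit 7) (nat_lit 4) (nat_lit 5) (nat_lit 4) (nat_lit 496) (nat_lit 412) (nat_lit 292))) (XT.nd (nat_lit 78) (nat_lit 76) (nat_lit 0) (XT.lf (nat_lit 0) (nat_lit 528609971829) (nat_lit 152) (nat_lit 71014562801) (nat_lit 0) (nat_lit 496479008288) (nat_lit 5) (nat_lit 5) (nat_lit 7) (nat_lit 4) (nat_lit 5) (nat_lit 4) (nat_lit 497) (nat_lit 412) (nat_lit 291)) (XT.lf (nat_lit 0) (nat_lit 156076866814) (nat_lit 76) (nat_lit 527052643591) (nat_lit 76) (nat_lit 494921465092) (nat_lit 4) (nat_lit 4) (nat_lit 5) (nat_lit 5) (nat_lit 5) (nat_lit 4) (nat_lit 498) (nat_lit 412) (nat_lit 290))))) (XT.nd (nat_lit 55848) (nat_lit 0) (nat_lit 10260) (XT.nd (nat_lit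 78) (nat_lit 0) (nat_lit 0) (XT.lf (nat_lit 0) (nat_lit 403868486877) (nat_lit 76) (nat_lit 447377658346) (nat_lit 76) (nat_lit 415246280811) (nat_lit 4) (nat_lit 4) (nat_lit 5) (nat_lit 5) (nat_lit 5) (nat_lit 4) (nat_lit 499) (nat_lit 412) (nat_lit 289)) (XT.nd (nat_lit 55692) (nat_lit 0) (nat_lit 10944) (XT.lf (nat_lit 0) (nat_lit 671480630015) (nat_lit 76) (nat_lit 361330096818) (nat_lit 76) (nat_lit 329198534990) (nat_lit 4) (nat_lit 4) (nat_lit 5) (nat_lit 5) (nat_lit 5) (nat_lit 4) (nat_lit 500) (nat_lit 412) (nat_lit 288)) (XT.lf (nat_lit 0) (nat_lit 2089587395) (nat_lit 0) (nat_lit 2089587395) (nat_lit 684) (nat_lit 1524427987) (nat_lit 148) (nat_lit 5) (nat_lit 148) (nat_lit 3) (nat_lit 157) (nat_lit 3) (nat_lit 413) (nat_lit 413) (nat_lit 374)))) (XT.nd (nat_lit 156) (nat_lit 684) (nat_lit 0) (XT.nd (nat_lit 78) (nat_lit 0) (nat_lit 76) (XT.lf (nat_lit 76) (nat_lit 1787410251) (nat_lit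 0) (nat_lit 7810336438) (nat_lit 760) (nat_lit 2220292179) (nat_lit 149) (nat_lit 5) (nat_lit 148) (nat_lit 5) (nat_lit 158) (nat_lit 5) (nat_lit 414) (nat_lit 413) (nat_lit 373)) (XT.lf (nat_lit 0) (nat_lit 11059663604) (nat_lit 684) (nat_lit 603121971) (nat_lit 760) (nat_lit 592805050) (nat_lit 149) (nat_lit 5) (nat_lit 158) (nat_lit 5) (nat_lit 159) (nat_lit 5) (nat_lit 415) (nat_lit 413) (nat_lit 372))) (XT.nd (nat_lit 78) (nat_lit 0) (nat_lit 76) (XT.lf (nat_lit 0) (nat_lit 125048524) (nat_lit 760) (nat_lit 3009799554) (nat_lit 836) (nat_lit 9582796551) (nat_lit 139) (nat_lit 5) (nat_lit 149) (nat_lit 5) (nat_lit 150) (nat_lit 5) (nat_lit 416) (nat_lit 413) (nat_lit 371)) (XT.lf (nat_lit 0) (nat_lit 1669805672) (nat_lit 760) (nat_lit 5478909479) (nat_lit 836) (nat_lit 6058983864) (nat_lit 140) (nat_lit 5) (nat_lit 150) (nat_lit 5) (nat_lit 151) (nat_lit 5) (nat_lit 417) (nat_lit 413) (nat_lit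 370)))))) (XT.nd (nat_lit 546) (nat_lit 2052) (nat_lit 0) (XT.nd (nat_lit 234) (nat_lit 1216) (nat_lit 0) (XT.nd (nat_lit 78) (nat_lit 684) (nat_lit 0) (XT.lf (nat_lit 0) (nat_lit 3504320740) (nat_lit 760) (nat_lit 7985246210) (nat_lit 836) (nat_lit 2239097196) (nat_lit 141) (nat_lit 5) (nat_lit 151) (nat_lit 5) (nat_lit 152) (nat_lit 5) (nat_lit 418) (nat_lit 413) (nat_lit 369)) (XT.nd (nat_lit 78) (nat_lit 684) (nat_lit 0) (XT.lf (nat_lit 76) (nat_lit 3718778030) (nat_lit 0) (nat_lit 1980480175) (nat_lit 836) (nat_lit 8581379353) (nat_lit 142) (nat_lit 5) (nat_lit 141) (nat_lit 5) (nat_lit 152) (nat_lit 5) (nat_lit 419) (nat_lit 413) (nat_lit 368)) (XT.lf (nat_lit 0) (nat_lit 1643721545) (nat_lit 760) (nat_lit 6664565425) (nat_lit 836) (nat_lit 6556570141) (nat_lit 132) (nat_lit 5) (nat_lit 142) (nat_lit 5) (nat_lit 143) (nat_lit 5) (nat_lit 420) (nat_lit 413) (nat_lit 367)))) (XT.nd (nat_lit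 156) (nat_lit 836) (nat_lit 0) (XT.nd (nat_lit 78) (nat_lit 380) (nat_lit 0) (XT.lf (nat_lit 0) (nat_lit 11348238403) (nat_lit 836) (nat_lit 428505642) (nat_lit 76) (nat_lit 3707972280) (nat_lit 132) (nat_lit 5) (nat_lit 143) (nat_lit 5) (nat_lit 133) (nat_lit 5) (nat_lit 421) (nat_lit 413) (nat_lit 366)) (XT.lf (nat_lit 0) (nat_lit 13664146966) (nat_lit 380) (nat_lit 1242614647) (nat_lit 456) (nat_lit 1233645097) (nat_lit 127) (nat_lit 5) (nat_lit 132) (nat_lit 5) (nat_lit 133) (nat_lit 5) (nat_lit 422) (nat_lit 413) (nat_lit 365))) (XT.nd (nat_lit 78) (nat_lit 380) (nat_lit 0) (XT.lf (nat_lit 0) (nat_lit 2155156760) (nat_lit 456) (nat_lit 4631872419) (nat_lit 76) (nat_lit 10044318740) (nat_lit 121) (nat_lit 5) (nat_lit 127) (nat_lit 5) (nat_lit 122) (nat_lit 5) (nat_lit 423) (nat_lit 413) (nat_lit 364)) (XT.lf (nat_lit 0) (nat_lit 6036674399) (nat_lit 456) (nat_lit 6824909101) (nat_lit 76)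 (nat_lit 4701737272) (nat_lit 116) (nat_lit 5) (nat_lit 122) (nat_lit 5) (nat_lit 117) (nat_lit 5) (nat_lit 424) (nat_lit 413) (nat_lit 363))))) (XT.nd (nat_lit 312) (nat_lit 760) (nat_lit 0) (XT.nd (nat_lit 156) (nat_lit 684) (nat_lit 0) (XT.nd (nat_lit 78) (nat_lit 304) (nat_lit 0) (XT.lf (nat_lit 0) (nat_lit 9287357898) (nat_lit 304) (nat_lit 1240116160) (nat_lit 380) (nat_lit 7811447847) (nat_lit 112) (nat_lit 5) (nat_lit 116) (nat_lit 5) (nat_lit 117) (nat_lit 5) (nat_lit 425) (nat_lit 413) (nat_lit 362)) (XT.lf (nat_lit 0) (nat_lit 7784419745) (nat_lit 304) (nat_lit 7971752577) (nat_lit 380) (nat_lit 3401474926) (nat_lit 108) (nat_lit 5) (nat_lit 112) (nat_lit 5) (nat_lit 113) (nat_lit 5) (nat_lit 426) (nat_lit 413) (nat_lit 361))) (XT.nd (nat_lit 78) (nat_lit 304) (nat_lit 0) (XT.lf (nat_lit 0) (nat_lit 1634712201) (nat_lit 380) (nat_lit 13735276852) (nat_lit 76) (nat_lit 4654976490)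 (nat_lit 103) (nat_lit 5) (nat_lit 108) (nat_lit 5) (nat_lit 104) (nat_lit 5) (nat_lit 427) (nat_lit 413) (nat_lit 360)) (XT.lf (nat_lit 0) (nat_lit 4729627403) (nat_lit 304) (nat_lit 2599549932) (nat_lit 380) (nat_lit 13610982577) (nat_lit 99) (nat_lit 5) (nat_lit 103) (nat_lit 5) (nat_lit 104) (nat_lit 5) (nat_lit 428) (nat_lit 413) (nat_lit 359)))) (XT.nd (nat_lit 156) (nat_lit 304) (nat_lit 0) (XT.nd (nat_lit 78) (nat_lit 228) (nat_lit 0) (XT.lf (nat_lit 0) (nat_lit 3120518777) (nat_lit 228) (nat_lit 10790528029) (nat_lit 304) (nat_lit 7995936606) (nat_lit 96) (nat_lit 5) (nat_lit 99) (nat_lit 5) (nat_lit 100) (nat_lit 5) (nat_lit 429) (nat_lit 413) (nat_lit 358)) (XT.lf (nat_lit 0) (nat_lit 1550902511) (nat_lit 228) (nat_lit 19834941079) (nat_lit 304) (nat_lit 1546995810) (nat_lit 93) (nat_lit 5) (nat_lit 96) (nat_lit 5) (nat_lit 97) (nat_lit 5) (nat_lit 430) (nat_lit 413) (nat_lit 357)))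 (XT.nd (nat_lit 78) (nat_lit 228) (nat_lit 0) (XT.lf (nat_lit 0) (nat_lit 5727173009) (nat_lit 304) (nat_lit 155004085) (nat_lit 76) (nat_lit 18130226316) (nat_lit 92) (nat_lit 5) (nat_lit 96) (nat_lit 5) (nat_lit 93) (nat_lit 5) (nat_lit 431) (nat_lit 413) (nat_lit 356)) (XT.lf (nat_lit 0) (nat_lit 14016160692) (nat_lit 304) (nat_lit 1856727389) (nat_lit 76) (nat_lit 9279826689) (nat_lit 89) (nat_lit 5) (nat_lit 93) (nat_lit 5) (nat_lit 90) (nat_lit 5) (nat_lit 432) (nat_lit 413) (nat_lit 355))))))))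
noncomputable def xc68 : XT := (XT.nd (nat_lit 2184) (nat_lit 2052) (nat_lit 0) (XT.nd (nat_lit 1092) (nat_lit 1520) (nat_lit 0) (XT.nd (nat_lit 546) (nat_lit 1064) (nat_lit 0) (XT.nd (nat_lit 234) (nat_lit 836) (nat_lit 0) (XT.nd (nat_lit 78) (nat_lit 456) (nat_lit 0) (XT.lf (nat_lit 0) (nat_lit 22835205625) (nat_lit 228) (nat_lit 563408288) (nat_lit 304) (nat_lit 2964123956) (nat_lit 86) (nat_lit 5) (nat_lit 89) (nat_lit 5) (nat_lit 90) (nat_lit 5) (nat_lit 433) (nat_lit 413) (nat_lit 354)) (XT.nd (nat_lit 78) (nat_lit 228) (nat_lit 0) (XT.lf (nat_lit 0) (nat_lit 6288328105) (nat_lit 228) (nat_lit 5415549889) (nat_lit 76) (nat_lit 15930419729) (nat_lit 83) (nat_lit 5) (nat_lit 86) (nat_lit 5) (nat_lit 84) (nat_lit 5) (nat_lit 434) (nat_lit 413) (nat_lit 353)) (XT.lf (nat_lit 0) (nat_lit 16644910147) (nat_lit 304) (nat_lit 7324451760) (nat_lit 76) (nat_lit 5012405127) (nat_lit 80) (nat_lit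 5) (nat_lit 84) (nat_lit 5) (nat_lit 81) (nat_lit 5) (nat_lit 435) (nat_lit 413) (nat_lit 352)))) (XT.nd (nat_lit 156) (nat_lit 380) (nat_lit 0) (XT.nd (nat_lit 78) (nat_lit 304) (nat_lit 0) (XT.lf (nat_lit 0) (nat_lit 21094649181) (nat_lit 152) (nat_lit 7333206514) (nat_lit 228) (nat_lit 1979289489) (nat_lit 78) (nat_lit 5) (nat_lit 80) (nat_lit 5) (nat_lit 81) (nat_lit 5) (nat_lit 436) (nat_lit 413) (nat_lit 351)) (XT.lf (nat_lit 0) (nat_lit 9514939434) (nat_lit 304) (nat_lit 11509742242) (nat_lit 76) (nat_lit 10884550724) (nat_lit 74) (nat_lit 5) (nat_lit 78) (nat_lit 5) (nat_lit 75) (nat_lit 5) (nat_lit 437) (nat_lit 413) (nat_lit 350))) (XT.nd (nat_lit 78) (nat_lit 228) (nat_lit 0) (XT.lf (nat_lit 0) (nat_lit 19732391554) (nat_lit 152) (nat_lit 2701623408) (nat_lit 228) (nat_lit 11067119181) (nat_lit 72) (nat_lit 5) (nat_lit 74) (nat_lit 5) (nat_lit 75) (nat_lit 5) (nat_lit 438) (nat_lit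 413) (nat_lit 349)) (XT.lf (nat_lit 0) (nat_lit 1885976102) (nat_lit 228) (nat_lit 16238110210) (nat_lit 76) (nat_lit 17057539860) (nat_lit 69) (nat_lit 5) (nat_lit 72) (nat_lit 5) (nat_lit 70) (nat_lit 5) (nat_lit 439) (nat_lit 413) (nat_lit 348))))) (XT.nd (nat_lit 234) (nat_lit 532) (nat_lit 0) (XT.nd (nat_lit 78) (nat_lit 380) (nat_lit 0) (XT.lf (nat_lit 0) (nat_lit 16075181955) (nat_lit 228) (nat_lit 18904418515) (nat_lit 76) (nat_lit 1978507735) (nat_lit 67) (nat_lit 5) (nat_lit 70) (nat_lit 5) (nat_lit 68) (nat_lit 5) (nat_lit 440) (nat_lit 413) (nat_lit 347)) (XT.nd (nat_lit 78) (nat_lit 228) (nat_lit 0) (XT.lf (nat_lit 0) (nat_lit 17005433478) (nat_lit 152) (nat_lit 15232304923) (nat_lit 228) (nat_lit 6597061635) (nat_lit 65) (nat_lit 5) (nat_lit 67) (nat_lit 5) (nat_lit 68) (nat_lit 5) (nat_lit 441) (nat_lit 413) (nat_lit 346)) (XT.lf (nat_lit 0) (nat_lit 9219799599) (nat_lit 228)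 (nat_lit 24981932563) (nat_lit 76) (nat_lit 6619462595) (nat_lit 62) (nat_lit 5) (nat_lit 65) (nat_lit 5) (nat_lit 63) (nat_lit 5) (nat_lit 442) (nat_lit 413) (nat_lit 345)))) (XT.nd (nat_lit 156) (nat_lit 228) (nat_lit 0) (XT.nd (nat_lit 78) (nat_lit 152) (nat_lit 0) (XT.lf (nat_lit 0) (nat_lit 14407083908) (nat_lit 152) (nat_lit 12516178952) (nat_lit 228) (nat_lit 15995213253) (nat_lit 60) (nat_lit 5) (nat_lit 62) (nat_lit 5) (nat_lit 63) (nat_lit 5) (nat_lit 443) (nat_lit 413) (nat_lit 344)) (XT.lf (nat_lit 0) (nat_lit 1640357548) (nat_lit 152) (nat_lit 32290212747) (nat_lit 76) (nat_lit 11211880019) (nat_lit 58) (nat_lit 5) (nat_lit 60) (nat_lit 5) (nat_lit 59) (nat_lit 5) (nat_lit 444) (nat_lit 413) (nat_lit 343))) (XT.nd (nat_lit 78) (nat_lit 76) (nat_lit 0) (XT.lf (nat_lit 0) (nat_lit 10850405301) (nat_lit 152) (nat_lit 10151016088) (nat_lit 228) (nat_lit 26486059438) (nat_lit 56) (nat_lit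 5) (nat_lit 58) (nat_lit 5) (nat_lit 59) (nat_lit 5) (nat_lit 445) (nat_lit 413) (nat_lit 342)) (XT.lf (nat_lit 0) (nat_lit 8595954237) (nat_lit 76) (nat_lit 34246737683) (nat_lit 152) (nat_lit 7130856980) (nat_lit 55) (nat_lit 5) (nat_lit 56) (nat_lit 5) (nat_lit 57) (nat_lit 4) (nat_lit 446) (nat_lit 413) (nat_lit 341)))))) (XT.nd (nat_lit 546) (nat_lit 684) (nat_lit 0) (XT.nd (nat_lit 234) (nat_lit 456) (nat_lit 0) (XT.nd (nat_lit 78) (nat_lit 152) (nat_lit 0) (XT.lf (nat_lit 0) (nat_lit 5891196724) (nat_lit 152) (nat_lit 8336023812) (nat_lit 228) (nat_lit 38375767705) (nat_lit 52) (nat_lit 5) (nat_lit 54) (nat_lit 5) (nat_lit 55) (nat_lit 5) (nat_lit 447) (nat_lit 413) (nat_lit 340)) (XT.nd (nat_lit 78) (nat_lit 76) (nat_lit 0) (XT.lf (nat_lit 0) (nat_lit 2628329651) (nat_lit 76) (nat_lit 35483546982) (nat_lit 152) (nat_lit 17271673966) (nat_lit 51) (nat_lit 5) (nat_lit 52) (nat_lit 5)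 (nat_lit 53) (nat_lit 4) (nat_lit 448) (nat_lit 413) (nat_lit 339)) (XT.lf (nat_lit 0) (nat_lit 6296178743) (nat_lit 152) (nat_lit 1030794822) (nat_lit 76) (nat_lit 51007669033) (nat_lit 50) (nat_lit 5) (nat_lit 52) (nat_lit 5) (nat_lit 51) (nat_lit 5) (nat_lit 449) (nat_lit 413) (nat_lit 338)))) (XT.nd (nat_lit 156) (nat_lit 228) (nat_lit 0) (XT.nd (nat_lit 78) (nat_lit 76) (nat_lit 0) (XT.lf (nat_lit 0) (nat_lit 32396752569) (nat_lit 228) (nat_lit 5526995946) (nat_lit 76) (nat_lit 23521296720) (nat_lit 48) (nat_lit 5) (nat_lit 51) (nat_lit 5) (nat_lit 49) (nat_lit 4) (nat_lit 450) (nat_lit 413) (nat_lit 337)) (XT.lf (nat_lit 0) (nat_lit 54242704282) (nat_lit 76) (nat_lit 7317514690) (nat_lit 152) (nat_lit 3195319515) (nat_lit 47) (nat_lit 5) (nat_lit 48) (nat_lit 5) (nat_lit 49) (nat_lit 4) (nat_lit 451) (nat_lit 413) (nat_lit 336))) (XT.nd (nat_lit 78) (nat_lit 76) (nat_lit 0) (XT.lf (nat_lit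 0) (nat_lit 25252348261) (nat_lit 152) (nat_lit 16775552095) (nat_lit 76) (nat_lit 26217777488) (nat_lit 45) (nat_lit 5) (nat_lit 47) (nat_lit 5) (nat_lit 46) (nat_lit 4) (nat_lit 452) (nat_lit 413) (nat_lit 335)) (XT.lf (nat_lit 0) (nat_lit 48116537291) (nat_lit 76) (nat_lit 8796624875) (nat_lit 152) (nat_lit 15046783614) (nat_lit 44) (nat_lit 5) (nat_lit 45) (nat_lit 5) (nat_lit 46) (nat_lit 4) (nat_lit 453) (nat_lit 413) (nat_lit 334))))) (XT.nd (nat_lit 234) (nat_lit 304) (nat_lit 0) (XT.nd (nat_lit 78) (nat_lit 228) (nat_lit 0) (XT.lf (nat_lit 0) (nat_lit 16065048736) (nat_lit 152) (nat_lit 32368642929) (nat_lit 76) (nat_lit 27455149011) (nat_lit 42) (nat_lit 5) (nat_lit 44) (nat_lit 5) (nat_lit 43) (nat_lit 4) (nat_lit 454) (nat_lit 413) (nat_lit 333)) (XT.nd (nat_lit 78) (nat_lit 152) (nat_lit 0) (XT.lf (nat_lit 0) (nat_lit 37790499226) (nat_lit 76) (nat_lit 12503531545) (nat_lit 152)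 (nat_lit 29767915003) (nat_lit 41) (nat_lit 5) (nat_lit 42) (nat_lit 5) (nat_lit 43) (nat_lit 4) (nat_lit 455) (nat_lit 413) (nat_lit 332)) (XT.lf (nat_lit 0) (nat_lit 4081588664) (nat_lit 152) (nat_lit 53843956624) (nat_lit 76) (nat_lit 26567486044) (nat_lit 39) (nat_lit 5) (nat_lit 41) (nat_lit 5) (nat_lit 40) (nat_lit 4) (nat_lit 456) (nat_lit 413) (nat_lit 331)))) (XT.nd (nat_lit 156) (nat_lit 152) (nat_lit 0) (XT.nd (nat_lit 78) (nat_lit 76) (nat_lit 0) (XT.lf (nat_lit 0) (nat_lit 21615916784) (nat_lit 76) (nat_lit 19279457162) (nat_lit 152) (nat_lit 48293868058) (nat_lit 38) (nat_lit 5) (nat_lit 39) (nat_lit 5) (nat_lit 40) (nat_lit 4) (nat_lit 457) (nat_lit 413) (nat_lit 330)) (XT.lf (nat_lit 0) (nat_lit 10778583062) (nat_lit 76) (nat_lit 71336833142) (nat_lit 76) (nat_lit 12072675990) (nat_lit 37) (nat_lit 4) (nat_lit 38) (nat_lit 5) (nat_lit 38) (nat_lit 4) (nat_lit 458) (nat_lit 413)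 (nat_lit 329))) (XT.nd (nat_lit 78) (nat_lit 76) (nat_lit 0) (XT.lf (nat_lit 0) (nat_lit 27691286797) (nat_lit 152) (nat_lit 2503866839) (nat_lit 76) (nat_lit 69295047583) (nat_lit 36) (nat_lit 5) (nat_lit 38) (nat_lit 5) (nat_lit 37) (nat_lit 4) (nat_lit 459) (nat_lit 413) (nat_lit 328)) (XT.lf (nat_lit 0) (nat_lit 71822315358) (nat_lit 152) (nat_lit 17936121536) (nat_lit 0) (nat_lit 15367700915) (nat_lit 35) (nat_lit 5) (nat_lit 37) (nat_lit 4) (nat_lit 35) (nat_lit 4) (nat_lit 460) (nat_lit 413) (nat_lit 327))))))) (XT.nd (nat_lit 1092) (nat_lit 836) (nat_lit 0) (XT.nd (nat_lit 546) (nat_lit 532) (nat_lit 0) (XT.nd (nat_lit 234) (nat_lit 380) (nat_lit 0) (XT.nd (nat_lit 78) (nat_lit 152) (nat_lit 0) (XT.lf (nat_lit 0) (nat_lit 9745946563) (nat_lit 152) (nat_lit 36481015161) (nat_lit 76) (nat_lit 64892541822) (nat_lit 33) (nat_lit 5) (nat_lit 35) (nat_lit 5) (nat_lit 34) (nat_lit 4) (nat_lit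 461) (nat_lit 413) (nat_lit 326)) (XT.nd (nat_lit 78) (nat_lit 76) (nat_lit 0) (XT.lf (nat_lit 0) (nat_lit 56359280702) (nat_lit 152) (nat_lit 58558714691) (nat_lit 0) (nat_lit 2582725817) (nat_lit 32) (nat_lit 5) (nat_lit 34) (nat_lit 4) (nat_lit 32) (nat_lit 4) (nat_lit 462) (nat_lit 413) (nat_lit 325)) (XT.lf (nat_lit 0) (nat_lit 39394058921) (nat_lit 76) (nat_lit 69338965307) (nat_lit 76) (nat_lit 15557845155) (nat_lit 31) (nat_lit 4) (nat_lit 32) (nat_lit 5) (nat_lit 32) (nat_lit 4) (nat_lit 463) (nat_lit 413) (nat_lit 324)))) (XT.nd (nat_lit 156) (nat_lit 228) (nat_lit 0) (XT.nd (nat_lit 78) (nat_lit 0) (nat_lit 0) (XT.lf (nat_lit 0) (nat_lit 15641774503) (nat_lit 76) (nat_lit 18225114157) (nat_lit 152) (nat_lit 97667445941) (nat_lit 29) (nat_lit 5) (nat_lit 30) (nat_lit 5) (nat_lit 31) (nat_lit 4) (nat_lit 464) (nat_lit 413) (nat_lit 323)) (XT.lf (nat_lit 0) (nat_lit 88779691506) (nat_lit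 152) (nat_lit 12909051646) (nat_lit 0) (nat_lit 37551823667) (nat_lit 29) (nat_lit 5) (nat_lit 31) (nat_lit 4) (nat_lit 29) (nat_lit 4) (nat_lit 465) (nat_lit 413) (nat_lit 322))) (XT.nd (nat_lit 78) (nat_lit 76) (nat_lit 0) (XT.lf (nat_lit 0) (nat_lit 2416208239) (nat_lit 152) (nat_lit 46278092429) (nat_lit 76) (nat_lit 98773054366) (nat_lit 27) (nat_lit 5) (nat_lit 29) (nat_lit 5) (nat_lit 28) (nat_lit 4) (nat_lit 466) (nat_lit 413) (nat_lit 321)) (XT.lf (nat_lit 0) (nat_lit 59260239343) (nat_lit 152) (nat_lit 86509988516) (nat_lit 0) (nat_lit 10465463021) (nat_lit 26) (nat_lit 5) (nat_lit 28) (nat_lit 4) (nat_lit 26) (nat_lit 4) (nat_lit 467) (nat_lit 413) (nat_lit 320))))) (XT.nd (nat_lit 234) (nat_lit 304) (nat_lit 0) (XT.nd (nat_lit 78) (nat_lit 152) (nat_lit 0) (XT.lf (nat_lit 0) (nat_lit 31144919382) (nat_lit 76) (nat_lit 91626103675) (nat_lit 76) (nat_lit 42828509173) (nat_lit 25)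 (nat_lit 4) (nat_lit 26) (nat_lit 5) (nat_lit 26) (nat_lit 4) (nat_lit 468) (nat_lit 413) (nat_lit 319)) (XT.nd (nat_lit 78) (nat_lit 76) (nat_lit 0) (XT.lf (nat_lit 0) (nat_lit 16673697065) (nat_lit 152) (nat_lit 14619124944) (nat_lit 76) (nat_lit 144331221225) (nat_lit 24) (nat_lit 5) (nat_lit 26) (nat_lit 5) (nat_lit 25) (nat_lit 4) (nat_lit 469) (nat_lit 413) (nat_lit 318)) (XT.lf (nat_lit 0) (nat_lit 81859392033) (nat_lit 152) (nat_lit 69054120880) (nat_lit 0) (nat_lit 35380706258) (nat_lit 23) (nat_lit 5) (nat_lit 25) (nat_lit 4) (nat_lit 23) (nat_lit 4) (nat_lit 470) (nat_lit 413) (nat_lit 317)))) (XT.nd (nat_lit 156) (nat_lit 152) (nat_lit 0) (XT.nd (nat_lit 78) (nat_lit 76) (nat_lit 0) (XT.lf (nat_lit 0) (nat_lit 63864065331) (nat_lit 76) (nat_lit 90172953282) (nat_lit 76) (nat_lit 43692136876) (nat_lit 22) (nat_lit 4) (nat_lit 23) (nat_lit 5) (nat_lit 23) (nat_lit 4) (nat_lit 471)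 (nat_lit 413) (nat_lit 316)) (XT.lf (nat_lit 0) (nat_lit 22424990750) (nat_lit 152) (nat_lit 511558174) (nat_lit 76) (nat_lit 187064420185) (nat_lit 21) (nat_lit 5) (nat_lit 23) (nat_lit 5) (nat_lit 22) (nat_lit 4) (nat_lit 472) (nat_lit 413) (nat_lit 315))) (XT.nd (nat_lit 78) (nat_lit 76) (nat_lit 0) (XT.lf (nat_lit 0) (nat_lit 95443311280) (nat_lit 152) (nat_lit 76446025749) (nat_lit 0) (nat_lit 51172248532) (nat_lit 20) (nat_lit 5) (nat_lit 22) (nat_lit 4) (nat_lit 20) (nat_lit 4) (nat_lit 473) (nat_lit 413) (nat_lit 314)) (XT.lf (nat_lit 0) (nat_lit 70213505648) (nat_lit 76) (nat_lit 105575950695) (nat_lit 76) (nat_lit 61303277125) (nat_lit 19) (nat_lit 4) (nat_lit 20) (nat_lit 5) (nat_lit 20) (nat_lit 4) (nat_lit 474) (nat_lit 413) (nat_lit 313)))))) (XT.nd (nat_lit 546) (nat_lit 380) (nat_lit 0) (XT.nd (nat_lit 234) (nat_lit 228) (nat_lit 0) (XT.nd (nat_lit 78) (nat_lit 152) (nat_lit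 0) (XT.lf (nat_lit 0) (nat_lit 11334666415) (nat_lit 152) (nat_lit 21038098920) (nat_lit 76) (nat_lit 219798156517) (nat_lit 18) (nat_lit 5) (nat_lit 20) (nat_lit 5) (nat_lit 19) (nat_lit 4) (nat_lit 475) (nat_lit 413) (nat_lit 312)) (XT.nd (nat_lit 78) (nat_lit 76) (nat_lit 0) (XT.lf (nat_lit 0) (nat_lit 90625361399) (nat_lit 152) (nat_lit 129172106535) (nat_lit 0) (nat_lit 48458174644) (nat_lit 17) (nat_lit 5) (nat_lit 19) (nat_lit 4) (nat_lit 17) (nat_lit 4) (nat_lit 476) (nat_lit 413) (nat_lit 311)) (XT.lf (nat_lit 0) (nat_lit 27474877309) (nat_lit 76) (nat_lit 150126775626) (nat_lit 76) (nat_lit 107958371039) (nat_lit 16) (nat_lit 4) (nat_lit 17) (nat_lit 5) (nat_lit 17) (nat_lit 4) (nat_lit 477) (nat_lit 413) (nat_lit 310)))) (XT.nd (nat_lit 156) (nat_lit 76) (nat_lit 0) (XT.nd (nat_lit 78) (nat_lit 152) (nat_lit 0) (XT.lf (nat_lit 0) (nat_lit 201256780504) (nat_lit 76) (nat_lit 72524620004)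 (nat_lit 76) (nat_lit 30355087796) (nat_lit 16) (nat_lit 4) (nat_lit 17) (nat_lit 5) (nat_lit 17) (nat_lit 4) (nat_lit 478) (nat_lit 413) (nat_lit 309)) (XT.lf (nat_lit 0) (nat_lit 52978385727) (nat_lit 152) (nat_lit 258301378336) (nat_lit 0) (nat_lit 12815932106) (nat_lit 14) (nat_lit 5) (nat_lit 16) (nat_lit 4) (nat_lit 14) (nat_lit 4) (nat_lit 479) (nat_lit 413) (nat_lit 308))) (XT.nd (nat_lit 78) (nat_lit 76) (nat_lit 0) (XT.lf (nat_lit 0) (nat_lit 144969301231) (nat_lit 152) (nat_lit 95698818439) (nat_lit 0) (nat_lit 104805926893) (nat_lit 14) (nat_lit 5) (nat_lit 16) (nat_lit 4) (nat_lit 14) (nat_lit 4) (nat_lit 480) (nat_lit 413) (nat_lit 307)) (XT.lf (nat_lit 0) (nat_lit 82545844599) (nat_lit 76) (nat_lit 163058404662) (nat_lit 76) (nat_lit 122894177807) (nat_lit 13) (nat_lit 4) (nat_lit 14) (nat_lit 5) (nat_lit 14) (nat_lit 4) (nat_lit 481) (nat_lit 413) (nat_lit 306))))) (XT.nd (nat_lit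 234) (nat_lit 228) (nat_lit 0) (XT.nd (nat_lit 78) (nat_lit 152) (nat_lit 0) (XT.lf (nat_lit 0) (nat_lit 278459721761) (nat_lit 76) (nat_lit 77493446870) (nat_lit 76) (nat_lit 37328430647) (nat_lit 13) (nat_lit 4) (nat_lit 14) (nat_lit 5) (nat_lit 14) (nat_lit 4) (nat_lit 482) (nat_lit 413) (nat_lit 305)) (XT.nd (nat_lit 78) (nat_lit 0) (nat_lit 0) (XT.lf (nat_lit 0) (nat_lit 54696223792) (nat_lit 152) (nat_lit 348796238842) (nat_lit 0) (nat_lit 16443131299) (nat_lit 11) (nat_lit 5) (nat_lit 13) (nat_lit 4) (nat_lit 11) (nat_lit 4) (nat_lit 483) (nat_lit 413) (nat_lit 304)) (XT.lf (nat_lit 0) (nat_lit 156128614862) (nat_lit 152) (nat_lit 174520139883) (nat_lit 0) (nat_lit 117874877841) (nat_lit 11) (nat_lit 5) (nat_lit 13) (nat_lit 4) (nat_lit 11) (nat_lit 4) (nat_lit 484) (nat_lit 413) (nat_lit 303)))) (XT.nd (nat_lit 156) (nat_lit 152) (nat_lit 0) (XT.nd (nat_lit 78) (nat_lit 0) (nat_lit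 0) (XT.lf (nat_lit 0) (nat_lit 14144193124) (nat_lit 76) (nat_lit 251748987927) (nat_lit 76) (nat_lit 213494654120) (nat_lit 10) (nat_lit 4) (nat_lit 11) (nat_lit 5) (nat_lit 11) (nat_lit 4) (nat_lit 485) (nat_lit 413) (nat_lit 302)) (XT.lf (nat_lit 0) (nat_lit 224127459225) (nat_lit 76) (nat_lit 163348377472) (nat_lit 76) (nat_lit 125093491085) (nat_lit 10) (nat_lit 4) (nat_lit 11) (nat_lit 5) (nat_lit 11) (nat_lit 4) (nat_lit 486) (nat_lit 413) (nat_lit 301))) (XT.nd (nat_lit 78) (nat_lit 152) (nat_lit 0) (XT.lf (nat_lit 0) (nat_lit 450903579718) (nat_lit 76) (nat_lit 67878650925) (nat_lit 76) (nat_lit 29623252891) (nat_lit 10) (nat_lit 4) (nat_lit 11) (nat_lit 5) (nat_lit 11) (nat_lit 4) (nat_lit 487) (nat_lit 413) (nat_lit 300)) (XT.lf (nat_lit 0) (nat_lit 73462003048) (nat_lit 152) (nat_lit 476444855997) (nat_lit 0) (nat_lit 37027839446) (nat_lit 8) (nat_lit 5) (nat_lit 10) (nat_lit 4)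 (nat_lit 8) (nat_lit 4) (nat_lit 488) (nat_lit 413) (nat_lit 299))))))))
noncomputable def xc69 : XT := (XT.nd (nat_lit 57954) (nat_lit 0) (nat_lit 2508) (XT.nd (nat_lit 56862) (nat_lit 0) (nat_lit 6992) (XT.nd (nat_lit 546) (nat_lit 76) (nat_lit 0) (XT.nd (nat_lit 234) (nat_lit 152) (nat_lit 0) (XT.nd (nat_lit 78) (nat_lit 76) (nat_lit 0) (XT.lf (nat_lit 0) (nat_lit 186638293879) (nat_lit 152) (nat_lit 291535859479) (nat_lit 0) (nat_lit 150203712510) (nat_lit 8) (nat_lit 5) (nat_lit 10) (nat_lit 4) (nat_lit 8) (nat_lit 4) (nat_lit 489) (nat_lit 413) (nat_lit 298)) (XT.nd (nat_lit 78) (nat_lit 76) (nat_lit 0) (XT.lf (nat_lit 0) (nat_lit 308866255172) (nat_lit 152) (nat_lit 91839066139) (nat_lit 0) (nat_lit 272431286981) (nat_lit 8) (nat_lit 5) (nat_lit 10) (nat_lit 4) (nat_lit 8) (nat_lit 4) (nat_lit 490) (nat_lit 413) (nat_lit 297)) (XT.lf (nat_lit 0) (nat_lit 127923255499) (nat_lit 76) (nat_lit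 314944185796) (nat_lit 76) (nat_lit 278508859438) (nat_lit 7) (nat_lit 4) (nat_lit 8) (nat_lit 5) (nat_lit 8) (nat_lit 4) (nat_lit 491) (nat_lit 413) (nat_lit 296)))) (XT.nd (nat_lit 156) (nat_lit 152) (nat_lit 0) (XT.nd (nat_lit 78) (nat_lit 0) (nat_lit 0) (XT.lf (nat_lit 0) (nat_lit 368541746150) (nat_lit 76) (nat_lit 220644599629) (nat_lit 76) (nat_lit 184208941634) (nat_lit 7) (nat_lit 4) (nat_lit 8) (nat_lit 5) (nat_lit 8) (nat_lit 4) (nat_lit 492) (nat_lit 413) (nat_lit 295)) (XT.lf (nat_lit 0) (nat_lit 628405678882) (nat_lit 76) (nat_lit 118803089470) (nat_lit 76) (nat_lit 82367124403) (nat_lit 7) (nat_lit 4) (nat_lit 8) (nat_lit 5) (nat_lit 8) (nat_lit 4) (nat_lit 493) (nat_lit 413) (nat_lit 294))) (XT.nd (nat_lit 78) (nat_lit 0) (nat_lit 0) (XT.lf (nat_lit 0) (nat_lit 18980207253) (nat_lit 76) (nat_lit 8052210622) (nat_lit 152) (nat_lit 863182242923) (nat_lit 5) (nat_lit 5) (nat_lit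 6) (nat_lit 5) (nat_lit 7) (nat_lit 4) (nat_lit 494) (nat_lit 413) (nat_lit 293)) (XT.lf (nat_lit 0) (nat_lit 147638383578) (nat_lit 152) (nat_lit 694794679586) (nat_lit 0) (nat_lit 112936942953) (nat_lit 5) (nat_lit 5) (nat_lit 7) (nat_lit 4) (nat_lit 5) (nat_lit 4) (nat_lit 495) (nat_lit 413) (nat_lit 292))))) (XT.nd (nat_lit 234) (nat_lit 76) (nat_lit 0) (XT.nd (nat_lit 78) (nat_lit 0) (nat_lit 0) (XT.lf (nat_lit 0) (nat_lit 278026913281) (nat_lit 152) (nat_lit 504378920954) (nat_lit 0) (nat_lit 243325240501) (nat_lit 5) (nat_lit 5) (nat_lit 7) (nat_lit 4) (nat_lit 5) (nat_lit 4) (nat_lit 496) (nat_lit 413) (nat_lit 291)) (XT.nd (nat_lit 78) (nat_lit 0) (nat_lit 0) (XT.lf (nat_lit 0) (nat_lit 418844962179) (nat_lit 152) (nat_lit 298733070396) (nat_lit 0) (nat_lit 384143074441) (nat_lit 5) (nat_lit 5) (nat_lit 7) (nat_lit 4) (nat_lit 5) (nat_lit 4) (nat_lit 497) (nat_lit 413) (nat_lit 290))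 (XT.lf (nat_lit 0) (nat_lit 570927007599) (nat_lit 152) (nat_lit 76638485832) (nat_lit 0) (nat_lit 536224920825) (nat_lit 5) (nat_lit 5) (nat_lit 7) (nat_lit 4) (nat_lit 5) (nat_lit 4) (nat_lit 498) (nat_lit 413) (nat_lit 289)))) (XT.nd (nat_lit 55926) (nat_lit 0) (nat_lit 10260) (XT.nd (nat_lit 55848) (nat_lit 0) (nat_lit 10944) (XT.lf (nat_lit 0) (nat_lit 168617770486) (nat_lit 76) (nat_lit 569189101939) (nat_lit 76) (nat_lit 534486830872) (nat_lit 4) (nat_lit 4) (nat_lit 5) (nat_lit 5) (nat_lit 5) (nat_lit 4) (nat_lit 499) (nat_lit 413) (nat_lit 288)) (XT.lf (nat_lit 0) (nat_lit 2653461648) (nat_lit 0) (nat_lit 2653461648) (nat_lit 684) (nat_lit 813100075) (nat_lit 148) (nat_lit 5) (nat_lit 148) (nat_lit 3) (nat_lit 157) (nat_lit 3) (nat_lit 414) (nat_lit 414) (nat_lit 372))) (XT.nd (nat_lit 78) (nat_lit 684) (nat_lit 0) (XT.lf (nat_lit 76) (nat_lit 2777455909) (nat_lit 0) (nat_lit 9059151697)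 (nat_lit 760) (nat_lit 852957676) (nat_lit 149) (nat_lit 5) (nat_lit 148) (nat_lit 5) (nat_lit 158) (nat_lit 5) (nat_lit 415) (nat_lit 414) (nat_lit 371)) (XT.lf (nat_lit 0) (nat_lit 128749924) (nat_lit 760) (nat_lit 12952599333) (nat_lit 836) (nat_lit 86424755) (nat_lit 139) (nat_lit 5) (nat_lit 149) (nat_lit 5) (nat_lit 150) (nat_lit 5) (nat_lit 416) (nat_lit 414) (nat_lit 370)))))) (XT.nd (nat_lit 546) (nat_lit 2356) (nat_lit 0) (XT.nd (nat_lit 234) (nat_lit 912) (nat_lit 0) (XT.nd (nat_lit 78) (nat_lit 0) (nat_lit 76) (XT.lf (nat_lit 0) (nat_lit 1421802433) (nat_lit 760) (nat_lit 2383421369) (nat_lit 836) (nat_lit 9865197165) (nat_lit 139) (nat_lit 5) (nat_lit 149) (nat_lit 5) (nat_lit 150) (nat_lit 5) (nat_lit 417) (nat_lit 414) (nat_lit 369)) (XT.nd (nat_lit 78) (nat_lit 0) (nat_lit 76) (XT.lf (nat_lit 0) (nat_lit 3001922402) (nat_lit 760) (nat_lit 5021397553) (nat_lit 836) (nat_lit 6180792691)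 (nat_lit 140) (nat_lit 5) (nat_lit 150) (nat_lit 5) (nat_lit 151) (nat_lit 5) (nat_lit 418) (nat_lit 414) (nat_lit 368)) (XT.lf (nat_lit 0) (nat_lit 4903640300) (nat_lit 760) (nat_lit 7706604173) (nat_lit 836) (nat_lit 2160508853) (nat_lit 141) (nat_lit 5) (nat_lit 151) (nat_lit 5) (nat_lit 152) (nat_lit 5) (nat_lit 419) (nat_lit 414) (nat_lit 367)))) (XT.nd (nat_lit 156) (nat_lit 380) (nat_lit 0) (XT.nd (nat_lit 78) (nat_lit 684) (nat_lit 0) (XT.lf (nat_lit 76) (nat_lit 4893870237) (nat_lit 0) (nat_lit 2311117207) (nat_lit 836) (nat_lit 8165375341) (nat_lit 142) (nat_lit 5) (nat_lit 141) (nat_lit 5) (nat_lit 152) (nat_lit 5) (nat_lit 420) (nat_lit 414) (nat_lit 366)) (XT.lf (nat_lit 0) (nat_lit 2667676287) (nat_lit 760) (nat_lit 7288744508) (nat_lit 836) (nat_lit 6048232501) (nat_lit 132) (nat_lit 5) (nat_lit 142) (nat_lit 5) (nat_lit 143) (nat_lit 5) (nat_lit 421) (nat_lit 414) (nat_lit 365)))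 (XT.nd (nat_lit 78) (nat_lit 0) (nat_lit 0) (XT.lf (nat_lit 0) (nat_lit 424189110) (nat_lit 380) (nat_lit 12747836595) (nat_lit 456) (nat_lit 3505468884) (nat_lit 127) (nat_lit 5) (nat_lit 132) (nat_lit 5) (nat_lit 133) (nat_lit 5) (nat_lit 422) (nat_lit 414) (nat_lit 364)) (XT.lf (nat_lit 0) (nat_lit 15592720392) (nat_lit 380) (nat_lit 1361575225) (nat_lit 456) (nat_lit 434406354) (nat_lit 127) (nat_lit 5) (nat_lit 132) (nat_lit 5) (nat_lit 133) (nat_lit 5) (nat_lit 423) (nat_lit 414) (nat_lit 363))))) (XT.nd (nat_lit 234) (nat_lit 1216) (nat_lit 0) (XT.nd (nat_lit 78) (nat_lit 684) (nat_lit 0) (XT.lf (nat_lit 0) (nat_lit 3145426129) (nat_lit 456) (nat_lit 4134717070) (nat_lit 76) (nat_lit 10856654262) (nat_lit 121) (nat_lit 5) (nat_lit 127) (nat_lit 5) (nat_lit 122) (nat_lit 5) (nat_lit 424) (nat_lit 414) (nat_lit 362)) (XT.nd (nat_lit 78) (nat_lit 304) (nat_lit 0) (XT.lf (nat_lit 0) (nat_lit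 7290774809) (nat_lit 456) (nat_lit 6503174287) (nat_lit 76) (nat_lit 5135725820) (nat_lit 116) (nat_lit 5) (nat_lit 122) (nat_lit 5) (nat_lit 117) (nat_lit 5) (nat_lit 425) (nat_lit 414) (nat_lit 361)) (XT.lf (nat_lit 0) (nat_lit 10860363690) (nat_lit 304) (nat_lit 1236310203) (nat_lit 380) (nat_lit 7672869821) (nat_lit 112) (nat_lit 5) (nat_lit 116) (nat_lit 5) (nat_lit 117) (nat_lit 5) (nat_lit 426) (nat_lit 414) (nat_lit 360)))) (XT.nd (nat_lit 156) (nat_lit 532) (nat_lit 0) (XT.nd (nat_lit 78) (nat_lit 380) (nat_lit 0) (XT.lf (nat_lit 0) (nat_lit 9234486539) (nat_lit 304) (nat_lit 8469735383) (nat_lit 380) (nat_lit 2951527975) (nat_lit 108) (nat_lit 5) (nat_lit 112) (nat_lit 5) (nat_lit 113) (nat_lit 5) (nat_lit 427) (nat_lit 414) (nat_lit 359)) (XT.lf (nat_lit 0) (nat_lit 2427771212) (nat_lit 380) (nat_lit 13989803726) (nat_lit 76) (nat_lit 5176157927) (nat_lit 103) (nat_lit 5) (nat_lit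 108) (nat_lit 5) (nat_lit 104) (nat_lit 5) (nat_lit 428) (nat_lit 414) (nat_lit 358))) (XT.nd (nat_lit 78) (nat_lit 228) (nat_lit 0) (XT.lf (nat_lit 0) (nat_lit 5915600826) (nat_lit 304) (nat_lit 2625743752) (nat_lit 380) (nat_lit 14042629234) (nat_lit 99) (nat_lit 5) (nat_lit 103) (nat_lit 5) (nat_lit 104) (nat_lit 5) (nat_lit 429) (nat_lit 414) (nat_lit 357)) (XT.lf (nat_lit 0) (nat_lit 4169985785) (nat_lit 228) (nat_lit 11448535058) (nat_lit 304) (nat_lit 8011192430) (nat_lit 96) (nat_lit 5) (nat_lit 99) (nat_lit 5) (nat_lit 100) (nat_lit 5) (nat_lit 430) (nat_lit 414) (nat_lit 356))))))) (XT.nd (nat_lit 1092) (nat_lit 1748) (nat_lit 0) (XT.nd (nat_lit 546) (nat_lit 1368) (nat_lit 0) (XT.nd (nat_lit 234) (nat_lit 836) (nat_lit 0) (XT.nd (nat_lit 78) (nat_lit 304) (nat_lit 0) (XT.lf (nat_lit 0) (nat_lit 2465508223) (nat_lit 228) (nat_lit 21197058808) (nat_lit 304) (nat_lit 1076514782) (nat_lit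 93) (nat_lit 5) (nat_lit 96) (nat_lit 5) (nat_lit 97) (nat_lit 5) (nat_lit 431) (nat_lit 414) (nat_lit 355)) (XT.nd (nat_lit 78) (nat_lit 0) (nat_lit 0) (XT.lf (nat_lit 0) (nat_lit 601514940) (nat_lit 228) (nat_lit 6125835539) (nat_lit 304) (nat_lit 19178863944) (nat_lit 89) (nat_lit 5) (nat_lit 92) (nat_lit 5) (nat_lit 93) (nat_lit 5) (nat_lit 432) (nat_lit 414) (nat_lit 354)) (XT.lf (nat_lit 0) (nat_lit 15645130172) (nat_lit 304) (nat_lit 1266206592) (nat_lit 76) (nat_lit 10228136285) (nat_lit 89) (nat_lit 5) (nat_lit 93) (nat_lit 5) (nat_lit 90) (nat_lit 5) (nat_lit 433) (nat_lit 414) (nat_lit 353)))) (XT.nd (nat_lit 156) (nat_lit 380) (nat_lit 0) (XT.nd (nat_lit 78) (nat_lit 228) (nat_lit 0) (XT.lf (nat_lit 0) (nat_lit 25368962460) (nat_lit 228) (nat_lit 382648836) (nat_lit 304) (nat_lit 2696020679) (nat_lit 86) (nat_lit 5) (nat_lit 89) (nat_lit 5) (nat_lit 90) (nat_lit 5) (nat_lit 434)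 (nat_lit 414) (nat_lit 352)) (XT.lf (nat_lit 0) (nat_lit 7258591691) (nat_lit 228) (nat_lit 5137363470) (nat_lit 76) (nat_lit 17425665216) (nat_lit 83) (nat_lit 5) (nat_lit 86) (nat_lit 5) (nat_lit 84) (nat_lit 5) (nat_lit 435) (nat_lit 414) (nat_lit 351))) (XT.nd (nat_lit 78) (nat_lit 152) (nat_lit 0) (XT.lf (nat_lit 0) (nat_lit 18423422676) (nat_lit 304) (nat_lit 7211382772) (nat_lit 76) (nat_lit 5643100206) (nat_lit 80) (nat_lit 5) (nat_lit 84) (nat_lit 5) (nat_lit 81) (nat_lit 5) (nat_lit 436) (nat_lit 414) (nat_lit 350)) (XT.lf (nat_lit 0) (nat_lit 23450867464) (nat_lit 152) (nat_lit 7675470684) (nat_lit 228) (nat_lit 1692113400) (nat_lit 78) (nat_lit 5) (nat_lit 80) (nat_lit 5) (nat_lit 81) (nat_lit 5) (nat_lit 437) (nat_lit 414) (nat_lit 349))))) (XT.nd (nat_lit 234) (nat_lit 684) (nat_lit 0) (XT.nd (nat_lit 78) (nat_lit 380) (nat_lit 0) (XT.lf (nat_lit 0) (nat_lit 10689454520) (nat_lit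 304) (nat_lit 11760529999) (nat_lit 76) (nat_lit 11991274135) (nat_lit 74) (nat_lit 5) (nat_lit 78) (nat_lit 5) (nat_lit 75) (nat_lit 5) (nat_lit 438) (nat_lit 414) (nat_lit 348)) (XT.nd (nat_lit 78) (nat_lit 228) (nat_lit 0) (XT.lf (nat_lit 0) (nat_lit 21951857482) (nat_lit 152) (nat_lit 2669588166) (nat_lit 228) (nat_lit 11540100843) (nat_lit 72) (nat_lit 5) (nat_lit 74) (nat_lit 5) (nat_lit 75) (nat_lit 5) (nat_lit 439) (nat_lit 414) (nat_lit 347)) (XT.lf (nat_lit 0) (nat_lit 2420087687) (nat_lit 228) (nat_lit 16896309768) (nat_lit 76) (nat_lit 18660559298) (nat_lit 69) (nat_lit 5) (nat_lit 72) (nat_lit 5) (nat_lit 70) (nat_lit 5) (nat_lit 440) (nat_lit 414) (nat_lit 346)))) (XT.nd (nat_lit 156) (nat_lit 380) (nat_lit 0) (XT.nd (nat_lit 78) (nat_lit 152) (nat_lit 0) (XT.lf (nat_lit 0) (nat_lit 17729494036) (nat_lit 228) (nat_lit 19789398471) (nat_lit 76) (nat_lit 2377414442) (nat_lit 67)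 (nat_lit 5) (nat_lit 70) (nat_lit 5) (nat_lit 68) (nat_lit 5) (nat_lit 441) (nat_lit 414) (nat_lit 345)) (XT.lf (nat_lit 0) (nat_lit 18965976792) (nat_lit 152) (nat_lit 16201166284) (nat_lit 228) (nat_lit 6756889240) (nat_lit 65) (nat_lit 5) (nat_lit 67) (nat_lit 5) (nat_lit 68) (nat_lit 5) (nat_lit 442) (nat_lit 414) (nat_lit 344))) (XT.nd (nat_lit 78) (nat_lit 152) (nat_lit 0) (XT.lf (nat_lit 0) (nat_lit 10300147909) (nat_lit 228) (nat_lit 26382037069) (nat_lit 76) (nat_lit 7387538536) (nat_lit 62) (nat_lit 5) (nat_lit 65) (nat_lit 5) (nat_lit 63) (nat_lit 5) (nat_lit 443) (nat_lit 414) (nat_lit 343)) (XT.lf (nat_lit 0) (nat_lit 16132092808) (nat_lit 152) (nat_lit 13271342897) (nat_lit 228) (nat_lit 16932176417) (nat_lit 60) (nat_lit 5) (nat_lit 62) (nat_lit 5) (nat_lit 63) (nat_lit 5) (nat_lit 444) (nat_lit 414) (nat_lit 342)))))) (XT.nd (nat_lit 546) (nat_lit 836) (nat_lit 0) (XT.nd (nat_lit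 234) (nat_lit 532) (nat_lit 0) (XT.nd (nat_lit 78) (nat_lit 228) (nat_lit 0) (XT.lf (nat_lit 0) (nat_lit 2091198946) (nat_lit 152) (nat_lit 34303317928) (nat_lit 76) (nat_lit 12343325467) (nat_lit 58) (nat_lit 5) (nat_lit 60) (nat_lit 5) (nat_lit 59) (nat_lit 5) (nat_lit 445) (nat_lit 414) (nat_lit 341)) (XT.nd (nat_lit 78) (nat_lit 76) (nat_lit 0) (XT.lf (nat_lit 0) (nat_lit 12263773198) (nat_lit 152) (nat_lit 10722213890) (nat_lit 228) (nat_lit 28285247978) (nat_lit 56) (nat_lit 5) (nat_lit 58) (nat_lit 5) (nat_lit 59) (nat_lit 5) (nat_lit 446) (nat_lit 414) (nat_lit 340)) (XT.lf (nat_lit 0) (nat_lit 9816250742) (nat_lit 76) (nat_lit 36747554496) (nat_lit 152) (nat_lit 7392922649) (nat_lit 55) (nat_lit 5) (nat_lit 56) (nat_lit 5) (nat_lit 57) (nat_lit 4) (nat_lit 447) (nat_lit 414) (nat_lit 339)))) (XT.nd (nat_lit 156) (nat_lit 228) (nat_lit 0) (XT.nd (nat_lit 78) (nat_lit 76) (nat_lit 0)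 (XT.lf (nat_lit 0) (nat_lit 6881425694) (nat_lit 152) (nat_lit 8768493072) (nat_lit 228) (nat_lit 41147064846) (nat_lit 52) (nat_lit 5) (nat_lit 54) (nat_lit 5) (nat_lit 55) (nat_lit 5) (nat_lit 448) (nat_lit 414) (nat_lit 338)) (XT.lf (nat_lit 0) (nat_lit 3345100938) (nat_lit 76) (nat_lit 38090467514) (nat_lit 152) (nat_lit 18364912760) (nat_lit 51) (nat_lit 5) (nat_lit 52) (nat_lit 5) (nat_lit 53) (nat_lit 4) (nat_lit 449) (nat_lit 414) (nat_lit 337))) (XT.nd (nat_lit 78) (nat_lit 152) (nat_lit 0) (XT.lf (nat_lit 0) (nat_lit 7058448485) (nat_lit 152) (nat_lit 635708284) (nat_lit 76) (nat_lit 55294314046) (nat_lit 50) (nat_lit 5) (nat_lit 52) (nat_lit 5) (nat_lit 51) (nat_lit 5) (nat_lit 450) (nat_lit 414) (nat_lit 336)) (XT.lf (nat_lit 0) (nat_lit 35238328832) (nat_lit 228) (nat_lit 5503300693) (nat_lit 76) (nat_lit 25606514175) (nat_lit 48) (nat_lit 5) (nat_lit 51) (nat_lit 5) (nat_lit 49)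 (nat_lit 4) (nat_lit 451) (nat_lit 414) (nat_lit 335))))) (XT.nd (nat_lit 312) (nat_lit 380) (nat_lit 0) (XT.nd (nat_lit 156) (nat_lit 228) (nat_lit 0) (XT.nd (nat_lit 78) (nat_lit 152) (nat_lit 0) (XT.lf (nat_lit 0) (nat_lit 59027730066) (nat_lit 76) (nat_lit 7695593319) (nat_lit 152) (nat_lit 3200731475) (nat_lit 47) (nat_lit 5) (nat_lit 48) (nat_lit 5) (nat_lit 49) (nat_lit 4) (nat_lit 452) (nat_lit 414) (nat_lit 334)) (XT.lf (nat_lit 0) (nat_lit 27506742309) (nat_lit 152) (nat_lit 17675285477) (nat_lit 76) (nat_lit 28511583074) (nat_lit 45) (nat_lit 5) (nat_lit 47) (nat_lit 5) (nat_lit 46) (nat_lit 4) (nat_lit 453) (nat_lit 414) (nat_lit 333))) (XT.nd (nat_lit 78) (nat_lit 152) (nat_lit 0) (XT.lf (nat_lit 0) (nat_lit 52388948772) (nat_lit 76) (nat_lit 9300729545) (nat_lit 152) (nat_lit 16015879872) (nat_lit 44) (nat_lit 5) (nat_lit 45) (nat_lit 5) (nat_lit 46) (nat_lit 4) (nat_lit 454)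 (nat_lit 414) (nat_lit 332)) (XT.lf (nat_lit 0) (nat_lit 17570041709) (nat_lit 152) (nat_lit 34538440676) (nat_lit 76) (nat_lit 29840467191) (nat_lit 42) (nat_lit 5) (nat_lit 44) (nat_lit 5) (nat_lit 43) (nat_lit 4) (nat_lit 455) (nat_lit 414) (nat_lit 331)))) (XT.nd (nat_lit 156) (nat_lit 152) (nat_lit 0) (XT.nd (nat_lit 78) (nat_lit 152) (nat_lit 0) (XT.lf (nat_lit 0) (nat_lit 41215193476) (nat_lit 76) (nat_lit 13312135985) (nat_lit 152) (nat_lit 31929074921) (nat_lit 41) (nat_lit 5) (nat_lit 42) (nat_lit 5) (nat_lit 43) (nat_lit 4) (nat_lit 456) (nat_lit 414) (nat_lit 330)) (XT.lf (nat_lit 0) (nat_lit 4614568622) (nat_lit 152) (nat_lit 57753453737) (nat_lit 76) (nat_lit 28874121568) (nat_lit 39) (nat_lit 5) (nat_lit 41) (nat_lit 5) (nat_lit 40) (nat_lit 4) (nat_lit 457) (nat_lit 414) (nat_lit 329))) (XT.nd (nat_lit 78) (nat_lit 76) (nat_lit 0) (XT.lf (nat_lit 0) (nat_lit 23725912105) (nat_lit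 76) (nat_lit 20638195954) (nat_lit 152) (nat_lit 51950411366) (nat_lit 38) (nat_lit 5) (nat_lit 39) (nat_lit 5) (nat_lit 40) (nat_lit 4) (nat_lit 458) (nat_lit 414) (nat_lit 328)) (XT.lf (nat_lit 0) (nat_lit 12011737122) (nat_lit 76) (nat_lit 76863860978) (nat_lit 76) (nat_lit 12837987808) (nat_lit 37) (nat_lit 4) (nat_lit 38) (nat_lit 5) (nat_lit 38) (nat_lit 4) (nat_lit 459) (nat_lit 414) (nat_lit 327))))))))
noncomputable def xc70 : XT := (XT.nd (nat_lit 2184) (nat_lit 380) (nat_lit 0) (XT.nd (nat_lit 1092) (nat_lit 836) (nat_lit 0) (XT.nd (nat_lit 546) (nat_lit 608) (nat_lit 0) (XT.nd (nat_lit 234) (nat_lit 304) (nat_lit 0) (XT.nd (nat_lit 78) (nat_lit 228) (nat_lit 0) (XT.lf (nat_lit 0) (nat_lit 30086298015) (nat_lit 152) (nat_lit 2354832969) (nat_lit 76) (nat_lit 74999295424) (nat_lit 36) (nat_lit 5) (nat_lit 38) (nat_lit 5) (nat_lit 37) (nat_lit 4) (nat_lit 460) (nat_lit 414) (nat_lit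 326)) (XT.nd (nat_lit 78) (nat_lit 152) (nat_lit 0) (XT.lf (nat_lit 0) (nat_lit 77742252151) (nat_lit 152) (nat_lit 19030802119) (nat_lit 0) (nat_lit 16754461898) (nat_lit 35) (nat_lit 5) (nat_lit 37) (nat_lit 4) (nat_lit 35) (nat_lit 4) (nat_lit 461) (nat_lit 414) (nat_lit 325)) (XT.lf (nat_lit 0) (nat_lit 10694685836) (nat_lit 152) (nat_lit 39068477817) (nat_lit 76) (nat_lit 70237442513) (nat_lit 33) (nat_lit 5) (nat_lit 35) (nat_lit 5) (nat_lit 34) (nat_lit 4) (nat_lit 462) (nat_lit 414) (nat_lit 324)))) (XT.nd (nat_lit 156) (nat_lit 152) (nat_lit 0) (XT.nd (nat_lit 78) (nat_lit 76) (nat_lit 0) (XT.lf (nat_lit 0) (nat_lit 61031929318) (nat_lit 152) (nat_lit 62921122937) (nat_lit 0) (nat_lit 2939527189) (nat_lit 32) (nat_lit 5) (nat_lit 34) (nat_lit 4) (nat_lit 32) (nat_lit 4) (nat_lit 463) (nat_lit 414) (nat_lit 323)) (XT.lf (nat_lit 0) (nat_lit 42853866279) (nat_lit 76) (nat_lit 74734378006)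 (nat_lit 76) (nat_lit 16638061896) (nat_lit 31) (nat_lit 4) (nat_lit 32) (nat_lit 5) (nat_lit 32) (nat_lit 4) (nat_lit 464) (nat_lit 414) (nat_lit 322))) (XT.nd (nat_lit 78) (nat_lit 0) (nat_lit 0) (XT.lf (nat_lit 0) (nat_lit 17193038511) (nat_lit 76) (nat_lit 19535243770) (nat_lit 152) (nat_lit 105321193569) (nat_lit 29) (nat_lit 5) (nat_lit 30) (nat_lit 5) (nat_lit 31) (nat_lit 4) (nat_lit 465) (nat_lit 414) (nat_lit 321)) (XT.lf (nat_lit 0) (nat_lit 96024984736) (nat_lit 152) (nat_lit 13659165822) (nat_lit 0) (nat_lit 40688512571) (nat_lit 29) (nat_lit 5) (nat_lit 31) (nat_lit 4) (nat_lit 29) (nat_lit 4) (nat_lit 466) (nat_lit 414) (nat_lit 320))))) (XT.nd (nat_lit 234) (nat_lit 304) (nat_lit 0) (XT.nd (nat_lit 78) (nat_lit 152) (nat_lit 0) (XT.lf (nat_lit 0) (nat_lit 2748298247) (nat_lit 152) (nat_lit 49705419847) (nat_lit 76) (nat_lit 106804082906) (nat_lit 27) (nat_lit 5) (nat_lit 29)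 (nat_lit 5) (nat_lit 28) (nat_lit 4) (nat_lit 467) (nat_lit 414) (nat_lit 319)) (XT.nd (nat_lit 78) (nat_lit 76) (nat_lit 0) (XT.lf (nat_lit 0) (nat_lit 64135711779) (nat_lit 152) (nat_lit 93163217034) (nat_lit 0) (nat_lit 11428882110) (nat_lit 26) (nat_lit 5) (nat_lit 28) (nat_lit 4) (nat_lit 26) (nat_lit 4) (nat_lit 468) (nat_lit 414) (nat_lit 318)) (XT.lf (nat_lit 0) (nat_lit 33892455206) (nat_lit 76) (nat_lit 98828924643) (nat_lit 76) (nat_lit 46119678838) (nat_lit 25) (nat_lit 4) (nat_lit 26) (nat_lit 5) (nat_lit 26) (nat_lit 4) (nat_lit 469) (nat_lit 414) (nat_lit 317)))) (XT.nd (nat_lit 156) (nat_lit 152) (nat_lit 0) (XT.nd (nat_lit 78) (nat_lit 76) (nat_lit 0) (XT.lf (nat_lit 0) (nat_lit 18128691599) (nat_lit 152) (nat_lit 15547665187) (nat_lit 76) (nat_lit 155991552874) (nat_lit 24) (nat_lit 5) (nat_lit 26) (nat_lit 5) (nat_lit 25) (nat_lit 4) (nat_lit 470) (nat_lit 414) (nat_lit 316))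 (XT.lf (nat_lit 0) (nat_lit 88525663077) (nat_lit 152) (nat_lit 74343937785) (nat_lit 0) (nat_lit 38322277921) (nat_lit 23) (nat_lit 5) (nat_lit 25) (nat_lit 4) (nat_lit 23) (nat_lit 4) (nat_lit 471) (nat_lit 414) (nat_lit 315))) (XT.nd (nat_lit 78) (nat_lit 76) (nat_lit 0) (XT.lf (nat_lit 0) (nat_lit 69197511684) (nat_lit 76) (nat_lit 97274785219) (nat_lit 76) (nat_lit 47069573391) (nat_lit 22) (nat_lit 4) (nat_lit 23) (nat_lit 5) (nat_lit 23) (nat_lit 4) (nat_lit 472) (nat_lit 414) (nat_lit 314)) (XT.lf (nat_lit 0) (nat_lit 24324693526) (nat_lit 152) (nat_lit 341281463) (nat_lit 76) (nat_lit 202129784891) (nat_lit 21) (nat_lit 5) (nat_lit 23) (nat_lit 5) (nat_lit 22) (nat_lit 4) (nat_lit 473) (nat_lit 414) (nat_lit 313)))))) (XT.nd (nat_lit 546) (nat_lit 304) (nat_lit 0) (XT.nd (nat_lit 234) (nat_lit 304) (nat_lit 0) (XT.nd (nat_lit 78) (nat_lit 152) (nat_lit 0) (XT.lf (nat_lit 0) (nat_lit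 103181380767) (nat_lit 152) (nat_lit 82356208960) (nat_lit 0) (nat_lit 55363790986) (nat_lit 20) (nat_lit 5) (nat_lit 22) (nat_lit 4) (nat_lit 20) (nat_lit 4) (nat_lit 474) (nat_lit 414) (nat_lit 312)) (XT.nd (nat_lit 78) (nat_lit 76) (nat_lit 0) (XT.lf (nat_lit 0) (nat_lit 76027154220) (nat_lit 76) (nat_lit 113923531854) (nat_lit 76) (nat_lit 66104561053) (nat_lit 19) (nat_lit 4) (nat_lit 20) (nat_lit 5) (nat_lit 20) (nat_lit 4) (nat_lit 475) (nat_lit 414) (nat_lit 311)) (XT.lf (nat_lit 0) (nat_lit 12333738150) (nat_lit 152) (nat_lit 22536086316) (nat_lit 76) (nat_lit 237470155018) (nat_lit 18) (nat_lit 5) (nat_lit 20) (nat_lit 5) (nat_lit 19) (nat_lit 4) (nat_lit 476) (nat_lit 414) (nat_lit 310)))) (XT.nd (nat_lit 156) (nat_lit 152) (nat_lit 0) (XT.nd (nat_lit 78) (nat_lit 76) (nat_lit 0) (XT.lf (nat_lit 0) (nat_lit 97965001864) (nat_lit 152) (nat_lit 139325830977) (nat_lit 0) (nat_lit 52420779458)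 (nat_lit 17) (nat_lit 5) (nat_lit 19) (nat_lit 4) (nat_lit 17) (nat_lit 4) (nat_lit 477) (nat_lit 414) (nat_lit 309)) (XT.lf (nat_lit 0) (nat_lit 29845087078) (nat_lit 76) (nat_lit 162050360582) (nat_lit 76) (nat_lit 116505094082) (nat_lit 16) (nat_lit 4) (nat_lit 17) (nat_lit 5) (nat_lit 17) (nat_lit 4) (nat_lit 478) (nat_lit 414) (nat_lit 308))) (XT.nd (nat_lit 78) (nat_lit 152) (nat_lit 0) (XT.lf (nat_lit 0) (nat_lit 217516785522) (nat_lit 76) (nat_lit 78246444147) (nat_lit 76) (nat_lit 32700210894) (nat_lit 16) (nat_lit 4) (nat_lit 17) (nat_lit 5) (nat_lit 17) (nat_lit 4) (nat_lit 479) (nat_lit 414) (nat_lit 307)) (XT.lf (nat_lit 0) (nat_lit 57294942498) (nat_lit 152) (nat_lit 278807769252) (nat_lit 0) (nat_lit 13916724978) (nat_lit 14) (nat_lit 5) (nat_lit 16) (nat_lit 4) (nat_lit 14) (nat_lit 4) (nat_lit 480) (nat_lit 414) (nat_lit 306))))) (XT.nd (nat_lit 234) (nat_lit 228) (nat_lit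 0) (XT.nd (nat_lit 78) (nat_lit 76) (nat_lit 0) (XT.lf (nat_lit 0) (nat_lit 156639332287) (nat_lit 152) (nat_lit 103208687478) (nat_lit 0) (nat_lit 113260325400) (nat_lit 14) (nat_lit 5) (nat_lit 16) (nat_lit 4) (nat_lit 14) (nat_lit 4) (nat_lit 481) (nat_lit 414) (nat_lit 305)) (XT.nd (nat_lit 78) (nat_lit 0) (nat_lit 0) (XT.lf (nat_lit 0) (nat_lit 89289202037) (nat_lit 76) (nat_lit 176032685668) (nat_lit 76) (nat_lit 132652947885) (nat_lit 13) (nat_lit 4) (nat_lit 14) (nat_lit 5) (nat_lit 14) (nat_lit 4) (nat_lit 482) (nat_lit 414) (nat_lit 304)) (XT.lf (nat_lit 0) (nat_lit 300865841974) (nat_lit 76) (nat_lit 83627745427) (nat_lit 76) (nat_lit 40247330890) (nat_lit 13) (nat_lit 4) (nat_lit 14) (nat_lit 5) (nat_lit 14) (nat_lit 4) (nat_lit 483) (nat_lit 414) (nat_lit 303)))) (XT.nd (nat_lit 156) (nat_lit 76) (nat_lit 0) (XT.nd (nat_lit 78) (nat_lit 0) (nat_lit 0) (XT.lf (nat_lit 0) (nat_lit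 59135262794) (nat_lit 152) (nat_lit 376572025516) (nat_lit 0) (nat_lit 17819985496) (nat_lit 11) (nat_lit 5) (nat_lit 13) (nat_lit 4) (nat_lit 11) (nat_lit 4) (nat_lit 484) (nat_lit 414) (nat_lit 302)) (XT.lf (nat_lit 0) (nat_lit 168677553217) (nat_lit 152) (nat_lit 188363313636) (nat_lit 0) (nat_lit 127361723340) (nat_lit 11) (nat_lit 5) (nat_lit 13) (nat_lit 4) (nat_lit 11) (nat_lit 4) (nat_lit 485) (nat_lit 414) (nat_lit 301))) (XT.nd (nat_lit 78) (nat_lit 0) (nat_lit 0) (XT.lf (nat_lit 0) (nat_lit 15389018865) (nat_lit 76) (nat_lit 271831690231) (nat_lit 76) (nat_lit 230515348707) (nat_lit 10) (nat_lit 4) (nat_lit 11) (nat_lit 5) (nat_lit 11) (nat_lit 4) (nat_lit 486) (nat_lit 414) (nat_lit 300)) (XT.lf (nat_lit 0) (nat_lit 242162554381) (nat_lit 76) (nat_lit 176363269216) (nat_lit 76) (nat_lit 135046453943) (nat_lit 10) (nat_lit 4) (nat_lit 11) (nat_lit 5) (nat_lit 11) (nat_lit 4) (nat_lit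 487) (nat_lit 414) (nat_lit 299))))))) (XT.nd (nat_lit 56940) (nat_lit 0) (nat_lit 7144) (XT.nd (nat_lit 546) (nat_lit 152) (nat_lit 0) (XT.nd (nat_lit 234) (nat_lit 76) (nat_lit 0) (XT.nd (nat_lit 78) (nat_lit 152) (nat_lit 0) (XT.lf (nat_lit 0) (nat_lit 487072994260) (nat_lit 76) (nat_lit 73259888876) (nat_lit 76) (nat_lit 31942634948) (nat_lit 10) (nat_lit 4) (nat_lit 11) (nat_lit 5) (nat_lit 11) (nat_lit 4) (nat_lit 488) (nat_lit 414) (nat_lit 298)) (XT.nd (nat_lit 78) (nat_lit 0) (nat_lit 0) (XT.lf (nat_lit 0) (nat_lit 79386426354) (nat_lit 152) (nat_lit 514464400596) (nat_lit 0) (nat_lit 40036273887) (nat_lit 8) (nat_lit 5) (nat_lit 10) (nat_lit 4) (nat_lit 8) (nat_lit 4) (nat_lit 489) (nat_lit 414) (nat_lit 297)) (XT.lf (nat_lit 0) (nat_lit 201613304669) (nat_lit 152) (nat_lit 314769798718) (nat_lit 0) (nat_lit 162262794034) (nat_lit 8) (nat_lit 5) (nat_lit 10) (nat_lit 4) (nat_lit 8)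 (nat_lit 4) (nat_lit 490) (nat_lit 414) (nat_lit 296)))) (XT.nd (nat_lit 156) (nat_lit 0) (nat_lit 0) (XT.nd (nat_lit 78) (nat_lit 76) (nat_lit 0) (XT.lf (nat_lit 0) (nat_lit 333616247511) (nat_lit 152) (nat_lit 99103849283) (nat_lit 0) (nat_lit 294265405239) (nat_lit 8) (nat_lit 5) (nat_lit 10) (nat_lit 4) (nat_lit 8) (nat_lit 4) (nat_lit 491) (nat_lit 414) (nat_lit 295)) (XT.lf (nat_lit 0) (nat_lit 138235879596) (nat_lit 76) (nat_lit 340099864433) (nat_lit 76) (nat_lit 300748715090) (nat_lit 7) (nat_lit 4) (nat_lit 8) (nat_lit 5) (nat_lit 8) (nat_lit 4) (nat_lit 492) (nat_lit 414) (nat_lit 294))) (XT.nd (nat_lit 78) (nat_lit 0) (nat_lit 0) (XT.lf (nat_lit 0) (nat_lit 398098015154) (nat_lit 76) (nat_lit 238259263685) (nat_lit 76) (nat_lit 198907830017) (nat_lit 7) (nat_lit 4) (nat_lit 8) (nat_lit 5) (nat_lit 8) (nat_lit 4) (nat_lit 493) (nat_lit 414) (nat_lit 293)) (XT.lf (nat_lit 0) (nat_lit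 678745660334) (nat_lit 76) (nat_lit 128273166336) (nat_lit 76) (nat_lit 88921469404) (nat_lit 7) (nat_lit 4) (nat_lit 8) (nat_lit 5) (nat_lit 8) (nat_lit 4) (nat_lit 494) (nat_lit 414) (nat_lit 292))))) (XT.nd (nat_lit 234) (nat_lit 0) (nat_lit 0) (XT.nd (nat_lit 78) (nat_lit 0) (nat_lit 0) (XT.lf (nat_lit 0) (nat_lit 20564288862) (nat_lit 76) (nat_lit 8663140190) (nat_lit 152) (nat_lit 932202783494) (nat_lit 5) (nat_lit 5) (nat_lit 6) (nat_lit 5) (nat_lit 7) (nat_lit 4) (nat_lit 495) (nat_lit 414) (nat_lit 291)) (XT.nd (nat_lit 78) (nat_lit 0) (nat_lit 0) (XT.lf (nat_lit 0) (nat_lit 159479951329) (nat_lit 152) (nat_lit 750316432600) (nat_lit 0) (nat_lit 122001697613) (nat_lit 5) (nat_lit 5) (nat_lit 7) (nat_lit 4) (nat_lit 5) (nat_lit 4) (nat_lit 496) (nat_lit 414) (nat_lit 290)) (XT.lf (nat_lit 0) (nat_lit 300297304367) (nat_lit 152) (nat_lit 544671992637) (nat_lit 0) (nat_lit 262818851615)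 (nat_lit 5) (nat_lit 5) (nat_lit 7) (nat_lit 4) (nat_lit 5) (nat_lit 4) (nat_lit 497) (nat_lit 414) (nat_lit 289)))) (XT.nd (nat_lit 56004) (nat_lit 0) (nat_lit 10108) (XT.nd (nat_lit 78) (nat_lit 0) (nat_lit 0) (XT.lf (nat_lit 0) (nat_lit 452378705471) (nat_lit 152) (nat_lit 322578714181) (nat_lit 0) (nat_lit 414900068427) (nat_lit 5) (nat_lit 5) (nat_lit 7) (nat_lit 4) (nat_lit 5) (nat_lit 4) (nat_lit 498) (nat_lit 414) (nat_lit 288)) (XT.lf (nat_lit 0) (nat_lit 616625377760) (nat_lit 152) (nat_lit 82720488916) (nat_lit 0) (nat_lit 579146570075) (nat_lit 5) (nat_lit 5) (nat_lit 7) (nat_lit 4) (nat_lit 5) (nat_lit 4) (nat_lit 499) (nat_lit 414) (nat_lit 287))) (XT.nd (nat_lit 78) (nat_lit 760) (nat_lit 0) (XT.lf (nat_lit 0) (nat_lit 3205851114) (nat_lit 0) (nat_lit 3205851114) (nat_lit 684) (nat_lit 163742945) (nat_lit 148) (nat_lit 5) (nat_lit 148) (nat_lit 3) (nat_lit 157) (nat_lit 3) (nat_lit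 415) (nat_lit 415) (nat_lit 370)) (XT.lf (nat_lit 0) (nat_lit 390448096) (nat_lit 760) (nat_lit 9921792739) (nat_lit 836) (nat_lit 3328803138) (nat_lit 138) (nat_lit 5) (nat_lit 148) (nat_lit 5) (nat_lit 149) (nat_lit 5) (nat_lit 416) (nat_lit 415) (nat_lit 369)))))) (XT.nd (nat_lit 546) (nat_lit 2128) (nat_lit 0) (XT.nd (nat_lit 234) (nat_lit 836) (nat_lit 0) (XT.nd (nat_lit 78) (nat_lit 0) (nat_lit 76) (XT.lf (nat_lit 76) (nat_lit 969456764) (nat_lit 0) (nat_lit 366754427) (nat_lit 836) (nat_lit 12824851000) (nat_lit 139) (nat_lit 5) (nat_lit 138) (nat_lit 5) (nat_lit 149) (nat_lit 5) (nat_lit 417) (nat_lit 415) (nat_lit 368)) (XT.nd (nat_lit 78) (nat_lit 0) (nat_lit 76) (XT.lf (nat_lit 0) (nat_lit 2638727378) (nat_lit 760) (nat_lit 1830643305) (nat_lit 836) (nat_lit 10239269667) (nat_lit 139) (nat_lit 5) (nat_lit 149) (nat_lit 5) (nat_lit 150) (nat_lit 5) (nat_lit 418) (nat_lit 415) (nat_lit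 367)) (XT.lf (nat_lit 0) (nat_lit 4269624441) (nat_lit 760) (nat_lit 4655084080) (nat_lit 836) (nat_lit 6364119376) (nat_lit 140) (nat_lit 5) (nat_lit 150) (nat_lit 5) (nat_lit 151) (nat_lit 5) (nat_lit 419) (nat_lit 415) (nat_lit 366)))) (XT.nd (nat_lit 156) (nat_lit 1064) (nat_lit 0) (XT.nd (nat_lit 78) (nat_lit 0) (nat_lit 0) (XT.lf (nat_lit 0) (nat_lit 6255271287) (nat_lit 760) (nat_lit 7536556947) (nat_lit 836) (nat_lit 2112399529) (nat_lit 141) (nat_lit 5) (nat_lit 151) (nat_lit 5) (nat_lit 152) (nat_lit 5) (nat_lit 420) (nat_lit 415) (nat_lit 365)) (XT.lf (nat_lit 76) (nat_lit 6037771801) (nat_lit 0) (nat_lit 2643639145) (nat_lit 836) (nat_lit 7873377006) (nat_lit 142) (nat_lit 5) (nat_lit 141) (nat_lit 5) (nat_lit 152) (nat_lit 5) (nat_lit 421) (nat_lit 415) (nat_lit 364))) (XT.nd (nat_lit 78) (nat_lit 380) (nat_lit 0) (XT.lf (nat_lit 0) (nat_lit 3646228437) (nat_lit 760) (nat_lit 7949873774)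 (nat_lit 836) (nat_lit 5646577340) (nat_lit 132) (nat_lit 5) (nat_lit 142) (nat_lit 5) (nat_lit 143) (nat_lit 5) (nat_lit 422) (nat_lit 415) (nat_lit 363)) (XT.lf (nat_lit 0) (nat_lit 1231681339) (nat_lit 380) (nat_lit 13785766677) (nat_lit 456) (nat_lit 2954489403) (nat_lit 127) (nat_lit 5) (nat_lit 132) (nat_lit 5) (nat_lit 133) (nat_lit 5) (nat_lit 423) (nat_lit 415) (nat_lit 362))))) (XT.nd (nat_lit 234) (nat_lit 1292) (nat_lit 0) (XT.nd (nat_lit 78) (nat_lit 760) (nat_lit 0) (XT.lf (nat_lit 0) (nat_lit 291048313) (nat_lit 456) (nat_lit 1191286066) (nat_lit 76) (nat_lit 17260417241) (nat_lit 126) (nat_lit 5) (nat_lit 132) (nat_lit 5) (nat_lit 127) (nat_lit 5) (nat_lit 424) (nat_lit 415) (nat_lit 361)) (XT.nd (nat_lit 78) (nat_lit 380) (nat_lit 0) (XT.lf (nat_lit 0) (nat_lit 4098240628) (nat_lit 456) (nat_lit 3721577132) (nat_lit 76) (nat_lit 11732722630) (nat_lit 121) (nat_lit 5) (nat_lit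 127) (nat_lit 5) (nat_lit 122) (nat_lit 5) (nat_lit 425) (nat_lit 415) (nat_lit 360)) (XT.lf (nat_lit 0) (nat_lit 8535187735) (nat_lit 456) (nat_lit 6279491723) (nat_lit 76) (nat_lit 5596180565) (nat_lit 116) (nat_lit 5) (nat_lit 122) (nat_lit 5) (nat_lit 117) (nat_lit 5) (nat_lit 426) (nat_lit 415) (nat_lit 359)))) (XT.nd (nat_lit 156) (nat_lit 684) (nat_lit 0) (XT.nd (nat_lit 78) (nat_lit 304) (nat_lit 0) (XT.lf (nat_lit 0) (nat_lit 12440798719) (nat_lit 304) (nat_lit 1246896046) (nat_lit 380) (nat_lit 7632126487) (nat_lit 112) (nat_lit 5) (nat_lit 116) (nat_lit 5) (nat_lit 117) (nat_lit 5) (nat_lit 427) (nat_lit 415) (nat_lit 358)) (XT.lf (nat_lit 0) (nat_lit 10682533197) (nat_lit 304) (nat_lit 9027494770) (nat_lit 380) (nat_lit 2568595904) (nat_lit 108) (nat_lit 5) (nat_lit 112) (nat_lit 5) (nat_lit 113) (nat_lit 5) (nat_lit 428) (nat_lit 415) (nat_lit 357))) (XT.nd (nat_lit 78) (nat_lit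 304) (nat_lit 0) (XT.lf (nat_lit 0) (nat_lit 3189793007) (nat_lit 380) (nat_lit 14385140910) (nat_lit 76) (nat_lit 5717808275) (nat_lit 103) (nat_lit 5) (nat_lit 108) (nat_lit 5) (nat_lit 104) (nat_lit 5) (nat_lit 429) (nat_lit 415) (nat_lit 356)) (XT.lf (nat_lit 0) (nat_lit 7081238493) (nat_lit 304) (nat_lit 2679964625) (nat_lit 380) (nat_lit 14602569108) (nat_lit 99) (nat_lit 5) (nat_lit 103) (nat_lit 5) (nat_lit 104) (nat_lit 5) (nat_lit 430) (nat_lit 415) (nat_lit 355))))))))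
noncomputable def xc71 : XT := (XT.nd (nat_lit 2184) (nat_lit 2204) (nat_lit 0) (XT.nd (nat_lit 1092) (nat_lit 1748) (nat_lit 0) (XT.nd (nat_lit 546) (nat_lit 1368) (nat_lit 0) (XT.nd (nat_lit 234) (nat_lit 684) (nat_lit 0) (XT.nd (nat_lit 78) (nat_lit 532) (nat_lit 0) (XT.lf (nat_lit 0) (nat_lit 5189306104) (nat_lit 228) (nat_lit 12188461748) (nat_lit 304) (nat_lit 8116749085) (nat_lit 96) (nat_lit 5) (nat_lit 99) (nat_lit 5) (nat_lit 100) (nat_lit 5) (nat_lit 431) (nat_lit 415) (nat_lit 354)) (XT.nd (nat_lit 78) (nat_lit 304) (nat_lit 0) (XT.lf (nat_lit 0) (nat_lit 3340503947) (nat_lit 228) (nat_lit 22700198721) (nat_lit 304) (nat_lit 653170350) (nat_lit 93) (nat_lit 5) (nat_lit 96) (nat_lit 5) (nat_lit 97) (nat_lit 5) (nat_lit 432) (nat_lit 415) (nat_lit 353)) (XT.lf (nat_lit 0) (nat_lit 1313606041) (nat_lit 228) (nat_lit 6418928104) (nat_lit 304) (nat_lit 20222758140) (nat_lit 89) (nat_lit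 5) (nat_lit 92) (nat_lit 5) (nat_lit 93) (nat_lit 5) (nat_lit 433) (nat_lit 415) (nat_lit 352)))) (XT.nd (nat_lit 156) (nat_lit 456) (nat_lit 0) (XT.nd (nat_lit 78) (nat_lit 228) (nat_lit 0) (XT.lf (nat_lit 0) (nat_lit 17331991464) (nat_lit 304) (nat_lit 733879159) (nat_lit 76) (nat_lit 11222933364) (nat_lit 89) (nat_lit 5) (nat_lit 93) (nat_lit 5) (nat_lit 90) (nat_lit 5) (nat_lit 434) (nat_lit 415) (nat_lit 351)) (XT.lf (nat_lit 0) (nat_lit 28004566893) (nat_lit 228) (nat_lit 219646103) (nat_lit 304) (nat_lit 2478546303) (nat_lit 86) (nat_lit 5) (nat_lit 89) (nat_lit 5) (nat_lit 90) (nat_lit 5) (nat_lit 435) (nat_lit 415) (nat_lit 350))) (XT.nd (nat_lit 78) (nat_lit 228) (nat_lit 0) (XT.lf (nat_lit 0) (nat_lit 8239825442) (nat_lit 228) (nat_lit 4938415639) (nat_lit 76) (nat_lit 19009029054) (nat_lit 83) (nat_lit 5) (nat_lit 86) (nat_lit 5) (nat_lit 84) (nat_lit 5) (nat_lit 436) (nat_lit 415)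 (nat_lit 349)) (XT.lf (nat_lit 0) (nat_lit 20280458113) (nat_lit 304) (nat_lit 7188992015) (nat_lit 76) (nat_lit 6291481237) (nat_lit 80) (nat_lit 5) (nat_lit 84) (nat_lit 5) (nat_lit 81) (nat_lit 5) (nat_lit 437) (nat_lit 415) (nat_lit 348))))) (XT.nd (nat_lit 234) (nat_lit 760) (nat_lit 0) (XT.nd (nat_lit 78) (nat_lit 456) (nat_lit 0) (XT.lf (nat_lit 0) (nat_lit 25900193332) (nat_lit 152) (nat_lit 8079981288) (nat_lit 228) (nat_lit 1445521525) (nat_lit 78) (nat_lit 5) (nat_lit 80) (nat_lit 5) (nat_lit 81) (nat_lit 5) (nat_lit 438) (nat_lit 415) (nat_lit 347)) (XT.nd (nat_lit 78) (nat_lit 152) (nat_lit 0) (XT.lf (nat_lit 0) (nat_lit 11898966104) (nat_lit 304) (nat_lit 12126962571) (nat_lit 76) (nat_lit 13152873178) (nat_lit 74) (nat_lit 5) (nat_lit 78) (nat_lit 5) (nat_lit 75) (nat_lit 5) (nat_lit 439) (nat_lit 415) (nat_lit 346)) (XT.lf (nat_lit 0) (nat_lit 24257452757) (nat_lit 152) (nat_lit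 2670393633) (nat_lit 228) (nat_lit 12109752778) (nat_lit 72) (nat_lit 5) (nat_lit 74) (nat_lit 5) (nat_lit 75) (nat_lit 5) (nat_lit 440) (nat_lit 415) (nat_lit 345)))) (XT.nd (nat_lit 156) (nat_lit 380) (nat_lit 0) (XT.nd (nat_lit 78) (nat_lit 152) (nat_lit 0) (XT.lf (nat_lit 0) (nat_lit 2942255655) (nat_lit 228) (nat_lit 17698589601) (nat_lit 76) (nat_lit 20357807548) (nat_lit 69) (nat_lit 5) (nat_lit 72) (nat_lit 5) (nat_lit 70) (nat_lit 5) (nat_lit 441) (nat_lit 415) (nat_lit 344)) (XT.lf (nat_lit 0) (nat_lit 19463609324) (nat_lit 228) (nat_lit 20834678671) (nat_lit 76) (nat_lit 2773905685) (nat_lit 67) (nat_lit 5) (nat_lit 70) (nat_lit 5) (nat_lit 68) (nat_lit 5) (nat_lit 442) (nat_lit 415) (nat_lit 343))) (XT.nd (nat_lit 78) (nat_lit 228) (nat_lit 0) (XT.lf (nat_lit 0) (nat_lit 20997751366) (nat_lit 152) (nat_lit 17283162337) (nat_lit 228) (nat_lit 6981993428) (nat_lit 65) (nat_lit 5)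 (nat_lit 67) (nat_lit 5) (nat_lit 68) (nat_lit 5) (nat_lit 443) (nat_lit 415) (nat_lit 342)) (XT.lf (nat_lit 0) (nat_lit 11418024918) (nat_lit 228) (nat_lit 27979525532) (nat_lit 76) (nat_lit 8183033160) (nat_lit 62) (nat_lit 5) (nat_lit 65) (nat_lit 5) (nat_lit 63) (nat_lit 5) (nat_lit 444) (nat_lit 415) (nat_lit 341)))))) (XT.nd (nat_lit 546) (nat_lit 836) (nat_lit 0) (XT.nd (nat_lit 234) (nat_lit 456) (nat_lit 0) (XT.nd (nat_lit 78) (nat_lit 304) (nat_lit 0) (XT.lf (nat_lit 0) (nat_lit 17913437142) (nat_lit 152) (nat_lit 14122033208) (nat_lit 228) (nat_lit 17992980043) (nat_lit 60) (nat_lit 5) (nat_lit 62) (nat_lit 5) (nat_lit 63) (nat_lit 5) (nat_lit 445) (nat_lit 415) (nat_lit 340)) (XT.nd (nat_lit 78) (nat_lit 152) (nat_lit 0) (XT.lf (nat_lit 0) (nat_lit 2532511317) (nat_lit 152) (nat_lit 36558804351) (nat_lit 76) (nat_lit 13531833211) (nat_lit 58) (nat_lit 5) (nat_lit 60) (nat_lit 5)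 (nat_lit 59) (nat_lit 5) (nat_lit 446) (nat_lit 415) (nat_lit 339)) (XT.lf (nat_lit 0) (nat_lit 13712412325) (nat_lit 152) (nat_lit 11373472237) (nat_lit 228) (nat_lit 30273979840) (nat_lit 56) (nat_lit 5) (nat_lit 58) (nat_lit 5) (nat_lit 59) (nat_lit 5) (nat_lit 447) (nat_lit 415) (nat_lit 338)))) (XT.nd (nat_lit 156) (nat_lit 152) (nat_lit 0) (XT.nd (nat_lit 78) (nat_lit 228) (nat_lit 0) (XT.lf (nat_lit 0) (nat_lit 11058186747) (nat_lit 76) (nat_lit 39482521578) (nat_lit 152) (nat_lit 7719950691) (nat_lit 55) (nat_lit 5) (nat_lit 56) (nat_lit 5) (nat_lit 57) (nat_lit 4) (nat_lit 448) (nat_lit 415) (nat_lit 337)) (XT.lf (nat_lit 0) (nat_lit 7876841354) (nat_lit 152) (nat_lit 9269001457) (nat_lit 228) (nat_lit 44182687822) (nat_lit 52) (nat_lit 5) (nat_lit 54) (nat_lit 5) (nat_lit 55) (nat_lit 5) (nat_lit 449) (nat_lit 415) (nat_lit 336))) (XT.nd (nat_lit 78) (nat_lit 76) (nat_lit 0) (XT.lf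 (nat_lit 0) (nat_lit 4046955340) (nat_lit 76) (nat_lit 40939005303) (nat_lit 152) (nat_lit 19586767711) (nat_lit 51) (nat_lit 5) (nat_lit 52) (nat_lit 5) (nat_lit 53) (nat_lit 4) (nat_lit 450) (nat_lit 415) (nat_lit 335)) (XT.lf (nat_lit 0) (nat_lit 7844811129) (nat_lit 152) (nat_lit 277142687) (nat_lit 76) (nat_lit 59894497963) (nat_lit 50) (nat_lit 5) (nat_lit 52) (nat_lit 5) (nat_lit 51) (nat_lit 5) (nat_lit 451) (nat_lit 415) (nat_lit 334))))) (XT.nd (nat_lit 234) (nat_lit 456) (nat_lit 0) (XT.nd (nat_lit 78) (nat_lit 228) (nat_lit 0) (XT.lf (nat_lit 0) (nat_lit 38271589289) (nat_lit 228) (nat_lit 5544169234) (nat_lit 76) (nat_lit 27829515519) (nat_lit 48) (nat_lit 5) (nat_lit 51) (nat_lit 5) (nat_lit 49) (nat_lit 4) (nat_lit 452) (nat_lit 415) (nat_lit 333)) (XT.nd (nat_lit 78) (nat_lit 152) (nat_lit 0) (XT.lf (nat_lit 0) (nat_lit 64131986743) (nat_lit 76) (nat_lit 8133495118) (nat_lit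 152) (nat_lit 3242272158) (nat_lit 47) (nat_lit 5) (nat_lit 48) (nat_lit 5) (nat_lit 49) (nat_lit 4) (nat_lit 453) (nat_lit 415) (nat_lit 332)) (XT.lf (nat_lit 0) (nat_lit 29908075751) (nat_lit 152) (nat_lit 18710098108) (nat_lit 76) (nat_lit 30960876821) (nat_lit 45) (nat_lit 5) (nat_lit 47) (nat_lit 5) (nat_lit 46) (nat_lit 4) (nat_lit 454) (nat_lit 415) (nat_lit 331)))) (XT.nd (nat_lit 156) (nat_lit 228) (nat_lit 0) (XT.nd (nat_lit 78) (nat_lit 152) (nat_lit 0) (XT.lf (nat_lit 0) (nat_lit 56942794867) (nat_lit 76) (nat_lit 9873641373) (nat_lit 152) (nat_lit 17095978768) (nat_lit 44) (nat_lit 5) (nat_lit 45) (nat_lit 5) (nat_lit 46) (nat_lit 4) (nat_lit 455) (nat_lit 415) (nat_lit 330)) (XT.lf (nat_lit 0) (nat_lit 19164078751) (nat_lit 152) (nat_lit 36941696239) (nat_lit 76) (nat_lit 32389661236) (nat_lit 42) (nat_lit 5) (nat_lit 44) (nat_lit 5) (nat_lit 43) (nat_lit 4) (nat_lit 456) (nat_lit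 415) (nat_lit 329))) (XT.nd (nat_lit 78) (nat_lit 152) (nat_lit 0) (XT.lf (nat_lit 0) (nat_lit 44856591320) (nat_lit 76) (nat_lit 14212773802) (nat_lit 152) (nat_lit 34294552079) (nat_lit 41) (nat_lit 5) (nat_lit 42) (nat_lit 5) (nat_lit 43) (nat_lit 4) (nat_lit 457) (nat_lit 415) (nat_lit 328)) (XT.lf (nat_lit 0) (nat_lit 5160734168) (nat_lit 152) (nat_lit 62032492539) (nat_lit 76) (nat_lit 31339432501) (nat_lit 39) (nat_lit 5) (nat_lit 41) (nat_lit 5) (nat_lit 40) (nat_lit 4) (nat_lit 458) (nat_lit 415) (nat_lit 327))))))) (XT.nd (nat_lit 1092) (nat_lit 988) (nat_lit 0) (XT.nd (nat_lit 546) (nat_lit 608) (nat_lit 0) (XT.nd (nat_lit 234) (nat_lit 380) (nat_lit 0) (XT.nd (nat_lit 78) (nat_lit 152) (nat_lit 0) (XT.lf (nat_lit 0) (nat_lit 25950392805) (nat_lit 76) (nat_lit 22131828979) (nat_lit 152) (nat_lit 55929004171) (nat_lit 38) (nat_lit 5) (nat_lit 39) (nat_lit 5) (nat_lit 40) (nat_lit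 4) (nat_lit 459) (nat_lit 415) (nat_lit 326)) (XT.nd (nat_lit 78) (nat_lit 76) (nat_lit 0) (XT.lf (nat_lit 0) (nat_lit 13290635125) (nat_lit 76) (nat_lit 82858718471) (nat_lit 76) (nat_lit 13693128462) (nat_lit 37) (nat_lit 4) (nat_lit 38) (nat_lit 5) (nat_lit 38) (nat_lit 4) (nat_lit 460) (nat_lit 415) (nat_lit 325)) (XT.lf (nat_lit 0) (nat_lit 32647272736) (nat_lit 152) (nat_lit 2243714105) (nat_lit 76) (nat_lit 81136965425) (nat_lit 36) (nat_lit 5) (nat_lit 38) (nat_lit 5) (nat_lit 37) (nat_lit 4) (nat_lit 461) (nat_lit 415) (nat_lit 324)))) (XT.nd (nat_lit 156) (nat_lit 152) (nat_lit 0) (XT.nd (nat_lit 78) (nat_lit 152) (nat_lit 0) (XT.lf (nat_lit 0) (nat_lit 84110939219) (nat_lit 152) (nat_lit 20261591785) (nat_lit 0) (nat_lit 18229716750) (nat_lit 35) (nat_lit 5) (nat_lit 37) (nat_lit 4) (nat_lit 35) (nat_lit 4) (nat_lit 462) (nat_lit 415) (nat_lit 323)) (XT.lf (nat_lit 0) (nat_lit 11695205446)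 (nat_lit 152) (nat_lit 41910160984) (nat_lit 76) (nat_lit 75988037146) (nat_lit 33) (nat_lit 5) (nat_lit 35) (nat_lit 5) (nat_lit 34) (nat_lit 4) (nat_lit 463) (nat_lit 415) (nat_lit 322))) (XT.nd (nat_lit 78) (nat_lit 76) (nat_lit 0) (XT.lf (nat_lit 0) (nat_lit 66055006778) (nat_lit 152) (nat_lit 67678501962) (nat_lit 0) (nat_lit 3303447342) (nat_lit 32) (nat_lit 5) (nat_lit 34) (nat_lit 4) (nat_lit 32) (nat_lit 4) (nat_lit 464) (nat_lit 415) (nat_lit 321)) (XT.lf (nat_lit 0) (nat_lit 46546478260) (nat_lit 76) (nat_lit 80583066068) (nat_lit 76) (nat_lit 17828151025) (nat_lit 31) (nat_lit 4) (nat_lit 32) (nat_lit 5) (nat_lit 32) (nat_lit 4) (nat_lit 465) (nat_lit 415) (nat_lit 320))))) (XT.nd (nat_lit 234) (nat_lit 304) (nat_lit 0) (XT.nd (nat_lit 78) (nat_lit 152) (nat_lit 0) (XT.lf (nat_lit 0) (nat_lit 18825616407) (nat_lit 76) (nat_lit 20971280419) (nat_lit 152) (nat_lit 113610016587) (nat_lit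 29) (nat_lit 5) (nat_lit 30) (nat_lit 5) (nat_lit 31) (nat_lit 4) (nat_lit 466) (nat_lit 415) (nat_lit 319)) (XT.nd (nat_lit 78) (nat_lit 152) (nat_lit 0) (XT.lf (nat_lit 0) (nat_lit 103829512587) (nat_lit 152) (nat_lit 14509606602) (nat_lit 0) (nat_lit 44057227845) (nat_lit 29) (nat_lit 5) (nat_lit 31) (nat_lit 4) (nat_lit 29) (nat_lit 4) (nat_lit 467) (nat_lit 415) (nat_lit 318)) (XT.lf (nat_lit 0) (nat_lit 3087155032) (nat_lit 152) (nat_lit 53446153867) (nat_lit 76) (nat_lit 115459164161) (nat_lit 27) (nat_lit 5) (nat_lit 29) (nat_lit 5) (nat_lit 28) (nat_lit 4) (nat_lit 468) (nat_lit 415) (nat_lit 317)))) (XT.nd (nat_lit 156) (nat_lit 152) (nat_lit 0) (XT.nd (nat_lit 78) (nat_lit 76) (nat_lit 0) (XT.lf (nat_lit 0) (nat_lit 69382012213) (nat_lit 152) (nat_lit 100386875765) (nat_lit 0) (nat_lit 12451373446) (nat_lit 26) (nat_lit 5) (nat_lit 28) (nat_lit 4) (nat_lit 26) (nat_lit 4) (nat_lit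 469) (nat_lit 415) (nat_lit 316)) (XT.lf (nat_lit 0) (nat_lit 36823280869) (nat_lit 76) (nat_lit 106626127394) (nat_lit 76) (nat_lit 49693417181) (nat_lit 25) (nat_lit 4) (nat_lit 26) (nat_lit 5) (nat_lit 26) (nat_lit 4) (nat_lit 470) (nat_lit 415) (nat_lit 315))) (XT.nd (nat_lit 78) (nat_lit 76) (nat_lit 0) (XT.lf (nat_lit 0) (nat_lit 19682809603) (nat_lit 152) (nat_lit 16584868532) (nat_lit 76) (nat_lit 168568471370) (nat_lit 24) (nat_lit 5) (nat_lit 26) (nat_lit 5) (nat_lit 25) (nat_lit 4) (nat_lit 471) (nat_lit 415) (nat_lit 314)) (XT.lf (nat_lit 0) (nat_lit 95708470307) (nat_lit 152) (nat_lit 80090395910) (nat_lit 0) (nat_lit 41483323496) (nat_lit 23) (nat_lit 5) (nat_lit 25) (nat_lit 4) (nat_lit 23) (nat_lit 4) (nat_lit 472) (nat_lit 415) (nat_lit 313)))))) (XT.nd (nat_lit 546) (nat_lit 456) (nat_lit 0) (XT.nd (nat_lit 234) (nat_lit 304) (nat_lit 0) (XT.nd (nat_lit 78) (nat_lit 152) (nat_lit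 0) (XT.lf (nat_lit 0) (nat_lit 74925631829) (nat_lit 76) (nat_lit 104960742380) (nat_lit 76) (nat_lit 50734029492) (nat_lit 22) (nat_lit 4) (nat_lit 23) (nat_lit 5) (nat_lit 23) (nat_lit 4) (nat_lit 473) (nat_lit 415) (nat_lit 312)) (XT.nd (nat_lit 78) (nat_lit 76) (nat_lit 0) (XT.lf (nat_lit 0) (nat_lit 26361292736) (nat_lit 152) (nat_lit 187512850) (nat_lit 76) (nat_lit 218386082540) (nat_lit 21) (nat_lit 5) (nat_lit 23) (nat_lit 5) (nat_lit 22) (nat_lit 4) (nat_lit 474) (nat_lit 415) (nat_lit 311)) (XT.lf (nat_lit 0) (nat_lit 111523858121) (nat_lit 152) (nat_lit 88768523535) (nat_lit 0) (nat_lit 59876709912) (nat_lit 20) (nat_lit 5) (nat_lit 22) (nat_lit 4) (nat_lit 20) (nat_lit 4) (nat_lit 475) (nat_lit 415) (nat_lit 310)))) (XT.nd (nat_lit 156) (nat_lit 152) (nat_lit 0) (XT.nd (nat_lit 78) (nat_lit 76) (nat_lit 0) (XT.lf (nat_lit 0) (nat_lit 82277852038) (nat_lit 76) (nat_lit 122952970904)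 (nat_lit 76) (nat_lit 71304638693) (nat_lit 19) (nat_lit 4) (nat_lit 20) (nat_lit 5) (nat_lit 20) (nat_lit 4) (nat_lit 476) (nat_lit 415) (nat_lit 309)) (XT.lf (nat_lit 0) (nat_lit 13399568221) (nat_lit 152) (nat_lit 24180313655) (nat_lit 76) (nat_lit 256543338389) (nat_lit 18) (nat_lit 5) (nat_lit 20) (nat_lit 5) (nat_lit 19) (nat_lit 4) (nat_lit 477) (nat_lit 415) (nat_lit 308))) (XT.nd (nat_lit 78) (nat_lit 76) (nat_lit 0) (XT.lf (nat_lit 0) (nat_lit 105879029475) (nat_lit 152) (nat_lit 150317538676) (nat_lit 0) (nat_lit 56688130808) (nat_lit 17) (nat_lit 5) (nat_lit 19) (nat_lit 4) (nat_lit 17) (nat_lit 4) (nat_lit 478) (nat_lit 415) (nat_lit 307)) (XT.lf (nat_lit 0) (nat_lit 32380344580) (nat_lit 76) (nat_lit 174940180672) (nat_lit 76) (nat_lit 125748386862) (nat_lit 16) (nat_lit 4) (nat_lit 17) (nat_lit 5) (nat_lit 17) (nat_lit 4) (nat_lit 479) (nat_lit 415) (nat_lit 306))))) (XT.nd (nat_lit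 312) (nat_lit 228) (nat_lit 0) (XT.nd (nat_lit 156) (nat_lit 76) (nat_lit 0) (XT.nd (nat_lit 78) (nat_lit 152) (nat_lit 0) (XT.lf (nat_lit 0) (nat_lit 235054841822) (nat_lit 76) (nat_lit 84437447867) (nat_lit 76) (nat_lit 35244825222) (nat_lit 16) (nat_lit 4) (nat_lit 17) (nat_lit 5) (nat_lit 17) (nat_lit 4) (nat_lit 480) (nat_lit 415) (nat_lit 305)) (XT.lf (nat_lit 0) (nat_lit 61945655450) (nat_lit 152) (nat_lit 300977171871) (nat_lit 0) (nat_lit 15094807750) (nat_lit 14) (nat_lit 5) (nat_lit 16) (nat_lit 4) (nat_lit 14) (nat_lit 4) (nat_lit 481) (nat_lit 415) (nat_lit 304))) (XT.nd (nat_lit 78) (nat_lit 76) (nat_lit 0) (XT.lf (nat_lit 0) (nat_lit 169232624751) (nat_lit 152) (nat_lit 111340179771) (nat_lit 0) (nat_lit 122381100296) (nat_lit 14) (nat_lit 5) (nat_lit 16) (nat_lit 4) (nat_lit 14) (nat_lit 4) (nat_lit 482) (nat_lit 415) (nat_lit 303)) (XT.lf (nat_lit 0) (nat_lit 96552099749) (nat_lit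 76) (nat_lit 190054951269) (nat_lit 76) (nat_lit 143202800189) (nat_lit 13) (nat_lit 4) (nat_lit 14) (nat_lit 5) (nat_lit 14) (nat_lit 4) (nat_lit 483) (nat_lit 415) (nat_lit 302)))) (XT.nd (nat_lit 156) (nat_lit 76) (nat_lit 0) (XT.nd (nat_lit 78) (nat_lit 152) (nat_lit 0) (XT.lf (nat_lit 0) (nat_lit 325045999654) (nat_lit 76) (nat_lit 90262086125) (nat_lit 76) (nat_lit 43409354836) (nat_lit 13) (nat_lit 4) (nat_lit 14) (nat_lit 5) (nat_lit 14) (nat_lit 4) (nat_lit 484) (nat_lit 415) (nat_lit 301)) (XT.lf (nat_lit 0) (nat_lit 63920388600) (nat_lit 152) (nat_lit 406588123263) (nat_lit 0) (nat_lit 19298228106) (nat_lit 11) (nat_lit 5) (nat_lit 13) (nat_lit 4) (nat_lit 11) (nat_lit 4) (nat_lit 485) (nat_lit 415) (nat_lit 300))) (XT.nd (nat_lit 78) (nat_lit 76) (nat_lit 0) (XT.lf (nat_lit 0) (nat_lit 182222039680) (nat_lit 152) (nat_lit 203330837713) (nat_lit 0) (nat_lit 137599405438) (nat_lit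 11) (nat_lit 5) (nat_lit 13) (nat_lit 4) (nat_lit 11) (nat_lit 4) (nat_lit 486) (nat_lit 415) (nat_lit 299)) (XT.lf (nat_lit 0) (nat_lit 16717268539) (nat_lit 76) (nat_lit 293529171326) (nat_lit 76) (nat_lit 248906098429) (nat_lit 10) (nat_lit 4) (nat_lit 11) (nat_lit 5) (nat_lit 11) (nat_lit 4) (nat_lit 487) (nat_lit 415) (nat_lit 298))))))))
noncomputable def xc72 : XT := (XT.nd (nat_lit 58110) (nat_lit 0) (nat_lit 2584) (XT.nd (nat_lit 57018) (nat_lit 0) (nat_lit 7144) (XT.nd (nat_lit 546) (nat_lit 152) (nat_lit 0) (XT.nd (nat_lit 234) (nat_lit 76) (nat_lit 0) (XT.nd (nat_lit 78) (nat_lit 152) (nat_lit 0) (XT.lf (nat_lit 0) (nat_lit 261625492217) (nat_lit 76) (nat_lit 190426910269) (nat_lit 76) (nat_lit 145803431209) (nat_lit 10) (nat_lit 4) (nat_lit 11) (nat_lit 5) (nat_lit 11) (nat_lit 4) (nat_lit 488) (nat_lit 415) (nat_lit 297)) (XT.nd (nat_lit 78) (nat_lit 152) (nat_lit 0) (XT.lf (nat_lit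 0) (nat_lit 526122105547) (nat_lit 76) (nat_lit 79078623981) (nat_lit 76) (nat_lit 34454768845) (nat_lit 10) (nat_lit 4) (nat_lit 11) (nat_lit 5) (nat_lit 11) (nat_lit 4) (nat_lit 489) (nat_lit 415) (nat_lit 296)) (XT.lf (nat_lit 0) (nat_lit 85778032388) (nat_lit 152) (nat_lit 555539210497) (nat_lit 0) (nat_lit 43278791098) (nat_lit 8) (nat_lit 5) (nat_lit 10) (nat_lit 4) (nat_lit 8) (nat_lit 4) (nat_lit 490) (nat_lit 415) (nat_lit 295)))) (XT.nd (nat_lit 156) (nat_lit 76) (nat_lit 0) (XT.nd (nat_lit 78) (nat_lit 0) (nat_lit 0) (XT.lf (nat_lit 0) (nat_lit 217780046751) (nat_lit 152) (nat_lit 339875139887) (nat_lit 0) (nat_lit 175280498389) (nat_lit 8) (nat_lit 5) (nat_lit 10) (nat_lit 4) (nat_lit 8) (nat_lit 4) (nat_lit 491) (nat_lit 415) (nat_lit 294)) (XT.lf (nat_lit 0) (nat_lit 360340434079) (nat_lit 152) (nat_lit 106961562106) (nat_lit 0) (nat_lit 317840601393) (nat_lit 8) (nat_lit 5) (nat_lit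 10) (nat_lit 4) (nat_lit 8) (nat_lit 4) (nat_lit 492) (nat_lit 415) (nat_lit 293))) (XT.nd (nat_lit 78) (nat_lit 0) (nat_lit 0) (XT.lf (nat_lit 0) (nat_lit 149362277105) (nat_lit 76) (nat_lit 367273683296) (nat_lit 76) (nat_lit 324773587345) (nat_lit 7) (nat_lit 4) (nat_lit 8) (nat_lit 5) (nat_lit 8) (nat_lit 4) (nat_lit 493) (nat_lit 415) (nat_lit 292)) (XT.lf (nat_lit 0) (nat_lit 430008381498) (nat_lit 76) (nat_lit 257288365621) (nat_lit 76) (nat_lit 214788025907) (nat_lit 7) (nat_lit 4) (nat_lit 8) (nat_lit 5) (nat_lit 8) (nat_lit 4) (nat_lit 494) (nat_lit 415) (nat_lit 291))))) (XT.nd (nat_lit 234) (nat_lit 0) (nat_lit 0) (XT.nd (nat_lit 78) (nat_lit 152) (nat_lit 0) (XT.lf (nat_lit 0) (nat_lit 733103206800) (nat_lit 76) (nat_lit 138505724126) (nat_lit 76) (nat_lit 96005158706) (nat_lit 7) (nat_lit 4) (nat_lit 8) (nat_lit 5) (nat_lit 8) (nat_lit 4) (nat_lit 495) (nat_lit 415) (nat_lit 290))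 (XT.nd (nat_lit 78) (nat_lit 0) (nat_lit 0) (XT.lf (nat_lit 0) (nat_lit 22265729149) (nat_lit 76) (nat_lit 9327687219) (nat_lit 152) (nat_lit 1006749823336) (nat_lit 5) (nat_lit 5) (nat_lit 6) (nat_lit 5) (nat_lit 7) (nat_lit 4) (nat_lit 496) (nat_lit 415) (nat_lit 289)) (XT.lf (nat_lit 0) (nat_lit 172264493753) (nat_lit 152) (nat_lit 810288745362) (nat_lit 0) (nat_lit 131787381453) (nat_lit 5) (nat_lit 5) (nat_lit 7) (nat_lit 4) (nat_lit 5) (nat_lit 4) (nat_lit 497) (nat_lit 415) (nat_lit 288)))) (XT.nd (nat_lit 56082) (nat_lit 0) (nat_lit 10032) (XT.nd (nat_lit 78) (nat_lit 0) (nat_lit 0) (XT.lf (nat_lit 0) (nat_lit 324345298269) (nat_lit 152) (nat_lit 588196676265) (nat_lit 0) (nat_lit 283868015328) (nat_lit 5) (nat_lit 5) (nat_lit 7) (nat_lit 4) (nat_lit 5) (nat_lit 4) (nat_lit 498) (nat_lit 415) (nat_lit 287)) (XT.lf (nat_lit 0) (nat_lit 488591418162) (nat_lit 152) (nat_lit 348339570776)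 (nat_lit 0) (nat_lit 448113977220) (nat_lit 5) (nat_lit 5) (nat_lit 7) (nat_lit 4) (nat_lit 5) (nat_lit 4) (nat_lit 499) (nat_lit 415) (nat_lit 286))) (XT.nd (nat_lit 78) (nat_lit 0) (nat_lit 76) (XT.lf (nat_lit 0) (nat_lit 421701519) (nat_lit 836) (nat_lit 3325067644) (nat_lit 836) (nat_lit 3325067644) (nat_lit 137) (nat_lit 3) (nat_lit 148) (nat_lit 3) (nat_lit 148) (nat_lit 5) (nat_lit 416) (nat_lit 416) (nat_lit 368)) (XT.lf (nat_lit 0) (nat_lit 1520928128) (nat_lit 760) (nat_lit 10056325801) (nat_lit 836) (nat_lit 3099856095) (nat_lit 138) (nat_lit 5) (nat_lit 148) (nat_lit 5) (nat_lit 149) (nat_lit 5) (nat_lit 417) (nat_lit 416) (nat_lit 367)))))) (XT.nd (nat_lit 546) (nat_lit 2128) (nat_lit 0) (XT.nd (nat_lit 234) (nat_lit 836) (nat_lit 0) (XT.nd (nat_lit 78) (nat_lit 0) (nat_lit 76) (XT.lf (nat_lit 76) (nat_lit 1677575183) (nat_lit 0) (nat_lit 793196432) (nat_lit 836) (nat_lit 12771556028)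 (nat_lit 139) (nat_lit 5) (nat_lit 138) (nat_lit 5) (nat_lit 149) (nat_lit 5) (nat_lit 418) (nat_lit 416) (nat_lit 366)) (XT.nd (nat_lit 78) (nat_lit 0) (nat_lit 76) (XT.lf (nat_lit 0) (nat_lit 3795625251) (nat_lit 760) (nat_lit 1339704703) (nat_lit 836) (nat_lit 10702492799) (nat_lit 139) (nat_lit 5) (nat_lit 149) (nat_lit 5) (nat_lit 150) (nat_lit 5) (nat_lit 419) (nat_lit 416) (nat_lit 365)) (XT.lf (nat_lit 0) (nat_lit 5492151398) (nat_lit 760) (nat_lit 4369032921) (nat_lit 836) (nat_lit 6606499329) (nat_lit 140) (nat_lit 5) (nat_lit 150) (nat_lit 5) (nat_lit 151) (nat_lit 5) (nat_lit 420) (nat_lit 416) (nat_lit 364)))) (XT.nd (nat_lit 156) (nat_lit 1064) (nat_lit 0) (XT.nd (nat_lit 78) (nat_lit 0) (nat_lit 0) (XT.lf (nat_lit 0) (nat_lit 7578172211) (nat_lit 760) (nat_lit 7465119740) (nat_lit 836) (nat_lit 2091962451) (nat_lit 141) (nat_lit 5) (nat_lit 151) (nat_lit 5) (nat_lit 152) (nat_lit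 5) (nat_lit 421) (nat_lit 416) (nat_lit 363)) (XT.lf (nat_lit 76) (nat_lit 7165848368) (nat_lit 0) (nat_lit 2981701402) (nat_lit 836) (nat_lit 7692866198) (nat_lit 142) (nat_lit 5) (nat_lit 141) (nat_lit 5) (nat_lit 152) (nat_lit 5) (nat_lit 422) (nat_lit 416) (nat_lit 362))) (XT.nd (nat_lit 78) (nat_lit 380) (nat_lit 0) (XT.lf (nat_lit 0) (nat_lit 4593909262) (nat_lit 760) (nat_lit 8652761572) (nat_lit 836) (nat_lit 5339118204) (nat_lit 132) (nat_lit 5) (nat_lit 142) (nat_lit 5) (nat_lit 143) (nat_lit 5) (nat_lit 423) (nat_lit 416) (nat_lit 361)) (XT.lf (nat_lit 0) (nat_lit 1993416379) (nat_lit 380) (nat_lit 14904148549) (nat_lit 456) (nat_lit 2478042492) (nat_lit 127) (nat_lit 5) (nat_lit 132) (nat_lit 5) (nat_lit 133) (nat_lit 5) (nat_lit 424) (nat_lit 416) (nat_lit 360))))) (XT.nd (nat_lit 234) (nat_lit 1292) (nat_lit 0) (XT.nd (nat_lit 78) (nat_lit 760) (nat_lit 0) (XT.lf (nat_lit 0) (nat_lit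 953213490) (nat_lit 456) (nat_lit 651258743) (nat_lit 76) (nat_lit 18605624111) (nat_lit 126) (nat_lit 5) (nat_lit 132) (nat_lit 5) (nat_lit 127) (nat_lit 5) (nat_lit 425) (nat_lit 416) (nat_lit 359)) (XT.nd (nat_lit 78) (nat_lit 380) (nat_lit 0) (XT.lf (nat_lit 0) (nat_lit 5027249062) (nat_lit 456) (nat_lit 3381514119) (nat_lit 76) (nat_lit 12677801369) (nat_lit 121) (nat_lit 5) (nat_lit 127) (nat_lit 5) (nat_lit 122) (nat_lit 5) (nat_lit 426) (nat_lit 416) (nat_lit 358)) (XT.lf (nat_lit 0) (nat_lit 9784833122) (nat_lit 456) (nat_lit 6144045413) (nat_lit 76) (nat_lit 6086396168) (nat_lit 116) (nat_lit 5) (nat_lit 122) (nat_lit 5) (nat_lit 117) (nat_lit 5) (nat_lit 427) (nat_lit 416) (nat_lit 357)))) (XT.nd (nat_lit 156) (nat_lit 684) (nat_lit 0) (XT.nd (nat_lit 78) (nat_lit 304) (nat_lit 0) (XT.lf (nat_lit 0) (nat_lit 14046150008) (nat_lit 304) (nat_lit 1270928446) (nat_lit 380) (nat_lit 7681505832)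 (nat_lit 112) (nat_lit 5) (nat_lit 116) (nat_lit 5) (nat_lit 117) (nat_lit 5) (nat_lit 428) (nat_lit 416) (nat_lit 356)) (XT.lf (nat_lit 0) (nat_lit 12145235763) (nat_lit 304) (nat_lit 9646968490) (nat_lit 380) (nat_lit 2243344286) (nat_lit 108) (nat_lit 5) (nat_lit 112) (nat_lit 5) (nat_lit 113) (nat_lit 5) (nat_lit 429) (nat_lit 416) (nat_lit 355))) (XT.nd (nat_lit 78) (nat_lit 304) (nat_lit 0) (XT.lf (nat_lit 0) (nat_lit 3931773514) (nat_lit 380) (nat_lit 14915369952) (nat_lit 76) (nat_lit 6284593117) (nat_lit 103) (nat_lit 5) (nat_lit 108) (nat_lit 5) (nat_lit 104) (nat_lit 5) (nat_lit 430) (nat_lit 416) (nat_lit 354)) (XT.lf (nat_lit 0) (nat_lit 8241350056) (nat_lit 304) (nat_lit 2760755291) (nat_lit 380) (nat_lit 15287689534) (nat_lit 99) (nat_lit 5) (nat_lit 103) (nat_lit 5) (nat_lit 104) (nat_lit 5) (nat_lit 431) (nat_lit 416) (nat_lit 353))))))) (XT.nd (nat_lit 1092) (nat_lit 1748)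 (nat_lit 0) (XT.nd (nat_lit 546) (nat_lit 1368) (nat_lit 0) (XT.nd (nat_lit 234) (nat_lit 684) (nat_lit 0) (XT.nd (nat_lit 78) (nat_lit 532) (nat_lit 0) (XT.lf (nat_lit 0) (nat_lit 6192346216) (nat_lit 228) (nat_lit 13012684680) (nat_lit 304) (nat_lit 8307122329) (nat_lit 96) (nat_lit 5) (nat_lit 99) (nat_lit 5) (nat_lit 100) (nat_lit 5) (nat_lit 432) (nat_lit 416) (nat_lit 352)) (XT.nd (nat_lit 78) (nat_lit 304) (nat_lit 0) (XT.lf (nat_lit 0) (nat_lit 4188809993) (nat_lit 228) (nat_lit 24351069907) (nat_lit 304) (nat_lit 268639330) (nat_lit 93) (nat_lit 5) (nat_lit 96) (nat_lit 5) (nat_lit 97) (nat_lit 5) (nat_lit 433) (nat_lit 416) (nat_lit 351)) (XT.lf (nat_lit 0) (nat_lit 1987941700) (nat_lit 228) (nat_lit 6763568658) (nat_lit 304) (nat_lit 21420127042) (nat_lit 89) (nat_lit 5) (nat_lit 92) (nat_lit 5) (nat_lit 93) (nat_lit 5) (nat_lit 434) (nat_lit 416) (nat_lit 350)))) (XT.nd (nat_lit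 156) (nat_lit 456) (nat_lit 0) (XT.nd (nat_lit 78) (nat_lit 228) (nat_lit 0) (XT.lf (nat_lit 0) (nat_lit 19091708256) (nat_lit 304) (nat_lit 249359072) (nat_lit 76) (nat_lit 12272127924) (nat_lit 89) (nat_lit 5) (nat_lit 93) (nat_lit 5) (nat_lit 90) (nat_lit 5) (nat_lit 435) (nat_lit 416) (nat_lit 349)) (XT.lf (nat_lit 0) (nat_lit 30764554531) (nat_lit 228) (nat_lit 71224445) (nat_lit 304) (nat_lit 2305468527) (nat_lit 86) (nat_lit 5) (nat_lit 89) (nat_lit 5) (nat_lit 90) (nat_lit 5) (nat_lit 436) (nat_lit 416) (nat_lit 348))) (XT.nd (nat_lit 78) (nat_lit 228) (nat_lit 0) (XT.lf (nat_lit 0) (nat_lit 9242415468) (nat_lit 228) (nat_lit 4810566300) (nat_lit 76) (nat_lit 20692054722) (nat_lit 83) (nat_lit 5) (nat_lit 86) (nat_lit 5) (nat_lit 84) (nat_lit 5) (nat_lit 437) (nat_lit 416) (nat_lit 347)) (XT.lf (nat_lit 0) (nat_lit 22231394096) (nat_lit 304) (nat_lit 7250307039) (nat_lit 76) (nat_lit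 6963638055) (nat_lit 80) (nat_lit 5) (nat_lit 84) (nat_lit 5) (nat_lit 81) (nat_lit 5) (nat_lit 438) (nat_lit 416) (nat_lit 346))))) (XT.nd (nat_lit 234) (nat_lit 760) (nat_lit 0) (XT.nd (nat_lit 78) (nat_lit 456) (nat_lit 0) (XT.lf (nat_lit 0) (nat_lit 28463683826) (nat_lit 152) (nat_lit 8546744117) (nat_lit 228) (nat_lit 1233693299) (nat_lit 78) (nat_lit 5) (nat_lit 80) (nat_lit 5) (nat_lit 81) (nat_lit 5) (nat_lit 439) (nat_lit 416) (nat_lit 345)) (XT.nd (nat_lit 78) (nat_lit 152) (nat_lit 0) (XT.lf (nat_lit 0) (nat_lit 13154685881) (nat_lit 304) (nat_lit 12604655733) (nat_lit 76) (nat_lit 14378540201) (nat_lit 74) (nat_lit 5) (nat_lit 78) (nat_lit 5) (nat_lit 75) (nat_lit 5) (nat_lit 440) (nat_lit 416) (nat_lit 344)) (XT.lf (nat_lit 0) (nat_lit 26669110943) (nat_lit 152) (nat_lit 2701616356) (nat_lit 228) (nat_lit 12775415602) (nat_lit 72) (nat_lit 5) (nat_lit 74) (nat_lit 5) (nat_lit 75)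 (nat_lit 5) (nat_lit 441) (nat_lit 416) (nat_lit 343)))) (XT.nd (nat_lit 156) (nat_lit 380) (nat_lit 0) (XT.nd (nat_lit 78) (nat_lit 152) (nat_lit 0) (XT.lf (nat_lit 0) (nat_lit 3459324168) (nat_lit 228) (nat_lit 18643433432) (nat_lit 76) (nat_lit 22161675212) (nat_lit 69) (nat_lit 5) (nat_lit 72) (nat_lit 5) (nat_lit 70) (nat_lit 5) (nat_lit 442) (nat_lit 416) (nat_lit 342)) (XT.lf (nat_lit 0) (nat_lit 21291407745) (nat_lit 228) (nat_lit 22040314695) (nat_lit 76) (nat_lit 3172685498) (nat_lit 67) (nat_lit 5) (nat_lit 70) (nat_lit 5) (nat_lit 68) (nat_lit 5) (nat_lit 443) (nat_lit 416) (nat_lit 341))) (XT.nd (nat_lit 78) (nat_lit 228) (nat_lit 0) (XT.lf (nat_lit 0) (nat_lit 23118669237) (nat_lit 152) (nat_lit 18482261440) (nat_lit 228) (nat_lit 7270107984) (nat_lit 65) (nat_lit 5) (nat_lit 67) (nat_lit 5) (nat_lit 68) (nat_lit 5) (nat_lit 444) (nat_lit 416) (nat_lit 340)) (XT.lf (nat_lit 0)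 (nat_lit 12583408934) (nat_lit 228) (nat_lit 29778008886) (nat_lit 76) (nat_lit 9012994349) (nat_lit 62) (nat_lit 5) (nat_lit 65) (nat_lit 5) (nat_lit 63) (nat_lit 5) (nat_lit 445) (nat_lit 416) (nat_lit 339)))))) (XT.nd (nat_lit 546) (nat_lit 684) (nat_lit 0) (XT.nd (nat_lit 234) (nat_lit 608) (nat_lit 0) (XT.nd (nat_lit 78) (nat_lit 304) (nat_lit 0) (XT.lf (nat_lit 0) (nat_lit 19767274211) (nat_lit 152) (nat_lit 15070882694) (nat_lit 228) (nat_lit 19180557603) (nat_lit 60) (nat_lit 5) (nat_lit 62) (nat_lit 5) (nat_lit 63) (nat_lit 5) (nat_lit 446) (nat_lit 416) (nat_lit 338)) (XT.nd (nat_lit 78) (nat_lit 152) (nat_lit 0) (XT.lf (nat_lit 0) (nat_lit 2970037168) (nat_lit 152) (nat_lit 39064459478) (nat_lit 76) (nat_lit 14786740728) (nat_lit 58) (nat_lit 5) (nat_lit 60) (nat_lit 5) (nat_lit 59) (nat_lit 5) (nat_lit 447) (nat_lit 416) (nat_lit 337)) (XT.lf (nat_lit 0) (nat_lit 15210243164) (nat_lit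 152) (nat_lit 12106293463) (nat_lit 228) (nat_lit 32460911966) (nat_lit 56) (nat_lit 5) (nat_lit 58) (nat_lit 5) (nat_lit 59) (nat_lit 5) (nat_lit 448) (nat_lit 416) (nat_lit 336)))) (XT.nd (nat_lit 156) (nat_lit 304) (nat_lit 0) (XT.nd (nat_lit 78) (nat_lit 228) (nat_lit 0) (XT.lf (nat_lit 0) (nat_lit 12334333410) (nat_lit 76) (nat_lit 42465508354) (nat_lit 152) (nat_lit 8110861415) (nat_lit 55) (nat_lit 5) (nat_lit 56) (nat_lit 5) (nat_lit 57) (nat_lit 4) (nat_lit 449) (nat_lit 416) (nat_lit 335)) (XT.lf (nat_lit 0) (nat_lit 8888420079) (nat_lit 152) (nat_lit 9838221282) (nat_lit 228) (nat_lit 47497702187) (nat_lit 52) (nat_lit 5) (nat_lit 54) (nat_lit 5) (nat_lit 55) (nat_lit 5) (nat_lit 450) (nat_lit 416) (nat_lit 334))) (XT.nd (nat_lit 78) (nat_lit 228) (nat_lit 0) (XT.lf (nat_lit 0) (nat_lit 4743008000) (nat_lit 76) (nat_lit 44043772837) (nat_lit 152) (nat_lit 20941656600) (nat_lit 51)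 (nat_lit 5) (nat_lit 52) (nat_lit 5) (nat_lit 53) (nat_lit 4) (nat_lit 451) (nat_lit 416) (nat_lit 333)) (XT.lf (nat_lit 0) (nat_lit 53408913) (nat_lit 152) (nat_lit 8609881639) (nat_lit 228) (nat_lit 64784922045) (nat_lit 48) (nat_lit 5) (nat_lit 50) (nat_lit 5) (nat_lit 51) (nat_lit 5) (nat_lit 452) (nat_lit 416) (nat_lit 332))))) (XT.nd (nat_lit 234) (nat_lit 456) (nat_lit 0) (XT.nd (nat_lit 78) (nat_lit 228) (nat_lit 0) (XT.lf (nat_lit 0) (nat_lit 41516953393) (nat_lit 228) (nat_lit 5645285493) (nat_lit 76) (nat_lit 30205465418) (nat_lit 48) (nat_lit 5) (nat_lit 51) (nat_lit 5) (nat_lit 49) (nat_lit 4) (nat_lit 453) (nat_lit 416) (nat_lit 331)) (XT.nd (nat_lit 78) (nat_lit 152) (nat_lit 0) (XT.lf (nat_lit 0) (nat_lit 69590081925) (nat_lit 76) (nat_lit 8631786467) (nat_lit 152) (nat_lit 3317739464) (nat_lit 47) (nat_lit 5) (nat_lit 48) (nat_lit 5) (nat_lit 49) (nat_lit 4) (nat_lit 454) (nat_lit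 416) (nat_lit 330)) (XT.lf (nat_lit 0) (nat_lit 32472870351) (nat_lit 152) (nat_lit 19881794325) (nat_lit 76) (nat_lit 33582094618) (nat_lit 45) (nat_lit 5) (nat_lit 47) (nat_lit 5) (nat_lit 46) (nat_lit 4) (nat_lit 455) (nat_lit 416) (nat_lit 329)))) (XT.nd (nat_lit 156) (nat_lit 228) (nat_lit 0) (XT.nd (nat_lit 78) (nat_lit 152) (nat_lit 0) (XT.lf (nat_lit 0) (nat_lit 61809201133) (nat_lit 76) (nat_lit 10516802114) (nat_lit 152) (nat_lit 18291184937) (nat_lit 44) (nat_lit 5) (nat_lit 45) (nat_lit 5) (nat_lit 46) (nat_lit 4) (nat_lit 456) (nat_lit 416) (nat_lit 328)) (XT.lf (nat_lit 0) (nat_lit 20858756582) (nat_lit 152) (nat_lit 39588544548) (nat_lit 76) (nat_lit 35119685875) (nat_lit 42) (nat_lit 5) (nat_lit 44) (nat_lit 5) (nat_lit 43) (nat_lit 4) (nat_lit 457) (nat_lit 416) (nat_lit 327))) (XT.nd (nat_lit 78) (nat_lit 152) (nat_lit 0) (XT.lf (nat_lit 0) (nat_lit 48740199530) (nat_lit 76)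 (nat_lit 15208906593) (nat_lit 152) (nat_lit 36876208807) (nat_lit 41) (nat_lit 5) (nat_lit 42) (nat_lit 5) (nat_lit 43) (nat_lit 4) (nat_lit 458) (nat_lit 416) (nat_lit 326)) (XT.lf (nat_lit 0) (nat_lit 5725341920) (nat_lit 152) (nat_lit 66702535789) (nat_lit 76) (nat_lit 33979801442) (nat_lit 39) (nat_lit 5) (nat_lit 41) (nat_lit 5) (nat_lit 40) (nat_lit 4) (nat_lit 459) (nat_lit 416) (nat_lit 325))))))))
noncomputable def xc73 : XT := (XT.nd (nat_lit 2184) (nat_lit 456) (nat_lit 0) (XT.nd (nat_lit 1092) (nat_lit 912) (nat_lit 0) (XT.nd (nat_lit 546) (nat_lit 608) (nat_lit 0) (XT.nd (nat_lit 234) (nat_lit 380) (nat_lit 0) (XT.nd (nat_lit 78) (nat_lit 152) (nat_lit 0) (XT.lf (nat_lit 0) (nat_lit 28306266249) (nat_lit 76) (nat_lit 23767410747) (nat_lit 152) (nat_lit 60251198216) (nat_lit 38) (nat_lit 5) (nat_lit 39) (nat_lit 5) (nat_lit 40) (nat_lit 4) (nat_lit 460) (nat_lit 416) (nat_lit 324))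 (XT.nd (nat_lit 78) (nat_lit 76) (nat_lit 0) (XT.lf (nat_lit 0) (nat_lit 14626484556) (nat_lit 76) (nat_lit 89355170248) (nat_lit 76) (nat_lit 14641203591) (nat_lit 37) (nat_lit 4) (nat_lit 38) (nat_lit 5) (nat_lit 38) (nat_lit 4) (nat_lit 461) (nat_lit 416) (nat_lit 323)) (XT.lf (nat_lit 0) (nat_lit 35391145502) (nat_lit 152) (nat_lit 2166433540) (nat_lit 76) (nat_lit 87746000820) (nat_lit 36) (nat_lit 5) (nat_lit 38) (nat_lit 5) (nat_lit 37) (nat_lit 4) (nat_lit 462) (nat_lit 416) (nat_lit 322)))) (XT.nd (nat_lit 156) (nat_lit 152) (nat_lit 0) (XT.nd (nat_lit 78) (nat_lit 152) (nat_lit 0) (XT.lf (nat_lit 0) (nat_lit 90967820955) (nat_lit 152) (nat_lit 21632455254) (nat_lit 0) (nat_lit 19803747296) (nat_lit 35) (nat_lit 5) (nat_lit 37) (nat_lit 4) (nat_lit 35) (nat_lit 4) (nat_lit 463) (nat_lit 416) (nat_lit 321)) (XT.lf (nat_lit 0) (nat_lit 12755088636) (nat_lit 152) (nat_lit 45019665341)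 (nat_lit 76) (nat_lit 82179905249) (nat_lit 33) (nat_lit 5) (nat_lit 35) (nat_lit 5) (nat_lit 34) (nat_lit 4) (nat_lit 464) (nat_lit 416) (nat_lit 320))) (XT.nd (nat_lit 78) (nat_lit 76) (nat_lit 0) (XT.lf (nat_lit 0) (nat_lit 71459883241) (nat_lit 152) (nat_lit 72855890135) (nat_lit 0) (nat_lit 3678112343) (nat_lit 32) (nat_lit 5) (nat_lit 34) (nat_lit 4) (nat_lit 32) (nat_lit 4) (nat_lit 465) (nat_lit 416) (nat_lit 319)) (XT.lf (nat_lit 0) (nat_lit 50496793468) (nat_lit 76) (nat_lit 86918203998) (nat_lit 76) (nat_lit 19133556208) (nat_lit 31) (nat_lit 4) (nat_lit 32) (nat_lit 5) (nat_lit 32) (nat_lit 4) (nat_lit 466) (nat_lit 416) (nat_lit 318))))) (XT.nd (nat_lit 234) (nat_lit 304) (nat_lit 0) (XT.nd (nat_lit 78) (nat_lit 152) (nat_lit 0) (XT.lf (nat_lit 0) (nat_lit 20552117378) (nat_lit 76) (nat_lit 22540286991) (nat_lit 152) (nat_lit 122581471833) (nat_lit 29) (nat_lit 5) (nat_lit 30)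 (nat_lit 5) (nat_lit 31) (nat_lit 4) (nat_lit 467) (nat_lit 416) (nat_lit 317)) (XT.nd (nat_lit 78) (nat_lit 152) (nat_lit 0) (XT.lf (nat_lit 0) (nat_lit 112240922524) (nat_lit 152) (nat_lit 15462648375) (nat_lit 0) (nat_lit 47679229142) (nat_lit 29) (nat_lit 5) (nat_lit 31) (nat_lit 4) (nat_lit 29) (nat_lit 4) (nat_lit 468) (nat_lit 416) (nat_lit 316)) (XT.lf (nat_lit 0) (nat_lit 3436144689) (nat_lit 152) (nat_lit 57519771787) (nat_lit 76) (nat_lit 124790851530) (nat_lit 27) (nat_lit 5) (nat_lit 29) (nat_lit 5) (nat_lit 28) (nat_lit 4) (nat_lit 469) (nat_lit 416) (nat_lit 315)))) (XT.nd (nat_lit 156) (nat_lit 152) (nat_lit 0) (XT.nd (nat_lit 78) (nat_lit 76) (nat_lit 0) (XT.lf (nat_lit 0) (nat_lit 75031547376) (nat_lit 152) (nat_lit 108221153474) (nat_lit 0) (nat_lit 13540230893) (nat_lit 26) (nat_lit 5) (nat_lit 28) (nat_lit 4) (nat_lit 26) (nat_lit 4) (nat_lit 470) (nat_lit 416) (nat_lit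 314)) (XT.lf (nat_lit 0) (nat_lit 39957268550) (nat_lit 76) (nat_lit 115062672302) (nat_lit 76) (nat_lit 53569579886) (nat_lit 25) (nat_lit 4) (nat_lit 26) (nat_lit 5) (nat_lit 26) (nat_lit 4) (nat_lit 471) (nat_lit 416) (nat_lit 313))) (XT.nd (nat_lit 78) (nat_lit 76) (nat_lit 0) (XT.lf (nat_lit 0) (nat_lit 21346445582) (nat_lit 152) (nat_lit 17734523352) (nat_lit 76) (nat_lit 182137620432) (nat_lit 24) (nat_lit 5) (nat_lit 26) (nat_lit 5) (nat_lit 25) (nat_lit 4) (nat_lit 472) (nat_lit 416) (nat_lit 312)) (XT.lf (nat_lit 0) (nat_lit 103451528405) (nat_lit 152) (nat_lit 86325253699) (nat_lit 0) (nat_lit 44883662337) (nat_lit 23) (nat_lit 5) (nat_lit 25) (nat_lit 4) (nat_lit 23) (nat_lit 4) (nat_lit 473) (nat_lit 416) (nat_lit 311)))))) (XT.nd (nat_lit 546) (nat_lit 380) (nat_lit 0) (XT.nd (nat_lit 234) (nat_lit 304) (nat_lit 0) (XT.nd (nat_lit 78) (nat_lit 152) (nat_lit 0) (XT.lf (nat_lit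 0) (nat_lit 81084565100) (nat_lit 76) (nat_lit 113275275248) (nat_lit 76) (nat_lit 54706066520) (nat_lit 22) (nat_lit 4) (nat_lit 23) (nat_lit 5) (nat_lit 23) (nat_lit 4) (nat_lit 474) (nat_lit 416) (nat_lit 310)) (XT.nd (nat_lit 78) (nat_lit 76) (nat_lit 0) (XT.lf (nat_lit 0) (nat_lit 28547891394) (nat_lit 152) (nat_lit 47274570) (nat_lit 76) (nat_lit 235930627286) (nat_lit 21) (nat_lit 5) (nat_lit 23) (nat_lit 5) (nat_lit 22) (nat_lit 4) (nat_lit 475) (nat_lit 416) (nat_lit 309)) (XT.lf (nat_lit 0) (nat_lit 120521184203) (nat_lit 152) (nat_lit 95718957628) (nat_lit 0) (nat_lit 64738705114) (nat_lit 20) (nat_lit 5) (nat_lit 22) (nat_lit 4) (nat_lit 20) (nat_lit 4) (nat_lit 476) (nat_lit 416) (nat_lit 308)))) (XT.nd (nat_lit 156) (nat_lit 152) (nat_lit 0) (XT.nd (nat_lit 78) (nat_lit 76) (nat_lit 0) (XT.lf (nat_lit 0) (nat_lit 89004563637) (nat_lit 76) (nat_lit 132716811887) (nat_lit 76) (nat_lit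 76933317706) (nat_lit 19) (nat_lit 4) (nat_lit 20) (nat_lit 5) (nat_lit 20) (nat_lit 4) (nat_lit 477) (nat_lit 416) (nat_lit 307)) (XT.lf (nat_lit 0) (nat_lit 14539375774) (nat_lit 152) (nat_lit 25978713741) (nat_lit 76) (nat_lit 277131595386) (nat_lit 18) (nat_lit 5) (nat_lit 20) (nat_lit 5) (nat_lit 19) (nat_lit 4) (nat_lit 478) (nat_lit 416) (nat_lit 306))) (XT.nd (nat_lit 78) (nat_lit 76) (nat_lit 0) (XT.lf (nat_lit 0) (nat_lit 114415219000) (nat_lit 152) (nat_lit 162210603996) (nat_lit 0) (nat_lit 61286357707) (nat_lit 17) (nat_lit 5) (nat_lit 19) (nat_lit 4) (nat_lit 17) (nat_lit 4) (nat_lit 479) (nat_lit 416) (nat_lit 305)) (XT.lf (nat_lit 0) (nat_lit 35097358681) (nat_lit 76) (nat_lit 188871773077) (nat_lit 76) (nat_lit 135742144345) (nat_lit 16) (nat_lit 4) (nat_lit 17) (nat_lit 5) (nat_lit 17) (nat_lit 4) (nat_lit 480) (nat_lit 416) (nat_lit 304))))) (XT.nd (nat_lit 234) (nat_lit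 228) (nat_lit 0) (XT.nd (nat_lit 78) (nat_lit 152) (nat_lit 0) (XT.lf (nat_lit 0) (nat_lit 253976438923) (nat_lit 76) (nat_lit 91133534393) (nat_lit 76) (nat_lit 38003195067) (nat_lit 16) (nat_lit 4) (nat_lit 17) (nat_lit 5) (nat_lit 17) (nat_lit 4) (nat_lit 481) (nat_lit 416) (nat_lit 303)) (XT.nd (nat_lit 78) (nat_lit 0) (nat_lit 0) (XT.lf (nat_lit 0) (nat_lit 66958850370) (nat_lit 152) (nat_lit 324939417190) (nat_lit 0) (nat_lit 16357900578) (nat_lit 14) (nat_lit 5) (nat_lit 16) (nat_lit 4) (nat_lit 14) (nat_lit 4) (nat_lit 482) (nat_lit 416) (nat_lit 302)) (XT.lf (nat_lit 0) (nat_lit 182824514809) (nat_lit 152) (nat_lit 120140053014) (nat_lit 0) (nat_lit 132222984808) (nat_lit 14) (nat_lit 5) (nat_lit 16) (nat_lit 4) (nat_lit 14) (nat_lit 4) (nat_lit 483) (nat_lit 416) (nat_lit 301)))) (XT.nd (nat_lit 156) (nat_lit 152) (nat_lit 0) (XT.nd (nat_lit 78) (nat_lit 0) (nat_lit 0) (XT.lf (nat_lit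 0) (nat_lit 104378943953) (nat_lit 76) (nat_lit 205207607615) (nat_lit 76) (nat_lit 154605540384) (nat_lit 13) (nat_lit 4) (nat_lit 14) (nat_lit 5) (nat_lit 14) (nat_lit 4) (nat_lit 484) (nat_lit 416) (nat_lit 300)) (XT.lf (nat_lit 0) (nat_lit 351144750205) (nat_lit 76) (nat_lit 97435145833) (nat_lit 76) (nat_lit 46832581167) (nat_lit 13) (nat_lit 4) (nat_lit 14) (nat_lit 5) (nat_lit 14) (nat_lit 4) (nat_lit 485) (nat_lit 416) (nat_lit 299))) (XT.nd (nat_lit 78) (nat_lit 0) (nat_lit 0) (XT.lf (nat_lit 0) (nat_lit 69080577287) (nat_lit 152) (nat_lit 439021153667) (nat_lit 0) (nat_lit 20887219902) (nat_lit 11) (nat_lit 5) (nat_lit 13) (nat_lit 4) (nat_lit 11) (nat_lit 4) (nat_lit 486) (nat_lit 416) (nat_lit 298)) (XT.lf (nat_lit 0) (nat_lit 196842911742) (nat_lit 152) (nat_lit 219510249678) (nat_lit 0) (nat_lit 148649148195) (nat_lit 11) (nat_lit 5) (nat_lit 13) (nat_lit 4) (nat_lit 11) (nat_lit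 4) (nat_lit 487) (nat_lit 416) (nat_lit 297))))))) (XT.nd (nat_lit 57096) (nat_lit 0) (nat_lit 7144) (XT.nd (nat_lit 546) (nat_lit 152) (nat_lit 0) (XT.nd (nat_lit 234) (nat_lit 228) (nat_lit 0) (XT.nd (nat_lit 78) (nat_lit 0) (nat_lit 0) (XT.lf (nat_lit 0) (nat_lit 18137921769) (nat_lit 76) (nat_lit 316969449028) (nat_lit 76) (nat_lit 268775309405) (nat_lit 10) (nat_lit 4) (nat_lit 11) (nat_lit 5) (nat_lit 11) (nat_lit 4) (nat_lit 488) (nat_lit 416) (nat_lit 296)) (XT.nd (nat_lit 78) (nat_lit 0) (nat_lit 0) (XT.lf (nat_lit 0) (nat_lit 282632635063) (nat_lit 76) (nat_lit 205622122345) (nat_lit 76) (nat_lit 157427634503) (nat_lit 10) (nat_lit 4) (nat_lit 11) (nat_lit 5) (nat_lit 11) (nat_lit 4) (nat_lit 489) (nat_lit 416) (nat_lit 295)) (XT.lf (nat_lit 0) (nat_lit 568283266092) (nat_lit 76) (nat_lit 85368857655) (nat_lit 76) (nat_lit 37174047388) (nat_lit 10) (nat_lit 4) (nat_lit 11) (nat_lit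 5) (nat_lit 11) (nat_lit 4) (nat_lit 490) (nat_lit 416) (nat_lit 294)))) (XT.nd (nat_lit 156) (nat_lit 76) (nat_lit 0) (XT.nd (nat_lit 78) (nat_lit 0) (nat_lit 0) (XT.lf (nat_lit 0) (nat_lit 92675161747) (nat_lit 152) (nat_lit 599911752217) (nat_lit 0) (nat_lit 46775058120) (nat_lit 8) (nat_lit 5) (nat_lit 10) (nat_lit 4) (nat_lit 8) (nat_lit 4) (nat_lit 491) (nat_lit 416) (nat_lit 293)) (XT.lf (nat_lit 0) (nat_lit 235234753053) (nat_lit 152) (nat_lit 366999785227) (nat_lit 0) (nat_lit 189334386162) (nat_lit 8) (nat_lit 5) (nat_lit 10) (nat_lit 4) (nat_lit 8) (nat_lit 4) (nat_lit 492) (nat_lit 416) (nat_lit 292))) (XT.nd (nat_lit 78) (nat_lit 76) (nat_lit 0) (XT.lf (nat_lit 0) (nat_lit 389197578586) (nat_lit 152) (nat_lit 115457963139) (nat_lit 0) (nat_lit 343296967932) (nat_lit 8) (nat_lit 5) (nat_lit 10) (nat_lit 4) (nat_lit 8) (nat_lit 4) (nat_lit 493) (nat_lit 416) (nat_lit 291)) (XT.lf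 (nat_lit 0) (nat_lit 161369152914) (nat_lit 76) (nat_lit 396626282443) (nat_lit 76) (nat_lit 350725446082) (nat_lit 7) (nat_lit 4) (nat_lit 8) (nat_lit 5) (nat_lit 8) (nat_lit 4) (nat_lit 494) (nat_lit 416) (nat_lit 290))))) (XT.nd (nat_lit 234) (nat_lit 0) (nat_lit 0) (XT.nd (nat_lit 78) (nat_lit 152) (nat_lit 0) (XT.lf (nat_lit 0) (nat_lit 464462657240) (nat_lit 76) (nat_lit 277844309392) (nat_lit 76) (nat_lit 231943264044) (nat_lit 7) (nat_lit 4) (nat_lit 8) (nat_lit 5) (nat_lit 8) (nat_lit 4) (nat_lit 495) (nat_lit 416) (nat_lit 289)) (XT.nd (nat_lit 78) (nat_lit 152) (nat_lit 0) (XT.lf (nat_lit 0) (nat_lit 791801097809) (nat_lit 76) (nat_lit 149561065872) (nat_lit 76) (nat_lit 103659827017) (nat_lit 7) (nat_lit 4) (nat_lit 8) (nat_lit 5) (nat_lit 8) (nat_lit 4) (nat_lit 496) (nat_lit 416) (nat_lit 288)) (XT.lf (nat_lit 0) (nat_lit 24095253238) (nat_lit 76) (nat_lit 10049464452) (nat_lit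 152) (nat_lit 1087264789623) (nat_lit 5) (nat_lit 5) (nat_lit 6) (nat_lit 5) (nat_lit 7) (nat_lit 4) (nat_lit 497) (nat_lit 416) (nat_lit 287)))) (XT.nd (nat_lit 56160) (nat_lit 0) (nat_lit 10032) (XT.nd (nat_lit 78) (nat_lit 0) (nat_lit 0) (XT.lf (nat_lit 0) (nat_lit 186068069507) (nat_lit 152) (nat_lit 875066404451) (nat_lit 0) (nat_lit 142352275288) (nat_lit 5) (nat_lit 5) (nat_lit 7) (nat_lit 4) (nat_lit 5) (nat_lit 4) (nat_lit 498) (nat_lit 416) (nat_lit 286)) (XT.lf (nat_lit 0) (nat_lit 350313677921) (nat_lit 152) (nat_lit 635210335792) (nat_lit 0) (nat_lit 306597737406) (nat_lit 5) (nat_lit 5) (nat_lit 7) (nat_lit 4) (nat_lit 5) (nat_lit 4) (nat_lit 499) (nat_lit 416) (nat_lit 285))) (XT.nd (nat_lit 78) (nat_lit 0) (nat_lit 76) (XT.lf (nat_lit 0) (nat_lit 963739972) (nat_lit 836) (nat_lit 3324155244) (nat_lit 836) (nat_lit 3324155244) (nat_lit 137) (nat_lit 3) (nat_lit 148) (nat_lit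 3) (nat_lit 148) (nat_lit 5) (nat_lit 417) (nat_lit 417) (nat_lit 366)) (XT.lf (nat_lit 0) (nat_lit 2585027091) (nat_lit 760) (nat_lit 10295665236) (nat_lit 836) (nat_lit 2923246422) (nat_lit 138) (nat_lit 5) (nat_lit 148) (nat_lit 5) (nat_lit 149) (nat_lit 5) (nat_lit 418) (nat_lit 417) (nat_lit 365)))))) (XT.nd (nat_lit 546) (nat_lit 2128) (nat_lit 0) (XT.nd (nat_lit 234) (nat_lit 836) (nat_lit 0) (XT.nd (nat_lit 78) (nat_lit 0) (nat_lit 76) (XT.lf (nat_lit 76) (nat_lit 2352386374) (nat_lit 0) (nat_lit 1197102806) (nat_lit 836) (nat_lit 12867969251) (nat_lit 139) (nat_lit 5) (nat_lit 138) (nat_lit 5) (nat_lit 149) (nat_lit 5) (nat_lit 419) (nat_lit 417) (nat_lit 364)) (XT.nd (nat_lit 78) (nat_lit 0) (nat_lit 76) (XT.lf (nat_lit 0) (nat_lit 4910146056) (nat_lit 760) (nat_lit 900421831) (nat_lit 836) (nat_lit 11253549526) (nat_lit 139) (nat_lit 5) (nat_lit 149) (nat_lit 5) (nat_lit 150) (nat_lit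 5) (nat_lit 420) (nat_lit 417) (nat_lit 363)) (XT.lf (nat_lit 0) (nat_lit 6686802147) (nat_lit 760) (nat_lit 4154034048) (nat_lit 836) (nat_lit 6906324490) (nat_lit 140) (nat_lit 5) (nat_lit 150) (nat_lit 5) (nat_lit 151) (nat_lit 5) (nat_lit 421) (nat_lit 417) (nat_lit 362)))) (XT.nd (nat_lit 156) (nat_lit 1064) (nat_lit 0) (XT.nd (nat_lit 78) (nat_lit 0) (nat_lit 0) (XT.lf (nat_lit 0) (nat_lit 8889569353) (nat_lit 760) (nat_lit 7484172801) (nat_lit 836) (nat_lit 2096914577) (nat_lit 141) (nat_lit 5) (nat_lit 151) (nat_lit 5) (nat_lit 152) (nat_lit 5) (nat_lit 422) (nat_lit 417) (nat_lit 361)) (XT.lf (nat_lit 76) (nat_lit 8292146778) (nat_lit 0) (nat_lit 3328751853) (nat_lit 836) (nat_lit 7613524430) (nat_lit 142) (nat_lit 5) (nat_lit 141) (nat_lit 5) (nat_lit 152) (nat_lit 5) (nat_lit 423) (nat_lit 417) (nat_lit 360))) (XT.nd (nat_lit 78) (nat_lit 380) (nat_lit 0) (XT.lf (nat_lit 0) (nat_lit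 5523821309) (nat_lit 760) (nat_lit 9402336660) (nat_lit 836) (nat_lit 5115368610) (nat_lit 132) (nat_lit 5) (nat_lit 142) (nat_lit 5) (nat_lit 143) (nat_lit 5) (nat_lit 424) (nat_lit 417) (nat_lit 359)) (XT.lf (nat_lit 0) (nat_lit 2721477251) (nat_lit 380) (nat_lit 16109786792) (nat_lit 456) (nat_lit 2065169583) (nat_lit 127) (nat_lit 5) (nat_lit 132) (nat_lit 5) (nat_lit 133) (nat_lit 5) (nat_lit 425) (nat_lit 417) (nat_lit 358))))) (XT.nd (nat_lit 234) (nat_lit 1292) (nat_lit 0) (XT.nd (nat_lit 78) (nat_lit 760) (nat_lit 0) (XT.lf (nat_lit 0) (nat_lit 1577208320) (nat_lit 456) (nat_lit 158666191) (nat_lit 76) (nat_lit 20063530050) (nat_lit 126) (nat_lit 5) (nat_lit 132) (nat_lit 5) (nat_lit 127) (nat_lit 5) (nat_lit 426) (nat_lit 417) (nat_lit 357)) (XT.nd (nat_lit 78) (nat_lit 380) (nat_lit 0) (XT.lf (nat_lit 0) (nat_lit 5944817519) (nat_lit 456) (nat_lit 3105233823) (nat_lit 76) (nat_lit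 13697564684) (nat_lit 121) (nat_lit 5) (nat_lit 127) (nat_lit 5) (nat_lit 122) (nat_lit 5) (nat_lit 427) (nat_lit 417) (nat_lit 356)) (XT.lf (nat_lit 0) (nat_lit 11053585451) (nat_lit 456) (nat_lit 6088753505) (nat_lit 76) (nat_lit 6609762901) (nat_lit 116) (nat_lit 5) (nat_lit 122) (nat_lit 5) (nat_lit 117) (nat_lit 5) (nat_lit 428) (nat_lit 417) (nat_lit 355)))) (XT.nd (nat_lit 156) (nat_lit 684) (nat_lit 0) (XT.nd (nat_lit 78) (nat_lit 304) (nat_lit 0) (XT.lf (nat_lit 0) (nat_lit 15692893613) (nat_lit 304) (nat_lit 1307685640) (nat_lit 380) (nat_lit 7814895661) (nat_lit 112) (nat_lit 5) (nat_lit 116) (nat_lit 5) (nat_lit 117) (nat_lit 5) (nat_lit 429) (nat_lit 417) (nat_lit 354)) (XT.lf (nat_lit 0) (nat_lit 13638202284) (nat_lit 304) (nat_lit 10330655101) (nat_lit 380) (nat_lit 1967788432) (nat_lit 108) (nat_lit 5) (nat_lit 112) (nat_lit 5) (nat_lit 113) (nat_lit 5) (nat_lit 430) (nat_lit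 417) (nat_lit 353))) (XT.nd (nat_lit 78) (nat_lit 304) (nat_lit 0) (XT.lf (nat_lit 0) (nat_lit 4663665418) (nat_lit 380) (nat_lit 15576550310) (nat_lit 76) (nat_lit 6881119294) (nat_lit 103) (nat_lit 5) (nat_lit 108) (nat_lit 5) (nat_lit 104) (nat_lit 5) (nat_lit 431) (nat_lit 417) (nat_lit 352)) (XT.lf (nat_lit 0) (nat_lit 9409585087) (nat_lit 304) (nat_lit 2867069671) (nat_lit 380) (nat_lit 16096537084) (nat_lit 99) (nat_lit 5) (nat_lit 103) (nat_lit 5) (nat_lit 104) (nat_lit 5) (nat_lit 432) (nat_lit 417) (nat_lit 351))))))))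
noncomputable def xc74 : XT := (XT.nd (nat_lit 2184) (nat_lit 2128) (nat_lit 0) (XT.nd (nat_lit 1092) (nat_lit 1748) (nat_lit 0) (XT.nd (nat_lit 546) (nat_lit 1368) (nat_lit 0) (XT.nd (nat_lit 234) (nat_lit 684) (nat_lit 0) (XT.nd (nat_lit 78) (nat_lit 532) (nat_lit 0) (XT.lf (nat_lit 0) (nat_lit 7191759654) (nat_lit 228) (nat_lit 13924366457) (nat_lit 304) (nat_lit 8578202161) (nat_lit 96) (nat_lit 5) (nat_lit 99) (nat_lit 5) (nat_lit 100) (nat_lit 5) (nat_lit 433) (nat_lit 417) (nat_lit 350)) (XT.nd (nat_lit 78) (nat_lit 228) (nat_lit 0) (XT.lf (nat_lit 0) (nat_lit 81642489) (nat_lit 304) (nat_lit 26074545382) (nat_lit 76) (nat_lit 4939059855) (nat_lit 92) (nat_lit 5) (nat_lit 96) (nat_lit 5) (nat_lit 93) (nat_lit 5) (nat_lit 434) (nat_lit 417) (nat_lit 349)) (XT.lf (nat_lit 0) (nat_lit 2635014738) (nat_lit 228) (nat_lit 7159872176) (nat_lit 304) (nat_lit 22773267598) (nat_lit 89) (nat_lit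 5) (nat_lit 92) (nat_lit 5) (nat_lit 93) (nat_lit 5) (nat_lit 435) (nat_lit 417) (nat_lit 348)))) (XT.nd (nat_lit 156) (nat_lit 456) (nat_lit 0) (XT.nd (nat_lit 78) (nat_lit 0) (nat_lit 0) (XT.lf (nat_lit 0) (nat_lit 202919416) (nat_lit 228) (nat_lit 20739216030) (nat_lit 304) (nat_lit 13183913593) (nat_lit 86) (nat_lit 5) (nat_lit 89) (nat_lit 5) (nat_lit 90) (nat_lit 5) (nat_lit 436) (nat_lit 417) (nat_lit 347)) (XT.lf (nat_lit 0) (nat_lit 33606842037) (nat_lit 304) (nat_lit 2107154181) (nat_lit 76) (nat_lit 63297246) (nat_lit 86) (nat_lit 5) (nat_lit 90) (nat_lit 5) (nat_lit 87) (nat_lit 5) (nat_lit 437) (nat_lit 417) (nat_lit 346))) (XT.nd (nat_lit 78) (nat_lit 228) (nat_lit 0) (XT.lf (nat_lit 0) (nat_lit 10276222278) (nat_lit 228) (nat_lit 4747089767) (nat_lit 76) (nat_lit 22486568058) (nat_lit 83) (nat_lit 5) (nat_lit 86) (nat_lit 5) (nat_lit 84) (nat_lit 5) (nat_lit 438) (nat_lit 417)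 (nat_lit 345)) (XT.lf (nat_lit 0) (nat_lit 24291540856) (nat_lit 304) (nat_lit 7389827198) (nat_lit 76) (nat_lit 7665480745) (nat_lit 80) (nat_lit 5) (nat_lit 84) (nat_lit 5) (nat_lit 81) (nat_lit 5) (nat_lit 439) (nat_lit 417) (nat_lit 344))))) (XT.nd (nat_lit 234) (nat_lit 760) (nat_lit 0) (XT.nd (nat_lit 78) (nat_lit 456) (nat_lit 0) (XT.lf (nat_lit 0) (nat_lit 31162139152) (nat_lit 152) (nat_lit 9076475009) (nat_lit 228) (nat_lit 1051636064) (nat_lit 78) (nat_lit 5) (nat_lit 80) (nat_lit 5) (nat_lit 81) (nat_lit 5) (nat_lit 440) (nat_lit 417) (nat_lit 343)) (XT.nd (nat_lit 78) (nat_lit 152) (nat_lit 0) (XT.lf (nat_lit 0) (nat_lit 14467522419) (nat_lit 304) (nat_lit 13190819820) (nat_lit 76) (nat_lit 15677517834) (nat_lit 74) (nat_lit 5) (nat_lit 78) (nat_lit 5) (nat_lit 75) (nat_lit 5) (nat_lit 441) (nat_lit 417) (nat_lit 342)) (XT.lf (nat_lit 0) (nat_lit 29206499528) (nat_lit 152) (nat_lit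 2761359547) (nat_lit 228) (nat_lit 13537574538) (nat_lit 72) (nat_lit 5) (nat_lit 74) (nat_lit 5) (nat_lit 75) (nat_lit 5) (nat_lit 442) (nat_lit 417) (nat_lit 341)))) (XT.nd (nat_lit 156) (nat_lit 380) (nat_lit 0) (XT.nd (nat_lit 78) (nat_lit 152) (nat_lit 0) (XT.lf (nat_lit 0) (nat_lit 3977572211) (nat_lit 228) (nat_lit 19731064368) (nat_lit 76) (nat_lit 24084851908) (nat_lit 69) (nat_lit 5) (nat_lit 72) (nat_lit 5) (nat_lit 70) (nat_lit 5) (nat_lit 443) (nat_lit 417) (nat_lit 340)) (XT.lf (nat_lit 0) (nat_lit 23226810278) (nat_lit 228) (nat_lit 23408188131) (nat_lit 76) (nat_lit 3578135590) (nat_lit 67) (nat_lit 5) (nat_lit 70) (nat_lit 5) (nat_lit 68) (nat_lit 5) (nat_lit 444) (nat_lit 417) (nat_lit 339))) (XT.nd (nat_lit 78) (nat_lit 228) (nat_lit 0) (XT.lf (nat_lit 0) (nat_lit 25346333012) (nat_lit 152) (nat_lit 19803474485) (nat_lit 228) (nat_lit 7619853696) (nat_lit 65) (nat_lit 5)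 (nat_lit 67) (nat_lit 5) (nat_lit 68) (nat_lit 5) (nat_lit 445) (nat_lit 417) (nat_lit 338)) (XT.lf (nat_lit 0) (nat_lit 13806081326) (nat_lit 228) (nat_lit 31783124521) (nat_lit 76) (nat_lit 9884341284) (nat_lit 62) (nat_lit 5) (nat_lit 65) (nat_lit 5) (nat_lit 63) (nat_lit 5) (nat_lit 446) (nat_lit 417) (nat_lit 337)))))) (XT.nd (nat_lit 546) (nat_lit 684) (nat_lit 0) (XT.nd (nat_lit 234) (nat_lit 608) (nat_lit 0) (XT.nd (nat_lit 78) (nat_lit 304) (nat_lit 0) (XT.lf (nat_lit 0) (nat_lit 21709391827) (nat_lit 152) (nat_lit 16121449426) (nat_lit 228) (nat_lit 20499072133) (nat_lit 60) (nat_lit 5) (nat_lit 62) (nat_lit 5) (nat_lit 63) (nat_lit 5) (nat_lit 447) (nat_lit 417) (nat_lit 336)) (XT.nd (nat_lit 78) (nat_lit 152) (nat_lit 0) (XT.lf (nat_lit 0) (nat_lit 3409050417) (nat_lit 152) (nat_lit 41830349071) (nat_lit 76) (nat_lit 16117451642) (nat_lit 58) (nat_lit 5) (nat_lit 60) (nat_lit 5)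 (nat_lit 59) (nat_lit 5) (nat_lit 448) (nat_lit 417) (nat_lit 335)) (XT.lf (nat_lit 0) (nat_lit 16770716469) (nat_lit 152) (nat_lit 12922999484) (nat_lit 228) (nat_lit 34856322078) (nat_lit 56) (nat_lit 5) (nat_lit 58) (nat_lit 5) (nat_lit 59) (nat_lit 5) (nat_lit 449) (nat_lit 417) (nat_lit 334)))) (XT.nd (nat_lit 156) (nat_lit 304) (nat_lit 0) (XT.nd (nat_lit 78) (nat_lit 228) (nat_lit 0) (XT.lf (nat_lit 0) (nat_lit 13656721134) (nat_lit 76) (nat_lit 45712187508) (nat_lit 152) (nat_lit 8565384195) (nat_lit 55) (nat_lit 5) (nat_lit 56) (nat_lit 5) (nat_lit 57) (nat_lit 4) (nat_lit 450) (nat_lit 417) (nat_lit 333)) (XT.lf (nat_lit 0) (nat_lit 9926509646) (nat_lit 152) (nat_lit 10477559255) (nat_lit 228) (nat_lit 51109246189) (nat_lit 52) (nat_lit 5) (nat_lit 54) (nat_lit 5) (nat_lit 55) (nat_lit 5) (nat_lit 451) (nat_lit 417) (nat_lit 332))) (XT.nd (nat_lit 78) (nat_lit 228) (nat_lit 0) (XT.lf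 (nat_lit 0) (nat_lit 5441632654) (nat_lit 76) (nat_lit 47421224517) (nat_lit 152) (nat_lit 22435188263) (nat_lit 51) (nat_lit 5) (nat_lit 52) (nat_lit 5) (nat_lit 53) (nat_lit 4) (nat_lit 452) (nat_lit 417) (nat_lit 331)) (XT.lf (nat_lit 0) (nat_lit 368569565) (nat_lit 152) (nat_lit 9155584453) (nat_lit 228) (nat_lit 69791516489) (nat_lit 48) (nat_lit 5) (nat_lit 50) (nat_lit 5) (nat_lit 51) (nat_lit 5) (nat_lit 453) (nat_lit 417) (nat_lit 330))))) (XT.nd (nat_lit 234) (nat_lit 456) (nat_lit 0) (XT.nd (nat_lit 78) (nat_lit 228) (nat_lit 0) (XT.lf (nat_lit 0) (nat_lit 44995748759) (nat_lit 228) (nat_lit 5803340706) (nat_lit 76) (nat_lit 32750150814) (nat_lit 48) (nat_lit 5) (nat_lit 51) (nat_lit 5) (nat_lit 49) (nat_lit 4) (nat_lit 454) (nat_lit 417) (nat_lit 329)) (XT.nd (nat_lit 78) (nat_lit 152) (nat_lit 0) (XT.lf (nat_lit 0) (nat_lit 75438098014) (nat_lit 76) (nat_lit 9191681013) (nat_lit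 152) (nat_lit 3425481609) (nat_lit 47) (nat_lit 5) (nat_lit 48) (nat_lit 5) (nat_lit 49) (nat_lit 4) (nat_lit 455) (nat_lit 417) (nat_lit 328)) (XT.lf (nat_lit 0) (nat_lit 35218289605) (nat_lit 152) (nat_lit 21193607049) (nat_lit 76) (nat_lit 36392417034) (nat_lit 45) (nat_lit 5) (nat_lit 47) (nat_lit 5) (nat_lit 46) (nat_lit 4) (nat_lit 456) (nat_lit 417) (nat_lit 327)))) (XT.nd (nat_lit 156) (nat_lit 228) (nat_lit 0) (XT.nd (nat_lit 78) (nat_lit 152) (nat_lit 0) (XT.lf (nat_lit 0) (nat_lit 67020554744) (nat_lit 76) (nat_lit 11232348470) (nat_lit 152) (nat_lit 19606612678) (nat_lit 44) (nat_lit 5) (nat_lit 45) (nat_lit 5) (nat_lit 46) (nat_lit 4) (nat_lit 457) (nat_lit 417) (nat_lit 326)) (XT.lf (nat_lit 0) (nat_lit 22665961507) (nat_lit 152) (nat_lit 42491149897) (nat_lit 76) (nat_lit 38048303732) (nat_lit 42) (nat_lit 5) (nat_lit 44) (nat_lit 5) (nat_lit 43) (nat_lit 4) (nat_lit 458) (nat_lit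 417) (nat_lit 325))) (XT.nd (nat_lit 78) (nat_lit 152) (nat_lit 0) (XT.lf (nat_lit 0) (nat_lit 52892399806) (nat_lit 76) (nat_lit 16304829415) (nat_lit 152) (nat_lit 39687495980) (nat_lit 41) (nat_lit 5) (nat_lit 42) (nat_lit 5) (nat_lit 43) (nat_lit 4) (nat_lit 459) (nat_lit 417) (nat_lit 324)) (XT.lf (nat_lit 0) (nat_lit 6313469599) (nat_lit 152) (nat_lit 71787918904) (nat_lit 76) (nat_lit 36812395384) (nat_lit 39) (nat_lit 5) (nat_lit 41) (nat_lit 5) (nat_lit 40) (nat_lit 4) (nat_lit 460) (nat_lit 417) (nat_lit 323))))))) (XT.nd (nat_lit 1092) (nat_lit 912) (nat_lit 0) (XT.nd (nat_lit 546) (nat_lit 608) (nat_lit 0) (XT.nd (nat_lit 234) (nat_lit 380) (nat_lit 0) (XT.nd (nat_lit 78) (nat_lit 152) (nat_lit 0) (XT.lf (nat_lit 0) (nat_lit 30810686976) (nat_lit 76) (nat_lit 25553093258) (nat_lit 152) (nat_lit 64940870300) (nat_lit 38) (nat_lit 5) (nat_lit 39) (nat_lit 5) (nat_lit 40) (nat_lit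 4) (nat_lit 461) (nat_lit 417) (nat_lit 322)) (XT.nd (nat_lit 78) (nat_lit 76) (nat_lit 0) (XT.lf (nat_lit 0) (nat_lit 16030312702) (nat_lit 76) (nat_lit 96390204495) (nat_lit 76) (nat_lit 15686149444) (nat_lit 37) (nat_lit 4) (nat_lit 38) (nat_lit 5) (nat_lit 38) (nat_lit 4) (nat_lit 462) (nat_lit 417) (nat_lit 321)) (XT.lf (nat_lit 0) (nat_lit 38335683838) (nat_lit 152) (nat_lit 2119602739) (nat_lit 76) (nat_lit 94866913877) (nat_lit 36) (nat_lit 5) (nat_lit 38) (nat_lit 5) (nat_lit 37) (nat_lit 4) (nat_lit 463) (nat_lit 417) (nat_lit 320)))) (XT.nd (nat_lit 156) (nat_lit 152) (nat_lit 0) (XT.nd (nat_lit 78) (nat_lit 152) (nat_lit 0) (XT.lf (nat_lit 0) (nat_lit 98354991658) (nat_lit 152) (nat_lit 23148662207) (nat_lit 0) (nat_lit 21487201064) (nat_lit 35) (nat_lit 5) (nat_lit 37) (nat_lit 4) (nat_lit 35) (nat_lit 4) (nat_lit 464) (nat_lit 417) (nat_lit 319)) (XT.lf (nat_lit 0) (nat_lit 13882034440)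 (nat_lit 152) (nat_lit 48412640728) (nat_lit 76) (nat_lit 88851027033) (nat_lit 33) (nat_lit 5) (nat_lit 35) (nat_lit 5) (nat_lit 34) (nat_lit 4) (nat_lit 465) (nat_lit 417) (nat_lit 318))) (XT.nd (nat_lit 78) (nat_lit 76) (nat_lit 0) (XT.lf (nat_lit 0) (nat_lit 77279962584) (nat_lit 152) (nat_lit 78481264652) (nat_lit 0) (nat_lit 4067002289) (nat_lit 32) (nat_lit 5) (nat_lit 34) (nat_lit 4) (nat_lit 32) (nat_lit 4) (nat_lit 466) (nat_lit 417) (nat_lit 317)) (XT.lf (nat_lit 0) (nat_lit 54730807305) (nat_lit 76) (nat_lit 93776060734) (nat_lit 76) (nat_lit 20560633967) (nat_lit 31) (nat_lit 4) (nat_lit 32) (nat_lit 5) (nat_lit 32) (nat_lit 4) (nat_lit 467) (nat_lit 417) (nat_lit 316))))) (XT.nd (nat_lit 234) (nat_lit 304) (nat_lit 0) (XT.nd (nat_lit 78) (nat_lit 152) (nat_lit 0) (XT.lf (nat_lit 0) (nat_lit 22385288534) (nat_lit 76) (nat_lit 24250320768) (nat_lit 152) (nat_lit 132287384230) (nat_lit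 29) (nat_lit 5) (nat_lit 30) (nat_lit 5) (nat_lit 31) (nat_lit 4) (nat_lit 468) (nat_lit 417) (nat_lit 315)) (XT.nd (nat_lit 78) (nat_lit 152) (nat_lit 0) (XT.lf (nat_lit 0) (nat_lit 121310258852) (nat_lit 152) (nat_lit 16521568035) (nat_lit 0) (nat_lit 51577092053) (nat_lit 29) (nat_lit 5) (nat_lit 31) (nat_lit 4) (nat_lit 29) (nat_lit 4) (nat_lit 469) (nat_lit 417) (nat_lit 314)) (XT.lf (nat_lit 0) (nat_lit 3798499617) (nat_lit 152) (nat_lit 61948107311) (nat_lit 76) (nat_lit 134855527606) (nat_lit 27) (nat_lit 5) (nat_lit 29) (nat_lit 5) (nat_lit 28) (nat_lit 4) (nat_lit 470) (nat_lit 417) (nat_lit 313)))) (XT.nd (nat_lit 156) (nat_lit 152) (nat_lit 0) (XT.nd (nat_lit 78) (nat_lit 76) (nat_lit 0) (XT.lf (nat_lit 0) (nat_lit 81118925579) (nat_lit 152) (nat_lit 116710230909) (nat_lit 0) (nat_lit 14702965457) (nat_lit 26) (nat_lit 5) (nat_lit 28) (nat_lit 4) (nat_lit 26) (nat_lit 4) (nat_lit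 471) (nat_lit 417) (nat_lit 312)) (XT.lf (nat_lit 0) (nat_lit 43315137081) (nat_lit 76) (nat_lit 124187486082) (nat_lit 76) (nat_lit 57770003386) (nat_lit 25) (nat_lit 4) (nat_lit 26) (nat_lit 5) (nat_lit 26) (nat_lit 4) (nat_lit 472) (nat_lit 417) (nat_lit 311))) (XT.nd (nat_lit 78) (nat_lit 76) (nat_lit 0) (XT.lf (nat_lit 0) (nat_lit 23130473995) (nat_lit 152) (nat_lit 19001420798) (nat_lit 76) (nat_lit 196780364765) (nat_lit 24) (nat_lit 5) (nat_lit 26) (nat_lit 5) (nat_lit 25) (nat_lit 4) (nat_lit 473) (nat_lit 417) (nat_lit 310)) (XT.lf (nat_lit 0) (nat_lit 111801708011) (nat_lit 152) (nat_lit 93083491174) (nat_lit 0) (nat_lit 48544376724) (nat_lit 23) (nat_lit 5) (nat_lit 25) (nat_lit 4) (nat_lit 23) (nat_lit 4) (nat_lit 474) (nat_lit 417) (nat_lit 309)))))) (XT.nd (nat_lit 546) (nat_lit 380) (nat_lit 0) (XT.nd (nat_lit 234) (nat_lit 304) (nat_lit 0) (XT.nd (nat_lit 78) (nat_lit 152)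 (nat_lit 0) (XT.lf (nat_lit 0) (nat_lit 87712690668) (nat_lit 76) (nat_lit 122266715543) (nat_lit 76) (nat_lit 59008233142) (nat_lit 22) (nat_lit 4) (nat_lit 23) (nat_lit 5) (nat_lit 23) (nat_lit 4) (nat_lit 475) (nat_lit 417) (nat_lit 308)) (XT.nd (nat_lit 78) (nat_lit 0) (nat_lit 0) (XT.lf (nat_lit 0) (nat_lit 84748635) (nat_lit 76) (nat_lit 30814908380) (nat_lit 152) (nat_lit 254784801983) (nat_lit 20) (nat_lit 5) (nat_lit 21) (nat_lit 5) (nat_lit 22) (nat_lit 4) (nat_lit 476) (nat_lit 417) (nat_lit 307)) (XT.lf (nat_lit 0) (nat_lit 130227537231) (nat_lit 152) (nat_lit 103246975105) (nat_lit 0) (nat_lit 69979408526) (nat_lit 20) (nat_lit 5) (nat_lit 22) (nat_lit 4) (nat_lit 20) (nat_lit 4) (nat_lit 477) (nat_lit 417) (nat_lit 306)))) (XT.nd (nat_lit 156) (nat_lit 152) (nat_lit 0) (XT.nd (nat_lit 78) (nat_lit 76) (nat_lit 0) (XT.lf (nat_lit 0) (nat_lit 96248799987) (nat_lit 76) (nat_lit 143272088346)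 (nat_lit 76) (nat_lit 83023089363) (nat_lit 19) (nat_lit 4) (nat_lit 20) (nat_lit 5) (nat_lit 20) (nat_lit 4) (nat_lit 478) (nat_lit 417) (nat_lit 305)) (XT.lf (nat_lit 0) (nat_lit 15760689498) (nat_lit 152) (nat_lit 27940391323) (nat_lit 76) (nat_lit 299357669936) (nat_lit 18) (nat_lit 5) (nat_lit 20) (nat_lit 5) (nat_lit 19) (nat_lit 4) (nat_lit 479) (nat_lit 417) (nat_lit 304))) (XT.nd (nat_lit 78) (nat_lit 76) (nat_lit 0) (XT.lf (nat_lit 0) (nat_lit 123624906998) (nat_lit 152) (nat_lit 175073994005) (nat_lit 0) (nat_lit 66243429934) (nat_lit 17) (nat_lit 5) (nat_lit 19) (nat_lit 4) (nat_lit 17) (nat_lit 4) (nat_lit 480) (nat_lit 417) (nat_lit 303)) (XT.lf (nat_lit 0) (nat_lit 38013674927) (nat_lit 76) (nat_lit 203926969272) (nat_lit 76) (nat_lit 146544834251) (nat_lit 16) (nat_lit 4) (nat_lit 17) (nat_lit 5) (nat_lit 17) (nat_lit 4) (nat_lit 481) (nat_lit 417) (nat_lit 302))))) (XT.nd (nat_lit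 234) (nat_lit 228) (nat_lit 0) (XT.nd (nat_lit 78) (nat_lit 152) (nat_lit 0) (XT.lf (nat_lit 0) (nat_lit 274395042510) (nat_lit 76) (nat_lit 98373711911) (nat_lit 76) (nat_lit 40990967672) (nat_lit 16) (nat_lit 4) (nat_lit 17) (nat_lit 5) (nat_lit 17) (nat_lit 4) (nat_lit 482) (nat_lit 417) (nat_lit 301)) (XT.nd (nat_lit 78) (nat_lit 0) (nat_lit 0) (XT.lf (nat_lit 0) (nat_lit 72364891804) (nat_lit 152) (nat_lit 350835180621) (nat_lit 0) (nat_lit 17714121965) (nat_lit 14) (nat_lit 5) (nat_lit 16) (nat_lit 4) (nat_lit 14) (nat_lit 4) (nat_lit 483) (nat_lit 417) (nat_lit 300)) (XT.lf (nat_lit 0) (nat_lit 197496155072) (nat_lit 152) (nat_lit 129659229529) (nat_lit 0) (nat_lit 142844887798) (nat_lit 14) (nat_lit 5) (nat_lit 16) (nat_lit 4) (nat_lit 14) (nat_lit 4) (nat_lit 484) (nat_lit 417) (nat_lit 299)))) (XT.nd (nat_lit 156) (nat_lit 152) (nat_lit 0) (XT.nd (nat_lit 78) (nat_lit 0) (nat_lit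 0) (XT.lf (nat_lit 0) (nat_lit 112817287783) (nat_lit 76) (nat_lit 221579857722) (nat_lit 76) (nat_lit 166928129860) (nat_lit 13) (nat_lit 4) (nat_lit 14) (nat_lit 5) (nat_lit 14) (nat_lit 4) (nat_lit 485) (nat_lit 417) (nat_lit 298)) (XT.lf (nat_lit 0) (nat_lit 379317837919) (nat_lit 76) (nat_lit 105188884813) (nat_lit 76) (nat_lit 50536730480) (nat_lit 13) (nat_lit 4) (nat_lit 14) (nat_lit 5) (nat_lit 14) (nat_lit 4) (nat_lit 486) (nat_lit 417) (nat_lit 297))) (XT.nd (nat_lit 78) (nat_lit 0) (nat_lit 0) (XT.lf (nat_lit 0) (nat_lit 74646939106) (nat_lit 152) (nat_lit 474062239430) (nat_lit 0) (nat_lit 22596892237) (nat_lit 11) (nat_lit 5) (nat_lit 13) (nat_lit 4) (nat_lit 11) (nat_lit 4) (nat_lit 487) (nat_lit 417) (nat_lit 296)) (XT.lf (nat_lit 0) (nat_lit 212627303604) (nat_lit 152) (nat_lit 236996433976) (nat_lit 0) (nat_lit 160576908516) (nat_lit 11) (nat_lit 5) (nat_lit 13) (nat_lit 4)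 (nat_lit 11) (nat_lit 4) (nat_lit 488) (nat_lit 417) (nat_lit 295))))))))
noncomputable def xc75 : XT := (XT.nd (nat_lit 58266) (nat_lit 0) (nat_lit 2432) (XT.nd (nat_lit 57174) (nat_lit 0) (nat_lit 6916) (XT.nd (nat_lit 546) (nat_lit 152) (nat_lit 0) (XT.nd (nat_lit 234) (nat_lit 228) (nat_lit 0) (XT.nd (nat_lit 78) (nat_lit 0) (nat_lit 0) (XT.lf (nat_lit 0) (nat_lit 19660347611) (nat_lit 76) (nat_lit 342290948705) (nat_lit 76) (nat_lit 290240231192) (nat_lit 10) (nat_lit 4) (nat_lit 11) (nat_lit 5) (nat_lit 11) (nat_lit 4) (nat_lit 489) (nat_lit 417) (nat_lit 294)) (XT.nd (nat_lit 78) (nat_lit 0) (nat_lit 0) (XT.lf (nat_lit 0) (nat_lit 305309349665) (nat_lit 76) (nat_lit 222038506721) (nat_lit 76) (nat_lit 169987490666) (nat_lit 10) (nat_lit 4) (nat_lit 11) (nat_lit 5) (nat_lit 11) (nat_lit 4) (nat_lit 490) (nat_lit 417) (nat_lit 293)) (XT.lf (nat_lit 0) (nat_lit 613807134599) (nat_lit 76)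 (nat_lit 92167453848) (nat_lit 76) (nat_lit 40116161367) (nat_lit 10) (nat_lit 4) (nat_lit 11) (nat_lit 5) (nat_lit 11) (nat_lit 4) (nat_lit 491) (nat_lit 417) (nat_lit 292)))) (XT.nd (nat_lit 156) (nat_lit 76) (nat_lit 0) (XT.nd (nat_lit 78) (nat_lit 0) (nat_lit 0) (XT.lf (nat_lit 0) (nat_lit 100119084466) (nat_lit 152) (nat_lit 647844168458) (nat_lit 0) (nat_lit 50546181197) (nat_lit 8) (nat_lit 5) (nat_lit 10) (nat_lit 4) (nat_lit 8) (nat_lit 4) (nat_lit 492) (nat_lit 417) (nat_lit 291)) (XT.lf (nat_lit 0) (nat_lit 254081227538) (nat_lit 152) (nat_lit 396303727363) (nat_lit 0) (nat_lit 204508098563) (nat_lit 8) (nat_lit 5) (nat_lit 10) (nat_lit 4) (nat_lit 8) (nat_lit 4) (nat_lit 493) (nat_lit 417) (nat_lit 290))) (XT.nd (nat_lit 78) (nat_lit 76) (nat_lit 0) (XT.lf (nat_lit 0) (nat_lit 420359027688) (nat_lit 152) (nat_lit 124642710670) (nat_lit 0) (nat_lit 370785689725) (nat_lit 8) (nat_lit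 5) (nat_lit 10) (nat_lit 4) (nat_lit 8) (nat_lit 4) (nat_lit 494) (nat_lit 417) (nat_lit 289)) (XT.lf (nat_lit 0) (nat_lit 174328319612) (nat_lit 76) (nat_lit 428331268854) (nat_lit 76) (nat_lit 378757737384) (nat_lit 7) (nat_lit 4) (nat_lit 8) (nat_lit 5) (nat_lit 8) (nat_lit 4) (nat_lit 495) (nat_lit 417) (nat_lit 288))))) (XT.nd (nat_lit 234) (nat_lit 0) (nat_lit 0) (XT.nd (nat_lit 78) (nat_lit 152) (nat_lit 0) (XT.lf (nat_lit 0) (nat_lit 501665627657) (nat_lit 76) (nat_lit 300048598418) (nat_lit 76) (nat_lit 250474887774) (nat_lit 7) (nat_lit 4) (nat_lit 8) (nat_lit 5) (nat_lit 8) (nat_lit 4) (nat_lit 496) (nat_lit 417) (nat_lit 287)) (XT.nd (nat_lit 78) (nat_lit 152) (nat_lit 0) (XT.lf (nat_lit 0) (nat_lit 855187739187) (nat_lit 76) (nat_lit 161504418063) (nat_lit 76) (nat_lit 111930541518) (nat_lit 7) (nat_lit 4) (nat_lit 8) (nat_lit 5) (nat_lit 8) (nat_lit 4) (nat_lit 497) (nat_lit 417)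 (nat_lit 286)) (XT.lf (nat_lit 0) (nat_lit 26064253604) (nat_lit 76) (nat_lit 10832470181) (nat_lit 152) (nat_lit 1174224522535) (nat_lit 5) (nat_lit 5) (nat_lit 6) (nat_lit 5) (nat_lit 7) (nat_lit 4) (nat_lit 498) (nat_lit 417) (nat_lit 285)))) (XT.nd (nat_lit 56238) (nat_lit 0) (nat_lit 10108) (XT.nd (nat_lit 56160) (nat_lit 0) (nat_lit 10032) (XT.lf (nat_lit 0) (nat_lit 200972733391) (nat_lit 152) (nat_lit 945032758868) (nat_lit 0) (nat_lit 153759235877) (nat_lit 5) (nat_lit 5) (nat_lit 7) (nat_lit 4) (nat_lit 5) (nat_lit 4) (nat_lit 499) (nat_lit 417) (nat_lit 284)) (XT.lf (nat_lit 0) (nat_lit 1476626491) (nat_lit 836) (nat_lit 3361248662) (nat_lit 836) (nat_lit 3361248662) (nat_lit 137) (nat_lit 3) (nat_lit 148) (nat_lit 3) (nat_lit 148) (nat_lit 5) (nat_lit 418) (nat_lit 418) (nat_lit 364))) (XT.nd (nat_lit 78) (nat_lit 0) (nat_lit 0) (XT.lf (nat_lit 0) (nat_lit 3599806550) (nat_lit 760)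 (nat_lit 10634779164) (nat_lit 836) (nat_lit 2793081651) (nat_lit 138) (nat_lit 5) (nat_lit 148) (nat_lit 5) (nat_lit 149) (nat_lit 5) (nat_lit 419) (nat_lit 418) (nat_lit 363)) (XT.lf (nat_lit 76) (nat_lit 3004059088) (nat_lit 0) (nat_lit 1584752598) (nat_lit 836) (nat_lit 13104101528) (nat_lit 139) (nat_lit 5) (nat_lit 138) (nat_lit 5) (nat_lit 149) (nat_lit 5) (nat_lit 420) (nat_lit 418) (nat_lit 362)))))) (XT.nd (nat_lit 546) (nat_lit 1900) (nat_lit 0) (XT.nd (nat_lit 234) (nat_lit 1368) (nat_lit 0) (XT.nd (nat_lit 78) (nat_lit 0) (nat_lit 76) (XT.lf (nat_lit 0) (nat_lit 5998148742) (nat_lit 760) (nat_lit 503954851) (nat_lit 836) (nat_lit 11892222808) (nat_lit 139) (nat_lit 5) (nat_lit 149) (nat_lit 5) (nat_lit 150) (nat_lit 5) (nat_lit 421) (nat_lit 418) (nat_lit 361)) (XT.nd (nat_lit 78) (nat_lit 0) (nat_lit 76) (XT.lf (nat_lit 0) (nat_lit 7869276014) (nat_lit 760) (nat_lit 4002370569)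 (nat_lit 836) (nat_lit 7262761532) (nat_lit 140) (nat_lit 5) (nat_lit 150) (nat_lit 5) (nat_lit 151) (nat_lit 5) (nat_lit 422) (nat_lit 418) (nat_lit 360)) (XT.lf (nat_lit 0) (nat_lit 10205281683) (nat_lit 760) (nat_lit 7587230597) (nat_lit 836) (nat_lit 2125431744) (nat_lit 141) (nat_lit 5) (nat_lit 151) (nat_lit 5) (nat_lit 152) (nat_lit 5) (nat_lit 423) (nat_lit 418) (nat_lit 359)))) (XT.nd (nat_lit 156) (nat_lit 836) (nat_lit 0) (XT.nd (nat_lit 78) (nat_lit 684) (nat_lit 0) (XT.lf (nat_lit 76) (nat_lit 9429653071) (nat_lit 0) (nat_lit 3688085557) (nat_lit 836) (nat_lit 7626952181) (nat_lit 142) (nat_lit 5) (nat_lit 141) (nat_lit 5) (nat_lit 152) (nat_lit 5) (nat_lit 424) (nat_lit 418) (nat_lit 358)) (XT.lf (nat_lit 0) (nat_lit 6447893772) (nat_lit 760) (nat_lit 10203695544) (nat_lit 836) (nat_lit 4966574223) (nat_lit 132) (nat_lit 5) (nat_lit 142) (nat_lit 5) (nat_lit 143) (nat_lit 5) (nat_lit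 425) (nat_lit 418) (nat_lit 357))) (XT.nd (nat_lit 78) (nat_lit 456) (nat_lit 0) (XT.lf (nat_lit 0) (nat_lit 3426667621) (nat_lit 380) (nat_lit 17409977793) (nat_lit 456) (nat_lit 1706449414) (nat_lit 127) (nat_lit 5) (nat_lit 132) (nat_lit 5) (nat_lit 133) (nat_lit 5) (nat_lit 426) (nat_lit 418) (nat_lit 356)) (XT.lf (nat_lit 0) (nat_lit 305401952) (nat_lit 380) (nat_lit 1872348051) (nat_lit 456) (nat_lit 21341792134) (nat_lit 121) (nat_lit 5) (nat_lit 126) (nat_lit 5) (nat_lit 127) (nat_lit 5) (nat_lit 427) (nat_lit 418) (nat_lit 355))))) (XT.nd (nat_lit 234) (nat_lit 1216) (nat_lit 0) (XT.nd (nat_lit 78) (nat_lit 684) (nat_lit 0) (XT.lf (nat_lit 0) (nat_lit 6862265517) (nat_lit 456) (nat_lit 2884858439) (nat_lit 76) (nat_lit 14798118834) (nat_lit 121) (nat_lit 5) (nat_lit 127) (nat_lit 5) (nat_lit 122) (nat_lit 5) (nat_lit 428) (nat_lit 418) (nat_lit 354)) (XT.nd (nat_lit 78) (nat_lit 304)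 (nat_lit 0) (XT.lf (nat_lit 0) (nat_lit 12354509529) (nat_lit 456) (nat_lit 6107047594) (nat_lit 76) (nat_lit 7169798254) (nat_lit 116) (nat_lit 5) (nat_lit 122) (nat_lit 5) (nat_lit 117) (nat_lit 5) (nat_lit 429) (nat_lit 418) (nat_lit 353)) (XT.lf (nat_lit 0) (nat_lit 17396757548) (nat_lit 304) (nat_lit 1356644556) (nat_lit 380) (nat_lit 8027595342) (nat_lit 112) (nat_lit 5) (nat_lit 116) (nat_lit 5) (nat_lit 117) (nat_lit 5) (nat_lit 430) (nat_lit 418) (nat_lit 352)))) (XT.nd (nat_lit 156) (nat_lit 532) (nat_lit 0) (XT.nd (nat_lit 78) (nat_lit 380) (nat_lit 0) (XT.lf (nat_lit 0) (nat_lit 15176230054) (nat_lit 304) (nat_lit 11081600934) (nat_lit 380) (nat_lit 1735102284) (nat_lit 108) (nat_lit 5) (nat_lit 112) (nat_lit 5) (nat_lit 113) (nat_lit 5) (nat_lit 431) (nat_lit 418) (nat_lit 351)) (XT.lf (nat_lit 0) (nat_lit 5394569028) (nat_lit 380) (nat_lit 16366527869) (nat_lit 76) (nat_lit 7511991835)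 (nat_lit 103) (nat_lit 5) (nat_lit 108) (nat_lit 5) (nat_lit 104) (nat_lit 5) (nat_lit 432) (nat_lit 418) (nat_lit 350))) (XT.nd (nat_lit 78) (nat_lit 228) (nat_lit 0) (XT.lf (nat_lit 0) (nat_lit 10598674791) (nat_lit 304) (nat_lit 2998230475) (nat_lit 380) (nat_lit 17029178079) (nat_lit 99) (nat_lit 5) (nat_lit 103) (nat_lit 5) (nat_lit 104) (nat_lit 5) (nat_lit 433) (nat_lit 418) (nat_lit 349)) (XT.lf (nat_lit 0) (nat_lit 8199221260) (nat_lit 228) (nat_lit 14927433574) (nat_lit 304) (nat_lit 8927104120) (nat_lit 96) (nat_lit 5) (nat_lit 99) (nat_lit 5) (nat_lit 100) (nat_lit 5) (nat_lit 434) (nat_lit 418) (nat_lit 348))))))) (XT.nd (nat_lit 1092) (nat_lit 1748) (nat_lit 0) (XT.nd (nat_lit 546) (nat_lit 1368) (nat_lit 0) (XT.nd (nat_lit 234) (nat_lit 608) (nat_lit 0) (XT.nd (nat_lit 78) (nat_lit 456) (nat_lit 0) (XT.lf (nat_lit 0) (nat_lit 398948047) (nat_lit 304) (nat_lit 27723085450) (nat_lit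 76) (nat_lit 5445248032) (nat_lit 92) (nat_lit 5) (nat_lit 96) (nat_lit 5) (nat_lit 93) (nat_lit 5) (nat_lit 435) (nat_lit 418) (nat_lit 347)) (XT.nd (nat_lit 78) (nat_lit 228) (nat_lit 0) (XT.lf (nat_lit 0) (nat_lit 3264229585) (nat_lit 228) (nat_lit 7608534743) (nat_lit 304) (nat_lit 24286084419) (nat_lit 89) (nat_lit 5) (nat_lit 92) (nat_lit 5) (nat_lit 93) (nat_lit 5) (nat_lit 436) (nat_lit 418) (nat_lit 346)) (XT.lf (nat_lit 0) (nat_lit 631645894) (nat_lit 228) (nat_lit 22266582442) (nat_lit 304) (nat_lit 13943827964) (nat_lit 86) (nat_lit 5) (nat_lit 89) (nat_lit 5) (nat_lit 90) (nat_lit 5) (nat_lit 437) (nat_lit 418) (nat_lit 345)))) (XT.nd (nat_lit 156) (nat_lit 380) (nat_lit 0) (XT.nd (nat_lit 78) (nat_lit 228) (nat_lit 0) (XT.lf (nat_lit 0) (nat_lit 36557222147) (nat_lit 304) (nat_lit 1882659595) (nat_lit 76) (nat_lit 186466007) (nat_lit 86) (nat_lit 5) (nat_lit 90) (nat_lit 5) (nat_lit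 87) (nat_lit 5) (nat_lit 438) (nat_lit 418) (nat_lit 344)) (XT.lf (nat_lit 0) (nat_lit 11350732245) (nat_lit 228) (nat_lit 4742493234) (nat_lit 76) (nat_lit 24404791306) (nat_lit 83) (nat_lit 5) (nat_lit 86) (nat_lit 5) (nat_lit 84) (nat_lit 5) (nat_lit 439) (nat_lit 418) (nat_lit 343))) (XT.nd (nat_lit 78) (nat_lit 152) (nat_lit 0) (XT.lf (nat_lit 0) (nat_lit 26476320941) (nat_lit 304) (nat_lit 7603351848) (nat_lit 76) (nat_lit 8402820409) (nat_lit 80) (nat_lit 5) (nat_lit 84) (nat_lit 5) (nat_lit 81) (nat_lit 5) (nat_lit 440) (nat_lit 418) (nat_lit 342)) (XT.lf (nat_lit 0) (nat_lit 34016359100) (nat_lit 152) (nat_lit 9670555427) (nat_lit 228) (nat_lit 895066762) (nat_lit 78) (nat_lit 5) (nat_lit 80) (nat_lit 5) (nat_lit 81) (nat_lit 5) (nat_lit 441) (nat_lit 418) (nat_lit 341))))) (XT.nd (nat_lit 234) (nat_lit 684) (nat_lit 0) (XT.nd (nat_lit 78) (nat_lit 380) (nat_lit 0) (XT.lf (nat_lit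 0) (nat_lit 15848228111) (nat_lit 304) (nat_lit 13884109779) (nat_lit 76) (nat_lit 17059200756) (nat_lit 74) (nat_lit 5) (nat_lit 78) (nat_lit 5) (nat_lit 75) (nat_lit 5) (nat_lit 442) (nat_lit 418) (nat_lit 340)) (XT.nd (nat_lit 78) (nat_lit 228) (nat_lit 0) (XT.lf (nat_lit 0) (nat_lit 31889264097) (nat_lit 152) (nat_lit 2848192421) (nat_lit 228) (nat_lit 14397780165) (nat_lit 72) (nat_lit 5) (nat_lit 74) (nat_lit 5) (nat_lit 75) (nat_lit 5) (nat_lit 443) (nat_lit 418) (nat_lit 339)) (XT.lf (nat_lit 0) (nat_lit 4502827122) (nat_lit 228) (nat_lit 20963318603) (nat_lit 76) (nat_lit 26140448941) (nat_lit 69) (nat_lit 5) (nat_lit 72) (nat_lit 5) (nat_lit 70) (nat_lit 5) (nat_lit 444) (nat_lit 418) (nat_lit 338)))) (XT.nd (nat_lit 156) (nat_lit 380) (nat_lit 0) (XT.nd (nat_lit 78) (nat_lit 152) (nat_lit 0) (XT.lf (nat_lit 0) (nat_lit 25283934792) (nat_lit 228) (nat_lit 24941892787) (nat_lit 76)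 (nat_lit 3994389225) (nat_lit 67) (nat_lit 5) (nat_lit 70) (nat_lit 5) (nat_lit 68) (nat_lit 5) (nat_lit 445) (nat_lit 418) (nat_lit 337)) (XT.lf (nat_lit 0) (nat_lit 27698259676) (nat_lit 152) (nat_lit 21252834860) (nat_lit 228) (nat_lit 8030656904) (nat_lit 65) (nat_lit 5) (nat_lit 67) (nat_lit 5) (nat_lit 68) (nat_lit 5) (nat_lit 446) (nat_lit 418) (nat_lit 336))) (XT.nd (nat_lit 78) (nat_lit 152) (nat_lit 0) (XT.lf (nat_lit 0) (nat_lit 15095752741) (nat_lit 228) (nat_lit 34002450515) (nat_lit 76) (nat_lit 10803952945) (nat_lit 62) (nat_lit 5) (nat_lit 65) (nat_lit 5) (nat_lit 63) (nat_lit 5) (nat_lit 447) (nat_lit 418) (nat_lit 335)) (XT.lf (nat_lit 0) (nat_lit 23755415875) (nat_lit 152) (nat_lit 17278188799) (nat_lit 228) (nat_lit 21953872666) (nat_lit 60) (nat_lit 5) (nat_lit 62) (nat_lit 5) (nat_lit 63) (nat_lit 5) (nat_lit 448) (nat_lit 418) (nat_lit 334)))))) (XT.nd (nat_lit 546) (nat_lit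 836) (nat_lit 0) (XT.nd (nat_lit 234) (nat_lit 532) (nat_lit 0) (XT.nd (nat_lit 78) (nat_lit 228) (nat_lit 0) (XT.lf (nat_lit 0) (nat_lit 3854451298) (nat_lit 152) (nat_lit 44868763309) (nat_lit 76) (nat_lit 17533538150) (nat_lit 58) (nat_lit 5) (nat_lit 60) (nat_lit 5) (nat_lit 59) (nat_lit 5) (nat_lit 449) (nat_lit 418) (nat_lit 333)) (XT.nd (nat_lit 78) (nat_lit 76) (nat_lit 0) (XT.lf (nat_lit 0) (nat_lit 18407001574) (nat_lit 152) (nat_lit 13826697591) (nat_lit 228) (nat_lit 37472105927) (nat_lit 56) (nat_lit 5) (nat_lit 58) (nat_lit 5) (nat_lit 59) (nat_lit 5) (nat_lit 450) (nat_lit 418) (nat_lit 332)) (XT.lf (nat_lit 0) (nat_lit 15037016928) (nat_lit 76) (nat_lit 49240080278) (nat_lit 152) (nat_lit 9083994445) (nat_lit 55) (nat_lit 5) (nat_lit 56) (nat_lit 5) (nat_lit 57) (nat_lit 4) (nat_lit 451) (nat_lit 418) (nat_lit 331)))) (XT.nd (nat_lit 156) (nat_lit 228) (nat_lit 0) (XT.nd (nat_lit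 78) (nat_lit 76) (nat_lit 0) (XT.lf (nat_lit 0) (nat_lit 11000993896) (nat_lit 152) (nat_lit 11189118138) (nat_lit 228) (nat_lit 55036572843) (nat_lit 52) (nat_lit 5) (nat_lit 54) (nat_lit 5) (nat_lit 55) (nat_lit 5) (nat_lit 452) (nat_lit 418) (nat_lit 330)) (XT.lf (nat_lit 0) (nat_lit 6150612112) (nat_lit 76) (nat_lit 51089708018) (nat_lit 152) (nat_lit 24074138385) (nat_lit 51) (nat_lit 5) (nat_lit 52) (nat_lit 5) (nat_lit 53) (nat_lit 4) (nat_lit 453) (nat_lit 418) (nat_lit 329))) (XT.nd (nat_lit 78) (nat_lit 0) (nat_lit 0) (XT.lf (nat_lit 0) (nat_lit 664591429) (nat_lit 152) (nat_lit 9765356556) (nat_lit 228) (nat_lit 75223775291) (nat_lit 48) (nat_lit 5) (nat_lit 50) (nat_lit 5) (nat_lit 51) (nat_lit 5) (nat_lit 454) (nat_lit 418) (nat_lit 328)) (XT.lf (nat_lit 0) (nat_lit 48730387308) (nat_lit 228) (nat_lit 6015921040) (nat_lit 76) (nat_lit 35480115008) (nat_lit 48) (nat_lit 5) (nat_lit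 51) (nat_lit 5) (nat_lit 49) (nat_lit 4) (nat_lit 455) (nat_lit 418) (nat_lit 327))))) (XT.nd (nat_lit 312) (nat_lit 380) (nat_lit 0) (XT.nd (nat_lit 156) (nat_lit 228) (nat_lit 0) (XT.nd (nat_lit 78) (nat_lit 152) (nat_lit 0) (XT.lf (nat_lit 0) (nat_lit 81713894770) (nat_lit 76) (nat_lit 9815005573) (nat_lit 152) (nat_lit 3564337514) (nat_lit 47) (nat_lit 5) (nat_lit 48) (nat_lit 5) (nat_lit 49) (nat_lit 4) (nat_lit 456) (nat_lit 418) (nat_lit 326)) (XT.lf (nat_lit 0) (nat_lit 38162287089) (nat_lit 152) (nat_lit 22650128858) (nat_lit 76) (nat_lit 39409910230) (nat_lit 45) (nat_lit 5) (nat_lit 47) (nat_lit 5) (nat_lit 46) (nat_lit 4) (nat_lit 457) (nat_lit 418) (nat_lit 325))) (XT.nd (nat_lit 78) (nat_lit 152) (nat_lit 0) (XT.lf (nat_lit 0) (nat_lit 72610780674) (nat_lit 76) (nat_lit 12023084999) (nat_lit 152) (nat_lit 21048369527) (nat_lit 44) (nat_lit 5) (nat_lit 45) (nat_lit 5) (nat_lit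 46) (nat_lit 4) (nat_lit 458) (nat_lit 418) (nat_lit 324)) (XT.lf (nat_lit 0) (nat_lit 24597983625) (nat_lit 152) (nat_lit 45663694448) (nat_lit 76) (nat_lit 41194228204) (nat_lit 42) (nat_lit 5) (nat_lit 44) (nat_lit 5) (nat_lit 43) (nat_lit 4) (nat_lit 459) (nat_lit 418) (nat_lit 323)))) (XT.nd (nat_lit 156) (nat_lit 152) (nat_lit 0) (XT.nd (nat_lit 78) (nat_lit 152) (nat_lit 0) (XT.lf (nat_lit 0) (nat_lit 57340685063) (nat_lit 76) (nat_lit 17505658064) (nat_lit 152) (nat_lit 42743488858) (nat_lit 41) (nat_lit 5) (nat_lit 42) (nat_lit 5) (nat_lit 43) (nat_lit 4) (nat_lit 460) (nat_lit 418) (nat_lit 322)) (XT.lf (nat_lit 0) (nat_lit 6930087226) (nat_lit 152) (nat_lit 77315914910) (nat_lit 76) (nat_lit 39855303532) (nat_lit 39) (nat_lit 5) (nat_lit 41) (nat_lit 5) (nat_lit 40) (nat_lit 4) (nat_lit 461) (nat_lit 418) (nat_lit 321))) (XT.nd (nat_lit 78) (nat_lit 76) (nat_lit 0) (XT.lf (nat_lit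 0) (nat_lit 33481234172) (nat_lit 76) (nat_lit 27498137745) (nat_lit 152) (nat_lit 70024322560) (nat_lit 38) (nat_lit 5) (nat_lit 39) (nat_lit 5) (nat_lit 40) (nat_lit 4) (nat_lit 462) (nat_lit 418) (nat_lit 320)) (XT.lf (nat_lit 0) (nat_lit 17513105843) (nat_lit 76) (nat_lit 104004216317) (nat_lit 76) (nat_lit 16832716267) (nat_lit 37) (nat_lit 4) (nat_lit 38) (nat_lit 5) (nat_lit 38) (nat_lit 4) (nat_lit 463) (nat_lit 418) (nat_lit 319))))))))
noncomputable def xc76 : XT := (XT.nd (nat_lit 2184) (nat_lit 380) (nat_lit 0) (XT.nd (nat_lit 1092) (nat_lit 760) (nat_lit 0) (XT.nd (nat_lit 546) (nat_lit 684) (nat_lit 0) (XT.nd (nat_lit 234) (nat_lit 304) (nat_lit 0) (XT.nd (nat_lit 78) (nat_lit 228) (nat_lit 0) (XT.lf (nat_lit 0) (nat_lit 41499629334) (nat_lit 152) (nat_lit 2100431688) (nat_lit 76) (nat_lit 102543057960) (nat_lit 36) (nat_lit 5) (nat_lit 38) (nat_lit 5) (nat_lit 37) (nat_lit 4)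 (nat_lit 464) (nat_lit 418) (nat_lit 318)) (XT.nd (nat_lit 78) (nat_lit 152) (nat_lit 0) (XT.lf (nat_lit 0) (nat_lit 106317479662) (nat_lit 152) (nat_lit 24816750771) (nat_lit 0) (nat_lit 23291185708) (nat_lit 35) (nat_lit 5) (nat_lit 37) (nat_lit 4) (nat_lit 35) (nat_lit 4) (nat_lit 465) (nat_lit 418) (nat_lit 317)) (XT.lf (nat_lit 0) (nat_lit 15083936969) (nat_lit 152) (nat_lit 52106812960) (nat_lit 76) (nat_lit 96042039035) (nat_lit 33) (nat_lit 5) (nat_lit 35) (nat_lit 5) (nat_lit 34) (nat_lit 4) (nat_lit 466) (nat_lit 418) (nat_lit 316)))) (XT.nd (nat_lit 156) (nat_lit 152) (nat_lit 0) (XT.nd (nat_lit 78) (nat_lit 76) (nat_lit 0) (XT.lf (nat_lit 0) (nat_lit 83550912990) (nat_lit 152) (nat_lit 84585643144) (nat_lit 0) (nat_lit 4473501839) (nat_lit 32) (nat_lit 5) (nat_lit 34) (nat_lit 4) (nat_lit 32) (nat_lit 4) (nat_lit 467) (nat_lit 418) (nat_lit 315)) (XT.lf (nat_lit 0) (nat_lit 59275827410)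 (nat_lit 76) (nat_lit 101196184358) (nat_lit 76) (nat_lit 22116658606) (nat_lit 31) (nat_lit 4) (nat_lit 32) (nat_lit 5) (nat_lit 32) (nat_lit 4) (nat_lit 468) (nat_lit 418) (nat_lit 314))) (XT.nd (nat_lit 78) (nat_lit 0) (nat_lit 0) (XT.lf (nat_lit 0) (nat_lit 24338150167) (nat_lit 76) (nat_lit 26110451727) (nat_lit 152) (nat_lit 142784122096) (nat_lit 29) (nat_lit 5) (nat_lit 30) (nat_lit 5) (nat_lit 31) (nat_lit 4) (nat_lit 469) (nat_lit 418) (nat_lit 313)) (XT.lf (nat_lit 0) (nat_lit 131092293659) (nat_lit 152) (nat_lit 17690608112) (nat_lit 0) (nat_lit 55774868281) (nat_lit 29) (nat_lit 5) (nat_lit 31) (nat_lit 4) (nat_lit 29) (nat_lit 4) (nat_lit 470) (nat_lit 418) (nat_lit 312))))) (XT.nd (nat_lit 234) (nat_lit 380) (nat_lit 0) (XT.nd (nat_lit 78) (nat_lit 152) (nat_lit 0) (XT.lf (nat_lit 0) (nat_lit 4177365314) (nat_lit 152) (nat_lit 66755425187) (nat_lit 76) (nat_lit 145713764013)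 (nat_lit 27) (nat_lit 5) (nat_lit 29) (nat_lit 5) (nat_lit 28) (nat_lit 4) (nat_lit 471) (nat_lit 418) (nat_lit 311)) (XT.nd (nat_lit 78) (nat_lit 76) (nat_lit 0) (XT.lf (nat_lit 0) (nat_lit 87681188607) (nat_lit 152) (nat_lit 125902489332) (nat_lit 0) (nat_lit 15947374928) (nat_lit 26) (nat_lit 5) (nat_lit 28) (nat_lit 4) (nat_lit 26) (nat_lit 4) (nat_lit 472) (nat_lit 418) (nat_lit 310)) (XT.lf (nat_lit 0) (nat_lit 46918625694) (nat_lit 76) (nat_lit 134053726392) (nat_lit 76) (nat_lit 62318607350) (nat_lit 25) (nat_lit 4) (nat_lit 26) (nat_lit 5) (nat_lit 26) (nat_lit 4) (nat_lit 473) (nat_lit 418) (nat_lit 309)))) (XT.nd (nat_lit 156) (nat_lit 228) (nat_lit 0) (XT.nd (nat_lit 78) (nat_lit 76) (nat_lit 0) (XT.lf (nat_lit 0) (nat_lit 25046337811) (nat_lit 152) (nat_lit 20391335197) (nat_lit 76) (nat_lit 212584294887) (nat_lit 24) (nat_lit 5) (nat_lit 26) (nat_lit 5) (nat_lit 25) (nat_lit 4)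 (nat_lit 474) (nat_lit 418) (nat_lit 308)) (XT.lf (nat_lit 0) (nat_lit 120809336879) (nat_lit 152) (nat_lit 100403470517) (nat_lit 0) (nat_lit 52487958927) (nat_lit 23) (nat_lit 5) (nat_lit 25) (nat_lit 4) (nat_lit 23) (nat_lit 4) (nat_lit 475) (nat_lit 418) (nat_lit 307))) (XT.nd (nat_lit 78) (nat_lit 152) (nat_lit 0) (XT.lf (nat_lit 0) (nat_lit 94850899646) (nat_lit 76) (nat_lit 131987540334) (nat_lit 76) (nat_lit 63665175488) (nat_lit 22) (nat_lit 4) (nat_lit 23) (nat_lit 5) (nat_lit 23) (nat_lit 4) (nat_lit 476) (nat_lit 418) (nat_lit 306)) (XT.lf (nat_lit 0) (nat_lit 209406895) (nat_lit 76) (nat_lit 33221171413) (nat_lit 152) (nat_lit 275105689118) (nat_lit 20) (nat_lit 5) (nat_lit 21) (nat_lit 5) (nat_lit 22) (nat_lit 4) (nat_lit 477) (nat_lit 418) (nat_lit 305)))))) (XT.nd (nat_lit 546) (nat_lit 304) (nat_lit 0) (XT.nd (nat_lit 234) (nat_lit 304) (nat_lit 0) (XT.nd (nat_lit 78) (nat_lit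 152) (nat_lit 0) (XT.lf (nat_lit 0) (nat_lit 140701174274) (nat_lit 152) (nat_lit 111395708479) (nat_lit 0) (nat_lit 75630579283) (nat_lit 20) (nat_lit 5) (nat_lit 22) (nat_lit 4) (nat_lit 20) (nat_lit 4) (nat_lit 478) (nat_lit 418) (nat_lit 304)) (XT.nd (nat_lit 78) (nat_lit 76) (nat_lit 0) (XT.lf (nat_lit 0) (nat_lit 104054903626) (nat_lit 76) (nat_lit 154680641685) (nat_lit 76) (nat_lit 89609300572) (nat_lit 19) (nat_lit 4) (nat_lit 20) (nat_lit 5) (nat_lit 20) (nat_lit 4) (nat_lit 479) (nat_lit 418) (nat_lit 303)) (XT.lf (nat_lit 0) (nat_lit 17071410623) (nat_lit 152) (nat_lit 30075640189) (nat_lit 76) (nat_lit 323353906060) (nat_lit 18) (nat_lit 5) (nat_lit 20) (nat_lit 5) (nat_lit 19) (nat_lit 4) (nat_lit 480) (nat_lit 418) (nat_lit 302)))) (XT.nd (nat_lit 156) (nat_lit 152) (nat_lit 0) (XT.nd (nat_lit 78) (nat_lit 76) (nat_lit 0) (XT.lf (nat_lit 0) (nat_lit 133563313892) (nat_lit 152)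 (nat_lit 188982641311) (nat_lit 0) (nat_lit 71589340894) (nat_lit 17) (nat_lit 5) (nat_lit 19) (nat_lit 4) (nat_lit 17) (nat_lit 4) (nat_lit 481) (nat_lit 418) (nat_lit 301)) (XT.lf (nat_lit 0) (nat_lit 41147813804) (nat_lit 76) (nat_lit 220194362709) (nat_lit 76) (nat_lit 158219825620) (nat_lit 16) (nat_lit 4) (nat_lit 17) (nat_lit 5) (nat_lit 17) (nat_lit 4) (nat_lit 482) (nat_lit 418) (nat_lit 300))) (XT.nd (nat_lit 78) (nat_lit 152) (nat_lit 0) (XT.lf (nat_lit 0) (nat_lit 296432798580) (nat_lit 76) (nat_lit 106200308768) (nat_lit 76) (nat_lit 44225249372) (nat_lit 16) (nat_lit 4) (nat_lit 17) (nat_lit 5) (nat_lit 17) (nat_lit 4) (nat_lit 483) (nat_lit 418) (nat_lit 299)) (XT.lf (nat_lit 0) (nat_lit 78196378591) (nat_lit 152) (nat_lit 378816784213) (nat_lit 0) (nat_lit 19172051912) (nat_lit 14) (nat_lit 5) (nat_lit 16) (nat_lit 4) (nat_lit 14) (nat_lit 4) (nat_lit 484) (nat_lit 418) (nat_lit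 298))))) (XT.nd (nat_lit 234) (nat_lit 228) (nat_lit 0) (XT.nd (nat_lit 78) (nat_lit 76) (nat_lit 0) (XT.lf (nat_lit 0) (nat_lit 213335009925) (nat_lit 152) (nat_lit 139953068949) (nat_lit 0) (nat_lit 154310256775) (nat_lit 14) (nat_lit 5) (nat_lit 16) (nat_lit 4) (nat_lit 14) (nat_lit 4) (nat_lit 485) (nat_lit 418) (nat_lit 297)) (XT.nd (nat_lit 78) (nat_lit 0) (nat_lit 0) (XT.lf (nat_lit 0) (nat_lit 121918140895) (nat_lit 76) (nat_lit 239268216075) (nat_lit 76) (nat_lit 180243068045) (nat_lit 13) (nat_lit 4) (nat_lit 14) (nat_lit 5) (nat_lit 14) (nat_lit 4) (nat_lit 486) (nat_lit 418) (nat_lit 296)) (XT.lf (nat_lit 0) (nat_lit 409733144666) (nat_lit 76) (nat_lit 113568782390) (nat_lit 76) (nat_lit 54543268730) (nat_lit 13) (nat_lit 4) (nat_lit 14) (nat_lit 5) (nat_lit 14) (nat_lit 4) (nat_lit 487) (nat_lit 418) (nat_lit 295)))) (XT.nd (nat_lit 156) (nat_lit 76) (nat_lit 0) (XT.nd (nat_lit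 78) (nat_lit 0) (nat_lit 0) (XT.lf (nat_lit 0) (nat_lit 80652915459) (nat_lit 152) (nat_lit 511918111477) (nat_lit 0) (nat_lit 24437818121) (nat_lit 11) (nat_lit 5) (nat_lit 13) (nat_lit 4) (nat_lit 11) (nat_lit 4) (nat_lit 488) (nat_lit 418) (nat_lit 294)) (XT.lf (nat_lit 0) (nat_lit 229669174212) (nat_lit 152) (nat_lit 255892160631) (nat_lit 0) (nat_lit 173453778332) (nat_lit 11) (nat_lit 5) (nat_lit 13) (nat_lit 4) (nat_lit 11) (nat_lit 4) (nat_lit 489) (nat_lit 418) (nat_lit 293))) (XT.nd (nat_lit 78) (nat_lit 0) (nat_lit 0) (XT.lf (nat_lit 0) (nat_lit 21294382639) (nat_lit 76) (nat_lit 369643312183) (nat_lit 76) (nat_lit 313427639875) (nat_lit 10) (nat_lit 4) (nat_lit 11) (nat_lit 5) (nat_lit 11) (nat_lit 4) (nat_lit 490) (nat_lit 418) (nat_lit 292)) (XT.lf (nat_lit 0) (nat_lit 329790770990) (nat_lit 76) (nat_lit 239772964648) (nat_lit 76) (nat_lit 183557036390) (nat_lit 10) (nat_lit 4)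 (nat_lit 11) (nat_lit 5) (nat_lit 11) (nat_lit 4) (nat_lit 491) (nat_lit 418) (nat_lit 291))))))) (XT.nd (nat_lit 57252) (nat_lit 0) (nat_lit 6156) (XT.nd (nat_lit 546) (nat_lit 152) (nat_lit 0) (XT.nd (nat_lit 234) (nat_lit 76) (nat_lit 0) (XT.nd (nat_lit 78) (nat_lit 152) (nat_lit 0) (XT.lf (nat_lit 0) (nat_lit 662964180692) (nat_lit 76) (nat_lit 99514347739) (nat_lit 76) (nat_lit 43298182489) (nat_lit 10) (nat_lit 4) (nat_lit 11) (nat_lit 5) (nat_lit 11) (nat_lit 4) (nat_lit 492) (nat_lit 418) (nat_lit 290)) (XT.nd (nat_lit 78) (nat_lit 0) (nat_lit 0) (XT.lf (nat_lit 0) (nat_lit 108154254039) (nat_lit 152) (nat_lit 699619812415) (nat_lit 0) (nat_lit 54614840051) (nat_lit 8) (nat_lit 5) (nat_lit 10) (nat_lit 4) (nat_lit 8) (nat_lit 4) (nat_lit 493) (nat_lit 418) (nat_lit 289)) (XT.lf (nat_lit 0) (nat_lit 274431469089) (nat_lit 152) (nat_lit 427959979700) (nat_lit 0) (nat_lit 220891861594)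 (nat_lit 8) (nat_lit 5) (nat_lit 10) (nat_lit 4) (nat_lit 8) (nat_lit 4) (nat_lit 494) (nat_lit 418) (nat_lit 288)))) (XT.nd (nat_lit 156) (nat_lit 0) (nat_lit 0) (XT.nd (nat_lit 78) (nat_lit 76) (nat_lit 0) (XT.lf (nat_lit 0) (nat_lit 454009734484) (nat_lit 152) (nat_lit 134569640623) (nat_lit 0) (nat_lit 400469947816) (nat_lit 8) (nat_lit 5) (nat_lit 10) (nat_lit 4) (nat_lit 8) (nat_lit 4) (nat_lit 495) (nat_lit 418) (nat_lit 287)) (XT.lf (nat_lit 0) (nat_lit 188317138734) (nat_lit 76) (nat_lit 462576237283) (nat_lit 76) (nat_lit 409036284714) (nat_lit 7) (nat_lit 4) (nat_lit 8) (nat_lit 5) (nat_lit 8) (nat_lit 4) (nat_lit 496) (nat_lit 418) (nat_lit 286))) (XT.nd (nat_lit 78) (nat_lit 0) (nat_lit 0) (XT.lf (nat_lit 0) (nat_lit 541838279308) (nat_lit 76) (nat_lit 324032548255) (nat_lit 76) (nat_lit 270492442073) (nat_lit 7) (nat_lit 4) (nat_lit 8) (nat_lit 5) (nat_lit 8) (nat_lit 4) (nat_lit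 497) (nat_lit 418) (nat_lit 285)) (XT.lf (nat_lit 0) (nat_lit 923639241136) (nat_lit 76) (nat_lit 174406310363) (nat_lit 76) (nat_lit 120866061948) (nat_lit 7) (nat_lit 4) (nat_lit 8) (nat_lit 5) (nat_lit 8) (nat_lit 4) (nat_lit 498) (nat_lit 418) (nat_lit 284))))) (XT.nd (nat_lit 56394) (nat_lit 0) (nat_lit 10108) (XT.nd (nat_lit 56238) (nat_lit 0) (nat_lit 10032) (XT.lf (nat_lit 0) (nat_lit 28184870664) (nat_lit 76) (nat_lit 11681105323) (nat_lit 152) (nat_lit 1268144094200) (nat_lit 5) (nat_lit 5) (nat_lit 6) (nat_lit 5) (nat_lit 7) (nat_lit 4) (nat_lit 499) (nat_lit 418) (nat_lit 283)) (XT.nd (nat_lit 78) (nat_lit 0) (nat_lit 76) (XT.lf (nat_lit 0) (nat_lit 1968373999) (nat_lit 836) (nat_lit 3433955996) (nat_lit 836) (nat_lit 3433955996) (nat_lit 137) (nat_lit 3) (nat_lit 148) (nat_lit 3) (nat_lit 148) (nat_lit 5) (nat_lit 419) (nat_lit 419) (nat_lit 362)) (XT.lf (nat_lit 0) (nat_lit 4580501371)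 (nat_lit 760) (nat_lit 11070147153) (nat_lit 836) (nat_lit 2704435860) (nat_lit 138) (nat_lit 5) (nat_lit 148) (nat_lit 5) (nat_lit 149) (nat_lit 5) (nat_lit 420) (nat_lit 419) (nat_lit 361)))) (XT.nd (nat_lit 156) (nat_lit 0) (nat_lit 152) (XT.nd (nat_lit 78) (nat_lit 0) (nat_lit 76) (XT.lf (nat_lit 76) (nat_lit 3641744758) (nat_lit 0) (nat_lit 1961774204) (nat_lit 836) (nat_lit 13472298252) (nat_lit 139) (nat_lit 5) (nat_lit 138) (nat_lit 5) (nat_lit 149) (nat_lit 5) (nat_lit 421) (nat_lit 419) (nat_lit 360)) (XT.lf (nat_lit 0) (nat_lit 7074014875) (nat_lit 760) (nat_lit 142607378) (nat_lit 836) (nat_lit 12619311641) (nat_lit 139) (nat_lit 5) (nat_lit 149) (nat_lit 5) (nat_lit 150) (nat_lit 5) (nat_lit 422) (nat_lit 419) (nat_lit 359))) (XT.nd (nat_lit 78) (nat_lit 0) (nat_lit 76) (XT.lf (nat_lit 0) (nat_lit 9053970441) (nat_lit 760) (nat_lit 3907620054) (nat_lit 836) (nat_lit 7675684960)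 (nat_lit 140) (nat_lit 5) (nat_lit 150) (nat_lit 5) (nat_lit 151) (nat_lit 5) (nat_lit 423) (nat_lit 419) (nat_lit 358)) (XT.lf (nat_lit 0) (nat_lit 11540005641) (nat_lit 760) (nat_lit 7769246745) (nat_lit 836) (nat_lit 2176093855) (nat_lit 141) (nat_lit 5) (nat_lit 151) (nat_lit 5) (nat_lit 152) (nat_lit 5) (nat_lit 424) (nat_lit 419) (nat_lit 357)))))) (XT.nd (nat_lit 546) (nat_lit 1976) (nat_lit 0) (XT.nd (nat_lit 234) (nat_lit 1140) (nat_lit 0) (XT.nd (nat_lit 78) (nat_lit 1064) (nat_lit 0) (XT.lf (nat_lit 76) (nat_lit 10590519274) (nat_lit 0) (nat_lit 4062893680) (nat_lit 836) (nat_lit 7726430883) (nat_lit 142) (nat_lit 5) (nat_lit 141) (nat_lit 5) (nat_lit 152) (nat_lit 5) (nat_lit 425) (nat_lit 419) (nat_lit 356)) (XT.nd (nat_lit 78) (nat_lit 380) (nat_lit 0) (XT.lf (nat_lit 0) (nat_lit 7377105552) (nat_lit 760) (nat_lit 11062148209) (nat_lit 836) (nat_lit 4885484628) (nat_lit 132) (nat_lit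 5) (nat_lit 142) (nat_lit 5) (nat_lit 143) (nat_lit 5) (nat_lit 426) (nat_lit 419) (nat_lit 355)) (XT.lf (nat_lit 0) (nat_lit 4118729863) (nat_lit 380) (nat_lit 18812556588) (nat_lit 456) (nat_lit 1393776637) (nat_lit 127) (nat_lit 5) (nat_lit 132) (nat_lit 5) (nat_lit 133) (nat_lit 5) (nat_lit 427) (nat_lit 419) (nat_lit 354)))) (XT.nd (nat_lit 156) (nat_lit 684) (nat_lit 0) (XT.nd (nat_lit 78) (nat_lit 0) (nat_lit 0) (XT.lf (nat_lit 0) (nat_lit 743437810) (nat_lit 380) (nat_lit 2017593304) (nat_lit 456) (nat_lit 22619538572) (nat_lit 121) (nat_lit 5) (nat_lit 126) (nat_lit 5) (nat_lit 127) (nat_lit 5) (nat_lit 428) (nat_lit 419) (nat_lit 353)) (XT.lf (nat_lit 0) (nat_lit 7790072716) (nat_lit 456) (nat_lit 2713731743) (nat_lit 76) (nat_lit 15986039822) (nat_lit 121) (nat_lit 5) (nat_lit 127) (nat_lit 5) (nat_lit 122) (nat_lit 5) (nat_lit 429) (nat_lit 419) (nat_lit 352))) (XT.nd (nat_lit 78)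 (nat_lit 304) (nat_lit 0) (XT.lf (nat_lit 0) (nat_lit 13700069573) (nat_lit 456) (nat_lit 6193685654) (nat_lit 76) (nat_lit 7770177657) (nat_lit 116) (nat_lit 5) (nat_lit 122) (nat_lit 5) (nat_lit 117) (nat_lit 5) (nat_lit 430) (nat_lit 419) (nat_lit 351)) (XT.lf (nat_lit 0) (nat_lit 19172956695) (nat_lit 304) (nat_lit 1417460128) (nat_lit 380) (nat_lit 8316157588) (nat_lit 112) (nat_lit 5) (nat_lit 116) (nat_lit 5) (nat_lit 117) (nat_lit 5) (nat_lit 431) (nat_lit 419) (nat_lit 350))))) (XT.nd (nat_lit 234) (nat_lit 988) (nat_lit 0) (XT.nd (nat_lit 78) (nat_lit 684) (nat_lit 0) (XT.lf (nat_lit 0) (nat_lit 16773534552) (nat_lit 304) (nat_lit 11903394291) (nat_lit 380) (nat_lit 1539454687) (nat_lit 108) (nat_lit 5) (nat_lit 112) (nat_lit 5) (nat_lit 113) (nat_lit 5) (nat_lit 432) (nat_lit 419) (nat_lit 349)) (XT.nd (nat_lit 78) (nat_lit 304) (nat_lit 0) (XT.lf (nat_lit 0) (nat_lit 6132899276)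 (nat_lit 380) (nat_lit 17284778026) (nat_lit 76) (nat_lit 8181866645) (nat_lit 103) (nat_lit 5) (nat_lit 108) (nat_lit 5) (nat_lit 104) (nat_lit 5) (nat_lit 433) (nat_lit 419) (nat_lit 348)) (XT.lf (nat_lit 0) (nat_lit 11820645331) (nat_lit 304) (nat_lit 3153894152) (nat_lit 380) (nat_lit 18087086766) (nat_lit 99) (nat_lit 5) (nat_lit 103) (nat_lit 5) (nat_lit 104) (nat_lit 5) (nat_lit 434) (nat_lit 419) (nat_lit 347)))) (XT.nd (nat_lit 156) (nat_lit 456) (nat_lit 0) (XT.nd (nat_lit 78) (nat_lit 304) (nat_lit 0) (XT.lf (nat_lit 0) (nat_lit 9225632927) (nat_lit 228) (nat_lit 16026564646) (nat_lit 304) (nat_lit 9352045587) (nat_lit 96) (nat_lit 5) (nat_lit 99) (nat_lit 5) (nat_lit 100) (nat_lit 5) (nat_lit 435) (nat_lit 419) (nat_lit 346)) (XT.lf (nat_lit 0) (nat_lit 697302641) (nat_lit 304) (nat_lit 29565912085) (nat_lit 76) (nat_lit 5976086828) (nat_lit 92) (nat_lit 5) (nat_lit 96) (nat_lit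 5) (nat_lit 93) (nat_lit 5) (nat_lit 436) (nat_lit 419) (nat_lit 345))) (XT.nd (nat_lit 78) (nat_lit 228) (nat_lit 0) (XT.lf (nat_lit 0) (nat_lit 3884090232) (nat_lit 228) (nat_lit 8110798449) (nat_lit 304) (nat_lit 25964015250) (nat_lit 89) (nat_lit 5) (nat_lit 92) (nat_lit 5) (nat_lit 93) (nat_lit 5) (nat_lit 437) (nat_lit 419) (nat_lit 344)) (XT.lf (nat_lit 0) (nat_lit 1035823763) (nat_lit 228) (nat_lit 23934936755) (nat_lit 304) (nat_lit 14806591818) (nat_lit 86) (nat_lit 5) (nat_lit 89) (nat_lit 5) (nat_lit 90) (nat_lit 5) (nat_lit 438) (nat_lit 419) (nat_lit 343))))))))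
noncomputable def xc77 : XT := (XT.nd (nat_lit 2184) (nat_lit 2052) (nat_lit 0) (XT.nd (nat_lit 1092) (nat_lit 1520) (nat_lit 0) (XT.nd (nat_lit 546) (nat_lit 1064) (nat_lit 0) (XT.nd (nat_lit 234) (nat_lit 836) (nat_lit 0) (XT.nd (nat_lit 78) (nat_lit 456) (nat_lit 0) (XT.lf (nat_lit 0) (nat_lit 39706279297) (nat_lit 304) (nat_lit 1696280833) (nat_lit 76) (nat_lit 302639272) (nat_lit 86) (nat_lit 5) (nat_lit 90) (nat_lit 5) (nat_lit 87) (nat_lit 5) (nat_lit 439) (nat_lit 419) (nat_lit 342)) (XT.nd (nat_lit 78) (nat_lit 228) (nat_lit 0) (XT.lf (nat_lit 0) (nat_lit 12475193590) (nat_lit 228) (nat_lit 4792362760) (nat_lit 76) (nat_lit 26459453249) (nat_lit 83) (nat_lit 5) (nat_lit 86) (nat_lit 5) (nat_lit 84) (nat_lit 5) (nat_lit 440) (nat_lit 419) (nat_lit 341)) (XT.lf (nat_lit 0) (nat_lit 28801436920) (nat_lit 304) (nat_lit 7887836108) (nat_lit 76) (nat_lit 9181442822) (nat_lit 80) (nat_lit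 5) (nat_lit 84) (nat_lit 5) (nat_lit 81) (nat_lit 5) (nat_lit 441) (nat_lit 419) (nat_lit 340)))) (XT.nd (nat_lit 156) (nat_lit 380) (nat_lit 0) (XT.nd (nat_lit 78) (nat_lit 304) (nat_lit 0) (XT.lf (nat_lit 0) (nat_lit 37047380463) (nat_lit 152) (nat_lit 10330998915) (nat_lit 228) (nat_lit 760310488) (nat_lit 78) (nat_lit 5) (nat_lit 80) (nat_lit 5) (nat_lit 81) (nat_lit 5) (nat_lit 442) (nat_lit 419) (nat_lit 339)) (XT.lf (nat_lit 0) (nat_lit 17307533461) (nat_lit 304) (nat_lit 14684502805) (nat_lit 76) (nat_lit 18533231652) (nat_lit 74) (nat_lit 5) (nat_lit 78) (nat_lit 5) (nat_lit 75) (nat_lit 5) (nat_lit 443) (nat_lit 419) (nat_lit 338))) (XT.nd (nat_lit 78) (nat_lit 228) (nat_lit 0) (XT.lf (nat_lit 0) (nat_lit 34737254168) (nat_lit 152) (nat_lit 2961099350) (nat_lit 228) (nat_lit 15358587201) (nat_lit 72) (nat_lit 5) (nat_lit 74) (nat_lit 5) (nat_lit 75) (nat_lit 5) (nat_lit 444) (nat_lit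 419) (nat_lit 337)) (XT.lf (nat_lit 0) (nat_lit 5040564551) (nat_lit 228) (nat_lit 22343546888) (nat_lit 76) (nat_lit 28342117711) (nat_lit 69) (nat_lit 5) (nat_lit 72) (nat_lit 5) (nat_lit 70) (nat_lit 5) (nat_lit 445) (nat_lit 419) (nat_lit 336))))) (XT.nd (nat_lit 234) (nat_lit 532) (nat_lit 0) (XT.nd (nat_lit 78) (nat_lit 380) (nat_lit 0) (XT.lf (nat_lit 0) (nat_lit 27477242591) (nat_lit 228) (nat_lit 26646648879) (nat_lit 76) (nat_lit 4425396800) (nat_lit 67) (nat_lit 5) (nat_lit 70) (nat_lit 5) (nat_lit 68) (nat_lit 5) (nat_lit 446) (nat_lit 419) (nat_lit 335)) (XT.nd (nat_lit 78) (nat_lit 228) (nat_lit 0) (XT.lf (nat_lit 0) (nat_lit 30192086862) (nat_lit 152) (nat_lit 22837391566) (nat_lit 228) (nat_lit 8502683283) (nat_lit 65) (nat_lit 5) (nat_lit 67) (nat_lit 5) (nat_lit 68) (nat_lit 5) (nat_lit 447) (nat_lit 419) (nat_lit 334)) (XT.lf (nat_lit 0) (nat_lit 16462179171) (nat_lit 228)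 (nat_lit 36445448367) (nat_lit 76) (nat_lit 11778749598) (nat_lit 62) (nat_lit 5) (nat_lit 65) (nat_lit 5) (nat_lit 63) (nat_lit 5) (nat_lit 448) (nat_lit 419) (nat_lit 333)))) (XT.nd (nat_lit 156) (nat_lit 228) (nat_lit 0) (XT.nd (nat_lit 78) (nat_lit 152) (nat_lit 0) (XT.lf (nat_lit 0) (nat_lit 25921000639) (nat_lit 152) (nat_lit 18546437918) (nat_lit 228) (nat_lit 23551467426) (nat_lit 60) (nat_lit 5) (nat_lit 62) (nat_lit 5) (nat_lit 63) (nat_lit 5) (nat_lit 449) (nat_lit 419) (nat_lit 332)) (XT.lf (nat_lit 0) (nat_lit 4310849967) (nat_lit 152) (nat_lit 48194192283) (nat_lit 76) (nat_lit 19044837781) (nat_lit 58) (nat_lit 5) (nat_lit 60) (nat_lit 5) (nat_lit 59) (nat_lit 5) (nat_lit 450) (nat_lit 419) (nat_lit 331))) (XT.nd (nat_lit 78) (nat_lit 76) (nat_lit 0) (XT.lf (nat_lit 0) (nat_lit 20132157540) (nat_lit 152) (nat_lit 14821257736) (nat_lit 228) (nat_lit 40321793196) (nat_lit 56) (nat_lit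 5) (nat_lit 58) (nat_lit 5) (nat_lit 59) (nat_lit 5) (nat_lit 451) (nat_lit 419) (nat_lit 330)) (XT.lf (nat_lit 0) (nat_lit 16486684475) (nat_lit 76) (nat_lit 53068619492) (nat_lit 152) (nat_lit 9667863790) (nat_lit 55) (nat_lit 5) (nat_lit 56) (nat_lit 5) (nat_lit 57) (nat_lit 4) (nat_lit 452) (nat_lit 419) (nat_lit 329)))))) (XT.nd (nat_lit 546) (nat_lit 684) (nat_lit 0) (XT.nd (nat_lit 234) (nat_lit 304) (nat_lit 0) (XT.nd (nat_lit 78) (nat_lit 304) (nat_lit 0) (XT.lf (nat_lit 0) (nat_lit 12121439901) (nat_lit 152) (nat_lit 11975669178) (nat_lit 228) (nat_lit 59301113003) (nat_lit 52) (nat_lit 5) (nat_lit 54) (nat_lit 5) (nat_lit 55) (nat_lit 5) (nat_lit 453) (nat_lit 419) (nat_lit 328)) (XT.nd (nat_lit 78) (nat_lit 228) (nat_lit 0) (XT.lf (nat_lit 0) (nat_lit 6877270859) (nat_lit 76) (nat_lit 55069533442) (nat_lit 152) (nat_lit 25866440393) (nat_lit 51) (nat_lit 5) (nat_lit 52) (nat_lit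 5) (nat_lit 53) (nat_lit 4) (nat_lit 454) (nat_lit 419) (nat_lit 327)) (XT.lf (nat_lit 0) (nat_lit 946270659) (nat_lit 152) (nat_lit 10441411337) (nat_lit 228) (nat_lit 81112165554) (nat_lit 48) (nat_lit 5) (nat_lit 50) (nat_lit 5) (nat_lit 51) (nat_lit 5) (nat_lit 455) (nat_lit 419) (nat_lit 326)))) (XT.nd (nat_lit 156) (nat_lit 228) (nat_lit 0) (XT.nd (nat_lit 78) (nat_lit 76) (nat_lit 0) (XT.lf (nat_lit 0) (nat_lit 52744540728) (nat_lit 228) (nat_lit 6281413754) (nat_lit 76) (nat_lit 38412790437) (nat_lit 48) (nat_lit 5) (nat_lit 51) (nat_lit 5) (nat_lit 49) (nat_lit 4) (nat_lit 456) (nat_lit 419) (nat_lit 325)) (XT.lf (nat_lit 0) (nat_lit 88457409743) (nat_lit 76) (nat_lit 10504175566) (nat_lit 152) (nat_lit 3733587204) (nat_lit 47) (nat_lit 5) (nat_lit 48) (nat_lit 5) (nat_lit 49) (nat_lit 4) (nat_lit 457) (nat_lit 419) (nat_lit 324))) (XT.nd (nat_lit 78) (nat_lit 76) (nat_lit 0) (XT.lf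 (nat_lit 0) (nat_lit 41323752837) (nat_lit 152) (nat_lit 24257263691) (nat_lit 76) (nat_lit 42653666554) (nat_lit 45) (nat_lit 5) (nat_lit 47) (nat_lit 5) (nat_lit 46) (nat_lit 4) (nat_lit 458) (nat_lit 419) (nat_lit 323)) (XT.lf (nat_lit 0) (nat_lit 78615614965) (nat_lit 76) (nat_lit 12892466651) (nat_lit 152) (nat_lit 22623552390) (nat_lit 44) (nat_lit 5) (nat_lit 45) (nat_lit 5) (nat_lit 46) (nat_lit 4) (nat_lit 459) (nat_lit 419) (nat_lit 322))))) (XT.nd (nat_lit 234) (nat_lit 304) (nat_lit 0) (XT.nd (nat_lit 78) (nat_lit 228) (nat_lit 0) (XT.lf (nat_lit 0) (nat_lit 26667627183) (nat_lit 152) (nat_lit 49122390621) (nat_lit 76) (nat_lit 44577266610) (nat_lit 42) (nat_lit 5) (nat_lit 44) (nat_lit 5) (nat_lit 43) (nat_lit 4) (nat_lit 460) (nat_lit 419) (nat_lit 321)) (XT.nd (nat_lit 78) (nat_lit 152) (nat_lit 0) (XT.lf (nat_lit 0) (nat_lit 62113890892) (nat_lit 76) (nat_lit 18817326669) (nat_lit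 152) (nat_lit 46060938817) (nat_lit 41) (nat_lit 5) (nat_lit 42) (nat_lit 5) (nat_lit 43) (nat_lit 4) (nat_lit 461) (nat_lit 419) (nat_lit 320)) (XT.lf (nat_lit 0) (nat_lit 7580121827) (nat_lit 152) (nat_lit 83316828101) (nat_lit 76) (nat_lit 43127675446) (nat_lit 39) (nat_lit 5) (nat_lit 41) (nat_lit 5) (nat_lit 40) (nat_lit 4) (nat_lit 462) (nat_lit 419) (nat_lit 319)))) (XT.nd (nat_lit 156) (nat_lit 152) (nat_lit 0) (XT.nd (nat_lit 78) (nat_lit 76) (nat_lit 0) (XT.lf (nat_lit 0) (nat_lit 36336080847) (nat_lit 76) (nat_lit 29612938205) (nat_lit 152) (nat_lit 75530402998) (nat_lit 38) (nat_lit 5) (nat_lit 39) (nat_lit 5) (nat_lit 40) (nat_lit 4) (nat_lit 463) (nat_lit 419) (nat_lit 318)) (XT.lf (nat_lit 0) (nat_lit 19085937682) (nat_lit 76) (nat_lit 112241216398) (nat_lit 76) (nat_lit 18086462227) (nat_lit 37) (nat_lit 4) (nat_lit 38) (nat_lit 5) (nat_lit 38) (nat_lit 4) (nat_lit 464) (nat_lit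 419) (nat_lit 317))) (XT.nd (nat_lit 78) (nat_lit 76) (nat_lit 0) (XT.lf (nat_lit 0) (nat_lit 44902839383) (nat_lit 152) (nat_lit 2106652719) (nat_lit 76) (nat_lit 110820911867) (nat_lit 36) (nat_lit 5) (nat_lit 38) (nat_lit 5) (nat_lit 37) (nat_lit 4) (nat_lit 465) (nat_lit 419) (nat_lit 316)) (XT.lf (nat_lit 0) (nat_lit 114903543905) (nat_lit 152) (nat_lit 26644508174) (nat_lit 0) (nat_lit 25227361702) (nat_lit 35) (nat_lit 5) (nat_lit 37) (nat_lit 4) (nat_lit 35) (nat_lit 4) (nat_lit 466) (nat_lit 419) (nat_lit 315))))))) (XT.nd (nat_lit 1092) (nat_lit 836) (nat_lit 0) (XT.nd (nat_lit 546) (nat_lit 532) (nat_lit 0) (XT.nd (nat_lit 234) (nat_lit 380) (nat_lit 0) (XT.nd (nat_lit 78) (nat_lit 152) (nat_lit 0) (XT.lf (nat_lit 0) (nat_lit 16368961061) (nat_lit 152) (nat_lit 56122032357) (nat_lit 76) (nat_lit 103796501129) (nat_lit 33) (nat_lit 5) (nat_lit 35) (nat_lit 5) (nat_lit 34) (nat_lit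 4) (nat_lit 467) (nat_lit 419) (nat_lit 314)) (XT.nd (nat_lit 78) (nat_lit 76) (nat_lit 0) (XT.lf (nat_lit 0) (nat_lit 90310906295) (nat_lit 152) (nat_lit 91203212462) (nat_lit 0) (nat_lit 4900945916) (nat_lit 32) (nat_lit 5) (nat_lit 34) (nat_lit 4) (nat_lit 32) (nat_lit 4) (nat_lit 468) (nat_lit 419) (nat_lit 313)) (XT.lf (nat_lit 0) (nat_lit 64160688116) (nat_lit 76) (nat_lit 109221610559) (nat_lit 76) (nat_lit 23809837249) (nat_lit 31) (nat_lit 4) (nat_lit 32) (nat_lit 5) (nat_lit 32) (nat_lit 4) (nat_lit 469) (nat_lit 419) (nat_lit 312)))) (XT.nd (nat_lit 156) (nat_lit 228) (nat_lit 0) (XT.nd (nat_lit 78) (nat_lit 0) (nat_lit 0) (XT.lf (nat_lit 0) (nat_lit 26424124119) (nat_lit 76) (nat_lit 28130791035) (nat_lit 152) (nat_lit 154132903928) (nat_lit 29) (nat_lit 5) (nat_lit 30) (nat_lit 5) (nat_lit 31) (nat_lit 4) (nat_lit 470) (nat_lit 419) (nat_lit 311)) (XT.lf (nat_lit 0) (nat_lit 141645875797)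 (nat_lit 152) (nat_lit 18974953670) (nat_lit 0) (nat_lit 60298250803) (nat_lit 29) (nat_lit 5) (nat_lit 31) (nat_lit 4) (nat_lit 29) (nat_lit 4) (nat_lit 471) (nat_lit 419) (nat_lit 310))) (XT.nd (nat_lit 78) (nat_lit 76) (nat_lit 0) (XT.lf (nat_lit 0) (nat_lit 4575842714) (nat_lit 152) (nat_lit 71968518059) (nat_lit 76) (nat_lit 157430702410) (nat_lit 27) (nat_lit 5) (nat_lit 29) (nat_lit 5) (nat_lit 28) (nat_lit 4) (nat_lit 472) (nat_lit 419) (nat_lit 309)) (XT.lf (nat_lit 0) (nat_lit 94758054222) (nat_lit 152) (nat_lit 135850751536) (nat_lit 0) (nat_lit 17281611624) (nat_lit 26) (nat_lit 5) (nat_lit 28) (nat_lit 4) (nat_lit 26) (nat_lit 4) (nat_lit 473) (nat_lit 419) (nat_lit 308))))) (XT.nd (nat_lit 234) (nat_lit 304) (nat_lit 0) (XT.nd (nat_lit 78) (nat_lit 152) (nat_lit 0) (XT.lf (nat_lit 0) (nat_lit 50790666544) (nat_lit 76) (nat_lit 144719075107) (nat_lit 76) (nat_lit 67241513371) (nat_lit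 25) (nat_lit 4) (nat_lit 26) (nat_lit 5) (nat_lit 26) (nat_lit 4) (nat_lit 474) (nat_lit 419) (nat_lit 307)) (XT.nd (nat_lit 78) (nat_lit 76) (nat_lit 0) (XT.lf (nat_lit 0) (nat_lit 27106136998) (nat_lit 152) (nat_lit 21911017129) (nat_lit 76) (nat_lit 229643765623) (nat_lit 24) (nat_lit 5) (nat_lit 26) (nat_lit 5) (nat_lit 25) (nat_lit 4) (nat_lit 475) (nat_lit 419) (nat_lit 306)) (XT.lf (nat_lit 0) (nat_lit 130528518180) (nat_lit 152) (nat_lit 108327123373) (nat_lit 0) (nat_lit 56738463460) (nat_lit 23) (nat_lit 5) (nat_lit 25) (nat_lit 4) (nat_lit 23) (nat_lit 4) (nat_lit 476) (nat_lit 419) (nat_lit 305)))) (XT.nd (nat_lit 156) (nat_lit 76) (nat_lit 0) (XT.nd (nat_lit 78) (nat_lit 152) (nat_lit 0) (XT.lf (nat_lit 0) (nat_lit 102542875703) (nat_lit 76) (nat_lit 142494663887) (nat_lit 76) (nat_lit 68703763064) (nat_lit 22) (nat_lit 4) (nat_lit 23) (nat_lit 5) (nat_lit 23) (nat_lit 4) (nat_lit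 477) (nat_lit 419) (nat_lit 304)) (XT.lf (nat_lit 0) (nat_lit 327221150) (nat_lit 76) (nat_lit 35828342460) (nat_lit 152) (nat_lit 297061077526) (nat_lit 20) (nat_lit 5) (nat_lit 21) (nat_lit 5) (nat_lit 22) (nat_lit 4) (nat_lit 478) (nat_lit 419) (nat_lit 303))) (XT.nd (nat_lit 78) (nat_lit 76) (nat_lit 0) (XT.lf (nat_lit 0) (nat_lit 152004793991) (nat_lit 152) (nat_lit 120212179428) (nat_lit 0) (nat_lit 81726308612) (nat_lit 20) (nat_lit 5) (nat_lit 22) (nat_lit 4) (nat_lit 20) (nat_lit 4) (nat_lit 479) (nat_lit 419) (nat_lit 302)) (XT.lf (nat_lit 0) (nat_lit 112470344989) (nat_lit 76) (nat_lit 167009470825) (nat_lit 76) (nat_lit 96730345767) (nat_lit 19) (nat_lit 4) (nat_lit 20) (nat_lit 5) (nat_lit 20) (nat_lit 4) (nat_lit 480) (nat_lit 419) (nat_lit 301)))))) (XT.nd (nat_lit 546) (nat_lit 380) (nat_lit 0) (XT.nd (nat_lit 234) (nat_lit 228) (nat_lit 0) (XT.nd (nat_lit 78) (nat_lit 152)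 (nat_lit 0) (XT.lf (nat_lit 0) (nat_lit 18479875500) (nat_lit 152) (nat_lit 32395972577) (nat_lit 76) (nat_lit 349263047189) (nat_lit 18) (nat_lit 5) (nat_lit 20) (nat_lit 5) (nat_lit 19) (nat_lit 4) (nat_lit 481) (nat_lit 419) (nat_lit 300)) (XT.nd (nat_lit 78) (nat_lit 76) (nat_lit 0) (XT.lf (nat_lit 0) (nat_lit 144289886491) (nat_lit 152) (nat_lit 204017857370) (nat_lit 0) (nat_lit 77356300036) (nat_lit 17) (nat_lit 5) (nat_lit 19) (nat_lit 4) (nat_lit 17) (nat_lit 4) (nat_lit 482) (nat_lit 419) (nat_lit 299)) (XT.lf (nat_lit 0) (nat_lit 44519409898) (nat_lit 76) (nat_lit 237769819044) (nat_lit 76) (nat_lit 170835748972) (nat_lit 16) (nat_lit 4) (nat_lit 17) (nat_lit 5) (nat_lit 17) (nat_lit 4) (nat_lit 483) (nat_lit 419) (nat_lit 298)))) (XT.nd (nat_lit 156) (nat_lit 76) (nat_lit 0) (XT.nd (nat_lit 78) (nat_lit 152) (nat_lit 0) (XT.lf (nat_lit 0) (nat_lit 320221284494) (nat_lit 76) (nat_lit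 114659210615) (nat_lit 76) (nat_lit 47724692749) (nat_lit 16) (nat_lit 4) (nat_lit 17) (nat_lit 5) (nat_lit 17) (nat_lit 4) (nat_lit 484) (nat_lit 419) (nat_lit 297)) (XT.lf (nat_lit 0) (nat_lit 84488350404) (nat_lit 152) (nat_lit 409049072374) (nat_lit 0) (nat_lit 20740795652) (nat_lit 14) (nat_lit 5) (nat_lit 16) (nat_lit 4) (nat_lit 14) (nat_lit 4) (nat_lit 485) (nat_lit 419) (nat_lit 296))) (XT.nd (nat_lit 78) (nat_lit 76) (nat_lit 0) (XT.lf (nat_lit 0) (nat_lit 230435386205) (nat_lit 152) (nat_lit 151081671339) (nat_lit 0) (nat_lit 166687465823) (nat_lit 14) (nat_lit 5) (nat_lit 16) (nat_lit 4) (nat_lit 14) (nat_lit 4) (nat_lit 486) (nat_lit 419) (nat_lit 295)) (XT.lf (nat_lit 0) (nat_lit 131736295605) (nat_lit 76) (nat_lit 258377068538) (nat_lit 76) (nat_lit 194628809610) (nat_lit 13) (nat_lit 4) (nat_lit 14) (nat_lit 5) (nat_lit 14) (nat_lit 4) (nat_lit 487) (nat_lit 419) (nat_lit 294)))))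 (XT.nd (nat_lit 312) (nat_lit 152) (nat_lit 0) (XT.nd (nat_lit 156) (nat_lit 76) (nat_lit 0) (XT.nd (nat_lit 78) (nat_lit 152) (nat_lit 0) (XT.lf (nat_lit 0) (nat_lit 442571706830) (nat_lit 76) (nat_lit 122624095330) (nat_lit 76) (nat_lit 58875522933) (nat_lit 13) (nat_lit 4) (nat_lit 14) (nat_lit 5) (nat_lit 14) (nat_lit 4) (nat_lit 488) (nat_lit 419) (nat_lit 293)) (XT.lf (nat_lit 0) (nat_lit 87134487881) (nat_lit 152) (nat_lit 552812312189) (nat_lit 0) (nat_lit 26421285361) (nat_lit 11) (nat_lit 5) (nat_lit 13) (nat_lit 4) (nat_lit 11) (nat_lit 4) (nat_lit 489) (nat_lit 419) (nat_lit 292))) (XT.nd (nat_lit 78) (nat_lit 76) (nat_lit 0) (XT.lf (nat_lit 0) (nat_lit 248069874060) (nat_lit 152) (nat_lit 276308674032) (nat_lit 0) (nat_lit 187356415590) (nat_lit 11) (nat_lit 5) (nat_lit 13) (nat_lit 4) (nat_lit 11) (nat_lit 4) (nat_lit 490) (nat_lit 419) (nat_lit 291)) (XT.lf (nat_lit 0) (nat_lit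 23050408576) (nat_lit 76) (nat_lit 399188274741) (nat_lit 76) (nat_lit 338474579279) (nat_lit 10) (nat_lit 4) (nat_lit 11) (nat_lit 5) (nat_lit 11) (nat_lit 4) (nat_lit 491) (nat_lit 419) (nat_lit 290)))) (XT.nd (nat_lit 156) (nat_lit 152) (nat_lit 0) (XT.nd (nat_lit 78) (nat_lit 0) (nat_lit 0) (XT.lf (nat_lit 0) (nat_lit 356222620933) (nat_lit 76) (nat_lit 258930262546) (nat_lit 76) (nat_lit 198216347646) (nat_lit 10) (nat_lit 4) (nat_lit 11) (nat_lit 5) (nat_lit 11) (nat_lit 4) (nat_lit 492) (nat_lit 419) (nat_lit 289)) (XT.lf (nat_lit 0) (nat_lit 716046304281) (nat_lit 76) (nat_lit 107452774008) (nat_lit 76) (nat_lit 46738655927) (nat_lit 10) (nat_lit 4) (nat_lit 11) (nat_lit 5) (nat_lit 11) (nat_lit 4) (nat_lit 493) (nat_lit 419) (nat_lit 288))) (XT.nd (nat_lit 78) (nat_lit 0) (nat_lit 0) (XT.lf (nat_lit 0) (nat_lit 116828578944) (nat_lit 152) (nat_lit 755544910508) (nat_lit 0) (nat_lit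 59005430169) (nat_lit 8) (nat_lit 5) (nat_lit 10) (nat_lit 4) (nat_lit 8) (nat_lit 4) (nat_lit 494) (nat_lit 419) (nat_lit 287)) (XT.lf (nat_lit 0) (nat_lit 296406342710) (nat_lit 152) (nat_lit 462155586502) (nat_lit 0) (nat_lit 238583028035) (nat_lit 8) (nat_lit 5) (nat_lit 10) (nat_lit 4) (nat_lit 8) (nat_lit 4) (nat_lit 495) (nat_lit 419) (nat_lit 286))))))))
noncomputable def xc78 : XT := (XT.nd (nat_lit 58422) (nat_lit 0) (nat_lit 1672) (XT.nd (nat_lit 57330) (nat_lit 0) (nat_lit 5396) (XT.nd (nat_lit 56784) (nat_lit 0) (nat_lit 8664) (XT.nd (nat_lit 234) (nat_lit 0) (nat_lit 0) (XT.nd (nat_lit 78) (nat_lit 76) (nat_lit 0) (XT.lf (nat_lit 0) (nat_lit 490349361478) (nat_lit 152) (nat_lit 145297071527) (nat_lit 0) (nat_lit 432525893191) (nat_lit 8) (nat_lit 5) (nat_lit 10) (nat_lit 4) (nat_lit 8) (nat_lit 4) (nat_lit 496) (nat_lit 419) (nat_lit 285)) (XT.nd (nat_lit 78) (nat_lit 0) (nat_lit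 0) (XT.lf (nat_lit 0) (nat_lit 203418992646) (nat_lit 76) (nat_lit 499563875121) (nat_lit 76) (nat_lit 441740264600) (nat_lit 7) (nat_lit 4) (nat_lit 8) (nat_lit 5) (nat_lit 8) (nat_lit 4) (nat_lit 497) (nat_lit 419) (nat_lit 284)) (XT.lf (nat_lit 0) (nat_lit 585219122035) (nat_lit 76) (nat_lit 349938058462) (nat_lit 76) (nat_lit 292114316244) (nat_lit 7) (nat_lit 4) (nat_lit 8) (nat_lit 5) (nat_lit 8) (nat_lit 4) (nat_lit 498) (nat_lit 419) (nat_lit 283)))) (XT.nd (nat_lit 56394) (nat_lit 0) (nat_lit 9956) (XT.nd (nat_lit 56316) (nat_lit 0) (nat_lit 9880) (XT.lf (nat_lit 0) (nat_lit 997561658559) (nat_lit 76) (nat_lit 188342987735) (nat_lit 76) (nat_lit 130519123575) (nat_lit 7) (nat_lit 4) (nat_lit 8) (nat_lit 5) (nat_lit 8) (nat_lit 4) (nat_lit 499) (nat_lit 419) (nat_lit 282)) (XT.lf (nat_lit 0) (nat_lit 2446160609) (nat_lit 836) (nat_lit 3540468978) (nat_lit 836) (nat_lit 3540468978) (nat_lit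 137) (nat_lit 3) (nat_lit 148) (nat_lit 3) (nat_lit 148) (nat_lit 5) (nat_lit 420) (nat_lit 420) (nat_lit 360))) (XT.nd (nat_lit 78) (nat_lit 0) (nat_lit 0) (XT.lf (nat_lit 0) (nat_lit 5540828910) (nat_lit 760) (nat_lit 11599608082) (nat_lit 836) (nat_lit 2653221864) (nat_lit 138) (nat_lit 5) (nat_lit 148) (nat_lit 5) (nat_lit 149) (nat_lit 5) (nat_lit 421) (nat_lit 420) (nat_lit 359)) (XT.lf (nat_lit 76) (nat_lit 4273757301) (nat_lit 0) (nat_lit 2333257806) (nat_lit 836) (nat_lit 13966979062) (nat_lit 139) (nat_lit 5) (nat_lit 138) (nat_lit 5) (nat_lit 149) (nat_lit 5) (nat_lit 422) (nat_lit 420) (nat_lit 358))))) (XT.nd (nat_lit 234) (nat_lit 1368) (nat_lit 0) (XT.nd (nat_lit 78) (nat_lit 0) (nat_lit 76) (XT.lf (nat_lit 76) (nat_lit 196639751) (nat_lit 0) (nat_lit 7957352551) (nat_lit 836) (nat_lit 13242995259) (nat_lit 140) (nat_lit 5) (nat_lit 139) (nat_lit 5) (nat_lit 150) (nat_lit 5)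 (nat_lit 423) (nat_lit 420) (nat_lit 357)) (XT.nd (nat_lit 78) (nat_lit 0) (nat_lit 76) (XT.lf (nat_lit 0) (nat_lit 10254241733) (nat_lit 760) (nat_lit 3864485351) (nat_lit 836) (nat_lit 8145623250) (nat_lit 140) (nat_lit 5) (nat_lit 150) (nat_lit 5) (nat_lit 151) (nat_lit 5) (nat_lit 424) (nat_lit 420) (nat_lit 356)) (XT.lf (nat_lit 0) (nat_lit 12907566024) (nat_lit 760) (nat_lit 8026449807) (nat_lit 836) (nat_lit 2247838748) (nat_lit 141) (nat_lit 5) (nat_lit 151) (nat_lit 5) (nat_lit 152) (nat_lit 5) (nat_lit 425) (nat_lit 420) (nat_lit 355)))) (XT.nd (nat_lit 156) (nat_lit 836) (nat_lit 0) (XT.nd (nat_lit 78) (nat_lit 684) (nat_lit 0) (XT.lf (nat_lit 76) (nat_lit 11786263865) (nat_lit 0) (nat_lit 4456307616) (nat_lit 836) (nat_lit 7906721731) (nat_lit 142) (nat_lit 5) (nat_lit 141) (nat_lit 5) (nat_lit 152) (nat_lit 5) (nat_lit 426) (nat_lit 420) (nat_lit 354)) (XT.lf (nat_lit 0) (nat_lit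 8321680957) (nat_lit 760) (nat_lit 11983262918) (nat_lit 836) (nat_lit 4866159191) (nat_lit 132) (nat_lit 5) (nat_lit 142) (nat_lit 5) (nat_lit 143) (nat_lit 5) (nat_lit 427) (nat_lit 420) (nat_lit 353))) (XT.nd (nat_lit 78) (nat_lit 456) (nat_lit 0) (XT.lf (nat_lit 0) (nat_lit 4806534864) (nat_lit 380) (nat_lit 20325946379) (nat_lit 456) (nat_lit 1120171831) (nat_lit 127) (nat_lit 5) (nat_lit 132) (nat_lit 5) (nat_lit 133) (nat_lit 5) (nat_lit 428) (nat_lit 420) (nat_lit 352)) (XT.lf (nat_lit 0) (nat_lit 1157511345) (nat_lit 380) (nat_lit 2175106229) (nat_lit 456) (nat_lit 24060791530) (nat_lit 121) (nat_lit 5) (nat_lit 126) (nat_lit 5) (nat_lit 127) (nat_lit 5) (nat_lit 429) (nat_lit 420) (nat_lit 351)))))) (XT.nd (nat_lit 546) (nat_lit 1368) (nat_lit 0) (XT.nd (nat_lit 234) (nat_lit 1216) (nat_lit 0) (XT.nd (nat_lit 78) (nat_lit 684) (nat_lit 0) (XT.lf (nat_lit 0) (nat_lit 8738060732) (nat_lit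 456) (nat_lit 2586252632) (nat_lit 76) (nat_lit 17268413647) (nat_lit 121) (nat_lit 5) (nat_lit 127) (nat_lit 5) (nat_lit 122) (nat_lit 5) (nat_lit 430) (nat_lit 420) (nat_lit 350)) (XT.nd (nat_lit 78) (nat_lit 304) (nat_lit 0) (XT.lf (nat_lit 0) (nat_lit 15102315950) (nat_lit 456) (nat_lit 6344593961) (nat_lit 76) (nat_lit 8414764728) (nat_lit 116) (nat_lit 5) (nat_lit 122) (nat_lit 5) (nat_lit 117) (nat_lit 5) (nat_lit 431) (nat_lit 420) (nat_lit 349)) (XT.lf (nat_lit 0) (nat_lit 21036404465) (nat_lit 304) (nat_lit 1489948165) (nat_lit 380) (nat_lit 8678256281) (nat_lit 112) (nat_lit 5) (nat_lit 116) (nat_lit 5) (nat_lit 117) (nat_lit 5) (nat_lit 432) (nat_lit 420) (nat_lit 348)))) (XT.nd (nat_lit 156) (nat_lit 532) (nat_lit 0) (XT.nd (nat_lit 78) (nat_lit 380) (nat_lit 0) (XT.lf (nat_lit 0) (nat_lit 18443954776) (nat_lit 304) (nat_lit 12800166248) (nat_lit 380) (nat_lit 1375869137) (nat_lit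 108) (nat_lit 5) (nat_lit 112) (nat_lit 5) (nat_lit 113) (nat_lit 5) (nat_lit 433) (nat_lit 420) (nat_lit 347)) (XT.lf (nat_lit 0) (nat_lit 6886532526) (nat_lit 380) (nat_lit 18332278998) (nat_lit 76) (nat_lit 8895499879) (nat_lit 103) (nat_lit 5) (nat_lit 108) (nat_lit 5) (nat_lit 104) (nat_lit 5) (nat_lit 434) (nat_lit 420) (nat_lit 346))) (XT.nd (nat_lit 78) (nat_lit 228) (nat_lit 0) (XT.lf (nat_lit 0) (nat_lit 13087007312) (nat_lit 304) (nat_lit 3334022247) (nat_lit 380) (nat_lit 19273057857) (nat_lit 99) (nat_lit 5) (nat_lit 103) (nat_lit 5) (nat_lit 104) (nat_lit 5) (nat_lit 435) (nat_lit 420) (nat_lit 345)) (XT.lf (nat_lit 0) (nat_lit 10281305274) (nat_lit 228) (nat_lit 17227188091) (nat_lit 304) (nat_lit 9852243816) (nat_lit 96) (nat_lit 5) (nat_lit 99) (nat_lit 5) (nat_lit 100) (nat_lit 5) (nat_lit 436) (nat_lit 420) (nat_lit 344))))) (XT.nd (nat_lit 234) (nat_lit 608) (nat_lit 0)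 (XT.nd (nat_lit 78) (nat_lit 456) (nat_lit 0) (XT.lf (nat_lit 0) (nat_lit 981515137) (nat_lit 304) (nat_lit 31609665675) (nat_lit 76) (nat_lit 6535808681) (nat_lit 92) (nat_lit 5) (nat_lit 96) (nat_lit 5) (nat_lit 93) (nat_lit 5) (nat_lit 437) (nat_lit 420) (nat_lit 343)) (XT.nd (nat_lit 78) (nat_lit 228) (nat_lit 0) (XT.lf (nat_lit 0) (nat_lit 4502363987) (nat_lit 228) (nat_lit 8668425122) (nat_lit 304) (nat_lit 27813979473) (nat_lit 89) (nat_lit 5) (nat_lit 92) (nat_lit 5) (nat_lit 93) (nat_lit 5) (nat_lit 438) (nat_lit 420) (nat_lit 342)) (XT.lf (nat_lit 0) (nat_lit 1421884278) (nat_lit 228) (nat_lit 25752876172) (nat_lit 304) (nat_lit 15774433307) (nat_lit 86) (nat_lit 5) (nat_lit 89) (nat_lit 5) (nat_lit 90) (nat_lit 5) (nat_lit 439) (nat_lit 420) (nat_lit 341)))) (XT.nd (nat_lit 156) (nat_lit 380) (nat_lit 0) (XT.nd (nat_lit 78) (nat_lit 228) (nat_lit 0) (XT.lf (nat_lit 0) (nat_lit 43075236526)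 (nat_lit 304) (nat_lit 1543067380) (nat_lit 76) (nat_lit 413661101) (nat_lit 86) (nat_lit 5) (nat_lit 90) (nat_lit 5) (nat_lit 87) (nat_lit 5) (nat_lit 440) (nat_lit 420) (nat_lit 340)) (XT.lf (nat_lit 0) (nat_lit 13658739568) (nat_lit 228) (nat_lit 4893232976) (nat_lit 76) (nat_lit 28663896955) (nat_lit 83) (nat_lit 5) (nat_lit 86) (nat_lit 5) (nat_lit 84) (nat_lit 5) (nat_lit 441) (nat_lit 420) (nat_lit 339))) (XT.nd (nat_lit 78) (nat_lit 152) (nat_lit 0) (XT.lf (nat_lit 0) (nat_lit 31283029842) (nat_lit 304) (nat_lit 8241270501) (nat_lit 76) (nat_lit 10007176338) (nat_lit 80) (nat_lit 5) (nat_lit 84) (nat_lit 5) (nat_lit 81) (nat_lit 5) (nat_lit 442) (nat_lit 420) (nat_lit 338)) (XT.lf (nat_lit 0) (nat_lit 40276699564) (nat_lit 152) (nat_lit 11060427263) (nat_lit 228) (nat_lit 644213504) (nat_lit 78) (nat_lit 5) (nat_lit 80) (nat_lit 5) (nat_lit 81) (nat_lit 5) (nat_lit 443) (nat_lit 420)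 (nat_lit 337))))))) (XT.nd (nat_lit 1092) (nat_lit 1444) (nat_lit 0) (XT.nd (nat_lit 546) (nat_lit 912) (nat_lit 0) (XT.nd (nat_lit 234) (nat_lit 684) (nat_lit 0) (XT.nd (nat_lit 78) (nat_lit 380) (nat_lit 0) (XT.lf (nat_lit 0) (nat_lit 18856271169) (nat_lit 304) (nat_lit 15593200138) (nat_lit 76) (nat_lit 20109592890) (nat_lit 74) (nat_lit 5) (nat_lit 78) (nat_lit 5) (nat_lit 75) (nat_lit 5) (nat_lit 444) (nat_lit 420) (nat_lit 336)) (XT.nd (nat_lit 78) (nat_lit 228) (nat_lit 0) (XT.lf (nat_lit 0) (nat_lit 37770734624) (nat_lit 152) (nat_lit 3099437516) (nat_lit 228) (nat_lit 16423509279) (nat_lit 72) (nat_lit 5) (nat_lit 74) (nat_lit 5) (nat_lit 75) (nat_lit 5) (nat_lit 445) (nat_lit 420) (nat_lit 335)) (XT.lf (nat_lit 0) (nat_lit 5595997010) (nat_lit 228) (nat_lit 23876540581) (nat_lit 76) (nat_lit 30704165500) (nat_lit 69) (nat_lit 5) (nat_lit 72) (nat_lit 5) (nat_lit 70) (nat_lit 5) (nat_lit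 446) (nat_lit 420) (nat_lit 334)))) (XT.nd (nat_lit 156) (nat_lit 380) (nat_lit 0) (XT.nd (nat_lit 78) (nat_lit 152) (nat_lit 0) (XT.lf (nat_lit 0) (nat_lit 29821678012) (nat_lit 228) (nat_lit 28529242131) (nat_lit 76) (nat_lit 4874984475) (nat_lit 67) (nat_lit 5) (nat_lit 70) (nat_lit 5) (nat_lit 68) (nat_lit 5) (nat_lit 447) (nat_lit 420) (nat_lit 333)) (XT.lf (nat_lit 0) (nat_lit 32845765208) (nat_lit 152) (nat_lit 24565214439) (nat_lit 228) (nat_lit 9036784972) (nat_lit 65) (nat_lit 5) (nat_lit 67) (nat_lit 5) (nat_lit 68) (nat_lit 5) (nat_lit 448) (nat_lit 420) (nat_lit 332))) (XT.nd (nat_lit 78) (nat_lit 152) (nat_lit 0) (XT.lf (nat_lit 0) (nat_lit 17915269941) (nat_lit 228) (nat_lit 39123431468) (nat_lit 76) (nat_lit 12815768716) (nat_lit 62) (nat_lit 5) (nat_lit 65) (nat_lit 5) (nat_lit 63) (nat_lit 5) (nat_lit 449) (nat_lit 420) (nat_lit 331)) (XT.lf (nat_lit 0) (nat_lit 28222005359)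 (nat_lit 152) (nat_lit 19932411195) (nat_lit 228) (nat_lit 25299512243) (nat_lit 60) (nat_lit 5) (nat_lit 62) (nat_lit 5) (nat_lit 63) (nat_lit 5) (nat_lit 450) (nat_lit 420) (nat_lit 330))))) (XT.nd (nat_lit 234) (nat_lit 532) (nat_lit 0) (XT.nd (nat_lit 78) (nat_lit 228) (nat_lit 0) (XT.lf (nat_lit 0) (nat_lit 4782640602) (nat_lit 152) (nat_lit 51823328410) (nat_lit 76) (nat_lit 20661546013) (nat_lit 58) (nat_lit 5) (nat_lit 60) (nat_lit 5) (nat_lit 59) (nat_lit 5) (nat_lit 451) (nat_lit 420) (nat_lit 329)) (XT.nd (nat_lit 78) (nat_lit 76) (nat_lit 0) (XT.lf (nat_lit 0) (nat_lit 21959290363) (nat_lit 152) (nat_lit 15911300208) (nat_lit 228) (nat_lit 43420580887) (nat_lit 56) (nat_lit 5) (nat_lit 58) (nat_lit 5) (nat_lit 59) (nat_lit 5) (nat_lit 452) (nat_lit 420) (nat_lit 328)) (XT.lf (nat_lit 0) (nat_lit 18017130029) (nat_lit 76) (nat_lit 57219229759) (nat_lit 152) (nat_lit 10318821863)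 (nat_lit 55) (nat_lit 5) (nat_lit 56) (nat_lit 5) (nat_lit 57) (nat_lit 4) (nat_lit 453) (nat_lit 420) (nat_lit 327)))) (XT.nd (nat_lit 156) (nat_lit 228) (nat_lit 0) (XT.nd (nat_lit 78) (nat_lit 76) (nat_lit 0) (XT.lf (nat_lit 0) (nat_lit 13297230620) (nat_lit 152) (nat_lit 12840634226) (nat_lit 228) (nat_lit 63926558639) (nat_lit 52) (nat_lit 5) (nat_lit 54) (nat_lit 5) (nat_lit 55) (nat_lit 5) (nat_lit 454) (nat_lit 420) (nat_lit 326)) (XT.lf (nat_lit 0) (nat_lit 7628592598) (nat_lit 76) (nat_lit 59383059752) (nat_lit 152) (nat_lit 27821190242) (nat_lit 51) (nat_lit 5) (nat_lit 52) (nat_lit 5) (nat_lit 53) (nat_lit 4) (nat_lit 455) (nat_lit 420) (nat_lit 325))) (XT.nd (nat_lit 78) (nat_lit 0) (nat_lit 0) (XT.lf (nat_lit 0) (nat_lit 1217884448) (nat_lit 152) (nat_lit 11186554711) (nat_lit 228) (nat_lit 87490103338) (nat_lit 48) (nat_lit 5) (nat_lit 50) (nat_lit 5) (nat_lit 51) (nat_lit 5)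 (nat_lit 456) (nat_lit 420) (nat_lit 324)) (XT.lf (nat_lit 0) (nat_lit 57063317322) (nat_lit 228) (nat_lit 6598929453) (nat_lit 76) (nat_lit 41566631769) (nat_lit 48) (nat_lit 5) (nat_lit 51) (nat_lit 5) (nat_lit 49) (nat_lit 4) (nat_lit 457) (nat_lit 420) (nat_lit 323)))))) (XT.nd (nat_lit 546) (nat_lit 684) (nat_lit 0) (XT.nd (nat_lit 234) (nat_lit 456) (nat_lit 0) (XT.nd (nat_lit 78) (nat_lit 228) (nat_lit 0) (XT.lf (nat_lit 0) (nat_lit 95710960163) (nat_lit 76) (nat_lit 11262178975) (nat_lit 152) (nat_lit 3932910917) (nat_lit 47) (nat_lit 5) (nat_lit 48) (nat_lit 5) (nat_lit 49) (nat_lit 4) (nat_lit 458) (nat_lit 420) (nat_lit 322)) (XT.nd (nat_lit 78) (nat_lit 76) (nat_lit 0) (XT.lf (nat_lit 0) (nat_lit 44722659563) (nat_lit 152) (nat_lit 26022197088) (nat_lit 76) (nat_lit 46143946423) (nat_lit 45) (nat_lit 5) (nat_lit 47) (nat_lit 5) (nat_lit 46) (nat_lit 4) (nat_lit 459) (nat_lit 420)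 (nat_lit 321)) (XT.lf (nat_lit 0) (nat_lit 85072878426) (nat_lit 76) (nat_lit 13844590022) (nat_lit 152) (nat_lit 24340255255) (nat_lit 44) (nat_lit 5) (nat_lit 45) (nat_lit 5) (nat_lit 46) (nat_lit 4) (nat_lit 460) (nat_lit 420) (nat_lit 320)))) (XT.nd (nat_lit 156) (nat_lit 228) (nat_lit 0) (XT.nd (nat_lit 78) (nat_lit 76) (nat_lit 0) (XT.lf (nat_lit 0) (nat_lit 28888318623) (nat_lit 152) (nat_lit 52885515733) (nat_lit 76) (nat_lit 48218465213) (nat_lit 42) (nat_lit 5) (nat_lit 44) (nat_lit 5) (nat_lit 43) (nat_lit 4) (nat_lit 461) (nat_lit 420) (nat_lit 319)) (XT.lf (nat_lit 0) (nat_lit 67242425194) (nat_lit 76) (nat_lit 20246594799) (nat_lit 152) (nat_lit 49658340372) (nat_lit 41) (nat_lit 5) (nat_lit 42) (nat_lit 5) (nat_lit 43) (nat_lit 4) (nat_lit 462) (nat_lit 420) (nat_lit 318))) (XT.nd (nat_lit 78) (nat_lit 76) (nat_lit 0) (XT.lf (nat_lit 0) (nat_lit 8268516847) (nat_lit 152) (nat_lit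 89824115363) (nat_lit 76) (nat_lit 46649861046) (nat_lit 39) (nat_lit 5) (nat_lit 41) (nat_lit 5) (nat_lit 40) (nat_lit 4) (nat_lit 463) (nat_lit 420) (nat_lit 317)) (XT.lf (nat_lit 0) (nat_lit 39394157251) (nat_lit 76) (nat_lit 31909056114) (nat_lit 152) (nat_lit 81490646138) (nat_lit 38) (nat_lit 5) (nat_lit 39) (nat_lit 5) (nat_lit 40) (nat_lit 4) (nat_lit 464) (nat_lit 420) (nat_lit 316))))) (XT.nd (nat_lit 234) (nat_lit 456) (nat_lit 0) (XT.nd (nat_lit 78) (nat_lit 152) (nat_lit 0) (XT.lf (nat_lit 0) (nat_lit 20760089250) (nat_lit 76) (nat_lit 121149065473) (nat_lit 76) (nat_lit 19453756998) (nat_lit 37) (nat_lit 4) (nat_lit 38) (nat_lit 5) (nat_lit 38) (nat_lit 4) (nat_lit 465) (nat_lit 420) (nat_lit 315)) (XT.nd (nat_lit 78) (nat_lit 76) (nat_lit 0) (XT.lf (nat_lit 0) (nat_lit 48566431162) (nat_lit 152) (nat_lit 2136455939) (nat_lit 76) (nat_lit 119750378773) (nat_lit 36) (nat_lit 5)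 (nat_lit 38) (nat_lit 5) (nat_lit 37) (nat_lit 4) (nat_lit 466) (nat_lit 420) (nat_lit 314)) (XT.lf (nat_lit 0) (nat_lit 124164985400) (nat_lit 152) (nat_lit 28640967098) (nat_lit 0) (nat_lit 27308034467) (nat_lit 35) (nat_lit 5) (nat_lit 37) (nat_lit 4) (nat_lit 35) (nat_lit 4) (nat_lit 467) (nat_lit 420) (nat_lit 313)))) (XT.nd (nat_lit 156) (nat_lit 228) (nat_lit 0) (XT.nd (nat_lit 78) (nat_lit 76) (nat_lit 0) (XT.lf (nat_lit 0) (nat_lit 17745615407) (nat_lit 152) (nat_lit 60480342923) (nat_lit 76) (nat_lit 112161177127) (nat_lit 33) (nat_lit 5) (nat_lit 35) (nat_lit 5) (nat_lit 34) (nat_lit 4) (nat_lit 468) (nat_lit 420) (nat_lit 312)) (XT.lf (nat_lit 0) (nat_lit 97600868190) (nat_lit 152) (nat_lit 98371484092) (nat_lit 0) (nat_lit 5352661447) (nat_lit 32) (nat_lit 5) (nat_lit 34) (nat_lit 4) (nat_lit 32) (nat_lit 4) (nat_lit 469) (nat_lit 420) (nat_lit 311))) (XT.nd (nat_lit 78) (nat_lit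 152) (nat_lit 0) (XT.lf (nat_lit 0) (nat_lit 69415966445) (nat_lit 76) (nat_lit 117899095449) (nat_lit 76) (nat_lit 25649334410) (nat_lit 31) (nat_lit 4) (nat_lit 32) (nat_lit 5) (nat_lit 32) (nat_lit 4) (nat_lit 470) (nat_lit 420) (nat_lit 310)) (XT.lf (nat_lit 0) (nat_lit 28657157221) (nat_lit 76) (nat_lit 30322529326) (nat_lit 152) (nat_lit 166400137807) (nat_lit 29) (nat_lit 5) (nat_lit 30) (nat_lit 5) (nat_lit 31) (nat_lit 4) (nat_lit 471) (nat_lit 420) (nat_lit 309))))))))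
noncomputable def xc79 : XT := (XT.nd (nat_lit 58500) (nat_lit 0) (nat_lit 4408) (XT.nd (nat_lit 1092) (nat_lit 684) (nat_lit 0) (XT.nd (nat_lit 546) (nat_lit 456) (nat_lit 0) (XT.nd (nat_lit 234) (nat_lit 304) (nat_lit 0) (XT.nd (nat_lit 78) (nat_lit 228) (nat_lit 0) (XT.lf (nat_lit 0) (nat_lit 153034300529) (nat_lit 152) (nat_lit 20380721661) (nat_lit 0) (nat_lit 65174745520) (nat_lit 29) (nat_lit 5) (nat_lit 31) (nat_lit 4) (nat_lit 29) (nat_lit 4) (nat_lit 472) (nat_lit 420) (nat_lit 308)) (XT.nd (nat_lit 78) (nat_lit 76) (nat_lit 0) (XT.lf (nat_lit 0) (nat_lit 4997026880) (nat_lit 152) (nat_lit 77616824999) (nat_lit 76) (nat_lit 170076459423) (nat_lit 27) (nat_lit 5) (nat_lit 29) (nat_lit 5) (nat_lit 28) (nat_lit 4) (nat_lit 473) (nat_lit 420) (nat_lit 307)) (XT.lf (nat_lit 0) (nat_lit 102392171233) (nat_lit 152) (nat_lit 146612555706) (nat_lit 0) (nat_lit 18714249181) (nat_lit 26) (nat_lit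 5) (nat_lit 28) (nat_lit 4) (nat_lit 26) (nat_lit 4) (nat_lit 474) (nat_lit 420) (nat_lit 306)))) (XT.nd (nat_lit 156) (nat_lit 152) (nat_lit 0) (XT.nd (nat_lit 78) (nat_lit 76) (nat_lit 0) (XT.lf (nat_lit 0) (nat_lit 54955558066) (nat_lit 76) (nat_lit 156246061509) (nat_lit 76) (nat_lit 72567179976) (nat_lit 25) (nat_lit 4) (nat_lit 26) (nat_lit 5) (nat_lit 26) (nat_lit 4) (nat_lit 475) (nat_lit 420) (nat_lit 305)) (XT.lf (nat_lit 0) (nat_lit 29322717945) (nat_lit 152) (nat_lit 23568198152) (nat_lit 76) (nat_lit 248060471901) (nat_lit 24) (nat_lit 5) (nat_lit 26) (nat_lit 5) (nat_lit 25) (nat_lit 4) (nat_lit 476) (nat_lit 420) (nat_lit 304))) (XT.nd (nat_lit 78) (nat_lit 76) (nat_lit 0) (XT.lf (nat_lit 0) (nat_lit 141017468317) (nat_lit 152) (nat_lit 116900164997) (nat_lit 0) (nat_lit 61321665897) (nat_lit 23) (nat_lit 5) (nat_lit 25) (nat_lit 4) (nat_lit 23) (nat_lit 4) (nat_lit 477) (nat_lit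 420) (nat_lit 303)) (XT.lf (nat_lit 0) (nat_lit 110835386765) (nat_lit 76) (nat_lit 153849758539) (nat_lit 76) (nat_lit 74153230722) (nat_lit 22) (nat_lit 4) (nat_lit 23) (nat_lit 5) (nat_lit 23) (nat_lit 4) (nat_lit 478) (nat_lit 420) (nat_lit 302))))) (XT.nd (nat_lit 234) (nat_lit 228) (nat_lit 0) (XT.nd (nat_lit 78) (nat_lit 76) (nat_lit 0) (XT.lf (nat_lit 0) (nat_lit 440042963) (nat_lit 76) (nat_lit 38651294814) (nat_lit 152) (nat_lit 320780467567) (nat_lit 20) (nat_lit 5) (nat_lit 21) (nat_lit 5) (nat_lit 22) (nat_lit 4) (nat_lit 479) (nat_lit 420) (nat_lit 301)) (XT.nd (nat_lit 78) (nat_lit 76) (nat_lit 0) (XT.lf (nat_lit 0) (nat_lit 164205923202) (nat_lit 152) (nat_lit 129747547362) (nat_lit 0) (nat_lit 88303236163) (nat_lit 20) (nat_lit 5) (nat_lit 22) (nat_lit 4) (nat_lit 20) (nat_lit 4) (nat_lit 480) (nat_lit 420) (nat_lit 300)) (XT.lf (nat_lit 0) (nat_lit 121546032493) (nat_lit 76)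 (nat_lit 180331114813) (nat_lit 76) (nat_lit 104427879351) (nat_lit 19) (nat_lit 4) (nat_lit 20) (nat_lit 5) (nat_lit 20) (nat_lit 4) (nat_lit 481) (nat_lit 420) (nat_lit 299)))) (XT.nd (nat_lit 156) (nat_lit 76) (nat_lit 0) (XT.nd (nat_lit 78) (nat_lit 76) (nat_lit 0) (XT.lf (nat_lit 0) (nat_lit 19994918514) (nat_lit 152) (nat_lit 34914160306) (nat_lit 76) (nat_lit 377239094945) (nat_lit 18) (nat_lit 5) (nat_lit 20) (nat_lit 5) (nat_lit 19) (nat_lit 4) (nat_lit 482) (nat_lit 420) (nat_lit 298)) (XT.lf (nat_lit 0) (nat_lit 155868663390) (nat_lit 152) (nat_lit 220267787978) (nat_lit 0) (nat_lit 83578936301) (nat_lit 17) (nat_lit 5) (nat_lit 19) (nat_lit 4) (nat_lit 17) (nat_lit 4) (nat_lit 483) (nat_lit 420) (nat_lit 297))) (XT.nd (nat_lit 78) (nat_lit 0) (nat_lit 0) (XT.lf (nat_lit 0) (nat_lit 48149353456) (nat_lit 76) (nat_lit 256757031554) (nat_lit 76) (nat_lit 184466889841) (nat_lit 16)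 (nat_lit 4) (nat_lit 17) (nat_lit 5) (nat_lit 17) (nat_lit 4) (nat_lit 484) (nat_lit 420) (nat_lit 296)) (XT.lf (nat_lit 0) (nat_lit 345902312037) (nat_lit 76) (nat_lit 123800120600) (nat_lit 76) (nat_lit 51509594976) (nat_lit 16) (nat_lit 4) (nat_lit 17) (nat_lit 5) (nat_lit 17) (nat_lit 4) (nat_lit 485) (nat_lit 420) (nat_lit 295)))))) (XT.nd (nat_lit 546) (nat_lit 228) (nat_lit 0) (XT.nd (nat_lit 234) (nat_lit 228) (nat_lit 0) (XT.nd (nat_lit 78) (nat_lit 76) (nat_lit 0) (XT.lf (nat_lit 0) (nat_lit 91278506849) (nat_lit 152) (nat_lit 441710365640) (nat_lit 0) (nat_lit 22430048661) (nat_lit 14) (nat_lit 5) (nat_lit 16) (nat_lit 4) (nat_lit 14) (nat_lit 4) (nat_lit 486) (nat_lit 420) (nat_lit 294)) (XT.nd (nat_lit 78) (nat_lit 76) (nat_lit 0) (XT.lf (nat_lit 0) (nat_lit 248899002669) (nat_lit 152) (nat_lit 163110211968) (nat_lit 0) (nat_lit 180050231012) (nat_lit 14) (nat_lit 5) (nat_lit 16)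 (nat_lit 4) (nat_lit 14) (nat_lit 4) (nat_lit 487) (nat_lit 420) (nat_lit 293)) (XT.lf (nat_lit 0) (nat_lit 142330672023) (nat_lit 76) (nat_lit 279019280640) (nat_lit 76) (nat_lit 210170218735) (nat_lit 13) (nat_lit 4) (nat_lit 14) (nat_lit 5) (nat_lit 14) (nat_lit 4) (nat_lit 488) (nat_lit 420) (nat_lit 292)))) (XT.nd (nat_lit 156) (nat_lit 76) (nat_lit 0) (XT.nd (nat_lit 78) (nat_lit 152) (nat_lit 0) (XT.lf (nat_lit 0) (nat_lit 478028807051) (nat_lit 76) (nat_lit 132408140197) (nat_lit 76) (nat_lit 63558809542) (nat_lit 13) (nat_lit 4) (nat_lit 14) (nat_lit 5) (nat_lit 14) (nat_lit 4) (nat_lit 489) (nat_lit 420) (nat_lit 291)) (XT.lf (nat_lit 0) (nat_lit 94130400533) (nat_lit 152) (nat_lit 596986501377) (nat_lit 0) (nat_lit 28559372442) (nat_lit 11) (nat_lit 5) (nat_lit 13) (nat_lit 4) (nat_lit 11) (nat_lit 4) (nat_lit 490) (nat_lit 420) (nat_lit 290))) (XT.nd (nat_lit 78) (nat_lit 76) (nat_lit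 0) (XT.lf (nat_lit 0) (nat_lit 267938754375) (nat_lit 152) (nat_lit 298366334818) (nat_lit 0) (nat_lit 202367506847) (nat_lit 11) (nat_lit 5) (nat_lit 13) (nat_lit 4) (nat_lit 11) (nat_lit 4) (nat_lit 491) (nat_lit 420) (nat_lit 289)) (XT.lf (nat_lit 0) (nat_lit 24939430395) (nat_lit 76) (nat_lit 431100615170) (nat_lit 76) (nat_lit 365529164459) (nat_lit 10) (nat_lit 4) (nat_lit 11) (nat_lit 5) (nat_lit 11) (nat_lit 4) (nat_lit 492) (nat_lit 420) (nat_lit 288))))) (XT.nd (nat_lit 234) (nat_lit 76) (nat_lit 0) (XT.nd (nat_lit 78) (nat_lit 152) (nat_lit 0) (XT.lf (nat_lit 0) (nat_lit 384762087213) (nat_lit 76) (nat_lit 279623645076) (nat_lit 76) (nat_lit 214052006234) (nat_lit 10) (nat_lit 4) (nat_lit 11) (nat_lit 5) (nat_lit 11) (nat_lit 4) (nat_lit 493) (nat_lit 420) (nat_lit 287)) (XT.nd (nat_lit 78) (nat_lit 152) (nat_lit 0) (XT.lf (nat_lit 0) (nat_lit 773368579554) (nat_lit 76) (nat_lit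 116029515861) (nat_lit 76) (nat_lit 50457702823) (nat_lit 10) (nat_lit 4) (nat_lit 11) (nat_lit 5) (nat_lit 11) (nat_lit 4) (nat_lit 494) (nat_lit 420) (nat_lit 286)) (XT.lf (nat_lit 0) (nat_lit 126193713494) (nat_lit 152) (nat_lit 815950363002) (nat_lit 0) (nat_lit 63744214131) (nat_lit 8) (nat_lit 5) (nat_lit 10) (nat_lit 4) (nat_lit 8) (nat_lit 4) (nat_lit 495) (nat_lit 420) (nat_lit 285)))) (XT.nd (nat_lit 156) (nat_lit 76) (nat_lit 0) (XT.nd (nat_lit 78) (nat_lit 0) (nat_lit 0) (XT.lf (nat_lit 0) (nat_lit 320136302196) (nat_lit 152) (nat_lit 499092718287) (nat_lit 0) (nat_lit 257686660600) (nat_lit 8) (nat_lit 5) (nat_lit 10) (nat_lit 4) (nat_lit 8) (nat_lit 4) (nat_lit 496) (nat_lit 420) (nat_lit 284)) (XT.lf (nat_lit 0) (nat_lit 529593469720) (nat_lit 152) (nat_lit 156888138050) (nat_lit 0) (nat_lit 467143696426) (nat_lit 8) (nat_lit 5) (nat_lit 10) (nat_lit 4) (nat_lit 8) (nat_lit 4)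 (nat_lit 497) (nat_lit 420) (nat_lit 283))) (XT.nd (nat_lit 78) (nat_lit 0) (nat_lit 0) (XT.lf (nat_lit 0) (nat_lit 219723790190) (nat_lit 76) (nat_lit 539513157674) (nat_lit 76) (nat_lit 477063262438) (nat_lit 7) (nat_lit 4) (nat_lit 8) (nat_lit 5) (nat_lit 8) (nat_lit 4) (nat_lit 498) (nat_lit 420) (nat_lit 282)) (XT.lf (nat_lit 0) (nat_lit 632065613031) (nat_lit 76) (nat_lit 377918448087) (nat_lit 76) (nat_lit 315468439942) (nat_lit 7) (nat_lit 4) (nat_lit 8) (nat_lit 5) (nat_lit 8) (nat_lit 4) (nat_lit 499) (nat_lit 420) (nat_lit 281))))))) (XT.nd (nat_lit 1092) (nat_lit 3268) (nat_lit 0) (XT.nd (nat_lit 546) (nat_lit 2204) (nat_lit 0) (XT.nd (nat_lit 234) (nat_lit 0) (nat_lit 152) (XT.nd (nat_lit 78) (nat_lit 0) (nat_lit 76) (XT.lf (nat_lit 0) (nat_lit 2916473392) (nat_lit 836) (nat_lit 3679499108) (nat_lit 836) (nat_lit 3679499108) (nat_lit 137) (nat_lit 3) (nat_lit 148) (nat_lit 3) (nat_lit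 148) (nat_lit 5) (nat_lit 421) (nat_lit 421) (nat_lit 358)) (XT.nd (nat_lit 78) (nat_lit 0) (nat_lit 0) (XT.lf (nat_lit 0) (nat_lit 6493257971) (nat_lit 760) (nat_lit 12222234784) (nat_lit 836) (nat_lit 2636082439) (nat_lit 138) (nat_lit 5) (nat_lit 148) (nat_lit 5) (nat_lit 149) (nat_lit 5) (nat_lit 422) (nat_lit 421) (nat_lit 357)) (XT.lf (nat_lit 76) (nat_lit 4907730041) (nat_lit 0) (nat_lit 2703853329) (nat_lit 836) (nat_lit 14584420505) (nat_lit 139) (nat_lit 5) (nat_lit 138) (nat_lit 5) (nat_lit 149) (nat_lit 5) (nat_lit 423) (nat_lit 421) (nat_lit 356)))) (XT.nd (nat_lit 156) (nat_lit 0) (nat_lit 152) (XT.nd (nat_lit 78) (nat_lit 0) (nat_lit 76) (XT.lf (nat_lit 76) (nat_lit 517367659) (nat_lit 0) (nat_lit 8731794135) (nat_lit 836) (nat_lit 13837340901) (nat_lit 140) (nat_lit 5) (nat_lit 139) (nat_lit 5) (nat_lit 150) (nat_lit 5) (nat_lit 424) (nat_lit 421) (nat_lit 355)) (XT.lf (nat_lit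 0) (nat_lit 11482634618) (nat_lit 760) (nat_lit 3868650775) (nat_lit 836) (nat_lit 8673716433) (nat_lit 140) (nat_lit 5) (nat_lit 150) (nat_lit 5) (nat_lit 151) (nat_lit 5) (nat_lit 425) (nat_lit 421) (nat_lit 354))) (XT.nd (nat_lit 78) (nat_lit 0) (nat_lit 0) (XT.lf (nat_lit 0) (nat_lit 14321138325) (nat_lit 760) (nat_lit 8356205814) (nat_lit 836) (nat_lit 2339923550) (nat_lit 141) (nat_lit 5) (nat_lit 151) (nat_lit 5) (nat_lit 152) (nat_lit 5) (nat_lit 426) (nat_lit 421) (nat_lit 353)) (XT.lf (nat_lit 76) (nat_lit 13027950167) (nat_lit 0) (nat_lit 4871439146) (nat_lit 836) (nat_lit 8163896282) (nat_lit 142) (nat_lit 5) (nat_lit 141) (nat_lit 5) (nat_lit 152) (nat_lit 5) (nat_lit 427) (nat_lit 421) (nat_lit 352))))) (XT.nd (nat_lit 234) (nat_lit 988) (nat_lit 0) (XT.nd (nat_lit 78) (nat_lit 836) (nat_lit 0) (XT.lf (nat_lit 0) (nat_lit 9291262280) (nat_lit 760) (nat_lit 12972910621) (nat_lit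 836) (nat_lit 4903802228) (nat_lit 132) (nat_lit 5) (nat_lit 142) (nat_lit 5) (nat_lit 143) (nat_lit 5) (nat_lit 428) (nat_lit 421) (nat_lit 351)) (XT.nd (nat_lit 78) (nat_lit 456) (nat_lit 0) (XT.lf (nat_lit 0) (nat_lit 5498247821) (nat_lit 380) (nat_lit 21959211101) (nat_lit 456) (nat_lit 879618451) (nat_lit 127) (nat_lit 5) (nat_lit 132) (nat_lit 5) (nat_lit 133) (nat_lit 5) (nat_lit 429) (nat_lit 421) (nat_lit 350)) (XT.lf (nat_lit 0) (nat_lit 1554123320) (nat_lit 380) (nat_lit 2345775787) (nat_lit 456) (nat_lit 25669888282) (nat_lit 121) (nat_lit 5) (nat_lit 126) (nat_lit 5) (nat_lit 127) (nat_lit 5) (nat_lit 430) (nat_lit 421) (nat_lit 349)))) (XT.nd (nat_lit 156) (nat_lit 608) (nat_lit 0) (XT.nd (nat_lit 78) (nat_lit 380) (nat_lit 0) (XT.lf (nat_lit 0) (nat_lit 9715553978) (nat_lit 456) (nat_lit 2497733046) (nat_lit 76) (nat_lit 18652879399) (nat_lit 121) (nat_lit 5) (nat_lit 127) (nat_lit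 5) (nat_lit 122) (nat_lit 5) (nat_lit 431) (nat_lit 421) (nat_lit 348)) (XT.lf (nat_lit 0) (nat_lit 16573053361) (nat_lit 456) (nat_lit 6556734055) (nat_lit 76) (nat_lit 9107641430) (nat_lit 116) (nat_lit 5) (nat_lit 122) (nat_lit 5) (nat_lit 117) (nat_lit 5) (nat_lit 432) (nat_lit 421) (nat_lit 347))) (XT.nd (nat_lit 78) (nat_lit 304) (nat_lit 0) (XT.lf (nat_lit 0) (nat_lit 23001905330) (nat_lit 304) (nat_lit 1574071339) (nat_lit 380) (nat_lit 9112576871) (nat_lit 112) (nat_lit 5) (nat_lit 116) (nat_lit 5) (nat_lit 117) (nat_lit 5) (nat_lit 433) (nat_lit 421) (nat_lit 346)) (XT.lf (nat_lit 0) (nat_lit 20201139077) (nat_lit 304) (nat_lit 13776597598) (nat_lit 380) (nat_lit 1240103685) (nat_lit 108) (nat_lit 5) (nat_lit 112) (nat_lit 5) (nat_lit 113) (nat_lit 5) (nat_lit 434) (nat_lit 421) (nat_lit 345)))))) (XT.nd (nat_lit 546) (nat_lit 1596) (nat_lit 0) (XT.nd (nat_lit 234) (nat_lit 760) (nat_lit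 0) (XT.nd (nat_lit 78) (nat_lit 532) (nat_lit 0) (XT.lf (nat_lit 0) (nat_lit 7662936359) (nat_lit 380) (nat_lit 19511411670) (nat_lit 76) (nat_lit 9657794793) (nat_lit 103) (nat_lit 5) (nat_lit 108) (nat_lit 5) (nat_lit 104) (nat_lit 5) (nat_lit 435) (nat_lit 421) (nat_lit 344)) (XT.nd (nat_lit 78) (nat_lit 228) (nat_lit 0) (XT.lf (nat_lit 0) (nat_lit 14408925334) (nat_lit 304) (nat_lit 3538858364) (nat_lit 380) (nat_lit 20591140612) (nat_lit 99) (nat_lit 5) (nat_lit 103) (nat_lit 5) (nat_lit 104) (nat_lit 5) (nat_lit 436) (nat_lit 421) (nat_lit 343)) (XT.lf (nat_lit 0) (nat_lit 11376119121) (nat_lit 228) (nat_lit 18535488544) (nat_lit 304) (nat_lit 10427832942) (nat_lit 96) (nat_lit 5) (nat_lit 99) (nat_lit 5) (nat_lit 100) (nat_lit 5) (nat_lit 437) (nat_lit 421) (nat_lit 342)))) (XT.nd (nat_lit 156) (nat_lit 228) (nat_lit 0) (XT.nd (nat_lit 78) (nat_lit 228) (nat_lit 0) (XT.lf (nat_lit 0)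 (nat_lit 1255876784) (nat_lit 304) (nat_lit 33862787886) (nat_lit 76) (nat_lit 7128662149) (nat_lit 92) (nat_lit 5) (nat_lit 96) (nat_lit 5) (nat_lit 93) (nat_lit 5) (nat_lit 438) (nat_lit 421) (nat_lit 341)) (XT.lf (nat_lit 0) (nat_lit 5126224691) (nat_lit 228) (nat_lit 9283677936) (nat_lit 304) (nat_lit 29844347318) (nat_lit 89) (nat_lit 5) (nat_lit 92) (nat_lit 5) (nat_lit 93) (nat_lit 5) (nat_lit 439) (nat_lit 421) (nat_lit 340))) (XT.nd (nat_lit 78) (nat_lit 0) (nat_lit 0) (XT.lf (nat_lit 0) (nat_lit 1795575532) (nat_lit 228) (nat_lit 27730068265) (nat_lit 304) (nat_lit 16850614775) (nat_lit 86) (nat_lit 5) (nat_lit 89) (nat_lit 5) (nat_lit 90) (nat_lit 5) (nat_lit 440) (nat_lit 421) (nat_lit 339)) (XT.lf (nat_lit 0) (nat_lit 46686254493) (nat_lit 304) (nat_lit 1418813936) (nat_lit 76) (nat_lit 521180161) (nat_lit 86) (nat_lit 5) (nat_lit 90) (nat_lit 5) (nat_lit 87) (nat_lit 5) (nat_lit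 441) (nat_lit 421) (nat_lit 338))))) (XT.nd (nat_lit 312) (nat_lit 684) (nat_lit 0) (XT.nd (nat_lit 156) (nat_lit 456) (nat_lit 0) (XT.nd (nat_lit 78) (nat_lit 228) (nat_lit 0) (XT.lf (nat_lit 0) (nat_lit 14910501226) (nat_lit 228) (nat_lit 5042477276) (nat_lit 76) (nat_lit 31032186564) (nat_lit 83) (nat_lit 5) (nat_lit 86) (nat_lit 5) (nat_lit 84) (nat_lit 5) (nat_lit 442) (nat_lit 421) (nat_lit 337)) (XT.lf (nat_lit 0) (nat_lit 33937830982) (nat_lit 304) (nat_lit 8662581317) (nat_lit 76) (nat_lit 10885955255) (nat_lit 80) (nat_lit 5) (nat_lit 84) (nat_lit 5) (nat_lit 81) (nat_lit 5) (nat_lit 443) (nat_lit 421) (nat_lit 336))) (XT.nd (nat_lit 78) (nat_lit 304) (nat_lit 0) (XT.lf (nat_lit 0) (nat_lit 43726483562) (nat_lit 152) (nat_lit 11862055369) (nat_lit 228) (nat_lit 544068637) (nat_lit 78) (nat_lit 5) (nat_lit 80) (nat_lit 5) (nat_lit 81) (nat_lit 5) (nat_lit 444) (nat_lit 421) (nat_lit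 335)) (XT.lf (nat_lit 0) (nat_lit 20505492197) (nat_lit 304) (nat_lit 16612550103) (nat_lit 76) (nat_lit 21798695288) (nat_lit 74) (nat_lit 5) (nat_lit 78) (nat_lit 5) (nat_lit 75) (nat_lit 5) (nat_lit 445) (nat_lit 421) (nat_lit 334)))) (XT.nd (nat_lit 156) (nat_lit 304) (nat_lit 0) (XT.nd (nat_lit 78) (nat_lit 228) (nat_lit 0) (XT.lf (nat_lit 0) (nat_lit 41010586229) (nat_lit 152) (nat_lit 3262901964) (nat_lit 228) (nat_lit 17596988016) (nat_lit 72) (nat_lit 5) (nat_lit 74) (nat_lit 5) (nat_lit 75) (nat_lit 5) (nat_lit 446) (nat_lit 421) (nat_lit 333)) (XT.lf (nat_lit 0) (nat_lit 6174152846) (nat_lit 228) (nat_lit 25568479621) (nat_lit 76) (nat_lit 33241670185) (nat_lit 69) (nat_lit 5) (nat_lit 72) (nat_lit 5) (nat_lit 70) (nat_lit 5) (nat_lit 447) (nat_lit 421) (nat_lit 332))) (XT.nd (nat_lit 78) (nat_lit 152) (nat_lit 0) (XT.lf (nat_lit 0) (nat_lit 32332803212) (nat_lit 228) (nat_lit 30597985257)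 (nat_lit 76) (nat_lit 5346907042) (nat_lit 67) (nat_lit 5) (nat_lit 70) (nat_lit 5) (nat_lit 68) (nat_lit 5) (nat_lit 448) (nat_lit 421) (nat_lit 331)) (XT.lf (nat_lit 0) (nat_lit 35677740035) (nat_lit 152) (nat_lit 26445410631) (nat_lit 228) (nat_lit 9634459445) (nat_lit 65) (nat_lit 5) (nat_lit 67) (nat_lit 5) (nat_lit 68) (nat_lit 5) (nat_lit 449) (nat_lit 421) (nat_lit 330))))))))
noncomputable def xc80 : XT := (XT.nd (nat_lit 2184) (nat_lit 1292) (nat_lit 0) (XT.nd (nat_lit 1092) (nat_lit 1292) (nat_lit 0) (XT.nd (nat_lit 546) (nat_lit 760) (nat_lit 0) (XT.nd (nat_lit 234) (nat_lit 532) (nat_lit 0) (XT.nd (nat_lit 78) (nat_lit 304) (nat_lit 0) (XT.lf (nat_lit 0) (nat_lit 19465189441) (nat_lit 228) (nat_lit 42049557041) (nat_lit 76) (nat_lit 13922236618) (nat_lit 62) (nat_lit 5) (nat_lit 65) (nat_lit 5) (nat_lit 63) (nat_lit 5) (nat_lit 450) (nat_lit 421) (nat_lit 329)) (XT.nd (nat_lit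 78) (nat_lit 152) (nat_lit 0) (XT.lf (nat_lit 0) (nat_lit 30674660051) (nat_lit 152) (nat_lit 21443206289) (nat_lit 228) (nat_lit 27206812920) (nat_lit 60) (nat_lit 5) (nat_lit 62) (nat_lit 5) (nat_lit 63) (nat_lit 5) (nat_lit 451) (nat_lit 421) (nat_lit 328)) (XT.lf (nat_lit 0) (nat_lit 5274067555) (nat_lit 152) (nat_lit 55775093813) (nat_lit 76) (nat_lit 22394306122) (nat_lit 58) (nat_lit 5) (nat_lit 60) (nat_lit 5) (nat_lit 59) (nat_lit 5) (nat_lit 452) (nat_lit 421) (nat_lit 327)))) (XT.nd (nat_lit 156) (nat_lit 304) (nat_lit 0) (XT.nd (nat_lit 78) (nat_lit 76) (nat_lit 0) (XT.lf (nat_lit 0) (nat_lit 23901699075) (nat_lit 152) (nat_lit 17102192783) (nat_lit 228) (nat_lit 46785383251) (nat_lit 56) (nat_lit 5) (nat_lit 58) (nat_lit 5) (nat_lit 59) (nat_lit 5) (nat_lit 453) (nat_lit 421) (nat_lit 326)) (XT.lf (nat_lit 0) (nat_lit 19639836848) (nat_lit 76) (nat_lit 61715424438) (nat_lit 152)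 (nat_lit 11039328443) (nat_lit 55) (nat_lit 5) (nat_lit 56) (nat_lit 5) (nat_lit 57) (nat_lit 4) (nat_lit 454) (nat_lit 421) (nat_lit 325))) (XT.nd (nat_lit 78) (nat_lit 76) (nat_lit 0) (XT.lf (nat_lit 0) (nat_lit 14537685618) (nat_lit 152) (nat_lit 13788076591) (nat_lit 228) (nat_lit 68938965734) (nat_lit 52) (nat_lit 5) (nat_lit 54) (nat_lit 5) (nat_lit 55) (nat_lit 5) (nat_lit 455) (nat_lit 421) (nat_lit 324)) (XT.lf (nat_lit 0) (nat_lit 8411325197) (nat_lit 76) (nat_lit 64054798182) (nat_lit 152) (nat_lit 29948664111) (nat_lit 51) (nat_lit 5) (nat_lit 52) (nat_lit 5) (nat_lit 53) (nat_lit 4) (nat_lit 456) (nat_lit 421) (nat_lit 323))))) (XT.nd (nat_lit 234) (nat_lit 456) (nat_lit 0) (XT.nd (nat_lit 78) (nat_lit 76) (nat_lit 0) (XT.lf (nat_lit 0) (nat_lit 1483278284) (nat_lit 152) (nat_lit 12004173247) (nat_lit 228) (nat_lit 94394116595) (nat_lit 48) (nat_lit 5) (nat_lit 50) (nat_lit 5)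 (nat_lit 51) (nat_lit 5) (nat_lit 457) (nat_lit 421) (nat_lit 322)) (XT.nd (nat_lit 78) (nat_lit 76) (nat_lit 0) (XT.lf (nat_lit 0) (nat_lit 61713442152) (nat_lit 228) (nat_lit 6968238355) (nat_lit 76) (nat_lit 44961250803) (nat_lit 48) (nat_lit 5) (nat_lit 51) (nat_lit 5) (nat_lit 49) (nat_lit 4) (nat_lit 458) (nat_lit 421) (nat_lit 321)) (XT.lf (nat_lit 0) (nat_lit 103519549630) (nat_lit 76) (nat_lit 12092568044) (nat_lit 152) (nat_lit 4162355807) (nat_lit 47) (nat_lit 5) (nat_lit 48) (nat_lit 5) (nat_lit 49) (nat_lit 4) (nat_lit 459) (nat_lit 421) (nat_lit 320)))) (XT.nd (nat_lit 156) (nat_lit 228) (nat_lit 0) (XT.nd (nat_lit 78) (nat_lit 76) (nat_lit 0) (XT.lf (nat_lit 0) (nat_lit 48380210411) (nat_lit 152) (nat_lit 27953383264) (nat_lit 76) (nat_lit 49902323030) (nat_lit 45) (nat_lit 5) (nat_lit 47) (nat_lit 5) (nat_lit 46) (nat_lit 4) (nat_lit 460) (nat_lit 421) (nat_lit 319)) (XT.lf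 (nat_lit 0) (nat_lit 92022753851) (nat_lit 76) (nat_lit 14884192580) (nat_lit 152) (nat_lit 26207587707) (nat_lit 44) (nat_lit 5) (nat_lit 45) (nat_lit 5) (nat_lit 46) (nat_lit 4) (nat_lit 461) (nat_lit 421) (nat_lit 318))) (XT.nd (nat_lit 78) (nat_lit 76) (nat_lit 0) (XT.lf (nat_lit 0) (nat_lit 31274213730) (nat_lit 152) (nat_lit 56973467641) (nat_lit 76) (nat_lit 52140257652) (nat_lit 42) (nat_lit 5) (nat_lit 44) (nat_lit 5) (nat_lit 43) (nat_lit 4) (nat_lit 462) (nat_lit 421) (nat_lit 317)) (XT.lf (nat_lit 0) (nat_lit 72758498762) (nat_lit 76) (nat_lit 21801063463) (nat_lit 152) (nat_lit 53556013131) (nat_lit 41) (nat_lit 5) (nat_lit 42) (nat_lit 5) (nat_lit 43) (nat_lit 4) (nat_lit 463) (nat_lit 421) (nat_lit 316)))))) (XT.nd (nat_lit 546) (nat_lit 608) (nat_lit 0) (XT.nd (nat_lit 234) (nat_lit 380) (nat_lit 0) (XT.nd (nat_lit 78) (nat_lit 152) (nat_lit 0) (XT.lf (nat_lit 0) (nat_lit 9000287352)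 (nat_lit 152) (nat_lit 96874534487) (nat_lit 76) (nat_lit 50443553945) (nat_lit 39) (nat_lit 5) (nat_lit 41) (nat_lit 5) (nat_lit 40) (nat_lit 4) (nat_lit 464) (nat_lit 421) (nat_lit 315)) (XT.nd (nat_lit 78) (nat_lit 76) (nat_lit 0) (XT.lf (nat_lit 0) (nat_lit 42675310832) (nat_lit 76) (nat_lit 34399265902) (nat_lit 152) (nat_lit 87939433922) (nat_lit 38) (nat_lit 5) (nat_lit 39) (nat_lit 5) (nat_lit 40) (nat_lit 4) (nat_lit 465) (nat_lit 421) (nat_lit 314)) (XT.lf (nat_lit 0) (nat_lit 22547162296) (nat_lit 76) (nat_lit 130779735363) (nat_lit 76) (nat_lit 20941794350) (nat_lit 37) (nat_lit 4) (nat_lit 38) (nat_lit 5) (nat_lit 38) (nat_lit 4) (nat_lit 466) (nat_lit 421) (nat_lit 313)))) (XT.nd (nat_lit 156) (nat_lit 228) (nat_lit 0) (XT.nd (nat_lit 78) (nat_lit 76) (nat_lit 0) (XT.lf (nat_lit 0) (nat_lit 52512929321) (nat_lit 152) (nat_lit 2188434659) (nat_lit 76) (nat_lit 129385102110) (nat_lit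 36) (nat_lit 5) (nat_lit 38) (nat_lit 5) (nat_lit 37) (nat_lit 4) (nat_lit 467) (nat_lit 421) (nat_lit 312)) (XT.lf (nat_lit 0) (nat_lit 134157476055) (nat_lit 152) (nat_lit 30816416508) (nat_lit 0) (nat_lit 29546247037) (nat_lit 35) (nat_lit 5) (nat_lit 37) (nat_lit 4) (nat_lit 35) (nat_lit 4) (nat_lit 468) (nat_lit 421) (nat_lit 311))) (XT.nd (nat_lit 78) (nat_lit 76) (nat_lit 0) (XT.lf (nat_lit 0) (nat_lit 19222824192) (nat_lit 152) (nat_lit 65206071434) (nat_lit 76) (nat_lit 121186331163) (nat_lit 33) (nat_lit 5) (nat_lit 35) (nat_lit 5) (nat_lit 34) (nat_lit 4) (nat_lit 469) (nat_lit 421) (nat_lit 310)) (XT.lf (nat_lit 0) (nat_lit 105464741307) (nat_lit 152) (nat_lit 106131475995) (nat_lit 0) (nat_lit 5832005927) (nat_lit 32) (nat_lit 5) (nat_lit 34) (nat_lit 4) (nat_lit 32) (nat_lit 4) (nat_lit 470) (nat_lit 421) (nat_lit 309))))) (XT.nd (nat_lit 234) (nat_lit 380) (nat_lit 0) (XT.nd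 (nat_lit 78) (nat_lit 152) (nat_lit 0) (XT.lf (nat_lit 0) (nat_lit 75074201991) (nat_lit 76) (nat_lit 127279373604) (nat_lit 76) (nat_lit 27645305667) (nat_lit 31) (nat_lit 4) (nat_lit 32) (nat_lit 5) (nat_lit 32) (nat_lit 4) (nat_lit 471) (nat_lit 421) (nat_lit 308)) (XT.nd (nat_lit 78) (nat_lit 0) (nat_lit 0) (XT.lf (nat_lit 0) (nat_lit 31051841571) (nat_lit 76) (nat_lit 32697984457) (nat_lit 152) (nat_lit 179657794891) (nat_lit 29) (nat_lit 5) (nat_lit 30) (nat_lit 5) (nat_lit 31) (nat_lit 4) (nat_lit 472) (nat_lit 421) (nat_lit 307)) (XT.lf (nat_lit 0) (nat_lit 165325702552) (nat_lit 152) (nat_lit 21914961714) (nat_lit 0) (nat_lit 70433850893) (nat_lit 29) (nat_lit 5) (nat_lit 31) (nat_lit 4) (nat_lit 29) (nat_lit 4) (nat_lit 473) (nat_lit 421) (nat_lit 306)))) (XT.nd (nat_lit 156) (nat_lit 152) (nat_lit 0) (XT.nd (nat_lit 78) (nat_lit 76) (nat_lit 0) (XT.lf (nat_lit 0) (nat_lit 5444042758)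 (nat_lit 152) (nat_lit 83732571458) (nat_lit 76) (nat_lit 183726558361) (nat_lit 27) (nat_lit 5) (nat_lit 29) (nat_lit 5) (nat_lit 28) (nat_lit 4) (nat_lit 474) (nat_lit 421) (nat_lit 305)) (XT.lf (nat_lit 0) (nat_lit 110629389131) (nat_lit 152) (nat_lit 158250462810) (nat_lit 0) (nat_lit 20254349187) (nat_lit 26) (nat_lit 5) (nat_lit 28) (nat_lit 4) (nat_lit 26) (nat_lit 4) (nat_lit 475) (nat_lit 421) (nat_lit 304))) (XT.nd (nat_lit 78) (nat_lit 76) (nat_lit 0) (XT.lf (nat_lit 0) (nat_lit 59439141084) (nat_lit 76) (nat_lit 168702416864) (nat_lit 76) (nat_lit 78326554319) (nat_lit 25) (nat_lit 4) (nat_lit 26) (nat_lit 5) (nat_lit 26) (nat_lit 4) (nat_lit 476) (nat_lit 421) (nat_lit 303)) (XT.lf (nat_lit 0) (nat_lit 31709764794) (nat_lit 152) (nat_lit 25371606383) (nat_lit 76) (nat_lit 267944065679) (nat_lit 24) (nat_lit 5) (nat_lit 26) (nat_lit 5) (nat_lit 25) (nat_lit 4) (nat_lit 477) (nat_lit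 421) (nat_lit 302))))))) (XT.nd (nat_lit 1092) (nat_lit 304) (nat_lit 0) (XT.nd (nat_lit 546) (nat_lit 456) (nat_lit 0) (XT.nd (nat_lit 234) (nat_lit 228) (nat_lit 0) (XT.nd (nat_lit 78) (nat_lit 228) (nat_lit 0) (XT.lf (nat_lit 0) (nat_lit 152338876655) (nat_lit 152) (nat_lit 126172335737) (nat_lit 0) (nat_lit 66265229552) (nat_lit 23) (nat_lit 5) (nat_lit 25) (nat_lit 4) (nat_lit 23) (nat_lit 4) (nat_lit 478) (nat_lit 421) (nat_lit 301)) (XT.nd (nat_lit 78) (nat_lit 152) (nat_lit 0) (XT.lf (nat_lit 0) (nat_lit 119778590310) (nat_lit 76) (nat_lit 166119606113) (nat_lit 76) (nat_lit 80045337099) (nat_lit 22) (nat_lit 4) (nat_lit 23) (nat_lit 5) (nat_lit 23) (nat_lit 4) (nat_lit 479) (nat_lit 421) (nat_lit 300)) (XT.lf (nat_lit 0) (nat_lit 549529768) (nat_lit 76) (nat_lit 41706262731) (nat_lit 152) (nat_lit 346403899348) (nat_lit 20) (nat_lit 5) (nat_lit 21) (nat_lit 5) (nat_lit 22) (nat_lit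 4) (nat_lit 480) (nat_lit 421) (nat_lit 299)))) (XT.nd (nat_lit 156) (nat_lit 152) (nat_lit 0) (XT.nd (nat_lit 78) (nat_lit 76) (nat_lit 0) (XT.lf (nat_lit 0) (nat_lit 177377329922) (nat_lit 152) (nat_lit 140057386799) (nat_lit 0) (nat_lit 95400779403) (nat_lit 20) (nat_lit 5) (nat_lit 22) (nat_lit 4) (nat_lit 20) (nat_lit 4) (nat_lit 481) (nat_lit 421) (nat_lit 298)) (XT.lf (nat_lit 0) (nat_lit 131336638880) (nat_lit 76) (nat_lit 194724070323) (nat_lit 76) (nat_lit 112747049620) (nat_lit 19) (nat_lit 4) (nat_lit 20) (nat_lit 5) (nat_lit 20) (nat_lit 4) (nat_lit 482) (nat_lit 421) (nat_lit 297))) (XT.nd (nat_lit 78) (nat_lit 76) (nat_lit 0) (XT.lf (nat_lit 0) (nat_lit 21625936011) (nat_lit 152) (nat_lit 37644287233) (nat_lit 76) (nat_lit 407448232812) (nat_lit 18) (nat_lit 5) (nat_lit 20) (nat_lit 5) (nat_lit 19) (nat_lit 4) (nat_lit 483) (nat_lit 421) (nat_lit 296)) (XT.lf (nat_lit 0) (nat_lit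 168368665704) (nat_lit 152) (nat_lit 237827913021) (nat_lit 0) (nat_lit 90294514119) (nat_lit 17) (nat_lit 5) (nat_lit 19) (nat_lit 4) (nat_lit 17) (nat_lit 4) (nat_lit 484) (nat_lit 421) (nat_lit 295))))) (XT.nd (nat_lit 234) (nat_lit 228) (nat_lit 0) (XT.nd (nat_lit 78) (nat_lit 152) (nat_lit 0) (XT.lf (nat_lit 0) (nat_lit 52059935792) (nat_lit 76) (nat_lit 277268124760) (nat_lit 76) (nat_lit 199193617701) (nat_lit 16) (nat_lit 4) (nat_lit 17) (nat_lit 5) (nat_lit 17) (nat_lit 4) (nat_lit 485) (nat_lit 421) (nat_lit 294)) (XT.nd (nat_lit 78) (nat_lit 152) (nat_lit 0) (XT.lf (nat_lit 0) (nat_lit 373628787795) (nat_lit 76) (nat_lit 133676843843) (nat_lit 76) (nat_lit 55602007642) (nat_lit 16) (nat_lit 4) (nat_lit 17) (nat_lit 5) (nat_lit 17) (nat_lit 4) (nat_lit 486) (nat_lit 421) (nat_lit 293)) (XT.lf (nat_lit 0) (nat_lit 98607440701) (nat_lit 152) (nat_lit 476993497597) (nat_lit 0) (nat_lit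 24250163594) (nat_lit 14) (nat_lit 5) (nat_lit 16) (nat_lit 4) (nat_lit 14) (nat_lit 4) (nat_lit 487) (nat_lit 421) (nat_lit 292)))) (XT.nd (nat_lit 156) (nat_lit 152) (nat_lit 0) (XT.nd (nat_lit 78) (nat_lit 76) (nat_lit 0) (XT.lf (nat_lit 0) (nat_lit 268835601868) (nat_lit 152) (nat_lit 176109309209) (nat_lit 0) (nat_lit 194478056012) (nat_lit 14) (nat_lit 5) (nat_lit 16) (nat_lit 4) (nat_lit 14) (nat_lit 4) (nat_lit 488) (nat_lit 421) (nat_lit 291)) (XT.lf (nat_lit 0) (nat_lit 153764684744) (nat_lit 76) (nat_lit 301316857573) (nat_lit 76) (nat_lit 226959062877) (nat_lit 13) (nat_lit 4) (nat_lit 14) (nat_lit 5) (nat_lit 14) (nat_lit 4) (nat_lit 489) (nat_lit 421) (nat_lit 290))) (XT.nd (nat_lit 78) (nat_lit 152) (nat_lit 0) (XT.lf (nat_lit 0) (nat_lit 516315147688) (nat_lit 76) (nat_lit 142978601118) (nat_lit 76) (nat_lit 68620576012) (nat_lit 13) (nat_lit 4) (nat_lit 14) (nat_lit 5) (nat_lit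 14) (nat_lit 4) (nat_lit 490) (nat_lit 421) (nat_lit 289)) (XT.lf (nat_lit 0) (nat_lit 101682397752) (nat_lit 152) (nat_lit 644701872287) (nat_lit 0) (nat_lit 30865027802) (nat_lit 11) (nat_lit 5) (nat_lit 13) (nat_lit 4) (nat_lit 11) (nat_lit 4) (nat_lit 491) (nat_lit 421) (nat_lit 288)))))) (XT.nd (nat_lit 546) (nat_lit 76) (nat_lit 0) (XT.nd (nat_lit 234) (nat_lit 152) (nat_lit 0) (XT.nd (nat_lit 78) (nat_lit 76) (nat_lit 0) (XT.lf (nat_lit 0) (nat_lit 289393822481) (nat_lit 152) (nat_lit 322195318270) (nat_lit 0) (nat_lit 218576264400) (nat_lit 11) (nat_lit 5) (nat_lit 13) (nat_lit 4) (nat_lit 11) (nat_lit 4) (nat_lit 492) (nat_lit 421) (nat_lit 287)) (XT.nd (nat_lit 78) (nat_lit 0) (nat_lit 0) (XT.lf (nat_lit 0) (nat_lit 26973155757) (nat_lit 76) (nat_lit 465569184316) (nat_lit 76) (nat_lit 394751452038) (nat_lit 10) (nat_lit 4) (nat_lit 11) (nat_lit 5) (nat_lit 11) (nat_lit 4) (nat_lit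 493) (nat_lit 421) (nat_lit 286)) (XT.lf (nat_lit 0) (nat_lit 415578768014) (nat_lit 76) (nat_lit 301975499583) (nat_lit 76) (nat_lit 231157606013) (nat_lit 10) (nat_lit 4) (nat_lit 11) (nat_lit 5) (nat_lit 11) (nat_lit 4) (nat_lit 494) (nat_lit 421) (nat_lit 285)))) (XT.nd (nat_lit 156) (nat_lit 0) (nat_lit 0) (XT.nd (nat_lit 78) (nat_lit 152) (nat_lit 0) (XT.lf (nat_lit 0) (nat_lit 835271134274) (nat_lit 76) (nat_lit 125295176112) (nat_lit 76) (nat_lit 54477133197) (nat_lit 10) (nat_lit 4) (nat_lit 11) (nat_lit 5) (nat_lit 11) (nat_lit 4) (nat_lit 495) (nat_lit 421) (nat_lit 284)) (XT.lf (nat_lit 0) (nat_lit 136305369897) (nat_lit 152) (nat_lit 881193692843) (nat_lit 0) (nat_lit 68859483042) (nat_lit 8) (nat_lit 5) (nat_lit 10) (nat_lit 4) (nat_lit 8) (nat_lit 4) (nat_lit 496) (nat_lit 421) (nat_lit 283))) (XT.nd (nat_lit 78) (nat_lit 0) (nat_lit 0) (XT.lf (nat_lit 0) (nat_lit 345762168709)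 (nat_lit 152) (nat_lit 538989858713) (nat_lit 0) (nat_lit 278316159912) (nat_lit 8) (nat_lit 5) (nat_lit 10) (nat_lit 4) (nat_lit 8) (nat_lit 4) (nat_lit 497) (nat_lit 421) (nat_lit 282)) (XT.lf (nat_lit 0) (nat_lit 571974801313) (nat_lit 152) (nat_lit 169411154800) (nat_lit 0) (nat_lit 504528679606) (nat_lit 8) (nat_lit 5) (nat_lit 10) (nat_lit 4) (nat_lit 8) (nat_lit 4) (nat_lit 498) (nat_lit 421) (nat_lit 281))))) (XT.nd (nat_lit 56628) (nat_lit 0) (nat_lit 9956) (XT.nd (nat_lit 56472) (nat_lit 0) (nat_lit 9880) (XT.lf (nat_lit 0) (nat_lit 237328509362) (nat_lit 76) (nat_lit 582660640795) (nat_lit 76) (nat_lit 515214414543) (nat_lit 7) (nat_lit 4) (nat_lit 8) (nat_lit 5) (nat_lit 8) (nat_lit 4) (nat_lit 499) (nat_lit 421) (nat_lit 280)) (XT.nd (nat_lit 78) (nat_lit 0) (nat_lit 76) (XT.lf (nat_lit 0) (nat_lit 3385233593) (nat_lit 836) (nat_lit 3850224445) (nat_lit 836) (nat_lit 3850224445)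 (nat_lit 137) (nat_lit 3) (nat_lit 148) (nat_lit 3) (nat_lit 148) (nat_lit 5) (nat_lit 422) (nat_lit 422) (nat_lit 356)) (XT.lf (nat_lit 0) (nat_lit 7449243599) (nat_lit 760) (nat_lit 12938232065) (nat_lit 836) (nat_lit 2650297932) (nat_lit 138) (nat_lit 5) (nat_lit 148) (nat_lit 5) (nat_lit 149) (nat_lit 5) (nat_lit 423) (nat_lit 422) (nat_lit 355)))) (XT.nd (nat_lit 156) (nat_lit 0) (nat_lit 152) (XT.nd (nat_lit 78) (nat_lit 0) (nat_lit 76) (XT.lf (nat_lit 76) (nat_lit 5550753241) (nat_lit 0) (nat_lit 3077856124) (nat_lit 836) (nat_lit 15322575996) (nat_lit 139) (nat_lit 5) (nat_lit 138) (nat_lit 5) (nat_lit 149) (nat_lit 5) (nat_lit 424) (nat_lit 422) (nat_lit 354)) (XT.lf (nat_lit 76) (nat_lit 820242607) (nat_lit 0) (nat_lit 9548524719) (nat_lit 836) (nat_lit 14545585050) (nat_lit 140) (nat_lit 5) (nat_lit 139) (nat_lit 5) (nat_lit 150) (nat_lit 5) (nat_lit 425) (nat_lit 422) (nat_lit 353)))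 (XT.nd (nat_lit 78) (nat_lit 0) (nat_lit 76) (XT.lf (nat_lit 0) (nat_lit 12751085534) (nat_lit 760) (nat_lit 3916660151) (nat_lit 836) (nat_lit 9261683813) (nat_lit 140) (nat_lit 5) (nat_lit 150) (nat_lit 5) (nat_lit 151) (nat_lit 5) (nat_lit 426) (nat_lit 422) (nat_lit 352)) (XT.lf (nat_lit 0) (nat_lit 15793447206) (nat_lit 760) (nat_lit 8756903945) (nat_lit 836) (nat_lit 2451892555) (nat_lit 141) (nat_lit 5) (nat_lit 151) (nat_lit 5) (nat_lit 152) (nat_lit 5) (nat_lit 427) (nat_lit 422) (nat_lit 351))))))))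
noncomputable def xc81 : XT := (XT.nd (nat_lit 2184) (nat_lit 2736) (nat_lit 0) (XT.nd (nat_lit 1092) (nat_lit 2356) (nat_lit 0) (XT.nd (nat_lit 546) (nat_lit 1976) (nat_lit 0) (XT.nd (nat_lit 234) (nat_lit 1140) (nat_lit 0) (XT.nd (nat_lit 78) (nat_lit 1064) (nat_lit 0) (XT.lf (nat_lit 76) (nat_lit 14326346326) (nat_lit 0) (nat_lit 5311417413) (nat_lit 836) (nat_lit 8495194553) (nat_lit 142) (nat_lit 5) (nat_lit 141) (nat_lit 5) (nat_lit 152) (nat_lit 5) (nat_lit 428) (nat_lit 422) (nat_lit 350)) (XT.nd (nat_lit 78) (nat_lit 380) (nat_lit 0) (XT.lf (nat_lit 0) (nat_lit 10295062958) (nat_lit 760) (nat_lit 14037309545) (nat_lit 836) (nat_lit 4994623469) (nat_lit 132) (nat_lit 5) (nat_lit 142) (nat_lit 5) (nat_lit 143) (nat_lit 5) (nat_lit 429) (nat_lit 422) (nat_lit 349)) (XT.lf (nat_lit 0) (nat_lit 6201473702) (nat_lit 380) (nat_lit 23722111408) (nat_lit 456) (nat_lit 666922833) (nat_lit 127)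 (nat_lit 5) (nat_lit 132) (nat_lit 5) (nat_lit 133) (nat_lit 5) (nat_lit 430) (nat_lit 422) (nat_lit 348)))) (XT.nd (nat_lit 156) (nat_lit 684) (nat_lit 0) (XT.nd (nat_lit 78) (nat_lit 0) (nat_lit 0) (XT.lf (nat_lit 0) (nat_lit 1939093676) (nat_lit 380) (nat_lit 2530575247) (nat_lit 456) (nat_lit 27452760405) (nat_lit 121) (nat_lit 5) (nat_lit 126) (nat_lit 5) (nat_lit 127) (nat_lit 5) (nat_lit 431) (nat_lit 422) (nat_lit 347)) (XT.lf (nat_lit 0) (nat_lit 10731522908) (nat_lit 456) (nat_lit 2444276830) (nat_lit 76) (nat_lit 20147675474) (nat_lit 121) (nat_lit 5) (nat_lit 127) (nat_lit 5) (nat_lit 122) (nat_lit 5) (nat_lit 432) (nat_lit 422) (nat_lit 346))) (XT.nd (nat_lit 78) (nat_lit 304) (nat_lit 0) (XT.lf (nat_lit 0) (nat_lit 18123993768) (nat_lit 456) (nat_lit 6827991381) (nat_lit 76) (nat_lit 9853138481) (nat_lit 116) (nat_lit 5) (nat_lit 122) (nat_lit 5) (nat_lit 117) (nat_lit 5) (nat_lit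 433) (nat_lit 422) (nat_lit 345)) (XT.lf (nat_lit 0) (nat_lit 25084331853) (nat_lit 304) (nat_lit 1669927877) (nat_lit 380) (nat_lit 9618726443) (nat_lit 112) (nat_lit 5) (nat_lit 116) (nat_lit 5) (nat_lit 117) (nat_lit 5) (nat_lit 434) (nat_lit 422) (nat_lit 344))))) (XT.nd (nat_lit 234) (nat_lit 988) (nat_lit 0) (XT.nd (nat_lit 78) (nat_lit 684) (nat_lit 0) (XT.lf (nat_lit 0) (nat_lit 22058715044) (nat_lit 304) (nat_lit 14837931553) (nat_lit 380) (nat_lit 1128548105) (nat_lit 108) (nat_lit 5) (nat_lit 112) (nat_lit 5) (nat_lit 113) (nat_lit 5) (nat_lit 435) (nat_lit 422) (nat_lit 343)) (XT.nd (nat_lit 78) (nat_lit 304) (nat_lit 0) (XT.lf (nat_lit 0) (nat_lit 8469285081) (nat_lit 380) (nat_lit 20825882861) (nat_lit 76) (nat_lit 10473846809) (nat_lit 103) (nat_lit 5) (nat_lit 108) (nat_lit 5) (nat_lit 104) (nat_lit 5) (nat_lit 436) (nat_lit 422) (nat_lit 342)) (XT.lf (nat_lit 0) (nat_lit 15797371045)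 (nat_lit 304) (nat_lit 3768910051) (nat_lit 380) (nat_lit 22046592120) (nat_lit 99) (nat_lit 5) (nat_lit 103) (nat_lit 5) (nat_lit 104) (nat_lit 5) (nat_lit 437) (nat_lit 422) (nat_lit 341)))) (XT.nd (nat_lit 156) (nat_lit 456) (nat_lit 0) (XT.nd (nat_lit 78) (nat_lit 304) (nat_lit 0) (XT.lf (nat_lit 0) (nat_lit 12519670091) (nat_lit 228) (nat_lit 19958421425) (nat_lit 304) (nat_lit 11079797593) (nat_lit 96) (nat_lit 5) (nat_lit 99) (nat_lit 5) (nat_lit 100) (nat_lit 5) (nat_lit 438) (nat_lit 422) (nat_lit 340)) (XT.lf (nat_lit 0) (nat_lit 1524248534) (nat_lit 304) (nat_lit 36335484576) (nat_lit 76) (nat_lit 7758959214) (nat_lit 92) (nat_lit 5) (nat_lit 96) (nat_lit 5) (nat_lit 93) (nat_lit 5) (nat_lit 439) (nat_lit 422) (nat_lit 339))) (XT.nd (nat_lit 78) (nat_lit 228) (nat_lit 0) (XT.lf (nat_lit 0) (nat_lit 5762378552) (nat_lit 228) (nat_lit 9959310104) (nat_lit 304) (nat_lit 32064927929)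 (nat_lit 89) (nat_lit 5) (nat_lit 92) (nat_lit 5) (nat_lit 93) (nat_lit 5) (nat_lit 440) (nat_lit 422) (nat_lit 338)) (XT.lf (nat_lit 0) (nat_lit 2162078667) (nat_lit 228) (nat_lit 29877282025) (nat_lit 304) (nat_lit 18039393384) (nat_lit 86) (nat_lit 5) (nat_lit 89) (nat_lit 5) (nat_lit 90) (nat_lit 5) (nat_lit 441) (nat_lit 422) (nat_lit 337)))))) (XT.nd (nat_lit 546) (nat_lit 1064) (nat_lit 0) (XT.nd (nat_lit 234) (nat_lit 836) (nat_lit 0) (XT.nd (nat_lit 78) (nat_lit 456) (nat_lit 0) (XT.lf (nat_lit 0) (nat_lit 50562614938) (nat_lit 304) (nat_lit 1319957224) (nat_lit 76) (nat_lit 626683020) (nat_lit 86) (nat_lit 5) (nat_lit 90) (nat_lit 5) (nat_lit 87) (nat_lit 5) (nat_lit 442) (nat_lit 422) (nat_lit 336)) (XT.nd (nat_lit 78) (nat_lit 228) (nat_lit 0) (XT.lf (nat_lit 0) (nat_lit 16239711773) (nat_lit 228) (nat_lit 5238215703) (nat_lit 76) (nat_lit 33579214380) (nat_lit 83) (nat_lit 5) (nat_lit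 86) (nat_lit 5) (nat_lit 84) (nat_lit 5) (nat_lit 443) (nat_lit 422) (nat_lit 335)) (XT.lf (nat_lit 0) (nat_lit 36783309066) (nat_lit 304) (nat_lit 9151549051) (nat_lit 76) (nat_lit 11823879695) (nat_lit 80) (nat_lit 5) (nat_lit 84) (nat_lit 5) (nat_lit 81) (nat_lit 5) (nat_lit 444) (nat_lit 422) (nat_lit 334)))) (XT.nd (nat_lit 156) (nat_lit 380) (nat_lit 0) (XT.nd (nat_lit 78) (nat_lit 304) (nat_lit 0) (XT.lf (nat_lit 0) (nat_lit 47419773742) (nat_lit 152) (nat_lit 12739684001) (nat_lit 228) (nat_lit 457551306) (nat_lit 78) (nat_lit 5) (nat_lit 80) (nat_lit 5) (nat_lit 81) (nat_lit 5) (nat_lit 445) (nat_lit 422) (nat_lit 333)) (XT.lf (nat_lit 0) (nat_lit 22266575721) (nat_lit 304) (nat_lit 17745989943) (nat_lit 76) (nat_lit 23611465197) (nat_lit 74) (nat_lit 5) (nat_lit 78) (nat_lit 5) (nat_lit 75) (nat_lit 5) (nat_lit 446) (nat_lit 422) (nat_lit 332))) (XT.nd (nat_lit 78) (nat_lit 228) (nat_lit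 0) (XT.lf (nat_lit 0) (nat_lit 44478498315) (nat_lit 152) (nat_lit 3451497090) (nat_lit 228) (nat_lit 18884374969) (nat_lit 72) (nat_lit 5) (nat_lit 74) (nat_lit 5) (nat_lit 75) (nat_lit 5) (nat_lit 447) (nat_lit 422) (nat_lit 331)) (XT.lf (nat_lit 0) (nat_lit 6779947278) (nat_lit 228) (nat_lit 27426900201) (nat_lit 76) (nat_lit 35970595230) (nat_lit 69) (nat_lit 5) (nat_lit 72) (nat_lit 5) (nat_lit 70) (nat_lit 5) (nat_lit 448) (nat_lit 422) (nat_lit 330))))) (XT.nd (nat_lit 234) (nat_lit 532) (nat_lit 0) (XT.nd (nat_lit 78) (nat_lit 380) (nat_lit 0) (XT.lf (nat_lit 0) (nat_lit 35026930005) (nat_lit 228) (nat_lit 32862699726) (nat_lit 76) (nat_lit 5844896066) (nat_lit 67) (nat_lit 5) (nat_lit 70) (nat_lit 5) (nat_lit 68) (nat_lit 5) (nat_lit 449) (nat_lit 422) (nat_lit 329)) (XT.nd (nat_lit 78) (nat_lit 228) (nat_lit 0) (XT.lf (nat_lit 0) (nat_lit 38707125229) (nat_lit 152) (nat_lit 28488151709)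 (nat_lit 228) (nat_lit 10297818803) (nat_lit 65) (nat_lit 5) (nat_lit 67) (nat_lit 5) (nat_lit 68) (nat_lit 5) (nat_lit 450) (nat_lit 422) (nat_lit 328)) (XT.lf (nat_lit 0) (nat_lit 21122454240) (nat_lit 228) (nat_lit 45238839725) (nat_lit 76) (nat_lit 15105636950) (nat_lit 62) (nat_lit 5) (nat_lit 65) (nat_lit 5) (nat_lit 63) (nat_lit 5) (nat_lit 451) (nat_lit 422) (nat_lit 327)))) (XT.nd (nat_lit 156) (nat_lit 228) (nat_lit 0) (XT.nd (nat_lit 78) (nat_lit 152) (nat_lit 0) (XT.lf (nat_lit 0) (nat_lit 33295723273) (nat_lit 152) (nat_lit 23086819683) (nat_lit 228) (nat_lit 29283340548) (nat_lit 60) (nat_lit 5) (nat_lit 62) (nat_lit 5) (nat_lit 63) (nat_lit 5) (nat_lit 452) (nat_lit 422) (nat_lit 326)) (XT.lf (nat_lit 0) (nat_lit 5789284887) (nat_lit 152) (nat_lit 60070691107) (nat_lit 76) (nat_lit 24254297480) (nat_lit 58) (nat_lit 5) (nat_lit 60) (nat_lit 5) (nat_lit 59) (nat_lit 5) (nat_lit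 453) (nat_lit 422) (nat_lit 325))) (XT.nd (nat_lit 78) (nat_lit 76) (nat_lit 0) (XT.lf (nat_lit 0) (nat_lit 25973013227) (nat_lit 152) (nat_lit 18400056612) (nat_lit 228) (nat_lit 50434897634) (nat_lit 56) (nat_lit 5) (nat_lit 58) (nat_lit 5) (nat_lit 59) (nat_lit 5) (nat_lit 454) (nat_lit 422) (nat_lit 324)) (XT.lf (nat_lit 0) (nat_lit 21366490546) (nat_lit 76) (nat_lit 66582919280) (nat_lit 152) (nat_lit 11832454855) (nat_lit 55) (nat_lit 5) (nat_lit 56) (nat_lit 5) (nat_lit 57) (nat_lit 4) (nat_lit 455) (nat_lit 422) (nat_lit 323))))))) (XT.nd (nat_lit 1092) (nat_lit 1216) (nat_lit 0) (XT.nd (nat_lit 546) (nat_lit 684) (nat_lit 0) (XT.nd (nat_lit 234) (nat_lit 304) (nat_lit 0) (XT.nd (nat_lit 78) (nat_lit 304) (nat_lit 0) (XT.lf (nat_lit 0) (nat_lit 15852172131) (nat_lit 152) (nat_lit 14822699902) (nat_lit 228) (nat_lit 74366876548) (nat_lit 52) (nat_lit 5) (nat_lit 54) (nat_lit 5) (nat_lit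 55) (nat_lit 5) (nat_lit 456) (nat_lit 422) (nat_lit 322)) (XT.nd (nat_lit 78) (nat_lit 228) (nat_lit 0) (XT.lf (nat_lit 0) (nat_lit 9232075170) (nat_lit 76) (nat_lit 69111532560) (nat_lit 152) (nat_lit 32260348263) (nat_lit 51) (nat_lit 5) (nat_lit 52) (nat_lit 5) (nat_lit 53) (nat_lit 4) (nat_lit 457) (nat_lit 422) (nat_lit 321)) (XT.lf (nat_lit 0) (nat_lit 1745941816) (nat_lit 152) (nat_lit 12898229808) (nat_lit 228) (nat_lit 101864031545) (nat_lit 48) (nat_lit 5) (nat_lit 50) (nat_lit 5) (nat_lit 51) (nat_lit 5) (nat_lit 458) (nat_lit 422) (nat_lit 320)))) (XT.nd (nat_lit 156) (nat_lit 228) (nat_lit 0) (XT.nd (nat_lit 78) (nat_lit 76) (nat_lit 0) (XT.lf (nat_lit 0) (nat_lit 66723442288) (nat_lit 228) (nat_lit 7389718811) (nat_lit 76) (nat_lit 48617554581) (nat_lit 48) (nat_lit 5) (nat_lit 51) (nat_lit 5) (nat_lit 49) (nat_lit 4) (nat_lit 459) (nat_lit 422) (nat_lit 319)) (XT.lf (nat_lit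 0) (nat_lit 111931182749) (nat_lit 76) (nat_lit 12999458012) (nat_lit 152) (nat_lit 4422309306) (nat_lit 47) (nat_lit 5) (nat_lit 48) (nat_lit 5) (nat_lit 49) (nat_lit 4) (nat_lit 460) (nat_lit 422) (nat_lit 318))) (XT.nd (nat_lit 78) (nat_lit 76) (nat_lit 0) (XT.lf (nat_lit 0) (nat_lit 52318989797) (nat_lit 152) (nat_lit 30060547624) (nat_lit 76) (nat_lit 53951831311) (nat_lit 45) (nat_lit 5) (nat_lit 47) (nat_lit 5) (nat_lit 46) (nat_lit 4) (nat_lit 461) (nat_lit 422) (nat_lit 317)) (XT.lf (nat_lit 0) (nat_lit 99508069658) (nat_lit 76) (nat_lit 16016659258) (nat_lit 152) (nat_lit 28235703667) (nat_lit 44) (nat_lit 5) (nat_lit 45) (nat_lit 5) (nat_lit 46) (nat_lit 4) (nat_lit 462) (nat_lit 422) (nat_lit 316))))) (XT.nd (nat_lit 234) (nat_lit 304) (nat_lit 0) (XT.nd (nat_lit 78) (nat_lit 228) (nat_lit 0) (XT.lf (nat_lit 0) (nat_lit 33840305164) (nat_lit 152) (nat_lit 61408840466) (nat_lit 76)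 (nat_lit 56366618200) (nat_lit 42) (nat_lit 5) (nat_lit 44) (nat_lit 5) (nat_lit 43) (nat_lit 4) (nat_lit 463) (nat_lit 422) (nat_lit 315)) (XT.nd (nat_lit 78) (nat_lit 152) (nat_lit 0) (XT.lf (nat_lit 0) (nat_lit 78696359350) (nat_lit 76) (nat_lit 23489199535) (nat_lit 152) (nat_lit 57776198510) (nat_lit 41) (nat_lit 5) (nat_lit 42) (nat_lit 5) (nat_lit 43) (nat_lit 4) (nat_lit 464) (nat_lit 422) (nat_lit 314)) (XT.lf (nat_lit 0) (nat_lit 9780571963) (nat_lit 152) (nat_lit 104508319172) (nat_lit 76) (nat_lit 54531939508) (nat_lit 39) (nat_lit 5) (nat_lit 41) (nat_lit 5) (nat_lit 40) (nat_lit 4) (nat_lit 465) (nat_lit 422) (nat_lit 313)))) (XT.nd (nat_lit 156) (nat_lit 152) (nat_lit 0) (XT.nd (nat_lit 78) (nat_lit 76) (nat_lit 0) (XT.lf (nat_lit 0) (nat_lit 46200464815) (nat_lit 76) (nat_lit 37097610895) (nat_lit 152) (nat_lit 94914177194) (nat_lit 38) (nat_lit 5) (nat_lit 39) (nat_lit 5) (nat_lit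 40) (nat_lit 4) (nat_lit 466) (nat_lit 422) (nat_lit 312)) (XT.lf (nat_lit 0) (nat_lit 24459187943) (nat_lit 76) (nat_lit 141189597605) (nat_lit 76) (nat_lit 22558613199) (nat_lit 37) (nat_lit 4) (nat_lit 38) (nat_lit 5) (nat_lit 38) (nat_lit 4) (nat_lit 467) (nat_lit 422) (nat_lit 311))) (XT.nd (nat_lit 78) (nat_lit 76) (nat_lit 0) (XT.lf (nat_lit 0) (nat_lit 56766418799) (nat_lit 152) (nat_lit 2261539477) (nat_lit 76) (nat_lit 139782800741) (nat_lit 36) (nat_lit 5) (nat_lit 38) (nat_lit 5) (nat_lit 37) (nat_lit 4) (nat_lit 468) (nat_lit 422) (nat_lit 310)) (XT.lf (nat_lit 0) (nat_lit 144940907321) (nat_lit 152) (nat_lit 33182426023) (nat_lit 0) (nat_lit 31955874279) (nat_lit 35) (nat_lit 5) (nat_lit 37) (nat_lit 4) (nat_lit 35) (nat_lit 4) (nat_lit 469) (nat_lit 422) (nat_lit 309)))))) (XT.nd (nat_lit 546) (nat_lit 532) (nat_lit 0) (XT.nd (nat_lit 234) (nat_lit 380) (nat_lit 0) (XT.nd (nat_lit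 78) (nat_lit 152) (nat_lit 0) (XT.lf (nat_lit 0) (nat_lit 20809998165) (nat_lit 152) (nat_lit 70325935988) (nat_lit 76) (nat_lit 130926042067) (nat_lit 33) (nat_lit 5) (nat_lit 35) (nat_lit 5) (nat_lit 34) (nat_lit 4) (nat_lit 470) (nat_lit 422) (nat_lit 308)) (XT.nd (nat_lit 78) (nat_lit 76) (nat_lit 0) (XT.lf (nat_lit 0) (nat_lit 113949763257) (nat_lit 152) (nat_lit 114527921008) (nat_lit 0) (nat_lit 6342403477) (nat_lit 32) (nat_lit 5) (nat_lit 34) (nat_lit 4) (nat_lit 32) (nat_lit 4) (nat_lit 471) (nat_lit 422) (nat_lit 307)) (XT.lf (nat_lit 0) (nat_lit 81170122916) (nat_lit 76) (nat_lit 137417442388) (nat_lit 76) (nat_lit 29808940154) (nat_lit 31) (nat_lit 4) (nat_lit 32) (nat_lit 5) (nat_lit 32) (nat_lit 4) (nat_lit 472) (nat_lit 422) (nat_lit 306)))) (XT.nd (nat_lit 156) (nat_lit 228) (nat_lit 0) (XT.nd (nat_lit 78) (nat_lit 0) (nat_lit 0) (XT.lf (nat_lit 0) (nat_lit 33623533284) (nat_lit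 76) (nat_lit 35270658591) (nat_lit 152) (nat_lit 193983818739) (nat_lit 29) (nat_lit 5) (nat_lit 30) (nat_lit 5) (nat_lit 31) (nat_lit 4) (nat_lit 473) (nat_lit 422) (nat_lit 305)) (XT.lf (nat_lit 0) (nat_lit 178593475131) (nat_lit 152) (nat_lit 23585667499) (nat_lit 0) (nat_lit 76107247006) (nat_lit 29) (nat_lit 5) (nat_lit 31) (nat_lit 4) (nat_lit 29) (nat_lit 4) (nat_lit 474) (nat_lit 422) (nat_lit 304))) (XT.nd (nat_lit 78) (nat_lit 76) (nat_lit 0) (XT.lf (nat_lit 0) (nat_lit 5920078634) (nat_lit 152) (nat_lit 90350930654) (nat_lit 76) (nat_lit 198462390664) (nat_lit 27) (nat_lit 5) (nat_lit 29) (nat_lit 5) (nat_lit 28) (nat_lit 4) (nat_lit 475) (nat_lit 422) (nat_lit 303)) (XT.lf (nat_lit 0) (nat_lit 119519044273) (nat_lit 152) (nat_lit 170832398538) (nat_lit 0) (nat_lit 21911528458) (nat_lit 26) (nat_lit 5) (nat_lit 28) (nat_lit 4) (nat_lit 26) (nat_lit 4) (nat_lit 476) (nat_lit 422)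 (nat_lit 302))))) (XT.nd (nat_lit 234) (nat_lit 304) (nat_lit 0) (XT.nd (nat_lit 78) (nat_lit 152) (nat_lit 0) (XT.lf (nat_lit 0) (nat_lit 64268979480) (nat_lit 76) (nat_lit 182161462093) (nat_lit 76) (nat_lit 84553241032) (nat_lit 25) (nat_lit 4) (nat_lit 26) (nat_lit 5) (nat_lit 26) (nat_lit 4) (nat_lit 477) (nat_lit 422) (nat_lit 301)) (XT.nd (nat_lit 78) (nat_lit 76) (nat_lit 0) (XT.lf (nat_lit 0) (nat_lit 34281893553) (nat_lit 152) (nat_lit 27330992282) (nat_lit 76) (nat_lit 289412817979) (nat_lit 24) (nat_lit 5) (nat_lit 26) (nat_lit 5) (nat_lit 25) (nat_lit 4) (nat_lit 478) (nat_lit 422) (nat_lit 300)) (XT.lf (nat_lit 0) (nat_lit 164560289662) (nat_lit 152) (nat_lit 136197670555) (nat_lit 0) (nat_lit 71598881373) (nat_lit 23) (nat_lit 5) (nat_lit 25) (nat_lit 4) (nat_lit 23) (nat_lit 4) (nat_lit 479) (nat_lit 422) (nat_lit 299)))) (XT.nd (nat_lit 156) (nat_lit 76) (nat_lit 0) (XT.nd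 (nat_lit 78) (nat_lit 152) (nat_lit 0) (XT.lf (nat_lit 0) (nat_lit 129426354734) (nat_lit 76) (nat_lit 179376481607) (nat_lit 76) (nat_lit 86414540130) (nat_lit 22) (nat_lit 4) (nat_lit 23) (nat_lit 5) (nat_lit 23) (nat_lit 4) (nat_lit 480) (nat_lit 422) (nat_lit 298)) (XT.lf (nat_lit 0) (nat_lit 657178165) (nat_lit 76) (nat_lit 45010925900) (nat_lit 152) (nat_lit 374082770259) (nat_lit 20) (nat_lit 5) (nat_lit 21) (nat_lit 5) (nat_lit 22) (nat_lit 4) (nat_lit 481) (nat_lit 422) (nat_lit 297))) (XT.nd (nat_lit 78) (nat_lit 76) (nat_lit 0) (XT.lf (nat_lit 0) (nat_lit 191597465616) (nat_lit 152) (nat_lit 151201994587) (nat_lit 0) (nat_lit 103061377718) (nat_lit 20) (nat_lit 5) (nat_lit 22) (nat_lit 4) (nat_lit 20) (nat_lit 4) (nat_lit 482) (nat_lit 422) (nat_lit 296)) (XT.lf (nat_lit 0) (nat_lit 141900946351) (nat_lit 76) (nat_lit 210273246227) (nat_lit 76) (nat_lit 121736755222) (nat_lit 19)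 (nat_lit 4) (nat_lit 20) (nat_lit 5) (nat_lit 20) (nat_lit 4) (nat_lit 483) (nat_lit 422) (nat_lit 295))))))))
noncomputable def xc82 : XT := (XT.nd (nat_lit 58656) (nat_lit 0) (nat_lit 2812) (XT.nd (nat_lit 1092) (nat_lit 0) (nat_lit 0) (XT.nd (nat_lit 546) (nat_lit 380) (nat_lit 0) (XT.nd (nat_lit 234) (nat_lit 228) (nat_lit 0) (XT.nd (nat_lit 78) (nat_lit 152) (nat_lit 0) (XT.lf (nat_lit 0) (nat_lit 23382951922) (nat_lit 152) (nat_lit 40601812811) (nat_lit 76) (nat_lit 440069820408) (nat_lit 18) (nat_lit 5) (nat_lit 20) (nat_lit 5) (nat_lit 19) (nat_lit 4) (nat_lit 484) (nat_lit 422) (nat_lit 294)) (XT.nd (nat_lit 78) (nat_lit 76) (nat_lit 0) (XT.lf (nat_lit 0) (nat_lit 181864315718) (nat_lit 152) (nat_lit 256801592912) (nat_lit 0) (nat_lit 97543163480) (nat_lit 17) (nat_lit 5) (nat_lit 19) (nat_lit 4) (nat_lit 17) (nat_lit 4) (nat_lit 485) (nat_lit 422) (nat_lit 293)) (XT.lf (nat_lit 0)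 (nat_lit 56274999910) (nat_lit 76) (nat_lit 299424309551) (nat_lit 76) (nat_lit 215102852551) (nat_lit 16) (nat_lit 4) (nat_lit 17) (nat_lit 5) (nat_lit 17) (nat_lit 4) (nat_lit 486) (nat_lit 422) (nat_lit 292)))) (XT.nd (nat_lit 156) (nat_lit 76) (nat_lit 0) (XT.nd (nat_lit 78) (nat_lit 152) (nat_lit 0) (XT.lf (nat_lit 0) (nat_lit 403565636425) (nat_lit 76) (nat_lit 144347597655) (nat_lit 76) (nat_lit 60025858469) (nat_lit 16) (nat_lit 4) (nat_lit 17) (nat_lit 5) (nat_lit 17) (nat_lit 4) (nat_lit 487) (nat_lit 422) (nat_lit 291)) (XT.lf (nat_lit 0) (nat_lit 106518886869) (nat_lit 152) (nat_lit 515106940630) (nat_lit 0) (nat_lit 26212219755) (nat_lit 14) (nat_lit 5) (nat_lit 16) (nat_lit 4) (nat_lit 14) (nat_lit 4) (nat_lit 488) (nat_lit 422) (nat_lit 290))) (XT.nd (nat_lit 78) (nat_lit 76) (nat_lit 0) (XT.lf (nat_lit 0) (nat_lit 290363608269) (nat_lit 152) (nat_lit 190155427302) (nat_lit 0)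 (nat_lit 210056710746) (nat_lit 14) (nat_lit 5) (nat_lit 16) (nat_lit 4) (nat_lit 14) (nat_lit 4) (nat_lit 489) (nat_lit 422) (nat_lit 289)) (XT.lf (nat_lit 0) (nat_lit 166106633664) (nat_lit 76) (nat_lit 325401659610) (nat_lit 76) (nat_lit 245094548746) (nat_lit 13) (nat_lit 4) (nat_lit 14) (nat_lit 5) (nat_lit 14) (nat_lit 4) (nat_lit 490) (nat_lit 422) (nat_lit 288))))) (XT.nd (nat_lit 234) (nat_lit 228) (nat_lit 0) (XT.nd (nat_lit 78) (nat_lit 152) (nat_lit 0) (XT.lf (nat_lit 0) (nat_lit 557658113338) (nat_lit 76) (nat_lit 154397864606) (nat_lit 76) (nat_lit 74090556204) (nat_lit 13) (nat_lit 4) (nat_lit 14) (nat_lit 5) (nat_lit 14) (nat_lit 4) (nat_lit 491) (nat_lit 422) (nat_lit 287)) (XT.nd (nat_lit 78) (nat_lit 0) (nat_lit 0) (XT.lf (nat_lit 0) (nat_lit 109835478235) (nat_lit 152) (nat_lit 696240685650) (nat_lit 0) (nat_lit 33352153179) (nat_lit 11) (nat_lit 5) (nat_lit 13) (nat_lit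 4) (nat_lit 11) (nat_lit 4) (nat_lit 492) (nat_lit 422) (nat_lit 286)) (XT.lf (nat_lit 0) (nat_lit 312562447412) (nat_lit 152) (nat_lit 347936372973) (nat_lit 0) (nat_lit 236078961064) (nat_lit 11) (nat_lit 5) (nat_lit 13) (nat_lit 4) (nat_lit 11) (nat_lit 4) (nat_lit 493) (nat_lit 422) (nat_lit 285)))) (XT.nd (nat_lit 156) (nat_lit 152) (nat_lit 0) (XT.nd (nat_lit 78) (nat_lit 0) (nat_lit 0) (XT.lf (nat_lit 0) (nat_lit 29164076574) (nat_lit 76) (nat_lit 502798018043) (nat_lit 76) (nat_lit 426314382350) (nat_lit 10) (nat_lit 4) (nat_lit 11) (nat_lit 5) (nat_lit 11) (nat_lit 4) (nat_lit 494) (nat_lit 422) (nat_lit 284)) (XT.lf (nat_lit 0) (nat_lit 448855688304) (nat_lit 76) (nat_lit 326118075644) (nat_lit 76) (nat_lit 249634301669) (nat_lit 10) (nat_lit 4) (nat_lit 11) (nat_lit 5) (nat_lit 11) (nat_lit 4) (nat_lit 495) (nat_lit 422) (nat_lit 283))) (XT.nd (nat_lit 78) (nat_lit 152) (nat_lit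 0) (XT.lf (nat_lit 0) (nat_lit 902121175801) (nat_lit 76) (nat_lit 135304471770) (nat_lit 76) (nat_lit 58820569755) (nat_lit 10) (nat_lit 4) (nat_lit 11) (nat_lit 5) (nat_lit 11) (nat_lit 4) (nat_lit 496) (nat_lit 422) (nat_lit 282)) (XT.lf (nat_lit 0) (nat_lit 147223653504) (nat_lit 152) (nat_lit 951661153978) (nat_lit 0) (nat_lit 74381729152) (nat_lit 8) (nat_lit 5) (nat_lit 10) (nat_lit 4) (nat_lit 8) (nat_lit 4) (nat_lit 497) (nat_lit 422) (nat_lit 281)))))) (XT.nd (nat_lit 57018) (nat_lit 0) (nat_lit 8208) (XT.nd (nat_lit 56706) (nat_lit 0) (nat_lit 9880) (XT.nd (nat_lit 78) (nat_lit 0) (nat_lit 0) (XT.lf (nat_lit 0) (nat_lit 373435969997) (nat_lit 152) (nat_lit 582083089731) (nat_lit 0) (nat_lit 300593941099) (nat_lit 8) (nat_lit 5) (nat_lit 10) (nat_lit 4) (nat_lit 8) (nat_lit 4) (nat_lit 498) (nat_lit 422) (nat_lit 280)) (XT.nd (nat_lit 56550) (nat_lit 0) (nat_lit 9804) (XT.lf (nat_lit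 0) (nat_lit 617744663003) (nat_lit 152) (nat_lit 182940012297) (nat_lit 0) (nat_lit 544902537303) (nat_lit 8) (nat_lit 5) (nat_lit 10) (nat_lit 4) (nat_lit 8) (nat_lit 4) (nat_lit 499) (nat_lit 422) (nat_lit 279)) (XT.lf (nat_lit 0) (nat_lit 3857906130) (nat_lit 836) (nat_lit 4052245665) (nat_lit 836) (nat_lit 4052245665) (nat_lit 137) (nat_lit 3) (nat_lit 148) (nat_lit 3) (nat_lit 148) (nat_lit 5) (nat_lit 423) (nat_lit 423) (nat_lit 354)))) (XT.nd (nat_lit 156) (nat_lit 0) (nat_lit 76) (XT.nd (nat_lit 78) (nat_lit 0) (nat_lit 0) (XT.lf (nat_lit 0) (nat_lit 8419432906) (nat_lit 760) (nat_lit 13748855185) (nat_lit 836) (nat_lit 2693707995) (nat_lit 138) (nat_lit 5) (nat_lit 148) (nat_lit 5) (nat_lit 149) (nat_lit 5) (nat_lit 424) (nat_lit 423) (nat_lit 353)) (XT.lf (nat_lit 76) (nat_lit 6209495254) (nat_lit 0) (nat_lit 3459282255) (nat_lit 836) (nat_lit 16180928244) (nat_lit 139) (nat_lit 5)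 (nat_lit 138) (nat_lit 5) (nat_lit 149) (nat_lit 5) (nat_lit 425) (nat_lit 423) (nat_lit 352))) (XT.nd (nat_lit 78) (nat_lit 0) (nat_lit 76) (XT.lf (nat_lit 76) (nat_lit 1110043716) (nat_lit 0) (nat_lit 10413733046) (nat_lit 836) (nat_lit 15367373895) (nat_lit 140) (nat_lit 5) (nat_lit 139) (nat_lit 5) (nat_lit 150) (nat_lit 5) (nat_lit 426) (nat_lit 423) (nat_lit 351)) (XT.lf (nat_lit 0) (nat_lit 14071103915) (nat_lit 760) (nat_lit 4005813705) (nat_lit 836) (nat_lit 9911800672) (nat_lit 140) (nat_lit 5) (nat_lit 150) (nat_lit 5) (nat_lit 151) (nat_lit 5) (nat_lit 427) (nat_lit 423) (nat_lit 350))))) (XT.nd (nat_lit 234) (nat_lit 1216) (nat_lit 0) (XT.nd (nat_lit 78) (nat_lit 684) (nat_lit 0) (XT.lf (nat_lit 0) (nat_lit 17336945115) (nat_lit 760) (nat_lit 9227862353) (nat_lit 836) (nat_lit 2583550751) (nat_lit 141) (nat_lit 5) (nat_lit 151) (nat_lit 5) (nat_lit 152) (nat_lit 5) (nat_lit 428)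 (nat_lit 423) (nat_lit 349)) (XT.nd (nat_lit 78) (nat_lit 684) (nat_lit 0) (XT.lf (nat_lit 76) (nat_lit 15692070069) (nat_lit 0) (nat_lit 5779423343) (nat_lit 836) (nat_lit 8898906969) (nat_lit 142) (nat_lit 5) (nat_lit 141) (nat_lit 5) (nat_lit 152) (nat_lit 5) (nat_lit 429) (nat_lit 423) (nat_lit 348)) (XT.lf (nat_lit 0) (nat_lit 11342004497) (nat_lit 760) (nat_lit 15183070436) (nat_lit 836) (nat_lit 5135720321) (nat_lit 132) (nat_lit 5) (nat_lit 142) (nat_lit 5) (nat_lit 143) (nat_lit 5) (nat_lit 430) (nat_lit 423) (nat_lit 347)))) (XT.nd (nat_lit 156) (nat_lit 380) (nat_lit 0) (XT.nd (nat_lit 78) (nat_lit 456) (nat_lit 0) (XT.lf (nat_lit 0) (nat_lit 6923385542) (nat_lit 380) (nat_lit 25625164459) (nat_lit 456) (nat_lit 477593965) (nat_lit 127) (nat_lit 5) (nat_lit 132) (nat_lit 5) (nat_lit 133) (nat_lit 5) (nat_lit 431) (nat_lit 423) (nat_lit 346)) (XT.lf (nat_lit 0) (nat_lit 2317678381)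 (nat_lit 380) (nat_lit 2730567047) (nat_lit 456) (nat_lit 29416883382) (nat_lit 121) (nat_lit 5) (nat_lit 126) (nat_lit 5) (nat_lit 127) (nat_lit 5) (nat_lit 432) (nat_lit 423) (nat_lit 345))) (XT.nd (nat_lit 78) (nat_lit 380) (nat_lit 0) (XT.lf (nat_lit 0) (nat_lit 11794712618) (nat_lit 456) (nat_lit 2422676607) (nat_lit 76) (nat_lit 21761689207) (nat_lit 121) (nat_lit 5) (nat_lit 127) (nat_lit 5) (nat_lit 122) (nat_lit 5) (nat_lit 433) (nat_lit 423) (nat_lit 344)) (XT.lf (nat_lit 0) (nat_lit 19766896927) (nat_lit 456) (nat_lit 7157082717) (nat_lit 76) (nat_lit 10655866358) (nat_lit 116) (nat_lit 5) (nat_lit 122) (nat_lit 5) (nat_lit 117) (nat_lit 5) (nat_lit 434) (nat_lit 423) (nat_lit 343))))))) (XT.nd (nat_lit 1092) (nat_lit 2052) (nat_lit 0) (XT.nd (nat_lit 546) (nat_lit 1292) (nat_lit 0) (XT.nd (nat_lit 234) (nat_lit 1064) (nat_lit 0) (XT.nd (nat_lit 78) (nat_lit 684) (nat_lit 0) (XT.lf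 (nat_lit 0) (nat_lit 27298789390) (nat_lit 304) (nat_lit 1777742641) (nat_lit 380) (nat_lit 10197160963) (nat_lit 112) (nat_lit 5) (nat_lit 116) (nat_lit 5) (nat_lit 117) (nat_lit 5) (nat_lit 435) (nat_lit 423) (nat_lit 342)) (XT.nd (nat_lit 78) (nat_lit 380) (nat_lit 0) (XT.lf (nat_lit 0) (nat_lit 24030446576) (nat_lit 304) (nat_lit 15989991924) (nat_lit 380) (nat_lit 1038135902) (nat_lit 108) (nat_lit 5) (nat_lit 112) (nat_lit 5) (nat_lit 113) (nat_lit 5) (nat_lit 436) (nat_lit 423) (nat_lit 341)) (XT.lf (nat_lit 0) (nat_lit 9312563323) (nat_lit 380) (nat_lit 22280669417) (nat_lit 76) (nat_lit 11348987434) (nat_lit 103) (nat_lit 5) (nat_lit 108) (nat_lit 5) (nat_lit 104) (nat_lit 5) (nat_lit 437) (nat_lit 423) (nat_lit 340)))) (XT.nd (nat_lit 156) (nat_lit 532) (nat_lit 0) (XT.nd (nat_lit 78) (nat_lit 228) (nat_lit 0) (XT.lf (nat_lit 0) (nat_lit 17263262653) (nat_lit 304) (nat_lit 4024935046)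 (nat_lit 380) (nat_lit 23645847832) (nat_lit 99) (nat_lit 5) (nat_lit 103) (nat_lit 5) (nat_lit 104) (nat_lit 5) (nat_lit 438) (nat_lit 423) (nat_lit 339)) (XT.lf (nat_lit 0) (nat_lit 13721399255) (nat_lit 228) (nat_lit 21503735227) (nat_lit 304) (nat_lit 11809921126) (nat_lit 96) (nat_lit 5) (nat_lit 99) (nat_lit 5) (nat_lit 100) (nat_lit 5) (nat_lit 439) (nat_lit 423) (nat_lit 338))) (XT.nd (nat_lit 78) (nat_lit 228) (nat_lit 0) (XT.lf (nat_lit 0) (nat_lit 1790136984) (nat_lit 304) (nat_lit 39039711596) (nat_lit 76) (nat_lit 8431119789) (nat_lit 92) (nat_lit 5) (nat_lit 96) (nat_lit 5) (nat_lit 93) (nat_lit 5) (nat_lit 440) (nat_lit 423) (nat_lit 337)) (XT.lf (nat_lit 0) (nat_lit 6417175323) (nat_lit 228) (nat_lit 10698559998) (nat_lit 304) (nat_lit 34486974723) (nat_lit 89) (nat_lit 5) (nat_lit 92) (nat_lit 5) (nat_lit 93) (nat_lit 5) (nat_lit 441) (nat_lit 423) (nat_lit 336))))) (XT.nd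 (nat_lit 234) (nat_lit 836) (nat_lit 0) (XT.nd (nat_lit 78) (nat_lit 228) (nat_lit 0) (XT.lf (nat_lit 0) (nat_lit 2526108997) (nat_lit 228) (nat_lit 32206429178) (nat_lit 304) (nat_lit 19345996009) (nat_lit 86) (nat_lit 5) (nat_lit 89) (nat_lit 5) (nat_lit 90) (nat_lit 5) (nat_lit 442) (nat_lit 423) (nat_lit 335)) (XT.nd (nat_lit 78) (nat_lit 228) (nat_lit 0) (XT.lf (nat_lit 0) (nat_lit 54728903357) (nat_lit 304) (nat_lit 1243487765) (nat_lit 76) (nat_lit 731523120) (nat_lit 86) (nat_lit 5) (nat_lit 90) (nat_lit 5) (nat_lit 87) (nat_lit 5) (nat_lit 443) (nat_lit 423) (nat_lit 334)) (XT.lf (nat_lit 0) (nat_lit 17655804396) (nat_lit 228) (nat_lit 5479238190) (nat_lit 76) (nat_lit 36320809496) (nat_lit 83) (nat_lit 5) (nat_lit 86) (nat_lit 5) (nat_lit 84) (nat_lit 5) (nat_lit 444) (nat_lit 423) (nat_lit 333)))) (XT.nd (nat_lit 156) (nat_lit 456) (nat_lit 0) (XT.nd (nat_lit 78) (nat_lit 152) (nat_lit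 0) (XT.lf (nat_lit 0) (nat_lit 39837815016) (nat_lit 304) (nat_lit 9708742616) (nat_lit 76) (nat_lit 12827272940) (nat_lit 80) (nat_lit 5) (nat_lit 84) (nat_lit 5) (nat_lit 81) (nat_lit 5) (nat_lit 445) (nat_lit 423) (nat_lit 332)) (XT.lf (nat_lit 0) (nat_lit 51380683741) (nat_lit 152) (nat_lit 13697699772) (nat_lit 228) (nat_lit 382664651) (nat_lit 78) (nat_lit 5) (nat_lit 80) (nat_lit 5) (nat_lit 81) (nat_lit 5) (nat_lit 446) (nat_lit 423) (nat_lit 331))) (XT.nd (nat_lit 78) (nat_lit 152) (nat_lit 0) (XT.lf (nat_lit 0) (nat_lit 24151334690) (nat_lit 304) (nat_lit 18998004385) (nat_lit 76) (nat_lit 25559431011) (nat_lit 74) (nat_lit 5) (nat_lit 78) (nat_lit 5) (nat_lit 75) (nat_lit 5) (nat_lit 447) (nat_lit 423) (nat_lit 330)) (XT.lf (nat_lit 0) (nat_lit 48197156428) (nat_lit 152) (nat_lit 3665513779) (nat_lit 228) (nat_lit 20291925301) (nat_lit 72) (nat_lit 5) (nat_lit 74) (nat_lit 5) (nat_lit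 75) (nat_lit 5) (nat_lit 448) (nat_lit 423) (nat_lit 329)))))) (XT.nd (nat_lit 546) (nat_lit 836) (nat_lit 0) (XT.nd (nat_lit 234) (nat_lit 684) (nat_lit 0) (XT.nd (nat_lit 78) (nat_lit 304) (nat_lit 0) (XT.lf (nat_lit 0) (nat_lit 7418246871) (nat_lit 228) (nat_lit 29460680312) (nat_lit 76) (nat_lit 38907906283) (nat_lit 69) (nat_lit 5) (nat_lit 72) (nat_lit 5) (nat_lit 70) (nat_lit 5) (nat_lit 449) (nat_lit 423) (nat_lit 328)) (XT.nd (nat_lit 78) (nat_lit 152) (nat_lit 0) (XT.lf (nat_lit 0) (nat_lit 37921250503) (nat_lit 228) (nat_lit 35334716089) (nat_lit 76) (nat_lit 6372704197) (nat_lit 67) (nat_lit 5) (nat_lit 70) (nat_lit 5) (nat_lit 68) (nat_lit 5) (nat_lit 450) (nat_lit 423) (nat_lit 327)) (XT.lf (nat_lit 0) (nat_lit 41953871850) (nat_lit 152) (nat_lit 30704710899) (nat_lit 228) (nat_lit 11029568349) (nat_lit 65) (nat_lit 5) (nat_lit 67) (nat_lit 5) (nat_lit 68) (nat_lit 5) (nat_lit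 451) (nat_lit 423) (nat_lit 326)))) (XT.nd (nat_lit 156) (nat_lit 304) (nat_lit 0) (XT.nd (nat_lit 78) (nat_lit 152) (nat_lit 0) (XT.lf (nat_lit 0) (nat_lit 22898027023) (nat_lit 228) (nat_lit 48708185347) (nat_lit 76) (nat_lit 16373777038) (nat_lit 62) (nat_lit 5) (nat_lit 65) (nat_lit 5) (nat_lit 63) (nat_lit 5) (nat_lit 452) (nat_lit 423) (nat_lit 325)) (XT.lf (nat_lit 0) (nat_lit 36102634237) (nat_lit 152) (nat_lit 24872171371) (nat_lit 228) (nat_lit 31540258987) (nat_lit 60) (nat_lit 5) (nat_lit 62) (nat_lit 5) (nat_lit 63) (nat_lit 5) (nat_lit 453) (nat_lit 423) (nat_lit 324))) (XT.nd (nat_lit 78) (nat_lit 152) (nat_lit 0) (XT.lf (nat_lit 0) (nat_lit 6332410470) (nat_lit 152) (nat_lit 64733676461) (nat_lit 76) (nat_lit 26253323437) (nat_lit 58) (nat_lit 5) (nat_lit 60) (nat_lit 5) (nat_lit 59) (nat_lit 5) (nat_lit 454) (nat_lit 423) (nat_lit 323)) (XT.lf (nat_lit 0) (nat_lit 28187323958)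 (nat_lit 152) (nat_lit 19811780283) (nat_lit 228) (nat_lit 54389685777) (nat_lit 56) (nat_lit 5) (nat_lit 58) (nat_lit 5) (nat_lit 59) (nat_lit 5) (nat_lit 455) (nat_lit 423) (nat_lit 322))))) (XT.nd (nat_lit 234) (nat_lit 456) (nat_lit 0) (XT.nd (nat_lit 78) (nat_lit 304) (nat_lit 0) (XT.lf (nat_lit 0) (nat_lit 23209097469) (nat_lit 76) (nat_lit 71849762773) (nat_lit 152) (nat_lit 12701873719) (nat_lit 55) (nat_lit 5) (nat_lit 56) (nat_lit 5) (nat_lit 57) (nat_lit 4) (nat_lit 456) (nat_lit 423) (nat_lit 321)) (XT.nd (nat_lit 78) (nat_lit 76) (nat_lit 0) (XT.lf (nat_lit 0) (nat_lit 17250208439) (nat_lit 152) (nat_lit 15949854357) (nat_lit 228) (nat_lit 80241461202) (nat_lit 52) (nat_lit 5) (nat_lit 54) (nat_lit 5) (nat_lit 55) (nat_lit 5) (nat_lit 457) (nat_lit 423) (nat_lit 320)) (XT.lf (nat_lit 0) (nat_lit 10097393546) (nat_lit 76) (nat_lit 74582456642) (nat_lit 152) (nat_lit 34768980499)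 (nat_lit 51) (nat_lit 5) (nat_lit 52) (nat_lit 5) (nat_lit 53) (nat_lit 4) (nat_lit 458) (nat_lit 423) (nat_lit 319)))) (XT.nd (nat_lit 156) (nat_lit 228) (nat_lit 0) (XT.nd (nat_lit 78) (nat_lit 0) (nat_lit 0) (XT.lf (nat_lit 0) (nat_lit 2009075039) (nat_lit 152) (nat_lit 13873266092) (nat_lit 228) (nat_lit 109943182894) (nat_lit 48) (nat_lit 5) (nat_lit 50) (nat_lit 5) (nat_lit 51) (nat_lit 5) (nat_lit 459) (nat_lit 423) (nat_lit 318)) (XT.lf (nat_lit 0) (nat_lit 72123838901) (nat_lit 228) (nat_lit 7864316572) (nat_lit 76) (nat_lit 52557888057) (nat_lit 48) (nat_lit 5) (nat_lit 51) (nat_lit 5) (nat_lit 49) (nat_lit 4) (nat_lit 460) (nat_lit 423) (nat_lit 317))) (XT.nd (nat_lit 78) (nat_lit 152) (nat_lit 0) (XT.lf (nat_lit 0) (nat_lit 120997190698) (nat_lit 76) (nat_lit 13987532388) (nat_lit 152) (nat_lit 4713478340) (nat_lit 47) (nat_lit 5) (nat_lit 48) (nat_lit 5) (nat_lit 49) (nat_lit 4)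 (nat_lit 461) (nat_lit 423) (nat_lit 316)) (XT.lf (nat_lit 0) (nat_lit 56563118852) (nat_lit 152) (nat_lit 32354703589) (nat_lit 76) (nat_lit 58317122568) (nat_lit 45) (nat_lit 5) (nat_lit 47) (nat_lit 5) (nat_lit 46) (nat_lit 4) (nat_lit 462) (nat_lit 423) (nat_lit 315))))))))
noncomputable def xc83 : XT := (XT.nd (nat_lit 2184) (nat_lit 456) (nat_lit 0) (XT.nd (nat_lit 1092) (nat_lit 988) (nat_lit 0) (XT.nd (nat_lit 546) (nat_lit 684) (nat_lit 0) (XT.nd (nat_lit 234) (nat_lit 380) (nat_lit 0) (XT.nd (nat_lit 78) (nat_lit 228) (nat_lit 0) (XT.lf (nat_lit 0) (nat_lit 107574592717) (nat_lit 76) (nat_lit 17248035956) (nat_lit 152) (nat_lit 30435839919) (nat_lit 44) (nat_lit 5) (nat_lit 45) (nat_lit 5) (nat_lit 46) (nat_lit 4) (nat_lit 463) (nat_lit 423) (nat_lit 314)) (XT.nd (nat_lit 78) (nat_lit 76) (nat_lit 0) (XT.lf (nat_lit 0) (nat_lit 36602531579) (nat_lit 152) (nat_lit 66216519765) (nat_lit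 76) (nat_lit 60923221264) (nat_lit 42) (nat_lit 5) (nat_lit 44) (nat_lit 5) (nat_lit 43) (nat_lit 4) (nat_lit 464) (nat_lit 423) (nat_lit 313)) (XT.lf (nat_lit 0) (nat_lit 85092531650) (nat_lit 76) (nat_lit 25320368243) (nat_lit 152) (nat_lit 62343171216) (nat_lit 41) (nat_lit 5) (nat_lit 42) (nat_lit 5) (nat_lit 43) (nat_lit 4) (nat_lit 465) (nat_lit 423) (nat_lit 312)))) (XT.nd (nat_lit 156) (nat_lit 152) (nat_lit 0) (XT.nd (nat_lit 78) (nat_lit 76) (nat_lit 0) (XT.lf (nat_lit 0) (nat_lit 10614682349) (nat_lit 152) (nat_lit 112769380733) (nat_lit 76) (nat_lit 58939848962) (nat_lit 39) (nat_lit 5) (nat_lit 41) (nat_lit 5) (nat_lit 40) (nat_lit 4) (nat_lit 466) (nat_lit 423) (nat_lit 311)) (XT.lf (nat_lit 0) (nat_lit 49991777305) (nat_lit 76) (nat_lit 40019469595) (nat_lit 152) (nat_lit 102455518294) (nat_lit 38) (nat_lit 5) (nat_lit 39) (nat_lit 5) (nat_lit 40) (nat_lit 4) (nat_lit 467) (nat_lit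 423) (nat_lit 310))) (XT.nd (nat_lit 78) (nat_lit 76) (nat_lit 0) (XT.lf (nat_lit 0) (nat_lit 26508732190) (nat_lit 76) (nat_lit 152439740905) (nat_lit 76) (nat_lit 24313126759) (nat_lit 37) (nat_lit 4) (nat_lit 38) (nat_lit 5) (nat_lit 38) (nat_lit 4) (nat_lit 468) (nat_lit 423) (nat_lit 309)) (XT.lf (nat_lit 0) (nat_lit 61352704125) (nat_lit 152) (nat_lit 2355039834) (nat_lit 76) (nat_lit 151005625814) (nat_lit 36) (nat_lit 5) (nat_lit 38) (nat_lit 5) (nat_lit 37) (nat_lit 4) (nat_lit 469) (nat_lit 423) (nat_lit 308))))) (XT.nd (nat_lit 234) (nat_lit 380) (nat_lit 0) (XT.nd (nat_lit 78) (nat_lit 228) (nat_lit 0) (XT.lf (nat_lit 0) (nat_lit 156579761166) (nat_lit 152) (nat_lit 35751883098) (nat_lit 0) (nat_lit 34551719633) (nat_lit 35) (nat_lit 5) (nat_lit 37) (nat_lit 4) (nat_lit 35) (nat_lit 4) (nat_lit 470) (nat_lit 423) (nat_lit 307)) (XT.nd (nat_lit 78) (nat_lit 76) (nat_lit 0) (XT.lf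 (nat_lit 0) (nat_lit 22517106007) (nat_lit 152) (nat_lit 75869173794) (nat_lit 76) (nat_lit 141438537994) (nat_lit 33) (nat_lit 5) (nat_lit 35) (nat_lit 5) (nat_lit 34) (nat_lit 4) (nat_lit 471) (nat_lit 423) (nat_lit 306)) (XT.lf (nat_lit 0) (nat_lit 123106761676) (nat_lit 152) (nat_lit 123609502197) (nat_lit 0) (nat_lit 6887378982) (nat_lit 32) (nat_lit 5) (nat_lit 34) (nat_lit 4) (nat_lit 32) (nat_lit 4) (nat_lit 472) (nat_lit 423) (nat_lit 305)))) (XT.nd (nat_lit 156) (nat_lit 152) (nat_lit 0) (XT.nd (nat_lit 78) (nat_lit 152) (nat_lit 0) (XT.lf (nat_lit 0) (nat_lit 87740880182) (nat_lit 76) (nat_lit 148372873869) (nat_lit 76) (nat_lit 32152511705) (nat_lit 31) (nat_lit 4) (nat_lit 32) (nat_lit 5) (nat_lit 32) (nat_lit 4) (nat_lit 473) (nat_lit 423) (nat_lit 304)) (XT.lf (nat_lit 0) (nat_lit 36388471148) (nat_lit 76) (nat_lit 38055304572) (nat_lit 152) (nat_lit 209462572470) (nat_lit 29)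 (nat_lit 5) (nat_lit 30) (nat_lit 5) (nat_lit 31) (nat_lit 4) (nat_lit 474) (nat_lit 423) (nat_lit 303))) (XT.nd (nat_lit 78) (nat_lit 152) (nat_lit 0) (XT.lf (nat_lit 0) (nat_lit 192916718210) (nat_lit 152) (nat_lit 25401798032) (nat_lit 0) (nat_lit 82228995526) (nat_lit 29) (nat_lit 5) (nat_lit 31) (nat_lit 4) (nat_lit 29) (nat_lit 4) (nat_lit 475) (nat_lit 423) (nat_lit 302)) (XT.lf (nat_lit 0) (nat_lit 6428417825) (nat_lit 152) (nat_lit 97510206649) (nat_lit 76) (nat_lit 214371710135) (nat_lit 27) (nat_lit 5) (nat_lit 29) (nat_lit 5) (nat_lit 28) (nat_lit 4) (nat_lit 476) (nat_lit 423) (nat_lit 301)))))) (XT.nd (nat_lit 546) (nat_lit 456) (nat_lit 0) (XT.nd (nat_lit 234) (nat_lit 304) (nat_lit 0) (XT.nd (nat_lit 78) (nat_lit 152) (nat_lit 0) (XT.lf (nat_lit 0) (nat_lit 129114264669) (nat_lit 152) (nat_lit 184432031147) (nat_lit 0) (nat_lit 23696027670) (nat_lit 26) (nat_lit 5) (nat_lit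 28) (nat_lit 4) (nat_lit 26) (nat_lit 4) (nat_lit 477) (nat_lit 423) (nat_lit 300)) (XT.nd (nat_lit 78) (nat_lit 76) (nat_lit 0) (XT.lf (nat_lit 0) (nat_lit 69474547144) (nat_lit 76) (nat_lit 196702530536) (nat_lit 76) (nat_lit 91283688901) (nat_lit 25) (nat_lit 4) (nat_lit 26) (nat_lit 5) (nat_lit 26) (nat_lit 4) (nat_lit 478) (nat_lit 423) (nat_lit 299)) (XT.lf (nat_lit 0) (nat_lit 37054749887) (nat_lit 152) (nat_lit 29457164213) (nat_lit 76) (nat_lit 312594330253) (nat_lit 24) (nat_lit 5) (nat_lit 26) (nat_lit 5) (nat_lit 25) (nat_lit 4) (nat_lit 479) (nat_lit 423) (nat_lit 298)))) (XT.nd (nat_lit 156) (nat_lit 152) (nat_lit 0) (XT.nd (nat_lit 78) (nat_lit 76) (nat_lit 0) (XT.lf (nat_lit 0) (nat_lit 177754522021) (nat_lit 152) (nat_lit 147034797607) (nat_lit 0) (nat_lit 77354598344) (nat_lit 23) (nat_lit 5) (nat_lit 25) (nat_lit 4) (nat_lit 23) (nat_lit 4) (nat_lit 480) (nat_lit 423) (nat_lit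 297)) (XT.lf (nat_lit 0) (nat_lit 139836599256) (nat_lit 76) (nat_lit 193698571162) (nat_lit 76) (nat_lit 93298190362) (nat_lit 22) (nat_lit 4) (nat_lit 23) (nat_lit 5) (nat_lit 23) (nat_lit 4) (nat_lit 481) (nat_lit 423) (nat_lit 296))) (XT.nd (nat_lit 78) (nat_lit 0) (nat_lit 0) (XT.lf (nat_lit 0) (nat_lit 764352912) (nat_lit 76) (nat_lit 48584504147) (nat_lit 152) (nat_lit 403980721581) (nat_lit 20) (nat_lit 5) (nat_lit 21) (nat_lit 5) (nat_lit 22) (nat_lit 4) (nat_lit 482) (nat_lit 423) (nat_lit 295)) (XT.lf (nat_lit 0) (nat_lit 206950939562) (nat_lit 152) (nat_lit 163246728267) (nat_lit 0) (nat_lit 111330752924) (nat_lit 20) (nat_lit 5) (nat_lit 22) (nat_lit 4) (nat_lit 20) (nat_lit 4) (nat_lit 483) (nat_lit 423) (nat_lit 294))))) (XT.nd (nat_lit 234) (nat_lit 228) (nat_lit 0) (XT.nd (nat_lit 78) (nat_lit 152) (nat_lit 0) (XT.lf (nat_lit 0) (nat_lit 153302213040) (nat_lit 76) (nat_lit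 227070457673) (nat_lit 76) (nat_lit 131449925435) (nat_lit 19) (nat_lit 4) (nat_lit 20) (nat_lit 5) (nat_lit 20) (nat_lit 4) (nat_lit 484) (nat_lit 423) (nat_lit 293)) (XT.nd (nat_lit 78) (nat_lit 76) (nat_lit 0) (XT.lf (nat_lit 0) (nat_lit 25276685666) (nat_lit 152) (nat_lit 43803646621) (nat_lit 76) (nat_lit 475297464486) (nat_lit 18) (nat_lit 5) (nat_lit 20) (nat_lit 5) (nat_lit 19) (nat_lit 4) (nat_lit 485) (nat_lit 423) (nat_lit 292)) (XT.lf (nat_lit 0) (nat_lit 196435886180) (nat_lit 152) (nat_lit 277300664489) (nat_lit 0) (nat_lit 105368125673) (nat_lit 17) (nat_lit 5) (nat_lit 19) (nat_lit 4) (nat_lit 17) (nat_lit 4) (nat_lit 486) (nat_lit 423) (nat_lit 291)))) (XT.nd (nat_lit 156) (nat_lit 152) (nat_lit 0) (XT.nd (nat_lit 78) (nat_lit 0) (nat_lit 0) (XT.lf (nat_lit 0) (nat_lit 60820097687) (nat_lit 76) (nat_lit 323356593486) (nat_lit 76) (nat_lit 232288571695) (nat_lit 16) (nat_lit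 4) (nat_lit 17) (nat_lit 5) (nat_lit 17) (nat_lit 4) (nat_lit 487) (nat_lit 423) (nat_lit 290)) (XT.lf (nat_lit 0) (nat_lit 435890792695) (nat_lit 76) (nat_lit 155875349145) (nat_lit 76) (nat_lit 64807085425) (nat_lit 16) (nat_lit 4) (nat_lit 17) (nat_lit 5) (nat_lit 17) (nat_lit 4) (nat_lit 488) (nat_lit 423) (nat_lit 289))) (XT.nd (nat_lit 78) (nat_lit 0) (nat_lit 0) (XT.lf (nat_lit 0) (nat_lit 115059988792) (nat_lit 152) (nat_lit 556276026766) (nat_lit 0) (nat_lit 28328095718) (nat_lit 14) (nat_lit 5) (nat_lit 16) (nat_lit 4) (nat_lit 14) (nat_lit 4) (nat_lit 489) (nat_lit 423) (nat_lit 288)) (XT.lf (nat_lit 0) (nat_lit 313610836721) (nat_lit 152) (nat_lit 205331316010) (nat_lit 0) (nat_lit 226878746108) (nat_lit 14) (nat_lit 5) (nat_lit 16) (nat_lit 4) (nat_lit 14) (nat_lit 4) (nat_lit 490) (nat_lit 423) (nat_lit 287))))))) (XT.nd (nat_lit 57642) (nat_lit 0) (nat_lit 5928) (XT.nd (nat_lit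 546) (nat_lit 152) (nat_lit 0) (XT.nd (nat_lit 234) (nat_lit 76) (nat_lit 0) (XT.nd (nat_lit 78) (nat_lit 152) (nat_lit 0) (XT.lf (nat_lit 0) (nat_lit 179430121612) (nat_lit 76) (nat_lit 351416177008) (nat_lit 76) (nat_lit 264683903489) (nat_lit 13) (nat_lit 4) (nat_lit 14) (nat_lit 5) (nat_lit 14) (nat_lit 4) (nat_lit 491) (nat_lit 423) (nat_lit 286)) (XT.nd (nat_lit 78) (nat_lit 152) (nat_lit 0) (XT.lf (nat_lit 0) (nat_lit 602303130233) (nat_lit 76) (nat_lit 166733383246) (nat_lit 76) (nat_lit 80000940370) (nat_lit 13) (nat_lit 4) (nat_lit 14) (nat_lit 5) (nat_lit 14) (nat_lit 4) (nat_lit 492) (nat_lit 423) (nat_lit 285)) (XT.lf (nat_lit 0) (nat_lit 118638167542) (nat_lit 152) (nat_lit 751907930540) (nat_lit 0) (nat_lit 36035691648) (nat_lit 11) (nat_lit 5) (nat_lit 13) (nat_lit 4) (nat_lit 11) (nat_lit 4) (nat_lit 493) (nat_lit 423) (nat_lit 284)))) (XT.nd (nat_lit 156) (nat_lit 0) (nat_lit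 0) (XT.nd (nat_lit 78) (nat_lit 76) (nat_lit 0) (XT.lf (nat_lit 0) (nat_lit 337582120102) (nat_lit 152) (nat_lit 375741643956) (nat_lit 0) (nat_lit 254979505926) (nat_lit 11) (nat_lit 5) (nat_lit 13) (nat_lit 4) (nat_lit 11) (nat_lit 4) (nat_lit 494) (nat_lit 423) (nat_lit 283)) (XT.lf (nat_lit 0) (nat_lit 31525553486) (nat_lit 76) (nat_lit 543007541055) (nat_lit 76) (nat_lit 460404798840) (nat_lit 10) (nat_lit 4) (nat_lit 11) (nat_lit 5) (nat_lit 11) (nat_lit 4) (nat_lit 495) (nat_lit 423) (nat_lit 282))) (XT.nd (nat_lit 78) (nat_lit 0) (nat_lit 0) (XT.lf (nat_lit 0) (nat_lit 484790394095) (nat_lit 76) (nat_lit 352194263889) (nat_lit 76) (nat_lit 269591403119) (nat_lit 10) (nat_lit 4) (nat_lit 11) (nat_lit 5) (nat_lit 11) (nat_lit 4) (nat_lit 496) (nat_lit 423) (nat_lit 281)) (XT.lf (nat_lit 0) (nat_lit 974315176095) (nat_lit 76) (nat_lit 146116553765) (nat_lit 76) (nat_lit 63513583221) (nat_lit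 10) (nat_lit 4) (nat_lit 11) (nat_lit 5) (nat_lit 11) (nat_lit 4) (nat_lit 497) (nat_lit 423) (nat_lit 280))))) (XT.nd (nat_lit 56784) (nat_lit 0) (nat_lit 9880) (XT.nd (nat_lit 78) (nat_lit 0) (nat_lit 0) (XT.lf (nat_lit 0) (nat_lit 159013423370) (nat_lit 152) (nat_lit 1027770011408) (nat_lit 0) (nat_lit 80343830812) (nat_lit 8) (nat_lit 5) (nat_lit 10) (nat_lit 4) (nat_lit 8) (nat_lit 4) (nat_lit 498) (nat_lit 423) (nat_lit 279)) (XT.nd (nat_lit 56628) (nat_lit 0) (nat_lit 9804) (XT.lf (nat_lit 0) (nat_lit 403321845361) (nat_lit 152) (nat_lit 628627482384) (nat_lit 0) (nat_lit 324652163173) (nat_lit 8) (nat_lit 5) (nat_lit 10) (nat_lit 4) (nat_lit 8) (nat_lit 4) (nat_lit 499) (nat_lit 423) (nat_lit 278)) (XT.lf (nat_lit 0) (nat_lit 4339595762) (nat_lit 836) (nat_lit 4285550202) (nat_lit 836) (nat_lit 4285550202) (nat_lit 137) (nat_lit 3) (nat_lit 148) (nat_lit 3) (nat_lit 148) (nat_lit 5)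 (nat_lit 424) (nat_lit 424) (nat_lit 352)))) (XT.nd (nat_lit 156) (nat_lit 0) (nat_lit 76) (XT.nd (nat_lit 78) (nat_lit 0) (nat_lit 0) (XT.lf (nat_lit 0) (nat_lit 9413846438) (nat_lit 760) (nat_lit 14656346381) (nat_lit 836) (nat_lit 2764645503) (nat_lit 138) (nat_lit 5) (nat_lit 148) (nat_lit 5) (nat_lit 149) (nat_lit 5) (nat_lit 425) (nat_lit 424) (nat_lit 351)) (XT.lf (nat_lit 76) (nat_lit 6890309875) (nat_lit 0) (nat_lit 3851935022) (nat_lit 836) (nat_lit 17160370068) (nat_lit 139) (nat_lit 5) (nat_lit 138) (nat_lit 5) (nat_lit 149) (nat_lit 5) (nat_lit 426) (nat_lit 424) (nat_lit 350))) (XT.nd (nat_lit 78) (nat_lit 0) (nat_lit 76) (XT.lf (nat_lit 76) (nat_lit 1391046888) (nat_lit 0) (nat_lit 11333702703) (nat_lit 836) (nat_lit 16303675707) (nat_lit 140) (nat_lit 5) (nat_lit 139) (nat_lit 5) (nat_lit 150) (nat_lit 5) (nat_lit 427) (nat_lit 424) (nat_lit 349)) (XT.lf (nat_lit 0) (nat_lit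 15453935179) (nat_lit 760) (nat_lit 4134081222) (nat_lit 836) (nat_lit 10626883061) (nat_lit 140) (nat_lit 5) (nat_lit 150) (nat_lit 5) (nat_lit 151) (nat_lit 5) (nat_lit 428) (nat_lit 424) (nat_lit 348)))))) (XT.nd (nat_lit 546) (nat_lit 2280) (nat_lit 0) (XT.nd (nat_lit 234) (nat_lit 1216) (nat_lit 0) (XT.nd (nat_lit 78) (nat_lit 684) (nat_lit 0) (XT.lf (nat_lit 0) (nat_lit 18963974568) (nat_lit 760) (nat_lit 9769251571) (nat_lit 836) (nat_lit 2734942280) (nat_lit 141) (nat_lit 5) (nat_lit 151) (nat_lit 5) (nat_lit 152) (nat_lit 5) (nat_lit 429) (nat_lit 424) (nat_lit 347)) (XT.nd (nat_lit 78) (nat_lit 684) (nat_lit 0) (XT.lf (nat_lit 76) (nat_lit 17135721028) (nat_lit 0) (nat_lit 6278722116) (nat_lit 836) (nat_lit 9374277046) (nat_lit 142) (nat_lit 5) (nat_lit 141) (nat_lit 5) (nat_lit 152) (nat_lit 5) (nat_lit 430) (nat_lit 424) (nat_lit 346)) (XT.lf (nat_lit 0) (nat_lit 12440839911) (nat_lit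 760) (nat_lit 16417242929) (nat_lit 836) (nat_lit 5324978987) (nat_lit 132) (nat_lit 5) (nat_lit 142) (nat_lit 5) (nat_lit 143) (nat_lit 5) (nat_lit 431) (nat_lit 424) (nat_lit 345)))) (XT.nd (nat_lit 156) (nat_lit 380) (nat_lit 0) (XT.nd (nat_lit 78) (nat_lit 456) (nat_lit 0) (XT.lf (nat_lit 0) (nat_lit 7670838299) (nat_lit 380) (nat_lit 27679707912) (nat_lit 456) (nat_lit 307740187) (nat_lit 127) (nat_lit 5) (nat_lit 132) (nat_lit 5) (nat_lit 133) (nat_lit 5) (nat_lit 432) (nat_lit 424) (nat_lit 344)) (XT.lf (nat_lit 0) (nat_lit 2694671193) (nat_lit 380) (nat_lit 2946908312) (nat_lit 456) (nat_lit 31571247550) (nat_lit 121) (nat_lit 5) (nat_lit 126) (nat_lit 5) (nat_lit 127) (nat_lit 5) (nat_lit 433) (nat_lit 424) (nat_lit 343))) (XT.nd (nat_lit 78) (nat_lit 380) (nat_lit 0) (XT.lf (nat_lit 0) (nat_lit 12913759344) (nat_lit 456) (nat_lit 2430326152) (nat_lit 76) (nat_lit 23504510227) (nat_lit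 121) (nat_lit 5) (nat_lit 127) (nat_lit 5) (nat_lit 122) (nat_lit 5) (nat_lit 434) (nat_lit 424) (nat_lit 342)) (XT.lf (nat_lit 0) (nat_lit 21513701062) (nat_lit 456) (nat_lit 7543479946) (nat_lit 76) (nat_lit 11520747187) (nat_lit 116) (nat_lit 5) (nat_lit 122) (nat_lit 5) (nat_lit 117) (nat_lit 5) (nat_lit 435) (nat_lit 424) (nat_lit 341))))) (XT.nd (nat_lit 312) (nat_lit 988) (nat_lit 0) (XT.nd (nat_lit 156) (nat_lit 684) (nat_lit 0) (XT.nd (nat_lit 78) (nat_lit 304) (nat_lit 0) (XT.lf (nat_lit 0) (nat_lit 29660771235) (nat_lit 304) (nat_lit 1897860315) (nat_lit 380) (nat_lit 10849127603) (nat_lit 112) (nat_lit 5) (nat_lit 116) (nat_lit 5) (nat_lit 117) (nat_lit 5) (nat_lit 436) (nat_lit 424) (nat_lit 340)) (XT.lf (nat_lit 0) (nat_lit 26130380870) (nat_lit 304) (nat_lit 17239206578) (nat_lit 380) (nat_lit 966269035) (nat_lit 108) (nat_lit 5) (nat_lit 112) (nat_lit 5) (nat_lit 113) (nat_lit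 5) (nat_lit 437) (nat_lit 424) (nat_lit 339))) (XT.nd (nat_lit 78) (nat_lit 304) (nat_lit 0) (XT.lf (nat_lit 0) (nat_lit 10199659812) (nat_lit 380) (nat_lit 23881980933) (nat_lit 76) (nat_lit 12288827623) (nat_lit 103) (nat_lit 5) (nat_lit 108) (nat_lit 5) (nat_lit 104) (nat_lit 5) (nat_lit 438) (nat_lit 424) (nat_lit 338)) (XT.lf (nat_lit 0) (nat_lit 18817593491) (nat_lit 304) (nat_lit 4307931384) (nat_lit 380) (nat_lit 25396507722) (nat_lit 99) (nat_lit 5) (nat_lit 103) (nat_lit 5) (nat_lit 104) (nat_lit 5) (nat_lit 439) (nat_lit 424) (nat_lit 337)))) (XT.nd (nat_lit 156) (nat_lit 456) (nat_lit 0) (XT.nd (nat_lit 78) (nat_lit 304) (nat_lit 0) (XT.lf (nat_lit 0) (nat_lit 14990712324) (nat_lit 228) (nat_lit 23180001198) (nat_lit 304) (nat_lit 12620746816) (nat_lit 96) (nat_lit 5) (nat_lit 99) (nat_lit 5) (nat_lit 100) (nat_lit 5) (nat_lit 440) (nat_lit 424) (nat_lit 336)) (XT.lf (nat_lit 0)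 (nat_lit 2056760637) (nat_lit 304) (nat_lit 41989181609) (nat_lit 76) (nat_lit 9149714172) (nat_lit 92) (nat_lit 5) (nat_lit 96) (nat_lit 5) (nat_lit 93) (nat_lit 5) (nat_lit 441) (nat_lit 424) (nat_lit 335))) (XT.nd (nat_lit 78) (nat_lit 228) (nat_lit 0) (XT.lf (nat_lit 0) (nat_lit 7096707173) (nat_lit 228) (nat_lit 11505152176) (nat_lit 304) (nat_lit 37123206844) (nat_lit 89) (nat_lit 5) (nat_lit 92) (nat_lit 5) (nat_lit 93) (nat_lit 5) (nat_lit 442) (nat_lit 424) (nat_lit 334)) (XT.lf (nat_lit 0) (nat_lit 2892004332) (nat_lit 228) (nat_lit 34730615487) (nat_lit 304) (nat_lit 20776607063) (nat_lit 86) (nat_lit 5) (nat_lit 89) (nat_lit 5) (nat_lit 90) (nat_lit 5) (nat_lit 443) (nat_lit 424) (nat_lit 333))))))))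
noncomputable def xc84 : XT := (XT.nd (nat_lit 2184) (nat_lit 2052) (nat_lit 0) (XT.nd (nat_lit 1092) (nat_lit 1520) (nat_lit 0) (XT.nd (nat_lit 546) (nat_lit 1064) (nat_lit 0) (XT.nd (nat_lit 234) (nat_lit 836) (nat_lit 0) (XT.nd (nat_lit 78) (nat_lit 456) (nat_lit 0) (XT.lf (nat_lit 0) (nat_lit 59211193012) (nat_lit 304) (nat_lit 1186874504) (nat_lit 76) (nat_lit 836946083) (nat_lit 86) (nat_lit 5) (nat_lit 90) (nat_lit 5) (nat_lit 87) (nat_lit 5) (nat_lit 444) (nat_lit 424) (nat_lit 332)) (XT.nd (nat_lit 78) (nat_lit 228) (nat_lit 0) (XT.lf (nat_lit 0) (nat_lit 19168505099) (nat_lit 228) (nat_lit 5764941126) (nat_lit 76) (nat_lit 39273849055) (nat_lit 83) (nat_lit 5) (nat_lit 86) (nat_lit 5) (nat_lit 84) (nat_lit 5) (nat_lit 445) (nat_lit 424) (nat_lit 331)) (XT.lf (nat_lit 0) (nat_lit 43120726042) (nat_lit 304) (nat_lit 10335467437) (nat_lit 76) (nat_lit 13902737071) (nat_lit 80) (nat_lit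 5) (nat_lit 84) (nat_lit 5) (nat_lit 81) (nat_lit 5) (nat_lit 446) (nat_lit 424) (nat_lit 330)))) (XT.nd (nat_lit 156) (nat_lit 380) (nat_lit 0) (XT.nd (nat_lit 78) (nat_lit 304) (nat_lit 0) (XT.lf (nat_lit 0) (nat_lit 55634595315) (nat_lit 152) (nat_lit 14741081813) (nat_lit 228) (nat_lit 317692467) (nat_lit 78) (nat_lit 5) (nat_lit 80) (nat_lit 5) (nat_lit 81) (nat_lit 5) (nat_lit 447) (nat_lit 424) (nat_lit 329)) (XT.lf (nat_lit 0) (nat_lit 26172118516) (nat_lit 304) (nat_lit 20374099235) (nat_lit 76) (nat_lit 27654810148) (nat_lit 74) (nat_lit 5) (nat_lit 78) (nat_lit 5) (nat_lit 75) (nat_lit 5) (nat_lit 448) (nat_lit 424) (nat_lit 328))) (XT.nd (nat_lit 78) (nat_lit 228) (nat_lit 0) (XT.lf (nat_lit 0) (nat_lit 52190427439) (nat_lit 152) (nat_lit 3905511501) (nat_lit 228) (nat_lit 21826802247) (nat_lit 72) (nat_lit 5) (nat_lit 74) (nat_lit 5) (nat_lit 75) (nat_lit 5) (nat_lit 449) (nat_lit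 424) (nat_lit 327)) (XT.lf (nat_lit 0) (nat_lit 8093928680) (nat_lit 228) (nat_lit 31680041677) (nat_lit 76) (nat_lit 42071690565) (nat_lit 69) (nat_lit 5) (nat_lit 72) (nat_lit 5) (nat_lit 70) (nat_lit 5) (nat_lit 450) (nat_lit 424) (nat_lit 326))))) (XT.nd (nat_lit 234) (nat_lit 532) (nat_lit 0) (XT.nd (nat_lit 78) (nat_lit 380) (nat_lit 0) (XT.lf (nat_lit 0) (nat_lit 41033968117) (nat_lit 228) (nat_lit 38026891511) (nat_lit 76) (nat_lit 6934146428) (nat_lit 67) (nat_lit 5) (nat_lit 70) (nat_lit 5) (nat_lit 68) (nat_lit 5) (nat_lit 451) (nat_lit 424) (nat_lit 325)) (XT.nd (nat_lit 78) (nat_lit 228) (nat_lit 0) (XT.lf (nat_lit 0) (nat_lit 45438933831) (nat_lit 152) (nat_lit 33107510142) (nat_lit 228) (nat_lit 11832993523) (nat_lit 65) (nat_lit 5) (nat_lit 67) (nat_lit 5) (nat_lit 68) (nat_lit 5) (nat_lit 452) (nat_lit 424) (nat_lit 324)) (XT.lf (nat_lit 0) (nat_lit 24803408659) (nat_lit 228)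 (nat_lit 52476443779) (nat_lit 76) (nat_lit 17734853011) (nat_lit 62) (nat_lit 5) (nat_lit 65) (nat_lit 5) (nat_lit 63) (nat_lit 5) (nat_lit 453) (nat_lit 424) (nat_lit 323)))) (XT.nd (nat_lit 156) (nat_lit 228) (nat_lit 0) (XT.nd (nat_lit 78) (nat_lit 152) (nat_lit 0) (XT.lf (nat_lit 0) (nat_lit 39113661421) (nat_lit 152) (nat_lit 26809138251) (nat_lit 228) (nat_lit 33989963926) (nat_lit 60) (nat_lit 5) (nat_lit 62) (nat_lit 5) (nat_lit 63) (nat_lit 5) (nat_lit 454) (nat_lit 424) (nat_lit 322)) (XT.lf (nat_lit 0) (nat_lit 6907575659) (nat_lit 152) (nat_lit 69790054105) (nat_lit 76) (nat_lit 28403899803) (nat_lit 58) (nat_lit 5) (nat_lit 60) (nat_lit 5) (nat_lit 59) (nat_lit 5) (nat_lit 455) (nat_lit 424) (nat_lit 321))) (XT.nd (nat_lit 78) (nat_lit 76) (nat_lit 0) (XT.lf (nat_lit 0) (nat_lit 30559310623) (nat_lit 152) (nat_lit 21345041585) (nat_lit 228) (nat_lit 58672270389) (nat_lit 56) (nat_lit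 5) (nat_lit 58) (nat_lit 5) (nat_lit 59) (nat_lit 5) (nat_lit 456) (nat_lit 424) (nat_lit 320)) (XT.lf (nat_lit 0) (nat_lit 25180097968) (nat_lit 76) (nat_lit 77546483465) (nat_lit 152) (nat_lit 13651856330) (nat_lit 55) (nat_lit 5) (nat_lit 56) (nat_lit 5) (nat_lit 57) (nat_lit 4) (nat_lit 457) (nat_lit 424) (nat_lit 319)))))) (XT.nd (nat_lit 546) (nat_lit 684) (nat_lit 0) (XT.nd (nat_lit 234) (nat_lit 304) (nat_lit 0) (XT.nd (nat_lit 78) (nat_lit 304) (nat_lit 0) (XT.lf (nat_lit 0) (nat_lit 18741561308) (nat_lit 152) (nat_lit 17175549893) (nat_lit 228) (nat_lit 86596678759) (nat_lit 52) (nat_lit 5) (nat_lit 54) (nat_lit 5) (nat_lit 55) (nat_lit 5) (nat_lit 458) (nat_lit 424) (nat_lit 318)) (XT.nd (nat_lit 78) (nat_lit 228) (nat_lit 0) (XT.lf (nat_lit 0) (nat_lit 11013854752) (nat_lit 76) (nat_lit 80499328789) (nat_lit 152) (nat_lit 37488602828) (nat_lit 51) (nat_lit 5) (nat_lit 52) (nat_lit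 5) (nat_lit 53) (nat_lit 4) (nat_lit 459) (nat_lit 424) (nat_lit 317)) (XT.lf (nat_lit 0) (nat_lit 2275646274) (nat_lit 152) (nat_lit 14934411586) (nat_lit 228) (nat_lit 118678648522) (nat_lit 48) (nat_lit 5) (nat_lit 50) (nat_lit 5) (nat_lit 51) (nat_lit 5) (nat_lit 460) (nat_lit 424) (nat_lit 316)))) (XT.nd (nat_lit 156) (nat_lit 228) (nat_lit 0) (XT.nd (nat_lit 78) (nat_lit 76) (nat_lit 0) (XT.lf (nat_lit 0) (nat_lit 77947347892) (nat_lit 228) (nat_lit 8393513558) (nat_lit 76) (nat_lit 56806182605) (nat_lit 48) (nat_lit 5) (nat_lit 51) (nat_lit 5) (nat_lit 49) (nat_lit 4) (nat_lit 461) (nat_lit 424) (nat_lit 315)) (XT.lf (nat_lit 0) (nat_lit 130772570661) (nat_lit 76) (nat_lit 15062054298) (nat_lit 152) (nat_lit 5036873727) (nat_lit 47) (nat_lit 5) (nat_lit 48) (nat_lit 5) (nat_lit 49) (nat_lit 4) (nat_lit 462) (nat_lit 424) (nat_lit 314))) (XT.nd (nat_lit 78) (nat_lit 76) (nat_lit 0) (XT.lf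 (nat_lit 0) (nat_lit 61138416878) (nat_lit 152) (nat_lit 34848182890) (nat_lit 76) (nat_lit 63024626077) (nat_lit 45) (nat_lit 5) (nat_lit 47) (nat_lit 5) (nat_lit 46) (nat_lit 4) (nat_lit 463) (nat_lit 424) (nat_lit 313)) (XT.lf (nat_lit 0) (nat_lit 116271333013) (nat_lit 76) (nat_lit 18585049579) (nat_lit 152) (nat_lit 32820364142) (nat_lit 44) (nat_lit 5) (nat_lit 45) (nat_lit 5) (nat_lit 46) (nat_lit 4) (nat_lit 464) (nat_lit 424) (nat_lit 312))))) (XT.nd (nat_lit 234) (nat_lit 304) (nat_lit 0) (XT.nd (nat_lit 78) (nat_lit 228) (nat_lit 0) (XT.lf (nat_lit 0) (nat_lit 39577889457) (nat_lit 152) (nat_lit 71423796818) (nat_lit 76) (nat_lit 65837608465) (nat_lit 42) (nat_lit 5) (nat_lit 44) (nat_lit 5) (nat_lit 43) (nat_lit 4) (nat_lit 465) (nat_lit 424) (nat_lit 311)) (XT.nd (nat_lit 78) (nat_lit 152) (nat_lit 0) (XT.lf (nat_lit 0) (nat_lit 91986065485) (nat_lit 76) (nat_lit 27304873513) (nat_lit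 152) (nat_lit 67283365675) (nat_lit 41) (nat_lit 5) (nat_lit 42) (nat_lit 5) (nat_lit 43) (nat_lit 4) (nat_lit 466) (nat_lit 424) (nat_lit 310)) (XT.lf (nat_lit 0) (nat_lit 11508151030) (nat_lit 152) (nat_lit 121705536839) (nat_lit 76) (nat_lit 63693920875) (nat_lit 39) (nat_lit 5) (nat_lit 41) (nat_lit 5) (nat_lit 40) (nat_lit 4) (nat_lit 467) (nat_lit 424) (nat_lit 309)))) (XT.nd (nat_lit 156) (nat_lit 152) (nat_lit 0) (XT.nd (nat_lit 78) (nat_lit 76) (nat_lit 0) (XT.lf (nat_lit 0) (nat_lit 54072802708) (nat_lit 76) (nat_lit 43181632297) (nat_lit 152) (nat_lit 110607555544) (nat_lit 38) (nat_lit 5) (nat_lit 39) (nat_lit 5) (nat_lit 40) (nat_lit 4) (nat_lit 468) (nat_lit 424) (nat_lit 308)) (XT.lf (nat_lit 0) (nat_lit 28708999704) (nat_lit 76) (nat_lit 164596318918) (nat_lit 76) (nat_lit 26215159499) (nat_lit 37) (nat_lit 4) (nat_lit 38) (nat_lit 5) (nat_lit 38) (nat_lit 4) (nat_lit 469) (nat_lit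 424) (nat_lit 307))) (XT.nd (nat_lit 78) (nat_lit 76) (nat_lit 0) (XT.lf (nat_lit 0) (nat_lit 66299476543) (nat_lit 152) (nat_lit 2468492060) (nat_lit 76) (nat_lit 163120541769) (nat_lit 36) (nat_lit 5) (nat_lit 38) (nat_lit 5) (nat_lit 37) (nat_lit 4) (nat_lit 470) (nat_lit 424) (nat_lit 306)) (XT.lf (nat_lit 0) (nat_lit 169143505965) (nat_lit 152) (nat_lit 38539042485) (nat_lit 0) (nat_lit 37349615272) (nat_lit 35) (nat_lit 5) (nat_lit 37) (nat_lit 4) (nat_lit 35) (nat_lit 4) (nat_lit 471) (nat_lit 424) (nat_lit 305))))))) (XT.nd (nat_lit 1092) (nat_lit 836) (nat_lit 0) (XT.nd (nat_lit 546) (nat_lit 532) (nat_lit 0) (XT.nd (nat_lit 234) (nat_lit 380) (nat_lit 0) (XT.nd (nat_lit 78) (nat_lit 152) (nat_lit 0) (XT.lf (nat_lit 0) (nat_lit 24354746769) (nat_lit 152) (nat_lit 81867688260) (nat_lit 76) (nat_lit 152786553614) (nat_lit 33) (nat_lit 5) (nat_lit 35) (nat_lit 5) (nat_lit 34) (nat_lit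 4) (nat_lit 472) (nat_lit 424) (nat_lit 304)) (XT.nd (nat_lit 78) (nat_lit 76) (nat_lit 0) (XT.lf (nat_lit 0) (nat_lit 132990468383) (nat_lit 152) (nat_lit 133429115861) (nat_lit 0) (nat_lit 7470590860) (nat_lit 32) (nat_lit 5) (nat_lit 34) (nat_lit 4) (nat_lit 32) (nat_lit 4) (nat_lit 473) (nat_lit 424) (nat_lit 303)) (XT.lf (nat_lit 0) (nat_lit 94826292085) (nat_lit 76) (nat_lit 160210155844) (nat_lit 76) (nat_lit 34689438584) (nat_lit 31) (nat_lit 4) (nat_lit 32) (nat_lit 5) (nat_lit 32) (nat_lit 4) (nat_lit 474) (nat_lit 424) (nat_lit 302)))) (XT.nd (nat_lit 156) (nat_lit 228) (nat_lit 0) (XT.nd (nat_lit 78) (nat_lit 0) (nat_lit 0) (XT.lf (nat_lit 0) (nat_lit 39363896577) (nat_lit 76) (nat_lit 41068001653) (nat_lit 152) (nat_lit 226185326065) (nat_lit 29) (nat_lit 5) (nat_lit 30) (nat_lit 5) (nat_lit 31) (nat_lit 4) (nat_lit 475) (nat_lit 424) (nat_lit 301)) (XT.lf (nat_lit 0) (nat_lit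 208380718448) (nat_lit 152) (nat_lit 27373308416) (nat_lit 0) (nat_lit 88835752034) (nat_lit 29) (nat_lit 5) (nat_lit 31) (nat_lit 4) (nat_lit 29) (nat_lit 4) (nat_lit 476) (nat_lit 424) (nat_lit 300))) (XT.nd (nat_lit 78) (nat_lit 76) (nat_lit 0) (XT.lf (nat_lit 0) (nat_lit 6972469116) (nat_lit 152) (nat_lit 105252039593) (nat_lit 76) (nat_lit 231549163182) (nat_lit 27) (nat_lit 5) (nat_lit 29) (nat_lit 5) (nat_lit 28) (nat_lit 4) (nat_lit 477) (nat_lit 424) (nat_lit 299)) (XT.lf (nat_lit 0) (nat_lit 139472295464) (nat_lit 152) (nat_lit 199129186854) (nat_lit 0) (nat_lit 25618782015) (nat_lit 26) (nat_lit 5) (nat_lit 28) (nat_lit 4) (nat_lit 26) (nat_lit 4) (nat_lit 478) (nat_lit 424) (nat_lit 298))))) (XT.nd (nat_lit 234) (nat_lit 304) (nat_lit 0) (XT.nd (nat_lit 78) (nat_lit 152) (nat_lit 0) (XT.lf (nat_lit 0) (nat_lit 75087422872) (nat_lit 76) (nat_lit 212411428002) (nat_lit 76) (nat_lit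 98557396175) (nat_lit 25) (nat_lit 4) (nat_lit 26) (nat_lit 5) (nat_lit 26) (nat_lit 4) (nat_lit 479) (nat_lit 424) (nat_lit 297)) (XT.nd (nat_lit 78) (nat_lit 76) (nat_lit 0) (XT.lf (nat_lit 0) (nat_lit 40045111402) (nat_lit 152) (nat_lit 31762033430) (nat_lit 76) (nat_lit 337626299543) (nat_lit 24) (nat_lit 5) (nat_lit 26) (nat_lit 5) (nat_lit 25) (nat_lit 4) (nat_lit 480) (nat_lit 424) (nat_lit 296)) (XT.lf (nat_lit 0) (nat_lit 192000097419) (nat_lit 152) (nat_lit 158747267123) (nat_lit 0) (nat_lit 83566805771) (nat_lit 23) (nat_lit 5) (nat_lit 25) (nat_lit 4) (nat_lit 23) (nat_lit 4) (nat_lit 481) (nat_lit 424) (nat_lit 295)))) (XT.nd (nat_lit 156) (nat_lit 76) (nat_lit 0) (XT.nd (nat_lit 78) (nat_lit 152) (nat_lit 0) (XT.lf (nat_lit 0) (nat_lit 151071654893) (nat_lit 76) (nat_lit 209170426527) (nat_lit 76) (nat_lit 100736742969) (nat_lit 22) (nat_lit 4) (nat_lit 23) (nat_lit 5) (nat_lit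 23) (nat_lit 4) (nat_lit 482) (nat_lit 424) (nat_lit 294)) (XT.lf (nat_lit 0) (nat_lit 872312268) (nat_lit 76) (nat_lit 52447862709) (nat_lit 152) (nat_lit 436274599148) (nat_lit 20) (nat_lit 5) (nat_lit 21) (nat_lit 5) (nat_lit 22) (nat_lit 4) (nat_lit 483) (nat_lit 424) (nat_lit 293))) (XT.nd (nat_lit 78) (nat_lit 76) (nat_lit 0) (XT.lf (nat_lit 0) (nat_lit 223529028357) (nat_lit 152) (nat_lit 176262377118) (nat_lit 0) (nat_lit 120258187942) (nat_lit 20) (nat_lit 5) (nat_lit 22) (nat_lit 4) (nat_lit 20) (nat_lit 4) (nat_lit 484) (nat_lit 424) (nat_lit 292)) (XT.lf (nat_lit 0) (nat_lit 165608563421) (nat_lit 76) (nat_lit 245214962383) (nat_lit 76) (nat_lit 141943825673) (nat_lit 19) (nat_lit 4) (nat_lit 20) (nat_lit 5) (nat_lit 20) (nat_lit 4) (nat_lit 485) (nat_lit 424) (nat_lit 291)))))) (XT.nd (nat_lit 546) (nat_lit 380) (nat_lit 0) (XT.nd (nat_lit 234) (nat_lit 228) (nat_lit 0) (XT.nd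 (nat_lit 78) (nat_lit 152) (nat_lit 0) (XT.lf (nat_lit 0) (nat_lit 27318622980) (nat_lit 152) (nat_lit 47268233948) (nat_lit 76) (nat_lit 513340173207) (nat_lit 18) (nat_lit 5) (nat_lit 20) (nat_lit 5) (nat_lit 19) (nat_lit 4) (nat_lit 486) (nat_lit 424) (nat_lit 290)) (XT.nd (nat_lit 78) (nat_lit 76) (nat_lit 0) (XT.lf (nat_lit 0) (nat_lit 212169983072) (nat_lit 152) (nat_lit 299446089514) (nat_lit 0) (nat_lit 113816016326) (nat_lit 17) (nat_lit 5) (nat_lit 19) (nat_lit 4) (nat_lit 17) (nat_lit 4) (nat_lit 487) (nat_lit 424) (nat_lit 289)) (XT.lf (nat_lit 0) (nat_lit 65722654905) (nat_lit 76) (nat_lit 349206550295) (nat_lit 76) (nat_lit 250852359540) (nat_lit 16) (nat_lit 4) (nat_lit 17) (nat_lit 5) (nat_lit 17) (nat_lit 4) (nat_lit 488) (nat_lit 424) (nat_lit 288)))) (XT.nd (nat_lit 156) (nat_lit 76) (nat_lit 0) (XT.nd (nat_lit 78) (nat_lit 152) (nat_lit 0) (XT.lf (nat_lit 0) (nat_lit 470796268520)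 (nat_lit 76) (nat_lit 168328182012) (nat_lit 76) (nat_lit 69973783842) (nat_lit 16) (nat_lit 4) (nat_lit 17) (nat_lit 5) (nat_lit 17) (nat_lit 4) (nat_lit 489) (nat_lit 424) (nat_lit 287)) (XT.lf (nat_lit 0) (nat_lit 124281583998) (nat_lit 152) (nat_lit 600744270503) (nat_lit 0) (nat_lit 30610545692) (nat_lit 14) (nat_lit 5) (nat_lit 16) (nat_lit 4) (nat_lit 14) (nat_lit 4) (nat_lit 490) (nat_lit 424) (nat_lit 286))) (XT.nd (nat_lit 78) (nat_lit 76) (nat_lit 0) (XT.lf (nat_lit 0) (nat_lit 338715255605) (nat_lit 152) (nat_lit 221726489436) (nat_lit 0) (nat_lit 245044047941) (nat_lit 14) (nat_lit 5) (nat_lit 16) (nat_lit 4) (nat_lit 14) (nat_lit 4) (nat_lit 491) (nat_lit 424) (nat_lit 285)) (XT.lf (nat_lit 0) (nat_lit 193814501552) (nat_lit 76) (nat_lit 379514368827) (nat_lit 76) (nat_lit 285843004351) (nat_lit 13) (nat_lit 4) (nat_lit 14) (nat_lit 5) (nat_lit 14) (nat_lit 4) (nat_lit 492) (nat_lit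 424) (nat_lit 284))))) (XT.nd (nat_lit 234) (nat_lit 228) (nat_lit 0) (XT.nd (nat_lit 78) (nat_lit 152) (nat_lit 0) (XT.lf (nat_lit 0) (nat_lit 650515130848) (nat_lit 76) (nat_lit 180058070256) (nat_lit 76) (nat_lit 86386560583) (nat_lit 13) (nat_lit 4) (nat_lit 14) (nat_lit 5) (nat_lit 14) (nat_lit 4) (nat_lit 493) (nat_lit 424) (nat_lit 283)) (XT.nd (nat_lit 78) (nat_lit 0) (nat_lit 0) (XT.lf (nat_lit 0) (nat_lit 128142810665) (nat_lit 152) (nat_lit 812033121600) (nat_lit 0) (nat_lit 38931721032) (nat_lit 11) (nat_lit 5) (nat_lit 13) (nat_lit 4) (nat_lit 11) (nat_lit 4) (nat_lit 494) (nat_lit 424) (nat_lit 282)) (XT.lf (nat_lit 0) (nat_lit 364601272783) (nat_lit 152) (nat_lit 405775564933) (nat_lit 0) (nat_lit 275390064596) (nat_lit 11) (nat_lit 5) (nat_lit 13) (nat_lit 4) (nat_lit 11) (nat_lit 4) (nat_lit 495) (nat_lit 424) (nat_lit 281)))) (XT.nd (nat_lit 156) (nat_lit 152) (nat_lit 0)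 (XT.nd (nat_lit 78) (nat_lit 0) (nat_lit 0) (XT.lf (nat_lit 0) (nat_lit 34071903993) (nat_lit 76) (nat_lit 586435868593) (nat_lit 76) (nat_lit 497224550633) (nat_lit 10) (nat_lit 4) (nat_lit 11) (nat_lit 5) (nat_lit 11) (nat_lit 4) (nat_lit 496) (nat_lit 424) (nat_lit 280)) (XT.lf (nat_lit 0) (nat_lit 523596131390) (nat_lit 76) (nat_lit 380358438568) (nat_lit 76) (nat_lit 291147018966) (nat_lit 10) (nat_lit 4) (nat_lit 11) (nat_lit 5) (nat_lit 11) (nat_lit 4) (nat_lit 497) (nat_lit 424) (nat_lit 279))) (XT.nd (nat_lit 78) (nat_lit 152) (nat_lit 0) (XT.lf (nat_lit 0) (nat_lit 1052281228856) (nat_lit 76) (nat_lit 157795353592) (nat_lit 76) (nat_lit 68583839877) (nat_lit 10) (nat_lit 4) (nat_lit 11) (nat_lit 5) (nat_lit 11) (nat_lit 4) (nat_lit 498) (nat_lit 424) (nat_lit 278)) (XT.lf (nat_lit 0) (nat_lit 171744680354) (nat_lit 152) (nat_lit 1109971006278) (nat_lit 0) (nat_lit 86781250968) (nat_lit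 8) (nat_lit 5) (nat_lit 10) (nat_lit 4) (nat_lit 8) (nat_lit 4) (nat_lit 499) (nat_lit 424) (nat_lit 277))))))))
noncomputable def xc85 : XT := (XT.nd (nat_lit 2184) (nat_lit 3268) (nat_lit 0) (XT.nd (nat_lit 1092) (nat_lit 3116) (nat_lit 0) (XT.nd (nat_lit 546) (nat_lit 2204) (nat_lit 0) (XT.nd (nat_lit 234) (nat_lit 0) (nat_lit 152) (XT.nd (nat_lit 78) (nat_lit 0) (nat_lit 76) (XT.lf (nat_lit 0) (nat_lit 4835132028) (nat_lit 836) (nat_lit 4550483454) (nat_lit 836) (nat_lit 4550483454) (nat_lit 137) (nat_lit 3) (nat_lit 148) (nat_lit 3) (nat_lit 148) (nat_lit 5) (nat_lit 425) (nat_lit 425) (nat_lit 350)) (XT.nd (nat_lit 78) (nat_lit 0) (nat_lit 0) (XT.lf (nat_lit 0) (nat_lit 10442038943) (nat_lit 760) (nat_lit 15663887340) (nat_lit 836) (nat_lit 2861880988) (nat_lit 138) (nat_lit 5) (nat_lit 148) (nat_lit 5) (nat_lit 149) (nat_lit 5) (nat_lit 426) (nat_lit 425) (nat_lit 349)) (XT.lf (nat_lit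 76) (nat_lit 7599332163) (nat_lit 0) (nat_lit 4259464126) (nat_lit 836) (nat_lit 18263110138) (nat_lit 139) (nat_lit 5) (nat_lit 138) (nat_lit 5) (nat_lit 149) (nat_lit 5) (nat_lit 427) (nat_lit 425) (nat_lit 348)))) (XT.nd (nat_lit 156) (nat_lit 0) (nat_lit 152) (XT.nd (nat_lit 78) (nat_lit 0) (nat_lit 76) (XT.lf (nat_lit 76) (nat_lit 1667110881) (nat_lit 0) (nat_lit 12314876811) (nat_lit 836) (nat_lit 17356693958) (nat_lit 140) (nat_lit 5) (nat_lit 139) (nat_lit 5) (nat_lit 150) (nat_lit 5) (nat_lit 428) (nat_lit 425) (nat_lit 347)) (XT.lf (nat_lit 0) (nat_lit 16910708628) (nat_lit 760) (nat_lit 4300029273) (nat_lit 836) (nat_lit 11410279879) (nat_lit 140) (nat_lit 5) (nat_lit 150) (nat_lit 5) (nat_lit 151) (nat_lit 5) (nat_lit 429) (nat_lit 425) (nat_lit 346))) (XT.nd (nat_lit 78) (nat_lit 0) (nat_lit 0) (XT.lf (nat_lit 0) (nat_lit 20686917160) (nat_lit 760) (nat_lit 10382033320) (nat_lit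 836) (nat_lit 2906333230) (nat_lit 141) (nat_lit 5) (nat_lit 151) (nat_lit 5) (nat_lit 152) (nat_lit 5) (nat_lit 430) (nat_lit 425) (nat_lit 345)) (XT.lf (nat_lit 76) (nat_lit 18668003053) (nat_lit 0) (nat_lit 6812694186) (nat_lit 836) (nat_lit 9921422159) (nat_lit 142) (nat_lit 5) (nat_lit 141) (nat_lit 5) (nat_lit 152) (nat_lit 5) (nat_lit 431) (nat_lit 425) (nat_lit 344))))) (XT.nd (nat_lit 234) (nat_lit 988) (nat_lit 0) (XT.nd (nat_lit 78) (nat_lit 836) (nat_lit 0) (XT.lf (nat_lit 0) (nat_lit 13600266100) (nat_lit 760) (nat_lit 17747363497) (nat_lit 836) (nat_lit 5560991916) (nat_lit 132) (nat_lit 5) (nat_lit 142) (nat_lit 5) (nat_lit 143) (nat_lit 5) (nat_lit 432) (nat_lit 425) (nat_lit 343)) (XT.nd (nat_lit 78) (nat_lit 456) (nat_lit 0) (XT.lf (nat_lit 0) (nat_lit 8450470653) (nat_lit 380) (nat_lit 29897968545) (nat_lit 456) (nat_lit 153980377) (nat_lit 127) (nat_lit 5) (nat_lit 132)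 (nat_lit 5) (nat_lit 133) (nat_lit 5) (nat_lit 433) (nat_lit 425) (nat_lit 342)) (XT.lf (nat_lit 0) (nat_lit 3074492609) (nat_lit 380) (nat_lit 3180857051) (nat_lit 456) (nat_lit 33926348502) (nat_lit 121) (nat_lit 5) (nat_lit 126) (nat_lit 5) (nat_lit 127) (nat_lit 5) (nat_lit 434) (nat_lit 425) (nat_lit 341)))) (XT.nd (nat_lit 156) (nat_lit 608) (nat_lit 0) (XT.nd (nat_lit 78) (nat_lit 380) (nat_lit 0) (XT.lf (nat_lit 0) (nat_lit 14097297091) (nat_lit 456) (nat_lit 2465146121) (nat_lit 76) (nat_lit 25386487887) (nat_lit 121) (nat_lit 5) (nat_lit 127) (nat_lit 5) (nat_lit 122) (nat_lit 5) (nat_lit 435) (nat_lit 425) (nat_lit 340)) (XT.lf (nat_lit 0) (nat_lit 23376645897) (nat_lit 456) (nat_lit 7987348097) (nat_lit 76) (nat_lit 12453047841) (nat_lit 116) (nat_lit 5) (nat_lit 122) (nat_lit 5) (nat_lit 117) (nat_lit 5) (nat_lit 436) (nat_lit 425) (nat_lit 339))) (XT.nd (nat_lit 78) (nat_lit 304)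 (nat_lit 0) (XT.lf (nat_lit 0) (nat_lit 32186306712) (nat_lit 304) (nat_lit 2030740463) (nat_lit 380) (nat_lit 11576620364) (nat_lit 112) (nat_lit 5) (nat_lit 116) (nat_lit 5) (nat_lit 117) (nat_lit 5) (nat_lit 437) (nat_lit 425) (nat_lit 338)) (XT.lf (nat_lit 0) (nat_lit 28372987751) (nat_lit 304) (nat_lit 18592636057) (nat_lit 380) (nat_lit 910753566) (nat_lit 108) (nat_lit 5) (nat_lit 112) (nat_lit 5) (nat_lit 113) (nat_lit 5) (nat_lit 438) (nat_lit 425) (nat_lit 337)))))) (XT.nd (nat_lit 546) (nat_lit 1444) (nat_lit 0) (XT.nd (nat_lit 234) (nat_lit 760) (nat_lit 0) (XT.nd (nat_lit 78) (nat_lit 532) (nat_lit 0) (XT.lf (nat_lit 0) (nat_lit 11137453091) (nat_lit 380) (nat_lit 25637239307) (nat_lit 76) (nat_lit 13299301112) (nat_lit 103) (nat_lit 5) (nat_lit 108) (nat_lit 5) (nat_lit 104) (nat_lit 5) (nat_lit 439) (nat_lit 425) (nat_lit 336)) (XT.nd (nat_lit 78) (nat_lit 228) (nat_lit 0) (XT.lf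 (nat_lit 0) (nat_lit 20471551918) (nat_lit 304) (nat_lit 4619130997) (nat_lit 380) (nat_lit 27307336762) (nat_lit 99) (nat_lit 5) (nat_lit 103) (nat_lit 5) (nat_lit 104) (nat_lit 5) (nat_lit 440) (nat_lit 425) (nat_lit 335)) (XT.lf (nat_lit 0) (nat_lit 16337089619) (nat_lit 228) (nat_lit 24996650225) (nat_lit 304) (nat_lit 13515550595) (nat_lit 96) (nat_lit 5) (nat_lit 99) (nat_lit 5) (nat_lit 100) (nat_lit 5) (nat_lit 441) (nat_lit 425) (nat_lit 334)))) (XT.nd (nat_lit 156) (nat_lit 228) (nat_lit 0) (XT.nd (nat_lit 78) (nat_lit 228) (nat_lit 0) (XT.lf (nat_lit 0) (nat_lit 2327107982) (nat_lit 304) (nat_lit 45199390456) (nat_lit 76) (nat_lit 9919504062) (nat_lit 92) (nat_lit 5) (nat_lit 96) (nat_lit 5) (nat_lit 93) (nat_lit 5) (nat_lit 442) (nat_lit 425) (nat_lit 333)) (XT.lf (nat_lit 0) (nat_lit 7806897300) (nat_lit 228) (nat_lit 12383303872) (nat_lit 304) (nat_lit 39987845749) (nat_lit 89)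 (nat_lit 5) (nat_lit 92) (nat_lit 5) (nat_lit 93) (nat_lit 5) (nat_lit 443) (nat_lit 425) (nat_lit 332))) (XT.nd (nat_lit 78) (nat_lit 0) (nat_lit 0) (XT.lf (nat_lit 0) (nat_lit 3263802450) (nat_lit 228) (nat_lit 37464201878) (nat_lit 304) (nat_lit 22338368151) (nat_lit 86) (nat_lit 5) (nat_lit 89) (nat_lit 5) (nat_lit 90) (nat_lit 5) (nat_lit 444) (nat_lit 425) (nat_lit 331)) (XT.lf (nat_lit 0) (nat_lit 64037232302) (nat_lit 304) (nat_lit 1148000491) (nat_lit 76) (nat_lit 944111914) (nat_lit 86) (nat_lit 5) (nat_lit 90) (nat_lit 5) (nat_lit 87) (nat_lit 5) (nat_lit 445) (nat_lit 425) (nat_lit 330))))) (XT.nd (nat_lit 234) (nat_lit 836) (nat_lit 0) (XT.nd (nat_lit 78) (nat_lit 380) (nat_lit 0) (XT.lf (nat_lit 0) (nat_lit 20787922022) (nat_lit 228) (nat_lit 6095275545) (nat_lit 76) (nat_lit 42456373234) (nat_lit 83) (nat_lit 5) (nat_lit 86) (nat_lit 5) (nat_lit 84) (nat_lit 5) (nat_lit 446)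 (nat_lit 425) (nat_lit 329)) (XT.nd (nat_lit 78) (nat_lit 152) (nat_lit 0) (XT.lf (nat_lit 0) (nat_lit 46652590765) (nat_lit 304) (nat_lit 11033725795) (nat_lit 76) (nat_lit 15057207662) (nat_lit 80) (nat_lit 5) (nat_lit 84) (nat_lit 5) (nat_lit 81) (nat_lit 5) (nat_lit 447) (nat_lit 425) (nat_lit 328)) (XT.lf (nat_lit 0) (nat_lit 60208354089) (nat_lit 152) (nat_lit 15875414705) (nat_lit 228) (nat_lit 261158828) (nat_lit 78) (nat_lit 5) (nat_lit 80) (nat_lit 5) (nat_lit 81) (nat_lit 5) (nat_lit 448) (nat_lit 425) (nat_lit 327)))) (XT.nd (nat_lit 156) (nat_lit 380) (nat_lit 0) (XT.nd (nat_lit 78) (nat_lit 152) (nat_lit 0) (XT.lf (nat_lit 0) (nat_lit 28341914275) (nat_lit 304) (nat_lit 21880788575) (nat_lit 76) (nat_lit 29910597443) (nat_lit 74) (nat_lit 5) (nat_lit 78) (nat_lit 5) (nat_lit 75) (nat_lit 5) (nat_lit 449) (nat_lit 425) (nat_lit 326)) (XT.lf (nat_lit 0) (nat_lit 56483544434) (nat_lit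 152) (nat_lit 4172304804) (nat_lit 228) (nat_lit 23497091592) (nat_lit 72) (nat_lit 5) (nat_lit 74) (nat_lit 5) (nat_lit 75) (nat_lit 5) (nat_lit 450) (nat_lit 425) (nat_lit 325))) (XT.nd (nat_lit 78) (nat_lit 152) (nat_lit 0) (XT.lf (nat_lit 0) (nat_lit 8811935138) (nat_lit 228) (nat_lit 34096566873) (nat_lit 76) (nat_lit 45481280216) (nat_lit 69) (nat_lit 5) (nat_lit 72) (nat_lit 5) (nat_lit 70) (nat_lit 5) (nat_lit 451) (nat_lit 425) (nat_lit 324)) (XT.lf (nat_lit 0) (nat_lit 44384430400) (nat_lit 228) (nat_lit 40953643428) (nat_lit 76) (nat_lit 7533139027) (nat_lit 67) (nat_lit 5) (nat_lit 70) (nat_lit 5) (nat_lit 68) (nat_lit 5) (nat_lit 452) (nat_lit 425) (nat_lit 323))))))) (XT.nd (nat_lit 1092) (nat_lit 1368) (nat_lit 0) (XT.nd (nat_lit 546) (nat_lit 760) (nat_lit 0) (XT.nd (nat_lit 234) (nat_lit 608) (nat_lit 0) (XT.nd (nat_lit 78) (nat_lit 380) (nat_lit 0) (XT.lf (nat_lit 0) (nat_lit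 49184432824) (nat_lit 152) (nat_lit 35710176772) (nat_lit 228) (nat_lit 12711954427) (nat_lit 65) (nat_lit 5) (nat_lit 67) (nat_lit 5) (nat_lit 68) (nat_lit 5) (nat_lit 453) (nat_lit 425) (nat_lit 322)) (XT.nd (nat_lit 78) (nat_lit 152) (nat_lit 0) (XT.lf (nat_lit 0) (nat_lit 26850729599) (nat_lit 228) (nat_lit 56564480066) (nat_lit 76) (nat_lit 19197514545) (nat_lit 62) (nat_lit 5) (nat_lit 65) (nat_lit 5) (nat_lit 63) (nat_lit 5) (nat_lit 454) (nat_lit 425) (nat_lit 321)) (XT.lf (nat_lit 0) (nat_lit 42348049641) (nat_lit 152) (nat_lit 28908595966) (nat_lit 228) (nat_lit 36646133109) (nat_lit 60) (nat_lit 5) (nat_lit 62) (nat_lit 5) (nat_lit 63) (nat_lit 5) (nat_lit 455) (nat_lit 425) (nat_lit 320)))) (XT.nd (nat_lit 156) (nat_lit 304) (nat_lit 0) (XT.nd (nat_lit 78) (nat_lit 152) (nat_lit 0) (XT.lf (nat_lit 0) (nat_lit 7518971451) (nat_lit 152) (nat_lit 75268391773) (nat_lit 76) (nat_lit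 30719344925) (nat_lit 58) (nat_lit 5) (nat_lit 60) (nat_lit 5) (nat_lit 59) (nat_lit 5) (nat_lit 456) (nat_lit 425) (nat_lit 319)) (XT.lf (nat_lit 0) (nat_lit 33104364757) (nat_lit 152) (nat_lit 23008336682) (nat_lit 228) (nat_lit 63307246937) (nat_lit 56) (nat_lit 5) (nat_lit 58) (nat_lit 5) (nat_lit 59) (nat_lit 5) (nat_lit 457) (nat_lit 425) (nat_lit 318))) (XT.nd (nat_lit 78) (nat_lit 228) (nat_lit 0) (XT.lf (nat_lit 0) (nat_lit 27292476229) (nat_lit 76) (nat_lit 83706254672) (nat_lit 152) (nat_lit 14687277052) (nat_lit 55) (nat_lit 5) (nat_lit 56) (nat_lit 5) (nat_lit 57) (nat_lit 4) (nat_lit 458) (nat_lit 425) (nat_lit 317)) (XT.lf (nat_lit 0) (nat_lit 20336339055) (nat_lit 152) (nat_lit 18506475903) (nat_lit 228) (nat_lit 93469458207) (nat_lit 52) (nat_lit 5) (nat_lit 54) (nat_lit 5) (nat_lit 55) (nat_lit 5) (nat_lit 459) (nat_lit 425) (nat_lit 316))))) (XT.nd (nat_lit 234) (nat_lit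 456) (nat_lit 0) (XT.nd (nat_lit 78) (nat_lit 228) (nat_lit 0) (XT.lf (nat_lit 0) (nat_lit 11988129903) (nat_lit 76) (nat_lit 86896644446) (nat_lit 152) (nat_lit 40434625114) (nat_lit 51) (nat_lit 5) (nat_lit 52) (nat_lit 5) (nat_lit 53) (nat_lit 4) (nat_lit 460) (nat_lit 425) (nat_lit 315)) (XT.nd (nat_lit 78) (nat_lit 0) (nat_lit 0) (XT.lf (nat_lit 0) (nat_lit 2548443202) (nat_lit 152) (nat_lit 16087398573) (nat_lit 228) (nat_lit 128121509502) (nat_lit 48) (nat_lit 5) (nat_lit 50) (nat_lit 5) (nat_lit 51) (nat_lit 5) (nat_lit 461) (nat_lit 425) (nat_lit 314)) (XT.lf (nat_lit 0) (nat_lit 84229090694) (nat_lit 228) (nat_lit 8979305051) (nat_lit 76) (nat_lit 61388111630) (nat_lit 48) (nat_lit 5) (nat_lit 51) (nat_lit 5) (nat_lit 49) (nat_lit 4) (nat_lit 462) (nat_lit 425) (nat_lit 313)))) (XT.nd (nat_lit 156) (nat_lit 228) (nat_lit 0) (XT.nd (nat_lit 78) (nat_lit 152) (nat_lit 0) (XT.lf (nat_lit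 0) (nat_lit 141316341940) (nat_lit 76) (nat_lit 16228883628) (nat_lit 152) (nat_lit 5393799208) (nat_lit 47) (nat_lit 5) (nat_lit 48) (nat_lit 5) (nat_lit 49) (nat_lit 4) (nat_lit 463) (nat_lit 425) (nat_lit 312)) (XT.lf (nat_lit 0) (nat_lit 66072570233) (nat_lit 152) (nat_lit 37554678651) (nat_lit 76) (nat_lit 68102719023) (nat_lit 45) (nat_lit 5) (nat_lit 47) (nat_lit 5) (nat_lit 46) (nat_lit 4) (nat_lit 464) (nat_lit 425) (nat_lit 311))) (XT.nd (nat_lit 78) (nat_lit 152) (nat_lit 0) (XT.lf (nat_lit 0) (nat_lit 125650862767) (nat_lit 76) (nat_lit 20035134362) (nat_lit 152) (nat_lit 35402832289) (nat_lit 44) (nat_lit 5) (nat_lit 45) (nat_lit 5) (nat_lit 46) (nat_lit 4) (nat_lit 465) (nat_lit 425) (nat_lit 310)) (XT.lf (nat_lit 0) (nat_lit 42784548728) (nat_lit 152) (nat_lit 77060501894) (nat_lit 76) (nat_lit 71139364655) (nat_lit 42) (nat_lit 5) (nat_lit 44) (nat_lit 5) (nat_lit 43) (nat_lit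 4) (nat_lit 466) (nat_lit 425) (nat_lit 309)))))) (XT.nd (nat_lit 546) (nat_lit 684) (nat_lit 0) (XT.nd (nat_lit 234) (nat_lit 380) (nat_lit 0) (XT.nd (nat_lit 78) (nat_lit 228) (nat_lit 0) (XT.lf (nat_lit 0) (nat_lit 99418794433) (nat_lit 76) (nat_lit 29454006031) (nat_lit 152) (nat_lit 72625517750) (nat_lit 41) (nat_lit 5) (nat_lit 42) (nat_lit 5) (nat_lit 43) (nat_lit 4) (nat_lit 467) (nat_lit 425) (nat_lit 308)) (XT.nd (nat_lit 78) (nat_lit 76) (nat_lit 0) (XT.lf (nat_lit 0) (nat_lit 12466778157) (nat_lit 152) (nat_lit 131368767893) (nat_lit 76) (nat_lit 68822771305) (nat_lit 39) (nat_lit 5) (nat_lit 41) (nat_lit 5) (nat_lit 40) (nat_lit 4) (nat_lit 468) (nat_lit 425) (nat_lit 307)) (XT.lf (nat_lit 0) (nat_lit 58468657118) (nat_lit 76) (nat_lit 46602388133) (nat_lit 152) (nat_lit 119418090532) (nat_lit 38) (nat_lit 5) (nat_lit 39) (nat_lit 5) (nat_lit 40) (nat_lit 4) (nat_lit 469) (nat_lit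 425) (nat_lit 306)))) (XT.nd (nat_lit 156) (nat_lit 228) (nat_lit 0) (XT.nd (nat_lit 78) (nat_lit 76) (nat_lit 0) (XT.lf (nat_lit 0) (nat_lit 31073937221) (nat_lit 76) (nat_lit 177730930073) (nat_lit 76) (nat_lit 28275491772) (nat_lit 37) (nat_lit 4) (nat_lit 38) (nat_lit 5) (nat_lit 38) (nat_lit 4) (nat_lit 470) (nat_lit 425) (nat_lit 305)) (XT.lf (nat_lit 0) (nat_lit 71636490297) (nat_lit 152) (nat_lit 2601713056) (nat_lit 76) (nat_lit 176199734055) (nat_lit 36) (nat_lit 5) (nat_lit 38) (nat_lit 5) (nat_lit 37) (nat_lit 4) (nat_lit 471) (nat_lit 425) (nat_lit 304))) (XT.nd (nat_lit 78) (nat_lit 152) (nat_lit 0) (XT.lf (nat_lit 0) (nat_lit 182707019969) (nat_lit 152) (nat_lit 41559587642) (nat_lit 0) (nat_lit 40366526596) (nat_lit 35) (nat_lit 5) (nat_lit 37) (nat_lit 4) (nat_lit 35) (nat_lit 4) (nat_lit 472) (nat_lit 425) (nat_lit 303)) (XT.lf (nat_lit 0) (nat_lit 26334224145) (nat_lit 152)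 (nat_lit 88356215599) (nat_lit 76) (nat_lit 165037712283) (nat_lit 33) (nat_lit 5) (nat_lit 35) (nat_lit 5) (nat_lit 34) (nat_lit 4) (nat_lit 473) (nat_lit 425) (nat_lit 302))))) (XT.nd (nat_lit 312) (nat_lit 380) (nat_lit 0) (XT.nd (nat_lit 156) (nat_lit 152) (nat_lit 0) (XT.nd (nat_lit 78) (nat_lit 76) (nat_lit 0) (XT.lf (nat_lit 0) (nat_lit 143659854835) (nat_lit 152) (nat_lit 144044163141) (nat_lit 0) (nat_lit 8095862922) (nat_lit 32) (nat_lit 5) (nat_lit 34) (nat_lit 4) (nat_lit 32) (nat_lit 4) (nat_lit 474) (nat_lit 425) (nat_lit 301)) (XT.lf (nat_lit 0) (nat_lit 102469101118) (nat_lit 76) (nat_lit 172999063704) (nat_lit 76) (nat_lit 37434351851) (nat_lit 31) (nat_lit 4) (nat_lit 32) (nat_lit 5) (nat_lit 32) (nat_lit 4) (nat_lit 475) (nat_lit 425) (nat_lit 300))) (XT.nd (nat_lit 78) (nat_lit 0) (nat_lit 0) (XT.lf (nat_lit 0) (nat_lit 42568176117) (nat_lit 76) (nat_lit 44326240751) (nat_lit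 152) (nat_lit 244250786408) (nat_lit 29) (nat_lit 5) (nat_lit 30) (nat_lit 5) (nat_lit 31) (nat_lit 4) (nat_lit 476) (nat_lit 425) (nat_lit 299)) (XT.lf (nat_lit 0) (nat_lit 225077464317) (nat_lit 152) (nat_lit 29511189670) (nat_lit 0) (nat_lit 95966992225) (nat_lit 29) (nat_lit 5) (nat_lit 31) (nat_lit 4) (nat_lit 29) (nat_lit 4) (nat_lit 477) (nat_lit 425) (nat_lit 298)))) (XT.nd (nat_lit 156) (nat_lit 152) (nat_lit 0) (XT.nd (nat_lit 78) (nat_lit 76) (nat_lit 0) (XT.lf (nat_lit 0) (nat_lit 7555796364) (nat_lit 152) (nat_lit 113621633841) (nat_lit 76) (nat_lit 250096858443) (nat_lit 27) (nat_lit 5) (nat_lit 29) (nat_lit 5) (nat_lit 28) (nat_lit 4) (nat_lit 478) (nat_lit 425) (nat_lit 297)) (XT.lf (nat_lit 0) (nat_lit 150654847296) (nat_lit 152) (nat_lit 215010304737) (nat_lit 0) (nat_lit 27691494566) (nat_lit 26) (nat_lit 5) (nat_lit 28) (nat_lit 4) (nat_lit 26) (nat_lit 4) (nat_lit 479)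 (nat_lit 425) (nat_lit 296))) (XT.nd (nat_lit 78) (nat_lit 76) (nat_lit 0) (XT.lf (nat_lit 0) (nat_lit 81141494853) (nat_lit 76) (nat_lit 229380932626) (nat_lit 76) (nat_lit 106417135471) (nat_lit 25) (nat_lit 4) (nat_lit 26) (nat_lit 5) (nat_lit 26) (nat_lit 4) (nat_lit 480) (nat_lit 425) (nat_lit 295)) (XT.lf (nat_lit 0) (nat_lit 43270995283) (nat_lit 152) (nat_lit 34258668328) (nat_lit 76) (nat_lit 364657342181) (nat_lit 24) (nat_lit 5) (nat_lit 26) (nat_lit 5) (nat_lit 25) (nat_lit 4) (nat_lit 481) (nat_lit 425) (nat_lit 294))))))))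
noncomputable def xc86 : XT := (XT.nd (nat_lit 58968) (nat_lit 0) (nat_lit 2812) (XT.nd (nat_lit 1092) (nat_lit 76) (nat_lit 0) (XT.nd (nat_lit 546) (nat_lit 456) (nat_lit 0) (XT.nd (nat_lit 234) (nat_lit 228) (nat_lit 0) (XT.nd (nat_lit 78) (nat_lit 228) (nat_lit 0) (XT.lf (nat_lit 0) (nat_lit 207381721842) (nat_lit 152) (nat_lit 171403912096) (nat_lit 0) (nat_lit 90272588812) (nat_lit 23) (nat_lit 5) (nat_lit 25) (nat_lit 4) (nat_lit 23) (nat_lit 4) (nat_lit 482) (nat_lit 425) (nat_lit 293)) (XT.nd (nat_lit 78) (nat_lit 152) (nat_lit 0) (XT.lf (nat_lit 0) (nat_lit 163198649026) (nat_lit 76) (nat_lit 225883458517) (nat_lit 76) (nat_lit 108773989487) (nat_lit 22) (nat_lit 4) (nat_lit 23) (nat_lit 5) (nat_lit 23) (nat_lit 4) (nat_lit 483) (nat_lit 425) (nat_lit 292)) (XT.lf (nat_lit 0) (nat_lit 982230242) (nat_lit 76) (nat_lit 56623628480) (nat_lit 152) (nat_lit 471155493555) (nat_lit 20) (nat_lit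 5) (nat_lit 21) (nat_lit 5) (nat_lit 22) (nat_lit 4) (nat_lit 484) (nat_lit 425) (nat_lit 291)))) (XT.nd (nat_lit 156) (nat_lit 152) (nat_lit 0) (XT.nd (nat_lit 78) (nat_lit 76) (nat_lit 0) (XT.lf (nat_lit 0) (nat_lit 241430223765) (nat_lit 152) (nat_lit 190325567725) (nat_lit 0) (nat_lit 129896825474) (nat_lit 20) (nat_lit 5) (nat_lit 22) (nat_lit 4) (nat_lit 20) (nat_lit 4) (nat_lit 485) (nat_lit 425) (nat_lit 290)) (XT.lf (nat_lit 0) (nat_lit 178893405334) (nat_lit 76) (nat_lit 264814042173) (nat_lit 76) (nat_lit 153280389857) (nat_lit 19) (nat_lit 4) (nat_lit 20) (nat_lit 5) (nat_lit 20) (nat_lit 4) (nat_lit 486) (nat_lit 425) (nat_lit 289))) (XT.nd (nat_lit 78) (nat_lit 76) (nat_lit 0) (XT.lf (nat_lit 0) (nat_lit 29521090237) (nat_lit 152) (nat_lit 51015652538) (nat_lit 76) (nat_lit 554423600680) (nat_lit 18) (nat_lit 5) (nat_lit 20) (nat_lit 5) (nat_lit 19) (nat_lit 4) (nat_lit 487) (nat_lit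 425) (nat_lit 288)) (XT.lf (nat_lit 0) (nat_lit 229160064913) (nat_lit 152) (nat_lit 323368659275) (nat_lit 0) (nat_lit 122937107473) (nat_lit 17) (nat_lit 5) (nat_lit 19) (nat_lit 4) (nat_lit 17) (nat_lit 4) (nat_lit 488) (nat_lit 425) (nat_lit 287))))) (XT.nd (nat_lit 234) (nat_lit 228) (nat_lit 0) (XT.nd (nat_lit 78) (nat_lit 152) (nat_lit 0) (XT.lf (nat_lit 0) (nat_lit 71012145455) (nat_lit 76) (nat_lit 377127152963) (nat_lit 76) (nat_lit 270904003473) (nat_lit 16) (nat_lit 4) (nat_lit 17) (nat_lit 5) (nat_lit 17) (nat_lit 4) (nat_lit 489) (nat_lit 425) (nat_lit 286)) (XT.nd (nat_lit 78) (nat_lit 152) (nat_lit 0) (XT.lf (nat_lit 0) (nat_lit 508489301630) (nat_lit 76) (nat_lit 181779694577) (nat_lit 76) (nat_lit 75556367261) (nat_lit 16) (nat_lit 4) (nat_lit 17) (nat_lit 5) (nat_lit 17) (nat_lit 4) (nat_lit 490) (nat_lit 425) (nat_lit 285)) (XT.lf (nat_lit 0) (nat_lit 134238510668) (nat_lit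 152) (nat_lit 648774801166) (nat_lit 0) (nat_lit 33073280222) (nat_lit 14) (nat_lit 5) (nat_lit 16) (nat_lit 4) (nat_lit 14) (nat_lit 4) (nat_lit 491) (nat_lit 425) (nat_lit 284)))) (XT.nd (nat_lit 156) (nat_lit 152) (nat_lit 0) (XT.nd (nat_lit 78) (nat_lit 76) (nat_lit 0) (XT.lf (nat_lit 0) (nat_lit 365825809341) (nat_lit 152) (nat_lit 239437746574) (nat_lit 0) (nat_lit 264660433698) (nat_lit 14) (nat_lit 5) (nat_lit 16) (nat_lit 4) (nat_lit 14) (nat_lit 4) (nat_lit 492) (nat_lit 425) (nat_lit 283)) (XT.lf (nat_lit 0) (nat_lit 209345356302) (nat_lit 76) (nat_lit 409862570509) (nat_lit 76) (nat_lit 308697060425) (nat_lit 13) (nat_lit 4) (nat_lit 14) (nat_lit 5) (nat_lit 14) (nat_lit 4) (nat_lit 493) (nat_lit 425) (nat_lit 282))) (XT.nd (nat_lit 78) (nat_lit 152) (nat_lit 0) (XT.lf (nat_lit 0) (nat_lit 702580132635) (nat_lit 76) (nat_lit 194450727151) (nat_lit 76) (nat_lit 93285092584) (nat_lit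 13) (nat_lit 4) (nat_lit 14) (nat_lit 5) (nat_lit 14) (nat_lit 4) (nat_lit 494) (nat_lit 425) (nat_lit 281)) (XT.lf (nat_lit 0) (nat_lit 138405886512) (nat_lit 152) (nat_lit 876972243050) (nat_lit 0) (nat_lit 42057553342) (nat_lit 11) (nat_lit 5) (nat_lit 13) (nat_lit 4) (nat_lit 11) (nat_lit 4) (nat_lit 495) (nat_lit 425) (nat_lit 280)))))) (XT.nd (nat_lit 57330) (nat_lit 0) (nat_lit 8436) (XT.nd (nat_lit 57018) (nat_lit 0) (nat_lit 9652) (XT.nd (nat_lit 78) (nat_lit 76) (nat_lit 0) (XT.lf (nat_lit 0) (nat_lit 393780162563) (nat_lit 152) (nat_lit 438215824685) (nat_lit 0) (nat_lit 297431727752) (nat_lit 11) (nat_lit 5) (nat_lit 13) (nat_lit 4) (nat_lit 11) (nat_lit 4) (nat_lit 496) (nat_lit 425) (nat_lit 279)) (XT.nd (nat_lit 78) (nat_lit 0) (nat_lit 0) (XT.lf (nat_lit 0) (nat_lit 36818494987) (nat_lit 76) (nat_lit 633340213606) (nat_lit 76) (nat_lit 536991684682) (nat_lit 10) (nat_lit 4)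 (nat_lit 11) (nat_lit 5) (nat_lit 11) (nat_lit 4) (nat_lit 497) (nat_lit 425) (nat_lit 278)) (XT.lf (nat_lit 0) (nat_lit 565503116970) (nat_lit 76) (nat_lit 410777368770) (nat_lit 76) (nat_lit 314428752704) (nat_lit 10) (nat_lit 4) (nat_lit 11) (nat_lit 5) (nat_lit 11) (nat_lit 4) (nat_lit 498) (nat_lit 425) (nat_lit 277)))) (XT.nd (nat_lit 156) (nat_lit 0) (nat_lit 76) (XT.nd (nat_lit 78) (nat_lit 0) (nat_lit 76) (XT.lf (nat_lit 0) (nat_lit 5349144755) (nat_lit 836) (nat_lit 4847726207) (nat_lit 836) (nat_lit 4847726207) (nat_lit 137) (nat_lit 3) (nat_lit 148) (nat_lit 3) (nat_lit 148) (nat_lit 5) (nat_lit 426) (nat_lit 426) (nat_lit 348)) (XT.lf (nat_lit 0) (nat_lit 11513242927) (nat_lit 760) (nat_lit 16775565927) (nat_lit 836) (nat_lit 2984576189) (nat_lit 138) (nat_lit 5) (nat_lit 148) (nat_lit 5) (nat_lit 149) (nat_lit 5) (nat_lit 427) (nat_lit 426) (nat_lit 347))) (XT.nd (nat_lit 78)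 (nat_lit 0) (nat_lit 76) (XT.lf (nat_lit 76) (nat_lit 8342564657) (nat_lit 0) (nat_lit 4685418704) (nat_lit 836) (nat_lit 19492600705) (nat_lit 139) (nat_lit 5) (nat_lit 138) (nat_lit 5) (nat_lit 149) (nat_lit 5) (nat_lit 428) (nat_lit 426) (nat_lit 346)) (XT.lf (nat_lit 76) (nat_lit 1941752250) (nat_lit 0) (nat_lit 13363919743) (nat_lit 836) (nat_lit 18529800972) (nat_lit 140) (nat_lit 5) (nat_lit 139) (nat_lit 5) (nat_lit 150) (nat_lit 5) (nat_lit 429) (nat_lit 426) (nat_lit 345))))) (XT.nd (nat_lit 234) (nat_lit 1444) (nat_lit 0) (XT.nd (nat_lit 78) (nat_lit 0) (nat_lit 76) (XT.lf (nat_lit 0) (nat_lit 18452573064) (nat_lit 760) (nat_lit 4502760656) (nat_lit 836) (nat_lit 12265871621) (nat_lit 140) (nat_lit 5) (nat_lit 150) (nat_lit 5) (nat_lit 151) (nat_lit 5) (nat_lit 430) (nat_lit 426) (nat_lit 344)) (XT.nd (nat_lit 78) (nat_lit 0) (nat_lit 0) (XT.lf (nat_lit 0) (nat_lit 22518331976) (nat_lit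 760) (nat_lit 11067912878) (nat_lit 836) (nat_lit 3098198227) (nat_lit 141) (nat_lit 5) (nat_lit 151) (nat_lit 5) (nat_lit 152) (nat_lit 5) (nat_lit 431) (nat_lit 426) (nat_lit 343)) (XT.lf (nat_lit 76) (nat_lit 20299838654) (nat_lit 0) (nat_lit 7384865329) (nat_lit 836) (nat_lit 10541270148) (nat_lit 142) (nat_lit 5) (nat_lit 141) (nat_lit 5) (nat_lit 152) (nat_lit 5) (nat_lit 432) (nat_lit 426) (nat_lit 342)))) (XT.nd (nat_lit 156) (nat_lit 456) (nat_lit 0) (XT.nd (nat_lit 78) (nat_lit 380) (nat_lit 0) (XT.lf (nat_lit 0) (nat_lit 14829027268) (nat_lit 760) (nat_lit 19181505400) (nat_lit 836) (nat_lit 5842989419) (nat_lit 132) (nat_lit 5) (nat_lit 142) (nat_lit 5) (nat_lit 143) (nat_lit 5) (nat_lit 433) (nat_lit 426) (nat_lit 341)) (XT.lf (nat_lit 0) (nat_lit 9268796790) (nat_lit 380) (nat_lit 32293135932) (nat_lit 456) (nat_lit 13367545) (nat_lit 127) (nat_lit 5) (nat_lit 132) (nat_lit 5)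 (nat_lit 133) (nat_lit 5) (nat_lit 434) (nat_lit 426) (nat_lit 340))) (XT.nd (nat_lit 78) (nat_lit 0) (nat_lit 0) (XT.lf (nat_lit 0) (nat_lit 3461267965) (nat_lit 380) (nat_lit 3433779040) (nat_lit 456) (nat_lit 36494195363) (nat_lit 121) (nat_lit 5) (nat_lit 126) (nat_lit 5) (nat_lit 127) (nat_lit 5) (nat_lit 435) (nat_lit 426) (nat_lit 339)) (XT.lf (nat_lit 0) (nat_lit 15354056338) (nat_lit 456) (nat_lit 2525521284) (nat_lit 76) (nat_lit 27418793098) (nat_lit 121) (nat_lit 5) (nat_lit 127) (nat_lit 5) (nat_lit 122) (nat_lit 5) (nat_lit 436) (nat_lit 426) (nat_lit 338))))))) (XT.nd (nat_lit 1092) (nat_lit 2052) (nat_lit 0) (XT.nd (nat_lit 546) (nat_lit 1368) (nat_lit 0) (XT.nd (nat_lit 234) (nat_lit 1216) (nat_lit 0) (XT.nd (nat_lit 78) (nat_lit 608) (nat_lit 0) (XT.lf (nat_lit 0) (nat_lit 25368390008) (nat_lit 456) (nat_lit 8489495887) (nat_lit 76) (nat_lit 13458414506) (nat_lit 116) (nat_lit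 5) (nat_lit 122) (nat_lit 5) (nat_lit 117) (nat_lit 5) (nat_lit 437) (nat_lit 426) (nat_lit 337)) (XT.nd (nat_lit 78) (nat_lit 304) (nat_lit 0) (XT.lf (nat_lit 0) (nat_lit 34892104405) (nat_lit 304) (nat_lit 2176954263) (nat_lit 380) (nat_lit 12382347519) (nat_lit 112) (nat_lit 5) (nat_lit 116) (nat_lit 5) (nat_lit 117) (nat_lit 5) (nat_lit 438) (nat_lit 426) (nat_lit 336)) (XT.lf (nat_lit 0) (nat_lit 30773293517) (nat_lit 304) (nat_lit 20058007292) (nat_lit 380) (nat_lit 869744688) (nat_lit 108) (nat_lit 5) (nat_lit 112) (nat_lit 5) (nat_lit 113) (nat_lit 5) (nat_lit 439) (nat_lit 426) (nat_lit 335)))) (XT.nd (nat_lit 156) (nat_lit 532) (nat_lit 0) (XT.nd (nat_lit 78) (nat_lit 304) (nat_lit 0) (XT.lf (nat_lit 0) (nat_lit 12132890776) (nat_lit 380) (nat_lit 27555073646) (nat_lit 76) (nat_lit 14386708231) (nat_lit 103) (nat_lit 5) (nat_lit 108) (nat_lit 5) (nat_lit 104) (nat_lit 5) (nat_lit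 440) (nat_lit 426) (nat_lit 334)) (XT.lf (nat_lit 0) (nat_lit 22236634566) (nat_lit 304) (nat_lit 4959996441) (nat_lit 380) (nat_lit 29388278660) (nat_lit 99) (nat_lit 5) (nat_lit 103) (nat_lit 5) (nat_lit 104) (nat_lit 5) (nat_lit 441) (nat_lit 426) (nat_lit 333))) (XT.nd (nat_lit 78) (nat_lit 304) (nat_lit 0) (XT.lf (nat_lit 0) (nat_lit 17770188741) (nat_lit 228) (nat_lit 26964016786) (nat_lit 304) (nat_lit 14498324163) (nat_lit 96) (nat_lit 5) (nat_lit 99) (nat_lit 5) (nat_lit 100) (nat_lit 5) (nat_lit 442) (nat_lit 426) (nat_lit 332)) (XT.lf (nat_lit 0) (nat_lit 2603988635) (nat_lit 304) (nat_lit 48687661924) (nat_lit 76) (nat_lit 10745482732) (nat_lit 92) (nat_lit 5) (nat_lit 96) (nat_lit 5) (nat_lit 93) (nat_lit 5) (nat_lit 443) (nat_lit 426) (nat_lit 331))))) (XT.nd (nat_lit 234) (nat_lit 912) (nat_lit 0) (XT.nd (nat_lit 78) (nat_lit 228) (nat_lit 0) (XT.lf (nat_lit 0) (nat_lit 8553580045)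 (nat_lit 228) (nat_lit 13337736633) (nat_lit 304) (nat_lit 43096666240) (nat_lit 89) (nat_lit 5) (nat_lit 92) (nat_lit 5) (nat_lit 93) (nat_lit 5) (nat_lit 444) (nat_lit 426) (nat_lit 330)) (XT.nd (nat_lit 78) (nat_lit 0) (nat_lit 0) (XT.lf (nat_lit 0) (nat_lit 3645309398) (nat_lit 228) (nat_lit 40422875368) (nat_lit 304) (nat_lit 24039388668) (nat_lit 86) (nat_lit 5) (nat_lit 89) (nat_lit 5) (nat_lit 90) (nat_lit 5) (nat_lit 445) (nat_lit 426) (nat_lit 329)) (XT.lf (nat_lit 0) (nat_lit 69236637369) (nat_lit 304) (nat_lit 1125108043) (nat_lit 76) (nat_lit 1054114586) (nat_lit 86) (nat_lit 5) (nat_lit 90) (nat_lit 5) (nat_lit 87) (nat_lit 5) (nat_lit 446) (nat_lit 426) (nat_lit 328)))) (XT.nd (nat_lit 156) (nat_lit 456) (nat_lit 0) (XT.nd (nat_lit 78) (nat_lit 228) (nat_lit 0) (XT.lf (nat_lit 0) (nat_lit 22524632495) (nat_lit 228) (nat_lit 6470705485) (nat_lit 76) (nat_lit 45887704984) (nat_lit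 83) (nat_lit 5) (nat_lit 86) (nat_lit 5) (nat_lit 84) (nat_lit 5) (nat_lit 447) (nat_lit 426) (nat_lit 327)) (XT.lf (nat_lit 0) (nat_lit 50455276969) (nat_lit 304) (nat_lit 11806188059) (nat_lit 76) (nat_lit 16298008234) (nat_lit 80) (nat_lit 5) (nat_lit 84) (nat_lit 5) (nat_lit 81) (nat_lit 5) (nat_lit 448) (nat_lit 426) (nat_lit 326))) (XT.nd (nat_lit 78) (nat_lit 304) (nat_lit 0) (XT.lf (nat_lit 0) (nat_lit 65130467502) (nat_lit 152) (nat_lit 17106907370) (nat_lit 228) (nat_lit 211793444) (nat_lit 78) (nat_lit 5) (nat_lit 80) (nat_lit 5) (nat_lit 81) (nat_lit 5) (nat_lit 449) (nat_lit 426) (nat_lit 325)) (XT.lf (nat_lit 0) (nat_lit 30674447696) (nat_lit 304) (nat_lit 23525594426) (nat_lit 76) (nat_lit 32340655872) (nat_lit 74) (nat_lit 5) (nat_lit 78) (nat_lit 5) (nat_lit 75) (nat_lit 5) (nat_lit 450) (nat_lit 426) (nat_lit 324)))))) (XT.nd (nat_lit 546) (nat_lit 836) (nat_lit 0) (XT.nd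 (nat_lit 234) (nat_lit 684) (nat_lit 0) (XT.nd (nat_lit 78) (nat_lit 380) (nat_lit 0) (XT.lf (nat_lit 0) (nat_lit 61103293489) (nat_lit 152) (nat_lit 4466953714) (nat_lit 228) (nat_lit 25311825625) (nat_lit 72) (nat_lit 5) (nat_lit 74) (nat_lit 5) (nat_lit 75) (nat_lit 5) (nat_lit 451) (nat_lit 426) (nat_lit 323)) (XT.nd (nat_lit 78) (nat_lit 152) (nat_lit 0) (XT.lf (nat_lit 0) (nat_lit 9577325618) (nat_lit 228) (nat_lit 36723230720) (nat_lit 76) (nat_lit 49157380718) (nat_lit 69) (nat_lit 5) (nat_lit 72) (nat_lit 5) (nat_lit 70) (nat_lit 5) (nat_lit 452) (nat_lit 426) (nat_lit 322)) (XT.lf (nat_lit 0) (nat_lit 47993265108) (nat_lit 228) (nat_lit 44130998513) (nat_lit 76) (nat_lit 8173736724) (nat_lit 67) (nat_lit 5) (nat_lit 70) (nat_lit 5) (nat_lit 68) (nat_lit 5) (nat_lit 453) (nat_lit 426) (nat_lit 321)))) (XT.nd (nat_lit 156) (nat_lit 304) (nat_lit 0) (XT.nd (nat_lit 78) (nat_lit 228)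 (nat_lit 0) (XT.lf (nat_lit 0) (nat_lit 53213824184) (nat_lit 152) (nat_lit 38527609757) (nat_lit 228) (nat_lit 13670887309) (nat_lit 65) (nat_lit 5) (nat_lit 67) (nat_lit 5) (nat_lit 68) (nat_lit 5) (nat_lit 454) (nat_lit 426) (nat_lit 320)) (XT.lf (nat_lit 0) (nat_lit 29052841676) (nat_lit 228) (nat_lit 60995263288) (nat_lit 76) (nat_lit 20770929986) (nat_lit 62) (nat_lit 5) (nat_lit 65) (nat_lit 5) (nat_lit 63) (nat_lit 5) (nat_lit 455) (nat_lit 426) (nat_lit 319))) (XT.nd (nat_lit 78) (nat_lit 152) (nat_lit 0) (XT.lf (nat_lit 0) (nat_lit 45826167365) (nat_lit 152) (nat_lit 31182469047) (nat_lit 228) (nat_lit 39523787466) (nat_lit 60) (nat_lit 5) (nat_lit 62) (nat_lit 5) (nat_lit 63) (nat_lit 5) (nat_lit 456) (nat_lit 426) (nat_lit 318)) (XT.lf (nat_lit 0) (nat_lit 8170891893) (nat_lit 152) (nat_lit 81199956855) (nat_lit 76) (nat_lit 33213872233) (nat_lit 58) (nat_lit 5) (nat_lit 60) (nat_lit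 5) (nat_lit 59) (nat_lit 5) (nat_lit 457) (nat_lit 426) (nat_lit 317))))) (XT.nd (nat_lit 234) (nat_lit 380) (nat_lit 0) (XT.nd (nat_lit 78) (nat_lit 304) (nat_lit 0) (XT.lf (nat_lit 0) (nat_lit 35838712980) (nat_lit 152) (nat_lit 24811016450) (nat_lit 228) (nat_lit 68321410811) (nat_lit 56) (nat_lit 5) (nat_lit 58) (nat_lit 5) (nat_lit 59) (nat_lit 5) (nat_lit 458) (nat_lit 426) (nat_lit 316)) (XT.nd (nat_lit 78) (nat_lit 228) (nat_lit 0) (XT.lf (nat_lit 0) (nat_lit 29559868175) (nat_lit 76) (nat_lit 90365077173) (nat_lit 152) (nat_lit 15813624285) (nat_lit 55) (nat_lit 5) (nat_lit 56) (nat_lit 5) (nat_lit 57) (nat_lit 4) (nat_lit 459) (nat_lit 426) (nat_lit 315)) (XT.lf (nat_lit 0) (nat_lit 22045081606) (nat_lit 152) (nat_lit 19950027257) (nat_lit 228) (nat_lit 100899899935) (nat_lit 52) (nat_lit 5) (nat_lit 54) (nat_lit 5) (nat_lit 55) (nat_lit 5) (nat_lit 460) (nat_lit 426) (nat_lit 314))))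 (XT.nd (nat_lit 156) (nat_lit 76) (nat_lit 0) (XT.nd (nat_lit 78) (nat_lit 228) (nat_lit 0) (XT.lf (nat_lit 0) (nat_lit 13027055785) (nat_lit 76) (nat_lit 93811827095) (nat_lit 152) (nat_lit 43623899634) (nat_lit 51) (nat_lit 5) (nat_lit 52) (nat_lit 5) (nat_lit 53) (nat_lit 4) (nat_lit 461) (nat_lit 426) (nat_lit 313)) (XT.lf (nat_lit 0) (nat_lit 2830118063) (nat_lit 152) (nat_lit 17338582896) (nat_lit 228) (nat_lit 138327136553) (nat_lit 48) (nat_lit 5) (nat_lit 50) (nat_lit 5) (nat_lit 51) (nat_lit 5) (nat_lit 462) (nat_lit 426) (nat_lit 312))) (XT.nd (nat_lit 78) (nat_lit 76) (nat_lit 0) (XT.lf (nat_lit 0) (nat_lit 91006816930) (nat_lit 228) (nat_lit 9624184442) (nat_lit 76) (nat_lit 66331254538) (nat_lit 48) (nat_lit 5) (nat_lit 51) (nat_lit 5) (nat_lit 49) (nat_lit 4) (nat_lit 463) (nat_lit 426) (nat_lit 311)) (XT.lf (nat_lit 0) (nat_lit 152691921609) (nat_lit 76) (nat_lit 17494499690)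 (nat_lit 152) (nat_lit 5785844626) (nat_lit 47) (nat_lit 5) (nat_lit 48) (nat_lit 5) (nat_lit 49) (nat_lit 4) (nat_lit 464) (nat_lit 426) (nat_lit 310))))))))
noncomputable def xc87 : XT := (XT.nd (nat_lit 2184) (nat_lit 304) (nat_lit 0) (XT.nd (nat_lit 1092) (nat_lit 1140) (nat_lit 0) (XT.nd (nat_lit 546) (nat_lit 608) (nat_lit 0) (XT.nd (nat_lit 234) (nat_lit 380) (nat_lit 0) (XT.nd (nat_lit 78) (nat_lit 228) (nat_lit 0) (XT.lf (nat_lit 0) (nat_lit 71395310013) (nat_lit 152) (nat_lit 40489300825) (nat_lit 76) (nat_lit 73581906074) (nat_lit 45) (nat_lit 5) (nat_lit 47) (nat_lit 5) (nat_lit 46) (nat_lit 4) (nat_lit 465) (nat_lit 426) (nat_lit 309)) (XT.nd (nat_lit 78) (nat_lit 152) (nat_lit 0) (XT.lf (nat_lit 0) (nat_lit 135769652564) (nat_lit 76) (nat_lit 21606464331) (nat_lit 152) (nat_lit 38198055286) (nat_lit 44) (nat_lit 5) (nat_lit 45) (nat_lit 5) (nat_lit 46) (nat_lit 4) (nat_lit 466)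 (nat_lit 426) (nat_lit 308)) (XT.lf (nat_lit 0) (nat_lit 46241973217) (nat_lit 152) (nat_lit 83159156629) (nat_lit 76) (nat_lit 76860304219) (nat_lit 42) (nat_lit 5) (nat_lit 44) (nat_lit 5) (nat_lit 43) (nat_lit 4) (nat_lit 467) (nat_lit 426) (nat_lit 307)))) (XT.nd (nat_lit 156) (nat_lit 152) (nat_lit 0) (XT.nd (nat_lit 78) (nat_lit 152) (nat_lit 0) (XT.lf (nat_lit 0) (nat_lit 107435607067) (nat_lit 76) (nat_lit 31780099007) (nat_lit 152) (nat_lit 78400822220) (nat_lit 41) (nat_lit 5) (nat_lit 42) (nat_lit 5) (nat_lit 43) (nat_lit 4) (nat_lit 468) (nat_lit 426) (nat_lit 306)) (XT.lf (nat_lit 0) (nat_lit 13496677889) (nat_lit 152) (nat_lit 141815501927) (nat_lit 76) (nat_lit 74357173907) (nat_lit 39) (nat_lit 5) (nat_lit 41) (nat_lit 5) (nat_lit 40) (nat_lit 4) (nat_lit 469) (nat_lit 426) (nat_lit 305))) (XT.nd (nat_lit 78) (nat_lit 76) (nat_lit 0) (XT.lf (nat_lit 0) (nat_lit 63206189291)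 (nat_lit 76) (nat_lit 50301622782) (nat_lit 152) (nat_lit 128938899352) (nat_lit 38) (nat_lit 5) (nat_lit 39) (nat_lit 5) (nat_lit 40) (nat_lit 4) (nat_lit 470) (nat_lit 426) (nat_lit 304)) (XT.lf (nat_lit 0) (nat_lit 33618337744) (nat_lit 76) (nat_lit 191921031401) (nat_lit 76) (nat_lit 30505912040) (nat_lit 37) (nat_lit 4) (nat_lit 38) (nat_lit 5) (nat_lit 38) (nat_lit 4) (nat_lit 471) (nat_lit 426) (nat_lit 303))))) (XT.nd (nat_lit 234) (nat_lit 304) (nat_lit 0) (XT.nd (nat_lit 78) (nat_lit 228) (nat_lit 0) (XT.lf (nat_lit 0) (nat_lit 77395749397) (nat_lit 152) (nat_lit 2754758907) (nat_lit 76) (nat_lit 190321046237) (nat_lit 36) (nat_lit 5) (nat_lit 38) (nat_lit 5) (nat_lit 37) (nat_lit 4) (nat_lit 472) (nat_lit 426) (nat_lit 302)) (XT.nd (nat_lit 78) (nat_lit 152) (nat_lit 0) (XT.lf (nat_lit 0) (nat_lit 197351045153) (nat_lit 152) (nat_lit 44830703897) (nat_lit 0) (nat_lit 43620661912)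 (nat_lit 35) (nat_lit 5) (nat_lit 37) (nat_lit 4) (nat_lit 35) (nat_lit 4) (nat_lit 473) (nat_lit 426) (nat_lit 301)) (XT.lf (nat_lit 0) (nat_lit 28467623286) (nat_lit 152) (nat_lit 95372511440) (nat_lit 76) (nat_lit 178264935695) (nat_lit 33) (nat_lit 5) (nat_lit 35) (nat_lit 5) (nat_lit 34) (nat_lit 4) (nat_lit 474) (nat_lit 426) (nat_lit 300)))) (XT.nd (nat_lit 156) (nat_lit 152) (nat_lit 0) (XT.nd (nat_lit 78) (nat_lit 76) (nat_lit 0) (XT.lf (nat_lit 0) (nat_lit 155178491115) (nat_lit 152) (nat_lit 155516871442) (nat_lit 0) (nat_lit 8767215764) (nat_lit 32) (nat_lit 5) (nat_lit 34) (nat_lit 4) (nat_lit 32) (nat_lit 4) (nat_lit 475) (nat_lit 426) (nat_lit 299)) (XT.lf (nat_lit 0) (nat_lit 110715245177) (nat_lit 76) (nat_lit 186815065098) (nat_lit 76) (nat_lit 40403172514) (nat_lit 31) (nat_lit 4) (nat_lit 32) (nat_lit 5) (nat_lit 32) (nat_lit 4) (nat_lit 476) (nat_lit 426) (nat_lit 298)))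 (XT.nd (nat_lit 78) (nat_lit 0) (nat_lit 0) (XT.lf (nat_lit 0) (nat_lit 46020927714) (nat_lit 76) (nat_lit 47849019509) (nat_lit 152) (nat_lit 263765672929) (nat_lit 29) (nat_lit 5) (nat_lit 30) (nat_lit 5) (nat_lit 31) (nat_lit 4) (nat_lit 477) (nat_lit 426) (nat_lit 297)) (XT.lf (nat_lit 0) (nat_lit 243106199521) (nat_lit 152) (nat_lit 31827517441) (nat_lit 0) (nat_lit 103665253548) (nat_lit 29) (nat_lit 5) (nat_lit 31) (nat_lit 4) (nat_lit 29) (nat_lit 4) (nat_lit 478) (nat_lit 426) (nat_lit 296)))))) (XT.nd (nat_lit 546) (nat_lit 456) (nat_lit 0) (XT.nd (nat_lit 234) (nat_lit 380) (nat_lit 0) (XT.nd (nat_lit 78) (nat_lit 152) (nat_lit 0) (XT.lf (nat_lit 0) (nat_lit 8182147692) (nat_lit 152) (nat_lit 122668009850) (nat_lit 76) (nat_lit 270124979379) (nat_lit 27) (nat_lit 5) (nat_lit 29) (nat_lit 5) (nat_lit 28) (nat_lit 4) (nat_lit 479) (nat_lit 426) (nat_lit 295)) (XT.nd (nat_lit 78) (nat_lit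 76) (nat_lit 0) (XT.lf (nat_lit 0) (nat_lit 162728469814) (nat_lit 152) (nat_lit 232168933415) (nat_lit 0) (nat_lit 29926712957) (nat_lit 26) (nat_lit 5) (nat_lit 28) (nat_lit 4) (nat_lit 26) (nat_lit 4) (nat_lit 480) (nat_lit 426) (nat_lit 294)) (XT.lf (nat_lit 0) (nat_lit 87673176368) (nat_lit 76) (nat_lit 247711337263) (nat_lit 76) (nat_lit 114909199383) (nat_lit 25) (nat_lit 4) (nat_lit 26) (nat_lit 5) (nat_lit 26) (nat_lit 4) (nat_lit 481) (nat_lit 426) (nat_lit 293)))) (XT.nd (nat_lit 156) (nat_lit 228) (nat_lit 0) (XT.nd (nat_lit 78) (nat_lit 76) (nat_lit 0) (XT.lf (nat_lit 0) (nat_lit 46751772101) (nat_lit 152) (nat_lit 36961357869) (nat_lit 76) (nat_lit 393847881094) (nat_lit 24) (nat_lit 5) (nat_lit 26) (nat_lit 5) (nat_lit 25) (nat_lit 4) (nat_lit 482) (nat_lit 426) (nat_lit 292)) (XT.lf (nat_lit 0) (nat_lit 223990792366) (nat_lit 152) (nat_lit 185079242556) (nat_lit 0) (nat_lit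 97511918704) (nat_lit 23) (nat_lit 5) (nat_lit 25) (nat_lit 4) (nat_lit 23) (nat_lit 4) (nat_lit 483) (nat_lit 426) (nat_lit 291))) (XT.nd (nat_lit 78) (nat_lit 152) (nat_lit 0) (XT.lf (nat_lit 0) (nat_lit 176289916241) (nat_lit 76) (nat_lit 243936472191) (nat_lit 76) (nat_lit 117457310464) (nat_lit 22) (nat_lit 4) (nat_lit 23) (nat_lit 5) (nat_lit 23) (nat_lit 4) (nat_lit 484) (nat_lit 426) (nat_lit 290)) (XT.lf (nat_lit 0) (nat_lit 1095216234) (nat_lit 76) (nat_lit 61136317759) (nat_lit 152) (nat_lit 508829865888) (nat_lit 20) (nat_lit 5) (nat_lit 21) (nat_lit 5) (nat_lit 22) (nat_lit 4) (nat_lit 485) (nat_lit 426) (nat_lit 289))))) (XT.nd (nat_lit 234) (nat_lit 304) (nat_lit 0) (XT.nd (nat_lit 78) (nat_lit 152) (nat_lit 0) (XT.lf (nat_lit 0) (nat_lit 260760822341) (nat_lit 152) (nat_lit 205519206110) (nat_lit 0) (nat_lit 140303988605) (nat_lit 20) (nat_lit 5) (nat_lit 22) (nat_lit 4) (nat_lit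 20) (nat_lit 4) (nat_lit 486) (nat_lit 426) (nat_lit 288)) (XT.nd (nat_lit 78) (nat_lit 76) (nat_lit 0) (XT.lf (nat_lit 0) (nat_lit 193235876423) (nat_lit 76) (nat_lit 285983632967) (nat_lit 76) (nat_lit 165526581445) (nat_lit 19) (nat_lit 4) (nat_lit 20) (nat_lit 5) (nat_lit 20) (nat_lit 4) (nat_lit 487) (nat_lit 426) (nat_lit 287)) (XT.lf (nat_lit 0) (nat_lit 31897332856) (nat_lit 152) (nat_lit 55067720820) (nat_lit 76) (nat_lit 598791389297) (nat_lit 18) (nat_lit 5) (nat_lit 20) (nat_lit 5) (nat_lit 19) (nat_lit 4) (nat_lit 488) (nat_lit 426) (nat_lit 286)))) (XT.nd (nat_lit 156) (nat_lit 152) (nat_lit 0) (XT.nd (nat_lit 78) (nat_lit 76) (nat_lit 0) (XT.lf (nat_lit 0) (nat_lit 247507001788) (nat_lit 152) (nat_lit 349209759185) (nat_lit 0) (nat_lit 132785630462) (nat_lit 17) (nat_lit 5) (nat_lit 19) (nat_lit 4) (nat_lit 17) (nat_lit 4) (nat_lit 489) (nat_lit 426) (nat_lit 285)) (XT.lf (nat_lit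 0) (nat_lit 76720276005) (nat_lit 76) (nat_lit 407283675204) (nat_lit 76) (nat_lit 292562139225) (nat_lit 16) (nat_lit 4) (nat_lit 17) (nat_lit 5) (nat_lit 17) (nat_lit 4) (nat_lit 490) (nat_lit 426) (nat_lit 284))) (XT.nd (nat_lit 78) (nat_lit 152) (nat_lit 0) (XT.lf (nat_lit 0) (nat_lit 549193592903) (nat_lit 76) (nat_lit 196309431258) (nat_lit 76) (nat_lit 81587742822) (nat_lit 16) (nat_lit 4) (nat_lit 17) (nat_lit 5) (nat_lit 17) (nat_lit 4) (nat_lit 491) (nat_lit 426) (nat_lit 283)) (XT.lf (nat_lit 0) (nat_lit 144989937158) (nat_lit 152) (nat_lit 700651913023) (nat_lit 0) (nat_lit 35731051826) (nat_lit 14) (nat_lit 5) (nat_lit 16) (nat_lit 4) (nat_lit 14) (nat_lit 4) (nat_lit 492) (nat_lit 426) (nat_lit 282))))))) (XT.nd (nat_lit 57954) (nat_lit 0) (nat_lit 5320) (XT.nd (nat_lit 57408) (nat_lit 0) (nat_lit 9272) (XT.nd (nat_lit 234) (nat_lit 228) (nat_lit 0) (XT.nd (nat_lit 78) (nat_lit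 76) (nat_lit 0) (XT.lf (nat_lit 0) (nat_lit 395103305233) (nat_lit 152) (nat_lit 258569736451) (nat_lit 0) (nat_lit 285844295419) (nat_lit 14) (nat_lit 5) (nat_lit 16) (nat_lit 4) (nat_lit 14) (nat_lit 4) (nat_lit 493) (nat_lit 426) (nat_lit 281)) (XT.nd (nat_lit 78) (nat_lit 0) (nat_lit 0) (XT.lf (nat_lit 0) (nat_lit 226115013806) (nat_lit 76) (nat_lit 442640475478) (nat_lit 76) (nat_lit 333381350402) (nat_lit 13) (nat_lit 4) (nat_lit 14) (nat_lit 5) (nat_lit 14) (nat_lit 4) (nat_lit 494) (nat_lit 426) (nat_lit 280)) (XT.lf (nat_lit 0) (nat_lit 758806940468) (nat_lit 76) (nat_lit 209996506923) (nat_lit 76) (nat_lit 100737275123) (nat_lit 13) (nat_lit 4) (nat_lit 14) (nat_lit 5) (nat_lit 14) (nat_lit 4) (nat_lit 495) (nat_lit 426) (nat_lit 279)))) (XT.nd (nat_lit 156) (nat_lit 76) (nat_lit 0) (XT.nd (nat_lit 78) (nat_lit 0) (nat_lit 0) (XT.lf (nat_lit 0) (nat_lit 149488346282) (nat_lit 152)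 (nat_lit 947109850788) (nat_lit 0) (nat_lit 45431840931) (nat_lit 11) (nat_lit 5) (nat_lit 13) (nat_lit 4) (nat_lit 11) (nat_lit 4) (nat_lit 496) (nat_lit 426) (nat_lit 278)) (XT.lf (nat_lit 0) (nat_lit 425291824503) (nat_lit 152) (nat_lit 473254413155) (nat_lit 0) (nat_lit 321235232010) (nat_lit 11) (nat_lit 5) (nat_lit 13) (nat_lit 4) (nat_lit 11) (nat_lit 4) (nat_lit 497) (nat_lit 426) (nat_lit 277))) (XT.nd (nat_lit 56940) (nat_lit 0) (nat_lit 9652) (XT.lf (nat_lit 0) (nat_lit 39781840389) (nat_lit 76) (nat_lit 683998407655) (nat_lit 76) (nat_lit 579941734475) (nat_lit 10) (nat_lit 4) (nat_lit 11) (nat_lit 5) (nat_lit 11) (nat_lit 4) (nat_lit 498) (nat_lit 426) (nat_lit 276)) (XT.lf (nat_lit 0) (nat_lit 5886131690) (nat_lit 836) (nat_lit 5178277566) (nat_lit 836) (nat_lit 5178277566) (nat_lit 137) (nat_lit 3) (nat_lit 148) (nat_lit 3) (nat_lit 148) (nat_lit 5) (nat_lit 427) (nat_lit 427)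 (nat_lit 346))))) (XT.nd (nat_lit 234) (nat_lit 456) (nat_lit 0) (XT.nd (nat_lit 78) (nat_lit 0) (nat_lit 0) (XT.lf (nat_lit 0) (nat_lit 12636497894) (nat_lit 760) (nat_lit 17996355714) (nat_lit 836) (nat_lit 3132245510) (nat_lit 138) (nat_lit 5) (nat_lit 148) (nat_lit 5) (nat_lit 149) (nat_lit 5) (nat_lit 428) (nat_lit 427) (nat_lit 345)) (XT.nd (nat_lit 78) (nat_lit 0) (nat_lit 76) (XT.lf (nat_lit 76) (nat_lit 9125955701) (nat_lit 0) (nat_lit 5133295279) (nat_lit 836) (nat_lit 20853484889) (nat_lit 139) (nat_lit 5) (nat_lit 138) (nat_lit 5) (nat_lit 149) (nat_lit 5) (nat_lit 429) (nat_lit 427) (nat_lit 344)) (XT.lf (nat_lit 76) (nat_lit 2218210828) (nat_lit 0) (nat_lit 14487776797) (nat_lit 836) (nat_lit 19827489832) (nat_lit 140) (nat_lit 5) (nat_lit 139) (nat_lit 5) (nat_lit 150) (nat_lit 5) (nat_lit 430) (nat_lit 427) (nat_lit 343)))) (XT.nd (nat_lit 156) (nat_lit 608) (nat_lit 0) (XT.nd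 (nat_lit 78) (nat_lit 0) (nat_lit 76) (XT.lf (nat_lit 0) (nat_lit 20090822586) (nat_lit 760) (nat_lit 4741864431) (nat_lit 836) (nat_lit 13198075295) (nat_lit 140) (nat_lit 5) (nat_lit 150) (nat_lit 5) (nat_lit 151) (nat_lit 5) (nat_lit 431) (nat_lit 427) (nat_lit 342)) (XT.lf (nat_lit 0) (nat_lit 24471085779) (nat_lit 760) (nat_lit 11829303464) (nat_lit 836) (nat_lit 3311210411) (nat_lit 141) (nat_lit 5) (nat_lit 151) (nat_lit 5) (nat_lit 152) (nat_lit 5) (nat_lit 432) (nat_lit 427) (nat_lit 341))) (XT.nd (nat_lit 78) (nat_lit 684) (nat_lit 0) (XT.lf (nat_lit 76) (nat_lit 22042477457) (nat_lit 0) (nat_lit 7998936112) (nat_lit 836) (nat_lit 11235509874) (nat_lit 142) (nat_lit 5) (nat_lit 141) (nat_lit 5) (nat_lit 152) (nat_lit 5) (nat_lit 433) (nat_lit 427) (nat_lit 340)) (XT.lf (nat_lit 0) (nat_lit 16136011213) (nat_lit 760) (nat_lit 20728331065) (nat_lit 836) (nat_lit 6170783640) (nat_lit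 132) (nat_lit 5) (nat_lit 142) (nat_lit 5) (nat_lit 143) (nat_lit 5) (nat_lit 434) (nat_lit 427) (nat_lit 339)))))) (XT.nd (nat_lit 546) (nat_lit 1748) (nat_lit 0) (XT.nd (nat_lit 234) (nat_lit 1368) (nat_lit 0) (XT.nd (nat_lit 78) (nat_lit 380) (nat_lit 0) (XT.lf (nat_lit 0) (nat_lit 112942568) (nat_lit 456) (nat_lit 34764586356) (nat_lit 76) (nat_lit 10017434670) (nat_lit 126) (nat_lit 5) (nat_lit 132) (nat_lit 5) (nat_lit 127) (nat_lit 5) (nat_lit 435) (nat_lit 427) (nat_lit 338)) (XT.nd (nat_lit 78) (nat_lit 0) (nat_lit 0) (XT.lf (nat_lit 0) (nat_lit 3858896380) (nat_lit 380) (nat_lit 3707155425) (nat_lit 456) (nat_lit 39288335742) (nat_lit 121) (nat_lit 5) (nat_lit 126) (nat_lit 5) (nat_lit 127) (nat_lit 5) (nat_lit 436) (nat_lit 427) (nat_lit 337)) (XT.lf (nat_lit 0) (nat_lit 16692956531) (nat_lit 456) (nat_lit 2610247721) (nat_lit 76) (nat_lit 29613484973) (nat_lit 121) (nat_lit 5) (nat_lit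 127) (nat_lit 5) (nat_lit 122) (nat_lit 5) (nat_lit 437) (nat_lit 427) (nat_lit 336)))) (XT.nd (nat_lit 156) (nat_lit 684) (nat_lit 0) (XT.nd (nat_lit 78) (nat_lit 304) (nat_lit 0) (XT.lf (nat_lit 0) (nat_lit 27502124274) (nat_lit 456) (nat_lit 9051337263) (nat_lit 76) (nat_lit 14542909030) (nat_lit 116) (nat_lit 5) (nat_lit 122) (nat_lit 5) (nat_lit 117) (nat_lit 5) (nat_lit 438) (nat_lit 427) (nat_lit 335)) (XT.lf (nat_lit 0) (nat_lit 37795692541) (nat_lit 304) (nat_lit 2337182760) (nat_lit 380) (nat_lit 13269709605) (nat_lit 112) (nat_lit 5) (nat_lit 116) (nat_lit 5) (nat_lit 117) (nat_lit 5) (nat_lit 439) (nat_lit 427) (nat_lit 334))) (XT.nd (nat_lit 78) (nat_lit 380) (nat_lit 0) (XT.lf (nat_lit 0) (nat_lit 33347011204) (nat_lit 304) (nat_lit 21643752429) (nat_lit 380) (nat_lit 841699809) (nat_lit 108) (nat_lit 5) (nat_lit 112) (nat_lit 5) (nat_lit 113) (nat_lit 5) (nat_lit 440) (nat_lit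 427) (nat_lit 333)) (XT.lf (nat_lit 0) (nat_lit 13193063737) (nat_lit 380) (nat_lit 29645329328) (nat_lit 76) (nat_lit 15557760657) (nat_lit 103) (nat_lit 5) (nat_lit 108) (nat_lit 5) (nat_lit 104) (nat_lit 5) (nat_lit 441) (nat_lit 427) (nat_lit 332))))) (XT.nd (nat_lit 312) (nat_lit 684) (nat_lit 0) (XT.nd (nat_lit 156) (nat_lit 532) (nat_lit 0) (XT.nd (nat_lit 78) (nat_lit 228) (nat_lit 0) (XT.lf (nat_lit 0) (nat_lit 24124754712) (nat_lit 304) (nat_lit 5332220508) (nat_lit 380) (nat_lit 31650482034) (nat_lit 99) (nat_lit 5) (nat_lit 103) (nat_lit 5) (nat_lit 104) (nat_lit 5) (nat_lit 442) (nat_lit 427) (nat_lit 331)) (XT.lf (nat_lit 0) (nat_lit 19299941659) (nat_lit 228) (nat_lit 29093389966) (nat_lit 304) (nat_lit 15573767532) (nat_lit 96) (nat_lit 5) (nat_lit 99) (nat_lit 5) (nat_lit 100) (nat_lit 5) (nat_lit 443) (nat_lit 427) (nat_lit 330))) (XT.nd (nat_lit 78) (nat_lit 228) (nat_lit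 0) (XT.lf (nat_lit 0) (nat_lit 2890078657) (nat_lit 304) (nat_lit 52473210056) (nat_lit 76) (nat_lit 11632914855) (nat_lit 92) (nat_lit 5) (nat_lit 96) (nat_lit 5) (nat_lit 93) (nat_lit 5) (nat_lit 444) (nat_lit 427) (nat_lit 329)) (XT.lf (nat_lit 0) (nat_lit 9342574063) (nat_lit 228) (nat_lit 14373692851) (nat_lit 304) (nat_lit 46467061431) (nat_lit 89) (nat_lit 5) (nat_lit 92) (nat_lit 5) (nat_lit 93) (nat_lit 5) (nat_lit 445) (nat_lit 427) (nat_lit 328)))) (XT.nd (nat_lit 156) (nat_lit 456) (nat_lit 0) (XT.nd (nat_lit 78) (nat_lit 0) (nat_lit 0) (XT.lf (nat_lit 0) (nat_lit 4040160104) (nat_lit 228) (nat_lit 43623729865) (nat_lit 304) (nat_lit 25888766669) (nat_lit 86) (nat_lit 5) (nat_lit 89) (nat_lit 5) (nat_lit 90) (nat_lit 5) (nat_lit 446) (nat_lit 427) (nat_lit 327)) (XT.lf (nat_lit 0) (nat_lit 74841091750) (nat_lit 304) (nat_lit 1116752072) (nat_lit 76) (nat_lit 1167999410) (nat_lit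 86) (nat_lit 5) (nat_lit 90) (nat_lit 5) (nat_lit 87) (nat_lit 5) (nat_lit 447) (nat_lit 427) (nat_lit 326))) (XT.nd (nat_lit 78) (nat_lit 228) (nat_lit 0) (XT.lf (nat_lit 0) (nat_lit 24389768998) (nat_lit 228) (nat_lit 6892175277) (nat_lit 76) (nat_lit 49588575542) (nat_lit 83) (nat_lit 5) (nat_lit 86) (nat_lit 5) (nat_lit 84) (nat_lit 5) (nat_lit 448) (nat_lit 427) (nat_lit 325)) (XT.lf (nat_lit 0) (nat_lit 54552123461) (nat_lit 304) (nat_lit 12656173674) (nat_lit 76) (nat_lit 17632905098) (nat_lit 80) (nat_lit 5) (nat_lit 84) (nat_lit 5) (nat_lit 81) (nat_lit 5) (nat_lit 449) (nat_lit 427) (nat_lit 324))))))))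
noncomputable def xc88 : XT := (XT.nd (nat_lit 2184) (nat_lit 1520) (nat_lit 0) (XT.nd (nat_lit 1092) (nat_lit 1292) (nat_lit 0) (XT.nd (nat_lit 546) (nat_lit 1064) (nat_lit 0) (XT.nd (nat_lit 234) (nat_lit 760) (nat_lit 0) (XT.nd (nat_lit 78) (nat_lit 456) (nat_lit 0) (XT.lf (nat_lit 0) (nat_lit 70431307068) (nat_lit 152) (nat_lit 18442417682) (nat_lit 228) (nat_lit 168501932) (nat_lit 78) (nat_lit 5) (nat_lit 80) (nat_lit 5) (nat_lit 81) (nat_lit 5) (nat_lit 450) (nat_lit 427) (nat_lit 323)) (XT.nd (nat_lit 78) (nat_lit 152) (nat_lit 0) (XT.lf (nat_lit 0) (nat_lit 33184285096) (nat_lit 304) (nat_lit 25317057931) (nat_lit 76) (nat_lit 34959810463) (nat_lit 74) (nat_lit 5) (nat_lit 78) (nat_lit 5) (nat_lit 75) (nat_lit 5) (nat_lit 451) (nat_lit 427) (nat_lit 322)) (XT.lf (nat_lit 0) (nat_lit 66078204345) (nat_lit 152) (nat_lit 4790757650) (nat_lit 228) (nat_lit 27281016107) (nat_lit 72) (nat_lit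 5) (nat_lit 74) (nat_lit 5) (nat_lit 75) (nat_lit 5) (nat_lit 452) (nat_lit 427) (nat_lit 321)))) (XT.nd (nat_lit 156) (nat_lit 380) (nat_lit 0) (XT.nd (nat_lit 78) (nat_lit 152) (nat_lit 0) (XT.lf (nat_lit 0) (nat_lit 10395325512) (nat_lit 228) (nat_lit 39574445227) (nat_lit 76) (nat_lit 53122205472) (nat_lit 69) (nat_lit 5) (nat_lit 72) (nat_lit 5) (nat_lit 70) (nat_lit 5) (nat_lit 453) (nat_lit 427) (nat_lit 320)) (XT.lf (nat_lit 0) (nat_lit 51882520791) (nat_lit 228) (nat_lit 47576656387) (nat_lit 76) (nat_lit 8860168734) (nat_lit 67) (nat_lit 5) (nat_lit 70) (nat_lit 5) (nat_lit 68) (nat_lit 5) (nat_lit 454) (nat_lit 427) (nat_lit 319))) (XT.nd (nat_lit 78) (nat_lit 228) (nat_lit 0) (XT.lf (nat_lit 0) (nat_lit 57552065865) (nat_lit 152) (nat_lit 41576055544) (nat_lit 228) (nat_lit 14714812519) (nat_lit 65) (nat_lit 5) (nat_lit 67) (nat_lit 5) (nat_lit 68) (nat_lit 5) (nat_lit 455) (nat_lit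 427) (nat_lit 318)) (XT.lf (nat_lit 0) (nat_lit 31423411354) (nat_lit 228) (nat_lit 65793972842) (nat_lit 76) (nat_lit 22464852566) (nat_lit 62) (nat_lit 5) (nat_lit 65) (nat_lit 5) (nat_lit 63) (nat_lit 5) (nat_lit 456) (nat_lit 427) (nat_lit 317))))) (XT.nd (nat_lit 234) (nat_lit 608) (nat_lit 0) (XT.nd (nat_lit 78) (nat_lit 304) (nat_lit 0) (XT.lf (nat_lit 0) (nat_lit 49569655948) (nat_lit 152) (nat_lit 33643789311) (nat_lit 228) (nat_lit 42639363052) (nat_lit 60) (nat_lit 5) (nat_lit 62) (nat_lit 5) (nat_lit 63) (nat_lit 5) (nat_lit 457) (nat_lit 427) (nat_lit 316)) (XT.nd (nat_lit 78) (nat_lit 152) (nat_lit 0) (XT.lf (nat_lit 0) (nat_lit 8867775458) (nat_lit 152) (nat_lit 87618873278) (nat_lit 76) (nat_lit 35902686156) (nat_lit 58) (nat_lit 5) (nat_lit 60) (nat_lit 5) (nat_lit 59) (nat_lit 5) (nat_lit 458) (nat_lit 427) (nat_lit 315)) (XT.lf (nat_lit 0) (nat_lit 38779540336) (nat_lit 152)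 (nat_lit 26763329894) (nat_lit 228) (nat_lit 73743900183) (nat_lit 56) (nat_lit 5) (nat_lit 58) (nat_lit 5) (nat_lit 59) (nat_lit 5) (nat_lit 459) (nat_lit 427) (nat_lit 314)))) (XT.nd (nat_lit 156) (nat_lit 304) (nat_lit 0) (XT.nd (nat_lit 78) (nat_lit 228) (nat_lit 0) (XT.lf (nat_lit 0) (nat_lit 31996668815) (nat_lit 76) (nat_lit 97561980644) (nat_lit 152) (nat_lit 17037017613) (nat_lit 55) (nat_lit 5) (nat_lit 56) (nat_lit 5) (nat_lit 57) (nat_lit 4) (nat_lit 460) (nat_lit 427) (nat_lit 313)) (XT.lf (nat_lit 0) (nat_lit 23878848823) (nat_lit 152) (nat_lit 21514336435) (nat_lit 228) (nat_lit 108931498473) (nat_lit 52) (nat_lit 5) (nat_lit 54) (nat_lit 5) (nat_lit 55) (nat_lit 5) (nat_lit 461) (nat_lit 427) (nat_lit 312))) (XT.nd (nat_lit 78) (nat_lit 228) (nat_lit 0) (XT.lf (nat_lit 0) (nat_lit 14137700605) (nat_lit 76) (nat_lit 101285438465) (nat_lit 152) (nat_lit 47074806555) (nat_lit 51)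 (nat_lit 5) (nat_lit 52) (nat_lit 5) (nat_lit 53) (nat_lit 4) (nat_lit 462) (nat_lit 427) (nat_lit 311)) (XT.lf (nat_lit 0) (nat_lit 3123227958) (nat_lit 152) (nat_lit 18694970315) (nat_lit 228) (nat_lit 149355504229) (nat_lit 48) (nat_lit 5) (nat_lit 50) (nat_lit 5) (nat_lit 51) (nat_lit 5) (nat_lit 463) (nat_lit 427) (nat_lit 310)))))) (XT.nd (nat_lit 546) (nat_lit 608) (nat_lit 0) (XT.nd (nat_lit 234) (nat_lit 456) (nat_lit 0) (XT.nd (nat_lit 78) (nat_lit 228) (nat_lit 0) (XT.lf (nat_lit 0) (nat_lit 98321140561) (nat_lit 228) (nat_lit 10331134789) (nat_lit 76) (nat_lit 71665270315) (nat_lit 48) (nat_lit 5) (nat_lit 51) (nat_lit 5) (nat_lit 49) (nat_lit 4) (nat_lit 464) (nat_lit 427) (nat_lit 309)) (XT.nd (nat_lit 78) (nat_lit 152) (nat_lit 0) (XT.lf (nat_lit 0) (nat_lit 164967522520) (nat_lit 76) (nat_lit 18866029291) (nat_lit 152) (nat_lit 6214882876) (nat_lit 47) (nat_lit 5) (nat_lit 48)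 (nat_lit 5) (nat_lit 49) (nat_lit 4) (nat_lit 465) (nat_lit 427) (nat_lit 308)) (XT.lf (nat_lit 0) (nat_lit 77138599903) (nat_lit 152) (nat_lit 43668643693) (nat_lit 76) (nat_lit 79495009941) (nat_lit 45) (nat_lit 5) (nat_lit 47) (nat_lit 5) (nat_lit 46) (nat_lit 4) (nat_lit 466) (nat_lit 427) (nat_lit 307)))) (XT.nd (nat_lit 156) (nat_lit 228) (nat_lit 0) (XT.nd (nat_lit 78) (nat_lit 152) (nat_lit 0) (XT.lf (nat_lit 0) (nat_lit 146688427080) (nat_lit 76) (nat_lit 23307991782) (nat_lit 152) (nat_lit 41222175098) (nat_lit 44) (nat_lit 5) (nat_lit 45) (nat_lit 5) (nat_lit 46) (nat_lit 4) (nat_lit 467) (nat_lit 427) (nat_lit 306)) (XT.lf (nat_lit 0) (nat_lit 49971046945) (nat_lit 152) (nat_lit 89755145832) (nat_lit 76) (nat_lit 83034669016) (nat_lit 42) (nat_lit 5) (nat_lit 44) (nat_lit 5) (nat_lit 43) (nat_lit 4) (nat_lit 468) (nat_lit 427) (nat_lit 305))) (XT.nd (nat_lit 78) (nat_lit 152) (nat_lit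 0) (XT.lf (nat_lit 0) (nat_lit 116084732963) (nat_lit 76) (nat_lit 34296591712) (nat_lit 152) (nat_lit 84643106661) (nat_lit 41) (nat_lit 5) (nat_lit 42) (nat_lit 5) (nat_lit 43) (nat_lit 4) (nat_lit 469) (nat_lit 427) (nat_lit 304)) (XT.lf (nat_lit 0) (nat_lit 14604324912) (nat_lit 152) (nat_lit 153106929154) (nat_lit 76) (nat_lit 80330251333) (nat_lit 39) (nat_lit 5) (nat_lit 41) (nat_lit 5) (nat_lit 40) (nat_lit 4) (nat_lit 470) (nat_lit 427) (nat_lit 303))))) (XT.nd (nat_lit 234) (nat_lit 380) (nat_lit 0) (XT.nd (nat_lit 78) (nat_lit 152) (nat_lit 0) (XT.lf (nat_lit 0) (nat_lit 68314158718) (nat_lit 76) (nat_lit 54300927156) (nat_lit 152) (nat_lit 139226029113) (nat_lit 38) (nat_lit 5) (nat_lit 39) (nat_lit 5) (nat_lit 40) (nat_lit 4) (nat_lit 471) (nat_lit 427) (nat_lit 302)) (XT.nd (nat_lit 78) (nat_lit 76) (nat_lit 0) (XT.lf (nat_lit 0) (nat_lit 36357946692) (nat_lit 76) (nat_lit 207250388571)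 (nat_lit 76) (nat_lit 32919276744) (nat_lit 37) (nat_lit 4) (nat_lit 38) (nat_lit 5) (nat_lit 38) (nat_lit 4) (nat_lit 472) (nat_lit 427) (nat_lit 301)) (XT.lf (nat_lit 0) (nat_lit 83611706224) (nat_lit 152) (nat_lit 2927907800) (nat_lit 76) (nat_lit 205568449293) (nat_lit 36) (nat_lit 5) (nat_lit 38) (nat_lit 5) (nat_lit 37) (nat_lit 4) (nat_lit 473) (nat_lit 427) (nat_lit 300)))) (XT.nd (nat_lit 156) (nat_lit 152) (nat_lit 0) (XT.nd (nat_lit 78) (nat_lit 152) (nat_lit 0) (XT.lf (nat_lit 0) (nat_lit 213162674364) (nat_lit 152) (nat_lit 48371163333) (nat_lit 0) (nat_lit 47131588174) (nat_lit 35) (nat_lit 5) (nat_lit 37) (nat_lit 4) (nat_lit 35) (nat_lit 4) (nat_lit 474) (nat_lit 427) (nat_lit 299)) (XT.lf (nat_lit 0) (nat_lit 30767890839) (nat_lit 152) (nat_lit 102957558063) (nat_lit 76) (nat_lit 192546883662) (nat_lit 33) (nat_lit 5) (nat_lit 35) (nat_lit 5) (nat_lit 34) (nat_lit 4) (nat_lit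 475) (nat_lit 427) (nat_lit 298))) (XT.nd (nat_lit 78) (nat_lit 76) (nat_lit 0) (XT.lf (nat_lit 0) (nat_lit 167614930806) (nat_lit 152) (nat_lit 167914647126) (nat_lit 0) (nat_lit 9488898073) (nat_lit 32) (nat_lit 5) (nat_lit 34) (nat_lit 4) (nat_lit 32) (nat_lit 4) (nat_lit 476) (nat_lit 427) (nat_lit 297)) (XT.lf (nat_lit 0) (nat_lit 119614145148) (nat_lit 76) (nat_lit 201739759586) (nat_lit 76) (nat_lit 43613197675) (nat_lit 31) (nat_lit 4) (nat_lit 32) (nat_lit 5) (nat_lit 32) (nat_lit 4) (nat_lit 477) (nat_lit 427) (nat_lit 296))))))) (XT.nd (nat_lit 1092) (nat_lit 380) (nat_lit 0) (XT.nd (nat_lit 546) (nat_lit 532) (nat_lit 0) (XT.nd (nat_lit 234) (nat_lit 304) (nat_lit 0) (XT.nd (nat_lit 78) (nat_lit 152) (nat_lit 0) (XT.lf (nat_lit 0) (nat_lit 49743151922) (nat_lit 76) (nat_lit 51656947498) (nat_lit 152) (nat_lit 284845342066) (nat_lit 29) (nat_lit 5) (nat_lit 30) (nat_lit 5) (nat_lit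 31) (nat_lit 4) (nat_lit 478) (nat_lit 427) (nat_lit 295)) (XT.nd (nat_lit 78) (nat_lit 152) (nat_lit 0) (XT.lf (nat_lit 0) (nat_lit 262574018237) (nat_lit 152) (nat_lit 34335509472) (nat_lit 0) (nat_lit 111976393881) (nat_lit 29) (nat_lit 5) (nat_lit 31) (nat_lit 4) (nat_lit 29) (nat_lit 4) (nat_lit 479) (nat_lit 427) (nat_lit 294)) (XT.lf (nat_lit 0) (nat_lit 8855484613) (nat_lit 152) (nat_lit 132444280972) (nat_lit 76) (nat_lit 291752443660) (nat_lit 27) (nat_lit 5) (nat_lit 29) (nat_lit 5) (nat_lit 28) (nat_lit 4) (nat_lit 480) (nat_lit 427) (nat_lit 293)))) (XT.nd (nat_lit 156) (nat_lit 152) (nat_lit 0) (XT.nd (nat_lit 78) (nat_lit 76) (nat_lit 0) (XT.lf (nat_lit 0) (nat_lit 175764952761) (nat_lit 152) (nat_lit 250706272076) (nat_lit 0) (nat_lit 32337910028) (nat_lit 26) (nat_lit 5) (nat_lit 28) (nat_lit 4) (nat_lit 26) (nat_lit 4) (nat_lit 481) (nat_lit 427) (nat_lit 292)) (XT.lf (nat_lit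 0) (nat_lit 94721634325) (nat_lit 76) (nat_lit 267511037477) (nat_lit 76) (nat_lit 124083668079) (nat_lit 25) (nat_lit 4) (nat_lit 26) (nat_lit 5) (nat_lit 26) (nat_lit 4) (nat_lit 482) (nat_lit 427) (nat_lit 291))) (XT.nd (nat_lit 78) (nat_lit 76) (nat_lit 0) (XT.lf (nat_lit 0) (nat_lit 50508286637) (nat_lit 152) (nat_lit 39885684259) (nat_lit 76) (nat_lit 425371102133) (nat_lit 24) (nat_lit 5) (nat_lit 26) (nat_lit 5) (nat_lit 25) (nat_lit 4) (nat_lit 483) (nat_lit 427) (nat_lit 290)) (XT.lf (nat_lit 0) (nat_lit 241925944623) (nat_lit 152) (nat_lit 199853875421) (nat_lit 0) (nat_lit 105327895166) (nat_lit 23) (nat_lit 5) (nat_lit 25) (nat_lit 4) (nat_lit 23) (nat_lit 4) (nat_lit 484) (nat_lit 427) (nat_lit 289))))) (XT.nd (nat_lit 234) (nat_lit 304) (nat_lit 0) (XT.nd (nat_lit 78) (nat_lit 152) (nat_lit 0) (XT.lf (nat_lit 0) (nat_lit 190423438152) (nat_lit 76) (nat_lit 263436246783) (nat_lit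 76) (nat_lit 126837950357) (nat_lit 22) (nat_lit 4) (nat_lit 23) (nat_lit 5) (nat_lit 23) (nat_lit 4) (nat_lit 485) (nat_lit 427) (nat_lit 288)) (XT.nd (nat_lit 78) (nat_lit 0) (nat_lit 0) (XT.lf (nat_lit 0) (nat_lit 1212332480) (nat_lit 76) (nat_lit 66012476096) (nat_lit 152) (nat_lit 549520765488) (nat_lit 20) (nat_lit 5) (nat_lit 21) (nat_lit 5) (nat_lit 22) (nat_lit 4) (nat_lit 486) (nat_lit 427) (nat_lit 287)) (XT.lf (nat_lit 0) (nat_lit 281635560449) (nat_lit 152) (nat_lit 221932958792) (nat_lit 0) (nat_lit 151541525365) (nat_lit 20) (nat_lit 5) (nat_lit 22) (nat_lit 4) (nat_lit 20) (nat_lit 4) (nat_lit 487) (nat_lit 427) (nat_lit 286)))) (XT.nd (nat_lit 156) (nat_lit 152) (nat_lit 0) (XT.nd (nat_lit 78) (nat_lit 76) (nat_lit 0) (XT.lf (nat_lit 0) (nat_lit 208721322894) (nat_lit 76) (nat_lit 308849006920) (nat_lit 76) (nat_lit 178754785120) (nat_lit 19) (nat_lit 4) (nat_lit 20) (nat_lit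 5) (nat_lit 20) (nat_lit 4) (nat_lit 488) (nat_lit 427) (nat_lit 285)) (XT.lf (nat_lit 0) (nat_lit 34461598394) (nat_lit 152) (nat_lit 59448117977) (nat_lit 76) (nat_lit 646706617932) (nat_lit 18) (nat_lit 5) (nat_lit 20) (nat_lit 5) (nat_lit 19) (nat_lit 4) (nat_lit 489) (nat_lit 427) (nat_lit 284))) (XT.nd (nat_lit 78) (nat_lit 76) (nat_lit 0) (XT.lf (nat_lit 0) (nat_lit 267319677571) (nat_lit 152) (nat_lit 377122197643) (nat_lit 0) (nat_lit 143420101604) (nat_lit 17) (nat_lit 5) (nat_lit 19) (nat_lit 4) (nat_lit 17) (nat_lit 4) (nat_lit 490) (nat_lit 427) (nat_lit 283)) (XT.lf (nat_lit 0) (nat_lit 82881182477) (nat_lit 76) (nat_lit 439854666549) (nat_lit 76) (nat_lit 315954949419) (nat_lit 16) (nat_lit 4) (nat_lit 17) (nat_lit 5) (nat_lit 17) (nat_lit 4) (nat_lit 491) (nat_lit 427) (nat_lit 282)))))) (XT.nd (nat_lit 57486) (nat_lit 0) (nat_lit 9576) (XT.nd (nat_lit 234) (nat_lit 228) (nat_lit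 0) (XT.nd (nat_lit 78) (nat_lit 152) (nat_lit 0) (XT.lf (nat_lit 0) (nat_lit 593150639957) (nat_lit 76) (nat_lit 212003349951) (nat_lit 76) (nat_lit 88103502114) (nat_lit 16) (nat_lit 4) (nat_lit 17) (nat_lit 5) (nat_lit 17) (nat_lit 4) (nat_lit 492) (nat_lit 427) (nat_lit 281)) (XT.nd (nat_lit 78) (nat_lit 0) (nat_lit 0) (XT.lf (nat_lit 0) (nat_lit 156599716525) (nat_lit 152) (nat_lit 756682742130) (nat_lit 0) (nat_lit 38599746180) (nat_lit 14) (nat_lit 5) (nat_lit 16) (nat_lit 4) (nat_lit 14) (nat_lit 4) (nat_lit 493) (nat_lit 427) (nat_lit 280)) (XT.lf (nat_lit 0) (nat_lit 426721370016) (nat_lit 152) (nat_lit 279235570984) (nat_lit 0) (nat_lit 308721292948) (nat_lit 14) (nat_lit 5) (nat_lit 16) (nat_lit 4) (nat_lit 14) (nat_lit 4) (nat_lit 494) (nat_lit 427) (nat_lit 279)))) (XT.nd (nat_lit 156) (nat_lit 152) (nat_lit 0) (XT.nd (nat_lit 78) (nat_lit 0) (nat_lit 0) (XT.lf (nat_lit 0) (nat_lit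 244223101227) (nat_lit 76) (nat_lit 478042196479) (nat_lit 76) (nat_lit 360042020593) (nat_lit 13) (nat_lit 4) (nat_lit 14) (nat_lit 5) (nat_lit 14) (nat_lit 4) (nat_lit 495) (nat_lit 427) (nat_lit 278)) (XT.lf (nat_lit 0) (nat_lit 819528983036) (nat_lit 76) (nat_lit 226787415405) (nat_lit 76) (nat_lit 108787148020) (nat_lit 13) (nat_lit 4) (nat_lit 14) (nat_lit 5) (nat_lit 14) (nat_lit 4) (nat_lit 496) (nat_lit 427) (nat_lit 277))) (XT.nd (nat_lit 78) (nat_lit 0) (nat_lit 0) (XT.lf (nat_lit 0) (nat_lit 161455977813) (nat_lit 152) (nat_lit 1022861344865) (nat_lit 0) (nat_lit 49074690093) (nat_lit 11) (nat_lit 5) (nat_lit 13) (nat_lit 4) (nat_lit 11) (nat_lit 4) (nat_lit 497) (nat_lit 427) (nat_lit 276)) (XT.lf (nat_lit 0) (nat_lit 459323099934) (nat_lit 152) (nat_lit 511098753256) (nat_lit 0) (nat_lit 346941737504) (nat_lit 11) (nat_lit 5) (nat_lit 13) (nat_lit 4) (nat_lit 11) (nat_lit 4) (nat_lit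 498) (nat_lit 427) (nat_lit 275))))) (XT.nd (nat_lit 234) (nat_lit 0) (nat_lit 152) (XT.nd (nat_lit 78) (nat_lit 0) (nat_lit 76) (XT.lf (nat_lit 0) (nat_lit 6450519614) (nat_lit 836) (nat_lit 5543442773) (nat_lit 836) (nat_lit 5543442773) (nat_lit 137) (nat_lit 3) (nat_lit 148) (nat_lit 3) (nat_lit 148) (nat_lit 5) (nat_lit 428) (nat_lit 428) (nat_lit 344)) (XT.nd (nat_lit 78) (nat_lit 0) (nat_lit 0) (XT.lf (nat_lit 0) (nat_lit 13820767805) (nat_lit 760) (nat_lit 19332107135) (nat_lit 836) (nat_lit 3304724350) (nat_lit 138) (nat_lit 5) (nat_lit 148) (nat_lit 5) (nat_lit 149) (nat_lit 5) (nat_lit 429) (nat_lit 428) (nat_lit 343)) (XT.lf (nat_lit 76) (nat_lit 9955471347) (nat_lit 0) (nat_lit 5606581568) (nat_lit 836) (nat_lit 22351561458) (nat_lit 139) (nat_lit 5) (nat_lit 138) (nat_lit 5) (nat_lit 149) (nat_lit 5) (nat_lit 430) (nat_lit 428) (nat_lit 342)))) (XT.nd (nat_lit 156) (nat_lit 0)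 (nat_lit 152) (XT.nd (nat_lit 78) (nat_lit 0) (nat_lit 76) (XT.lf (nat_lit 76) (nat_lit 2499507198) (nat_lit 0) (nat_lit 15693732646) (nat_lit 836) (nat_lit 21255342638) (nat_lit 140) (nat_lit 5) (nat_lit 139) (nat_lit 5) (nat_lit 150) (nat_lit 5) (nat_lit 431) (nat_lit 428) (nat_lit 341)) (XT.lf (nat_lit 0) (nat_lit 21837014729) (nat_lit 760) (nat_lit 5017375213) (nat_lit 836) (nat_lit 14211855083) (nat_lit 140) (nat_lit 5) (nat_lit 150) (nat_lit 5) (nat_lit 151) (nat_lit 5) (nat_lit 432) (nat_lit 428) (nat_lit 340))) (XT.nd (nat_lit 78) (nat_lit 0) (nat_lit 0) (XT.lf (nat_lit 0) (nat_lit 26558477069) (nat_lit 760) (nat_lit 12669301338) (nat_lit 836) (nat_lit 3546234410) (nat_lit 141) (nat_lit 5) (nat_lit 151) (nat_lit 5) (nat_lit 152) (nat_lit 5) (nat_lit 433) (nat_lit 428) (nat_lit 339)) (XT.lf (nat_lit 76) (nat_lit 23907600372) (nat_lit 0) (nat_lit 8658811184) (nat_lit 836) (nat_lit 12006554122)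 (nat_lit 142) (nat_lit 5) (nat_lit 141) (nat_lit 5) (nat_lit 152) (nat_lit 5) (nat_lit 434) (nat_lit 428) (nat_lit 338))))))))
noncomputable def xc89 : XT := (XT.nd (nat_lit 2184) (nat_lit 2660) (nat_lit 0) (XT.nd (nat_lit 1092) (nat_lit 2584) (nat_lit 0) (XT.nd (nat_lit 546) (nat_lit 1672) (nat_lit 0) (XT.nd (nat_lit 234) (nat_lit 988) (nat_lit 0) (XT.nd (nat_lit 78) (nat_lit 836) (nat_lit 0) (XT.lf (nat_lit 0) (nat_lit 17530340123) (nat_lit 760) (nat_lit 22397147304) (nat_lit 836) (nat_lit 6544723309) (nat_lit 132) (nat_lit 5) (nat_lit 142) (nat_lit 5) (nat_lit 143) (nat_lit 5) (nat_lit 435) (nat_lit 428) (nat_lit 337)) (XT.nd (nat_lit 78) (nat_lit 380) (nat_lit 0) (XT.lf (nat_lit 0) (nat_lit 230789226) (nat_lit 456) (nat_lit 37437546820) (nat_lit 76) (nat_lit 10812761705) (nat_lit 126) (nat_lit 5) (nat_lit 132) (nat_lit 5) (nat_lit 127) (nat_lit 5) (nat_lit 436) (nat_lit 428) (nat_lit 336))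 (XT.lf (nat_lit 0) (nat_lit 4271112016) (nat_lit 380) (nat_lit 4002591080) (nat_lit 456) (nat_lit 42323896386) (nat_lit 121) (nat_lit 5) (nat_lit 126) (nat_lit 5) (nat_lit 127) (nat_lit 5) (nat_lit 437) (nat_lit 428) (nat_lit 335)))) (XT.nd (nat_lit 156) (nat_lit 608) (nat_lit 0) (XT.nd (nat_lit 78) (nat_lit 380) (nat_lit 0) (XT.lf (nat_lit 0) (nat_lit 18123193882) (nat_lit 456) (nat_lit 2718488607) (nat_lit 76) (nat_lit 31983582655) (nat_lit 121) (nat_lit 5) (nat_lit 127) (nat_lit 5) (nat_lit 122) (nat_lit 5) (nat_lit 438) (nat_lit 428) (nat_lit 334)) (XT.lf (nat_lit 0) (nat_lit 29791682989) (nat_lit 456) (nat_lit 9674862717) (nat_lit 76) (nat_lit 15713047311) (nat_lit 116) (nat_lit 5) (nat_lit 122) (nat_lit 5) (nat_lit 117) (nat_lit 5) (nat_lit 439) (nat_lit 428) (nat_lit 333))) (XT.nd (nat_lit 78) (nat_lit 304) (nat_lit 0) (XT.lf (nat_lit 0) (nat_lit 40915558322) (nat_lit 304) (nat_lit 2512216500)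 (nat_lit 380) (nat_lit 14242786960) (nat_lit 112) (nat_lit 5) (nat_lit 116) (nat_lit 5) (nat_lit 117) (nat_lit 5) (nat_lit 440) (nat_lit 428) (nat_lit 332)) (XT.lf (nat_lit 0) (nat_lit 36110669054) (nat_lit 304) (nat_lit 23359052823) (nat_lit 380) (nat_lit 825338559) (nat_lit 108) (nat_lit 5) (nat_lit 112) (nat_lit 5) (nat_lit 113) (nat_lit 5) (nat_lit 441) (nat_lit 428) (nat_lit 331))))) (XT.nd (nat_lit 234) (nat_lit 760) (nat_lit 0) (XT.nd (nat_lit 78) (nat_lit 532) (nat_lit 0) (XT.lf (nat_lit 0) (nat_lit 14325276411) (nat_lit 380) (nat_lit 31919090268) (nat_lit 76) (nat_lit 16819627537) (nat_lit 103) (nat_lit 5) (nat_lit 108) (nat_lit 5) (nat_lit 104) (nat_lit 5) (nat_lit 442) (nat_lit 428) (nat_lit 330)) (XT.nd (nat_lit 78) (nat_lit 228) (nat_lit 0) (XT.lf (nat_lit 0) (nat_lit 26148347384) (nat_lit 304) (nat_lit 5737728491) (nat_lit 380) (nat_lit 34106338397) (nat_lit 99) (nat_lit 5) (nat_lit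 103) (nat_lit 5) (nat_lit 104) (nat_lit 5) (nat_lit 443) (nat_lit 428) (nat_lit 329)) (XT.lf (nat_lit 0) (nat_lit 20936647742) (nat_lit 228) (nat_lit 31397071586) (nat_lit 304) (nat_lit 16747290193) (nat_lit 96) (nat_lit 5) (nat_lit 99) (nat_lit 5) (nat_lit 100) (nat_lit 5) (nat_lit 444) (nat_lit 428) (nat_lit 328)))) (XT.nd (nat_lit 156) (nat_lit 228) (nat_lit 0) (XT.nd (nat_lit 78) (nat_lit 228) (nat_lit 0) (XT.lf (nat_lit 0) (nat_lit 3187960988) (nat_lit 304) (nat_lit 56577218420) (nat_lit 76) (nat_lit 12587376494) (nat_lit 92) (nat_lit 5) (nat_lit 96) (nat_lit 5) (nat_lit 93) (nat_lit 5) (nat_lit 445) (nat_lit 428) (nat_lit 327)) (XT.lf (nat_lit 0) (nat_lit 10179749890) (nat_lit 228) (nat_lit 15496957009) (nat_lit 304) (nat_lit 50118121384) (nat_lit 89) (nat_lit 5) (nat_lit 92) (nat_lit 5) (nat_lit 93) (nat_lit 5) (nat_lit 446) (nat_lit 428) (nat_lit 326))) (XT.nd (nat_lit 78) (nat_lit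 0) (nat_lit 0) (XT.lf (nat_lit 0) (nat_lit 4451872530) (nat_lit 228) (nat_lit 47085357050) (nat_lit 304) (nat_lit 27896619467) (nat_lit 86) (nat_lit 5) (nat_lit 89) (nat_lit 5) (nat_lit 90) (nat_lit 5) (nat_lit 447) (nat_lit 428) (nat_lit 325)) (XT.lf (nat_lit 0) (nat_lit 80884554836) (nat_lit 304) (nat_lit 1121760434) (nat_lit 76) (nat_lit 1286778574) (nat_lit 86) (nat_lit 5) (nat_lit 90) (nat_lit 5) (nat_lit 87) (nat_lit 5) (nat_lit 448) (nat_lit 428) (nat_lit 324)))))) (XT.nd (nat_lit 546) (nat_lit 1140) (nat_lit 0) (XT.nd (nat_lit 234) (nat_lit 836) (nat_lit 0) (XT.nd (nat_lit 78) (nat_lit 380) (nat_lit 0) (XT.lf (nat_lit 0) (nat_lit 26395105100) (nat_lit 228) (nat_lit 7361084753) (nat_lit 76) (nat_lit 53581256716) (nat_lit 83) (nat_lit 5) (nat_lit 86) (nat_lit 5) (nat_lit 84) (nat_lit 5) (nat_lit 449) (nat_lit 428) (nat_lit 323)) (XT.nd (nat_lit 78) (nat_lit 152) (nat_lit 0) (XT.lf (nat_lit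 0) (nat_lit 58968097465) (nat_lit 304) (nat_lit 13587640964) (nat_lit 76) (nat_lit 19070163197) (nat_lit 80) (nat_lit 5) (nat_lit 84) (nat_lit 5) (nat_lit 81) (nat_lit 5) (nat_lit 450) (nat_lit 428) (nat_lit 322)) (XT.lf (nat_lit 0) (nat_lit 76143316919) (nat_lit 152) (nat_lit 19889482670) (nat_lit 228) (nat_lit 130340292) (nat_lit 78) (nat_lit 5) (nat_lit 80) (nat_lit 5) (nat_lit 81) (nat_lit 5) (nat_lit 451) (nat_lit 428) (nat_lit 321)))) (XT.nd (nat_lit 156) (nat_lit 380) (nat_lit 0) (XT.nd (nat_lit 78) (nat_lit 152) (nat_lit 0) (XT.lf (nat_lit 0) (nat_lit 35886937354) (nat_lit 304) (nat_lit 27264761343) (nat_lit 76) (nat_lit 37783946226) (nat_lit 74) (nat_lit 5) (nat_lit 78) (nat_lit 5) (nat_lit 75) (nat_lit 5) (nat_lit 452) (nat_lit 428) (nat_lit 320)) (XT.lf (nat_lit 0) (nat_lit 71438746852) (nat_lit 152) (nat_lit 5145252520) (nat_lit 228) (nat_lit 29415695983) (nat_lit 72) (nat_lit 5)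 (nat_lit 74) (nat_lit 5) (nat_lit 75) (nat_lit 5) (nat_lit 453) (nat_lit 428) (nat_lit 319))) (XT.nd (nat_lit 78) (nat_lit 152) (nat_lit 0) (XT.lf (nat_lit 0) (nat_lit 11271373573) (nat_lit 228) (nat_lit 42666117623) (nat_lit 76) (nat_lit 57399617625) (nat_lit 69) (nat_lit 5) (nat_lit 72) (nat_lit 5) (nat_lit 70) (nat_lit 5) (nat_lit 454) (nat_lit 428) (nat_lit 318)) (XT.lf (nat_lit 0) (nat_lit 56075813191) (nat_lit 228) (nat_lit 51310067698) (nat_lit 76) (nat_lit 9596874098) (nat_lit 67) (nat_lit 5) (nat_lit 70) (nat_lit 5) (nat_lit 68) (nat_lit 5) (nat_lit 455) (nat_lit 428) (nat_lit 317))))) (XT.nd (nat_lit 234) (nat_lit 608) (nat_lit 0) (XT.nd (nat_lit 78) (nat_lit 380) (nat_lit 0) (XT.lf (nat_lit 0) (nat_lit 62225791959) (nat_lit 152) (nat_lit 44873193661) (nat_lit 228) (nat_lit 15849348536) (nat_lit 65) (nat_lit 5) (nat_lit 67) (nat_lit 5) (nat_lit 68) (nat_lit 5) (nat_lit 456) (nat_lit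 428) (nat_lit 316)) (XT.nd (nat_lit 78) (nat_lit 152) (nat_lit 0) (XT.lf (nat_lit 0) (nat_lit 33977015353) (nat_lit 228) (nat_lit 70988122091) (nat_lit 76) (nat_lit 24289688388) (nat_lit 62) (nat_lit 5) (nat_lit 65) (nat_lit 5) (nat_lit 63) (nat_lit 5) (nat_lit 457) (nat_lit 428) (nat_lit 315)) (XT.lf (nat_lit 0) (nat_lit 53601582328) (nat_lit 152) (nat_lit 36306762569) (nat_lit 228) (nat_lit 46010793808) (nat_lit 60) (nat_lit 5) (nat_lit 62) (nat_lit 5) (nat_lit 63) (nat_lit 5) (nat_lit 458) (nat_lit 428) (nat_lit 314)))) (XT.nd (nat_lit 156) (nat_lit 304) (nat_lit 0) (XT.nd (nat_lit 78) (nat_lit 152) (nat_lit 0) (XT.lf (nat_lit 0) (nat_lit 9614245003) (nat_lit 152) (nat_lit 94562299355) (nat_lit 76) (nat_lit 38802082241) (nat_lit 58) (nat_lit 5) (nat_lit 60) (nat_lit 5) (nat_lit 59) (nat_lit 5) (nat_lit 459) (nat_lit 428) (nat_lit 313)) (XT.lf (nat_lit 0) (nat_lit 41945115427) (nat_lit 152)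 (nat_lit 28876474584) (nat_lit 228) (nat_lit 79606355020) (nat_lit 56) (nat_lit 5) (nat_lit 58) (nat_lit 5) (nat_lit 59) (nat_lit 5) (nat_lit 460) (nat_lit 428) (nat_lit 312))) (XT.nd (nat_lit 78) (nat_lit 228) (nat_lit 0) (XT.lf (nat_lit 0) (nat_lit 34618140305) (nat_lit 76) (nat_lit 105339244734) (nat_lit 152) (nat_lit 18364230896) (nat_lit 55) (nat_lit 5) (nat_lit 56) (nat_lit 5) (nat_lit 57) (nat_lit 4) (nat_lit 461) (nat_lit 428) (nat_lit 311)) (XT.lf (nat_lit 0) (nat_lit 25849308210) (nat_lit 152) (nat_lit 23208311708) (nat_lit 228) (nat_lit 117611387472) (nat_lit 52) (nat_lit 5) (nat_lit 54) (nat_lit 5) (nat_lit 55) (nat_lit 5) (nat_lit 462) (nat_lit 428) (nat_lit 310))))))) (XT.nd (nat_lit 1092) (nat_lit 1216) (nat_lit 0) (XT.nd (nat_lit 546) (nat_lit 684) (nat_lit 0) (XT.nd (nat_lit 234) (nat_lit 456) (nat_lit 0) (XT.nd (nat_lit 78) (nat_lit 228) (nat_lit 0) (XT.lf (nat_lit 0) (nat_lit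 15327427523) (nat_lit 76) (nat_lit 109361409004) (nat_lit 152) (nat_lit 50807350536) (nat_lit 51) (nat_lit 5) (nat_lit 52) (nat_lit 5) (nat_lit 53) (nat_lit 4) (nat_lit 463) (nat_lit 428) (nat_lit 309)) (XT.nd (nat_lit 78) (nat_lit 0) (nat_lit 0) (XT.lf (nat_lit 0) (nat_lit 3430271080) (nat_lit 152) (nat_lit 20164248313) (nat_lit 228) (nat_lit 161271534375) (nat_lit 48) (nat_lit 5) (nat_lit 50) (nat_lit 5) (nat_lit 51) (nat_lit 5) (nat_lit 464) (nat_lit 428) (nat_lit 308)) (XT.lf (nat_lit 0) (nat_lit 106215791232) (nat_lit 228) (nat_lit 11103626594) (nat_lit 76) (nat_lit 77422081972) (nat_lit 48) (nat_lit 5) (nat_lit 51) (nat_lit 5) (nat_lit 49) (nat_lit 4) (nat_lit 465) (nat_lit 428) (nat_lit 307)))) (XT.nd (nat_lit 156) (nat_lit 228) (nat_lit 0) (XT.nd (nat_lit 78) (nat_lit 152) (nat_lit 0) (XT.lf (nat_lit 0) (nat_lit 178216576570) (nat_lit 76) (nat_lit 20351280107) (nat_lit 152) (nat_lit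 6683070316) (nat_lit 47) (nat_lit 5) (nat_lit 48) (nat_lit 5) (nat_lit 49) (nat_lit 4) (nat_lit 466) (nat_lit 428) (nat_lit 306)) (XT.lf (nat_lit 0) (nat_lit 83336835606) (nat_lit 152) (nat_lit 47110865300) (nat_lit 76) (nat_lit 85877374265) (nat_lit 45) (nat_lit 5) (nat_lit 47) (nat_lit 5) (nat_lit 46) (nat_lit 4) (nat_lit 467) (nat_lit 428) (nat_lit 305))) (XT.nd (nat_lit 78) (nat_lit 152) (nat_lit 0) (XT.lf (nat_lit 0) (nat_lit 158472543009) (nat_lit 76) (nat_lit 25149491811) (nat_lit 152) (nat_lit 44492750364) (nat_lit 44) (nat_lit 5) (nat_lit 45) (nat_lit 5) (nat_lit 46) (nat_lit 4) (nat_lit 468) (nat_lit 428) (nat_lit 304)) (XT.lf (nat_lit 0) (nat_lit 53994207270) (nat_lit 152) (nat_lit 96886909242) (nat_lit 76) (nat_lit 89699339365) (nat_lit 42) (nat_lit 5) (nat_lit 44) (nat_lit 5) (nat_lit 43) (nat_lit 4) (nat_lit 469) (nat_lit 428) (nat_lit 303))))) (XT.nd (nat_lit 234) (nat_lit 380)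 (nat_lit 0) (XT.nd (nat_lit 78) (nat_lit 228) (nat_lit 0) (XT.lf (nat_lit 0) (nat_lit 125418045663) (nat_lit 76) (nat_lit 37018100929) (nat_lit 152) (nat_lit 91389022498) (nat_lit 41) (nat_lit 5) (nat_lit 42) (nat_lit 5) (nat_lit 43) (nat_lit 4) (nat_lit 470) (nat_lit 428) (nat_lit 302)) (XT.nd (nat_lit 78) (nat_lit 76) (nat_lit 0) (XT.lf (nat_lit 0) (nat_lit 15796601625) (nat_lit 152) (nat_lit 165309347574) (nat_lit 76) (nat_lit 86777679254) (nat_lit 39) (nat_lit 5) (nat_lit 41) (nat_lit 5) (nat_lit 40) (nat_lit 4) (nat_lit 471) (nat_lit 428) (nat_lit 301)) (XT.lf (nat_lit 0) (nat_lit 73823422316) (nat_lit 76) (nat_lit 58623717509) (nat_lit 152) (nat_lit 150340121227) (nat_lit 38) (nat_lit 5) (nat_lit 39) (nat_lit 5) (nat_lit 40) (nat_lit 4) (nat_lit 472) (nat_lit 428) (nat_lit 300)))) (XT.nd (nat_lit 156) (nat_lit 228) (nat_lit 0) (XT.nd (nat_lit 78) (nat_lit 76) (nat_lit 0) (XT.lf (nat_lit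 0) (nat_lit 39309571050) (nat_lit 76) (nat_lit 223809564598) (nat_lit 76) (nat_lit 35529577920) (nat_lit 37) (nat_lit 4) (nat_lit 38) (nat_lit 5) (nat_lit 38) (nat_lit 4) (nat_lit 473) (nat_lit 428) (nat_lit 299)) (XT.lf (nat_lit 0) (nat_lit 90321473377) (nat_lit 152) (nat_lit 3121646752) (nat_lit 76) (nat_lit 222032546084) (nat_lit 36) (nat_lit 5) (nat_lit 38) (nat_lit 5) (nat_lit 37) (nat_lit 4) (nat_lit 474) (nat_lit 428) (nat_lit 298))) (XT.nd (nat_lit 78) (nat_lit 152) (nat_lit 0) (XT.lf (nat_lit 0) (nat_lit 230235874869) (nat_lit 152) (nat_lit 52201421493) (nat_lit 0) (nat_lit 50920353662) (nat_lit 35) (nat_lit 5) (nat_lit 37) (nat_lit 4) (nat_lit 35) (nat_lit 4) (nat_lit 475) (nat_lit 428) (nat_lit 297)) (XT.lf (nat_lit 0) (nat_lit 33248918891) (nat_lit 152) (nat_lit 111155793116) (nat_lit 76) (nat_lit 207968426804) (nat_lit 33) (nat_lit 5) (nat_lit 35) (nat_lit 5) (nat_lit 34) (nat_lit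 4) (nat_lit 476) (nat_lit 428) (nat_lit 296)))))) (XT.nd (nat_lit 546) (nat_lit 608) (nat_lit 0) (XT.nd (nat_lit 234) (nat_lit 304) (nat_lit 0) (XT.nd (nat_lit 78) (nat_lit 228) (nat_lit 0) (XT.lf (nat_lit 0) (nat_lit 181043124244) (nat_lit 152) (nat_lit 181310461187) (nat_lit 0) (nat_lit 10265418224) (nat_lit 32) (nat_lit 5) (nat_lit 34) (nat_lit 4) (nat_lit 32) (nat_lit 4) (nat_lit 477) (nat_lit 428) (nat_lit 295)) (XT.nd (nat_lit 78) (nat_lit 152) (nat_lit 0) (XT.lf (nat_lit 0) (nat_lit 129219010948) (nat_lit 76) (nat_lit 217861355717) (nat_lit 76) (nat_lit 47083196013) (nat_lit 31) (nat_lit 4) (nat_lit 32) (nat_lit 5) (nat_lit 32) (nat_lit 4) (nat_lit 478) (nat_lit 428) (nat_lit 294)) (XT.lf (nat_lit 0) (nat_lit 53757369156) (nat_lit 76) (nat_lit 55772362032) (nat_lit 152) (nat_lit 307614464032) (nat_lit 29) (nat_lit 5) (nat_lit 30) (nat_lit 5) (nat_lit 31) (nat_lit 4) (nat_lit 479) (nat_lit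 428) (nat_lit 293)))) (XT.nd (nat_lit 156) (nat_lit 152) (nat_lit 0) (XT.nd (nat_lit 78) (nat_lit 152) (nat_lit 0) (XT.lf (nat_lit 0) (nat_lit 283596505842) (nat_lit 152) (nat_lit 37049591858) (nat_lit 0) (nat_lit 120949868945) (nat_lit 29) (nat_lit 5) (nat_lit 31) (nat_lit 4) (nat_lit 29) (nat_lit 4) (nat_lit 480) (nat_lit 428) (nat_lit 292)) (XT.lf (nat_lit 0) (nat_lit 9580011435) (nat_lit 152) (nat_lit 143007956453) (nat_lit 76) (nat_lit 315107613373) (nat_lit 27) (nat_lit 5) (nat_lit 29) (nat_lit 5) (nat_lit 28) (nat_lit 4) (nat_lit 481) (nat_lit 428) (nat_lit 291))) (XT.nd (nat_lit 78) (nat_lit 76) (nat_lit 0) (XT.lf (nat_lit 0) (nat_lit 189841757145) (nat_lit 152) (nat_lit 270731758743) (nat_lit 0) (nat_lit 34939569061) (nat_lit 26) (nat_lit 5) (nat_lit 28) (nat_lit 4) (nat_lit 26) (nat_lit 4) (nat_lit 482) (nat_lit 428) (nat_lit 290)) (XT.lf (nat_lit 0) (nat_lit 102329032292) (nat_lit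 76) (nat_lit 288897168446) (nat_lit 76) (nat_lit 133994700298) (nat_lit 25) (nat_lit 4) (nat_lit 26) (nat_lit 5) (nat_lit 26) (nat_lit 4) (nat_lit 483) (nat_lit 428) (nat_lit 289))))) (XT.nd (nat_lit 312) (nat_lit 228) (nat_lit 0) (XT.nd (nat_lit 156) (nat_lit 228) (nat_lit 0) (XT.nd (nat_lit 78) (nat_lit 76) (nat_lit 0) (XT.lf (nat_lit 0) (nat_lit 54562986577) (nat_lit 152) (nat_lit 43048604981) (nat_lit 76) (nat_lit 459413985220) (nat_lit 24) (nat_lit 5) (nat_lit 26) (nat_lit 5) (nat_lit 25) (nat_lit 4) (nat_lit 484) (nat_lit 428) (nat_lit 288)) (XT.lf (nat_lit 0) (nat_lit 261293642336) (nat_lit 152) (nat_lit 215815002207) (nat_lit 0) (nat_lit 113767006551) (nat_lit 23) (nat_lit 5) (nat_lit 25) (nat_lit 4) (nat_lit 23) (nat_lit 4) (nat_lit 485) (nat_lit 428) (nat_lit 287))) (XT.nd (nat_lit 78) (nat_lit 152) (nat_lit 0) (XT.lf (nat_lit 0) (nat_lit 205683315101) (nat_lit 76) (nat_lit 284498163688)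 (nat_lit 76) (nat_lit 136971316167) (nat_lit 22) (nat_lit 4) (nat_lit 23) (nat_lit 5) (nat_lit 23) (nat_lit 4) (nat_lit 486) (nat_lit 428) (nat_lit 286)) (XT.lf (nat_lit 0) (nat_lit 1334609671) (nat_lit 76) (nat_lit 71280830935) (nat_lit 152) (nat_lit 593469146832) (nat_lit 20) (nat_lit 5) (nat_lit 21) (nat_lit 5) (nat_lit 22) (nat_lit 4) (nat_lit 487) (nat_lit 428) (nat_lit 285)))) (XT.nd (nat_lit 156) (nat_lit 152) (nat_lit 0) (XT.nd (nat_lit 78) (nat_lit 76) (nat_lit 0) (XT.lf (nat_lit 0) (nat_lit 304178298564) (nat_lit 152) (nat_lit 239663775359) (nat_lit 0) (nat_lit 163676179418) (nat_lit 20) (nat_lit 5) (nat_lit 22) (nat_lit 4) (nat_lit 20) (nat_lit 4) (nat_lit 488) (nat_lit 428) (nat_lit 284)) (XT.lf (nat_lit 0) (nat_lit 225441813668) (nat_lit 76) (nat_lit 333545510564) (nat_lit 76) (nat_lit 193043231339) (nat_lit 19) (nat_lit 4) (nat_lit 20) (nat_lit 5) (nat_lit 20) (nat_lit 4) (nat_lit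 489) (nat_lit 428) (nat_lit 283))) (XT.nd (nat_lit 78) (nat_lit 76) (nat_lit 0) (XT.lf (nat_lit 0) (nat_lit 37229224919) (nat_lit 152) (nat_lit 64182516362) (nat_lit 76) (nat_lit 698453364695) (nat_lit 18) (nat_lit 5) (nat_lit 20) (nat_lit 5) (nat_lit 19) (nat_lit 4) (nat_lit 490) (nat_lit 428) (nat_lit 282)) (XT.lf (nat_lit 0) (nat_lit 288715638985) (nat_lit 152) (nat_lit 407271103875) (nat_lit 0) (nat_lit 154903672615) (nat_lit 17) (nat_lit 5) (nat_lit 19) (nat_lit 4) (nat_lit 17) (nat_lit 4) (nat_lit 491) (nat_lit 428) (nat_lit 281))))))))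
noncomputable def xc90 : XT := (XT.nd (nat_lit 59202) (nat_lit 0) (nat_lit 1672) (XT.nd (nat_lit 58110) (nat_lit 0) (nat_lit 5700) (XT.nd (nat_lit 57564) (nat_lit 0) (nat_lit 9576) (XT.nd (nat_lit 234) (nat_lit 228) (nat_lit 0) (XT.nd (nat_lit 78) (nat_lit 152) (nat_lit 0) (XT.lf (nat_lit 0) (nat_lit 89531639688) (nat_lit 76) (nat_lit 475033006718) (nat_lit 76) (nat_lit 341220919322) (nat_lit 16) (nat_lit 4) (nat_lit 17) (nat_lit 5) (nat_lit 17) (nat_lit 4) (nat_lit 492) (nat_lit 428) (nat_lit 280)) (XT.nd (nat_lit 78) (nat_lit 152) (nat_lit 0) (XT.lf (nat_lit 0) (nat_lit 640621175054) (nat_lit 76) (nat_lit 228954327989) (nat_lit 76) (nat_lit 95142128534) (nat_lit 16) (nat_lit 4) (nat_lit 17) (nat_lit 5) (nat_lit 17) (nat_lit 4) (nat_lit 493) (nat_lit 428) (nat_lit 279)) (XT.lf (nat_lit 0) (nat_lit 169136768258) (nat_lit 152) (nat_lit 817199079664) (nat_lit 0) (nat_lit 41696479482) (nat_lit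 14) (nat_lit 5) (nat_lit 16) (nat_lit 4) (nat_lit 14) (nat_lit 4) (nat_lit 494) (nat_lit 428) (nat_lit 278)))) (XT.nd (nat_lit 156) (nat_lit 152) (nat_lit 0) (XT.nd (nat_lit 78) (nat_lit 76) (nat_lit 0) (XT.lf (nat_lit 0) (nat_lit 460867481851) (nat_lit 152) (nat_lit 301557489036) (nat_lit 0) (nat_lit 333427101576) (nat_lit 14) (nat_lit 5) (nat_lit 16) (nat_lit 4) (nat_lit 14) (nat_lit 4) (nat_lit 495) (nat_lit 428) (nat_lit 277)) (XT.lf (nat_lit 0) (nat_lit 263777141298) (nat_lit 76) (nat_lit 516277412873) (nat_lit 76) (nat_lit 388836947877) (nat_lit 13) (nat_lit 4) (nat_lit 14) (nat_lit 5) (nat_lit 14) (nat_lit 4) (nat_lit 496) (nat_lit 428) (nat_lit 276))) (XT.nd (nat_lit 78) (nat_lit 152) (nat_lit 0) (XT.lf (nat_lit 0) (nat_lit 885106294246) (nat_lit 76) (nat_lit 244922853707) (nat_lit 76) (nat_lit 117482310267) (nat_lit 13) (nat_lit 4) (nat_lit 14) (nat_lit 5) (nat_lit 14) (nat_lit 4)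 (nat_lit 497) (nat_lit 428) (nat_lit 275)) (XT.lf (nat_lit 0) (nat_lit 174379798140) (nat_lit 152) (nat_lit 1104675425648) (nat_lit 0) (nat_lit 53007782831) (nat_lit 11) (nat_lit 5) (nat_lit 13) (nat_lit 4) (nat_lit 11) (nat_lit 4) (nat_lit 498) (nat_lit 428) (nat_lit 274))))) (XT.nd (nat_lit 234) (nat_lit 0) (nat_lit 152) (XT.nd (nat_lit 78) (nat_lit 0) (nat_lit 76) (XT.lf (nat_lit 0) (nat_lit 7046720124) (nat_lit 836) (nat_lit 5944825433) (nat_lit 836) (nat_lit 5944825433) (nat_lit 137) (nat_lit 3) (nat_lit 148) (nat_lit 3) (nat_lit 148) (nat_lit 5) (nat_lit 429) (nat_lit 429) (nat_lit 342)) (XT.nd (nat_lit 78) (nat_lit 0) (nat_lit 0) (XT.lf (nat_lit 0) (nat_lit 15075048982) (nat_lit 760) (nat_lit 20789549303) (nat_lit 836) (nat_lit 3502143450) (nat_lit 138) (nat_lit 5) (nat_lit 148) (nat_lit 5) (nat_lit 149) (nat_lit 5) (nat_lit 430) (nat_lit 429) (nat_lit 341)) (XT.lf (nat_lit 76) (nat_lit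 10837162133) (nat_lit 0) (nat_lit 6108796937) (nat_lit 836) (nat_lit 23993765403) (nat_lit 139) (nat_lit 5) (nat_lit 138) (nat_lit 5) (nat_lit 149) (nat_lit 5) (nat_lit 431) (nat_lit 429) (nat_lit 340)))) (XT.nd (nat_lit 156) (nat_lit 0) (nat_lit 152) (XT.nd (nat_lit 78) (nat_lit 0) (nat_lit 76) (XT.lf (nat_lit 76) (nat_lit 2788493411) (nat_lit 0) (nat_lit 16989469345) (nat_lit 836) (nat_lit 22820013550) (nat_lit 140) (nat_lit 5) (nat_lit 139) (nat_lit 5) (nat_lit 150) (nat_lit 5) (nat_lit 432) (nat_lit 429) (nat_lit 339)) (XT.lf (nat_lit 0) (nat_lit 23703082848) (nat_lit 760) (nat_lit 5329740563) (nat_lit 836) (nat_lit 15312738474) (nat_lit 140) (nat_lit 5) (nat_lit 150) (nat_lit 5) (nat_lit 151) (nat_lit 5) (nat_lit 433) (nat_lit 429) (nat_lit 338))) (XT.nd (nat_lit 78) (nat_lit 0) (nat_lit 0) (XT.lf (nat_lit 0) (nat_lit 28794355876) (nat_lit 760) (nat_lit 13591670545) (nat_lit 836) (nat_lit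 3804322023) (nat_lit 141) (nat_lit 5) (nat_lit 151) (nat_lit 5) (nat_lit 152) (nat_lit 5) (nat_lit 434) (nat_lit 429) (nat_lit 337)) (XT.lf (nat_lit 76) (nat_lit 25907420951) (nat_lit 0) (nat_lit 9368628718) (nat_lit 836) (nat_lit 12857513515) (nat_lit 142) (nat_lit 5) (nat_lit 141) (nat_lit 5) (nat_lit 152) (nat_lit 5) (nat_lit 435) (nat_lit 429) (nat_lit 336)))))) (XT.nd (nat_lit 546) (nat_lit 1672) (nat_lit 0) (XT.nd (nat_lit 234) (nat_lit 988) (nat_lit 0) (XT.nd (nat_lit 78) (nat_lit 836) (nat_lit 0) (XT.lf (nat_lit 0) (nat_lit 19021457331) (nat_lit 760) (nat_lit 24197963802) (nat_lit 836) (nat_lit 6965657978) (nat_lit 132) (nat_lit 5) (nat_lit 142) (nat_lit 5) (nat_lit 143) (nat_lit 5) (nat_lit 436) (nat_lit 429) (nat_lit 335)) (XT.nd (nat_lit 78) (nat_lit 380) (nat_lit 0) (XT.lf (nat_lit 0) (nat_lit 342540475) (nat_lit 456) (nat_lit 40339780979) (nat_lit 76) (nat_lit 11672580533) (nat_lit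 126) (nat_lit 5) (nat_lit 132) (nat_lit 5) (nat_lit 127) (nat_lit 5) (nat_lit 437) (nat_lit 429) (nat_lit 334)) (XT.lf (nat_lit 0) (nat_lit 4701538910) (nat_lit 380) (nat_lit 4321823761) (nat_lit 456) (nat_lit 45617638845) (nat_lit 121) (nat_lit 5) (nat_lit 126) (nat_lit 5) (nat_lit 127) (nat_lit 5) (nat_lit 438) (nat_lit 429) (nat_lit 333)))) (XT.nd (nat_lit 156) (nat_lit 608) (nat_lit 0) (XT.nd (nat_lit 78) (nat_lit 380) (nat_lit 0) (XT.lf (nat_lit 0) (nat_lit 19654325822) (nat_lit 456) (nat_lit 2849737474) (nat_lit 76) (nat_lit 34543142796) (nat_lit 121) (nat_lit 5) (nat_lit 127) (nat_lit 5) (nat_lit 122) (nat_lit 5) (nat_lit 439) (nat_lit 429) (nat_lit 332)) (XT.lf (nat_lit 0) (nat_lit 32251654094) (nat_lit 456) (nat_lit 10362619285) (nat_lit 76) (nat_lit 16975840032) (nat_lit 116) (nat_lit 5) (nat_lit 122) (nat_lit 5) (nat_lit 117) (nat_lit 5) (nat_lit 440) (nat_lit 429) (nat_lit 331)))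 (XT.nd (nat_lit 78) (nat_lit 304) (nat_lit 0) (XT.lf (nat_lit 0) (nat_lit 44271287879) (nat_lit 304) (nat_lit 2702956440) (nat_lit 380) (nat_lit 15306335934) (nat_lit 112) (nat_lit 5) (nat_lit 116) (nat_lit 5) (nat_lit 117) (nat_lit 5) (nat_lit 441) (nat_lit 429) (nat_lit 330)) (XT.lf (nat_lit 0) (nat_lit 39081738759) (nat_lit 304) (nat_lit 25213888331) (nat_lit 380) (nat_lit 819608756) (nat_lit 108) (nat_lit 5) (nat_lit 112) (nat_lit 5) (nat_lit 113) (nat_lit 5) (nat_lit 442) (nat_lit 429) (nat_lit 329))))) (XT.nd (nat_lit 234) (nat_lit 760) (nat_lit 0) (XT.nd (nat_lit 78) (nat_lit 532) (nat_lit 0) (XT.lf (nat_lit 0) (nat_lit 15537114346) (nat_lit 380) (nat_lit 34388713677) (nat_lit 76) (nat_lit 18179983430) (nat_lit 103) (nat_lit 5) (nat_lit 108) (nat_lit 5) (nat_lit 104) (nat_lit 5) (nat_lit 443) (nat_lit 429) (nat_lit 328)) (XT.nd (nat_lit 78) (nat_lit 228) (nat_lit 0) (XT.lf (nat_lit 0)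 (nat_lit 28320472630) (nat_lit 304) (nat_lit 6178682936) (nat_lit 380) (nat_lit 36769531510) (nat_lit 99) (nat_lit 5) (nat_lit 103) (nat_lit 5) (nat_lit 104) (nat_lit 5) (nat_lit 444) (nat_lit 429) (nat_lit 327)) (XT.lf (nat_lit 0) (nat_lit 22691064087) (nat_lit 228) (nat_lit 33888441585) (nat_lit 304) (nat_lit 18025020303) (nat_lit 96) (nat_lit 5) (nat_lit 99) (nat_lit 5) (nat_lit 100) (nat_lit 5) (nat_lit 445) (nat_lit 429) (nat_lit 326)))) (XT.nd (nat_lit 156) (nat_lit 228) (nat_lit 0) (XT.nd (nat_lit 78) (nat_lit 228) (nat_lit 0) (XT.lf (nat_lit 0) (nat_lit 3500161824) (nat_lit 304) (nat_lit 61022935981) (nat_lit 76) (nat_lit 13614795670) (nat_lit 92) (nat_lit 5) (nat_lit 96) (nat_lit 5) (nat_lit 93) (nat_lit 5) (nat_lit 446) (nat_lit 429) (nat_lit 325)) (XT.lf (nat_lit 0) (nat_lit 11071093104) (nat_lit 228) (nat_lit 16713881549) (nat_lit 304) (nat_lit 54070725276) (nat_lit 89) (nat_lit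 5) (nat_lit 92) (nat_lit 5) (nat_lit 93) (nat_lit 5) (nat_lit 447) (nat_lit 429) (nat_lit 324))) (XT.nd (nat_lit 78) (nat_lit 0) (nat_lit 0) (XT.lf (nat_lit 0) (nat_lit 4883896490) (nat_lit 228) (nat_lit 50827947613) (nat_lit 304) (nat_lit 30074123599) (nat_lit 86) (nat_lit 5) (nat_lit 89) (nat_lit 5) (nat_lit 90) (nat_lit 5) (nat_lit 448) (nat_lit 429) (nat_lit 323)) (XT.lf (nat_lit 0) (nat_lit 87403480871) (nat_lit 304) (nat_lit 1139200341) (nat_lit 76) (nat_lit 1411445150) (nat_lit 86) (nat_lit 5) (nat_lit 90) (nat_lit 5) (nat_lit 87) (nat_lit 5) (nat_lit 449) (nat_lit 429) (nat_lit 322))))))) (XT.nd (nat_lit 1092) (nat_lit 1444) (nat_lit 0) (XT.nd (nat_lit 546) (nat_lit 1140) (nat_lit 0) (XT.nd (nat_lit 234) (nat_lit 836) (nat_lit 0) (XT.nd (nat_lit 78) (nat_lit 380) (nat_lit 0) (XT.lf (nat_lit 0) (nat_lit 28553142333) (nat_lit 228) (nat_lit 7879271477) (nat_lit 76) (nat_lit 57889700951)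 (nat_lit 83) (nat_lit 5) (nat_lit 86) (nat_lit 5) (nat_lit 84) (nat_lit 5) (nat_lit 450) (nat_lit 429) (nat_lit 321)) (XT.nd (nat_lit 78) (nat_lit 152) (nat_lit 0) (XT.lf (nat_lit 0) (nat_lit 63729958951) (nat_lit 304) (nat_lit 14605184989) (nat_lit 76) (nat_lit 20618603492) (nat_lit 80) (nat_lit 5) (nat_lit 84) (nat_lit 5) (nat_lit 81) (nat_lit 5) (nat_lit 451) (nat_lit 429) (nat_lit 320)) (XT.lf (nat_lit 0) (nat_lit 82301230564) (nat_lit 152) (nat_lit 21456354224) (nat_lit 228) (nat_lit 96493001) (nat_lit 78) (nat_lit 5) (nat_lit 80) (nat_lit 5) (nat_lit 81) (nat_lit 5) (nat_lit 452) (nat_lit 429) (nat_lit 319)))) (XT.nd (nat_lit 156) (nat_lit 380) (nat_lit 0) (XT.nd (nat_lit 78) (nat_lit 152) (nat_lit 0) (XT.lf (nat_lit 0) (nat_lit 38798966975) (nat_lit 304) (nat_lit 29379360270) (nat_lit 76) (nat_lit 40830110935) (nat_lit 74) (nat_lit 5) (nat_lit 78) (nat_lit 5) (nat_lit 75) (nat_lit 5)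 (nat_lit 453) (nat_lit 429) (nat_lit 318)) (XT.lf (nat_lit 0) (nat_lit 77217535009) (nat_lit 152) (nat_lit 5532210735) (nat_lit 228) (nat_lit 31727969655) (nat_lit 72) (nat_lit 5) (nat_lit 74) (nat_lit 5) (nat_lit 75) (nat_lit 5) (nat_lit 454) (nat_lit 429) (nat_lit 317))) (XT.nd (nat_lit 78) (nat_lit 152) (nat_lit 0) (XT.lf (nat_lit 0) (nat_lit 12211168182) (nat_lit 228) (nat_lit 46015721143) (nat_lit 76) (nat_lit 62015280206) (nat_lit 69) (nat_lit 5) (nat_lit 72) (nat_lit 5) (nat_lit 70) (nat_lit 5) (nat_lit 455) (nat_lit 429) (nat_lit 316)) (XT.lf (nat_lit 0) (nat_lit 60598478672) (nat_lit 228) (nat_lit 55352526407) (nat_lit 76) (nat_lit 10388536804) (nat_lit 67) (nat_lit 5) (nat_lit 70) (nat_lit 5) (nat_lit 68) (nat_lit 5) (nat_lit 456) (nat_lit 429) (nat_lit 315))))) (XT.nd (nat_lit 234) (nat_lit 608) (nat_lit 0) (XT.nd (nat_lit 78) (nat_lit 380) (nat_lit 0) (XT.lf (nat_lit 0) (nat_lit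 67263492511) (nat_lit 152) (nat_lit 48438232346) (nat_lit 228) (nat_lit 17080731789) (nat_lit 65) (nat_lit 5) (nat_lit 67) (nat_lit 5) (nat_lit 68) (nat_lit 5) (nat_lit 457) (nat_lit 429) (nat_lit 314)) (XT.nd (nat_lit 78) (nat_lit 152) (nat_lit 0) (XT.lf (nat_lit 0) (nat_lit 36729239587) (nat_lit 228) (nat_lit 76607699484) (nat_lit 76) (nat_lit 26256566835) (nat_lit 62) (nat_lit 5) (nat_lit 65) (nat_lit 5) (nat_lit 63) (nat_lit 5) (nat_lit 458) (nat_lit 429) (nat_lit 313)) (XT.lf (nat_lit 0) (nat_lit 57946596692) (nat_lit 152) (nat_lit 39186843795) (nat_lit 228) (nat_lit 49657605282) (nat_lit 60) (nat_lit 5) (nat_lit 62) (nat_lit 5) (nat_lit 63) (nat_lit 5) (nat_lit 459) (nat_lit 429) (nat_lit 312)))) (XT.nd (nat_lit 156) (nat_lit 304) (nat_lit 0) (XT.nd (nat_lit 78) (nat_lit 152) (nat_lit 0) (XT.lf (nat_lit 0) (nat_lit 10415146871) (nat_lit 152) (nat_lit 102070627110) (nat_lit 76) (nat_lit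 41929552313) (nat_lit 58) (nat_lit 5) (nat_lit 60) (nat_lit 5) (nat_lit 59) (nat_lit 5) (nat_lit 460) (nat_lit 429) (nat_lit 311)) (XT.lf (nat_lit 0) (nat_lit 45354918646) (nat_lit 152) (nat_lit 31162654193) (nat_lit 228) (nat_lit 85943092865) (nat_lit 56) (nat_lit 5) (nat_lit 58) (nat_lit 5) (nat_lit 59) (nat_lit 5) (nat_lit 461) (nat_lit 429) (nat_lit 310))) (XT.nd (nat_lit 78) (nat_lit 228) (nat_lit 0) (XT.lf (nat_lit 0) (nat_lit 37440521901) (nat_lit 76) (nat_lit 113742640862) (nat_lit 152) (nat_lit 19802721111) (nat_lit 55) (nat_lit 5) (nat_lit 56) (nat_lit 5) (nat_lit 57) (nat_lit 4) (nat_lit 462) (nat_lit 429) (nat_lit 309)) (XT.lf (nat_lit 0) (nat_lit 27968823067) (nat_lit 152) (nat_lit 25041681341) (nat_lit 228) (nat_lit 126990608073) (nat_lit 52) (nat_lit 5) (nat_lit 54) (nat_lit 5) (nat_lit 55) (nat_lit 5) (nat_lit 463) (nat_lit 429) (nat_lit 308)))))) (XT.nd (nat_lit 546) (nat_lit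 684) (nat_lit 0) (XT.nd (nat_lit 234) (nat_lit 456) (nat_lit 0) (XT.nd (nat_lit 78) (nat_lit 228) (nat_lit 0) (XT.lf (nat_lit 0) (nat_lit 16603956832) (nat_lit 76) (nat_lit 118087289714) (nat_lit 152) (nat_lit 54843268703) (nat_lit 51) (nat_lit 5) (nat_lit 52) (nat_lit 5) (nat_lit 53) (nat_lit 4) (nat_lit 464) (nat_lit 429) (nat_lit 307)) (XT.nd (nat_lit 78) (nat_lit 0) (nat_lit 0) (XT.lf (nat_lit 0) (nat_lit 3753719588) (nat_lit 152) (nat_lit 21754823340) (nat_lit 228) (nat_lit 174145470609) (nat_lit 48) (nat_lit 5) (nat_lit 50) (nat_lit 5) (nat_lit 51) (nat_lit 5) (nat_lit 465) (nat_lit 429) (nat_lit 306)) (XT.lf (nat_lit 0) (nat_lit 114737882572) (nat_lit 228) (nat_lit 11945621302) (nat_lit 76) (nat_lit 83636073181) (nat_lit 48) (nat_lit 5) (nat_lit 51) (nat_lit 5) (nat_lit 49) (nat_lit 4) (nat_lit 466) (nat_lit 429) (nat_lit 305)))) (XT.nd (nat_lit 156) (nat_lit 228) (nat_lit 0) (XT.nd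 (nat_lit 78) (nat_lit 152) (nat_lit 0) (XT.lf (nat_lit 0) (nat_lit 192518186174) (nat_lit 76) (nat_lit 21958779354) (nat_lit 152) (nat_lit 7192850381) (nat_lit 47) (nat_lit 5) (nat_lit 48) (nat_lit 5) (nat_lit 49) (nat_lit 4) (nat_lit 467) (nat_lit 429) (nat_lit 304)) (XT.lf (nat_lit 0) (nat_lit 90027057241) (nat_lit 152) (nat_lit 50835778858) (nat_lit 76) (nat_lit 92767080263) (nat_lit 45) (nat_lit 5) (nat_lit 47) (nat_lit 5) (nat_lit 46) (nat_lit 4) (nat_lit 468) (nat_lit 429) (nat_lit 303))) (XT.nd (nat_lit 78) (nat_lit 152) (nat_lit 0) (XT.lf (nat_lit 0) (nat_lit 171192391856) (nat_lit 76) (nat_lit 27141612924) (nat_lit 152) (nat_lit 48028851857) (nat_lit 44) (nat_lit 5) (nat_lit 45) (nat_lit 5) (nat_lit 46) (nat_lit 4) (nat_lit 469) (nat_lit 429) (nat_lit 302)) (XT.lf (nat_lit 0) (nat_lit 58335585904) (nat_lit 152) (nat_lit 104596153942) (nat_lit 76) (nat_lit 96894059515) (nat_lit 42)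 (nat_lit 5) (nat_lit 44) (nat_lit 5) (nat_lit 43) (nat_lit 4) (nat_lit 470) (nat_lit 429) (nat_lit 301))))) (XT.nd (nat_lit 234) (nat_lit 380) (nat_lit 0) (XT.nd (nat_lit 78) (nat_lit 228) (nat_lit 0) (XT.lf (nat_lit 0) (nat_lit 135491384775) (nat_lit 76) (nat_lit 39960500547) (nat_lit 152) (nat_lit 98678254127) (nat_lit 41) (nat_lit 5) (nat_lit 42) (nat_lit 5) (nat_lit 43) (nat_lit 4) (nat_lit 471) (nat_lit 429) (nat_lit 300)) (XT.nd (nat_lit 78) (nat_lit 76) (nat_lit 0) (XT.lf (nat_lit 0) (nat_lit 17080846490) (nat_lit 152) (nat_lit 178494541272) (nat_lit 76) (nat_lit 93737904408) (nat_lit 39) (nat_lit 5) (nat_lit 41) (nat_lit 5) (nat_lit 40) (nat_lit 4) (nat_lit 472) (nat_lit 429) (nat_lit 299)) (XT.lf (nat_lit 0) (nat_lit 79767131236) (nat_lit 76) (nat_lit 63295367464) (nat_lit 152) (nat_lit 162346763183) (nat_lit 38) (nat_lit 5) (nat_lit 39) (nat_lit 5) (nat_lit 40) (nat_lit 4) (nat_lit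 473) (nat_lit 429) (nat_lit 298)))) (XT.nd (nat_lit 156) (nat_lit 228) (nat_lit 0) (XT.nd (nat_lit 78) (nat_lit 76) (nat_lit 0) (XT.lf (nat_lit 0) (nat_lit 42491192548) (nat_lit 76) (nat_lit 241696449914) (nat_lit 76) (nat_lit 38352018774) (nat_lit 37) (nat_lit 4) (nat_lit 38) (nat_lit 5) (nat_lit 38) (nat_lit 4) (nat_lit 474) (nat_lit 429) (nat_lit 297)) (XT.lf (nat_lit 0) (nat_lit 97565050176) (nat_lit 152) (nat_lit 3336661695) (nat_lit 76) (nat_lit 239811114147) (nat_lit 36) (nat_lit 5) (nat_lit 38) (nat_lit 5) (nat_lit 37) (nat_lit 4) (nat_lit 475) (nat_lit 429) (nat_lit 296))) (XT.nd (nat_lit 78) (nat_lit 152) (nat_lit 0) (XT.lf (nat_lit 0) (nat_lit 248672051577) (nat_lit 152) (nat_lit 56343726136) (nat_lit 0) (nat_lit 55009618473) (nat_lit 35) (nat_lit 5) (nat_lit 37) (nat_lit 4) (nat_lit 35) (nat_lit 4) (nat_lit 476) (nat_lit 429) (nat_lit 295)) (XT.lf (nat_lit 0) (nat_lit 35925633486)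 (nat_lit 152) (nat_lit 120015360824) (nat_lit 76) (nat_lit 224621155105) (nat_lit 33) (nat_lit 5) (nat_lit 35) (nat_lit 5) (nat_lit 34) (nat_lit 4) (nat_lit 477) (nat_lit 429) (nat_lit 294))))))))
noncomputable def xc91 : XT := (XT.nd (nat_lit 59280) (nat_lit 0) (nat_lit 2888) (XT.nd (nat_lit 1092) (nat_lit 380) (nat_lit 0) (XT.nd (nat_lit 546) (nat_lit 532) (nat_lit 0) (XT.nd (nat_lit 234) (nat_lit 304) (nat_lit 0) (XT.nd (nat_lit 78) (nat_lit 228) (nat_lit 0) (XT.lf (nat_lit 0) (nat_lit 195542862740) (nat_lit 152) (nat_lit 195783269868) (nat_lit 0) (nat_lit 11101576499) (nat_lit 32) (nat_lit 5) (nat_lit 34) (nat_lit 4) (nat_lit 32) (nat_lit 4) (nat_lit 478) (nat_lit 429) (nat_lit 293)) (XT.nd (nat_lit 78) (nat_lit 152) (nat_lit 0) (XT.lf (nat_lit 0) (nat_lit 139587168131) (nat_lit 76) (nat_lit 235275188183) (nat_lit 76) (nat_lit 50833512981) (nat_lit 31) (nat_lit 4) (nat_lit 32) (nat_lit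 5) (nat_lit 32) (nat_lit 4) (nat_lit 479) (nat_lit 429) (nat_lit 292)) (XT.lf (nat_lit 0) (nat_lit 58087764141) (nat_lit 76) (nat_lit 60219455123) (nat_lit 152) (nat_lit 332207755758) (nat_lit 29) (nat_lit 5) (nat_lit 30) (nat_lit 5) (nat_lit 31) (nat_lit 4) (nat_lit 480) (nat_lit 429) (nat_lit 291)))) (XT.nd (nat_lit 156) (nat_lit 152) (nat_lit 0) (XT.nd (nat_lit 78) (nat_lit 152) (nat_lit 0) (XT.lf (nat_lit 0) (nat_lit 306298429110) (nat_lit 152) (nat_lit 39985474183) (nat_lit 0) (nat_lit 130639030231) (nat_lit 29) (nat_lit 5) (nat_lit 31) (nat_lit 4) (nat_lit 29) (nat_lit 4) (nat_lit 481) (nat_lit 429) (nat_lit 290)) (XT.lf (nat_lit 0) (nat_lit 10360205263) (nat_lit 152) (nat_lit 154421272155) (nat_lit 76) (nat_lit 340329060424) (nat_lit 27) (nat_lit 5) (nat_lit 29) (nat_lit 5) (nat_lit 28) (nat_lit 4) (nat_lit 482) (nat_lit 429) (nat_lit 289))) (XT.nd (nat_lit 78) (nat_lit 76) (nat_lit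 0) (XT.lf (nat_lit 0) (nat_lit 205042479202) (nat_lit 152) (nat_lit 292363708994) (nat_lit 0) (nat_lit 37747274221) (nat_lit 26) (nat_lit 5) (nat_lit 28) (nat_lit 4) (nat_lit 26) (nat_lit 4) (nat_lit 483) (nat_lit 429) (nat_lit 288)) (XT.lf (nat_lit 0) (nat_lit 110540789736) (nat_lit 76) (nat_lit 311996294434) (nat_lit 76) (nat_lit 144700849345) (nat_lit 25) (nat_lit 4) (nat_lit 26) (nat_lit 5) (nat_lit 26) (nat_lit 4) (nat_lit 484) (nat_lit 429) (nat_lit 287))))) (XT.nd (nat_lit 234) (nat_lit 304) (nat_lit 0) (XT.nd (nat_lit 78) (nat_lit 152) (nat_lit 0) (XT.lf (nat_lit 0) (nat_lit 58940059976) (nat_lit 152) (nat_lit 46468544461) (nat_lit 76) (nat_lit 496178416552) (nat_lit 24) (nat_lit 5) (nat_lit 26) (nat_lit 5) (nat_lit 25) (nat_lit 4) (nat_lit 485) (nat_lit 429) (nat_lit 286)) (XT.nd (nat_lit 78) (nat_lit 76) (nat_lit 0) (XT.lf (nat_lit 0) (nat_lit 282208812516) (nat_lit 152) (nat_lit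 233056897131) (nat_lit 0) (nat_lit 122879409404) (nat_lit 23) (nat_lit 5) (nat_lit 25) (nat_lit 4) (nat_lit 23) (nat_lit 4) (nat_lit 486) (nat_lit 429) (nat_lit 285)) (XT.lf (nat_lit 0) (nat_lit 222160272744) (nat_lit 76) (nat_lit 307246886092) (nat_lit 76) (nat_lit 147917301450) (nat_lit 22) (nat_lit 4) (nat_lit 23) (nat_lit 5) (nat_lit 23) (nat_lit 4) (nat_lit 487) (nat_lit 429) (nat_lit 284)))) (XT.nd (nat_lit 156) (nat_lit 152) (nat_lit 0) (XT.nd (nat_lit 78) (nat_lit 0) (nat_lit 0) (XT.lf (nat_lit 0) (nat_lit 1463061052) (nat_lit 76) (nat_lit 76972457863) (nat_lit 152) (nat_lit 640935293208) (nat_lit 20) (nat_lit 5) (nat_lit 21) (nat_lit 5) (nat_lit 22) (nat_lit 4) (nat_lit 488) (nat_lit 429) (nat_lit 283)) (XT.lf (nat_lit 0) (nat_lit 328522759019) (nat_lit 152) (nat_lit 258816455461) (nat_lit 0) (nat_lit 176779989155) (nat_lit 20) (nat_lit 5) (nat_lit 22) (nat_lit 4) (nat_lit 20) (nat_lit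 4) (nat_lit 489) (nat_lit 429) (nat_lit 282))) (XT.nd (nat_lit 78) (nat_lit 76) (nat_lit 0) (XT.lf (nat_lit 0) (nat_lit 243496693177) (nat_lit 76) (nat_lit 360219363249) (nat_lit 76) (nat_lit 208476456143) (nat_lit 19) (nat_lit 4) (nat_lit 20) (nat_lit 5) (nat_lit 20) (nat_lit 4) (nat_lit 490) (nat_lit 429) (nat_lit 281)) (XT.lf (nat_lit 0) (nat_lit 40216735283) (nat_lit 152) (nat_lit 69298726851) (nat_lit 76) (nat_lit 754338393583) (nat_lit 18) (nat_lit 5) (nat_lit 20) (nat_lit 5) (nat_lit 19) (nat_lit 4) (nat_lit 491) (nat_lit 429) (nat_lit 280)))))) (XT.nd (nat_lit 57642) (nat_lit 0) (nat_lit 9424) (XT.nd (nat_lit 234) (nat_lit 228) (nat_lit 0) (XT.nd (nat_lit 78) (nat_lit 76) (nat_lit 0) (XT.lf (nat_lit 0) (nat_lit 311821795461) (nat_lit 152) (nat_lit 439834899885) (nat_lit 0) (nat_lit 167304507989) (nat_lit 17) (nat_lit 5) (nat_lit 19) (nat_lit 4) (nat_lit 17) (nat_lit 4) (nat_lit 492)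 (nat_lit 429) (nat_lit 279)) (XT.nd (nat_lit 78) (nat_lit 0) (nat_lit 0) (XT.lf (nat_lit 0) (nat_lit 96711285586) (nat_lit 76) (nat_lit 513027045442) (nat_lit 76) (nat_lit 368509654211) (nat_lit 16) (nat_lit 4) (nat_lit 17) (nat_lit 5) (nat_lit 17) (nat_lit 4) (nat_lit 493) (nat_lit 429) (nat_lit 278)) (XT.lf (nat_lit 0) (nat_lit 691886716024) (nat_lit 76) (nat_lit 247262709586) (nat_lit 76) (nat_lit 102745222282) (nat_lit 16) (nat_lit 4) (nat_lit 17) (nat_lit 5) (nat_lit 17) (nat_lit 4) (nat_lit 494) (nat_lit 429) (nat_lit 277)))) (XT.nd (nat_lit 156) (nat_lit 76) (nat_lit 0) (XT.nd (nat_lit 78) (nat_lit 0) (nat_lit 0) (XT.lf (nat_lit 0) (nat_lit 182675489564) (nat_lit 152) (nat_lit 882559332309) (nat_lit 0) (nat_lit 45039702649) (nat_lit 14) (nat_lit 5) (nat_lit 16) (nat_lit 4) (nat_lit 14) (nat_lit 4) (nat_lit 495) (nat_lit 429) (nat_lit 276)) (XT.lf (nat_lit 0) (nat_lit 497744083959) (nat_lit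 152) (nat_lit 325667575447) (nat_lit 0) (nat_lit 360108218598) (nat_lit 14) (nat_lit 5) (nat_lit 16) (nat_lit 4) (nat_lit 14) (nat_lit 4) (nat_lit 496) (nat_lit 429) (nat_lit 275))) (XT.nd (nat_lit 78) (nat_lit 0) (nat_lit 0) (XT.lf (nat_lit 0) (nat_lit 284893194609) (nat_lit 76) (nat_lit 557572610596) (nat_lit 76) (nat_lit 419936672601) (nat_lit 13) (nat_lit 4) (nat_lit 14) (nat_lit 5) (nat_lit 14) (nat_lit 4) (nat_lit 497) (nat_lit 429) (nat_lit 274)) (XT.lf (nat_lit 0) (nat_lit 955927651496) (nat_lit 76) (nat_lit 264510204868) (nat_lit 76) (nat_lit 126874199619) (nat_lit 13) (nat_lit 4) (nat_lit 14) (nat_lit 5) (nat_lit 14) (nat_lit 4) (nat_lit 498) (nat_lit 429) (nat_lit 273))))) (XT.nd (nat_lit 234) (nat_lit 0) (nat_lit 152) (XT.nd (nat_lit 78) (nat_lit 0) (nat_lit 76) (XT.lf (nat_lit 0) (nat_lit 7679181106) (nat_lit 836) (nat_lit 6384323709) (nat_lit 836) (nat_lit 6384323709) (nat_lit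 137) (nat_lit 3) (nat_lit 148) (nat_lit 3) (nat_lit 148) (nat_lit 5) (nat_lit 430) (nat_lit 430) (nat_lit 340)) (XT.nd (nat_lit 78) (nat_lit 0) (nat_lit 0) (XT.lf (nat_lit 0) (nat_lit 16408470384) (nat_lit 760) (nat_lit 22376301722) (nat_lit 836) (nat_lit 3724908506) (nat_lit 138) (nat_lit 5) (nat_lit 148) (nat_lit 5) (nat_lit 149) (nat_lit 5) (nat_lit 431) (nat_lit 430) (nat_lit 339)) (XT.lf (nat_lit 76) (nat_lit 11777225877) (nat_lit 0) (nat_lit 6643530222) (nat_lit 836) (nat_lit 25788162921) (nat_lit 139) (nat_lit 5) (nat_lit 138) (nat_lit 5) (nat_lit 149) (nat_lit 5) (nat_lit 432) (nat_lit 430) (nat_lit 338)))) (XT.nd (nat_lit 156) (nat_lit 0) (nat_lit 152) (XT.nd (nat_lit 78) (nat_lit 0) (nat_lit 76) (XT.lf (nat_lit 76) (nat_lit 3087898019) (nat_lit 0) (nat_lit 18383124567) (nat_lit 836) (nat_lit 24529225318) (nat_lit 140) (nat_lit 5) (nat_lit 139) (nat_lit 5) (nat_lit 150) (nat_lit 5)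 (nat_lit 433) (nat_lit 430) (nat_lit 337)) (XT.lf (nat_lit 0) (nat_lit 25701444479) (nat_lit 760) (nat_lit 5679795505) (nat_lit 836) (nat_lit 16506837614) (nat_lit 140) (nat_lit 5) (nat_lit 150) (nat_lit 5) (nat_lit 151) (nat_lit 5) (nat_lit 434) (nat_lit 430) (nat_lit 336))) (XT.nd (nat_lit 78) (nat_lit 0) (nat_lit 0) (XT.lf (nat_lit 0) (nat_lit 31193240973) (nat_lit 760) (nat_lit 14600836408) (nat_lit 836) (nat_lit 4086710360) (nat_lit 141) (nat_lit 5) (nat_lit 151) (nat_lit 5) (nat_lit 152) (nat_lit 5) (nat_lit 435) (nat_lit 430) (nat_lit 335)) (XT.lf (nat_lit 76) (nat_lit 28054785332) (nat_lit 0) (nat_lit 10132790346) (nat_lit 836) (nat_lit 13792180324) (nat_lit 142) (nat_lit 5) (nat_lit 141) (nat_lit 5) (nat_lit 152) (nat_lit 5) (nat_lit 436) (nat_lit 430) (nat_lit 334))))))) (XT.nd (nat_lit 1092) (nat_lit 2660) (nat_lit 0) (XT.nd (nat_lit 546) (nat_lit 1672) (nat_lit 0) (XT.nd (nat_lit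 234) (nat_lit 988) (nat_lit 0) (XT.nd (nat_lit 78) (nat_lit 836) (nat_lit 0) (XT.lf (nat_lit 0) (nat_lit 20619211296) (nat_lit 760) (nat_lit 26141555291) (nat_lit 836) (nat_lit 7434910621) (nat_lit 132) (nat_lit 5) (nat_lit 142) (nat_lit 5) (nat_lit 143) (nat_lit 5) (nat_lit 437) (nat_lit 430) (nat_lit 333)) (XT.nd (nat_lit 78) (nat_lit 380) (nat_lit 0) (XT.lf (nat_lit 0) (nat_lit 449923231) (nat_lit 456) (nat_lit 43487428490) (nat_lit 76) (nat_lit 12601927006) (nat_lit 126) (nat_lit 5) (nat_lit 132) (nat_lit 5) (nat_lit 127) (nat_lit 5) (nat_lit 438) (nat_lit 430) (nat_lit 332)) (XT.lf (nat_lit 0) (nat_lit 5153740497) (nat_lit 380) (nat_lit 4666734096) (nat_lit 456) (nat_lit 49188029675) (nat_lit 121) (nat_lit 5) (nat_lit 126) (nat_lit 5) (nat_lit 127) (nat_lit 5) (nat_lit 439) (nat_lit 430) (nat_lit 331)))) (XT.nd (nat_lit 156) (nat_lit 608) (nat_lit 0) (XT.nd (nat_lit 78) (nat_lit 380) (nat_lit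 0) (XT.lf (nat_lit 0) (nat_lit 21296353327) (nat_lit 456) (nat_lit 3003787954) (nat_lit 76) (nat_lit 37307343130) (nat_lit 121) (nat_lit 5) (nat_lit 127) (nat_lit 5) (nat_lit 122) (nat_lit 5) (nat_lit 440) (nat_lit 430) (nat_lit 330)) (XT.lf (nat_lit 0) (nat_lit 34897489838) (nat_lit 456) (nat_lit 11117698403) (nat_lit 76) (nat_lit 18338836020) (nat_lit 116) (nat_lit 5) (nat_lit 122) (nat_lit 5) (nat_lit 117) (nat_lit 5) (nat_lit 441) (nat_lit 430) (nat_lit 329))) (XT.nd (nat_lit 78) (nat_lit 304) (nat_lit 0) (XT.lf (nat_lit 0) (nat_lit 47883708409) (nat_lit 304) (nat_lit 2910416051) (nat_lit 380) (nat_lit 16465793098) (nat_lit 112) (nat_lit 5) (nat_lit 116) (nat_lit 5) (nat_lit 117) (nat_lit 5) (nat_lit 442) (nat_lit 430) (nat_lit 328)) (XT.lf (nat_lit 0) (nat_lit 42278764982) (nat_lit 304) (nat_lit 27219092061) (nat_lit 380) (nat_lit 823657490) (nat_lit 108) (nat_lit 5) (nat_lit 112) (nat_lit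 5) (nat_lit 113) (nat_lit 5) (nat_lit 443) (nat_lit 430) (nat_lit 327))))) (XT.nd (nat_lit 234) (nat_lit 760) (nat_lit 0) (XT.nd (nat_lit 78) (nat_lit 532) (nat_lit 0) (XT.lf (nat_lit 0) (nat_lit 16836509953) (nat_lit 380) (nat_lit 37067876776) (nat_lit 76) (nat_lit 19647058449) (nat_lit 103) (nat_lit 5) (nat_lit 108) (nat_lit 5) (nat_lit 104) (nat_lit 5) (nat_lit 444) (nat_lit 430) (nat_lit 326)) (XT.nd (nat_lit 78) (nat_lit 228) (nat_lit 0) (XT.lf (nat_lit 0) (nat_lit 30654918272) (nat_lit 304) (nat_lit 6657490743) (nat_lit 380) (nat_lit 39655097839) (nat_lit 99) (nat_lit 5) (nat_lit 103) (nat_lit 5) (nat_lit 104) (nat_lit 5) (nat_lit 445) (nat_lit 430) (nat_lit 325)) (XT.lf (nat_lit 0) (nat_lit 24574494383) (nat_lit 228) (nat_lit 36582030863) (nat_lit 304) (nat_lit 19413821392) (nat_lit 96) (nat_lit 5) (nat_lit 99) (nat_lit 5) (nat_lit 100) (nat_lit 5) (nat_lit 446) (nat_lit 430) (nat_lit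 324)))) (XT.nd (nat_lit 156) (nat_lit 228) (nat_lit 0) (XT.nd (nat_lit 78) (nat_lit 228) (nat_lit 0) (XT.lf (nat_lit 0) (nat_lit 3829183649) (nat_lit 304) (nat_lit 65835789454) (nat_lit 76) (nat_lit 14721493946) (nat_lit 92) (nat_lit 5) (nat_lit 96) (nat_lit 5) (nat_lit 93) (nat_lit 5) (nat_lit 447) (nat_lit 430) (nat_lit 323)) (XT.lf (nat_lit 0) (nat_lit 12022764110) (nat_lit 228) (nat_lit 18031417294) (nat_lit 304) (nat_lit 58347647172) (nat_lit 89) (nat_lit 5) (nat_lit 92) (nat_lit 5) (nat_lit 93) (nat_lit 5) (nat_lit 448) (nat_lit 430) (nat_lit 322))) (XT.nd (nat_lit 78) (nat_lit 0) (nat_lit 0) (XT.lf (nat_lit 0) (nat_lit 5339658070) (nat_lit 228) (nat_lit 54873403243) (nat_lit 304) (nat_lit 32433563924) (nat_lit 86) (nat_lit 5) (nat_lit 89) (nat_lit 5) (nat_lit 90) (nat_lit 5) (nat_lit 449) (nat_lit 430) (nat_lit 321)) (XT.lf (nat_lit 0) (nat_lit 94437050192) (nat_lit 304) (nat_lit 1168349975)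 (nat_lit 76) (nat_lit 1542985840) (nat_lit 86) (nat_lit 5) (nat_lit 90) (nat_lit 5) (nat_lit 87) (nat_lit 5) (nat_lit 450) (nat_lit 430) (nat_lit 320)))))) (XT.nd (nat_lit 546) (nat_lit 1216) (nat_lit 0) (XT.nd (nat_lit 234) (nat_lit 836) (nat_lit 0) (XT.nd (nat_lit 78) (nat_lit 380) (nat_lit 0) (XT.lf (nat_lit 0) (nat_lit 30877198954) (nat_lit 228) (nat_lit 8448999292) (nat_lit 76) (nat_lit 62539690212) (nat_lit 83) (nat_lit 5) (nat_lit 86) (nat_lit 5) (nat_lit 84) (nat_lit 5) (nat_lit 451) (nat_lit 430) (nat_lit 319)) (XT.nd (nat_lit 78) (nat_lit 152) (nat_lit 0) (XT.lf (nat_lit 0) (nat_lit 68866433248) (nat_lit 304) (nat_lit 15714042816) (nat_lit 76) (nat_lit 22287662449) (nat_lit 80) (nat_lit 5) (nat_lit 84) (nat_lit 5) (nat_lit 81) (nat_lit 5) (nat_lit 452) (nat_lit 430) (nat_lit 318)) (XT.lf (nat_lit 0) (nat_lit 88942297708) (nat_lit 152) (nat_lit 23152040322) (nat_lit 228) (nat_lit 66254181)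 (nat_lit 78) (nat_lit 5) (nat_lit 80) (nat_lit 5) (nat_lit 81) (nat_lit 5) (nat_lit 453) (nat_lit 430) (nat_lit 317)))) (XT.nd (nat_lit 156) (nat_lit 380) (nat_lit 0) (XT.nd (nat_lit 78) (nat_lit 152) (nat_lit 0) (XT.lf (nat_lit 0) (nat_lit 41938099210) (nat_lit 304) (nat_lit 31672625776) (nat_lit 76) (nat_lit 44116623558) (nat_lit 74) (nat_lit 5) (nat_lit 78) (nat_lit 5) (nat_lit 75) (nat_lit 5) (nat_lit 454) (nat_lit 430) (nat_lit 316)) (XT.lf (nat_lit 0) (nat_lit 83449540355) (nat_lit 152) (nat_lit 5953643914) (nat_lit 228) (nat_lit 34231071762) (nat_lit 72) (nat_lit 5) (nat_lit 74) (nat_lit 5) (nat_lit 75) (nat_lit 5) (nat_lit 455) (nat_lit 430) (nat_lit 315))) (XT.nd (nat_lit 78) (nat_lit 152) (nat_lit 0) (XT.lf (nat_lit 0) (nat_lit 13220713148) (nat_lit 228) (nat_lit 49642378449) (nat_lit 76) (nat_lit 66996815697) (nat_lit 69) (nat_lit 5) (nat_lit 72) (nat_lit 5) (nat_lit 70) (nat_lit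 5) (nat_lit 456) (nat_lit 430) (nat_lit 314)) (XT.lf (nat_lit 0) (nat_lit 65477735931) (nat_lit 228) (nat_lit 59727276267) (nat_lit 76) (nat_lit 11240121102) (nat_lit 67) (nat_lit 5) (nat_lit 70) (nat_lit 5) (nat_lit 68) (nat_lit 5) (nat_lit 457) (nat_lit 430) (nat_lit 313))))) (XT.nd (nat_lit 312) (nat_lit 532) (nat_lit 0) (XT.nd (nat_lit 156) (nat_lit 304) (nat_lit 0) (XT.nd (nat_lit 78) (nat_lit 228) (nat_lit 0) (XT.lf (nat_lit 0) (nat_lit 72695701195) (nat_lit 152) (nat_lit 52292014520) (nat_lit 228) (nat_lit 18415842055) (nat_lit 65) (nat_lit 5) (nat_lit 67) (nat_lit 5) (nat_lit 68) (nat_lit 5) (nat_lit 458) (nat_lit 430) (nat_lit 312)) (XT.lf (nat_lit 0) (nat_lit 39696782291) (nat_lit 228) (nat_lit 82685327467) (nat_lit 76) (nat_lit 28377414005) (nat_lit 62) (nat_lit 5) (nat_lit 65) (nat_lit 5) (nat_lit 63) (nat_lit 5) (nat_lit 459) (nat_lit 430) (nat_lit 311))) (XT.nd (nat_lit 78) (nat_lit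 152) (nat_lit 0) (XT.lf (nat_lit 0) (nat_lit 62631096527) (nat_lit 152) (nat_lit 42300820980) (nat_lit 228) (nat_lit 53601019578) (nat_lit 60) (nat_lit 5) (nat_lit 62) (nat_lit 5) (nat_lit 63) (nat_lit 5) (nat_lit 460) (nat_lit 430) (nat_lit 310)) (XT.lf (nat_lit 0) (nat_lit 11275589645) (nat_lit 152) (nat_lit 110187703725) (nat_lit 76) (nat_lit 45303895487) (nat_lit 58) (nat_lit 5) (nat_lit 60) (nat_lit 5) (nat_lit 59) (nat_lit 5) (nat_lit 461) (nat_lit 430) (nat_lit 309)))) (XT.nd (nat_lit 156) (nat_lit 304) (nat_lit 0) (XT.nd (nat_lit 78) (nat_lit 76) (nat_lit 0) (XT.lf (nat_lit 0) (nat_lit 49029774744) (nat_lit 152) (nat_lit 33635143245) (nat_lit 228) (nat_lit 92791302162) (nat_lit 56) (nat_lit 5) (nat_lit 58) (nat_lit 5) (nat_lit 59) (nat_lit 5) (nat_lit 462) (nat_lit 430) (nat_lit 308)) (XT.lf (nat_lit 0) (nat_lit 40481142916) (nat_lit 76) (nat_lit 122821695948) (nat_lit 152) (nat_lit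 21360662860) (nat_lit 55) (nat_lit 5) (nat_lit 56) (nat_lit 5) (nat_lit 57) (nat_lit 4) (nat_lit 463) (nat_lit 430) (nat_lit 307))) (XT.nd (nat_lit 78) (nat_lit 76) (nat_lit 0) (XT.lf (nat_lit 0) (nat_lit 30250542047) (nat_lit 152) (nat_lit 27025043880) (nat_lit 228) (nat_lit 137124401989) (nat_lit 52) (nat_lit 5) (nat_lit 54) (nat_lit 5) (nat_lit 55) (nat_lit 5) (nat_lit 464) (nat_lit 430) (nat_lit 306)) (XT.lf (nat_lit 0) (nat_lit 17975427621) (nat_lit 76) (nat_lit 127514526653) (nat_lit 152) (nat_lit 59206150402) (nat_lit 51) (nat_lit 5) (nat_lit 52) (nat_lit 5) (nat_lit 53) (nat_lit 4) (nat_lit 465) (nat_lit 430) (nat_lit 305))))))))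
noncomputable def xc92 : XT := (XT.nd (nat_lit 2184) (nat_lit 304) (nat_lit 0) (XT.nd (nat_lit 1092) (nat_lit 1140) (nat_lit 0) (XT.nd (nat_lit 546) (nat_lit 684) (nat_lit 0) (XT.nd (nat_lit 234) (nat_lit 456) (nat_lit 0) (XT.nd (nat_lit 78) (nat_lit 76) (nat_lit 0) (XT.lf (nat_lit 0) (nat_lit 4096049753) (nat_lit 152) (nat_lit 23475863496) (nat_lit 228) (nat_lit 188053285799) (nat_lit 48) (nat_lit 5) (nat_lit 50) (nat_lit 5) (nat_lit 51) (nat_lit 5) (nat_lit 466) (nat_lit 430) (nat_lit 304)) (XT.nd (nat_lit 78) (nat_lit 76) (nat_lit 0) (XT.lf (nat_lit 0) (nat_lit 123938199221) (nat_lit 228) (nat_lit 12861580145) (nat_lit 76) (nat_lit 90344298413) (nat_lit 48) (nat_lit 5) (nat_lit 51) (nat_lit 5) (nat_lit 49) (nat_lit 4) (nat_lit 467) (nat_lit 430) (nat_lit 303)) (XT.lf (nat_lit 0) (nat_lit 207957607012) (nat_lit 76) (nat_lit 23697817812) (nat_lit 152) (nat_lit 7746960202) (nat_lit 47) (nat_lit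 5) (nat_lit 48) (nat_lit 5) (nat_lit 49) (nat_lit 4) (nat_lit 468) (nat_lit 430) (nat_lit 302)))) (XT.nd (nat_lit 156) (nat_lit 228) (nat_lit 0) (XT.nd (nat_lit 78) (nat_lit 76) (nat_lit 0) (XT.lf (nat_lit 0) (nat_lit 97249176198) (nat_lit 152) (nat_lit 54864956268) (nat_lit 76) (nat_lit 100205178558) (nat_lit 45) (nat_lit 5) (nat_lit 47) (nat_lit 5) (nat_lit 46) (nat_lit 4) (nat_lit 469) (nat_lit 430) (nat_lit 301)) (XT.lf (nat_lit 0) (nat_lit 184923830363) (nat_lit 76) (nat_lit 29295933872) (nat_lit 152) (nat_lit 51851168119) (nat_lit 44) (nat_lit 5) (nat_lit 45) (nat_lit 5) (nat_lit 46) (nat_lit 4) (nat_lit 470) (nat_lit 430) (nat_lit 300))) (XT.nd (nat_lit 78) (nat_lit 76) (nat_lit 0) (XT.lf (nat_lit 0) (nat_lit 63021158815) (nat_lit 152) (nat_lit 112928088337) (nat_lit 76) (nat_lit 104661679098) (nat_lit 42) (nat_lit 5) (nat_lit 44) (nat_lit 5) (nat_lit 43) (nat_lit 4) (nat_lit 471) (nat_lit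 430) (nat_lit 299)) (XT.lf (nat_lit 0) (nat_lit 146364899482) (nat_lit 76) (nat_lit 43141009610) (nat_lit 152) (nat_lit 106553747164) (nat_lit 41) (nat_lit 5) (nat_lit 42) (nat_lit 5) (nat_lit 43) (nat_lit 4) (nat_lit 472) (nat_lit 430) (nat_lit 298))))) (XT.nd (nat_lit 234) (nat_lit 380) (nat_lit 0) (XT.nd (nat_lit 78) (nat_lit 152) (nat_lit 0) (XT.lf (nat_lit 0) (nat_lit 18464904002) (nat_lit 152) (nat_lit 192740193302) (nat_lit 76) (nat_lit 101252378130) (nat_lit 39) (nat_lit 5) (nat_lit 41) (nat_lit 5) (nat_lit 40) (nat_lit 4) (nat_lit 473) (nat_lit 430) (nat_lit 297)) (XT.nd (nat_lit 78) (nat_lit 76) (nat_lit 0) (XT.lf (nat_lit 0) (nat_lit 86180939265) (nat_lit 76) (nat_lit 68343352618) (nat_lit 152) (nat_lit 175316870713) (nat_lit 38) (nat_lit 5) (nat_lit 39) (nat_lit 5) (nat_lit 40) (nat_lit 4) (nat_lit 474) (nat_lit 430) (nat_lit 296)) (XT.lf (nat_lit 0) (nat_lit 45922085873) (nat_lit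 76) (nat_lit 261016836816) (nat_lit 76) (nat_lit 41403097474) (nat_lit 37) (nat_lit 4) (nat_lit 38) (nat_lit 5) (nat_lit 38) (nat_lit 4) (nat_lit 475) (nat_lit 430) (nat_lit 295)))) (XT.nd (nat_lit 156) (nat_lit 228) (nat_lit 0) (XT.nd (nat_lit 78) (nat_lit 76) (nat_lit 0) (XT.lf (nat_lit 0) (nat_lit 105385565343) (nat_lit 152) (nat_lit 3573830573) (nat_lit 76) (nat_lit 259009690158) (nat_lit 36) (nat_lit 5) (nat_lit 38) (nat_lit 5) (nat_lit 37) (nat_lit 4) (nat_lit 476) (nat_lit 430) (nat_lit 294)) (XT.lf (nat_lit 0) (nat_lit 268580653424) (nat_lit 152) (nat_lit 60822238392) (nat_lit 0) (nat_lit 59423793744) (nat_lit 35) (nat_lit 5) (nat_lit 37) (nat_lit 4) (nat_lit 35) (nat_lit 4) (nat_lit 477) (nat_lit 430) (nat_lit 293))) (XT.nd (nat_lit 78) (nat_lit 76) (nat_lit 0) (XT.lf (nat_lit 0) (nat_lit 38814088387) (nat_lit 152) (nat_lit 129588386894) (nat_lit 76) (nat_lit 242603925494) (nat_lit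 33) (nat_lit 5) (nat_lit 35) (nat_lit 5) (nat_lit 34) (nat_lit 4) (nat_lit 478) (nat_lit 430) (nat_lit 292)) (XT.lf (nat_lit 0) (nat_lit 211200256572) (nat_lit 152) (nat_lit 211418472426) (nat_lit 0) (nat_lit 12002498243) (nat_lit 32) (nat_lit 5) (nat_lit 34) (nat_lit 4) (nat_lit 32) (nat_lit 4) (nat_lit 479) (nat_lit 430) (nat_lit 291)))))) (XT.nd (nat_lit 546) (nat_lit 532) (nat_lit 0) (XT.nd (nat_lit 234) (nat_lit 380) (nat_lit 0) (XT.nd (nat_lit 78) (nat_lit 152) (nat_lit 0) (XT.lf (nat_lit 0) (nat_lit 150780407277) (nat_lit 76) (nat_lit 254084278005) (nat_lit 76) (nat_lit 54886186205) (nat_lit 31) (nat_lit 4) (nat_lit 32) (nat_lit 5) (nat_lit 32) (nat_lit 4) (nat_lit 480) (nat_lit 430) (nat_lit 290)) (XT.nd (nat_lit 78) (nat_lit 0) (nat_lit 0) (XT.lf (nat_lit 0) (nat_lit 62760338645) (nat_lit 76) (nat_lit 65024412191) (nat_lit 152) (nat_lit 358770774198) (nat_lit 29) (nat_lit 5) (nat_lit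 30) (nat_lit 5) (nat_lit 31) (nat_lit 4) (nat_lit 481) (nat_lit 430) (nat_lit 289)) (XT.lf (nat_lit 0) (nat_lit 330814480051) (nat_lit 152) (nat_lit 43160233737) (nat_lit 0) (nat_lit 141101445320) (nat_lit 29) (nat_lit 5) (nat_lit 31) (nat_lit 4) (nat_lit 29) (nat_lit 4) (nat_lit 482) (nat_lit 430) (nat_lit 288)))) (XT.nd (nat_lit 156) (nat_lit 152) (nat_lit 0) (XT.nd (nat_lit 78) (nat_lit 76) (nat_lit 0) (XT.lf (nat_lit 0) (nat_lit 11200846883) (nat_lit 152) (nat_lit 166751550733) (nat_lit 76) (nat_lit 367566391756) (nat_lit 27) (nat_lit 5) (nat_lit 29) (nat_lit 5) (nat_lit 28) (nat_lit 4) (nat_lit 483) (nat_lit 430) (nat_lit 287)) (XT.lf (nat_lit 0) (nat_lit 221457350004) (nat_lit 152) (nat_lit 315730008689) (nat_lit 0) (nat_lit 40777806875) (nat_lit 26) (nat_lit 5) (nat_lit 28) (nat_lit 4) (nat_lit 26) (nat_lit 4) (nat_lit 484) (nat_lit 430) (nat_lit 286))) (XT.nd (nat_lit 78) (nat_lit 76)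 (nat_lit 0) (XT.lf (nat_lit 0) (nat_lit 119405859208) (nat_lit 76) (nat_lit 336945154807) (nat_lit 76) (nat_lit 156265405823) (nat_lit 25) (nat_lit 4) (nat_lit 26) (nat_lit 5) (nat_lit 26) (nat_lit 4) (nat_lit 485) (nat_lit 430) (nat_lit 285)) (XT.lf (nat_lit 0) (nat_lit 63665582394) (nat_lit 152) (nat_lit 50165495680) (nat_lit 76) (nat_lit 535882388534) (nat_lit 24) (nat_lit 5) (nat_lit 26) (nat_lit 5) (nat_lit 25) (nat_lit 4) (nat_lit 486) (nat_lit 430) (nat_lit 284))))) (XT.nd (nat_lit 234) (nat_lit 228) (nat_lit 0) (XT.nd (nat_lit 78) (nat_lit 228) (nat_lit 0) (XT.lf (nat_lit 0) (nat_lit 304795530199) (nat_lit 152) (nat_lit 251681468403) (nat_lit 0) (nat_lit 132719229173) (nat_lit 23) (nat_lit 5) (nat_lit 25) (nat_lit 4) (nat_lit 23) (nat_lit 4) (nat_lit 487) (nat_lit 430) (nat_lit 283)) (XT.nd (nat_lit 78) (nat_lit 152) (nat_lit 0) (XT.lf (nat_lit 0) (nat_lit 239952206733) (nat_lit 76)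 (nat_lit 331817094206) (nat_lit 76) (nat_lit 159740637547) (nat_lit 22) (nat_lit 4) (nat_lit 23) (nat_lit 5) (nat_lit 23) (nat_lit 4) (nat_lit 488) (nat_lit 430) (nat_lit 282)) (XT.lf (nat_lit 0) (nat_lit 1598695277) (nat_lit 76) (nat_lit 83120961327) (nat_lit 152) (nat_lit 692200355545) (nat_lit 20) (nat_lit 5) (nat_lit 21) (nat_lit 5) (nat_lit 22) (nat_lit 4) (nat_lit 489) (nat_lit 430) (nat_lit 281)))) (XT.nd (nat_lit 156) (nat_lit 152) (nat_lit 0) (XT.nd (nat_lit 78) (nat_lit 76) (nat_lit 0) (XT.lf (nat_lit 0) (nat_lit 354813321656) (nat_lit 152) (nat_lit 279504263386) (nat_lit 0) (nat_lit 190930717663) (nat_lit 20) (nat_lit 5) (nat_lit 22) (nat_lit 4) (nat_lit 20) (nat_lit 4) (nat_lit 490) (nat_lit 430) (nat_lit 280)) (XT.lf (nat_lit 0) (nat_lit 262993176244) (nat_lit 76) (nat_lit 389028520540) (nat_lit 76) (nat_lit 225145798883) (nat_lit 19) (nat_lit 4) (nat_lit 20) (nat_lit 5) (nat_lit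 20) (nat_lit 4) (nat_lit 491) (nat_lit 430) (nat_lit 279))) (XT.nd (nat_lit 78) (nat_lit 76) (nat_lit 0) (XT.lf (nat_lit 0) (nat_lit 43441937935) (nat_lit 152) (nat_lit 74826857834) (nat_lit 76) (nat_lit 814692975111) (nat_lit 18) (nat_lit 5) (nat_lit 20) (nat_lit 5) (nat_lit 19) (nat_lit 4) (nat_lit 492) (nat_lit 430) (nat_lit 278)) (XT.lf (nat_lit 0) (nat_lit 336775174006) (nat_lit 152) (nat_lit 475006352112) (nat_lit 0) (nat_lit 180696191644) (nat_lit 17) (nat_lit 5) (nat_lit 19) (nat_lit 4) (nat_lit 17) (nat_lit 4) (nat_lit 493) (nat_lit 430) (nat_lit 277))))))) (XT.nd (nat_lit 58266) (nat_lit 0) (nat_lit 5092) (XT.nd (nat_lit 57720) (nat_lit 0) (nat_lit 8588) (XT.nd (nat_lit 234) (nat_lit 76) (nat_lit 0) (XT.nd (nat_lit 78) (nat_lit 152) (nat_lit 0) (XT.lf (nat_lit 0) (nat_lit 104462861550) (nat_lit 76) (nat_lit 554061834409) (nat_lit 76) (nat_lit 397982763090) (nat_lit 16) (nat_lit 4)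 (nat_lit 17) (nat_lit 5) (nat_lit 17) (nat_lit 4) (nat_lit 494) (nat_lit 430) (nat_lit 276)) (XT.nd (nat_lit 78) (nat_lit 152) (nat_lit 0) (XT.lf (nat_lit 0) (nat_lit 747251239525) (nat_lit 76) (nat_lit 267036897957) (nat_lit 76) (nat_lit 110957744270) (nat_lit 16) (nat_lit 4) (nat_lit 17) (nat_lit 5) (nat_lit 17) (nat_lit 4) (nat_lit 495) (nat_lit 430) (nat_lit 275)) (XT.lf (nat_lit 0) (nat_lit 197296198693) (nat_lit 152) (nat_lit 953150641198) (nat_lit 0) (nat_lit 48649313023) (nat_lit 14) (nat_lit 5) (nat_lit 16) (nat_lit 4) (nat_lit 14) (nat_lit 4) (nat_lit 496) (nat_lit 430) (nat_lit 274)))) (XT.nd (nat_lit 57330) (nat_lit 0) (nat_lit 9424) (XT.nd (nat_lit 78) (nat_lit 76) (nat_lit 0) (XT.lf (nat_lit 0) (nat_lit 537569786568) (nat_lit 152) (nat_lit 351708539172) (nat_lit 0) (nat_lit 388922833644) (nat_lit 14) (nat_lit 5) (nat_lit 16) (nat_lit 4) (nat_lit 14) (nat_lit 4) (nat_lit 497) (nat_lit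 430) (nat_lit 273)) (XT.lf (nat_lit 0) (nat_lit 307696551761) (nat_lit 76) (nat_lit 602172422096) (nat_lit 76) (nat_lit 453525406900) (nat_lit 13) (nat_lit 4) (nat_lit 14) (nat_lit 5) (nat_lit 14) (nat_lit 4) (nat_lit 498) (nat_lit 430) (nat_lit 272))) (XT.nd (nat_lit 78) (nat_lit 0) (nat_lit 76) (XT.lf (nat_lit 0) (nat_lit 8352434809) (nat_lit 836) (nat_lit 6864130169) (nat_lit 836) (nat_lit 6864130169) (nat_lit 137) (nat_lit 3) (nat_lit 148) (nat_lit 3) (nat_lit 148) (nat_lit 5) (nat_lit 431) (nat_lit 431) (nat_lit 338)) (XT.lf (nat_lit 0) (nat_lit 17830387970) (nat_lit 760) (nat_lit 24100895293) (nat_lit 836) (nat_lit 3973684434) (nat_lit 138) (nat_lit 5) (nat_lit 148) (nat_lit 5) (nat_lit 149) (nat_lit 5) (nat_lit 432) (nat_lit 431) (nat_lit 337))))) (XT.nd (nat_lit 234) (nat_lit 912) (nat_lit 0) (XT.nd (nat_lit 78) (nat_lit 0) (nat_lit 76) (XT.lf (nat_lit 76) (nat_lit 12782067505) (nat_lit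 0) (nat_lit 7214475542) (nat_lit 836) (nat_lit 27743959684) (nat_lit 139) (nat_lit 5) (nat_lit 138) (nat_lit 5) (nat_lit 149) (nat_lit 5) (nat_lit 433) (nat_lit 431) (nat_lit 336)) (XT.nd (nat_lit 78) (nat_lit 0) (nat_lit 76) (XT.lf (nat_lit 76) (nat_lit 3400366362) (nat_lit 0) (nat_lit 19883350728) (nat_lit 836) (nat_lit 26391778264) (nat_lit 140) (nat_lit 5) (nat_lit 139) (nat_lit 5) (nat_lit 150) (nat_lit 5) (nat_lit 434) (nat_lit 431) (nat_lit 335)) (XT.lf (nat_lit 0) (nat_lit 27845107195) (nat_lit 760) (nat_lit 6068743357) (nat_lit 836) (nat_lit 17800875759) (nat_lit 140) (nat_lit 5) (nat_lit 150) (nat_lit 5) (nat_lit 151) (nat_lit 5) (nat_lit 435) (nat_lit 431) (nat_lit 334)))) (XT.nd (nat_lit 156) (nat_lit 1140) (nat_lit 0) (XT.nd (nat_lit 78) (nat_lit 0) (nat_lit 0) (XT.lf (nat_lit 0) (nat_lit 33770436042) (nat_lit 760) (nat_lit 15701887047) (nat_lit 836) (nat_lit 4394822236) (nat_lit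 141) (nat_lit 5) (nat_lit 151) (nat_lit 5) (nat_lit 152) (nat_lit 5) (nat_lit 436) (nat_lit 431) (nat_lit 333)) (XT.lf (nat_lit 76) (nat_lit 30363271986) (nat_lit 0) (nat_lit 10955991874) (nat_lit 836) (nat_lit 14815021250) (nat_lit 142) (nat_lit 5) (nat_lit 141) (nat_lit 5) (nat_lit 152) (nat_lit 5) (nat_lit 437) (nat_lit 431) (nat_lit 332))) (XT.nd (nat_lit 78) (nat_lit 456) (nat_lit 0) (XT.lf (nat_lit 0) (nat_lit 22333937995) (nat_lit 760) (nat_lit 28239527848) (nat_lit 836) (nat_lit 7954257659) (nat_lit 132) (nat_lit 5) (nat_lit 142) (nat_lit 5) (nat_lit 143) (nat_lit 5) (nat_lit 438) (nat_lit 431) (nat_lit 331)) (XT.lf (nat_lit 0) (nat_lit 554486636) (nat_lit 456) (nat_lit 46898234354) (nat_lit 76) (nat_lit 13606257462) (nat_lit 126) (nat_lit 5) (nat_lit 132) (nat_lit 5) (nat_lit 127) (nat_lit 5) (nat_lit 439) (nat_lit 431) (nat_lit 330)))))) (XT.nd (nat_lit 546) (nat_lit 1444) (nat_lit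 0) (XT.nd (nat_lit 234) (nat_lit 1292) (nat_lit 0) (XT.nd (nat_lit 78) (nat_lit 380) (nat_lit 0) (XT.lf (nat_lit 0) (nat_lit 5631264767) (nat_lit 380) (nat_lit 5039356460) (nat_lit 456) (nat_lit 53055324897) (nat_lit 121) (nat_lit 5) (nat_lit 126) (nat_lit 5) (nat_lit 127) (nat_lit 5) (nat_lit 440) (nat_lit 431) (nat_lit 329)) (XT.nd (nat_lit 78) (nat_lit 380) (nat_lit 0) (XT.lf (nat_lit 0) (nat_lit 23059802195) (nat_lit 456) (nat_lit 3180709203) (nat_lit 76) (nat_lit 40292572650) (nat_lit 121) (nat_lit 5) (nat_lit 127) (nat_lit 5) (nat_lit 122) (nat_lit 5) (nat_lit 441) (nat_lit 431) (nat_lit 328)) (XT.lf (nat_lit 0) (nat_lit 37745619115) (nat_lit 456) (nat_lit 11943730851) (nat_lit 76) (nat_lit 19810168541) (nat_lit 116) (nat_lit 5) (nat_lit 122) (nat_lit 5) (nat_lit 117) (nat_lit 5) (nat_lit 442) (nat_lit 431) (nat_lit 327)))) (XT.nd (nat_lit 156) (nat_lit 684) (nat_lit 0) (XT.nd (nat_lit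 78) (nat_lit 304) (nat_lit 0) (XT.lf (nat_lit 0) (nat_lit 51775033939) (nat_lit 304) (nat_lit 3135724555) (nat_lit 380) (nat_lit 17727286904) (nat_lit 112) (nat_lit 5) (nat_lit 116) (nat_lit 5) (nat_lit 117) (nat_lit 5) (nat_lit 443) (nat_lit 431) (nat_lit 326)) (XT.lf (nat_lit 0) (nat_lit 45721497528) (nat_lit 304) (nat_lit 29386410804) (nat_lit 380) (nat_lit 836806635) (nat_lit 108) (nat_lit 5) (nat_lit 112) (nat_lit 5) (nat_lit 113) (nat_lit 5) (nat_lit 444) (nat_lit 431) (nat_lit 325))) (XT.nd (nat_lit 78) (nat_lit 304) (nat_lit 0) (XT.lf (nat_lit 0) (nat_lit 18231807343) (nat_lit 380) (nat_lit 39971635111) (nat_lit 76) (nat_lit 21229691048) (nat_lit 103) (nat_lit 5) (nat_lit 108) (nat_lit 5) (nat_lit 104) (nat_lit 5) (nat_lit 445) (nat_lit 431) (nat_lit 324)) (XT.lf (nat_lit 0) (nat_lit 33166303359) (nat_lit 304) (nat_lit 7176812545) (nat_lit 380) (nat_lit 42779497958) (nat_lit 99) (nat_lit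 5) (nat_lit 103) (nat_lit 5) (nat_lit 104) (nat_lit 5) (nat_lit 446) (nat_lit 431) (nat_lit 323))))) (XT.nd (nat_lit 234) (nat_lit 684) (nat_lit 0) (XT.nd (nat_lit 78) (nat_lit 532) (nat_lit 0) (XT.lf (nat_lit 0) (nat_lit 26598877433) (nat_lit 228) (nat_lit 39493601863) (nat_lit 304) (nat_lit 20921316219) (nat_lit 96) (nat_lit 5) (nat_lit 99) (nat_lit 5) (nat_lit 100) (nat_lit 5) (nat_lit 447) (nat_lit 431) (nat_lit 322)) (XT.nd (nat_lit 78) (nat_lit 228) (nat_lit 0) (XT.lf (nat_lit 0) (nat_lit 4177535555) (nat_lit 304) (nat_lit 71043512173) (nat_lit 76) (nat_lit 15914229428) (nat_lit 92) (nat_lit 5) (nat_lit 96) (nat_lit 5) (nat_lit 93) (nat_lit 5) (nat_lit 448) (nat_lit 431) (nat_lit 321)) (XT.lf (nat_lit 0) (nat_lit 13041155505) (nat_lit 228) (nat_lit 19457148461) (nat_lit 304) (nat_lit 62973675572) (nat_lit 89) (nat_lit 5) (nat_lit 92) (nat_lit 5) (nat_lit 93) (nat_lit 5) (nat_lit 449)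 (nat_lit 431) (nat_lit 320)))) (XT.nd (nat_lit 156) (nat_lit 456) (nat_lit 0) (XT.nd (nat_lit 78) (nat_lit 0) (nat_lit 0) (XT.lf (nat_lit 0) (nat_lit 5822600487) (nat_lit 228) (nat_lit 59245459849) (nat_lit 304) (nat_lit 34988391732) (nat_lit 86) (nat_lit 5) (nat_lit 89) (nat_lit 5) (nat_lit 90) (nat_lit 5) (nat_lit 450) (nat_lit 431) (nat_lit 319)) (XT.lf (nat_lit 0) (nat_lit 102027414456) (nat_lit 304) (nat_lit 1208674632) (nat_lit 76) (nat_lit 1682392709) (nat_lit 86) (nat_lit 5) (nat_lit 90) (nat_lit 5) (nat_lit 87) (nat_lit 5) (nat_lit 451) (nat_lit 431) (nat_lit 318))) (XT.nd (nat_lit 78) (nat_lit 228) (nat_lit 0) (XT.lf (nat_lit 0) (nat_lit 33381501443) (nat_lit 228) (nat_lit 9072952584) (nat_lit 76) (nat_lit 67558994703) (nat_lit 83) (nat_lit 5) (nat_lit 86) (nat_lit 5) (nat_lit 84) (nat_lit 5) (nat_lit 452) (nat_lit 431) (nat_lit 317)) (XT.lf (nat_lit 0) (nat_lit 74408393295) (nat_lit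 304) (nat_lit 16920105736) (nat_lit 76) (nat_lit 24087454147) (nat_lit 80) (nat_lit 5) (nat_lit 84) (nat_lit 5) (nat_lit 81) (nat_lit 5) (nat_lit 453) (nat_lit 431) (nat_lit 316))))))))
noncomputable def xc93 : XT := (XT.nd (nat_lit 2184) (nat_lit 1292) (nat_lit 0) (XT.nd (nat_lit 1092) (nat_lit 1292) (nat_lit 0) (XT.nd (nat_lit 546) (nat_lit 1064) (nat_lit 0) (XT.nd (nat_lit 234) (nat_lit 760) (nat_lit 0) (XT.nd (nat_lit 78) (nat_lit 456) (nat_lit 0) (XT.lf (nat_lit 0) (nat_lit 96106523001) (nat_lit 152) (nat_lit 24986351834) (nat_lit 228) (nat_lit 39011426) (nat_lit 78) (nat_lit 5) (nat_lit 80) (nat_lit 5) (nat_lit 81) (nat_lit 5) (nat_lit 454) (nat_lit 431) (nat_lit 315)) (XT.nd (nat_lit 78) (nat_lit 152) (nat_lit 0) (XT.lf (nat_lit 0) (nat_lit 45323338228) (nat_lit 304) (nat_lit 34157496095) (nat_lit 76) (nat_lit 47663189165) (nat_lit 74) (nat_lit 5) (nat_lit 78) (nat_lit 5) (nat_lit 75)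 (nat_lit 5) (nat_lit 455) (nat_lit 431) (nat_lit 314)) (XT.lf (nat_lit 0) (nat_lit 90172316465) (nat_lit 152) (nat_lit 6411808131) (nat_lit 228) (nat_lit 36939434504) (nat_lit 72) (nat_lit 5) (nat_lit 74) (nat_lit 5) (nat_lit 75) (nat_lit 5) (nat_lit 456) (nat_lit 431) (nat_lit 313)))) (XT.nd (nat_lit 156) (nat_lit 380) (nat_lit 0) (XT.nd (nat_lit 78) (nat_lit 152) (nat_lit 0) (XT.lf (nat_lit 0) (nat_lit 14306363608) (nat_lit 228) (nat_lit 53566957694) (nat_lit 76) (nat_lit 72373976141) (nat_lit 69) (nat_lit 5) (nat_lit 72) (nat_lit 5) (nat_lit 70) (nat_lit 5) (nat_lit 457) (nat_lit 431) (nat_lit 312)) (XT.lf (nat_lit 0) (nat_lit 70742857211) (nat_lit 228) (nat_lit 64459631677) (nat_lit 76) (nat_lit 12156907397) (nat_lit 67) (nat_lit 5) (nat_lit 70) (nat_lit 5) (nat_lit 68) (nat_lit 5) (nat_lit 458) (nat_lit 431) (nat_lit 311))) (XT.nd (nat_lit 78) (nat_lit 228) (nat_lit 0) (XT.lf (nat_lit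 0) (nat_lit 78555192410) (nat_lit 152) (nat_lit 56457134586) (nat_lit 228) (nat_lit 19862233325) (nat_lit 65) (nat_lit 5) (nat_lit 67) (nat_lit 5) (nat_lit 68) (nat_lit 5) (nat_lit 459) (nat_lit 431) (nat_lit 310)) (XT.lf (nat_lit 0) (nat_lit 42897562201) (nat_lit 228) (nat_lit 89256439694) (nat_lit 76) (nat_lit 30665029814) (nat_lit 62) (nat_lit 5) (nat_lit 65) (nat_lit 5) (nat_lit 63) (nat_lit 5) (nat_lit 460) (nat_lit 431) (nat_lit 309))))) (XT.nd (nat_lit 234) (nat_lit 608) (nat_lit 0) (XT.nd (nat_lit 78) (nat_lit 304) (nat_lit 0) (XT.lf (nat_lit 0) (nat_lit 67683398464) (nat_lit 152) (nat_lit 45666907990) (nat_lit 228) (nat_lit 57864071885) (nat_lit 60) (nat_lit 5) (nat_lit 62) (nat_lit 5) (nat_lit 63) (nat_lit 5) (nat_lit 461) (nat_lit 431) (nat_lit 308)) (XT.nd (nat_lit 78) (nat_lit 152) (nat_lit 0) (XT.lf (nat_lit 0) (nat_lit 12200983031) (nat_lit 152) (nat_lit 118961076029) (nat_lit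 76) (nat_lit 48945335888) (nat_lit 58) (nat_lit 5) (nat_lit 60) (nat_lit 5) (nat_lit 59) (nat_lit 5) (nat_lit 462) (nat_lit 431) (nat_lit 307)) (XT.lf (nat_lit 0) (nat_lit 52991990921) (nat_lit 152) (nat_lit 36308359296) (nat_lit 228) (nat_lit 100191254027) (nat_lit 56) (nat_lit 5) (nat_lit 58) (nat_lit 5) (nat_lit 59) (nat_lit 5) (nat_lit 463) (nat_lit 431) (nat_lit 306)))) (XT.nd (nat_lit 156) (nat_lit 304) (nat_lit 0) (XT.nd (nat_lit 78) (nat_lit 228) (nat_lit 0) (XT.lf (nat_lit 0) (nat_lit 43758539752) (nat_lit 76) (nat_lit 132629979479) (nat_lit 152) (nat_lit 23046988505) (nat_lit 55) (nat_lit 5) (nat_lit 56) (nat_lit 5) (nat_lit 57) (nat_lit 4) (nat_lit 464) (nat_lit 431) (nat_lit 305)) (XT.lf (nat_lit 0) (nat_lit 32708491048) (nat_lit 152) (nat_lit 29169924647) (nat_lit 228) (nat_lit 148072530821) (nat_lit 52) (nat_lit 5) (nat_lit 54) (nat_lit 5) (nat_lit 55) (nat_lit 5) (nat_lit 465)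 (nat_lit 431) (nat_lit 304))) (XT.nd (nat_lit 78) (nat_lit 228) (nat_lit 0) (XT.lf (nat_lit 0) (nat_lit 19450459637) (nat_lit 76) (nat_lit 137698759570) (nat_lit 152) (nat_lit 63921569219) (nat_lit 51) (nat_lit 5) (nat_lit 52) (nat_lit 5) (nat_lit 53) (nat_lit 4) (nat_lit 466) (nat_lit 431) (nat_lit 303)) (XT.lf (nat_lit 0) (nat_lit 4459769911) (nat_lit 152) (nat_lit 25337346746) (nat_lit 228) (nat_lit 203077124744) (nat_lit 48) (nat_lit 5) (nat_lit 50) (nat_lit 5) (nat_lit 51) (nat_lit 5) (nat_lit 467) (nat_lit 431) (nat_lit 302)))))) (XT.nd (nat_lit 546) (nat_lit 608) (nat_lit 0) (XT.nd (nat_lit 234) (nat_lit 456) (nat_lit 0) (XT.nd (nat_lit 78) (nat_lit 228) (nat_lit 0) (XT.lf (nat_lit 0) (nat_lit 133871504510) (nat_lit 228) (nat_lit 13856478041) (nat_lit 76) (nat_lit 97586708008) (nat_lit 48) (nat_lit 5) (nat_lit 51) (nat_lit 5) (nat_lit 49) (nat_lit 4) (nat_lit 468) (nat_lit 431) (nat_lit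 301)) (XT.nd (nat_lit 78) (nat_lit 152) (nat_lit 0) (XT.lf (nat_lit 0) (nat_lit 224626765251) (nat_lit 76) (nat_lit 25578499298) (nat_lit 152) (nat_lit 8348440089) (nat_lit 47) (nat_lit 5) (nat_lit 48) (nat_lit 5) (nat_lit 49) (nat_lit 4) (nat_lit 469) (nat_lit 431) (nat_lit 300)) (XT.lf (nat_lit 0) (nat_lit 105046217957) (nat_lit 152) (nat_lit 59221844042) (nat_lit 76) (nat_lit 108235937727) (nat_lit 45) (nat_lit 5) (nat_lit 47) (nat_lit 5) (nat_lit 46) (nat_lit 4) (nat_lit 470) (nat_lit 431) (nat_lit 299)))) (XT.nd (nat_lit 156) (nat_lit 228) (nat_lit 0) (XT.nd (nat_lit 78) (nat_lit 152) (nat_lit 0) (XT.lf (nat_lit 0) (nat_lit 199748641421) (nat_lit 76) (nat_lit 31625026889) (nat_lit 152) (nat_lit 55982121749) (nat_lit 44) (nat_lit 5) (nat_lit 45) (nat_lit 5) (nat_lit 46) (nat_lit 4) (nat_lit 471) (nat_lit 431) (nat_lit 298)) (XT.lf (nat_lit 0) (nat_lit 68078906080) (nat_lit 152) (nat_lit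 121931678750) (nat_lit 76) (nat_lit 113048412141) (nat_lit 42) (nat_lit 5) (nat_lit 44) (nat_lit 5) (nat_lit 43) (nat_lit 4) (nat_lit 472) (nat_lit 431) (nat_lit 297))) (XT.nd (nat_lit 78) (nat_lit 152) (nat_lit 0) (XT.lf (nat_lit 0) (nat_lit 158103415794) (nat_lit 76) (nat_lit 46578289194) (nat_lit 152) (nat_lit 115061957008) (nat_lit 41) (nat_lit 5) (nat_lit 42) (nat_lit 5) (nat_lit 43) (nat_lit 4) (nat_lit 473) (nat_lit 431) (nat_lit 296)) (XT.lf (nat_lit 0) (nat_lit 19957176735) (nat_lit 152) (nat_lit 208130335316) (nat_lit 76) (nat_lit 109365806867) (nat_lit 39) (nat_lit 5) (nat_lit 41) (nat_lit 5) (nat_lit 40) (nat_lit 4) (nat_lit 474) (nat_lit 431) (nat_lit 295))))) (XT.nd (nat_lit 234) (nat_lit 380) (nat_lit 0) (XT.nd (nat_lit 78) (nat_lit 152) (nat_lit 0) (XT.lf (nat_lit 0) (nat_lit 93103224359) (nat_lit 76) (nat_lit 73797408411) (nat_lit 152) (nat_lit 189327102465) (nat_lit 38) (nat_lit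 5) (nat_lit 39) (nat_lit 5) (nat_lit 40) (nat_lit 4) (nat_lit 475) (nat_lit 431) (nat_lit 294)) (XT.nd (nat_lit 78) (nat_lit 76) (nat_lit 0) (XT.lf (nat_lit 0) (nat_lit 49622942867) (nat_lit 76) (nat_lit 281885041536) (nat_lit 76) (nat_lit 44700699523) (nat_lit 37) (nat_lit 4) (nat_lit 38) (nat_lit 5) (nat_lit 38) (nat_lit 4) (nat_lit 476) (nat_lit 431) (nat_lit 293)) (XT.lf (nat_lit 0) (nat_lit 113829537417) (nat_lit 152) (nat_lit 3834219137) (nat_lit 76) (nat_lit 279742199663) (nat_lit 36) (nat_lit 5) (nat_lit 38) (nat_lit 5) (nat_lit 37) (nat_lit 4) (nat_lit 477) (nat_lit 431) (nat_lit 292)))) (XT.nd (nat_lit 156) (nat_lit 152) (nat_lit 0) (XT.nd (nat_lit 78) (nat_lit 152) (nat_lit 0) (XT.lf (nat_lit 0) (nat_lit 290079826652) (nat_lit 152) (nat_lit 65663166783) (nat_lit 0) (nat_lit 64189190551) (nat_lit 35) (nat_lit 5) (nat_lit 37) (nat_lit 4) (nat_lit 35) (nat_lit 4) (nat_lit 478) (nat_lit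 431) (nat_lit 291)) (XT.lf (nat_lit 0) (nat_lit 41931564757) (nat_lit 152) (nat_lit 139931278493) (nat_lit 76) (nat_lit 262023451794) (nat_lit 33) (nat_lit 5) (nat_lit 35) (nat_lit 5) (nat_lit 34) (nat_lit 4) (nat_lit 479) (nat_lit 431) (nat_lit 290))) (XT.nd (nat_lit 78) (nat_lit 76) (nat_lit 0) (XT.lf (nat_lit 0) (nat_lit 228108249673) (nat_lit 152) (nat_lit 228308408527) (nat_lit 0) (nat_lit 12973668288) (nat_lit 32) (nat_lit 5) (nat_lit 34) (nat_lit 4) (nat_lit 32) (nat_lit 4) (nat_lit 480) (nat_lit 431) (nat_lit 289)) (XT.lf (nat_lit 0) (nat_lit 162865358459) (nat_lit 76) (nat_lit 274399938942) (nat_lit 76) (nat_lit 59265071659) (nat_lit 31) (nat_lit 4) (nat_lit 32) (nat_lit 5) (nat_lit 32) (nat_lit 4) (nat_lit 481) (nat_lit 431) (nat_lit 288))))))) (XT.nd (nat_lit 1092) (nat_lit 152) (nat_lit 0) (XT.nd (nat_lit 546) (nat_lit 532) (nat_lit 0) (XT.nd (nat_lit 234) (nat_lit 304) (nat_lit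 0) (XT.nd (nat_lit 78) (nat_lit 152) (nat_lit 0) (XT.lf (nat_lit 0) (nat_lit 67803073634) (nat_lit 76) (nat_lit 70215563261) (nat_lit 152) (nat_lit 387460774593) (nat_lit 29) (nat_lit 5) (nat_lit 30) (nat_lit 5) (nat_lit 31) (nat_lit 4) (nat_lit 482) (nat_lit 431) (nat_lit 287)) (XT.nd (nat_lit 78) (nat_lit 152) (nat_lit 0) (XT.lf (nat_lit 0) (nat_lit 357290077938) (nat_lit 152) (nat_lit 46592409105) (nat_lit 0) (nat_lit 152399242591) (nat_lit 29) (nat_lit 5) (nat_lit 31) (nat_lit 4) (nat_lit 29) (nat_lit 4) (nat_lit 483) (nat_lit 431) (nat_lit 286)) (XT.lf (nat_lit 0) (nat_lit 12107052837) (nat_lit 152) (nat_lit 180071593178) (nat_lit 76) (nat_lit 396981139396) (nat_lit 27) (nat_lit 5) (nat_lit 29) (nat_lit 5) (nat_lit 28) (nat_lit 4) (nat_lit 484) (nat_lit 431) (nat_lit 285)))) (XT.nd (nat_lit 156) (nat_lit 152) (nat_lit 0) (XT.nd (nat_lit 78) (nat_lit 76) (nat_lit 0) (XT.lf (nat_lit 0) (nat_lit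 239183773795) (nat_lit 152) (nat_lit 340968864610) (nat_lit 0) (nat_lit 44049248432) (nat_lit 26) (nat_lit 5) (nat_lit 28) (nat_lit 4) (nat_lit 26) (nat_lit 4) (nat_lit 485) (nat_lit 431) (nat_lit 284)) (XT.lf (nat_lit 0) (nat_lit 128977023326) (nat_lit 76) (nat_lit 363891470910) (nat_lit 76) (nat_lit 168756769060) (nat_lit 25) (nat_lit 4) (nat_lit 26) (nat_lit 5) (nat_lit 26) (nat_lit 4) (nat_lit 486) (nat_lit 431) (nat_lit 283))) (XT.nd (nat_lit 78) (nat_lit 76) (nat_lit 0) (XT.lf (nat_lit 0) (nat_lit 68767674682) (nat_lit 152) (nat_lit 54161132165) (nat_lit 76) (nat_lit 578761294653) (nat_lit 24) (nat_lit 5) (nat_lit 26) (nat_lit 5) (nat_lit 25) (nat_lit 4) (nat_lit 487) (nat_lit 431) (nat_lit 282)) (XT.lf (nat_lit 0) (nat_lit 329187756876) (nat_lit 152) (nat_lit 271798855818) (nat_lit 0) (nat_lit 143344883948) (nat_lit 23) (nat_lit 5) (nat_lit 25) (nat_lit 4) (nat_lit 23) (nat_lit 4) (nat_lit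 488) (nat_lit 431) (nat_lit 281))))) (XT.nd (nat_lit 234) (nat_lit 304) (nat_lit 0) (XT.nd (nat_lit 78) (nat_lit 152) (nat_lit 0) (XT.lf (nat_lit 0) (nat_lit 259164768878) (nat_lit 76) (nat_lit 358354280352) (nat_lit 76) (nat_lit 172511273994) (nat_lit 22) (nat_lit 4) (nat_lit 23) (nat_lit 5) (nat_lit 23) (nat_lit 4) (nat_lit 489) (nat_lit 431) (nat_lit 280)) (XT.nd (nat_lit 78) (nat_lit 0) (nat_lit 0) (XT.lf (nat_lit 0) (nat_lit 1742528263) (nat_lit 76) (nat_lit 89762670842) (nat_lit 152) (nat_lit 747568015402) (nat_lit 20) (nat_lit 5) (nat_lit 21) (nat_lit 5) (nat_lit 22) (nat_lit 4) (nat_lit 490) (nat_lit 431) (nat_lit 279)) (XT.lf (nat_lit 0) (nat_lit 383205882171) (nat_lit 152) (nat_lit 301849593731) (nat_lit 0) (nat_lit 206212316173) (nat_lit 20) (nat_lit 5) (nat_lit 22) (nat_lit 4) (nat_lit 20) (nat_lit 4) (nat_lit 491) (nat_lit 431) (nat_lit 278)))) (XT.nd (nat_lit 156) (nat_lit 152)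 (nat_lit 0) (XT.nd (nat_lit 78) (nat_lit 76) (nat_lit 0) (XT.lf (nat_lit 0) (nat_lit 284046988722) (nat_lit 76) (nat_lit 420143607593) (nat_lit 76) (nat_lit 243149940717) (nat_lit 19) (nat_lit 4) (nat_lit 20) (nat_lit 5) (nat_lit 20) (nat_lit 4) (nat_lit 492) (nat_lit 431) (nat_lit 277)) (XT.lf (nat_lit 0) (nat_lit 46924034937) (nat_lit 152) (nat_lit 80799488659) (nat_lit 76) (nat_lit 879874851770) (nat_lit 18) (nat_lit 5) (nat_lit 20) (nat_lit 5) (nat_lit 19) (nat_lit 4) (nat_lit 493) (nat_lit 431) (nat_lit 276))) (XT.nd (nat_lit 78) (nat_lit 76) (nat_lit 0) (XT.lf (nat_lit 0) (nat_lit 363723733630) (nat_lit 152) (nat_lit 512993708906) (nat_lit 0) (nat_lit 195158165281) (nat_lit 17) (nat_lit 5) (nat_lit 19) (nat_lit 4) (nat_lit 17) (nat_lit 4) (nat_lit 494) (nat_lit 431) (nat_lit 275)) (XT.lf (nat_lit 0) (nat_lit 112832470306) (nat_lit 76) (nat_lit 598380458573) (nat_lit 76) (nat_lit 429814813957)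 (nat_lit 16) (nat_lit 4) (nat_lit 17) (nat_lit 5) (nat_lit 17) (nat_lit 4) (nat_lit 495) (nat_lit 431) (nat_lit 274)))))) (XT.nd (nat_lit 57798) (nat_lit 0) (nat_lit 7752) (XT.nd (nat_lit 57486) (nat_lit 0) (nat_lit 9348) (XT.nd (nat_lit 78) (nat_lit 152) (nat_lit 0) (XT.lf (nat_lit 0) (nat_lit 807042986680) (nat_lit 76) (nat_lit 288393995544) (nat_lit 76) (nat_lit 119828280312) (nat_lit 16) (nat_lit 4) (nat_lit 17) (nat_lit 5) (nat_lit 17) (nat_lit 4) (nat_lit 496) (nat_lit 431) (nat_lit 273)) (XT.nd (nat_lit 78) (nat_lit 0) (nat_lit 0) (XT.lf (nat_lit 0) (nat_lit 213085613007) (nat_lit 152) (nat_lit 1029391171835) (nat_lit 0) (nat_lit 52546774323) (nat_lit 14) (nat_lit 5) (nat_lit 16) (nat_lit 4) (nat_lit 14) (nat_lit 4) (nat_lit 497) (nat_lit 431) (nat_lit 272)) (XT.lf (nat_lit 0) (nat_lit 580580664325) (nat_lit 152) (nat_lit 379834555030) (nat_lit 0) (nat_lit 420041767982) (nat_lit 14)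 (nat_lit 5) (nat_lit 16) (nat_lit 4) (nat_lit 14) (nat_lit 4) (nat_lit 498) (nat_lit 431) (nat_lit 271)))) (XT.nd (nat_lit 156) (nat_lit 0) (nat_lit 76) (XT.nd (nat_lit 78) (nat_lit 0) (nat_lit 76) (XT.lf (nat_lit 0) (nat_lit 9071143323) (nat_lit 836) (nat_lit 7386735003) (nat_lit 836) (nat_lit 7386735003) (nat_lit 137) (nat_lit 3) (nat_lit 148) (nat_lit 3) (nat_lit 148) (nat_lit 5) (nat_lit 432) (nat_lit 432) (nat_lit 336)) (XT.lf (nat_lit 0) (nat_lit 19350474662) (nat_lit 760) (nat_lit 25972802165) (nat_lit 836) (nat_lit 4249383756) (nat_lit 138) (nat_lit 5) (nat_lit 148) (nat_lit 5) (nat_lit 149) (nat_lit 5) (nat_lit 433) (nat_lit 432) (nat_lit 335))) (XT.nd (nat_lit 78) (nat_lit 0) (nat_lit 76) (XT.lf (nat_lit 76) (nat_lit 13858356805) (nat_lit 0) (nat_lit 7825466664) (nat_lit 836) (nat_lit 29871521494) (nat_lit 139) (nat_lit 5) (nat_lit 138) (nat_lit 5) (nat_lit 149) (nat_lit 5) (nat_lit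 434) (nat_lit 432) (nat_lit 334)) (XT.lf (nat_lit 76) (nat_lit 3728496924) (nat_lit 0) (nat_lit 21499375606) (nat_lit 836) (nat_lit 28417570902) (nat_lit 140) (nat_lit 5) (nat_lit 139) (nat_lit 5) (nat_lit 150) (nat_lit 5) (nat_lit 435) (nat_lit 432) (nat_lit 333))))) (XT.nd (nat_lit 312) (nat_lit 1216) (nat_lit 0) (XT.nd (nat_lit 156) (nat_lit 608) (nat_lit 0) (XT.nd (nat_lit 78) (nat_lit 0) (nat_lit 76) (XT.lf (nat_lit 0) (nat_lit 30147773347) (nat_lit 760) (nat_lit 6498142184) (nat_lit 836) (nat_lit 19202218743) (nat_lit 140) (nat_lit 5) (nat_lit 150) (nat_lit 5) (nat_lit 151) (nat_lit 5) (nat_lit 436) (nat_lit 432) (nat_lit 332)) (XT.lf (nat_lit 0) (nat_lit 36542146192) (nat_lit 760) (nat_lit 16900582358) (nat_lit 836) (nat_lit 4730268652) (nat_lit 141) (nat_lit 5) (nat_lit 151) (nat_lit 5) (nat_lit 152) (nat_lit 5) (nat_lit 437) (nat_lit 432) (nat_lit 331))) (XT.nd (nat_lit 78) (nat_lit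 684) (nat_lit 0) (XT.lf (nat_lit 76) (nat_lit 32847292445) (nat_lit 0) (nat_lit 11843255090) (nat_lit 836) (nat_lit 15931178455) (nat_lit 142) (nat_lit 5) (nat_lit 141) (nat_lit 5) (nat_lit 152) (nat_lit 5) (nat_lit 438) (nat_lit 432) (nat_lit 330)) (XT.lf (nat_lit 0) (nat_lit 24176542778) (nat_lit 760) (nat_lit 30504389780) (nat_lit 836) (nat_lit 8525915648) (nat_lit 132) (nat_lit 5) (nat_lit 142) (nat_lit 5) (nat_lit 143) (nat_lit 5) (nat_lit 439) (nat_lit 432) (nat_lit 329)))) (XT.nd (nat_lit 156) (nat_lit 380) (nat_lit 0) (XT.nd (nat_lit 78) (nat_lit 380) (nat_lit 0) (XT.lf (nat_lit 0) (nat_lit 657632901) (nat_lit 456) (nat_lit 50591632527) (nat_lit 76) (nat_lit 14691479848) (nat_lit 126) (nat_lit 5) (nat_lit 132) (nat_lit 5) (nat_lit 127) (nat_lit 5) (nat_lit 440) (nat_lit 432) (nat_lit 328)) (XT.lf (nat_lit 0) (nat_lit 6137685898) (nat_lit 380) (nat_lit 5441890811) (nat_lit 456) (nat_lit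 57241668626) (nat_lit 121) (nat_lit 5) (nat_lit 126) (nat_lit 5) (nat_lit 127) (nat_lit 5) (nat_lit 441) (nat_lit 432) (nat_lit 327))) (XT.nd (nat_lit 78) (nat_lit 380) (nat_lit 0) (XT.lf (nat_lit 0) (nat_lit 24955804309) (nat_lit 456) (nat_lit 3380826272) (nat_lit 76) (nat_lit 43516528934) (nat_lit 121) (nat_lit 5) (nat_lit 127) (nat_lit 5) (nat_lit 122) (nat_lit 5) (nat_lit 442) (nat_lit 432) (nat_lit 326)) (XT.lf (nat_lit 0) (nat_lit 40813562617) (nat_lit 456) (nat_lit 12844888249) (nat_lit 76) (nat_lit 21398604829) (nat_lit 116) (nat_lit 5) (nat_lit 122) (nat_lit 5) (nat_lit 117) (nat_lit 5) (nat_lit 443) (nat_lit 432) (nat_lit 325))))))))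
noncomputable def xc94 : XT := (XT.nd (nat_lit 2184) (nat_lit 2356) (nat_lit 0) (XT.nd (nat_lit 1092) (nat_lit 2052) (nat_lit 0) (XT.nd (nat_lit 546) (nat_lit 1292) (nat_lit 0) (XT.nd (nat_lit 234) (nat_lit 1064) (nat_lit 0) (XT.nd (nat_lit 78) (nat_lit 684) (nat_lit 0) (XT.lf (nat_lit 0) (nat_lit 55969016128) (nat_lit 304) (nat_lit 3380131233) (nat_lit 380) (nat_lit 19097656377) (nat_lit 112) (nat_lit 5) (nat_lit 116) (nat_lit 5) (nat_lit 117) (nat_lit 5) (nat_lit 444) (nat_lit 432) (nat_lit 324)) (XT.nd (nat_lit 78) (nat_lit 380) (nat_lit 0) (XT.lf (nat_lit 0) (nat_lit 49431027470) (nat_lit 304) (nat_lit 31728571420) (nat_lit 380) (nat_lit 858532154) (nat_lit 108) (nat_lit 5) (nat_lit 112) (nat_lit 5) (nat_lit 113) (nat_lit 5) (nat_lit 445) (nat_lit 432) (nat_lit 323)) (XT.lf (nat_lit 0) (nat_lit 19731827063) (nat_lit 380) (nat_lit 43116492286) (nat_lit 76) (nat_lit 22937383825) (nat_lit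 103) (nat_lit 5) (nat_lit 108) (nat_lit 5) (nat_lit 104) (nat_lit 5) (nat_lit 446) (nat_lit 432) (nat_lit 322)))) (XT.nd (nat_lit 156) (nat_lit 532) (nat_lit 0) (XT.nd (nat_lit 78) (nat_lit 228) (nat_lit 0) (XT.lf (nat_lit 0) (nat_lit 35870183438) (nat_lit 304) (nat_lit 7739574268) (nat_lit 380) (nat_lit 46160698922) (nat_lit 99) (nat_lit 5) (nat_lit 103) (nat_lit 5) (nat_lit 104) (nat_lit 5) (nat_lit 447) (nat_lit 432) (nat_lit 321)) (XT.lf (nat_lit 0) (nat_lit 28776876361) (nat_lit 228) (nat_lit 42640237244) (nat_lit 304) (nat_lit 22555917534) (nat_lit 96) (nat_lit 5) (nat_lit 99) (nat_lit 5) (nat_lit 100) (nat_lit 5) (nat_lit 448) (nat_lit 432) (nat_lit 320))) (XT.nd (nat_lit 78) (nat_lit 228) (nat_lit 0) (XT.lf (nat_lit 0) (nat_lit 4547761388) (nat_lit 304) (nat_lit 76676289754) (nat_lit 76) (nat_lit 17200241553) (nat_lit 92) (nat_lit 5) (nat_lit 96) (nat_lit 5) (nat_lit 93) (nat_lit 5)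 (nat_lit 449) (nat_lit 432) (nat_lit 319)) (XT.lf (nat_lit 0) (nat_lit 14132947831) (nat_lit 228) (nat_lit 20999332291) (nat_lit 304) (nat_lit 67975747110) (nat_lit 89) (nat_lit 5) (nat_lit 92) (nat_lit 5) (nat_lit 93) (nat_lit 5) (nat_lit 450) (nat_lit 432) (nat_lit 318))))) (XT.nd (nat_lit 234) (nat_lit 836) (nat_lit 0) (XT.nd (nat_lit 78) (nat_lit 228) (nat_lit 0) (XT.lf (nat_lit 0) (nat_lit 6336222116) (nat_lit 228) (nat_lit 63969822585) (nat_lit 304) (nat_lit 37753291855) (nat_lit 86) (nat_lit 5) (nat_lit 89) (nat_lit 5) (nat_lit 90) (nat_lit 5) (nat_lit 451) (nat_lit 432) (nat_lit 317)) (XT.nd (nat_lit 78) (nat_lit 228) (nat_lit 0) (XT.lf (nat_lit 0) (nat_lit 110219957621) (nat_lit 304) (nat_lit 1259806754) (nat_lit 76) (nat_lit 1830674113) (nat_lit 86) (nat_lit 5) (nat_lit 90) (nat_lit 5) (nat_lit 87) (nat_lit 5) (nat_lit 452) (nat_lit 432) (nat_lit 316)) (XT.lf (nat_lit 0) (nat_lit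 36081279594) (nat_lit 228) (nat_lit 9754235762) (nat_lit 76) (nat_lit 72977542531) (nat_lit 83) (nat_lit 5) (nat_lit 86) (nat_lit 5) (nat_lit 84) (nat_lit 5) (nat_lit 453) (nat_lit 432) (nat_lit 315)))) (XT.nd (nat_lit 156) (nat_lit 456) (nat_lit 0) (XT.nd (nat_lit 78) (nat_lit 152) (nat_lit 0) (XT.lf (nat_lit 0) (nat_lit 80389052917) (nat_lit 304) (nat_lit 18229938043) (nat_lit 76) (nat_lit 26028835511) (nat_lit 80) (nat_lit 5) (nat_lit 84) (nat_lit 5) (nat_lit 81) (nat_lit 5) (nat_lit 454) (nat_lit 432) (nat_lit 314)) (XT.lf (nat_lit 0) (nat_lit 103836918536) (nat_lit 152) (nat_lit 26969955013) (nat_lit 228) (nat_lit 14231886) (nat_lit 78) (nat_lit 5) (nat_lit 80) (nat_lit 5) (nat_lit 81) (nat_lit 5) (nat_lit 455) (nat_lit 432) (nat_lit 313))) (XT.nd (nat_lit 78) (nat_lit 152) (nat_lit 0) (XT.lf (nat_lit 0) (nat_lit 48975089272) (nat_lit 304) (nat_lit 36848137841) (nat_lit 76) (nat_lit 51491021153)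 (nat_lit 74) (nat_lit 5) (nat_lit 78) (nat_lit 5) (nat_lit 75) (nat_lit 5) (nat_lit 456) (nat_lit 432) (nat_lit 312)) (XT.lf (nat_lit 0) (nat_lit 97426236283) (nat_lit 152) (nat_lit 6909211546) (nat_lit 228) (nat_lit 39868763649) (nat_lit 72) (nat_lit 5) (nat_lit 74) (nat_lit 5) (nat_lit 75) (nat_lit 5) (nat_lit 457) (nat_lit 432) (nat_lit 311)))))) (XT.nd (nat_lit 546) (nat_lit 836) (nat_lit 0) (XT.nd (nat_lit 234) (nat_lit 684) (nat_lit 0) (XT.nd (nat_lit 78) (nat_lit 304) (nat_lit 0) (XT.lf (nat_lit 0) (nat_lit 15474872532) (nat_lit 228) (nat_lit 57812181396) (nat_lit 76) (nat_lit 78178824949) (nat_lit 69) (nat_lit 5) (nat_lit 72) (nat_lit 5) (nat_lit 70) (nat_lit 5) (nat_lit 458) (nat_lit 432) (nat_lit 310)) (XT.nd (nat_lit 78) (nat_lit 152) (nat_lit 0) (XT.lf (nat_lit 0) (nat_lit 76425350264) (nat_lit 228) (nat_lit 69577113210) (nat_lit 76) (nat_lit 13144529095) (nat_lit 67) (nat_lit 5)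 (nat_lit 70) (nat_lit 5) (nat_lit 68) (nat_lit 5) (nat_lit 459) (nat_lit 432) (nat_lit 309)) (XT.lf (nat_lit 0) (nat_lit 84877189352) (nat_lit 152) (nat_lit 60958066554) (nat_lit 228) (nat_lit 21428170072) (nat_lit 65) (nat_lit 5) (nat_lit 67) (nat_lit 5) (nat_lit 68) (nat_lit 5) (nat_lit 460) (nat_lit 432) (nat_lit 308)))) (XT.nd (nat_lit 156) (nat_lit 304) (nat_lit 0) (XT.nd (nat_lit 78) (nat_lit 152) (nat_lit 0) (XT.lf (nat_lit 0) (nat_lit 46350832648) (nat_lit 228) (nat_lit 96359477185) (nat_lit 76) (nat_lit 33133169347) (nat_lit 62) (nat_lit 5) (nat_lit 65) (nat_lit 5) (nat_lit 63) (nat_lit 5) (nat_lit 461) (nat_lit 432) (nat_lit 307)) (XT.lf (nat_lit 0) (nat_lit 73133919291) (nat_lit 152) (nat_lit 49304846819) (nat_lit 228) (nat_lit 62471739081) (nat_lit 60) (nat_lit 5) (nat_lit 62) (nat_lit 5) (nat_lit 63) (nat_lit 5) (nat_lit 462) (nat_lit 432) (nat_lit 306))) (XT.nd (nat_lit 78) (nat_lit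 152) (nat_lit 0) (XT.lf (nat_lit 0) (nat_lit 13197077289) (nat_lit 152) (nat_lit 128442259099) (nat_lit 76) (nat_lit 52875647912) (nat_lit 58) (nat_lit 5) (nat_lit 60) (nat_lit 5) (nat_lit 59) (nat_lit 5) (nat_lit 463) (nat_lit 432) (nat_lit 305)) (XT.lf (nat_lit 0) (nat_lit 57265501597) (nat_lit 152) (nat_lit 39197942814) (nat_lit 228) (nat_lit 108186533509) (nat_lit 56) (nat_lit 5) (nat_lit 58) (nat_lit 5) (nat_lit 59) (nat_lit 5) (nat_lit 464) (nat_lit 432) (nat_lit 304))))) (XT.nd (nat_lit 234) (nat_lit 456) (nat_lit 0) (XT.nd (nat_lit 78) (nat_lit 304) (nat_lit 0) (XT.lf (nat_lit 0) (nat_lit 47292578045) (nat_lit 76) (nat_lit 143225415436) (nat_lit 152) (nat_lit 24871433985) (nat_lit 55) (nat_lit 5) (nat_lit 56) (nat_lit 5) (nat_lit 57) (nat_lit 4) (nat_lit 465) (nat_lit 432) (nat_lit 303)) (XT.nd (nat_lit 78) (nat_lit 76) (nat_lit 0) (XT.lf (nat_lit 0) (nat_lit 35357668306) (nat_lit 152)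 (nat_lit 31488838626) (nat_lit 228) (nat_lit 159899623300) (nat_lit 52) (nat_lit 5) (nat_lit 54) (nat_lit 5) (nat_lit 55) (nat_lit 5) (nat_lit 466) (nat_lit 432) (nat_lit 302)) (XT.lf (nat_lit 0) (nat_lit 21038216064) (nat_lit 76) (nat_lit 148700146261) (nat_lit 152) (nat_lit 69017227872) (nat_lit 51) (nat_lit 5) (nat_lit 52) (nat_lit 5) (nat_lit 53) (nat_lit 4) (nat_lit 467) (nat_lit 432) (nat_lit 301)))) (XT.nd (nat_lit 156) (nat_lit 228) (nat_lit 0) (XT.nd (nat_lit 78) (nat_lit 0) (nat_lit 0) (XT.lf (nat_lit 0) (nat_lit 4847446718) (nat_lit 152) (nat_lit 27350114810) (nat_lit 228) (nat_lit 219305784505) (nat_lit 48) (nat_lit 5) (nat_lit 50) (nat_lit 5) (nat_lit 51) (nat_lit 5) (nat_lit 468) (nat_lit 432) (nat_lit 300)) (XT.lf (nat_lit 0) (nat_lit 144596870748) (nat_lit 228) (nat_lit 14935822316) (nat_lit 76) (nat_lit 105406389609) (nat_lit 48) (nat_lit 5) (nat_lit 51) (nat_lit 5) (nat_lit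 49) (nat_lit 4) (nat_lit 469) (nat_lit 432) (nat_lit 299))) (XT.nd (nat_lit 78) (nat_lit 152) (nat_lit 0) (XT.lf (nat_lit 0) (nat_lit 242624812574) (nat_lit 76) (nat_lit 27611795755) (nat_lit 152) (nat_lit 9000645775) (nat_lit 47) (nat_lit 5) (nat_lit 48) (nat_lit 5) (nat_lit 49) (nat_lit 4) (nat_lit 470) (nat_lit 432) (nat_lit 298)) (XT.lf (nat_lit 0) (nat_lit 113464582457) (nat_lit 152) (nat_lit 63931892040) (nat_lit 76) (nat_lit 116907111172) (nat_lit 45) (nat_lit 5) (nat_lit 47) (nat_lit 5) (nat_lit 46) (nat_lit 4) (nat_lit 471) (nat_lit 432) (nat_lit 297))))))) (XT.nd (nat_lit 1092) (nat_lit 988) (nat_lit 0) (XT.nd (nat_lit 546) (nat_lit 684) (nat_lit 0) (XT.nd (nat_lit 234) (nat_lit 380) (nat_lit 0) (XT.nd (nat_lit 78) (nat_lit 228) (nat_lit 0) (XT.lf (nat_lit 0) (nat_lit 215755028473) (nat_lit 76) (nat_lit 34142527590) (nat_lit 152) (nat_lit 60445996855) (nat_lit 44) (nat_lit 5) (nat_lit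 45) (nat_lit 5) (nat_lit 46) (nat_lit 4) (nat_lit 472) (nat_lit 432) (nat_lit 296)) (XT.nd (nat_lit 78) (nat_lit 76) (nat_lit 0) (XT.lf (nat_lit 0) (nat_lit 73538982764) (nat_lit 152) (nat_lit 131659929910) (nat_lit 76) (nat_lit 122104115287) (nat_lit 42) (nat_lit 5) (nat_lit 44) (nat_lit 5) (nat_lit 43) (nat_lit 4) (nat_lit 473) (nat_lit 432) (nat_lit 295)) (XT.lf (nat_lit 0) (nat_lit 170776829964) (nat_lit 76) (nat_lit 50292548571) (nat_lit 152) (nat_lit 124253119047) (nat_lit 41) (nat_lit 5) (nat_lit 42) (nat_lit 5) (nat_lit 43) (nat_lit 4) (nat_lit 474) (nat_lit 432) (nat_lit 294)))) (XT.nd (nat_lit 156) (nat_lit 152) (nat_lit 0) (XT.nd (nat_lit 78) (nat_lit 76) (nat_lit 0) (XT.lf (nat_lit 0) (nat_lit 21566679897) (nat_lit 152) (nat_lit 224755836344) (nat_lit 76) (nat_lit 118126421284) (nat_lit 39) (nat_lit 5) (nat_lit 41) (nat_lit 5) (nat_lit 40) (nat_lit 4) (nat_lit 475) (nat_lit 432)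 (nat_lit 293)) (XT.lf (nat_lit 0) (nat_lit 100575324861) (nat_lit 76) (nat_lit 79689702098) (nat_lit 152) (nat_lit 204460309496) (nat_lit 38) (nat_lit 5) (nat_lit 39) (nat_lit 5) (nat_lit 40) (nat_lit 4) (nat_lit 476) (nat_lit 432) (nat_lit 292))) (XT.nd (nat_lit 78) (nat_lit 76) (nat_lit 0) (XT.lf (nat_lit 0) (nat_lit 53616003711) (nat_lit 76) (nat_lit 304424577519) (nat_lit 76) (nat_lit 48264199116) (nat_lit 37) (nat_lit 4) (nat_lit 38) (nat_lit 5) (nat_lit 38) (nat_lit 4) (nat_lit 477) (nat_lit 432) (nat_lit 291)) (XT.lf (nat_lit 0) (nat_lit 122947154564) (nat_lit 152) (nat_lit 4119079197) (nat_lit 76) (nat_lit 302131635901) (nat_lit 36) (nat_lit 5) (nat_lit 38) (nat_lit 5) (nat_lit 37) (nat_lit 4) (nat_lit 478) (nat_lit 432) (nat_lit 290))))) (XT.nd (nat_lit 234) (nat_lit 380) (nat_lit 0) (XT.nd (nat_lit 78) (nat_lit 228) (nat_lit 0) (XT.lf (nat_lit 0) (nat_lit 313297118952) (nat_lit 152)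 (nat_lit 70894914672) (nat_lit 0) (nat_lit 69334179453) (nat_lit 35) (nat_lit 5) (nat_lit 37) (nat_lit 4) (nat_lit 35) (nat_lit 4) (nat_lit 479) (nat_lit 432) (nat_lit 289)) (XT.nd (nat_lit 78) (nat_lit 76) (nat_lit 0) (XT.lf (nat_lit 0) (nat_lit 45296677470) (nat_lit 152) (nat_lit 151105050876) (nat_lit 76) (nat_lit 282994940644) (nat_lit 33) (nat_lit 5) (nat_lit 35) (nat_lit 5) (nat_lit 34) (nat_lit 4) (nat_lit 480) (nat_lit 432) (nat_lit 288)) (XT.lf (nat_lit 0) (nat_lit 246367174201) (nat_lit 152) (nat_lit 246552898001) (nat_lit 0) (nat_lit 14020966917) (nat_lit 32) (nat_lit 5) (nat_lit 34) (nat_lit 4) (nat_lit 32) (nat_lit 4) (nat_lit 481) (nat_lit 432) (nat_lit 287)))) (XT.nd (nat_lit 156) (nat_lit 152) (nat_lit 0) (XT.nd (nat_lit 78) (nat_lit 152) (nat_lit 0) (XT.lf (nat_lit 0) (nat_lit 175913893206) (nat_lit 76) (nat_lit 296342433626) (nat_lit 76) (nat_lit 63995981231) (nat_lit 31)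 (nat_lit 4) (nat_lit 32) (nat_lit 5) (nat_lit 32) (nat_lit 4) (nat_lit 482) (nat_lit 432) (nat_lit 286)) (XT.lf (nat_lit 0) (nat_lit 73246102016) (nat_lit 76) (nat_lit 75823547430) (nat_lit 152) (nat_lit 418447638669) (nat_lit 29) (nat_lit 5) (nat_lit 30) (nat_lit 5) (nat_lit 31) (nat_lit 4) (nat_lit 483) (nat_lit 432) (nat_lit 285))) (XT.nd (nat_lit 78) (nat_lit 152) (nat_lit 0) (XT.lf (nat_lit 0) (nat_lit 385882234347) (nat_lit 152) (nat_lit 50302103505) (nat_lit 0) (nat_lit 164599482448) (nat_lit 29) (nat_lit 5) (nat_lit 31) (nat_lit 4) (nat_lit 29) (nat_lit 4) (nat_lit 484) (nat_lit 432) (nat_lit 284)) (XT.lf (nat_lit 0) (nat_lit 13084308938) (nat_lit 152) (nat_lit 194460103885) (nat_lit 76) (nat_lit 428747720653) (nat_lit 27) (nat_lit 5) (nat_lit 29) (nat_lit 5) (nat_lit 28) (nat_lit 4) (nat_lit 485) (nat_lit 432) (nat_lit 283)))))) (XT.nd (nat_lit 546) (nat_lit 456) (nat_lit 0) (XT.nd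 (nat_lit 234) (nat_lit 304) (nat_lit 0) (XT.nd (nat_lit 78) (nat_lit 152) (nat_lit 0) (XT.lf (nat_lit 0) (nat_lit 258326908304) (nat_lit 152) (nat_lit 368229617286) (nat_lit 0) (nat_lit 47581090403) (nat_lit 26) (nat_lit 5) (nat_lit 28) (nat_lit 4) (nat_lit 26) (nat_lit 4) (nat_lit 486) (nat_lit 432) (nat_lit 282)) (XT.nd (nat_lit 78) (nat_lit 76) (nat_lit 0) (XT.lf (nat_lit 0) (nat_lit 139311213469) (nat_lit 76) (nat_lit 392994818521) (nat_lit 76) (nat_lit 182248849311) (nat_lit 25) (nat_lit 4) (nat_lit 26) (nat_lit 5) (nat_lit 26) (nat_lit 4) (nat_lit 487) (nat_lit 432) (nat_lit 281)) (XT.lf (nat_lit 0) (nat_lit 74276672416) (nat_lit 152) (nat_lit 58478930857) (nat_lit 76) (nat_lit 625069327028) (nat_lit 24) (nat_lit 5) (nat_lit 26) (nat_lit 5) (nat_lit 25) (nat_lit 4) (nat_lit 488) (nat_lit 432) (nat_lit 280)))) (XT.nd (nat_lit 156) (nat_lit 152) (nat_lit 0) (XT.nd (nat_lit 78) (nat_lit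 76) (nat_lit 0) (XT.lf (nat_lit 0) (nat_lit 355530137046) (nat_lit 152) (nat_lit 293528078021) (nat_lit 0) (nat_lit 154819433204) (nat_lit 23) (nat_lit 5) (nat_lit 25) (nat_lit 4) (nat_lit 23) (nat_lit 4) (nat_lit 489) (nat_lit 432) (nat_lit 279)) (XT.lf (nat_lit 0) (nat_lit 279911998403) (nat_lit 76) (nat_lit 387015608557) (nat_lit 76) (nat_lit 186304790319) (nat_lit 22) (nat_lit 4) (nat_lit 23) (nat_lit 5) (nat_lit 23) (nat_lit 4) (nat_lit 490) (nat_lit 432) (nat_lit 278))) (XT.nd (nat_lit 78) (nat_lit 0) (nat_lit 0) (XT.lf (nat_lit 0) (nat_lit 1895594245) (nat_lit 76) (nat_lit 96936853756) (nat_lit 152) (nat_lit 807366281920) (nat_lit 20) (nat_lit 5) (nat_lit 21) (nat_lit 5) (nat_lit 22) (nat_lit 4) (nat_lit 491) (nat_lit 432) (nat_lit 277)) (XT.lf (nat_lit 0) (nat_lit 413868778314) (nat_lit 152) (nat_lit 325984691951) (nat_lit 0) (nat_lit 222715423806) (nat_lit 20) (nat_lit 5) (nat_lit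 22) (nat_lit 4) (nat_lit 20) (nat_lit 4) (nat_lit 492) (nat_lit 432) (nat_lit 276))))) (XT.nd (nat_lit 234) (nat_lit 228) (nat_lit 0) (XT.nd (nat_lit 78) (nat_lit 152) (nat_lit 0) (XT.lf (nat_lit 0) (nat_lit 306783057815) (nat_lit 76) (nat_lit 453748927999) (nat_lit 76) (nat_lit 262595487006) (nat_lit 19) (nat_lit 4) (nat_lit 20) (nat_lit 5) (nat_lit 20) (nat_lit 4) (nat_lit 493) (nat_lit 432) (nat_lit 275)) (XT.nd (nat_lit 78) (nat_lit 76) (nat_lit 0) (XT.lf (nat_lit 0) (nat_lit 50683737881) (nat_lit 152) (nat_lit 87251858415) (nat_lit 76) (nat_lit 950270360017) (nat_lit 18) (nat_lit 5) (nat_lit 20) (nat_lit 5) (nat_lit 19) (nat_lit 4) (nat_lit 494) (nat_lit 432) (nat_lit 274)) (XT.lf (nat_lit 0) (nat_lit 392827244206) (nat_lit 152) (nat_lit 554021930434) (nat_lit 0) (nat_lit 210776201139) (nat_lit 17) (nat_lit 5) (nat_lit 19) (nat_lit 4) (nat_lit 17) (nat_lit 4) (nat_lit 495) (nat_lit 432)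 (nat_lit 273)))) (XT.nd (nat_lit 156) (nat_lit 152) (nat_lit 0) (XT.nd (nat_lit 78) (nat_lit 0) (nat_lit 0) (XT.lf (nat_lit 0) (nat_lit 121869853109) (nat_lit 76) (nat_lit 646245474657) (nat_lit 76) (nat_lit 464194366204) (nat_lit 16) (nat_lit 4) (nat_lit 17) (nat_lit 5) (nat_lit 17) (nat_lit 4) (nat_lit 496) (nat_lit 432) (nat_lit 272)) (XT.lf (nat_lit 0) (nat_lit 871616411891) (nat_lit 76) (nat_lit 311460496112) (nat_lit 76) (nat_lit 129409327116) (nat_lit 16) (nat_lit 4) (nat_lit 17) (nat_lit 5) (nat_lit 17) (nat_lit 4) (nat_lit 497) (nat_lit 432) (nat_lit 271))) (XT.nd (nat_lit 57408) (nat_lit 0) (nat_lit 9348) (XT.lf (nat_lit 0) (nat_lit 230137364669) (nat_lit 152) (nat_lit 1111732588475) (nat_lit 0) (nat_lit 56755245571) (nat_lit 14) (nat_lit 5) (nat_lit 16) (nat_lit 4) (nat_lit 14) (nat_lit 4) (nat_lit 498) (nat_lit 432) (nat_lit 270)) (XT.lf (nat_lit 0) (nat_lit 9840142171) (nat_lit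 836) (nat_lit 7954932394) (nat_lit 836) (nat_lit 7954932394) (nat_lit 137) (nat_lit 3) (nat_lit 148) (nat_lit 3) (nat_lit 148) (nat_lit 5) (nat_lit 433) (nat_lit 433) (nat_lit 334))))))))
noncomputable def xc95 : XT := (XT.nd (nat_lit 2184) (nat_lit 3192) (nat_lit 0) (XT.nd (nat_lit 1092) (nat_lit 2888) (nat_lit 0) (XT.nd (nat_lit 546) (nat_lit 2204) (nat_lit 0) (XT.nd (nat_lit 234) (nat_lit 456) (nat_lit 0) (XT.nd (nat_lit 78) (nat_lit 0) (nat_lit 0) (XT.lf (nat_lit 0) (nat_lit 20978807263) (nat_lit 760) (nat_lit 28002474116) (nat_lit 836) (nat_lit 4553158674) (nat_lit 138) (nat_lit 5) (nat_lit 148) (nat_lit 5) (nat_lit 149) (nat_lit 5) (nat_lit 434) (nat_lit 433) (nat_lit 333)) (XT.nd (nat_lit 78) (nat_lit 0) (nat_lit 76) (XT.lf (nat_lit 76) (nat_lit 15013084935) (nat_lit 0) (nat_lit 8480510409) (nat_lit 836) (nat_lit 32182406652) (nat_lit 139) (nat_lit 5) (nat_lit 138) (nat_lit 5) (nat_lit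 149) (nat_lit 5) (nat_lit 435) (nat_lit 433) (nat_lit 332)) (XT.lf (nat_lit 76) (nat_lit 4074874460) (nat_lit 0) (nat_lit 23241065041) (nat_lit 836) (nat_lit 30617631562) (nat_lit 140) (nat_lit 5) (nat_lit 139) (nat_lit 5) (nat_lit 150) (nat_lit 5) (nat_lit 436) (nat_lit 433) (nat_lit 331)))) (XT.nd (nat_lit 156) (nat_lit 608) (nat_lit 0) (XT.nd (nat_lit 78) (nat_lit 0) (nat_lit 76) (XT.lf (nat_lit 0) (nat_lit 32623944988) (nat_lit 760) (nat_lit 6969896301) (nat_lit 836) (nat_lit 20718911436) (nat_lit 140) (nat_lit 5) (nat_lit 150) (nat_lit 5) (nat_lit 151) (nat_lit 5) (nat_lit 437) (nat_lit 433) (nat_lit 330)) (XT.lf (nat_lit 0) (nat_lit 39525596134) (nat_lit 760) (nat_lit 18203369985) (nat_lit 836) (nat_lit 5094853242) (nat_lit 141) (nat_lit 5) (nat_lit 151) (nat_lit 5) (nat_lit 152) (nat_lit 5) (nat_lit 438) (nat_lit 433) (nat_lit 329))) (XT.nd (nat_lit 78) (nat_lit 684) (nat_lit 0) (XT.lf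 (nat_lit 76) (nat_lit 35522194067) (nat_lit 0) (nat_lit 12799960924) (nat_lit 836) (nat_lit 17146478206) (nat_lit 142) (nat_lit 5) (nat_lit 141) (nat_lit 5) (nat_lit 152) (nat_lit 5) (nat_lit 439) (nat_lit 433) (nat_lit 328)) (XT.lf (nat_lit 0) (nat_lit 26158582647) (nat_lit 760) (nat_lit 32949627540) (nat_lit 836) (nat_lit 9152533975) (nat_lit 132) (nat_lit 5) (nat_lit 142) (nat_lit 5) (nat_lit 143) (nat_lit 5) (nat_lit 440) (nat_lit 433) (nat_lit 327))))) (XT.nd (nat_lit 234) (nat_lit 1368) (nat_lit 0) (XT.nd (nat_lit 78) (nat_lit 380) (nat_lit 0) (XT.lf (nat_lit 0) (nat_lit 760644197) (nat_lit 456) (nat_lit 54588842609) (nat_lit 76) (nat_lit 15863987699) (nat_lit 126) (nat_lit 5) (nat_lit 132) (nat_lit 5) (nat_lit 127) (nat_lit 5) (nat_lit 441) (nat_lit 433) (nat_lit 326)) (XT.nd (nat_lit 78) (nat_lit 0) (nat_lit 0) (XT.lf (nat_lit 0) (nat_lit 6676643114) (nat_lit 380) (nat_lit 5876715527)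 (nat_lit 456) (nat_lit 61771205937) (nat_lit 121) (nat_lit 5) (nat_lit 126) (nat_lit 5) (nat_lit 127) (nat_lit 5) (nat_lit 442) (nat_lit 433) (nat_lit 325)) (XT.lf (nat_lit 0) (nat_lit 26996179780) (nat_lit 456) (nat_lit 3604704868) (nat_lit 76) (nat_lit 46998323189) (nat_lit 121) (nat_lit 5) (nat_lit 127) (nat_lit 5) (nat_lit 122) (nat_lit 5) (nat_lit 443) (nat_lit 433) (nat_lit 324)))) (XT.nd (nat_lit 156) (nat_lit 684) (nat_lit 0) (XT.nd (nat_lit 78) (nat_lit 304) (nat_lit 0) (XT.lf (nat_lit 0) (nat_lit 44120051925) (nat_lit 456) (nat_lit 13825890600) (nat_lit 76) (nat_lit 23113599186) (nat_lit 116) (nat_lit 5) (nat_lit 122) (nat_lit 5) (nat_lit 117) (nat_lit 5) (nat_lit 444) (nat_lit 433) (nat_lit 323)) (XT.lf (nat_lit 0) (nat_lit 60491101438) (nat_lit 304) (nat_lit 3645010793) (nat_lit 380) (nat_lit 20584476535) (nat_lit 112) (nat_lit 5) (nat_lit 116) (nat_lit 5) (nat_lit 117) (nat_lit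 5) (nat_lit 445) (nat_lit 433) (nat_lit 322))) (XT.nd (nat_lit 78) (nat_lit 380) (nat_lit 0) (XT.lf (nat_lit 0) (nat_lit 53429928512) (nat_lit 304) (nat_lit 34259353492) (nat_lit 380) (nat_lit 888446712) (nat_lit 108) (nat_lit 5) (nat_lit 112) (nat_lit 5) (nat_lit 113) (nat_lit 5) (nat_lit 446) (nat_lit 433) (nat_lit 321)) (XT.lf (nat_lit 0) (nat_lit 21345931468) (nat_lit 380) (nat_lit 46520481050) (nat_lit 76) (nat_lit 24780362778) (nat_lit 103) (nat_lit 5) (nat_lit 108) (nat_lit 5) (nat_lit 104) (nat_lit 5) (nat_lit 447) (nat_lit 433) (nat_lit 320)))))) (XT.nd (nat_lit 546) (nat_lit 1368) (nat_lit 0) (XT.nd (nat_lit 234) (nat_lit 684) (nat_lit 0) (XT.nd (nat_lit 78) (nat_lit 532) (nat_lit 0) (XT.lf (nat_lit 0) (nat_lit 38783158719) (nat_lit 304) (nat_lit 8348980882) (nat_lit 380) (nat_lit 49818267736) (nat_lit 99) (nat_lit 5) (nat_lit 103) (nat_lit 5) (nat_lit 104) (nat_lit 5) (nat_lit 448)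 (nat_lit 433) (nat_lit 319)) (XT.nd (nat_lit 78) (nat_lit 304) (nat_lit 0) (XT.lf (nat_lit 0) (nat_lit 31121969486) (nat_lit 228) (nat_lit 46040437046) (nat_lit 304) (nat_lit 24326865575) (nat_lit 96) (nat_lit 5) (nat_lit 99) (nat_lit 5) (nat_lit 100) (nat_lit 5) (nat_lit 449) (nat_lit 433) (nat_lit 318)) (XT.lf (nat_lit 0) (nat_lit 4942466206) (nat_lit 304) (nat_lit 82766922948) (nat_lit 76) (nat_lit 18587298060) (nat_lit 92) (nat_lit 5) (nat_lit 96) (nat_lit 5) (nat_lit 93) (nat_lit 5) (nat_lit 450) (nat_lit 433) (nat_lit 317)))) (XT.nd (nat_lit 156) (nat_lit 228) (nat_lit 0) (XT.nd (nat_lit 78) (nat_lit 228) (nat_lit 0) (XT.lf (nat_lit 0) (nat_lit 15305164491) (nat_lit 228) (nat_lit 22666943444) (nat_lit 304) (nat_lit 73383094852) (nat_lit 89) (nat_lit 5) (nat_lit 92) (nat_lit 5) (nat_lit 93) (nat_lit 5) (nat_lit 451) (nat_lit 433) (nat_lit 316)) (XT.lf (nat_lit 0) (nat_lit 6884112331) (nat_lit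 228) (nat_lit 69074313354) (nat_lit 304) (nat_lit 40744258893) (nat_lit 86) (nat_lit 5) (nat_lit 89) (nat_lit 5) (nat_lit 90) (nat_lit 5) (nat_lit 452) (nat_lit 433) (nat_lit 315))) (XT.nd (nat_lit 78) (nat_lit 228) (nat_lit 0) (XT.lf (nat_lit 0) (nat_lit 119063574471) (nat_lit 304) (nat_lit 1321529352) (nat_lit 76) (nat_lit 1988865000) (nat_lit 86) (nat_lit 5) (nat_lit 90) (nat_lit 5) (nat_lit 87) (nat_lit 5) (nat_lit 453) (nat_lit 433) (nat_lit 314)) (XT.lf (nat_lit 0) (nat_lit 38992866012) (nat_lit 228) (nat_lit 10496377583) (nat_lit 76) (nat_lit 78827601431) (nat_lit 83) (nat_lit 5) (nat_lit 86) (nat_lit 5) (nat_lit 84) (nat_lit 5) (nat_lit 454) (nat_lit 433) (nat_lit 313))))) (XT.nd (nat_lit 234) (nat_lit 684) (nat_lit 0) (XT.nd (nat_lit 78) (nat_lit 456) (nat_lit 0) (XT.lf (nat_lit 0) (nat_lit 86844172485) (nat_lit 304) (nat_lit 19650802091) (nat_lit 76) (nat_lit 28123475198) (nat_lit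 80) (nat_lit 5) (nat_lit 84) (nat_lit 5) (nat_lit 81) (nat_lit 5) (nat_lit 455) (nat_lit 433) (nat_lit 312)) (XT.nd (nat_lit 78) (nat_lit 228) (nat_lit 0) (XT.lf (nat_lit 0) (nat_lit 8276061) (nat_lit 228) (nat_lit 29106013651) (nat_lit 76) (nat_lit 112171355742) (nat_lit 77) (nat_lit 5) (nat_lit 80) (nat_lit 5) (nat_lit 78) (nat_lit 5) (nat_lit 456) (nat_lit 433) (nat_lit 311)) (XT.lf (nat_lit 0) (nat_lit 52915287759) (nat_lit 304) (nat_lit 39760016696) (nat_lit 76) (nat_lit 55622971616) (nat_lit 74) (nat_lit 5) (nat_lit 78) (nat_lit 5) (nat_lit 75) (nat_lit 5) (nat_lit 457) (nat_lit 433) (nat_lit 310)))) (XT.nd (nat_lit 156) (nat_lit 304) (nat_lit 0) (XT.nd (nat_lit 78) (nat_lit 228) (nat_lit 0) (XT.lf (nat_lit 0) (nat_lit 105254744051) (nat_lit 152) (nat_lit 7448624366) (nat_lit 228) (nat_lit 43036123438) (nat_lit 72) (nat_lit 5) (nat_lit 74) (nat_lit 5) (nat_lit 75) (nat_lit 5) (nat_lit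 458) (nat_lit 433) (nat_lit 309)) (XT.lf (nat_lit 0) (nat_lit 16733438325) (nat_lit 228) (nat_lit 62402748403) (nat_lit 76) (nat_lit 84445931628) (nat_lit 69) (nat_lit 5) (nat_lit 72) (nat_lit 5) (nat_lit 70) (nat_lit 5) (nat_lit 459) (nat_lit 433) (nat_lit 308))) (XT.nd (nat_lit 78) (nat_lit 152) (nat_lit 0) (XT.lf (nat_lit 0) (nat_lit 82559152357) (nat_lit 228) (nat_lit 75109598281) (nat_lit 76) (nat_lit 14209010753) (nat_lit 67) (nat_lit 5) (nat_lit 70) (nat_lit 5) (nat_lit 68) (nat_lit 5) (nat_lit 460) (nat_lit 433) (nat_lit 307)) (XT.lf (nat_lit 0) (nat_lit 91699584621) (nat_lit 152) (nat_lit 65821304128) (nat_lit 228) (nat_lit 23122668946) (nat_lit 65) (nat_lit 5) (nat_lit 67) (nat_lit 5) (nat_lit 68) (nat_lit 5) (nat_lit 461) (nat_lit 433) (nat_lit 306))))))) (XT.nd (nat_lit 1092) (nat_lit 1368) (nat_lit 0) (XT.nd (nat_lit 546) (nat_lit 760) (nat_lit 0) (XT.nd (nat_lit 234) (nat_lit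 532) (nat_lit 0) (XT.nd (nat_lit 78) (nat_lit 304) (nat_lit 0) (XT.lf (nat_lit 0) (nat_lit 50077302443) (nat_lit 228) (nat_lit 104036104287) (nat_lit 76) (nat_lit 35796629091) (nat_lit 62) (nat_lit 5) (nat_lit 65) (nat_lit 5) (nat_lit 63) (nat_lit 5) (nat_lit 462) (nat_lit 433) (nat_lit 305)) (XT.nd (nat_lit 78) (nat_lit 152) (nat_lit 0) (XT.lf (nat_lit 0) (nat_lit 79015367531) (nat_lit 152) (nat_lit 53236019706) (nat_lit 228) (nat_lit 67451080955) (nat_lit 60) (nat_lit 5) (nat_lit 62) (nat_lit 5) (nat_lit 63) (nat_lit 5) (nat_lit 463) (nat_lit 433) (nat_lit 304)) (XT.lf (nat_lit 0) (nat_lit 14270003637) (nat_lit 152) (nat_lit 138687030248) (nat_lit 76) (nat_lit 57118289897) (nat_lit 58) (nat_lit 5) (nat_lit 60) (nat_lit 5) (nat_lit 59) (nat_lit 5) (nat_lit 464) (nat_lit 433) (nat_lit 303)))) (XT.nd (nat_lit 156) (nat_lit 304) (nat_lit 0) (XT.nd (nat_lit 78) (nat_lit 76) (nat_lit 0) (XT.lf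 (nat_lit 0) (nat_lit 61876021049) (nat_lit 152) (nat_lit 42320845089) (nat_lit 228) (nat_lit 116824291547) (nat_lit 56) (nat_lit 5) (nat_lit 58) (nat_lit 5) (nat_lit 59) (nat_lit 5) (nat_lit 465) (nat_lit 433) (nat_lit 302)) (XT.lf (nat_lit 0) (nat_lit 51104580921) (nat_lit 76) (nat_lit 154670620823) (nat_lit 152) (nat_lit 26844590405) (nat_lit 55) (nat_lit 5) (nat_lit 56) (nat_lit 5) (nat_lit 57) (nat_lit 4) (nat_lit 466) (nat_lit 433) (nat_lit 301))) (XT.nd (nat_lit 78) (nat_lit 76) (nat_lit 0) (XT.lf (nat_lit 0) (nat_lit 38214143545) (nat_lit 152) (nat_lit 33995359989) (nat_lit 228) (nat_lit 172675552367) (nat_lit 52) (nat_lit 5) (nat_lit 54) (nat_lit 5) (nat_lit 55) (nat_lit 5) (nat_lit 467) (nat_lit 433) (nat_lit 300)) (XT.lf (nat_lit 0) (nat_lit 22748467841) (nat_lit 76) (nat_lit 160583714483) (nat_lit 152) (nat_lit 74523116660) (nat_lit 51) (nat_lit 5) (nat_lit 52) (nat_lit 5) (nat_lit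 53) (nat_lit 4) (nat_lit 468) (nat_lit 433) (nat_lit 299))))) (XT.nd (nat_lit 234) (nat_lit 456) (nat_lit 0) (XT.nd (nat_lit 78) (nat_lit 76) (nat_lit 0) (XT.lf (nat_lit 0) (nat_lit 5261730122) (nat_lit 152) (nat_lit 29525932915) (nat_lit 228) (nat_lit 236835235076) (nat_lit 48) (nat_lit 5) (nat_lit 50) (nat_lit 5) (nat_lit 51) (nat_lit 5) (nat_lit 469) (nat_lit 433) (nat_lit 298)) (XT.nd (nat_lit 78) (nat_lit 76) (nat_lit 0) (XT.lf (nat_lit 0) (nat_lit 156178034226) (nat_lit 228) (nat_lit 16105676127) (nat_lit 76) (nat_lit 113849827527) (nat_lit 48) (nat_lit 5) (nat_lit 51) (nat_lit 5) (nat_lit 49) (nat_lit 4) (nat_lit 470) (nat_lit 433) (nat_lit 297)) (XT.lf (nat_lit 0) (nat_lit 262058722565) (nat_lit 76) (nat_lit 29809608169) (nat_lit 152) (nat_lit 9707263348) (nat_lit 47) (nat_lit 5) (nat_lit 48) (nat_lit 5) (nat_lit 49) (nat_lit 4) (nat_lit 471) (nat_lit 433) (nat_lit 296)))) (XT.nd (nat_lit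 156) (nat_lit 228) (nat_lit 0) (XT.nd (nat_lit 78) (nat_lit 76) (nat_lit 0) (XT.lf (nat_lit 0) (nat_lit 122554323696) (nat_lit 152) (nat_lit 69022695525) (nat_lit 76) (nat_lit 126270223984) (nat_lit 45) (nat_lit 5) (nat_lit 47) (nat_lit 5) (nat_lit 46) (nat_lit 4) (nat_lit 472) (nat_lit 433) (nat_lit 295)) (XT.lf (nat_lit 0) (nat_lit 233038146576) (nat_lit 76) (nat_lit 36863211817) (nat_lit 152) (nat_lit 65269078324) (nat_lit 44) (nat_lit 5) (nat_lit 45) (nat_lit 5) (nat_lit 46) (nat_lit 4) (nat_lit 473) (nat_lit 433) (nat_lit 294))) (XT.nd (nat_lit 78) (nat_lit 76) (nat_lit 0) (XT.lf (nat_lit 0) (nat_lit 79433901967) (nat_lit 152) (nat_lit 142170190747) (nat_lit 76) (nat_lit 131882586978) (nat_lit 42) (nat_lit 5) (nat_lit 44) (nat_lit 5) (nat_lit 43) (nat_lit 4) (nat_lit 474) (nat_lit 433) (nat_lit 293)) (XT.lf (nat_lit 0) (nat_lit 184460530636) (nat_lit 76) (nat_lit 54305661168) (nat_lit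 152) (nat_lit 134181541993) (nat_lit 41) (nat_lit 5) (nat_lit 42) (nat_lit 5) (nat_lit 43) (nat_lit 4) (nat_lit 475) (nat_lit 433) (nat_lit 292)))))) (XT.nd (nat_lit 546) (nat_lit 684) (nat_lit 0) (XT.nd (nat_lit 234) (nat_lit 380) (nat_lit 0) (XT.nd (nat_lit 78) (nat_lit 152) (nat_lit 0) (XT.lf (nat_lit 0) (nat_lit 23303098843) (nat_lit 152) (nat_lit 242714933398) (nat_lit 76) (nat_lit 127586265669) (nat_lit 39) (nat_lit 5) (nat_lit 41) (nat_lit 5) (nat_lit 40) (nat_lit 4) (nat_lit 476) (nat_lit 433) (nat_lit 291)) (XT.nd (nat_lit 78) (nat_lit 76) (nat_lit 0) (XT.lf (nat_lit 0) (nat_lit 108641791996) (nat_lit 76) (nat_lit 86055019739) (nat_lit 152) (nat_lit 220806022144) (nat_lit 38) (nat_lit 5) (nat_lit 39) (nat_lit 5) (nat_lit 40) (nat_lit 4) (nat_lit 477) (nat_lit 433) (nat_lit 290)) (XT.lf (nat_lit 0) (nat_lit 57925196057) (nat_lit 76) (nat_lit 328768883793) (nat_lit 76) (nat_lit 52114569983)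 (nat_lit 37) (nat_lit 4) (nat_lit 38) (nat_lit 5) (nat_lit 38) (nat_lit 4) (nat_lit 478) (nat_lit 433) (nat_lit 289)))) (XT.nd (nat_lit 156) (nat_lit 228) (nat_lit 0) (XT.nd (nat_lit 78) (nat_lit 76) (nat_lit 0) (XT.lf (nat_lit 0) (nat_lit 132792575553) (nat_lit 152) (nat_lit 4429849127) (nat_lit 76) (nat_lit 326310791828) (nat_lit 36) (nat_lit 5) (nat_lit 38) (nat_lit 5) (nat_lit 37) (nat_lit 4) (nat_lit 479) (nat_lit 433) (nat_lit 288)) (XT.lf (nat_lit 0) (nat_lit 338370238750) (nat_lit 152) (nat_lit 76548241854) (nat_lit 0) (nat_lit 74889361733) (nat_lit 35) (nat_lit 5) (nat_lit 37) (nat_lit 4) (nat_lit 35) (nat_lit 4) (nat_lit 480) (nat_lit 433) (nat_lit 287))) (XT.nd (nat_lit 78) (nat_lit 76) (nat_lit 0) (XT.lf (nat_lit 0) (nat_lit 48929488771) (nat_lit 152) (nat_lit 163175682401) (nat_lit 76) (nat_lit 305642777241) (nat_lit 33) (nat_lit 5) (nat_lit 35) (nat_lit 5) (nat_lit 34) (nat_lit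 4) (nat_lit 481) (nat_lit 433) (nat_lit 286)) (XT.lf (nat_lit 0) (nat_lit 266085348338) (nat_lit 152) (nat_lit 266259825994) (nat_lit 0) (nat_lit 15150707684) (nat_lit 32) (nat_lit 5) (nat_lit 34) (nat_lit 4) (nat_lit 32) (nat_lit 4) (nat_lit 482) (nat_lit 433) (nat_lit 285))))) (XT.nd (nat_lit 312) (nat_lit 304) (nat_lit 0) (XT.nd (nat_lit 156) (nat_lit 152) (nat_lit 0) (XT.nd (nat_lit 78) (nat_lit 152) (nat_lit 0) (XT.lf (nat_lit 0) (nat_lit 190003556506) (nat_lit 76) (nat_lit 320041683227) (nat_lit 76) (nat_lit 69106832431) (nat_lit 31) (nat_lit 4) (nat_lit 32) (nat_lit 5) (nat_lit 32) (nat_lit 4) (nat_lit 483) (nat_lit 433) (nat_lit 284)) (XT.lf (nat_lit 0) (nat_lit 79121893136) (nat_lit 76) (nat_lit 81881491502) (nat_lit 152) (nat_lit 451914878183) (nat_lit 29) (nat_lit 5) (nat_lit 30) (nat_lit 5) (nat_lit 31) (nat_lit 4) (nat_lit 484) (nat_lit 433) (nat_lit 283))) (XT.nd (nat_lit 78)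 (nat_lit 152) (nat_lit 0) (XT.lf (nat_lit 0) (nat_lit 416760486426) (nat_lit 152) (nat_lit 54311098321) (nat_lit 0) (nat_lit 177774557342) (nat_lit 29) (nat_lit 5) (nat_lit 31) (nat_lit 4) (nat_lit 29) (nat_lit 4) (nat_lit 485) (nat_lit 433) (nat_lit 282)) (XT.lf (nat_lit 0) (nat_lit 14138505535) (nat_lit 152) (nat_lit 210002151610) (nat_lit 76) (nat_lit 463054474266) (nat_lit 27) (nat_lit 5) (nat_lit 29) (nat_lit 5) (nat_lit 28) (nat_lit 4) (nat_lit 486) (nat_lit 433) (nat_lit 281)))) (XT.nd (nat_lit 156) (nat_lit 152) (nat_lit 0) (XT.nd (nat_lit 78) (nat_lit 76) (nat_lit 0) (XT.lf (nat_lit 0) (nat_lit 279000290568) (nat_lit 152) (nat_lit 397673620677) (nat_lit 0) (nat_lit 51394352410) (nat_lit 26) (nat_lit 5) (nat_lit 28) (nat_lit 4) (nat_lit 26) (nat_lit 4) (nat_lit 487) (nat_lit 433) (nat_lit 280)) (XT.lf (nat_lit 0) (nat_lit 150469852210) (nat_lit 76) (nat_lit 424427570959) (nat_lit 76)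 (nat_lit 196821503078) (nat_lit 25) (nat_lit 4) (nat_lit 26) (nat_lit 5) (nat_lit 26) (nat_lit 4) (nat_lit 488) (nat_lit 433) (nat_lit 279))) (XT.nd (nat_lit 78) (nat_lit 76) (nat_lit 0) (XT.lf (nat_lit 0) (nat_lit 80225308061) (nat_lit 152) (nat_lit 63144306470) (nat_lit 76) (nat_lit 675080984990) (nat_lit 24) (nat_lit 5) (nat_lit 26) (nat_lit 5) (nat_lit 25) (nat_lit 4) (nat_lit 489) (nat_lit 433) (nat_lit 278)) (XT.lf (nat_lit 0) (nat_lit 383978857698) (nat_lit 152) (nat_lit 316997733160) (nat_lit 0) (nat_lit 167210953687) (nat_lit 23) (nat_lit 5) (nat_lit 25) (nat_lit 4) (nat_lit 23) (nat_lit 4) (nat_lit 490) (nat_lit 433) (nat_lit 277))))))))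
noncomputable def xc96 : XT := (XT.nd (nat_lit 59592) (nat_lit 0) (nat_lit 1444) (XT.nd (nat_lit 58500) (nat_lit 0) (nat_lit 5320) (XT.nd (nat_lit 546) (nat_lit 0) (nat_lit 0) (XT.nd (nat_lit 234) (nat_lit 304) (nat_lit 0) (XT.nd (nat_lit 78) (nat_lit 152) (nat_lit 0) (XT.lf (nat_lit 0) (nat_lit 302317002185) (nat_lit 76) (nat_lit 417970843675) (nat_lit 76) (nat_lit 201202841589) (nat_lit 22) (nat_lit 4) (nat_lit 23) (nat_lit 5) (nat_lit 23) (nat_lit 4) (nat_lit 491) (nat_lit 433) (nat_lit 276)) (XT.nd (nat_lit 78) (nat_lit 0) (nat_lit 0) (XT.lf (nat_lit 0) (nat_lit 2058956222) (nat_lit 76) (nat_lit 104685945786) (nat_lit 152) (nat_lit 871949433313) (nat_lit 20) (nat_lit 5) (nat_lit 21) (nat_lit 5) (nat_lit 22) (nat_lit 4) (nat_lit 492) (nat_lit 433) (nat_lit 275)) (XT.lf (nat_lit 0) (nat_lit 446983789468) (nat_lit 152) (nat_lit 352052433975) (nat_lit 0) (nat_lit 240537906630) (nat_lit 20)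 (nat_lit 5) (nat_lit 22) (nat_lit 4) (nat_lit 20) (nat_lit 4) (nat_lit 493) (nat_lit 433) (nat_lit 274)))) (XT.nd (nat_lit 156) (nat_lit 152) (nat_lit 0) (XT.nd (nat_lit 78) (nat_lit 76) (nat_lit 0) (XT.lf (nat_lit 0) (nat_lit 331336256277) (nat_lit 76) (nat_lit 490043554001) (nat_lit 76) (nat_lit 283597597015) (nat_lit 19) (nat_lit 4) (nat_lit 20) (nat_lit 5) (nat_lit 20) (nat_lit 4) (nat_lit 494) (nat_lit 433) (nat_lit 273)) (XT.lf (nat_lit 0) (nat_lit 54743392458) (nat_lit 152) (nat_lit 94222071100) (nat_lit 76) (nat_lit 1026296721418) (nat_lit 18) (nat_lit 5) (nat_lit 20) (nat_lit 5) (nat_lit 19) (nat_lit 4) (nat_lit 495) (nat_lit 433) (nat_lit 272))) (XT.nd (nat_lit 78) (nat_lit 76) (nat_lit 0) (XT.lf (nat_lit 0) (nat_lit 424258235030) (nat_lit 152) (nat_lit 598334018215) (nat_lit 0) (nat_lit 227642911972) (nat_lit 17) (nat_lit 5) (nat_lit 19) (nat_lit 4) (nat_lit 17) (nat_lit 4) (nat_lit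 496) (nat_lit 433) (nat_lit 271)) (XT.lf (nat_lit 0) (nat_lit 131628687910) (nat_lit 76) (nat_lit 697940465338) (nat_lit 76) (nat_lit 501325086222) (nat_lit 16) (nat_lit 4) (nat_lit 17) (nat_lit 5) (nat_lit 17) (nat_lit 4) (nat_lit 497) (nat_lit 433) (nat_lit 270))))) (XT.nd (nat_lit 57642) (nat_lit 0) (nat_lit 9272) (XT.nd (nat_lit 57486) (nat_lit 0) (nat_lit 9196) (XT.lf (nat_lit 0) (nat_lit 941354286464) (nat_lit 76) (nat_lit 336373032753) (nat_lit 76) (nat_lit 139757601731) (nat_lit 16) (nat_lit 4) (nat_lit 17) (nat_lit 5) (nat_lit 17) (nat_lit 4) (nat_lit 498) (nat_lit 433) (nat_lit 269)) (XT.nd (nat_lit 78) (nat_lit 0) (nat_lit 76) (XT.lf (nat_lit 0) (nat_lit 10664482644) (nat_lit 836) (nat_lit 8571829892) (nat_lit 836) (nat_lit 8571829892) (nat_lit 137) (nat_lit 3) (nat_lit 148) (nat_lit 3) (nat_lit 148) (nat_lit 5) (nat_lit 434) (nat_lit 434) (nat_lit 332)) (XT.lf (nat_lit 0) (nat_lit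 22725951545) (nat_lit 760) (nat_lit 30201389275) (nat_lit 836) (nat_lit 4886396466) (nat_lit 138) (nat_lit 5) (nat_lit 148) (nat_lit 5) (nat_lit 149) (nat_lit 5) (nat_lit 435) (nat_lit 434) (nat_lit 331)))) (XT.nd (nat_lit 156) (nat_lit 0) (nat_lit 152) (XT.nd (nat_lit 78) (nat_lit 0) (nat_lit 76) (XT.lf (nat_lit 76) (nat_lit 16253620401) (nat_lit 0) (nat_lit 9183819564) (nat_lit 836) (nat_lit 34689409540) (nat_lit 139) (nat_lit 5) (nat_lit 138) (nat_lit 5) (nat_lit 149) (nat_lit 5) (nat_lit 436) (nat_lit 434) (nat_lit 330)) (XT.lf (nat_lit 76) (nat_lit 4442100512) (nat_lit 0) (nat_lit 25118988265) (nat_lit 836) (nat_lit 33004160561) (nat_lit 140) (nat_lit 5) (nat_lit 139) (nat_lit 5) (nat_lit 150) (nat_lit 5) (nat_lit 437) (nat_lit 434) (nat_lit 329))) (XT.nd (nat_lit 78) (nat_lit 0) (nat_lit 76) (XT.lf (nat_lit 0) (nat_lit 35289030147) (nat_lit 760) (nat_lit 7486252359) (nat_lit 836) (nat_lit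 22359719270) (nat_lit 140) (nat_lit 5) (nat_lit 150) (nat_lit 5) (nat_lit 151) (nat_lit 5) (nat_lit 438) (nat_lit 434) (nat_lit 328)) (XT.lf (nat_lit 0) (nat_lit 42739151237) (nat_lit 760) (nat_lit 19617407964) (nat_lit 836) (nat_lit 5490578588) (nat_lit 141) (nat_lit 5) (nat_lit 151) (nat_lit 5) (nat_lit 152) (nat_lit 5) (nat_lit 439) (nat_lit 434) (nat_lit 327)))))) (XT.nd (nat_lit 546) (nat_lit 1976) (nat_lit 0) (XT.nd (nat_lit 234) (nat_lit 1064) (nat_lit 0) (XT.nd (nat_lit 78) (nat_lit 1140) (nat_lit 0) (XT.lf (nat_lit 76) (nat_lit 38404365878) (nat_lit 0) (nat_lit 13831884261) (nat_lit 836) (nat_lit 18467446698) (nat_lit 142) (nat_lit 5) (nat_lit 141) (nat_lit 5) (nat_lit 152) (nat_lit 5) (nat_lit 440) (nat_lit 434) (nat_lit 326)) (XT.nd (nat_lit 78) (nat_lit 456) (nat_lit 0) (XT.lf (nat_lit 0) (nat_lit 28292349888) (nat_lit 760) (nat_lit 35589787195) (nat_lit 836) (nat_lit 9837193034)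 (nat_lit 132) (nat_lit 5) (nat_lit 142) (nat_lit 5) (nat_lit 143) (nat_lit 5) (nat_lit 441) (nat_lit 434) (nat_lit 325)) (XT.lf (nat_lit 0) (nat_lit 864706178) (nat_lit 456) (nat_lit 58912979749) (nat_lit 76) (nat_lit 17130697132) (nat_lit 126) (nat_lit 5) (nat_lit 132) (nat_lit 5) (nat_lit 127) (nat_lit 5) (nat_lit 442) (nat_lit 434) (nat_lit 324)))) (XT.nd (nat_lit 156) (nat_lit 684) (nat_lit 0) (XT.nd (nat_lit 78) (nat_lit 0) (nat_lit 0) (XT.lf (nat_lit 0) (nat_lit 7251877396) (nat_lit 380) (nat_lit 6346401338) (nat_lit 456) (nat_lit 66670210215) (nat_lit 121) (nat_lit 5) (nat_lit 126) (nat_lit 5) (nat_lit 127) (nat_lit 5) (nat_lit 443) (nat_lit 434) (nat_lit 323)) (XT.lf (nat_lit 0) (nat_lit 29193520875) (nat_lit 456) (nat_lit 3853139979) (nat_lit 76) (nat_lit 50758593657) (nat_lit 121) (nat_lit 5) (nat_lit 127) (nat_lit 5) (nat_lit 122) (nat_lit 5) (nat_lit 444) (nat_lit 434) (nat_lit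 322))) (XT.nd (nat_lit 78) (nat_lit 304) (nat_lit 0) (XT.lf (nat_lit 0) (nat_lit 47685153590) (nat_lit 456) (nat_lit 14892019540) (nat_lit 76) (nat_lit 24965349991) (nat_lit 116) (nat_lit 5) (nat_lit 122) (nat_lit 5) (nat_lit 117) (nat_lit 5) (nat_lit 445) (nat_lit 434) (nat_lit 321)) (XT.lf (nat_lit 0) (nat_lit 65368596018) (nat_lit 304) (nat_lit 3931869768) (nat_lit 380) (nat_lit 22196090323) (nat_lit 112) (nat_lit 5) (nat_lit 116) (nat_lit 5) (nat_lit 117) (nat_lit 5) (nat_lit 446) (nat_lit 434) (nat_lit 320))))) (XT.nd (nat_lit 234) (nat_lit 988) (nat_lit 0) (XT.nd (nat_lit 78) (nat_lit 684) (nat_lit 0) (XT.lf (nat_lit 0) (nat_lit 57742404792) (nat_lit 304) (nat_lit 36993668607) (nat_lit 380) (nat_lit 926285126) (nat_lit 108) (nat_lit 5) (nat_lit 112) (nat_lit 5) (nat_lit 113) (nat_lit 5) (nat_lit 447) (nat_lit 434) (nat_lit 319)) (XT.nd (nat_lit 78) (nat_lit 304) (nat_lit 0) (XT.lf (nat_lit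 0) (nat_lit 23084091446) (nat_lit 380) (nat_lit 50203255834) (nat_lit 76) (nat_lit 26769640436) (nat_lit 103) (nat_lit 5) (nat_lit 108) (nat_lit 5) (nat_lit 104) (nat_lit 5) (nat_lit 448) (nat_lit 434) (nat_lit 318)) (XT.lf (nat_lit 0) (nat_lit 41922986147) (nat_lit 304) (nat_lit 9008532302) (nat_lit 380) (nat_lit 53773476155) (nat_lit 99) (nat_lit 5) (nat_lit 103) (nat_lit 5) (nat_lit 104) (nat_lit 5) (nat_lit 449) (nat_lit 434) (nat_lit 317)))) (XT.nd (nat_lit 156) (nat_lit 456) (nat_lit 0) (XT.nd (nat_lit 78) (nat_lit 304) (nat_lit 0) (XT.lf (nat_lit 0) (nat_lit 33648543759) (nat_lit 228) (nat_lit 49714224841) (nat_lit 304) (nat_lit 26244272227) (nat_lit 96) (nat_lit 5) (nat_lit 99) (nat_lit 5) (nat_lit 100) (nat_lit 5) (nat_lit 450) (nat_lit 434) (nat_lit 316)) (XT.lf (nat_lit 0) (nat_lit 5364341475) (nat_lit 304) (nat_lit 89351008276) (nat_lit 76) (nat_lit 20083744511) (nat_lit 92) (nat_lit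 5) (nat_lit 96) (nat_lit 5) (nat_lit 93) (nat_lit 5) (nat_lit 451) (nat_lit 434) (nat_lit 315))) (XT.nd (nat_lit 78) (nat_lit 228) (nat_lit 0) (XT.lf (nat_lit 0) (nat_lit 16565226514) (nat_lit 228) (nat_lit 24469723276) (nat_lit 304) (nat_lit 79227411828) (nat_lit 89) (nat_lit 5) (nat_lit 92) (nat_lit 5) (nat_lit 93) (nat_lit 5) (nat_lit 452) (nat_lit 434) (nat_lit 314)) (XT.lf (nat_lit 0) (nat_lit 7469985734) (nat_lit 228) (nat_lit 74589031538) (nat_lit 304) (nat_lit 43978682741) (nat_lit 86) (nat_lit 5) (nat_lit 89) (nat_lit 5) (nat_lit 90) (nat_lit 5) (nat_lit 453) (nat_lit 434) (nat_lit 313))))))) (XT.nd (nat_lit 1092) (nat_lit 1520) (nat_lit 0) (XT.nd (nat_lit 546) (nat_lit 1064) (nat_lit 0) (XT.nd (nat_lit 234) (nat_lit 836) (nat_lit 0) (XT.nd (nat_lit 78) (nat_lit 456) (nat_lit 0) (XT.lf (nat_lit 0) (nat_lit 128610968590) (nat_lit 304) (nat_lit 1393762381) (nat_lit 76) (nat_lit 2158036750)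 (nat_lit 86) (nat_lit 5) (nat_lit 90) (nat_lit 5) (nat_lit 87) (nat_lit 5) (nat_lit 454) (nat_lit 434) (nat_lit 312)) (XT.nd (nat_lit 78) (nat_lit 228) (nat_lit 0) (XT.lf (nat_lit 0) (nat_lit 42133800822) (nat_lit 228) (nat_lit 11303339983) (nat_lit 76) (nat_lit 85143973724) (nat_lit 83) (nat_lit 5) (nat_lit 86) (nat_lit 5) (nat_lit 84) (nat_lit 5) (nat_lit 455) (nat_lit 434) (nat_lit 311)) (XT.lf (nat_lit 0) (nat_lit 93812278415) (nat_lit 304) (nat_lit 21190689479) (nat_lit 76) (nat_lit 30383926642) (nat_lit 80) (nat_lit 5) (nat_lit 84) (nat_lit 5) (nat_lit 81) (nat_lit 5) (nat_lit 456) (nat_lit 434) (nat_lit 310)))) (XT.nd (nat_lit 156) (nat_lit 380) (nat_lit 0) (XT.nd (nat_lit 78) (nat_lit 228) (nat_lit 0) (XT.lf (nat_lit 0) (nat_lit 28789439) (nat_lit 228) (nat_lit 31403057651) (nat_lit 76) (nat_lit 121155655133) (nat_lit 77) (nat_lit 5) (nat_lit 80) (nat_lit 5) (nat_lit 78) (nat_lit 5)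 (nat_lit 457) (nat_lit 434) (nat_lit 309)) (XT.lf (nat_lit 0) (nat_lit 57167536282) (nat_lit 304) (nat_lit 42909977692) (nat_lit 76) (nat_lit 60083670775) (nat_lit 74) (nat_lit 5) (nat_lit 78) (nat_lit 5) (nat_lit 75) (nat_lit 5) (nat_lit 458) (nat_lit 434) (nat_lit 308))) (XT.nd (nat_lit 78) (nat_lit 228) (nat_lit 0) (XT.lf (nat_lit 0) (nat_lit 113704623631) (nat_lit 152) (nat_lit 8033091043) (nat_lit 228) (nat_lit 46460030714) (nat_lit 72) (nat_lit 5) (nat_lit 74) (nat_lit 5) (nat_lit 75) (nat_lit 5) (nat_lit 459) (nat_lit 434) (nat_lit 307)) (XT.lf (nat_lit 0) (nat_lit 18089753986) (nat_lit 228) (nat_lit 67365469386) (nat_lit 76) (nat_lit 91212580681) (nat_lit 69) (nat_lit 5) (nat_lit 72) (nat_lit 5) (nat_lit 70) (nat_lit 5) (nat_lit 460) (nat_lit 434) (nat_lit 306))))) (XT.nd (nat_lit 234) (nat_lit 532) (nat_lit 0) (XT.nd (nat_lit 78) (nat_lit 380) (nat_lit 0) (XT.lf (nat_lit 0) (nat_lit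 89180837624) (nat_lit 228) (nat_lit 81089487554) (nat_lit 76) (nat_lit 15356807857) (nat_lit 67) (nat_lit 5) (nat_lit 70) (nat_lit 5) (nat_lit 68) (nat_lit 5) (nat_lit 461) (nat_lit 434) (nat_lit 305)) (XT.nd (nat_lit 78) (nat_lit 228) (nat_lit 0) (XT.lf (nat_lit 0) (nat_lit 99063174951) (nat_lit 152) (nat_lit 71075513474) (nat_lit 228) (nat_lit 24955545963) (nat_lit 65) (nat_lit 5) (nat_lit 67) (nat_lit 5) (nat_lit 68) (nat_lit 5) (nat_lit 462) (nat_lit 434) (nat_lit 304)) (XT.lf (nat_lit 0) (nat_lit 54099264401) (nat_lit 228) (nat_lit 112331445413) (nat_lit 76) (nat_lit 38671338667) (nat_lit 62) (nat_lit 5) (nat_lit 65) (nat_lit 5) (nat_lit 63) (nat_lit 5) (nat_lit 463) (nat_lit 434) (nat_lit 303)))) (XT.nd (nat_lit 156) (nat_lit 228) (nat_lit 0) (XT.nd (nat_lit 78) (nat_lit 152) (nat_lit 0) (XT.lf (nat_lit 0) (nat_lit 85362946981) (nat_lit 152) (nat_lit 57483571672) (nat_lit 228) (nat_lit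 72831394753) (nat_lit 60) (nat_lit 5) (nat_lit 62) (nat_lit 5) (nat_lit 63) (nat_lit 5) (nat_lit 464) (nat_lit 434) (nat_lit 302)) (XT.lf (nat_lit 0) (nat_lit 15426316003) (nat_lit 152) (nat_lit 149755749888) (nat_lit 76) (nat_lit 61698547114) (nat_lit 58) (nat_lit 5) (nat_lit 60) (nat_lit 5) (nat_lit 59) (nat_lit 5) (nat_lit 465) (nat_lit 434) (nat_lit 301))) (XT.nd (nat_lit 78) (nat_lit 76) (nat_lit 0) (XT.lf (nat_lit 0) (nat_lit 66851205033) (nat_lit 152) (nat_lit 45695424604) (nat_lit 228) (nat_lit 126155518955) (nat_lit 56) (nat_lit 5) (nat_lit 58) (nat_lit 5) (nat_lit 59) (nat_lit 5) (nat_lit 466) (nat_lit 434) (nat_lit 300)) (XT.lf (nat_lit 0) (nat_lit 55217464398) (nat_lit 76) (nat_lit 167033272677) (nat_lit 152) (nat_lit 28977961564) (nat_lit 55) (nat_lit 5) (nat_lit 56) (nat_lit 5) (nat_lit 57) (nat_lit 4) (nat_lit 467) (nat_lit 434) (nat_lit 299)))))) (XT.nd (nat_lit 546) (nat_lit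 684) (nat_lit 0) (XT.nd (nat_lit 234) (nat_lit 304) (nat_lit 0) (XT.nd (nat_lit 78) (nat_lit 304) (nat_lit 0) (XT.lf (nat_lit 0) (nat_lit 41295162010) (nat_lit 152) (nat_lit 36704198555) (nat_lit 228) (nat_lit 186475844158) (nat_lit 52) (nat_lit 5) (nat_lit 54) (nat_lit 5) (nat_lit 55) (nat_lit 5) (nat_lit 468) (nat_lit 434) (nat_lit 298)) (XT.nd (nat_lit 78) (nat_lit 228) (nat_lit 0) (XT.lf (nat_lit 0) (nat_lit 24591660162) (nat_lit 76) (nat_lit 173419743364) (nat_lit 152) (nat_lit 80471686293) (nat_lit 51) (nat_lit 5) (nat_lit 52) (nat_lit 5) (nat_lit 53) (nat_lit 4) (nat_lit 469) (nat_lit 434) (nat_lit 297)) (XT.lf (nat_lit 0) (nat_lit 5705377436) (nat_lit 152) (nat_lit 31877555662) (nat_lit 228) (nat_lit 255769183349) (nat_lit 48) (nat_lit 5) (nat_lit 50) (nat_lit 5) (nat_lit 51) (nat_lit 5) (nat_lit 470) (nat_lit 434) (nat_lit 296)))) (XT.nd (nat_lit 156) (nat_lit 228) (nat_lit 0) (XT.nd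 (nat_lit 78) (nat_lit 76) (nat_lit 0) (XT.lf (nat_lit 0) (nat_lit 168683777151) (nat_lit 228) (nat_lit 17372686480) (nat_lit 76) (nat_lit 122967181655) (nat_lit 48) (nat_lit 5) (nat_lit 51) (nat_lit 5) (nat_lit 49) (nat_lit 4) (nat_lit 471) (nat_lit 434) (nat_lit 295)) (XT.lf (nat_lit 0) (nat_lit 283043932188) (nat_lit 76) (nat_lit 32184833572) (nat_lit 152) (nat_lit 10472326851) (nat_lit 47) (nat_lit 5) (nat_lit 48) (nat_lit 5) (nat_lit 49) (nat_lit 4) (nat_lit 472) (nat_lit 434) (nat_lit 294))) (XT.nd (nat_lit 78) (nat_lit 76) (nat_lit 0) (XT.lf (nat_lit 0) (nat_lit 132369450321) (nat_lit 152) (nat_lit 74524151189) (nat_lit 76) (nat_lit 136380881613) (nat_lit 45) (nat_lit 5) (nat_lit 47) (nat_lit 5) (nat_lit 46) (nat_lit 4) (nat_lit 473) (nat_lit 434) (nat_lit 293)) (XT.lf (nat_lit 0) (nat_lit 251700673460) (nat_lit 76) (nat_lit 39803079823) (nat_lit 152) (nat_lit 70479803596) (nat_lit 44)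 (nat_lit 5) (nat_lit 45) (nat_lit 5) (nat_lit 46) (nat_lit 4) (nat_lit 474) (nat_lit 434) (nat_lit 292))))) (XT.nd (nat_lit 234) (nat_lit 304) (nat_lit 0) (XT.nd (nat_lit 78) (nat_lit 228) (nat_lit 0) (XT.lf (nat_lit 0) (nat_lit 85798731220) (nat_lit 152) (nat_lit 153524487115) (nat_lit 76) (nat_lit 142441889467) (nat_lit 42) (nat_lit 5) (nat_lit 44) (nat_lit 5) (nat_lit 43) (nat_lit 4) (nat_lit 475) (nat_lit 434) (nat_lit 291)) (XT.nd (nat_lit 78) (nat_lit 152) (nat_lit 0) (XT.lf (nat_lit 0) (nat_lit 199235852404) (nat_lit 76) (nat_lit 58641290941) (nat_lit 152) (nat_lit 144905925967) (nat_lit 41) (nat_lit 5) (nat_lit 42) (nat_lit 5) (nat_lit 43) (nat_lit 4) (nat_lit 476) (nat_lit 434) (nat_lit 290)) (XT.lf (nat_lit 0) (nat_lit 25176849968) (nat_lit 152) (nat_lit 262113806864) (nat_lit 76) (nat_lit 137801509414) (nat_lit 39) (nat_lit 5) (nat_lit 41) (nat_lit 5) (nat_lit 40) (nat_lit 4) (nat_lit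 477) (nat_lit 434) (nat_lit 289)))) (XT.nd (nat_lit 156) (nat_lit 152) (nat_lit 0) (XT.nd (nat_lit 78) (nat_lit 76) (nat_lit 0) (XT.lf (nat_lit 0) (nat_lit 117350660343) (nat_lit 76) (nat_lit 92930969220) (nat_lit 152) (nat_lit 238460977072) (nat_lit 38) (nat_lit 5) (nat_lit 39) (nat_lit 5) (nat_lit 40) (nat_lit 4) (nat_lit 478) (nat_lit 434) (nat_lit 288)) (XT.lf (nat_lit 0) (nat_lit 62576283115) (nat_lit 76) (nat_lit 355062112666) (nat_lit 76) (nat_lit 56274506275) (nat_lit 37) (nat_lit 4) (nat_lit 38) (nat_lit 5) (nat_lit 38) (nat_lit 4) (nat_lit 479) (nat_lit 434) (nat_lit 287))) (XT.nd (nat_lit 78) (nat_lit 76) (nat_lit 0) (XT.lf (nat_lit 0) (nat_lit 143424253737) (nat_lit 152) (nat_lit 4768156463) (nat_lit 76) (nat_lit 352423049769) (nat_lit 36) (nat_lit 5) (nat_lit 38) (nat_lit 5) (nat_lit 37) (nat_lit 4) (nat_lit 480) (nat_lit 434) (nat_lit 286)) (XT.lf (nat_lit 0) (nat_lit 365447874209)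 (nat_lit 152) (nat_lit 82656441058) (nat_lit 0) (nat_lit 80887753405) (nat_lit 35) (nat_lit 5) (nat_lit 37) (nat_lit 4) (nat_lit 35) (nat_lit 4) (nat_lit 481) (nat_lit 434) (nat_lit 285))))))))
noncomputable def xc97 : XT := (XT.nd (nat_lit 59748) (nat_lit 0) (nat_lit 2128) (XT.nd (nat_lit 1092) (nat_lit 152) (nat_lit 0) (XT.nd (nat_lit 546) (nat_lit 532) (nat_lit 0) (XT.nd (nat_lit 234) (nat_lit 380) (nat_lit 0) (XT.nd (nat_lit 78) (nat_lit 152) (nat_lit 0) (XT.lf (nat_lit 0) (nat_lit 52851630026) (nat_lit 152) (nat_lit 176214499900) (nat_lit 76) (nat_lit 330101265047) (nat_lit 33) (nat_lit 5) (nat_lit 35) (nat_lit 5) (nat_lit 34) (nat_lit 4) (nat_lit 482) (nat_lit 434) (nat_lit 284)) (XT.nd (nat_lit 78) (nat_lit 76) (nat_lit 0) (XT.lf (nat_lit 0) (nat_lit 287379720958) (nat_lit 152) (nat_lit 287545776813) (nat_lit 0) (nat_lit 16369677377) (nat_lit 32) (nat_lit 5) (nat_lit 34) (nat_lit 4)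 (nat_lit 32) (nat_lit 4) (nat_lit 483) (nat_lit 434) (nat_lit 283)) (XT.lf (nat_lit 0) (nat_lit 205218031564) (nat_lit 76) (nat_lit 345638034785) (nat_lit 76) (nat_lit 74627811039) (nat_lit 31) (nat_lit 4) (nat_lit 32) (nat_lit 5) (nat_lit 32) (nat_lit 4) (nat_lit 484) (nat_lit 434) (nat_lit 282)))) (XT.nd (nat_lit 156) (nat_lit 228) (nat_lit 0) (XT.nd (nat_lit 78) (nat_lit 0) (nat_lit 0) (XT.lf (nat_lit 0) (nat_lit 85465450279) (nat_lit 76) (nat_lit 88425203790) (nat_lit 152) (nat_lit 488060719689) (nat_lit 29) (nat_lit 5) (nat_lit 30) (nat_lit 5) (nat_lit 31) (nat_lit 4) (nat_lit 485) (nat_lit 434) (nat_lit 281)) (XT.lf (nat_lit 0) (nat_lit 450107903985) (nat_lit 152) (nat_lit 58642977387) (nat_lit 0) (nat_lit 192002623008) (nat_lit 29) (nat_lit 5) (nat_lit 31) (nat_lit 4) (nat_lit 29) (nat_lit 4) (nat_lit 486) (nat_lit 434) (nat_lit 280))) (XT.nd (nat_lit 78) (nat_lit 76) (nat_lit 0) (XT.lf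 (nat_lit 0) (nat_lit 15275974765) (nat_lit 152) (nat_lit 226789668916) (nat_lit 76) (nat_lit 500104778676) (nat_lit 27) (nat_lit 5) (nat_lit 29) (nat_lit 5) (nat_lit 28) (nat_lit 4) (nat_lit 487) (nat_lit 434) (nat_lit 279)) (XT.lf (nat_lit 0) (nat_lit 301326512030) (nat_lit 152) (nat_lit 429475193808) (nat_lit 0) (nat_lit 55511708881) (nat_lit 26) (nat_lit 5) (nat_lit 28) (nat_lit 4) (nat_lit 26) (nat_lit 4) (nat_lit 488) (nat_lit 434) (nat_lit 278))))) (XT.nd (nat_lit 234) (nat_lit 304) (nat_lit 0) (XT.nd (nat_lit 78) (nat_lit 152) (nat_lit 0) (XT.lf (nat_lit 0) (nat_lit 162519221648) (nat_lit 76) (nat_lit 458375918402) (nat_lit 76) (nat_lit 212561004035) (nat_lit 25) (nat_lit 4) (nat_lit 26) (nat_lit 5) (nat_lit 26) (nat_lit 4) (nat_lit 489) (nat_lit 434) (nat_lit 277)) (XT.nd (nat_lit 78) (nat_lit 76) (nat_lit 0) (XT.lf (nat_lit 0) (nat_lit 86648906995) (nat_lit 152) (nat_lit 68184758004)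 (nat_lit 76) (nat_lit 729092703672) (nat_lit 24) (nat_lit 5) (nat_lit 26) (nat_lit 5) (nat_lit 25) (nat_lit 4) (nat_lit 490) (nat_lit 434) (nat_lit 276)) (XT.lf (nat_lit 0) (nat_lit 414702575855) (nat_lit 152) (nat_lit 342346756971) (nat_lit 0) (nat_lit 180592944716) (nat_lit 23) (nat_lit 5) (nat_lit 25) (nat_lit 4) (nat_lit 23) (nat_lit 4) (nat_lit 491) (nat_lit 434) (nat_lit 275)))) (XT.nd (nat_lit 156) (nat_lit 76) (nat_lit 0) (XT.nd (nat_lit 78) (nat_lit 152) (nat_lit 0) (XT.lf (nat_lit 0) (nat_lit 326512688070) (nat_lit 76) (nat_lit 451403355506) (nat_lit 76) (nat_lit 217293640283) (nat_lit 22) (nat_lit 4) (nat_lit 23) (nat_lit 5) (nat_lit 23) (nat_lit 4) (nat_lit 492) (nat_lit 434) (nat_lit 274)) (XT.lf (nat_lit 0) (nat_lit 2233715963) (nat_lit 76) (nat_lit 113055800641) (nat_lit 152) (nat_lit 941700114348) (nat_lit 20) (nat_lit 5) (nat_lit 21) (nat_lit 5) (nat_lit 22) (nat_lit 4) (nat_lit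 493) (nat_lit 434) (nat_lit 273))) (XT.nd (nat_lit 78) (nat_lit 76) (nat_lit 0) (XT.lf (nat_lit 0) (nat_lit 482747215611) (nat_lit 152) (nat_lit 380207169389) (nat_lit 0) (nat_lit 259785439263) (nat_lit 20) (nat_lit 5) (nat_lit 22) (nat_lit 4) (nat_lit 20) (nat_lit 4) (nat_lit 494) (nat_lit 434) (nat_lit 272)) (XT.lf (nat_lit 0) (nat_lit 357852204993) (nat_lit 76) (nat_lit 529242504509) (nat_lit 76) (nat_lit 306280664591) (nat_lit 19) (nat_lit 4) (nat_lit 20) (nat_lit 5) (nat_lit 20) (nat_lit 4) (nat_lit 495) (nat_lit 434) (nat_lit 271)))))) (XT.nd (nat_lit 58110) (nat_lit 0) (nat_lit 7524) (XT.nd (nat_lit 57798) (nat_lit 0) (nat_lit 9196) (XT.nd (nat_lit 78) (nat_lit 76) (nat_lit 0) (XT.lf (nat_lit 0) (nat_lit 59127112437) (nat_lit 152) (nat_lit 101751318280) (nat_lit 76) (nat_lit 1108404516573) (nat_lit 18) (nat_lit 5) (nat_lit 20) (nat_lit 5) (nat_lit 19) (nat_lit 4) (nat_lit 496) (nat_lit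 434) (nat_lit 270)) (XT.nd (nat_lit 57642) (nat_lit 0) (nat_lit 9120) (XT.lf (nat_lit 0) (nat_lit 458203018736) (nat_lit 152) (nat_lit 646192452076) (nat_lit 0) (nat_lit 245858301328) (nat_lit 17) (nat_lit 5) (nat_lit 19) (nat_lit 4) (nat_lit 17) (nat_lit 4) (nat_lit 497) (nat_lit 434) (nat_lit 269)) (XT.lf (nat_lit 0) (nat_lit 11549473474) (nat_lit 836) (nat_lit 9240860668) (nat_lit 836) (nat_lit 9240860668) (nat_lit 137) (nat_lit 3) (nat_lit 148) (nat_lit 3) (nat_lit 148) (nat_lit 5) (nat_lit 435) (nat_lit 435) (nat_lit 330)))) (XT.nd (nat_lit 156) (nat_lit 0) (nat_lit 76) (XT.nd (nat_lit 78) (nat_lit 0) (nat_lit 0) (XT.lf (nat_lit 0) (nat_lit 24603046617) (nat_lit 760) (nat_lit 32582107097) (nat_lit 836) (nat_lit 5250717903) (nat_lit 138) (nat_lit 5) (nat_lit 148) (nat_lit 5) (nat_lit 149) (nat_lit 5) (nat_lit 436) (nat_lit 435) (nat_lit 329)) (XT.lf (nat_lit 76) (nat_lit 17587765203) (nat_lit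 0) (nat_lit 9939845708) (nat_lit 836) (nat_lit 37406615078) (nat_lit 139) (nat_lit 5) (nat_lit 138) (nat_lit 5) (nat_lit 149) (nat_lit 5) (nat_lit 437) (nat_lit 435) (nat_lit 328))) (XT.nd (nat_lit 78) (nat_lit 0) (nat_lit 76) (XT.lf (nat_lit 76) (nat_lit 4832821859) (nat_lit 0) (nat_lit 27144486424) (nat_lit 836) (nat_lit 35590582632) (nat_lit 140) (nat_lit 5) (nat_lit 139) (nat_lit 5) (nat_lit 150) (nat_lit 5) (nat_lit 438) (nat_lit 435) (nat_lit 327)) (XT.lf (nat_lit 0) (nat_lit 38159451563) (nat_lit 760) (nat_lit 8049799627) (nat_lit 836) (nat_lit 24134174898) (nat_lit 140) (nat_lit 5) (nat_lit 150) (nat_lit 5) (nat_lit 151) (nat_lit 5) (nat_lit 439) (nat_lit 435) (nat_lit 326))))) (XT.nd (nat_lit 234) (nat_lit 1216) (nat_lit 0) (XT.nd (nat_lit 78) (nat_lit 684) (nat_lit 0) (XT.lf (nat_lit 0) (nat_lit 46202442641) (nat_lit 760) (nat_lit 21150593795) (nat_lit 836) (nat_lit 5919654339) (nat_lit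 141) (nat_lit 5) (nat_lit 151) (nat_lit 5) (nat_lit 152) (nat_lit 5) (nat_lit 440) (nat_lit 435) (nat_lit 325)) (XT.nd (nat_lit 78) (nat_lit 684) (nat_lit 0) (XT.lf (nat_lit 76) (nat_lit 41511348452) (nat_lit 0) (nat_lit 14945230666) (nat_lit 836) (nat_lit 19901332690) (nat_lit 142) (nat_lit 5) (nat_lit 141) (nat_lit 5) (nat_lit 152) (nat_lit 5) (nat_lit 441) (nat_lit 435) (nat_lit 324)) (XT.lf (nat_lit 0) (nat_lit 30590957897) (nat_lit 760) (nat_lit 38440561951) (nat_lit 836) (nat_lit 10583407452) (nat_lit 132) (nat_lit 5) (nat_lit 142) (nat_lit 5) (nat_lit 143) (nat_lit 5) (nat_lit 442) (nat_lit 435) (nat_lit 323)))) (XT.nd (nat_lit 156) (nat_lit 380) (nat_lit 0) (XT.nd (nat_lit 78) (nat_lit 380) (nat_lit 0) (XT.lf (nat_lit 0) (nat_lit 970928664) (nat_lit 456) (nat_lit 63589178051) (nat_lit 76) (nat_lit 18499087074) (nat_lit 126) (nat_lit 5) (nat_lit 132) (nat_lit 5) (nat_lit 127) (nat_lit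 5) (nat_lit 443) (nat_lit 435) (nat_lit 322)) (XT.lf (nat_lit 0) (nat_lit 7867266642) (nat_lit 380) (nat_lit 6853726417) (nat_lit 456) (nat_lit 71967225354) (nat_lit 121) (nat_lit 5) (nat_lit 126) (nat_lit 5) (nat_lit 127) (nat_lit 5) (nat_lit 444) (nat_lit 435) (nat_lit 321))) (XT.nd (nat_lit 78) (nat_lit 380) (nat_lit 0) (XT.lf (nat_lit 0) (nat_lit 31561278534) (nat_lit 456) (nat_lit 4127147970) (nat_lit 76) (nat_lit 54819628040) (nat_lit 121) (nat_lit 5) (nat_lit 127) (nat_lit 5) (nat_lit 122) (nat_lit 5) (nat_lit 445) (nat_lit 435) (nat_lit 320)) (XT.lf (nat_lit 0) (nat_lit 51530399273) (nat_lit 456) (nat_lit 16049137011) (nat_lit 76) (nat_lit 26964860971) (nat_lit 116) (nat_lit 5) (nat_lit 122) (nat_lit 5) (nat_lit 117) (nat_lit 5) (nat_lit 446) (nat_lit 435) (nat_lit 319))))))) (XT.nd (nat_lit 1092) (nat_lit 2052) (nat_lit 0) (XT.nd (nat_lit 546) (nat_lit 1292) (nat_lit 0) (XT.nd (nat_lit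 234) (nat_lit 1064) (nat_lit 0) (XT.nd (nat_lit 78) (nat_lit 684) (nat_lit 0) (XT.lf (nat_lit 0) (nat_lit 70630839585) (nat_lit 304) (nat_lit 4242353945) (nat_lit 380) (nat_lit 23941646947) (nat_lit 112) (nat_lit 5) (nat_lit 116) (nat_lit 5) (nat_lit 117) (nat_lit 5) (nat_lit 447) (nat_lit 435) (nat_lit 318)) (XT.nd (nat_lit 78) (nat_lit 380) (nat_lit 0) (XT.lf (nat_lit 0) (nat_lit 62394446352) (nat_lit 304) (nat_lit 39947646695) (nat_lit 380) (nat_lit 971892289) (nat_lit 108) (nat_lit 5) (nat_lit 112) (nat_lit 5) (nat_lit 113) (nat_lit 5) (nat_lit 448) (nat_lit 435) (nat_lit 317)) (XT.lf (nat_lit 0) (nat_lit 24956955130) (nat_lit 380) (nat_lit 54186196943) (nat_lit 76) (nat_lit 28917083271) (nat_lit 103) (nat_lit 5) (nat_lit 108) (nat_lit 5) (nat_lit 104) (nat_lit 5) (nat_lit 449) (nat_lit 435) (nat_lit 316)))) (XT.nd (nat_lit 156) (nat_lit 532) (nat_lit 0) (XT.nd (nat_lit 78) (nat_lit 228)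 (nat_lit 0) (XT.lf (nat_lit 0) (nat_lit 45308696378) (nat_lit 304) (nat_lit 9722041488) (nat_lit 380) (nat_lit 58049417176) (nat_lit 99) (nat_lit 5) (nat_lit 103) (nat_lit 5) (nat_lit 104) (nat_lit 5) (nat_lit 450) (nat_lit 435) (nat_lit 315)) (XT.lf (nat_lit 0) (nat_lit 36371991658) (nat_lit 228) (nat_lit 53683263404) (nat_lit 304) (nat_lit 28319171863) (nat_lit 96) (nat_lit 5) (nat_lit 99) (nat_lit 5) (nat_lit 100) (nat_lit 5) (nat_lit 451) (nat_lit 435) (nat_lit 314))) (XT.nd (nat_lit 78) (nat_lit 228) (nat_lit 0) (XT.lf (nat_lit 0) (nat_lit 5816189387) (nat_lit 304) (nat_lit 96467137200) (nat_lit 76) (nat_lit 21698556731) (nat_lit 92) (nat_lit 5) (nat_lit 96) (nat_lit 5) (nat_lit 93) (nat_lit 5) (nat_lit 452) (nat_lit 435) (nat_lit 313)) (XT.lf (nat_lit 0) (nat_lit 17921007790) (nat_lit 228) (nat_lit 26418234228) (nat_lit 304) (nat_lit 85543030517) (nat_lit 89) (nat_lit 5) (nat_lit 92)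 (nat_lit 5) (nat_lit 93) (nat_lit 5) (nat_lit 453) (nat_lit 435) (nat_lit 312))))) (XT.nd (nat_lit 234) (nat_lit 836) (nat_lit 0) (XT.nd (nat_lit 78) (nat_lit 228) (nat_lit 0) (XT.lf (nat_lit 0) (nat_lit 8097715264) (nat_lit 228) (nat_lit 80546528818) (nat_lit 304) (nat_lit 47475443698) (nat_lit 86) (nat_lit 5) (nat_lit 89) (nat_lit 5) (nat_lit 90) (nat_lit 5) (nat_lit 454) (nat_lit 435) (nat_lit 311)) (XT.nd (nat_lit 78) (nat_lit 228) (nat_lit 0) (XT.lf (nat_lit 0) (nat_lit 138918971730) (nat_lit 304) (nat_lit 1476551678) (nat_lit 76) (nat_lit 2339306705) (nat_lit 86) (nat_lit 5) (nat_lit 90) (nat_lit 5) (nat_lit 87) (nat_lit 5) (nat_lit 455) (nat_lit 435) (nat_lit 310)) (XT.lf (nat_lit 0) (nat_lit 45522942413) (nat_lit 228) (nat_lit 12179531217) (nat_lit 76) (nat_lit 91964205766) (nat_lit 83) (nat_lit 5) (nat_lit 86) (nat_lit 5) (nat_lit 84) (nat_lit 5) (nat_lit 456) (nat_lit 435) (nat_lit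 309)))) (XT.nd (nat_lit 156) (nat_lit 380) (nat_lit 0) (XT.nd (nat_lit 78) (nat_lit 228) (nat_lit 0) (XT.lf (nat_lit 0) (nat_lit 101334897975) (nat_lit 304) (nat_lit 22858358236) (nat_lit 76) (nat_lit 32823705784) (nat_lit 80) (nat_lit 5) (nat_lit 84) (nat_lit 5) (nat_lit 81) (nat_lit 5) (nat_lit 457) (nat_lit 435) (nat_lit 308)) (XT.lf (nat_lit 0) (nat_lit 48111879) (nat_lit 228) (nat_lit 33888350023) (nat_lit 76) (nat_lit 130857187559) (nat_lit 77) (nat_lit 5) (nat_lit 80) (nat_lit 5) (nat_lit 78) (nat_lit 5) (nat_lit 458) (nat_lit 435) (nat_lit 307))) (XT.nd (nat_lit 78) (nat_lit 152) (nat_lit 0) (XT.lf (nat_lit 0) (nat_lit 61757250486) (nat_lit 304) (nat_lit 46316335286) (nat_lit 76) (nat_lit 64899676362) (nat_lit 74) (nat_lit 5) (nat_lit 78) (nat_lit 5) (nat_lit 75) (nat_lit 5) (nat_lit 459) (nat_lit 435) (nat_lit 306)) (XT.lf (nat_lit 0) (nat_lit 122826285065) (nat_lit 152) (nat_lit 8665944712)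 (nat_lit 228) (nat_lit 50160558653) (nat_lit 72) (nat_lit 5) (nat_lit 74) (nat_lit 5) (nat_lit 75) (nat_lit 5) (nat_lit 460) (nat_lit 435) (nat_lit 305)))))) (XT.nd (nat_lit 546) (nat_lit 836) (nat_lit 0) (XT.nd (nat_lit 234) (nat_lit 684) (nat_lit 0) (XT.nd (nat_lit 78) (nat_lit 304) (nat_lit 0) (XT.lf (nat_lit 0) (nat_lit 19552058273) (nat_lit 228) (nat_lit 72729416394) (nat_lit 76) (nat_lit 98518996019) (nat_lit 69) (nat_lit 5) (nat_lit 72) (nat_lit 5) (nat_lit 70) (nat_lit 5) (nat_lit 461) (nat_lit 435) (nat_lit 304)) (XT.nd (nat_lit 78) (nat_lit 152) (nat_lit 0) (XT.lf (nat_lit 0) (nat_lit 96329839167) (nat_lit 228) (nat_lit 87551887823) (nat_lit 76) (nat_lit 16594848579) (nat_lit 67) (nat_lit 5) (nat_lit 70) (nat_lit 5) (nat_lit 68) (nat_lit 5) (nat_lit 462) (nat_lit 435) (nat_lit 303)) (XT.lf (nat_lit 0) (nat_lit 107011911698) (nat_lit 152) (nat_lit 76751699456) (nat_lit 228) (nat_lit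 26937469323) (nat_lit 65) (nat_lit 5) (nat_lit 67) (nat_lit 5) (nat_lit 68) (nat_lit 5) (nat_lit 463) (nat_lit 435) (nat_lit 302)))) (XT.nd (nat_lit 156) (nat_lit 304) (nat_lit 0) (XT.nd (nat_lit 78) (nat_lit 152) (nat_lit 0) (XT.lf (nat_lit 0) (nat_lit 58440732441) (nat_lit 228) (nat_lit 121294343748) (nat_lit 76) (nat_lit 41774458697) (nat_lit 62) (nat_lit 5) (nat_lit 65) (nat_lit 5) (nat_lit 63) (nat_lit 5) (nat_lit 464) (nat_lit 435) (nat_lit 301)) (XT.lf (nat_lit 0) (nat_lit 92214573659) (nat_lit 152) (nat_lit 62072544091) (nat_lit 228) (nat_lit 78644383803) (nat_lit 60) (nat_lit 5) (nat_lit 62) (nat_lit 5) (nat_lit 63) (nat_lit 5) (nat_lit 465) (nat_lit 435) (nat_lit 300))) (XT.nd (nat_lit 78) (nat_lit 152) (nat_lit 0) (XT.lf (nat_lit 0) (nat_lit 16673034517) (nat_lit 152) (nat_lit 161713710925) (nat_lit 76) (nat_lit 66643685021) (nat_lit 58) (nat_lit 5) (nat_lit 60) (nat_lit 5) (nat_lit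 59) (nat_lit 5) (nat_lit 466) (nat_lit 435) (nat_lit 299)) (XT.lf (nat_lit 0) (nat_lit 72220822613) (nat_lit 152) (nat_lit 49341552321) (nat_lit 228) (nat_lit 136235343946) (nat_lit 56) (nat_lit 5) (nat_lit 58) (nat_lit 5) (nat_lit 59) (nat_lit 5) (nat_lit 467) (nat_lit 435) (nat_lit 298))))) (XT.nd (nat_lit 234) (nat_lit 456) (nat_lit 0) (XT.nd (nat_lit 78) (nat_lit 304) (nat_lit 0) (XT.lf (nat_lit 0) (nat_lit 59655880929) (nat_lit 76) (nat_lit 180386505640) (nat_lit 152) (nat_lit 31284027645) (nat_lit 55) (nat_lit 5) (nat_lit 56) (nat_lit 5) (nat_lit 57) (nat_lit 4) (nat_lit 468) (nat_lit 435) (nat_lit 297)) (XT.nd (nat_lit 78) (nat_lit 76) (nat_lit 0) (XT.lf (nat_lit 0) (nat_lit 44619254206) (nat_lit 152) (nat_lit 39631283554) (nat_lit 228) (nat_lit 201382121225) (nat_lit 52) (nat_lit 5) (nat_lit 54) (nat_lit 5) (nat_lit 55) (nat_lit 5) (nat_lit 469) (nat_lit 435) (nat_lit 296)) (XT.lf (nat_lit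 0) (nat_lit 26578981739) (nat_lit 76) (nat_lit 187284176505) (nat_lit 152) (nat_lit 86898035994) (nat_lit 51) (nat_lit 5) (nat_lit 52) (nat_lit 5) (nat_lit 53) (nat_lit 4) (nat_lit 470) (nat_lit 435) (nat_lit 295)))) (XT.nd (nat_lit 156) (nat_lit 228) (nat_lit 0) (XT.nd (nat_lit 78) (nat_lit 0) (nat_lit 0) (XT.lf (nat_lit 0) (nat_lit 6181276856) (nat_lit 152) (nat_lit 34418799307) (nat_lit 228) (nat_lit 276219683609) (nat_lit 48) (nat_lit 5) (nat_lit 50) (nat_lit 5) (nat_lit 51) (nat_lit 5) (nat_lit 471) (nat_lit 435) (nat_lit 294)) (XT.lf (nat_lit 0) (nat_lit 182188338880) (nat_lit 228) (nat_lit 18744116850) (nat_lit 76) (nat_lit 132812587675) (nat_lit 48) (nat_lit 5) (nat_lit 51) (nat_lit 5) (nat_lit 49) (nat_lit 4) (nat_lit 472) (nat_lit 435) (nat_lit 293))) (XT.nd (nat_lit 78) (nat_lit 152) (nat_lit 0) (XT.lf (nat_lit 0) (nat_lit 305705032342) (nat_lit 76) (nat_lit 34751438459) (nat_lit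 152) (nat_lit 11300238543) (nat_lit 47) (nat_lit 5) (nat_lit 48) (nat_lit 5) (nat_lit 49) (nat_lit 4) (nat_lit 473) (nat_lit 435) (nat_lit 292)) (XT.lf (nat_lit 0) (nat_lit 142968249085) (nat_lit 152) (nat_lit 80468627884) (nat_lit 76) (nat_lit 147299102237) (nat_lit 45) (nat_lit 5) (nat_lit 47) (nat_lit 5) (nat_lit 46) (nat_lit 4) (nat_lit 474) (nat_lit 435) (nat_lit 291))))))))
noncomputable def xc98 : XT := (XT.nd (nat_lit 59826) (nat_lit 0) (nat_lit 2888) (XT.nd (nat_lit 1092) (nat_lit 684) (nat_lit 0) (XT.nd (nat_lit 546) (nat_lit 684) (nat_lit 0) (XT.nd (nat_lit 234) (nat_lit 380) (nat_lit 0) (XT.nd (nat_lit 78) (nat_lit 228) (nat_lit 0) (XT.lf (nat_lit 0) (nat_lit 271853424147) (nat_lit 76) (nat_lit 42979448174) (nat_lit 152) (nat_lit 76108927772) (nat_lit 44) (nat_lit 5) (nat_lit 45) (nat_lit 5) (nat_lit 46) (nat_lit 4) (nat_lit 475) (nat_lit 435) (nat_lit 290)) (XT.nd (nat_lit 78)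 (nat_lit 76) (nat_lit 0) (XT.lf (nat_lit 0) (nat_lit 92671303497) (nat_lit 152) (nat_lit 165789883248) (nat_lit 76) (nat_lit 153844695641) (nat_lit 42) (nat_lit 5) (nat_lit 44) (nat_lit 5) (nat_lit 43) (nat_lit 4) (nat_lit 476) (nat_lit 435) (nat_lit 289)) (XT.lf (nat_lit 0) (nat_lit 215190563631) (nat_lit 76) (nat_lit 63325029812) (nat_lit 152) (nat_lit 156489707157) (nat_lit 41) (nat_lit 5) (nat_lit 42) (nat_lit 5) (nat_lit 43) (nat_lit 4) (nat_lit 477) (nat_lit 435) (nat_lit 288)))) (XT.nd (nat_lit 156) (nat_lit 152) (nat_lit 0) (XT.nd (nat_lit 78) (nat_lit 76) (nat_lit 0) (XT.lf (nat_lit 0) (nat_lit 27199145444) (nat_lit 152) (nat_lit 283067203933) (nat_lit 76) (nat_lit 148832782509) (nat_lit 39) (nat_lit 5) (nat_lit 41) (nat_lit 5) (nat_lit 40) (nat_lit 4) (nat_lit 478) (nat_lit 435) (nat_lit 287)) (XT.lf (nat_lit 0) (nat_lit 126753738023) (nat_lit 76) (nat_lit 100358200446) (nat_lit 152)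 (nat_lit 257529687504) (nat_lit 38) (nat_lit 5) (nat_lit 39) (nat_lit 5) (nat_lit 40) (nat_lit 4) (nat_lit 479) (nat_lit 435) (nat_lit 286))) (XT.nd (nat_lit 78) (nat_lit 76) (nat_lit 0) (XT.lf (nat_lit 0) (nat_lit 67597021716) (nat_lit 76) (nat_lit 383459981344) (nat_lit 76) (nat_lit 60768554135) (nat_lit 37) (nat_lit 4) (nat_lit 38) (nat_lit 5) (nat_lit 38) (nat_lit 4) (nat_lit 480) (nat_lit 435) (nat_lit 285)) (XT.lf (nat_lit 0) (nat_lit 154905286063) (nat_lit 152) (nat_lit 5135822462) (nat_lit 76) (nat_lit 380623233424) (nat_lit 36) (nat_lit 5) (nat_lit 38) (nat_lit 5) (nat_lit 37) (nat_lit 4) (nat_lit 481) (nat_lit 435) (nat_lit 284))))) (XT.nd (nat_lit 234) (nat_lit 380) (nat_lit 0) (XT.nd (nat_lit 78) (nat_lit 228) (nat_lit 0) (XT.lf (nat_lit 0) (nat_lit 394690576881) (nat_lit 152) (nat_lit 89255530293) (nat_lit 0) (nat_lit 87364983154) (nat_lit 35) (nat_lit 5) (nat_lit 37) (nat_lit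 4) (nat_lit 35) (nat_lit 4) (nat_lit 482) (nat_lit 435) (nat_lit 283)) (XT.nd (nat_lit 78) (nat_lit 76) (nat_lit 0) (XT.lf (nat_lit 0) (nat_lit 57086432370) (nat_lit 152) (nat_lit 190298596540) (nat_lit 76) (nat_lit 356515423886) (nat_lit 33) (nat_lit 5) (nat_lit 35) (nat_lit 5) (nat_lit 34) (nat_lit 4) (nat_lit 483) (nat_lit 435) (nat_lit 282)) (XT.lf (nat_lit 0) (nat_lit 310376567045) (nat_lit 152) (nat_lit 310536720114) (nat_lit 0) (nat_lit 17685178417) (nat_lit 32) (nat_lit 5) (nat_lit 34) (nat_lit 4) (nat_lit 32) (nat_lit 4) (nat_lit 484) (nat_lit 435) (nat_lit 281)))) (XT.nd (nat_lit 156) (nat_lit 152) (nat_lit 0) (XT.nd (nat_lit 78) (nat_lit 152) (nat_lit 0) (XT.lf (nat_lit 0) (nat_lit 221647640188) (nat_lit 76) (nat_lit 373283090684) (nat_lit 76) (nat_lit 80591547594) (nat_lit 31) (nat_lit 4) (nat_lit 32) (nat_lit 5) (nat_lit 32) (nat_lit 4) (nat_lit 485) (nat_lit 435) (nat_lit 280))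 (XT.lf (nat_lit 0) (nat_lit 92314522457) (nat_lit 76) (nat_lit 95493384160) (nat_lit 152) (nat_lit 527099276896) (nat_lit 29) (nat_lit 5) (nat_lit 30) (nat_lit 5) (nat_lit 31) (nat_lit 4) (nat_lit 486) (nat_lit 435) (nat_lit 279))) (XT.nd (nat_lit 78) (nat_lit 152) (nat_lit 0) (XT.lf (nat_lit 0) (nat_lit 486122176431) (nat_lit 152) (nat_lit 63323262628) (nat_lit 0) (nat_lit 207368063540) (nat_lit 29) (nat_lit 5) (nat_lit 31) (nat_lit 4) (nat_lit 29) (nat_lit 4) (nat_lit 487) (nat_lit 435) (nat_lit 278)) (XT.lf (nat_lit 0) (nat_lit 16503530102) (nat_lit 152) (nat_lit 244921992958) (nat_lit 76) (nat_lit 540118259109) (nat_lit 27) (nat_lit 5) (nat_lit 29) (nat_lit 5) (nat_lit 28) (nat_lit 4) (nat_lit 488) (nat_lit 435) (nat_lit 277)))))) (XT.nd (nat_lit 546) (nat_lit 152) (nat_lit 0) (XT.nd (nat_lit 234) (nat_lit 304) (nat_lit 0) (XT.nd (nat_lit 78) (nat_lit 152) (nat_lit 0) (XT.lf (nat_lit 0)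 (nat_lit 325437946964) (nat_lit 152) (nat_lit 463822649880) (nat_lit 0) (nat_lit 59957625253) (nat_lit 26) (nat_lit 5) (nat_lit 28) (nat_lit 4) (nat_lit 26) (nat_lit 4) (nat_lit 489) (nat_lit 435) (nat_lit 276)) (XT.nd (nat_lit 78) (nat_lit 76) (nat_lit 0) (XT.lf (nat_lit 0) (nat_lit 175530859913) (nat_lit 76) (nat_lit 495040969382) (nat_lit 76) (nat_lit 229560552321) (nat_lit 25) (nat_lit 4) (nat_lit 26) (nat_lit 5) (nat_lit 26) (nat_lit 4) (nat_lit 490) (nat_lit 435) (nat_lit 275)) (XT.lf (nat_lit 0) (nat_lit 93585598609) (nat_lit 152) (nat_lit 73630028199) (nat_lit 76) (nat_lit 787424612321) (nat_lit 24) (nat_lit 5) (nat_lit 26) (nat_lit 5) (nat_lit 25) (nat_lit 4) (nat_lit 491) (nat_lit 435) (nat_lit 274)))) (XT.nd (nat_lit 156) (nat_lit 152) (nat_lit 0) (XT.nd (nat_lit 78) (nat_lit 76) (nat_lit 0) (XT.lf (nat_lit 0) (nat_lit 447883419732) (nat_lit 152) (nat_lit 369725242692) (nat_lit 0)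 (nat_lit 195044765354) (nat_lit 23) (nat_lit 5) (nat_lit 25) (nat_lit 4) (nat_lit 23) (nat_lit 4) (nat_lit 492) (nat_lit 435) (nat_lit 273)) (XT.lf (nat_lit 0) (nat_lit 352642555749) (nat_lit 76) (nat_lit 487511203795) (nat_lit 76) (nat_lit 234672477329) (nat_lit 22) (nat_lit 4) (nat_lit 23) (nat_lit 5) (nat_lit 23) (nat_lit 4) (nat_lit 493) (nat_lit 435) (nat_lit 272))) (XT.nd (nat_lit 78) (nat_lit 0) (nat_lit 0) (XT.lf (nat_lit 0) (nat_lit 2421023701) (nat_lit 76) (nat_lit 122095960159) (nat_lit 152) (nat_lit 1017031602209) (nat_lit 20) (nat_lit 5) (nat_lit 21) (nat_lit 5) (nat_lit 22) (nat_lit 4) (nat_lit 494) (nat_lit 435) (nat_lit 271)) (XT.lf (nat_lit 0) (nat_lit 521371042058) (nat_lit 152) (nat_lit 410615633112) (nat_lit 0) (nat_lit 280572132516) (nat_lit 20) (nat_lit 5) (nat_lit 22) (nat_lit 4) (nat_lit 20) (nat_lit 4) (nat_lit 495) (nat_lit 435) (nat_lit 270))))) (XT.nd (nat_lit 57876)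 (nat_lit 0) (nat_lit 9120) (XT.nd (nat_lit 78) (nat_lit 76) (nat_lit 0) (XT.lf (nat_lit 0) (nat_lit 386488138778) (nat_lit 76) (nat_lit 571578017857) (nat_lit 76) (nat_lit 330779053815) (nat_lit 19) (nat_lit 4) (nat_lit 20) (nat_lit 5) (nat_lit 20) (nat_lit 4) (nat_lit 496) (nat_lit 435) (nat_lit 269)) (XT.nd (nat_lit 57720) (nat_lit 0) (nat_lit 9044) (XT.lf (nat_lit 0) (nat_lit 63860923907) (nat_lit 152) (nat_lit 109884120494) (nat_lit 76) (nat_lit 1197080356501) (nat_lit 18) (nat_lit 5) (nat_lit 20) (nat_lit 5) (nat_lit 19) (nat_lit 4) (nat_lit 497) (nat_lit 435) (nat_lit 268)) (XT.lf (nat_lit 0) (nat_lit 12500722348) (nat_lit 836) (nat_lit 9965798576) (nat_lit 836) (nat_lit 9965798576) (nat_lit 137) (nat_lit 3) (nat_lit 148) (nat_lit 3) (nat_lit 148) (nat_lit 5) (nat_lit 436) (nat_lit 436) (nat_lit 328)))) (XT.nd (nat_lit 156) (nat_lit 0) (nat_lit 76) (XT.nd (nat_lit 78) (nat_lit 0) (nat_lit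 0) (XT.lf (nat_lit 0) (nat_lit 26621889583) (nat_lit 760) (nat_lit 35158331596) (nat_lit 836) (nat_lit 5647978456) (nat_lit 138) (nat_lit 5) (nat_lit 148) (nat_lit 5) (nat_lit 149) (nat_lit 5) (nat_lit 437) (nat_lit 436) (nat_lit 327)) (XT.lf (nat_lit 76) (nat_lit 19023811771) (nat_lit 0) (nat_lit 10753312324) (nat_lit 836) (nat_lit 40349463878) (nat_lit 139) (nat_lit 5) (nat_lit 138) (nat_lit 5) (nat_lit 149) (nat_lit 5) (nat_lit 438) (nat_lit 436) (nat_lit 326))) (XT.nd (nat_lit 78) (nat_lit 0) (nat_lit 76) (XT.lf (nat_lit 76) (nat_lit 5249757369) (nat_lit 0) (nat_lit 29329744839) (nat_lit 836) (nat_lit 38391609444) (nat_lit 140) (nat_lit 5) (nat_lit 139) (nat_lit 5) (nat_lit 150) (nat_lit 5) (nat_lit 439) (nat_lit 436) (nat_lit 325)) (XT.lf (nat_lit 0) (nat_lit 41252758961) (nat_lit 760) (nat_lit 8663474166) (nat_lit 836) (nat_lit 26052630157) (nat_lit 140) (nat_lit 5) (nat_lit 150) (nat_lit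 5) (nat_lit 151) (nat_lit 5) (nat_lit 440) (nat_lit 436) (nat_lit 324))))))) (XT.nd (nat_lit 1092) (nat_lit 2508) (nat_lit 0) (XT.nd (nat_lit 546) (nat_lit 2052) (nat_lit 0) (XT.nd (nat_lit 234) (nat_lit 1216) (nat_lit 0) (XT.nd (nat_lit 78) (nat_lit 684) (nat_lit 0) (XT.lf (nat_lit 0) (nat_lit 49936497539) (nat_lit 760) (nat_lit 22811599797) (nat_lit 836) (nat_lit 6384507090) (nat_lit 141) (nat_lit 5) (nat_lit 151) (nat_lit 5) (nat_lit 152) (nat_lit 5) (nat_lit 441) (nat_lit 436) (nat_lit 323)) (XT.nd (nat_lit 78) (nat_lit 684) (nat_lit 0) (XT.lf (nat_lit 76) (nat_lit 44861948803) (nat_lit 0) (nat_lit 16146675307) (nat_lit 836) (nat_lit 21456136713) (nat_lit 142) (nat_lit 5) (nat_lit 141) (nat_lit 5) (nat_lit 152) (nat_lit 5) (nat_lit 442) (nat_lit 436) (nat_lit 322)) (XT.lf (nat_lit 0) (nat_lit 33068430018) (nat_lit 760) (nat_lit 41518886280) (nat_lit 836) (nat_lit 11395134039) (nat_lit 132)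 (nat_lit 5) (nat_lit 142) (nat_lit 5) (nat_lit 143) (nat_lit 5) (nat_lit 443) (nat_lit 436) (nat_lit 321)))) (XT.nd (nat_lit 156) (nat_lit 380) (nat_lit 0) (XT.nd (nat_lit 78) (nat_lit 380) (nat_lit 0) (XT.lf (nat_lit 0) (nat_lit 1080363925) (nat_lit 456) (nat_lit 68644727865) (nat_lit 76) (nat_lit 19977242925) (nat_lit 126) (nat_lit 5) (nat_lit 132) (nat_lit 5) (nat_lit 127) (nat_lit 5) (nat_lit 444) (nat_lit 436) (nat_lit 320)) (XT.lf (nat_lit 0) (nat_lit 8526859782) (nat_lit 380) (nat_lit 7401692715) (nat_lit 456) (nat_lit 77693223343) (nat_lit 121) (nat_lit 5) (nat_lit 126) (nat_lit 5) (nat_lit 127) (nat_lit 5) (nat_lit 445) (nat_lit 436) (nat_lit 319))) (XT.nd (nat_lit 78) (nat_lit 380) (nat_lit 0) (XT.lf (nat_lit 0) (nat_lit 34113852274) (nat_lit 456) (nat_lit 4427961776) (nat_lit 76) (nat_lit 59205495686) (nat_lit 121) (nat_lit 5) (nat_lit 127) (nat_lit 5) (nat_lit 122) (nat_lit 5) (nat_lit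 446) (nat_lit 436) (nat_lit 318)) (XT.lf (nat_lit 0) (nat_lit 55678922945) (nat_lit 456) (nat_lit 17303709183) (nat_lit 76) (nat_lit 29124007138) (nat_lit 116) (nat_lit 5) (nat_lit 122) (nat_lit 5) (nat_lit 117) (nat_lit 5) (nat_lit 447) (nat_lit 436) (nat_lit 317))))) (XT.nd (nat_lit 234) (nat_lit 1064) (nat_lit 0) (XT.nd (nat_lit 78) (nat_lit 684) (nat_lit 0) (XT.lf (nat_lit 0) (nat_lit 76309389643) (nat_lit 304) (nat_lit 4578256831) (nat_lit 380) (nat_lit 25831146567) (nat_lit 112) (nat_lit 5) (nat_lit 116) (nat_lit 5) (nat_lit 117) (nat_lit 5) (nat_lit 448) (nat_lit 436) (nat_lit 316)) (XT.nd (nat_lit 78) (nat_lit 380) (nat_lit 0) (XT.lf (nat_lit 0) (nat_lit 67413993467) (nat_lit 304) (nat_lit 43138729864) (nat_lit 380) (nat_lit 1025213247) (nat_lit 108) (nat_lit 5) (nat_lit 112) (nat_lit 5) (nat_lit 113) (nat_lit 5) (nat_lit 449) (nat_lit 436) (nat_lit 315)) (XT.lf (nat_lit 0) (nat_lit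 26975919264) (nat_lit 380) (nat_lit 58492526719) (nat_lit 76) (nat_lit 31235483884) (nat_lit 103) (nat_lit 5) (nat_lit 108) (nat_lit 5) (nat_lit 104) (nat_lit 5) (nat_lit 450) (nat_lit 436) (nat_lit 314)))) (XT.nd (nat_lit 156) (nat_lit 532) (nat_lit 0) (XT.nd (nat_lit 78) (nat_lit 228) (nat_lit 0) (XT.lf (nat_lit 0) (nat_lit 48960716625) (nat_lit 304) (nat_lit 10493654775) (nat_lit 380) (nat_lit 62671133692) (nat_lit 99) (nat_lit 5) (nat_lit 103) (nat_lit 5) (nat_lit 104) (nat_lit 5) (nat_lit 451) (nat_lit 436) (nat_lit 313)) (XT.lf (nat_lit 0) (nat_lit 39308812375) (nat_lit 228) (nat_lit 57970980526) (nat_lit 304) (nat_lit 30563578948) (nat_lit 96) (nat_lit 5) (nat_lit 99) (nat_lit 5) (nat_lit 100) (nat_lit 5) (nat_lit 452) (nat_lit 436) (nat_lit 312))) (XT.nd (nat_lit 78) (nat_lit 228) (nat_lit 0) (XT.lf (nat_lit 0) (nat_lit 6300946638) (nat_lit 304) (nat_lit 104157114711) (nat_lit 76) (nat_lit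 23441396567) (nat_lit 92) (nat_lit 5) (nat_lit 96) (nat_lit 5) (nat_lit 93) (nat_lit 5) (nat_lit 453) (nat_lit 436) (nat_lit 311)) (XT.lf (nat_lit 0) (nat_lit 19380891392) (nat_lit 228) (nat_lit 28523919552) (nat_lit 304) (nat_lit 92367119172) (nat_lit 89) (nat_lit 5) (nat_lit 92) (nat_lit 5) (nat_lit 93) (nat_lit 5) (nat_lit 454) (nat_lit 436) (nat_lit 310)))))) (XT.nd (nat_lit 546) (nat_lit 1216) (nat_lit 0) (XT.nd (nat_lit 234) (nat_lit 836) (nat_lit 0) (XT.nd (nat_lit 78) (nat_lit 228) (nat_lit 0) (XT.lf (nat_lit 0) (nat_lit 8771364680) (nat_lit 228) (nat_lit 86981999028) (nat_lit 304) (nat_lit 51255017549) (nat_lit 86) (nat_lit 5) (nat_lit 89) (nat_lit 5) (nat_lit 90) (nat_lit 5) (nat_lit 455) (nat_lit 436) (nat_lit 309)) (XT.nd (nat_lit 78) (nat_lit 228) (nat_lit 0) (XT.lf (nat_lit 0) (nat_lit 150048886634) (nat_lit 304) (nat_lit 1570060163) (nat_lit 76) (nat_lit 2533847516) (nat_lit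 86) (nat_lit 5) (nat_lit 90) (nat_lit 5) (nat_lit 87) (nat_lit 5) (nat_lit 456) (nat_lit 436) (nat_lit 308)) (XT.lf (nat_lit 0) (nat_lit 49180585013) (nat_lit 228) (nat_lit 13129823100) (nat_lit 76) (nat_lit 99328813202) (nat_lit 83) (nat_lit 5) (nat_lit 86) (nat_lit 5) (nat_lit 84) (nat_lit 5) (nat_lit 457) (nat_lit 436) (nat_lit 307)))) (XT.nd (nat_lit 156) (nat_lit 380) (nat_lit 0) (XT.nd (nat_lit 78) (nat_lit 228) (nat_lit 0) (XT.lf (nat_lit 0) (nat_lit 109456810944) (nat_lit 304) (nat_lit 24663376002) (nat_lit 76) (nat_lit 35457374032) (nat_lit 80) (nat_lit 5) (nat_lit 84) (nat_lit 5) (nat_lit 81) (nat_lit 5) (nat_lit 458) (nat_lit 436) (nat_lit 306)) (XT.lf (nat_lit 0) (nat_lit 66552122) (nat_lit 228) (nat_lit 36576310823) (nat_lit 76) (nat_lit 141333547215) (nat_lit 77) (nat_lit 5) (nat_lit 80) (nat_lit 5) (nat_lit 78) (nat_lit 5) (nat_lit 459) (nat_lit 436) (nat_lit 305))) (XT.nd (nat_lit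 78) (nat_lit 152) (nat_lit 0) (XT.lf (nat_lit 0) (nat_lit 66711814838) (nat_lit 304) (nat_lit 49998973539) (nat_lit 76) (nat_lit 70099633946) (nat_lit 74) (nat_lit 5) (nat_lit 78) (nat_lit 5) (nat_lit 75) (nat_lit 5) (nat_lit 460) (nat_lit 436) (nat_lit 304)) (XT.lf (nat_lit 0) (nat_lit 132674071292) (nat_lit 152) (nat_lit 9350823843) (nat_lit 228) (nat_lit 54159450568) (nat_lit 72) (nat_lit 5) (nat_lit 74) (nat_lit 5) (nat_lit 75) (nat_lit 5) (nat_lit 461) (nat_lit 436) (nat_lit 303))))) (XT.nd (nat_lit 234) (nat_lit 684) (nat_lit 0) (XT.nd (nat_lit 78) (nat_lit 304) (nat_lit 0) (XT.lf (nat_lit 0) (nat_lit 21129189299) (nat_lit 228) (nat_lit 78526087141) (nat_lit 76) (nat_lit 106408582303) (nat_lit 69) (nat_lit 5) (nat_lit 72) (nat_lit 5) (nat_lit 70) (nat_lit 5) (nat_lit 462) (nat_lit 436) (nat_lit 302)) (XT.nd (nat_lit 78) (nat_lit 152) (nat_lit 0) (XT.lf (nat_lit 0) (nat_lit 104048687319)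 (nat_lit 228) (nat_lit 94534812224) (nat_lit 76) (nat_lit 17930577835) (nat_lit 67) (nat_lit 5) (nat_lit 70) (nat_lit 5) (nat_lit 68) (nat_lit 5) (nat_lit 463) (nat_lit 436) (nat_lit 301)) (XT.lf (nat_lit 0) (nat_lit 115593168776) (nat_lit 152) (nat_lit 82883386256) (nat_lit 228) (nat_lit 29080018037) (nat_lit 65) (nat_lit 5) (nat_lit 67) (nat_lit 5) (nat_lit 68) (nat_lit 5) (nat_lit 464) (nat_lit 436) (nat_lit 300)))) (XT.nd (nat_lit 156) (nat_lit 304) (nat_lit 0) (XT.nd (nat_lit 78) (nat_lit 152) (nat_lit 0) (XT.lf (nat_lit 0) (nat_lit 63127588163) (nat_lit 228) (nat_lit 130977643221) (nat_lit 76) (nat_lit 45124485469) (nat_lit 62) (nat_lit 5) (nat_lit 65) (nat_lit 5) (nat_lit 63) (nat_lit 5) (nat_lit 465) (nat_lit 436) (nat_lit 299)) (XT.lf (nat_lit 0) (nat_lit 99611107624) (nat_lit 152) (nat_lit 67030020016) (nat_lit 228) (nat_lit 84924341118) (nat_lit 60) (nat_lit 5) (nat_lit 62) (nat_lit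 5) (nat_lit 63) (nat_lit 5) (nat_lit 466) (nat_lit 436) (nat_lit 298))) (XT.nd (nat_lit 78) (nat_lit 152) (nat_lit 0) (XT.lf (nat_lit 0) (nat_lit 18017691092) (nat_lit 152) (nat_lit 174631518572) (nat_lit 76) (nat_lit 71983113754) (nat_lit 58) (nat_lit 5) (nat_lit 60) (nat_lit 5) (nat_lit 59) (nat_lit 5) (nat_lit 467) (nat_lit 436) (nat_lit 297)) (XT.lf (nat_lit 0) (nat_lit 78016939363) (nat_lit 152) (nat_lit 53280726428) (nat_lit 228) (nat_lit 147123354825) (nat_lit 56) (nat_lit 5) (nat_lit 58) (nat_lit 5) (nat_lit 59) (nat_lit 5) (nat_lit 468) (nat_lit 436) (nat_lit 296))))))))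
noncomputable def xc99 : XT := (XT.nd (nat_lit 2184) (nat_lit 76) (nat_lit 0) (XT.nd (nat_lit 1092) (nat_lit 1216) (nat_lit 0) (XT.nd (nat_lit 546) (nat_lit 684) (nat_lit 0) (XT.nd (nat_lit 234) (nat_lit 456) (nat_lit 0) (XT.nd (nat_lit 78) (nat_lit 304) (nat_lit 0) (XT.lf (nat_lit 0) (nat_lit 64446372132) (nat_lit 76) (nat_lit 194809342371) (nat_lit 152) (nat_lit 33776315320) (nat_lit 55) (nat_lit 5) (nat_lit 56) (nat_lit 5) (nat_lit 57) (nat_lit 4) (nat_lit 469) (nat_lit 436) (nat_lit 295)) (XT.nd (nat_lit 78) (nat_lit 76) (nat_lit 0) (XT.lf (nat_lit 0) (nat_lit 48206352187) (nat_lit 152) (nat_lit 42793855095) (nat_lit 228) (nat_lit 217482582500) (nat_lit 52) (nat_lit 5) (nat_lit 54) (nat_lit 5) (nat_lit 55) (nat_lit 5) (nat_lit 470) (nat_lit 436) (nat_lit 294)) (XT.lf (nat_lit 0) (nat_lit 28722437421) (nat_lit 76) (nat_lit 202259069123) (nat_lit 152) (nat_lit 93840117898) (nat_lit 51) (nat_lit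 5) (nat_lit 52) (nat_lit 5) (nat_lit 53) (nat_lit 4) (nat_lit 471) (nat_lit 436) (nat_lit 293)))) (XT.nd (nat_lit 156) (nat_lit 228) (nat_lit 0) (XT.nd (nat_lit 78) (nat_lit 0) (nat_lit 0) (XT.lf (nat_lit 0) (nat_lit 6692470728) (nat_lit 152) (nat_lit 37164620803) (nat_lit 228) (nat_lit 298307798071) (nat_lit 48) (nat_lit 5) (nat_lit 50) (nat_lit 5) (nat_lit 51) (nat_lit 5) (nat_lit 472) (nat_lit 436) (nat_lit 292)) (XT.lf (nat_lit 0) (nat_lit 196771858971) (nat_lit 228) (nat_lit 20227884411) (nat_lit 76) (nat_lit 143444480394) (nat_lit 48) (nat_lit 5) (nat_lit 51) (nat_lit 5) (nat_lit 49) (nat_lit 4) (nat_lit 473) (nat_lit 436) (nat_lit 291))) (XT.nd (nat_lit 78) (nat_lit 152) (nat_lit 0) (XT.lf (nat_lit 0) (nat_lit 330176511728) (nat_lit 76) (nat_lit 37524538961) (nat_lit 152) (nat_lit 12195791872) (nat_lit 47) (nat_lit 5) (nat_lit 48) (nat_lit 5) (nat_lit 49) (nat_lit 4) (nat_lit 474) (nat_lit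 436) (nat_lit 290)) (XT.lf (nat_lit 0) (nat_lit 154413633169) (nat_lit 152) (nat_lit 86891152923) (nat_lit 76) (nat_lit 159089674874) (nat_lit 45) (nat_lit 5) (nat_lit 47) (nat_lit 5) (nat_lit 46) (nat_lit 4) (nat_lit 475) (nat_lit 436) (nat_lit 289))))) (XT.nd (nat_lit 234) (nat_lit 380) (nat_lit 0) (XT.nd (nat_lit 78) (nat_lit 228) (nat_lit 0) (XT.lf (nat_lit 0) (nat_lit 293616012901) (nat_lit 76) (nat_lit 46411049883) (nat_lit 152) (nat_lit 82189702940) (nat_lit 44) (nat_lit 5) (nat_lit 45) (nat_lit 5) (nat_lit 46) (nat_lit 4) (nat_lit 476) (nat_lit 436) (nat_lit 288)) (XT.nd (nat_lit 78) (nat_lit 76) (nat_lit 0) (XT.lf (nat_lit 0) (nat_lit 100092444145) (nat_lit 152) (nat_lit 179038873945) (nat_lit 76) (nat_lit 166158662768) (nat_lit 42) (nat_lit 5) (nat_lit 44) (nat_lit 5) (nat_lit 43) (nat_lit 4) (nat_lit 477) (nat_lit 436) (nat_lit 287)) (XT.lf (nat_lit 0) (nat_lit 232419391571) (nat_lit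 76) (nat_lit 68384546940) (nat_lit 152) (nat_lit 169001430979) (nat_lit 41) (nat_lit 5) (nat_lit 42) (nat_lit 5) (nat_lit 43) (nat_lit 4) (nat_lit 478) (nat_lit 436) (nat_lit 286)))) (XT.nd (nat_lit 156) (nat_lit 152) (nat_lit 0) (XT.nd (nat_lit 78) (nat_lit 76) (nat_lit 0) (XT.lf (nat_lit 0) (nat_lit 29382062228) (nat_lit 152) (nat_lit 305699113615) (nat_lit 76) (nat_lit 160745537091) (nat_lit 39) (nat_lit 5) (nat_lit 41) (nat_lit 5) (nat_lit 40) (nat_lit 4) (nat_lit 479) (nat_lit 436) (nat_lit 285)) (XT.lf (nat_lit 0) (nat_lit 136906918454) (nat_lit 76) (nat_lit 108380643938) (nat_lit 152) (nat_lit 278125059989) (nat_lit 38) (nat_lit 5) (nat_lit 39) (nat_lit 5) (nat_lit 40) (nat_lit 4) (nat_lit 480) (nat_lit 436) (nat_lit 284))) (XT.nd (nat_lit 78) (nat_lit 76) (nat_lit 0) (XT.lf (nat_lit 0) (nat_lit 73017331422) (nat_lit 76) (nat_lit 414130692458) (nat_lit 76) (nat_lit 65623254650) (nat_lit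 37) (nat_lit 4) (nat_lit 38) (nat_lit 5) (nat_lit 38) (nat_lit 4) (nat_lit 481) (nat_lit 436) (nat_lit 283)) (XT.lf (nat_lit 0) (nat_lit 167303789217) (nat_lit 152) (nat_lit 5534868543) (nat_lit 76) (nat_lit 411078527346) (nat_lit 36) (nat_lit 5) (nat_lit 38) (nat_lit 5) (nat_lit 37) (nat_lit 4) (nat_lit 482) (nat_lit 436) (nat_lit 282)))))) (XT.nd (nat_lit 546) (nat_lit 532) (nat_lit 0) (XT.nd (nat_lit 234) (nat_lit 380) (nat_lit 0) (XT.nd (nat_lit 78) (nat_lit 228) (nat_lit 0) (XT.lf (nat_lit 0) (nat_lit 426271715295) (nat_lit 152) (nat_lit 96384462043) (nat_lit 0) (nat_lit 94359505431) (nat_lit 35) (nat_lit 5) (nat_lit 37) (nat_lit 4) (nat_lit 35) (nat_lit 4) (nat_lit 483) (nat_lit 436) (nat_lit 281)) (XT.nd (nat_lit 78) (nat_lit 76) (nat_lit 0) (XT.lf (nat_lit 0) (nat_lit 61659067074) (nat_lit 152) (nat_lit 205511284545) (nat_lit 76) (nat_lit 385041851243) (nat_lit 33) (nat_lit 5) (nat_lit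 35) (nat_lit 5) (nat_lit 34) (nat_lit 4) (nat_lit 484) (nat_lit 436) (nat_lit 280)) (XT.lf (nat_lit 0) (nat_lit 335212238028) (nat_lit 152) (nat_lit 335368753364) (nat_lit 0) (nat_lit 19105074009) (nat_lit 32) (nat_lit 5) (nat_lit 34) (nat_lit 4) (nat_lit 32) (nat_lit 4) (nat_lit 485) (nat_lit 436) (nat_lit 279)))) (XT.nd (nat_lit 156) (nat_lit 152) (nat_lit 0) (XT.nd (nat_lit 78) (nat_lit 152) (nat_lit 0) (XT.lf (nat_lit 0) (nat_lit 239389881872) (nat_lit 76) (nat_lit 403140605151) (nat_lit 76) (nat_lit 87033308706) (nat_lit 31) (nat_lit 4) (nat_lit 32) (nat_lit 5) (nat_lit 32) (nat_lit 4) (nat_lit 486) (nat_lit 436) (nat_lit 278)) (XT.lf (nat_lit 0) (nat_lit 99709831849) (nat_lit 76) (nat_lit 103127851521) (nat_lit 152) (nat_lit 569261817498) (nat_lit 29) (nat_lit 5) (nat_lit 30) (nat_lit 5) (nat_lit 31) (nat_lit 4) (nat_lit 487) (nat_lit 436) (nat_lit 277))) (XT.nd (nat_lit 78) (nat_lit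 152) (nat_lit 0) (XT.lf (nat_lit 0) (nat_lit 525016786046) (nat_lit 152) (nat_lit 68379561782) (nat_lit 0) (nat_lit 223961993098) (nat_lit 29) (nat_lit 5) (nat_lit 31) (nat_lit 4) (nat_lit 29) (nat_lit 4) (nat_lit 488) (nat_lit 436) (nat_lit 276)) (XT.lf (nat_lit 0) (nat_lit 17828508460) (nat_lit 152) (nat_lit 264506450722) (nat_lit 76) (nat_lit 583332090670) (nat_lit 27) (nat_lit 5) (nat_lit 29) (nat_lit 5) (nat_lit 28) (nat_lit 4) (nat_lit 489) (nat_lit 436) (nat_lit 275))))) (XT.nd (nat_lit 234) (nat_lit 304) (nat_lit 0) (XT.nd (nat_lit 78) (nat_lit 152) (nat_lit 0) (XT.lf (nat_lit 0) (nat_lit 351477538595) (nat_lit 152) (nat_lit 500919408858) (nat_lit 0) (nat_lit 64758504530) (nat_lit 26) (nat_lit 5) (nat_lit 28) (nat_lit 4) (nat_lit 26) (nat_lit 4) (nat_lit 490) (nat_lit 436) (nat_lit 274)) (XT.nd (nat_lit 78) (nat_lit 76) (nat_lit 0) (XT.lf (nat_lit 0) (nat_lit 189581988286) (nat_lit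 76) (nat_lit 534639940956) (nat_lit 76) (nat_lit 247920825144) (nat_lit 25) (nat_lit 4) (nat_lit 26) (nat_lit 5) (nat_lit 26) (nat_lit 4) (nat_lit 491) (nat_lit 436) (nat_lit 273)) (XT.lf (nat_lit 0) (nat_lit 101076543767) (nat_lit 152) (nat_lit 79512276781) (nat_lit 76) (nat_lit 850422432777) (nat_lit 24) (nat_lit 5) (nat_lit 26) (nat_lit 5) (nat_lit 25) (nat_lit 4) (nat_lit 492) (nat_lit 436) (nat_lit 272)))) (XT.nd (nat_lit 156) (nat_lit 152) (nat_lit 0) (XT.nd (nat_lit 78) (nat_lit 76) (nat_lit 0) (XT.lf (nat_lit 0) (nat_lit 483718069485) (nat_lit 152) (nat_lit 399295327577) (nat_lit 0) (nat_lit 210652106065) (nat_lit 23) (nat_lit 5) (nat_lit 25) (nat_lit 4) (nat_lit 23) (nat_lit 4) (nat_lit 493) (nat_lit 436) (nat_lit 271)) (XT.lf (nat_lit 0) (nat_lit 380861549914) (nat_lit 76) (nat_lit 526508310532) (nat_lit 76) (nat_lit 253442285309) (nat_lit 22) (nat_lit 4) (nat_lit 23) (nat_lit 5)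 (nat_lit 23) (nat_lit 4) (nat_lit 494) (nat_lit 436) (nat_lit 270))) (XT.nd (nat_lit 78) (nat_lit 0) (nat_lit 0) (XT.lf (nat_lit 0) (nat_lit 2622087680) (nat_lit 76) (nat_lit 131859946528) (nat_lit 152) (nat_lit 1098390254111) (nat_lit 20) (nat_lit 5) (nat_lit 21) (nat_lit 5) (nat_lit 22) (nat_lit 4) (nat_lit 495) (nat_lit 436) (nat_lit 269)) (XT.lf (nat_lit 0) (nat_lit 563084196957) (nat_lit 152) (nat_lit 443457930890) (nat_lit 0) (nat_lit 303021210827) (nat_lit 20) (nat_lit 5) (nat_lit 22) (nat_lit 4) (nat_lit 20) (nat_lit 4) (nat_lit 496) (nat_lit 436) (nat_lit 268))))))) (XT.nd (nat_lit 58812) (nat_lit 0) (nat_lit 3648) (XT.nd (nat_lit 58266) (nat_lit 0) (nat_lit 7068) (XT.nd (nat_lit 57954) (nat_lit 0) (nat_lit 9044) (XT.nd (nat_lit 57798) (nat_lit 0) (nat_lit 8968) (XT.lf (nat_lit 0) (nat_lit 417413840587) (nat_lit 76) (nat_lit 617300926798) (nat_lit 76) (nat_lit 357237893943) (nat_lit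 19) (nat_lit 4) (nat_lit 20) (nat_lit 5) (nat_lit 20) (nat_lit 4) (nat_lit 497) (nat_lit 436) (nat_lit 267)) (XT.nd (nat_lit 78) (nat_lit 0) (nat_lit 76) (XT.lf (nat_lit 0) (nat_lit 13524177767) (nat_lit 836) (nat_lit 10750775987) (nat_lit 836) (nat_lit 10750775987) (nat_lit 137) (nat_lit 3) (nat_lit 148) (nat_lit 3) (nat_lit 148) (nat_lit 5) (nat_lit 437) (nat_lit 437) (nat_lit 326)) (XT.lf (nat_lit 0) (nat_lit 28795021438) (nat_lit 760) (nat_lit 37944982977) (nat_lit 836) (nat_lit 6080272083) (nat_lit 138) (nat_lit 5) (nat_lit 148) (nat_lit 5) (nat_lit 149) (nat_lit 5) (nat_lit 438) (nat_lit 437) (nat_lit 325)))) (XT.nd (nat_lit 156) (nat_lit 0) (nat_lit 152) (XT.nd (nat_lit 78) (nat_lit 0) (nat_lit 76) (XT.lf (nat_lit 76) (nat_lit 20570601273) (nat_lit 0) (nat_lit 11629248572) (nat_lit 836) (nat_lit 43534828047) (nat_lit 139) (nat_lit 5) (nat_lit 138) (nat_lit 5) (nat_lit 149) (nat_lit 5)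 (nat_lit 439) (nat_lit 437) (nat_lit 324)) (XT.lf (nat_lit 76) (nat_lit 5695723693) (nat_lit 0) (nat_lit 31687869541) (nat_lit 836) (nat_lit 41423312171) (nat_lit 140) (nat_lit 5) (nat_lit 139) (nat_lit 5) (nat_lit 150) (nat_lit 5) (nat_lit 440) (nat_lit 437) (nat_lit 323))) (XT.nd (nat_lit 78) (nat_lit 0) (nat_lit 76) (XT.lf (nat_lit 0) (nat_lit 44587745859) (nat_lit 760) (nat_lit 9330566648) (nat_lit 836) (nat_lit 28126313535) (nat_lit 140) (nat_lit 5) (nat_lit 150) (nat_lit 5) (nat_lit 151) (nat_lit 5) (nat_lit 441) (nat_lit 437) (nat_lit 322)) (XT.lf (nat_lit 0) (nat_lit 53963875749) (nat_lit 760) (nat_lit 24609914696) (nat_lit 836) (nat_lit 6887792010) (nat_lit 141) (nat_lit 5) (nat_lit 151) (nat_lit 5) (nat_lit 152) (nat_lit 5) (nat_lit 442) (nat_lit 437) (nat_lit 321))))) (XT.nd (nat_lit 234) (nat_lit 1064) (nat_lit 0) (XT.nd (nat_lit 78) (nat_lit 1140) (nat_lit 0) (XT.lf (nat_lit 76)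 (nat_lit 48476361220) (nat_lit 0) (nat_lit 17443404347) (nat_lit 836) (nat_lit 23140646689) (nat_lit 142) (nat_lit 5) (nat_lit 141) (nat_lit 5) (nat_lit 152) (nat_lit 5) (nat_lit 443) (nat_lit 437) (nat_lit 320)) (XT.nd (nat_lit 78) (nat_lit 456) (nat_lit 0) (XT.lf (nat_lit 0) (nat_lit 35739792184) (nat_lit 760) (nat_lit 44843037248) (nat_lit 836) (nat_lit 12276784192) (nat_lit 132) (nat_lit 5) (nat_lit 142) (nat_lit 5) (nat_lit 143) (nat_lit 5) (nat_lit 444) (nat_lit 437) (nat_lit 319)) (XT.lf (nat_lit 0) (nat_lit 1194022949) (nat_lit 456) (nat_lit 74109227536) (nat_lit 76) (nat_lit 21573903913) (nat_lit 126) (nat_lit 5) (nat_lit 132) (nat_lit 5) (nat_lit 127) (nat_lit 5) (nat_lit 445) (nat_lit 437) (nat_lit 318)))) (XT.nd (nat_lit 156) (nat_lit 684) (nat_lit 0) (XT.nd (nat_lit 78) (nat_lit 0) (nat_lit 0) (XT.lf (nat_lit 0) (nat_lit 9234910321) (nat_lit 380) (nat_lit 7993543654) (nat_lit 456)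 (nat_lit 83881777884) (nat_lit 121) (nat_lit 5) (nat_lit 126) (nat_lit 5) (nat_lit 127) (nat_lit 5) (nat_lit 446) (nat_lit 437) (nat_lit 317)) (XT.lf (nat_lit 0) (nat_lit 36866684272) (nat_lit 456) (nat_lit 4757028939) (nat_lit 76) (nat_lit 63942190316) (nat_lit 121) (nat_lit 5) (nat_lit 127) (nat_lit 5) (nat_lit 122) (nat_lit 5) (nat_lit 447) (nat_lit 437) (nat_lit 316))) (XT.nd (nat_lit 78) (nat_lit 304) (nat_lit 0) (XT.lf (nat_lit 0) (nat_lit 60155606235) (nat_lit 456) (nat_lit 18662835488) (nat_lit 76) (nat_lit 31455605768) (nat_lit 116) (nat_lit 5) (nat_lit 122) (nat_lit 5) (nat_lit 117) (nat_lit 5) (nat_lit 448) (nat_lit 437) (nat_lit 315)) (XT.lf (nat_lit 0) (nat_lit 82438217369) (nat_lit 304) (nat_lit 4941529184) (nat_lit 380) (nat_lit 27875491401) (nat_lit 112) (nat_lit 5) (nat_lit 116) (nat_lit 5) (nat_lit 117) (nat_lit 5) (nat_lit 449) (nat_lit 437) (nat_lit 314)))))) (XT.nd (nat_lit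 546) (nat_lit 1444) (nat_lit 0) (XT.nd (nat_lit 234) (nat_lit 988) (nat_lit 0) (XT.nd (nat_lit 78) (nat_lit 684) (nat_lit 0) (XT.lf (nat_lit 0) (nat_lit 72831111063) (nat_lit 304) (nat_lit 46585774268) (nat_lit 380) (nat_lit 1086285155) (nat_lit 108) (nat_lit 5) (nat_lit 112) (nat_lit 5) (nat_lit 113) (nat_lit 5) (nat_lit 450) (nat_lit 437) (nat_lit 313)) (XT.nd (nat_lit 78) (nat_lit 304) (nat_lit 0) (XT.lf (nat_lit 0) (nat_lit 29153203816) (nat_lit 380) (nat_lit 63147438134) (nat_lit 76) (nat_lit 33738638397) (nat_lit 103) (nat_lit 5) (nat_lit 108) (nat_lit 5) (nat_lit 104) (nat_lit 5) (nat_lit 451) (nat_lit 437) (nat_lit 312)) (XT.lf (nat_lit 0) (nat_lit 52901000341) (nat_lit 304) (nat_lit 11327874496) (nat_lit 380) (nat_lit 67665759866) (nat_lit 99) (nat_lit 5) (nat_lit 103) (nat_lit 5) (nat_lit 104) (nat_lit 5) (nat_lit 452) (nat_lit 437) (nat_lit 311)))) (XT.nd (nat_lit 156) (nat_lit 456)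 (nat_lit 0) (XT.nd (nat_lit 78) (nat_lit 304) (nat_lit 0) (XT.lf (nat_lit 0) (nat_lit 42476718141) (nat_lit 228) (nat_lit 62602705649) (nat_lit 304) (nat_lit 32990552554) (nat_lit 96) (nat_lit 5) (nat_lit 99) (nat_lit 5) (nat_lit 100) (nat_lit 5) (nat_lit 453) (nat_lit 437) (nat_lit 310)) (XT.lf (nat_lit 0) (nat_lit 6821707983) (nat_lit 304) (nat_lit 112466198407) (nat_lit 76) (nat_lit 25322671339) (nat_lit 92) (nat_lit 5) (nat_lit 96) (nat_lit 5) (nat_lit 93) (nat_lit 5) (nat_lit 454) (nat_lit 437) (nat_lit 309))) (XT.nd (nat_lit 78) (nat_lit 228) (nat_lit 0) (XT.lf (nat_lit 0) (nat_lit 20953827534) (nat_lit 228) (nat_lit 30799168667) (nat_lit 304) (nat_lit 99739895954) (nat_lit 89) (nat_lit 5) (nat_lit 92) (nat_lit 5) (nat_lit 93) (nat_lit 5) (nat_lit 455) (nat_lit 437) (nat_lit 308)) (XT.lf (nat_lit 0) (nat_lit 9495220798) (nat_lit 228) (nat_lit 93933484109) (nat_lit 304) (nat_lit 55339591068)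 (nat_lit 86) (nat_lit 5) (nat_lit 89) (nat_lit 5) (nat_lit 90) (nat_lit 5) (nat_lit 456) (nat_lit 437) (nat_lit 307))))) (XT.nd (nat_lit 312) (nat_lit 760) (nat_lit 0) (XT.nd (nat_lit 156) (nat_lit 456) (nat_lit 0) (XT.nd (nat_lit 78) (nat_lit 228) (nat_lit 0) (XT.lf (nat_lit 0) (nat_lit 162066855491) (nat_lit 304) (nat_lit 1674561024) (nat_lit 76) (nat_lit 2742896430) (nat_lit 86) (nat_lit 5) (nat_lit 90) (nat_lit 5) (nat_lit 87) (nat_lit 5) (nat_lit 457) (nat_lit 437) (nat_lit 306)) (XT.lf (nat_lit 0) (nat_lit 53128583945) (nat_lit 228) (nat_lit 14159572275) (nat_lit 76) (nat_lit 107281523415) (nat_lit 83) (nat_lit 5) (nat_lit 86) (nat_lit 5) (nat_lit 84) (nat_lit 5) (nat_lit 458) (nat_lit 437) (nat_lit 305))) (XT.nd (nat_lit 78) (nat_lit 228) (nat_lit 0) (XT.lf (nat_lit 0) (nat_lit 118226319753) (nat_lit 304) (nat_lit 26616169253) (nat_lit 76) (nat_lit 38300627008) (nat_lit 80) (nat_lit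 5) (nat_lit 84) (nat_lit 5) (nat_lit 81) (nat_lit 5) (nat_lit 459) (nat_lit 437) (nat_lit 304)) (XT.lf (nat_lit 0) (nat_lit 84385974) (nat_lit 228) (nat_lit 39482604988) (nat_lit 76) (nat_lit 152646905075) (nat_lit 77) (nat_lit 5) (nat_lit 80) (nat_lit 5) (nat_lit 78) (nat_lit 5) (nat_lit 460) (nat_lit 437) (nat_lit 303)))) (XT.nd (nat_lit 156) (nat_lit 380) (nat_lit 0) (XT.nd (nat_lit 78) (nat_lit 152) (nat_lit 0) (XT.lf (nat_lit 0) (nat_lit 72060749318) (nat_lit 304) (nat_lit 53979456777) (nat_lit 76) (nat_lit 75714449204) (nat_lit 74) (nat_lit 5) (nat_lit 78) (nat_lit 5) (nat_lit 75) (nat_lit 5) (nat_lit 461) (nat_lit 437) (nat_lit 302)) (XT.lf (nat_lit 0) (nat_lit 143306587035) (nat_lit 152) (nat_lit 10091691152) (nat_lit 228) (nat_lit 58480244356) (nat_lit 72) (nat_lit 5) (nat_lit 74) (nat_lit 5) (nat_lit 75) (nat_lit 5) (nat_lit 462) (nat_lit 437) (nat_lit 301))) (XT.nd (nat_lit 78) (nat_lit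 152) (nat_lit 0) (XT.lf (nat_lit 0) (nat_lit 22830641010) (nat_lit 228) (nat_lit 84789584808) (nat_lit 76) (nat_lit 114928184698) (nat_lit 69) (nat_lit 5) (nat_lit 72) (nat_lit 5) (nat_lit 70) (nat_lit 5) (nat_lit 463) (nat_lit 437) (nat_lit 300)) (XT.lf (nat_lit 0) (nat_lit 112383265620) (nat_lit 228) (nat_lit 102079398793) (nat_lit 76) (nat_lit 19372003974) (nat_lit 67) (nat_lit 5) (nat_lit 70) (nat_lit 5) (nat_lit 68) (nat_lit 5) (nat_lit 464) (nat_lit 437) (nat_lit 299))))))))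
noncomputable def xc100 : XT := (XT.nd (nat_lit 2184) (nat_lit 380) (nat_lit 0) (XT.nd (nat_lit 1092) (nat_lit 1292) (nat_lit 0) (XT.nd (nat_lit 546) (nat_lit 760) (nat_lit 0) (XT.nd (nat_lit 234) (nat_lit 608) (nat_lit 0) (XT.nd (nat_lit 78) (nat_lit 380) (nat_lit 0) (XT.lf (nat_lit 0) (nat_lit 124858029807) (nat_lit 152) (nat_lit 89506813367) (nat_lit 228) (nat_lit 31395746613) (nat_lit 65) (nat_lit 5) (nat_lit 67) (nat_lit 5) (nat_lit 68) (nat_lit 5) (nat_lit 465) (nat_lit 437) (nat_lit 298)) (XT.nd (nat_lit 78) (nat_lit 152) (nat_lit 0) (XT.lf (nat_lit 0) (nat_lit 68187737883) (nat_lit 228) (nat_lit 141438495260) (nat_lit 76) (nat_lit 48741363096) (nat_lit 62) (nat_lit 5) (nat_lit 65) (nat_lit 5) (nat_lit 63) (nat_lit 5) (nat_lit 466) (nat_lit 437) (nat_lit 297)) (XT.lf (nat_lit 0) (nat_lit 107596601234) (nat_lit 152) (nat_lit 72385282041) (nat_lit 228) (nat_lit 91708348944) (nat_lit 60)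 (nat_lit 5) (nat_lit 62) (nat_lit 5) (nat_lit 63) (nat_lit 5) (nat_lit 467) (nat_lit 437) (nat_lit 296)))) (XT.nd (nat_lit 156) (nat_lit 304) (nat_lit 0) (XT.nd (nat_lit 78) (nat_lit 152) (nat_lit 0) (XT.lf (nat_lit 0) (nat_lit 19468377483) (nat_lit 152) (nat_lit 188585502655) (nat_lit 76) (nat_lit 77748564922) (nat_lit 58) (nat_lit 5) (nat_lit 60) (nat_lit 5) (nat_lit 59) (nat_lit 5) (nat_lit 468) (nat_lit 437) (nat_lit 295)) (XT.lf (nat_lit 0) (nat_lit 84274113219) (nat_lit 152) (nat_lit 57536197164) (nat_lit 228) (nat_lit 158883949688) (nat_lit 56) (nat_lit 5) (nat_lit 58) (nat_lit 5) (nat_lit 59) (nat_lit 5) (nat_lit 469) (nat_lit 437) (nat_lit 294))) (XT.nd (nat_lit 78) (nat_lit 228) (nat_lit 0) (XT.lf (nat_lit 0) (nat_lit 69617531774) (nat_lit 76) (nat_lit 210387159274) (nat_lit 152) (nat_lit 36469474611) (nat_lit 55) (nat_lit 5) (nat_lit 56) (nat_lit 5) (nat_lit 57) (nat_lit 4) (nat_lit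 470) (nat_lit 437) (nat_lit 293)) (XT.lf (nat_lit 0) (nat_lit 52077913212) (nat_lit 152) (nat_lit 46210563826) (nat_lit 228) (nat_lit 234872522756) (nat_lit 52) (nat_lit 5) (nat_lit 54) (nat_lit 5) (nat_lit 55) (nat_lit 5) (nat_lit 471) (nat_lit 437) (nat_lit 292))))) (XT.nd (nat_lit 234) (nat_lit 456) (nat_lit 0) (XT.nd (nat_lit 78) (nat_lit 228) (nat_lit 0) (XT.lf (nat_lit 0) (nat_lit 31034924753) (nat_lit 76) (nat_lit 218433071828) (nat_lit 152) (nat_lit 101338958866) (nat_lit 51) (nat_lit 5) (nat_lit 52) (nat_lit 5) (nat_lit 53) (nat_lit 4) (nat_lit 472) (nat_lit 437) (nat_lit 291)) (XT.nd (nat_lit 78) (nat_lit 0) (nat_lit 0) (XT.lf (nat_lit 0) (nat_lit 7242178848) (nat_lit 152) (nat_lit 40131204007) (nat_lit 228) (nat_lit 322164311298) (nat_lit 48) (nat_lit 5) (nat_lit 50) (nat_lit 5) (nat_lit 51) (nat_lit 5) (nat_lit 473) (nat_lit 437) (nat_lit 290)) (XT.lf (nat_lit 0) (nat_lit 212520854757)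 (nat_lit 228) (nat_lit 21832601972) (nat_lit 76) (nat_lit 154925942208) (nat_lit 48) (nat_lit 5) (nat_lit 51) (nat_lit 5) (nat_lit 49) (nat_lit 4) (nat_lit 474) (nat_lit 437) (nat_lit 289)))) (XT.nd (nat_lit 156) (nat_lit 228) (nat_lit 0) (XT.nd (nat_lit 78) (nat_lit 152) (nat_lit 0) (XT.lf (nat_lit 0) (nat_lit 356603558591) (nat_lit 76) (nat_lit 40520488212) (nat_lit 152) (nat_lit 13164197201) (nat_lit 47) (nat_lit 5) (nat_lit 48) (nat_lit 5) (nat_lit 49) (nat_lit 4) (nat_lit 475) (nat_lit 437) (nat_lit 288)) (XT.lf (nat_lit 0) (nat_lit 166773517511) (nat_lit 152) (nat_lit 93829614917) (nat_lit 76) (nat_lit 171822545415) (nat_lit 45) (nat_lit 5) (nat_lit 47) (nat_lit 5) (nat_lit 46) (nat_lit 4) (nat_lit 476) (nat_lit 437) (nat_lit 287))) (XT.nd (nat_lit 78) (nat_lit 152) (nat_lit 0) (XT.lf (nat_lit 0) (nat_lit 317117566587) (nat_lit 76) (nat_lit 50118143283) (nat_lit 152) (nat_lit 88758072717)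 (nat_lit 44) (nat_lit 5) (nat_lit 45) (nat_lit 5) (nat_lit 46) (nat_lit 4) (nat_lit 477) (nat_lit 437) (nat_lit 286)) (XT.lf (nat_lit 0) (nat_lit 108106215163) (nat_lit 152) (nat_lit 193349809682) (nat_lit 76) (nat_lit 179456835449) (nat_lit 42) (nat_lit 5) (nat_lit 44) (nat_lit 5) (nat_lit 43) (nat_lit 4) (nat_lit 478) (nat_lit 437) (nat_lit 285)))))) (XT.nd (nat_lit 546) (nat_lit 608) (nat_lit 0) (XT.nd (nat_lit 234) (nat_lit 380) (nat_lit 0) (XT.nd (nat_lit 78) (nat_lit 228) (nat_lit 0) (XT.lf (nat_lit 0) (nat_lit 251024588001) (nat_lit 76) (nat_lit 73849750632) (nat_lit 152) (nat_lit 182515155925) (nat_lit 41) (nat_lit 5) (nat_lit 42) (nat_lit 5) (nat_lit 43) (nat_lit 4) (nat_lit 479) (nat_lit 437) (nat_lit 284)) (XT.nd (nat_lit 78) (nat_lit 76) (nat_lit 0) (XT.lf (nat_lit 0) (nat_lit 31738615846) (nat_lit 152) (nat_lit 330143497237) (nat_lit 76) (nat_lit 173610437243) (nat_lit 39) (nat_lit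 5) (nat_lit 41) (nat_lit 5) (nat_lit 40) (nat_lit 4) (nat_lit 480) (nat_lit 437) (nat_lit 283)) (XT.lf (nat_lit 0) (nat_lit 147870515646) (nat_lit 76) (nat_lit 117045769198) (nat_lit 152) (nat_lit 300369061260) (nat_lit 38) (nat_lit 5) (nat_lit 39) (nat_lit 5) (nat_lit 40) (nat_lit 4) (nat_lit 481) (nat_lit 437) (nat_lit 282)))) (XT.nd (nat_lit 156) (nat_lit 228) (nat_lit 0) (XT.nd (nat_lit 78) (nat_lit 76) (nat_lit 0) (XT.lf (nat_lit 0) (nat_lit 78869475797) (nat_lit 76) (nat_lit 447255928897) (nat_lit 76) (nat_lit 70867298993) (nat_lit 37) (nat_lit 4) (nat_lit 38) (nat_lit 5) (nat_lit 38) (nat_lit 4) (nat_lit 482) (nat_lit 437) (nat_lit 281)) (XT.lf (nat_lit 0) (nat_lit 180693305206) (nat_lit 152) (nat_lit 5967524524) (nat_lit 76) (nat_lit 443969469383) (nat_lit 36) (nat_lit 5) (nat_lit 38) (nat_lit 5) (nat_lit 37) (nat_lit 4) (nat_lit 483) (nat_lit 437) (nat_lit 280))) (XT.nd (nat_lit 78)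 (nat_lit 152) (nat_lit 0) (XT.lf (nat_lit 0) (nat_lit 460378504185) (nat_lit 152) (nat_lit 104085350459) (nat_lit 0) (nat_lit 101912830016) (nat_lit 35) (nat_lit 5) (nat_lit 37) (nat_lit 4) (nat_lit 35) (nat_lit 4) (nat_lit 484) (nat_lit 437) (nat_lit 279)) (XT.lf (nat_lit 0) (nat_lit 66596696516) (nat_lit 152) (nat_lit 221942585356) (nat_lit 76) (nat_lit 415849651886) (nat_lit 33) (nat_lit 5) (nat_lit 35) (nat_lit 5) (nat_lit 34) (nat_lit 4) (nat_lit 485) (nat_lit 437) (nat_lit 278))))) (XT.nd (nat_lit 234) (nat_lit 304) (nat_lit 0) (XT.nd (nat_lit 78) (nat_lit 228) (nat_lit 0) (XT.lf (nat_lit 0) (nat_lit 362033971545) (nat_lit 152) (nat_lit 362188904903) (nat_lit 0) (nat_lit 20637836341) (nat_lit 32) (nat_lit 5) (nat_lit 34) (nat_lit 4) (nat_lit 32) (nat_lit 4) (nat_lit 486) (nat_lit 437) (nat_lit 277)) (XT.nd (nat_lit 78) (nat_lit 152) (nat_lit 0) (XT.lf (nat_lit 0) (nat_lit 258550014868)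 (nat_lit 76) (nat_lit 435387453025) (nat_lit 76) (nat_lit 93991204288) (nat_lit 31) (nat_lit 4) (nat_lit 32) (nat_lit 5) (nat_lit 32) (nat_lit 4) (nat_lit 487) (nat_lit 437) (nat_lit 276)) (XT.lf (nat_lit 0) (nat_lit 107695318325) (nat_lit 76) (nat_lit 111373790058) (nat_lit 152) (nat_lit 614798131940) (nat_lit 29) (nat_lit 5) (nat_lit 30) (nat_lit 5) (nat_lit 31) (nat_lit 4) (nat_lit 488) (nat_lit 437) (nat_lit 275)))) (XT.nd (nat_lit 156) (nat_lit 152) (nat_lit 0) (XT.nd (nat_lit 78) (nat_lit 152) (nat_lit 0) (XT.lf (nat_lit 0) (nat_lit 567022274592) (nat_lit 152) (nat_lit 73841728974) (nat_lit 0) (nat_lit 241882797260) (nat_lit 29) (nat_lit 5) (nat_lit 31) (nat_lit 4) (nat_lit 29) (nat_lit 4) (nat_lit 489) (nat_lit 437) (nat_lit 274)) (XT.lf (nat_lit 0) (nat_lit 19258815156) (nat_lit 152) (nat_lit 285658992095) (nat_lit 76) (nat_lit 630002405208) (nat_lit 27) (nat_lit 5) (nat_lit 29) (nat_lit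 5) (nat_lit 28) (nat_lit 4) (nat_lit 490) (nat_lit 437) (nat_lit 273))) (XT.nd (nat_lit 78) (nat_lit 76) (nat_lit 0) (XT.lf (nat_lit 0) (nat_lit 379599647611) (nat_lit 152) (nat_lit 540985200068) (nat_lit 0) (nat_lit 69942845093) (nat_lit 26) (nat_lit 5) (nat_lit 28) (nat_lit 4) (nat_lit 26) (nat_lit 4) (nat_lit 491) (nat_lit 437) (nat_lit 272)) (XT.lf (nat_lit 0) (nat_lit 204755971542) (nat_lit 76) (nat_lit 577407444552) (nat_lit 76) (nat_lit 267750571948) (nat_lit 25) (nat_lit 4) (nat_lit 26) (nat_lit 5) (nat_lit 26) (nat_lit 4) (nat_lit 492) (nat_lit 437) (nat_lit 271))))))) (XT.nd (nat_lit 58890) (nat_lit 0) (nat_lit 4560) (XT.nd (nat_lit 58344) (nat_lit 0) (nat_lit 8056) (XT.nd (nat_lit 234) (nat_lit 152) (nat_lit 0) (XT.nd (nat_lit 78) (nat_lit 152) (nat_lit 0) (XT.lf (nat_lit 0) (nat_lit 109166180016) (nat_lit 152) (nat_lit 85866268463) (nat_lit 76) (nat_lit 918459529415) (nat_lit 24)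 (nat_lit 5) (nat_lit 26) (nat_lit 5) (nat_lit 25) (nat_lit 4) (nat_lit 493) (nat_lit 437) (nat_lit 270)) (XT.nd (nat_lit 78) (nat_lit 76) (nat_lit 0) (XT.lf (nat_lit 0) (nat_lit 522418923972) (nat_lit 152) (nat_lit 431232151202) (nat_lit 0) (nat_lit 227507497701) (nat_lit 23) (nat_lit 5) (nat_lit 25) (nat_lit 4) (nat_lit 23) (nat_lit 4) (nat_lit 494) (nat_lit 437) (nat_lit 269)) (XT.lf (nat_lit 0) (nat_lit 411336980857) (nat_lit 76) (nat_lit 568625726432) (nat_lit 76) (nat_lit 273714247174) (nat_lit 22) (nat_lit 4) (nat_lit 23) (nat_lit 5) (nat_lit 23) (nat_lit 4) (nat_lit 495) (nat_lit 437) (nat_lit 268)))) (XT.nd (nat_lit 57954) (nat_lit 0) (nat_lit 8892) (XT.nd (nat_lit 78) (nat_lit 0) (nat_lit 0) (XT.lf (nat_lit 0) (nat_lit 2838183641) (nat_lit 76) (nat_lit 142405578290) (nat_lit 152) (nat_lit 1186258151159) (nat_lit 20) (nat_lit 5) (nat_lit 21) (nat_lit 5) (nat_lit 22) (nat_lit 4) (nat_lit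 496) (nat_lit 437) (nat_lit 267)) (XT.lf (nat_lit 0) (nat_lit 608133908995) (nat_lit 152) (nat_lit 478928604396) (nat_lit 0) (nat_lit 327265743521) (nat_lit 20) (nat_lit 5) (nat_lit 22) (nat_lit 4) (nat_lit 20) (nat_lit 4) (nat_lit 497) (nat_lit 437) (nat_lit 266))) (XT.nd (nat_lit 78) (nat_lit 0) (nat_lit 76) (XT.lf (nat_lit 0) (nat_lit 14626171685) (nat_lit 836) (nat_lit 11600304393) (nat_lit 836) (nat_lit 11600304393) (nat_lit 137) (nat_lit 3) (nat_lit 148) (nat_lit 3) (nat_lit 148) (nat_lit 5) (nat_lit 438) (nat_lit 438) (nat_lit 324)) (XT.lf (nat_lit 0) (nat_lit 31135815102) (nat_lit 760) (nat_lit 40958277819) (nat_lit 836) (nat_lit 6549937463) (nat_lit 138) (nat_lit 5) (nat_lit 148) (nat_lit 5) (nat_lit 149) (nat_lit 5) (nat_lit 439) (nat_lit 438) (nat_lit 323))))) (XT.nd (nat_lit 234) (nat_lit 912) (nat_lit 0) (XT.nd (nat_lit 78) (nat_lit 0) (nat_lit 76) (XT.lf (nat_lit 76) (nat_lit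 22237583875) (nat_lit 0) (nat_lit 12573024038) (nat_lit 836) (nat_lit 46981097709) (nat_lit 139) (nat_lit 5) (nat_lit 138) (nat_lit 5) (nat_lit 149) (nat_lit 5) (nat_lit 440) (nat_lit 438) (nat_lit 322)) (XT.nd (nat_lit 78) (nat_lit 0) (nat_lit 76) (XT.lf (nat_lit 76) (nat_lit 6173660168) (nat_lit 0) (nat_lit 34232968646) (nat_lit 836) (nat_lit 44703204213) (nat_lit 140) (nat_lit 5) (nat_lit 139) (nat_lit 5) (nat_lit 150) (nat_lit 5) (nat_lit 441) (nat_lit 438) (nat_lit 321)) (XT.lf (nat_lit 0) (nat_lit 48184571924) (nat_lit 760) (nat_lit 10054733643) (nat_lit 836) (nat_lit 30367393383) (nat_lit 140) (nat_lit 5) (nat_lit 150) (nat_lit 5) (nat_lit 151) (nat_lit 5) (nat_lit 442) (nat_lit 438) (nat_lit 320)))) (XT.nd (nat_lit 156) (nat_lit 1140) (nat_lit 0) (XT.nd (nat_lit 78) (nat_lit 0) (nat_lit 0) (XT.lf (nat_lit 0) (nat_lit 58308813661) (nat_lit 760) (nat_lit 26555891442) (nat_lit 836) (nat_lit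 7432406208) (nat_lit 141) (nat_lit 5) (nat_lit 151) (nat_lit 5) (nat_lit 152) (nat_lit 5) (nat_lit 443) (nat_lit 438) (nat_lit 319)) (XT.lf (nat_lit 76) (nat_lit 52376294973) (nat_lit 0) (nat_lit 18843159117) (nat_lit 836) (nat_lit 24964479905) (nat_lit 142) (nat_lit 5) (nat_lit 141) (nat_lit 5) (nat_lit 152) (nat_lit 5) (nat_lit 444) (nat_lit 438) (nat_lit 318))) (XT.nd (nat_lit 78) (nat_lit 456) (nat_lit 0) (XT.lf (nat_lit 0) (nat_lit 38621170145) (nat_lit 760) (nat_lit 48432743658) (nat_lit 836) (nat_lit 13233240567) (nat_lit 132) (nat_lit 5) (nat_lit 142) (nat_lit 5) (nat_lit 143) (nat_lit 5) (nat_lit 445) (nat_lit 438) (nat_lit 317)) (XT.lf (nat_lit 0) (nat_lit 1312890044) (nat_lit 456) (nat_lit 80014750240) (nat_lit 76) (nat_lit 23298514403) (nat_lit 126) (nat_lit 5) (nat_lit 132) (nat_lit 5) (nat_lit 127) (nat_lit 5) (nat_lit 446) (nat_lit 438) (nat_lit 316)))))) (XT.nd (nat_lit 546)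 (nat_lit 1444) (nat_lit 0) (XT.nd (nat_lit 234) (nat_lit 1292) (nat_lit 0) (XT.nd (nat_lit 78) (nat_lit 380) (nat_lit 0) (XT.lf (nat_lit 0) (nat_lit 9995909729) (nat_lit 380) (nat_lit 8632783253) (nat_lit 456) (nat_lit 90569254849) (nat_lit 121) (nat_lit 5) (nat_lit 126) (nat_lit 5) (nat_lit 127) (nat_lit 5) (nat_lit 447) (nat_lit 438) (nat_lit 315)) (XT.nd (nat_lit 78) (nat_lit 380) (nat_lit 0) (XT.lf (nat_lit 0) (nat_lit 39836358361) (nat_lit 456) (nat_lit 5116012224) (nat_lit 76) (nat_lit 69057784141) (nat_lit 121) (nat_lit 5) (nat_lit 127) (nat_lit 5) (nat_lit 122) (nat_lit 5) (nat_lit 448) (nat_lit 438) (nat_lit 314)) (XT.lf (nat_lit 0) (nat_lit 64987232935) (nat_lit 456) (nat_lit 20134282740) (nat_lit 76) (nat_lit 33973492895) (nat_lit 116) (nat_lit 5) (nat_lit 122) (nat_lit 5) (nat_lit 117) (nat_lit 5) (nat_lit 449) (nat_lit 438) (nat_lit 313)))) (XT.nd (nat_lit 156) (nat_lit 684) (nat_lit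 0) (XT.nd (nat_lit 78) (nat_lit 304) (nat_lit 0) (XT.lf (nat_lit 0) (nat_lit 89053916522) (nat_lit 304) (nat_lit 5334289624) (nat_lit 380) (nat_lit 30086543322) (nat_lit 112) (nat_lit 5) (nat_lit 116) (nat_lit 5) (nat_lit 117) (nat_lit 5) (nat_lit 450) (nat_lit 438) (nat_lit 312)) (XT.lf (nat_lit 0) (nat_lit 78678174468) (nat_lit 304) (nat_lit 50309160572) (nat_lit 380) (nat_lit 1155230876) (nat_lit 108) (nat_lit 5) (nat_lit 112) (nat_lit 5) (nat_lit 113) (nat_lit 5) (nat_lit 451) (nat_lit 438) (nat_lit 311))) (XT.nd (nat_lit 78) (nat_lit 304) (nat_lit 0) (XT.lf (nat_lit 0) (nat_lit 31501930467) (nat_lit 380) (nat_lit 68178236337) (nat_lit 76) (nat_lit 36441429573) (nat_lit 103) (nat_lit 5) (nat_lit 108) (nat_lit 5) (nat_lit 104) (nat_lit 5) (nat_lit 452) (nat_lit 438) (nat_lit 310)) (XT.lf (nat_lit 0) (nat_lit 57153164718) (nat_lit 304) (nat_lit 12229583999) (nat_lit 380) (nat_lit 73062675901)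 (nat_lit 99) (nat_lit 5) (nat_lit 103) (nat_lit 5) (nat_lit 104) (nat_lit 5) (nat_lit 453) (nat_lit 438) (nat_lit 309))))) (XT.nd (nat_lit 234) (nat_lit 684) (nat_lit 0) (XT.nd (nat_lit 78) (nat_lit 532) (nat_lit 0) (XT.lf (nat_lit 0) (nat_lit 45894746517) (nat_lit 228) (nat_lit 67605818090) (nat_lit 304) (nat_lit 35614268029) (nat_lit 96) (nat_lit 5) (nat_lit 99) (nat_lit 5) (nat_lit 100) (nat_lit 5) (nat_lit 454) (nat_lit 438) (nat_lit 308)) (XT.nd (nat_lit 78) (nat_lit 228) (nat_lit 0) (XT.lf (nat_lit 0) (nat_lit 7381749846) (nat_lit 304) (nat_lit 121443359264) (nat_lit 76) (nat_lit 27353597398) (nat_lit 92) (nat_lit 5) (nat_lit 96) (nat_lit 5) (nat_lit 93) (nat_lit 5) (nat_lit 455) (nat_lit 438) (nat_lit 307)) (XT.lf (nat_lit 0) (nat_lit 22649393708) (nat_lit 228) (nat_lit 33257388469) (nat_lit 304) (nat_lit 107704862019) (nat_lit 89) (nat_lit 5) (nat_lit 92) (nat_lit 5) (nat_lit 93) (nat_lit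 5) (nat_lit 456) (nat_lit 438) (nat_lit 306)))) (XT.nd (nat_lit 156) (nat_lit 456) (nat_lit 0) (XT.nd (nat_lit 78) (nat_lit 0) (nat_lit 0) (XT.lf (nat_lit 0) (nat_lit 10273825896) (nat_lit 228) (nat_lit 101442097302) (nat_lit 304) (nat_lit 59753188493) (nat_lit 86) (nat_lit 5) (nat_lit 89) (nat_lit 5) (nat_lit 90) (nat_lit 5) (nat_lit 457) (nat_lit 438) (nat_lit 305)) (XT.lf (nat_lit 0) (nat_lit 175044256336) (nat_lit 304) (nat_lit 1790432669) (nat_lit 76) (nat_lit 2967764627) (nat_lit 86) (nat_lit 5) (nat_lit 90) (nat_lit 5) (nat_lit 87) (nat_lit 5) (nat_lit 458) (nat_lit 438) (nat_lit 304))) (XT.nd (nat_lit 78) (nat_lit 228) (nat_lit 0) (XT.lf (nat_lit 0) (nat_lit 57390489429) (nat_lit 228) (nat_lit 15274645437) (nat_lit 76) (nat_lit 115869536677) (nat_lit 83) (nat_lit 5) (nat_lit 86) (nat_lit 5) (nat_lit 84) (nat_lit 5) (nat_lit 459) (nat_lit 438) (nat_lit 303)) (XT.lf (nat_lit 0) (nat_lit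 127695539815) (nat_lit 304) (nat_lit 28728078681) (nat_lit 76) (nat_lit 41370389663) (nat_lit 80) (nat_lit 5) (nat_lit 84) (nat_lit 5) (nat_lit 81) (nat_lit 5) (nat_lit 460) (nat_lit 438) (nat_lit 302))))))))
noncomputable def xc101 : XT := (XT.nd (nat_lit 2184) (nat_lit 836) (nat_lit 0) (XT.nd (nat_lit 1092) (nat_lit 1292) (nat_lit 0) (XT.nd (nat_lit 546) (nat_lit 1064) (nat_lit 0) (XT.nd (nat_lit 234) (nat_lit 760) (nat_lit 0) (XT.nd (nat_lit 78) (nat_lit 380) (nat_lit 0) (XT.lf (nat_lit 0) (nat_lit 101861888) (nat_lit 228) (nat_lit 42624228904) (nat_lit 76) (nat_lit 164864379431) (nat_lit 77) (nat_lit 5) (nat_lit 80) (nat_lit 5) (nat_lit 78) (nat_lit 5) (nat_lit 461) (nat_lit 438) (nat_lit 301)) (XT.nd (nat_lit 78) (nat_lit 152) (nat_lit 0) (XT.lf (nat_lit 0) (nat_lit 77835888151) (nat_lit 304) (nat_lit 58281151243) (nat_lit 76) (nat_lit 81777473233) (nat_lit 74) (nat_lit 5) (nat_lit 78)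 (nat_lit 5) (nat_lit 75) (nat_lit 5) (nat_lit 462) (nat_lit 438) (nat_lit 300)) (XT.lf (nat_lit 0) (nat_lit 154787051960) (nat_lit 152) (nat_lit 10892854806) (nat_lit 228) (nat_lit 63148408198) (nat_lit 72) (nat_lit 5) (nat_lit 74) (nat_lit 5) (nat_lit 75) (nat_lit 5) (nat_lit 463) (nat_lit 438) (nat_lit 299)))) (XT.nd (nat_lit 156) (nat_lit 380) (nat_lit 0) (XT.nd (nat_lit 78) (nat_lit 152) (nat_lit 0) (XT.lf (nat_lit 0) (nat_lit 24666622956) (nat_lit 228) (nat_lit 91556814261) (nat_lit 76) (nat_lit 124128368666) (nat_lit 69) (nat_lit 5) (nat_lit 72) (nat_lit 5) (nat_lit 70) (nat_lit 5) (nat_lit 464) (nat_lit 438) (nat_lit 298)) (XT.lf (nat_lit 0) (nat_lit 121383086090) (nat_lit 228) (nat_lit 110230148493) (nat_lit 76) (nat_lit 20927748442) (nat_lit 67) (nat_lit 5) (nat_lit 70) (nat_lit 5) (nat_lit 68) (nat_lit 5) (nat_lit 465) (nat_lit 438) (nat_lit 297))) (XT.nd (nat_lit 78) (nat_lit 228)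 (nat_lit 0) (XT.lf (nat_lit 0) (nat_lit 134861596342) (nat_lit 152) (nat_lit 96661148054) (nat_lit 228) (nat_lit 33898256079) (nat_lit 65) (nat_lit 5) (nat_lit 67) (nat_lit 5) (nat_lit 68) (nat_lit 5) (nat_lit 466) (nat_lit 438) (nat_lit 296)) (XT.lf (nat_lit 0) (nat_lit 73651281147) (nat_lit 228) (nat_lit 152738691977) (nat_lit 76) (nat_lit 52646603890) (nat_lit 62) (nat_lit 5) (nat_lit 65) (nat_lit 5) (nat_lit 63) (nat_lit 5) (nat_lit 467) (nat_lit 438) (nat_lit 295))))) (XT.nd (nat_lit 234) (nat_lit 608) (nat_lit 0) (XT.nd (nat_lit 78) (nat_lit 304) (nat_lit 0) (XT.lf (nat_lit 0) (nat_lit 116218565444) (nat_lit 152) (nat_lit 78169983568) (nat_lit 228) (nat_lit 99036495372) (nat_lit 60) (nat_lit 5) (nat_lit 62) (nat_lit 5) (nat_lit 63) (nat_lit 5) (nat_lit 468) (nat_lit 438) (nat_lit 294)) (XT.nd (nat_lit 78) (nat_lit 152) (nat_lit 0) (XT.lf (nat_lit 0) (nat_lit 21033796158) (nat_lit 152)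 (nat_lit 203658164710) (nat_lit 76) (nat_lit 83974281792) (nat_lit 58) (nat_lit 5) (nat_lit 60) (nat_lit 5) (nat_lit 59) (nat_lit 5) (nat_lit 469) (nat_lit 438) (nat_lit 293)) (XT.lf (nat_lit 0) (nat_lit 91029604269) (nat_lit 152) (nat_lit 62133102386) (nat_lit 228) (nat_lit 171586715113) (nat_lit 56) (nat_lit 5) (nat_lit 58) (nat_lit 5) (nat_lit 59) (nat_lit 5) (nat_lit 470) (nat_lit 438) (nat_lit 292)))) (XT.nd (nat_lit 156) (nat_lit 304) (nat_lit 0) (XT.nd (nat_lit 78) (nat_lit 228) (nat_lit 0) (XT.lf (nat_lit 0) (nat_lit 75200180090) (nat_lit 76) (nat_lit 227212190240) (nat_lit 152) (nat_lit 39379362884) (nat_lit 55) (nat_lit 5) (nat_lit 56) (nat_lit 5) (nat_lit 57) (nat_lit 4) (nat_lit 471) (nat_lit 438) (nat_lit 291)) (XT.lf (nat_lit 0) (nat_lit 56257051662) (nat_lit 152) (nat_lit 49901579305) (nat_lit 228) (nat_lit 253654894584) (nat_lit 52) (nat_lit 5) (nat_lit 54) (nat_lit 5) (nat_lit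 55) (nat_lit 5) (nat_lit 472) (nat_lit 438) (nat_lit 290))) (XT.nd (nat_lit 78) (nat_lit 228) (nat_lit 0) (XT.lf (nat_lit 0) (nat_lit 33530315045) (nat_lit 76) (nat_lit 235901953836) (nat_lit 152) (nat_lit 109438900967) (nat_lit 51) (nat_lit 5) (nat_lit 52) (nat_lit 5) (nat_lit 53) (nat_lit 4) (nat_lit 473) (nat_lit 438) (nat_lit 289)) (XT.lf (nat_lit 0) (nat_lit 7833822071) (nat_lit 152) (nat_lit 43336053498) (nat_lit 228) (nat_lit 347930502653) (nat_lit 48) (nat_lit 5) (nat_lit 50) (nat_lit 5) (nat_lit 51) (nat_lit 5) (nat_lit 474) (nat_lit 438) (nat_lit 288)))))) (XT.nd (nat_lit 546) (nat_lit 608) (nat_lit 0) (XT.nd (nat_lit 234) (nat_lit 456) (nat_lit 0) (XT.nd (nat_lit 78) (nat_lit 228) (nat_lit 0) (XT.lf (nat_lit 0) (nat_lit 229528736331) (nat_lit 228) (nat_lit 23567624746) (nat_lit 76) (nat_lit 167325078784) (nat_lit 48) (nat_lit 5) (nat_lit 51) (nat_lit 5) (nat_lit 49) (nat_lit 4) (nat_lit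 475) (nat_lit 438) (nat_lit 287)) (XT.nd (nat_lit 78) (nat_lit 152) (nat_lit 0) (XT.lf (nat_lit 0) (nat_lit 385142925176) (nat_lit 76) (nat_lit 43756971348) (nat_lit 152) (nat_lit 14211110395) (nat_lit 47) (nat_lit 5) (nat_lit 48) (nat_lit 5) (nat_lit 49) (nat_lit 4) (nat_lit 476) (nat_lit 438) (nat_lit 286)) (XT.lf (nat_lit 0) (nat_lit 180121223405) (nat_lit 152) (nat_lit 101324984247) (nat_lit 76) (nat_lit 185573232922) (nat_lit 45) (nat_lit 5) (nat_lit 47) (nat_lit 5) (nat_lit 46) (nat_lit 4) (nat_lit 477) (nat_lit 438) (nat_lit 285)))) (XT.nd (nat_lit 156) (nat_lit 228) (nat_lit 0) (XT.nd (nat_lit 78) (nat_lit 152) (nat_lit 0) (XT.lf (nat_lit 0) (nat_lit 342497493736) (nat_lit 76) (nat_lit 54122630247) (nat_lit 152) (nat_lit 95852883093) (nat_lit 44) (nat_lit 5) (nat_lit 45) (nat_lit 5) (nat_lit 46) (nat_lit 4) (nat_lit 478) (nat_lit 438) (nat_lit 284)) (XT.lf (nat_lit 0) (nat_lit 116760178328)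 (nat_lit 152) (nat_lit 208807357060) (nat_lit 76) (nat_lit 193818080210) (nat_lit 42) (nat_lit 5) (nat_lit 44) (nat_lit 5) (nat_lit 43) (nat_lit 4) (nat_lit 479) (nat_lit 438) (nat_lit 283))) (XT.nd (nat_lit 78) (nat_lit 152) (nat_lit 0) (XT.lf (nat_lit 0) (nat_lit 271116538841) (nat_lit 76) (nat_lit 79752963825) (nat_lit 152) (nat_lit 197110890405) (nat_lit 41) (nat_lit 5) (nat_lit 42) (nat_lit 5) (nat_lit 43) (nat_lit 4) (nat_lit 480) (nat_lit 438) (nat_lit 282)) (XT.lf (nat_lit 0) (nat_lit 34282839406) (nat_lit 152) (nat_lit 356545078639) (nat_lit 76) (nat_lit 187503779411) (nat_lit 39) (nat_lit 5) (nat_lit 41) (nat_lit 5) (nat_lit 40) (nat_lit 4) (nat_lit 481) (nat_lit 438) (nat_lit 281))))) (XT.nd (nat_lit 234) (nat_lit 380) (nat_lit 0) (XT.nd (nat_lit 78) (nat_lit 152) (nat_lit 0) (XT.lf (nat_lit 0) (nat_lit 159709625103) (nat_lit 76) (nat_lit 126404864328) (nat_lit 152) (nat_lit 324393439103)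 (nat_lit 38) (nat_lit 5) (nat_lit 39) (nat_lit 5) (nat_lit 40) (nat_lit 4) (nat_lit 482) (nat_lit 438) (nat_lit 280)) (XT.nd (nat_lit 78) (nat_lit 76) (nat_lit 0) (XT.lf (nat_lit 0) (nat_lit 85188256992) (nat_lit 76) (nat_lit 483031928793) (nat_lit 76) (nat_lit 76531696606) (nat_lit 37) (nat_lit 4) (nat_lit 38) (nat_lit 5) (nat_lit 38) (nat_lit 4) (nat_lit 483) (nat_lit 438) (nat_lit 279)) (XT.lf (nat_lit 0) (nat_lit 195153238802) (nat_lit 152) (nat_lit 6436238641) (nat_lit 76) (nat_lit 479491022003) (nat_lit 36) (nat_lit 5) (nat_lit 38) (nat_lit 5) (nat_lit 37) (nat_lit 4) (nat_lit 484) (nat_lit 438) (nat_lit 278)))) (XT.nd (nat_lit 156) (nat_lit 152) (nat_lit 0) (XT.nd (nat_lit 78) (nat_lit 152) (nat_lit 0) (XT.lf (nat_lit 0) (nat_lit 497213115509) (nat_lit 152) (nat_lit 112403717807) (nat_lit 0) (nat_lit 110069769441) (nat_lit 35) (nat_lit 5) (nat_lit 37) (nat_lit 4) (nat_lit 35) (nat_lit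 4) (nat_lit 485) (nat_lit 438) (nat_lit 277)) (XT.lf (nat_lit 0) (nat_lit 71928636693) (nat_lit 152) (nat_lit 239689760057) (nat_lit 76) (nat_lit 449121441374) (nat_lit 33) (nat_lit 5) (nat_lit 35) (nat_lit 5) (nat_lit 34) (nat_lit 4) (nat_lit 486) (nat_lit 438) (nat_lit 276))) (XT.nd (nat_lit 78) (nat_lit 76) (nat_lit 0) (XT.lf (nat_lit 0) (nat_lit 391000765464) (nat_lit 152) (nat_lit 391156002265) (nat_lit 0) (nat_lit 22292598170) (nat_lit 32) (nat_lit 5) (nat_lit 34) (nat_lit 4) (nat_lit 32) (nat_lit 4) (nat_lit 487) (nat_lit 438) (nat_lit 275)) (XT.lf (nat_lit 0) (nat_lit 279241682764) (nat_lit 76) (nat_lit 470214676515) (nat_lit 76) (nat_lit 101506411884) (nat_lit 31) (nat_lit 4) (nat_lit 32) (nat_lit 5) (nat_lit 32) (nat_lit 4) (nat_lit 488) (nat_lit 438) (nat_lit 274))))))) (XT.nd (nat_lit 58968) (nat_lit 0) (nat_lit 5016) (XT.nd (nat_lit 546) (nat_lit 228) (nat_lit 0) (XT.nd (nat_lit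 234) (nat_lit 304) (nat_lit 0) (XT.nd (nat_lit 78) (nat_lit 152) (nat_lit 0) (XT.lf (nat_lit 0) (nat_lit 116318402576) (nat_lit 76) (nat_lit 120280015635) (nat_lit 152) (nat_lit 663978012195) (nat_lit 29) (nat_lit 5) (nat_lit 30) (nat_lit 5) (nat_lit 31) (nat_lit 4) (nat_lit 489) (nat_lit 438) (nat_lit 273)) (XT.nd (nat_lit 78) (nat_lit 152) (nat_lit 0) (XT.lf (nat_lit 0) (nat_lit 612387610796) (nat_lit 152) (nat_lit 79742039042) (nat_lit 0) (nat_lit 261236717263) (nat_lit 29) (nat_lit 5) (nat_lit 31) (nat_lit 4) (nat_lit 29) (nat_lit 4) (nat_lit 490) (nat_lit 438) (nat_lit 272)) (XT.lf (nat_lit 0) (nat_lit 20802972032) (nat_lit 152) (nat_lit 308504874456) (nat_lit 76) (nat_lit 680405810317) (nat_lit 27) (nat_lit 5) (nat_lit 29) (nat_lit 5) (nat_lit 28) (nat_lit 4) (nat_lit 491) (nat_lit 438) (nat_lit 271)))) (XT.nd (nat_lit 156) (nat_lit 152) (nat_lit 0) (XT.nd (nat_lit 78) (nat_lit 76) (nat_lit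 0) (XT.lf (nat_lit 0) (nat_lit 409970968123) (nat_lit 152) (nat_lit 584257361840) (nat_lit 0) (nat_lit 75541410732) (nat_lit 26) (nat_lit 5) (nat_lit 28) (nat_lit 4) (nat_lit 26) (nat_lit 4) (nat_lit 492) (nat_lit 438) (nat_lit 270)) (XT.lf (nat_lit 0) (nat_lit 221142814314) (nat_lit 76) (nat_lit 623596875095) (nat_lit 76) (nat_lit 289167257616) (nat_lit 25) (nat_lit 4) (nat_lit 26) (nat_lit 5) (nat_lit 26) (nat_lit 4) (nat_lit 493) (nat_lit 438) (nat_lit 269))) (XT.nd (nat_lit 78) (nat_lit 76) (nat_lit 0) (XT.lf (nat_lit 0) (nat_lit 117902486033) (nat_lit 152) (nat_lit 92729576746) (nat_lit 76) (nat_lit 991939122714) (nat_lit 24) (nat_lit 5) (nat_lit 26) (nat_lit 5) (nat_lit 25) (nat_lit 4) (nat_lit 494) (nat_lit 438) (nat_lit 268)) (XT.lf (nat_lit 0) (nat_lit 564215360496) (nat_lit 152) (nat_lit 465724891181) (nat_lit 0) (nat_lit 245710860849) (nat_lit 23) (nat_lit 5) (nat_lit 25) (nat_lit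 4) (nat_lit 23) (nat_lit 4) (nat_lit 495) (nat_lit 438) (nat_lit 267))))) (XT.nd (nat_lit 58110) (nat_lit 0) (nat_lit 8968) (XT.nd (nat_lit 78) (nat_lit 152) (nat_lit 0) (XT.lf (nat_lit 0) (nat_lit 444249517986) (nat_lit 76) (nat_lit 614112999102) (nat_lit 76) (nat_lit 295608454027) (nat_lit 22) (nat_lit 4) (nat_lit 23) (nat_lit 5) (nat_lit 23) (nat_lit 4) (nat_lit 496) (nat_lit 438) (nat_lit 266)) (XT.nd (nat_lit 57954) (nat_lit 0) (nat_lit 8892) (XT.lf (nat_lit 0) (nat_lit 3070664384) (nat_lit 76) (nat_lit 153795311967) (nat_lit 152) (nat_lit 1281155954074) (nat_lit 20) (nat_lit 5) (nat_lit 21) (nat_lit 5) (nat_lit 22) (nat_lit 4) (nat_lit 497) (nat_lit 438) (nat_lit 265)) (XT.lf (nat_lit 0) (nat_lit 15813463377) (nat_lit 836) (nat_lit 12519297818) (nat_lit 836) (nat_lit 12519297818) (nat_lit 137) (nat_lit 3) (nat_lit 148) (nat_lit 3) (nat_lit 148) (nat_lit 5) (nat_lit 439) (nat_lit 439)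 (nat_lit 322)))) (XT.nd (nat_lit 156) (nat_lit 0) (nat_lit 76) (XT.nd (nat_lit 78) (nat_lit 0) (nat_lit 0) (XT.lf (nat_lit 0) (nat_lit 33658566412) (nat_lit 760) (nat_lit 44215818135) (nat_lit 836) (nat_lit 7059566559) (nat_lit 138) (nat_lit 5) (nat_lit 148) (nat_lit 5) (nat_lit 149) (nat_lit 5) (nat_lit 440) (nat_lit 439) (nat_lit 321)) (XT.lf (nat_lit 76) (nat_lit 24034881480) (nat_lit 0) (nat_lit 13590384807) (nat_lit 836) (nat_lit 50708278443) (nat_lit 139) (nat_lit 5) (nat_lit 138) (nat_lit 5) (nat_lit 149) (nat_lit 5) (nat_lit 441) (nat_lit 439) (nat_lit 320))) (XT.nd (nat_lit 78) (nat_lit 0) (nat_lit 76) (XT.lf (nat_lit 76) (nat_lit 6686653273) (nat_lit 0) (nat_lit 36980239148) (nat_lit 836) (nat_lit 48250334237) (nat_lit 140) (nat_lit 5) (nat_lit 139) (nat_lit 5) (nat_lit 150) (nat_lit 5) (nat_lit 442) (nat_lit 439) (nat_lit 319)) (XT.lf (nat_lit 0) (nat_lit 52064891858) (nat_lit 760)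 (nat_lit 10840012252) (nat_lit 836) (nat_lit 32789047169) (nat_lit 140) (nat_lit 5) (nat_lit 150) (nat_lit 5) (nat_lit 151) (nat_lit 5) (nat_lit 443) (nat_lit 439) (nat_lit 318)))))) (XT.nd (nat_lit 546) (nat_lit 2280) (nat_lit 0) (XT.nd (nat_lit 234) (nat_lit 1216) (nat_lit 0) (XT.nd (nat_lit 78) (nat_lit 684) (nat_lit 0) (XT.lf (nat_lit 0) (nat_lit 62997376653) (nat_lit 760) (nat_lit 28660801346) (nat_lit 836) (nat_lit 8021503880) (nat_lit 141) (nat_lit 5) (nat_lit 151) (nat_lit 5) (nat_lit 152) (nat_lit 5) (nat_lit 444) (nat_lit 439) (nat_lit 317)) (XT.nd (nat_lit 78) (nat_lit 684) (nat_lit 0) (XT.lf (nat_lit 76) (nat_lit 56585109867) (nat_lit 0) (nat_lit 20354283332) (nat_lit 836) (nat_lit 26938131337) (nat_lit 142) (nat_lit 5) (nat_lit 141) (nat_lit 5) (nat_lit 152) (nat_lit 5) (nat_lit 445) (nat_lit 439) (nat_lit 316)) (XT.lf (nat_lit 0) (nat_lit 41729892037) (nat_lit 760) (nat_lit 52309303678)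 (nat_lit 836) (nat_lit 14269877899) (nat_lit 132) (nat_lit 5) (nat_lit 142) (nat_lit 5) (nat_lit 143) (nat_lit 5) (nat_lit 446) (nat_lit 439) (nat_lit 315)))) (XT.nd (nat_lit 156) (nat_lit 380) (nat_lit 0) (XT.nd (nat_lit 78) (nat_lit 380) (nat_lit 0) (XT.lf (nat_lit 0) (nat_lit 1437936045) (nat_lit 456) (nat_lit 86396026711) (nat_lit 76) (nat_lit 25161279453) (nat_lit 126) (nat_lit 5) (nat_lit 132) (nat_lit 5) (nat_lit 127) (nat_lit 5) (nat_lit 447) (nat_lit 439) (nat_lit 314)) (XT.lf (nat_lit 0) (nat_lit 10814621071) (nat_lit 380) (nat_lit 9323196814) (nat_lit 456) (nat_lit 97795020490) (nat_lit 121) (nat_lit 5) (nat_lit 126) (nat_lit 5) (nat_lit 127) (nat_lit 5) (nat_lit 448) (nat_lit 439) (nat_lit 313))) (XT.nd (nat_lit 78) (nat_lit 380) (nat_lit 0) (XT.lf (nat_lit 0) (nat_lit 43040704742) (nat_lit 456) (nat_lit 5506792662) (nat_lit 76) (nat_lit 74582594286) (nat_lit 121) (nat_lit 5) (nat_lit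 127) (nat_lit 5) (nat_lit 122) (nat_lit 5) (nat_lit 449) (nat_lit 439) (nat_lit 312)) (XT.lf (nat_lit 0) (nat_lit 70202653786) (nat_lit 456) (nat_lit 21726524342) (nat_lit 76) (nat_lit 36692605751) (nat_lit 116) (nat_lit 5) (nat_lit 122) (nat_lit 5) (nat_lit 117) (nat_lit 5) (nat_lit 450) (nat_lit 439) (nat_lit 311))))) (XT.nd (nat_lit 312) (nat_lit 988) (nat_lit 0) (XT.nd (nat_lit 156) (nat_lit 684) (nat_lit 0) (XT.nd (nat_lit 78) (nat_lit 304) (nat_lit 0) (XT.lf (nat_lit 0) (nat_lit 96195926829) (nat_lit 304) (nat_lit 5758836383) (nat_lit 380) (nat_lit 32477188161) (nat_lit 112) (nat_lit 5) (nat_lit 116) (nat_lit 5) (nat_lit 117) (nat_lit 5) (nat_lit 451) (nat_lit 439) (nat_lit 310)) (XT.lf (nat_lit 0) (nat_lit 84990067759) (nat_lit 304) (nat_lit 54330913618) (nat_lit 380) (nat_lit 1232254034) (nat_lit 108) (nat_lit 5) (nat_lit 112) (nat_lit 5) (nat_lit 113) (nat_lit 5) (nat_lit 452) (nat_lit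 439) (nat_lit 309))) (XT.nd (nat_lit 78) (nat_lit 304) (nat_lit 0) (XT.lf (nat_lit 0) (nat_lit 34036205571) (nat_lit 380) (nat_lit 73614493831) (nat_lit 76) (nat_lit 39359916182) (nat_lit 103) (nat_lit 5) (nat_lit 108) (nat_lit 5) (nat_lit 104) (nat_lit 5) (nat_lit 453) (nat_lit 439) (nat_lit 308)) (XT.lf (nat_lit 0) (nat_lit 61742636989) (nat_lit 304) (nat_lit 13204075155) (nat_lit 380) (nat_lit 78893676980) (nat_lit 99) (nat_lit 5) (nat_lit 103) (nat_lit 5) (nat_lit 104) (nat_lit 5) (nat_lit 454) (nat_lit 439) (nat_lit 307)))) (XT.nd (nat_lit 156) (nat_lit 456) (nat_lit 0) (XT.nd (nat_lit 78) (nat_lit 304) (nat_lit 0) (XT.lf (nat_lit 0) (nat_lit 49583379501) (nat_lit 228) (nat_lit 73009907671) (nat_lit 304) (nat_lit 38450096089) (nat_lit 96) (nat_lit 5) (nat_lit 99) (nat_lit 5) (nat_lit 100) (nat_lit 5) (nat_lit 455) (nat_lit 439) (nat_lit 306)) (XT.lf (nat_lit 0) (nat_lit 7984554258) (nat_lit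 304) (nat_lit 131141565476) (nat_lit 76) (nat_lit 29546268207) (nat_lit 92) (nat_lit 5) (nat_lit 96) (nat_lit 5) (nat_lit 93) (nat_lit 5) (nat_lit 456) (nat_lit 439) (nat_lit 305))) (XT.nd (nat_lit 78) (nat_lit 228) (nat_lit 0) (XT.lf (nat_lit 0) (nat_lit 24477857526) (nat_lit 228) (nat_lit 35913080978) (nat_lit 304) (nat_lit 116309054813) (nat_lit 89) (nat_lit 5) (nat_lit 92) (nat_lit 5) (nat_lit 93) (nat_lit 5) (nat_lit 457) (nat_lit 439) (nat_lit 304)) (XT.lf (nat_lit 0) (nat_lit 11112010632) (nat_lit 228) (nat_lit 109552264866) (nat_lit 304) (nat_lit 64521809605) (nat_lit 86) (nat_lit 5) (nat_lit 89) (nat_lit 5) (nat_lit 90) (nat_lit 5) (nat_lit 458) (nat_lit 439) (nat_lit 303))))))))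
noncomputable def xc102 : XT := (XT.nd (nat_lit 2184) (nat_lit 988) (nat_lit 0) (XT.nd (nat_lit 1092) (nat_lit 1520) (nat_lit 0) (XT.nd (nat_lit 546) (nat_lit 1064) (nat_lit 0) (XT.nd (nat_lit 234) (nat_lit 836) (nat_lit 0) (XT.nd (nat_lit 78) (nat_lit 456) (nat_lit 0) (XT.lf (nat_lit 0) (nat_lit 189058129838) (nat_lit 304) (nat_lit 1918155248) (nat_lit 76) (nat_lit 3209846705) (nat_lit 86) (nat_lit 5) (nat_lit 90) (nat_lit 5) (nat_lit 87) (nat_lit 5) (nat_lit 459) (nat_lit 439) (nat_lit 302)) (XT.nd (nat_lit 78) (nat_lit 228) (nat_lit 0) (XT.lf (nat_lit 0) (nat_lit 61991689805) (nat_lit 228) (nat_lit 16481448501) (nat_lit 76) (nat_lit 125143807593) (nat_lit 83) (nat_lit 5) (nat_lit 86) (nat_lit 5) (nat_lit 84) (nat_lit 5) (nat_lit 460) (nat_lit 439) (nat_lit 301)) (XT.lf (nat_lit 0) (nat_lit 137920711878) (nat_lit 304) (nat_lit 31011420901) (nat_lit 76) (nat_lit 44684918380) (nat_lit 80) (nat_lit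 5) (nat_lit 84) (nat_lit 5) (nat_lit 81) (nat_lit 5) (nat_lit 461) (nat_lit 439) (nat_lit 300)))) (XT.nd (nat_lit 156) (nat_lit 380) (nat_lit 0) (XT.nd (nat_lit 78) (nat_lit 228) (nat_lit 0) (XT.lf (nat_lit 0) (nat_lit 119205829) (nat_lit 228) (nat_lit 46019605760) (nat_lit 76) (nat_lit 178058435436) (nat_lit 77) (nat_lit 5) (nat_lit 80) (nat_lit 5) (nat_lit 78) (nat_lit 5) (nat_lit 462) (nat_lit 439) (nat_lit 299)) (XT.lf (nat_lit 0) (nat_lit 84071571691) (nat_lit 304) (nat_lit 62929358298) (nat_lit 76) (nat_lit 88324702035) (nat_lit 74) (nat_lit 5) (nat_lit 78) (nat_lit 5) (nat_lit 75) (nat_lit 5) (nat_lit 463) (nat_lit 439) (nat_lit 298))) (XT.nd (nat_lit 78) (nat_lit 228) (nat_lit 0) (XT.lf (nat_lit 0) (nat_lit 167183680351) (nat_lit 152) (nat_lit 11758992005) (nat_lit 228) (nat_lit 68191488237) (nat_lit 72) (nat_lit 5) (nat_lit 74) (nat_lit 5) (nat_lit 75) (nat_lit 5) (nat_lit 464) (nat_lit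 439) (nat_lit 297)) (XT.lf (nat_lit 0) (nat_lit 26648123802) (nat_lit 228) (nat_lit 98867695708) (nat_lit 76) (nat_lit 134063721487) (nat_lit 69) (nat_lit 5) (nat_lit 72) (nat_lit 5) (nat_lit 70) (nat_lit 5) (nat_lit 465) (nat_lit 439) (nat_lit 296))))) (XT.nd (nat_lit 234) (nat_lit 532) (nat_lit 0) (XT.nd (nat_lit 78) (nat_lit 380) (nat_lit 0) (XT.lf (nat_lit 0) (nat_lit 131101585533) (nat_lit 228) (nat_lit 119035183998) (nat_lit 76) (nat_lit 22607098761) (nat_lit 67) (nat_lit 5) (nat_lit 70) (nat_lit 5) (nat_lit 68) (nat_lit 5) (nat_lit 466) (nat_lit 439) (nat_lit 295)) (XT.nd (nat_lit 78) (nat_lit 228) (nat_lit 0) (XT.lf (nat_lit 0) (nat_lit 145663319102) (nat_lit 152) (nat_lit 104388715496) (nat_lit 228) (nat_lit 36602271689) (nat_lit 65) (nat_lit 5) (nat_lit 67) (nat_lit 5) (nat_lit 68) (nat_lit 5) (nat_lit 467) (nat_lit 439) (nat_lit 294)) (XT.lf (nat_lit 0) (nat_lit 79550691796) (nat_lit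 228) (nat_lit 164945027644) (nat_lit 76) (nat_lit 56863417718) (nat_lit 62) (nat_lit 5) (nat_lit 65) (nat_lit 5) (nat_lit 63) (nat_lit 5) (nat_lit 468) (nat_lit 439) (nat_lit 293)))) (XT.nd (nat_lit 156) (nat_lit 228) (nat_lit 0) (XT.nd (nat_lit 78) (nat_lit 152) (nat_lit 0) (XT.lf (nat_lit 0) (nat_lit 125528255850) (nat_lit 152) (nat_lit 84418334452) (nat_lit 228) (nat_lit 106952109200) (nat_lit 60) (nat_lit 5) (nat_lit 62) (nat_lit 5) (nat_lit 63) (nat_lit 5) (nat_lit 469) (nat_lit 439) (nat_lit 292)) (XT.lf (nat_lit 0) (nat_lit 22723314388) (nat_lit 152) (nat_lit 219938662402) (nat_lit 76) (nat_lit 90697224058) (nat_lit 58) (nat_lit 5) (nat_lit 60) (nat_lit 5) (nat_lit 59) (nat_lit 5) (nat_lit 470) (nat_lit 439) (nat_lit 291))) (XT.nd (nat_lit 78) (nat_lit 76) (nat_lit 0) (XT.lf (nat_lit 0) (nat_lit 98323599833) (nat_lit 152) (nat_lit 67098614645) (nat_lit 228) (nat_lit 185306836006) (nat_lit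 56) (nat_lit 5) (nat_lit 58) (nat_lit 5) (nat_lit 59) (nat_lit 5) (nat_lit 471) (nat_lit 439) (nat_lit 290)) (XT.lf (nat_lit 0) (nat_lit 81227550613) (nat_lit 76) (nat_lit 245384071345) (nat_lit 152) (nat_lit 42523136386) (nat_lit 55) (nat_lit 5) (nat_lit 56) (nat_lit 5) (nat_lit 57) (nat_lit 4) (nat_lit 472) (nat_lit 439) (nat_lit 289)))))) (XT.nd (nat_lit 546) (nat_lit 684) (nat_lit 0) (XT.nd (nat_lit 234) (nat_lit 304) (nat_lit 0) (XT.nd (nat_lit 78) (nat_lit 304) (nat_lit 0) (XT.lf (nat_lit 0) (nat_lit 60768680089) (nat_lit 152) (nat_lit 53888707684) (nat_lit 228) (nat_lit 273940916129) (nat_lit 52) (nat_lit 5) (nat_lit 54) (nat_lit 5) (nat_lit 55) (nat_lit 5) (nat_lit 473) (nat_lit 439) (nat_lit 288)) (XT.nd (nat_lit 78) (nat_lit 228) (nat_lit 0) (XT.lf (nat_lit 0) (nat_lit 36223539556) (nat_lit 76) (nat_lit 254769168666) (nat_lit 152) (nat_lit 118187861974) (nat_lit 51) (nat_lit 5) (nat_lit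 52) (nat_lit 5) (nat_lit 53) (nat_lit 4) (nat_lit 474) (nat_lit 439) (nat_lit 287)) (XT.lf (nat_lit 0) (nat_lit 8471046453) (nat_lit 152) (nat_lit 46798096533) (nat_lit 228) (nat_lit 375758981318) (nat_lit 48) (nat_lit 5) (nat_lit 50) (nat_lit 5) (nat_lit 51) (nat_lit 5) (nat_lit 475) (nat_lit 439) (nat_lit 286)))) (XT.nd (nat_lit 156) (nat_lit 228) (nat_lit 0) (XT.nd (nat_lit 78) (nat_lit 76) (nat_lit 0) (XT.lf (nat_lit 0) (nat_lit 247896362049) (nat_lit 228) (nat_lit 25443102126) (nat_lit 76) (nat_lit 180715424249) (nat_lit 48) (nat_lit 5) (nat_lit 51) (nat_lit 5) (nat_lit 49) (nat_lit 4) (nat_lit 476) (nat_lit 439) (nat_lit 285)) (XT.lf (nat_lit 0) (nat_lit 415963860131) (nat_lit 76) (nat_lit 47253108684) (nat_lit 152) (nat_lit 15342664365) (nat_lit 47) (nat_lit 5) (nat_lit 48) (nat_lit 5) (nat_lit 49) (nat_lit 4) (nat_lit 477) (nat_lit 439) (nat_lit 284))) (XT.nd (nat_lit 78) (nat_lit 76)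 (nat_lit 0) (XT.lf (nat_lit 0) (nat_lit 194535914841) (nat_lit 152) (nat_lit 109421552378) (nat_lit 76) (nat_lit 200423278691) (nat_lit 45) (nat_lit 5) (nat_lit 47) (nat_lit 5) (nat_lit 46) (nat_lit 4) (nat_lit 478) (nat_lit 439) (nat_lit 283)) (XT.lf (nat_lit 0) (nat_lit 369906314001) (nat_lit 76) (nat_lit 58448184410) (nat_lit 152) (nat_lit 103516110791) (nat_lit 44) (nat_lit 5) (nat_lit 45) (nat_lit 5) (nat_lit 46) (nat_lit 4) (nat_lit 479) (nat_lit 439) (nat_lit 282))))) (XT.nd (nat_lit 234) (nat_lit 304) (nat_lit 0) (XT.nd (nat_lit 78) (nat_lit 228) (nat_lit 0) (XT.lf (nat_lit 0) (nat_lit 126105678768) (nat_lit 152) (nat_lit 225502997240) (nat_lit 76) (nat_lit 209327554340) (nat_lit 42) (nat_lit 5) (nat_lit 44) (nat_lit 5) (nat_lit 43) (nat_lit 4) (nat_lit 480) (nat_lit 439) (nat_lit 281)) (XT.nd (nat_lit 78) (nat_lit 152) (nat_lit 0) (XT.lf (nat_lit 0) (nat_lit 292814421448) (nat_lit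 76) (nat_lit 86129114119) (nat_lit 152) (nat_lit 212875065140) (nat_lit 41) (nat_lit 5) (nat_lit 42) (nat_lit 5) (nat_lit 43) (nat_lit 4) (nat_lit 481) (nat_lit 439) (nat_lit 280)) (XT.lf (nat_lit 0) (nat_lit 37029868388) (nat_lit 152) (nat_lit 385060198667) (nat_lit 76) (nat_lit 202507945952) (nat_lit 39) (nat_lit 5) (nat_lit 41) (nat_lit 5) (nat_lit 40) (nat_lit 4) (nat_lit 482) (nat_lit 439) (nat_lit 279)))) (XT.nd (nat_lit 156) (nat_lit 152) (nat_lit 0) (XT.nd (nat_lit 78) (nat_lit 76) (nat_lit 0) (XT.lf (nat_lit 0) (nat_lit 172494512572) (nat_lit 76) (nat_lit 136513338518) (nat_lit 152) (nat_lit 350340501459) (nat_lit 38) (nat_lit 5) (nat_lit 39) (nat_lit 5) (nat_lit 40) (nat_lit 4) (nat_lit 483) (nat_lit 439) (nat_lit 278)) (XT.lf (nat_lit 0) (nat_lit 92011224901) (nat_lit 76) (nat_lit 521670647006) (nat_lit 76) (nat_lit 82649957380) (nat_lit 37) (nat_lit 4) (nat_lit 38) (nat_lit 5) (nat_lit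 38) (nat_lit 4) (nat_lit 484) (nat_lit 439) (nat_lit 277))) (XT.nd (nat_lit 78) (nat_lit 76) (nat_lit 0) (XT.lf (nat_lit 0) (nat_lit 210769329507) (nat_lit 152) (nat_lit 6943689306) (nat_lit 76) (nat_lit 517853728891) (nat_lit 36) (nat_lit 5) (nat_lit 38) (nat_lit 5) (nat_lit 37) (nat_lit 4) (nat_lit 485) (nat_lit 439) (nat_lit 276)) (XT.lf (nat_lit 0) (nat_lit 536993877875) (nat_lit 152) (nat_lit 121388761555) (nat_lit 0) (nat_lit 118878705783) (nat_lit 35) (nat_lit 5) (nat_lit 37) (nat_lit 4) (nat_lit 35) (nat_lit 4) (nat_lit 486) (nat_lit 439) (nat_lit 275))))))) (XT.nd (nat_lit 59046) (nat_lit 0) (nat_lit 5624) (XT.nd (nat_lit 546) (nat_lit 304) (nat_lit 0) (XT.nd (nat_lit 234) (nat_lit 380) (nat_lit 0) (XT.nd (nat_lit 78) (nat_lit 152) (nat_lit 0) (XT.lf (nat_lit 0) (nat_lit 77686532271) (nat_lit 152) (nat_lit 258857883139) (nat_lit 76) (nat_lit 485054429436) (nat_lit 33) (nat_lit 5) (nat_lit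 35) (nat_lit 5) (nat_lit 34) (nat_lit 4) (nat_lit 487) (nat_lit 439) (nat_lit 274)) (XT.nd (nat_lit 78) (nat_lit 76) (nat_lit 0) (XT.lf (nat_lit 0) (nat_lit 422284321382) (nat_lit 152) (nat_lit 422441610851) (nat_lit 0) (nat_lit 24079208116) (nat_lit 32) (nat_lit 5) (nat_lit 34) (nat_lit 4) (nat_lit 32) (nat_lit 4) (nat_lit 488) (nat_lit 439) (nat_lit 273)) (XT.lf (nat_lit 0) (nat_lit 301587590350) (nat_lit 76) (nat_lit 507828616110) (nat_lit 76) (nat_lit 109623419393) (nat_lit 31) (nat_lit 4) (nat_lit 32) (nat_lit 5) (nat_lit 32) (nat_lit 4) (nat_lit 489) (nat_lit 439) (nat_lit 272)))) (XT.nd (nat_lit 156) (nat_lit 228) (nat_lit 0) (XT.nd (nat_lit 78) (nat_lit 0) (nat_lit 0) (XT.lf (nat_lit 0) (nat_lit 125630269489) (nat_lit 76) (nat_lit 129899263913) (nat_lit 152) (nat_lit 717092849278) (nat_lit 29) (nat_lit 5) (nat_lit 30) (nat_lit 5) (nat_lit 31) (nat_lit 4) (nat_lit 490) (nat_lit 439)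 (nat_lit 271)) (XT.lf (nat_lit 0) (nat_lit 661381666845) (nat_lit 152) (nat_lit 86115376574) (nat_lit 0) (nat_lit 282138480624) (nat_lit 29) (nat_lit 5) (nat_lit 31) (nat_lit 4) (nat_lit 29) (nat_lit 4) (nat_lit 491) (nat_lit 439) (nat_lit 270))) (XT.nd (nat_lit 78) (nat_lit 76) (nat_lit 0) (XT.lf (nat_lit 0) (nat_lit 22470169039) (nat_lit 152) (nat_lit 333179402781) (nat_lit 76) (nat_lit 734841029508) (nat_lit 27) (nat_lit 5) (nat_lit 29) (nat_lit 5) (nat_lit 28) (nat_lit 4) (nat_lit 492) (nat_lit 439) (nat_lit 269)) (XT.lf (nat_lit 0) (nat_lit 442771516547) (nat_lit 152) (nat_lit 630992245854) (nat_lit 0) (nat_lit 81587413947) (nat_lit 26) (nat_lit 5) (nat_lit 28) (nat_lit 4) (nat_lit 26) (nat_lit 4) (nat_lit 493) (nat_lit 439) (nat_lit 268))))) (XT.nd (nat_lit 234) (nat_lit 76) (nat_lit 0) (XT.nd (nat_lit 78) (nat_lit 152) (nat_lit 0) (XT.lf (nat_lit 0) (nat_lit 238839696463) (nat_lit 76)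 (nat_lit 673481911607) (nat_lit 76) (nat_lit 312297757491) (nat_lit 25) (nat_lit 4) (nat_lit 26) (nat_lit 5) (nat_lit 26) (nat_lit 4) (nat_lit 494) (nat_lit 439) (nat_lit 267)) (XT.nd (nat_lit 78) (nat_lit 76) (nat_lit 0) (XT.lf (nat_lit 0) (nat_lit 127337266890) (nat_lit 152) (nat_lit 100142804688) (nat_lit 76) (nat_lit 1071296679611) (nat_lit 24) (nat_lit 5) (nat_lit 26) (nat_lit 5) (nat_lit 25) (nat_lit 4) (nat_lit 495) (nat_lit 439) (nat_lit 266)) (XT.lf (nat_lit 0) (nat_lit 609355095000) (nat_lit 152) (nat_lit 502977882376) (nat_lit 0) (nat_lit 265370098828) (nat_lit 23) (nat_lit 5) (nat_lit 25) (nat_lit 4) (nat_lit 23) (nat_lit 4) (nat_lit 496) (nat_lit 439) (nat_lit 265)))) (XT.nd (nat_lit 58110) (nat_lit 0) (nat_lit 8816) (XT.nd (nat_lit 58032) (nat_lit 0) (nat_lit 8740) (XT.lf (nat_lit 0) (nat_lit 479794262227) (nat_lit 76) (nat_lit 663239650961) (nat_lit 76) (nat_lit 319254615843)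 (nat_lit 22) (nat_lit 4) (nat_lit 23) (nat_lit 5) (nat_lit 23) (nat_lit 4) (nat_lit 497) (nat_lit 439) (nat_lit 264)) (XT.lf (nat_lit 0) (nat_lit 17093284923) (nat_lit 836) (nat_lit 13513099079) (nat_lit 836) (nat_lit 13513099079) (nat_lit 137) (nat_lit 3) (nat_lit 148) (nat_lit 3) (nat_lit 148) (nat_lit 5) (nat_lit 440) (nat_lit 440) (nat_lit 320))) (XT.nd (nat_lit 78) (nat_lit 0) (nat_lit 0) (XT.lf (nat_lit 0) (nat_lit 36378588918) (nat_lit 760) (nat_lit 47736689630) (nat_lit 836) (nat_lit 7612015439) (nat_lit 138) (nat_lit 5) (nat_lit 148) (nat_lit 5) (nat_lit 149) (nat_lit 5) (nat_lit 441) (nat_lit 440) (nat_lit 319)) (XT.lf (nat_lit 76) (nat_lit 25973353493) (nat_lit 0) (nat_lit 14687491144) (nat_lit 836) (nat_lit 54738099941) (nat_lit 139) (nat_lit 5) (nat_lit 138) (nat_lit 5) (nat_lit 149) (nat_lit 5) (nat_lit 442) (nat_lit 440) (nat_lit 318)))))) (XT.nd (nat_lit 546) (nat_lit 1900)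 (nat_lit 0) (XT.nd (nat_lit 234) (nat_lit 1368) (nat_lit 0) (XT.nd (nat_lit 78) (nat_lit 0) (nat_lit 76) (XT.lf (nat_lit 76) (nat_lit 7237960955) (nat_lit 0) (nat_lit 39946059694) (nat_lit 836) (nat_lit 52085389856) (nat_lit 140) (nat_lit 5) (nat_lit 139) (nat_lit 5) (nat_lit 150) (nat_lit 5) (nat_lit 443) (nat_lit 440) (nat_lit 317)) (XT.nd (nat_lit 78) (nat_lit 0) (nat_lit 76) (XT.lf (nat_lit 0) (nat_lit 56251991798) (nat_lit 760) (nat_lit 11690837989) (nat_lit 836) (nat_lit 35405537125) (nat_lit 140) (nat_lit 5) (nat_lit 150) (nat_lit 5) (nat_lit 151) (nat_lit 5) (nat_lit 444) (nat_lit 440) (nat_lit 316)) (XT.lf (nat_lit 0) (nat_lit 68057621087) (nat_lit 760) (nat_lit 30936894697) (nat_lit 836) (nat_lit 8658513264) (nat_lit 141) (nat_lit 5) (nat_lit 151) (nat_lit 5) (nat_lit 152) (nat_lit 5) (nat_lit 445) (nat_lit 440) (nat_lit 315)))) (XT.nd (nat_lit 156) (nat_lit 836) (nat_lit 0) (XT.nd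 (nat_lit 78) (nat_lit 684) (nat_lit 0) (XT.lf (nat_lit 76) (nat_lit 61127960577) (nat_lit 0) (nat_lit 21985773706) (nat_lit 836) (nat_lit 29073028414) (nat_lit 142) (nat_lit 5) (nat_lit 141) (nat_lit 5) (nat_lit 152) (nat_lit 5) (nat_lit 446) (nat_lit 440) (nat_lit 314)) (XT.lf (nat_lit 0) (nat_lit 45084597083) (nat_lit 760) (nat_lit 56495711662) (nat_lit 836) (nat_lit 15392587890) (nat_lit 132) (nat_lit 5) (nat_lit 142) (nat_lit 5) (nat_lit 143) (nat_lit 5) (nat_lit 447) (nat_lit 440) (nat_lit 313))) (XT.nd (nat_lit 78) (nat_lit 380) (nat_lit 0) (XT.lf (nat_lit 0) (nat_lit 1570130391) (nat_lit 456) (nat_lit 93290644763) (nat_lit 76) (nat_lit 27173224930) (nat_lit 126) (nat_lit 5) (nat_lit 132) (nat_lit 5) (nat_lit 127) (nat_lit 5) (nat_lit 448) (nat_lit 440) (nat_lit 312)) (XT.lf (nat_lit 0) (nat_lit 11696113257) (nat_lit 380) (nat_lit 10068873289) (nat_lit 456) (nat_lit 105601668470) (nat_lit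 121) (nat_lit 5) (nat_lit 126) (nat_lit 5) (nat_lit 127) (nat_lit 5) (nat_lit 449) (nat_lit 440) (nat_lit 311))))) (XT.nd (nat_lit 234) (nat_lit 1216) (nat_lit 0) (XT.nd (nat_lit 78) (nat_lit 684) (nat_lit 0) (XT.lf (nat_lit 0) (nat_lit 46498911150) (nat_lit 456) (nat_lit 5931474845) (nat_lit 76) (nat_lit 80549362506) (nat_lit 121) (nat_lit 5) (nat_lit 127) (nat_lit 5) (nat_lit 122) (nat_lit 5) (nat_lit 450) (nat_lit 440) (nat_lit 310)) (XT.nd (nat_lit 78) (nat_lit 304) (nat_lit 0) (XT.lf (nat_lit 0) (nat_lit 75832962639) (nat_lit 456) (nat_lit 23448784649) (nat_lit 76) (nat_lit 39629071673) (nat_lit 116) (nat_lit 5) (nat_lit 122) (nat_lit 5) (nat_lit 117) (nat_lit 5) (nat_lit 451) (nat_lit 440) (nat_lit 309)) (XT.lf (nat_lit 0) (nat_lit 103906773289) (nat_lit 304) (nat_lit 6217660224) (nat_lit 380) (nat_lit 35061406915) (nat_lit 112) (nat_lit 5) (nat_lit 116) (nat_lit 5) (nat_lit 117) (nat_lit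 5) (nat_lit 452) (nat_lit 440) (nat_lit 308)))) (XT.nd (nat_lit 156) (nat_lit 532) (nat_lit 0) (XT.nd (nat_lit 78) (nat_lit 380) (nat_lit 0) (XT.lf (nat_lit 0) (nat_lit 91804396066) (nat_lit 304) (nat_lit 58674832010) (nat_lit 380) (nat_lit 1317635359) (nat_lit 108) (nat_lit 5) (nat_lit 112) (nat_lit 5) (nat_lit 113) (nat_lit 5) (nat_lit 453) (nat_lit 440) (nat_lit 307)) (XT.lf (nat_lit 0) (nat_lit 36771208213) (nat_lit 380) (nat_lit 79488220028) (nat_lit 76) (nat_lit 42511429163) (nat_lit 103) (nat_lit 5) (nat_lit 108) (nat_lit 5) (nat_lit 104) (nat_lit 5) (nat_lit 454) (nat_lit 440) (nat_lit 306))) (XT.nd (nat_lit 78) (nat_lit 228) (nat_lit 0) (XT.lf (nat_lit 0) (nat_lit 66696810545) (nat_lit 304) (nat_lit 14257078497) (nat_lit 380) (nat_lit 85193157256) (nat_lit 99) (nat_lit 5) (nat_lit 103) (nat_lit 5) (nat_lit 104) (nat_lit 5) (nat_lit 455) (nat_lit 440) (nat_lit 305)) (XT.lf (nat_lit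 0) (nat_lit 53564670285) (nat_lit 228) (nat_lit 78846948684) (nat_lit 304) (nat_lit 41514689696) (nat_lit 96) (nat_lit 5) (nat_lit 99) (nat_lit 5) (nat_lit 100) (nat_lit 5) (nat_lit 456) (nat_lit 440) (nat_lit 304))))))))
noncomputable def xc103 : XT := (XT.nd (nat_lit 2184) (nat_lit 1140) (nat_lit 0) (XT.nd (nat_lit 1092) (nat_lit 1672) (nat_lit 0) (XT.nd (nat_lit 546) (nat_lit 1292) (nat_lit 0) (XT.nd (nat_lit 234) (nat_lit 684) (nat_lit 0) (XT.nd (nat_lit 78) (nat_lit 456) (nat_lit 0) (XT.lf (nat_lit 0) (nat_lit 8633833366) (nat_lit 304) (nat_lit 141618090877) (nat_lit 76) (nat_lit 31913727395) (nat_lit 92) (nat_lit 5) (nat_lit 96) (nat_lit 5) (nat_lit 93) (nat_lit 5) (nat_lit 457) (nat_lit 440) (nat_lit 303)) (XT.nd (nat_lit 78) (nat_lit 228) (nat_lit 0) (XT.lf (nat_lit 0) (nat_lit 26450242783) (nat_lit 228) (nat_lit 38781927722) (nat_lit 304) (nat_lit 125603322949) (nat_lit 89) (nat_lit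 5) (nat_lit 92) (nat_lit 5) (nat_lit 93) (nat_lit 5) (nat_lit 458) (nat_lit 440) (nat_lit 302)) (XT.lf (nat_lit 0) (nat_lit 12014927814) (nat_lit 228) (nat_lit 118311987705) (nat_lit 304) (nat_lit 69673580121) (nat_lit 86) (nat_lit 5) (nat_lit 89) (nat_lit 5) (nat_lit 90) (nat_lit 5) (nat_lit 459) (nat_lit 440) (nat_lit 301)))) (XT.nd (nat_lit 156) (nat_lit 456) (nat_lit 0) (XT.nd (nat_lit 78) (nat_lit 228) (nat_lit 0) (XT.lf (nat_lit 0) (nat_lit 204191639103) (nat_lit 304) (nat_lit 2058308598) (nat_lit 76) (nat_lit 3470630418) (nat_lit 86) (nat_lit 5) (nat_lit 90) (nat_lit 5) (nat_lit 87) (nat_lit 5) (nat_lit 460) (nat_lit 440) (nat_lit 300)) (XT.lf (nat_lit 0) (nat_lit 66959565131) (nat_lit 228) (nat_lit 17786959777) (nat_lit 76) (nat_lit 135159348535) (nat_lit 83) (nat_lit 5) (nat_lit 86) (nat_lit 5) (nat_lit 84) (nat_lit 5) (nat_lit 461) (nat_lit 440) (nat_lit 299))) (XT.nd (nat_lit 78)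 (nat_lit 228) (nat_lit 0) (XT.lf (nat_lit 0) (nat_lit 148962538305) (nat_lit 304) (nat_lit 33479556731) (nat_lit 76) (nat_lit 48263910704) (nat_lit 80) (nat_lit 5) (nat_lit 84) (nat_lit 5) (nat_lit 81) (nat_lit 5) (nat_lit 462) (nat_lit 440) (nat_lit 298)) (XT.lf (nat_lit 0) (nat_lit 136625517) (nat_lit 228) (nat_lit 49688690118) (nat_lit 76) (nat_lit 192307316075) (nat_lit 77) (nat_lit 5) (nat_lit 80) (nat_lit 5) (nat_lit 78) (nat_lit 5) (nat_lit 463) (nat_lit 440) (nat_lit 297))))) (XT.nd (nat_lit 234) (nat_lit 684) (nat_lit 0) (XT.nd (nat_lit 78) (nat_lit 380) (nat_lit 0) (XT.lf (nat_lit 0) (nat_lit 90804852715) (nat_lit 304) (nat_lit 67951459839) (nat_lit 76) (nat_lit 95394991421) (nat_lit 74) (nat_lit 5) (nat_lit 78) (nat_lit 5) (nat_lit 75) (nat_lit 5) (nat_lit 464) (nat_lit 440) (nat_lit 296)) (XT.nd (nat_lit 78) (nat_lit 228) (nat_lit 0) (XT.lf (nat_lit 0) (nat_lit 180570089658) (nat_lit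 152) (nat_lit 12695175027) (nat_lit 228) (nat_lit 73639269045) (nat_lit 72) (nat_lit 5) (nat_lit 74) (nat_lit 5) (nat_lit 75) (nat_lit 5) (nat_lit 465) (nat_lit 440) (nat_lit 295)) (XT.lf (nat_lit 0) (nat_lit 28786979029) (nat_lit 228) (nat_lit 106765396950) (nat_lit 76) (nat_lit 144793177340) (nat_lit 69) (nat_lit 5) (nat_lit 72) (nat_lit 5) (nat_lit 70) (nat_lit 5) (nat_lit 466) (nat_lit 440) (nat_lit 294)))) (XT.nd (nat_lit 156) (nat_lit 380) (nat_lit 0) (XT.nd (nat_lit 78) (nat_lit 152) (nat_lit 0) (XT.lf (nat_lit 0) (nat_lit 141596444677) (nat_lit 228) (nat_lit 128546530633) (nat_lit 76) (nat_lit 24420065190) (nat_lit 67) (nat_lit 5) (nat_lit 70) (nat_lit 5) (nat_lit 68) (nat_lit 5) (nat_lit 467) (nat_lit 440) (nat_lit 293)) (XT.lf (nat_lit 0) (nat_lit 157327354327) (nat_lit 152) (nat_lit 112735247919) (nat_lit 228) (nat_lit 39523727708) (nat_lit 65) (nat_lit 5) (nat_lit 67) (nat_lit 5)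 (nat_lit 68) (nat_lit 5) (nat_lit 468) (nat_lit 440) (nat_lit 292))) (XT.nd (nat_lit 78) (nat_lit 152) (nat_lit 0) (XT.lf (nat_lit 0) (nat_lit 85921012706) (nat_lit 228) (nat_lit 178129690477) (nat_lit 76) (nat_lit 61416851146) (nat_lit 62) (nat_lit 5) (nat_lit 65) (nat_lit 5) (nat_lit 63) (nat_lit 5) (nat_lit 469) (nat_lit 440) (nat_lit 291)) (XT.lf (nat_lit 0) (nat_lit 135580980285) (nat_lit 152) (nat_lit 91167302064) (nat_lit 228) (nat_lit 115502014388) (nat_lit 60) (nat_lit 5) (nat_lit 62) (nat_lit 5) (nat_lit 63) (nat_lit 5) (nat_lit 470) (nat_lit 440) (nat_lit 290)))))) (XT.nd (nat_lit 546) (nat_lit 760) (nat_lit 0) (XT.nd (nat_lit 234) (nat_lit 532) (nat_lit 0) (XT.nd (nat_lit 78) (nat_lit 228) (nat_lit 0) (XT.lf (nat_lit 0) (nat_lit 24547021907) (nat_lit 152) (nat_lit 237523334025) (nat_lit 76) (nat_lit 97957288438) (nat_lit 58) (nat_lit 5) (nat_lit 60) (nat_lit 5) (nat_lit 59) (nat_lit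 5) (nat_lit 471) (nat_lit 440) (nat_lit 289)) (XT.nd (nat_lit 78) (nat_lit 76) (nat_lit 0) (XT.lf (nat_lit 0) (nat_lit 106199456288) (nat_lit 152) (nat_lit 72462100583) (nat_lit 228) (nat_lit 200125538994) (nat_lit 56) (nat_lit 5) (nat_lit 58) (nat_lit 5) (nat_lit 59) (nat_lit 5) (nat_lit 472) (nat_lit 440) (nat_lit 288)) (XT.lf (nat_lit 0) (nat_lit 87735490702) (nat_lit 76) (nat_lit 265010429670) (nat_lit 152) (nat_lit 45919349841) (nat_lit 55) (nat_lit 5) (nat_lit 56) (nat_lit 5) (nat_lit 57) (nat_lit 4) (nat_lit 473) (nat_lit 440) (nat_lit 287)))) (XT.nd (nat_lit 156) (nat_lit 228) (nat_lit 0) (XT.nd (nat_lit 78) (nat_lit 76) (nat_lit 0) (XT.lf (nat_lit 0) (nat_lit 65639660344) (nat_lit 152) (nat_lit 58195519349) (nat_lit 228) (nat_lit 295850728153) (nat_lit 52) (nat_lit 5) (nat_lit 54) (nat_lit 5) (nat_lit 55) (nat_lit 5) (nat_lit 474) (nat_lit 440) (nat_lit 286)) (XT.lf (nat_lit 0) (nat_lit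 39130681386) (nat_lit 76) (nat_lit 275146465640) (nat_lit 152) (nat_lit 127637617381) (nat_lit 51) (nat_lit 5) (nat_lit 52) (nat_lit 5) (nat_lit 53) (nat_lit 4) (nat_lit 475) (nat_lit 440) (nat_lit 285))) (XT.nd (nat_lit 78) (nat_lit 0) (nat_lit 0) (XT.lf (nat_lit 0) (nat_lit 9157748188) (nat_lit 152) (nat_lit 50537793668) (nat_lit 228) (nat_lit 405814588758) (nat_lit 48) (nat_lit 5) (nat_lit 50) (nat_lit 5) (nat_lit 51) (nat_lit 5) (nat_lit 476) (nat_lit 440) (nat_lit 284)) (XT.lf (nat_lit 0) (nat_lit 267732637896) (nat_lit 228) (nat_lit 27470034693) (nat_lit 76) (nat_lit 195176378322) (nat_lit 48) (nat_lit 5) (nat_lit 51) (nat_lit 5) (nat_lit 49) (nat_lit 4) (nat_lit 477) (nat_lit 440) (nat_lit 283))))) (XT.nd (nat_lit 234) (nat_lit 456) (nat_lit 0) (XT.nd (nat_lit 78) (nat_lit 228) (nat_lit 0) (XT.lf (nat_lit 0) (nat_lit 449249114467) (nat_lit 76) (nat_lit 51029567623) (nat_lit 152) (nat_lit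 16565503731) (nat_lit 47) (nat_lit 5) (nat_lit 48) (nat_lit 5) (nat_lit 49) (nat_lit 4) (nat_lit 478) (nat_lit 440) (nat_lit 282)) (XT.nd (nat_lit 78) (nat_lit 76) (nat_lit 0) (XT.lf (nat_lit 0) (nat_lit 210103069204) (nat_lit 152) (nat_lit 118167191341) (nat_lit 76) (nat_lit 216460730780) (nat_lit 45) (nat_lit 5) (nat_lit 47) (nat_lit 5) (nat_lit 46) (nat_lit 4) (nat_lit 479) (nat_lit 440) (nat_lit 281)) (XT.lf (nat_lit 0) (nat_lit 399506552975) (nat_lit 76) (nat_lit 63120390109) (nat_lit 152) (nat_lit 111793110430) (nat_lit 44) (nat_lit 5) (nat_lit 45) (nat_lit 5) (nat_lit 46) (nat_lit 4) (nat_lit 480) (nat_lit 440) (nat_lit 280)))) (XT.nd (nat_lit 156) (nat_lit 228) (nat_lit 0) (XT.nd (nat_lit 78) (nat_lit 76) (nat_lit 0) (XT.lf (nat_lit 0) (nat_lit 136198150707) (nat_lit 152) (nat_lit 243535565221) (nat_lit 76) (nat_lit 226077211803) (nat_lit 42) (nat_lit 5) (nat_lit 44) (nat_lit 5) (nat_lit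 43) (nat_lit 4) (nat_lit 481) (nat_lit 440) (nat_lit 279)) (XT.lf (nat_lit 0) (nat_lit 316246913554) (nat_lit 76) (nat_lit 93015939465) (nat_lit 152) (nat_lit 229901043862) (nat_lit 41) (nat_lit 5) (nat_lit 42) (nat_lit 5) (nat_lit 43) (nat_lit 4) (nat_lit 482) (nat_lit 440) (nat_lit 278))) (XT.nd (nat_lit 78) (nat_lit 76) (nat_lit 0) (XT.lf (nat_lit 0) (nat_lit 39996031717) (nat_lit 152) (nat_lit 415857738958) (nat_lit 76) (nat_lit 218711894546) (nat_lit 39) (nat_lit 5) (nat_lit 41) (nat_lit 5) (nat_lit 40) (nat_lit 4) (nat_lit 483) (nat_lit 440) (nat_lit 277)) (XT.lf (nat_lit 0) (nat_lit 186301032992) (nat_lit 76) (nat_lit 147431049155) (nat_lit 152) (nat_lit 378363958335) (nat_lit 38) (nat_lit 5) (nat_lit 39) (nat_lit 5) (nat_lit 40) (nat_lit 4) (nat_lit 484) (nat_lit 440) (nat_lit 276))))))) (XT.nd (nat_lit 59124) (nat_lit 0) (nat_lit 5776) (XT.nd (nat_lit 546) (nat_lit 456) (nat_lit 0)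 (XT.nd (nat_lit 234) (nat_lit 456) (nat_lit 0) (XT.nd (nat_lit 78) (nat_lit 152) (nat_lit 0) (XT.lf (nat_lit 0) (nat_lit 99378902170) (nat_lit 76) (nat_lit 563401009937) (nat_lit 76) (nat_lit 89258288886) (nat_lit 37) (nat_lit 4) (nat_lit 38) (nat_lit 5) (nat_lit 38) (nat_lit 4) (nat_lit 485) (nat_lit 440) (nat_lit 275)) (XT.nd (nat_lit 78) (nat_lit 76) (nat_lit 0) (XT.lf (nat_lit 0) (nat_lit 227634160848) (nat_lit 152) (nat_lit 7492798625) (nat_lit 76) (nat_lit 559284963698) (nat_lit 36) (nat_lit 5) (nat_lit 38) (nat_lit 5) (nat_lit 37) (nat_lit 4) (nat_lit 486) (nat_lit 440) (nat_lit 274)) (XT.lf (nat_lit 0) (nat_lit 579956571511) (nat_lit 152) (nat_lit 131093643621) (nat_lit 0) (nat_lit 128391878435) (nat_lit 35) (nat_lit 5) (nat_lit 37) (nat_lit 4) (nat_lit 35) (nat_lit 4) (nat_lit 487) (nat_lit 440) (nat_lit 273)))) (XT.nd (nat_lit 156) (nat_lit 228) (nat_lit 0) (XT.nd (nat_lit 78) (nat_lit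 76) (nat_lit 0) (XT.lf (nat_lit 0) (nat_lit 83904545252) (nat_lit 152) (nat_lit 279560462931) (nat_lit 76) (nat_lit 523861589649) (nat_lit 33) (nat_lit 5) (nat_lit 35) (nat_lit 5) (nat_lit 34) (nat_lit 4) (nat_lit 488) (nat_lit 440) (nat_lit 272)) (XT.lf (nat_lit 0) (nat_lit 456070063218) (nat_lit 152) (nat_lit 456231048433) (nat_lit 0) (nat_lit 26008290043) (nat_lit 32) (nat_lit 5) (nat_lit 34) (nat_lit 4) (nat_lit 32) (nat_lit 4) (nat_lit 489) (nat_lit 440) (nat_lit 271))) (XT.nd (nat_lit 78) (nat_lit 152) (nat_lit 0) (XT.lf (nat_lit 0) (nat_lit 325720232836) (nat_lit 76) (nat_lit 548452132313) (nat_lit 76) (nat_lit 118390287593) (nat_lit 31) (nat_lit 4) (nat_lit 32) (nat_lit 5) (nat_lit 32) (nat_lit 4) (nat_lit 490) (nat_lit 440) (nat_lit 270)) (XT.lf (nat_lit 0) (nat_lit 135686173479) (nat_lit 76) (nat_lit 140288501859) (nat_lit 152) (nat_lit 774457358932) (nat_lit 29) (nat_lit 5) (nat_lit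 30) (nat_lit 5) (nat_lit 31) (nat_lit 4) (nat_lit 491) (nat_lit 440) (nat_lit 269))))) (XT.nd (nat_lit 234) (nat_lit 228) (nat_lit 0) (XT.nd (nat_lit 78) (nat_lit 228) (nat_lit 0) (XT.lf (nat_lit 0) (nat_lit 714294812663) (nat_lit 152) (nat_lit 92999440727) (nat_lit 0) (nat_lit 304711981897) (nat_lit 29) (nat_lit 5) (nat_lit 31) (nat_lit 4) (nat_lit 29) (nat_lit 4) (nat_lit 492) (nat_lit 440) (nat_lit 268)) (XT.nd (nat_lit 78) (nat_lit 76) (nat_lit 0) (XT.lf (nat_lit 0) (nat_lit 24270319638) (nat_lit 152) (nat_lit 359828729599) (nat_lit 76) (nat_lit 793630673293) (nat_lit 27) (nat_lit 5) (nat_lit 29) (nat_lit 5) (nat_lit 28) (nat_lit 4) (nat_lit 493) (nat_lit 440) (nat_lit 267)) (XT.lf (nat_lit 0) (nat_lit 478195699268) (nat_lit 152) (nat_lit 681466734461) (nat_lit 0) (nat_lit 88116713609) (nat_lit 26) (nat_lit 5) (nat_lit 28) (nat_lit 4) (nat_lit 26) (nat_lit 4) (nat_lit 494) (nat_lit 440)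 (nat_lit 266)))) (XT.nd (nat_lit 156) (nat_lit 76) (nat_lit 0) (XT.nd (nat_lit 78) (nat_lit 76) (nat_lit 0) (XT.lf (nat_lit 0) (nat_lit 257951550681) (nat_lit 76) (nat_lit 727358138150) (nat_lit 76) (nat_lit 337279108326) (nat_lit 25) (nat_lit 4) (nat_lit 26) (nat_lit 5) (nat_lit 26) (nat_lit 4) (nat_lit 495) (nat_lit 440) (nat_lit 265)) (XT.lf (nat_lit 0) (nat_lit 137526461868) (nat_lit 152) (nat_lit 108149823887) (nat_lit 76) (nat_lit 1157002494809) (nat_lit 24) (nat_lit 5) (nat_lit 26) (nat_lit 5) (nat_lit 25) (nat_lit 4) (nat_lit 496) (nat_lit 440) (nat_lit 264))) (XT.nd (nat_lit 58110) (nat_lit 0) (nat_lit 8664) (XT.lf (nat_lit 0) (nat_lit 658105650803) (nat_lit 152) (nat_lit 543211826186) (nat_lit 0) (nat_lit 286601737866) (nat_lit 23) (nat_lit 5) (nat_lit 25) (nat_lit 4) (nat_lit 23) (nat_lit 4) (nat_lit 497) (nat_lit 440) (nat_lit 263)) (XT.lf (nat_lit 0) (nat_lit 18473388729) (nat_lit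 836) (nat_lit 14587509005) (nat_lit 836) (nat_lit 14587509005) (nat_lit 137) (nat_lit 3) (nat_lit 148) (nat_lit 3) (nat_lit 148) (nat_lit 5) (nat_lit 441) (nat_lit 441) (nat_lit 318)))))) (XT.nd (nat_lit 546) (nat_lit 2508) (nat_lit 0) (XT.nd (nat_lit 234) (nat_lit 456) (nat_lit 0) (XT.nd (nat_lit 78) (nat_lit 0) (nat_lit 0) (XT.lf (nat_lit 0) (nat_lit 39312313268) (nat_lit 760) (nat_lit 51541569626) (nat_lit 836) (nat_lit 8210417308) (nat_lit 138) (nat_lit 5) (nat_lit 148) (nat_lit 5) (nat_lit 149) (nat_lit 5) (nat_lit 442) (nat_lit 441) (nat_lit 317)) (XT.nd (nat_lit 78) (nat_lit 0) (nat_lit 76) (XT.lf (nat_lit 76) (nat_lit 28064666127) (nat_lit 0) (nat_lit 15870957131) (nat_lit 836) (nat_lit 59094136296) (nat_lit 139) (nat_lit 5) (nat_lit 138) (nat_lit 5) (nat_lit 149) (nat_lit 5) (nat_lit 443) (nat_lit 441) (nat_lit 316)) (XT.lf (nat_lit 76) (nat_lit 7831037116) (nat_lit 0) (nat_lit 43148089989)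 (nat_lit 836) (nat_lit 56230812335) (nat_lit 140) (nat_lit 5) (nat_lit 139) (nat_lit 5) (nat_lit 150) (nat_lit 5) (nat_lit 444) (nat_lit 441) (nat_lit 315)))) (XT.nd (nat_lit 156) (nat_lit 608) (nat_lit 0) (XT.nd (nat_lit 78) (nat_lit 0) (nat_lit 76) (XT.lf (nat_lit 0) (nat_lit 60770934228) (nat_lit 760) (nat_lit 12612065897) (nat_lit 836) (nat_lit 38232292666) (nat_lit 140) (nat_lit 5) (nat_lit 150) (nat_lit 5) (nat_lit 151) (nat_lit 5) (nat_lit 445) (nat_lit 441) (nat_lit 314)) (XT.lf (nat_lit 0) (nat_lit 73519767042) (nat_lit 760) (nat_lit 33397468051) (nat_lit 836) (nat_lit 9347155465) (nat_lit 141) (nat_lit 5) (nat_lit 151) (nat_lit 5) (nat_lit 152) (nat_lit 5) (nat_lit 446) (nat_lit 441) (nat_lit 313))) (XT.nd (nat_lit 78) (nat_lit 684) (nat_lit 0) (XT.lf (nat_lit 76) (nat_lit 66031950785) (nat_lit 0) (nat_lit 23747334255) (nat_lit 836) (nat_lit 31381592370) (nat_lit 142) (nat_lit 5)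 (nat_lit 141) (nat_lit 5) (nat_lit 152) (nat_lit 5) (nat_lit 447) (nat_lit 441) (nat_lit 312)) (XT.lf (nat_lit 0) (nat_lit 48705351204) (nat_lit 760) (nat_lit 61016794940) (nat_lit 836) (nat_lit 16607808157) (nat_lit 132) (nat_lit 5) (nat_lit 142) (nat_lit 5) (nat_lit 143) (nat_lit 5) (nat_lit 448) (nat_lit 441) (nat_lit 311))))) (XT.nd (nat_lit 312) (nat_lit 1292) (nat_lit 0) (XT.nd (nat_lit 156) (nat_lit 380) (nat_lit 0) (XT.nd (nat_lit 78) (nat_lit 380) (nat_lit 0) (XT.lf (nat_lit 0) (nat_lit 1710452295) (nat_lit 456) (nat_lit 100739266642) (nat_lit 76) (nat_lit 29346262556) (nat_lit 126) (nat_lit 5) (nat_lit 132) (nat_lit 5) (nat_lit 127) (nat_lit 5) (nat_lit 449) (nat_lit 441) (nat_lit 310)) (XT.lf (nat_lit 0) (nat_lit 12645796231) (nat_lit 380) (nat_lit 10874229458) (nat_lit 456) (nat_lit 114035266917) (nat_lit 121) (nat_lit 5) (nat_lit 126) (nat_lit 5) (nat_lit 127) (nat_lit 5) (nat_lit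 450) (nat_lit 441) (nat_lit 309))) (XT.nd (nat_lit 78) (nat_lit 380) (nat_lit 0) (XT.lf (nat_lit 0) (nat_lit 50231641281) (nat_lit 456) (nat_lit 6392394383) (nat_lit 76) (nat_lit 86993449262) (nat_lit 121) (nat_lit 5) (nat_lit 127) (nat_lit 5) (nat_lit 122) (nat_lit 5) (nat_lit 451) (nat_lit 441) (nat_lit 308)) (XT.lf (nat_lit 0) (nat_lit 81911685170) (nat_lit 456) (nat_lit 25311088621) (nat_lit 76) (nat_lit 42800304010) (nat_lit 116) (nat_lit 5) (nat_lit 122) (nat_lit 5) (nat_lit 117) (nat_lit 5) (nat_lit 452) (nat_lit 441) (nat_lit 307)))) (XT.nd (nat_lit 156) (nat_lit 684) (nat_lit 0) (XT.nd (nat_lit 78) (nat_lit 304) (nat_lit 0) (XT.lf (nat_lit 0) (nat_lit 112232322964) (nat_lit 304) (nat_lit 6713458614) (nat_lit 380) (nat_lit 37854354192) (nat_lit 112) (nat_lit 5) (nat_lit 116) (nat_lit 5) (nat_lit 117) (nat_lit 5) (nat_lit 453) (nat_lit 441) (nat_lit 306)) (XT.lf (nat_lit 0) (nat_lit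 99161713188) (nat_lit 304) (nat_lit 63366628329) (nat_lit 380) (nat_lit 1411730174) (nat_lit 108) (nat_lit 5) (nat_lit 112) (nat_lit 5) (nat_lit 113) (nat_lit 5) (nat_lit 454) (nat_lit 441) (nat_lit 305))) (XT.nd (nat_lit 78) (nat_lit 304) (nat_lit 0) (XT.lf (nat_lit 0) (nat_lit 39723283981) (nat_lit 380) (nat_lit 85834046055) (nat_lit 76) (nat_lit 45914675190) (nat_lit 103) (nat_lit 5) (nat_lit 108) (nat_lit 5) (nat_lit 104) (nat_lit 5) (nat_lit 455) (nat_lit 441) (nat_lit 304)) (XT.lf (nat_lit 0) (nat_lit 72045211936) (nat_lit 304) (nat_lit 15394796122) (nat_lit 380) (nat_lit 91998309869) (nat_lit 99) (nat_lit 5) (nat_lit 103) (nat_lit 5) (nat_lit 104) (nat_lit 5) (nat_lit 456) (nat_lit 441) (nat_lit 303))))))))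
noncomputable def xc104 : XT := (XT.nd (nat_lit 2184) (nat_lit 1064) (nat_lit 0) (XT.nd (nat_lit 1092) (nat_lit 1748) (nat_lit 0) (XT.nd (nat_lit 546) (nat_lit 1368) (nat_lit 0) (XT.nd (nat_lit 234) (nat_lit 684) (nat_lit 0) (XT.nd (nat_lit 78) (nat_lit 532) (nat_lit 0) (XT.lf (nat_lit 0) (nat_lit 57862378565) (nat_lit 228) (nat_lit 85151488186) (nat_lit 304) (nat_lit 44826079138) (nat_lit 96) (nat_lit 5) (nat_lit 99) (nat_lit 5) (nat_lit 100) (nat_lit 5) (nat_lit 457) (nat_lit 441) (nat_lit 302)) (XT.nd (nat_lit 78) (nat_lit 228) (nat_lit 0) (XT.lf (nat_lit 0) (nat_lit 9333554754) (nat_lit 304) (nat_lit 152934849672) (nat_lit 76) (nat_lit 34470047235) (nat_lit 92) (nat_lit 5) (nat_lit 96) (nat_lit 5) (nat_lit 93) (nat_lit 5) (nat_lit 458) (nat_lit 441) (nat_lit 301)) (XT.lf (nat_lit 0) (nat_lit 28578399254) (nat_lit 228) (nat_lit 41880881346) (nat_lit 304) (nat_lit 135642624237) (nat_lit 89)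 (nat_lit 5) (nat_lit 92) (nat_lit 5) (nat_lit 93) (nat_lit 5) (nat_lit 459) (nat_lit 441) (nat_lit 300)))) (XT.nd (nat_lit 156) (nat_lit 456) (nat_lit 0) (XT.nd (nat_lit 78) (nat_lit 0) (nat_lit 0) (XT.lf (nat_lit 0) (nat_lit 12988087344) (nat_lit 228) (nat_lit 127773124405) (nat_lit 304) (nat_lit 75238915217) (nat_lit 86) (nat_lit 5) (nat_lit 89) (nat_lit 5) (nat_lit 90) (nat_lit 5) (nat_lit 460) (nat_lit 441) (nat_lit 299)) (XT.lf (nat_lit 0) (nat_lit 220534565291) (nat_lit 304) (nat_lit 2211571478) (nat_lit 76) (nat_lit 3751706758) (nat_lit 86) (nat_lit 5) (nat_lit 90) (nat_lit 5) (nat_lit 87) (nat_lit 5) (nat_lit 461) (nat_lit 441) (nat_lit 298))) (XT.nd (nat_lit 78) (nat_lit 228) (nat_lit 0) (XT.lf (nat_lit 0) (nat_lit 72323652137) (nat_lit 228) (nat_lit 19198767207) (nat_lit 76) (nat_lit 145975556925) (nat_lit 83) (nat_lit 5) (nat_lit 86) (nat_lit 5) (nat_lit 84) (nat_lit 5) (nat_lit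 462) (nat_lit 441) (nat_lit 297)) (XT.lf (nat_lit 0) (nat_lit 160886545379) (nat_lit 304) (nat_lit 36146966330) (nat_lit 76) (nat_lit 52128623400) (nat_lit 80) (nat_lit 5) (nat_lit 84) (nat_lit 5) (nat_lit 81) (nat_lit 5) (nat_lit 463) (nat_lit 441) (nat_lit 296))))) (XT.nd (nat_lit 234) (nat_lit 760) (nat_lit 0) (XT.nd (nat_lit 78) (nat_lit 380) (nat_lit 0) (XT.lf (nat_lit 0) (nat_lit 154314151) (nat_lit 228) (nat_lit 53653082223) (nat_lit 76) (nat_lit 207695507160) (nat_lit 77) (nat_lit 5) (nat_lit 80) (nat_lit 5) (nat_lit 78) (nat_lit 5) (nat_lit 464) (nat_lit 441) (nat_lit 295)) (XT.nd (nat_lit 78) (nat_lit 152) (nat_lit 0) (XT.lf (nat_lit 0) (nat_lit 98075718375) (nat_lit 304) (nat_lit 73377076692) (nat_lit 76) (nat_lit 103030288628) (nat_lit 74) (nat_lit 5) (nat_lit 78) (nat_lit 5) (nat_lit 75) (nat_lit 5) (nat_lit 465) (nat_lit 441) (nat_lit 294)) (XT.lf (nat_lit 0) (nat_lit 195025740450)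 (nat_lit 152) (nat_lit 13706899851) (nat_lit 228) (nat_lit 79523947734) (nat_lit 72) (nat_lit 5) (nat_lit 74) (nat_lit 5) (nat_lit 75) (nat_lit 5) (nat_lit 466) (nat_lit 441) (nat_lit 293)))) (XT.nd (nat_lit 156) (nat_lit 380) (nat_lit 0) (XT.nd (nat_lit 78) (nat_lit 152) (nat_lit 0) (XT.lf (nat_lit 0) (nat_lit 31095943287) (nat_lit 228) (nat_lit 115296585483) (nat_lit 76) (nat_lit 156380367925) (nat_lit 69) (nat_lit 5) (nat_lit 72) (nat_lit 5) (nat_lit 70) (nat_lit 5) (nat_lit 467) (nat_lit 441) (nat_lit 292)) (XT.lf (nat_lit 0) (nat_lit 152929932114) (nat_lit 228) (nat_lit 138820421050) (nat_lit 76) (nat_lit 26377441435) (nat_lit 67) (nat_lit 5) (nat_lit 70) (nat_lit 5) (nat_lit 68) (nat_lit 5) (nat_lit 468) (nat_lit 441) (nat_lit 291))) (XT.nd (nat_lit 78) (nat_lit 228) (nat_lit 0) (XT.lf (nat_lit 0) (nat_lit 169922947419) (nat_lit 152) (nat_lit 121750154159) (nat_lit 228) (nat_lit 42679859707)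 (nat_lit 65) (nat_lit 5) (nat_lit 67) (nat_lit 5) (nat_lit 68) (nat_lit 5) (nat_lit 469) (nat_lit 441) (nat_lit 290)) (XT.lf (nat_lit 0) (nat_lit 92800065436) (nat_lit 228) (nat_lit 192370686961) (nat_lit 76) (nat_lit 66333937245) (nat_lit 62) (nat_lit 5) (nat_lit 65) (nat_lit 5) (nat_lit 63) (nat_lit 5) (nat_lit 470) (nat_lit 441) (nat_lit 289)))))) (XT.nd (nat_lit 546) (nat_lit 684) (nat_lit 0) (XT.nd (nat_lit 234) (nat_lit 608) (nat_lit 0) (XT.nd (nat_lit 78) (nat_lit 304) (nat_lit 0) (XT.lf (nat_lit 0) (nat_lit 146436429872) (nat_lit 152) (nat_lit 98456828938) (nat_lit 228) (nat_lit 124736805557) (nat_lit 60) (nat_lit 5) (nat_lit 62) (nat_lit 5) (nat_lit 63) (nat_lit 5) (nat_lit 471) (nat_lit 441) (nat_lit 288)) (XT.nd (nat_lit 78) (nat_lit 152) (nat_lit 0) (XT.lf (nat_lit 0) (nat_lit 26515792548) (nat_lit 152) (nat_lit 256516266103) (nat_lit 76) (nat_lit 105797546459) (nat_lit 58) (nat_lit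 5) (nat_lit 60) (nat_lit 5) (nat_lit 59) (nat_lit 5) (nat_lit 472) (nat_lit 441) (nat_lit 287)) (XT.lf (nat_lit 0) (nat_lit 114703959147) (nat_lit 152) (nat_lit 78255293567) (nat_lit 228) (nat_lit 216130571917) (nat_lit 56) (nat_lit 5) (nat_lit 58) (nat_lit 5) (nat_lit 59) (nat_lit 5) (nat_lit 473) (nat_lit 441) (nat_lit 286)))) (XT.nd (nat_lit 156) (nat_lit 304) (nat_lit 0) (XT.nd (nat_lit 78) (nat_lit 228) (nat_lit 0) (XT.lf (nat_lit 0) (nat_lit 94762677043) (nat_lit 76) (nat_lit 286207519717) (nat_lit 152) (nat_lit 49588064619) (nat_lit 55) (nat_lit 5) (nat_lit 56) (nat_lit 5) (nat_lit 57) (nat_lit 4) (nat_lit 474) (nat_lit 441) (nat_lit 285)) (XT.lf (nat_lit 0) (nat_lit 70898965758) (nat_lit 152) (nat_lit 62847487243) (nat_lit 228) (nat_lit 319514104249) (nat_lit 52) (nat_lit 5) (nat_lit 54) (nat_lit 5) (nat_lit 55) (nat_lit 5) (nat_lit 475) (nat_lit 441) (nat_lit 284))) (XT.nd (nat_lit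 78) (nat_lit 228) (nat_lit 0) (XT.lf (nat_lit 0) (nat_lit 42269073710) (nat_lit 76) (nat_lit 297154550758) (nat_lit 152) (nat_lit 137844105551) (nat_lit 51) (nat_lit 5) (nat_lit 52) (nat_lit 5) (nat_lit 53) (nat_lit 4) (nat_lit 476) (nat_lit 441) (nat_lit 283)) (XT.lf (nat_lit 0) (nat_lit 9898099540) (nat_lit 152) (nat_lit 54577258701) (nat_lit 228) (nat_lit 438275373944) (nat_lit 48) (nat_lit 5) (nat_lit 50) (nat_lit 5) (nat_lit 51) (nat_lit 5) (nat_lit 477) (nat_lit 441) (nat_lit 282))))) (XT.nd (nat_lit 234) (nat_lit 456) (nat_lit 0) (XT.nd (nat_lit 78) (nat_lit 228) (nat_lit 0) (XT.lf (nat_lit 0) (nat_lit 289155164293) (nat_lit 228) (nat_lit 29660336712) (nat_lit 76) (nat_lit 210793678002) (nat_lit 48) (nat_lit 5) (nat_lit 51) (nat_lit 5) (nat_lit 49) (nat_lit 4) (nat_lit 478) (nat_lit 441) (nat_lit 281)) (XT.nd (nat_lit 78) (nat_lit 152) (nat_lit 0) (XT.lf (nat_lit 0) (nat_lit 485196027099)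 (nat_lit 76) (nat_lit 55108683928) (nat_lit 152) (nat_lit 17886822747) (nat_lit 47) (nat_lit 5) (nat_lit 48) (nat_lit 5) (nat_lit 49) (nat_lit 4) (nat_lit 479) (nat_lit 441) (nat_lit 280)) (XT.lf (nat_lit 0) (nat_lit 226914985159) (nat_lit 152) (nat_lit 127613634869) (nat_lit 76) (nat_lit 233780666911) (nat_lit 45) (nat_lit 5) (nat_lit 47) (nat_lit 5) (nat_lit 46) (nat_lit 4) (nat_lit 480) (nat_lit 441) (nat_lit 279)))) (XT.nd (nat_lit 156) (nat_lit 228) (nat_lit 0) (XT.nd (nat_lit 78) (nat_lit 152) (nat_lit 0) (XT.lf (nat_lit 0) (nat_lit 431473707745) (nat_lit 76) (nat_lit 68166892841) (nat_lit 152) (nat_lit 120732881947) (nat_lit 44) (nat_lit 5) (nat_lit 45) (nat_lit 5) (nat_lit 46) (nat_lit 4) (nat_lit 481) (nat_lit 441) (nat_lit 278)) (XT.lf (nat_lit 0) (nat_lit 147097447241) (nat_lit 152) (nat_lit 263011833109) (nat_lit 76) (nat_lit 244166349237) (nat_lit 42) (nat_lit 5) (nat_lit 44) (nat_lit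 5) (nat_lit 43) (nat_lit 4) (nat_lit 482) (nat_lit 441) (nat_lit 277))) (XT.nd (nat_lit 78) (nat_lit 152) (nat_lit 0) (XT.lf (nat_lit 0) (nat_lit 341552958126) (nat_lit 76) (nat_lit 100454210694) (nat_lit 152) (nat_lit 248289675306) (nat_lit 41) (nat_lit 5) (nat_lit 42) (nat_lit 5) (nat_lit 43) (nat_lit 4) (nat_lit 483) (nat_lit 441) (nat_lit 276)) (XT.lf (nat_lit 0) (nat_lit 43198949730) (nat_lit 152) (nat_lit 449120120418) (nat_lit 76) (nat_lit 236211686403) (nat_lit 39) (nat_lit 5) (nat_lit 41) (nat_lit 5) (nat_lit 40) (nat_lit 4) (nat_lit 484) (nat_lit 441) (nat_lit 275))))))) (XT.nd (nat_lit 59280) (nat_lit 0) (nat_lit 5624) (XT.nd (nat_lit 546) (nat_lit 456) (nat_lit 0) (XT.nd (nat_lit 234) (nat_lit 380) (nat_lit 0) (XT.nd (nat_lit 78) (nat_lit 152) (nat_lit 0) (XT.lf (nat_lit 0) (nat_lit 201211082207) (nat_lit 76) (nat_lit 159222655477) (nat_lit 152) (nat_lit 408629831483) (nat_lit 38)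 (nat_lit 5) (nat_lit 39) (nat_lit 5) (nat_lit 40) (nat_lit 4) (nat_lit 485) (nat_lit 441) (nat_lit 274)) (XT.nd (nat_lit 78) (nat_lit 76) (nat_lit 0) (XT.lf (nat_lit 0) (nat_lit 107335026481) (nat_lit 76) (nat_lit 608470271092) (nat_lit 76) (nat_lit 96395809778) (nat_lit 37) (nat_lit 4) (nat_lit 38) (nat_lit 5) (nat_lit 38) (nat_lit 4) (nat_lit 486) (nat_lit 441) (nat_lit 273)) (XT.lf (nat_lit 0) (nat_lit 245847710057) (nat_lit 152) (nat_lit 8086747699) (nat_lit 76) (nat_lit 604030278365) (nat_lit 36) (nat_lit 5) (nat_lit 38) (nat_lit 5) (nat_lit 37) (nat_lit 4) (nat_lit 487) (nat_lit 441) (nat_lit 272)))) (XT.nd (nat_lit 156) (nat_lit 152) (nat_lit 0) (XT.nd (nat_lit 78) (nat_lit 152) (nat_lit 0) (XT.lf (nat_lit 0) (nat_lit 626355826490) (nat_lit 152) (nat_lit 141575803442) (nat_lit 0) (nat_lit 138665694578) (nat_lit 35) (nat_lit 5) (nat_lit 37) (nat_lit 4) (nat_lit 35) (nat_lit 4) (nat_lit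 488) (nat_lit 441) (nat_lit 271)) (XT.lf (nat_lit 0) (nat_lit 90619558393) (nat_lit 152) (nat_lit 301920112329) (nat_lit 76) (nat_lit 565772922391) (nat_lit 33) (nat_lit 5) (nat_lit 35) (nat_lit 5) (nat_lit 34) (nat_lit 4) (nat_lit 489) (nat_lit 441) (nat_lit 270))) (XT.nd (nat_lit 78) (nat_lit 76) (nat_lit 0) (XT.lf (nat_lit 0) (nat_lit 492558236970) (nat_lit 152) (nat_lit 492724481479) (nat_lit 0) (nat_lit 28091306881) (nat_lit 32) (nat_lit 5) (nat_lit 34) (nat_lit 4) (nat_lit 32) (nat_lit 4) (nat_lit 490) (nat_lit 441) (nat_lit 269)) (XT.lf (nat_lit 0) (nat_lit 351782682788) (nat_lit 76) (nat_lit 592325925424) (nat_lit 76) (nat_lit 127858933996) (nat_lit 31) (nat_lit 4) (nat_lit 32) (nat_lit 5) (nat_lit 32) (nat_lit 4) (nat_lit 491) (nat_lit 441) (nat_lit 268))))) (XT.nd (nat_lit 234) (nat_lit 152) (nat_lit 0) (XT.nd (nat_lit 78) (nat_lit 152) (nat_lit 0) (XT.lf (nat_lit 0) (nat_lit 146545767657)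 (nat_lit 76) (nat_lit 151509264479) (nat_lit 152) (nat_lit 836411445684) (nat_lit 29) (nat_lit 5) (nat_lit 30) (nat_lit 5) (nat_lit 31) (nat_lit 4) (nat_lit 492) (nat_lit 441) (nat_lit 267)) (XT.nd (nat_lit 78) (nat_lit 152) (nat_lit 0) (XT.lf (nat_lit 0) (nat_lit 771440637448) (nat_lit 152) (nat_lit 100434966995) (nat_lit 0) (nat_lit 329091017628) (nat_lit 29) (nat_lit 5) (nat_lit 31) (nat_lit 4) (nat_lit 29) (nat_lit 4) (nat_lit 493) (nat_lit 441) (nat_lit 266)) (XT.lf (nat_lit 0) (nat_lit 26214120342) (nat_lit 152) (nat_lit 388610719492) (nat_lit 76) (nat_lit 857123151697) (nat_lit 27) (nat_lit 5) (nat_lit 29) (nat_lit 5) (nat_lit 28) (nat_lit 4) (nat_lit 494) (nat_lit 441) (nat_lit 265)))) (XT.nd (nat_lit 58344) (nat_lit 0) (nat_lit 8512) (XT.nd (nat_lit 78) (nat_lit 76) (nat_lit 0) (XT.lf (nat_lit 0) (nat_lit 516453465460) (nat_lit 152) (nat_lit 735979879922) (nat_lit 0) (nat_lit 95168028190)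 (nat_lit 26) (nat_lit 5) (nat_lit 28) (nat_lit 4) (nat_lit 26) (nat_lit 4) (nat_lit 495) (nat_lit 441) (nat_lit 264)) (XT.lf (nat_lit 0) (nat_lit 278591685796) (nat_lit 76) (nat_lit 785544794701) (nat_lit 76) (nat_lit 364259319566) (nat_lit 25) (nat_lit 4) (nat_lit 26) (nat_lit 5) (nat_lit 26) (nat_lit 4) (nat_lit 496) (nat_lit 441) (nat_lit 263))) (XT.nd (nat_lit 78) (nat_lit 0) (nat_lit 76) (XT.lf (nat_lit 0) (nat_lit 19962097458) (nat_lit 836) (nat_lit 15748818710) (nat_lit 836) (nat_lit 15748818710) (nat_lit 137) (nat_lit 3) (nat_lit 148) (nat_lit 3) (nat_lit 148) (nat_lit 5) (nat_lit 442) (nat_lit 442) (nat_lit 316)) (XT.lf (nat_lit 0) (nat_lit 42477391982) (nat_lit 760) (nat_lit 55652845149) (nat_lit 836) (nat_lit 8858197738) (nat_lit 138) (nat_lit 5) (nat_lit 148) (nat_lit 5) (nat_lit 149) (nat_lit 5) (nat_lit 443) (nat_lit 442) (nat_lit 315)))))) (XT.nd (nat_lit 546) (nat_lit 2052)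 (nat_lit 0) (XT.nd (nat_lit 234) (nat_lit 912) (nat_lit 0) (XT.nd (nat_lit 78) (nat_lit 0) (nat_lit 76) (XT.lf (nat_lit 76) (nat_lit 30321365783) (nat_lit 0) (nat_lit 17147892528) (nat_lit 836) (nat_lit 63801938427) (nat_lit 139) (nat_lit 5) (nat_lit 138) (nat_lit 5) (nat_lit 149) (nat_lit 5) (nat_lit 444) (nat_lit 442) (nat_lit 314)) (XT.nd (nat_lit 78) (nat_lit 0) (nat_lit 76) (XT.lf (nat_lit 76) (nat_lit 8469556509) (nat_lit 0) (nat_lit 46605377449) (nat_lit 836) (nat_lit 60710922804) (nat_lit 140) (nat_lit 5) (nat_lit 139) (nat_lit 5) (nat_lit 150) (nat_lit 5) (nat_lit 445) (nat_lit 442) (nat_lit 313)) (XT.lf (nat_lit 0) (nat_lit 65648712434) (nat_lit 760) (nat_lit 13608994877) (nat_lit 836) (nat_lit 41286000025) (nat_lit 140) (nat_lit 5) (nat_lit 150) (nat_lit 5) (nat_lit 151) (nat_lit 5) (nat_lit 446) (nat_lit 442) (nat_lit 312)))) (XT.nd (nat_lit 156) (nat_lit 1140) (nat_lit 0) (XT.nd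 (nat_lit 78) (nat_lit 0) (nat_lit 0) (XT.lf (nat_lit 0) (nat_lit 79416382928) (nat_lit 760) (nat_lit 36056938488) (nat_lit 836) (nat_lit 10091465231) (nat_lit 141) (nat_lit 5) (nat_lit 151) (nat_lit 5) (nat_lit 152) (nat_lit 5) (nat_lit 447) (nat_lit 442) (nat_lit 311)) (XT.lf (nat_lit 76) (nat_lit 71326298138) (nat_lit 0) (nat_lit 25649434654) (nat_lit 836) (nat_lit 33877306387) (nat_lit 142) (nat_lit 5) (nat_lit 141) (nat_lit 5) (nat_lit 152) (nat_lit 5) (nat_lit 448) (nat_lit 442) (nat_lit 310))) (XT.nd (nat_lit 78) (nat_lit 456) (nat_lit 0) (XT.lf (nat_lit 0) (nat_lit 52613770344) (nat_lit 760) (nat_lit 65899361396) (nat_lit 836) (nat_lit 17922555269) (nat_lit 132) (nat_lit 5) (nat_lit 142) (nat_lit 5) (nat_lit 143) (nat_lit 5) (nat_lit 449) (nat_lit 442) (nat_lit 309)) (XT.lf (nat_lit 0) (nat_lit 1859901196) (nat_lit 456) (nat_lit 108785865362) (nat_lit 76) (nat_lit 31693260226) (nat_lit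 126) (nat_lit 5) (nat_lit 132) (nat_lit 5) (nat_lit 127) (nat_lit 5) (nat_lit 450) (nat_lit 442) (nat_lit 308))))) (XT.nd (nat_lit 234) (nat_lit 1292) (nat_lit 0) (XT.nd (nat_lit 78) (nat_lit 380) (nat_lit 0) (XT.lf (nat_lit 0) (nat_lit 13669457455) (nat_lit 380) (nat_lit 11744036046) (nat_lit 456) (nat_lit 123145626825) (nat_lit 121) (nat_lit 5) (nat_lit 126) (nat_lit 5) (nat_lit 127) (nat_lit 5) (nat_lit 451) (nat_lit 442) (nat_lit 307)) (XT.nd (nat_lit 78) (nat_lit 380) (nat_lit 0) (XT.lf (nat_lit 0) (nat_lit 54261161300) (nat_lit 456) (nat_lit 6892127456) (nat_lit 76) (nat_lit 93953043306) (nat_lit 121) (nat_lit 5) (nat_lit 127) (nat_lit 5) (nat_lit 122) (nat_lit 5) (nat_lit 452) (nat_lit 442) (nat_lit 306)) (XT.lf (nat_lit 0) (nat_lit 88474981369) (nat_lit 456) (nat_lit 27324316932) (nat_lit 76) (nat_lit 46225105597) (nat_lit 116) (nat_lit 5) (nat_lit 122) (nat_lit 5) (nat_lit 117) (nat_lit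 5) (nat_lit 453) (nat_lit 442) (nat_lit 305)))) (XT.nd (nat_lit 156) (nat_lit 684) (nat_lit 0) (XT.nd (nat_lit 78) (nat_lit 304) (nat_lit 0) (XT.lf (nat_lit 0) (nat_lit 121222060904) (nat_lit 304) (nat_lit 7249151191) (nat_lit 380) (nat_lit 40872444231) (nat_lit 112) (nat_lit 5) (nat_lit 116) (nat_lit 5) (nat_lit 117) (nat_lit 5) (nat_lit 454) (nat_lit 442) (nat_lit 304)) (XT.lf (nat_lit 0) (nat_lit 107105766016) (nat_lit 304) (nat_lit 68434080816) (nat_lit 380) (nat_lit 1514966930) (nat_lit 108) (nat_lit 5) (nat_lit 112) (nat_lit 5) (nat_lit 113) (nat_lit 5) (nat_lit 455) (nat_lit 442) (nat_lit 303))) (XT.nd (nat_lit 78) (nat_lit 304) (nat_lit 0) (XT.lf (nat_lit 0) (nat_lit 42910045115) (nat_lit 380) (nat_lit 92689425796) (nat_lit 76) (nat_lit 49589848256) (nat_lit 103) (nat_lit 5) (nat_lit 108) (nat_lit 5) (nat_lit 104) (nat_lit 5) (nat_lit 456) (nat_lit 442) (nat_lit 302)) (XT.lf (nat_lit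 0) (nat_lit 77819679841) (nat_lit 304) (nat_lit 16623937549) (nat_lit 380) (nat_lit 99349344096) (nat_lit 99) (nat_lit 5) (nat_lit 103) (nat_lit 5) (nat_lit 104) (nat_lit 5) (nat_lit 457) (nat_lit 442) (nat_lit 301))))))))
noncomputable def xc105 : XT := (XT.nd (nat_lit 2184) (nat_lit 988) (nat_lit 0) (XT.nd (nat_lit 1092) (nat_lit 1748) (nat_lit 0) (XT.nd (nat_lit 546) (nat_lit 1368) (nat_lit 0) (XT.nd (nat_lit 234) (nat_lit 684) (nat_lit 0) (XT.nd (nat_lit 78) (nat_lit 532) (nat_lit 0) (XT.lf (nat_lit 0) (nat_lit 62502115298) (nat_lit 228) (nat_lit 91960849702) (nat_lit 304) (nat_lit 48403775780) (nat_lit 96) (nat_lit 5) (nat_lit 99) (nat_lit 5) (nat_lit 100) (nat_lit 5) (nat_lit 458) (nat_lit 442) (nat_lit 300)) (XT.nd (nat_lit 78) (nat_lit 228) (nat_lit 0) (XT.lf (nat_lit 0) (nat_lit 10087967802) (nat_lit 304) (nat_lit 165158759324) (nat_lit 76) (nat_lit 37230413058) (nat_lit 92) (nat_lit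 5) (nat_lit 96) (nat_lit 5) (nat_lit 93) (nat_lit 5) (nat_lit 459) (nat_lit 442) (nat_lit 299)) (XT.lf (nat_lit 0) (nat_lit 30875076758) (nat_lit 228) (nat_lit 45228264924) (nat_lit 304) (nat_lit 146486348521) (nat_lit 89) (nat_lit 5) (nat_lit 92) (nat_lit 5) (nat_lit 93) (nat_lit 5) (nat_lit 460) (nat_lit 442) (nat_lit 298)))) (XT.nd (nat_lit 156) (nat_lit 456) (nat_lit 0) (XT.nd (nat_lit 78) (nat_lit 0) (nat_lit 0) (XT.lf (nat_lit 0) (nat_lit 14037392651) (nat_lit 228) (nat_lit 137991697337) (nat_lit 304) (nat_lit 81250697062) (nat_lit 86) (nat_lit 5) (nat_lit 89) (nat_lit 5) (nat_lit 90) (nat_lit 5) (nat_lit 461) (nat_lit 442) (nat_lit 297)) (XT.lf (nat_lit 0) (nat_lit 238183842054) (nat_lit 304) (nat_lit 2378721983) (nat_lit 76) (nat_lit 4054780461) (nat_lit 86) (nat_lit 5) (nat_lit 90) (nat_lit 5) (nat_lit 87) (nat_lit 5) (nat_lit 462) (nat_lit 442) (nat_lit 296))) (XT.nd (nat_lit 78)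 (nat_lit 228) (nat_lit 0) (XT.lf (nat_lit 0) (nat_lit 78115821567) (nat_lit 228) (nat_lit 20725109811) (nat_lit 76) (nat_lit 157656568305) (nat_lit 83) (nat_lit 5) (nat_lit 86) (nat_lit 5) (nat_lit 84) (nat_lit 5) (nat_lit 463) (nat_lit 442) (nat_lit 295)) (XT.lf (nat_lit 0) (nat_lit 173763473818) (nat_lit 304) (nat_lit 39029331541) (nat_lit 76) (nat_lit 56301999555) (nat_lit 80) (nat_lit 5) (nat_lit 84) (nat_lit 5) (nat_lit 81) (nat_lit 5) (nat_lit 464) (nat_lit 442) (nat_lit 294))))) (XT.nd (nat_lit 234) (nat_lit 760) (nat_lit 0) (XT.nd (nat_lit 78) (nat_lit 380) (nat_lit 0) (XT.lf (nat_lit 0) (nat_lit 172453686) (nat_lit 228) (nat_lit 57936152613) (nat_lit 76) (nat_lit 224314239125) (nat_lit 77) (nat_lit 5) (nat_lit 80) (nat_lit 5) (nat_lit 78) (nat_lit 5) (nat_lit 465) (nat_lit 442) (nat_lit 293)) (XT.nd (nat_lit 78) (nat_lit 152) (nat_lit 0) (XT.lf (nat_lit 0) (nat_lit 105927329208) (nat_lit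 304) (nat_lit 79238240826) (nat_lit 76) (nat_lit 111275882066) (nat_lit 74) (nat_lit 5) (nat_lit 78) (nat_lit 5) (nat_lit 75) (nat_lit 5) (nat_lit 466) (nat_lit 442) (nat_lit 292)) (XT.lf (nat_lit 0) (nat_lit 210636410471) (nat_lit 152) (nat_lit 14800117494) (nat_lit 228) (nat_lit 85880322713) (nat_lit 72) (nat_lit 5) (nat_lit 74) (nat_lit 5) (nat_lit 75) (nat_lit 5) (nat_lit 467) (nat_lit 442) (nat_lit 291)))) (XT.nd (nat_lit 156) (nat_lit 380) (nat_lit 0) (XT.nd (nat_lit 78) (nat_lit 152) (nat_lit 0) (XT.lf (nat_lit 0) (nat_lit 33588767871) (nat_lit 228) (nat_lit 124511701877) (nat_lit 76) (nat_lit 168894000717) (nat_lit 69) (nat_lit 5) (nat_lit 72) (nat_lit 5) (nat_lit 70) (nat_lit 5) (nat_lit 468) (nat_lit 442) (nat_lit 290)) (XT.lf (nat_lit 0) (nat_lit 165169275125) (nat_lit 228) (nat_lit 149917625349) (nat_lit 76) (nat_lit 28490869800) (nat_lit 67) (nat_lit 5) (nat_lit 70) (nat_lit 5)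 (nat_lit 68) (nat_lit 5) (nat_lit 469) (nat_lit 442) (nat_lit 289))) (XT.nd (nat_lit 78) (nat_lit 228) (nat_lit 0) (XT.lf (nat_lit 0) (nat_lit 183524846266) (nat_lit 152) (nat_lit 131486811215) (nat_lit 228) (nat_lit 46089304881) (nat_lit 65) (nat_lit 5) (nat_lit 67) (nat_lit 5) (nat_lit 68) (nat_lit 5) (nat_lit 470) (nat_lit 442) (nat_lit 288)) (XT.lf (nat_lit 0) (nat_lit 100228676050) (nat_lit 228) (nat_lit 207752301148) (nat_lit 76) (nat_lit 71643856963) (nat_lit 62) (nat_lit 5) (nat_lit 65) (nat_lit 5) (nat_lit 63) (nat_lit 5) (nat_lit 471) (nat_lit 442) (nat_lit 287)))))) (XT.nd (nat_lit 546) (nat_lit 684) (nat_lit 0) (XT.nd (nat_lit 234) (nat_lit 608) (nat_lit 0) (XT.nd (nat_lit 78) (nat_lit 304) (nat_lit 0) (XT.lf (nat_lit 0) (nat_lit 158159035590) (nat_lit 152) (nat_lit 106330068248) (nat_lit 228) (nat_lit 134711146107) (nat_lit 60) (nat_lit 5) (nat_lit 62) (nat_lit 5) (nat_lit 63)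 (nat_lit 5) (nat_lit 472) (nat_lit 442) (nat_lit 286)) (XT.nd (nat_lit 78) (nat_lit 152) (nat_lit 0) (XT.lf (nat_lit 0) (nat_lit 28641350266) (nat_lit 152) (nat_lit 277029907374) (nat_lit 76) (nat_lit 114264500849) (nat_lit 58) (nat_lit 5) (nat_lit 60) (nat_lit 5) (nat_lit 59) (nat_lit 5) (nat_lit 473) (nat_lit 442) (nat_lit 285)) (XT.lf (nat_lit 0) (nat_lit 123887603001) (nat_lit 152) (nat_lit 84512480544) (nat_lit 228) (nat_lit 233416722235) (nat_lit 56) (nat_lit 5) (nat_lit 58) (nat_lit 5) (nat_lit 59) (nat_lit 5) (nat_lit 474) (nat_lit 442) (nat_lit 284)))) (XT.nd (nat_lit 156) (nat_lit 304) (nat_lit 0) (XT.nd (nat_lit 78) (nat_lit 228) (nat_lit 0) (XT.lf (nat_lit 0) (nat_lit 102350847486) (nat_lit 76) (nat_lit 309100911138) (nat_lit 152) (nat_lit 53550966090) (nat_lit 55) (nat_lit 5) (nat_lit 56) (nat_lit 5) (nat_lit 57) (nat_lit 4) (nat_lit 475) (nat_lit 442) (nat_lit 283)) (XT.lf (nat_lit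 0) (nat_lit 76577855401) (nat_lit 152) (nat_lit 67872136656) (nat_lit 228) (nat_lit 345071218395) (nat_lit 52) (nat_lit 5) (nat_lit 54) (nat_lit 5) (nat_lit 55) (nat_lit 5) (nat_lit 476) (nat_lit 442) (nat_lit 282))) (XT.nd (nat_lit 78) (nat_lit 228) (nat_lit 0) (XT.lf (nat_lit 0) (nat_lit 45657405002) (nat_lit 76) (nat_lit 320923800850) (nat_lit 152) (nat_lit 148867757777) (nat_lit 51) (nat_lit 5) (nat_lit 52) (nat_lit 5) (nat_lit 53) (nat_lit 4) (nat_lit 477) (nat_lit 442) (nat_lit 281)) (XT.lf (nat_lit 0) (nat_lit 10696576016) (nat_lit 152) (nat_lit 58940388591) (nat_lit 228) (nat_lit 473333647073) (nat_lit 48) (nat_lit 5) (nat_lit 50) (nat_lit 5) (nat_lit 51) (nat_lit 5) (nat_lit 478) (nat_lit 442) (nat_lit 280))))) (XT.nd (nat_lit 234) (nat_lit 456) (nat_lit 0) (XT.nd (nat_lit 78) (nat_lit 228) (nat_lit 0) (XT.lf (nat_lit 0) (nat_lit 312290934232) (nat_lit 228) (nat_lit 32026904426) (nat_lit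 76) (nat_lit 227659906650) (nat_lit 48) (nat_lit 5) (nat_lit 51) (nat_lit 5) (nat_lit 49) (nat_lit 4) (nat_lit 479) (nat_lit 442) (nat_lit 279)) (XT.nd (nat_lit 78) (nat_lit 152) (nat_lit 0) (XT.lf (nat_lit 0) (nat_lit 524017696471) (nat_lit 76) (nat_lit 59514593058) (nat_lit 152) (nat_lit 19314406699) (nat_lit 47) (nat_lit 5) (nat_lit 48) (nat_lit 5) (nat_lit 49) (nat_lit 4) (nat_lit 480) (nat_lit 442) (nat_lit 278)) (XT.lf (nat_lit 0) (nat_lit 245071330764) (nat_lit 152) (nat_lit 137816782774) (nat_lit 76) (nat_lit 252485758870) (nat_lit 45) (nat_lit 5) (nat_lit 47) (nat_lit 5) (nat_lit 46) (nat_lit 4) (nat_lit 481) (nat_lit 442) (nat_lit 277)))) (XT.nd (nat_lit 156) (nat_lit 228) (nat_lit 0) (XT.nd (nat_lit 78) (nat_lit 152) (nat_lit 0) (XT.lf (nat_lit 0) (nat_lit 465997288978) (nat_lit 76) (nat_lit 73617562105) (nat_lit 152) (nat_lit 130388359796) (nat_lit 44) (nat_lit 5) (nat_lit 45) (nat_lit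 5) (nat_lit 46) (nat_lit 4) (nat_lit 482) (nat_lit 442) (nat_lit 276)) (XT.lf (nat_lit 0) (nat_lit 158868196104) (nat_lit 152) (nat_lit 284047140757) (nat_lit 76) (nat_lit 263702195318) (nat_lit 42) (nat_lit 5) (nat_lit 44) (nat_lit 5) (nat_lit 43) (nat_lit 4) (nat_lit 483) (nat_lit 442) (nat_lit 275))) (XT.nd (nat_lit 78) (nat_lit 152) (nat_lit 0) (XT.lf (nat_lit 0) (nat_lit 368882588713) (nat_lit 76) (nat_lit 108487972164) (nat_lit 152) (nat_lit 268149889741) (nat_lit 41) (nat_lit 5) (nat_lit 42) (nat_lit 5) (nat_lit 43) (nat_lit 4) (nat_lit 484) (nat_lit 442) (nat_lit 274)) (XT.lf (nat_lit 0) (nat_lit 46657639608) (nat_lit 152) (nat_lit 485044382266) (nat_lit 76) (nat_lit 255111056410) (nat_lit 39) (nat_lit 5) (nat_lit 41) (nat_lit 5) (nat_lit 40) (nat_lit 4) (nat_lit 485) (nat_lit 442) (nat_lit 273))))))) (XT.nd (nat_lit 59358) (nat_lit 0) (nat_lit 5016) (XT.nd (nat_lit 546) (nat_lit 380)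 (nat_lit 0) (XT.nd (nat_lit 234) (nat_lit 380) (nat_lit 0) (XT.nd (nat_lit 78) (nat_lit 152) (nat_lit 0) (XT.lf (nat_lit 0) (nat_lit 217313084160) (nat_lit 76) (nat_lit 171958000828) (nat_lit 152) (nat_lit 441317437206) (nat_lit 38) (nat_lit 5) (nat_lit 39) (nat_lit 5) (nat_lit 40) (nat_lit 4) (nat_lit 486) (nat_lit 442) (nat_lit 272)) (XT.nd (nat_lit 78) (nat_lit 76) (nat_lit 0) (XT.lf (nat_lit 0) (nat_lit 115926811571) (nat_lit 76) (nat_lit 657145475391) (nat_lit 76) (nat_lit 104104780613) (nat_lit 37) (nat_lit 4) (nat_lit 38) (nat_lit 5) (nat_lit 38) (nat_lit 4) (nat_lit 487) (nat_lit 442) (nat_lit 271)) (XT.lf (nat_lit 0) (nat_lit 265517941421) (nat_lit 152) (nat_lit 8728993743) (nat_lit 76) (nat_lit 652354859046) (nat_lit 36) (nat_lit 5) (nat_lit 38) (nat_lit 5) (nat_lit 37) (nat_lit 4) (nat_lit 488) (nat_lit 442) (nat_lit 270)))) (XT.nd (nat_lit 156) (nat_lit 152) (nat_lit 0) (XT.nd (nat_lit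 78) (nat_lit 152) (nat_lit 0) (XT.lf (nat_lit 0) (nat_lit 676466632508) (nat_lit 152) (nat_lit 152897296670) (nat_lit 0) (nat_lit 149761064229) (nat_lit 35) (nat_lit 5) (nat_lit 37) (nat_lit 4) (nat_lit 35) (nat_lit 4) (nat_lit 489) (nat_lit 442) (nat_lit 269)) (XT.lf (nat_lit 0) (nat_lit 97871394600) (nat_lit 152) (nat_lit 326069273753) (nat_lit 76) (nat_lit 611036818571) (nat_lit 33) (nat_lit 5) (nat_lit 35) (nat_lit 5) (nat_lit 34) (nat_lit 4) (nat_lit 490) (nat_lit 442) (nat_lit 268))) (XT.nd (nat_lit 78) (nat_lit 76) (nat_lit 0) (XT.lf (nat_lit 0) (nat_lit 531965098169) (nat_lit 152) (nat_lit 532138109727) (nat_lit 0) (nat_lit 30340629293) (nat_lit 32) (nat_lit 5) (nat_lit 34) (nat_lit 4) (nat_lit 32) (nat_lit 4) (nat_lit 491) (nat_lit 442) (nat_lit 267)) (XT.lf (nat_lit 0) (nat_lit 379929439493) (nat_lit 76) (nat_lit 639709961158) (nat_lit 76) (nat_lit 138085439693) (nat_lit 31) (nat_lit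 4) (nat_lit 32) (nat_lit 5) (nat_lit 32) (nat_lit 4) (nat_lit 492) (nat_lit 442) (nat_lit 266))))) (XT.nd (nat_lit 234) (nat_lit 76) (nat_lit 0) (XT.nd (nat_lit 78) (nat_lit 152) (nat_lit 0) (XT.lf (nat_lit 0) (nat_lit 158273458819) (nat_lit 76) (nat_lit 163628018729) (nat_lit 152) (nat_lit 903322216309) (nat_lit 29) (nat_lit 5) (nat_lit 30) (nat_lit 5) (nat_lit 31) (nat_lit 4) (nat_lit 493) (nat_lit 442) (nat_lit 265)) (XT.nd (nat_lit 78) (nat_lit 152) (nat_lit 0) (XT.lf (nat_lit 0) (nat_lit 833157808688) (nat_lit 152) (nat_lit 108465967210) (nat_lit 0) (nat_lit 355420079885) (nat_lit 29) (nat_lit 5) (nat_lit 31) (nat_lit 4) (nat_lit 29) (nat_lit 4) (nat_lit 494) (nat_lit 442) (nat_lit 264)) (XT.lf (nat_lit 0) (nat_lit 28313114795) (nat_lit 152) (nat_lit 419695883229) (nat_lit 76) (nat_lit 925694739551) (nat_lit 27) (nat_lit 5) (nat_lit 29) (nat_lit 5) (nat_lit 28) (nat_lit 4) (nat_lit 495)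 (nat_lit 442) (nat_lit 263)))) (XT.nd (nat_lit 58422) (nat_lit 0) (nat_lit 8512) (XT.nd (nat_lit 58344) (nat_lit 0) (nat_lit 8436) (XT.lf (nat_lit 0) (nat_lit 557771551898) (nat_lit 152) (nat_lit 794854675241) (nat_lit 0) (nat_lit 102783165826) (nat_lit 26) (nat_lit 5) (nat_lit 28) (nat_lit 4) (nat_lit 26) (nat_lit 4) (nat_lit 496) (nat_lit 442) (nat_lit 262)) (XT.lf (nat_lit 0) (nat_lit 21568356776) (nat_lit 836) (nat_lit 17003845078) (nat_lit 836) (nat_lit 17003845078) (nat_lit 137) (nat_lit 3) (nat_lit 148) (nat_lit 3) (nat_lit 148) (nat_lit 5) (nat_lit 443) (nat_lit 443) (nat_lit 314))) (XT.nd (nat_lit 78) (nat_lit 0) (nat_lit 0) (XT.lf (nat_lit 0) (nat_lit 45892810409) (nat_lit 760) (nat_lit 60094741788) (nat_lit 836) (nat_lit 9559092108) (nat_lit 138) (nat_lit 5) (nat_lit 148) (nat_lit 5) (nat_lit 149) (nat_lit 5) (nat_lit 444) (nat_lit 443) (nat_lit 313)) (XT.lf (nat_lit 76) (nat_lit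 32756957048) (nat_lit 0) (nat_lit 18525947204) (nat_lit 836) (nat_lit 68889179258) (nat_lit 139) (nat_lit 5) (nat_lit 138) (nat_lit 5) (nat_lit 149) (nat_lit 5) (nat_lit 445) (nat_lit 443) (nat_lit 312)))))) (XT.nd (nat_lit 546) (nat_lit 2204) (nat_lit 0) (XT.nd (nat_lit 234) (nat_lit 1368) (nat_lit 0) (XT.nd (nat_lit 78) (nat_lit 0) (nat_lit 76) (XT.lf (nat_lit 76) (nat_lit 9157440322) (nat_lit 0) (nat_lit 50338471791) (nat_lit 836) (nat_lit 65552060587) (nat_lit 140) (nat_lit 5) (nat_lit 139) (nat_lit 5) (nat_lit 150) (nat_lit 5) (nat_lit 446) (nat_lit 443) (nat_lit 311)) (XT.nd (nat_lit 78) (nat_lit 0) (nat_lit 76) (XT.lf (nat_lit 0) (nat_lit 70914415558) (nat_lit 760) (nat_lit 14687395287) (nat_lit 836) (nat_lit 44584699597) (nat_lit 140) (nat_lit 5) (nat_lit 150) (nat_lit 5) (nat_lit 151) (nat_lit 5) (nat_lit 447) (nat_lit 443) (nat_lit 310)) (XT.lf (nat_lit 0) (nat_lit 85782583242) (nat_lit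 760) (nat_lit 38930925145) (nat_lit 836) (nat_lit 10895813767) (nat_lit 141) (nat_lit 5) (nat_lit 151) (nat_lit 5) (nat_lit 152) (nat_lit 5) (nat_lit 448) (nat_lit 443) (nat_lit 309)))) (XT.nd (nat_lit 156) (nat_lit 836) (nat_lit 0) (XT.nd (nat_lit 78) (nat_lit 684) (nat_lit 0) (XT.lf (nat_lit 76) (nat_lit 77042511121) (nat_lit 0) (nat_lit 27703373016) (nat_lit 836) (nat_lit 36574790818) (nat_lit 142) (nat_lit 5) (nat_lit 141) (nat_lit 5) (nat_lit 152) (nat_lit 5) (nat_lit 449) (nat_lit 443) (nat_lit 308)) (XT.lf (nat_lit 0) (nat_lit 56833152359) (nat_lit 760) (nat_lit 71172358715) (nat_lit 836) (nat_lit 19344461936) (nat_lit 132) (nat_lit 5) (nat_lit 142) (nat_lit 5) (nat_lit 143) (nat_lit 5) (nat_lit 450) (nat_lit 443) (nat_lit 307))) (XT.nd (nat_lit 78) (nat_lit 380) (nat_lit 0) (XT.lf (nat_lit 0) (nat_lit 2019506664) (nat_lit 456) (nat_lit 117477981323) (nat_lit 76) (nat_lit 34228118048)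 (nat_lit 126) (nat_lit 5) (nat_lit 132) (nat_lit 5) (nat_lit 127) (nat_lit 5) (nat_lit 451) (nat_lit 443) (nat_lit 306)) (XT.lf (nat_lit 0) (nat_lit 14773299995) (nat_lit 380) (nat_lit 12683445960) (nat_lit 456) (nat_lit 132986593291) (nat_lit 121) (nat_lit 5) (nat_lit 126) (nat_lit 5) (nat_lit 127) (nat_lit 5) (nat_lit 452) (nat_lit 443) (nat_lit 305))))) (XT.nd (nat_lit 312) (nat_lit 1216) (nat_lit 0) (XT.nd (nat_lit 156) (nat_lit 608) (nat_lit 0) (XT.nd (nat_lit 78) (nat_lit 380) (nat_lit 0) (XT.lf (nat_lit 0) (nat_lit 58611475257) (nat_lit 456) (nat_lit 7433502386) (nat_lit 76) (nat_lit 101469388024) (nat_lit 121) (nat_lit 5) (nat_lit 127) (nat_lit 5) (nat_lit 122) (nat_lit 5) (nat_lit 453) (nat_lit 443) (nat_lit 304)) (XT.lf (nat_lit 0) (nat_lit 95561863096) (nat_lit 456) (nat_lit 29500266763) (nat_lit 76) (nat_lit 49923780425) (nat_lit 116) (nat_lit 5) (nat_lit 122) (nat_lit 5) (nat_lit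 117) (nat_lit 5) (nat_lit 454) (nat_lit 443) (nat_lit 303))) (XT.nd (nat_lit 78) (nat_lit 304) (nat_lit 0) (XT.lf (nat_lit 0) (nat_lit 130929386907) (nat_lit 304) (nat_lit 7827896634) (nat_lit 380) (nat_lit 44133444934) (nat_lit 112) (nat_lit 5) (nat_lit 116) (nat_lit 5) (nat_lit 117) (nat_lit 5) (nat_lit 455) (nat_lit 443) (nat_lit 302)) (XT.lf (nat_lit 0) (nat_lit 115683757281) (nat_lit 304) (nat_lit 73907197389) (nat_lit 380) (nat_lit 1627846676) (nat_lit 108) (nat_lit 5) (nat_lit 112) (nat_lit 5) (nat_lit 113) (nat_lit 5) (nat_lit 456) (nat_lit 443) (nat_lit 301)))) (XT.nd (nat_lit 156) (nat_lit 532) (nat_lit 0) (XT.nd (nat_lit 78) (nat_lit 304) (nat_lit 0) (XT.lf (nat_lit 0) (nat_lit 46350477681) (nat_lit 380) (nat_lit 100094854256) (nat_lit 76) (nat_lit 53558749981) (nat_lit 103) (nat_lit 5) (nat_lit 108) (nat_lit 5) (nat_lit 104) (nat_lit 5) (nat_lit 457) (nat_lit 443) (nat_lit 300))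 (XT.lf (nat_lit 0) (nat_lit 84054557168) (nat_lit 304) (nat_lit 17951758707) (nat_lit 380) (nat_lit 107289720840) (nat_lit 99) (nat_lit 5) (nat_lit 103) (nat_lit 5) (nat_lit 104) (nat_lit 5) (nat_lit 458) (nat_lit 443) (nat_lit 299))) (XT.nd (nat_lit 78) (nat_lit 304) (nat_lit 0) (XT.lf (nat_lit 0) (nat_lit 67511497869) (nat_lit 228) (nat_lit 99315353534) (nat_lit 304) (nat_lit 52268885036) (nat_lit 96) (nat_lit 5) (nat_lit 99) (nat_lit 5) (nat_lit 100) (nat_lit 5) (nat_lit 459) (nat_lit 443) (nat_lit 298)) (XT.lf (nat_lit 0) (nat_lit 10901631313) (nat_lit 304) (nat_lit 178362133662) (nat_lit 76) (nat_lit 40211214111) (nat_lit 92) (nat_lit 5) (nat_lit 96) (nat_lit 5) (nat_lit 93) (nat_lit 5) (nat_lit 460) (nat_lit 443) (nat_lit 297))))))))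
noncomputable def xc106 : XT := (XT.nd (nat_lit 2184) (nat_lit 760) (nat_lit 0) (XT.nd (nat_lit 1092) (nat_lit 1596) (nat_lit 0) (XT.nd (nat_lit 546) (nat_lit 1216) (nat_lit 0) (XT.nd (nat_lit 234) (nat_lit 912) (nat_lit 0) (XT.nd (nat_lit 78) (nat_lit 228) (nat_lit 0) (XT.lf (nat_lit 0) (nat_lit 33354003992) (nat_lit 228) (nat_lit 48843879573) (nat_lit 304) (nat_lit 158198667193) (nat_lit 89) (nat_lit 5) (nat_lit 92) (nat_lit 5) (nat_lit 93) (nat_lit 5) (nat_lit 461) (nat_lit 443) (nat_lit 296)) (XT.nd (nat_lit 78) (nat_lit 0) (nat_lit 0) (XT.lf (nat_lit 0) (nat_lit 15169178919) (nat_lit 228) (nat_lit 149028223607) (nat_lit 304) (nat_lit 87744467356) (nat_lit 86) (nat_lit 5) (nat_lit 89) (nat_lit 5) (nat_lit 90) (nat_lit 5) (nat_lit 462) (nat_lit 443) (nat_lit 295)) (XT.lf (nat_lit 0) (nat_lit 257244132014) (nat_lit 304) (nat_lit 2560639072) (nat_lit 76) (nat_lit 4381681041) (nat_lit 86) (nat_lit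 5) (nat_lit 90) (nat_lit 5) (nat_lit 87) (nat_lit 5) (nat_lit 463) (nat_lit 443) (nat_lit 294)))) (XT.nd (nat_lit 156) (nat_lit 456) (nat_lit 0) (XT.nd (nat_lit 78) (nat_lit 228) (nat_lit 0) (XT.lf (nat_lit 0) (nat_lit 84370469030) (nat_lit 228) (nat_lit 22374923490) (nat_lit 76) (nat_lit 170271637345) (nat_lit 83) (nat_lit 5) (nat_lit 86) (nat_lit 5) (nat_lit 84) (nat_lit 5) (nat_lit 464) (nat_lit 443) (nat_lit 293)) (XT.lf (nat_lit 0) (nat_lit 187669699880) (nat_lit 304) (nat_lit 42143625857) (nat_lit 76) (nat_lit 60808805510) (nat_lit 80) (nat_lit 5) (nat_lit 84) (nat_lit 5) (nat_lit 81) (nat_lit 5) (nat_lit 465) (nat_lit 443) (nat_lit 292))) (XT.nd (nat_lit 78) (nat_lit 228) (nat_lit 0) (XT.lf (nat_lit 0) (nat_lit 191217748) (nat_lit 228) (nat_lit 62563177720) (nat_lit 76) (nat_lit 242262028625) (nat_lit 77) (nat_lit 5) (nat_lit 80) (nat_lit 5) (nat_lit 78) (nat_lit 5) (nat_lit 466) (nat_lit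 443) (nat_lit 291)) (XT.lf (nat_lit 0) (nat_lit 114406276658) (nat_lit 304) (nat_lit 85569582327) (nat_lit 76) (nat_lit 120180670693) (nat_lit 74) (nat_lit 5) (nat_lit 78) (nat_lit 5) (nat_lit 75) (nat_lit 5) (nat_lit 467) (nat_lit 443) (nat_lit 290))))) (XT.nd (nat_lit 234) (nat_lit 684) (nat_lit 0) (XT.nd (nat_lit 78) (nat_lit 380) (nat_lit 0) (XT.lf (nat_lit 0) (nat_lit 227494705669) (nat_lit 152) (nat_lit 15981268231) (nat_lit 228) (nat_lit 92745998153) (nat_lit 72) (nat_lit 5) (nat_lit 74) (nat_lit 5) (nat_lit 75) (nat_lit 5) (nat_lit 468) (nat_lit 443) (nat_lit 289)) (XT.nd (nat_lit 78) (nat_lit 152) (nat_lit 0) (XT.lf (nat_lit 0) (nat_lit 36280283843) (nat_lit 228) (nat_lit 134465255959) (nat_lit 76) (nat_lit 182408267138) (nat_lit 69) (nat_lit 5) (nat_lit 72) (nat_lit 5) (nat_lit 70) (nat_lit 5) (nat_lit 469) (nat_lit 443) (nat_lit 288)) (XT.lf (nat_lit 0) (nat_lit 178387059627) (nat_lit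 228) (nat_lit 161903808538) (nat_lit 76) (nat_lit 30772911203) (nat_lit 67) (nat_lit 5) (nat_lit 70) (nat_lit 5) (nat_lit 68) (nat_lit 5) (nat_lit 470) (nat_lit 443) (nat_lit 287)))) (XT.nd (nat_lit 156) (nat_lit 304) (nat_lit 0) (XT.nd (nat_lit 78) (nat_lit 228) (nat_lit 0) (XT.lf (nat_lit 0) (nat_lit 198213746737) (nat_lit 152) (nat_lit 142002879504) (nat_lit 228) (nat_lit 49772210929) (nat_lit 65) (nat_lit 5) (nat_lit 67) (nat_lit 5) (nat_lit 68) (nat_lit 5) (nat_lit 471) (nat_lit 443) (nat_lit 286)) (XT.lf (nat_lit 0) (nat_lit 108250918504) (nat_lit 228) (nat_lit 224365591575) (nat_lit 76) (nat_lit 77378113066) (nat_lit 62) (nat_lit 5) (nat_lit 65) (nat_lit 5) (nat_lit 63) (nat_lit 5) (nat_lit 472) (nat_lit 443) (nat_lit 285))) (XT.nd (nat_lit 78) (nat_lit 152) (nat_lit 0) (XT.lf (nat_lit 0) (nat_lit 170818352511) (nat_lit 152) (nat_lit 114833638483) (nat_lit 228) (nat_lit 145484090698)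 (nat_lit 60) (nat_lit 5) (nat_lit 62) (nat_lit 5) (nat_lit 63) (nat_lit 5) (nat_lit 473) (nat_lit 443) (nat_lit 284)) (XT.lf (nat_lit 0) (nat_lit 30936339970) (nat_lit 152) (nat_lit 299185732734) (nat_lit 76) (nat_lit 123408362111) (nat_lit 58) (nat_lit 5) (nat_lit 60) (nat_lit 5) (nat_lit 59) (nat_lit 5) (nat_lit 474) (nat_lit 443) (nat_lit 283)))))) (XT.nd (nat_lit 546) (nat_lit 760) (nat_lit 0) (XT.nd (nat_lit 234) (nat_lit 380) (nat_lit 0) (XT.nd (nat_lit 78) (nat_lit 304) (nat_lit 0) (XT.lf (nat_lit 0) (nat_lit 133804893068) (nat_lit 152) (nat_lit 91270704203) (nat_lit 228) (nat_lit 252086377371) (nat_lit 56) (nat_lit 5) (nat_lit 58) (nat_lit 5) (nat_lit 59) (nat_lit 5) (nat_lit 475) (nat_lit 443) (nat_lit 282)) (XT.nd (nat_lit 78) (nat_lit 228) (nat_lit 0) (XT.lf (nat_lit 0) (nat_lit 110545050641) (nat_lit 76) (nat_lit 333826231837) (nat_lit 152) (nat_lit 57831490823) (nat_lit 55) (nat_lit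 5) (nat_lit 56) (nat_lit 5) (nat_lit 57) (nat_lit 4) (nat_lit 476) (nat_lit 443) (nat_lit 281)) (XT.lf (nat_lit 0) (nat_lit 82710061527) (nat_lit 152) (nat_lit 73299207344) (nat_lit 228) (nat_lit 372673474342) (nat_lit 52) (nat_lit 5) (nat_lit 54) (nat_lit 5) (nat_lit 55) (nat_lit 5) (nat_lit 477) (nat_lit 443) (nat_lit 280)))) (XT.nd (nat_lit 156) (nat_lit 76) (nat_lit 0) (XT.nd (nat_lit 78) (nat_lit 228) (nat_lit 0) (XT.lf (nat_lit 0) (nat_lit 49315831932) (nat_lit 76) (nat_lit 346595035192) (nat_lit 152) (nat_lit 160773855167) (nat_lit 51) (nat_lit 5) (nat_lit 52) (nat_lit 5) (nat_lit 53) (nat_lit 4) (nat_lit 478) (nat_lit 443) (nat_lit 279)) (XT.lf (nat_lit 0) (nat_lit 11557984979) (nat_lit 152) (nat_lit 63653004104) (nat_lit 228) (nat_lit 511197118001) (nat_lit 48) (nat_lit 5) (nat_lit 50) (nat_lit 5) (nat_lit 51) (nat_lit 5) (nat_lit 479) (nat_lit 443) (nat_lit 278))) (XT.nd (nat_lit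 78) (nat_lit 76) (nat_lit 0) (XT.lf (nat_lit 0) (nat_lit 337277086881) (nat_lit 228) (nat_lit 34583690506) (nat_lit 76) (nat_lit 245875043497) (nat_lit 48) (nat_lit 5) (nat_lit 51) (nat_lit 5) (nat_lit 49) (nat_lit 4) (nat_lit 480) (nat_lit 443) (nat_lit 277)) (XT.lf (nat_lit 0) (nat_lit 565944245252) (nat_lit 76) (nat_lit 64273372314) (nat_lit 152) (nat_lit 20856676976) (nat_lit 47) (nat_lit 5) (nat_lit 48) (nat_lit 5) (nat_lit 49) (nat_lit 4) (nat_lit 481) (nat_lit 443) (nat_lit 276))))) (XT.nd (nat_lit 234) (nat_lit 380) (nat_lit 0) (XT.nd (nat_lit 78) (nat_lit 228) (nat_lit 0) (XT.lf (nat_lit 0) (nat_lit 264679735092) (nat_lit 152) (nat_lit 148837030332) (nat_lit 76) (nat_lit 272686881758) (nat_lit 45) (nat_lit 5) (nat_lit 47) (nat_lit 5) (nat_lit 46) (nat_lit 4) (nat_lit 482) (nat_lit 443) (nat_lit 275)) (XT.nd (nat_lit 78) (nat_lit 152) (nat_lit 0) (XT.lf (nat_lit 0) (nat_lit 503281945736)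 (nat_lit 76) (nat_lit 79504667550) (nat_lit 152) (nat_lit 140816725641) (nat_lit 44) (nat_lit 5) (nat_lit 45) (nat_lit 5) (nat_lit 46) (nat_lit 4) (nat_lit 483) (nat_lit 443) (nat_lit 274)) (XT.lf (nat_lit 0) (nat_lit 171580183586) (nat_lit 152) (nat_lit 306766077484) (nat_lit 76) (nat_lit 284800546992) (nat_lit 42) (nat_lit 5) (nat_lit 44) (nat_lit 5) (nat_lit 43) (nat_lit 4) (nat_lit 484) (nat_lit 443) (nat_lit 273)))) (XT.nd (nat_lit 156) (nat_lit 152) (nat_lit 0) (XT.nd (nat_lit 78) (nat_lit 152) (nat_lit 0) (XT.lf (nat_lit 0) (nat_lit 398397820241) (nat_lit 76) (nat_lit 117164801960) (nat_lit 152) (nat_lit 289599343549) (nat_lit 41) (nat_lit 5) (nat_lit 42) (nat_lit 5) (nat_lit 43) (nat_lit 4) (nat_lit 485) (nat_lit 443) (nat_lit 272)) (XT.lf (nat_lit 0) (nat_lit 50392628947) (nat_lit 152) (nat_lit 523843347984) (nat_lit 76) (nat_lit 275522028623) (nat_lit 39) (nat_lit 5) (nat_lit 41)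 (nat_lit 5) (nat_lit 40) (nat_lit 4) (nat_lit 486) (nat_lit 443) (nat_lit 271))) (XT.nd (nat_lit 78) (nat_lit 76) (nat_lit 0) (XT.lf (nat_lit 0) (nat_lit 234702516504) (nat_lit 76) (nat_lit 185712525765) (nat_lit 152) (nat_lit 476620448099) (nat_lit 38) (nat_lit 5) (nat_lit 39) (nat_lit 5) (nat_lit 40) (nat_lit 4) (nat_lit 487) (nat_lit 443) (nat_lit 270)) (XT.lf (nat_lit 0) (nat_lit 125205228591) (nat_lit 76) (nat_lit 709715040903) (nat_lit 76) (nat_lit 112430853438) (nat_lit 37) (nat_lit 4) (nat_lit 38) (nat_lit 5) (nat_lit 38) (nat_lit 4) (nat_lit 488) (nat_lit 443) (nat_lit 269))))))) (XT.nd (nat_lit 59436) (nat_lit 0) (nat_lit 4484) (XT.nd (nat_lit 546) (nat_lit 152) (nat_lit 0) (XT.nd (nat_lit 234) (nat_lit 304) (nat_lit 0) (XT.nd (nat_lit 78) (nat_lit 228) (nat_lit 0) (XT.lf (nat_lit 0) (nat_lit 286761446829) (nat_lit 152) (nat_lit 9423289090) (nat_lit 76) (nat_lit 704545098260) (nat_lit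 36) (nat_lit 5) (nat_lit 38) (nat_lit 5) (nat_lit 37) (nat_lit 4) (nat_lit 489) (nat_lit 443) (nat_lit 268)) (XT.nd (nat_lit 78) (nat_lit 152) (nat_lit 0) (XT.lf (nat_lit 0) (nat_lit 730585969195) (nat_lit 152) (nat_lit 165125161468) (nat_lit 0) (nat_lit 161743761854) (nat_lit 35) (nat_lit 5) (nat_lit 37) (nat_lit 4) (nat_lit 35) (nat_lit 4) (nat_lit 490) (nat_lit 443) (nat_lit 267)) (XT.lf (nat_lit 0) (nat_lit 105703053645) (nat_lit 152) (nat_lit 352151002586) (nat_lit 76) (nat_lit 659921532223) (nat_lit 33) (nat_lit 5) (nat_lit 35) (nat_lit 5) (nat_lit 34) (nat_lit 4) (nat_lit 491) (nat_lit 443) (nat_lit 266)))) (XT.nd (nat_lit 156) (nat_lit 152) (nat_lit 0) (XT.nd (nat_lit 78) (nat_lit 76) (nat_lit 0) (XT.lf (nat_lit 0) (nat_lit 574524194090) (nat_lit 152) (nat_lit 574705445995) (nat_lit 0) (nat_lit 32769609627) (nat_lit 32) (nat_lit 5) (nat_lit 34) (nat_lit 4) (nat_lit 32) (nat_lit 4) (nat_lit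 492) (nat_lit 443) (nat_lit 265)) (XT.lf (nat_lit 0) (nat_lit 410327345821) (nat_lit 76) (nat_lit 690885010536) (nat_lit 76) (nat_lit 149130380987) (nat_lit 31) (nat_lit 4) (nat_lit 32) (nat_lit 5) (nat_lit 32) (nat_lit 4) (nat_lit 493) (nat_lit 443) (nat_lit 264))) (XT.nd (nat_lit 78) (nat_lit 0) (nat_lit 0) (XT.lf (nat_lit 0) (nat_lit 170938790386) (nat_lit 76) (nat_lit 176716556775) (nat_lit 152) (nat_lit 975586154596) (nat_lit 29) (nat_lit 5) (nat_lit 30) (nat_lit 5) (nat_lit 31) (nat_lit 4) (nat_lit 494) (nat_lit 443) (nat_lit 263)) (XT.lf (nat_lit 0) (nat_lit 899812079683) (nat_lit 152) (nat_lit 117139989148) (nat_lit 0) (nat_lit 383855213065) (nat_lit 29) (nat_lit 5) (nat_lit 31) (nat_lit 4) (nat_lit 29) (nat_lit 4) (nat_lit 495) (nat_lit 443) (nat_lit 262))))) (XT.nd (nat_lit 58578) (nat_lit 0) (nat_lit 8436) (XT.nd (nat_lit 58422) (nat_lit 0) (nat_lit 8360) (XT.lf (nat_lit 0) (nat_lit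 30579762767) (nat_lit 152) (nat_lit 453268387031) (nat_lit 76) (nat_lit 999751806813) (nat_lit 27) (nat_lit 5) (nat_lit 29) (nat_lit 5) (nat_lit 28) (nat_lit 4) (nat_lit 496) (nat_lit 443) (nat_lit 261)) (XT.nd (nat_lit 78) (nat_lit 0) (nat_lit 76) (XT.lf (nat_lit 0) (nat_lit 23301791299) (nat_lit 836) (nat_lit 18359969618) (nat_lit 836) (nat_lit 18359969618) (nat_lit 137) (nat_lit 3) (nat_lit 148) (nat_lit 3) (nat_lit 148) (nat_lit 5) (nat_lit 444) (nat_lit 444) (nat_lit 312)) (XT.lf (nat_lit 0) (nat_lit 49579004676) (nat_lit 760) (nat_lit 64893463987) (nat_lit 836) (nat_lit 10317165285) (nat_lit 138) (nat_lit 5) (nat_lit 148) (nat_lit 5) (nat_lit 149) (nat_lit 5) (nat_lit 445) (nat_lit 444) (nat_lit 311)))) (XT.nd (nat_lit 156) (nat_lit 0) (nat_lit 152) (XT.nd (nat_lit 78) (nat_lit 0) (nat_lit 76) (XT.lf (nat_lit 76) (nat_lit 35385985835) (nat_lit 0) (nat_lit 20013358434) (nat_lit 836) (nat_lit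 74385812362) (nat_lit 139) (nat_lit 5) (nat_lit 138) (nat_lit 5) (nat_lit 149) (nat_lit 5) (nat_lit 446) (nat_lit 444) (nat_lit 310)) (XT.lf (nat_lit 76) (nat_lit 9898882678) (nat_lit 0) (nat_lit 54369548288) (nat_lit 836) (nat_lit 70782734316) (nat_lit 140) (nat_lit 5) (nat_lit 139) (nat_lit 5) (nat_lit 150) (nat_lit 5) (nat_lit 447) (nat_lit 444) (nat_lit 309))) (XT.nd (nat_lit 78) (nat_lit 0) (nat_lit 76) (XT.lf (nat_lit 0) (nat_lit 76599405332) (nat_lit 760) (nat_lit 15853539876) (nat_lit 836) (nat_lit 48147891520) (nat_lit 140) (nat_lit 5) (nat_lit 150) (nat_lit 5) (nat_lit 151) (nat_lit 5) (nat_lit 448) (nat_lit 444) (nat_lit 308)) (XT.lf (nat_lit 0) (nat_lit 92656240725) (nat_lit 760) (nat_lit 42036338438) (nat_lit 836) (nat_lit 11764933702) (nat_lit 141) (nat_lit 5) (nat_lit 151) (nat_lit 5) (nat_lit 152) (nat_lit 5) (nat_lit 449) (nat_lit 444) (nat_lit 307)))))) (XT.nd (nat_lit 546)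 (nat_lit 1976) (nat_lit 0) (XT.nd (nat_lit 234) (nat_lit 1064) (nat_lit 0) (XT.nd (nat_lit 78) (nat_lit 1140) (nat_lit 0) (XT.lf (nat_lit 76) (nat_lit 83214578961) (nat_lit 0) (nat_lit 29921343466) (nat_lit 836) (nat_lit 39489885813) (nat_lit 142) (nat_lit 5) (nat_lit 141) (nat_lit 5) (nat_lit 152) (nat_lit 5) (nat_lit 450) (nat_lit 444) (nat_lit 306)) (XT.nd (nat_lit 78) (nat_lit 456) (nat_lit 0) (XT.lf (nat_lit 0) (nat_lit 61388618323) (nat_lit 760) (nat_lit 76867046251) (nat_lit 836) (nat_lit 20881818484) (nat_lit 132) (nat_lit 5) (nat_lit 142) (nat_lit 5) (nat_lit 143) (nat_lit 5) (nat_lit 451) (nat_lit 444) (nat_lit 305)) (XT.lf (nat_lit 0) (nat_lit 2190337920) (nat_lit 456) (nat_lit 126867000635) (nat_lit 76) (nat_lit 36965850521) (nat_lit 126) (nat_lit 5) (nat_lit 132) (nat_lit 5) (nat_lit 127) (nat_lit 5) (nat_lit 452) (nat_lit 444) (nat_lit 304)))) (XT.nd (nat_lit 156) (nat_lit 684)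 (nat_lit 0) (XT.nd (nat_lit 78) (nat_lit 0) (nat_lit 0) (XT.lf (nat_lit 0) (nat_lit 15963982534) (nat_lit 380) (nat_lit 13698024783) (nat_lit 456) (nat_lit 143616361220) (nat_lit 121) (nat_lit 5) (nat_lit 126) (nat_lit 5) (nat_lit 127) (nat_lit 5) (nat_lit 453) (nat_lit 444) (nat_lit 303)) (XT.lf (nat_lit 0) (nat_lit 63308470313) (nat_lit 456) (nat_lit 8019613248) (nat_lit 76) (nat_lit 109587025875) (nat_lit 121) (nat_lit 5) (nat_lit 127) (nat_lit 5) (nat_lit 122) (nat_lit 5) (nat_lit 454) (nat_lit 444) (nat_lit 302))) (XT.nd (nat_lit 78) (nat_lit 304) (nat_lit 0) (XT.lf (nat_lit 0) (nat_lit 103214428072) (nat_lit 456) (nat_lit 31851718553) (nat_lit 76) (nat_lit 53918254173) (nat_lit 116) (nat_lit 5) (nat_lit 122) (nat_lit 5) (nat_lit 117) (nat_lit 5) (nat_lit 455) (nat_lit 444) (nat_lit 301)) (XT.lf (nat_lit 0) (nat_lit 141411934989) (nat_lit 304) (nat_lit 8453111001) (nat_lit 380) (nat_lit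 47656580374) (nat_lit 112) (nat_lit 5) (nat_lit 116) (nat_lit 5) (nat_lit 117) (nat_lit 5) (nat_lit 456) (nat_lit 444) (nat_lit 300))))) (XT.nd (nat_lit 234) (nat_lit 988) (nat_lit 0) (XT.nd (nat_lit 78) (nat_lit 684) (nat_lit 0) (XT.lf (nat_lit 0) (nat_lit 124946628288) (nat_lit 304) (nat_lit 79818392956) (nat_lit 380) (nat_lit 1750943402) (nat_lit 108) (nat_lit 5) (nat_lit 112) (nat_lit 5) (nat_lit 113) (nat_lit 5) (nat_lit 457) (nat_lit 444) (nat_lit 299)) (XT.nd (nat_lit 78) (nat_lit 304) (nat_lit 0) (XT.lf (nat_lit 0) (nat_lit 50065056496) (nat_lit 380) (nat_lit 108094104460) (nat_lit 76) (nat_lit 57844919342) (nat_lit 103) (nat_lit 5) (nat_lit 108) (nat_lit 5) (nat_lit 104) (nat_lit 5) (nat_lit 458) (nat_lit 444) (nat_lit 298)) (XT.lf (nat_lit 0) (nat_lit 90786897513) (nat_lit 304) (nat_lit 19386104267) (nat_lit 380) (nat_lit 115866407780) (nat_lit 99) (nat_lit 5) (nat_lit 103) (nat_lit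 5) (nat_lit 104) (nat_lit 5) (nat_lit 459) (nat_lit 444) (nat_lit 297)))) (XT.nd (nat_lit 156) (nat_lit 456) (nat_lit 0) (XT.nd (nat_lit 78) (nat_lit 304) (nat_lit 0) (XT.lf (nat_lit 0) (nat_lit 72920316659) (nat_lit 228) (nat_lit 107258554943) (nat_lit 304) (nat_lit 56444229167) (nat_lit 96) (nat_lit 5) (nat_lit 99) (nat_lit 5) (nat_lit 100) (nat_lit 5) (nat_lit 460) (nat_lit 444) (nat_lit 296)) (XT.lf (nat_lit 0) (nat_lit 11779442619) (nat_lit 304) (nat_lit 192623108464) (nat_lit 76) (nat_lit 43430141425) (nat_lit 92) (nat_lit 5) (nat_lit 96) (nat_lit 5) (nat_lit 93) (nat_lit 5) (nat_lit 461) (nat_lit 444) (nat_lit 295))) (XT.nd (nat_lit 78) (nat_lit 228) (nat_lit 0) (XT.lf (nat_lit 0) (nat_lit 36029972712) (nat_lit 228) (nat_lit 52749120954) (nat_lit 304) (nat_lit 170848911383) (nat_lit 89) (nat_lit 5) (nat_lit 92) (nat_lit 5) (nat_lit 93) (nat_lit 5) (nat_lit 462) (nat_lit 444) (nat_lit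 294)) (XT.lf (nat_lit 0) (nat_lit 16390253404) (nat_lit 228) (nat_lit 160948072788) (nat_lit 304) (nat_lit 94758635966) (nat_lit 86) (nat_lit 5) (nat_lit 89) (nat_lit 5) (nat_lit 90) (nat_lit 5) (nat_lit 463) (nat_lit 444) (nat_lit 293))))))))
noncomputable def xc107 : XT := (XT.nd (nat_lit 2184) (nat_lit 456) (nat_lit 0) (XT.nd (nat_lit 1092) (nat_lit 1520) (nat_lit 0) (XT.nd (nat_lit 546) (nat_lit 1064) (nat_lit 0) (XT.nd (nat_lit 234) (nat_lit 836) (nat_lit 0) (XT.nd (nat_lit 78) (nat_lit 456) (nat_lit 0) (XT.lf (nat_lit 0) (nat_lit 277828448752) (nat_lit 304) (nat_lit 2758305124) (nat_lit 76) (nat_lit 4734374426) (nat_lit 86) (nat_lit 5) (nat_lit 90) (nat_lit 5) (nat_lit 87) (nat_lit 5) (nat_lit 464) (nat_lit 444) (nat_lit 292)) (XT.nd (nat_lit 78) (nat_lit 228) (nat_lit 0) (XT.lf (nat_lit 0) (nat_lit 91124720525) (nat_lit 228) (nat_lit 24157891386) (nat_lit 76) (nat_lit 183895549039) (nat_lit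 83) (nat_lit 5) (nat_lit 86) (nat_lit 5) (nat_lit 84) (nat_lit 5) (nat_lit 465) (nat_lit 444) (nat_lit 291)) (XT.lf (nat_lit 0) (nat_lit 202687689584) (nat_lit 304) (nat_lit 45508212455) (nat_lit 76) (nat_lit 65675778461) (nat_lit 80) (nat_lit 5) (nat_lit 84) (nat_lit 5) (nat_lit 81) (nat_lit 5) (nat_lit 466) (nat_lit 444) (nat_lit 290)))) (XT.nd (nat_lit 156) (nat_lit 380) (nat_lit 0) (XT.nd (nat_lit 78) (nat_lit 228) (nat_lit 0) (XT.lf (nat_lit 0) (nat_lit 210774228) (nat_lit 228) (nat_lit 67561487166) (nat_lit 76) (nat_lit 261645263180) (nat_lit 77) (nat_lit 5) (nat_lit 80) (nat_lit 5) (nat_lit 78) (nat_lit 5) (nat_lit 467) (nat_lit 444) (nat_lit 289)) (XT.lf (nat_lit 0) (nat_lit 123562860678) (nat_lit 304) (nat_lit 92408532174) (nat_lit 76) (nat_lit 129797454649) (nat_lit 74) (nat_lit 5) (nat_lit 78) (nat_lit 5) (nat_lit 75) (nat_lit 5) (nat_lit 468) (nat_lit 444) (nat_lit 288))) (XT.nd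 (nat_lit 78) (nat_lit 228) (nat_lit 0) (XT.lf (nat_lit 0) (nat_lit 245700611307) (nat_lit 152) (nat_lit 17257318847) (nat_lit 228) (nat_lit 100161605323) (nat_lit 72) (nat_lit 5) (nat_lit 74) (nat_lit 5) (nat_lit 75) (nat_lit 5) (nat_lit 469) (nat_lit 444) (nat_lit 287)) (XT.lf (nat_lit 0) (nat_lit 39186491309) (nat_lit 228) (nat_lit 145216147502) (nat_lit 76) (nat_lit 197003283073) (nat_lit 69) (nat_lit 5) (nat_lit 72) (nat_lit 5) (nat_lit 70) (nat_lit 5) (nat_lit 470) (nat_lit 444) (nat_lit 286))))) (XT.nd (nat_lit 234) (nat_lit 532) (nat_lit 0) (XT.nd (nat_lit 78) (nat_lit 380) (nat_lit 0) (XT.lf (nat_lit 0) (nat_lit 192661661650) (nat_lit 228) (nat_lit 174849917372) (nat_lit 76) (nat_lit 33237120487) (nat_lit 67) (nat_lit 5) (nat_lit 70) (nat_lit 5) (nat_lit 68) (nat_lit 5) (nat_lit 471) (nat_lit 444) (nat_lit 285)) (XT.nd (nat_lit 78) (nat_lit 228) (nat_lit 0) (XT.lf (nat_lit 0) (nat_lit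 214076773061) (nat_lit 152) (nat_lit 153360643636) (nat_lit 228) (nat_lit 53750354108) (nat_lit 65) (nat_lit 5) (nat_lit 67) (nat_lit 5) (nat_lit 68) (nat_lit 5) (nat_lit 472) (nat_lit 444) (nat_lit 284)) (XT.lf (nat_lit 0) (nat_lit 116914377075) (nat_lit 228) (nat_lit 242308928695) (nat_lit 76) (nat_lit 83570717690) (nat_lit 62) (nat_lit 5) (nat_lit 65) (nat_lit 5) (nat_lit 63) (nat_lit 5) (nat_lit 473) (nat_lit 444) (nat_lit 283)))) (XT.nd (nat_lit 156) (nat_lit 228) (nat_lit 0) (XT.nd (nat_lit 78) (nat_lit 152) (nat_lit 0) (XT.lf (nat_lit 0) (nat_lit 184489474068) (nat_lit 152) (nat_lit 124017898815) (nat_lit 228) (nat_lit 157119433954) (nat_lit 60) (nat_lit 5) (nat_lit 62) (nat_lit 5) (nat_lit 63) (nat_lit 5) (nat_lit 474) (nat_lit 444) (nat_lit 282)) (XT.lf (nat_lit 0) (nat_lit 33414403617) (nat_lit 152) (nat_lit 323114961011) (nat_lit 76) (nat_lit 133283346919) (nat_lit 58) (nat_lit 5)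 (nat_lit 60) (nat_lit 5) (nat_lit 59) (nat_lit 5) (nat_lit 475) (nat_lit 444) (nat_lit 281))) (XT.nd (nat_lit 78) (nat_lit 76) (nat_lit 0) (XT.lf (nat_lit 0) (nat_lit 144514670167) (nat_lit 152) (nat_lit 98569981610) (nat_lit 228) (nat_lit 272250130287) (nat_lit 56) (nat_lit 5) (nat_lit 58) (nat_lit 5) (nat_lit 59) (nat_lit 5) (nat_lit 476) (nat_lit 444) (nat_lit 280)) (XT.lf (nat_lit 0) (nat_lit 119393914771) (nat_lit 76) (nat_lit 360529970823) (nat_lit 152) (nat_lit 62454964347) (nat_lit 55) (nat_lit 5) (nat_lit 56) (nat_lit 5) (nat_lit 57) (nat_lit 4) (nat_lit 477) (nat_lit 444) (nat_lit 279)))))) (XT.nd (nat_lit 546) (nat_lit 684) (nat_lit 0) (XT.nd (nat_lit 234) (nat_lit 304) (nat_lit 0) (XT.nd (nat_lit 78) (nat_lit 304) (nat_lit 0) (XT.lf (nat_lit 0) (nat_lit 89331991358) (nat_lit 152) (nat_lit 79160828906) (nat_lit 228) (nat_lit 402484401737) (nat_lit 52) (nat_lit 5) (nat_lit 54) (nat_lit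 5) (nat_lit 55) (nat_lit 5) (nat_lit 478) (nat_lit 444) (nat_lit 278)) (XT.nd (nat_lit 78) (nat_lit 228) (nat_lit 0) (XT.lf (nat_lit 0) (nat_lit 53266100655) (nat_lit 76) (nat_lit 374320349147) (nat_lit 152) (nat_lit 173632914445) (nat_lit 51) (nat_lit 5) (nat_lit 52) (nat_lit 5) (nat_lit 53) (nat_lit 4) (nat_lit 479) (nat_lit 444) (nat_lit 277)) (XT.lf (nat_lit 0) (nat_lit 12487495932) (nat_lit 152) (nat_lit 68743001999) (nat_lit 228) (nat_lit 552090126091) (nat_lit 48) (nat_lit 5) (nat_lit 50) (nat_lit 5) (nat_lit 51) (nat_lit 5) (nat_lit 480) (nat_lit 444) (nat_lit 276)))) (XT.nd (nat_lit 156) (nat_lit 228) (nat_lit 0) (XT.nd (nat_lit 78) (nat_lit 76) (nat_lit 0) (XT.lf (nat_lit 0) (nat_lit 364261721176) (nat_lit 228) (nat_lit 37345785031) (nat_lit 76) (nat_lit 265547056848) (nat_lit 48) (nat_lit 5) (nat_lit 51) (nat_lit 5) (nat_lit 49) (nat_lit 4) (nat_lit 481) (nat_lit 444) (nat_lit 275))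 (XT.lf (nat_lit 0) (nat_lit 611224185646) (nat_lit 76) (nat_lit 69413194612) (nat_lit 152) (nat_lit 22522740061) (nat_lit 47) (nat_lit 5) (nat_lit 48) (nat_lit 5) (nat_lit 49) (nat_lit 4) (nat_lit 482) (nat_lit 444) (nat_lit 274))) (XT.nd (nat_lit 78) (nat_lit 76) (nat_lit 0) (XT.lf (nat_lit 0) (nat_lit 285856426886) (nat_lit 152) (nat_lit 160739624561) (nat_lit 76) (nat_lit 294503771753) (nat_lit 45) (nat_lit 5) (nat_lit 47) (nat_lit 5) (nat_lit 46) (nat_lit 4) (nat_lit 483) (nat_lit 444) (nat_lit 273)) (XT.lf (nat_lit 0) (nat_lit 543548679755) (nat_lit 76) (nat_lit 85863069483) (nat_lit 152) (nat_lit 152079746359) (nat_lit 44) (nat_lit 5) (nat_lit 45) (nat_lit 5) (nat_lit 46) (nat_lit 4) (nat_lit 484) (nat_lit 444) (nat_lit 272))))) (XT.nd (nat_lit 234) (nat_lit 304) (nat_lit 0) (XT.nd (nat_lit 78) (nat_lit 228) (nat_lit 0) (XT.lf (nat_lit 0) (nat_lit 185308768878) (nat_lit 152) (nat_lit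 331303218849) (nat_lit 76) (nat_lit 307586456362) (nat_lit 42) (nat_lit 5) (nat_lit 44) (nat_lit 5) (nat_lit 43) (nat_lit 4) (nat_lit 485) (nat_lit 444) (nat_lit 271)) (XT.nd (nat_lit 78) (nat_lit 152) (nat_lit 0) (XT.lf (nat_lit 0) (nat_lit 430273610564) (nat_lit 76) (nat_lit 126536093132) (nat_lit 152) (nat_lit 312765115646) (nat_lit 41) (nat_lit 5) (nat_lit 42) (nat_lit 5) (nat_lit 43) (nat_lit 4) (nat_lit 486) (nat_lit 444) (nat_lit 270)) (XT.lf (nat_lit 0) (nat_lit 54426078162) (nat_lit 152) (nat_lit 565746885041) (nat_lit 76) (nat_lit 297565580779) (nat_lit 39) (nat_lit 5) (nat_lit 41) (nat_lit 5) (nat_lit 40) (nat_lit 4) (nat_lit 487) (nat_lit 444) (nat_lit 269)))) (XT.nd (nat_lit 156) (nat_lit 152) (nat_lit 0) (XT.nd (nat_lit 78) (nat_lit 76) (nat_lit 0) (XT.lf (nat_lit 0) (nat_lit 253482477780) (nat_lit 76) (nat_lit 200567714444) (nat_lit 152) (nat_lit 514748039980) (nat_lit 38) (nat_lit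 5) (nat_lit 39) (nat_lit 5) (nat_lit 40) (nat_lit 4) (nat_lit 488) (nat_lit 444) (nat_lit 268)) (XT.lf (nat_lit 0) (nat_lit 135225309511) (nat_lit 76) (nat_lit 766490467323) (nat_lit 76) (nat_lit 121423341582) (nat_lit 37) (nat_lit 4) (nat_lit 38) (nat_lit 5) (nat_lit 38) (nat_lit 4) (nat_lit 489) (nat_lit 444) (nat_lit 267))) (XT.nd (nat_lit 78) (nat_lit 76) (nat_lit 0) (XT.lf (nat_lit 0) (nat_lit 309704137348) (nat_lit 152) (nat_lit 10173702154) (nat_lit 76) (nat_lit 760910292618) (nat_lit 36) (nat_lit 5) (nat_lit 38) (nat_lit 5) (nat_lit 37) (nat_lit 4) (nat_lit 490) (nat_lit 444) (nat_lit 266)) (XT.lf (nat_lit 0) (nat_lit 789034566626) (nat_lit 152) (nat_lit 178331814530) (nat_lit 0) (nat_lit 174684816718) (nat_lit 35) (nat_lit 5) (nat_lit 37) (nat_lit 4) (nat_lit 35) (nat_lit 4) (nat_lit 491) (nat_lit 444) (nat_lit 265))))))) (XT.nd (nat_lit 59514) (nat_lit 0) (nat_lit 3648) (XT.nd (nat_lit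 58968) (nat_lit 0) (nat_lit 7372) (XT.nd (nat_lit 234) (nat_lit 152) (nat_lit 0) (XT.nd (nat_lit 78) (nat_lit 152) (nat_lit 0) (XT.lf (nat_lit 0) (nat_lit 114160967583) (nat_lit 152) (nat_lit 380319813702) (nat_lit 76) (nat_lit 712716770718) (nat_lit 33) (nat_lit 5) (nat_lit 35) (nat_lit 5) (nat_lit 34) (nat_lit 4) (nat_lit 492) (nat_lit 444) (nat_lit 264)) (XT.nd (nat_lit 78) (nat_lit 76) (nat_lit 0) (XT.lf (nat_lit 0) (nat_lit 620487748330) (nat_lit 152) (nat_lit 620678698797) (nat_lit 0) (nat_lit 35392661586) (nat_lit 32) (nat_lit 5) (nat_lit 34) (nat_lit 4) (nat_lit 32) (nat_lit 4) (nat_lit 493) (nat_lit 444) (nat_lit 263)) (XT.lf (nat_lit 0) (nat_lit 443156578042) (nat_lit 76) (nat_lit 746154313167) (nat_lit 76) (nat_lit 161059187769) (nat_lit 31) (nat_lit 4) (nat_lit 32) (nat_lit 5) (nat_lit 32) (nat_lit 4) (nat_lit 494) (nat_lit 444) (nat_lit 262)))) (XT.nd (nat_lit 58578) (nat_lit 0)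 (nat_lit 8208) (XT.nd (nat_lit 78) (nat_lit 0) (nat_lit 0) (XT.lf (nat_lit 0) (nat_lit 184616855603) (nat_lit 76) (nat_lit 190852420880) (nat_lit 152) (nat_lit 1053631470303) (nat_lit 29) (nat_lit 5) (nat_lit 30) (nat_lit 5) (nat_lit 31) (nat_lit 4) (nat_lit 495) (nat_lit 444) (nat_lit 261)) (XT.lf (nat_lit 0) (nat_lit 971798457494) (nat_lit 152) (nat_lit 126508397265) (nat_lit 0) (nat_lit 414564939085) (nat_lit 29) (nat_lit 5) (nat_lit 31) (nat_lit 4) (nat_lit 29) (nat_lit 4) (nat_lit 496) (nat_lit 444) (nat_lit 260))) (XT.nd (nat_lit 78) (nat_lit 0) (nat_lit 76) (XT.lf (nat_lit 0) (nat_lit 25172764149) (nat_lit 836) (nat_lit 19825180882) (nat_lit 836) (nat_lit 19825180882) (nat_lit 137) (nat_lit 3) (nat_lit 148) (nat_lit 3) (nat_lit 148) (nat_lit 5) (nat_lit 445) (nat_lit 445) (nat_lit 310)) (XT.lf (nat_lit 0) (nat_lit 53557987460) (nat_lit 760) (nat_lit 70077347532) (nat_lit 836) (nat_lit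 11136833611) (nat_lit 138) (nat_lit 5) (nat_lit 148) (nat_lit 5) (nat_lit 149) (nat_lit 5) (nat_lit 446) (nat_lit 445) (nat_lit 309))))) (XT.nd (nat_lit 234) (nat_lit 912) (nat_lit 0) (XT.nd (nat_lit 78) (nat_lit 0) (nat_lit 76) (XT.lf (nat_lit 76) (nat_lit 38224128268) (nat_lit 0) (nat_lit 21619001401) (nat_lit 836) (nat_lit 80324244877) (nat_lit 139) (nat_lit 5) (nat_lit 138) (nat_lit 5) (nat_lit 149) (nat_lit 5) (nat_lit 447) (nat_lit 445) (nat_lit 308)) (XT.nd (nat_lit 78) (nat_lit 0) (nat_lit 76) (XT.lf (nat_lit 76) (nat_lit 10698378281) (nat_lit 0) (nat_lit 58722540438) (nat_lit 836) (nat_lit 76433786601) (nat_lit 140) (nat_lit 5) (nat_lit 139) (nat_lit 5) (nat_lit 150) (nat_lit 5) (nat_lit 448) (nat_lit 445) (nat_lit 307)) (XT.lf (nat_lit 0) (nat_lit 82737505676) (nat_lit 760) (nat_lit 17114238160) (nat_lit 836) (nat_lit 51996650101) (nat_lit 140) (nat_lit 5) (nat_lit 150) (nat_lit 5)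 (nat_lit 151) (nat_lit 5) (nat_lit 449) (nat_lit 445) (nat_lit 306)))) (XT.nd (nat_lit 156) (nat_lit 1140) (nat_lit 0) (XT.nd (nat_lit 78) (nat_lit 0) (nat_lit 0) (XT.lf (nat_lit 0) (nat_lit 100078214283) (nat_lit 760) (nat_lit 45391477408) (nat_lit 836) (nat_lit 12703946328) (nat_lit 141) (nat_lit 5) (nat_lit 151) (nat_lit 5) (nat_lit 152) (nat_lit 5) (nat_lit 450) (nat_lit 445) (nat_lit 305)) (XT.lf (nat_lit 76) (nat_lit 89879175791) (nat_lit 0) (nat_lit 32316508941) (nat_lit 836) (nat_lit 42639741740) (nat_lit 142) (nat_lit 5) (nat_lit 141) (nat_lit 5) (nat_lit 152) (nat_lit 5) (nat_lit 451) (nat_lit 445) (nat_lit 304))) (XT.nd (nat_lit 78) (nat_lit 456) (nat_lit 0) (XT.lf (nat_lit 0) (nat_lit 66307264181) (nat_lit 760) (nat_lit 83017180561) (nat_lit 836) (nat_lit 22543618758) (nat_lit 132) (nat_lit 5) (nat_lit 142) (nat_lit 5) (nat_lit 143) (nat_lit 5) (nat_lit 452) (nat_lit 445) (nat_lit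 303)) (XT.lf (nat_lit 0) (nat_lit 2373513105) (nat_lit 456) (nat_lit 137008456713) (nat_lit 76) (nat_lit 39922675343) (nat_lit 126) (nat_lit 5) (nat_lit 132) (nat_lit 5) (nat_lit 127) (nat_lit 5) (nat_lit 453) (nat_lit 445) (nat_lit 302)))))) (XT.nd (nat_lit 546) (nat_lit 1672) (nat_lit 0) (XT.nd (nat_lit 234) (nat_lit 1292) (nat_lit 0) (XT.nd (nat_lit 78) (nat_lit 380) (nat_lit 0) (XT.lf (nat_lit 0) (nat_lit 17248661612) (nat_lit 380) (nat_lit 14793783730) (nat_lit 456) (nat_lit 155097817293) (nat_lit 121) (nat_lit 5) (nat_lit 126) (nat_lit 5) (nat_lit 127) (nat_lit 5) (nat_lit 454) (nat_lit 445) (nat_lit 301)) (XT.nd (nat_lit 78) (nat_lit 380) (nat_lit 0) (XT.lf (nat_lit 0) (nat_lit 68380072693) (nat_lit 456) (nat_lit 8653835489) (nat_lit 76) (nat_lit 118354062370) (nat_lit 121) (nat_lit 5) (nat_lit 127) (nat_lit 5) (nat_lit 122) (nat_lit 5) (nat_lit 455) (nat_lit 445) (nat_lit 300)) (XT.lf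 (nat_lit 0) (nat_lit 111478111748) (nat_lit 456) (nat_lit 34392509029) (nat_lit 76) (nat_lit 58232204317) (nat_lit 116) (nat_lit 5) (nat_lit 122) (nat_lit 5) (nat_lit 117) (nat_lit 5) (nat_lit 456) (nat_lit 445) (nat_lit 299)))) (XT.nd (nat_lit 156) (nat_lit 684) (nat_lit 0) (XT.nd (nat_lit 78) (nat_lit 304) (nat_lit 0) (XT.lf (nat_lit 0) (nat_lit 152731917504) (nat_lit 304) (nat_lit 9128487656) (nat_lit 380) (nat_lit 51462642338) (nat_lit 112) (nat_lit 5) (nat_lit 116) (nat_lit 5) (nat_lit 117) (nat_lit 5) (nat_lit 457) (nat_lit 445) (nat_lit 298)) (XT.lf (nat_lit 0) (nat_lit 134949363374) (nat_lit 304) (nat_lit 86202681073) (nat_lit 380) (nat_lit 1884905184) (nat_lit 108) (nat_lit 5) (nat_lit 112) (nat_lit 5) (nat_lit 113) (nat_lit 5) (nat_lit 458) (nat_lit 445) (nat_lit 297))) (XT.nd (nat_lit 78) (nat_lit 304) (nat_lit 0) (XT.lf (nat_lit 0) (nat_lit 54075868527) (nat_lit 380) (nat_lit 116734484208)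 (nat_lit 76) (nat_lit 62473772631) (nat_lit 103) (nat_lit 5) (nat_lit 108) (nat_lit 5) (nat_lit 104) (nat_lit 5) (nat_lit 459) (nat_lit 445) (nat_lit 296)) (XT.lf (nat_lit 0) (nat_lit 98056687253) (nat_lit 304) (nat_lit 20935453569) (nat_lit 380) (nat_lit 125130155650) (nat_lit 99) (nat_lit 5) (nat_lit 103) (nat_lit 5) (nat_lit 104) (nat_lit 5) (nat_lit 460) (nat_lit 445) (nat_lit 295))))) (XT.nd (nat_lit 312) (nat_lit 684) (nat_lit 0) (XT.nd (nat_lit 156) (nat_lit 456) (nat_lit 0) (XT.nd (nat_lit 78) (nat_lit 304) (nat_lit 0) (XT.lf (nat_lit 0) (nat_lit 78760714076) (nat_lit 228) (nat_lit 115837501622) (nat_lit 304) (nat_lit 60954480573) (nat_lit 96) (nat_lit 5) (nat_lit 99) (nat_lit 5) (nat_lit 100) (nat_lit 5) (nat_lit 461) (nat_lit 445) (nat_lit 294)) (XT.lf (nat_lit 0) (nat_lit 12726668401) (nat_lit 304) (nat_lit 208026101953) (nat_lit 76) (nat_lit 46906293295) (nat_lit 92) (nat_lit 5)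 (nat_lit 96) (nat_lit 5) (nat_lit 93) (nat_lit 5) (nat_lit 462) (nat_lit 445) (nat_lit 293))) (XT.nd (nat_lit 78) (nat_lit 228) (nat_lit 0) (XT.lf (nat_lit 0) (nat_lit 38918927799) (nat_lit 228) (nat_lit 56967105341) (nat_lit 304) (nat_lit 184511981027) (nat_lit 89) (nat_lit 5) (nat_lit 92) (nat_lit 5) (nat_lit 93) (nat_lit 5) (nat_lit 463) (nat_lit 445) (nat_lit 292)) (XT.lf (nat_lit 0) (nat_lit 17707938158) (nat_lit 228) (nat_lit 173821853533) (nat_lit 304) (nat_lit 102334706835) (nat_lit 86) (nat_lit 5) (nat_lit 89) (nat_lit 5) (nat_lit 90) (nat_lit 5) (nat_lit 464) (nat_lit 445) (nat_lit 291)))) (XT.nd (nat_lit 156) (nat_lit 456) (nat_lit 0) (XT.nd (nat_lit 78) (nat_lit 228) (nat_lit 0) (XT.lf (nat_lit 0) (nat_lit 300058828027) (nat_lit 304) (nat_lit 2972809492) (nat_lit 76) (nat_lit 5114975291) (nat_lit 86) (nat_lit 5) (nat_lit 90) (nat_lit 5) (nat_lit 87) (nat_lit 5) (nat_lit 465) (nat_lit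 445) (nat_lit 290)) (XT.lf (nat_lit 0) (nat_lit 98418653905) (nat_lit 228) (nat_lit 26084499049) (nat_lit 76) (nat_lit 198609062567) (nat_lit 83) (nat_lit 5) (nat_lit 86) (nat_lit 5) (nat_lit 84) (nat_lit 5) (nat_lit 466) (nat_lit 445) (nat_lit 289))) (XT.nd (nat_lit 78) (nat_lit 228) (nat_lit 0) (XT.lf (nat_lit 0) (nat_lit 218906488799) (nat_lit 304) (nat_lit 49142950838) (nat_lit 76) (nat_lit 70931785620) (nat_lit 80) (nat_lit 5) (nat_lit 84) (nat_lit 5) (nat_lit 81) (nat_lit 5) (nat_lit 467) (nat_lit 445) (nat_lit 288)) (XT.lf (nat_lit 0) (nat_lit 231287623) (nat_lit 228) (nat_lit 72960623584) (nat_lit 76) (nat_lit 282578832336) (nat_lit 77) (nat_lit 5) (nat_lit 80) (nat_lit 5) (nat_lit 78) (nat_lit 5) (nat_lit 468) (nat_lit 445) (nat_lit 287))))))))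
noncomputable def xc108 : XT := (XT.nd (nat_lit 60684) (nat_lit 0) (nat_lit 2888) (XT.nd (nat_lit 1092) (nat_lit 1444) (nat_lit 0) (XT.nd (nat_lit 546) (nat_lit 912) (nat_lit 0) (XT.nd (nat_lit 234) (nat_lit 684) (nat_lit 0) (XT.nd (nat_lit 78) (nat_lit 380) (nat_lit 0) (XT.lf (nat_lit 0) (nat_lit 133451389093) (nat_lit 304) (nat_lit 99795541960) (nat_lit 76) (nat_lit 140183248877) (nat_lit 74) (nat_lit 5) (nat_lit 78) (nat_lit 5) (nat_lit 75) (nat_lit 5) (nat_lit 469) (nat_lit 445) (nat_lit 286)) (XT.nd (nat_lit 78) (nat_lit 228) (nat_lit 0) (XT.lf (nat_lit 0) (nat_lit 265362086467) (nat_lit 152) (nat_lit 18635803153) (nat_lit 228) (nat_lit 108171042080) (nat_lit 72) (nat_lit 5) (nat_lit 74) (nat_lit 5) (nat_lit 75) (nat_lit 5) (nat_lit 470) (nat_lit 445) (nat_lit 285)) (XT.lf (nat_lit 0) (nat_lit 42324655434) (nat_lit 228) (nat_lit 156828013262) (nat_lit 76) (nat_lit 212765564378) (nat_lit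 69) (nat_lit 5) (nat_lit 72) (nat_lit 5) (nat_lit 70) (nat_lit 5) (nat_lit 471) (nat_lit 445) (nat_lit 284)))) (XT.nd (nat_lit 156) (nat_lit 380) (nat_lit 0) (XT.nd (nat_lit 78) (nat_lit 152) (nat_lit 0) (XT.lf (nat_lit 0) (nat_lit 208077712940) (nat_lit 228) (nat_lit 188832598819) (nat_lit 76) (nat_lit 35898127496) (nat_lit 67) (nat_lit 5) (nat_lit 70) (nat_lit 5) (nat_lit 68) (nat_lit 5) (nat_lit 472) (nat_lit 445) (nat_lit 283)) (XT.lf (nat_lit 0) (nat_lit 231207995998) (nat_lit 152) (nat_lit 165627380734) (nat_lit 228) (nat_lit 58047267129) (nat_lit 65) (nat_lit 5) (nat_lit 67) (nat_lit 5) (nat_lit 68) (nat_lit 5) (nat_lit 473) (nat_lit 445) (nat_lit 282))) (XT.nd (nat_lit 78) (nat_lit 152) (nat_lit 0) (XT.lf (nat_lit 0) (nat_lit 126270429410) (nat_lit 228) (nat_lit 261688575942) (nat_lit 76) (nat_lit 90258394633) (nat_lit 62) (nat_lit 5) (nat_lit 65) (nat_lit 5) (nat_lit 63) (nat_lit 5)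 (nat_lit 474) (nat_lit 445) (nat_lit 281)) (XT.lf (nat_lit 0) (nat_lit 199253478835) (nat_lit 152) (nat_lit 133937246745) (nat_lit 228) (nat_lit 169686087436) (nat_lit 60) (nat_lit 5) (nat_lit 62) (nat_lit 5) (nat_lit 63) (nat_lit 5) (nat_lit 475) (nat_lit 445) (nat_lit 280))))) (XT.nd (nat_lit 234) (nat_lit 532) (nat_lit 0) (XT.nd (nat_lit 78) (nat_lit 228) (nat_lit 0) (XT.lf (nat_lit 0) (nat_lit 36090262053) (nat_lit 152) (nat_lit 348959330781) (nat_lit 76) (nat_lit 143948000131) (nat_lit 58) (nat_lit 5) (nat_lit 60) (nat_lit 5) (nat_lit 59) (nat_lit 5) (nat_lit 476) (nat_lit 445) (nat_lit 279)) (XT.nd (nat_lit 78) (nat_lit 76) (nat_lit 0) (XT.lf (nat_lit 0) (nat_lit 156080461110) (nat_lit 152) (nat_lit 106453540589) (nat_lit 228) (nat_lit 294027433857) (nat_lit 56) (nat_lit 5) (nat_lit 58) (nat_lit 5) (nat_lit 59) (nat_lit 5) (nat_lit 477) (nat_lit 445) (nat_lit 278)) (XT.lf (nat_lit 0)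 (nat_lit 128949937623) (nat_lit 76) (nat_lit 389370345546) (nat_lit 152) (nat_lit 67448750262) (nat_lit 55) (nat_lit 5) (nat_lit 56) (nat_lit 5) (nat_lit 57) (nat_lit 4) (nat_lit 478) (nat_lit 445) (nat_lit 277)))) (XT.nd (nat_lit 156) (nat_lit 228) (nat_lit 0) (XT.nd (nat_lit 78) (nat_lit 76) (nat_lit 0) (XT.lf (nat_lit 0) (nat_lit 96482944450) (nat_lit 152) (nat_lit 85491710458) (nat_lit 228) (nat_lit 434680624253) (nat_lit 52) (nat_lit 5) (nat_lit 54) (nat_lit 5) (nat_lit 55) (nat_lit 5) (nat_lit 479) (nat_lit 445) (nat_lit 276)) (XT.lf (nat_lit 0) (nat_lit 57531677261) (nat_lit 76) (nat_lit 404264014751) (nat_lit 152) (nat_lit 187521104926) (nat_lit 51) (nat_lit 5) (nat_lit 52) (nat_lit 5) (nat_lit 53) (nat_lit 4) (nat_lit 480) (nat_lit 445) (nat_lit 275))) (XT.nd (nat_lit 78) (nat_lit 0) (nat_lit 0) (XT.lf (nat_lit 0) (nat_lit 13490672694) (nat_lit 152) (nat_lit 74240519634) (nat_lit 228)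 (nat_lit 596254968766) (nat_lit 48) (nat_lit 5) (nat_lit 50) (nat_lit 5) (nat_lit 51) (nat_lit 5) (nat_lit 481) (nat_lit 445) (nat_lit 274)) (XT.lf (nat_lit 0) (nat_lit 393404774220) (nat_lit 228) (nat_lit 40329503462) (nat_lit 76) (nat_lit 286792544537) (nat_lit 48) (nat_lit 5) (nat_lit 51) (nat_lit 5) (nat_lit 49) (nat_lit 4) (nat_lit 482) (nat_lit 445) (nat_lit 273)))))) (XT.nd (nat_lit 546) (nat_lit 684) (nat_lit 0) (XT.nd (nat_lit 234) (nat_lit 456) (nat_lit 0) (XT.nd (nat_lit 78) (nat_lit 228) (nat_lit 0) (XT.lf (nat_lit 0) (nat_lit 660125893452) (nat_lit 76) (nat_lit 74964494791) (nat_lit 152) (nat_lit 24322440719) (nat_lit 47) (nat_lit 5) (nat_lit 48) (nat_lit 5) (nat_lit 49) (nat_lit 4) (nat_lit 483) (nat_lit 445) (nat_lit 272)) (XT.nd (nat_lit 78) (nat_lit 76) (nat_lit 0) (XT.lf (nat_lit 0) (nat_lit 308726924049) (nat_lit 152) (nat_lit 173595049502) (nat_lit 76) (nat_lit 318065736262)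 (nat_lit 45) (nat_lit 5) (nat_lit 47) (nat_lit 5) (nat_lit 46) (nat_lit 4) (nat_lit 484) (nat_lit 445) (nat_lit 271)) (XT.lf (nat_lit 0) (nat_lit 587036156406) (nat_lit 76) (nat_lit 92730424824) (nat_lit 152) (nat_lit 164244139327) (nat_lit 44) (nat_lit 5) (nat_lit 45) (nat_lit 5) (nat_lit 46) (nat_lit 4) (nat_lit 485) (nat_lit 445) (nat_lit 270)))) (XT.nd (nat_lit 156) (nat_lit 228) (nat_lit 0) (XT.nd (nat_lit 78) (nat_lit 76) (nat_lit 0) (XT.lf (nat_lit 0) (nat_lit 200135331332) (nat_lit 152) (nat_lit 357803922830) (nat_lit 76) (nat_lit 332194972332) (nat_lit 42) (nat_lit 5) (nat_lit 44) (nat_lit 5) (nat_lit 43) (nat_lit 4) (nat_lit 486) (nat_lit 445) (nat_lit 269)) (XT.lf (nat_lit 0) (nat_lit 464698898504) (nat_lit 76) (nat_lit 136657357653) (nat_lit 152) (nat_lit 337784459854) (nat_lit 41) (nat_lit 5) (nat_lit 42) (nat_lit 5) (nat_lit 43) (nat_lit 4) (nat_lit 487) (nat_lit 445) (nat_lit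 268))) (XT.nd (nat_lit 78) (nat_lit 76) (nat_lit 0) (XT.lf (nat_lit 0) (nat_lit 58781912441) (nat_lit 152) (nat_lit 611003265832) (nat_lit 76) (nat_lit 321372361764) (nat_lit 39) (nat_lit 5) (nat_lit 41) (nat_lit 5) (nat_lit 40) (nat_lit 4) (nat_lit 488) (nat_lit 445) (nat_lit 267)) (XT.lf (nat_lit 0) (nat_lit 273764299557) (nat_lit 76) (nat_lit 216611576917) (nat_lit 152) (nat_lit 555926130806) (nat_lit 38) (nat_lit 5) (nat_lit 39) (nat_lit 5) (nat_lit 40) (nat_lit 4) (nat_lit 489) (nat_lit 445) (nat_lit 266))))) (XT.nd (nat_lit 234) (nat_lit 456) (nat_lit 0) (XT.nd (nat_lit 78) (nat_lit 152) (nat_lit 0) (XT.lf (nat_lit 0) (nat_lit 146046474389) (nat_lit 76) (nat_lit 827808181345) (nat_lit 76) (nat_lit 131135511265) (nat_lit 37) (nat_lit 4) (nat_lit 38) (nat_lit 5) (nat_lit 38) (nat_lit 4) (nat_lit 490) (nat_lit 445) (nat_lit 265)) (XT.nd (nat_lit 78) (nat_lit 76) (nat_lit 0) (XT.lf (nat_lit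 0) (nat_lit 334481989918) (nat_lit 152) (nat_lit 10984640454) (nat_lit 76) (nat_lit 821784476193) (nat_lit 36) (nat_lit 5) (nat_lit 38) (nat_lit 5) (nat_lit 37) (nat_lit 4) (nat_lit 491) (nat_lit 445) (nat_lit 264)) (XT.lf (nat_lit 0) (nat_lit 852158806489) (nat_lit 152) (nat_lit 192595479157) (nat_lit 0) (nat_lit 188660934287) (nat_lit 35) (nat_lit 5) (nat_lit 37) (nat_lit 4) (nat_lit 35) (nat_lit 4) (nat_lit 492) (nat_lit 445) (nat_lit 263)))) (XT.nd (nat_lit 156) (nat_lit 228) (nat_lit 0) (XT.nd (nat_lit 78) (nat_lit 76) (nat_lit 0) (XT.lf (nat_lit 0) (nat_lit 123295276443) (nat_lit 152) (nat_lit 410742596079) (nat_lit 76) (nat_lit 769735412031) (nat_lit 33) (nat_lit 5) (nat_lit 35) (nat_lit 5) (nat_lit 34) (nat_lit 4) (nat_lit 493) (nat_lit 445) (nat_lit 262)) (XT.lf (nat_lit 0) (nat_lit 670128155983) (nat_lit 152) (nat_lit 670330265895) (nat_lit 0) (nat_lit 38225346108) (nat_lit 32) (nat_lit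 5) (nat_lit 34) (nat_lit 4) (nat_lit 32) (nat_lit 4) (nat_lit 494) (nat_lit 445) (nat_lit 261))) (XT.nd (nat_lit 78) (nat_lit 152) (nat_lit 0) (XT.lf (nat_lit 0) (nat_lit 478611714500) (nat_lit 76) (nat_lit 805845373746) (nat_lit 76) (nat_lit 173942530731) (nat_lit 31) (nat_lit 4) (nat_lit 32) (nat_lit 5) (nat_lit 32) (nat_lit 4) (nat_lit 495) (nat_lit 445) (nat_lit 260)) (XT.lf (nat_lit 0) (nat_lit 199388743478) (nat_lit 76) (nat_lit 206119362462) (nat_lit 152) (nat_lit 1137920636195) (nat_lit 29) (nat_lit 5) (nat_lit 30) (nat_lit 5) (nat_lit 31) (nat_lit 4) (nat_lit 496) (nat_lit 445) (nat_lit 259))))))) (XT.nd (nat_lit 1092) (nat_lit 3116) (nat_lit 0) (XT.nd (nat_lit 546) (nat_lit 2204) (nat_lit 0) (XT.nd (nat_lit 234) (nat_lit 0) (nat_lit 152) (XT.nd (nat_lit 78) (nat_lit 0) (nat_lit 76) (XT.lf (nat_lit 0) (nat_lit 27192440515) (nat_lit 836) (nat_lit 21408120674) (nat_lit 836) (nat_lit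 21408120674) (nat_lit 137) (nat_lit 3) (nat_lit 148) (nat_lit 3) (nat_lit 148) (nat_lit 5) (nat_lit 446) (nat_lit 446) (nat_lit 308)) (XT.nd (nat_lit 78) (nat_lit 0) (nat_lit 0) (XT.lf (nat_lit 0) (nat_lit 57853482432) (nat_lit 760) (nat_lit 75677025069) (nat_lit 836) (nat_lit 12022889270) (nat_lit 138) (nat_lit 5) (nat_lit 148) (nat_lit 5) (nat_lit 149) (nat_lit 5) (nat_lit 447) (nat_lit 446) (nat_lit 307)) (XT.lf (nat_lit 76) (nat_lit 41288285867) (nat_lit 0) (nat_lit 23352443231) (nat_lit 836) (nat_lit 86739525625) (nat_lit 139) (nat_lit 5) (nat_lit 138) (nat_lit 5) (nat_lit 149) (nat_lit 5) (nat_lit 448) (nat_lit 446) (nat_lit 306)))) (XT.nd (nat_lit 156) (nat_lit 0) (nat_lit 152) (XT.nd (nat_lit 78) (nat_lit 0) (nat_lit 76) (XT.lf (nat_lit 76) (nat_lit 11560751449) (nat_lit 0) (nat_lit 63423282876) (nat_lit 836) (nat_lit 82538573154) (nat_lit 140) (nat_lit 5) (nat_lit 139) (nat_lit 5)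 (nat_lit 150) (nat_lit 5) (nat_lit 449) (nat_lit 446) (nat_lit 305)) (XT.lf (nat_lit 0) (nat_lit 89365206333) (nat_lit 760) (nat_lit 18476874379) (nat_lit 836) (nat_lit 56153747729) (nat_lit 140) (nat_lit 5) (nat_lit 150) (nat_lit 5) (nat_lit 151) (nat_lit 5) (nat_lit 450) (nat_lit 446) (nat_lit 304))) (XT.nd (nat_lit 78) (nat_lit 0) (nat_lit 0) (XT.lf (nat_lit 0) (nat_lit 108092594110) (nat_lit 760) (nat_lit 49016135702) (nat_lit 836) (nat_lit 13718391261) (nat_lit 141) (nat_lit 5) (nat_lit 151) (nat_lit 5) (nat_lit 152) (nat_lit 5) (nat_lit 451) (nat_lit 446) (nat_lit 303)) (XT.lf (nat_lit 76) (nat_lit 97075880322) (nat_lit 0) (nat_lit 34903079654) (nat_lit 836) (nat_lit 46042917875) (nat_lit 142) (nat_lit 5) (nat_lit 141) (nat_lit 5) (nat_lit 152) (nat_lit 5) (nat_lit 452) (nat_lit 446) (nat_lit 302))))) (XT.nd (nat_lit 234) (nat_lit 988) (nat_lit 0) (XT.nd (nat_lit 78) (nat_lit 836) (nat_lit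 0) (XT.lf (nat_lit 0) (nat_lit 71618323704) (nat_lit 760) (nat_lit 89659215680) (nat_lit 836) (nat_lit 24339610655) (nat_lit 132) (nat_lit 5) (nat_lit 142) (nat_lit 5) (nat_lit 143) (nat_lit 5) (nat_lit 453) (nat_lit 446) (nat_lit 301)) (XT.nd (nat_lit 78) (nat_lit 380) (nat_lit 0) (XT.lf (nat_lit 0) (nat_lit 2570208412) (nat_lit 456) (nat_lit 147962356867) (nat_lit 76) (nat_lit 43116109380) (nat_lit 126) (nat_lit 5) (nat_lit 132) (nat_lit 5) (nat_lit 127) (nat_lit 5) (nat_lit 454) (nat_lit 446) (nat_lit 300)) (XT.lf (nat_lit 0) (nat_lit 18635036431) (nat_lit 380) (nat_lit 15977215238) (nat_lit 456) (nat_lit 167498910145) (nat_lit 121) (nat_lit 5) (nat_lit 126) (nat_lit 5) (nat_lit 127) (nat_lit 5) (nat_lit 455) (nat_lit 446) (nat_lit 299)))) (XT.nd (nat_lit 156) (nat_lit 608) (nat_lit 0) (XT.nd (nat_lit 78) (nat_lit 380) (nat_lit 0) (XT.lf (nat_lit 0) (nat_lit 73856415371) (nat_lit 456) (nat_lit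 9339843615) (nat_lit 76) (nat_lit 127822451167) (nat_lit 121) (nat_lit 5) (nat_lit 127) (nat_lit 5) (nat_lit 122) (nat_lit 5) (nat_lit 456) (nat_lit 446) (nat_lit 298)) (XT.lf (nat_lit 0) (nat_lit 120401958622) (nat_lit 456) (nat_lit 37137610876) (nat_lit 76) (nat_lit 62891200595) (nat_lit 116) (nat_lit 5) (nat_lit 122) (nat_lit 5) (nat_lit 117) (nat_lit 5) (nat_lit 457) (nat_lit 446) (nat_lit 297))) (XT.nd (nat_lit 78) (nat_lit 304) (nat_lit 0) (XT.lf (nat_lit 0) (nat_lit 164956496039) (nat_lit 304) (nat_lit 9858018876) (nat_lit 380) (nat_lit 55574111486) (nat_lit 112) (nat_lit 5) (nat_lit 116) (nat_lit 5) (nat_lit 117) (nat_lit 5) (nat_lit 458) (nat_lit 446) (nat_lit 296)) (XT.lf (nat_lit 0) (nat_lit 145751317949) (nat_lit 304) (nat_lit 93097881054) (nat_lit 380) (nat_lit 2030456095) (nat_lit 108) (nat_lit 5) (nat_lit 112) (nat_lit 5) (nat_lit 113) (nat_lit 5) (nat_lit 459) (nat_lit 446)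 (nat_lit 295)))))) (XT.nd (nat_lit 546) (nat_lit 1444) (nat_lit 0) (XT.nd (nat_lit 234) (nat_lit 760) (nat_lit 0) (XT.nd (nat_lit 78) (nat_lit 532) (nat_lit 0) (XT.lf (nat_lit 0) (nat_lit 58406745546) (nat_lit 380) (nat_lit 126067114165) (nat_lit 76) (nat_lit 67472754467) (nat_lit 103) (nat_lit 5) (nat_lit 108) (nat_lit 5) (nat_lit 104) (nat_lit 5) (nat_lit 460) (nat_lit 446) (nat_lit 294)) (XT.nd (nat_lit 78) (nat_lit 228) (nat_lit 0) (XT.lf (nat_lit 0) (nat_lit 105907084664) (nat_lit 304) (nat_lit 22608970377) (nat_lit 380) (nat_lit 135135797224) (nat_lit 99) (nat_lit 5) (nat_lit 103) (nat_lit 5) (nat_lit 104) (nat_lit 5) (nat_lit 461) (nat_lit 446) (nat_lit 293)) (XT.lf (nat_lit 0) (nat_lit 85067377174) (nat_lit 228) (nat_lit 125103011940) (nat_lit 304) (nat_lit 65826306331) (nat_lit 96) (nat_lit 5) (nat_lit 99) (nat_lit 5) (nat_lit 100) (nat_lit 5) (nat_lit 462) (nat_lit 446) (nat_lit 292))))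 (XT.nd (nat_lit 156) (nat_lit 228) (nat_lit 0) (XT.nd (nat_lit 78) (nat_lit 228) (nat_lit 0) (XT.lf (nat_lit 0) (nat_lit 13748977431) (nat_lit 304) (nat_lit 224662312890) (nat_lit 76) (nat_lit 50660289005) (nat_lit 92) (nat_lit 5) (nat_lit 96) (nat_lit 5) (nat_lit 93) (nat_lit 5) (nat_lit 463) (nat_lit 446) (nat_lit 291)) (XT.lf (nat_lit 0) (nat_lit 42038063825) (nat_lit 228) (nat_lit 61522805996) (nat_lit 304) (nat_lit 199268787189) (nat_lit 89) (nat_lit 5) (nat_lit 92) (nat_lit 5) (nat_lit 93) (nat_lit 5) (nat_lit 464) (nat_lit 446) (nat_lit 290))) (XT.nd (nat_lit 78) (nat_lit 0) (nat_lit 0) (XT.lf (nat_lit 0) (nat_lit 19130115462) (nat_lit 228) (nat_lit 187725831343) (nat_lit 304) (nat_lit 110517522469) (nat_lit 86) (nat_lit 5) (nat_lit 89) (nat_lit 5) (nat_lit 90) (nat_lit 5) (nat_lit 465) (nat_lit 446) (nat_lit 289)) (XT.lf (nat_lit 0) (nat_lit 324067052251) (nat_lit 304) (nat_lit 3205353008)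 (nat_lit 76) (nat_lit 5525760171) (nat_lit 86) (nat_lit 5) (nat_lit 90) (nat_lit 5) (nat_lit 87) (nat_lit 5) (nat_lit 466) (nat_lit 446) (nat_lit 288))))) (XT.nd (nat_lit 234) (nat_lit 760) (nat_lit 0) (XT.nd (nat_lit 78) (nat_lit 456) (nat_lit 0) (XT.lf (nat_lit 0) (nat_lit 106295537625) (nat_lit 228) (nat_lit 28166094666) (nat_lit 76) (nat_lit 214499390456) (nat_lit 83) (nat_lit 5) (nat_lit 86) (nat_lit 5) (nat_lit 84) (nat_lit 5) (nat_lit 467) (nat_lit 446) (nat_lit 287)) (XT.nd (nat_lit 78) (nat_lit 228) (nat_lit 0) (XT.lf (nat_lit 0) (nat_lit 236422252115) (nat_lit 304) (nat_lit 53069312649) (nat_lit 76) (nat_lit 76607995892) (nat_lit 80) (nat_lit 5) (nat_lit 84) (nat_lit 5) (nat_lit 81) (nat_lit 5) (nat_lit 468) (nat_lit 446) (nat_lit 286)) (XT.lf (nat_lit 0) (nat_lit 252921168) (nat_lit 228) (nat_lit 78792515862) (nat_lit 76) (nat_lit 305186809106) (nat_lit 77) (nat_lit 5) (nat_lit 80)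 (nat_lit 5) (nat_lit 78) (nat_lit 5) (nat_lit 469) (nat_lit 446) (nat_lit 285)))) (XT.nd (nat_lit 156) (nat_lit 380) (nat_lit 0) (XT.nd (nat_lit 78) (nat_lit 152) (nat_lit 0) (XT.lf (nat_lit 0) (nat_lit 144130500529) (nat_lit 304) (nat_lit 107774321815) (nat_lit 76) (nat_lit 151399621628) (nat_lit 74) (nat_lit 5) (nat_lit 78) (nat_lit 5) (nat_lit 75) (nat_lit 5) (nat_lit 470) (nat_lit 446) (nat_lit 284)) (XT.lf (nat_lit 0) (nat_lit 286595705524) (nat_lit 152) (nat_lit 20124865963) (nat_lit 228) (nat_lit 116821731903) (nat_lit 72) (nat_lit 5) (nat_lit 74) (nat_lit 5) (nat_lit 75) (nat_lit 5) (nat_lit 471) (nat_lit 446) (nat_lit 283))) (XT.nd (nat_lit 78) (nat_lit 152) (nat_lit 0) (XT.lf (nat_lit 0) (nat_lit 45713409779) (nat_lit 228) (nat_lit 169369602367) (nat_lit 76) (nat_lit 229788540204) (nat_lit 69) (nat_lit 5) (nat_lit 72) (nat_lit 5) (nat_lit 70) (nat_lit 5) (nat_lit 472) (nat_lit 446)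 (nat_lit 282)) (XT.lf (nat_lit 0) (nat_lit 224726603464) (nat_lit 228) (nat_lit 203934652590) (nat_lit 76) (nat_lit 38771724412) (nat_lit 67) (nat_lit 5) (nat_lit 70) (nat_lit 5) (nat_lit 68) (nat_lit 5) (nat_lit 473) (nat_lit 446) (nat_lit 281))))))))
noncomputable def xc109 : XT := (XT.nd (nat_lit 60762) (nat_lit 0) (nat_lit 1824) (XT.nd (nat_lit 1092) (nat_lit 836) (nat_lit 0) (XT.nd (nat_lit 546) (nat_lit 760) (nat_lit 0) (XT.nd (nat_lit 234) (nat_lit 608) (nat_lit 0) (XT.nd (nat_lit 78) (nat_lit 380) (nat_lit 0) (XT.lf (nat_lit 0) (nat_lit 249708991895) (nat_lit 152) (nat_lit 178875758441) (nat_lit 228) (nat_lit 62688377625) (nat_lit 65) (nat_lit 5) (nat_lit 67) (nat_lit 5) (nat_lit 68) (nat_lit 5) (nat_lit 474) (nat_lit 446) (nat_lit 280)) (XT.nd (nat_lit 78) (nat_lit 152) (nat_lit 0) (XT.lf (nat_lit 0) (nat_lit 136374551906) (nat_lit 228) (nat_lit 282619317840) (nat_lit 76) (nat_lit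 97480797624) (nat_lit 62) (nat_lit 5) (nat_lit 65) (nat_lit 5) (nat_lit 63) (nat_lit 5) (nat_lit 475) (nat_lit 446) (nat_lit 279)) (XT.lf (nat_lit 0) (nat_lit 215197912527) (nat_lit 152) (nat_lit 144650439813) (nat_lit 228) (nat_lit 183258487090) (nat_lit 60) (nat_lit 5) (nat_lit 62) (nat_lit 5) (nat_lit 63) (nat_lit 5) (nat_lit 476) (nat_lit 446) (nat_lit 278)))) (XT.nd (nat_lit 156) (nat_lit 304) (nat_lit 0) (XT.nd (nat_lit 78) (nat_lit 152) (nat_lit 0) (XT.lf (nat_lit 0) (nat_lit 38979803101) (nat_lit 152) (nat_lit 376871938775) (nat_lit 76) (nat_lit 155465542352) (nat_lit 58) (nat_lit 5) (nat_lit 60) (nat_lit 5) (nat_lit 59) (nat_lit 5) (nat_lit 477) (nat_lit 446) (nat_lit 277)) (XT.lf (nat_lit 0) (nat_lit 168570856615) (nat_lit 152) (nat_lit 114968075252) (nat_lit 228) (nat_lit 317547307876) (nat_lit 56) (nat_lit 5) (nat_lit 58) (nat_lit 5) (nat_lit 59) (nat_lit 5) (nat_lit 478) (nat_lit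 446) (nat_lit 276))) (XT.nd (nat_lit 78) (nat_lit 228) (nat_lit 0) (XT.lf (nat_lit 0) (nat_lit 139269798948) (nat_lit 76) (nat_lit 420518238842) (nat_lit 152) (nat_lit 72842411572) (nat_lit 55) (nat_lit 5) (nat_lit 56) (nat_lit 5) (nat_lit 57) (nat_lit 4) (nat_lit 479) (nat_lit 446) (nat_lit 275)) (XT.lf (nat_lit 0) (nat_lit 104205346968) (nat_lit 152) (nat_lit 92329345682) (nat_lit 228) (nat_lit 469452905449) (nat_lit 52) (nat_lit 5) (nat_lit 54) (nat_lit 5) (nat_lit 55) (nat_lit 5) (nat_lit 480) (nat_lit 446) (nat_lit 274))))) (XT.nd (nat_lit 234) (nat_lit 456) (nat_lit 0) (XT.nd (nat_lit 78) (nat_lit 228) (nat_lit 0) (XT.lf (nat_lit 0) (nat_lit 62137888185) (nat_lit 76) (nat_lit 436603453551) (nat_lit 152) (nat_lit 202520699120) (nat_lit 51) (nat_lit 5) (nat_lit 52) (nat_lit 5) (nat_lit 53) (nat_lit 4) (nat_lit 481) (nat_lit 446) (nat_lit 273)) (XT.nd (nat_lit 78) (nat_lit 0) (nat_lit 0)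 (XT.lf (nat_lit 0) (nat_lit 14573507689) (nat_lit 152) (nat_lit 80178112949) (nat_lit 228) (nat_lit 643953336592) (nat_lit 48) (nat_lit 5) (nat_lit 50) (nat_lit 5) (nat_lit 51) (nat_lit 5) (nat_lit 482) (nat_lit 446) (nat_lit 272)) (XT.lf (nat_lit 0) (nat_lit 424878969730) (nat_lit 228) (nat_lit 43552482076) (nat_lit 76) (nat_lit 309737425416) (nat_lit 48) (nat_lit 5) (nat_lit 51) (nat_lit 5) (nat_lit 49) (nat_lit 4) (nat_lit 483) (nat_lit 446) (nat_lit 271)))) (XT.nd (nat_lit 156) (nat_lit 228) (nat_lit 0) (XT.nd (nat_lit 78) (nat_lit 152) (nat_lit 0) (XT.lf (nat_lit 0) (nat_lit 712939199628) (nat_lit 76) (nat_lit 80960149410) (nat_lit 152) (nat_lit 26266419664) (nat_lit 47) (nat_lit 5) (nat_lit 48) (nat_lit 5) (nat_lit 49) (nat_lit 4) (nat_lit 484) (nat_lit 446) (nat_lit 270)) (XT.lf (nat_lit 0) (nat_lit 333426778087) (nat_lit 152) (nat_lit 187479442707) (nat_lit 76) (nat_lit 343512420719)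 (nat_lit 45) (nat_lit 5) (nat_lit 47) (nat_lit 5) (nat_lit 46) (nat_lit 4) (nat_lit 485) (nat_lit 446) (nat_lit 269))) (XT.nd (nat_lit 78) (nat_lit 152) (nat_lit 0) (XT.lf (nat_lit 0) (nat_lit 634002120138) (nat_lit 76) (nat_lit 100147409720) (nat_lit 152) (nat_lit 177381967163) (nat_lit 44) (nat_lit 5) (nat_lit 45) (nat_lit 5) (nat_lit 46) (nat_lit 4) (nat_lit 486) (nat_lit 446) (nat_lit 268)) (XT.lf (nat_lit 0) (nat_lit 216147753298) (nat_lit 152) (nat_lit 386425190080) (nat_lit 76) (nat_lit 358771941398) (nat_lit 42) (nat_lit 5) (nat_lit 44) (nat_lit 5) (nat_lit 43) (nat_lit 4) (nat_lit 487) (nat_lit 446) (nat_lit 267)))))) (XT.nd (nat_lit 546) (nat_lit 152) (nat_lit 0) (XT.nd (nat_lit 234) (nat_lit 380) (nat_lit 0) (XT.nd (nat_lit 78) (nat_lit 228) (nat_lit 0) (XT.lf (nat_lit 0) (nat_lit 501877724561) (nat_lit 76) (nat_lit 147588554865) (nat_lit 152) (nat_lit 364805617668) (nat_lit 41)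 (nat_lit 5) (nat_lit 42) (nat_lit 5) (nat_lit 43) (nat_lit 4) (nat_lit 488) (nat_lit 446) (nat_lit 266)) (XT.nd (nat_lit 78) (nat_lit 76) (nat_lit 0) (XT.lf (nat_lit 0) (nat_lit 63485964088) (nat_lit 152) (nat_lit 659880637857) (nat_lit 76) (nat_lit 347083466310) (nat_lit 39) (nat_lit 5) (nat_lit 41) (nat_lit 5) (nat_lit 40) (nat_lit 4) (nat_lit 489) (nat_lit 446) (nat_lit 265)) (XT.lf (nat_lit 0) (nat_lit 295668207201) (nat_lit 76) (nat_lit 233939170180) (nat_lit 152) (nat_lit 600398718893) (nat_lit 38) (nat_lit 5) (nat_lit 39) (nat_lit 5) (nat_lit 40) (nat_lit 4) (nat_lit 490) (nat_lit 446) (nat_lit 264)))) (XT.nd (nat_lit 156) (nat_lit 228) (nat_lit 0) (XT.nd (nat_lit 78) (nat_lit 76) (nat_lit 0) (XT.lf (nat_lit 0) (nat_lit 157732884484) (nat_lit 76) (nat_lit 894031529813) (nat_lit 76) (nat_lit 141624896711) (nat_lit 37) (nat_lit 4) (nat_lit 38) (nat_lit 5) (nat_lit 38) (nat_lit 4) (nat_lit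 491) (nat_lit 446) (nat_lit 263)) (XT.lf (nat_lit 0) (nat_lit 361241853622) (nat_lit 152) (nat_lit 11860875791) (nat_lit 76) (nat_lit 887528400411) (nat_lit 36) (nat_lit 5) (nat_lit 38) (nat_lit 5) (nat_lit 37) (nat_lit 4) (nat_lit 492) (nat_lit 446) (nat_lit 262))) (XT.nd (nat_lit 78) (nat_lit 152) (nat_lit 0) (XT.lf (nat_lit 0) (nat_lit 920332775183) (nat_lit 152) (nat_lit 208000647895) (nat_lit 0) (nat_lit 203754951205) (nat_lit 35) (nat_lit 5) (nat_lit 37) (nat_lit 4) (nat_lit 35) (nat_lit 4) (nat_lit 493) (nat_lit 446) (nat_lit 261)) (XT.lf (nat_lit 0) (nat_lit 133160125799) (nat_lit 152) (nat_lit 443599600886) (nat_lit 76) (nat_lit 831315359238) (nat_lit 33) (nat_lit 5) (nat_lit 35) (nat_lit 5) (nat_lit 34) (nat_lit 4) (nat_lit 494) (nat_lit 446) (nat_lit 260))))) (XT.nd (nat_lit 58812) (nat_lit 0) (nat_lit 8132) (XT.nd (nat_lit 78) (nat_lit 76) (nat_lit 0) (XT.lf (nat_lit 0) (nat_lit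 723739598264) (nat_lit 152) (nat_lit 723954347656) (nat_lit 0) (nat_lit 41284463984) (nat_lit 32) (nat_lit 5) (nat_lit 34) (nat_lit 4) (nat_lit 32) (nat_lit 4) (nat_lit 495) (nat_lit 446) (nat_lit 259)) (XT.nd (nat_lit 58656) (nat_lit 0) (nat_lit 8056) (XT.lf (nat_lit 0) (nat_lit 516902889498) (nat_lit 76) (nat_lit 870311902415) (nat_lit 76) (nat_lit 187856739723) (nat_lit 31) (nat_lit 4) (nat_lit 32) (nat_lit 5) (nat_lit 32) (nat_lit 4) (nat_lit 496) (nat_lit 446) (nat_lit 258)) (XT.lf (nat_lit 0) (nat_lit 29372855676) (nat_lit 836) (nat_lit 23118134286) (nat_lit 836) (nat_lit 23118134286) (nat_lit 137) (nat_lit 3) (nat_lit 148) (nat_lit 3) (nat_lit 148) (nat_lit 5) (nat_lit 447) (nat_lit 447) (nat_lit 306)))) (XT.nd (nat_lit 156) (nat_lit 0) (nat_lit 76) (XT.nd (nat_lit 78) (nat_lit 0) (nat_lit 0) (XT.lf (nat_lit 0) (nat_lit 62491068276) (nat_lit 760) (nat_lit 81725605572) (nat_lit 836) (nat_lit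 12980527142) (nat_lit 138) (nat_lit 5) (nat_lit 148) (nat_lit 5) (nat_lit 149) (nat_lit 5) (nat_lit 448) (nat_lit 447) (nat_lit 305)) (XT.lf (nat_lit 76) (nat_lit 44596687674) (nat_lit 0) (nat_lit 25224000930) (nat_lit 836) (nat_lit 93669549436) (nat_lit 139) (nat_lit 5) (nat_lit 138) (nat_lit 5) (nat_lit 149) (nat_lit 5) (nat_lit 449) (nat_lit 447) (nat_lit 304))) (XT.nd (nat_lit 78) (nat_lit 0) (nat_lit 76) (XT.lf (nat_lit 76) (nat_lit 12491186757) (nat_lit 0) (nat_lit 68499665400) (nat_lit 836) (nat_lit 89133157313) (nat_lit 140) (nat_lit 5) (nat_lit 139) (nat_lit 5) (nat_lit 150) (nat_lit 5) (nat_lit 450) (nat_lit 447) (nat_lit 303)) (XT.lf (nat_lit 0) (nat_lit 96521881861) (nat_lit 760) (nat_lit 19949449197) (nat_lit 836) (nat_lit 60643788991) (nat_lit 140) (nat_lit 5) (nat_lit 150) (nat_lit 5) (nat_lit 151) (nat_lit 5) (nat_lit 451) (nat_lit 447) (nat_lit 302))))))) (XT.nd (nat_lit 1092)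 (nat_lit 2584) (nat_lit 0) (XT.nd (nat_lit 546) (nat_lit 2052) (nat_lit 0) (XT.nd (nat_lit 234) (nat_lit 1216) (nat_lit 0) (XT.nd (nat_lit 78) (nat_lit 684) (nat_lit 0) (XT.lf (nat_lit 0) (nat_lit 116746965532) (nat_lit 760) (nat_lit 52931716769) (nat_lit 836) (nat_lit 14814258675) (nat_lit 141) (nat_lit 5) (nat_lit 151) (nat_lit 5) (nat_lit 152) (nat_lit 5) (nat_lit 452) (nat_lit 447) (nat_lit 301)) (XT.nd (nat_lit 78) (nat_lit 684) (nat_lit 0) (XT.lf (nat_lit 76) (nat_lit 104847412396) (nat_lit 0) (nat_lit 37696397699) (nat_lit 836) (nat_lit 49719489847) (nat_lit 142) (nat_lit 5) (nat_lit 141) (nat_lit 5) (nat_lit 152) (nat_lit 5) (nat_lit 453) (nat_lit 447) (nat_lit 300)) (XT.lf (nat_lit 0) (nat_lit 77353343774) (nat_lit 760) (nat_lit 96832519356) (nat_lit 836) (nat_lit 26280351521) (nat_lit 132) (nat_lit 5) (nat_lit 142) (nat_lit 5) (nat_lit 143) (nat_lit 5) (nat_lit 454) (nat_lit 447)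 (nat_lit 299)))) (XT.nd (nat_lit 156) (nat_lit 380) (nat_lit 0) (XT.nd (nat_lit 78) (nat_lit 380) (nat_lit 0) (XT.lf (nat_lit 0) (nat_lit 2781667214) (nat_lit 456) (nat_lit 159793535761) (nat_lit 76) (nat_lit 46565072351) (nat_lit 126) (nat_lit 5) (nat_lit 132) (nat_lit 5) (nat_lit 127) (nat_lit 5) (nat_lit 455) (nat_lit 447) (nat_lit 298)) (XT.lf (nat_lit 0) (nat_lit 20131396521) (nat_lit 380) (nat_lit 17255331423) (nat_lit 456) (nat_lit 180893050896) (nat_lit 121) (nat_lit 5) (nat_lit 126) (nat_lit 5) (nat_lit 127) (nat_lit 5) (nat_lit 456) (nat_lit 447) (nat_lit 297))) (XT.nd (nat_lit 78) (nat_lit 380) (nat_lit 0) (XT.lf (nat_lit 0) (nat_lit 79770018502) (nat_lit 456) (nat_lit 10081630973) (nat_lit 76) (nat_lit 138048301964) (nat_lit 121) (nat_lit 5) (nat_lit 127) (nat_lit 5) (nat_lit 122) (nat_lit 5) (nat_lit 457) (nat_lit 447) (nat_lit 296)) (XT.lf (nat_lit 0) (nat_lit 130038914637) (nat_lit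 456) (nat_lit 40103219475) (nat_lit 76) (nat_lit 67922856667) (nat_lit 116) (nat_lit 5) (nat_lit 122) (nat_lit 5) (nat_lit 117) (nat_lit 5) (nat_lit 458) (nat_lit 447) (nat_lit 295))))) (XT.nd (nat_lit 234) (nat_lit 1064) (nat_lit 0) (XT.nd (nat_lit 78) (nat_lit 684) (nat_lit 0) (XT.lf (nat_lit 0) (nat_lit 178158181303) (nat_lit 304) (nat_lit 10646019274) (nat_lit 380) (nat_lit 60015288829) (nat_lit 112) (nat_lit 5) (nat_lit 116) (nat_lit 5) (nat_lit 117) (nat_lit 5) (nat_lit 459) (nat_lit 447) (nat_lit 294)) (XT.nd (nat_lit 78) (nat_lit 380) (nat_lit 0) (XT.lf (nat_lit 0) (nat_lit 157416572139) (nat_lit 304) (nat_lit 100544841763) (nat_lit 380) (nat_lit 2188398838) (nat_lit 108) (nat_lit 5) (nat_lit 112) (nat_lit 5) (nat_lit 113) (nat_lit 5) (nat_lit 460) (nat_lit 447) (nat_lit 293)) (XT.lf (nat_lit 0) (nat_lit 63083406878) (nat_lit 380) (nat_lit 136147228858) (nat_lit 76) (nat_lit 72871500771)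 (nat_lit 103) (nat_lit 5) (nat_lit 108) (nat_lit 5) (nat_lit 104) (nat_lit 5) (nat_lit 461) (nat_lit 447) (nat_lit 292)))) (XT.nd (nat_lit 156) (nat_lit 532) (nat_lit 0) (XT.nd (nat_lit 78) (nat_lit 228) (nat_lit 0) (XT.lf (nat_lit 0) (nat_lit 114384677526) (nat_lit 304) (nat_lit 24416556767) (nat_lit 380) (nat_lit 145942570743) (nat_lit 99) (nat_lit 5) (nat_lit 103) (nat_lit 5) (nat_lit 104) (nat_lit 5) (nat_lit 462) (nat_lit 447) (nat_lit 291)) (XT.lf (nat_lit 0) (nat_lit 91877745033) (nat_lit 228) (nat_lit 135109975621) (nat_lit 304) (nat_lit 71088524788) (nat_lit 96) (nat_lit 5) (nat_lit 99) (nat_lit 5) (nat_lit 100) (nat_lit 5) (nat_lit 463) (nat_lit 447) (nat_lit 290))) (XT.nd (nat_lit 78) (nat_lit 228) (nat_lit 0) (XT.lf (nat_lit 0) (nat_lit 14852475494) (nat_lit 304) (nat_lit 242630259154) (nat_lit 76) (nat_lit 54714391487) (nat_lit 92) (nat_lit 5) (nat_lit 96) (nat_lit 5) (nat_lit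 93) (nat_lit 5) (nat_lit 464) (nat_lit 447) (nat_lit 289)) (XT.lf (nat_lit 0) (nat_lit 45405928720) (nat_lit 228) (nat_lit 66443200630) (nat_lit 304) (nat_lit 215206730219) (nat_lit 89) (nat_lit 5) (nat_lit 92) (nat_lit 5) (nat_lit 93) (nat_lit 5) (nat_lit 465) (nat_lit 447) (nat_lit 288)))))) (XT.nd (nat_lit 546) (nat_lit 1292) (nat_lit 0) (XT.nd (nat_lit 234) (nat_lit 836) (nat_lit 0) (XT.nd (nat_lit 78) (nat_lit 228) (nat_lit 0) (XT.lf (nat_lit 0) (nat_lit 20665276286) (nat_lit 228) (nat_lit 202742379956) (nat_lit 304) (nat_lit 119355528422) (nat_lit 86) (nat_lit 5) (nat_lit 89) (nat_lit 5) (nat_lit 90) (nat_lit 5) (nat_lit 466) (nat_lit 447) (nat_lit 287)) (XT.nd (nat_lit 78) (nat_lit 228) (nat_lit 0) (XT.lf (nat_lit 0) (nat_lit 349995432534) (nat_lit 304) (nat_lit 3457253434) (nat_lit 76) (nat_lit 5969181460) (nat_lit 86) (nat_lit 5) (nat_lit 90) (nat_lit 5) (nat_lit 87) (nat_lit 5) (nat_lit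 467) (nat_lit 447) (nat_lit 286)) (XT.lf (nat_lit 0) (nat_lit 114802088221) (nat_lit 228) (nat_lit 30414954678) (nat_lit 76) (nat_lit 231660715908) (nat_lit 83) (nat_lit 5) (nat_lit 86) (nat_lit 5) (nat_lit 84) (nat_lit 5) (nat_lit 468) (nat_lit 447) (nat_lit 285)))) (XT.nd (nat_lit 156) (nat_lit 380) (nat_lit 0) (XT.nd (nat_lit 78) (nat_lit 228) (nat_lit 0) (XT.lf (nat_lit 0) (nat_lit 255338813673) (nat_lit 304) (nat_lit 57310507303) (nat_lit 76) (nat_lit 82738065109) (nat_lit 80) (nat_lit 5) (nat_lit 84) (nat_lit 5) (nat_lit 81) (nat_lit 5) (nat_lit 469) (nat_lit 447) (nat_lit 284)) (XT.lf (nat_lit 0) (nat_lit 275838792) (nat_lit 228) (nat_lit 85091666781) (nat_lit 76) (nat_lit 329603185747) (nat_lit 77) (nat_lit 5) (nat_lit 80) (nat_lit 5) (nat_lit 78) (nat_lit 5) (nat_lit 470) (nat_lit 447) (nat_lit 283))) (XT.nd (nat_lit 78) (nat_lit 152) (nat_lit 0) (XT.lf (nat_lit 0) (nat_lit 155663512853)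 (nat_lit 304) (nat_lit 116392097892) (nat_lit 76) (nat_lit 163513059842) (nat_lit 74) (nat_lit 5) (nat_lit 78) (nat_lit 5) (nat_lit 75) (nat_lit 5) (nat_lit 471) (nat_lit 447) (nat_lit 282)) (XT.lf (nat_lit 0) (nat_lit 309527350425) (nat_lit 152) (nat_lit 21733310793) (nat_lit 228) (nat_lit 126164903974) (nat_lit 72) (nat_lit 5) (nat_lit 74) (nat_lit 5) (nat_lit 75) (nat_lit 5) (nat_lit 472) (nat_lit 447) (nat_lit 281))))) (XT.nd (nat_lit 312) (nat_lit 532) (nat_lit 0) (XT.nd (nat_lit 156) (nat_lit 380) (nat_lit 0) (XT.nd (nat_lit 78) (nat_lit 152) (nat_lit 0) (XT.lf (nat_lit 0) (nat_lit 49372867601) (nat_lit 228) (nat_lit 182915182255) (nat_lit 76) (nat_lit 248173107195) (nat_lit 69) (nat_lit 5) (nat_lit 72) (nat_lit 5) (nat_lit 70) (nat_lit 5) (nat_lit 473) (nat_lit 447) (nat_lit 280)) (XT.lf (nat_lit 0) (nat_lit 242707023827) (nat_lit 228) (nat_lit 220245520361) (nat_lit 76) (nat_lit 41874959893)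 (nat_lit 67) (nat_lit 5) (nat_lit 70) (nat_lit 5) (nat_lit 68) (nat_lit 5) (nat_lit 474) (nat_lit 447) (nat_lit 279))) (XT.nd (nat_lit 78) (nat_lit 228) (nat_lit 0) (XT.lf (nat_lit 0) (nat_lit 269689446001) (nat_lit 152) (nat_lit 193184264974) (nat_lit 228) (nat_lit 67701157990) (nat_lit 65) (nat_lit 5) (nat_lit 67) (nat_lit 5) (nat_lit 68) (nat_lit 5) (nat_lit 475) (nat_lit 447) (nat_lit 278)) (XT.lf (nat_lit 0) (nat_lit 147286649240) (nat_lit 228) (nat_lit 305225138835) (nat_lit 76) (nat_lit 105280745848) (nat_lit 62) (nat_lit 5) (nat_lit 65) (nat_lit 5) (nat_lit 63) (nat_lit 5) (nat_lit 476) (nat_lit 447) (nat_lit 277)))) (XT.nd (nat_lit 156) (nat_lit 228) (nat_lit 0) (XT.nd (nat_lit 78) (nat_lit 152) (nat_lit 0) (XT.lf (nat_lit 0) (nat_lit 232417308102) (nat_lit 152) (nat_lit 156220943215) (nat_lit 228) (nat_lit 197917033563) (nat_lit 60) (nat_lit 5) (nat_lit 62) (nat_lit 5) (nat_lit 63)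 (nat_lit 5) (nat_lit 477) (nat_lit 447) (nat_lit 276)) (XT.lf (nat_lit 0) (nat_lit 42100176448) (nat_lit 152) (nat_lit 407018145807) (nat_lit 76) (nat_lit 167904245112) (nat_lit 58) (nat_lit 5) (nat_lit 60) (nat_lit 5) (nat_lit 59) (nat_lit 5) (nat_lit 478) (nat_lit 447) (nat_lit 275))) (XT.nd (nat_lit 78) (nat_lit 76) (nat_lit 0) (XT.lf (nat_lit 0) (nat_lit 182059919020) (nat_lit 152) (nat_lit 124164022142) (nat_lit 228) (nat_lit 342949102888) (nat_lit 56) (nat_lit 5) (nat_lit 58) (nat_lit 5) (nat_lit 59) (nat_lit 5) (nat_lit 479) (nat_lit 447) (nat_lit 274)) (XT.lf (nat_lit 0) (nat_lit 150414697606) (nat_lit 76) (nat_lit 454158211026) (nat_lit 152) (nat_lit 78667885164) (nat_lit 55) (nat_lit 5) (nat_lit 56) (nat_lit 5) (nat_lit 57) (nat_lit 4) (nat_lit 480) (nat_lit 447) (nat_lit 273))))))))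
noncomputable def xc110 : XT := (XT.nd (nat_lit 60840) (nat_lit 0) (nat_lit 988) (XT.nd (nat_lit 1092) (nat_lit 228) (nat_lit 0) (XT.nd (nat_lit 546) (nat_lit 684) (nat_lit 0) (XT.nd (nat_lit 234) (nat_lit 304) (nat_lit 0) (XT.nd (nat_lit 78) (nat_lit 304) (nat_lit 0) (XT.lf (nat_lit 0) (nat_lit 112545004287) (nat_lit 152) (nat_lit 99714234478) (nat_lit 228) (nat_lit 507007278537) (nat_lit 52) (nat_lit 5) (nat_lit 54) (nat_lit 5) (nat_lit 55) (nat_lit 5) (nat_lit 481) (nat_lit 447) (nat_lit 272)) (XT.nd (nat_lit 78) (nat_lit 228) (nat_lit 0) (XT.lf (nat_lit 0) (nat_lit 67112071455) (nat_lit 76) (nat_lit 471530287465) (nat_lit 152) (nat_lit 218720559611) (nat_lit 51) (nat_lit 5) (nat_lit 52) (nat_lit 5) (nat_lit 53) (nat_lit 4) (nat_lit 482) (nat_lit 447) (nat_lit 271)) (XT.lf (nat_lit 0) (nat_lit 15742458588) (nat_lit 152) (nat_lit 86590948872) (nat_lit 228) (nat_lit 695467863401) (nat_lit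 48) (nat_lit 5) (nat_lit 50) (nat_lit 5) (nat_lit 51) (nat_lit 5) (nat_lit 483) (nat_lit 447) (nat_lit 270)))) (XT.nd (nat_lit 156) (nat_lit 228) (nat_lit 0) (XT.nd (nat_lit 78) (nat_lit 76) (nat_lit 0) (XT.lf (nat_lit 0) (nat_lit 458870842154) (nat_lit 228) (nat_lit 47033781411) (nat_lit 76) (nat_lit 334517686010) (nat_lit 48) (nat_lit 5) (nat_lit 51) (nat_lit 5) (nat_lit 49) (nat_lit 4) (nat_lit 484) (nat_lit 447) (nat_lit 269)) (XT.lf (nat_lit 0) (nat_lit 769977108832) (nat_lit 76) (nat_lit 87435671098) (nat_lit 152) (nat_lit 28366176042) (nat_lit 47) (nat_lit 5) (nat_lit 48) (nat_lit 5) (nat_lit 49) (nat_lit 4) (nat_lit 485) (nat_lit 447) (nat_lit 268))) (XT.nd (nat_lit 78) (nat_lit 76) (nat_lit 0) (XT.lf (nat_lit 0) (nat_lit 360102377908) (nat_lit 152) (nat_lit 202475045418) (nat_lit 76) (nat_lit 370994636561) (nat_lit 45) (nat_lit 5) (nat_lit 47) (nat_lit 5) (nat_lit 46) (nat_lit 4) (nat_lit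 486) (nat_lit 447) (nat_lit 267)) (XT.lf (nat_lit 0) (nat_lit 684724922825) (nat_lit 76) (nat_lit 108157960137) (nat_lit 152) (nat_lit 191571064223) (nat_lit 44) (nat_lit 5) (nat_lit 45) (nat_lit 5) (nat_lit 46) (nat_lit 4) (nat_lit 487) (nat_lit 447) (nat_lit 266))))) (XT.nd (nat_lit 234) (nat_lit 304) (nat_lit 0) (XT.nd (nat_lit 78) (nat_lit 228) (nat_lit 0) (XT.lf (nat_lit 0) (nat_lit 233440941411) (nat_lit 152) (nat_lit 417336593338) (nat_lit 76) (nat_lit 387474872361) (nat_lit 42) (nat_lit 5) (nat_lit 44) (nat_lit 5) (nat_lit 43) (nat_lit 4) (nat_lit 488) (nat_lit 447) (nat_lit 265)) (XT.nd (nat_lit 78) (nat_lit 152) (nat_lit 0) (XT.lf (nat_lit 0) (nat_lit 542030440962) (nat_lit 76) (nat_lit 159394446353) (nat_lit 152) (nat_lit 393988696219) (nat_lit 41) (nat_lit 5) (nat_lit 42) (nat_lit 5) (nat_lit 43) (nat_lit 4) (nat_lit 489) (nat_lit 447) (nat_lit 264)) (XT.lf (nat_lit 0) (nat_lit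 68566126067) (nat_lit 152) (nat_lit 712668611826) (nat_lit 76) (nat_lit 374851271535) (nat_lit 39) (nat_lit 5) (nat_lit 41) (nat_lit 5) (nat_lit 40) (nat_lit 4) (nat_lit 490) (nat_lit 447) (nat_lit 263)))) (XT.nd (nat_lit 156) (nat_lit 152) (nat_lit 0) (XT.nd (nat_lit 78) (nat_lit 76) (nat_lit 0) (XT.lf (nat_lit 0) (nat_lit 319324033186) (nat_lit 76) (nat_lit 252653161056) (nat_lit 152) (nat_lit 648429328358) (nat_lit 38) (nat_lit 5) (nat_lit 39) (nat_lit 5) (nat_lit 40) (nat_lit 4) (nat_lit 491) (nat_lit 447) (nat_lit 262)) (XT.lf (nat_lit 0) (nat_lit 170353823323) (nat_lit 76) (nat_lit 965552932480) (nat_lit 76) (nat_lit 152953640629) (nat_lit 37) (nat_lit 4) (nat_lit 38) (nat_lit 5) (nat_lit 38) (nat_lit 4) (nat_lit 492) (nat_lit 447) (nat_lit 261))) (XT.nd (nat_lit 78) (nat_lit 76) (nat_lit 0) (XT.lf (nat_lit 0) (nat_lit 390142320320) (nat_lit 152) (nat_lit 12807571730) (nat_lit 76) (nat_lit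 958531672206) (nat_lit 36) (nat_lit 5) (nat_lit 38) (nat_lit 5) (nat_lit 37) (nat_lit 4) (nat_lit 493) (nat_lit 447) (nat_lit 260)) (XT.lf (nat_lit 0) (nat_lit 993960481024) (nat_lit 152) (nat_lit 224638582448) (nat_lit 0) (nat_lit 220056326531) (nat_lit 35) (nat_lit 5) (nat_lit 37) (nat_lit 4) (nat_lit 35) (nat_lit 4) (nat_lit 494) (nat_lit 447) (nat_lit 259)))))) (XT.nd (nat_lit 59202) (nat_lit 0) (nat_lit 6384) (XT.nd (nat_lit 58890) (nat_lit 0) (nat_lit 8056) (XT.nd (nat_lit 78) (nat_lit 76) (nat_lit 0) (XT.lf (nat_lit 0) (nat_lit 143813988024) (nat_lit 152) (nat_lit 479085508875) (nat_lit 76) (nat_lit 897821543262) (nat_lit 33) (nat_lit 5) (nat_lit 35) (nat_lit 5) (nat_lit 34) (nat_lit 4) (nat_lit 495) (nat_lit 447) (nat_lit 258)) (XT.nd (nat_lit 58734) (nat_lit 0) (nat_lit 7980) (XT.lf (nat_lit 0) (nat_lit 781639786189) (nat_lit 152) (nat_lit 781868689715) (nat_lit 0) (nat_lit 44588155763)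 (nat_lit 32) (nat_lit 5) (nat_lit 34) (nat_lit 4) (nat_lit 32) (nat_lit 4) (nat_lit 496) (nat_lit 447) (nat_lit 257)) (XT.lf (nat_lit 0) (nat_lit 31726987902) (nat_lit 836) (nat_lit 24965325049) (nat_lit 836) (nat_lit 24965325049) (nat_lit 137) (nat_lit 3) (nat_lit 148) (nat_lit 3) (nat_lit 148) (nat_lit 5) (nat_lit 448) (nat_lit 448) (nat_lit 304)))) (XT.nd (nat_lit 156) (nat_lit 0) (nat_lit 76) (XT.nd (nat_lit 78) (nat_lit 0) (nat_lit 0) (XT.lf (nat_lit 0) (nat_lit 67498333204) (nat_lit 760) (nat_lit 88258868778) (nat_lit 836) (nat_lit 14015374261) (nat_lit 138) (nat_lit 5) (nat_lit 148) (nat_lit 5) (nat_lit 149) (nat_lit 5) (nat_lit 449) (nat_lit 448) (nat_lit 303)) (XT.lf (nat_lit 76) (nat_lit 48168999966) (nat_lit 0) (nat_lit 27244803585) (nat_lit 836) (nat_lit 101155278824) (nat_lit 139) (nat_lit 5) (nat_lit 138) (nat_lit 5) (nat_lit 149) (nat_lit 5) (nat_lit 450) (nat_lit 448) (nat_lit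 302))) (XT.nd (nat_lit 78) (nat_lit 0) (nat_lit 76) (XT.lf (nat_lit 76) (nat_lit 13495261527) (nat_lit 0) (nat_lit 73981799034) (nat_lit 836) (nat_lit 96256521067) (nat_lit 140) (nat_lit 5) (nat_lit 139) (nat_lit 5) (nat_lit 150) (nat_lit 5) (nat_lit 451) (nat_lit 448) (nat_lit 301)) (XT.lf (nat_lit 0) (nat_lit 104250027319) (nat_lit 760) (nat_lit 21540625356) (nat_lit 836) (nat_lit 65493355762) (nat_lit 140) (nat_lit 5) (nat_lit 150) (nat_lit 5) (nat_lit 151) (nat_lit 5) (nat_lit 452) (nat_lit 448) (nat_lit 300))))) (XT.nd (nat_lit 234) (nat_lit 1216) (nat_lit 0) (XT.nd (nat_lit 78) (nat_lit 684) (nat_lit 0) (XT.lf (nat_lit 0) (nat_lit 126092693191) (nat_lit 760) (nat_lit 57161358886) (nat_lit 836) (nat_lit 15998024294) (nat_lit 141) (nat_lit 5) (nat_lit 151) (nat_lit 5) (nat_lit 152) (nat_lit 5) (nat_lit 453) (nat_lit 448) (nat_lit 299)) (XT.nd (nat_lit 78) (nat_lit 684) (nat_lit 0) (XT.lf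 (nat_lit 76) (nat_lit 113239887872) (nat_lit 0) (nat_lit 40713028300) (nat_lit 836) (nat_lit 53691166441) (nat_lit 142) (nat_lit 5) (nat_lit 141) (nat_lit 5) (nat_lit 152) (nat_lit 5) (nat_lit 454) (nat_lit 448) (nat_lit 298)) (XT.lf (nat_lit 0) (nat_lit 83546373084) (nat_lit 760) (nat_lit 104579606520) (nat_lit 836) (nat_lit 28377268680) (nat_lit 132) (nat_lit 5) (nat_lit 142) (nat_lit 5) (nat_lit 143) (nat_lit 5) (nat_lit 455) (nat_lit 448) (nat_lit 297)))) (XT.nd (nat_lit 156) (nat_lit 380) (nat_lit 0) (XT.nd (nat_lit 78) (nat_lit 380) (nat_lit 0) (XT.lf (nat_lit 0) (nat_lit 3009209274) (nat_lit 456) (nat_lit 172572037778) (nat_lit 76) (nat_lit 50289998836) (nat_lit 126) (nat_lit 5) (nat_lit 132) (nat_lit 5) (nat_lit 127) (nat_lit 5) (nat_lit 456) (nat_lit 448) (nat_lit 296)) (XT.lf (nat_lit 0) (nat_lit 21746672625) (nat_lit 380) (nat_lit 18635705610) (nat_lit 456) (nat_lit 195359546357)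 (nat_lit 121) (nat_lit 5) (nat_lit 126) (nat_lit 5) (nat_lit 127) (nat_lit 5) (nat_lit 457) (nat_lit 448) (nat_lit 295))) (XT.nd (nat_lit 78) (nat_lit 380) (nat_lit 0) (XT.lf (nat_lit 0) (nat_lit 86155983753) (nat_lit 456) (nat_lit 10883531709) (nat_lit 76) (nat_lit 149092213022) (nat_lit 121) (nat_lit 5) (nat_lit 127) (nat_lit 5) (nat_lit 122) (nat_lit 5) (nat_lit 458) (nat_lit 448) (nat_lit 294)) (XT.lf (nat_lit 0) (nat_lit 140446142457) (nat_lit 456) (nat_lit 43306847172) (nat_lit 76) (nat_lit 73356993864) (nat_lit 116) (nat_lit 5) (nat_lit 122) (nat_lit 5) (nat_lit 117) (nat_lit 5) (nat_lit 459) (nat_lit 448) (nat_lit 293))))))) (XT.nd (nat_lit 1092) (nat_lit 2052) (nat_lit 0) (XT.nd (nat_lit 546) (nat_lit 1292) (nat_lit 0) (XT.nd (nat_lit 234) (nat_lit 1064) (nat_lit 0) (XT.nd (nat_lit 78) (nat_lit 684) (nat_lit 0) (XT.lf (nat_lit 0) (nat_lit 192415264461) (nat_lit 304) (nat_lit 11497151166)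 (nat_lit 380) (nat_lit 64812438225) (nat_lit 112) (nat_lit 5) (nat_lit 116) (nat_lit 5) (nat_lit 117) (nat_lit 5) (nat_lit 460) (nat_lit 448) (nat_lit 292)) (XT.nd (nat_lit 78) (nat_lit 380) (nat_lit 0) (XT.lf (nat_lit 0) (nat_lit 170014312136) (nat_lit 304) (nat_lit 108587683412) (nat_lit 380) (nat_lit 2359618083) (nat_lit 108) (nat_lit 5) (nat_lit 112) (nat_lit 5) (nat_lit 113) (nat_lit 5) (nat_lit 461) (nat_lit 448) (nat_lit 291)) (XT.lf (nat_lit 0) (nat_lit 68133613111) (nat_lit 380) (nat_lit 147034502330) (nat_lit 76) (nat_lit 78702014684) (nat_lit 103) (nat_lit 5) (nat_lit 108) (nat_lit 5) (nat_lit 104) (nat_lit 5) (nat_lit 462) (nat_lit 448) (nat_lit 290)))) (XT.nd (nat_lit 156) (nat_lit 532) (nat_lit 0) (XT.nd (nat_lit 78) (nat_lit 228) (nat_lit 0) (XT.lf (nat_lit 0) (nat_lit 123539760790) (nat_lit 304) (nat_lit 26368911452) (nat_lit 380) (nat_lit 157614469665) (nat_lit 99) (nat_lit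 5) (nat_lit 103) (nat_lit 5) (nat_lit 104) (nat_lit 5) (nat_lit 463) (nat_lit 448) (nat_lit 289)) (XT.lf (nat_lit 0) (nat_lit 99232232198) (nat_lit 228) (nat_lit 145917678614) (nat_lit 304) (nat_lit 76772275110) (nat_lit 96) (nat_lit 5) (nat_lit 99) (nat_lit 5) (nat_lit 100) (nat_lit 5) (nat_lit 464) (nat_lit 448) (nat_lit 288))) (XT.nd (nat_lit 78) (nat_lit 228) (nat_lit 0) (XT.lf (nat_lit 0) (nat_lit 16043742694) (nat_lit 304) (nat_lit 262036359955) (nat_lit 76) (nat_lit 59092639652) (nat_lit 92) (nat_lit 5) (nat_lit 96) (nat_lit 5) (nat_lit 93) (nat_lit 5) (nat_lit 465) (nat_lit 448) (nat_lit 287)) (XT.lf (nat_lit 0) (nat_lit 49042535210) (nat_lit 228) (nat_lit 71757430818) (nat_lit 304) (nat_lit 232420216557) (nat_lit 89) (nat_lit 5) (nat_lit 92) (nat_lit 5) (nat_lit 93) (nat_lit 5) (nat_lit 466) (nat_lit 448) (nat_lit 286))))) (XT.nd (nat_lit 234) (nat_lit 836) (nat_lit 0) (XT.nd (nat_lit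 78) (nat_lit 228) (nat_lit 0) (XT.lf (nat_lit 0) (nat_lit 22322572109) (nat_lit 228) (nat_lit 218960469003) (nat_lit 304) (nat_lit 128901059307) (nat_lit 86) (nat_lit 5) (nat_lit 89) (nat_lit 5) (nat_lit 90) (nat_lit 5) (nat_lit 467) (nat_lit 448) (nat_lit 285)) (XT.nd (nat_lit 78) (nat_lit 228) (nat_lit 0) (XT.lf (nat_lit 0) (nat_lit 377997652959) (nat_lit 304) (nat_lit 3729951837) (nat_lit 76) (nat_lit 6447882364) (nat_lit 86) (nat_lit 5) (nat_lit 90) (nat_lit 5) (nat_lit 87) (nat_lit 5) (nat_lit 468) (nat_lit 448) (nat_lit 284)) (XT.lf (nat_lit 0) (nat_lit 123988748065) (nat_lit 228) (nat_lit 32844355132) (nat_lit 76) (nat_lit 250194751348) (nat_lit 83) (nat_lit 5) (nat_lit 86) (nat_lit 5) (nat_lit 84) (nat_lit 5) (nat_lit 469) (nat_lit 448) (nat_lit 283)))) (XT.nd (nat_lit 156) (nat_lit 380) (nat_lit 0) (XT.nd (nat_lit 78) (nat_lit 228) (nat_lit 0) (XT.lf (nat_lit 0) (nat_lit 275768303359)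 (nat_lit 304) (nat_lit 61891618158) (nat_lit 76) (nat_lit 89358335924) (nat_lit 80) (nat_lit 5) (nat_lit 84) (nat_lit 5) (nat_lit 81) (nat_lit 5) (nat_lit 470) (nat_lit 448) (nat_lit 282)) (XT.lf (nat_lit 0) (nat_lit 300206932) (nat_lit 228) (nat_lit 91895356133) (nat_lit 76) (nat_lit 355972668241) (nat_lit 77) (nat_lit 5) (nat_lit 80) (nat_lit 5) (nat_lit 78) (nat_lit 5) (nat_lit 471) (nat_lit 448) (nat_lit 281))) (XT.nd (nat_lit 78) (nat_lit 152) (nat_lit 0) (XT.lf (nat_lit 0) (nat_lit 168118799198) (nat_lit 304) (nat_lit 125699890905) (nat_lit 76) (nat_lit 176595363619) (nat_lit 74) (nat_lit 5) (nat_lit 78) (nat_lit 5) (nat_lit 75) (nat_lit 5) (nat_lit 472) (nat_lit 448) (nat_lit 280)) (XT.lf (nat_lit 0) (nat_lit 334292957921) (nat_lit 152) (nat_lit 23470651543) (nat_lit 228) (nat_lit 136255895949) (nat_lit 72) (nat_lit 5) (nat_lit 74) (nat_lit 5) (nat_lit 75) (nat_lit 5) (nat_lit 473) (nat_lit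 448) (nat_lit 279)))))) (XT.nd (nat_lit 546) (nat_lit 836) (nat_lit 0) (XT.nd (nat_lit 234) (nat_lit 684) (nat_lit 0) (XT.nd (nat_lit 78) (nat_lit 304) (nat_lit 0) (XT.lf (nat_lit 0) (nat_lit 53324741796) (nat_lit 228) (nat_lit 197544977509) (nat_lit 76) (nat_lit 268028227868) (nat_lit 69) (nat_lit 5) (nat_lit 72) (nat_lit 5) (nat_lit 70) (nat_lit 5) (nat_lit 474) (nat_lit 448) (nat_lit 278)) (XT.nd (nat_lit 78) (nat_lit 152) (nat_lit 0) (XT.lf (nat_lit 0) (nat_lit 262125550828) (nat_lit 228) (nat_lit 237861814566) (nat_lit 76) (nat_lit 45226240573) (nat_lit 67) (nat_lit 5) (nat_lit 70) (nat_lit 5) (nat_lit 68) (nat_lit 5) (nat_lit 475) (nat_lit 448) (nat_lit 277)) (XT.lf (nat_lit 0) (nat_lit 291267803631) (nat_lit 152) (nat_lit 208637673746) (nat_lit 228) (nat_lit 73115287457) (nat_lit 65) (nat_lit 5) (nat_lit 67) (nat_lit 5) (nat_lit 68) (nat_lit 5) (nat_lit 476) (nat_lit 448) (nat_lit 276))))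 (XT.nd (nat_lit 156) (nat_lit 304) (nat_lit 0) (XT.nd (nat_lit 78) (nat_lit 152) (nat_lit 0) (XT.lf (nat_lit 0) (nat_lit 159071410038) (nat_lit 228) (nat_lit 329639956841) (nat_lit 76) (nat_lit 113704478162) (nat_lit 62) (nat_lit 5) (nat_lit 65) (nat_lit 5) (nat_lit 63) (nat_lit 5) (nat_lit 477) (nat_lit 448) (nat_lit 275)) (XT.lf (nat_lit 0) (nat_lit 251013747082) (nat_lit 152) (nat_lit 168717305415) (nat_lit 228) (nat_lit 213748567978) (nat_lit 60) (nat_lit 5) (nat_lit 62) (nat_lit 5) (nat_lit 63) (nat_lit 5) (nat_lit 478) (nat_lit 448) (nat_lit 274))) (XT.nd (nat_lit 78) (nat_lit 152) (nat_lit 0) (XT.lf (nat_lit 0) (nat_lit 45469895895) (nat_lit 152) (nat_lit 439576555573) (nat_lit 76) (nat_lit 181337835897) (nat_lit 58) (nat_lit 5) (nat_lit 60) (nat_lit 5) (nat_lit 59) (nat_lit 5) (nat_lit 479) (nat_lit 448) (nat_lit 273)) (XT.lf (nat_lit 0) (nat_lit 196627622242) (nat_lit 152) (nat_lit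 134095858652) (nat_lit 228) (nat_lit 370383325343) (nat_lit 56) (nat_lit 5) (nat_lit 58) (nat_lit 5) (nat_lit 59) (nat_lit 5) (nat_lit 480) (nat_lit 448) (nat_lit 272))))) (XT.nd (nat_lit 234) (nat_lit 456) (nat_lit 0) (XT.nd (nat_lit 78) (nat_lit 304) (nat_lit 0) (XT.lf (nat_lit 0) (nat_lit 162450715272) (nat_lit 76) (nat_lit 490489593111) (nat_lit 152) (nat_lit 84959670457) (nat_lit 55) (nat_lit 5) (nat_lit 56) (nat_lit 5) (nat_lit 57) (nat_lit 4) (nat_lit 481) (nat_lit 448) (nat_lit 271)) (XT.nd (nat_lit 78) (nat_lit 76) (nat_lit 0) (XT.lf (nat_lit 0) (nat_lit 121551373459) (nat_lit 152) (nat_lit 107690122500) (nat_lit 228) (nat_lit 547566266728) (nat_lit 52) (nat_lit 5) (nat_lit 54) (nat_lit 5) (nat_lit 55) (nat_lit 5) (nat_lit 482) (nat_lit 448) (nat_lit 270)) (XT.lf (nat_lit 0) (nat_lit 72483739687) (nat_lit 76) (nat_lit 509251473862) (nat_lit 152) (nat_lit 236216665080) (nat_lit 51)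 (nat_lit 5) (nat_lit 52) (nat_lit 5) (nat_lit 53) (nat_lit 4) (nat_lit 483) (nat_lit 448) (nat_lit 269)))) (XT.nd (nat_lit 156) (nat_lit 228) (nat_lit 0) (XT.nd (nat_lit 78) (nat_lit 0) (nat_lit 0) (XT.lf (nat_lit 0) (nat_lit 17004487549) (nat_lit 152) (nat_lit 93517013265) (nat_lit 228) (nat_lit 751103800602) (nat_lit 48) (nat_lit 5) (nat_lit 50) (nat_lit 5) (nat_lit 51) (nat_lit 5) (nat_lit 484) (nat_lit 448) (nat_lit 268)) (XT.lf (nat_lit 0) (nat_lit 495581842555) (nat_lit 228) (nat_lit 50793998300) (nat_lit 76) (nat_lit 361280186762) (nat_lit 48) (nat_lit 5) (nat_lit 51) (nat_lit 5) (nat_lit 49) (nat_lit 4) (nat_lit 485) (nat_lit 448) (nat_lit 267))) (XT.nd (nat_lit 78) (nat_lit 152) (nat_lit 0) (XT.lf (nat_lit 0) (nat_lit 831577655140) (nat_lit 76) (nat_lit 94429418593) (nat_lit 152) (nat_lit 30634135081) (nat_lit 47) (nat_lit 5) (nat_lit 48) (nat_lit 5) (nat_lit 49) (nat_lit 4) (nat_lit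 486) (nat_lit 448) (nat_lit 266)) (XT.lf (nat_lit 0) (nat_lit 388911817775) (nat_lit 152) (nat_lit 218670689051) (nat_lit 76) (nat_lit 400675255313) (nat_lit 45) (nat_lit 5) (nat_lit 47) (nat_lit 5) (nat_lit 46) (nat_lit 4) (nat_lit 487) (nat_lit 448) (nat_lit 265))))))))
noncomputable def xc111 : XT := (XT.nd (nat_lit 60996) (nat_lit 0) (nat_lit 76) (XT.nd (nat_lit 59904) (nat_lit 0) (nat_lit 3876) (XT.nd (nat_lit 546) (nat_lit 76) (nat_lit 0) (XT.nd (nat_lit 234) (nat_lit 380) (nat_lit 0) (XT.nd (nat_lit 78) (nat_lit 228) (nat_lit 0) (XT.lf (nat_lit 0) (nat_lit 739505174089) (nat_lit 76) (nat_lit 116809531824) (nat_lit 152) (nat_lit 206895497378) (nat_lit 44) (nat_lit 5) (nat_lit 45) (nat_lit 5) (nat_lit 46) (nat_lit 4) (nat_lit 488) (nat_lit 448) (nat_lit 264)) (XT.nd (nat_lit 78) (nat_lit 76) (nat_lit 0) (XT.lf (nat_lit 0) (nat_lit 252117389434) (nat_lit 152) (nat_lit 450721281481) (nat_lit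 76) (nat_lit 418473870081) (nat_lit 42) (nat_lit 5) (nat_lit 44) (nat_lit 5) (nat_lit 43) (nat_lit 4) (nat_lit 489) (nat_lit 448) (nat_lit 263)) (XT.lf (nat_lit 0) (nat_lit 585395018245) (nat_lit 76) (nat_lit 172144979340) (nat_lit 152) (nat_lit 425506616623) (nat_lit 41) (nat_lit 5) (nat_lit 42) (nat_lit 5) (nat_lit 43) (nat_lit 4) (nat_lit 490) (nat_lit 448) (nat_lit 262)))) (XT.nd (nat_lit 156) (nat_lit 152) (nat_lit 0) (XT.nd (nat_lit 78) (nat_lit 76) (nat_lit 0) (XT.lf (nat_lit 0) (nat_lit 74052517705) (nat_lit 152) (nat_lit 769679977093) (nat_lit 76) (nat_lit 404840340267) (nat_lit 39) (nat_lit 5) (nat_lit 41) (nat_lit 5) (nat_lit 40) (nat_lit 4) (nat_lit 491) (nat_lit 448) (nat_lit 261)) (XT.lf (nat_lit 0) (nat_lit 344871987228) (nat_lit 76) (nat_lit 272864434226) (nat_lit 152) (nat_lit 700302570335) (nat_lit 38) (nat_lit 5) (nat_lit 39) (nat_lit 5) (nat_lit 40) (nat_lit 4) (nat_lit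 492) (nat_lit 448) (nat_lit 260))) (XT.nd (nat_lit 78) (nat_lit 76) (nat_lit 0) (XT.lf (nat_lit 0) (nat_lit 183984107995) (nat_lit 76) (nat_lit 1042796207100) (nat_lit 76) (nat_lit 165188862076) (nat_lit 37) (nat_lit 4) (nat_lit 38) (nat_lit 5) (nat_lit 38) (nat_lit 4) (nat_lit 493) (nat_lit 448) (nat_lit 259)) (XT.lf (nat_lit 0) (nat_lit 421354664800) (nat_lit 152) (nat_lit 13830313507) (nat_lit 76) (nat_lit 1035215063118) (nat_lit 36) (nat_lit 5) (nat_lit 38) (nat_lit 5) (nat_lit 37) (nat_lit 4) (nat_lit 494) (nat_lit 448) (nat_lit 258))))) (XT.nd (nat_lit 59046) (nat_lit 0) (nat_lit 7828) (XT.nd (nat_lit 58890) (nat_lit 0) (nat_lit 7752) (XT.lf (nat_lit 0) (nat_lit 1073478248712) (nat_lit 152) (nat_lit 242607853818) (nat_lit 0) (nat_lit 237661672186) (nat_lit 35) (nat_lit 5) (nat_lit 37) (nat_lit 4) (nat_lit 35) (nat_lit 4) (nat_lit 495) (nat_lit 448) (nat_lit 257)) (XT.nd (nat_lit 78) (nat_lit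 0) (nat_lit 76) (XT.lf (nat_lit 0) (nat_lit 34268836725) (nat_lit 836) (nat_lit 26960613483) (nat_lit 836) (nat_lit 26960613483) (nat_lit 137) (nat_lit 3) (nat_lit 148) (nat_lit 3) (nat_lit 148) (nat_lit 5) (nat_lit 449) (nat_lit 449) (nat_lit 302)) (XT.lf (nat_lit 0) (nat_lit 72905040966) (nat_lit 760) (nat_lit 95315475709) (nat_lit 836) (nat_lit 15133522024) (nat_lit 138) (nat_lit 5) (nat_lit 148) (nat_lit 5) (nat_lit 149) (nat_lit 5) (nat_lit 450) (nat_lit 449) (nat_lit 301)))) (XT.nd (nat_lit 156) (nat_lit 0) (nat_lit 152) (XT.nd (nat_lit 78) (nat_lit 0) (nat_lit 76) (XT.lf (nat_lit 76) (nat_lit 52026444243) (nat_lit 0) (nat_lit 29426859219) (nat_lit 836) (nat_lit 109240984251) (nat_lit 139) (nat_lit 5) (nat_lit 138) (nat_lit 5) (nat_lit 149) (nat_lit 5) (nat_lit 451) (nat_lit 449) (nat_lit 300)) (XT.lf (nat_lit 76) (nat_lit 14578980383) (nat_lit 0) (nat_lit 79902195153) (nat_lit 836) (nat_lit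 103950793754) (nat_lit 140) (nat_lit 5) (nat_lit 139) (nat_lit 5) (nat_lit 150) (nat_lit 5) (nat_lit 452) (nat_lit 449) (nat_lit 299))) (XT.nd (nat_lit 78) (nat_lit 0) (nat_lit 76) (XT.lf (nat_lit 0) (nat_lit 112595512108) (nat_lit 760) (nat_lit 23259777496) (nat_lit 836) (nat_lit 70731164116) (nat_lit 140) (nat_lit 5) (nat_lit 150) (nat_lit 5) (nat_lit 151) (nat_lit 5) (nat_lit 453) (nat_lit 449) (nat_lit 298)) (XT.lf (nat_lit 0) (nat_lit 136185227315) (nat_lit 760) (nat_lit 61730070732) (nat_lit 836) (nat_lit 17276687333) (nat_lit 141) (nat_lit 5) (nat_lit 151) (nat_lit 5) (nat_lit 152) (nat_lit 5) (nat_lit 454) (nat_lit 449) (nat_lit 297)))))) (XT.nd (nat_lit 546) (nat_lit 1976) (nat_lit 0) (XT.nd (nat_lit 234) (nat_lit 1064) (nat_lit 0) (XT.nd (nat_lit 78) (nat_lit 1140) (nat_lit 0) (XT.lf (nat_lit 76) (nat_lit 122303093377) (nat_lit 0) (nat_lit 43970858275) (nat_lit 836) (nat_lit 57981416380)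 (nat_lit 142) (nat_lit 5) (nat_lit 141) (nat_lit 5) (nat_lit 152) (nat_lit 5) (nat_lit 455) (nat_lit 449) (nat_lit 296)) (XT.nd (nat_lit 78) (nat_lit 456) (nat_lit 0) (XT.lf (nat_lit 0) (nat_lit 90234165414) (nat_lit 760) (nat_lit 112946391378) (nat_lit 836) (nat_lit 30642725413) (nat_lit 132) (nat_lit 5) (nat_lit 142) (nat_lit 5) (nat_lit 143) (nat_lit 5) (nat_lit 456) (nat_lit 449) (nat_lit 295)) (XT.lf (nat_lit 0) (nat_lit 3254240155) (nat_lit 456) (nat_lit 186373530530) (nat_lit 76) (nat_lit 54312959284) (nat_lit 126) (nat_lit 5) (nat_lit 132) (nat_lit 5) (nat_lit 127) (nat_lit 5) (nat_lit 457) (nat_lit 449) (nat_lit 294)))) (XT.nd (nat_lit 156) (nat_lit 684) (nat_lit 0) (XT.nd (nat_lit 78) (nat_lit 0) (nat_lit 0) (XT.lf (nat_lit 0) (nat_lit 23490491125) (nat_lit 380) (nat_lit 20126517196) (nat_lit 456) (nat_lit 210984067428) (nat_lit 121) (nat_lit 5) (nat_lit 126) (nat_lit 5) (nat_lit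 127) (nat_lit 5) (nat_lit 458) (nat_lit 449) (nat_lit 293)) (XT.lf (nat_lit 0) (nat_lit 93052203683) (nat_lit 456) (nat_lit 11750244988) (nat_lit 76) (nat_lit 161019630273) (nat_lit 121) (nat_lit 5) (nat_lit 127) (nat_lit 5) (nat_lit 122) (nat_lit 5) (nat_lit 459) (nat_lit 449) (nat_lit 292))) (XT.nd (nat_lit 78) (nat_lit 304) (nat_lit 0) (XT.lf (nat_lit 0) (nat_lit 151685361502) (nat_lit 456) (nat_lit 46767425585) (nat_lit 76) (nat_lit 79225818002) (nat_lit 116) (nat_lit 5) (nat_lit 122) (nat_lit 5) (nat_lit 117) (nat_lit 5) (nat_lit 460) (nat_lit 449) (nat_lit 291)) (XT.lf (nat_lit 0) (nat_lit 207812282474) (nat_lit 304) (nat_lit 12416452023) (nat_lit 380) (nat_lit 69993940733) (nat_lit 112) (nat_lit 5) (nat_lit 116) (nat_lit 5) (nat_lit 117) (nat_lit 5) (nat_lit 461) (nat_lit 449) (nat_lit 290))))) (XT.nd (nat_lit 234) (nat_lit 988) (nat_lit 0) (XT.nd (nat_lit 78) (nat_lit 684) (nat_lit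 0) (XT.lf (nat_lit 0) (nat_lit 183619241595) (nat_lit 304) (nat_lit 117274058774) (nat_lit 380) (nat_lit 2545084494) (nat_lit 108) (nat_lit 5) (nat_lit 112) (nat_lit 5) (nat_lit 113) (nat_lit 5) (nat_lit 462) (nat_lit 449) (nat_lit 289)) (XT.nd (nat_lit 78) (nat_lit 304) (nat_lit 0) (XT.lf (nat_lit 0) (nat_lit 73587331724) (nat_lit 380) (nat_lit 158793400346) (nat_lit 76) (nat_lit 84998856458) (nat_lit 103) (nat_lit 5) (nat_lit 108) (nat_lit 5) (nat_lit 104) (nat_lit 5) (nat_lit 463) (nat_lit 449) (nat_lit 288)) (XT.lf (nat_lit 0) (nat_lit 133426635978) (nat_lit 304) (nat_lit 28477592873) (nat_lit 380) (nat_lit 170220620776) (nat_lit 99) (nat_lit 5) (nat_lit 103) (nat_lit 5) (nat_lit 104) (nat_lit 5) (nat_lit 464) (nat_lit 449) (nat_lit 287)))) (XT.nd (nat_lit 156) (nat_lit 456) (nat_lit 0) (XT.nd (nat_lit 78) (nat_lit 304) (nat_lit 0) (XT.lf (nat_lit 0) (nat_lit 107174469520) (nat_lit 228)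 (nat_lit 157590154069) (nat_lit 304) (nat_lit 82911200757) (nat_lit 96) (nat_lit 5) (nat_lit 99) (nat_lit 5) (nat_lit 100) (nat_lit 5) (nat_lit 465) (nat_lit 449) (nat_lit 286)) (XT.lf (nat_lit 0) (nat_lit 17329873420) (nat_lit 304) (nat_lit 282995565106) (nat_lit 76) (nat_lit 63820991192) (nat_lit 92) (nat_lit 5) (nat_lit 96) (nat_lit 5) (nat_lit 93) (nat_lit 5) (nat_lit 466) (nat_lit 449) (nat_lit 285))) (XT.nd (nat_lit 78) (nat_lit 228) (nat_lit 0) (XT.lf (nat_lit 0) (nat_lit 52969480716) (nat_lit 228) (nat_lit 77496974304) (nat_lit 304) (nat_lit 251011217216) (nat_lit 89) (nat_lit 5) (nat_lit 92) (nat_lit 5) (nat_lit 93) (nat_lit 5) (nat_lit 467) (nat_lit 449) (nat_lit 284)) (XT.lf (nat_lit 0) (nat_lit 24111870436) (nat_lit 228) (nat_lit 236476190825) (nat_lit 304) (nat_lit 139210648005) (nat_lit 86) (nat_lit 5) (nat_lit 89) (nat_lit 5) (nat_lit 90) (nat_lit 5) (nat_lit 468) (nat_lit 449)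 (nat_lit 283))))))) (XT.nd (nat_lit 1092) (nat_lit 1444) (nat_lit 0) (XT.nd (nat_lit 546) (nat_lit 1064) (nat_lit 0) (XT.nd (nat_lit 234) (nat_lit 836) (nat_lit 0) (XT.nd (nat_lit 78) (nat_lit 456) (nat_lit 0) (XT.lf (nat_lit 0) (nat_lit 408239682121) (nat_lit 304) (nat_lit 4025019904) (nat_lit 76) (nat_lit 6964712943) (nat_lit 86) (nat_lit 5) (nat_lit 90) (nat_lit 5) (nat_lit 87) (nat_lit 5) (nat_lit 469) (nat_lit 449) (nat_lit 282)) (XT.nd (nat_lit 78) (nat_lit 228) (nat_lit 0) (XT.lf (nat_lit 0) (nat_lit 133909985072) (nat_lit 228) (nat_lit 35468649153) (nat_lit 76) (nat_lit 270211341545) (nat_lit 83) (nat_lit 5) (nat_lit 86) (nat_lit 5) (nat_lit 84) (nat_lit 5) (nat_lit 470) (nat_lit 449) (nat_lit 281)) (XT.lf (nat_lit 0) (nat_lit 297831812031) (nat_lit 304) (nat_lit 66839749968) (nat_lit 76) (nat_lit 96508053557) (nat_lit 80) (nat_lit 5) (nat_lit 84) (nat_lit 5) (nat_lit 81) (nat_lit 5)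 (nat_lit 471) (nat_lit 449) (nat_lit 280)))) (XT.nd (nat_lit 156) (nat_lit 380) (nat_lit 0) (XT.nd (nat_lit 78) (nat_lit 228) (nat_lit 0) (XT.lf (nat_lit 0) (nat_lit 326196256) (nat_lit 228) (nat_lit 99243860489) (nat_lit 76) (nat_lit 384451534198) (nat_lit 77) (nat_lit 5) (nat_lit 80) (nat_lit 5) (nat_lit 78) (nat_lit 5) (nat_lit 472) (nat_lit 449) (nat_lit 279)) (XT.lf (nat_lit 0) (nat_lit 181570193838) (nat_lit 304) (nat_lit 135752817347) (nat_lit 76) (nat_lit 190724072088) (nat_lit 74) (nat_lit 5) (nat_lit 78) (nat_lit 5) (nat_lit 75) (nat_lit 5) (nat_lit 473) (nat_lit 449) (nat_lit 278))) (XT.nd (nat_lit 78) (nat_lit 228) (nat_lit 0) (XT.lf (nat_lit 0) (nat_lit 361039326191) (nat_lit 152) (nat_lit 25347168452) (nat_lit 228) (nat_lit 147154481185) (nat_lit 72) (nat_lit 5) (nat_lit 74) (nat_lit 5) (nat_lit 75) (nat_lit 5) (nat_lit 474) (nat_lit 449) (nat_lit 277)) (XT.lf (nat_lit 0) (nat_lit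 57592474215) (nat_lit 228) (nat_lit 213345644189) (nat_lit 76) (nat_lit 289471576716) (nat_lit 69) (nat_lit 5) (nat_lit 72) (nat_lit 5) (nat_lit 70) (nat_lit 5) (nat_lit 475) (nat_lit 449) (nat_lit 276))))) (XT.nd (nat_lit 234) (nat_lit 532) (nat_lit 0) (XT.nd (nat_lit 78) (nat_lit 380) (nat_lit 0) (XT.lf (nat_lit 0) (nat_lit 283097279646) (nat_lit 228) (nat_lit 256887889854) (nat_lit 76) (nat_lit 48845440546) (nat_lit 67) (nat_lit 5) (nat_lit 70) (nat_lit 5) (nat_lit 68) (nat_lit 5) (nat_lit 476) (nat_lit 449) (nat_lit 275)) (XT.nd (nat_lit 78) (nat_lit 228) (nat_lit 0) (XT.lf (nat_lit 0) (nat_lit 314571973077) (nat_lit 152) (nat_lit 225327545304) (nat_lit 228) (nat_lit 78962827349) (nat_lit 65) (nat_lit 5) (nat_lit 67) (nat_lit 5) (nat_lit 68) (nat_lit 5) (nat_lit 477) (nat_lit 449) (nat_lit 274)) (XT.lf (nat_lit 0) (nat_lit 171798690793) (nat_lit 228) (nat_lit 356008415819) (nat_lit 76)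 (nat_lit 122801927503) (nat_lit 62) (nat_lit 5) (nat_lit 65) (nat_lit 5) (nat_lit 63) (nat_lit 5) (nat_lit 478) (nat_lit 449) (nat_lit 273)))) (XT.nd (nat_lit 156) (nat_lit 228) (nat_lit 0) (XT.nd (nat_lit 78) (nat_lit 152) (nat_lit 0) (XT.lf (nat_lit 0) (nat_lit 271097465446) (nat_lit 152) (nat_lit 182213563941) (nat_lit 228) (nat_lit 230846885970) (nat_lit 60) (nat_lit 5) (nat_lit 62) (nat_lit 5) (nat_lit 63) (nat_lit 5) (nat_lit 479) (nat_lit 449) (nat_lit 272)) (XT.lf (nat_lit 0) (nat_lit 49108949614) (nat_lit 152) (nat_lit 474740072082) (nat_lit 76) (nat_lit 195845935450) (nat_lit 58) (nat_lit 5) (nat_lit 60) (nat_lit 5) (nat_lit 59) (nat_lit 5) (nat_lit 480) (nat_lit 449) (nat_lit 271))) (XT.nd (nat_lit 78) (nat_lit 76) (nat_lit 0) (XT.lf (nat_lit 0) (nat_lit 212360326621) (nat_lit 152) (nat_lit 144822425439) (nat_lit 228) (nat_lit 400012528942) (nat_lit 56) (nat_lit 5) (nat_lit 58) (nat_lit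 5) (nat_lit 59) (nat_lit 5) (nat_lit 481) (nat_lit 449) (nat_lit 270)) (XT.lf (nat_lit 0) (nat_lit 175449208928) (nat_lit 76) (nat_lit 529727667627) (nat_lit 152) (nat_lit 91755033326) (nat_lit 55) (nat_lit 5) (nat_lit 56) (nat_lit 5) (nat_lit 57) (nat_lit 4) (nat_lit 482) (nat_lit 449) (nat_lit 269)))))) (XT.nd (nat_lit 546) (nat_lit 608) (nat_lit 0) (XT.nd (nat_lit 234) (nat_lit 304) (nat_lit 0) (XT.nd (nat_lit 78) (nat_lit 304) (nat_lit 0) (XT.lf (nat_lit 0) (nat_lit 131277857160) (nat_lit 152) (nat_lit 116304259996) (nat_lit 228) (nat_lit 591370201390) (nat_lit 52) (nat_lit 5) (nat_lit 54) (nat_lit 5) (nat_lit 55) (nat_lit 5) (nat_lit 483) (nat_lit 449) (nat_lit 268)) (XT.nd (nat_lit 78) (nat_lit 228) (nat_lit 0) (XT.lf (nat_lit 0) (nat_lit 78284755834) (nat_lit 76) (nat_lit 549990531586) (nat_lit 152) (nat_lit 255112678585) (nat_lit 51) (nat_lit 5) (nat_lit 52) (nat_lit 5) (nat_lit 53)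 (nat_lit 4) (nat_lit 484) (nat_lit 449) (nat_lit 267)) (XT.lf (nat_lit 0) (nat_lit 18367103303) (nat_lit 152) (nat_lit 100997335645) (nat_lit 228) (nat_lit 811190825611) (nat_lit 48) (nat_lit 5) (nat_lit 50) (nat_lit 5) (nat_lit 51) (nat_lit 5) (nat_lit 485) (nat_lit 449) (nat_lit 266)))) (XT.nd (nat_lit 156) (nat_lit 228) (nat_lit 0) (XT.nd (nat_lit 78) (nat_lit 76) (nat_lit 0) (XT.lf (nat_lit 0) (nat_lit 535229532818) (nat_lit 228) (nat_lit 54855387143) (nat_lit 76) (nat_lit 390183532662) (nat_lit 48) (nat_lit 5) (nat_lit 51) (nat_lit 5) (nat_lit 49) (nat_lit 4) (nat_lit 486) (nat_lit 449) (nat_lit 265)) (XT.lf (nat_lit 0) (nat_lit 898105905961) (nat_lit 76) (nat_lit 101982823697) (nat_lit 152) (nat_lit 33083721303) (nat_lit 47) (nat_lit 5) (nat_lit 48) (nat_lit 5) (nat_lit 49) (nat_lit 4) (nat_lit 487) (nat_lit 449) (nat_lit 264))) (XT.nd (nat_lit 78) (nat_lit 76) (nat_lit 0) (XT.lf (nat_lit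 0) (nat_lit 420025834557) (nat_lit 152) (nat_lit 236162320855) (nat_lit 76) (nat_lit 432730174080) (nat_lit 45) (nat_lit 5) (nat_lit 47) (nat_lit 5) (nat_lit 46) (nat_lit 4) (nat_lit 488) (nat_lit 449) (nat_lit 263)) (XT.lf (nat_lit 0) (nat_lit 798667523406) (nat_lit 76) (nat_lit 126153381197) (nat_lit 152) (nat_lit 223446063794) (nat_lit 44) (nat_lit 5) (nat_lit 45) (nat_lit 5) (nat_lit 46) (nat_lit 4) (nat_lit 489) (nat_lit 449) (nat_lit 262))))) (XT.nd (nat_lit 312) (nat_lit 152) (nat_lit 0) (XT.nd (nat_lit 156) (nat_lit 228) (nat_lit 0) (XT.nd (nat_lit 78) (nat_lit 76) (nat_lit 0) (XT.lf (nat_lit 0) (nat_lit 272287785999) (nat_lit 152) (nat_lit 486777064139) (nat_lit 76) (nat_lit 451952643827) (nat_lit 42) (nat_lit 5) (nat_lit 44) (nat_lit 5) (nat_lit 43) (nat_lit 4) (nat_lit 490) (nat_lit 449) (nat_lit 261)) (XT.lf (nat_lit 0) (nat_lit 632228456130) (nat_lit 76) (nat_lit 185915700869)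 (nat_lit 152) (nat_lit 459546138328) (nat_lit 41) (nat_lit 5) (nat_lit 42) (nat_lit 5) (nat_lit 43) (nat_lit 4) (nat_lit 491) (nat_lit 449) (nat_lit 260))) (XT.nd (nat_lit 78) (nat_lit 76) (nat_lit 0) (XT.lf (nat_lit 0) (nat_lit 79977663526) (nat_lit 152) (nat_lit 831252554548) (nat_lit 76) (nat_lit 437228396543) (nat_lit 39) (nat_lit 5) (nat_lit 41) (nat_lit 5) (nat_lit 40) (nat_lit 4) (nat_lit 492) (nat_lit 449) (nat_lit 259)) (XT.lf (nat_lit 0) (nat_lit 372463487792) (nat_lit 76) (nat_lit 294692749017) (nat_lit 152) (nat_lit 756325829209) (nat_lit 38) (nat_lit 5) (nat_lit 39) (nat_lit 5) (nat_lit 40) (nat_lit 4) (nat_lit 493) (nat_lit 449) (nat_lit 258)))) (XT.nd (nat_lit 59046) (nat_lit 0) (nat_lit 7676) (XT.nd (nat_lit 78) (nat_lit 76) (nat_lit 0) (XT.lf (nat_lit 0) (nat_lit 198704533142) (nat_lit 76) (nat_lit 1126219080642) (nat_lit 76) (nat_lit 178403053858) (nat_lit 37) (nat_lit 4)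 (nat_lit 38) (nat_lit 5) (nat_lit 38) (nat_lit 4) (nat_lit 494) (nat_lit 449) (nat_lit 257)) (XT.lf (nat_lit 0) (nat_lit 455063860047) (nat_lit 152) (nat_lit 14935140541) (nat_lit 76) (nat_lit 1118033003023) (nat_lit 36) (nat_lit 5) (nat_lit 38) (nat_lit 5) (nat_lit 37) (nat_lit 4) (nat_lit 495) (nat_lit 449) (nat_lit 256))) (XT.nd (nat_lit 78) (nat_lit 0) (nat_lit 76) (XT.lf (nat_lit 0) (nat_lit 37013507064) (nat_lit 836) (nat_lit 29115801409) (nat_lit 836) (nat_lit 29115801409) (nat_lit 137) (nat_lit 3) (nat_lit 148) (nat_lit 3) (nat_lit 148) (nat_lit 5) (nat_lit 450) (nat_lit 450) (nat_lit 300)) (XT.lf (nat_lit 0) (nat_lit 78743309389) (nat_lit 760) (nat_lit 102937196472) (nat_lit 836) (nat_lit 16341561315) (nat_lit 138) (nat_lit 5) (nat_lit 148) (nat_lit 5) (nat_lit 149) (nat_lit 5) (nat_lit 451) (nat_lit 450) (nat_lit 299))))))))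
noncomputable def xc112 : XT := (XT.nd (nat_lit 2184) (nat_lit 1900) (nat_lit 0) (XT.nd (nat_lit 1092) (nat_lit 2812) (nat_lit 0) (XT.nd (nat_lit 546) (nat_lit 2052) (nat_lit 0) (XT.nd (nat_lit 234) (nat_lit 912) (nat_lit 0) (XT.nd (nat_lit 78) (nat_lit 0) (nat_lit 76) (XT.lf (nat_lit 76) (nat_lit 56191924219) (nat_lit 0) (nat_lit 31783126739) (nat_lit 836) (nat_lit 117974504351) (nat_lit 139) (nat_lit 5) (nat_lit 138) (nat_lit 5) (nat_lit 149) (nat_lit 5) (nat_lit 452) (nat_lit 450) (nat_lit 298)) (XT.nd (nat_lit 78) (nat_lit 0) (nat_lit 76) (XT.lf (nat_lit 76) (nat_lit 15748812130) (nat_lit 0) (nat_lit 86295958726) (nat_lit 836) (nat_lit 112261499745) (nat_lit 140) (nat_lit 5) (nat_lit 139) (nat_lit 5) (nat_lit 150) (nat_lit 5) (nat_lit 453) (nat_lit 450) (nat_lit 297)) (XT.lf (nat_lit 0) (nat_lit 121607853526) (nat_lit 760) (nat_lit 25117046417) (nat_lit 836) (nat_lit 76388233972) (nat_lit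 140) (nat_lit 5) (nat_lit 150) (nat_lit 5) (nat_lit 151) (nat_lit 5) (nat_lit 454) (nat_lit 450) (nat_lit 296)))) (XT.nd (nat_lit 156) (nat_lit 1140) (nat_lit 0) (XT.nd (nat_lit 78) (nat_lit 0) (nat_lit 0) (XT.lf (nat_lit 0) (nat_lit 147084433934) (nat_lit 760) (nat_lit 66664878254) (nat_lit 836) (nat_lit 18657811599) (nat_lit 141) (nat_lit 5) (nat_lit 151) (nat_lit 5) (nat_lit 152) (nat_lit 5) (nat_lit 455) (nat_lit 450) (nat_lit 295)) (XT.lf (nat_lit 76) (nat_lit 132090782612) (nat_lit 0) (nat_lit 47489202272) (nat_lit 836) (nat_lit 62615605808) (nat_lit 142) (nat_lit 5) (nat_lit 141) (nat_lit 5) (nat_lit 152) (nat_lit 5) (nat_lit 456) (nat_lit 450) (nat_lit 294))) (XT.nd (nat_lit 78) (nat_lit 456) (nat_lit 0) (XT.lf (nat_lit 0) (nat_lit 97456398719) (nat_lit 760) (nat_lit 121982459630) (nat_lit 836) (nat_lit 33090092724) (nat_lit 132) (nat_lit 5) (nat_lit 142) (nat_lit 5) (nat_lit 143) (nat_lit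 5) (nat_lit 457) (nat_lit 450) (nat_lit 293)) (XT.lf (nat_lit 0) (nat_lit 3518260900) (nat_lit 456) (nat_lit 201279751903) (nat_lit 76) (nat_lit 58657790731) (nat_lit 126) (nat_lit 5) (nat_lit 132) (nat_lit 5) (nat_lit 127) (nat_lit 5) (nat_lit 458) (nat_lit 450) (nat_lit 292))))) (XT.nd (nat_lit 234) (nat_lit 1292) (nat_lit 0) (XT.nd (nat_lit 78) (nat_lit 380) (nat_lit 0) (XT.lf (nat_lit 0) (nat_lit 25373232378) (nat_lit 380) (nat_lit 21736600110) (nat_lit 456) (nat_lit 227859155446) (nat_lit 121) (nat_lit 5) (nat_lit 126) (nat_lit 5) (nat_lit 127) (nat_lit 5) (nat_lit 459) (nat_lit 450) (nat_lit 291)) (XT.nd (nat_lit 78) (nat_lit 380) (nat_lit 0) (XT.lf (nat_lit 0) (nat_lit 100499587480) (nat_lit 456) (nat_lit 12686861588) (nat_lit 76) (nat_lit 173901235168) (nat_lit 121) (nat_lit 5) (nat_lit 127) (nat_lit 5) (nat_lit 122) (nat_lit 5) (nat_lit 460) (nat_lit 450) (nat_lit 290)) (XT.lf (nat_lit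 0) (nat_lit 163823214812) (nat_lit 456) (nat_lit 50505416546) (nat_lit 76) (nat_lit 85564110319) (nat_lit 116) (nat_lit 5) (nat_lit 122) (nat_lit 5) (nat_lit 117) (nat_lit 5) (nat_lit 461) (nat_lit 450) (nat_lit 289)))) (XT.nd (nat_lit 156) (nat_lit 684) (nat_lit 0) (XT.nd (nat_lit 78) (nat_lit 304) (nat_lit 0) (XT.lf (nat_lit 0) (nat_lit 224440520265) (nat_lit 304) (nat_lit 13409364176) (nat_lit 380) (nat_lit 75590461693) (nat_lit 112) (nat_lit 5) (nat_lit 116) (nat_lit 5) (nat_lit 117) (nat_lit 5) (nat_lit 462) (nat_lit 450) (nat_lit 288)) (XT.lf (nat_lit 0) (nat_lit 198312025511) (nat_lit 304) (nat_lit 126655435371) (nat_lit 380) (nat_lit 2745859432) (nat_lit 108) (nat_lit 5) (nat_lit 112) (nat_lit 5) (nat_lit 113) (nat_lit 5) (nat_lit 463) (nat_lit 450) (nat_lit 287))) (XT.nd (nat_lit 78) (nat_lit 304) (nat_lit 0) (XT.lf (nat_lit 0) (nat_lit 79476915624) (nat_lit 380) (nat_lit 171493561185)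 (nat_lit 76) (nat_lit 91799348478) (nat_lit 103) (nat_lit 5) (nat_lit 108) (nat_lit 5) (nat_lit 104) (nat_lit 5) (nat_lit 464) (nat_lit 450) (nat_lit 286)) (XT.lf (nat_lit 0) (nat_lit 144103934145) (nat_lit 304) (nat_lit 30755087430) (nat_lit 380) (nat_lit 183835692881) (nat_lit 99) (nat_lit 5) (nat_lit 103) (nat_lit 5) (nat_lit 104) (nat_lit 5) (nat_lit 465) (nat_lit 450) (nat_lit 285)))))) (XT.nd (nat_lit 546) (nat_lit 1368) (nat_lit 0) (XT.nd (nat_lit 234) (nat_lit 684) (nat_lit 0) (XT.nd (nat_lit 78) (nat_lit 532) (nat_lit 0) (XT.lf (nat_lit 0) (nat_lit 115751563868) (nat_lit 228) (nat_lit 170196561495) (nat_lit 304) (nat_lit 89541647947) (nat_lit 96) (nat_lit 5) (nat_lit 99) (nat_lit 5) (nat_lit 100) (nat_lit 5) (nat_lit 466) (nat_lit 450) (nat_lit 284)) (XT.nd (nat_lit 78) (nat_lit 228) (nat_lit 0) (XT.lf (nat_lit 0) (nat_lit 18718519218) (nat_lit 304) (nat_lit 305632035036) (nat_lit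 76) (nat_lit 68927476702) (nat_lit 92) (nat_lit 5) (nat_lit 96) (nat_lit 5) (nat_lit 93) (nat_lit 5) (nat_lit 467) (nat_lit 450) (nat_lit 283)) (XT.lf (nat_lit 0) (nat_lit 57210076458) (nat_lit 228) (nat_lit 83695831203) (nat_lit 304) (nat_lit 271089871224) (nat_lit 89) (nat_lit 5) (nat_lit 92) (nat_lit 5) (nat_lit 93) (nat_lit 5) (nat_lit 468) (nat_lit 450) (nat_lit 282)))) (XT.nd (nat_lit 156) (nat_lit 456) (nat_lit 0) (XT.nd (nat_lit 78) (nat_lit 0) (nat_lit 0) (XT.lf (nat_lit 0) (nat_lit 26043814377) (nat_lit 228) (nat_lit 255393329560) (nat_lit 304) (nat_lit 150345359887) (nat_lit 86) (nat_lit 5) (nat_lit 89) (nat_lit 5) (nat_lit 90) (nat_lit 5) (nat_lit 469) (nat_lit 450) (nat_lit 281)) (XT.lf (nat_lit 0) (nat_lit 440900757347) (nat_lit 304) (nat_lit 4344168205) (nat_lit 76) (nat_lit 7522747308) (nat_lit 86) (nat_lit 5) (nat_lit 90) (nat_lit 5) (nat_lit 87) (nat_lit 5) (nat_lit 470) (nat_lit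 450) (nat_lit 280))) (XT.nd (nat_lit 78) (nat_lit 228) (nat_lit 0) (XT.lf (nat_lit 0) (nat_lit 144624616150) (nat_lit 228) (nat_lit 38303350971) (nat_lit 76) (nat_lit 291829114857) (nat_lit 83) (nat_lit 5) (nat_lit 86) (nat_lit 5) (nat_lit 84) (nat_lit 5) (nat_lit 471) (nat_lit 450) (nat_lit 279)) (XT.lf (nat_lit 0) (nat_lit 321660109740) (nat_lit 304) (nat_lit 72184188502) (nat_lit 76) (nat_lit 104229598698) (nat_lit 80) (nat_lit 5) (nat_lit 84) (nat_lit 5) (nat_lit 81) (nat_lit 5) (nat_lit 472) (nat_lit 450) (nat_lit 278))))) (XT.nd (nat_lit 234) (nat_lit 760) (nat_lit 0) (XT.nd (nat_lit 78) (nat_lit 380) (nat_lit 0) (XT.lf (nat_lit 0) (nat_lit 353983287) (nat_lit 228) (nat_lit 107180690887) (nat_lit 76) (nat_lit 415208559282) (nat_lit 77) (nat_lit 5) (nat_lit 80) (nat_lit 5) (nat_lit 78) (nat_lit 5) (nat_lit 473) (nat_lit 450) (nat_lit 277)) (XT.nd (nat_lit 78) (nat_lit 152) (nat_lit 0)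 (XT.lf (nat_lit 0) (nat_lit 196097430318) (nat_lit 304) (nat_lit 146610415137) (nat_lit 76) (nat_lit 205982923249) (nat_lit 74) (nat_lit 5) (nat_lit 78) (nat_lit 5) (nat_lit 75) (nat_lit 5) (nat_lit 474) (nat_lit 450) (nat_lit 276)) (XT.lf (nat_lit 0) (nat_lit 389924985693) (nat_lit 152) (nat_lit 27373968665) (nat_lit 228) (nat_lit 158925222361) (nat_lit 72) (nat_lit 5) (nat_lit 74) (nat_lit 5) (nat_lit 75) (nat_lit 5) (nat_lit 475) (nat_lit 450) (nat_lit 275)))) (XT.nd (nat_lit 156) (nat_lit 380) (nat_lit 0) (XT.nd (nat_lit 78) (nat_lit 152) (nat_lit 0) (XT.lf (nat_lit 0) (nat_lit 62201375131) (nat_lit 228) (nat_lit 230410782417) (nat_lit 76) (nat_lit 312630237883) (nat_lit 69) (nat_lit 5) (nat_lit 72) (nat_lit 5) (nat_lit 70) (nat_lit 5) (nat_lit 476) (nat_lit 450) (nat_lit 274)) (XT.lf (nat_lit 0) (nat_lit 305746506421) (nat_lit 228) (nat_lit 277436460585) (nat_lit 76) (nat_lit 52754019487)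 (nat_lit 67) (nat_lit 5) (nat_lit 70) (nat_lit 5) (nat_lit 68) (nat_lit 5) (nat_lit 477) (nat_lit 450) (nat_lit 273))) (XT.nd (nat_lit 78) (nat_lit 228) (nat_lit 0) (XT.lf (nat_lit 0) (nat_lit 339740084452) (nat_lit 152) (nat_lit 243352769556) (nat_lit 228) (nat_lit 85278410547) (nat_lit 65) (nat_lit 5) (nat_lit 67) (nat_lit 5) (nat_lit 68) (nat_lit 5) (nat_lit 478) (nat_lit 450) (nat_lit 272)) (XT.lf (nat_lit 0) (nat_lit 185543930323) (nat_lit 228) (nat_lit 384486742061) (nat_lit 76) (nat_lit 132627017136) (nat_lit 62) (nat_lit 5) (nat_lit 65) (nat_lit 5) (nat_lit 63) (nat_lit 5) (nat_lit 479) (nat_lit 450) (nat_lit 271))))))) (XT.nd (nat_lit 1092) (nat_lit 152) (nat_lit 0) (XT.nd (nat_lit 546) (nat_lit 684) (nat_lit 0) (XT.nd (nat_lit 234) (nat_lit 608) (nat_lit 0) (XT.nd (nat_lit 78) (nat_lit 304) (nat_lit 0) (XT.lf (nat_lit 0) (nat_lit 292787507707) (nat_lit 152) (nat_lit 196789683773)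 (nat_lit 228) (nat_lit 249313293015) (nat_lit 60) (nat_lit 5) (nat_lit 62) (nat_lit 5) (nat_lit 63) (nat_lit 5) (nat_lit 480) (nat_lit 450) (nat_lit 270)) (XT.nd (nat_lit 78) (nat_lit 152) (nat_lit 0) (XT.lf (nat_lit 0) (nat_lit 53038919052) (nat_lit 152) (nat_lit 512717041962) (nat_lit 76) (nat_lit 211514529938) (nat_lit 58) (nat_lit 5) (nat_lit 60) (nat_lit 5) (nat_lit 59) (nat_lit 5) (nat_lit 481) (nat_lit 450) (nat_lit 269)) (XT.lf (nat_lit 0) (nat_lit 229351291468) (nat_lit 152) (nat_lit 156407274768) (nat_lit 228) (nat_lit 432012277461) (nat_lit 56) (nat_lit 5) (nat_lit 58) (nat_lit 5) (nat_lit 59) (nat_lit 5) (nat_lit 482) (nat_lit 450) (nat_lit 268)))) (XT.nd (nat_lit 156) (nat_lit 304) (nat_lit 0) (XT.nd (nat_lit 78) (nat_lit 228) (nat_lit 0) (XT.lf (nat_lit 0) (nat_lit 189487234492) (nat_lit 76) (nat_lit 572104944023) (nat_lit 152) (nat_lit 99094226486) (nat_lit 55) (nat_lit 5) (nat_lit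 56) (nat_lit 5) (nat_lit 57) (nat_lit 4) (nat_lit 483) (nat_lit 450) (nat_lit 267)) (XT.lf (nat_lit 0) (nat_lit 141782120905) (nat_lit 152) (nat_lit 125607681467) (nat_lit 228) (nat_lit 638678645796) (nat_lit 52) (nat_lit 5) (nat_lit 54) (nat_lit 5) (nat_lit 55) (nat_lit 5) (nat_lit 484) (nat_lit 450) (nat_lit 266))) (XT.nd (nat_lit 78) (nat_lit 228) (nat_lit 0) (XT.lf (nat_lit 0) (nat_lit 84549522731) (nat_lit 76) (nat_lit 593988865175) (nat_lit 152) (nat_lit 275520561441) (nat_lit 51) (nat_lit 5) (nat_lit 52) (nat_lit 5) (nat_lit 53) (nat_lit 4) (nat_lit 485) (nat_lit 450) (nat_lit 265)) (XT.lf (nat_lit 0) (nat_lit 19838406367) (nat_lit 152) (nat_lit 109076231996) (nat_lit 228) (nat_lit 876084995090) (nat_lit 48) (nat_lit 5) (nat_lit 50) (nat_lit 5) (nat_lit 51) (nat_lit 5) (nat_lit 486) (nat_lit 450) (nat_lit 264))))) (XT.nd (nat_lit 234) (nat_lit 456) (nat_lit 0) (XT.nd (nat_lit 78) (nat_lit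 228) (nat_lit 0) (XT.lf (nat_lit 0) (nat_lit 578048875260) (nat_lit 228) (nat_lit 59241991107) (nat_lit 76) (nat_lit 421399013423) (nat_lit 48) (nat_lit 5) (nat_lit 51) (nat_lit 5) (nat_lit 49) (nat_lit 4) (nat_lit 487) (nat_lit 450) (nat_lit 263)) (XT.nd (nat_lit 78) (nat_lit 152) (nat_lit 0) (XT.lf (nat_lit 0) (nat_lit 969956126046) (nat_lit 76) (nat_lit 110140636508) (nat_lit 152) (nat_lit 35729437710) (nat_lit 47) (nat_lit 5) (nat_lit 48) (nat_lit 5) (nat_lit 49) (nat_lit 4) (nat_lit 488) (nat_lit 450) (nat_lit 262)) (XT.lf (nat_lit 0) (nat_lit 453628819841) (nat_lit 152) (nat_lit 255053571852) (nat_lit 76) (nat_lit 467349358190) (nat_lit 45) (nat_lit 5) (nat_lit 47) (nat_lit 5) (nat_lit 46) (nat_lit 4) (nat_lit 489) (nat_lit 450) (nat_lit 261)))) (XT.nd (nat_lit 156) (nat_lit 228) (nat_lit 0) (XT.nd (nat_lit 78) (nat_lit 152) (nat_lit 0) (XT.lf (nat_lit 0) (nat_lit 862562584562) (nat_lit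 76) (nat_lit 136244868795) (nat_lit 152) (nat_lit 241320828652) (nat_lit 44) (nat_lit 5) (nat_lit 45) (nat_lit 5) (nat_lit 46) (nat_lit 4) (nat_lit 490) (nat_lit 450) (nat_lit 260)) (XT.lf (nat_lit 0) (nat_lit 294071670856) (nat_lit 152) (nat_lit 525717583300) (nat_lit 76) (nat_lit 488109596193) (nat_lit 42) (nat_lit 5) (nat_lit 44) (nat_lit 5) (nat_lit 43) (nat_lit 4) (nat_lit 491) (nat_lit 450) (nat_lit 259))) (XT.nd (nat_lit 78) (nat_lit 152) (nat_lit 0) (XT.lf (nat_lit 0) (nat_lit 682808307059) (nat_lit 76) (nat_lit 200788205209) (nat_lit 152) (nat_lit 496308965518) (nat_lit 41) (nat_lit 5) (nat_lit 42) (nat_lit 5) (nat_lit 43) (nat_lit 4) (nat_lit 492) (nat_lit 450) (nat_lit 258)) (XT.lf (nat_lit 0) (nat_lit 86376686283) (nat_lit 152) (nat_lit 897751197945) (nat_lit 76) (nat_lit 472207379047) (nat_lit 39) (nat_lit 5) (nat_lit 41) (nat_lit 5) (nat_lit 40) (nat_lit 4) (nat_lit 493) (nat_lit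 450) (nat_lit 257)))))) (XT.nd (nat_lit 59514) (nat_lit 0) (nat_lit 6004) (XT.nd (nat_lit 59202) (nat_lit 0) (nat_lit 7676) (XT.nd (nat_lit 78) (nat_lit 76) (nat_lit 0) (XT.lf (nat_lit 0) (nat_lit 402262059946) (nat_lit 76) (nat_lit 318267448820) (nat_lit 152) (nat_lit 816831083859) (nat_lit 38) (nat_lit 5) (nat_lit 39) (nat_lit 5) (nat_lit 40) (nat_lit 4) (nat_lit 494) (nat_lit 450) (nat_lit 256)) (XT.nd (nat_lit 59046) (nat_lit 0) (nat_lit 7600) (XT.lf (nat_lit 0) (nat_lit 214602350275) (nat_lit 76) (nat_lit 1216315901481) (nat_lit 76) (nat_lit 192674511830) (nat_lit 37) (nat_lit 4) (nat_lit 38) (nat_lit 5) (nat_lit 38) (nat_lit 4) (nat_lit 495) (nat_lit 450) (nat_lit 255)) (XT.lf (nat_lit 0) (nat_lit 39977299736) (nat_lit 836) (nat_lit 31443641350) (nat_lit 836) (nat_lit 31443641350) (nat_lit 137) (nat_lit 3) (nat_lit 148) (nat_lit 3) (nat_lit 148) (nat_lit 5) (nat_lit 451) (nat_lit 451)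 (nat_lit 298)))) (XT.nd (nat_lit 156) (nat_lit 0) (nat_lit 76) (XT.nd (nat_lit 78) (nat_lit 0) (nat_lit 0) (XT.lf (nat_lit 0) (nat_lit 85047802557) (nat_lit 760) (nat_lit 111169156677) (nat_lit 836) (nat_lit 17646620727) (nat_lit 138) (nat_lit 5) (nat_lit 148) (nat_lit 5) (nat_lit 149) (nat_lit 5) (nat_lit 452) (nat_lit 451) (nat_lit 297)) (XT.lf (nat_lit 76) (nat_lit 60690162618) (nat_lit 0) (nat_lit 34327593392) (nat_lit 836) (nat_lit 127407527593) (nat_lit 139) (nat_lit 5) (nat_lit 138) (nat_lit 5) (nat_lit 149) (nat_lit 5) (nat_lit 453) (nat_lit 451) (nat_lit 296))) (XT.nd (nat_lit 78) (nat_lit 0) (nat_lit 76) (XT.lf (nat_lit 76) (nat_lit 17011729204) (nat_lit 0) (nat_lit 93200996844) (nat_lit 836) (nat_lit 121237826524) (nat_lit 140) (nat_lit 5) (nat_lit 139) (nat_lit 5) (nat_lit 150) (nat_lit 5) (nat_lit 454) (nat_lit 451) (nat_lit 295)) (XT.lf (nat_lit 0) (nat_lit 131340511685) (nat_lit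 760) (nat_lit 27123398060) (nat_lit 836) (nat_lit 82498072462) (nat_lit 140) (nat_lit 5) (nat_lit 150) (nat_lit 5) (nat_lit 151) (nat_lit 5) (nat_lit 455) (nat_lit 451) (nat_lit 294))))) (XT.nd (nat_lit 234) (nat_lit 1216) (nat_lit 0) (XT.nd (nat_lit 78) (nat_lit 684) (nat_lit 0) (XT.lf (nat_lit 0) (nat_lit 158854951024) (nat_lit 760) (nat_lit 71994983693) (nat_lit 836) (nat_lit 20149569997) (nat_lit 141) (nat_lit 5) (nat_lit 151) (nat_lit 5) (nat_lit 152) (nat_lit 5) (nat_lit 456) (nat_lit 451) (nat_lit 293)) (XT.nd (nat_lit 78) (nat_lit 684) (nat_lit 0) (XT.lf (nat_lit 76) (nat_lit 142660995980) (nat_lit 0) (nat_lit 51288917445) (nat_lit 836) (nat_lit 67621147241) (nat_lit 142) (nat_lit 5) (nat_lit 141) (nat_lit 5) (nat_lit 152) (nat_lit 5) (nat_lit 457) (nat_lit 451) (nat_lit 292)) (XT.lf (nat_lit 0) (nat_lit 105255911364) (nat_lit 760) (nat_lit 131741362420) (nat_lit 836) (nat_lit 35733827300)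 (nat_lit 132) (nat_lit 5) (nat_lit 142) (nat_lit 5) (nat_lit 143) (nat_lit 5) (nat_lit 458) (nat_lit 451) (nat_lit 291)))) (XT.nd (nat_lit 156) (nat_lit 380) (nat_lit 0) (XT.nd (nat_lit 78) (nat_lit 380) (nat_lit 0) (XT.lf (nat_lit 0) (nat_lit 3802878092) (nat_lit 456) (nat_lit 217378993279) (nat_lit 76) (nat_lit 63350237981) (nat_lit 126) (nat_lit 5) (nat_lit 132) (nat_lit 5) (nat_lit 127) (nat_lit 5) (nat_lit 459) (nat_lit 451) (nat_lit 290)) (XT.lf (nat_lit 0) (nat_lit 27406093337) (nat_lit 380) (nat_lit 23475495144) (nat_lit 456) (nat_lit 246084769417) (nat_lit 121) (nat_lit 5) (nat_lit 126) (nat_lit 5) (nat_lit 127) (nat_lit 5) (nat_lit 460) (nat_lit 451) (nat_lit 289))) (XT.nd (nat_lit 78) (nat_lit 380) (nat_lit 0) (XT.lf (nat_lit 0) (nat_lit 108542304394) (nat_lit 456) (nat_lit 13698892993) (nat_lit 76) (nat_lit 187813363536) (nat_lit 121) (nat_lit 5) (nat_lit 127) (nat_lit 5) (nat_lit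 122) (nat_lit 5) (nat_lit 461) (nat_lit 451) (nat_lit 288)) (XT.lf (nat_lit 0) (nat_lit 176931664923) (nat_lit 456) (nat_lit 54542932271) (nat_lit 76) (nat_lit 92409433654) (nat_lit 116) (nat_lit 5) (nat_lit 122) (nat_lit 5) (nat_lit 117) (nat_lit 5) (nat_lit 462) (nat_lit 451) (nat_lit 287))))))))
noncomputable def xc113 : XT := (XT.nd (nat_lit 2184) (nat_lit 532) (nat_lit 0) (XT.nd (nat_lit 1092) (nat_lit 2052) (nat_lit 0) (XT.nd (nat_lit 546) (nat_lit 1292) (nat_lit 0) (XT.nd (nat_lit 234) (nat_lit 1064) (nat_lit 0) (XT.nd (nat_lit 78) (nat_lit 684) (nat_lit 0) (XT.lf (nat_lit 0) (nat_lit 242398552689) (nat_lit 304) (nat_lit 14481766937) (nat_lit 380) (nat_lit 81635131500) (nat_lit 112) (nat_lit 5) (nat_lit 116) (nat_lit 5) (nat_lit 117) (nat_lit 5) (nat_lit 463) (nat_lit 451) (nat_lit 286)) (XT.nd (nat_lit 78) (nat_lit 380) (nat_lit 0) (XT.lf (nat_lit 0) (nat_lit 214179769263) (nat_lit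 304) (nat_lit 136787400288) (nat_lit 380) (nat_lit 2963100356) (nat_lit 108) (nat_lit 5) (nat_lit 112) (nat_lit 5) (nat_lit 113) (nat_lit 5) (nat_lit 464) (nat_lit 451) (nat_lit 285)) (XT.lf (nat_lit 0) (nat_lit 85837295694) (nat_lit 380) (nat_lit 185210207269) (nat_lit 76) (nat_lit 99143796617) (nat_lit 103) (nat_lit 5) (nat_lit 108) (nat_lit 5) (nat_lit 104) (nat_lit 5) (nat_lit 465) (nat_lit 451) (nat_lit 284)))) (XT.nd (nat_lit 156) (nat_lit 532) (nat_lit 0) (XT.nd (nat_lit 78) (nat_lit 228) (nat_lit 0) (XT.lf (nat_lit 0) (nat_lit 155634964317) (nat_lit 304) (nat_lit 33214883251) (nat_lit 380) (nat_lit 198540338472) (nat_lit 99) (nat_lit 5) (nat_lit 103) (nat_lit 5) (nat_lit 104) (nat_lit 5) (nat_lit 466) (nat_lit 451) (nat_lit 283)) (XT.lf (nat_lit 0) (nat_lit 125014378266) (nat_lit 228) (nat_lit 183811596344) (nat_lit 304) (nat_lit 96702880271) (nat_lit 96) (nat_lit 5) (nat_lit 99) (nat_lit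 5) (nat_lit 100) (nat_lit 5) (nat_lit 467) (nat_lit 451) (nat_lit 282))) (XT.nd (nat_lit 78) (nat_lit 228) (nat_lit 0) (XT.lf (nat_lit 0) (nat_lit 20217934847) (nat_lit 304) (nat_lit 330079875550) (nat_lit 76) (nat_lit 74442366038) (nat_lit 92) (nat_lit 5) (nat_lit 96) (nat_lit 5) (nat_lit 93) (nat_lit 5) (nat_lit 468) (nat_lit 451) (nat_lit 281)) (XT.lf (nat_lit 0) (nat_lit 61789486556) (nat_lit 228) (nat_lit 90390725199) (nat_lit 304) (nat_lit 292775137594) (nat_lit 89) (nat_lit 5) (nat_lit 92) (nat_lit 5) (nat_lit 93) (nat_lit 5) (nat_lit 469) (nat_lit 451) (nat_lit 280))))) (XT.nd (nat_lit 234) (nat_lit 836) (nat_lit 0) (XT.nd (nat_lit 78) (nat_lit 228) (nat_lit 0) (XT.lf (nat_lit 0) (nat_lit 28129886662) (nat_lit 228) (nat_lit 275823975854) (nat_lit 304) (nat_lit 162371154009) (nat_lit 86) (nat_lit 5) (nat_lit 89) (nat_lit 5) (nat_lit 90) (nat_lit 5) (nat_lit 470) (nat_lit 451) (nat_lit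 279)) (XT.nd (nat_lit 78) (nat_lit 228) (nat_lit 0) (XT.lf (nat_lit 0) (nat_lit 476174447442) (nat_lit 304) (nat_lit 4689255424) (nat_lit 76) (nat_lit 8125302114) (nat_lit 86) (nat_lit 5) (nat_lit 90) (nat_lit 5) (nat_lit 87) (nat_lit 5) (nat_lit 471) (nat_lit 451) (nat_lit 278)) (XT.lf (nat_lit 0) (nat_lit 156196156320) (nat_lit 228) (nat_lit 41365226975) (nat_lit 76) (nat_lit 315176186491) (nat_lit 83) (nat_lit 5) (nat_lit 86) (nat_lit 5) (nat_lit 84) (nat_lit 5) (nat_lit 472) (nat_lit 451) (nat_lit 277)))) (XT.nd (nat_lit 156) (nat_lit 380) (nat_lit 0) (XT.nd (nat_lit 78) (nat_lit 228) (nat_lit 0) (XT.lf (nat_lit 0) (nat_lit 347394421217) (nat_lit 304) (nat_lit 77956573220) (nat_lit 76) (nat_lit 112568738933) (nat_lit 80) (nat_lit 5) (nat_lit 84) (nat_lit 5) (nat_lit 81) (nat_lit 5) (nat_lit 473) (nat_lit 451) (nat_lit 276)) (XT.lf (nat_lit 0) (nat_lit 383751994) (nat_lit 228) (nat_lit 115752849825)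 (nat_lit 76) (nat_lit 448426017642) (nat_lit 77) (nat_lit 5) (nat_lit 80) (nat_lit 5) (nat_lit 78) (nat_lit 5) (nat_lit 474) (nat_lit 451) (nat_lit 275))) (XT.nd (nat_lit 78) (nat_lit 152) (nat_lit 0) (XT.lf (nat_lit 0) (nat_lit 211786614468) (nat_lit 304) (nat_lit 158336995605) (nat_lit 76) (nat_lit 222462350486) (nat_lit 74) (nat_lit 5) (nat_lit 78) (nat_lit 5) (nat_lit 75) (nat_lit 5) (nat_lit 475) (nat_lit 451) (nat_lit 274)) (XT.lf (nat_lit 0) (nat_lit 421121139389) (nat_lit 152) (nat_lit 29563051742) (nat_lit 228) (nat_lit 171637853560) (nat_lit 72) (nat_lit 5) (nat_lit 74) (nat_lit 5) (nat_lit 75) (nat_lit 5) (nat_lit 476) (nat_lit 451) (nat_lit 273)))))) (XT.nd (nat_lit 546) (nat_lit 836) (nat_lit 0) (XT.nd (nat_lit 234) (nat_lit 684) (nat_lit 0) (XT.nd (nat_lit 78) (nat_lit 304) (nat_lit 0) (XT.lf (nat_lit 0) (nat_lit 67178773705) (nat_lit 228) (nat_lit 248841490255) (nat_lit 76) (nat_lit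 337641458551) (nat_lit 69) (nat_lit 5) (nat_lit 72) (nat_lit 5) (nat_lit 70) (nat_lit 5) (nat_lit 477) (nat_lit 451) (nat_lit 272)) (XT.nd (nat_lit 78) (nat_lit 152) (nat_lit 0) (XT.lf (nat_lit 0) (nat_lit 330207465277) (nat_lit 228) (nat_lit 299629267987) (nat_lit 76) (nat_lit 56975150113) (nat_lit 67) (nat_lit 5) (nat_lit 70) (nat_lit 5) (nat_lit 68) (nat_lit 5) (nat_lit 478) (nat_lit 451) (nat_lit 271)) (XT.lf (nat_lit 0) (nat_lit 366921308980) (nat_lit 152) (nat_lit 262820151466) (nat_lit 228) (nat_lit 92099446259) (nat_lit 65) (nat_lit 5) (nat_lit 67) (nat_lit 5) (nat_lit 68) (nat_lit 5) (nat_lit 479) (nat_lit 451) (nat_lit 270)))) (XT.nd (nat_lit 156) (nat_lit 304) (nat_lit 0) (XT.nd (nat_lit 78) (nat_lit 152) (nat_lit 0) (XT.lf (nat_lit 0) (nat_lit 200388597240) (nat_lit 228) (nat_lit 415243669231) (nat_lit 76) (nat_lit 143237980490) (nat_lit 62) (nat_lit 5) (nat_lit 65) (nat_lit 5)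 (nat_lit 63) (nat_lit 5) (nat_lit 480) (nat_lit 451) (nat_lit 269)) (XT.lf (nat_lit 0) (nat_lit 316212433071) (nat_lit 152) (nat_lit 212532030900) (nat_lit 228) (nat_lit 269257204336) (nat_lit 60) (nat_lit 5) (nat_lit 62) (nat_lit 5) (nat_lit 63) (nat_lit 5) (nat_lit 481) (nat_lit 451) (nat_lit 268))) (XT.nd (nat_lit 78) (nat_lit 152) (nat_lit 0) (XT.lf (nat_lit 0) (nat_lit 57283107225) (nat_lit 152) (nat_lit 553732488407) (nat_lit 76) (nat_lit 228436480785) (nat_lit 58) (nat_lit 5) (nat_lit 60) (nat_lit 5) (nat_lit 59) (nat_lit 5) (nat_lit 482) (nat_lit 451) (nat_lit 267)) (XT.lf (nat_lit 0) (nat_lit 247701228391) (nat_lit 152) (nat_lit 168919046817) (nat_lit 228) (nat_lit 466572184729) (nat_lit 56) (nat_lit 5) (nat_lit 58) (nat_lit 5) (nat_lit 59) (nat_lit 5) (nat_lit 483) (nat_lit 451) (nat_lit 266))))) (XT.nd (nat_lit 234) (nat_lit 456) (nat_lit 0) (XT.nd (nat_lit 78) (nat_lit 304) (nat_lit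 0) (XT.lf (nat_lit 0) (nat_lit 204648004103) (nat_lit 76) (nat_lit 617872536206) (nat_lit 152) (nat_lit 107020727649) (nat_lit 55) (nat_lit 5) (nat_lit 56) (nat_lit 5) (nat_lit 57) (nat_lit 4) (nat_lit 484) (nat_lit 451) (nat_lit 265)) (XT.nd (nat_lit 78) (nat_lit 76) (nat_lit 0) (XT.lf (nat_lit 0) (nat_lit 153126435409) (nat_lit 152) (nat_lit 135655507809) (nat_lit 228) (nat_lit 689771932911) (nat_lit 52) (nat_lit 5) (nat_lit 54) (nat_lit 5) (nat_lit 55) (nat_lit 5) (nat_lit 485) (nat_lit 451) (nat_lit 264)) (XT.lf (nat_lit 0) (nat_lit 91315187593) (nat_lit 76) (nat_lit 641507195122) (nat_lit 152) (nat_lit 297561236337) (nat_lit 51) (nat_lit 5) (nat_lit 52) (nat_lit 5) (nat_lit 53) (nat_lit 4) (nat_lit 486) (nat_lit 451) (nat_lit 263)))) (XT.nd (nat_lit 156) (nat_lit 228) (nat_lit 0) (XT.nd (nat_lit 78) (nat_lit 0) (nat_lit 0) (XT.lf (nat_lit 0) (nat_lit 21427137655) (nat_lit 152) (nat_lit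 117801567094) (nat_lit 228) (nat_lit 946170854565) (nat_lit 48) (nat_lit 5) (nat_lit 50) (nat_lit 5) (nat_lit 51) (nat_lit 5) (nat_lit 487) (nat_lit 451) (nat_lit 262)) (XT.lf (nat_lit 0) (nat_lit 624293625315) (nat_lit 228) (nat_lit 63979784031) (nat_lit 76) (nat_lit 455111618780) (nat_lit 48) (nat_lit 5) (nat_lit 51) (nat_lit 5) (nat_lit 49) (nat_lit 4) (nat_lit 488) (nat_lit 451) (nat_lit 261))) (XT.nd (nat_lit 78) (nat_lit 152) (nat_lit 0) (XT.lf (nat_lit 0) (nat_lit 1047554114422) (nat_lit 76) (nat_lit 118951190339) (nat_lit 152) (nat_lit 38586951422) (nat_lit 47) (nat_lit 5) (nat_lit 48) (nat_lit 5) (nat_lit 49) (nat_lit 4) (nat_lit 489) (nat_lit 451) (nat_lit 260)) (XT.lf (nat_lit 0) (nat_lit 489919912910) (nat_lit 152) (nat_lit 275456370400) (nat_lit 76) (nat_lit 504737967154) (nat_lit 45) (nat_lit 5) (nat_lit 47) (nat_lit 5) (nat_lit 46) (nat_lit 4) (nat_lit 490) (nat_lit 451) (nat_lit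 259))))))) (XT.nd (nat_lit 60138) (nat_lit 0) (nat_lit 3192) (XT.nd (nat_lit 59592) (nat_lit 0) (nat_lit 6688) (XT.nd (nat_lit 234) (nat_lit 228) (nat_lit 0) (XT.nd (nat_lit 78) (nat_lit 228) (nat_lit 0) (XT.lf (nat_lit 0) (nat_lit 931569013896) (nat_lit 76) (nat_lit 147143787090) (nat_lit 152) (nat_lit 260625705982) (nat_lit 44) (nat_lit 5) (nat_lit 45) (nat_lit 5) (nat_lit 46) (nat_lit 4) (nat_lit 491) (nat_lit 451) (nat_lit 258)) (XT.nd (nat_lit 78) (nat_lit 76) (nat_lit 0) (XT.lf (nat_lit 0) (nat_lit 317598143531) (nat_lit 152) (nat_lit 567773578810) (nat_lit 76) (nat_lit 527158999056) (nat_lit 42) (nat_lit 5) (nat_lit 44) (nat_lit 5) (nat_lit 43) (nat_lit 4) (nat_lit 492) (nat_lit 451) (nat_lit 257)) (XT.lf (nat_lit 0) (nat_lit 737434321451) (nat_lit 76) (nat_lit 216850617138) (nat_lit 152) (nat_lit 536012942125) (nat_lit 41) (nat_lit 5) (nat_lit 42) (nat_lit 5) (nat_lit 43) (nat_lit 4)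 (nat_lit 493) (nat_lit 451) (nat_lit 256)))) (XT.nd (nat_lit 59202) (nat_lit 0) (nat_lit 7524) (XT.nd (nat_lit 78) (nat_lit 76) (nat_lit 0) (XT.lf (nat_lit 0) (nat_lit 93287515351) (nat_lit 152) (nat_lit 969569955502) (nat_lit 76) (nat_lit 509984578751) (nat_lit 39) (nat_lit 5) (nat_lit 41) (nat_lit 5) (nat_lit 40) (nat_lit 4) (nat_lit 494) (nat_lit 451) (nat_lit 255)) (XT.lf (nat_lit 0) (nat_lit 434444304859) (nat_lit 76) (nat_lit 343728227339) (nat_lit 152) (nat_lit 882176874676) (nat_lit 38) (nat_lit 5) (nat_lit 39) (nat_lit 5) (nat_lit 40) (nat_lit 4) (nat_lit 495) (nat_lit 451) (nat_lit 254))) (XT.nd (nat_lit 78) (nat_lit 0) (nat_lit 76) (XT.lf (nat_lit 0) (nat_lit 43177808909) (nat_lit 836) (nat_lit 33957911661) (nat_lit 836) (nat_lit 33957911661) (nat_lit 137) (nat_lit 3) (nat_lit 148) (nat_lit 3) (nat_lit 148) (nat_lit 5) (nat_lit 452) (nat_lit 452) (nat_lit 296)) (XT.lf (nat_lit 0)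 (nat_lit 91855937819) (nat_lit 760) (nat_lit 120060103895) (nat_lit 836) (nat_lit 19056408090) (nat_lit 138) (nat_lit 5) (nat_lit 148) (nat_lit 5) (nat_lit 149) (nat_lit 5) (nat_lit 453) (nat_lit 452) (nat_lit 295))))) (XT.nd (nat_lit 234) (nat_lit 912) (nat_lit 0) (XT.nd (nat_lit 78) (nat_lit 0) (nat_lit 76) (XT.lf (nat_lit 76) (nat_lit 65547848589) (nat_lit 0) (nat_lit 37075358232) (nat_lit 836) (nat_lit 137595897027) (nat_lit 139) (nat_lit 5) (nat_lit 138) (nat_lit 5) (nat_lit 149) (nat_lit 5) (nat_lit 454) (nat_lit 452) (nat_lit 294)) (XT.nd (nat_lit 78) (nat_lit 0) (nat_lit 76) (XT.lf (nat_lit 76) (nat_lit 18375249934) (nat_lit 0) (nat_lit 100658243790) (nat_lit 836) (nat_lit 130932914717) (nat_lit 140) (nat_lit 5) (nat_lit 139) (nat_lit 5) (nat_lit 150) (nat_lit 5) (nat_lit 455) (nat_lit 452) (nat_lit 293)) (XT.lf (nat_lit 0) (nat_lit 141851207590) (nat_lit 760) (nat_lit 29290687540)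 (nat_lit 836) (nat_lit 89096872111) (nat_lit 140) (nat_lit 5) (nat_lit 150) (nat_lit 5) (nat_lit 151) (nat_lit 5) (nat_lit 456) (nat_lit 452) (nat_lit 292)))) (XT.nd (nat_lit 156) (nat_lit 1140) (nat_lit 0) (XT.nd (nat_lit 78) (nat_lit 0) (nat_lit 0) (XT.lf (nat_lit 0) (nat_lit 171566572736) (nat_lit 760) (nat_lit 77751937651) (nat_lit 836) (nat_lit 21760792687) (nat_lit 141) (nat_lit 5) (nat_lit 151) (nat_lit 5) (nat_lit 152) (nat_lit 5) (nat_lit 457) (nat_lit 452) (nat_lit 291)) (XT.lf (nat_lit 76) (nat_lit 154076405459) (nat_lit 0) (nat_lit 55392527232) (nat_lit 836) (nat_lit 73027660838) (nat_lit 142) (nat_lit 5) (nat_lit 141) (nat_lit 5) (nat_lit 152) (nat_lit 5) (nat_lit 458) (nat_lit 452) (nat_lit 290))) (XT.nd (nat_lit 78) (nat_lit 456) (nat_lit 0) (XT.lf (nat_lit 0) (nat_lit 113678956930) (nat_lit 760) (nat_lit 142280933776) (nat_lit 836) (nat_lit 38589556083) (nat_lit 132) (nat_lit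 5) (nat_lit 142) (nat_lit 5) (nat_lit 143) (nat_lit 5) (nat_lit 459) (nat_lit 452) (nat_lit 289)) (XT.lf (nat_lit 0) (nat_lit 4109814375) (nat_lit 456) (nat_lit 234766621747) (nat_lit 76) (nat_lit 68418106120) (nat_lit 126) (nat_lit 5) (nat_lit 132) (nat_lit 5) (nat_lit 127) (nat_lit 5) (nat_lit 460) (nat_lit 452) (nat_lit 288)))))) (XT.nd (nat_lit 546) (nat_lit 1444) (nat_lit 0) (XT.nd (nat_lit 234) (nat_lit 1292) (nat_lit 0) (XT.nd (nat_lit 78) (nat_lit 380) (nat_lit 0) (XT.lf (nat_lit 0) (nat_lit 29601154852) (nat_lit 380) (nat_lit 25353506485) (nat_lit 456) (nat_lit 265768877389) (nat_lit 121) (nat_lit 5) (nat_lit 126) (nat_lit 5) (nat_lit 127) (nat_lit 5) (nat_lit 461) (nat_lit 452) (nat_lit 287)) (XT.nd (nat_lit 78) (nat_lit 380) (nat_lit 0) (XT.lf (nat_lit 0) (nat_lit 117228046355) (nat_lit 456) (nat_lit 14792303127) (nat_lit 76) (nat_lit 202838457958) (nat_lit 121) (nat_lit 5) (nat_lit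 127) (nat_lit 5) (nat_lit 122) (nat_lit 5) (nat_lit 462) (nat_lit 452) (nat_lit 286)) (XT.lf (nat_lit 0) (nat_lit 191088421134) (nat_lit 456) (nat_lit 58903865483) (nat_lit 76) (nat_lit 99802355108) (nat_lit 116) (nat_lit 5) (nat_lit 122) (nat_lit 5) (nat_lit 117) (nat_lit 5) (nat_lit 463) (nat_lit 452) (nat_lit 285)))) (XT.nd (nat_lit 156) (nat_lit 684) (nat_lit 0) (XT.nd (nat_lit 78) (nat_lit 304) (nat_lit 0) (XT.lf (nat_lit 0) (nat_lit 261792829568) (nat_lit 304) (nat_lit 15640011334) (nat_lit 380) (nat_lit 88163741121) (nat_lit 112) (nat_lit 5) (nat_lit 116) (nat_lit 5) (nat_lit 117) (nat_lit 5) (nat_lit 464) (nat_lit 452) (nat_lit 284)) (XT.lf (nat_lit 0) (nat_lit 231316535673) (nat_lit 304) (nat_lit 147729989437) (nat_lit 380) (nat_lit 3198066911) (nat_lit 108) (nat_lit 5) (nat_lit 112) (nat_lit 5) (nat_lit 113) (nat_lit 5) (nat_lit 465) (nat_lit 452) (nat_lit 283))) (XT.nd (nat_lit 78)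 (nat_lit 304) (nat_lit 0) (XT.lf (nat_lit 0) (nat_lit 92706188489) (nat_lit 380) (nat_lit 200024590028) (nat_lit 76) (nat_lit 107075729240) (nat_lit 103) (nat_lit 5) (nat_lit 108) (nat_lit 5) (nat_lit 104) (nat_lit 5) (nat_lit 466) (nat_lit 452) (nat_lit 282)) (XT.lf (nat_lit 0) (nat_lit 168088089514) (nat_lit 304) (nat_lit 35871549928) (nat_lit 380) (nat_lit 214421670968) (nat_lit 99) (nat_lit 5) (nat_lit 103) (nat_lit 5) (nat_lit 104) (nat_lit 5) (nat_lit 467) (nat_lit 452) (nat_lit 281))))) (XT.nd (nat_lit 234) (nat_lit 684) (nat_lit 0) (XT.nd (nat_lit 78) (nat_lit 532) (nat_lit 0) (XT.lf (nat_lit 0) (nat_lit 135017834158) (nat_lit 228) (nat_lit 198515932426) (nat_lit 304) (nat_lit 104437310700) (nat_lit 96) (nat_lit 5) (nat_lit 99) (nat_lit 5) (nat_lit 100) (nat_lit 5) (nat_lit 468) (nat_lit 452) (nat_lit 280)) (XT.nd (nat_lit 78) (nat_lit 228) (nat_lit 0) (XT.lf (nat_lit 0) (nat_lit 21837027807)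 (nat_lit 304) (nat_lit 356483931669) (nat_lit 76) (nat_lit 80398347912) (nat_lit 92) (nat_lit 5) (nat_lit 96) (nat_lit 5) (nat_lit 93) (nat_lit 5) (nat_lit 469) (nat_lit 452) (nat_lit 279)) (XT.lf (nat_lit 0) (nat_lit 66734877976) (nat_lit 228) (nat_lit 97621320919) (nat_lit 304) (nat_lit 316195499658) (nat_lit 89) (nat_lit 5) (nat_lit 92) (nat_lit 5) (nat_lit 93) (nat_lit 5) (nat_lit 470) (nat_lit 452) (nat_lit 278)))) (XT.nd (nat_lit 156) (nat_lit 456) (nat_lit 0) (XT.nd (nat_lit 78) (nat_lit 0) (nat_lit 0) (XT.lf (nat_lit 0) (nat_lit 30382478499) (nat_lit 228) (nat_lit 297889190843) (nat_lit 304) (nat_lit 175359273397) (nat_lit 86) (nat_lit 5) (nat_lit 89) (nat_lit 5) (nat_lit 90) (nat_lit 5) (nat_lit 471) (nat_lit 452) (nat_lit 277)) (XT.lf (nat_lit 0) (nat_lit 514269800276) (nat_lit 304) (nat_lit 5062298604) (nat_lit 76) (nat_lit 8775956447) (nat_lit 86) (nat_lit 5) (nat_lit 90) (nat_lit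 5) (nat_lit 87) (nat_lit 5) (nat_lit 472) (nat_lit 452) (nat_lit 276))) (XT.nd (nat_lit 78) (nat_lit 228) (nat_lit 0) (XT.lf (nat_lit 0) (nat_lit 168693195600) (nat_lit 228) (nat_lit 44672394316) (nat_lit 76) (nat_lit 340390917937) (nat_lit 83) (nat_lit 5) (nat_lit 86) (nat_lit 5) (nat_lit 84) (nat_lit 5) (nat_lit 473) (nat_lit 452) (nat_lit 275)) (XT.lf (nat_lit 0) (nat_lit 375187263236) (nat_lit 304) (nat_lit 84191084020) (nat_lit 76) (nat_lit 121574900204) (nat_lit 80) (nat_lit 5) (nat_lit 84) (nat_lit 5) (nat_lit 81) (nat_lit 5) (nat_lit 474) (nat_lit 452) (nat_lit 274))))))))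
noncomputable def xc114 : XT := (XT.nd (nat_lit 61308) (nat_lit 0) (nat_lit 988) (XT.nd (nat_lit 1092) (nat_lit 684) (nat_lit 0) (XT.nd (nat_lit 546) (nat_lit 1064) (nat_lit 0) (XT.nd (nat_lit 234) (nat_lit 760) (nat_lit 0) (XT.nd (nat_lit 78) (nat_lit 380) (nat_lit 0) (XT.lf (nat_lit 0) (nat_lit 415695333) (nat_lit 228) (nat_lit 125011109077) (nat_lit 76) (nat_lit 484300762306) (nat_lit 77) (nat_lit 5) (nat_lit 80) (nat_lit 5) (nat_lit 78) (nat_lit 5) (nat_lit 475) (nat_lit 452) (nat_lit 273)) (XT.nd (nat_lit 78) (nat_lit 152) (nat_lit 0) (XT.lf (nat_lit 0) (nat_lit 228730735089) (nat_lit 304) (nat_lit 171002023891) (nat_lit 76) (nat_lit 240260018717) (nat_lit 74) (nat_lit 5) (nat_lit 78) (nat_lit 5) (nat_lit 75) (nat_lit 5) (nat_lit 476) (nat_lit 452) (nat_lit 272)) (XT.lf (nat_lit 0) (nat_lit 454812677968) (nat_lit 152) (nat_lit 31927380504) (nat_lit 228) (nat_lit 185367693068) (nat_lit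 72) (nat_lit 5) (nat_lit 74) (nat_lit 5) (nat_lit 75) (nat_lit 5) (nat_lit 477) (nat_lit 452) (nat_lit 271)))) (XT.nd (nat_lit 156) (nat_lit 380) (nat_lit 0) (XT.nd (nat_lit 78) (nat_lit 152) (nat_lit 0) (XT.lf (nat_lit 0) (nat_lit 72554180336) (nat_lit 228) (nat_lit 268746962120) (nat_lit 76) (nat_lit 364653462510) (nat_lit 69) (nat_lit 5) (nat_lit 72) (nat_lit 5) (nat_lit 70) (nat_lit 5) (nat_lit 478) (nat_lit 452) (nat_lit 270)) (XT.lf (nat_lit 0) (nat_lit 356625124179) (nat_lit 228) (nat_lit 323597800916) (nat_lit 76) (nat_lit 61533855767) (nat_lit 67) (nat_lit 5) (nat_lit 70) (nat_lit 5) (nat_lit 68) (nat_lit 5) (nat_lit 479) (nat_lit 452) (nat_lit 269))) (XT.nd (nat_lit 78) (nat_lit 228) (nat_lit 0) (XT.lf (nat_lit 0) (nat_lit 396276743612) (nat_lit 152) (nat_lit 283845043714) (nat_lit 228) (nat_lit 99466341319) (nat_lit 65) (nat_lit 5) (nat_lit 67) (nat_lit 5) (nat_lit 68) (nat_lit 5)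 (nat_lit 480) (nat_lit 452) (nat_lit 268)) (XT.lf (nat_lit 0) (nat_lit 216420673095) (nat_lit 228) (nat_lit 448461437637) (nat_lit 76) (nat_lit 154697706500) (nat_lit 62) (nat_lit 5) (nat_lit 65) (nat_lit 5) (nat_lit 63) (nat_lit 5) (nat_lit 481) (nat_lit 452) (nat_lit 267))))) (XT.nd (nat_lit 234) (nat_lit 608) (nat_lit 0) (XT.nd (nat_lit 78) (nat_lit 304) (nat_lit 0) (XT.lf (nat_lit 0) (nat_lit 341511077877) (nat_lit 152) (nat_lit 229533883860) (nat_lit 228) (nat_lit 290796792925) (nat_lit 60) (nat_lit 5) (nat_lit 62) (nat_lit 5) (nat_lit 63) (nat_lit 5) (nat_lit 482) (nat_lit 452) (nat_lit 266)) (XT.nd (nat_lit 78) (nat_lit 152) (nat_lit 0) (XT.lf (nat_lit 0) (nat_lit 61866677140) (nat_lit 152) (nat_lit 598029444037) (nat_lit 76) (nat_lit 246712075220) (nat_lit 58) (nat_lit 5) (nat_lit 60) (nat_lit 5) (nat_lit 59) (nat_lit 5) (nat_lit 483) (nat_lit 452) (nat_lit 265)) (XT.lf (nat_lit 0)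 (nat_lit 267518898683) (nat_lit 152) (nat_lit 182431876175) (nat_lit 228) (nat_lit 503897037930) (nat_lit 56) (nat_lit 5) (nat_lit 58) (nat_lit 5) (nat_lit 59) (nat_lit 5) (nat_lit 484) (nat_lit 452) (nat_lit 264)))) (XT.nd (nat_lit 156) (nat_lit 304) (nat_lit 0) (XT.nd (nat_lit 78) (nat_lit 228) (nat_lit 0) (XT.lf (nat_lit 0) (nat_lit 221021379798) (nat_lit 76) (nat_lit 667301650369) (nat_lit 152) (nat_lit 115581496838) (nat_lit 55) (nat_lit 5) (nat_lit 56) (nat_lit 5) (nat_lit 57) (nat_lit 4) (nat_lit 485) (nat_lit 452) (nat_lit 263)) (XT.lf (nat_lit 0) (nat_lit 165378046154) (nat_lit 152) (nat_lit 146507272700) (nat_lit 228) (nat_lit 744952826306) (nat_lit 52) (nat_lit 5) (nat_lit 54) (nat_lit 5) (nat_lit 55) (nat_lit 5) (nat_lit 486) (nat_lit 452) (nat_lit 262))) (XT.nd (nat_lit 78) (nat_lit 228) (nat_lit 0) (XT.lf (nat_lit 0) (nat_lit 98621862686) (nat_lit 76) (nat_lit 692827102635) (nat_lit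 152) (nat_lit 321365303608) (nat_lit 51) (nat_lit 5) (nat_lit 52) (nat_lit 5) (nat_lit 53) (nat_lit 4) (nat_lit 487) (nat_lit 452) (nat_lit 261)) (XT.lf (nat_lit 0) (nat_lit 23142730803) (nat_lit 152) (nat_lit 127225037917) (nat_lit 228) (nat_lit 1021863716918) (nat_lit 48) (nat_lit 5) (nat_lit 50) (nat_lit 5) (nat_lit 51) (nat_lit 5) (nat_lit 488) (nat_lit 452) (nat_lit 260)))))) (XT.nd (nat_lit 59670) (nat_lit 0) (nat_lit 7448) (XT.nd (nat_lit 234) (nat_lit 456) (nat_lit 0) (XT.nd (nat_lit 78) (nat_lit 228) (nat_lit 0) (XT.lf (nat_lit 0) (nat_lit 674237835535) (nat_lit 228) (nat_lit 69096823849) (nat_lit 76) (nat_lit 491521134945) (nat_lit 48) (nat_lit 5) (nat_lit 51) (nat_lit 5) (nat_lit 49) (nat_lit 4) (nat_lit 489) (nat_lit 452) (nat_lit 259)) (XT.nd (nat_lit 78) (nat_lit 152) (nat_lit 0) (XT.lf (nat_lit 0) (nat_lit 1131359728119) (nat_lit 76) (nat_lit 128466687924) (nat_lit 152) (nat_lit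 41673186254) (nat_lit 47) (nat_lit 5) (nat_lit 48) (nat_lit 5) (nat_lit 49) (nat_lit 4) (nat_lit 490) (nat_lit 452) (nat_lit 258)) (XT.lf (nat_lit 0) (nat_lit 529114181081) (nat_lit 152) (nat_lit 297491604997) (nat_lit 76) (nat_lit 545117570635) (nat_lit 45) (nat_lit 5) (nat_lit 47) (nat_lit 5) (nat_lit 46) (nat_lit 4) (nat_lit 491) (nat_lit 452) (nat_lit 257)))) (XT.nd (nat_lit 156) (nat_lit 228) (nat_lit 0) (XT.nd (nat_lit 78) (nat_lit 152) (nat_lit 0) (XT.lf (nat_lit 0) (nat_lit 1006095754632) (nat_lit 76) (nat_lit 158914714604) (nat_lit 152) (nat_lit 281475086053) (nat_lit 44) (nat_lit 5) (nat_lit 45) (nat_lit 5) (nat_lit 46) (nat_lit 4) (nat_lit 492) (nat_lit 452) (nat_lit 256)) (XT.lf (nat_lit 0) (nat_lit 343006628593) (nat_lit 152) (nat_lit 613194255277) (nat_lit 76) (nat_lit 569332263534) (nat_lit 42) (nat_lit 5) (nat_lit 44) (nat_lit 5) (nat_lit 43) (nat_lit 4) (nat_lit 493) (nat_lit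 452) (nat_lit 255))) (XT.nd (nat_lit 78) (nat_lit 152) (nat_lit 0) (XT.lf (nat_lit 0) (nat_lit 796430224427) (nat_lit 76) (nat_lit 234198113965) (nat_lit 152) (nat_lit 578893342520) (nat_lit 41) (nat_lit 5) (nat_lit 42) (nat_lit 5) (nat_lit 43) (nat_lit 4) (nat_lit 494) (nat_lit 452) (nat_lit 254)) (XT.lf (nat_lit 0) (nat_lit 100751111714) (nat_lit 152) (nat_lit 1047134404585) (nat_lit 76) (nat_lit 550783867496) (nat_lit 39) (nat_lit 5) (nat_lit 41) (nat_lit 5) (nat_lit 40) (nat_lit 4) (nat_lit 495) (nat_lit 452) (nat_lit 253))))) (XT.nd (nat_lit 234) (nat_lit 0) (nat_lit 152) (XT.nd (nat_lit 78) (nat_lit 0) (nat_lit 76) (XT.lf (nat_lit 0) (nat_lit 46634027101) (nat_lit 836) (nat_lit 36673497786) (nat_lit 836) (nat_lit 36673497786) (nat_lit 137) (nat_lit 3) (nat_lit 148) (nat_lit 3) (nat_lit 148) (nat_lit 5) (nat_lit 453) (nat_lit 453) (nat_lit 294)) (XT.nd (nat_lit 78) (nat_lit 0) (nat_lit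 0) (XT.lf (nat_lit 0) (nat_lit 99208108881) (nat_lit 760) (nat_lit 129662695715) (nat_lit 836) (nat_lit 20579255532) (nat_lit 138) (nat_lit 5) (nat_lit 148) (nat_lit 5) (nat_lit 149) (nat_lit 5) (nat_lit 454) (nat_lit 453) (nat_lit 293)) (XT.lf (nat_lit 76) (nat_lit 70793796642) (nat_lit 0) (nat_lit 40042722083) (nat_lit 836) (nat_lit 148599939869) (nat_lit 139) (nat_lit 5) (nat_lit 138) (nat_lit 5) (nat_lit 149) (nat_lit 5) (nat_lit 455) (nat_lit 453) (nat_lit 292)))) (XT.nd (nat_lit 156) (nat_lit 0) (nat_lit 152) (XT.nd (nat_lit 78) (nat_lit 0) (nat_lit 76) (XT.lf (nat_lit 76) (nat_lit 19847483914) (nat_lit 0) (nat_lit 108711903977) (nat_lit 836) (nat_lit 141404171755) (nat_lit 140) (nat_lit 5) (nat_lit 139) (nat_lit 5) (nat_lit 150) (nat_lit 5) (nat_lit 456) (nat_lit 453) (nat_lit 291)) (XT.lf (nat_lit 0) (nat_lit 153202266278) (nat_lit 760) (nat_lit 31631728581) (nat_lit 836) (nat_lit 96223724976)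 (nat_lit 140) (nat_lit 5) (nat_lit 150) (nat_lit 5) (nat_lit 151) (nat_lit 5) (nat_lit 457) (nat_lit 453) (nat_lit 290))) (XT.nd (nat_lit 78) (nat_lit 0) (nat_lit 0) (XT.lf (nat_lit 0) (nat_lit 185294664013) (nat_lit 760) (nat_lit 83969825227) (nat_lit 836) (nat_lit 23501019176) (nat_lit 141) (nat_lit 5) (nat_lit 151) (nat_lit 5) (nat_lit 152) (nat_lit 5) (nat_lit 458) (nat_lit 453) (nat_lit 289)) (XT.lf (nat_lit 76) (nat_lit 166404686792) (nat_lit 0) (nat_lit 59824354986) (nat_lit 836) (nat_lit 78867148925) (nat_lit 142) (nat_lit 5) (nat_lit 141) (nat_lit 5) (nat_lit 152) (nat_lit 5) (nat_lit 459) (nat_lit 453) (nat_lit 288))))))) (XT.nd (nat_lit 1092) (nat_lit 2584) (nat_lit 0) (XT.nd (nat_lit 546) (nat_lit 1672) (nat_lit 0) (XT.nd (nat_lit 234) (nat_lit 988) (nat_lit 0) (XT.nd (nat_lit 78) (nat_lit 836) (nat_lit 0) (XT.lf (nat_lit 0) (nat_lit 122775479123) (nat_lit 760) (nat_lit 153663633412)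 (nat_lit 836) (nat_lit 41674167928) (nat_lit 132) (nat_lit 5) (nat_lit 142) (nat_lit 5) (nat_lit 143) (nat_lit 5) (nat_lit 460) (nat_lit 453) (nat_lit 287)) (XT.nd (nat_lit 78) (nat_lit 380) (nat_lit 0) (XT.lf (nat_lit 0) (nat_lit 4440919515) (nat_lit 456) (nat_lit 253545644392) (nat_lit 76) (nat_lit 73891425238) (nat_lit 126) (nat_lit 5) (nat_lit 132) (nat_lit 5) (nat_lit 127) (nat_lit 5) (nat_lit 461) (nat_lit 453) (nat_lit 286)) (XT.lf (nat_lit 0) (nat_lit 31971454071) (nat_lit 380) (nat_lit 27381762767) (nat_lit 456) (nat_lit 287028095416) (nat_lit 121) (nat_lit 5) (nat_lit 126) (nat_lit 5) (nat_lit 127) (nat_lit 5) (nat_lit 462) (nat_lit 453) (nat_lit 285)))) (XT.nd (nat_lit 156) (nat_lit 608) (nat_lit 0) (XT.nd (nat_lit 78) (nat_lit 380) (nat_lit 0) (XT.lf (nat_lit 0) (nat_lit 126608311333) (nat_lit 456) (nat_lit 15973542910) (nat_lit 76) (nat_lit 219065556319) (nat_lit 121) (nat_lit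 5) (nat_lit 127) (nat_lit 5) (nat_lit 122) (nat_lit 5) (nat_lit 463) (nat_lit 453) (nat_lit 284)) (XT.lf (nat_lit 0) (nat_lit 206377400703) (nat_lit 456) (nat_lit 63614030200) (nat_lit 76) (nat_lit 107786686487) (nat_lit 116) (nat_lit 5) (nat_lit 122) (nat_lit 5) (nat_lit 117) (nat_lit 5) (nat_lit 464) (nat_lit 453) (nat_lit 283))) (XT.nd (nat_lit 78) (nat_lit 304) (nat_lit 0) (XT.lf (nat_lit 0) (nat_lit 282738307257) (nat_lit 304) (nat_lit 16890957646) (nat_lit 380) (nat_lit 95214953494) (nat_lit 112) (nat_lit 5) (nat_lit 116) (nat_lit 5) (nat_lit 117) (nat_lit 5) (nat_lit 465) (nat_lit 453) (nat_lit 282)) (XT.lf (nat_lit 0) (nat_lit 249823903168) (nat_lit 304) (nat_lit 159548043192) (nat_lit 380) (nat_lit 3452127736) (nat_lit 108) (nat_lit 5) (nat_lit 112) (nat_lit 5) (nat_lit 113) (nat_lit 5) (nat_lit 466) (nat_lit 453) (nat_lit 281))))) (XT.nd (nat_lit 234) (nat_lit 760) (nat_lit 0) (XT.nd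 (nat_lit 78) (nat_lit 532) (nat_lit 0) (XT.lf (nat_lit 0) (nat_lit 100124320347) (nat_lit 380) (nat_lit 216024470619) (nat_lit 76) (nat_lit 115642155285) (nat_lit 103) (nat_lit 5) (nat_lit 108) (nat_lit 5) (nat_lit 104) (nat_lit 5) (nat_lit 467) (nat_lit 453) (nat_lit 280)) (XT.nd (nat_lit 78) (nat_lit 228) (nat_lit 0) (XT.lf (nat_lit 0) (nat_lit 181537132604) (nat_lit 304) (nat_lit 38740824691) (nat_lit 380) (nat_lit 231573780348) (nat_lit 99) (nat_lit 5) (nat_lit 103) (nat_lit 5) (nat_lit 104) (nat_lit 5) (nat_lit 468) (nat_lit 453) (nat_lit 279)) (XT.lf (nat_lit 0) (nat_lit 145821237598) (nat_lit 228) (nat_lit 214396699798) (nat_lit 304) (nat_lit 112790752352) (nat_lit 96) (nat_lit 5) (nat_lit 99) (nat_lit 5) (nat_lit 100) (nat_lit 5) (nat_lit 469) (nat_lit 453) (nat_lit 278)))) (XT.nd (nat_lit 156) (nat_lit 228) (nat_lit 0) (XT.nd (nat_lit 78) (nat_lit 228) (nat_lit 0) (XT.lf (nat_lit 0)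 (nat_lit 23585411647) (nat_lit 304) (nat_lit 385000645239) (nat_lit 76) (nat_lit 86830723797) (nat_lit 92) (nat_lit 5) (nat_lit 96) (nat_lit 5) (nat_lit 93) (nat_lit 5) (nat_lit 470) (nat_lit 453) (nat_lit 277)) (XT.lf (nat_lit 0) (nat_lit 72075582219) (nat_lit 228) (nat_lit 105430458782) (nat_lit 304) (nat_lit 341489725927) (nat_lit 89) (nat_lit 5) (nat_lit 92) (nat_lit 5) (nat_lit 93) (nat_lit 5) (nat_lit 471) (nat_lit 453) (nat_lit 276))) (XT.nd (nat_lit 78) (nat_lit 0) (nat_lit 0) (XT.lf (nat_lit 0) (nat_lit 32814963699) (nat_lit 228) (nat_lit 321719723334) (nat_lit 304) (nat_lit 189386666732) (nat_lit 86) (nat_lit 5) (nat_lit 89) (nat_lit 5) (nat_lit 90) (nat_lit 5) (nat_lit 472) (nat_lit 453) (nat_lit 275)) (XT.lf (nat_lit 0) (nat_lit 555412582034) (nat_lit 304) (nat_lit 5465484434) (nat_lit 76) (nat_lit 9478573225) (nat_lit 86) (nat_lit 5) (nat_lit 90) (nat_lit 5) (nat_lit 87) (nat_lit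 5) (nat_lit 473) (nat_lit 453) (nat_lit 274)))))) (XT.nd (nat_lit 546) (nat_lit 1140) (nat_lit 0) (XT.nd (nat_lit 234) (nat_lit 760) (nat_lit 0) (XT.nd (nat_lit 78) (nat_lit 456) (nat_lit 0) (XT.lf (nat_lit 0) (nat_lit 182189805890) (nat_lit 228) (nat_lit 48244427616) (nat_lit 76) (nat_lit 367622737092) (nat_lit 83) (nat_lit 5) (nat_lit 86) (nat_lit 5) (nat_lit 84) (nat_lit 5) (nat_lit 474) (nat_lit 453) (nat_lit 273)) (XT.nd (nat_lit 78) (nat_lit 228) (nat_lit 0) (XT.lf (nat_lit 0) (nat_lit 405203348822) (nat_lit 304) (nat_lit 90924643155) (nat_lit 76) (nat_lit 131301459913) (nat_lit 80) (nat_lit 5) (nat_lit 84) (nat_lit 5) (nat_lit 81) (nat_lit 5) (nat_lit 475) (nat_lit 453) (nat_lit 272)) (XT.lf (nat_lit 0) (nat_lit 450016785) (nat_lit 228) (nat_lit 135010309930) (nat_lit 76) (nat_lit 523045391923) (nat_lit 77) (nat_lit 5) (nat_lit 80) (nat_lit 5) (nat_lit 78) (nat_lit 5) (nat_lit 476) (nat_lit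 453) (nat_lit 271)))) (XT.nd (nat_lit 156) (nat_lit 380) (nat_lit 0) (XT.nd (nat_lit 78) (nat_lit 152) (nat_lit 0) (XT.lf (nat_lit 0) (nat_lit 247030215384) (nat_lit 304) (nat_lit 184680529969) (nat_lit 76) (nat_lit 259481403370) (nat_lit 74) (nat_lit 5) (nat_lit 78) (nat_lit 5) (nat_lit 75) (nat_lit 5) (nat_lit 477) (nat_lit 453) (nat_lit 270)) (XT.lf (nat_lit 0) (nat_lit 491199276078) (nat_lit 152) (nat_lit 34480957623) (nat_lit 228) (nat_lit 200196089329) (nat_lit 72) (nat_lit 5) (nat_lit 74) (nat_lit 5) (nat_lit 75) (nat_lit 5) (nat_lit 478) (nat_lit 453) (nat_lit 269))) (XT.nd (nat_lit 78) (nat_lit 152) (nat_lit 0) (XT.lf (nat_lit 0) (nat_lit 78359461895) (nat_lit 228) (nat_lit 290245135281) (nat_lit 76) (nat_lit 393826328739) (nat_lit 69) (nat_lit 5) (nat_lit 72) (nat_lit 5) (nat_lit 70) (nat_lit 5) (nat_lit 479) (nat_lit 453) (nat_lit 268)) (XT.lf (nat_lit 0) (nat_lit 385156044332) (nat_lit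 228) (nat_lit 349484074484) (nat_lit 76) (nat_lit 66457158918) (nat_lit 67) (nat_lit 5) (nat_lit 70) (nat_lit 5) (nat_lit 68) (nat_lit 5) (nat_lit 480) (nat_lit 453) (nat_lit 267))))) (XT.nd (nat_lit 234) (nat_lit 608) (nat_lit 0) (XT.nd (nat_lit 78) (nat_lit 380) (nat_lit 0) (XT.lf (nat_lit 0) (nat_lit 427980366223) (nat_lit 152) (nat_lit 306552030040) (nat_lit 228) (nat_lit 107422739296) (nat_lit 65) (nat_lit 5) (nat_lit 67) (nat_lit 5) (nat_lit 68) (nat_lit 5) (nat_lit 481) (nat_lit 453) (nat_lit 266)) (XT.nd (nat_lit 78) (nat_lit 152) (nat_lit 0) (XT.lf (nat_lit 0) (nat_lit 233735174058) (nat_lit 228) (nat_lit 484336873624) (nat_lit 76) (nat_lit 167074112501) (nat_lit 62) (nat_lit 5) (nat_lit 65) (nat_lit 5) (nat_lit 63) (nat_lit 5) (nat_lit 482) (nat_lit 453) (nat_lit 265)) (XT.lf (nat_lit 0) (nat_lit 368833378854) (nat_lit 152) (nat_lit 247895986277) (nat_lit 228) (nat_lit 314059689517)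 (nat_lit 60) (nat_lit 5) (nat_lit 62) (nat_lit 5) (nat_lit 63) (nat_lit 5) (nat_lit 483) (nat_lit 453) (nat_lit 264)))) (XT.nd (nat_lit 156) (nat_lit 304) (nat_lit 0) (XT.nd (nat_lit 78) (nat_lit 152) (nat_lit 0) (XT.lf (nat_lit 0) (nat_lit 66816801210) (nat_lit 152) (nat_lit 645870390572) (nat_lit 76) (nat_lit 266449620774) (nat_lit 58) (nat_lit 5) (nat_lit 60) (nat_lit 5) (nat_lit 59) (nat_lit 5) (nat_lit 484) (nat_lit 453) (nat_lit 263)) (XT.lf (nat_lit 0) (nat_lit 288921758333) (nat_lit 152) (nat_lit 197025830944) (nat_lit 228) (nat_lit 544208010860) (nat_lit 56) (nat_lit 5) (nat_lit 58) (nat_lit 5) (nat_lit 59) (nat_lit 5) (nat_lit 485) (nat_lit 453) (nat_lit 262))) (XT.nd (nat_lit 78) (nat_lit 228) (nat_lit 0) (XT.lf (nat_lit 0) (nat_lit 238704406512) (nat_lit 76) (nat_lit 720685191921) (nat_lit 152) (nat_lit 124827254391) (nat_lit 55) (nat_lit 5) (nat_lit 56) (nat_lit 5) (nat_lit 57)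 (nat_lit 4) (nat_lit 486) (nat_lit 453) (nat_lit 261)) (XT.lf (nat_lit 0) (nat_lit 178609572350) (nat_lit 152) (nat_lit 158227275183) (nat_lit 228) (nat_lit 804548314038) (nat_lit 52) (nat_lit 5) (nat_lit 54) (nat_lit 5) (nat_lit 55) (nat_lit 5) (nat_lit 487) (nat_lit 453) (nat_lit 260))))))))
noncomputable def xc115 : XT := (XT.nd (nat_lit 61386) (nat_lit 0) (nat_lit 228) (XT.nd (nat_lit 60294) (nat_lit 0) (nat_lit 3420) (XT.nd (nat_lit 546) (nat_lit 76) (nat_lit 0) (XT.nd (nat_lit 234) (nat_lit 456) (nat_lit 0) (XT.nd (nat_lit 78) (nat_lit 228) (nat_lit 0) (XT.lf (nat_lit 0) (nat_lit 106512863489) (nat_lit 76) (nat_lit 748252698061) (nat_lit 152) (nat_lit 347073814904) (nat_lit 51) (nat_lit 5) (nat_lit 52) (nat_lit 5) (nat_lit 53) (nat_lit 4) (nat_lit 488) (nat_lit 453) (nat_lit 259)) (XT.nd (nat_lit 78) (nat_lit 0) (nat_lit 0) (XT.lf (nat_lit 0) (nat_lit 24995368520) (nat_lit 152) (nat_lit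 137402479783) (nat_lit 228) (nat_lit 1103612123247) (nat_lit 48) (nat_lit 5) (nat_lit 50) (nat_lit 5) (nat_lit 51) (nat_lit 5) (nat_lit 489) (nat_lit 453) (nat_lit 258)) (XT.lf (nat_lit 0) (nat_lit 728177479828) (nat_lit 228) (nat_lit 74623418432) (nat_lit 76) (nat_lit 530843328709) (nat_lit 48) (nat_lit 5) (nat_lit 51) (nat_lit 5) (nat_lit 49) (nat_lit 4) (nat_lit 490) (nat_lit 453) (nat_lit 257)))) (XT.nd (nat_lit 156) (nat_lit 228) (nat_lit 0) (XT.nd (nat_lit 78) (nat_lit 152) (nat_lit 0) (XT.lf (nat_lit 0) (nat_lit 1221869607658) (nat_lit 76) (nat_lit 138743510576) (nat_lit 152) (nat_lit 45006422770) (nat_lit 47) (nat_lit 5) (nat_lit 48) (nat_lit 5) (nat_lit 49) (nat_lit 4) (nat_lit 491) (nat_lit 453) (nat_lit 256)) (XT.lf (nat_lit 0) (nat_lit 571443894390) (nat_lit 152) (nat_lit 321289840259) (nat_lit 76) (nat_lit 588727461632) (nat_lit 45) (nat_lit 5) (nat_lit 47) (nat_lit 5) (nat_lit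 46) (nat_lit 4) (nat_lit 492) (nat_lit 453) (nat_lit 255))) (XT.nd (nat_lit 78) (nat_lit 152) (nat_lit 0) (XT.lf (nat_lit 0) (nat_lit 1086584460633) (nat_lit 76) (nat_lit 171627398413) (nat_lit 152) (nat_lit 303992513027) (nat_lit 44) (nat_lit 5) (nat_lit 45) (nat_lit 5) (nat_lit 46) (nat_lit 4) (nat_lit 493) (nat_lit 453) (nat_lit 254)) (XT.lf (nat_lit 0) (nat_lit 370447702072) (nat_lit 152) (nat_lit 662248758458) (nat_lit 76) (nat_lit 614879311484) (nat_lit 42) (nat_lit 5) (nat_lit 44) (nat_lit 5) (nat_lit 43) (nat_lit 4) (nat_lit 494) (nat_lit 453) (nat_lit 253))))) (XT.nd (nat_lit 59436) (nat_lit 0) (nat_lit 7372) (XT.nd (nat_lit 59280) (nat_lit 0) (nat_lit 7296) (XT.lf (nat_lit 0) (nat_lit 860145634544) (nat_lit 76) (nat_lit 252933489364) (nat_lit 152) (nat_lit 625204265533) (nat_lit 41) (nat_lit 5) (nat_lit 42) (nat_lit 5) (nat_lit 43) (nat_lit 4) (nat_lit 495) (nat_lit 453) (nat_lit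 252)) (XT.nd (nat_lit 78) (nat_lit 0) (nat_lit 76) (XT.lf (nat_lit 0) (nat_lit 50366458356) (nat_lit 836) (nat_lit 39606480139) (nat_lit 836) (nat_lit 39606480139) (nat_lit 137) (nat_lit 3) (nat_lit 148) (nat_lit 3) (nat_lit 148) (nat_lit 5) (nat_lit 454) (nat_lit 454) (nat_lit 292)) (XT.lf (nat_lit 0) (nat_lit 107147926347) (nat_lit 760) (nat_lit 140033811088) (nat_lit 836) (nat_lit 22224168330) (nat_lit 138) (nat_lit 5) (nat_lit 148) (nat_lit 5) (nat_lit 149) (nat_lit 5) (nat_lit 455) (nat_lit 454) (nat_lit 291)))) (XT.nd (nat_lit 156) (nat_lit 0) (nat_lit 152) (XT.nd (nat_lit 78) (nat_lit 0) (nat_lit 76) (XT.lf (nat_lit 76) (nat_lit 76459118073) (nat_lit 0) (nat_lit 43247284561) (nat_lit 836) (nat_lit 160484823844) (nat_lit 139) (nat_lit 5) (nat_lit 138) (nat_lit 5) (nat_lit 149) (nat_lit 5) (nat_lit 456) (nat_lit 454) (nat_lit 290)) (XT.lf (nat_lit 76) (nat_lit 21437180763) (nat_lit 0)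 (nat_lit 117409714221) (nat_lit 836) (nat_lit 152713611001) (nat_lit 140) (nat_lit 5) (nat_lit 139) (nat_lit 5) (nat_lit 150) (nat_lit 5) (nat_lit 457) (nat_lit 454) (nat_lit 289))) (XT.nd (nat_lit 78) (nat_lit 0) (nat_lit 76) (XT.lf (nat_lit 0) (nat_lit 165460987086) (nat_lit 760) (nat_lit 34160368752) (nat_lit 836) (nat_lit 103920854023) (nat_lit 140) (nat_lit 5) (nat_lit 150) (nat_lit 5) (nat_lit 151) (nat_lit 5) (nat_lit 458) (nat_lit 454) (nat_lit 288)) (XT.lf (nat_lit 0) (nat_lit 200120608068) (nat_lit 760) (nat_lit 90685467285) (nat_lit 836) (nat_lit 25380554649) (nat_lit 141) (nat_lit 5) (nat_lit 151) (nat_lit 5) (nat_lit 152) (nat_lit 5) (nat_lit 459) (nat_lit 454) (nat_lit 287)))))) (XT.nd (nat_lit 546) (nat_lit 1976) (nat_lit 0) (XT.nd (nat_lit 234) (nat_lit 1064) (nat_lit 0) (XT.nd (nat_lit 78) (nat_lit 1140) (nat_lit 0) (XT.lf (nat_lit 76) (nat_lit 179718921214) (nat_lit 0) (nat_lit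 64610668248) (nat_lit 836) (nat_lit 85174184780) (nat_lit 142) (nat_lit 5) (nat_lit 141) (nat_lit 5) (nat_lit 152) (nat_lit 5) (nat_lit 460) (nat_lit 454) (nat_lit 286)) (XT.nd (nat_lit 78) (nat_lit 456) (nat_lit 0) (XT.lf (nat_lit 0) (nat_lit 132599408433) (nat_lit 760) (nat_lit 165956916929) (nat_lit 836) (nat_lit 45005912883) (nat_lit 132) (nat_lit 5) (nat_lit 142) (nat_lit 5) (nat_lit 143) (nat_lit 5) (nat_lit 461) (nat_lit 454) (nat_lit 285)) (XT.lf (nat_lit 0) (nat_lit 4798182093) (nat_lit 456) (nat_lit 273827317982) (nat_lit 76) (nat_lit 79802628342) (nat_lit 126) (nat_lit 5) (nat_lit 132) (nat_lit 5) (nat_lit 127) (nat_lit 5) (nat_lit 462) (nat_lit 454) (nat_lit 284)))) (XT.nd (nat_lit 156) (nat_lit 684) (nat_lit 0) (XT.nd (nat_lit 78) (nat_lit 0) (nat_lit 0) (XT.lf (nat_lit 0) (nat_lit 34531062398) (nat_lit 380) (nat_lit 29572283008) (nat_lit 456) (nat_lit 309988377887) (nat_lit 121)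 (nat_lit 5) (nat_lit 126) (nat_lit 5) (nat_lit 127) (nat_lit 5) (nat_lit 463) (nat_lit 454) (nat_lit 283)) (XT.lf (nat_lit 0) (nat_lit 136738709153) (nat_lit 456) (nat_lit 17249587809) (nat_lit 76) (nat_lit 236590819449) (nat_lit 121) (nat_lit 5) (nat_lit 127) (nat_lit 5) (nat_lit 122) (nat_lit 5) (nat_lit 464) (nat_lit 454) (nat_lit 282))) (XT.nd (nat_lit 78) (nat_lit 304) (nat_lit 0) (XT.lf (nat_lit 0) (nat_lit 222889226743) (nat_lit 456) (nat_lit 68701314034) (nat_lit 76) (nat_lit 116409743980) (nat_lit 116) (nat_lit 5) (nat_lit 122) (nat_lit 5) (nat_lit 117) (nat_lit 5) (nat_lit 465) (nat_lit 454) (nat_lit 281)) (XT.lf (nat_lit 0) (nat_lit 305359130517) (nat_lit 304) (nat_lit 18242015984) (nat_lit 380) (nat_lit 102830532047) (nat_lit 112) (nat_lit 5) (nat_lit 116) (nat_lit 5) (nat_lit 117) (nat_lit 5) (nat_lit 466) (nat_lit 454) (nat_lit 280))))) (XT.nd (nat_lit 234) (nat_lit 988) (nat_lit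 0) (XT.nd (nat_lit 78) (nat_lit 684) (nat_lit 0) (XT.lf (nat_lit 0) (nat_lit 269811568371) (nat_lit 304) (nat_lit 172311590523) (nat_lit 380) (nat_lit 3726768010) (nat_lit 108) (nat_lit 5) (nat_lit 112) (nat_lit 5) (nat_lit 113) (nat_lit 5) (nat_lit 467) (nat_lit 454) (nat_lit 279)) (XT.nd (nat_lit 78) (nat_lit 304) (nat_lit 0) (XT.lf (nat_lit 0) (nat_lit 108135669249) (nat_lit 380) (nat_lit 233304639336) (nat_lit 76) (nat_lit 124893842957) (nat_lit 103) (nat_lit 5) (nat_lit 108) (nat_lit 5) (nat_lit 104) (nat_lit 5) (nat_lit 468) (nat_lit 454) (nat_lit 278)) (XT.lf (nat_lit 0) (nat_lit 196061814400) (nat_lit 304) (nat_lit 41839705523) (nat_lit 380) (nat_lit 250098290202) (nat_lit 99) (nat_lit 5) (nat_lit 103) (nat_lit 5) (nat_lit 104) (nat_lit 5) (nat_lit 469) (nat_lit 454) (nat_lit 277)))) (XT.nd (nat_lit 156) (nat_lit 456) (nat_lit 0) (XT.nd (nat_lit 78) (nat_lit 304) (nat_lit 0) (XT.lf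 (nat_lit 0) (nat_lit 157488631313) (nat_lit 228) (nat_lit 231548000920) (nat_lit 304) (nat_lit 121812689492) (nat_lit 96) (nat_lit 5) (nat_lit 99) (nat_lit 5) (nat_lit 100) (nat_lit 5) (nat_lit 470) (nat_lit 454) (nat_lit 276)) (XT.lf (nat_lit 0) (nat_lit 25473463384) (nat_lit 304) (nat_lit 415798981354) (nat_lit 76) (nat_lit 93777617273) (nat_lit 92) (nat_lit 5) (nat_lit 96) (nat_lit 5) (nat_lit 93) (nat_lit 5) (nat_lit 471) (nat_lit 454) (nat_lit 275))) (XT.nd (nat_lit 78) (nat_lit 228) (nat_lit 0) (XT.lf (nat_lit 0) (nat_lit 77843269747) (nat_lit 228) (nat_lit 113864408677) (nat_lit 304) (nat_lit 368807691979) (nat_lit 89) (nat_lit 5) (nat_lit 92) (nat_lit 5) (nat_lit 93) (nat_lit 5) (nat_lit 472) (nat_lit 454) (nat_lit 274)) (XT.lf (nat_lit 0) (nat_lit 35441778525) (nat_lit 228) (nat_lit 347456784417) (nat_lit 304) (nat_lit 204536443918) (nat_lit 86) (nat_lit 5) (nat_lit 89) (nat_lit 5)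 (nat_lit 90) (nat_lit 5) (nat_lit 473) (nat_lit 454) (nat_lit 273))))))) (XT.nd (nat_lit 1092) (nat_lit 836) (nat_lit 0) (XT.nd (nat_lit 546) (nat_lit 1064) (nat_lit 0) (XT.nd (nat_lit 234) (nat_lit 836) (nat_lit 0) (XT.nd (nat_lit 78) (nat_lit 456) (nat_lit 0) (XT.lf (nat_lit 0) (nat_lit 599846615463) (nat_lit 304) (nat_lit 5901181645) (nat_lit 76) (nat_lit 10237322272) (nat_lit 86) (nat_lit 5) (nat_lit 90) (nat_lit 5) (nat_lit 87) (nat_lit 5) (nat_lit 474) (nat_lit 454) (nat_lit 272)) (XT.nd (nat_lit 78) (nat_lit 228) (nat_lit 0) (XT.lf (nat_lit 0) (nat_lit 196765980281) (nat_lit 228) (nat_lit 52102474413) (nat_lit 76) (nat_lit 397033023926) (nat_lit 83) (nat_lit 5) (nat_lit 86) (nat_lit 5) (nat_lit 84) (nat_lit 5) (nat_lit 475) (nat_lit 454) (nat_lit 271)) (XT.lf (nat_lit 0) (nat_lit 437620563682) (nat_lit 304) (nat_lit 98197133480) (nat_lit 76) (nat_lit 141806063411) (nat_lit 80) (nat_lit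 5) (nat_lit 84) (nat_lit 5) (nat_lit 81) (nat_lit 5) (nat_lit 476) (nat_lit 454) (nat_lit 270)))) (XT.nd (nat_lit 156) (nat_lit 380) (nat_lit 0) (XT.nd (nat_lit 78) (nat_lit 228) (nat_lit 0) (XT.lf (nat_lit 0) (nat_lit 486931901) (nat_lit 228) (nat_lit 145809687646) (nat_lit 76) (nat_lit 564889510787) (nat_lit 77) (nat_lit 5) (nat_lit 80) (nat_lit 5) (nat_lit 78) (nat_lit 5) (nat_lit 477) (nat_lit 454) (nat_lit 269)) (XT.lf (nat_lit 0) (nat_lit 266793508377) (nat_lit 304) (nat_lit 199453552757) (nat_lit 76) (nat_lit 280240415601) (nat_lit 74) (nat_lit 5) (nat_lit 78) (nat_lit 5) (nat_lit 75) (nat_lit 5) (nat_lit 478) (nat_lit 454) (nat_lit 268))) (XT.nd (nat_lit 78) (nat_lit 228) (nat_lit 0) (XT.lf (nat_lit 0) (nat_lit 530496576080) (nat_lit 152) (nat_lit 37238908409) (nat_lit 228) (nat_lit 216210902688) (nat_lit 72) (nat_lit 5) (nat_lit 74) (nat_lit 5) (nat_lit 75) (nat_lit 5) (nat_lit 479)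 (nat_lit 454) (nat_lit 267)) (XT.lf (nat_lit 0) (nat_lit 84629030860) (nat_lit 228) (nat_lit 313463388242) (nat_lit 76) (nat_lit 425332940205) (nat_lit 69) (nat_lit 5) (nat_lit 72) (nat_lit 5) (nat_lit 70) (nat_lit 5) (nat_lit 480) (nat_lit 454) (nat_lit 266))))) (XT.nd (nat_lit 234) (nat_lit 532) (nat_lit 0) (XT.nd (nat_lit 78) (nat_lit 380) (nat_lit 0) (XT.lf (nat_lit 0) (nat_lit 415969308245) (nat_lit 228) (nat_lit 377441471135) (nat_lit 76) (nat_lit 71774241481) (nat_lit 67) (nat_lit 5) (nat_lit 70) (nat_lit 5) (nat_lit 68) (nat_lit 5) (nat_lit 481) (nat_lit 454) (nat_lit 265)) (XT.nd (nat_lit 78) (nat_lit 228) (nat_lit 0) (XT.lf (nat_lit 0) (nat_lit 462220067059) (nat_lit 152) (nat_lit 331075663319) (nat_lit 228) (nat_lit 116015778836) (nat_lit 65) (nat_lit 5) (nat_lit 67) (nat_lit 5) (nat_lit 68) (nat_lit 5) (nat_lit 482) (nat_lit 454) (nat_lit 264)) (XT.lf (nat_lit 0) (nat_lit 252434714248)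 (nat_lit 228) (nat_lit 523082555490) (nat_lit 76) (nat_lit 180440546886) (nat_lit 62) (nat_lit 5) (nat_lit 65) (nat_lit 5) (nat_lit 63) (nat_lit 5) (nat_lit 483) (nat_lit 454) (nat_lit 263)))) (XT.nd (nat_lit 156) (nat_lit 228) (nat_lit 0) (XT.nd (nat_lit 78) (nat_lit 152) (nat_lit 0) (XT.lf (nat_lit 0) (nat_lit 398341262080) (nat_lit 152) (nat_lit 267727143667) (nat_lit 228) (nat_lit 339183738647) (nat_lit 60) (nat_lit 5) (nat_lit 62) (nat_lit 5) (nat_lit 63) (nat_lit 5) (nat_lit 484) (nat_lit 454) (nat_lit 262)) (XT.lf (nat_lit 0) (nat_lit 72162822517) (nat_lit 152) (nat_lit 697538813839) (nat_lit 76) (nat_lit 287766087295) (nat_lit 58) (nat_lit 5) (nat_lit 60) (nat_lit 5) (nat_lit 59) (nat_lit 5) (nat_lit 485) (nat_lit 454) (nat_lit 261))) (XT.nd (nat_lit 78) (nat_lit 76) (nat_lit 0) (XT.lf (nat_lit 0) (nat_lit 312036654482) (nat_lit 152) (nat_lit 212787387024) (nat_lit 228) (nat_lit 587743974341)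 (nat_lit 56) (nat_lit 5) (nat_lit 58) (nat_lit 5) (nat_lit 59) (nat_lit 5) (nat_lit 486) (nat_lit 454) (nat_lit 260)) (XT.lf (nat_lit 0) (nat_lit 257801887574) (nat_lit 76) (nat_lit 778339501035) (nat_lit 152) (nat_lit 134812781284) (nat_lit 55) (nat_lit 5) (nat_lit 56) (nat_lit 5) (nat_lit 57) (nat_lit 4) (nat_lit 487) (nat_lit 454) (nat_lit 259)))))) (XT.nd (nat_lit 59904) (nat_lit 0) (nat_lit 6688) (XT.nd (nat_lit 234) (nat_lit 304) (nat_lit 0) (XT.nd (nat_lit 78) (nat_lit 304) (nat_lit 0) (XT.lf (nat_lit 0) (nat_lit 192899437678) (nat_lit 152) (nat_lit 170884960513) (nat_lit 228) (nat_lit 868911546125) (nat_lit 52) (nat_lit 5) (nat_lit 54) (nat_lit 5) (nat_lit 55) (nat_lit 5) (nat_lit 488) (nat_lit 454) (nat_lit 258)) (XT.nd (nat_lit 78) (nat_lit 228) (nat_lit 0) (XT.lf (nat_lit 0) (nat_lit 115034965774) (nat_lit 76) (nat_lit 808112422835) (nat_lit 152) (nat_lit 374839108819) (nat_lit 51)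 (nat_lit 5) (nat_lit 52) (nat_lit 5) (nat_lit 53) (nat_lit 4) (nat_lit 489) (nat_lit 454) (nat_lit 257)) (XT.lf (nat_lit 0) (nat_lit 26996043313) (nat_lit 152) (nat_lit 148394197056) (nat_lit 228) (nat_lit 1191900500664) (nat_lit 48) (nat_lit 5) (nat_lit 50) (nat_lit 5) (nat_lit 51) (nat_lit 5) (nat_lit 490) (nat_lit 454) (nat_lit 256)))) (XT.nd (nat_lit 156) (nat_lit 228) (nat_lit 0) (XT.nd (nat_lit 78) (nat_lit 76) (nat_lit 0) (XT.lf (nat_lit 0) (nat_lit 786432207579) (nat_lit 228) (nat_lit 80592304831) (nat_lit 76) (nat_lit 573311226220) (nat_lit 48) (nat_lit 5) (nat_lit 51) (nat_lit 5) (nat_lit 49) (nat_lit 4) (nat_lit 491) (nat_lit 454) (nat_lit 255)) (XT.lf (nat_lit 0) (nat_lit 1319620120449) (nat_lit 76) (nat_lit 149842552137) (nat_lit 152) (nat_lit 48606406428) (nat_lit 47) (nat_lit 5) (nat_lit 48) (nat_lit 5) (nat_lit 49) (nat_lit 4) (nat_lit 492) (nat_lit 454) (nat_lit 254))) (XT.nd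 (nat_lit 78) (nat_lit 76) (nat_lit 0) (XT.lf (nat_lit 0) (nat_lit 617159902188) (nat_lit 152) (nat_lit 346992090291) (nat_lit 76) (nat_lit 635826074669) (nat_lit 45) (nat_lit 5) (nat_lit 47) (nat_lit 5) (nat_lit 46) (nat_lit 4) (nat_lit 493) (nat_lit 454) (nat_lit 253)) (XT.lf (nat_lit 0) (nat_lit 1173512113943) (nat_lit 76) (nat_lit 185357167311) (nat_lit 152) (nat_lit 328311416889) (nat_lit 44) (nat_lit 5) (nat_lit 45) (nat_lit 5) (nat_lit 46) (nat_lit 4) (nat_lit 494) (nat_lit 454) (nat_lit 252))))) (XT.nd (nat_lit 312) (nat_lit 380) (nat_lit 0) (XT.nd (nat_lit 156) (nat_lit 0) (nat_lit 76) (XT.nd (nat_lit 78) (nat_lit 0) (nat_lit 76) (XT.lf (nat_lit 0) (nat_lit 54397240291) (nat_lit 836) (nat_lit 42774229115) (nat_lit 836) (nat_lit 42774229115) (nat_lit 137) (nat_lit 3) (nat_lit 148) (nat_lit 3) (nat_lit 148) (nat_lit 5) (nat_lit 455) (nat_lit 455) (nat_lit 290)) (XT.lf (nat_lit 0) (nat_lit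 115722477153) (nat_lit 760) (nat_lit 151234886788) (nat_lit 836) (nat_lit 24000877821) (nat_lit 138) (nat_lit 5) (nat_lit 148) (nat_lit 5) (nat_lit 149) (nat_lit 5) (nat_lit 456) (nat_lit 455) (nat_lit 289))) (XT.nd (nat_lit 78) (nat_lit 0) (nat_lit 76) (XT.lf (nat_lit 76) (nat_lit 82577405904) (nat_lit 0) (nat_lit 46708048732) (nat_lit 836) (nat_lit 173320942387) (nat_lit 139) (nat_lit 5) (nat_lit 138) (nat_lit 5) (nat_lit 149) (nat_lit 5) (nat_lit 457) (nat_lit 455) (nat_lit 288)) (XT.lf (nat_lit 76) (nat_lit 23153782570) (nat_lit 0) (nat_lit 126803226891) (nat_lit 836) (nat_lit 164928218317) (nat_lit 140) (nat_lit 5) (nat_lit 139) (nat_lit 5) (nat_lit 150) (nat_lit 5) (nat_lit 458) (nat_lit 455) (nat_lit 287)))) (XT.nd (nat_lit 156) (nat_lit 608) (nat_lit 0) (XT.nd (nat_lit 78) (nat_lit 0) (nat_lit 76) (XT.lf (nat_lit 0) (nat_lit 178700043270) (nat_lit 760) (nat_lit 36891570925) (nat_lit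 836) (nat_lit 112233863094) (nat_lit 140) (nat_lit 5) (nat_lit 150) (nat_lit 5) (nat_lit 151) (nat_lit 5) (nat_lit 459) (nat_lit 455) (nat_lit 286)) (XT.lf (nat_lit 0) (nat_lit 216132289407) (nat_lit 760) (nat_lit 97938638034) (nat_lit 836) (nat_lit 27410530862) (nat_lit 141) (nat_lit 5) (nat_lit 151) (nat_lit 5) (nat_lit 152) (nat_lit 5) (nat_lit 460) (nat_lit 455) (nat_lit 285))) (XT.nd (nat_lit 78) (nat_lit 684) (nat_lit 0) (XT.lf (nat_lit 76) (nat_lit 194098029114) (nat_lit 0) (nat_lit 69779834518) (nat_lit 836) (nat_lit 91986116769) (nat_lit 142) (nat_lit 5) (nat_lit 141) (nat_lit 5) (nat_lit 152) (nat_lit 5) (nat_lit 461) (nat_lit 455) (nat_lit 284)) (XT.lf (nat_lit 0) (nat_lit 143208982318) (nat_lit 760) (nat_lit 179233635617) (nat_lit 836) (nat_lit 48604509646) (nat_lit 132) (nat_lit 5) (nat_lit 142) (nat_lit 5) (nat_lit 143) (nat_lit 5) (nat_lit 462) (nat_lit 455) (nat_lit 283))))))))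
noncomputable def xc116 : XT := (XT.nd (nat_lit 2184) (nat_lit 456) (nat_lit 0) (XT.nd (nat_lit 1092) (nat_lit 2432) (nat_lit 0) (XT.nd (nat_lit 546) (nat_lit 1520) (nat_lit 0) (XT.nd (nat_lit 234) (nat_lit 1368) (nat_lit 0) (XT.nd (nat_lit 78) (nat_lit 380) (nat_lit 0) (XT.lf (nat_lit 0) (nat_lit 5183741922) (nat_lit 456) (nat_lit 295731807637) (nat_lit 76) (nat_lit 86186743517) (nat_lit 126) (nat_lit 5) (nat_lit 132) (nat_lit 5) (nat_lit 127) (nat_lit 5) (nat_lit 463) (nat_lit 455) (nat_lit 282)) (XT.nd (nat_lit 78) (nat_lit 0) (nat_lit 0) (XT.lf (nat_lit 0) (nat_lit 37295169477) (nat_lit 380) (nat_lit 31938047834) (nat_lit 456) (nat_lit 334785763309) (nat_lit 121) (nat_lit 5) (nat_lit 126) (nat_lit 5) (nat_lit 127) (nat_lit 5) (nat_lit 464) (nat_lit 455) (nat_lit 281)) (XT.lf (nat_lit 0) (nat_lit 147679291579) (nat_lit 456) (nat_lit 18627978587) (nat_lit 76) (nat_lit 255518100972) (nat_lit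 121) (nat_lit 5) (nat_lit 127) (nat_lit 5) (nat_lit 122) (nat_lit 5) (nat_lit 465) (nat_lit 455) (nat_lit 280)))) (XT.nd (nat_lit 156) (nat_lit 684) (nat_lit 0) (XT.nd (nat_lit 78) (nat_lit 304) (nat_lit 0) (XT.lf (nat_lit 0) (nat_lit 240721765760) (nat_lit 456) (nat_lit 74195842869) (nat_lit 76) (nat_lit 125722628587) (nat_lit 116) (nat_lit 5) (nat_lit 122) (nat_lit 5) (nat_lit 117) (nat_lit 5) (nat_lit 466) (nat_lit 455) (nat_lit 279)) (XT.lf (nat_lit 0) (nat_lit 329789368742) (nat_lit 304) (nat_lit 19701190129) (nat_lit 380) (nat_lit 111055587671) (nat_lit 112) (nat_lit 5) (nat_lit 116) (nat_lit 5) (nat_lit 117) (nat_lit 5) (nat_lit 467) (nat_lit 455) (nat_lit 278))) (XT.nd (nat_lit 78) (nat_lit 380) (nat_lit 0) (XT.lf (nat_lit 0) (nat_lit 291397996713) (nat_lit 304) (nat_lit 186096263886) (nat_lit 380) (nat_lit 4023597770) (nat_lit 108) (nat_lit 5) (nat_lit 112) (nat_lit 5) (nat_lit 113)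 (nat_lit 5) (nat_lit 468) (nat_lit 455) (nat_lit 277)) (XT.lf (nat_lit 0) (nat_lit 116787725870) (nat_lit 380) (nat_lit 251967476762) (nat_lit 76) (nat_lit 134885620669) (nat_lit 103) (nat_lit 5) (nat_lit 108) (nat_lit 5) (nat_lit 104) (nat_lit 5) (nat_lit 469) (nat_lit 455) (nat_lit 276))))) (XT.nd (nat_lit 234) (nat_lit 684) (nat_lit 0) (XT.nd (nat_lit 78) (nat_lit 532) (nat_lit 0) (XT.lf (nat_lit 0) (nat_lit 211748226619) (nat_lit 304) (nat_lit 45186551767) (nat_lit 380) (nat_lit 270104959511) (nat_lit 99) (nat_lit 5) (nat_lit 103) (nat_lit 5) (nat_lit 104) (nat_lit 5) (nat_lit 470) (nat_lit 455) (nat_lit 275)) (XT.nd (nat_lit 78) (nat_lit 304) (nat_lit 0) (XT.lf (nat_lit 0) (nat_lit 170089174757) (nat_lit 228) (nat_lit 250071468169) (nat_lit 304) (nat_lit 131556570351) (nat_lit 96) (nat_lit 5) (nat_lit 99) (nat_lit 5) (nat_lit 100) (nat_lit 5) (nat_lit 471) (nat_lit 455) (nat_lit 274))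 (XT.lf (nat_lit 0) (nat_lit 27512385385) (nat_lit 304) (nat_lit 449061429094) (nat_lit 76) (nat_lit 101280200089) (nat_lit 92) (nat_lit 5) (nat_lit 96) (nat_lit 5) (nat_lit 93) (nat_lit 5) (nat_lit 472) (nat_lit 455) (nat_lit 273)))) (XT.nd (nat_lit 156) (nat_lit 228) (nat_lit 0) (XT.nd (nat_lit 78) (nat_lit 228) (nat_lit 0) (XT.lf (nat_lit 0) (nat_lit 84072138177) (nat_lit 228) (nat_lit 122973144013) (nat_lit 304) (nat_lit 398311268223) (nat_lit 89) (nat_lit 5) (nat_lit 92) (nat_lit 5) (nat_lit 93) (nat_lit 5) (nat_lit 473) (nat_lit 455) (nat_lit 272)) (XT.lf (nat_lit 0) (nat_lit 38278507750) (nat_lit 228) (nat_lit 375252884111) (nat_lit 304) (nat_lit 220898368217) (nat_lit 86) (nat_lit 5) (nat_lit 89) (nat_lit 5) (nat_lit 90) (nat_lit 5) (nat_lit 474) (nat_lit 455) (nat_lit 271))) (XT.nd (nat_lit 78) (nat_lit 228) (nat_lit 0) (XT.lf (nat_lit 0) (nat_lit 647835225071) (nat_lit 304) (nat_lit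 6371954550) (nat_lit 76) (nat_lit 11056705163) (nat_lit 86) (nat_lit 5) (nat_lit 90) (nat_lit 5) (nat_lit 87) (nat_lit 5) (nat_lit 475) (nat_lit 455) (nat_lit 270)) (XT.lf (nat_lit 0) (nat_lit 212508107400) (nat_lit 228) (nat_lit 56269380003) (nat_lit 76) (nat_lit 428796066960) (nat_lit 83) (nat_lit 5) (nat_lit 86) (nat_lit 5) (nat_lit 84) (nat_lit 5) (nat_lit 476) (nat_lit 455) (nat_lit 269)))))) (XT.nd (nat_lit 546) (nat_lit 1064) (nat_lit 0) (XT.nd (nat_lit 234) (nat_lit 684) (nat_lit 0) (XT.nd (nat_lit 78) (nat_lit 456) (nat_lit 0) (XT.lf (nat_lit 0) (nat_lit 472631020638) (nat_lit 304) (nat_lit 106051634331) (nat_lit 76) (nat_lit 153150965755) (nat_lit 80) (nat_lit 5) (nat_lit 84) (nat_lit 5) (nat_lit 81) (nat_lit 5) (nat_lit 477) (nat_lit 455) (nat_lit 268)) (XT.nd (nat_lit 78) (nat_lit 228) (nat_lit 0) (XT.lf (nat_lit 0) (nat_lit 526669867) (nat_lit 228) (nat_lit 157473222021) (nat_lit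 76) (nat_lit 610081089612) (nat_lit 77) (nat_lit 5) (nat_lit 80) (nat_lit 5) (nat_lit 78) (nat_lit 5) (nat_lit 478) (nat_lit 455) (nat_lit 267)) (XT.lf (nat_lit 0) (nat_lit 288137739872) (nat_lit 304) (nat_lit 215408619891) (nat_lit 76) (nat_lit 302660077486) (nat_lit 74) (nat_lit 5) (nat_lit 78) (nat_lit 5) (nat_lit 75) (nat_lit 5) (nat_lit 479) (nat_lit 455) (nat_lit 266)))) (XT.nd (nat_lit 156) (nat_lit 304) (nat_lit 0) (XT.nd (nat_lit 78) (nat_lit 228) (nat_lit 0) (XT.lf (nat_lit 0) (nat_lit 572937466359) (nat_lit 152) (nat_lit 40217570272) (nat_lit 228) (nat_lit 233507025772) (nat_lit 72) (nat_lit 5) (nat_lit 74) (nat_lit 5) (nat_lit 75) (nat_lit 5) (nat_lit 480) (nat_lit 455) (nat_lit 265)) (XT.lf (nat_lit 0) (nat_lit 91400049499) (nat_lit 228) (nat_lit 338539295154) (nat_lit 76) (nat_lit 459360008522) (nat_lit 69) (nat_lit 5) (nat_lit 72) (nat_lit 5) (nat_lit 70) (nat_lit 5) (nat_lit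 481) (nat_lit 455) (nat_lit 264))) (XT.nd (nat_lit 78) (nat_lit 152) (nat_lit 0) (XT.lf (nat_lit 0) (nat_lit 449247521943) (nat_lit 228) (nat_lit 407635649158) (nat_lit 76) (nat_lit 77516617913) (nat_lit 67) (nat_lit 5) (nat_lit 70) (nat_lit 5) (nat_lit 68) (nat_lit 5) (nat_lit 482) (nat_lit 455) (nat_lit 263)) (XT.lf (nat_lit 0) (nat_lit 499198762563) (nat_lit 152) (nat_lit 357561262745) (nat_lit 228) (nat_lit 125296372760) (nat_lit 65) (nat_lit 5) (nat_lit 67) (nat_lit 5) (nat_lit 68) (nat_lit 5) (nat_lit 483) (nat_lit 455) (nat_lit 262))))) (XT.nd (nat_lit 234) (nat_lit 532) (nat_lit 0) (XT.nd (nat_lit 78) (nat_lit 304) (nat_lit 0) (XT.lf (nat_lit 0) (nat_lit 272630114043) (nat_lit 228) (nat_lit 564928072803) (nat_lit 76) (nat_lit 194876223923) (nat_lit 62) (nat_lit 5) (nat_lit 65) (nat_lit 5) (nat_lit 63) (nat_lit 5) (nat_lit 484) (nat_lit 455) (nat_lit 261)) (XT.nd (nat_lit 78) (nat_lit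 152) (nat_lit 0) (XT.lf (nat_lit 0) (nat_lit 430209602928) (nat_lit 152) (nat_lit 289144868047) (nat_lit 228) (nat_lit 366317815284) (nat_lit 60) (nat_lit 5) (nat_lit 62) (nat_lit 5) (nat_lit 63) (nat_lit 5) (nat_lit 485) (nat_lit 455) (nat_lit 260)) (XT.lf (nat_lit 0) (nat_lit 77936428918) (nat_lit 152) (nat_lit 753340883298) (nat_lit 76) (nat_lit 310787800255) (nat_lit 58) (nat_lit 5) (nat_lit 60) (nat_lit 5) (nat_lit 59) (nat_lit 5) (nat_lit 486) (nat_lit 455) (nat_lit 259)))) (XT.nd (nat_lit 156) (nat_lit 304) (nat_lit 0) (XT.nd (nat_lit 78) (nat_lit 76) (nat_lit 0) (XT.lf (nat_lit 0) (nat_lit 337000577480) (nat_lit 152) (nat_lit 229809940405) (nat_lit 228) (nat_lit 634762911538) (nat_lit 56) (nat_lit 5) (nat_lit 58) (nat_lit 5) (nat_lit 59) (nat_lit 5) (nat_lit 487) (nat_lit 455) (nat_lit 258)) (XT.lf (nat_lit 0) (nat_lit 278427006121) (nat_lit 76) (nat_lit 840606227099) (nat_lit 152)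 (nat_lit 145597243551) (nat_lit 55) (nat_lit 5) (nat_lit 56) (nat_lit 5) (nat_lit 57) (nat_lit 4) (nat_lit 488) (nat_lit 455) (nat_lit 257))) (XT.nd (nat_lit 78) (nat_lit 76) (nat_lit 0) (XT.lf (nat_lit 0) (nat_lit 208332335370) (nat_lit 152) (nat_lit 184555331527) (nat_lit 228) (nat_lit 938423927089) (nat_lit 52) (nat_lit 5) (nat_lit 54) (nat_lit 5) (nat_lit 55) (nat_lit 5) (nat_lit 489) (nat_lit 455) (nat_lit 256)) (XT.lf (nat_lit 0) (nat_lit 124238683137) (nat_lit 76) (nat_lit 872760995648) (nat_lit 152) (nat_lit 404825713453) (nat_lit 51) (nat_lit 5) (nat_lit 52) (nat_lit 5) (nat_lit 53) (nat_lit 4) (nat_lit 490) (nat_lit 455) (nat_lit 255))))))) (XT.nd (nat_lit 60528) (nat_lit 0) (nat_lit 2432) (XT.nd (nat_lit 59982) (nat_lit 0) (nat_lit 5776) (XT.nd (nat_lit 234) (nat_lit 152) (nat_lit 0) (XT.nd (nat_lit 78) (nat_lit 76) (nat_lit 0) (XT.lf (nat_lit 0) (nat_lit 29156622965) (nat_lit 152)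 (nat_lit 160265320346) (nat_lit 228) (nat_lit 1287252032793) (nat_lit 48) (nat_lit 5) (nat_lit 50) (nat_lit 5) (nat_lit 51) (nat_lit 5) (nat_lit 491) (nat_lit 455) (nat_lit 254)) (XT.nd (nat_lit 78) (nat_lit 76) (nat_lit 0) (XT.lf (nat_lit 0) (nat_lit 849347238030) (nat_lit 228) (nat_lit 87038842960) (nat_lit 76) (nat_lit 619176494014) (nat_lit 48) (nat_lit 5) (nat_lit 51) (nat_lit 5) (nat_lit 49) (nat_lit 4) (nat_lit 492) (nat_lit 455) (nat_lit 253)) (XT.lf (nat_lit 0) (nat_lit 1425190539566) (nat_lit 76) (nat_lit 161829579693) (nat_lit 152) (nat_lit 52494464412) (nat_lit 47) (nat_lit 5) (nat_lit 48) (nat_lit 5) (nat_lit 49) (nat_lit 4) (nat_lit 493) (nat_lit 455) (nat_lit 252)))) (XT.nd (nat_lit 59592) (nat_lit 0) (nat_lit 7068) (XT.nd (nat_lit 59514) (nat_lit 0) (nat_lit 6992) (XT.lf (nat_lit 0) (nat_lit 666533119815) (nat_lit 152) (nat_lit 374750654026) (nat_lit 76) (nat_lit 686692517386)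 (nat_lit 45) (nat_lit 5) (nat_lit 47) (nat_lit 5) (nat_lit 46) (nat_lit 4) (nat_lit 494) (nat_lit 455) (nat_lit 251)) (XT.lf (nat_lit 0) (nat_lit 58750275745) (nat_lit 836) (nat_lit 46195507778) (nat_lit 836) (nat_lit 46195507778) (nat_lit 137) (nat_lit 3) (nat_lit 148) (nat_lit 3) (nat_lit 148) (nat_lit 5) (nat_lit 456) (nat_lit 456) (nat_lit 288))) (XT.nd (nat_lit 78) (nat_lit 0) (nat_lit 0) (XT.lf (nat_lit 0) (nat_lit 124982604455) (nat_lit 760) (nat_lit 163332280965) (nat_lit 836) (nat_lit 25919898685) (nat_lit 138) (nat_lit 5) (nat_lit 148) (nat_lit 5) (nat_lit 149) (nat_lit 5) (nat_lit 457) (nat_lit 456) (nat_lit 287)) (XT.lf (nat_lit 76) (nat_lit 89184934441) (nat_lit 0) (nat_lit 50445534029) (nat_lit 836) (nat_lit 187184330943) (nat_lit 139) (nat_lit 5) (nat_lit 138) (nat_lit 5) (nat_lit 149) (nat_lit 5) (nat_lit 458) (nat_lit 456) (nat_lit 286))))) (XT.nd (nat_lit 234) (nat_lit 1368)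 (nat_lit 0) (XT.nd (nat_lit 78) (nat_lit 0) (nat_lit 76) (XT.lf (nat_lit 76) (nat_lit 25007480362) (nat_lit 0) (nat_lit 136948115643) (nat_lit 836) (nat_lit 178120348242) (nat_lit 140) (nat_lit 5) (nat_lit 139) (nat_lit 5) (nat_lit 150) (nat_lit 5) (nat_lit 459) (nat_lit 456) (nat_lit 285)) (XT.nd (nat_lit 78) (nat_lit 0) (nat_lit 76) (XT.lf (nat_lit 0) (nat_lit 192997913345) (nat_lit 760) (nat_lit 39841501427) (nat_lit 836) (nat_lit 121212006940) (nat_lit 140) (nat_lit 5) (nat_lit 150) (nat_lit 5) (nat_lit 151) (nat_lit 5) (nat_lit 460) (nat_lit 456) (nat_lit 284)) (XT.lf (nat_lit 0) (nat_lit 233424615267) (nat_lit 760) (nat_lit 105772300208) (nat_lit 836) (nat_lit 29602971960) (nat_lit 141) (nat_lit 5) (nat_lit 151) (nat_lit 5) (nat_lit 152) (nat_lit 5) (nat_lit 461) (nat_lit 456) (nat_lit 283)))) (XT.nd (nat_lit 156) (nat_lit 836) (nat_lit 0) (XT.nd (nat_lit 78) (nat_lit 684) (nat_lit 0)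 (XT.lf (nat_lit 76) (nat_lit 209627238216) (nat_lit 0) (nat_lit 75362489465) (nat_lit 836) (nat_lit 99343289037) (nat_lit 142) (nat_lit 5) (nat_lit 141) (nat_lit 5) (nat_lit 152) (nat_lit 5) (nat_lit 462) (nat_lit 456) (nat_lit 282)) (XT.lf (nat_lit 0) (nat_lit 154667090830) (nat_lit 760) (nat_lit 193572468213) (nat_lit 836) (nat_lit 52491261820) (nat_lit 132) (nat_lit 5) (nat_lit 142) (nat_lit 5) (nat_lit 143) (nat_lit 5) (nat_lit 463) (nat_lit 456) (nat_lit 281))) (XT.nd (nat_lit 78) (nat_lit 380) (nat_lit 0) (XT.lf (nat_lit 0) (nat_lit 5599903263) (nat_lit 456) (nat_lit 319388898388) (nat_lit 76) (nat_lit 93081601472) (nat_lit 126) (nat_lit 5) (nat_lit 132) (nat_lit 5) (nat_lit 127) (nat_lit 5) (nat_lit 464) (nat_lit 456) (nat_lit 280)) (XT.lf (nat_lit 0) (nat_lit 40280173713) (nat_lit 380) (nat_lit 34493076387) (nat_lit 456) (nat_lit 361567179921) (nat_lit 121) (nat_lit 5) (nat_lit 126)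 (nat_lit 5) (nat_lit 127) (nat_lit 5) (nat_lit 465) (nat_lit 456) (nat_lit 279)))))) (XT.nd (nat_lit 546) (nat_lit 1444) (nat_lit 0) (XT.nd (nat_lit 234) (nat_lit 1216) (nat_lit 0) (XT.nd (nat_lit 78) (nat_lit 684) (nat_lit 0) (XT.lf (nat_lit 0) (nat_lit 159494908649) (nat_lit 456) (nat_lit 20116865496) (nat_lit 76) (nat_lit 275959562740) (nat_lit 121) (nat_lit 5) (nat_lit 127) (nat_lit 5) (nat_lit 122) (nat_lit 5) (nat_lit 466) (nat_lit 456) (nat_lit 278)) (XT.nd (nat_lit 78) (nat_lit 304) (nat_lit 0) (XT.lf (nat_lit 0) (nat_lit 259980708047) (nat_lit 456) (nat_lit 80130158886) (nat_lit 76) (nat_lit 135780528969) (nat_lit 116) (nat_lit 5) (nat_lit 122) (nat_lit 5) (nat_lit 117) (nat_lit 5) (nat_lit 467) (nat_lit 456) (nat_lit 277)) (XT.lf (nat_lit 0) (nat_lit 356173810923) (nat_lit 304) (nat_lit 21277124902) (nat_lit 380) (nat_lit 119938845608) (nat_lit 112) (nat_lit 5) (nat_lit 116) (nat_lit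 5) (nat_lit 117) (nat_lit 5) (nat_lit 468) (nat_lit 456) (nat_lit 276)))) (XT.nd (nat_lit 156) (nat_lit 532) (nat_lit 0) (XT.nd (nat_lit 78) (nat_lit 380) (nat_lit 0) (XT.lf (nat_lit 0) (nat_lit 314711124920) (nat_lit 304) (nat_lit 200983747336) (nat_lit 380) (nat_lit 4344361036) (nat_lit 108) (nat_lit 5) (nat_lit 112) (nat_lit 5) (nat_lit 113) (nat_lit 5) (nat_lit 469) (nat_lit 456) (nat_lit 275)) (XT.lf (nat_lit 0) (nat_lit 126131775388) (nat_lit 380) (nat_lit 272123559985) (nat_lit 76) (nat_lit 145676702040) (nat_lit 103) (nat_lit 5) (nat_lit 108) (nat_lit 5) (nat_lit 104) (nat_lit 5) (nat_lit 470) (nat_lit 456) (nat_lit 274))) (XT.nd (nat_lit 78) (nat_lit 228) (nat_lit 0) (XT.lf (nat_lit 0) (nat_lit 228689342523) (nat_lit 304) (nat_lit 48801192816) (nat_lit 380) (nat_lit 291712332688) (nat_lit 99) (nat_lit 5) (nat_lit 103) (nat_lit 5) (nat_lit 104) (nat_lit 5) (nat_lit 471) (nat_lit 456)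 (nat_lit 273)) (XT.lf (nat_lit 0) (nat_lit 183697554399) (nat_lit 228) (nat_lit 270076865986) (nat_lit 304) (nat_lit 142080123499) (nat_lit 96) (nat_lit 5) (nat_lit 99) (nat_lit 5) (nat_lit 100) (nat_lit 5) (nat_lit 472) (nat_lit 456) (nat_lit 272))))) (XT.nd (nat_lit 234) (nat_lit 684) (nat_lit 0) (XT.nd (nat_lit 78) (nat_lit 456) (nat_lit 0) (XT.lf (nat_lit 0) (nat_lit 29714272074) (nat_lit 304) (nat_lit 484985082475) (nat_lit 76) (nat_lit 109382936255) (nat_lit 92) (nat_lit 5) (nat_lit 96) (nat_lit 5) (nat_lit 93) (nat_lit 5) (nat_lit 473) (nat_lit 456) (nat_lit 271)) (XT.nd (nat_lit 78) (nat_lit 228) (nat_lit 0) (XT.lf (nat_lit 0) (nat_lit 90799115379) (nat_lit 228) (nat_lit 132810637717) (nat_lit 304) (nat_lit 430175278808) (nat_lit 89) (nat_lit 5) (nat_lit 92) (nat_lit 5) (nat_lit 93) (nat_lit 5) (nat_lit 474) (nat_lit 456) (nat_lit 270)) (XT.lf (nat_lit 0) (nat_lit 41341977451) (nat_lit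 228) (nat_lit 405272734988) (nat_lit 304) (nat_lit 238569387868) (nat_lit 86) (nat_lit 5) (nat_lit 89) (nat_lit 5) (nat_lit 90) (nat_lit 5) (nat_lit 475) (nat_lit 456) (nat_lit 269)))) (XT.nd (nat_lit 156) (nat_lit 456) (nat_lit 0) (XT.nd (nat_lit 78) (nat_lit 228) (nat_lit 0) (XT.lf (nat_lit 0) (nat_lit 699662797854) (nat_lit 304) (nat_lit 6880577833) (nat_lit 76) (nat_lit 11941582034) (nat_lit 86) (nat_lit 5) (nat_lit 90) (nat_lit 5) (nat_lit 87) (nat_lit 5) (nat_lit 476) (nat_lit 456) (nat_lit 268)) (XT.lf (nat_lit 0) (nat_lit 229509483613) (nat_lit 228) (nat_lit 60769822410) (nat_lit 76) (nat_lit 463100096213) (nat_lit 83) (nat_lit 5) (nat_lit 86) (nat_lit 5) (nat_lit 84) (nat_lit 5) (nat_lit 477) (nat_lit 456) (nat_lit 267))) (XT.nd (nat_lit 78) (nat_lit 228) (nat_lit 0) (XT.lf (nat_lit 0) (nat_lit 510442198329) (nat_lit 304) (nat_lit 114534676405) (nat_lit 76) (nat_lit 165403400757) (nat_lit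 80) (nat_lit 5) (nat_lit 84) (nat_lit 5) (nat_lit 81) (nat_lit 5) (nat_lit 478) (nat_lit 456) (nat_lit 266)) (XT.lf (nat_lit 0) (nat_lit 569475107) (nat_lit 228) (nat_lit 170070016137) (nat_lit 76) (nat_lit 658887935116) (nat_lit 77) (nat_lit 5) (nat_lit 80) (nat_lit 5) (nat_lit 78) (nat_lit 5) (nat_lit 479) (nat_lit 456) (nat_lit 265))))))))
noncomputable def xc117 : XT := (XT.nd (nat_lit 61698) (nat_lit 0) (nat_lit 76) (XT.nd (nat_lit 1092) (nat_lit 76) (nat_lit 0) (XT.nd (nat_lit 546) (nat_lit 912) (nat_lit 0) (XT.nd (nat_lit 234) (nat_lit 684) (nat_lit 0) (XT.nd (nat_lit 78) (nat_lit 380) (nat_lit 0) (XT.lf (nat_lit 0) (nat_lit 311189402772) (nat_lit 304) (nat_lit 232640266027) (nat_lit 76) (nat_lit 326873251171) (nat_lit 74) (nat_lit 5) (nat_lit 78) (nat_lit 5) (nat_lit 75) (nat_lit 5) (nat_lit 480) (nat_lit 456) (nat_lit 264)) (XT.nd (nat_lit 78) (nat_lit 228) (nat_lit 0) (XT.lf (nat_lit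 0) (nat_lit 618773461776) (nat_lit 152) (nat_lit 43434589398) (nat_lit 228) (nat_lit 252186945574) (nat_lit 72) (nat_lit 5) (nat_lit 74) (nat_lit 5) (nat_lit 75) (nat_lit 5) (nat_lit 481) (nat_lit 456) (nat_lit 263)) (XT.lf (nat_lit 0) (nat_lit 98712650313) (nat_lit 228) (nat_lit 365621440697) (nat_lit 76) (nat_lit 496109180516) (nat_lit 69) (nat_lit 5) (nat_lit 72) (nat_lit 5) (nat_lit 70) (nat_lit 5) (nat_lit 482) (nat_lit 456) (nat_lit 262)))) (XT.nd (nat_lit 156) (nat_lit 380) (nat_lit 0) (XT.nd (nat_lit 78) (nat_lit 152) (nat_lit 0) (XT.lf (nat_lit 0) (nat_lit 485187897290) (nat_lit 228) (nat_lit 440245524009) (nat_lit 76) (nat_lit 83718322101) (nat_lit 67) (nat_lit 5) (nat_lit 70) (nat_lit 5) (nat_lit 68) (nat_lit 5) (nat_lit 483) (nat_lit 456) (nat_lit 261)) (XT.lf (nat_lit 0) (nat_lit 539135598187) (nat_lit 152) (nat_lit 386165774842) (nat_lit 228) (nat_lit 135319509549) (nat_lit 65)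 (nat_lit 5) (nat_lit 67) (nat_lit 5) (nat_lit 68) (nat_lit 5) (nat_lit 484) (nat_lit 456) (nat_lit 260))) (XT.nd (nat_lit 78) (nat_lit 152) (nat_lit 0) (XT.lf (nat_lit 0) (nat_lit 294441056993) (nat_lit 228) (nat_lit 610121386592) (nat_lit 76) (nat_lit 210466693310) (nat_lit 62) (nat_lit 5) (nat_lit 65) (nat_lit 5) (nat_lit 63) (nat_lit 5) (nat_lit 485) (nat_lit 456) (nat_lit 259)) (XT.lf (nat_lit 0) (nat_lit 464627262692) (nat_lit 152) (nat_lit 312276074164) (nat_lit 228) (nat_lit 395622706852) (nat_lit 60) (nat_lit 5) (nat_lit 62) (nat_lit 5) (nat_lit 63) (nat_lit 5) (nat_lit 486) (nat_lit 456) (nat_lit 258))))) (XT.nd (nat_lit 234) (nat_lit 532) (nat_lit 0) (XT.nd (nat_lit 78) (nat_lit 228) (nat_lit 0) (XT.lf (nat_lit 0) (nat_lit 84171841001) (nat_lit 152) (nat_lit 813607266061) (nat_lit 76) (nat_lit 335651189482) (nat_lit 58) (nat_lit 5) (nat_lit 60) (nat_lit 5) (nat_lit 59) (nat_lit 5)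 (nat_lit 487) (nat_lit 456) (nat_lit 257)) (XT.nd (nat_lit 78) (nat_lit 76) (nat_lit 0) (XT.lf (nat_lit 0) (nat_lit 363961472993) (nat_lit 152) (nat_lit 248194360481) (nat_lit 228) (nat_lit 685543446561) (nat_lit 56) (nat_lit 5) (nat_lit 58) (nat_lit 5) (nat_lit 59) (nat_lit 5) (nat_lit 488) (nat_lit 456) (nat_lit 256)) (XT.lf (nat_lit 0) (nat_lit 300701996122) (nat_lit 76) (nat_lit 907854353166) (nat_lit 152) (nat_lit 157244542724) (nat_lit 55) (nat_lit 5) (nat_lit 56) (nat_lit 5) (nat_lit 57) (nat_lit 4) (nat_lit 489) (nat_lit 456) (nat_lit 255)))) (XT.nd (nat_lit 156) (nat_lit 228) (nat_lit 0) (XT.nd (nat_lit 78) (nat_lit 76) (nat_lit 0) (XT.lf (nat_lit 0) (nat_lit 224999730395) (nat_lit 152) (nat_lit 199319392971) (nat_lit 228) (nat_lit 1013497375956) (nat_lit 52) (nat_lit 5) (nat_lit 54) (nat_lit 5) (nat_lit 55) (nat_lit 5) (nat_lit 490) (nat_lit 456) (nat_lit 254)) (XT.lf (nat_lit 0)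 (nat_lit 134178566627) (nat_lit 76) (nat_lit 942581514348) (nat_lit 152) (nat_lit 437211321222) (nat_lit 51) (nat_lit 5) (nat_lit 52) (nat_lit 5) (nat_lit 53) (nat_lit 4) (nat_lit 491) (nat_lit 456) (nat_lit 253))) (XT.nd (nat_lit 78) (nat_lit 0) (nat_lit 0) (XT.lf (nat_lit 0) (nat_lit 31489921138) (nat_lit 152) (nat_lit 173086192344) (nat_lit 228) (nat_lit 1390231759953) (nat_lit 48) (nat_lit 5) (nat_lit 50) (nat_lit 5) (nat_lit 51) (nat_lit 5) (nat_lit 492) (nat_lit 456) (nat_lit 252)) (XT.lf (nat_lit 0) (nat_lit 917295406171) (nat_lit 228) (nat_lit 94001224867) (nat_lit 76) (nat_lit 668710930491) (nat_lit 48) (nat_lit 5) (nat_lit 51) (nat_lit 5) (nat_lit 49) (nat_lit 4) (nat_lit 493) (nat_lit 456) (nat_lit 251)))))) (XT.nd (nat_lit 60060) (nat_lit 0) (nat_lit 4940) (XT.nd (nat_lit 59748) (nat_lit 0) (nat_lit 6916) (XT.nd (nat_lit 59592) (nat_lit 0) (nat_lit 6840) (XT.lf (nat_lit 0) (nat_lit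 1539206476730) (nat_lit 76) (nat_lit 174775623181) (nat_lit 152) (nat_lit 56693631878) (nat_lit 47) (nat_lit 5) (nat_lit 48) (nat_lit 5) (nat_lit 49) (nat_lit 4) (nat_lit 494) (nat_lit 456) (nat_lit 250)) (XT.nd (nat_lit 78) (nat_lit 0) (nat_lit 76) (XT.lf (nat_lit 0) (nat_lit 63451374819) (nat_lit 836) (nat_lit 49890582842) (nat_lit 836) (nat_lit 49890582842) (nat_lit 137) (nat_lit 3) (nat_lit 148) (nat_lit 3) (nat_lit 148) (nat_lit 5) (nat_lit 457) (nat_lit 457) (nat_lit 286)) (XT.lf (nat_lit 0) (nat_lit 134983209665) (nat_lit 760) (nat_lit 176397665940) (nat_lit 836) (nat_lit 27992590921) (nat_lit 138) (nat_lit 5) (nat_lit 148) (nat_lit 5) (nat_lit 149) (nat_lit 5) (nat_lit 458) (nat_lit 457) (nat_lit 285)))) (XT.nd (nat_lit 156) (nat_lit 0) (nat_lit 152) (XT.nd (nat_lit 78) (nat_lit 0) (nat_lit 76) (XT.lf (nat_lit 76) (nat_lit 96320874656) (nat_lit 0) (nat_lit 54481898114) (nat_lit 836)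 (nat_lit 202157116825) (nat_lit 139) (nat_lit 5) (nat_lit 138) (nat_lit 5) (nat_lit 149) (nat_lit 5) (nat_lit 459) (nat_lit 457) (nat_lit 284)) (XT.lf (nat_lit 76) (nat_lit 27009274939) (nat_lit 0) (nat_lit 147904505533) (nat_lit 836) (nat_lit 192368152079) (nat_lit 140) (nat_lit 5) (nat_lit 139) (nat_lit 5) (nat_lit 150) (nat_lit 5) (nat_lit 460) (nat_lit 457) (nat_lit 283))) (XT.nd (nat_lit 78) (nat_lit 0) (nat_lit 76) (XT.lf (nat_lit 0) (nat_lit 208439346732) (nat_lit 760) (nat_lit 43027625407) (nat_lit 836) (nat_lit 130908482926) (nat_lit 140) (nat_lit 5) (nat_lit 150) (nat_lit 5) (nat_lit 151) (nat_lit 5) (nat_lit 461) (nat_lit 457) (nat_lit 282)) (XT.lf (nat_lit 0) (nat_lit 252100078580) (nat_lit 760) (nat_lit 114232859199) (nat_lit 836) (nat_lit 31970865606) (nat_lit 141) (nat_lit 5) (nat_lit 151) (nat_lit 5) (nat_lit 152) (nat_lit 5) (nat_lit 462) (nat_lit 457) (nat_lit 281))))) (XT.nd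 (nat_lit 234) (nat_lit 1064) (nat_lit 0) (XT.nd (nat_lit 78) (nat_lit 1140) (nat_lit 0) (XT.lf (nat_lit 76) (nat_lit 226398589060) (nat_lit 0) (nat_lit 81391718547) (nat_lit 836) (nat_lit 107289280047) (nat_lit 142) (nat_lit 5) (nat_lit 141) (nat_lit 5) (nat_lit 152) (nat_lit 5) (nat_lit 463) (nat_lit 457) (nat_lit 280)) (XT.nd (nat_lit 78) (nat_lit 456) (nat_lit 0) (XT.lf (nat_lit 0) (nat_lit 167041649734) (nat_lit 760) (nat_lit 209058387194) (nat_lit 836) (nat_lit 56689183652) (nat_lit 132) (nat_lit 5) (nat_lit 142) (nat_lit 5) (nat_lit 143) (nat_lit 5) (nat_lit 464) (nat_lit 457) (nat_lit 279)) (XT.lf (nat_lit 0) (nat_lit 6049148942) (nat_lit 456) (nat_lit 344938763807) (nat_lit 76) (nat_lit 100528059695) (nat_lit 126) (nat_lit 5) (nat_lit 132) (nat_lit 5) (nat_lit 127) (nat_lit 5) (nat_lit 465) (nat_lit 457) (nat_lit 278)))) (XT.nd (nat_lit 156) (nat_lit 684) (nat_lit 0) (XT.nd (nat_lit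 78) (nat_lit 0) (nat_lit 0) (XT.lf (nat_lit 0) (nat_lit 43503779892) (nat_lit 380) (nat_lit 37252509403) (nat_lit 456) (nat_lit 390491315930) (nat_lit 121) (nat_lit 5) (nat_lit 126) (nat_lit 5) (nat_lit 127) (nat_lit 5) (nat_lit 466) (nat_lit 457) (nat_lit 277)) (XT.lf (nat_lit 0) (nat_lit 172255593370) (nat_lit 456) (nat_lit 21725056148) (nat_lit 76) (nat_lit 298036339496) (nat_lit 121) (nat_lit 5) (nat_lit 127) (nat_lit 5) (nat_lit 122) (nat_lit 5) (nat_lit 467) (nat_lit 457) (nat_lit 276))) (XT.nd (nat_lit 78) (nat_lit 304) (nat_lit 0) (XT.lf (nat_lit 0) (nat_lit 280780194378) (nat_lit 456) (nat_lit 86539412979) (nat_lit 76) (nat_lit 146643048530) (nat_lit 116) (nat_lit 5) (nat_lit 122) (nat_lit 5) (nat_lit 117) (nat_lit 5) (nat_lit 468) (nat_lit 457) (nat_lit 275)) (XT.lf (nat_lit 0) (nat_lit 384668824063) (nat_lit 304) (nat_lit 22979157344) (nat_lit 380) (nat_lit 129532933814) (nat_lit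 112) (nat_lit 5) (nat_lit 116) (nat_lit 5) (nat_lit 117) (nat_lit 5) (nat_lit 469) (nat_lit 457) (nat_lit 274))))))) (XT.nd (nat_lit 1092) (nat_lit 1596) (nat_lit 0) (XT.nd (nat_lit 546) (nat_lit 1292) (nat_lit 0) (XT.nd (nat_lit 234) (nat_lit 988) (nat_lit 0) (XT.nd (nat_lit 78) (nat_lit 684) (nat_lit 0) (XT.lf (nat_lit 0) (nat_lit 339889119570) (nat_lit 304) (nat_lit 217062260515) (nat_lit 380) (nat_lit 4690945794) (nat_lit 108) (nat_lit 5) (nat_lit 112) (nat_lit 5) (nat_lit 113) (nat_lit 5) (nat_lit 470) (nat_lit 457) (nat_lit 273)) (XT.nd (nat_lit 78) (nat_lit 304) (nat_lit 0) (XT.lf (nat_lit 0) (nat_lit 136223201720) (nat_lit 380) (nat_lit 293892317453) (nat_lit 76) (nat_lit 157331036864) (nat_lit 103) (nat_lit 5) (nat_lit 108) (nat_lit 5) (nat_lit 104) (nat_lit 5) (nat_lit 471) (nat_lit 457) (nat_lit 272)) (XT.lf (nat_lit 0) (nat_lit 246985568263) (nat_lit 304) (nat_lit 52705045536) (nat_lit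 380) (nat_lit 315048441745) (nat_lit 99) (nat_lit 5) (nat_lit 103) (nat_lit 5) (nat_lit 104) (nat_lit 5) (nat_lit 472) (nat_lit 457) (nat_lit 271)))) (XT.nd (nat_lit 156) (nat_lit 456) (nat_lit 0) (XT.nd (nat_lit 78) (nat_lit 304) (nat_lit 0) (XT.lf (nat_lit 0) (nat_lit 198394426704) (nat_lit 228) (nat_lit 291682741228) (nat_lit 304) (nat_lit 153445699634) (nat_lit 96) (nat_lit 5) (nat_lit 99) (nat_lit 5) (nat_lit 100) (nat_lit 5) (nat_lit 473) (nat_lit 457) (nat_lit 270)) (XT.lf (nat_lit 0) (nat_lit 32092181894) (nat_lit 304) (nat_lit 523782808014) (nat_lit 76) (nat_lit 118133845640) (nat_lit 92) (nat_lit 5) (nat_lit 96) (nat_lit 5) (nat_lit 93) (nat_lit 5) (nat_lit 474) (nat_lit 457) (nat_lit 269))) (XT.nd (nat_lit 78) (nat_lit 228) (nat_lit 0) (XT.lf (nat_lit 0) (nat_lit 98064078686) (nat_lit 228) (nat_lit 143435181964) (nat_lit 304) (nat_lit 464588537333) (nat_lit 89) (nat_lit 5) (nat_lit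 92) (nat_lit 5) (nat_lit 93) (nat_lit 5) (nat_lit 475) (nat_lit 457) (nat_lit 268)) (XT.lf (nat_lit 0) (nat_lit 44650355091) (nat_lit 228) (nat_lit 437694228126) (nat_lit 304) (nat_lit 257654210325) (nat_lit 86) (nat_lit 5) (nat_lit 89) (nat_lit 5) (nat_lit 90) (nat_lit 5) (nat_lit 476) (nat_lit 457) (nat_lit 267))))) (XT.nd (nat_lit 234) (nat_lit 836) (nat_lit 0) (XT.nd (nat_lit 78) (nat_lit 456) (nat_lit 0) (XT.lf (nat_lit 0) (nat_lit 755636468782) (nat_lit 304) (nat_lit 7430052625) (nat_lit 76) (nat_lit 12897200484) (nat_lit 86) (nat_lit 5) (nat_lit 90) (nat_lit 5) (nat_lit 87) (nat_lit 5) (nat_lit 477) (nat_lit 457) (nat_lit 266)) (XT.nd (nat_lit 78) (nat_lit 228) (nat_lit 0) (XT.lf (nat_lit 0) (nat_lit 247870866119) (nat_lit 228) (nat_lit 65630458278) (nat_lit 76) (nat_lit 500148398746) (nat_lit 83) (nat_lit 5) (nat_lit 86) (nat_lit 5) (nat_lit 84) (nat_lit 5) (nat_lit 478) (nat_lit 457)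 (nat_lit 265)) (XT.lf (nat_lit 0) (nat_lit 551278170937) (nat_lit 304) (nat_lit 123696517156) (nat_lit 76) (nat_lit 178635979525) (nat_lit 80) (nat_lit 5) (nat_lit 84) (nat_lit 5) (nat_lit 81) (nat_lit 5) (nat_lit 479) (nat_lit 457) (nat_lit 264)))) (XT.nd (nat_lit 156) (nat_lit 380) (nat_lit 0) (XT.nd (nat_lit 78) (nat_lit 228) (nat_lit 0) (XT.lf (nat_lit 0) (nat_lit 615608948) (nat_lit 228) (nat_lit 183674705523) (nat_lit 76) (nat_lit 711599277139) (nat_lit 77) (nat_lit 5) (nat_lit 80) (nat_lit 5) (nat_lit 78) (nat_lit 5) (nat_lit 480) (nat_lit 457) (nat_lit 263)) (XT.lf (nat_lit 0) (nat_lit 336085106872) (nat_lit 304) (nat_lit 251250592715) (nat_lit 76) (nat_lit 353023426326) (nat_lit 74) (nat_lit 5) (nat_lit 78) (nat_lit 5) (nat_lit 75) (nat_lit 5) (nat_lit 481) (nat_lit 457) (nat_lit 262))) (XT.nd (nat_lit 78) (nat_lit 228) (nat_lit 0) (XT.lf (nat_lit 0) (nat_lit 668276194435) (nat_lit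 152) (nat_lit 46909025192) (nat_lit 228) (nat_lit 272361350587) (nat_lit 72) (nat_lit 5) (nat_lit 74) (nat_lit 5) (nat_lit 75) (nat_lit 5) (nat_lit 482) (nat_lit 457) (nat_lit 261)) (XT.lf (nat_lit 0) (nat_lit 106610174044) (nat_lit 228) (nat_lit 394870300270) (nat_lit 76) (nat_lit 535798233299) (nat_lit 69) (nat_lit 5) (nat_lit 72) (nat_lit 5) (nat_lit 70) (nat_lit 5) (nat_lit 483) (nat_lit 457) (nat_lit 260)))))) (XT.nd (nat_lit 546) (nat_lit 532) (nat_lit 0) (XT.nd (nat_lit 234) (nat_lit 532) (nat_lit 0) (XT.nd (nat_lit 78) (nat_lit 380) (nat_lit 0) (XT.lf (nat_lit 0) (nat_lit 524003420837) (nat_lit 228) (nat_lit 475464328240) (nat_lit 76) (nat_lit 90416109161) (nat_lit 67) (nat_lit 5) (nat_lit 70) (nat_lit 5) (nat_lit 68) (nat_lit 5) (nat_lit 484) (nat_lit 457) (nat_lit 259)) (XT.nd (nat_lit 78) (nat_lit 228) (nat_lit 0) (XT.lf (nat_lit 0) (nat_lit 582267247327) (nat_lit 152) (nat_lit 417058703391)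 (nat_lit 228) (nat_lit 146144579031) (nat_lit 65) (nat_lit 5) (nat_lit 67) (nat_lit 5) (nat_lit 68) (nat_lit 5) (nat_lit 485) (nat_lit 457) (nat_lit 258)) (XT.lf (nat_lit 0) (nat_lit 317996799223) (nat_lit 228) (nat_lit 658930298449) (nat_lit 76) (nat_lit 227304347254) (nat_lit 62) (nat_lit 5) (nat_lit 65) (nat_lit 5) (nat_lit 63) (nat_lit 5) (nat_lit 486) (nat_lit 457) (nat_lit 257)))) (XT.nd (nat_lit 156) (nat_lit 228) (nat_lit 0) (XT.nd (nat_lit 78) (nat_lit 152) (nat_lit 0) (XT.lf (nat_lit 0) (nat_lit 501798208051) (nat_lit 152) (nat_lit 337257831455) (nat_lit 228) (nat_lit 427272065878) (nat_lit 60) (nat_lit 5) (nat_lit 62) (nat_lit 5) (nat_lit 63) (nat_lit 5) (nat_lit 487) (nat_lit 457) (nat_lit 256)) (XT.lf (nat_lit 0) (nat_lit 90906015039) (nat_lit 152) (nat_lit 878695086113) (nat_lit 76) (nat_lit 362503597746) (nat_lit 58) (nat_lit 5) (nat_lit 60) (nat_lit 5) (nat_lit 59) (nat_lit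 5) (nat_lit 488) (nat_lit 457) (nat_lit 255))) (XT.nd (nat_lit 78) (nat_lit 76) (nat_lit 0) (XT.lf (nat_lit 0) (nat_lit 393079118982) (nat_lit 152) (nat_lit 268049587684) (nat_lit 228) (nat_lit 740386495417) (nat_lit 56) (nat_lit 5) (nat_lit 58) (nat_lit 5) (nat_lit 59) (nat_lit 5) (nat_lit 489) (nat_lit 457) (nat_lit 254)) (XT.lf (nat_lit 0) (nat_lit 324758866984) (nat_lit 76) (nat_lit 980482382402) (nat_lit 152) (nat_lit 169823694352) (nat_lit 55) (nat_lit 5) (nat_lit 56) (nat_lit 5) (nat_lit 57) (nat_lit 4) (nat_lit 490) (nat_lit 457) (nat_lit 253))))) (XT.nd (nat_lit 59904) (nat_lit 0) (nat_lit 6764) (XT.nd (nat_lit 156) (nat_lit 228) (nat_lit 0) (XT.nd (nat_lit 78) (nat_lit 76) (nat_lit 0) (XT.lf (nat_lit 0) (nat_lit 243000401723) (nat_lit 152) (nat_lit 215264631414) (nat_lit 228) (nat_lit 1094576767113) (nat_lit 52) (nat_lit 5) (nat_lit 54) (nat_lit 5) (nat_lit 55) (nat_lit 5) (nat_lit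 491) (nat_lit 457) (nat_lit 252)) (XT.lf (nat_lit 0) (nat_lit 144913528259) (nat_lit 76) (nat_lit 1017987726038) (nat_lit 152) (nat_lit 472187841712) (nat_lit 51) (nat_lit 5) (nat_lit 52) (nat_lit 5) (nat_lit 53) (nat_lit 4) (nat_lit 492) (nat_lit 457) (nat_lit 251))) (XT.nd (nat_lit 78) (nat_lit 0) (nat_lit 0) (XT.lf (nat_lit 0) (nat_lit 34009773553) (nat_lit 152) (nat_lit 186932784550) (nat_lit 228) (nat_lit 1501449927410) (nat_lit 48) (nat_lit 5) (nat_lit 50) (nat_lit 5) (nat_lit 51) (nat_lit 5) (nat_lit 493) (nat_lit 457) (nat_lit 250)) (XT.lf (nat_lit 0) (nat_lit 990679372254) (nat_lit 228) (nat_lit 101520700832) (nat_lit 76) (nat_lit 722208076668) (nat_lit 48) (nat_lit 5) (nat_lit 51) (nat_lit 5) (nat_lit 49) (nat_lit 4) (nat_lit 494) (nat_lit 457) (nat_lit 249)))) (XT.nd (nat_lit 156) (nat_lit 0) (nat_lit 76) (XT.nd (nat_lit 78) (nat_lit 0) (nat_lit 76) (XT.lf (nat_lit 0) (nat_lit 68528408171)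 (nat_lit 836) (nat_lit 53881344595) (nat_lit 836) (nat_lit 53881344595) (nat_lit 137) (nat_lit 3) (nat_lit 148) (nat_lit 3) (nat_lit 148) (nat_lit 5) (nat_lit 458) (nat_lit 458) (nat_lit 284)) (XT.lf (nat_lit 0) (nat_lit 145783578418) (nat_lit 760) (nat_lit 190508452551) (nat_lit 836) (nat_lit 30231226883) (nat_lit 138) (nat_lit 5) (nat_lit 148) (nat_lit 5) (nat_lit 149) (nat_lit 5) (nat_lit 459) (nat_lit 458) (nat_lit 283))) (XT.nd (nat_lit 78) (nat_lit 0) (nat_lit 76) (XT.lf (nat_lit 76) (nat_lit 104027526675) (nat_lit 0) (nat_lit 58841068415) (nat_lit 836) (nat_lit 218328005279) (nat_lit 139) (nat_lit 5) (nat_lit 138) (nat_lit 5) (nat_lit 149) (nat_lit 5) (nat_lit 460) (nat_lit 458) (nat_lit 282)) (XT.lf (nat_lit 76) (nat_lit 29171042438) (nat_lit 0) (nat_lit 159737329487) (nat_lit 836) (nat_lit 207756040439) (nat_lit 140) (nat_lit 5) (nat_lit 139) (nat_lit 5) (nat_lit 150) (nat_lit 5) (nat_lit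 461) (nat_lit 458) (nat_lit 281))))))))
noncomputable def xc118 : XT := (XT.nd (nat_lit 2184) (nat_lit 760) (nat_lit 0) (XT.nd (nat_lit 1092) (nat_lit 2584) (nat_lit 0) (XT.nd (nat_lit 546) (nat_lit 2204) (nat_lit 0) (XT.nd (nat_lit 234) (nat_lit 1444) (nat_lit 0) (XT.nd (nat_lit 78) (nat_lit 0) (nat_lit 76) (XT.lf (nat_lit 0) (nat_lit 225115866487) (nat_lit 760) (nat_lit 46468809947) (nat_lit 836) (nat_lit 141380746120) (nat_lit 140) (nat_lit 5) (nat_lit 150) (nat_lit 5) (nat_lit 151) (nat_lit 5) (nat_lit 462) (nat_lit 458) (nat_lit 280)) (XT.nd (nat_lit 78) (nat_lit 0) (nat_lit 0) (XT.lf (nat_lit 0) (nat_lit 272269365808) (nat_lit 760) (nat_lit 123370437674) (nat_lit 836) (nat_lit 34528239834) (nat_lit 141) (nat_lit 5) (nat_lit 151) (nat_lit 5) (nat_lit 152) (nat_lit 5) (nat_lit 463) (nat_lit 458) (nat_lit 279)) (XT.lf (nat_lit 76) (nat_lit 244511480803) (nat_lit 0) (nat_lit 87903253155)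 (nat_lit 836) (nat_lit 115871160351) (nat_lit 142) (nat_lit 5) (nat_lit 141) (nat_lit 5) (nat_lit 152) (nat_lit 5) (nat_lit 464) (nat_lit 458) (nat_lit 278)))) (XT.nd (nat_lit 156) (nat_lit 380) (nat_lit 0) (XT.nd (nat_lit 78) (nat_lit 456) (nat_lit 0) (XT.lf (nat_lit 0) (nat_lit 180406003350) (nat_lit 760) (nat_lit 225783162358) (nat_lit 836) (nat_lit 61223135978) (nat_lit 132) (nat_lit 5) (nat_lit 142) (nat_lit 5) (nat_lit 143) (nat_lit 5) (nat_lit 465) (nat_lit 458) (nat_lit 277)) (XT.lf (nat_lit 0) (nat_lit 6534155462) (nat_lit 456) (nat_lit 372532796281) (nat_lit 76) (nat_lit 108570244546) (nat_lit 126) (nat_lit 5) (nat_lit 132) (nat_lit 5) (nat_lit 127) (nat_lit 5) (nat_lit 466) (nat_lit 458) (nat_lit 276))) (XT.nd (nat_lit 78) (nat_lit 0) (nat_lit 0) (XT.lf (nat_lit 0) (nat_lit 46985104473) (nat_lit 380) (nat_lit 40232698928) (nat_lit 456) (nat_lit 421729559489) (nat_lit 121) (nat_lit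 5) (nat_lit 126) (nat_lit 5) (nat_lit 127) (nat_lit 5) (nat_lit 467) (nat_lit 458) (nat_lit 275)) (XT.lf (nat_lit 0) (nat_lit 186036977079) (nat_lit 456) (nat_lit 23462067337) (nat_lit 76) (nat_lit 321879256718) (nat_lit 121) (nat_lit 5) (nat_lit 127) (nat_lit 5) (nat_lit 122) (nat_lit 5) (nat_lit 468) (nat_lit 458) (nat_lit 274))))) (XT.nd (nat_lit 234) (nat_lit 1216) (nat_lit 0) (XT.nd (nat_lit 78) (nat_lit 608) (nat_lit 0) (XT.lf (nat_lit 0) (nat_lit 303243492719) (nat_lit 456) (nat_lit 93461572689) (nat_lit 76) (nat_lit 158374558635) (nat_lit 116) (nat_lit 5) (nat_lit 122) (nat_lit 5) (nat_lit 117) (nat_lit 5) (nat_lit 469) (nat_lit 458) (nat_lit 273)) (XT.nd (nat_lit 78) (nat_lit 304) (nat_lit 0) (XT.lf (nat_lit 0) (nat_lit 415443280148) (nat_lit 304) (nat_lit 24817372006) (nat_lit 380) (nat_lit 139894694512) (nat_lit 112) (nat_lit 5) (nat_lit 116) (nat_lit 5) (nat_lit 117) (nat_lit 5)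 (nat_lit 470) (nat_lit 458) (nat_lit 272)) (XT.lf (nat_lit 0) (nat_lit 367081196200) (nat_lit 304) (nat_lit 234427081369) (nat_lit 380) (nat_lit 5065394876) (nat_lit 108) (nat_lit 5) (nat_lit 112) (nat_lit 5) (nat_lit 113) (nat_lit 5) (nat_lit 471) (nat_lit 458) (nat_lit 271)))) (XT.nd (nat_lit 156) (nat_lit 532) (nat_lit 0) (XT.nd (nat_lit 78) (nat_lit 304) (nat_lit 0) (XT.lf (nat_lit 0) (nat_lit 147121816003) (nat_lit 380) (nat_lit 317402736344) (nat_lit 76) (nat_lit 169917690132) (nat_lit 103) (nat_lit 5) (nat_lit 108) (nat_lit 5) (nat_lit 104) (nat_lit 5) (nat_lit 472) (nat_lit 458) (nat_lit 270)) (XT.lf (nat_lit 0) (nat_lit 266745338226) (nat_lit 304) (nat_lit 56921241098) (nat_lit 380) (nat_lit 340251564721) (nat_lit 99) (nat_lit 5) (nat_lit 103) (nat_lit 5) (nat_lit 104) (nat_lit 5) (nat_lit 473) (nat_lit 458) (nat_lit 269))) (XT.nd (nat_lit 78) (nat_lit 304) (nat_lit 0) (XT.lf (nat_lit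 0) (nat_lit 214266896438) (nat_lit 228) (nat_lit 315017125584) (nat_lit 304) (nat_lit 165720640803) (nat_lit 96) (nat_lit 5) (nat_lit 99) (nat_lit 5) (nat_lit 100) (nat_lit 5) (nat_lit 474) (nat_lit 458) (nat_lit 268)) (XT.lf (nat_lit 0) (nat_lit 34660214929) (nat_lit 304) (nat_lit 565684505822) (nat_lit 76) (nat_lit 127584788617) (nat_lit 92) (nat_lit 5) (nat_lit 96) (nat_lit 5) (nat_lit 93) (nat_lit 5) (nat_lit 475) (nat_lit 458) (nat_lit 267)))))) (XT.nd (nat_lit 546) (nat_lit 1216) (nat_lit 0) (XT.nd (nat_lit 234) (nat_lit 912) (nat_lit 0) (XT.nd (nat_lit 78) (nat_lit 228) (nat_lit 0) (XT.lf (nat_lit 0) (nat_lit 105910091536) (nat_lit 228) (nat_lit 154909733514) (nat_lit 304) (nat_lit 501754965501) (nat_lit 89) (nat_lit 5) (nat_lit 92) (nat_lit 5) (nat_lit 93) (nat_lit 5) (nat_lit 476) (nat_lit 458) (nat_lit 266)) (XT.nd (nat_lit 78) (nat_lit 0) (nat_lit 0) (XT.lf (nat_lit 0) (nat_lit 48223257508)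 (nat_lit 228) (nat_lit 472709487174) (nat_lit 304) (nat_lit 278265922517) (nat_lit 86) (nat_lit 5) (nat_lit 89) (nat_lit 5) (nat_lit 90) (nat_lit 5) (nat_lit 477) (nat_lit 458) (nat_lit 265)) (XT.lf (nat_lit 0) (nat_lit 816087941068) (nat_lit 304) (nat_lit 8023623986) (nat_lit 76) (nat_lit 13929226769) (nat_lit 86) (nat_lit 5) (nat_lit 90) (nat_lit 5) (nat_lit 87) (nat_lit 5) (nat_lit 478) (nat_lit 458) (nat_lit 264)))) (XT.nd (nat_lit 156) (nat_lit 456) (nat_lit 0) (XT.nd (nat_lit 78) (nat_lit 228) (nat_lit 0) (XT.lf (nat_lit 0) (nat_lit 267701070232) (nat_lit 228) (nat_lit 70880080532) (nat_lit 76) (nat_lit 540160523419) (nat_lit 83) (nat_lit 5) (nat_lit 86) (nat_lit 5) (nat_lit 84) (nat_lit 5) (nat_lit 479) (nat_lit 458) (nat_lit 263)) (XT.lf (nat_lit 0) (nat_lit 595380936222) (nat_lit 304) (nat_lit 133591438321) (nat_lit 76) (nat_lit 192927120838) (nat_lit 80) (nat_lit 5) (nat_lit 84) (nat_lit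 5) (nat_lit 81) (nat_lit 5) (nat_lit 480) (nat_lit 458) (nat_lit 262))) (XT.nd (nat_lit 78) (nat_lit 228) (nat_lit 0) (XT.lf (nat_lit 0) (nat_lit 665351347) (nat_lit 228) (nat_lit 198367900153) (nat_lit 76) (nat_lit 768527482697) (nat_lit 77) (nat_lit 5) (nat_lit 80) (nat_lit 5) (nat_lit 78) (nat_lit 5) (nat_lit 481) (nat_lit 458) (nat_lit 261)) (XT.lf (nat_lit 0) (nat_lit 362972388569) (nat_lit 304) (nat_lit 271349873161) (nat_lit 76) (nat_lit 381265570546) (nat_lit 74) (nat_lit 5) (nat_lit 78) (nat_lit 5) (nat_lit 75) (nat_lit 5) (nat_lit 482) (nat_lit 458) (nat_lit 260))))) (XT.nd (nat_lit 234) (nat_lit 684) (nat_lit 0) (XT.nd (nat_lit 78) (nat_lit 380) (nat_lit 0) (XT.lf (nat_lit 0) (nat_lit 721739023629) (nat_lit 152) (nat_lit 50661463121) (nat_lit 228) (nat_lit 294149786554) (nat_lit 72) (nat_lit 5) (nat_lit 74) (nat_lit 5) (nat_lit 75) (nat_lit 5) (nat_lit 483) (nat_lit 458) (nat_lit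 259)) (XT.nd (nat_lit 78) (nat_lit 152) (nat_lit 0) (XT.lf (nat_lit 0) (nat_lit 115139426672) (nat_lit 228) (nat_lit 426459190682) (nat_lit 76) (nat_lit 578662364889) (nat_lit 69) (nat_lit 5) (nat_lit 72) (nat_lit 5) (nat_lit 70) (nat_lit 5) (nat_lit 484) (nat_lit 458) (nat_lit 258)) (XT.lf (nat_lit 0) (nat_lit 565924116111) (nat_lit 228) (nat_lit 513500756315) (nat_lit 76) (nat_lit 97649673350) (nat_lit 67) (nat_lit 5) (nat_lit 70) (nat_lit 5) (nat_lit 68) (nat_lit 5) (nat_lit 485) (nat_lit 458) (nat_lit 257)))) (XT.nd (nat_lit 156) (nat_lit 304) (nat_lit 0) (XT.nd (nat_lit 78) (nat_lit 228) (nat_lit 0) (XT.lf (nat_lit 0) (nat_lit 628849314085) (nat_lit 152) (nat_lit 450423113793) (nat_lit 228) (nat_lit 157835724158) (nat_lit 65) (nat_lit 5) (nat_lit 67) (nat_lit 5) (nat_lit 68) (nat_lit 5) (nat_lit 486) (nat_lit 458) (nat_lit 256)) (XT.lf (nat_lit 0) (nat_lit 343436935539) (nat_lit 228) (nat_lit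 711644037251) (nat_lit 76) (nat_lit 245488968078) (nat_lit 62) (nat_lit 5) (nat_lit 65) (nat_lit 5) (nat_lit 63) (nat_lit 5) (nat_lit 487) (nat_lit 458) (nat_lit 255))) (XT.nd (nat_lit 78) (nat_lit 152) (nat_lit 0) (XT.lf (nat_lit 0) (nat_lit 541942719997) (nat_lit 152) (nat_lit 364238176215) (nat_lit 228) (nat_lit 461453438896) (nat_lit 60) (nat_lit 5) (nat_lit 62) (nat_lit 5) (nat_lit 63) (nat_lit 5) (nat_lit 488) (nat_lit 458) (nat_lit 254)) (XT.lf (nat_lit 0) (nat_lit 98178862118) (nat_lit 152) (nat_lit 948990040369) (nat_lit 76) (nat_lit 391504154003) (nat_lit 58) (nat_lit 5) (nat_lit 60) (nat_lit 5) (nat_lit 59) (nat_lit 5) (nat_lit 489) (nat_lit 458) (nat_lit 253))))))) (XT.nd (nat_lit 60762) (nat_lit 0) (nat_lit 2432) (XT.nd (nat_lit 60216) (nat_lit 0) (nat_lit 5928) (XT.nd (nat_lit 234) (nat_lit 304) (nat_lit 0) (XT.nd (nat_lit 78) (nat_lit 304) (nat_lit 0) (XT.lf (nat_lit 0) (nat_lit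 424526072772) (nat_lit 152) (nat_lit 289493278948) (nat_lit 228) (nat_lit 799617049079) (nat_lit 56) (nat_lit 5) (nat_lit 58) (nat_lit 5) (nat_lit 59) (nat_lit 5) (nat_lit 490) (nat_lit 458) (nat_lit 252)) (XT.nd (nat_lit 78) (nat_lit 228) (nat_lit 0) (XT.lf (nat_lit 0) (nat_lit 350740186058) (nat_lit 76) (nat_lit 1058920699489) (nat_lit 152) (nat_lit 183409236857) (nat_lit 55) (nat_lit 5) (nat_lit 56) (nat_lit 5) (nat_lit 57) (nat_lit 4) (nat_lit 491) (nat_lit 458) (nat_lit 251)) (XT.lf (nat_lit 0) (nat_lit 262441027908) (nat_lit 152) (nat_lit 232485533584) (nat_lit 228) (nat_lit 1182142566472) (nat_lit 52) (nat_lit 5) (nat_lit 54) (nat_lit 5) (nat_lit 55) (nat_lit 5) (nat_lit 492) (nat_lit 458) (nat_lit 250)))) (XT.nd (nat_lit 59826) (nat_lit 0) (nat_lit 6764) (XT.nd (nat_lit 78) (nat_lit 228) (nat_lit 0) (XT.lf (nat_lit 0) (nat_lit 156507190340) (nat_lit 76) (nat_lit 1099426478811) (nat_lit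 152) (nat_lit 509962538795) (nat_lit 51) (nat_lit 5) (nat_lit 52) (nat_lit 5) (nat_lit 53) (nat_lit 4) (nat_lit 493) (nat_lit 458) (nat_lit 249)) (XT.lf (nat_lit 0) (nat_lit 36731120187) (nat_lit 152) (nat_lit 201887147386) (nat_lit 228) (nat_lit 1621565601525) (nat_lit 48) (nat_lit 5) (nat_lit 50) (nat_lit 5) (nat_lit 51) (nat_lit 5) (nat_lit 494) (nat_lit 458) (nat_lit 248))) (XT.nd (nat_lit 78) (nat_lit 0) (nat_lit 76) (XT.lf (nat_lit 0) (nat_lit 74011472463) (nat_lit 836) (nat_lit 58191436460) (nat_lit 836) (nat_lit 58191436460) (nat_lit 137) (nat_lit 3) (nat_lit 148) (nat_lit 3) (nat_lit 148) (nat_lit 5) (nat_lit 459) (nat_lit 459) (nat_lit 282)) (XT.lf (nat_lit 0) (nat_lit 157447732439) (nat_lit 760) (nat_lit 205748248556) (nat_lit 836) (nat_lit 32649063758) (nat_lit 138) (nat_lit 5) (nat_lit 148) (nat_lit 5) (nat_lit 149) (nat_lit 5) (nat_lit 460) (nat_lit 459) (nat_lit 281))))) (XT.nd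 (nat_lit 234) (nat_lit 912) (nat_lit 0) (XT.nd (nat_lit 78) (nat_lit 0) (nat_lit 76) (XT.lf (nat_lit 76) (nat_lit 112350570756) (nat_lit 0) (nat_lit 63548884112) (nat_lit 836) (nat_lit 235792804607) (nat_lit 139) (nat_lit 5) (nat_lit 138) (nat_lit 5) (nat_lit 149) (nat_lit 5) (nat_lit 461) (nat_lit 459) (nat_lit 280)) (XT.nd (nat_lit 78) (nat_lit 0) (nat_lit 76) (XT.lf (nat_lit 76) (nat_lit 31505605037) (nat_lit 0) (nat_lit 172516713231) (nat_lit 836) (nat_lit 224375182963) (nat_lit 140) (nat_lit 5) (nat_lit 139) (nat_lit 5) (nat_lit 150) (nat_lit 5) (nat_lit 462) (nat_lit 459) (nat_lit 279)) (XT.lf (nat_lit 0) (nat_lit 243126312089) (nat_lit 760) (nat_lit 50185435548) (nat_lit 836) (nat_lit 152690849637) (nat_lit 140) (nat_lit 5) (nat_lit 150) (nat_lit 5) (nat_lit 151) (nat_lit 5) (nat_lit 463) (nat_lit 459) (nat_lit 278)))) (XT.nd (nat_lit 156) (nat_lit 1140) (nat_lit 0) (XT.nd (nat_lit 78)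 (nat_lit 0) (nat_lit 0) (XT.lf (nat_lit 0) (nat_lit 294052013274) (nat_lit 760) (nat_lit 133239172258) (nat_lit 836) (nat_lit 37290246089) (nat_lit 141) (nat_lit 5) (nat_lit 151) (nat_lit 5) (nat_lit 152) (nat_lit 5) (nat_lit 464) (nat_lit 459) (nat_lit 277)) (XT.lf (nat_lit 76) (nat_lit 264073260566) (nat_lit 0) (nat_lit 94935682409) (nat_lit 836) (nat_lit 125139771131) (nat_lit 142) (nat_lit 5) (nat_lit 141) (nat_lit 5) (nat_lit 152) (nat_lit 5) (nat_lit 465) (nat_lit 459) (nat_lit 276))) (XT.nd (nat_lit 78) (nat_lit 456) (nat_lit 0) (XT.lf (nat_lit 0) (nat_lit 194839359508) (nat_lit 760) (nat_lit 243845904671) (nat_lit 836) (nat_lit 66119973167) (nat_lit 132) (nat_lit 5) (nat_lit 142) (nat_lit 5) (nat_lit 143) (nat_lit 5) (nat_lit 466) (nat_lit 459) (nat_lit 275)) (XT.lf (nat_lit 0) (nat_lit 7057809198) (nat_lit 456) (nat_lit 402334503804) (nat_lit 76) (nat_lit 117255812735) (nat_lit 126)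 (nat_lit 5) (nat_lit 132) (nat_lit 5) (nat_lit 127) (nat_lit 5) (nat_lit 467) (nat_lit 459) (nat_lit 274)))))) (XT.nd (nat_lit 546) (nat_lit 1444) (nat_lit 0) (XT.nd (nat_lit 234) (nat_lit 1292) (nat_lit 0) (XT.nd (nat_lit 78) (nat_lit 380) (nat_lit 0) (XT.lf (nat_lit 0) (nat_lit 50744789194) (nat_lit 380) (nat_lit 43451305218) (nat_lit 456) (nat_lit 455467013998) (nat_lit 121) (nat_lit 5) (nat_lit 126) (nat_lit 5) (nat_lit 127) (nat_lit 5) (nat_lit 468) (nat_lit 459) (nat_lit 273)) (XT.nd (nat_lit 78) (nat_lit 380) (nat_lit 0) (XT.lf (nat_lit 0) (nat_lit 200920737920) (nat_lit 456) (nat_lit 25338181126) (nat_lit 76) (nat_lit 347629605882) (nat_lit 121) (nat_lit 5) (nat_lit 127) (nat_lit 5) (nat_lit 122) (nat_lit 5) (nat_lit 469) (nat_lit 459) (nat_lit 272)) (XT.lf (nat_lit 0) (nat_lit 327503728987) (nat_lit 456) (nat_lit 100937646885) (nat_lit 76) (nat_lit 171044580102) (nat_lit 116) (nat_lit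 5) (nat_lit 122) (nat_lit 5) (nat_lit 117) (nat_lit 5) (nat_lit 470) (nat_lit 459) (nat_lit 271)))) (XT.nd (nat_lit 156) (nat_lit 684) (nat_lit 0) (XT.nd (nat_lit 78) (nat_lit 304) (nat_lit 0) (XT.lf (nat_lit 0) (nat_lit 448679557169) (nat_lit 304) (nat_lit 26802660663) (nat_lit 380) (nat_lit 151085520753) (nat_lit 112) (nat_lit 5) (nat_lit 116) (nat_lit 5) (nat_lit 117) (nat_lit 5) (nat_lit 471) (nat_lit 459) (nat_lit 270)) (XT.lf (nat_lit 0) (nat_lit 396448503851) (nat_lit 304) (nat_lit 253181110716) (nat_lit 380) (nat_lit 5469917805) (nat_lit 108) (nat_lit 5) (nat_lit 112) (nat_lit 5) (nat_lit 113) (nat_lit 5) (nat_lit 472) (nat_lit 459) (nat_lit 269))) (XT.nd (nat_lit 78) (nat_lit 304) (nat_lit 0) (XT.lf (nat_lit 0) (nat_lit 158892211271) (nat_lit 380) (nat_lit 342794126630) (nat_lit 76) (nat_lit 183511251364) (nat_lit 103) (nat_lit 5) (nat_lit 108) (nat_lit 5) (nat_lit 104) (nat_lit 5)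 (nat_lit 473) (nat_lit 459) (nat_lit 268)) (XT.lf (nat_lit 0) (nat_lit 288085757895) (nat_lit 304) (nat_lit 61474761990) (nat_lit 380) (nat_lit 367471044867) (nat_lit 99) (nat_lit 5) (nat_lit 103) (nat_lit 5) (nat_lit 104) (nat_lit 5) (nat_lit 474) (nat_lit 459) (nat_lit 267))))) (XT.nd (nat_lit 234) (nat_lit 684) (nat_lit 0) (XT.nd (nat_lit 78) (nat_lit 532) (nat_lit 0) (XT.lf (nat_lit 0) (nat_lit 231409033131) (nat_lit 228) (nat_lit 340218294206) (nat_lit 304) (nat_lit 178977679240) (nat_lit 96) (nat_lit 5) (nat_lit 99) (nat_lit 5) (nat_lit 100) (nat_lit 5) (nat_lit 475) (nat_lit 459) (nat_lit 266)) (XT.nd (nat_lit 78) (nat_lit 228) (nat_lit 0) (XT.lf (nat_lit 0) (nat_lit 37433596666) (nat_lit 304) (nat_lit 610938471677) (nat_lit 76) (nat_lit 137791773461) (nat_lit 92) (nat_lit 5) (nat_lit 96) (nat_lit 5) (nat_lit 93) (nat_lit 5) (nat_lit 476) (nat_lit 459) (nat_lit 265)) (XT.lf (nat_lit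 0) (nat_lit 114383658936) (nat_lit 228) (nat_lit 167302286710) (nat_lit 304) (nat_lit 541894801341) (nat_lit 89) (nat_lit 5) (nat_lit 92) (nat_lit 5) (nat_lit 93) (nat_lit 5) (nat_lit 477) (nat_lit 459) (nat_lit 264)))) (XT.nd (nat_lit 156) (nat_lit 456) (nat_lit 0) (XT.nd (nat_lit 78) (nat_lit 0) (nat_lit 0) (XT.lf (nat_lit 0) (nat_lit 52081867431) (nat_lit 228) (nat_lit 510526006777) (nat_lit 304) (nat_lit 300526660796) (nat_lit 86) (nat_lit 5) (nat_lit 89) (nat_lit 5) (nat_lit 90) (nat_lit 5) (nat_lit 478) (nat_lit 459) (nat_lit 263)) (XT.lf (nat_lit 0) (nat_lit 881375451991) (nat_lit 304) (nat_lit 8664799872) (nat_lit 76) (nat_lit 15043779457) (nat_lit 86) (nat_lit 5) (nat_lit 90) (nat_lit 5) (nat_lit 87) (nat_lit 5) (nat_lit 479) (nat_lit 459) (nat_lit 262))) (XT.nd (nat_lit 78) (nat_lit 228) (nat_lit 0) (XT.lf (nat_lit 0) (nat_lit 289117614374) (nat_lit 228) (nat_lit 76549788752) (nat_lit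 76) (nat_lit 583373582006) (nat_lit 83) (nat_lit 5) (nat_lit 86) (nat_lit 5) (nat_lit 84) (nat_lit 5) (nat_lit 480) (nat_lit 459) (nat_lit 261)) (XT.lf (nat_lit 0) (nat_lit 643011849743) (nat_lit 304) (nat_lit 144278067339) (nat_lit 76) (nat_lit 208361515944) (nat_lit 80) (nat_lit 5) (nat_lit 84) (nat_lit 5) (nat_lit 81) (nat_lit 5) (nat_lit 481) (nat_lit 459) (nat_lit 260))))))))
noncomputable def xc119 : XT := (XT.nd (nat_lit 61932) (nat_lit 0) (nat_lit 304) (XT.nd (nat_lit 60840) (nat_lit 0) (nat_lit 3952) (XT.nd (nat_lit 546) (nat_lit 836) (nat_lit 0) (XT.nd (nat_lit 234) (nat_lit 760) (nat_lit 0) (XT.nd (nat_lit 78) (nat_lit 380) (nat_lit 0) (XT.lf (nat_lit 0) (nat_lit 719002709) (nat_lit 228) (nat_lit 214236661888) (nat_lit 76) (nat_lit 830009907125) (nat_lit 77) (nat_lit 5) (nat_lit 80) (nat_lit 5) (nat_lit 78) (nat_lit 5) (nat_lit 482) (nat_lit 459) (nat_lit 259)) (XT.nd (nat_lit 78)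 (nat_lit 152) (nat_lit 0) (XT.lf (nat_lit 0) (nat_lit 392010585302) (nat_lit 304) (nat_lit 293057205460) (nat_lit 76) (nat_lit 411767047768) (nat_lit 74) (nat_lit 5) (nat_lit 78) (nat_lit 5) (nat_lit 75) (nat_lit 5) (nat_lit 483) (nat_lit 459) (nat_lit 258)) (XT.lf (nat_lit 0) (nat_lit 779478774497) (nat_lit 152) (nat_lit 54714136612) (nat_lit 228) (nat_lit 317681364746) (nat_lit 72) (nat_lit 5) (nat_lit 74) (nat_lit 5) (nat_lit 75) (nat_lit 5) (nat_lit 484) (nat_lit 459) (nat_lit 257)))) (XT.nd (nat_lit 156) (nat_lit 380) (nat_lit 0) (XT.nd (nat_lit 78) (nat_lit 152) (nat_lit 0) (XT.lf (nat_lit 0) (nat_lit 124350956925) (nat_lit 228) (nat_lit 460575296984) (nat_lit 76) (nat_lit 624955588071) (nat_lit 69) (nat_lit 5) (nat_lit 72) (nat_lit 5) (nat_lit 70) (nat_lit 5) (nat_lit 485) (nat_lit 459) (nat_lit 256)) (XT.lf (nat_lit 0) (nat_lit 611198406861) (nat_lit 228) (nat_lit 554580201094) (nat_lit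 76) (nat_lit 105461883378) (nat_lit 67) (nat_lit 5) (nat_lit 70) (nat_lit 5) (nat_lit 68) (nat_lit 5) (nat_lit 486) (nat_lit 459) (nat_lit 255))) (XT.nd (nat_lit 78) (nat_lit 228) (nat_lit 0) (XT.lf (nat_lit 0) (nat_lit 679157848180) (nat_lit 152) (nat_lit 486456717809) (nat_lit 228) (nat_lit 170462220984) (nat_lit 65) (nat_lit 5) (nat_lit 67) (nat_lit 5) (nat_lit 68) (nat_lit 5) (nat_lit 487) (nat_lit 459) (nat_lit 254)) (XT.lf (nat_lit 0) (nat_lit 370912226784) (nat_lit 228) (nat_lit 768574972891) (nat_lit 76) (nat_lit 265128319615) (nat_lit 62) (nat_lit 5) (nat_lit 65) (nat_lit 5) (nat_lit 63) (nat_lit 5) (nat_lit 488) (nat_lit 459) (nat_lit 253))))) (XT.nd (nat_lit 234) (nat_lit 380) (nat_lit 0) (XT.nd (nat_lit 78) (nat_lit 304) (nat_lit 0) (XT.lf (nat_lit 0) (nat_lit 585298699412) (nat_lit 152) (nat_lit 393376988751) (nat_lit 228) (nat_lit 498369377715) (nat_lit 60) (nat_lit 5) (nat_lit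 62) (nat_lit 5) (nat_lit 63) (nat_lit 5) (nat_lit 489) (nat_lit 459) (nat_lit 252)) (XT.nd (nat_lit 78) (nat_lit 152) (nat_lit 0) (XT.lf (nat_lit 0) (nat_lit 106033484766) (nat_lit 152) (nat_lit 1024908684070) (nat_lit 76) (nat_lit 422824716465) (nat_lit 58) (nat_lit 5) (nat_lit 60) (nat_lit 5) (nat_lit 59) (nat_lit 5) (nat_lit 490) (nat_lit 459) (nat_lit 251)) (XT.lf (nat_lit 0) (nat_lit 458488693805) (nat_lit 152) (nat_lit 312652504853) (nat_lit 228) (nat_lit 863586099244) (nat_lit 56) (nat_lit 5) (nat_lit 58) (nat_lit 5) (nat_lit 59) (nat_lit 5) (nat_lit 491) (nat_lit 459) (nat_lit 250)))) (XT.nd (nat_lit 156) (nat_lit 76) (nat_lit 0) (XT.nd (nat_lit 78) (nat_lit 228) (nat_lit 0) (XT.lf (nat_lit 0) (nat_lit 378799923675) (nat_lit 76) (nat_lit 1143634120962) (nat_lit 152) (nat_lit 198081673128) (nat_lit 55) (nat_lit 5) (nat_lit 56) (nat_lit 5) (nat_lit 57) (nat_lit 4) (nat_lit 492) (nat_lit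 459) (nat_lit 249)) (XT.lf (nat_lit 0) (nat_lit 283436819441) (nat_lit 152) (nat_lit 251084146209) (nat_lit 228) (nat_lit 1276713678572) (nat_lit 52) (nat_lit 5) (nat_lit 54) (nat_lit 5) (nat_lit 55) (nat_lit 5) (nat_lit 493) (nat_lit 459) (nat_lit 248))) (XT.nd (nat_lit 59826) (nat_lit 0) (nat_lit 6536) (XT.lf (nat_lit 0) (nat_lit 169028262670) (nat_lit 76) (nat_lit 1187380369655) (nat_lit 152) (nat_lit 550759258759) (nat_lit 51) (nat_lit 5) (nat_lit 52) (nat_lit 5) (nat_lit 53) (nat_lit 4) (nat_lit 494) (nat_lit 459) (nat_lit 247)) (XT.lf (nat_lit 0) (nat_lit 79933068962) (nat_lit 836) (nat_lit 62846394980) (nat_lit 836) (nat_lit 62846394980) (nat_lit 137) (nat_lit 3) (nat_lit 148) (nat_lit 3) (nat_lit 148) (nat_lit 5) (nat_lit 460) (nat_lit 460) (nat_lit 280)))))) (XT.nd (nat_lit 546) (nat_lit 2204) (nat_lit 0) (XT.nd (nat_lit 234) (nat_lit 456) (nat_lit 0) (XT.nd (nat_lit 78) (nat_lit 0)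 (nat_lit 0) (XT.lf (nat_lit 0) (nat_lit 170044809390) (nat_lit 760) (nat_lit 222207353811) (nat_lit 836) (nat_lit 35260421921) (nat_lit 138) (nat_lit 5) (nat_lit 148) (nat_lit 5) (nat_lit 149) (nat_lit 5) (nat_lit 461) (nat_lit 460) (nat_lit 279)) (XT.nd (nat_lit 78) (nat_lit 0) (nat_lit 76) (XT.lf (nat_lit 76) (nat_lit 121339338251) (nat_lit 0) (nat_lit 68633249422) (nat_lit 836) (nat_lit 254654993470) (nat_lit 139) (nat_lit 5) (nat_lit 138) (nat_lit 5) (nat_lit 149) (nat_lit 5) (nat_lit 462) (nat_lit 460) (nat_lit 278)) (XT.lf (nat_lit 76) (nat_lit 34026807216) (nat_lit 0) (nat_lit 186318390984) (nat_lit 836) (nat_lit 242324048156) (nat_lit 140) (nat_lit 5) (nat_lit 139) (nat_lit 5) (nat_lit 150) (nat_lit 5) (nat_lit 463) (nat_lit 460) (nat_lit 277)))) (XT.nd (nat_lit 156) (nat_lit 608) (nat_lit 0) (XT.nd (nat_lit 78) (nat_lit 0) (nat_lit 76) (XT.lf (nat_lit 0) (nat_lit 262577425529) (nat_lit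 760) (nat_lit 54199516624) (nat_lit 836) (nat_lit 164905812248) (nat_lit 140) (nat_lit 5) (nat_lit 150) (nat_lit 5) (nat_lit 151) (nat_lit 5) (nat_lit 464) (nat_lit 460) (nat_lit 276)) (XT.lf (nat_lit 0) (nat_lit 317577115867) (nat_lit 760) (nat_lit 143897534065) (nat_lit 836) (nat_lit 40273248928) (nat_lit 141) (nat_lit 5) (nat_lit 151) (nat_lit 5) (nat_lit 152) (nat_lit 5) (nat_lit 465) (nat_lit 460) (nat_lit 275))) (XT.nd (nat_lit 78) (nat_lit 684) (nat_lit 0) (XT.lf (nat_lit 76) (nat_lit 285199859836) (nat_lit 0) (nat_lit 102530681894) (nat_lit 836) (nat_lit 135150025141) (nat_lit 142) (nat_lit 5) (nat_lit 141) (nat_lit 5) (nat_lit 152) (nat_lit 5) (nat_lit 466) (nat_lit 460) (nat_lit 274)) (XT.lf (nat_lit 0) (nat_lit 210427259203) (nat_lit 760) (nat_lit 263353653626) (nat_lit 836) (nat_lit 71408701945) (nat_lit 132) (nat_lit 5) (nat_lit 142) (nat_lit 5) (nat_lit 143) (nat_lit 5) (nat_lit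 467) (nat_lit 460) (nat_lit 273))))) (XT.nd (nat_lit 234) (nat_lit 1368) (nat_lit 0) (XT.nd (nat_lit 78) (nat_lit 380) (nat_lit 0) (XT.lf (nat_lit 0) (nat_lit 7623223800) (nat_lit 456) (nat_lit 434520478633) (nat_lit 76) (nat_lit 126636233707) (nat_lit 126) (nat_lit 5) (nat_lit 132) (nat_lit 5) (nat_lit 127) (nat_lit 5) (nat_lit 468) (nat_lit 460) (nat_lit 272)) (XT.nd (nat_lit 78) (nat_lit 0) (nat_lit 0) (XT.lf (nat_lit 0) (nat_lit 54805123669) (nat_lit 380) (nat_lit 46927401383) (nat_lit 456) (nat_lit 491903594725) (nat_lit 121) (nat_lit 5) (nat_lit 126) (nat_lit 5) (nat_lit 127) (nat_lit 5) (nat_lit 469) (nat_lit 460) (nat_lit 271)) (XT.lf (nat_lit 0) (nat_lit 216995085117) (nat_lit 456) (nat_lit 27364505509) (nat_lit 76) (nat_lit 375439981749) (nat_lit 121) (nat_lit 5) (nat_lit 127) (nat_lit 5) (nat_lit 122) (nat_lit 5) (nat_lit 470) (nat_lit 460) (nat_lit 270)))) (XT.nd (nat_lit 156) (nat_lit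 684) (nat_lit 0) (XT.nd (nat_lit 78) (nat_lit 304) (nat_lit 0) (XT.lf (nat_lit 0) (nat_lit 353704676183) (nat_lit 456) (nat_lit 109011928509) (nat_lit 76) (nat_lit 184728195186) (nat_lit 116) (nat_lit 5) (nat_lit 122) (nat_lit 5) (nat_lit 117) (nat_lit 5) (nat_lit 471) (nat_lit 460) (nat_lit 269)) (XT.lf (nat_lit 0) (nat_lit 484574620138) (nat_lit 304) (nat_lit 28946786837) (nat_lit 380) (nat_lit 163171719991) (nat_lit 112) (nat_lit 5) (nat_lit 116) (nat_lit 5) (nat_lit 117) (nat_lit 5) (nat_lit 472) (nat_lit 460) (nat_lit 268))) (XT.nd (nat_lit 78) (nat_lit 380) (nat_lit 0) (XT.lf (nat_lit 0) (nat_lit 428165080280) (nat_lit 304) (nat_lit 273435481978) (nat_lit 380) (nat_lit 5906903668) (nat_lit 108) (nat_lit 5) (nat_lit 112) (nat_lit 5) (nat_lit 113) (nat_lit 5) (nat_lit 473) (nat_lit 460) (nat_lit 267)) (XT.lf (nat_lit 0) (nat_lit 171604145432) (nat_lit 380) (nat_lit 370216946351) (nat_lit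 76) (nat_lit 198192276663) (nat_lit 103) (nat_lit 5) (nat_lit 108) (nat_lit 5) (nat_lit 104) (nat_lit 5) (nat_lit 474) (nat_lit 460) (nat_lit 266))))))) (XT.nd (nat_lit 1092) (nat_lit 760) (nat_lit 0) (XT.nd (nat_lit 546) (nat_lit 1368) (nat_lit 0) (XT.nd (nat_lit 234) (nat_lit 684) (nat_lit 0) (XT.nd (nat_lit 78) (nat_lit 532) (nat_lit 0) (XT.lf (nat_lit 0) (nat_lit 311133298062) (nat_lit 304) (nat_lit 66392590004) (nat_lit 380) (nat_lit 396868175447) (nat_lit 99) (nat_lit 5) (nat_lit 103) (nat_lit 5) (nat_lit 104) (nat_lit 5) (nat_lit 475) (nat_lit 460) (nat_lit 265)) (XT.nd (nat_lit 78) (nat_lit 304) (nat_lit 0) (XT.lf (nat_lit 0) (nat_lit 249922428773) (nat_lit 228) (nat_lit 367435585052) (nat_lit 304) (nat_lit 193295368178) (nat_lit 96) (nat_lit 5) (nat_lit 99) (nat_lit 5) (nat_lit 100) (nat_lit 5) (nat_lit 476) (nat_lit 460) (nat_lit 264)) (XT.lf (nat_lit 0) (nat_lit 40428768404) (nat_lit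 304) (nat_lit 659812868161) (nat_lit 76) (nat_lit 148815288310) (nat_lit 92) (nat_lit 5) (nat_lit 96) (nat_lit 5) (nat_lit 93) (nat_lit 5) (nat_lit 477) (nat_lit 460) (nat_lit 263)))) (XT.nd (nat_lit 156) (nat_lit 228) (nat_lit 0) (XT.nd (nat_lit 78) (nat_lit 228) (nat_lit 0) (XT.lf (nat_lit 0) (nat_lit 123535003295) (nat_lit 228) (nat_lit 180686276329) (nat_lit 304) (nat_lit 585245904137) (nat_lit 89) (nat_lit 5) (nat_lit 92) (nat_lit 5) (nat_lit 93) (nat_lit 5) (nat_lit 478) (nat_lit 460) (nat_lit 262)) (XT.lf (nat_lit 0) (nat_lit 56249059248) (nat_lit 228) (nat_lit 551367882097) (nat_lit 304) (nat_lit 324568334536) (nat_lit 86) (nat_lit 5) (nat_lit 89) (nat_lit 5) (nat_lit 90) (nat_lit 5) (nat_lit 479) (nat_lit 460) (nat_lit 261))) (XT.nd (nat_lit 78) (nat_lit 228) (nat_lit 0) (XT.lf (nat_lit 0) (nat_lit 951885895932) (nat_lit 304) (nat_lit 9357371693) (nat_lit 76) (nat_lit 16247465752)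 (nat_lit 86) (nat_lit 5) (nat_lit 90) (nat_lit 5) (nat_lit 87) (nat_lit 5) (nat_lit 480) (nat_lit 460) (nat_lit 260)) (XT.lf (nat_lit 0) (nat_lit 312247416635) (nat_lit 228) (nat_lit 82673173238) (nat_lit 76) (nat_lit 630043654362) (nat_lit 83) (nat_lit 5) (nat_lit 86) (nat_lit 5) (nat_lit 84) (nat_lit 5) (nat_lit 481) (nat_lit 460) (nat_lit 259))))) (XT.nd (nat_lit 234) (nat_lit 684) (nat_lit 0) (XT.nd (nat_lit 78) (nat_lit 456) (nat_lit 0) (XT.lf (nat_lit 0) (nat_lit 694453173771) (nat_lit 304) (nat_lit 155819724550) (nat_lit 76) (nat_lit 225030630496) (nat_lit 80) (nat_lit 5) (nat_lit 84) (nat_lit 5) (nat_lit 81) (nat_lit 5) (nat_lit 482) (nat_lit 460) (nat_lit 258)) (XT.nd (nat_lit 78) (nat_lit 228) (nat_lit 0) (XT.lf (nat_lit 0) (nat_lit 776885798) (nat_lit 228) (nat_lit 231375020184) (nat_lit 76) (nat_lit 896410893292) (nat_lit 77) (nat_lit 5) (nat_lit 80) (nat_lit 5) (nat_lit 78) (nat_lit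 5) (nat_lit 483) (nat_lit 460) (nat_lit 257)) (XT.lf (nat_lit 0) (nat_lit 423371779903) (nat_lit 304) (nat_lit 316501218150) (nat_lit 76) (nat_lit 444708610132) (nat_lit 74) (nat_lit 5) (nat_lit 78) (nat_lit 5) (nat_lit 75) (nat_lit 5) (nat_lit 484) (nat_lit 460) (nat_lit 256)))) (XT.nd (nat_lit 156) (nat_lit 304) (nat_lit 0) (XT.nd (nat_lit 78) (nat_lit 228) (nat_lit 0) (XT.lf (nat_lit 0) (nat_lit 841837615704) (nat_lit 152) (nat_lit 59091058729) (nat_lit 228) (nat_lit 343095526933) (nat_lit 72) (nat_lit 5) (nat_lit 74) (nat_lit 5) (nat_lit 75) (nat_lit 5) (nat_lit 485) (nat_lit 460) (nat_lit 255)) (XT.lf (nat_lit 0) (nat_lit 134299355941) (nat_lit 228) (nat_lit 497420781517) (nat_lit 76) (nat_lit 674952235725) (nat_lit 69) (nat_lit 5) (nat_lit 72) (nat_lit 5) (nat_lit 70) (nat_lit 5) (nat_lit 486) (nat_lit 460) (nat_lit 254))) (XT.nd (nat_lit 78) (nat_lit 152) (nat_lit 0) (XT.lf (nat_lit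 0) (nat_lit 660094589304) (nat_lit 228) (nat_lit 598946089294) (nat_lit 76) (nat_lit 113899036516) (nat_lit 67) (nat_lit 5) (nat_lit 70) (nat_lit 5) (nat_lit 68) (nat_lit 5) (nat_lit 487) (nat_lit 460) (nat_lit 253)) (XT.lf (nat_lit 0) (nat_lit 733490980980) (nat_lit 152) (nat_lit 525373045111) (nat_lit 228) (nat_lit 184098889072) (nat_lit 65) (nat_lit 5) (nat_lit 67) (nat_lit 5) (nat_lit 68) (nat_lit 5) (nat_lit 488) (nat_lit 460) (nat_lit 252)))))) (XT.nd (nat_lit 60450) (nat_lit 0) (nat_lit 5016) (XT.nd (nat_lit 234) (nat_lit 228) (nat_lit 0) (XT.nd (nat_lit 78) (nat_lit 304) (nat_lit 0) (XT.lf (nat_lit 0) (nat_lit 400585493337) (nat_lit 228) (nat_lit 830060467172) (nat_lit 76) (nat_lit 286338785880) (nat_lit 62) (nat_lit 5) (nat_lit 65) (nat_lit 5) (nat_lit 63) (nat_lit 5) (nat_lit 489) (nat_lit 460) (nat_lit 251)) (XT.nd (nat_lit 78) (nat_lit 152) (nat_lit 0) (XT.lf (nat_lit 0) (nat_lit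 632123077031) (nat_lit 152) (nat_lit 424846940751) (nat_lit 228) (nat_lit 538238639615) (nat_lit 60) (nat_lit 5) (nat_lit 62) (nat_lit 5) (nat_lit 63) (nat_lit 5) (nat_lit 490) (nat_lit 460) (nat_lit 250)) (XT.lf (nat_lit 0) (nat_lit 114516432477) (nat_lit 152) (nat_lit 1106900899090) (nat_lit 76) (nat_lit 456650891092) (nat_lit 58) (nat_lit 5) (nat_lit 60) (nat_lit 5) (nat_lit 59) (nat_lit 5) (nat_lit 491) (nat_lit 460) (nat_lit 249)))) (XT.nd (nat_lit 60060) (nat_lit 0) (nat_lit 6232) (XT.nd (nat_lit 78) (nat_lit 76) (nat_lit 0) (XT.lf (nat_lit 0) (nat_lit 495168248168) (nat_lit 152) (nat_lit 337664502556) (nat_lit 228) (nat_lit 932672718184) (nat_lit 56) (nat_lit 5) (nat_lit 58) (nat_lit 5) (nat_lit 59) (nat_lit 5) (nat_lit 492) (nat_lit 460) (nat_lit 248)) (XT.lf (nat_lit 0) (nat_lit 409104365728) (nat_lit 76) (nat_lit 1235124649604) (nat_lit 152) (nat_lit 213927947480) (nat_lit 55) (nat_lit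 5) (nat_lit 56) (nat_lit 5) (nat_lit 57) (nat_lit 4) (nat_lit 493) (nat_lit 460) (nat_lit 247))) (XT.nd (nat_lit 78) (nat_lit 0) (nat_lit 76) (XT.lf (nat_lit 0) (nat_lit 86328296357) (nat_lit 836) (nat_lit 67873801025) (nat_lit 836) (nat_lit 67873801025) (nat_lit 137) (nat_lit 3) (nat_lit 148) (nat_lit 3) (nat_lit 148) (nat_lit 5) (nat_lit 461) (nat_lit 461) (nat_lit 278)) (XT.lf (nat_lit 0) (nat_lit 183649472980) (nat_lit 760) (nat_lit 239983295144) (nat_lit 836) (nat_lit 38080769617) (nat_lit 138) (nat_lit 5) (nat_lit 148) (nat_lit 5) (nat_lit 149) (nat_lit 5) (nat_lit 462) (nat_lit 461) (nat_lit 277))))) (XT.nd (nat_lit 312) (nat_lit 1292) (nat_lit 0) (XT.nd (nat_lit 156) (nat_lit 0) (nat_lit 152) (XT.nd (nat_lit 78) (nat_lit 0) (nat_lit 76) (XT.lf (nat_lit 76) (nat_lit 131047104167) (nat_lit 0) (nat_lit 74124299105) (nat_lit 836) (nat_lit 275026333700) (nat_lit 139) (nat_lit 5) (nat_lit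 138) (nat_lit 5) (nat_lit 149) (nat_lit 5) (nat_lit 463) (nat_lit 461) (nat_lit 276)) (XT.lf (nat_lit 76) (nat_lit 36749598035) (nat_lit 0) (nat_lit 201224154353) (nat_lit 836) (nat_lit 261708986546) (nat_lit 140) (nat_lit 5) (nat_lit 139) (nat_lit 5) (nat_lit 150) (nat_lit 5) (nat_lit 464) (nat_lit 461) (nat_lit 275))) (XT.nd (nat_lit 78) (nat_lit 0) (nat_lit 76) (XT.lf (nat_lit 0) (nat_lit 283584484174) (nat_lit 760) (nat_lit 58534831720) (nat_lit 836) (nat_lit 178098015430) (nat_lit 140) (nat_lit 5) (nat_lit 150) (nat_lit 5) (nat_lit 151) (nat_lit 5) (nat_lit 465) (nat_lit 461) (nat_lit 274)) (XT.lf (nat_lit 0) (nat_lit 342984092347) (nat_lit 760) (nat_lit 155408674947) (nat_lit 836) (nat_lit 43494922930) (nat_lit 141) (nat_lit 5) (nat_lit 151) (nat_lit 5) (nat_lit 152) (nat_lit 5) (nat_lit 466) (nat_lit 461) (nat_lit 273)))) (XT.nd (nat_lit 156) (nat_lit 836) (nat_lit 0) (XT.nd (nat_lit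 78) (nat_lit 684) (nat_lit 0) (XT.lf (nat_lit 76) (nat_lit 308016481703) (nat_lit 0) (nat_lit 110733260667) (nat_lit 836) (nat_lit 145961231815) (nat_lit 142) (nat_lit 5) (nat_lit 141) (nat_lit 5) (nat_lit 152) (nat_lit 5) (nat_lit 467) (nat_lit 461) (nat_lit 272)) (XT.lf (nat_lit 0) (nat_lit 227262083744) (nat_lit 760) (nat_lit 284422011572) (nat_lit 836) (nat_lit 77120653009) (nat_lit 132) (nat_lit 5) (nat_lit 142) (nat_lit 5) (nat_lit 143) (nat_lit 5) (nat_lit 468) (nat_lit 461) (nat_lit 271))) (XT.nd (nat_lit 78) (nat_lit 380) (nat_lit 0) (XT.lf (nat_lit 0) (nat_lit 8233758887) (nat_lit 456) (nat_lit 469281443505) (nat_lit 76) (nat_lit 136767094642) (nat_lit 126) (nat_lit 5) (nat_lit 132) (nat_lit 5) (nat_lit 127) (nat_lit 5) (nat_lit 469) (nat_lit 461) (nat_lit 270)) (XT.lf (nat_lit 0) (nat_lit 59190177716) (nat_lit 380) (nat_lit 50681586419) (nat_lit 456) (nat_lit 531255213242) (nat_lit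 121) (nat_lit 5) (nat_lit 126) (nat_lit 5) (nat_lit 127) (nat_lit 5) (nat_lit 470) (nat_lit 461) (nat_lit 269))))))))
noncomputable def xc120 : XT := (XT.nd (nat_lit 62166) (nat_lit 0) (nat_lit 152) (XT.nd (nat_lit 1092) (nat_lit 1596) (nat_lit 0) (XT.nd (nat_lit 546) (nat_lit 1444) (nat_lit 0) (XT.nd (nat_lit 234) (nat_lit 1216) (nat_lit 0) (XT.nd (nat_lit 78) (nat_lit 684) (nat_lit 0) (XT.lf (nat_lit 0) (nat_lit 234355281916) (nat_lit 456) (nat_lit 29553040001) (nat_lit 76) (nat_lit 405475186630) (nat_lit 121) (nat_lit 5) (nat_lit 127) (nat_lit 5) (nat_lit 122) (nat_lit 5) (nat_lit 471) (nat_lit 461) (nat_lit 268)) (XT.nd (nat_lit 78) (nat_lit 304) (nat_lit 0) (XT.lf (nat_lit 0) (nat_lit 382001606586) (nat_lit 456) (nat_lit 117732256825) (nat_lit 76) (nat_lit 199506492533) (nat_lit 116) (nat_lit 5) (nat_lit 122) (nat_lit 5) (nat_lit 117) (nat_lit 5) (nat_lit 472) (nat_lit 461) (nat_lit 267))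 (XT.lf (nat_lit 0) (nat_lit 523341188511) (nat_lit 304) (nat_lit 31262455470) (nat_lit 380) (nat_lit 176224906818) (nat_lit 112) (nat_lit 5) (nat_lit 116) (nat_lit 5) (nat_lit 117) (nat_lit 5) (nat_lit 473) (nat_lit 461) (nat_lit 266)))) (XT.nd (nat_lit 156) (nat_lit 532) (nat_lit 0) (XT.nd (nat_lit 78) (nat_lit 380) (nat_lit 0) (XT.lf (nat_lit 0) (nat_lit 462418883513) (nat_lit 304) (nat_lit 295310219717) (nat_lit 380) (nat_lit 6378935074) (nat_lit 108) (nat_lit 5) (nat_lit 112) (nat_lit 5) (nat_lit 113) (nat_lit 5) (nat_lit 474) (nat_lit 461) (nat_lit 265)) (XT.lf (nat_lit 0) (nat_lit 185332954827) (nat_lit 380) (nat_lit 399833692997) (nat_lit 76) (nat_lit 214047766126) (nat_lit 103) (nat_lit 5) (nat_lit 108) (nat_lit 5) (nat_lit 104) (nat_lit 5) (nat_lit 475) (nat_lit 461) (nat_lit 264))) (XT.nd (nat_lit 78) (nat_lit 228) (nat_lit 0) (XT.lf (nat_lit 0) (nat_lit 336024544500) (nat_lit 304)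 (nat_lit 71703866078) (nat_lit 380) (nat_lit 428617155365) (nat_lit 99) (nat_lit 5) (nat_lit 103) (nat_lit 5) (nat_lit 104) (nat_lit 5) (nat_lit 476) (nat_lit 461) (nat_lit 263)) (XT.lf (nat_lit 0) (nat_lit 269916800057) (nat_lit 228) (nat_lit 396830283803) (nat_lit 304) (nat_lit 208758547186) (nat_lit 96) (nat_lit 5) (nat_lit 99) (nat_lit 5) (nat_lit 100) (nat_lit 5) (nat_lit 477) (nat_lit 461) (nat_lit 262))))) (XT.nd (nat_lit 234) (nat_lit 684) (nat_lit 0) (XT.nd (nat_lit 78) (nat_lit 456) (nat_lit 0) (XT.lf (nat_lit 0) (nat_lit 43663484832) (nat_lit 304) (nat_lit 712597313552) (nat_lit 76) (nat_lit 160720659670) (nat_lit 92) (nat_lit 5) (nat_lit 96) (nat_lit 5) (nat_lit 93) (nat_lit 5) (nat_lit 478) (nat_lit 461) (nat_lit 261)) (XT.nd (nat_lit 78) (nat_lit 228) (nat_lit 0) (XT.lf (nat_lit 0) (nat_lit 133418362238) (nat_lit 228) (nat_lit 195141012696) (nat_lit 304) (nat_lit 632065163821)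 (nat_lit 89) (nat_lit 5) (nat_lit 92) (nat_lit 5) (nat_lit 93) (nat_lit 5) (nat_lit 479) (nat_lit 461) (nat_lit 260)) (XT.lf (nat_lit 0) (nat_lit 60749534762) (nat_lit 228) (nat_lit 595477136720) (nat_lit 304) (nat_lit 350533407674) (nat_lit 86) (nat_lit 5) (nat_lit 89) (nat_lit 5) (nat_lit 90) (nat_lit 5) (nat_lit 480) (nat_lit 461) (nat_lit 259)))) (XT.nd (nat_lit 156) (nat_lit 456) (nat_lit 0) (XT.nd (nat_lit 78) (nat_lit 228) (nat_lit 0) (XT.lf (nat_lit 0) (nat_lit 1028037117215) (nat_lit 304) (nat_lit 10105436593) (nat_lit 76) (nat_lit 17547420710) (nat_lit 86) (nat_lit 5) (nat_lit 90) (nat_lit 5) (nat_lit 87) (nat_lit 5) (nat_lit 481) (nat_lit 461) (nat_lit 258)) (XT.lf (nat_lit 0) (nat_lit 337227546995) (nat_lit 228) (nat_lit 89286513882) (nat_lit 76) (nat_lit 680447306002) (nat_lit 83) (nat_lit 5) (nat_lit 86) (nat_lit 5) (nat_lit 84) (nat_lit 5) (nat_lit 482) (nat_lit 461) (nat_lit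 257))) (XT.nd (nat_lit 78) (nat_lit 228) (nat_lit 0) (XT.lf (nat_lit 0) (nat_lit 750009750074) (nat_lit 304) (nat_lit 168284798248) (nat_lit 76) (nat_lit 243033246640) (nat_lit 80) (nat_lit 5) (nat_lit 84) (nat_lit 5) (nat_lit 81) (nat_lit 5) (nat_lit 483) (nat_lit 461) (nat_lit 256)) (XT.lf (nat_lit 0) (nat_lit 839347766) (nat_lit 228) (nat_lit 249884529125) (nat_lit 76) (nat_lit 968123930734) (nat_lit 77) (nat_lit 5) (nat_lit 80) (nat_lit 5) (nat_lit 78) (nat_lit 5) (nat_lit 484) (nat_lit 461) (nat_lit 255)))))) (XT.nd (nat_lit 546) (nat_lit 304) (nat_lit 0) (XT.nd (nat_lit 234) (nat_lit 684) (nat_lit 0) (XT.nd (nat_lit 78) (nat_lit 380) (nat_lit 0) (XT.lf (nat_lit 0) (nat_lit 457241820458) (nat_lit 304) (nat_lit 341820832281) (nat_lit 76) (nat_lit 480285469160) (nat_lit 74) (nat_lit 5) (nat_lit 78) (nat_lit 5) (nat_lit 75) (nat_lit 5) (nat_lit 485) (nat_lit 461) (nat_lit 254)) (XT.nd (nat_lit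 78) (nat_lit 228) (nat_lit 0) (XT.lf (nat_lit 0) (nat_lit 909185087277) (nat_lit 152) (nat_lit 63818164405) (nat_lit 228) (nat_lit 370542871597) (nat_lit 72) (nat_lit 5) (nat_lit 74) (nat_lit 5) (nat_lit 75) (nat_lit 5) (nat_lit 486) (nat_lit 461) (nat_lit 253)) (XT.lf (nat_lit 0) (nat_lit 145043580875) (nat_lit 228) (nat_lit 537213981739) (nat_lit 76) (nat_lit 728948586573) (nat_lit 69) (nat_lit 5) (nat_lit 72) (nat_lit 5) (nat_lit 70) (nat_lit 5) (nat_lit 487) (nat_lit 461) (nat_lit 252)))) (XT.nd (nat_lit 156) (nat_lit 380) (nat_lit 0) (XT.nd (nat_lit 78) (nat_lit 152) (nat_lit 0) (XT.lf (nat_lit 0) (nat_lit 712902422132) (nat_lit 228) (nat_lit 646861323860) (nat_lit 76) (nat_lit 123011133022) (nat_lit 67) (nat_lit 5) (nat_lit 70) (nat_lit 5) (nat_lit 68) (nat_lit 5) (nat_lit 488) (nat_lit 461) (nat_lit 251)) (XT.lf (nat_lit 0) (nat_lit 792170692368) (nat_lit 152) (nat_lit 567402708573)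 (nat_lit 228) (nat_lit 198826534773) (nat_lit 65) (nat_lit 5) (nat_lit 67) (nat_lit 5) (nat_lit 68) (nat_lit 5) (nat_lit 489) (nat_lit 461) (nat_lit 250))) (XT.nd (nat_lit 78) (nat_lit 152) (nat_lit 0) (XT.lf (nat_lit 0) (nat_lit 432632580068) (nat_lit 228) (nat_lit 896464872833) (nat_lit 76) (nat_lit 309246060814) (nat_lit 62) (nat_lit 5) (nat_lit 65) (nat_lit 5) (nat_lit 63) (nat_lit 5) (nat_lit 490) (nat_lit 461) (nat_lit 249)) (XT.lf (nat_lit 0) (nat_lit 682693336145) (nat_lit 152) (nat_lit 458834518456) (nat_lit 228) (nat_lit 581297483599) (nat_lit 60) (nat_lit 5) (nat_lit 62) (nat_lit 5) (nat_lit 63) (nat_lit 5) (nat_lit 491) (nat_lit 461) (nat_lit 248))))) (XT.nd (nat_lit 60216) (nat_lit 0) (nat_lit 6232) (XT.nd (nat_lit 78) (nat_lit 152) (nat_lit 0) (XT.lf (nat_lit 0) (nat_lit 123677977639) (nat_lit 152) (nat_lit 1195452559747) (nat_lit 76) (nat_lit 493183131540) (nat_lit 58) (nat_lit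 5) (nat_lit 60) (nat_lit 5) (nat_lit 59) (nat_lit 5) (nat_lit 492) (nat_lit 461) (nat_lit 247)) (XT.nd (nat_lit 60060) (nat_lit 0) (nat_lit 6156) (XT.lf (nat_lit 0) (nat_lit 534782101418) (nat_lit 152) (nat_lit 364677488991) (nat_lit 228) (nat_lit 1007286305015) (nat_lit 56) (nat_lit 5) (nat_lit 58) (nat_lit 5) (nat_lit 59) (nat_lit 5) (nat_lit 493) (nat_lit 461) (nat_lit 246)) (XT.lf (nat_lit 0) (nat_lit 93235058932) (nat_lit 836) (nat_lit 73303443144) (nat_lit 836) (nat_lit 73303443144) (nat_lit 137) (nat_lit 3) (nat_lit 148) (nat_lit 3) (nat_lit 148) (nat_lit 5) (nat_lit 462) (nat_lit 462) (nat_lit 276)))) (XT.nd (nat_lit 156) (nat_lit 0) (nat_lit 76) (XT.nd (nat_lit 78) (nat_lit 0) (nat_lit 0) (XT.lf (nat_lit 0) (nat_lit 198342355747) (nat_lit 760) (nat_lit 259181404080) (nat_lit 836) (nat_lit 41126814471) (nat_lit 138) (nat_lit 5) (nat_lit 148) (nat_lit 5) (nat_lit 149) (nat_lit 5) (nat_lit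 463) (nat_lit 462) (nat_lit 275)) (XT.lf (nat_lit 76) (nat_lit 141531403070) (nat_lit 0) (nat_lit 80054577164) (nat_lit 836) (nat_lit 297027532262) (nat_lit 139) (nat_lit 5) (nat_lit 138) (nat_lit 5) (nat_lit 149) (nat_lit 5) (nat_lit 464) (nat_lit 462) (nat_lit 274))) (XT.nd (nat_lit 78) (nat_lit 0) (nat_lit 76) (XT.lf (nat_lit 76) (nat_lit 39690119925) (nat_lit 0) (nat_lit 217322337121) (nat_lit 836) (nat_lit 282644860594) (nat_lit 140) (nat_lit 5) (nat_lit 139) (nat_lit 5) (nat_lit 150) (nat_lit 5) (nat_lit 465) (nat_lit 462) (nat_lit 273)) (XT.lf (nat_lit 0) (nat_lit 306271984166) (nat_lit 760) (nat_lit 63217064216) (nat_lit 836) (nat_lit 192345632215) (nat_lit 140) (nat_lit 5) (nat_lit 150) (nat_lit 5) (nat_lit 151) (nat_lit 5) (nat_lit 466) (nat_lit 462) (nat_lit 272))))))) (XT.nd (nat_lit 1092) (nat_lit 2356) (nat_lit 0) (XT.nd (nat_lit 546) (nat_lit 2052) (nat_lit 0) (XT.nd (nat_lit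 234) (nat_lit 1216) (nat_lit 0) (XT.nd (nat_lit 78) (nat_lit 684) (nat_lit 0) (XT.lf (nat_lit 0) (nat_lit 370423511788) (nat_lit 760) (nat_lit 167840801519) (nat_lit 836) (nat_lit 46974357374) (nat_lit 141) (nat_lit 5) (nat_lit 151) (nat_lit 5) (nat_lit 152) (nat_lit 5) (nat_lit 467) (nat_lit 462) (nat_lit 271)) (XT.nd (nat_lit 78) (nat_lit 684) (nat_lit 0) (XT.lf (nat_lit 76) (nat_lit 332658343003) (nat_lit 0) (nat_lit 119592028020) (nat_lit 836) (nat_lit 157637448487) (nat_lit 142) (nat_lit 5) (nat_lit 141) (nat_lit 5) (nat_lit 152) (nat_lit 5) (nat_lit 468) (nat_lit 462) (nat_lit 270)) (XT.lf (nat_lit 0) (nat_lit 245443602402) (nat_lit 760) (nat_lit 307175828787) (nat_lit 836) (nat_lit 83289666453) (nat_lit 132) (nat_lit 5) (nat_lit 142) (nat_lit 5) (nat_lit 143) (nat_lit 5) (nat_lit 469) (nat_lit 462) (nat_lit 269)))) (XT.nd (nat_lit 156) (nat_lit 380) (nat_lit 0) (XT.nd (nat_lit 78) (nat_lit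 380) (nat_lit 0) (XT.lf (nat_lit 0) (nat_lit 8893040173) (nat_lit 456) (nat_lit 506823381637) (nat_lit 76) (nat_lit 147708429838) (nat_lit 126) (nat_lit 5) (nat_lit 132) (nat_lit 5) (nat_lit 127) (nat_lit 5) (nat_lit 470) (nat_lit 462) (nat_lit 268)) (XT.lf (nat_lit 0) (nat_lit 63925944190) (nat_lit 380) (nat_lit 54736107267) (nat_lit 456) (nat_lit 573755056689) (nat_lit 121) (nat_lit 5) (nat_lit 126) (nat_lit 5) (nat_lit 127) (nat_lit 5) (nat_lit 471) (nat_lit 462) (nat_lit 267))) (XT.nd (nat_lit 78) (nat_lit 380) (nat_lit 0) (XT.lf (nat_lit 0) (nat_lit 253104210290) (nat_lit 456) (nat_lit 31916746550) (nat_lit 76) (nat_lit 437913206997) (nat_lit 121) (nat_lit 5) (nat_lit 127) (nat_lit 5) (nat_lit 122) (nat_lit 5) (nat_lit 472) (nat_lit 462) (nat_lit 266)) (XT.lf (nat_lit 0) (nat_lit 412562212057) (nat_lit 456) (nat_lit 127150300706) (nat_lit 76) (nat_lit 215467047714) (nat_lit 116) (nat_lit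 5) (nat_lit 122) (nat_lit 5) (nat_lit 117) (nat_lit 5) (nat_lit 473) (nat_lit 462) (nat_lit 265))))) (XT.nd (nat_lit 234) (nat_lit 1064) (nat_lit 0) (XT.nd (nat_lit 78) (nat_lit 684) (nat_lit 0) (XT.lf (nat_lit 0) (nat_lit 565208996933) (nat_lit 304) (nat_lit 33763388196) (nat_lit 380) (nat_lit 190322427164) (nat_lit 112) (nat_lit 5) (nat_lit 116) (nat_lit 5) (nat_lit 117) (nat_lit 5) (nat_lit 474) (nat_lit 462) (nat_lit 264)) (XT.nd (nat_lit 78) (nat_lit 380) (nat_lit 0) (XT.lf (nat_lit 0) (nat_lit 499412905864) (nat_lit 304) (nat_lit 318934950859) (nat_lit 380) (nat_lit 6888803304) (nat_lit 108) (nat_lit 5) (nat_lit 112) (nat_lit 5) (nat_lit 113) (nat_lit 5) (nat_lit 475) (nat_lit 462) (nat_lit 263)) (XT.lf (nat_lit 0) (nat_lit 200160000816) (nat_lit 380) (nat_lit 431819866265) (nat_lit 76) (nat_lit 231171679435) (nat_lit 103) (nat_lit 5) (nat_lit 108) (nat_lit 5) (nat_lit 104) (nat_lit 5)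 (nat_lit 476) (nat_lit 462) (nat_lit 262)))) (XT.nd (nat_lit 156) (nat_lit 532) (nat_lit 0) (XT.nd (nat_lit 78) (nat_lit 228) (nat_lit 0) (XT.lf (nat_lit 0) (nat_lit 362907007540) (nat_lit 304) (nat_lit 77440062945) (nat_lit 380) (nat_lit 462906121315) (nat_lit 99) (nat_lit 5) (nat_lit 103) (nat_lit 5) (nat_lit 104) (nat_lit 5) (nat_lit 477) (nat_lit 462) (nat_lit 261)) (XT.lf (nat_lit 0) (nat_lit 291510638730) (nat_lit 228) (nat_lit 428576579575) (nat_lit 304) (nat_lit 225458844776) (nat_lit 96) (nat_lit 5) (nat_lit 99) (nat_lit 5) (nat_lit 100) (nat_lit 5) (nat_lit 478) (nat_lit 462) (nat_lit 260))) (XT.nd (nat_lit 78) (nat_lit 228) (nat_lit 0) (XT.lf (nat_lit 0) (nat_lit 47156919376) (nat_lit 304) (nat_lit 769604597896) (nat_lit 76) (nat_lit 173578439583) (nat_lit 92) (nat_lit 5) (nat_lit 96) (nat_lit 5) (nat_lit 93) (nat_lit 5) (nat_lit 479) (nat_lit 462) (nat_lit 259)) (XT.lf (nat_lit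 0) (nat_lit 144092310195) (nat_lit 228) (nat_lit 210752151618) (nat_lit 304) (nat_lit 682630023149) (nat_lit 89) (nat_lit 5) (nat_lit 92) (nat_lit 5) (nat_lit 93) (nat_lit 5) (nat_lit 480) (nat_lit 462) (nat_lit 258)))))) (XT.nd (nat_lit 546) (nat_lit 1064) (nat_lit 0) (XT.nd (nat_lit 234) (nat_lit 836) (nat_lit 0) (XT.nd (nat_lit 78) (nat_lit 228) (nat_lit 0) (XT.lf (nat_lit 0) (nat_lit 65609969743) (nat_lit 228) (nat_lit 643115156813) (nat_lit 304) (nat_lit 378575742818) (nat_lit 86) (nat_lit 5) (nat_lit 89) (nat_lit 5) (nat_lit 90) (nat_lit 5) (nat_lit 481) (nat_lit 462) (nat_lit 257)) (XT.nd (nat_lit 78) (nat_lit 228) (nat_lit 0) (XT.lf (nat_lit 0) (nat_lit 1110280386324) (nat_lit 304) (nat_lit 10913421558) (nat_lit 76) (nat_lit 18951349567) (nat_lit 86) (nat_lit 5) (nat_lit 90) (nat_lit 5) (nat_lit 87) (nat_lit 5) (nat_lit 482) (nat_lit 462) (nat_lit 256)) (XT.lf (nat_lit 0) (nat_lit 364206039703)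 (nat_lit 228) (nat_lit 96428994993) (nat_lit 76) (nat_lit 734883227048) (nat_lit 83) (nat_lit 5) (nat_lit 86) (nat_lit 5) (nat_lit 84) (nat_lit 5) (nat_lit 483) (nat_lit 462) (nat_lit 255)))) (XT.nd (nat_lit 156) (nat_lit 380) (nat_lit 0) (XT.nd (nat_lit 78) (nat_lit 228) (nat_lit 0) (XT.lf (nat_lit 0) (nat_lit 810010806486) (nat_lit 304) (nat_lit 181747149781) (nat_lit 76) (nat_lit 262476048436) (nat_lit 80) (nat_lit 5) (nat_lit 84) (nat_lit 5) (nat_lit 81) (nat_lit 5) (nat_lit 484) (nat_lit 462) (nat_lit 254)) (XT.lf (nat_lit 0) (nat_lit 906762309) (nat_lit 228) (nat_lit 269874869067) (nat_lit 76) (nat_lit 1045573987492) (nat_lit 77) (nat_lit 5) (nat_lit 80) (nat_lit 5) (nat_lit 78) (nat_lit 5) (nat_lit 485) (nat_lit 462) (nat_lit 253))) (XT.nd (nat_lit 78) (nat_lit 152) (nat_lit 0) (XT.lf (nat_lit 0) (nat_lit 493821421721) (nat_lit 304) (nat_lit 369166084493) (nat_lit 76) (nat_lit 518708452627)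 (nat_lit 74) (nat_lit 5) (nat_lit 78) (nat_lit 5) (nat_lit 75) (nat_lit 5) (nat_lit 486) (nat_lit 462) (nat_lit 252)) (XT.lf (nat_lit 0) (nat_lit 981920290622) (nat_lit 152) (nat_lit 68923464075) (nat_lit 228) (nat_lit 400186046275) (nat_lit 72) (nat_lit 5) (nat_lit 74) (nat_lit 5) (nat_lit 75) (nat_lit 5) (nat_lit 487) (nat_lit 462) (nat_lit 251))))) (XT.nd (nat_lit 234) (nat_lit 532) (nat_lit 0) (XT.nd (nat_lit 78) (nat_lit 304) (nat_lit 0) (XT.lf (nat_lit 0) (nat_lit 156647304364) (nat_lit 228) (nat_lit 580190703932) (nat_lit 76) (nat_lit 787264620953) (nat_lit 69) (nat_lit 5) (nat_lit 72) (nat_lit 5) (nat_lit 70) (nat_lit 5) (nat_lit 488) (nat_lit 462) (nat_lit 250)) (XT.nd (nat_lit 78) (nat_lit 152) (nat_lit 0) (XT.lf (nat_lit 0) (nat_lit 769934843684) (nat_lit 228) (nat_lit 698609841757) (nat_lit 76) (nat_lit 132852172484) (nat_lit 67) (nat_lit 5) (nat_lit 70) (nat_lit 5) (nat_lit 68)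 (nat_lit 5) (nat_lit 489) (nat_lit 462) (nat_lit 249)) (XT.lf (nat_lit 0) (nat_lit 855544718907) (nat_lit 152) (nat_lit 612794770813) (nat_lit 228) (nat_lit 214732429997) (nat_lit 65) (nat_lit 5) (nat_lit 67) (nat_lit 5) (nat_lit 68) (nat_lit 5) (nat_lit 490) (nat_lit 462) (nat_lit 248)))) (XT.nd (nat_lit 156) (nat_lit 152) (nat_lit 0) (XT.nd (nat_lit 78) (nat_lit 152) (nat_lit 0) (XT.lf (nat_lit 0) (nat_lit 467243398464) (nat_lit 228) (nat_lit 968181692536) (nat_lit 76) (nat_lit 333985893196) (nat_lit 62) (nat_lit 5) (nat_lit 65) (nat_lit 5) (nat_lit 63) (nat_lit 5) (nat_lit 491) (nat_lit 462) (nat_lit 247)) (XT.lf (nat_lit 0) (nat_lit 737309157076) (nat_lit 152) (nat_lit 495541127708) (nat_lit 228) (nat_lit 627801070365) (nat_lit 60) (nat_lit 5) (nat_lit 62) (nat_lit 5) (nat_lit 63) (nat_lit 5) (nat_lit 492) (nat_lit 462) (nat_lit 246))) (XT.nd (nat_lit 60138) (nat_lit 0) (nat_lit 6004) (XT.lf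 (nat_lit 0) (nat_lit 133572413522) (nat_lit 152) (nat_lit 1291088411930) (nat_lit 76) (nat_lit 532637927092) (nat_lit 58) (nat_lit 5) (nat_lit 60) (nat_lit 5) (nat_lit 59) (nat_lit 5) (nat_lit 493) (nat_lit 462) (nat_lit 245)) (XT.lf (nat_lit 0) (nat_lit 100694291344) (nat_lit 836) (nat_lit 79167494005) (nat_lit 836) (nat_lit 79167494005) (nat_lit 137) (nat_lit 3) (nat_lit 148) (nat_lit 3) (nat_lit 148) (nat_lit 5) (nat_lit 463) (nat_lit 463) (nat_lit 274))))))))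
noncomputable def xc121 : XT := (XT.nd (nat_lit 2262) (nat_lit 152) (nat_lit 0) (XT.nd (nat_lit 1092) (nat_lit 3116) (nat_lit 0) (XT.nd (nat_lit 546) (nat_lit 2204) (nat_lit 0) (XT.nd (nat_lit 234) (nat_lit 456) (nat_lit 0) (XT.nd (nat_lit 78) (nat_lit 0) (nat_lit 0) (XT.lf (nat_lit 0) (nat_lit 214210537185) (nat_lit 760) (nat_lit 279915440862) (nat_lit 836) (nat_lit 44416602361) (nat_lit 138) (nat_lit 5) (nat_lit 148) (nat_lit 5) (nat_lit 149) (nat_lit 5) (nat_lit 464) (nat_lit 463) (nat_lit 273)) (XT.nd (nat_lit 78) (nat_lit 0) (nat_lit 76) (XT.lf (nat_lit 76) (nat_lit 152854370193) (nat_lit 0) (nat_lit 86459229800) (nat_lit 836) (nat_lit 320788956265) (nat_lit 139) (nat_lit 5) (nat_lit 138) (nat_lit 5) (nat_lit 149) (nat_lit 5) (nat_lit 465) (nat_lit 463) (nat_lit 272)) (XT.lf (nat_lit 76) (nat_lit 42865804526) (nat_lit 0) (nat_lit 234708338786) (nat_lit 836) (nat_lit 305255725097) (nat_lit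 140) (nat_lit 5) (nat_lit 139) (nat_lit 5) (nat_lit 150) (nat_lit 5) (nat_lit 466) (nat_lit 463) (nat_lit 271)))) (XT.nd (nat_lit 156) (nat_lit 608) (nat_lit 0) (XT.nd (nat_lit 78) (nat_lit 0) (nat_lit 76) (XT.lf (nat_lit 0) (nat_lit 330774378408) (nat_lit 760) (nat_lit 68273954352) (nat_lit 836) (nat_lit 207733090363) (nat_lit 140) (nat_lit 5) (nat_lit 150) (nat_lit 5) (nat_lit 151) (nat_lit 5) (nat_lit 467) (nat_lit 463) (nat_lit 270)) (XT.lf (nat_lit 0) (nat_lit 400057986055) (nat_lit 760) (nat_lit 181267579166) (nat_lit 836) (nat_lit 50732169313) (nat_lit 141) (nat_lit 5) (nat_lit 151) (nat_lit 5) (nat_lit 152) (nat_lit 5) (nat_lit 468) (nat_lit 463) (nat_lit 269))) (XT.nd (nat_lit 78) (nat_lit 684) (nat_lit 0) (XT.lf (nat_lit 76) (nat_lit 359271475776) (nat_lit 0) (nat_lit 129159481568) (nat_lit 836) (nat_lit 170247859769) (nat_lit 142) (nat_lit 5) (nat_lit 141) (nat_lit 5) (nat_lit 152)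 (nat_lit 5) (nat_lit 469) (nat_lit 463) (nat_lit 268)) (XT.lf (nat_lit 0) (nat_lit 265079563810) (nat_lit 760) (nat_lit 331749943349) (nat_lit 836) (nat_lit 89952292105) (nat_lit 132) (nat_lit 5) (nat_lit 142) (nat_lit 5) (nat_lit 143) (nat_lit 5) (nat_lit 470) (nat_lit 463) (nat_lit 267))))) (XT.nd (nat_lit 234) (nat_lit 1368) (nat_lit 0) (XT.nd (nat_lit 78) (nat_lit 380) (nat_lit 0) (XT.lf (nat_lit 0) (nat_lit 9604981137) (nat_lit 456) (nat_lit 547368757185) (nat_lit 76) (nat_lit 159525076469) (nat_lit 126) (nat_lit 5) (nat_lit 132) (nat_lit 5) (nat_lit 127) (nat_lit 5) (nat_lit 471) (nat_lit 463) (nat_lit 266)) (XT.nd (nat_lit 78) (nat_lit 0) (nat_lit 0) (XT.lf (nat_lit 0) (nat_lit 69040493197) (nat_lit 380) (nat_lit 59114990649) (nat_lit 456) (nat_lit 619654969445) (nat_lit 121) (nat_lit 5) (nat_lit 126) (nat_lit 5) (nat_lit 127) (nat_lit 5) (nat_lit 472) (nat_lit 463) (nat_lit 265)) (XT.lf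 (nat_lit 0) (nat_lit 273352980773) (nat_lit 456) (nat_lit 34469626183) (nat_lit 76) (nat_lit 472946268218) (nat_lit 121) (nat_lit 5) (nat_lit 127) (nat_lit 5) (nat_lit 122) (nat_lit 5) (nat_lit 473) (nat_lit 463) (nat_lit 264)))) (XT.nd (nat_lit 156) (nat_lit 684) (nat_lit 0) (XT.nd (nat_lit 78) (nat_lit 304) (nat_lit 0) (XT.lf (nat_lit 0) (nat_lit 445567597924) (nat_lit 456) (nat_lit 137321864659) (nat_lit 76) (nat_lit 232704442205) (nat_lit 116) (nat_lit 5) (nat_lit 122) (nat_lit 5) (nat_lit 117) (nat_lit 5) (nat_lit 474) (nat_lit 463) (nat_lit 263)) (XT.lf (nat_lit 0) (nat_lit 610426156796) (nat_lit 304) (nat_lit 36464404629) (nat_lit 380) (nat_lit 205547816503) (nat_lit 112) (nat_lit 5) (nat_lit 116) (nat_lit 5) (nat_lit 117) (nat_lit 5) (nat_lit 475) (nat_lit 463) (nat_lit 262))) (XT.nd (nat_lit 78) (nat_lit 380) (nat_lit 0) (XT.lf (nat_lit 0) (nat_lit 539366377007) (nat_lit 304) (nat_lit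 344449672823) (nat_lit 380) (nat_lit 7439524701) (nat_lit 108) (nat_lit 5) (nat_lit 112) (nat_lit 5) (nat_lit 113) (nat_lit 5) (nat_lit 476) (nat_lit 463) (nat_lit 261)) (XT.lf (nat_lit 0) (nat_lit 216173152049) (nat_lit 380) (nat_lit 466365007887) (nat_lit 76) (nat_lit 249665492680) (nat_lit 103) (nat_lit 5) (nat_lit 108) (nat_lit 5) (nat_lit 104) (nat_lit 5) (nat_lit 477) (nat_lit 463) (nat_lit 260)))))) (XT.nd (nat_lit 546) (nat_lit 1596) (nat_lit 0) (XT.nd (nat_lit 234) (nat_lit 684) (nat_lit 0) (XT.nd (nat_lit 78) (nat_lit 532) (nat_lit 0) (XT.lf (nat_lit 0) (nat_lit 391939996366) (nat_lit 304) (nat_lit 83635171599) (nat_lit 380) (nat_lit 499938262530) (nat_lit 99) (nat_lit 5) (nat_lit 103) (nat_lit 5) (nat_lit 104) (nat_lit 5) (nat_lit 478) (nat_lit 463) (nat_lit 259)) (XT.nd (nat_lit 78) (nat_lit 304) (nat_lit 0) (XT.lf (nat_lit 0) (nat_lit 314831913928) (nat_lit 228) (nat_lit 462862597118)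 (nat_lit 304) (nat_lit 243495221266) (nat_lit 96) (nat_lit 5) (nat_lit 99) (nat_lit 5) (nat_lit 100) (nat_lit 5) (nat_lit 479) (nat_lit 463) (nat_lit 258)) (XT.lf (nat_lit 0) (nat_lit 50929777932) (nat_lit 304) (nat_lit 831172536425) (nat_lit 76) (nat_lit 187464823751) (nat_lit 92) (nat_lit 5) (nat_lit 96) (nat_lit 5) (nat_lit 93) (nat_lit 5) (nat_lit 480) (nat_lit 463) (nat_lit 257)))) (XT.nd (nat_lit 156) (nat_lit 228) (nat_lit 0) (XT.nd (nat_lit 78) (nat_lit 228) (nat_lit 0) (XT.lf (nat_lit 0) (nat_lit 155620105657) (nat_lit 228) (nat_lit 227612201924) (nat_lit 304) (nat_lit 737240121694) (nat_lit 89) (nat_lit 5) (nat_lit 92) (nat_lit 5) (nat_lit 93) (nat_lit 5) (nat_lit 481) (nat_lit 463) (nat_lit 256)) (XT.lf (nat_lit 0) (nat_lit 70859172158) (nat_lit 228) (nat_lit 694564240033) (nat_lit 304) (nat_lit 408861512917) (nat_lit 86) (nat_lit 5) (nat_lit 89) (nat_lit 5) (nat_lit 90) (nat_lit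 5) (nat_lit 482) (nat_lit 463) (nat_lit 255))) (XT.nd (nat_lit 78) (nat_lit 228) (nat_lit 0) (XT.lf (nat_lit 0) (nat_lit 1199103074202) (nat_lit 304) (nat_lit 11786109513) (nat_lit 76) (nat_lit 20467573445) (nat_lit 86) (nat_lit 5) (nat_lit 90) (nat_lit 5) (nat_lit 87) (nat_lit 5) (nat_lit 483) (nat_lit 463) (nat_lit 254)) (XT.lf (nat_lit 0) (nat_lit 393342770605) (nat_lit 228) (nat_lit 104142937364) (nat_lit 76) (nat_lit 793674002295) (nat_lit 83) (nat_lit 5) (nat_lit 86) (nat_lit 5) (nat_lit 84) (nat_lit 5) (nat_lit 484) (nat_lit 463) (nat_lit 253))))) (XT.nd (nat_lit 234) (nat_lit 912) (nat_lit 0) (XT.nd (nat_lit 78) (nat_lit 456) (nat_lit 0) (XT.lf (nat_lit 0) (nat_lit 874811907980) (nat_lit 304) (nat_lit 196286551113) (nat_lit 76) (nat_lit 283474254108) (nat_lit 80) (nat_lit 5) (nat_lit 84) (nat_lit 5) (nat_lit 81) (nat_lit 5) (nat_lit 485) (nat_lit 463) (nat_lit 252)) (XT.nd (nat_lit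 78) (nat_lit 228) (nat_lit 0) (XT.lf (nat_lit 0) (nat_lit 979531965) (nat_lit 228) (nat_lit 291464496462) (nat_lit 76) (nat_lit 1129220028490) (nat_lit 77) (nat_lit 5) (nat_lit 80) (nat_lit 5) (nat_lit 78) (nat_lit 5) (nat_lit 486) (nat_lit 463) (nat_lit 251)) (XT.lf (nat_lit 0) (nat_lit 533327354617) (nat_lit 304) (nat_lit 398699015996) (nat_lit 76) (nat_lit 560205253952) (nat_lit 74) (nat_lit 5) (nat_lit 78) (nat_lit 5) (nat_lit 75) (nat_lit 5) (nat_lit 487) (nat_lit 463) (nat_lit 250)))) (XT.nd (nat_lit 156) (nat_lit 532) (nat_lit 0) (XT.nd (nat_lit 78) (nat_lit 228) (nat_lit 0) (XT.lf (nat_lit 0) (nat_lit 1060474253689) (nat_lit 152) (nat_lit 74437209614) (nat_lit 228) (nat_lit 432200711313) (nat_lit 72) (nat_lit 5) (nat_lit 74) (nat_lit 5) (nat_lit 75) (nat_lit 5) (nat_lit 488) (nat_lit 463) (nat_lit 249)) (XT.lf (nat_lit 0) (nat_lit 169179291919) (nat_lit 228) (nat_lit 626605620443) (nat_lit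 76) (nat_lit 850245917047) (nat_lit 69) (nat_lit 5) (nat_lit 72) (nat_lit 5) (nat_lit 70) (nat_lit 5) (nat_lit 489) (nat_lit 463) (nat_lit 248))) (XT.nd (nat_lit 156) (nat_lit 380) (nat_lit 0) (XT.lf (nat_lit 0) (nat_lit 831529826465) (nat_lit 228) (nat_lit 754498296439) (nat_lit 76) (nat_lit 143480473872) (nat_lit 67) (nat_lit 5) (nat_lit 70) (nat_lit 5) (nat_lit 68) (nat_lit 5) (nat_lit 490) (nat_lit 463) (nat_lit 247)) (XT.lf (nat_lit 0) (nat_lit 504623052088) (nat_lit 228) (nat_lit 1045635910617) (nat_lit 76) (nat_lit 360704891124) (nat_lit 62) (nat_lit 5) (nat_lit 65) (nat_lit 5) (nat_lit 63) (nat_lit 5) (nat_lit 492) (nat_lit 463) (nat_lit 245))))))) (XT.nd (nat_lit 61230) (nat_lit 0) (nat_lit 380) (XT.nd (nat_lit 60684) (nat_lit 0) (nat_lit 3952) (XT.nd (nat_lit 60372) (nat_lit 0) (nat_lit 5928) (XT.nd (nat_lit 60216) (nat_lit 0) (nat_lit 5852) (XT.lf (nat_lit 0) (nat_lit 796294193173)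 (nat_lit 152) (nat_lit 535184287417) (nat_lit 228) (nat_lit 678024974306) (nat_lit 60) (nat_lit 5) (nat_lit 62) (nat_lit 5) (nat_lit 63) (nat_lit 5) (nat_lit 493) (nat_lit 463) (nat_lit 244)) (XT.nd (nat_lit 78) (nat_lit 0) (nat_lit 76) (XT.lf (nat_lit 0) (nat_lit 108750201333) (nat_lit 836) (nat_lit 85500700975) (nat_lit 836) (nat_lit 85500700975) (nat_lit 137) (nat_lit 3) (nat_lit 148) (nat_lit 3) (nat_lit 148) (nat_lit 5) (nat_lit 464) (nat_lit 464) (nat_lit 272)) (XT.lf (nat_lit 0) (nat_lit 231348060011) (nat_lit 760) (nat_lit 302308268429) (nat_lit 836) (nat_lit 47969624252) (nat_lit 138) (nat_lit 5) (nat_lit 148) (nat_lit 5) (nat_lit 149) (nat_lit 5) (nat_lit 465) (nat_lit 464) (nat_lit 271)))) (XT.nd (nat_lit 156) (nat_lit 0) (nat_lit 152) (XT.nd (nat_lit 78) (nat_lit 0) (nat_lit 76) (XT.lf (nat_lit 76) (nat_lit 165083109793) (nat_lit 0) (nat_lit 93376213780) (nat_lit 836) (nat_lit 346451405260)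 (nat_lit 139) (nat_lit 5) (nat_lit 138) (nat_lit 5) (nat_lit 149) (nat_lit 5) (nat_lit 466) (nat_lit 464) (nat_lit 270)) (XT.lf (nat_lit 76) (nat_lit 46295476130) (nat_lit 0) (nat_lit 253485189955) (nat_lit 836) (nat_lit 329675562096) (nat_lit 140) (nat_lit 5) (nat_lit 139) (nat_lit 5) (nat_lit 150) (nat_lit 5) (nat_lit 467) (nat_lit 464) (nat_lit 269))) (XT.nd (nat_lit 78) (nat_lit 0) (nat_lit 76) (XT.lf (nat_lit 0) (nat_lit 357236873528) (nat_lit 760) (nat_lit 73735463463) (nat_lit 836) (nat_lit 224351572615) (nat_lit 140) (nat_lit 5) (nat_lit 150) (nat_lit 5) (nat_lit 151) (nat_lit 5) (nat_lit 468) (nat_lit 464) (nat_lit 268)) (XT.lf (nat_lit 0) (nat_lit 432063133619) (nat_lit 760) (nat_lit 195768568427) (nat_lit 836) (nat_lit 54790625702) (nat_lit 141) (nat_lit 5) (nat_lit 151) (nat_lit 5) (nat_lit 152) (nat_lit 5) (nat_lit 469) (nat_lit 464) (nat_lit 267))))) (XT.nd (nat_lit 234) (nat_lit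 1064) (nat_lit 0) (XT.nd (nat_lit 78) (nat_lit 1140) (nat_lit 0) (XT.lf (nat_lit 76) (nat_lit 388013592786) (nat_lit 0) (nat_lit 139492318374) (nat_lit 836) (nat_lit 183867187354) (nat_lit 142) (nat_lit 5) (nat_lit 141) (nat_lit 5) (nat_lit 152) (nat_lit 5) (nat_lit 470) (nat_lit 464) (nat_lit 266)) (XT.nd (nat_lit 78) (nat_lit 456) (nat_lit 0) (XT.lf (nat_lit 0) (nat_lit 286286334621) (nat_lit 760) (nat_lit 358289980191) (nat_lit 836) (nat_lit 97148005939) (nat_lit 132) (nat_lit 5) (nat_lit 142) (nat_lit 5) (nat_lit 143) (nat_lit 5) (nat_lit 471) (nat_lit 464) (nat_lit 265)) (XT.lf (nat_lit 0) (nat_lit 10373806368) (nat_lit 456) (nat_lit 591157833392) (nat_lit 76) (nat_lit 172287058789) (nat_lit 126) (nat_lit 5) (nat_lit 132) (nat_lit 5) (nat_lit 127) (nat_lit 5) (nat_lit 472) (nat_lit 464) (nat_lit 264)))) (XT.nd (nat_lit 156) (nat_lit 684) (nat_lit 0) (XT.nd (nat_lit 78) (nat_lit 0) (nat_lit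 0) (XT.lf (nat_lit 0) (nat_lit 74564138578) (nat_lit 380) (nat_lit 63844185442) (nat_lit 456) (nat_lit 669226945378) (nat_lit 121) (nat_lit 5) (nat_lit 126) (nat_lit 5) (nat_lit 127) (nat_lit 5) (nat_lit 473) (nat_lit 464) (nat_lit 263)) (XT.lf (nat_lit 0) (nat_lit 295221591028) (nat_lit 456) (nat_lit 37226801823) (nat_lit 76) (nat_lit 510781973671) (nat_lit 121) (nat_lit 5) (nat_lit 127) (nat_lit 5) (nat_lit 122) (nat_lit 5) (nat_lit 474) (nat_lit 464) (nat_lit 262))) (XT.nd (nat_lit 78) (nat_lit 304) (nat_lit 0) (XT.lf (nat_lit 0) (nat_lit 481213356327) (nat_lit 456) (nat_lit 148307219368) (nat_lit 76) (nat_lit 251320823879) (nat_lit 116) (nat_lit 5) (nat_lit 122) (nat_lit 5) (nat_lit 117) (nat_lit 5) (nat_lit 475) (nat_lit 464) (nat_lit 261)) (XT.lf (nat_lit 0) (nat_lit 659260626661) (nat_lit 304) (nat_lit 39381510169) (nat_lit 380) (nat_lit 221991294743) (nat_lit 112) (nat_lit 5) (nat_lit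 116) (nat_lit 5) (nat_lit 117) (nat_lit 5) (nat_lit 476) (nat_lit 464) (nat_lit 260)))))) (XT.nd (nat_lit 546) (nat_lit 1596) (nat_lit 0) (XT.nd (nat_lit 234) (nat_lit 988) (nat_lit 0) (XT.nd (nat_lit 78) (nat_lit 684) (nat_lit 0) (XT.lf (nat_lit 0) (nat_lit 582516063260) (nat_lit 304) (nat_lit 372005583115) (nat_lit 380) (nat_lit 8034358430) (nat_lit 108) (nat_lit 5) (nat_lit 112) (nat_lit 5) (nat_lit 113) (nat_lit 5) (nat_lit 477) (nat_lit 464) (nat_lit 259)) (XT.nd (nat_lit 78) (nat_lit 304) (nat_lit 0) (XT.lf (nat_lit 0) (nat_lit 233467305283) (nat_lit 380) (nat_lit 503673824706) (nat_lit 76) (nat_lit 269638799731) (nat_lit 103) (nat_lit 5) (nat_lit 108) (nat_lit 5) (nat_lit 104) (nat_lit 5) (nat_lit 478) (nat_lit 464) (nat_lit 258)) (XT.lf (nat_lit 0) (nat_lit 423295563207) (nat_lit 304) (nat_lit 90325902695) (nat_lit 380) (nat_lit 539933024759) (nat_lit 99) (nat_lit 5) (nat_lit 103) (nat_lit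 5) (nat_lit 104) (nat_lit 5) (nat_lit 479) (nat_lit 464) (nat_lit 257)))) (XT.nd (nat_lit 156) (nat_lit 456) (nat_lit 0) (XT.nd (nat_lit 78) (nat_lit 304) (nat_lit 0) (XT.lf (nat_lit 0) (nat_lit 340018830639) (nat_lit 228) (nat_lit 499891511588) (nat_lit 304) (nat_lit 262974555110) (nat_lit 96) (nat_lit 5) (nat_lit 99) (nat_lit 5) (nat_lit 100) (nat_lit 5) (nat_lit 480) (nat_lit 464) (nat_lit 256)) (XT.lf (nat_lit 0) (nat_lit 55004421659) (nat_lit 304) (nat_lit 897665971281) (nat_lit 76) (nat_lit 202462103103) (nat_lit 92) (nat_lit 5) (nat_lit 96) (nat_lit 5) (nat_lit 93) (nat_lit 5) (nat_lit 481) (nat_lit 464) (nat_lit 255))) (XT.nd (nat_lit 78) (nat_lit 228) (nat_lit 0) (XT.lf (nat_lit 0) (nat_lit 168070066173) (nat_lit 228) (nat_lit 245821073635) (nat_lit 304) (nat_lit 796219071392) (nat_lit 89) (nat_lit 5) (nat_lit 92) (nat_lit 5) (nat_lit 93) (nat_lit 5) (nat_lit 482) (nat_lit 464) (nat_lit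 254)) (XT.lf (nat_lit 0) (nat_lit 76528253012) (nat_lit 228) (nat_lit 750129268361) (nat_lit 304) (nat_lit 441570185900) (nat_lit 86) (nat_lit 5) (nat_lit 89) (nat_lit 5) (nat_lit 90) (nat_lit 5) (nat_lit 483) (nat_lit 464) (nat_lit 253))))) (XT.nd (nat_lit 312) (nat_lit 912) (nat_lit 0) (XT.nd (nat_lit 156) (nat_lit 456) (nat_lit 0) (XT.nd (nat_lit 78) (nat_lit 228) (nat_lit 0) (XT.lf (nat_lit 0) (nat_lit 1295031540450) (nat_lit 304) (nat_lit 12728667538) (nat_lit 76) (nat_lit 22105078696) (nat_lit 86) (nat_lit 5) (nat_lit 90) (nat_lit 5) (nat_lit 87) (nat_lit 5) (nat_lit 484) (nat_lit 464) (nat_lit 252)) (XT.lf (nat_lit 0) (nat_lit 424810404639) (nat_lit 228) (nat_lit 112474048941) (nat_lit 76) (nat_lit 857168022858) (nat_lit 83) (nat_lit 5) (nat_lit 86) (nat_lit 5) (nat_lit 84) (nat_lit 5) (nat_lit 485) (nat_lit 464) (nat_lit 251))) (XT.nd (nat_lit 78) (nat_lit 228) (nat_lit 0) (XT.lf (nat_lit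 0) (nat_lit 944797063786) (nat_lit 304) (nat_lit 211989157429) (nat_lit 76) (nat_lit 306152298859) (nat_lit 80) (nat_lit 5) (nat_lit 84) (nat_lit 5) (nat_lit 81) (nat_lit 5) (nat_lit 486) (nat_lit 464) (nat_lit 250)) (XT.lf (nat_lit 0) (nat_lit 1058090570) (nat_lit 228) (nat_lit 314781345711) (nat_lit 76) (nat_lit 1219557735364) (nat_lit 77) (nat_lit 5) (nat_lit 80) (nat_lit 5) (nat_lit 78) (nat_lit 5) (nat_lit 487) (nat_lit 464) (nat_lit 249)))) (XT.nd (nat_lit 156) (nat_lit 532) (nat_lit 0) (XT.nd (nat_lit 78) (nat_lit 152) (nat_lit 0) (XT.lf (nat_lit 0) (nat_lit 575993730880) (nat_lit 304) (nat_lit 430594632701) (nat_lit 76) (nat_lit 605021781534) (nat_lit 74) (nat_lit 5) (nat_lit 78) (nat_lit 5) (nat_lit 75) (nat_lit 5) (nat_lit 488) (nat_lit 464) (nat_lit 248)) (XT.lf (nat_lit 0) (nat_lit 1145312485322) (nat_lit 152) (nat_lit 80392073569) (nat_lit 228) (nat_lit 466776580748) (nat_lit 72)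 (nat_lit 5) (nat_lit 74) (nat_lit 5) (nat_lit 75) (nat_lit 5) (nat_lit 489) (nat_lit 464) (nat_lit 247))) (XT.nd (nat_lit 156) (nat_lit 304) (nat_lit 0) (XT.lf (nat_lit 0) (nat_lit 182713809488) (nat_lit 228) (nat_lit 676733778751) (nat_lit 76) (nat_lit 918265698793) (nat_lit 69) (nat_lit 5) (nat_lit 72) (nat_lit 5) (nat_lit 70) (nat_lit 5) (nat_lit 490) (nat_lit 464) (nat_lit 246)) (XT.lf (nat_lit 0) (nat_lit 997907976597) (nat_lit 152) (nat_lit 714763564147) (nat_lit 228) (nat_lit 250463528383) (nat_lit 65) (nat_lit 5) (nat_lit 67) (nat_lit 5) (nat_lit 68) (nat_lit 5) (nat_lit 492) (nat_lit 464) (nat_lit 244))))))))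
noncomputable def xc122 : XT := (XT.nd (nat_lit 62478) (nat_lit 0) (nat_lit 228) (XT.nd (nat_lit 61308) (nat_lit 0) (nat_lit 380) (XT.nd (nat_lit 60762) (nat_lit 0) (nat_lit 3800) (XT.nd (nat_lit 60450) (nat_lit 0) (nat_lit 5776) (XT.nd (nat_lit 60294) (nat_lit 0) (nat_lit 5700) (XT.lf (nat_lit 0) (nat_lit 544993052074) (nat_lit 228) (nat_lit 1129286511414) (nat_lit 76) (nat_lit 389561390844) (nat_lit 62) (nat_lit 5) (nat_lit 65) (nat_lit 5) (nat_lit 63) (nat_lit 5) (nat_lit 493) (nat_lit 464) (nat_lit 243)) (XT.nd (nat_lit 78) (nat_lit 0) (nat_lit 76) (XT.lf (nat_lit 0) (nat_lit 117450531810) (nat_lit 836) (nat_lit 92340591972) (nat_lit 836) (nat_lit 92340591972) (nat_lit 137) (nat_lit 3) (nat_lit 148) (nat_lit 3) (nat_lit 148) (nat_lit 5) (nat_lit 465) (nat_lit 465) (nat_lit 270)) (XT.lf (nat_lit 0) (nat_lit 249856487675) (nat_lit 760) (nat_lit 326492580364) (nat_lit 836) (nat_lit 51806931590)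 (nat_lit 138) (nat_lit 5) (nat_lit 148) (nat_lit 5) (nat_lit 149) (nat_lit 5) (nat_lit 466) (nat_lit 465) (nat_lit 269)))) (XT.nd (nat_lit 156) (nat_lit 0) (nat_lit 152) (XT.nd (nat_lit 78) (nat_lit 0) (nat_lit 76) (XT.lf (nat_lit 76) (nat_lit 178290092925) (nat_lit 0) (nat_lit 100846521442) (nat_lit 836) (nat_lit 374166945403) (nat_lit 139) (nat_lit 5) (nat_lit 138) (nat_lit 5) (nat_lit 149) (nat_lit 5) (nat_lit 467) (nat_lit 465) (nat_lit 268)) (XT.lf (nat_lit 76) (nat_lit 49999463364) (nat_lit 0) (nat_lit 273764162959) (nat_lit 836) (nat_lit 356049074649) (nat_lit 140) (nat_lit 5) (nat_lit 139) (nat_lit 5) (nat_lit 150) (nat_lit 5) (nat_lit 468) (nat_lit 465) (nat_lit 267))) (XT.nd (nat_lit 78) (nat_lit 0) (nat_lit 76) (XT.lf (nat_lit 0) (nat_lit 385816290528) (nat_lit 760) (nat_lit 79633951399) (nat_lit 836) (nat_lit 242299556983) (nat_lit 140) (nat_lit 5) (nat_lit 150) (nat_lit 5) (nat_lit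 151) (nat_lit 5) (nat_lit 469) (nat_lit 465) (nat_lit 266)) (XT.lf (nat_lit 0) (nat_lit 466628620419) (nat_lit 760) (nat_lit 211429696328) (nat_lit 836) (nat_lit 59173775315) (nat_lit 141) (nat_lit 5) (nat_lit 151) (nat_lit 5) (nat_lit 152) (nat_lit 5) (nat_lit 470) (nat_lit 465) (nat_lit 265))))) (XT.nd (nat_lit 234) (nat_lit 1064) (nat_lit 0) (XT.nd (nat_lit 78) (nat_lit 1140) (nat_lit 0) (XT.lf (nat_lit 76) (nat_lit 419055022242) (nat_lit 0) (nat_lit 150651770957) (nat_lit 836) (nat_lit 198576132646) (nat_lit 142) (nat_lit 5) (nat_lit 141) (nat_lit 5) (nat_lit 152) (nat_lit 5) (nat_lit 471) (nat_lit 465) (nat_lit 264)) (XT.nd (nat_lit 78) (nat_lit 456) (nat_lit 0) (XT.lf (nat_lit 0) (nat_lit 309189589219) (nat_lit 760) (nat_lit 386953214079) (nat_lit 836) (nat_lit 104919443864) (nat_lit 132) (nat_lit 5) (nat_lit 142) (nat_lit 5) (nat_lit 143) (nat_lit 5) (nat_lit 472) (nat_lit 465) (nat_lit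 263)) (XT.lf (nat_lit 0) (nat_lit 11204076738) (nat_lit 456) (nat_lit 638450096236) (nat_lit 76) (nat_lit 186070003091) (nat_lit 126) (nat_lit 5) (nat_lit 132) (nat_lit 5) (nat_lit 127) (nat_lit 5) (nat_lit 473) (nat_lit 465) (nat_lit 262)))) (XT.nd (nat_lit 156) (nat_lit 684) (nat_lit 0) (XT.nd (nat_lit 78) (nat_lit 0) (nat_lit 0) (XT.lf (nat_lit 0) (nat_lit 80529617680) (nat_lit 380) (nat_lit 68951716455) (nat_lit 456) (nat_lit 722764739536) (nat_lit 121) (nat_lit 5) (nat_lit 126) (nat_lit 5) (nat_lit 127) (nat_lit 5) (nat_lit 474) (nat_lit 465) (nat_lit 261)) (XT.lf (nat_lit 0) (nat_lit 318839637064) (nat_lit 456) (nat_lit 40204607788) (nat_lit 76) (nat_lit 551644534990) (nat_lit 121) (nat_lit 5) (nat_lit 127) (nat_lit 5) (nat_lit 122) (nat_lit 5) (nat_lit 475) (nat_lit 465) (nat_lit 260))) (XT.nd (nat_lit 78) (nat_lit 304) (nat_lit 0) (XT.lf (nat_lit 0) (nat_lit 519710725389) (nat_lit 456)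 (nat_lit 160171458728) (nat_lit 76) (nat_lit 271426512336) (nat_lit 116) (nat_lit 5) (nat_lit 122) (nat_lit 5) (nat_lit 117) (nat_lit 5) (nat_lit 476) (nat_lit 465) (nat_lit 259)) (XT.lf (nat_lit 0) (nat_lit 712001800286) (nat_lit 304) (nat_lit 42531990833) (nat_lit 380) (nat_lit 239750300757) (nat_lit 112) (nat_lit 5) (nat_lit 116) (nat_lit 5) (nat_lit 117) (nat_lit 5) (nat_lit 477) (nat_lit 465) (nat_lit 258)))))) (XT.nd (nat_lit 546) (nat_lit 1444) (nat_lit 0) (XT.nd (nat_lit 234) (nat_lit 988) (nat_lit 0) (XT.nd (nat_lit 78) (nat_lit 684) (nat_lit 0) (XT.lf (nat_lit 0) (nat_lit 629117670759) (nat_lit 304) (nat_lit 401765975295) (nat_lit 380) (nat_lit 8676825686) (nat_lit 108) (nat_lit 5) (nat_lit 112) (nat_lit 5) (nat_lit 113) (nat_lit 5) (nat_lit 478) (nat_lit 465) (nat_lit 257)) (XT.nd (nat_lit 78) (nat_lit 304) (nat_lit 0) (XT.lf (nat_lit 0) (nat_lit 252144947825) (nat_lit 380) (nat_lit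 543967401626) (nat_lit 76) (nat_lit 291209961696) (nat_lit 103) (nat_lit 5) (nat_lit 108) (nat_lit 5) (nat_lit 104) (nat_lit 5) (nat_lit 479) (nat_lit 465) (nat_lit 256)) (XT.lf (nat_lit 0) (nat_lit 457159523021) (nat_lit 304) (nat_lit 97551904067) (nat_lit 380) (nat_lit 583127410589) (nat_lit 99) (nat_lit 5) (nat_lit 103) (nat_lit 5) (nat_lit 104) (nat_lit 5) (nat_lit 480) (nat_lit 465) (nat_lit 255)))) (XT.nd (nat_lit 156) (nat_lit 456) (nat_lit 0) (XT.nd (nat_lit 78) (nat_lit 304) (nat_lit 0) (XT.lf (nat_lit 0) (nat_lit 367220648815) (nat_lit 228) (nat_lit 539882752527) (nat_lit 304) (nat_lit 284012276156) (nat_lit 96) (nat_lit 5) (nat_lit 99) (nat_lit 5) (nat_lit 100) (nat_lit 5) (nat_lit 481) (nat_lit 465) (nat_lit 254)) (XT.lf (nat_lit 0) (nat_lit 59404999579) (nat_lit 304) (nat_lit 969478933432) (nat_lit 76) (nat_lit 218659151471) (nat_lit 92) (nat_lit 5) (nat_lit 96) (nat_lit 5) (nat_lit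 93) (nat_lit 5) (nat_lit 482) (nat_lit 465) (nat_lit 253))) (XT.nd (nat_lit 78) (nat_lit 228) (nat_lit 0) (XT.lf (nat_lit 0) (nat_lit 181515973304) (nat_lit 228) (nat_lit 265486669982) (nat_lit 304) (nat_lit 859916374163) (nat_lit 89) (nat_lit 5) (nat_lit 92) (nat_lit 5) (nat_lit 93) (nat_lit 5) (nat_lit 483) (nat_lit 465) (nat_lit 252)) (XT.lf (nat_lit 0) (nat_lit 82650810819) (nat_lit 228) (nat_lit 810139514773) (nat_lit 304) (nat_lit 476895588109) (nat_lit 86) (nat_lit 5) (nat_lit 89) (nat_lit 5) (nat_lit 90) (nat_lit 5) (nat_lit 484) (nat_lit 465) (nat_lit 251))))) (XT.nd (nat_lit 234) (nat_lit 988) (nat_lit 0) (XT.nd (nat_lit 78) (nat_lit 456) (nat_lit 0) (XT.lf (nat_lit 0) (nat_lit 1398634252569) (nat_lit 304) (nat_lit 13746677389) (nat_lit 76) (nat_lit 23873570191) (nat_lit 86) (nat_lit 5) (nat_lit 90) (nat_lit 5) (nat_lit 87) (nat_lit 5) (nat_lit 485) (nat_lit 465) (nat_lit 250)) (XT.nd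 (nat_lit 78) (nat_lit 228) (nat_lit 0) (XT.lf (nat_lit 0) (nat_lit 458795419097) (nat_lit 228) (nat_lit 121471695582) (nat_lit 76) (nat_lit 925741550747) (nat_lit 83) (nat_lit 5) (nat_lit 86) (nat_lit 5) (nat_lit 84) (nat_lit 5) (nat_lit 486) (nat_lit 465) (nat_lit 249)) (XT.lf (nat_lit 0) (nat_lit 1020381003072) (nat_lit 304) (nat_lit 228948017584) (nat_lit 76) (nat_lit 330644572292) (nat_lit 80) (nat_lit 5) (nat_lit 84) (nat_lit 5) (nat_lit 81) (nat_lit 5) (nat_lit 487) (nat_lit 465) (nat_lit 248)))) (XT.nd (nat_lit 156) (nat_lit 532) (nat_lit 0) (XT.nd (nat_lit 78) (nat_lit 228) (nat_lit 0) (XT.lf (nat_lit 0) (nat_lit 1142905896) (nat_lit 228) (nat_lit 339963587191) (nat_lit 76) (nat_lit 1317122443866) (nat_lit 77) (nat_lit 5) (nat_lit 80) (nat_lit 5) (nat_lit 78) (nat_lit 5) (nat_lit 488) (nat_lit 465) (nat_lit 247)) (XT.lf (nat_lit 0) (nat_lit 622073390438) (nat_lit 304) (nat_lit 465041942194)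 (nat_lit 76) (nat_lit 653423616020) (nat_lit 74) (nat_lit 5) (nat_lit 78) (nat_lit 5) (nat_lit 75) (nat_lit 5) (nat_lit 489) (nat_lit 465) (nat_lit 246))) (XT.nd (nat_lit 156) (nat_lit 380) (nat_lit 0) (XT.lf (nat_lit 0) (nat_lit 1236937733923) (nat_lit 152) (nat_lit 86823342734) (nat_lit 228) (nat_lit 504118546483) (nat_lit 72) (nat_lit 5) (nat_lit 74) (nat_lit 5) (nat_lit 75) (nat_lit 5) (nat_lit 490) (nat_lit 465) (nat_lit 245)) (XT.lf (nat_lit 0) (nat_lit 969896713950) (nat_lit 228) (nat_lit 880046260436) (nat_lit 76) (nat_lit 167355836644) (nat_lit 67) (nat_lit 5) (nat_lit 70) (nat_lit 5) (nat_lit 68) (nat_lit 5) (nat_lit 492) (nat_lit 465) (nat_lit 243))))))) (XT.nd (nat_lit 61386) (nat_lit 0) (nat_lit 304) (XT.nd (nat_lit 60840) (nat_lit 0) (nat_lit 3572) (XT.nd (nat_lit 60528) (nat_lit 0) (nat_lit 5548) (XT.nd (nat_lit 60372) (nat_lit 0) (nat_lit 5472) (XT.lf (nat_lit 0) (nat_lit 1077740848612)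 (nat_lit 152) (nat_lit 771944551952) (nat_lit 228) (nat_lit 270500467253) (nat_lit 65) (nat_lit 5) (nat_lit 67) (nat_lit 5) (nat_lit 68) (nat_lit 5) (nat_lit 493) (nat_lit 465) (nat_lit 242)) (XT.nd (nat_lit 78) (nat_lit 0) (nat_lit 76) (XT.lf (nat_lit 0) (nat_lit 126846843876) (nat_lit 836) (nat_lit 99727697799) (nat_lit 836) (nat_lit 99727697799) (nat_lit 137) (nat_lit 3) (nat_lit 148) (nat_lit 3) (nat_lit 148) (nat_lit 5) (nat_lit 466) (nat_lit 466) (nat_lit 268)) (XT.lf (nat_lit 0) (nat_lit 269845506399) (nat_lit 760) (nat_lit 352611687119) (nat_lit 836) (nat_lit 55951260979) (nat_lit 138) (nat_lit 5) (nat_lit 148) (nat_lit 5) (nat_lit 149) (nat_lit 5) (nat_lit 467) (nat_lit 466) (nat_lit 267)))) (XT.nd (nat_lit 156) (nat_lit 0) (nat_lit 152) (XT.nd (nat_lit 78) (nat_lit 0) (nat_lit 76) (XT.lf (nat_lit 76) (nat_lit 192553587009) (nat_lit 0) (nat_lit 108914423678) (nat_lit 836) (nat_lit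 404099810399) (nat_lit 139) (nat_lit 5) (nat_lit 138) (nat_lit 5) (nat_lit 149) (nat_lit 5) (nat_lit 468) (nat_lit 466) (nat_lit 266)) (XT.lf (nat_lit 76) (nat_lit 53999719768) (nat_lit 0) (nat_lit 295665431290) (nat_lit 836) (nat_lit 384532544161) (nat_lit 140) (nat_lit 5) (nat_lit 139) (nat_lit 5) (nat_lit 150) (nat_lit 5) (nat_lit 469) (nat_lit 466) (nat_lit 265))) (XT.nd (nat_lit 78) (nat_lit 0) (nat_lit 76) (XT.lf (nat_lit 0) (nat_lit 416681994249) (nat_lit 760) (nat_lit 86004368180) (nat_lit 836) (nat_lit 261683400279) (nat_lit 140) (nat_lit 5) (nat_lit 150) (nat_lit 5) (nat_lit 151) (nat_lit 5) (nat_lit 470) (nat_lit 466) (nat_lit 264)) (XT.lf (nat_lit 0) (nat_lit 503959283948) (nat_lit 760) (nat_lit 228343765472) (nat_lit 836) (nat_lit 63907591227) (nat_lit 141) (nat_lit 5) (nat_lit 151) (nat_lit 5) (nat_lit 152) (nat_lit 5) (nat_lit 471) (nat_lit 466) (nat_lit 263))))) (XT.nd (nat_lit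 234) (nat_lit 1064) (nat_lit 0) (XT.nd (nat_lit 78) (nat_lit 1140) (nat_lit 0) (XT.lf (nat_lit 76) (nat_lit 452579717260) (nat_lit 0) (nat_lit 162703970173) (nat_lit 836) (nat_lit 214461854863) (nat_lit 142) (nat_lit 5) (nat_lit 141) (nat_lit 5) (nat_lit 152) (nat_lit 5) (nat_lit 472) (nat_lit 466) (nat_lit 262)) (XT.nd (nat_lit 78) (nat_lit 456) (nat_lit 0) (XT.lf (nat_lit 0) (nat_lit 333925054563) (nat_lit 760) (nat_lit 417909501616) (nat_lit 836) (nat_lit 113312654252) (nat_lit 132) (nat_lit 5) (nat_lit 142) (nat_lit 5) (nat_lit 143) (nat_lit 5) (nat_lit 473) (nat_lit 466) (nat_lit 261)) (XT.lf (nat_lit 0) (nat_lit 12100716544) (nat_lit 456) (nat_lit 689525792012) (nat_lit 76) (nat_lit 200955585847) (nat_lit 126) (nat_lit 5) (nat_lit 132) (nat_lit 5) (nat_lit 127) (nat_lit 5) (nat_lit 474) (nat_lit 466) (nat_lit 260)))) (XT.nd (nat_lit 156) (nat_lit 684) (nat_lit 0) (XT.nd (nat_lit 78) (nat_lit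 0) (nat_lit 0) (XT.lf (nat_lit 0) (nat_lit 86972285462) (nat_lit 380) (nat_lit 74467850495) (nat_lit 456) (nat_lit 780585608794) (nat_lit 121) (nat_lit 5) (nat_lit 126) (nat_lit 5) (nat_lit 127) (nat_lit 5) (nat_lit 475) (nat_lit 466) (nat_lit 259)) (XT.lf (nat_lit 0) (nat_lit 344347081308) (nat_lit 456) (nat_lit 43420686476) (nat_lit 76) (nat_lit 595776100727) (nat_lit 121) (nat_lit 5) (nat_lit 127) (nat_lit 5) (nat_lit 122) (nat_lit 5) (nat_lit 476) (nat_lit 466) (nat_lit 258))) (XT.nd (nat_lit 78) (nat_lit 304) (nat_lit 0) (XT.lf (nat_lit 0) (nat_lit 561287841098) (nat_lit 456) (nat_lit 172984885483) (nat_lit 76) (nat_lit 293140652653) (nat_lit 116) (nat_lit 5) (nat_lit 122) (nat_lit 5) (nat_lit 117) (nat_lit 5) (nat_lit 477) (nat_lit 466) (nat_lit 257)) (XT.lf (nat_lit 0) (nat_lit 768962221652) (nat_lit 304) (nat_lit 45934515679) (nat_lit 380) (nat_lit 258930069703) (nat_lit 112) (nat_lit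 5) (nat_lit 116) (nat_lit 5) (nat_lit 117) (nat_lit 5) (nat_lit 478) (nat_lit 466) (nat_lit 256)))))) (XT.nd (nat_lit 546) (nat_lit 1292) (nat_lit 0) (XT.nd (nat_lit 234) (nat_lit 988) (nat_lit 0) (XT.nd (nat_lit 78) (nat_lit 684) (nat_lit 0) (XT.lf (nat_lit 0) (nat_lit 679447360859) (nat_lit 304) (nat_lit 433907206621) (nat_lit 380) (nat_lit 9370730469) (nat_lit 108) (nat_lit 5) (nat_lit 112) (nat_lit 5) (nat_lit 113) (nat_lit 5) (nat_lit 479) (nat_lit 466) (nat_lit 255)) (XT.nd (nat_lit 78) (nat_lit 304) (nat_lit 0) (XT.lf (nat_lit 0) (nat_lit 272316764946) (nat_lit 380) (nat_lit 587484511642) (nat_lit 76) (nat_lit 314506808347) (nat_lit 103) (nat_lit 5) (nat_lit 108) (nat_lit 5) (nat_lit 104) (nat_lit 5) (nat_lit 480) (nat_lit 466) (nat_lit 254)) (XT.lf (nat_lit 0) (nat_lit 493732554715) (nat_lit 304) (nat_lit 105355995656) (nat_lit 380) (nat_lit 629777383828) (nat_lit 99) (nat_lit 5) (nat_lit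 103) (nat_lit 5) (nat_lit 104) (nat_lit 5) (nat_lit 481) (nat_lit 466) (nat_lit 253)))) (XT.nd (nat_lit 156) (nat_lit 456) (nat_lit 0) (XT.nd (nat_lit 78) (nat_lit 304) (nat_lit 0) (XT.lf (nat_lit 0) (nat_lit 396598567975) (nat_lit 228) (nat_lit 583073304151) (nat_lit 304) (nat_lit 306733049605) (nat_lit 96) (nat_lit 5) (nat_lit 99) (nat_lit 5) (nat_lit 100) (nat_lit 5) (nat_lit 482) (nat_lit 466) (nat_lit 252)) (XT.lf (nat_lit 0) (nat_lit 64157591750) (nat_lit 304) (nat_lit 1047036977573) (nat_lit 76) (nat_lit 236151952278) (nat_lit 92) (nat_lit 5) (nat_lit 96) (nat_lit 5) (nat_lit 93) (nat_lit 5) (nat_lit 483) (nat_lit 466) (nat_lit 251))) (XT.nd (nat_lit 78) (nat_lit 228) (nat_lit 0) (XT.lf (nat_lit 0) (nat_lit 196037509945) (nat_lit 228) (nat_lit 286725526812) (nat_lit 304) (nat_lit 928709492961) (nat_lit 89) (nat_lit 5) (nat_lit 92) (nat_lit 5) (nat_lit 93) (nat_lit 5) (nat_lit 484) (nat_lit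 466) (nat_lit 250)) (XT.lf (nat_lit 0) (nat_lit 89263130799) (nat_lit 228) (nat_lit 874950594458) (nat_lit 304) (nat_lit 515047052833) (nat_lit 86) (nat_lit 5) (nat_lit 89) (nat_lit 5) (nat_lit 90) (nat_lit 5) (nat_lit 485) (nat_lit 466) (nat_lit 249))))) (XT.nd (nat_lit 234) (nat_lit 836) (nat_lit 0) (XT.nd (nat_lit 78) (nat_lit 456) (nat_lit 0) (XT.lf (nat_lit 0) (nat_lit 1510525154710) (nat_lit 304) (nat_lit 14846168479) (nat_lit 76) (nat_lit 25783528851) (nat_lit 86) (nat_lit 5) (nat_lit 90) (nat_lit 5) (nat_lit 87) (nat_lit 5) (nat_lit 486) (nat_lit 466) (nat_lit 248)) (XT.nd (nat_lit 78) (nat_lit 228) (nat_lit 0) (XT.lf (nat_lit 0) (nat_lit 495499208734) (nat_lit 228) (nat_lit 131189193511) (nat_lit 76) (nat_lit 999800948589) (nat_lit 83) (nat_lit 5) (nat_lit 86) (nat_lit 5) (nat_lit 84) (nat_lit 5) (nat_lit 487) (nat_lit 466) (nat_lit 247)) (XT.lf (nat_lit 0) (nat_lit 1102011632652)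 (nat_lit 304) (nat_lit 247263625418) (nat_lit 76) (nat_lit 357096214828) (nat_lit 80) (nat_lit 5) (nat_lit 84) (nat_lit 5) (nat_lit 81) (nat_lit 5) (nat_lit 488) (nat_lit 466) (nat_lit 246)))) (XT.nd (nat_lit 234) (nat_lit 380) (nat_lit 0) (XT.nd (nat_lit 78) (nat_lit 228) (nat_lit 0) (XT.lf (nat_lit 0) (nat_lit 1234482469) (nat_lit 228) (nat_lit 367160445963) (nat_lit 76) (nat_lit 1422492316256) (nat_lit 77) (nat_lit 5) (nat_lit 80) (nat_lit 5) (nat_lit 78) (nat_lit 5) (nat_lit 489) (nat_lit 466) (nat_lit 245)) (XT.lf (nat_lit 0) (nat_lit 671839399780) (nat_lit 304) (nat_lit 502245073698) (nat_lit 76) (nat_lit 705697584145) (nat_lit 74) (nat_lit 5) (nat_lit 78) (nat_lit 5) (nat_lit 75) (nat_lit 5) (nat_lit 490) (nat_lit 466) (nat_lit 244))) (XT.nd (nat_lit 60528) (nat_lit 0) (nat_lit 5168) (XT.lf (nat_lit 0) (nat_lit 213117676752) (nat_lit 228) (nat_lit 789341795655) (nat_lit 76) (nat_lit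 1071065291092) (nat_lit 69) (nat_lit 5) (nat_lit 72) (nat_lit 5) (nat_lit 70) (nat_lit 5) (nat_lit 492) (nat_lit 466) (nat_lit 242)) (XT.lf (nat_lit 0) (nat_lit 136994822458) (nat_lit 836) (nat_lit 107705792284) (nat_lit 836) (nat_lit 107705792284) (nat_lit 137) (nat_lit 3) (nat_lit 148) (nat_lit 3) (nat_lit 148) (nat_lit 5) (nat_lit 467) (nat_lit 467) (nat_lit 266))))))))
noncomputable def xc123 : XT := (XT.nd (nat_lit 62712) (nat_lit 0) (nat_lit 152) (XT.nd (nat_lit 1092) (nat_lit 2356) (nat_lit 0) (XT.nd (nat_lit 546) (nat_lit 2204) (nat_lit 0) (XT.nd (nat_lit 234) (nat_lit 456) (nat_lit 0) (XT.nd (nat_lit 78) (nat_lit 0) (nat_lit 0) (XT.lf (nat_lit 0) (nat_lit 291433575333) (nat_lit 760) (nat_lit 380820365167) (nat_lit 836) (nat_lit 60427168837) (nat_lit 138) (nat_lit 5) (nat_lit 148) (nat_lit 5) (nat_lit 149) (nat_lit 5) (nat_lit 468) (nat_lit 467) (nat_lit 265)) (XT.nd (nat_lit 78) (nat_lit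 0) (nat_lit 76) (XT.lf (nat_lit 76) (nat_lit 207958119726) (nat_lit 0) (nat_lit 117627732339) (nat_lit 836) (nat_lit 436427374589) (nat_lit 139) (nat_lit 5) (nat_lit 138) (nat_lit 5) (nat_lit 149) (nat_lit 5) (nat_lit 469) (nat_lit 467) (nat_lit 264)) (XT.lf (nat_lit 76) (nat_lit 58319953981) (nat_lit 0) (nat_lit 319318781786) (nat_lit 836) (nat_lit 415294756353) (nat_lit 140) (nat_lit 5) (nat_lit 139) (nat_lit 5) (nat_lit 150) (nat_lit 5) (nat_lit 470) (nat_lit 467) (nat_lit 263)))) (XT.nd (nat_lit 156) (nat_lit 608) (nat_lit 0) (XT.nd (nat_lit 78) (nat_lit 0) (nat_lit 76) (XT.lf (nat_lit 0) (nat_lit 450016897134) (nat_lit 760) (nat_lit 92884461006) (nat_lit 836) (nat_lit 282617968338) (nat_lit 140) (nat_lit 5) (nat_lit 150) (nat_lit 5) (nat_lit 151) (nat_lit 5) (nat_lit 471) (nat_lit 467) (nat_lit 262)) (XT.lf (nat_lit 0) (nat_lit 544276347218) (nat_lit 760) (nat_lit 246611003883) (nat_lit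 836) (nat_lit 69020124697) (nat_lit 141) (nat_lit 5) (nat_lit 151) (nat_lit 5) (nat_lit 152) (nat_lit 5) (nat_lit 472) (nat_lit 467) (nat_lit 261))) (XT.nd (nat_lit 78) (nat_lit 684) (nat_lit 0) (XT.lf (nat_lit 76) (nat_lit 488786346046) (nat_lit 0) (nat_lit 175720337117) (nat_lit 836) (nat_lit 231618487412) (nat_lit 142) (nat_lit 5) (nat_lit 141) (nat_lit 5) (nat_lit 152) (nat_lit 5) (nat_lit 473) (nat_lit 467) (nat_lit 260)) (XT.lf (nat_lit 0) (nat_lit 360639314592) (nat_lit 760) (nat_lit 451342287819) (nat_lit 836) (nat_lit 122377370706) (nat_lit 132) (nat_lit 5) (nat_lit 142) (nat_lit 5) (nat_lit 143) (nat_lit 5) (nat_lit 474) (nat_lit 467) (nat_lit 259))))) (XT.nd (nat_lit 234) (nat_lit 1368) (nat_lit 0) (XT.nd (nat_lit 78) (nat_lit 380) (nat_lit 0) (XT.lf (nat_lit 0) (nat_lit 13069042786) (nat_lit 456) (nat_lit 744687587949) (nat_lit 76) (nat_lit 217032017719) (nat_lit 126) (nat_lit 5)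 (nat_lit 132) (nat_lit 5) (nat_lit 127) (nat_lit 5) (nat_lit 475) (nat_lit 467) (nat_lit 258)) (XT.nd (nat_lit 78) (nat_lit 0) (nat_lit 0) (XT.lf (nat_lit 0) (nat_lit 93930324101) (nat_lit 380) (nat_lit 80425275725) (nat_lit 456) (nat_lit 843032191804) (nat_lit 121) (nat_lit 5) (nat_lit 126) (nat_lit 5) (nat_lit 127) (nat_lit 5) (nat_lit 476) (nat_lit 467) (nat_lit 257)) (XT.lf (nat_lit 0) (nat_lit 371895082106) (nat_lit 456) (nat_lit 46894092821) (nat_lit 76) (nat_lit 643438191303) (nat_lit 121) (nat_lit 5) (nat_lit 127) (nat_lit 5) (nat_lit 122) (nat_lit 5) (nat_lit 477) (nat_lit 467) (nat_lit 256)))) (XT.nd (nat_lit 156) (nat_lit 684) (nat_lit 0) (XT.nd (nat_lit 78) (nat_lit 304) (nat_lit 0) (XT.lf (nat_lit 0) (nat_lit 606191089303) (nat_lit 456) (nat_lit 186823427742) (nat_lit 76) (nat_lit 316591921438) (nat_lit 116) (nat_lit 5) (nat_lit 122) (nat_lit 5) (nat_lit 117) (nat_lit 5) (nat_lit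 478) (nat_lit 467) (nat_lit 255)) (XT.lf (nat_lit 0) (nat_lit 830479437160) (nat_lit 304) (nat_lit 49609247422) (nat_lit 380) (nat_lit 279644256560) (nat_lit 112) (nat_lit 5) (nat_lit 116) (nat_lit 5) (nat_lit 117) (nat_lit 5) (nat_lit 479) (nat_lit 467) (nat_lit 254))) (XT.nd (nat_lit 78) (nat_lit 380) (nat_lit 0) (XT.lf (nat_lit 0) (nat_lit 733803386729) (nat_lit 304) (nat_lit 468619743114) (nat_lit 380) (nat_lit 10120182056) (nat_lit 108) (nat_lit 5) (nat_lit 112) (nat_lit 5) (nat_lit 113) (nat_lit 5) (nat_lit 480) (nat_lit 467) (nat_lit 253)) (XT.lf (nat_lit 0) (nat_lit 294102295867) (nat_lit 380) (nat_lit 634483030707) (nat_lit 76) (nat_lit 339667395637) (nat_lit 103) (nat_lit 5) (nat_lit 108) (nat_lit 5) (nat_lit 104) (nat_lit 5) (nat_lit 481) (nat_lit 467) (nat_lit 252)))))) (XT.nd (nat_lit 546) (nat_lit 836) (nat_lit 0) (XT.nd (nat_lit 234) (nat_lit 684) (nat_lit 0) (XT.nd (nat_lit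 78) (nat_lit 532) (nat_lit 0) (XT.lf (nat_lit 0) (nat_lit 533231390448) (nat_lit 304) (nat_lit 113784423236) (nat_lit 380) (nat_lit 680159386256) (nat_lit 99) (nat_lit 5) (nat_lit 103) (nat_lit 5) (nat_lit 104) (nat_lit 5) (nat_lit 482) (nat_lit 467) (nat_lit 251)) (XT.nd (nat_lit 78) (nat_lit 304) (nat_lit 0) (XT.lf (nat_lit 0) (nat_lit 428326682540) (nat_lit 228) (nat_lit 629719109689) (nat_lit 304) (nat_lit 331271514695) (nat_lit 96) (nat_lit 5) (nat_lit 99) (nat_lit 5) (nat_lit 100) (nat_lit 5) (nat_lit 483) (nat_lit 467) (nat_lit 250)) (XT.lf (nat_lit 0) (nat_lit 69290363875) (nat_lit 304) (nat_lit 1130799703840) (nat_lit 76) (nat_lit 255044167350) (nat_lit 92) (nat_lit 5) (nat_lit 96) (nat_lit 5) (nat_lit 93) (nat_lit 5) (nat_lit 484) (nat_lit 467) (nat_lit 249)))) (XT.nd (nat_lit 156) (nat_lit 228) (nat_lit 0) (XT.nd (nat_lit 78) (nat_lit 228) (nat_lit 0) (XT.lf (nat_lit 0) (nat_lit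 211720732600) (nat_lit 228) (nat_lit 309663503140) (nat_lit 304) (nat_lit 1003006088531) (nat_lit 89) (nat_lit 5) (nat_lit 92) (nat_lit 5) (nat_lit 93) (nat_lit 5) (nat_lit 485) (nat_lit 467) (nat_lit 248)) (XT.lf (nat_lit 0) (nat_lit 96404399983) (nat_lit 228) (nat_lit 944946572144) (nat_lit 304) (nat_lit 556250660746) (nat_lit 86) (nat_lit 5) (nat_lit 89) (nat_lit 5) (nat_lit 90) (nat_lit 5) (nat_lit 486) (nat_lit 467) (nat_lit 247))) (XT.nd (nat_lit 78) (nat_lit 228) (nat_lit 0) (XT.lf (nat_lit 0) (nat_lit 1631367305921) (nat_lit 304) (nat_lit 16033653538) (nat_lit 76) (nat_lit 27846273783) (nat_lit 86) (nat_lit 5) (nat_lit 90) (nat_lit 5) (nat_lit 87) (nat_lit 5) (nat_lit 487) (nat_lit 467) (nat_lit 246)) (XT.lf (nat_lit 0) (nat_lit 535139279272) (nat_lit 228) (nat_lit 141684125187) (nat_lit 76) (nat_lit 1079785087732) (nat_lit 83) (nat_lit 5) (nat_lit 86) (nat_lit 5) (nat_lit 84) (nat_lit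 5) (nat_lit 488) (nat_lit 467) (nat_lit 245))))) (XT.nd (nat_lit 234) (nat_lit 152) (nat_lit 0) (XT.nd (nat_lit 78) (nat_lit 456) (nat_lit 0) (XT.lf (nat_lit 0) (nat_lit 1190172691294) (nat_lit 304) (nat_lit 267044515200) (nat_lit 76) (nat_lit 385663977818) (nat_lit 80) (nat_lit 5) (nat_lit 84) (nat_lit 5) (nat_lit 81) (nat_lit 5) (nat_lit 489) (nat_lit 467) (nat_lit 244)) (XT.nd (nat_lit 78) (nat_lit 228) (nat_lit 0) (XT.lf (nat_lit 0) (nat_lit 1333364611) (nat_lit 228) (nat_lit 396533085993) (nat_lit 76) (nat_lit 1536291767468) (nat_lit 77) (nat_lit 5) (nat_lit 80) (nat_lit 5) (nat_lit 78) (nat_lit 5) (nat_lit 490) (nat_lit 467) (nat_lit 243)) (XT.lf (nat_lit 0) (nat_lit 725586670167) (nat_lit 304) (nat_lit 542424487660) (nat_lit 76) (nat_lit 762153458472) (nat_lit 74) (nat_lit 5) (nat_lit 78) (nat_lit 5) (nat_lit 75) (nat_lit 5) (nat_lit 491) (nat_lit 467) (nat_lit 242)))) (XT.nd (nat_lit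 60684) (nat_lit 0) (nat_lit 5016) (XT.nd (nat_lit 60606) (nat_lit 0) (nat_lit 4940) (XT.lf (nat_lit 0) (nat_lit 1442764587715) (nat_lit 152) (nat_lit 101270586317) (nat_lit 228) (nat_lit 588003605662) (nat_lit 72) (nat_lit 5) (nat_lit 74) (nat_lit 5) (nat_lit 75) (nat_lit 5) (nat_lit 492) (nat_lit 467) (nat_lit 241)) (XT.lf (nat_lit 0) (nat_lit 147954606361) (nat_lit 836) (nat_lit 116322151638) (nat_lit 836) (nat_lit 116322151638) (nat_lit 137) (nat_lit 3) (nat_lit 148) (nat_lit 3) (nat_lit 148) (nat_lit 5) (nat_lit 468) (nat_lit 468) (nat_lit 264))) (XT.nd (nat_lit 78) (nat_lit 0) (nat_lit 0) (XT.lf (nat_lit 0) (nat_lit 314748628662) (nat_lit 760) (nat_lit 411285774112) (nat_lit 836) (nat_lit 65261176860) (nat_lit 138) (nat_lit 5) (nat_lit 148) (nat_lit 5) (nat_lit 149) (nat_lit 5) (nat_lit 469) (nat_lit 468) (nat_lit 263)) (XT.lf (nat_lit 76) (nat_lit 224594980001) (nat_lit 0) (nat_lit 127038083614)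 (nat_lit 836) (nat_lit 471341203924) (nat_lit 139) (nat_lit 5) (nat_lit 138) (nat_lit 5) (nat_lit 149) (nat_lit 5) (nat_lit 470) (nat_lit 468) (nat_lit 262))))))) (XT.nd (nat_lit 1092) (nat_lit 1672) (nat_lit 0) (XT.nd (nat_lit 546) (nat_lit 1900) (nat_lit 0) (XT.nd (nat_lit 234) (nat_lit 1368) (nat_lit 0) (XT.nd (nat_lit 78) (nat_lit 0) (nat_lit 76) (XT.lf (nat_lit 76) (nat_lit 62985770320) (nat_lit 0) (nat_lit 344864383774) (nat_lit 836) (nat_lit 448518001349) (nat_lit 140) (nat_lit 5) (nat_lit 139) (nat_lit 5) (nat_lit 150) (nat_lit 5) (nat_lit 471) (nat_lit 468) (nat_lit 261)) (XT.nd (nat_lit 78) (nat_lit 0) (nat_lit 76) (XT.lf (nat_lit 0) (nat_lit 486018543269) (nat_lit 760) (nat_lit 100314997869) (nat_lit 836) (nat_lit 305227316673) (nat_lit 140) (nat_lit 5) (nat_lit 150) (nat_lit 5) (nat_lit 151) (nat_lit 5) (nat_lit 472) (nat_lit 468) (nat_lit 260)) (XT.lf (nat_lit 0) (nat_lit 587818729819)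 (nat_lit 760) (nat_lit 266339658862) (nat_lit 836) (nat_lit 74541671377) (nat_lit 141) (nat_lit 5) (nat_lit 151) (nat_lit 5) (nat_lit 152) (nat_lit 5) (nat_lit 473) (nat_lit 468) (nat_lit 259)))) (XT.nd (nat_lit 156) (nat_lit 836) (nat_lit 0) (XT.nd (nat_lit 78) (nat_lit 684) (nat_lit 0) (XT.lf (nat_lit 76) (nat_lit 527889469269) (nat_lit 0) (nat_lit 189778006378) (nat_lit 836) (nat_lit 250147695624) (nat_lit 142) (nat_lit 5) (nat_lit 141) (nat_lit 5) (nat_lit 152) (nat_lit 5) (nat_lit 474) (nat_lit 468) (nat_lit 258)) (XT.lf (nat_lit 0) (nat_lit 389490678950) (nat_lit 760) (nat_lit 487449693198) (nat_lit 836) (nat_lit 132167306687) (nat_lit 132) (nat_lit 5) (nat_lit 142) (nat_lit 5) (nat_lit 143) (nat_lit 5) (nat_lit 475) (nat_lit 468) (nat_lit 257))) (XT.nd (nat_lit 78) (nat_lit 380) (nat_lit 0) (XT.lf (nat_lit 0) (nat_lit 14114796763) (nat_lit 456) (nat_lit 804262365712) (nat_lit 76) (nat_lit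 234394566280) (nat_lit 126) (nat_lit 5) (nat_lit 132) (nat_lit 5) (nat_lit 127) (nat_lit 5) (nat_lit 476) (nat_lit 468) (nat_lit 256)) (XT.lf (nat_lit 0) (nat_lit 101444969338) (nat_lit 380) (nat_lit 86859295374) (nat_lit 456) (nat_lit 910474539359) (nat_lit 121) (nat_lit 5) (nat_lit 126) (nat_lit 5) (nat_lit 127) (nat_lit 5) (nat_lit 477) (nat_lit 468) (nat_lit 255))))) (XT.nd (nat_lit 234) (nat_lit 1216) (nat_lit 0) (XT.nd (nat_lit 78) (nat_lit 684) (nat_lit 0) (XT.lf (nat_lit 0) (nat_lit 401646889543) (nat_lit 456) (nat_lit 50645407135) (nat_lit 76) (nat_lit 694913248766) (nat_lit 121) (nat_lit 5) (nat_lit 127) (nat_lit 5) (nat_lit 122) (nat_lit 5) (nat_lit 478) (nat_lit 468) (nat_lit 254)) (XT.nd (nat_lit 78) (nat_lit 304) (nat_lit 0) (XT.lf (nat_lit 0) (nat_lit 654686565849) (nat_lit 456) (nat_lit 201769088845) (nat_lit 76) (nat_lit 341919289361) (nat_lit 116) (nat_lit 5) (nat_lit 122)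 (nat_lit 5) (nat_lit 117) (nat_lit 5) (nat_lit 479) (nat_lit 468) (nat_lit 253)) (XT.lf (nat_lit 0) (nat_lit 896917995988) (nat_lit 304) (nat_lit 53577961915) (nat_lit 380) (nat_lit 302015609568) (nat_lit 112) (nat_lit 5) (nat_lit 116) (nat_lit 5) (nat_lit 117) (nat_lit 5) (nat_lit 480) (nat_lit 468) (nat_lit 252)))) (XT.nd (nat_lit 156) (nat_lit 532) (nat_lit 0) (XT.nd (nat_lit 78) (nat_lit 380) (nat_lit 0) (XT.lf (nat_lit 0) (nat_lit 792507860859) (nat_lit 304) (nat_lit 506109288238) (nat_lit 380) (nat_lit 10929619279) (nat_lit 108) (nat_lit 5) (nat_lit 112) (nat_lit 5) (nat_lit 113) (nat_lit 5) (nat_lit 481) (nat_lit 468) (nat_lit 251)) (XT.lf (nat_lit 0) (nat_lit 317630642195) (nat_lit 380) (nat_lit 685241465802) (nat_lit 76) (nat_lit 366840823829) (nat_lit 103) (nat_lit 5) (nat_lit 108) (nat_lit 5) (nat_lit 104) (nat_lit 5) (nat_lit 482) (nat_lit 468) (nat_lit 250))) (XT.nd (nat_lit 78)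 (nat_lit 228) (nat_lit 0) (XT.lf (nat_lit 0) (nat_lit 575890100034) (nat_lit 304) (nat_lit 122887132452) (nat_lit 380) (nat_lit 734571975738) (nat_lit 99) (nat_lit 5) (nat_lit 103) (nat_lit 5) (nat_lit 104) (nat_lit 5) (nat_lit 483) (nat_lit 468) (nat_lit 249)) (XT.lf (nat_lit 0) (nat_lit 462593013583) (nat_lit 228) (nat_lit 680096588058) (nat_lit 304) (nat_lit 357773082511) (nat_lit 96) (nat_lit 5) (nat_lit 99) (nat_lit 5) (nat_lit 100) (nat_lit 5) (nat_lit 484) (nat_lit 468) (nat_lit 248)))))) (XT.nd (nat_lit 546) (nat_lit 228) (nat_lit 0) (XT.nd (nat_lit 234) (nat_lit 684) (nat_lit 0) (XT.nd (nat_lit 78) (nat_lit 456) (nat_lit 0) (XT.lf (nat_lit 0) (nat_lit 74833734262) (nat_lit 304) (nat_lit 1221263481297) (nat_lit 76) (nat_lit 275447751227) (nat_lit 92) (nat_lit 5) (nat_lit 96) (nat_lit 5) (nat_lit 93) (nat_lit 5) (nat_lit 485) (nat_lit 468) (nat_lit 247)) (XT.nd (nat_lit 78) (nat_lit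 228) (nat_lit 0) (XT.lf (nat_lit 0) (nat_lit 228658581417) (nat_lit 228) (nat_lit 334436526963) (nat_lit 304) (nat_lit 1083246435123) (nat_lit 89) (nat_lit 5) (nat_lit 92) (nat_lit 5) (nat_lit 93) (nat_lit 5) (nat_lit 486) (nat_lit 468) (nat_lit 246)) (XT.lf (nat_lit 0) (nat_lit 104116939499) (nat_lit 228) (nat_lit 1020542238014) (nat_lit 304) (nat_lit 600750579592) (nat_lit 86) (nat_lit 5) (nat_lit 89) (nat_lit 5) (nat_lit 90) (nat_lit 5) (nat_lit 487) (nat_lit 468) (nat_lit 245)))) (XT.nd (nat_lit 156) (nat_lit 456) (nat_lit 0) (XT.nd (nat_lit 78) (nat_lit 228) (nat_lit 0) (XT.lf (nat_lit 0) (nat_lit 1761876809423) (nat_lit 304) (nat_lit 17316167135) (nat_lit 76) (nat_lit 30074029376) (nat_lit 86) (nat_lit 5) (nat_lit 90) (nat_lit 5) (nat_lit 87) (nat_lit 5) (nat_lit 488) (nat_lit 468) (nat_lit 244)) (XT.lf (nat_lit 0) (nat_lit 577950536359) (nat_lit 228) (nat_lit 153018680472) (nat_lit 76)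 (nat_lit 1166167948983) (nat_lit 83) (nat_lit 5) (nat_lit 86) (nat_lit 5) (nat_lit 84) (nat_lit 5) (nat_lit 489) (nat_lit 468) (nat_lit 243))) (XT.nd (nat_lit 78) (nat_lit 228) (nat_lit 0) (XT.lf (nat_lit 0) (nat_lit 1285386616362) (nat_lit 304) (nat_lit 288407904733) (nat_lit 76) (nat_lit 416517152459) (nat_lit 80) (nat_lit 5) (nat_lit 84) (nat_lit 5) (nat_lit 81) (nat_lit 5) (nat_lit 490) (nat_lit 468) (nat_lit 242)) (XT.lf (nat_lit 0) (nat_lit 1440139698) (nat_lit 228) (nat_lit 428255565136) (nat_lit 76) (nat_lit 1659195165375) (nat_lit 77) (nat_lit 5) (nat_lit 80) (nat_lit 5) (nat_lit 78) (nat_lit 5) (nat_lit 491) (nat_lit 468) (nat_lit 241))))) (XT.nd (nat_lit 60918) (nat_lit 0) (nat_lit 4940) (XT.nd (nat_lit 60762) (nat_lit 0) (nat_lit 4864) (XT.nd (nat_lit 60684) (nat_lit 0) (nat_lit 4788) (XT.lf (nat_lit 0) (nat_lit 783633705293) (nat_lit 304) (nat_lit 585818282120) (nat_lit 76) (nat_lit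 823125793103) (nat_lit 74) (nat_lit 5) (nat_lit 78) (nat_lit 5) (nat_lit 75) (nat_lit 5) (nat_lit 492) (nat_lit 468) (nat_lit 240)) (XT.lf (nat_lit 0) (nat_lit 159791144715) (nat_lit 836) (nat_lit 125627834580) (nat_lit 836) (nat_lit 125627834580) (nat_lit 137) (nat_lit 3) (nat_lit 148) (nat_lit 3) (nat_lit 148) (nat_lit 5) (nat_lit 469) (nat_lit 469) (nat_lit 262))) (XT.nd (nat_lit 78) (nat_lit 0) (nat_lit 0) (XT.lf (nat_lit 0) (nat_lit 339928833857) (nat_lit 760) (nat_lit 444188447195) (nat_lit 836) (nat_lit 70481929134) (nat_lit 138) (nat_lit 5) (nat_lit 148) (nat_lit 5) (nat_lit 149) (nat_lit 5) (nat_lit 470) (nat_lit 469) (nat_lit 261)) (XT.lf (nat_lit 76) (nat_lit 242562759039) (nat_lit 0) (nat_lit 137201244061) (nat_lit 836) (nat_lit 509048191054) (nat_lit 139) (nat_lit 5) (nat_lit 138) (nat_lit 5) (nat_lit 149) (nat_lit 5) (nat_lit 471) (nat_lit 469) (nat_lit 260)))) (XT.nd (nat_lit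 156) (nat_lit 0) (nat_lit 152) (XT.nd (nat_lit 78) (nat_lit 0) (nat_lit 76) (XT.lf (nat_lit 76) (nat_lit 68024820577) (nat_lit 0) (nat_lit 372453619735) (nat_lit 836) (nat_lit 484399153810) (nat_lit 140) (nat_lit 5) (nat_lit 139) (nat_lit 5) (nat_lit 150) (nat_lit 5) (nat_lit 472) (nat_lit 469) (nat_lit 259)) (XT.lf (nat_lit 0) (nat_lit 524900279100) (nat_lit 760) (nat_lit 108340009069) (nat_lit 836) (nat_lit 329645425591) (nat_lit 140) (nat_lit 5) (nat_lit 150) (nat_lit 5) (nat_lit 151) (nat_lit 5) (nat_lit 473) (nat_lit 469) (nat_lit 258))) (XT.nd (nat_lit 78) (nat_lit 0) (nat_lit 0) (XT.lf (nat_lit 0) (nat_lit 634844463822) (nat_lit 760) (nat_lit 287646638386) (nat_lit 836) (nat_lit 80504950821) (nat_lit 141) (nat_lit 5) (nat_lit 151) (nat_lit 5) (nat_lit 152) (nat_lit 5) (nat_lit 474) (nat_lit 469) (nat_lit 257)) (XT.lf (nat_lit 76) (nat_lit 570120811601) (nat_lit 0) (nat_lit 204960283148)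 (nat_lit 836) (nat_lit 270159279123) (nat_lit 142) (nat_lit 5) (nat_lit 141) (nat_lit 5) (nat_lit 152) (nat_lit 5) (nat_lit 475) (nat_lit 469) (nat_lit 256))))))))
noncomputable def xc124 : XT := (XT.nd (nat_lit 62946) (nat_lit 0) (nat_lit 228) (XT.nd (nat_lit 1170) (nat_lit 684) (nat_lit 0) (XT.nd (nat_lit 546) (nat_lit 1672) (nat_lit 0) (XT.nd (nat_lit 234) (nat_lit 988) (nat_lit 0) (XT.nd (nat_lit 78) (nat_lit 836) (nat_lit 0) (XT.lf (nat_lit 0) (nat_lit 420650121186) (nat_lit 760) (nat_lit 526445687818) (nat_lit 836) (nat_lit 142740473737) (nat_lit 132) (nat_lit 5) (nat_lit 142) (nat_lit 5) (nat_lit 143) (nat_lit 5) (nat_lit 476) (nat_lit 469) (nat_lit 255)) (XT.nd (nat_lit 78) (nat_lit 380) (nat_lit 0) (XT.lf (nat_lit 0) (nat_lit 15244178168) (nat_lit 456) (nat_lit 868603158405) (nat_lit 76) (nat_lit 253146120559) (nat_lit 126) (nat_lit 5) (nat_lit 132) (nat_lit 5) (nat_lit 127) (nat_lit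 5) (nat_lit 477) (nat_lit 469) (nat_lit 254)) (XT.lf (nat_lit 0) (nat_lit 109560754908) (nat_lit 380) (nat_lit 93808036939) (nat_lit 456) (nat_lit 983312307216) (nat_lit 121) (nat_lit 5) (nat_lit 126) (nat_lit 5) (nat_lit 127) (nat_lit 5) (nat_lit 478) (nat_lit 469) (nat_lit 253)))) (XT.nd (nat_lit 156) (nat_lit 608) (nat_lit 0) (XT.nd (nat_lit 78) (nat_lit 380) (nat_lit 0) (XT.lf (nat_lit 0) (nat_lit 433778812918) (nat_lit 456) (nat_lit 54696856998) (nat_lit 76) (nat_lit 750506310519) (nat_lit 121) (nat_lit 5) (nat_lit 127) (nat_lit 5) (nat_lit 122) (nat_lit 5) (nat_lit 479) (nat_lit 469) (nat_lit 252)) (XT.lf (nat_lit 0) (nat_lit 707061653497) (nat_lit 456) (nat_lit 217910433239) (nat_lit 76) (nat_lit 369272844691) (nat_lit 116) (nat_lit 5) (nat_lit 122) (nat_lit 5) (nat_lit 117) (nat_lit 5) (nat_lit 480) (nat_lit 469) (nat_lit 251))) (XT.nd (nat_lit 78) (nat_lit 304) (nat_lit 0) (XT.lf (nat_lit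 0) (nat_lit 968671610440) (nat_lit 304) (nat_lit 57864177177) (nat_lit 380) (nat_lit 326176697568) (nat_lit 112) (nat_lit 5) (nat_lit 116) (nat_lit 5) (nat_lit 117) (nat_lit 5) (nat_lit 481) (nat_lit 469) (nat_lit 250)) (XT.lf (nat_lit 0) (nat_lit 855908663931) (nat_lit 304) (nat_lit 546598001869) (nat_lit 380) (nat_lit 11803836779) (nat_lit 108) (nat_lit 5) (nat_lit 112) (nat_lit 5) (nat_lit 113) (nat_lit 5) (nat_lit 482) (nat_lit 469) (nat_lit 249))))) (XT.nd (nat_lit 234) (nat_lit 760) (nat_lit 0) (XT.nd (nat_lit 78) (nat_lit 532) (nat_lit 0) (XT.lf (nat_lit 0) (nat_lit 343041233024) (nat_lit 380) (nat_lit 740060605286) (nat_lit 76) (nat_lit 396188121064) (nat_lit 103) (nat_lit 5) (nat_lit 108) (nat_lit 5) (nat_lit 104) (nat_lit 5) (nat_lit 483) (nat_lit 469) (nat_lit 248)) (XT.nd (nat_lit 78) (nat_lit 228) (nat_lit 0) (XT.lf (nat_lit 0) (nat_lit 621961478090) (nat_lit 304) (nat_lit 132718064773)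 (nat_lit 380) (nat_lit 793337595407) (nat_lit 99) (nat_lit 5) (nat_lit 103) (nat_lit 5) (nat_lit 104) (nat_lit 5) (nat_lit 484) (nat_lit 469) (nat_lit 247)) (XT.lf (nat_lit 0) (nat_lit 499600623086) (nat_lit 228) (nat_lit 734504271887) (nat_lit 304) (nat_lit 386394797631) (nat_lit 96) (nat_lit 5) (nat_lit 99) (nat_lit 5) (nat_lit 100) (nat_lit 5) (nat_lit 485) (nat_lit 469) (nat_lit 246)))) (XT.nd (nat_lit 156) (nat_lit 228) (nat_lit 0) (XT.nd (nat_lit 78) (nat_lit 228) (nat_lit 0) (XT.lf (nat_lit 0) (nat_lit 80820554124) (nat_lit 304) (nat_lit 1318964389318) (nat_lit 76) (nat_lit 297483614611) (nat_lit 92) (nat_lit 5) (nat_lit 96) (nat_lit 5) (nat_lit 93) (nat_lit 5) (nat_lit 486) (nat_lit 469) (nat_lit 245)) (XT.lf (nat_lit 0) (nat_lit 246951431003) (nat_lit 228) (nat_lit 361191400743) (nat_lit 304) (nat_lit 1169906029485) (nat_lit 89) (nat_lit 5) (nat_lit 92) (nat_lit 5) (nat_lit 93) (nat_lit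 5) (nat_lit 487) (nat_lit 469) (nat_lit 244))) (XT.nd (nat_lit 78) (nat_lit 0) (nat_lit 0) (XT.lf (nat_lit 0) (nat_lit 112446455425) (nat_lit 228) (nat_lit 1102185565698) (nat_lit 304) (nat_lit 648810511064) (nat_lit 86) (nat_lit 5) (nat_lit 89) (nat_lit 5) (nat_lit 90) (nat_lit 5) (nat_lit 488) (nat_lit 469) (nat_lit 243)) (XT.lf (nat_lit 0) (nat_lit 1902827056224) (nat_lit 304) (nat_lit 18701307311) (nat_lit 76) (nat_lit 32479997756) (nat_lit 86) (nat_lit 5) (nat_lit 90) (nat_lit 5) (nat_lit 87) (nat_lit 5) (nat_lit 489) (nat_lit 469) (nat_lit 242)))))) (XT.nd (nat_lit 61230) (nat_lit 0) (nat_lit 2964) (XT.nd (nat_lit 60918) (nat_lit 0) (nat_lit 4636) (XT.nd (nat_lit 78) (nat_lit 228) (nat_lit 0) (XT.lf (nat_lit 0) (nat_lit 1388217639777) (nat_lit 304) (nat_lit 311480389921) (nat_lit 76) (nat_lit 449838573024) (nat_lit 80) (nat_lit 5) (nat_lit 84) (nat_lit 5) (nat_lit 81) (nat_lit 5) (nat_lit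 491) (nat_lit 469) (nat_lit 240)) (XT.nd (nat_lit 60762) (nat_lit 0) (nat_lit 4560) (XT.lf (nat_lit 0) (nat_lit 1555441683) (nat_lit 228) (nat_lit 462515866540) (nat_lit 76) (nat_lit 1791930827053) (nat_lit 77) (nat_lit 5) (nat_lit 80) (nat_lit 5) (nat_lit 78) (nat_lit 5) (nat_lit 492) (nat_lit 469) (nat_lit 239)) (XT.lf (nat_lit 0) (nat_lit 172574581906) (nat_lit 836) (nat_lit 135677984882) (nat_lit 836) (nat_lit 135677984882) (nat_lit 137) (nat_lit 3) (nat_lit 148) (nat_lit 3) (nat_lit 148) (nat_lit 5) (nat_lit 470) (nat_lit 470) (nat_lit 260)))) (XT.nd (nat_lit 156) (nat_lit 0) (nat_lit 76) (XT.nd (nat_lit 78) (nat_lit 0) (nat_lit 0) (XT.lf (nat_lit 0) (nat_lit 367123410544) (nat_lit 760) (nat_lit 479723361067) (nat_lit 836) (nat_lit 76120361829) (nat_lit 138) (nat_lit 5) (nat_lit 148) (nat_lit 5) (nat_lit 149) (nat_lit 5) (nat_lit 471) (nat_lit 470) (nat_lit 259)) (XT.lf (nat_lit 76) (nat_lit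 261967934630) (nat_lit 0) (nat_lit 148177441116) (nat_lit 836) (nat_lit 549771781262) (nat_lit 139) (nat_lit 5) (nat_lit 138) (nat_lit 5) (nat_lit 149) (nat_lit 5) (nat_lit 472) (nat_lit 470) (nat_lit 258))) (XT.nd (nat_lit 78) (nat_lit 0) (nat_lit 76) (XT.lf (nat_lit 76) (nat_lit 73466967944) (nat_lit 0) (nat_lit 402249982409) (nat_lit 836) (nat_lit 523150839504) (nat_lit 140) (nat_lit 5) (nat_lit 139) (nat_lit 5) (nat_lit 150) (nat_lit 5) (nat_lit 473) (nat_lit 470) (nat_lit 257)) (XT.lf (nat_lit 0) (nat_lit 566892517794) (nat_lit 760) (nat_lit 117007048075) (nat_lit 836) (nat_lit 356016994123) (nat_lit 140) (nat_lit 5) (nat_lit 150) (nat_lit 5) (nat_lit 151) (nat_lit 5) (nat_lit 474) (nat_lit 470) (nat_lit 256))))) (XT.nd (nat_lit 234) (nat_lit 1216) (nat_lit 0) (XT.nd (nat_lit 78) (nat_lit 684) (nat_lit 0) (XT.lf (nat_lit 0) (nat_lit 685632222932) (nat_lit 760) (nat_lit 310658203831) (nat_lit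 836) (nat_lit 86945300362) (nat_lit 141) (nat_lit 5) (nat_lit 151) (nat_lit 5) (nat_lit 152) (nat_lit 5) (nat_lit 475) (nat_lit 470) (nat_lit 255)) (XT.nd (nat_lit 78) (nat_lit 684) (nat_lit 0) (XT.lf (nat_lit 76) (nat_lit 615730634956) (nat_lit 0) (nat_lit 221357136886) (nat_lit 836) (nat_lit 291771822420) (nat_lit 142) (nat_lit 5) (nat_lit 141) (nat_lit 5) (nat_lit 152) (nat_lit 5) (nat_lit 476) (nat_lit 470) (nat_lit 254)) (XT.lf (nat_lit 0) (nat_lit 454302291993) (nat_lit 760) (nat_lit 568561359274) (nat_lit 836) (nat_lit 154159525178) (nat_lit 132) (nat_lit 5) (nat_lit 142) (nat_lit 5) (nat_lit 143) (nat_lit 5) (nat_lit 477) (nat_lit 470) (nat_lit 253)))) (XT.nd (nat_lit 156) (nat_lit 380) (nat_lit 0) (XT.nd (nat_lit 78) (nat_lit 380) (nat_lit 0) (XT.lf (nat_lit 0) (nat_lit 16463881886) (nat_lit 456) (nat_lit 938091242555) (nat_lit 76) (nat_lit 273397800754) (nat_lit 126) (nat_lit 5) (nat_lit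 132) (nat_lit 5) (nat_lit 127) (nat_lit 5) (nat_lit 478) (nat_lit 470) (nat_lit 252)) (XT.lf (nat_lit 0) (nat_lit 118325776499) (nat_lit 380) (nat_lit 101312678124) (nat_lit 456) (nat_lit 1061977124361) (nat_lit 121) (nat_lit 5) (nat_lit 126) (nat_lit 5) (nat_lit 127) (nat_lit 5) (nat_lit 479) (nat_lit 470) (nat_lit 251))) (XT.nd (nat_lit 78) (nat_lit 380) (nat_lit 0) (XT.lf (nat_lit 0) (nat_lit 468481265596) (nat_lit 456) (nat_lit 59072448914) (nat_lit 76) (nat_lit 810546816947) (nat_lit 121) (nat_lit 5) (nat_lit 127) (nat_lit 5) (nat_lit 122) (nat_lit 5) (nat_lit 480) (nat_lit 470) (nat_lit 250)) (XT.lf (nat_lit 0) (nat_lit 763626724993) (nat_lit 456) (nat_lit 235343111251) (nat_lit 76) (nat_lit 398814682709) (nat_lit 116) (nat_lit 5) (nat_lit 122) (nat_lit 5) (nat_lit 117) (nat_lit 5) (nat_lit 481) (nat_lit 470) (nat_lit 249))))))) (XT.nd (nat_lit 61932) (nat_lit 0) (nat_lit 912) (XT.nd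 (nat_lit 546) (nat_lit 684) (nat_lit 0) (XT.nd (nat_lit 234) (nat_lit 1064) (nat_lit 0) (XT.nd (nat_lit 78) (nat_lit 684) (nat_lit 0) (XT.lf (nat_lit 0) (nat_lit 1046165489115) (nat_lit 304) (nat_lit 62493292754) (nat_lit 380) (nat_lit 352270695543) (nat_lit 112) (nat_lit 5) (nat_lit 116) (nat_lit 5) (nat_lit 117) (nat_lit 5) (nat_lit 482) (nat_lit 470) (nat_lit 248)) (XT.nd (nat_lit 78) (nat_lit 380) (nat_lit 0) (XT.lf (nat_lit 0) (nat_lit 924381506397) (nat_lit 304) (nat_lit 590325816789) (nat_lit 380) (nat_lit 12748013370) (nat_lit 108) (nat_lit 5) (nat_lit 112) (nat_lit 5) (nat_lit 113) (nat_lit 5) (nat_lit 483) (nat_lit 470) (nat_lit 247)) (XT.lf (nat_lit 0) (nat_lit 370484651225) (nat_lit 380) (nat_lit 799265301292) (nat_lit 76) (nat_lit 427883197609) (nat_lit 103) (nat_lit 5) (nat_lit 108) (nat_lit 5) (nat_lit 104) (nat_lit 5) (nat_lit 484) (nat_lit 470) (nat_lit 246)))) (XT.nd (nat_lit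 156) (nat_lit 532) (nat_lit 0) (XT.nd (nat_lit 78) (nat_lit 228) (nat_lit 0) (XT.lf (nat_lit 0) (nat_lit 671718542131) (nat_lit 304) (nat_lit 143335477141) (nat_lit 380) (nat_lit 856804484392) (nat_lit 99) (nat_lit 5) (nat_lit 103) (nat_lit 5) (nat_lit 104) (nat_lit 5) (nat_lit 485) (nat_lit 470) (nat_lit 245)) (XT.lf (nat_lit 0) (nat_lit 539568817322) (nat_lit 228) (nat_lit 793264576588) (nat_lit 304) (nat_lit 417306268718) (nat_lit 96) (nat_lit 5) (nat_lit 99) (nat_lit 5) (nat_lit 100) (nat_lit 5) (nat_lit 486) (nat_lit 470) (nat_lit 244))) (XT.nd (nat_lit 78) (nat_lit 228) (nat_lit 0) (XT.lf (nat_lit 0) (nat_lit 87286302296) (nat_lit 304) (nat_lit 1424481394303) (nat_lit 76) (nat_lit 321282340891) (nat_lit 92) (nat_lit 5) (nat_lit 96) (nat_lit 5) (nat_lit 93) (nat_lit 5) (nat_lit 487) (nat_lit 470) (nat_lit 243)) (XT.lf (nat_lit 0) (nat_lit 266707685293) (nat_lit 228) (nat_lit 390086671326)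 (nat_lit 304) (nat_lit 1263498408580) (nat_lit 89) (nat_lit 5) (nat_lit 92) (nat_lit 5) (nat_lit 93) (nat_lit 5) (nat_lit 488) (nat_lit 470) (nat_lit 242))))) (XT.nd (nat_lit 61074) (nat_lit 0) (nat_lit 4332) (XT.nd (nat_lit 156) (nat_lit 456) (nat_lit 0) (XT.lf (nat_lit 0) (nat_lit 121442309690) (nat_lit 228) (nat_lit 1190360366924) (nat_lit 304) (nat_lit 700715253445) (nat_lit 86) (nat_lit 5) (nat_lit 89) (nat_lit 5) (nat_lit 90) (nat_lit 5) (nat_lit 489) (nat_lit 470) (nat_lit 241)) (XT.nd (nat_lit 78) (nat_lit 228) (nat_lit 0) (XT.lf (nat_lit 0) (nat_lit 674121696196) (nat_lit 228) (nat_lit 178480698684) (nat_lit 76) (nat_lit 1360218385771) (nat_lit 83) (nat_lit 5) (nat_lit 86) (nat_lit 5) (nat_lit 84) (nat_lit 5) (nat_lit 491) (nat_lit 470) (nat_lit 239)) (XT.lf (nat_lit 0) (nat_lit 1499275131640) (nat_lit 304) (nat_lit 336398694923) (nat_lit 76) (nat_lit 485825700333) (nat_lit 80) (nat_lit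 5) (nat_lit 84) (nat_lit 5) (nat_lit 81) (nat_lit 5) (nat_lit 492) (nat_lit 470) (nat_lit 238)))) (XT.nd (nat_lit 156) (nat_lit 0) (nat_lit 76) (XT.nd (nat_lit 78) (nat_lit 0) (nat_lit 76) (XT.lf (nat_lit 0) (nat_lit 186380673300) (nat_lit 836) (nat_lit 146532158117) (nat_lit 836) (nat_lit 146532158117) (nat_lit 137) (nat_lit 3) (nat_lit 148) (nat_lit 3) (nat_lit 148) (nat_lit 5) (nat_lit 471) (nat_lit 471) (nat_lit 258)) (XT.lf (nat_lit 0) (nat_lit 396493514850) (nat_lit 760) (nat_lit 518101091145) (nat_lit 836) (nat_lit 82209886493) (nat_lit 138) (nat_lit 5) (nat_lit 148) (nat_lit 5) (nat_lit 149) (nat_lit 5) (nat_lit 472) (nat_lit 471) (nat_lit 257))) (XT.nd (nat_lit 78) (nat_lit 0) (nat_lit 76) (XT.lf (nat_lit 76) (nat_lit 282925502175) (nat_lit 0) (nat_lit 160031720021) (nat_lit 836) (nat_lit 593753296504) (nat_lit 139) (nat_lit 5) (nat_lit 138) (nat_lit 5) (nat_lit 149) (nat_lit 5) (nat_lit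 473) (nat_lit 471) (nat_lit 256)) (XT.lf (nat_lit 76) (nat_lit 79344464030) (nat_lit 0) (nat_lit 434430043669) (nat_lit 836) (nat_lit 565002695235) (nat_lit 140) (nat_lit 5) (nat_lit 139) (nat_lit 5) (nat_lit 150) (nat_lit 5) (nat_lit 474) (nat_lit 471) (nat_lit 255)))))) (XT.nd (nat_lit 546) (nat_lit 2204) (nat_lit 0) (XT.nd (nat_lit 234) (nat_lit 1444) (nat_lit 0) (XT.nd (nat_lit 78) (nat_lit 0) (nat_lit 76) (XT.lf (nat_lit 0) (nat_lit 612244104716) (nat_lit 760) (nat_lit 126367473272) (nat_lit 836) (nat_lit 384498297485) (nat_lit 140) (nat_lit 5) (nat_lit 150) (nat_lit 5) (nat_lit 151) (nat_lit 5) (nat_lit 475) (nat_lit 471) (nat_lit 254)) (XT.nd (nat_lit 78) (nat_lit 0) (nat_lit 0) (XT.lf (nat_lit 0) (nat_lit 740482973952) (nat_lit 760) (nat_lit 335510718140) (nat_lit 836) (nat_lit 93900884504) (nat_lit 141) (nat_lit 5) (nat_lit 151) (nat_lit 5) (nat_lit 152) (nat_lit 5) (nat_lit 476) (nat_lit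 471) (nat_lit 253)) (XT.lf (nat_lit 76) (nat_lit 664989221579) (nat_lit 0) (nat_lit 239065734488) (nat_lit 836) (nat_lit 315113397576) (nat_lit 142) (nat_lit 5) (nat_lit 141) (nat_lit 5) (nat_lit 152) (nat_lit 5) (nat_lit 477) (nat_lit 471) (nat_lit 252)))) (XT.nd (nat_lit 156) (nat_lit 380) (nat_lit 0) (XT.nd (nat_lit 78) (nat_lit 456) (nat_lit 0) (XT.lf (nat_lit 0) (nat_lit 490646613479) (nat_lit 760) (nat_lit 614046282102) (nat_lit 836) (nat_lit 166492127334) (nat_lit 132) (nat_lit 5) (nat_lit 142) (nat_lit 5) (nat_lit 143) (nat_lit 5) (nat_lit 478) (nat_lit 471) (nat_lit 251)) (XT.lf (nat_lit 0) (nat_lit 17781137725) (nat_lit 456) (nat_lit 1013138397478) (nat_lit 76) (nat_lit 295269616713) (nat_lit 126) (nat_lit 5) (nat_lit 132) (nat_lit 5) (nat_lit 127) (nat_lit 5) (nat_lit 479) (nat_lit 471) (nat_lit 250))) (XT.nd (nat_lit 78) (nat_lit 0) (nat_lit 0) (XT.lf (nat_lit 0) (nat_lit 127791976821)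 (nat_lit 380) (nat_lit 109417690856) (nat_lit 456) (nat_lit 1146935150764) (nat_lit 121) (nat_lit 5) (nat_lit 126) (nat_lit 5) (nat_lit 127) (nat_lit 5) (nat_lit 480) (nat_lit 471) (nat_lit 249)) (XT.lf (nat_lit 0) (nat_lit 505959893425) (nat_lit 456) (nat_lit 63798110531) (nat_lit 76) (nat_lit 875390563663) (nat_lit 121) (nat_lit 5) (nat_lit 127) (nat_lit 5) (nat_lit 122) (nat_lit 5) (nat_lit 481) (nat_lit 471) (nat_lit 248))))) (XT.nd (nat_lit 234) (nat_lit 1216) (nat_lit 0) (XT.nd (nat_lit 78) (nat_lit 608) (nat_lit 0) (XT.lf (nat_lit 0) (nat_lit 824716982347) (nat_lit 456) (nat_lit 254170425851) (nat_lit 76) (nat_lit 430719866280) (nat_lit 116) (nat_lit 5) (nat_lit 122) (nat_lit 5) (nat_lit 117) (nat_lit 5) (nat_lit 482) (nat_lit 471) (nat_lit 247)) (XT.nd (nat_lit 78) (nat_lit 304) (nat_lit 0) (XT.lf (nat_lit 0) (nat_lit 1129858856708) (nat_lit 304) (nat_lit 67492740230) (nat_lit 380)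 (nat_lit 380452233020) (nat_lit 112) (nat_lit 5) (nat_lit 116) (nat_lit 5) (nat_lit 117) (nat_lit 5) (nat_lit 483) (nat_lit 471) (nat_lit 246)) (XT.lf (nat_lit 0) (nat_lit 998332154954) (nat_lit 304) (nat_lit 637551860501) (nat_lit 380) (nat_lit 13767742685) (nat_lit 108) (nat_lit 5) (nat_lit 112) (nat_lit 5) (nat_lit 113) (nat_lit 5) (nat_lit 484) (nat_lit 471) (nat_lit 245)))) (XT.nd (nat_lit 156) (nat_lit 532) (nat_lit 0) (XT.nd (nat_lit 78) (nat_lit 304) (nat_lit 0) (XT.lf (nat_lit 0) (nat_lit 400123525826) (nat_lit 380) (nat_lit 863206394723) (nat_lit 76) (nat_lit 462113876445) (nat_lit 103) (nat_lit 5) (nat_lit 108) (nat_lit 5) (nat_lit 104) (nat_lit 5) (nat_lit 485) (nat_lit 471) (nat_lit 244)) (XT.lf (nat_lit 0) (nat_lit 725456150496) (nat_lit 304) (nat_lit 154802287180) (nat_lit 380) (nat_lit 925348741422) (nat_lit 99) (nat_lit 5) (nat_lit 103) (nat_lit 5) (nat_lit 104) (nat_lit 5)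 (nat_lit 486) (nat_lit 471) (nat_lit 243))) (XT.nd (nat_lit 78) (nat_lit 304) (nat_lit 0) (XT.lf (nat_lit 0) (nat_lit 582734446498) (nat_lit 228) (nat_lit 856725710951) (nat_lit 304) (nat_lit 450690673573) (nat_lit 96) (nat_lit 5) (nat_lit 99) (nat_lit 5) (nat_lit 100) (nat_lit 5) (nat_lit 487) (nat_lit 471) (nat_lit 242)) (XT.lf (nat_lit 0) (nat_lit 94269295508) (nat_lit 304) (nat_lit 1538439780537) (nat_lit 76) (nat_lit 346984959979) (nat_lit 92) (nat_lit 5) (nat_lit 96) (nat_lit 5) (nat_lit 93) (nat_lit 5) (nat_lit 488) (nat_lit 471) (nat_lit 241))))))))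
noncomputable def xc125 : XT := (XT.nd (nat_lit 124176) (nat_lit 0) (nat_lit 228) (XT.nd (nat_lit 62088) (nat_lit 0) (nat_lit 0) (XT.nd (nat_lit 61542) (nat_lit 0) (nat_lit 2280) (XT.nd (nat_lit 61230) (nat_lit 0) (nat_lit 3952) (XT.nd (nat_lit 156) (nat_lit 228) (nat_lit 0) (XT.lf (nat_lit 0) (nat_lit 288044419980) (nat_lit 228) (nat_lit 421293569473) (nat_lit 304) (nat_lit 1364578192734) (nat_lit 89) (nat_lit 5) (nat_lit 92) (nat_lit 5) (nat_lit 93) (nat_lit 5) (nat_lit 489) (nat_lit 471) (nat_lit 240)) (XT.nd (nat_lit 60996) (nat_lit 0) (nat_lit 3876) (XT.lf (nat_lit 0) (nat_lit 2219457647875) (nat_lit 304) (nat_lit 21812950399) (nat_lit 76) (nat_lit 37884745838) (nat_lit 86) (nat_lit 5) (nat_lit 90) (nat_lit 5) (nat_lit 87) (nat_lit 5) (nat_lit 491) (nat_lit 471) (nat_lit 238)) (XT.lf (nat_lit 0) (nat_lit 201291234195) (nat_lit 836) (nat_lit 158254674563) (nat_lit 836) (nat_lit 158254674563)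 (nat_lit 137) (nat_lit 3) (nat_lit 148) (nat_lit 3) (nat_lit 148) (nat_lit 5) (nat_lit 472) (nat_lit 472) (nat_lit 256)))) (XT.nd (nat_lit 156) (nat_lit 0) (nat_lit 76) (XT.nd (nat_lit 78) (nat_lit 0) (nat_lit 0) (XT.lf (nat_lit 0) (nat_lit 428213194480) (nat_lit 760) (nat_lit 559549059432) (nat_lit 836) (nat_lit 88786588007) (nat_lit 138) (nat_lit 5) (nat_lit 148) (nat_lit 5) (nat_lit 149) (nat_lit 5) (nat_lit 473) (nat_lit 472) (nat_lit 255)) (XT.lf (nat_lit 76) (nat_lit 305559656182) (nat_lit 0) (nat_lit 172834329310) (nat_lit 836) (nat_lit 641253365386) (nat_lit 139) (nat_lit 5) (nat_lit 138) (nat_lit 5) (nat_lit 149) (nat_lit 5) (nat_lit 474) (nat_lit 472) (nat_lit 254))) (XT.nd (nat_lit 78) (nat_lit 0) (nat_lit 76) (XT.lf (nat_lit 76) (nat_lit 85692140022) (nat_lit 0) (nat_lit 469184500890) (nat_lit 836) (nat_lit 610202729587) (nat_lit 140) (nat_lit 5) (nat_lit 139) (nat_lit 5) (nat_lit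 150) (nat_lit 5) (nat_lit 475) (nat_lit 472) (nat_lit 253)) (XT.lf (nat_lit 0) (nat_lit 661223792129) (nat_lit 760) (nat_lit 136476752265) (nat_lit 836) (nat_lit 415258113129) (nat_lit 140) (nat_lit 5) (nat_lit 150) (nat_lit 5) (nat_lit 151) (nat_lit 5) (nat_lit 476) (nat_lit 472) (nat_lit 252))))) (XT.nd (nat_lit 234) (nat_lit 1216) (nat_lit 0) (XT.nd (nat_lit 78) (nat_lit 684) (nat_lit 0) (XT.lf (nat_lit 0) (nat_lit 799721760347) (nat_lit 760) (nat_lit 362351453852) (nat_lit 836) (nat_lit 101412921068) (nat_lit 141) (nat_lit 5) (nat_lit 151) (nat_lit 5) (nat_lit 152) (nat_lit 5) (nat_lit 477) (nat_lit 472) (nat_lit 251)) (XT.nd (nat_lit 78) (nat_lit 684) (nat_lit 0) (XT.lf (nat_lit 76) (nat_lit 718188475754) (nat_lit 0) (nat_lit 258191016097) (nat_lit 836) (nat_lit 340322323087) (nat_lit 142) (nat_lit 5) (nat_lit 141) (nat_lit 5) (nat_lit 152) (nat_lit 5) (nat_lit 478) (nat_lit 472) (nat_lit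 250)) (XT.lf (nat_lit 0) (nat_lit 529898460979) (nat_lit 760) (nat_lit 663169996747) (nat_lit 836) (nat_lit 179811360468) (nat_lit 132) (nat_lit 5) (nat_lit 142) (nat_lit 5) (nat_lit 143) (nat_lit 5) (nat_lit 479) (nat_lit 472) (nat_lit 249)))) (XT.nd (nat_lit 156) (nat_lit 380) (nat_lit 0) (XT.nd (nat_lit 78) (nat_lit 380) (nat_lit 0) (XT.lf (nat_lit 0) (nat_lit 19203753304) (nat_lit 456) (nat_lit 1094189345407) (nat_lit 76) (nat_lit 318891179104) (nat_lit 126) (nat_lit 5) (nat_lit 132) (nat_lit 5) (nat_lit 127) (nat_lit 5) (nat_lit 480) (nat_lit 472) (nat_lit 248)) (XT.lf (nat_lit 0) (nat_lit 138015453452) (nat_lit 380) (nat_lit 118171104823) (nat_lit 456) (nat_lit 1238689839758) (nat_lit 121) (nat_lit 5) (nat_lit 126) (nat_lit 5) (nat_lit 127) (nat_lit 5) (nat_lit 481) (nat_lit 472) (nat_lit 247))) (XT.nd (nat_lit 78) (nat_lit 380) (nat_lit 0) (XT.lf (nat_lit 0) (nat_lit 546436793422) (nat_lit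 456) (nat_lit 68901844236) (nat_lit 76) (nat_lit 945421809923) (nat_lit 121) (nat_lit 5) (nat_lit 127) (nat_lit 5) (nat_lit 122) (nat_lit 5) (nat_lit 482) (nat_lit 472) (nat_lit 246)) (XT.lf (nat_lit 0) (nat_lit 890694443262) (nat_lit 456) (nat_lit 274503944779) (nat_lit 76) (nat_lit 465177463258) (nat_lit 116) (nat_lit 5) (nat_lit 122) (nat_lit 5) (nat_lit 117) (nat_lit 5) (nat_lit 483) (nat_lit 472) (nat_lit 245)))))) (XT.nd (nat_lit 546) (nat_lit 228) (nat_lit 0) (XT.nd (nat_lit 234) (nat_lit 1064) (nat_lit 0) (XT.nd (nat_lit 78) (nat_lit 684) (nat_lit 0) (XT.lf (nat_lit 0) (nat_lit 1220247675381) (nat_lit 304) (nat_lit 72892145780) (nat_lit 380) (nat_lit 410888310352) (nat_lit 112) (nat_lit 5) (nat_lit 116) (nat_lit 5) (nat_lit 117) (nat_lit 5) (nat_lit 484) (nat_lit 472) (nat_lit 244)) (XT.nd (nat_lit 78) (nat_lit 380) (nat_lit 0) (XT.lf (nat_lit 0) (nat_lit 1078198837128) (nat_lit 304)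 (nat_lit 688555990797) (nat_lit 380) (nat_lit 14869066287) (nat_lit 108) (nat_lit 5) (nat_lit 112) (nat_lit 5) (nat_lit 113) (nat_lit 5) (nat_lit 485) (nat_lit 472) (nat_lit 243)) (XT.lf (nat_lit 0) (nat_lit 432133495771) (nat_lit 380) (nat_lit 932262794269) (nat_lit 76) (nat_lit 499083006303) (nat_lit 103) (nat_lit 5) (nat_lit 108) (nat_lit 5) (nat_lit 104) (nat_lit 5) (nat_lit 486) (nat_lit 472) (nat_lit 242)))) (XT.nd (nat_lit 156) (nat_lit 532) (nat_lit 0) (XT.nd (nat_lit 78) (nat_lit 228) (nat_lit 0) (XT.lf (nat_lit 0) (nat_lit 783492749698) (nat_lit 304) (nat_lit 167186446034) (nat_lit 380) (nat_lit 999376553527) (nat_lit 99) (nat_lit 5) (nat_lit 103) (nat_lit 5) (nat_lit 104) (nat_lit 5) (nat_lit 487) (nat_lit 472) (nat_lit 241)) (XT.lf (nat_lit 0) (nat_lit 629353308348) (nat_lit 228) (nat_lit 925263740594) (nat_lit 304) (nat_lit 486745844603) (nat_lit 96) (nat_lit 5) (nat_lit 99) (nat_lit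 5) (nat_lit 100) (nat_lit 5) (nat_lit 488) (nat_lit 472) (nat_lit 240))) (XT.nd (nat_lit 78) (nat_lit 228) (nat_lit 0) (XT.lf (nat_lit 0) (nat_lit 101810915476) (nat_lit 304) (nat_lit 1661514855548) (nat_lit 76) (nat_lit 374743784055) (nat_lit 92) (nat_lit 5) (nat_lit 96) (nat_lit 5) (nat_lit 93) (nat_lit 5) (nat_lit 489) (nat_lit 472) (nat_lit 239)) (XT.lf (nat_lit 0) (nat_lit 311088076342) (nat_lit 228) (nat_lit 454997024545) (nat_lit 304) (nat_lit 1473744372250) (nat_lit 89) (nat_lit 5) (nat_lit 92) (nat_lit 5) (nat_lit 93) (nat_lit 5) (nat_lit 490) (nat_lit 472) (nat_lit 238))))) (XT.nd (nat_lit 61230) (nat_lit 0) (nat_lit 3952) (XT.nd (nat_lit 61074) (nat_lit 0) (nat_lit 3876) (XT.lf (nat_lit 0) (nat_lit 141650538953) (nat_lit 228) (nat_lit 1388436258848) (nat_lit 304) (nat_lit 817314108007) (nat_lit 86) (nat_lit 5) (nat_lit 89) (nat_lit 5) (nat_lit 90) (nat_lit 5) (nat_lit 491) (nat_lit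 472) (nat_lit 237)) (XT.nd (nat_lit 78) (nat_lit 0) (nat_lit 76) (XT.lf (nat_lit 0) (nat_lit 217394624692) (nat_lit 836) (nat_lit 170915000343) (nat_lit 836) (nat_lit 170915000343) (nat_lit 137) (nat_lit 3) (nat_lit 148) (nat_lit 3) (nat_lit 148) (nat_lit 5) (nat_lit 473) (nat_lit 473) (nat_lit 254)) (XT.lf (nat_lit 0) (nat_lit 462470420170) (nat_lit 760) (nat_lit 604312882160) (nat_lit 836) (nat_lit 95889438396) (nat_lit 138) (nat_lit 5) (nat_lit 148) (nat_lit 5) (nat_lit 149) (nat_lit 5) (nat_lit 474) (nat_lit 473) (nat_lit 253)))) (XT.nd (nat_lit 156) (nat_lit 0) (nat_lit 152) (XT.nd (nat_lit 78) (nat_lit 0) (nat_lit 76) (XT.lf (nat_lit 76) (nat_lit 330004526270) (nat_lit 0) (nat_lit 186661137115) (nat_lit 836) (nat_lit 692553467574) (nat_lit 139) (nat_lit 5) (nat_lit 138) (nat_lit 5) (nat_lit 149) (nat_lit 5) (nat_lit 475) (nat_lit 473) (nat_lit 252)) (XT.lf (nat_lit 76) (nat_lit 92547613136)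 (nat_lit 0) (nat_lit 506719307023) (nat_lit 836) (nat_lit 659018792547) (nat_lit 140) (nat_lit 5) (nat_lit 139) (nat_lit 5) (nat_lit 150) (nat_lit 5) (nat_lit 476) (nat_lit 473) (nat_lit 251))) (XT.nd (nat_lit 78) (nat_lit 0) (nat_lit 76) (XT.lf (nat_lit 0) (nat_lit 714121831847) (nat_lit 760) (nat_lit 147394790536) (nat_lit 836) (nat_lit 448478720894) (nat_lit 140) (nat_lit 5) (nat_lit 150) (nat_lit 5) (nat_lit 151) (nat_lit 5) (nat_lit 477) (nat_lit 473) (nat_lit 250)) (XT.lf (nat_lit 0) (nat_lit 863699628471) (nat_lit 760) (nat_lit 391339465788) (nat_lit 836) (nat_lit 109525925435) (nat_lit 141) (nat_lit 5) (nat_lit 151) (nat_lit 5) (nat_lit 152) (nat_lit 5) (nat_lit 478) (nat_lit 473) (nat_lit 249))))))) (XT.nd (nat_lit 62244) (nat_lit 0) (nat_lit 228) (XT.nd (nat_lit 546) (nat_lit 1748) (nat_lit 0) (XT.nd (nat_lit 234) (nat_lit 1064) (nat_lit 0) (XT.nd (nat_lit 78) (nat_lit 1140) (nat_lit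 0) (XT.lf (nat_lit 76) (nat_lit 775643653651) (nat_lit 0) (nat_lit 278846316974) (nat_lit 836) (nat_lit 367547983510) (nat_lit 142) (nat_lit 5) (nat_lit 141) (nat_lit 5) (nat_lit 152) (nat_lit 5) (nat_lit 479) (nat_lit 473) (nat_lit 248)) (XT.nd (nat_lit 78) (nat_lit 456) (nat_lit 0) (XT.lf (nat_lit 0) (nat_lit 572290439385) (nat_lit 760) (nat_lit 716223606841) (nat_lit 836) (nat_lit 194196151805) (nat_lit 132) (nat_lit 5) (nat_lit 142) (nat_lit 5) (nat_lit 143) (nat_lit 5) (nat_lit 480) (nat_lit 473) (nat_lit 247)) (XT.lf (nat_lit 0) (nat_lit 20740160360) (nat_lit 456) (nat_lit 1181724386842) (nat_lit 76) (nat_lit 344402467477) (nat_lit 126) (nat_lit 5) (nat_lit 132) (nat_lit 5) (nat_lit 127) (nat_lit 5) (nat_lit 481) (nat_lit 473) (nat_lit 246)))) (XT.nd (nat_lit 156) (nat_lit 684) (nat_lit 0) (XT.nd (nat_lit 78) (nat_lit 0) (nat_lit 0) (XT.lf (nat_lit 0) (nat_lit 149056791311) (nat_lit 380)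 (nat_lit 127624792094) (nat_lit 456) (nat_lit 1337784921428) (nat_lit 121) (nat_lit 5) (nat_lit 126) (nat_lit 5) (nat_lit 127) (nat_lit 5) (nat_lit 482) (nat_lit 473) (nat_lit 245)) (XT.lf (nat_lit 0) (nat_lit 590151829937) (nat_lit 456) (nat_lit 74413893063) (nat_lit 76) (nat_lit 1021055555716) (nat_lit 121) (nat_lit 5) (nat_lit 127) (nat_lit 5) (nat_lit 122) (nat_lit 5) (nat_lit 483) (nat_lit 473) (nat_lit 244))) (XT.nd (nat_lit 78) (nat_lit 304) (nat_lit 0) (XT.lf (nat_lit 0) (nat_lit 961950086453) (nat_lit 456) (nat_lit 296464161647) (nat_lit 76) (nat_lit 502391666900) (nat_lit 116) (nat_lit 5) (nat_lit 122) (nat_lit 5) (nat_lit 117) (nat_lit 5) (nat_lit 484) (nat_lit 473) (nat_lit 243)) (XT.lf (nat_lit 0) (nat_lit 1317867583836) (nat_lit 304) (nat_lit 78723505723) (nat_lit 380) (nat_lit 443759288323) (nat_lit 112) (nat_lit 5) (nat_lit 116) (nat_lit 5) (nat_lit 117) (nat_lit 5) (nat_lit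 485) (nat_lit 473) (nat_lit 242))))) (XT.nd (nat_lit 312) (nat_lit 760) (nat_lit 0) (XT.nd (nat_lit 78) (nat_lit 684) (nat_lit 0) (XT.lf (nat_lit 0) (nat_lit 1164454838215) (nat_lit 304) (nat_lit 743640454161) (nat_lit 380) (nat_lit 16058509447) (nat_lit 108) (nat_lit 5) (nat_lit 112) (nat_lit 5) (nat_lit 113) (nat_lit 5) (nat_lit 486) (nat_lit 473) (nat_lit 241)) (XT.nd (nat_lit 78) (nat_lit 304) (nat_lit 0) (XT.lf (nat_lit 0) (nat_lit 466704250776) (nat_lit 380) (nat_lit 1006843721762) (nat_lit 76) (nat_lit 539009663733) (nat_lit 103) (nat_lit 5) (nat_lit 108) (nat_lit 5) (nat_lit 104) (nat_lit 5) (nat_lit 487) (nat_lit 473) (nat_lit 240)) (XT.lf (nat_lit 0) (nat_lit 846172261548) (nat_lit 304) (nat_lit 180561341039) (nat_lit 380) (nat_lit 1079326603041) (nat_lit 99) (nat_lit 5) (nat_lit 103) (nat_lit 5) (nat_lit 104) (nat_lit 5) (nat_lit 488) (nat_lit 473) (nat_lit 239)))) (XT.nd (nat_lit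 61230) (nat_lit 0) (nat_lit 3648) (XT.nd (nat_lit 78) (nat_lit 228) (nat_lit 0) (XT.lf (nat_lit 0) (nat_lit 109955854153) (nat_lit 304) (nat_lit 1794435951885) (nat_lit 76) (nat_lit 404723310165) (nat_lit 92) (nat_lit 5) (nat_lit 96) (nat_lit 5) (nat_lit 93) (nat_lit 5) (nat_lit 490) (nat_lit 473) (nat_lit 237)) (XT.lf (nat_lit 0) (nat_lit 335975210553) (nat_lit 228) (nat_lit 491396760372) (nat_lit 304) (nat_lit 1591643856956) (nat_lit 89) (nat_lit 5) (nat_lit 92) (nat_lit 5) (nat_lit 93) (nat_lit 5) (nat_lit 491) (nat_lit 473) (nat_lit 236))) (XT.nd (nat_lit 78) (nat_lit 0) (nat_lit 76) (XT.lf (nat_lit 0) (nat_lit 234786273338) (nat_lit 836) (nat_lit 184588159059) (nat_lit 836) (nat_lit 184588159059) (nat_lit 137) (nat_lit 3) (nat_lit 148) (nat_lit 3) (nat_lit 148) (nat_lit 5) (nat_lit 474) (nat_lit 474) (nat_lit 252)) (XT.lf (nat_lit 0) (nat_lit 499468199645) (nat_lit 760) (nat_lit 652657825261)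 (nat_lit 836) (nat_lit 103560527752) (nat_lit 138) (nat_lit 5) (nat_lit 148) (nat_lit 5) (nat_lit 149) (nat_lit 5) (nat_lit 475) (nat_lit 474) (nat_lit 251)))))) (XT.nd (nat_lit 546) (nat_lit 2584) (nat_lit 0) (XT.nd (nat_lit 234) (nat_lit 912) (nat_lit 0) (XT.nd (nat_lit 78) (nat_lit 0) (nat_lit 76) (XT.lf (nat_lit 76) (nat_lit 356404972042) (nat_lit 0) (nat_lit 201594080776) (nat_lit 836) (nat_lit 747957601768) (nat_lit 139) (nat_lit 5) (nat_lit 138) (nat_lit 5) (nat_lit 149) (nat_lit 5) (nat_lit 476) (nat_lit 474) (nat_lit 250)) (XT.nd (nat_lit 78) (nat_lit 0) (nat_lit 76) (XT.lf (nat_lit 76) (nat_lit 99951509560) (nat_lit 0) (nat_lit 547256891076) (nat_lit 836) (nat_lit 711740162714) (nat_lit 140) (nat_lit 5) (nat_lit 139) (nat_lit 5) (nat_lit 150) (nat_lit 5) (nat_lit 477) (nat_lit 474) (nat_lit 249)) (XT.lf (nat_lit 0) (nat_lit 771251695290) (nat_lit 760) (nat_lit 159186286407) (nat_lit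 836) (nat_lit 484356983170) (nat_lit 140) (nat_lit 5) (nat_lit 150) (nat_lit 5) (nat_lit 151) (nat_lit 5) (nat_lit 478) (nat_lit 474) (nat_lit 248)))) (XT.nd (nat_lit 156) (nat_lit 1140) (nat_lit 0) (XT.nd (nat_lit 78) (nat_lit 0) (nat_lit 0) (XT.lf (nat_lit 0) (nat_lit 932795707885) (nat_lit 760) (nat_lit 422646533569) (nat_lit 836) (nat_lit 118287974334) (nat_lit 141) (nat_lit 5) (nat_lit 151) (nat_lit 5) (nat_lit 152) (nat_lit 5) (nat_lit 479) (nat_lit 474) (nat_lit 247)) (XT.lf (nat_lit 76) (nat_lit 837695231537) (nat_lit 0) (nat_lit 301154039127) (nat_lit 836) (nat_lit 396951714660) (nat_lit 142) (nat_lit 5) (nat_lit 141) (nat_lit 5) (nat_lit 152) (nat_lit 5) (nat_lit 480) (nat_lit 474) (nat_lit 246))) (XT.nd (nat_lit 78) (nat_lit 456) (nat_lit 0) (XT.lf (nat_lit 0) (nat_lit 618073761580) (nat_lit 760) (nat_lit 773521504265) (nat_lit 836) (nat_lit 209731743212) (nat_lit 132) (nat_lit 5)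 (nat_lit 142) (nat_lit 5) (nat_lit 143) (nat_lit 5) (nat_lit 481) (nat_lit 474) (nat_lit 245)) (XT.lf (nat_lit 0) (nat_lit 22399464745) (nat_lit 456) (nat_lit 1276262246742) (nat_lit 76) (nat_lit 371954659770) (nat_lit 126) (nat_lit 5) (nat_lit 132) (nat_lit 5) (nat_lit 127) (nat_lit 5) (nat_lit 482) (nat_lit 474) (nat_lit 244))))) (XT.nd (nat_lit 312) (nat_lit 1520) (nat_lit 0) (XT.nd (nat_lit 156) (nat_lit 684) (nat_lit 0) (XT.nd (nat_lit 78) (nat_lit 0) (nat_lit 0) (XT.lf (nat_lit 0) (nat_lit 160981421706) (nat_lit 380) (nat_lit 137834774505) (nat_lit 456) (nat_lit 1444807624684) (nat_lit 121) (nat_lit 5) (nat_lit 126) (nat_lit 5) (nat_lit 127) (nat_lit 5) (nat_lit 483) (nat_lit 474) (nat_lit 243)) (XT.lf (nat_lit 0) (nat_lit 637364056100) (nat_lit 456) (nat_lit 80366919879) (nat_lit 76) (nat_lit 1102740001031) (nat_lit 121) (nat_lit 5) (nat_lit 127) (nat_lit 5) (nat_lit 122) (nat_lit 5)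 (nat_lit 484) (nat_lit 474) (nat_lit 242))) (XT.nd (nat_lit 78) (nat_lit 304) (nat_lit 0) (XT.lf (nat_lit 0) (nat_lit 1038906168583) (nat_lit 456) (nat_lit 320181209947) (nat_lit 76) (nat_lit 542583005894) (nat_lit 116) (nat_lit 5) (nat_lit 122) (nat_lit 5) (nat_lit 117) (nat_lit 5) (nat_lit 485) (nat_lit 474) (nat_lit 241)) (XT.lf (nat_lit 0) (nat_lit 1423297071496) (nat_lit 304) (nat_lit 85021376133) (nat_lit 380) (nat_lit 479259956924) (nat_lit 112) (nat_lit 5) (nat_lit 116) (nat_lit 5) (nat_lit 117) (nat_lit 5) (nat_lit 486) (nat_lit 474) (nat_lit 240)))) (XT.nd (nat_lit 234) (nat_lit 836) (nat_lit 0) (XT.nd (nat_lit 78) (nat_lit 380) (nat_lit 0) (XT.lf (nat_lit 0) (nat_lit 1257611305962) (nat_lit 304) (nat_lit 803131676863) (nat_lit 380) (nat_lit 17343119778) (nat_lit 108) (nat_lit 5) (nat_lit 112) (nat_lit 5) (nat_lit 113) (nat_lit 5) (nat_lit 487) (nat_lit 474) (nat_lit 239)) (XT.lf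 (nat_lit 0) (nat_lit 504040655432) (nat_lit 380) (nat_lit 1087391137157) (nat_lit 76) (nat_lit 582130451343) (nat_lit 103) (nat_lit 5) (nat_lit 108) (nat_lit 5) (nat_lit 104) (nat_lit 5) (nat_lit 488) (nat_lit 474) (nat_lit 238))) (XT.nd (nat_lit 78) (nat_lit 304) (nat_lit 0) (XT.lf (nat_lit 0) (nat_lit 734077875135) (nat_lit 228) (nat_lit 1079227581796) (nat_lit 304) (nat_lit 567740215526) (nat_lit 96) (nat_lit 5) (nat_lit 99) (nat_lit 5) (nat_lit 100) (nat_lit 5) (nat_lit 490) (nat_lit 474) (nat_lit 236)) (XT.lf (nat_lit 0) (nat_lit 118752378588) (nat_lit 304) (nat_lit 1937990749070) (nat_lit 76) (nat_lit 437101195029) (nat_lit 92) (nat_lit 5) (nat_lit 96) (nat_lit 5) (nat_lit 93) (nat_lit 5) (nat_lit 491) (nat_lit 474) (nat_lit 235))))))))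
noncomputable def xc126 : XT := (XT.nd (nat_lit 63414) (nat_lit 0) (nat_lit 532) (XT.nd (nat_lit 1092) (nat_lit 912) (nat_lit 0) (XT.nd (nat_lit 546) (nat_lit 2204) (nat_lit 0) (XT.nd (nat_lit 234) (nat_lit 0) (nat_lit 152) (XT.nd (nat_lit 78) (nat_lit 0) (nat_lit 76) (XT.lf (nat_lit 0) (nat_lit 253569242653) (nat_lit 836) (nat_lit 199355176365) (nat_lit 836) (nat_lit 199355176365) (nat_lit 137) (nat_lit 3) (nat_lit 148) (nat_lit 3) (nat_lit 148) (nat_lit 5) (nat_lit 475) (nat_lit 475) (nat_lit 250)) (XT.nd (nat_lit 78) (nat_lit 0) (nat_lit 0) (XT.lf (nat_lit 0) (nat_lit 539425780669) (nat_lit 760) (nat_lit 704870376289) (nat_lit 836) (nat_lit 111845313632) (nat_lit 138) (nat_lit 5) (nat_lit 148) (nat_lit 5) (nat_lit 149) (nat_lit 5) (nat_lit 476) (nat_lit 475) (nat_lit 249)) (XT.lf (nat_lit 76) (nat_lit 384917441539) (nat_lit 0) (nat_lit 217721652413) (nat_lit 836) (nat_lit 807794087128) (nat_lit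 139) (nat_lit 5) (nat_lit 138) (nat_lit 5) (nat_lit 149) (nat_lit 5) (nat_lit 477) (nat_lit 475) (nat_lit 248)))) (XT.nd (nat_lit 156) (nat_lit 0) (nat_lit 152) (XT.nd (nat_lit 78) (nat_lit 0) (nat_lit 76) (XT.lf (nat_lit 76) (nat_lit 107947705233) (nat_lit 0) (nat_lit 591037476220) (nat_lit 836) (nat_lit 768679261503) (nat_lit 140) (nat_lit 5) (nat_lit 139) (nat_lit 5) (nat_lit 150) (nat_lit 5) (nat_lit 478) (nat_lit 475) (nat_lit 247)) (XT.lf (nat_lit 0) (nat_lit 832951931133) (nat_lit 760) (nat_lit 171921114412) (nat_lit 836) (nat_lit 523105511477) (nat_lit 140) (nat_lit 5) (nat_lit 150) (nat_lit 5) (nat_lit 151) (nat_lit 5) (nat_lit 479) (nat_lit 475) (nat_lit 246))) (XT.nd (nat_lit 78) (nat_lit 0) (nat_lit 0) (XT.lf (nat_lit 0) (nat_lit 1007419458083) (nat_lit 760) (nat_lit 456458179537) (nat_lit 836) (nat_lit 127750990731) (nat_lit 141) (nat_lit 5) (nat_lit 151) (nat_lit 5) (nat_lit 152)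 (nat_lit 5) (nat_lit 480) (nat_lit 475) (nat_lit 245)) (XT.lf (nat_lit 76) (nat_lit 904710923443) (nat_lit 0) (nat_lit 325246376657) (nat_lit 836) (nat_lit 428707759642) (nat_lit 142) (nat_lit 5) (nat_lit 141) (nat_lit 5) (nat_lit 152) (nat_lit 5) (nat_lit 481) (nat_lit 475) (nat_lit 244))))) (XT.nd (nat_lit 234) (nat_lit 988) (nat_lit 0) (XT.nd (nat_lit 78) (nat_lit 836) (nat_lit 0) (XT.lf (nat_lit 0) (nat_lit 667519737132) (nat_lit 760) (nat_lit 835403232216) (nat_lit 836) (nat_lit 226510196302) (nat_lit 132) (nat_lit 5) (nat_lit 142) (nat_lit 5) (nat_lit 143) (nat_lit 5) (nat_lit 482) (nat_lit 475) (nat_lit 243)) (XT.nd (nat_lit 78) (nat_lit 380) (nat_lit 0) (XT.lf (nat_lit 0) (nat_lit 24191500419) (nat_lit 456) (nat_lit 1378363148423) (nat_lit 76) (nat_lit 401711028174) (nat_lit 126) (nat_lit 5) (nat_lit 132) (nat_lit 5) (nat_lit 127) (nat_lit 5) (nat_lit 483) (nat_lit 475) (nat_lit 242))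 (XT.lf (nat_lit 0) (nat_lit 173860010109) (nat_lit 380) (nat_lit 148861555645) (nat_lit 456) (nat_lit 1560392157105) (nat_lit 121) (nat_lit 5) (nat_lit 126) (nat_lit 5) (nat_lit 127) (nat_lit 5) (nat_lit 484) (nat_lit 475) (nat_lit 241)))) (XT.nd (nat_lit 156) (nat_lit 608) (nat_lit 0) (XT.nd (nat_lit 78) (nat_lit 380) (nat_lit 0) (XT.lf (nat_lit 0) (nat_lit 688353248975) (nat_lit 456) (nat_lit 86796200913) (nat_lit 76) (nat_lit 1190959201849) (nat_lit 121) (nat_lit 5) (nat_lit 127) (nat_lit 5) (nat_lit 122) (nat_lit 5) (nat_lit 485) (nat_lit 475) (nat_lit 240)) (XT.lf (nat_lit 0) (nat_lit 1122018726553) (nat_lit 456) (nat_lit 345795634185) (nat_lit 76) (nat_lit 585989651203) (nat_lit 116) (nat_lit 5) (nat_lit 122) (nat_lit 5) (nat_lit 117) (nat_lit 5) (nat_lit 486) (nat_lit 475) (nat_lit 239))) (XT.nd (nat_lit 78) (nat_lit 304) (nat_lit 0) (XT.lf (nat_lit 0) (nat_lit 1537160906621) (nat_lit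 304) (nat_lit 91823077610) (nat_lit 380) (nat_lit 517600689636) (nat_lit 112) (nat_lit 5) (nat_lit 116) (nat_lit 5) (nat_lit 117) (nat_lit 5) (nat_lit 487) (nat_lit 475) (nat_lit 238)) (XT.lf (nat_lit 0) (nat_lit 1358220279617) (nat_lit 304) (nat_lit 867382199326) (nat_lit 380) (nat_lit 18730508982) (nat_lit 108) (nat_lit 5) (nat_lit 112) (nat_lit 5) (nat_lit 113) (nat_lit 5) (nat_lit 488) (nat_lit 475) (nat_lit 237)))))) (XT.nd (nat_lit 61776) (nat_lit 0) (nat_lit 1900) (XT.nd (nat_lit 61464) (nat_lit 0) (nat_lit 3116) (XT.nd (nat_lit 78) (nat_lit 532) (nat_lit 0) (XT.lf (nat_lit 0) (nat_lit 544363963245) (nat_lit 380) (nat_lit 1174382357531) (nat_lit 76) (nat_lit 628700899892) (nat_lit 103) (nat_lit 5) (nat_lit 108) (nat_lit 5) (nat_lit 104) (nat_lit 5) (nat_lit 489) (nat_lit 475) (nat_lit 236)) (XT.nd (nat_lit 78) (nat_lit 228) (nat_lit 0) (XT.lf (nat_lit 0) (nat_lit 986975478469) (nat_lit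 304) (nat_lit 210606713842) (nat_lit 380) (nat_lit 1258926425601) (nat_lit 99) (nat_lit 5) (nat_lit 103) (nat_lit 5) (nat_lit 104) (nat_lit 5) (nat_lit 490) (nat_lit 475) (nat_lit 235)) (XT.lf (nat_lit 0) (nat_lit 792804172026) (nat_lit 228) (nat_lit 1165565771178) (nat_lit 304) (nat_lit 613159380556) (nat_lit 96) (nat_lit 5) (nat_lit 99) (nat_lit 5) (nat_lit 100) (nat_lit 5) (nat_lit 491) (nat_lit 475) (nat_lit 234)))) (XT.nd (nat_lit 156) (nat_lit 0) (nat_lit 76) (XT.nd (nat_lit 78) (nat_lit 0) (nat_lit 76) (XT.lf (nat_lit 0) (nat_lit 273854839891) (nat_lit 836) (nat_lit 215303560110) (nat_lit 836) (nat_lit 215303560110) (nat_lit 137) (nat_lit 3) (nat_lit 148) (nat_lit 3) (nat_lit 148) (nat_lit 5) (nat_lit 476) (nat_lit 476) (nat_lit 248)) (XT.lf (nat_lit 0) (nat_lit 582579950334) (nat_lit 760) (nat_lit 761259942097) (nat_lit 836) (nat_lit 120792890419) (nat_lit 138) (nat_lit 5) (nat_lit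 148) (nat_lit 5) (nat_lit 149) (nat_lit 5) (nat_lit 477) (nat_lit 476) (nat_lit 247))) (XT.nd (nat_lit 78) (nat_lit 0) (nat_lit 76) (XT.lf (nat_lit 76) (nat_lit 415710898363) (nat_lit 0) (nat_lit 235139423337) (nat_lit 836) (nat_lit 872417508833) (nat_lit 139) (nat_lit 5) (nat_lit 138) (nat_lit 5) (nat_lit 149) (nat_lit 5) (nat_lit 478) (nat_lit 476) (nat_lit 246)) (XT.lf (nat_lit 76) (nat_lit 116583585873) (nat_lit 0) (nat_lit 638320503344) (nat_lit 836) (nat_lit 830173504491) (nat_lit 140) (nat_lit 5) (nat_lit 139) (nat_lit 5) (nat_lit 150) (nat_lit 5) (nat_lit 479) (nat_lit 476) (nat_lit 245))))) (XT.nd (nat_lit 234) (nat_lit 1444) (nat_lit 0) (XT.nd (nat_lit 78) (nat_lit 0) (nat_lit 76) (XT.lf (nat_lit 0) (nat_lit 899588171546) (nat_lit 760) (nat_lit 185674739344) (nat_lit 836) (nat_lit 564953926379) (nat_lit 140) (nat_lit 5) (nat_lit 150) (nat_lit 5) (nat_lit 151) (nat_lit 5) (nat_lit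 480) (nat_lit 476) (nat_lit 244)) (XT.nd (nat_lit 78) (nat_lit 0) (nat_lit 0) (XT.lf (nat_lit 0) (nat_lit 1088013094948) (nat_lit 760) (nat_lit 492974768128) (nat_lit 836) (nat_lit 137971051514) (nat_lit 141) (nat_lit 5) (nat_lit 151) (nat_lit 5) (nat_lit 152) (nat_lit 5) (nat_lit 481) (nat_lit 476) (nat_lit 243)) (XT.lf (nat_lit 76) (nat_lit 977087860232) (nat_lit 0) (nat_lit 351266099134) (nat_lit 836) (nat_lit 463004301375) (nat_lit 142) (nat_lit 5) (nat_lit 141) (nat_lit 5) (nat_lit 152) (nat_lit 5) (nat_lit 482) (nat_lit 476) (nat_lit 242)))) (XT.nd (nat_lit 156) (nat_lit 380) (nat_lit 0) (XT.nd (nat_lit 78) (nat_lit 456) (nat_lit 0) (XT.lf (nat_lit 0) (nat_lit 720921380082) (nat_lit 760) (nat_lit 902235497318) (nat_lit 836) (nat_lit 244630937961) (nat_lit 132) (nat_lit 5) (nat_lit 142) (nat_lit 5) (nat_lit 143) (nat_lit 5) (nat_lit 483) (nat_lit 476) (nat_lit 241)) (XT.lf (nat_lit 0)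 (nat_lit 26126887750) (nat_lit 456) (nat_lit 1488632133375) (nat_lit 76) (nat_lit 433847906675) (nat_lit 126) (nat_lit 5) (nat_lit 132) (nat_lit 5) (nat_lit 127) (nat_lit 5) (nat_lit 484) (nat_lit 476) (nat_lit 240))) (XT.nd (nat_lit 78) (nat_lit 0) (nat_lit 0) (XT.lf (nat_lit 0) (nat_lit 187768874932) (nat_lit 380) (nat_lit 160770479394) (nat_lit 456) (nat_lit 1685223463184) (nat_lit 121) (nat_lit 5) (nat_lit 126) (nat_lit 5) (nat_lit 127) (nat_lit 5) (nat_lit 485) (nat_lit 476) (nat_lit 239)) (XT.lf (nat_lit 0) (nat_lit 743421567525) (nat_lit 456) (nat_lit 93739834781) (nat_lit 76) (nat_lit 1286235938627) (nat_lit 121) (nat_lit 5) (nat_lit 127) (nat_lit 5) (nat_lit 122) (nat_lit 5) (nat_lit 486) (nat_lit 476) (nat_lit 238))))))) (XT.nd (nat_lit 62478) (nat_lit 0) (nat_lit 380) (XT.nd (nat_lit 61932) (nat_lit 0) (nat_lit 1368) (XT.nd (nat_lit 234) (nat_lit 380) (nat_lit 0) (XT.nd (nat_lit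 78) (nat_lit 608) (nat_lit 0) (XT.lf (nat_lit 0) (nat_lit 1211780279962) (nat_lit 456) (nat_lit 373459222713) (nat_lit 76) (nat_lit 632868827446) (nat_lit 116) (nat_lit 5) (nat_lit 122) (nat_lit 5) (nat_lit 117) (nat_lit 5) (nat_lit 487) (nat_lit 476) (nat_lit 237)) (XT.nd (nat_lit 78) (nat_lit 304) (nat_lit 0) (XT.lf (nat_lit 0) (nat_lit 1660133838654) (nat_lit 304) (nat_lit 99168916434) (nat_lit 380) (nat_lit 559008690072) (nat_lit 112) (nat_lit 5) (nat_lit 116) (nat_lit 5) (nat_lit 117) (nat_lit 5) (nat_lit 488) (nat_lit 476) (nat_lit 236)) (XT.lf (nat_lit 0) (nat_lit 1466877961296) (nat_lit 304) (nat_lit 936772765253) (nat_lit 380) (nat_lit 20228897936) (nat_lit 108) (nat_lit 5) (nat_lit 112) (nat_lit 5) (nat_lit 113) (nat_lit 5) (nat_lit 489) (nat_lit 476) (nat_lit 235)))) (XT.nd (nat_lit 61542) (nat_lit 0) (nat_lit 2660) (XT.nd (nat_lit 61464) (nat_lit 0) (nat_lit 2584) (XT.lf (nat_lit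 0) (nat_lit 587913127784) (nat_lit 380) (nat_lit 1268332885607) (nat_lit 76) (nat_lit 678996982549) (nat_lit 103) (nat_lit 5) (nat_lit 108) (nat_lit 5) (nat_lit 104) (nat_lit 5) (nat_lit 490) (nat_lit 476) (nat_lit 234)) (XT.lf (nat_lit 0) (nat_lit 295763276658) (nat_lit 836) (nat_lit 232527818885) (nat_lit 836) (nat_lit 232527818885) (nat_lit 137) (nat_lit 3) (nat_lit 148) (nat_lit 3) (nat_lit 148) (nat_lit 5) (nat_lit 477) (nat_lit 477) (nat_lit 246))) (XT.nd (nat_lit 78) (nat_lit 0) (nat_lit 0) (XT.lf (nat_lit 0) (nat_lit 629186438278) (nat_lit 760) (nat_lit 822160682343) (nat_lit 836) (nat_lit 130456280240) (nat_lit 138) (nat_lit 5) (nat_lit 148) (nat_lit 5) (nat_lit 149) (nat_lit 5) (nat_lit 478) (nat_lit 477) (nat_lit 245)) (XT.lf (nat_lit 76) (nat_lit 448967822958) (nat_lit 0) (nat_lit 253950610409) (nat_lit 836) (nat_lit 942210819292) (nat_lit 139) (nat_lit 5) (nat_lit 138) (nat_lit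 5) (nat_lit 149) (nat_lit 5) (nat_lit 479) (nat_lit 477) (nat_lit 244))))) (XT.nd (nat_lit 234) (nat_lit 1368) (nat_lit 0) (XT.nd (nat_lit 78) (nat_lit 0) (nat_lit 76) (XT.lf (nat_lit 76) (nat_lit 125910327803) (nat_lit 0) (nat_lit 689386168498) (nat_lit 836) (nat_lit 896587300888) (nat_lit 140) (nat_lit 5) (nat_lit 139) (nat_lit 5) (nat_lit 150) (nat_lit 5) (nat_lit 480) (nat_lit 477) (nat_lit 243)) (XT.nd (nat_lit 78) (nat_lit 0) (nat_lit 76) (XT.lf (nat_lit 0) (nat_lit 971555298934) (nat_lit 760) (nat_lit 200528663432) (nat_lit 836) (nat_lit 610150218184) (nat_lit 140) (nat_lit 5) (nat_lit 150) (nat_lit 5) (nat_lit 151) (nat_lit 5) (nat_lit 481) (nat_lit 477) (nat_lit 242)) (XT.lf (nat_lit 0) (nat_lit 1175054211318) (nat_lit 760) (nat_lit 532412693189) (nat_lit 836) (nat_lit 149008719795) (nat_lit 141) (nat_lit 5) (nat_lit 151) (nat_lit 5) (nat_lit 152) (nat_lit 5) (nat_lit 482) (nat_lit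 477) (nat_lit 241)))) (XT.nd (nat_lit 156) (nat_lit 836) (nat_lit 0) (XT.nd (nat_lit 78) (nat_lit 684) (nat_lit 0) (XT.lf (nat_lit 76) (nat_lit 1055254942989) (nat_lit 0) (nat_lit 379367397648) (nat_lit 836) (nat_lit 500044577723) (nat_lit 142) (nat_lit 5) (nat_lit 141) (nat_lit 5) (nat_lit 152) (nat_lit 5) (nat_lit 483) (nat_lit 477) (nat_lit 240)) (XT.lf (nat_lit 0) (nat_lit 778595145341) (nat_lit 760) (nat_lit 974414342698) (nat_lit 836) (nat_lit 264201349516) (nat_lit 132) (nat_lit 5) (nat_lit 142) (nat_lit 5) (nat_lit 143) (nat_lit 5) (nat_lit 484) (nat_lit 477) (nat_lit 239))) (XT.nd (nat_lit 78) (nat_lit 380) (nat_lit 0) (XT.lf (nat_lit 0) (nat_lit 28217096466) (nat_lit 456) (nat_lit 1607722646669) (nat_lit 76) (nat_lit 468555735992) (nat_lit 126) (nat_lit 5) (nat_lit 132) (nat_lit 5) (nat_lit 127) (nat_lit 5) (nat_lit 485) (nat_lit 477) (nat_lit 238)) (XT.lf (nat_lit 0) (nat_lit 202790439808)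 (nat_lit 380) (nat_lit 173632117142) (nat_lit 456) (nat_lit 1820041283235) (nat_lit 121) (nat_lit 5) (nat_lit 126) (nat_lit 5) (nat_lit 127) (nat_lit 5) (nat_lit 486) (nat_lit 477) (nat_lit 237)))))) (XT.nd (nat_lit 62010) (nat_lit 0) (nat_lit 988) (XT.nd (nat_lit 234) (nat_lit 304) (nat_lit 0) (XT.nd (nat_lit 78) (nat_lit 684) (nat_lit 0) (XT.lf (nat_lit 0) (nat_lit 802895343194) (nat_lit 456) (nat_lit 101238968233) (nat_lit 76) (nat_lit 1389134814257) (nat_lit 121) (nat_lit 5) (nat_lit 127) (nat_lit 5) (nat_lit 122) (nat_lit 5) (nat_lit 487) (nat_lit 477) (nat_lit 236)) (XT.nd (nat_lit 78) (nat_lit 304) (nat_lit 0) (XT.lf (nat_lit 0) (nat_lit 1308722749756) (nat_lit 456) (nat_lit 403335907197) (nat_lit 76) (nat_lit 683498337198) (nat_lit 116) (nat_lit 5) (nat_lit 122) (nat_lit 5) (nat_lit 117) (nat_lit 5) (nat_lit 488) (nat_lit 477) (nat_lit 235)) (XT.lf (nat_lit 0) (nat_lit 1792944596761)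 (nat_lit 304) (nat_lit 107102423417) (nat_lit 380) (nat_lit 603729338352) (nat_lit 112) (nat_lit 5) (nat_lit 116) (nat_lit 5) (nat_lit 117) (nat_lit 5) (nat_lit 489) (nat_lit 477) (nat_lit 234)))) (XT.nd (nat_lit 61620) (nat_lit 0) (nat_lit 2280) (XT.nd (nat_lit 61542) (nat_lit 0) (nat_lit 2204) (XT.lf (nat_lit 0) (nat_lit 1584228249048) (nat_lit 304) (nat_lit 1011714577884) (nat_lit 380) (nat_lit 21847165392) (nat_lit 108) (nat_lit 5) (nat_lit 112) (nat_lit 5) (nat_lit 113) (nat_lit 5) (nat_lit 490) (nat_lit 477) (nat_lit 233)) (XT.lf (nat_lit 0) (nat_lit 319424381294) (nat_lit 836) (nat_lit 251130022077) (nat_lit 836) (nat_lit 251130022077) (nat_lit 137) (nat_lit 3) (nat_lit 148) (nat_lit 3) (nat_lit 148) (nat_lit 5) (nat_lit 478) (nat_lit 478) (nat_lit 244))) (XT.nd (nat_lit 78) (nat_lit 0) (nat_lit 0) (XT.lf (nat_lit 0) (nat_lit 679521432144) (nat_lit 760) (nat_lit 887933489672) (nat_lit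 836) (nat_lit 140892747156) (nat_lit 138) (nat_lit 5) (nat_lit 148) (nat_lit 5) (nat_lit 149) (nat_lit 5) (nat_lit 479) (nat_lit 478) (nat_lit 243)) (XT.lf (nat_lit 76) (nat_lit 484885294000) (nat_lit 0) (nat_lit 274266687710) (nat_lit 836) (nat_lit 1017587607462) (nat_lit 139) (nat_lit 5) (nat_lit 138) (nat_lit 5) (nat_lit 149) (nat_lit 5) (nat_lit 480) (nat_lit 478) (nat_lit 242))))) (XT.nd (nat_lit 234) (nat_lit 1368) (nat_lit 0) (XT.nd (nat_lit 78) (nat_lit 0) (nat_lit 76) (XT.lf (nat_lit 76) (nat_lit 135983201232) (nat_lit 0) (nat_lit 744537083314) (nat_lit 836) (nat_lit 968314212976) (nat_lit 140) (nat_lit 5) (nat_lit 139) (nat_lit 5) (nat_lit 150) (nat_lit 5) (nat_lit 481) (nat_lit 478) (nat_lit 241)) (XT.nd (nat_lit 78) (nat_lit 0) (nat_lit 76) (XT.lf (nat_lit 0) (nat_lit 1049279786004) (nat_lit 760) (nat_lit 216570909303) (nat_lit 836) (nat_lit 658962216516) (nat_lit 140) (nat_lit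 5) (nat_lit 150) (nat_lit 5) (nat_lit 151) (nat_lit 5) (nat_lit 482) (nat_lit 478) (nat_lit 240)) (XT.lf (nat_lit 0) (nat_lit 1269058607187) (nat_lit 760) (nat_lit 575005660300) (nat_lit 836) (nat_lit 160929403799) (nat_lit 141) (nat_lit 5) (nat_lit 151) (nat_lit 5) (nat_lit 152) (nat_lit 5) (nat_lit 483) (nat_lit 478) (nat_lit 239)))) (XT.nd (nat_lit 156) (nat_lit 836) (nat_lit 0) (XT.nd (nat_lit 78) (nat_lit 684) (nat_lit 0) (XT.lf (nat_lit 76) (nat_lit 1139675384671) (nat_lit 0) (nat_lit 409716798534) (nat_lit 836) (nat_lit 540048085845) (nat_lit 142) (nat_lit 5) (nat_lit 141) (nat_lit 5) (nat_lit 152) (nat_lit 5) (nat_lit 484) (nat_lit 478) (nat_lit 238)) (XT.lf (nat_lit 0) (nat_lit 840882803995) (nat_lit 760) (nat_lit 1052367494910) (nat_lit 836) (nat_lit 285337403052) (nat_lit 132) (nat_lit 5) (nat_lit 142) (nat_lit 5) (nat_lit 143) (nat_lit 5) (nat_lit 485) (nat_lit 478) (nat_lit 237)))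 (XT.nd (nat_lit 78) (nat_lit 380) (nat_lit 0) (XT.lf (nat_lit 0) (nat_lit 30474513648) (nat_lit 456) (nat_lit 1736340409213) (nat_lit 76) (nat_lit 506040192113) (nat_lit 126) (nat_lit 5) (nat_lit 132) (nat_lit 5) (nat_lit 127) (nat_lit 5) (nat_lit 486) (nat_lit 478) (nat_lit 236)) (XT.lf (nat_lit 0) (nat_lit 219013722045) (nat_lit 380) (nat_lit 187522685997) (nat_lit 456) (nat_lit 1965644537022) (nat_lit 121) (nat_lit 5) (nat_lit 126) (nat_lit 5) (nat_lit 127) (nat_lit 5) (nat_lit 487) (nat_lit 478) (nat_lit 235))))))))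
noncomputable def xc127 : XT := (XT.nd (nat_lit 187122) (nat_lit 0) (nat_lit 1064) (XT.nd (nat_lit 62634) (nat_lit 0) (nat_lit 304) (XT.nd (nat_lit 62088) (nat_lit 0) (nat_lit 684) (XT.nd (nat_lit 61776) (nat_lit 0) (nat_lit 1900) (XT.nd (nat_lit 78) (nat_lit 684) (nat_lit 0) (XT.lf (nat_lit 0) (nat_lit 867127013746) (nat_lit 456) (nat_lit 109338039969) (nat_lit 76) (nat_lit 1500265599861) (nat_lit 121) (nat_lit 5) (nat_lit 127) (nat_lit 5) (nat_lit 122) (nat_lit 5) (nat_lit 488) (nat_lit 478) (nat_lit 234)) (XT.nd (nat_lit 78) (nat_lit 304) (nat_lit 0) (XT.lf (nat_lit 0) (nat_lit 1413420610372) (nat_lit 456) (nat_lit 435602734049) (nat_lit 76) (nat_lit 738178207222) (nat_lit 116) (nat_lit 5) (nat_lit 122) (nat_lit 5) (nat_lit 117) (nat_lit 5) (nat_lit 489) (nat_lit 478) (nat_lit 233)) (XT.lf (nat_lit 0) (nat_lit 1936380208238) (nat_lit 304) (nat_lit 115670611862) (nat_lit 380) (nat_lit 652027645189)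 (nat_lit 112) (nat_lit 5) (nat_lit 116) (nat_lit 5) (nat_lit 117) (nat_lit 5) (nat_lit 490) (nat_lit 478) (nat_lit 232)))) (XT.nd (nat_lit 156) (nat_lit 0) (nat_lit 76) (XT.nd (nat_lit 78) (nat_lit 0) (nat_lit 76) (XT.lf (nat_lit 0) (nat_lit 344978368237) (nat_lit 836) (nat_lit 271220404708) (nat_lit 836) (nat_lit 271220404708) (nat_lit 137) (nat_lit 3) (nat_lit 148) (nat_lit 3) (nat_lit 148) (nat_lit 5) (nat_lit 479) (nat_lit 479) (nat_lit 242)) (XT.lf (nat_lit 0) (nat_lit 733883214278) (nat_lit 760) (nat_lit 958968128330) (nat_lit 836) (nat_lit 152164136489) (nat_lit 138) (nat_lit 5) (nat_lit 148) (nat_lit 5) (nat_lit 149) (nat_lit 5) (nat_lit 480) (nat_lit 479) (nat_lit 241))) (XT.nd (nat_lit 78) (nat_lit 0) (nat_lit 76) (XT.lf (nat_lit 76) (nat_lit 523676156275) (nat_lit 0) (nat_lit 296208047133) (nat_lit 836) (nat_lit 1098994549724) (nat_lit 139) (nat_lit 5) (nat_lit 138) (nat_lit 5) (nat_lit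 149) (nat_lit 5) (nat_lit 481) (nat_lit 479) (nat_lit 240)) (XT.lf (nat_lit 76) (nat_lit 146861897801) (nat_lit 0) (nat_lit 804100068271) (nat_lit 836) (nat_lit 1045779288300) (nat_lit 140) (nat_lit 5) (nat_lit 139) (nat_lit 5) (nat_lit 150) (nat_lit 5) (nat_lit 482) (nat_lit 479) (nat_lit 239))))) (XT.nd (nat_lit 234) (nat_lit 1444) (nat_lit 0) (XT.nd (nat_lit 78) (nat_lit 0) (nat_lit 76) (XT.lf (nat_lit 0) (nat_lit 1133222223029) (nat_lit 760) (nat_lit 233896541577) (nat_lit 836) (nat_lit 711679177442) (nat_lit 140) (nat_lit 5) (nat_lit 150) (nat_lit 5) (nat_lit 151) (nat_lit 5) (nat_lit 483) (nat_lit 479) (nat_lit 238)) (XT.nd (nat_lit 78) (nat_lit 0) (nat_lit 0) (XT.lf (nat_lit 0) (nat_lit 1370583346313) (nat_lit 760) (nat_lit 621006071677) (nat_lit 836) (nat_lit 173803744460) (nat_lit 141) (nat_lit 5) (nat_lit 151) (nat_lit 5) (nat_lit 152) (nat_lit 5) (nat_lit 484) (nat_lit 479) (nat_lit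 237)) (XT.lf (nat_lit 76) (nat_lit 1230849455092) (nat_lit 0) (nat_lit 442494150196) (nat_lit 836) (nat_lit 583251882905) (nat_lit 142) (nat_lit 5) (nat_lit 141) (nat_lit 5) (nat_lit 152) (nat_lit 5) (nat_lit 485) (nat_lit 479) (nat_lit 236)))) (XT.nd (nat_lit 156) (nat_lit 380) (nat_lit 0) (XT.nd (nat_lit 78) (nat_lit 456) (nat_lit 0) (XT.lf (nat_lit 0) (nat_lit 908153468633) (nat_lit 760) (nat_lit 1136556898614) (nat_lit 836) (nat_lit 308164348635) (nat_lit 132) (nat_lit 5) (nat_lit 142) (nat_lit 5) (nat_lit 143) (nat_lit 5) (nat_lit 486) (nat_lit 479) (nat_lit 235)) (XT.lf (nat_lit 0) (nat_lit 32912517148) (nat_lit 456) (nat_lit 1875247599777) (nat_lit 76) (nat_lit 546523405118) (nat_lit 126) (nat_lit 5) (nat_lit 132) (nat_lit 5) (nat_lit 127) (nat_lit 5) (nat_lit 487) (nat_lit 479) (nat_lit 234))) (XT.nd (nat_lit 78) (nat_lit 0) (nat_lit 0) (XT.lf (nat_lit 0) (nat_lit 236534860149) (nat_lit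 380) (nat_lit 202524500434) (nat_lit 456) (nat_lit 2122896058084) (nat_lit 121) (nat_lit 5) (nat_lit 126) (nat_lit 5) (nat_lit 127) (nat_lit 5) (nat_lit 488) (nat_lit 479) (nat_lit 233)) (XT.lf (nat_lit 0) (nat_lit 936497211793) (nat_lit 456) (nat_lit 118085043966) (nat_lit 76) (nat_lit 1620286848247) (nat_lit 121) (nat_lit 5) (nat_lit 127) (nat_lit 5) (nat_lit 122) (nat_lit 5) (nat_lit 489) (nat_lit 479) (nat_lit 232)))))) (XT.nd (nat_lit 62166) (nat_lit 0) (nat_lit 380) (XT.nd (nat_lit 61854) (nat_lit 0) (nat_lit 1672) (XT.nd (nat_lit 61698) (nat_lit 0) (nat_lit 1596) (XT.lf (nat_lit 0) (nat_lit 1526494294041) (nat_lit 456) (nat_lit 470450913573) (nat_lit 76) (nat_lit 797232466413) (nat_lit 116) (nat_lit 5) (nat_lit 122) (nat_lit 5) (nat_lit 117) (nat_lit 5) (nat_lit 490) (nat_lit 479) (nat_lit 231)) (XT.nd (nat_lit 78) (nat_lit 0) (nat_lit 76) (XT.lf (nat_lit 0) (nat_lit 372576668938) (nat_lit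 836) (nat_lit 292918020679) (nat_lit 836) (nat_lit 292918020679) (nat_lit 137) (nat_lit 3) (nat_lit 148) (nat_lit 3) (nat_lit 148) (nat_lit 5) (nat_lit 480) (nat_lit 480) (nat_lit 240)) (XT.lf (nat_lit 0) (nat_lit 792593929343) (nat_lit 760) (nat_lit 1035685543860) (nat_lit 836) (nat_lit 164337241311) (nat_lit 138) (nat_lit 5) (nat_lit 148) (nat_lit 5) (nat_lit 149) (nat_lit 5) (nat_lit 481) (nat_lit 480) (nat_lit 239)))) (XT.nd (nat_lit 156) (nat_lit 0) (nat_lit 152) (XT.nd (nat_lit 78) (nat_lit 0) (nat_lit 76) (XT.lf (nat_lit 76) (nat_lit 565570282004) (nat_lit 0) (nat_lit 319904711829) (nat_lit 836) (nat_lit 1186914056831) (nat_lit 139) (nat_lit 5) (nat_lit 138) (nat_lit 5) (nat_lit 149) (nat_lit 5) (nat_lit 482) (nat_lit 480) (nat_lit 238)) (XT.lf (nat_lit 76) (nat_lit 158610884322) (nat_lit 0) (nat_lit 868428089415) (nat_lit 836) (nat_lit 1129441578454) (nat_lit 140) (nat_lit 5) (nat_lit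 139) (nat_lit 5) (nat_lit 150) (nat_lit 5) (nat_lit 483) (nat_lit 480) (nat_lit 237))) (XT.nd (nat_lit 78) (nat_lit 0) (nat_lit 76) (XT.lf (nat_lit 0) (nat_lit 1223880047293) (nat_lit 760) (nat_lit 252608230206) (nat_lit 836) (nat_lit 768613497581) (nat_lit 140) (nat_lit 5) (nat_lit 150) (nat_lit 5) (nat_lit 151) (nat_lit 5) (nat_lit 484) (nat_lit 480) (nat_lit 236)) (XT.lf (nat_lit 0) (nat_lit 1480230057357) (nat_lit 760) (nat_lit 670686521876) (nat_lit 836) (nat_lit 187708034035) (nat_lit 141) (nat_lit 5) (nat_lit 151) (nat_lit 5) (nat_lit 152) (nat_lit 5) (nat_lit 485) (nat_lit 480) (nat_lit 235))))) (XT.nd (nat_lit 234) (nat_lit 380) (nat_lit 0) (XT.nd (nat_lit 78) (nat_lit 1140) (nat_lit 0) (XT.lf (nat_lit 76) (nat_lit 1329317445489) (nat_lit 0) (nat_lit 477893688881) (nat_lit 836) (nat_lit 629911990835) (nat_lit 142) (nat_lit 5) (nat_lit 141) (nat_lit 5) (nat_lit 152) (nat_lit 5) (nat_lit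 486) (nat_lit 480) (nat_lit 234)) (XT.nd (nat_lit 78) (nat_lit 456) (nat_lit 0) (XT.lf (nat_lit 0) (nat_lit 980805780690) (nat_lit 760) (nat_lit 1227481454028) (nat_lit 836) (nat_lit 332817456522) (nat_lit 132) (nat_lit 5) (nat_lit 142) (nat_lit 5) (nat_lit 143) (nat_lit 5) (nat_lit 487) (nat_lit 480) (nat_lit 233)) (XT.lf (nat_lit 0) (nat_lit 35545554878) (nat_lit 456) (nat_lit 2025267371603) (nat_lit 76) (nat_lit 590245275499) (nat_lit 126) (nat_lit 5) (nat_lit 132) (nat_lit 5) (nat_lit 127) (nat_lit 5) (nat_lit 488) (nat_lit 480) (nat_lit 232)))) (XT.nd (nat_lit 61932) (nat_lit 0) (nat_lit 1292) (XT.nd (nat_lit 61854) (nat_lit 0) (nat_lit 1216) (XT.lf (nat_lit 0) (nat_lit 255457683546) (nat_lit 380) (nat_lit 218726460089) (nat_lit 456) (nat_lit 2292727706809) (nat_lit 121) (nat_lit 5) (nat_lit 126) (nat_lit 5) (nat_lit 127) (nat_lit 5) (nat_lit 489) (nat_lit 480) (nat_lit 231)) (XT.lf (nat_lit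 0) (nat_lit 402382829237) (nat_lit 836) (nat_lit 316351448269) (nat_lit 836) (nat_lit 316351448269) (nat_lit 137) (nat_lit 3) (nat_lit 148) (nat_lit 3) (nat_lit 148) (nat_lit 5) (nat_lit 481) (nat_lit 481) (nat_lit 238))) (XT.nd (nat_lit 78) (nat_lit 0) (nat_lit 0) (XT.lf (nat_lit 0) (nat_lit 856001493351) (nat_lit 760) (nat_lit 1118540357588) (nat_lit 836) (nat_lit 177484198243) (nat_lit 138) (nat_lit 5) (nat_lit 148) (nat_lit 5) (nat_lit 149) (nat_lit 5) (nat_lit 482) (nat_lit 481) (nat_lit 237)) (XT.lf (nat_lit 76) (nat_lit 610815933051) (nat_lit 0) (nat_lit 345497106714) (nat_lit 836) (nat_lit 1281867132619) (nat_lit 139) (nat_lit 5) (nat_lit 138) (nat_lit 5) (nat_lit 149) (nat_lit 5) (nat_lit 483) (nat_lit 481) (nat_lit 236))))))) (XT.nd (nat_lit 124878) (nat_lit 0) (nat_lit 836) (XT.nd (nat_lit 62400) (nat_lit 0) (nat_lit 456) (XT.nd (nat_lit 234) (nat_lit 988) (nat_lit 0) (XT.nd (nat_lit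 78) (nat_lit 0) (nat_lit 76) (XT.lf (nat_lit 76) (nat_lit 171299784815) (nat_lit 0) (nat_lit 937902350014) (nat_lit 836) (nat_lit 1219796859369) (nat_lit 140) (nat_lit 5) (nat_lit 139) (nat_lit 5) (nat_lit 150) (nat_lit 5) (nat_lit 484) (nat_lit 481) (nat_lit 235)) (XT.nd (nat_lit 78) (nat_lit 0) (nat_lit 76) (XT.lf (nat_lit 0) (nat_lit 1321790490875) (nat_lit 760) (nat_lit 272816858876) (nat_lit 836) (nat_lit 830102565337) (nat_lit 140) (nat_lit 5) (nat_lit 150) (nat_lit 5) (nat_lit 151) (nat_lit 5) (nat_lit 485) (nat_lit 481) (nat_lit 234)) (XT.lf (nat_lit 0) (nat_lit 1598648499103) (nat_lit 760) (nat_lit 724341413161) (nat_lit 836) (nat_lit 202724668200) (nat_lit 141) (nat_lit 5) (nat_lit 151) (nat_lit 5) (nat_lit 152) (nat_lit 5) (nat_lit 486) (nat_lit 481) (nat_lit 233)))) (XT.nd (nat_lit 156) (nat_lit 456) (nat_lit 0) (XT.nd (nat_lit 78) (nat_lit 684) (nat_lit 0) (XT.lf (nat_lit 76) (nat_lit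 1435662870270) (nat_lit 0) (nat_lit 516125189710) (nat_lit 836) (nat_lit 680304913492) (nat_lit 142) (nat_lit 5) (nat_lit 141) (nat_lit 5) (nat_lit 152) (nat_lit 5) (nat_lit 487) (nat_lit 481) (nat_lit 232)) (XT.lf (nat_lit 0) (nat_lit 1059270272780) (nat_lit 760) (nat_lit 1325679973373) (nat_lit 836) (nat_lit 359442818746) (nat_lit 132) (nat_lit 5) (nat_lit 142) (nat_lit 5) (nat_lit 143) (nat_lit 5) (nat_lit 488) (nat_lit 481) (nat_lit 231))) (XT.nd (nat_lit 61932) (nat_lit 0) (nat_lit 836) (XT.lf (nat_lit 0) (nat_lit 38389230440) (nat_lit 456) (nat_lit 2187288730334) (nat_lit 76) (nat_lit 637464895801) (nat_lit 126) (nat_lit 5) (nat_lit 132) (nat_lit 5) (nat_lit 127) (nat_lit 5) (nat_lit 489) (nat_lit 481) (nat_lit 230)) (XT.lf (nat_lit 0) (nat_lit 434573478539) (nat_lit 836) (nat_lit 341659552072) (nat_lit 836) (nat_lit 341659552072) (nat_lit 137) (nat_lit 3) (nat_lit 148) (nat_lit 3) (nat_lit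 148) (nat_lit 5) (nat_lit 482) (nat_lit 482) (nat_lit 236))))) (XT.nd (nat_lit 234) (nat_lit 456) (nat_lit 0) (XT.nd (nat_lit 78) (nat_lit 0) (nat_lit 0) (XT.lf (nat_lit 0) (nat_lit 924481655394) (nat_lit 760) (nat_lit 1208023560663) (nat_lit 836) (nat_lit 191682914920) (nat_lit 138) (nat_lit 5) (nat_lit 148) (nat_lit 5) (nat_lit 149) (nat_lit 5) (nat_lit 483) (nat_lit 482) (nat_lit 235)) (XT.nd (nat_lit 78) (nat_lit 0) (nat_lit 76) (XT.lf (nat_lit 76) (nat_lit 659681232118) (nat_lit 0) (nat_lit 373136890632) (nat_lit 836) (nat_lit 1384416461426) (nat_lit 139) (nat_lit 5) (nat_lit 138) (nat_lit 5) (nat_lit 149) (nat_lit 5) (nat_lit 484) (nat_lit 482) (nat_lit 234)) (XT.lf (nat_lit 76) (nat_lit 185003793104) (nat_lit 0) (nat_lit 1012934549542) (nat_lit 836) (nat_lit 1317380569228) (nat_lit 140) (nat_lit 5) (nat_lit 139) (nat_lit 5) (nat_lit 150) (nat_lit 5) (nat_lit 485) (nat_lit 482) (nat_lit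 233)))) (XT.nd (nat_lit 156) (nat_lit 608) (nat_lit 0) (XT.nd (nat_lit 78) (nat_lit 0) (nat_lit 76) (XT.lf (nat_lit 0) (nat_lit 1427533764265) (nat_lit 760) (nat_lit 294642182083) (nat_lit 836) (nat_lit 896510760232) (nat_lit 140) (nat_lit 5) (nat_lit 150) (nat_lit 5) (nat_lit 151) (nat_lit 5) (nat_lit 486) (nat_lit 482) (nat_lit 232)) (XT.lf (nat_lit 0) (nat_lit 1726540410887) (nat_lit 760) (nat_lit 782288700095) (nat_lit 836) (nat_lit 218942634320) (nat_lit 141) (nat_lit 5) (nat_lit 151) (nat_lit 5) (nat_lit 152) (nat_lit 5) (nat_lit 487) (nat_lit 482) (nat_lit 231))) (XT.nd (nat_lit 78) (nat_lit 684) (nat_lit 0) (XT.lf (nat_lit 76) (nat_lit 1550515924875) (nat_lit 0) (nat_lit 557415209789) (nat_lit 836) (nat_lit 734729275184) (nat_lit 142) (nat_lit 5) (nat_lit 141) (nat_lit 5) (nat_lit 152) (nat_lit 5) (nat_lit 488) (nat_lit 482) (nat_lit 230)) (XT.lf (nat_lit 0) (nat_lit 1144011920010)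 (nat_lit 760) (nat_lit 1431734373834) (nat_lit 836) (nat_lit 388198214842) (nat_lit 132) (nat_lit 5) (nat_lit 142) (nat_lit 5) (nat_lit 143) (nat_lit 5) (nat_lit 489) (nat_lit 482) (nat_lit 229)))))) (XT.nd (nat_lit 62634) (nat_lit 0) (nat_lit 76) (XT.nd (nat_lit 234) (nat_lit 0) (nat_lit 0) (XT.nd (nat_lit 78) (nat_lit 0) (nat_lit 76) (XT.lf (nat_lit 0) (nat_lit 469339376510) (nat_lit 836) (nat_lit 368992305900) (nat_lit 836) (nat_lit 368992305900) (nat_lit 137) (nat_lit 3) (nat_lit 148) (nat_lit 3) (nat_lit 148) (nat_lit 5) (nat_lit 483) (nat_lit 483) (nat_lit 234)) (XT.nd (nat_lit 78) (nat_lit 0) (nat_lit 0) (XT.lf (nat_lit 0) (nat_lit 998440224327) (nat_lit 760) (nat_lit 1304665423626) (nat_lit 836) (nat_lit 207017531669) (nat_lit 138) (nat_lit 5) (nat_lit 148) (nat_lit 5) (nat_lit 149) (nat_lit 5) (nat_lit 484) (nat_lit 483) (nat_lit 233)) (XT.lf (nat_lit 76) (nat_lit 712455751626) (nat_lit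 0) (nat_lit 402987855069) (nat_lit 836) (nat_lit 1495169742502) (nat_lit 139) (nat_lit 5) (nat_lit 138) (nat_lit 5) (nat_lit 149) (nat_lit 5) (nat_lit 485) (nat_lit 483) (nat_lit 232)))) (XT.nd (nat_lit 156) (nat_lit 152) (nat_lit 0) (XT.nd (nat_lit 78) (nat_lit 0) (nat_lit 76) (XT.lf (nat_lit 76) (nat_lit 199804118417) (nat_lit 0) (nat_lit 1093969323388) (nat_lit 836) (nat_lit 1422770981424) (nat_lit 140) (nat_lit 5) (nat_lit 139) (nat_lit 5) (nat_lit 150) (nat_lit 5) (nat_lit 486) (nat_lit 483) (nat_lit 231)) (XT.lf (nat_lit 0) (nat_lit 1541736494660) (nat_lit 760) (nat_lit 318213534785) (nat_lit 836) (nat_lit 968231612193) (nat_lit 140) (nat_lit 5) (nat_lit 150) (nat_lit 5) (nat_lit 151) (nat_lit 5) (nat_lit 487) (nat_lit 483) (nat_lit 230))) (XT.nd (nat_lit 62166) (nat_lit 304) (nat_lit 0) (XT.lf (nat_lit 0) (nat_lit 1864663671069) (nat_lit 760) (nat_lit 844871773710) (nat_lit 836) (nat_lit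 236458038775) (nat_lit 141) (nat_lit 5) (nat_lit 151) (nat_lit 5) (nat_lit 152) (nat_lit 5) (nat_lit 488) (nat_lit 483) (nat_lit 229)) (XT.lf (nat_lit 0) (nat_lit 506886543509) (nat_lit 836) (nat_lit 398511681508) (nat_lit 836) (nat_lit 398511681508) (nat_lit 137) (nat_lit 3) (nat_lit 148) (nat_lit 3) (nat_lit 148) (nat_lit 5) (nat_lit 484) (nat_lit 484) (nat_lit 232))))) (XT.nd (nat_lit 62556) (nat_lit 0) (nat_lit 0) (XT.nd (nat_lit 156) (nat_lit 0) (nat_lit 76) (XT.nd (nat_lit 78) (nat_lit 0) (nat_lit 0) (XT.lf (nat_lit 0) (nat_lit 1078315473568) (nat_lit 760) (nat_lit 1409038638749) (nat_lit 836) (nat_lit 223578920103) (nat_lit 138) (nat_lit 5) (nat_lit 148) (nat_lit 5) (nat_lit 149) (nat_lit 5) (nat_lit 485) (nat_lit 484) (nat_lit 231)) (XT.lf (nat_lit 76) (nat_lit 769452229707) (nat_lit 0) (nat_lit 435226894779) (nat_lit 836) (nat_lit 1614783291176) (nat_lit 139) (nat_lit 5) (nat_lit 138)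 (nat_lit 5) (nat_lit 149) (nat_lit 5) (nat_lit 486) (nat_lit 484) (nat_lit 230))) (XT.nd (nat_lit 78) (nat_lit 0) (nat_lit 76) (XT.lf (nat_lit 76) (nat_lit 215788466636) (nat_lit 0) (nat_lit 1181486877732) (nat_lit 836) (nat_lit 1536592631352) (nat_lit 140) (nat_lit 5) (nat_lit 139) (nat_lit 5) (nat_lit 150) (nat_lit 5) (nat_lit 487) (nat_lit 484) (nat_lit 229)) (XT.lf (nat_lit 0) (nat_lit 1665075439312) (nat_lit 760) (nat_lit 343670598822) (nat_lit 836) (nat_lit 1045690133575) (nat_lit 140) (nat_lit 5) (nat_lit 150) (nat_lit 5) (nat_lit 151) (nat_lit 5) (nat_lit 488) (nat_lit 484) (nat_lit 228)))) (XT.nd (nat_lit 156) (nat_lit 0) (nat_lit 0) (XT.nd (nat_lit 78) (nat_lit 0) (nat_lit 0) (XT.lf (nat_lit 0) (nat_lit 1164580738283) (nat_lit 760) (nat_lit 1521761713759) (nat_lit 836) (nat_lit 241465221623) (nat_lit 138) (nat_lit 5) (nat_lit 148) (nat_lit 5) (nat_lit 149) (nat_lit 5) (nat_lit 486)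 (nat_lit 485) (nat_lit 229)) (XT.lf (nat_lit 76) (nat_lit 831008423474) (nat_lit 0) (nat_lit 470045056054) (nat_lit 836) (nat_lit 1743965928128) (nat_lit 139) (nat_lit 5) (nat_lit 138) (nat_lit 5) (nat_lit 149) (nat_lit 5) (nat_lit 487) (nat_lit 485) (nat_lit 228))) (XT.nd (nat_lit 62400) (nat_lit 76) (nat_lit 0) (XT.lf (nat_lit 76) (nat_lit 233051560039) (nat_lit 0) (nat_lit 1276005835214) (nat_lit 836) (nat_lit 1659520017353) (nat_lit 140) (nat_lit 5) (nat_lit 139) (nat_lit 5) (nat_lit 150) (nat_lit 5) (nat_lit 488) (nat_lit 485) (nat_lit 227)) (XT.lf (nat_lit 0) (nat_lit 1257747220348) (nat_lit 760) (nat_lit 1643502637066) (nat_lit 836) (nat_lit 260782428990) (nat_lit 138) (nat_lit 5) (nat_lit 148) (nat_lit 5) (nat_lit 149) (nat_lit 5) (nat_lit 487) (nat_lit 486) (nat_lit 227))))))))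

set_option maxRecDepth 10000000 in
noncomputable def Tp : PT := (PT.nd (nat_lit 12760332) (PT.nd (nat_lit 12136410) (PT.nd (nat_lit 11262498) (PT.nd (nat_lit 10513152) pc0 pc1) (PT.nd (nat_lit 561678) pc2 pc3)) (PT.nd (nat_lit 374478) (PT.nd (nat_lit 187668) pc4 pc5) (PT.nd (nat_lit 124956) pc6 pc7))) (PT.nd (nat_lit 374322) (PT.nd (nat_lit 126360) (PT.nd (nat_lit 63258) pc8 pc9) (PT.nd (nat_lit 123240) pc10 pc11)) (PT.nd (nat_lit 377286) (PT.nd (nat_lit 186732) pc12 pc13) (PT.nd (nat_lit 187902) pc14 pc15))))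

set_option maxRecDepth 10000000 in
noncomputable def Tx : XT := (XT.nd (nat_lit 21843978) (nat_lit 0) (nat_lit 76) XT.nil (XT.nd (nat_lit 8558394) (nat_lit 0) (nat_lit 0) (XT.nd (nat_lit 3809052) (nat_lit 0) (nat_lit 228) (XT.nd (nat_lit 2621580) (nat_lit 0) (nat_lit 0) (XT.nd (nat_lit 1869816) (nat_lit 0) (nat_lit 0) (XT.nd (nat_lit 1309542) (nat_lit 0) (nat_lit 0) (XT.nd (nat_lit 934830) (nat_lit 0) (nat_lit 0) (XT.nd (nat_lit 624156) (nat_lit 0) (nat_lit 0) (XT.nd (nat_lit 436800) (nat_lit 0) (nat_lit 0) xc0 xc1) (XT.nd (nat_lit 125580) (nat_lit 0) (nat_lit 0) xc2 xc3)) (XT.nd (nat_lit 188058) (nat_lit 0) (nat_lit 0) (XT.nd (nat_lit 64272) (nat_lit 0) (nat_lit 0) xc4 xc5) (XT.nd (nat_lit 63804) (nat_lit 0) (nat_lit 0) xc6 xc7))) (XT.nd (nat_lit 310830) (nat_lit 0) (nat_lit 0) (XT.nd (nat_lit 126516) (nat_lit 0) (nat_lit 0) (XT.nd (nat_lit 63336) (nat_lit 0) (nat_lit 0) xc8 xc9) (XT.nd (nat_lit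 63024) (nat_lit 0) (nat_lit 0) xc10 xc11)) (XT.nd (nat_lit 125034) (nat_lit 0) (nat_lit 0) (XT.nd (nat_lit 62556) (nat_lit 0) (nat_lit 0) xc12 xc13) (XT.nd (nat_lit 62244) (nat_lit 0) (nat_lit 0) xc14 xc15)))) (XT.nd (nat_lit 378612) (nat_lit 0) (nat_lit 0) (XT.nd (nat_lit 189930) (nat_lit 0) (nat_lit 0) (XT.nd (nat_lit 66300) (nat_lit 0) (nat_lit 0) (XT.nd (nat_lit 4368) (nat_lit 0) (nat_lit 0) xc16 xc17) (XT.nd (nat_lit 61854) (nat_lit 0) (nat_lit 0) xc18 xc19)) (XT.nd (nat_lit 123006) (nat_lit 0) (nat_lit 0) (XT.nd (nat_lit 61542) (nat_lit 0) (nat_lit 0) xc20 xc21) (XT.nd (nat_lit 61230) (nat_lit 0) (nat_lit 0) xc22 xc23))) (XT.nd (nat_lit 187278) (nat_lit 0) (nat_lit 0) (XT.nd (nat_lit 122070) (nat_lit 0) (nat_lit 0) (XT.nd (nat_lit 61074) (nat_lit 0) (nat_lit 0) xc24 xc25) (XT.nd (nat_lit 60762) (nat_lit 0) (nat_lit 76) xc26 xc27)) (XT.nd (nat_lit 121134) (nat_lit 0) (nat_lit 0) (XT.nd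 (nat_lit 60606) (nat_lit 0) (nat_lit 0) xc28 xc29) (XT.nd (nat_lit 4368) (nat_lit 0) (nat_lit 0) xc30 xc31))))) (XT.nd (nat_lit 621426) (nat_lit 0) (nat_lit 76) (XT.nd (nat_lit 312468) (nat_lit 0) (nat_lit 0) (XT.nd (nat_lit 184392) (nat_lit 0) (nat_lit 0) (XT.nd (nat_lit 64506) (nat_lit 0) (nat_lit 0) (XT.nd (nat_lit 60138) (nat_lit 0) (nat_lit 0) xc32 xc33) (XT.nd (nat_lit 59982) (nat_lit 0) (nat_lit 0) xc34 xc35)) (XT.nd (nat_lit 64116) (nat_lit 0) (nat_lit 0) (XT.nd (nat_lit 4368) (nat_lit 76) (nat_lit 0) xc36 xc37) (XT.nd (nat_lit 59514) (nat_lit 0) (nat_lit 684) xc38 xc39))) (XT.nd (nat_lit 182052) (nat_lit 0) (nat_lit 76) (XT.nd (nat_lit 63726) (nat_lit 0) (nat_lit 0) (XT.nd (nat_lit 59358) (nat_lit 0) (nat_lit 228) xc40 xc41) (XT.nd (nat_lit 59202) (nat_lit 0) (nat_lit 0) xc42 xc43)) (XT.nd (nat_lit 63414) (nat_lit 0) (nat_lit 0) (XT.nd (nat_lit 4368) (nat_lit 1520) (nat_lit 0) xc44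 xc45) (XT.nd (nat_lit 4368) (nat_lit 836) (nat_lit 0) xc46 xc47)))) (XT.nd (nat_lit 254670) (nat_lit 0) (nat_lit 0) (XT.nd (nat_lit 127140) (nat_lit 0) (nat_lit 0) (XT.nd (nat_lit 63492) (nat_lit 0) (nat_lit 0) (XT.nd (nat_lit 4368) (nat_lit 228) (nat_lit 0) xc48 xc49) (XT.nd (nat_lit 4368) (nat_lit 0) (nat_lit 0) xc50 xc51)) (XT.nd (nat_lit 63726) (nat_lit 0) (nat_lit 0) (XT.nd (nat_lit 59280) (nat_lit 0) (nat_lit 912) xc52 xc53) (XT.nd (nat_lit 59358) (nat_lit 0) (nat_lit 228) xc54 xc55))) (XT.nd (nat_lit 183066) (nat_lit 0) (nat_lit 0) (XT.nd (nat_lit 119028) (nat_lit 0) (nat_lit 0) (XT.nd (nat_lit 59436) (nat_lit 0) (nat_lit 0) xc56 xc57) (XT.nd (nat_lit 4368) (nat_lit 1368) (nat_lit 0) xc58 xc59)) (XT.nd (nat_lit 64116) (nat_lit 0) (nat_lit 152) (XT.nd (nat_lit 4368) (nat_lit 380) (nat_lit 0) xc60 xc61) (XT.nd (nat_lit 59748) (nat_lit 0) (nat_lit 912) xc62 xc63)))))) (XT.nd (nat_lit 1438242)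 (nat_lit 0) (nat_lit 912) (XT.nd (nat_lit 685308) (nat_lit 0) (nat_lit 228) (XT.nd (nat_lit 313404) (nat_lit 0) (nat_lit 76) (XT.nd (nat_lit 184158) (nat_lit 0) (nat_lit 0) (XT.nd (nat_lit 64194) (nat_lit 0) (nat_lit 0) (XT.nd (nat_lit 59826) (nat_lit 0) (nat_lit 76) xc64 xc65) (XT.nd (nat_lit 59904) (nat_lit 0) (nat_lit 0) xc66 xc67)) (XT.nd (nat_lit 64584) (nat_lit 0) (nat_lit 76) (XT.nd (nat_lit 4368) (nat_lit 304) (nat_lit 0) xc68 xc69) (XT.nd (nat_lit 60216) (nat_lit 0) (nat_lit 380) xc70 xc71))) (XT.nd (nat_lit 185562) (nat_lit 0) (nat_lit 0) (XT.nd (nat_lit 120666) (nat_lit 0) (nat_lit 0) (XT.nd (nat_lit 60294) (nat_lit 0) (nat_lit 0) xc72 xc73) (XT.nd (nat_lit 4368) (nat_lit 456) (nat_lit 0) xc74 xc75)) (XT.nd (nat_lit 64974) (nat_lit 0) (nat_lit 152) (XT.nd (nat_lit 60528) (nat_lit 0) (nat_lit 228) xc76 xc77) (XT.nd (nat_lit 60606) (nat_lit 0) (nat_lit 0) xc78 xc79)))) (XT.nd (nat_lit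 374868) (nat_lit 0) (nat_lit 304) (XT.nd (nat_lit 186966) (nat_lit 0) (nat_lit 76) (XT.nd (nat_lit 65130) (nat_lit 0) (nat_lit 76) (XT.nd (nat_lit 60762) (nat_lit 0) (nat_lit 912) xc80 xc81) (XT.nd (nat_lit 60840) (nat_lit 0) (nat_lit 0) xc82 xc83)) (XT.nd (nat_lit 65442) (nat_lit 0) (nat_lit 152) (XT.nd (nat_lit 60996) (nat_lit 0) (nat_lit 1216) xc84 xc85) (XT.nd (nat_lit 61152) (nat_lit 0) (nat_lit 0) xc86 xc87))) (XT.nd (nat_lit 188682) (nat_lit 0) (nat_lit 152) (XT.nd (nat_lit 65754) (nat_lit 0) (nat_lit 0) (XT.nd (nat_lit 61308) (nat_lit 0) (nat_lit 456) xc88 xc89) (XT.nd (nat_lit 61386) (nat_lit 0) (nat_lit 152) xc90 xc91)) (XT.nd (nat_lit 123240) (nat_lit 0) (nat_lit 76) (XT.nd (nat_lit 61542) (nat_lit 0) (nat_lit 76) xc92 xc93) (XT.nd (nat_lit 61698) (nat_lit 0) (nat_lit 684) xc94 xc95))))) (XT.nd (nat_lit 1059084) (nat_lit 0) (nat_lit 1596) (XT.nd (nat_lit 497172) (nat_lit 0) (nat_lit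 684) (XT.nd (nat_lit 247884) (nat_lit 0) (nat_lit 304) (XT.nd (nat_lit 123708) (nat_lit 0) (nat_lit 152) (XT.nd (nat_lit 61776) (nat_lit 0) (nat_lit 76) xc96 xc97) (XT.nd (nat_lit 62010) (nat_lit 0) (nat_lit 76) xc98 xc99)) (XT.nd (nat_lit 124488) (nat_lit 0) (nat_lit 152) (XT.nd (nat_lit 62166) (nat_lit 0) (nat_lit 0) xc100 xc101) (XT.nd (nat_lit 62322) (nat_lit 0) (nat_lit 76) xc102 xc103))) (XT.nd (nat_lit 250848) (nat_lit 0) (nat_lit 304) (XT.nd (nat_lit 125268) (nat_lit 0) (nat_lit 152) (XT.nd (nat_lit 62556) (nat_lit 0) (nat_lit 76) xc104 xc105) (XT.nd (nat_lit 62712) (nat_lit 0) (nat_lit 152) xc106 xc107)) (XT.nd (nat_lit 125892) (nat_lit 0) (nat_lit 228) (XT.nd (nat_lit 62868) (nat_lit 0) (nat_lit 152) xc108 xc109) (XT.nd (nat_lit 63024) (nat_lit 0) (nat_lit 228) xc110 xc111)))) (XT.nd (nat_lit 688740) (nat_lit 0) (nat_lit 1444) (XT.nd (nat_lit 313248) (nat_lit 0) (nat_lit 608) (XT.nd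 (nat_lit 126750) (nat_lit 0) (nat_lit 152) (XT.nd (nat_lit 63336) (nat_lit 0) (nat_lit 76) xc112 xc113) (XT.nd (nat_lit 63492) (nat_lit 0) (nat_lit 152) xc114 xc115)) (XT.nd (nat_lit 187356) (nat_lit 0) (nat_lit 228) (XT.nd (nat_lit 63804) (nat_lit 0) (nat_lit 152) xc116 xc117) (XT.nd (nat_lit 64038) (nat_lit 0) (nat_lit 228) xc118 xc119))) (XT.nd (nat_lit 500214) (nat_lit 0) (nat_lit 1596) (XT.nd (nat_lit 189150) (nat_lit 0) (nat_lit 456) (XT.nd (nat_lit 124410) (nat_lit 0) (nat_lit 304) xc120 xc121) (XT.nd (nat_lit 185484) (nat_lit 0) (nat_lit 760) xc122 xc123)) (XT.nd (nat_lit 374790) (nat_lit 0) (nat_lit 1444) (XT.nd (nat_lit 125970) (nat_lit 0) (nat_lit 684) xc124 xc125) (XT.nd (nat_lit 188448) (nat_lit 0) (nat_lit 1216) xc126 xc127))))))) XT.nil))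

set_option maxRecDepth 10000000 in
noncomputable def Te : XT := XT.nil

set_option maxRecDepth 10000000 in
noncomputable def Tz : ZL := (ZL.cons (nat_lit 76) (nat_lit 6) (nat_lit 418347508451541463466) (ZL.cons (nat_lit 152) (nat_lit 6) (nat_lit 403582717271265780480) (ZL.cons (nat_lit 228) (nat_lit 3) (nat_lit 201197068445189334301) (ZL.cons (nat_lit 304) (nat_lit 6) (nat_lit 387636742796568042856) (ZL.cons (nat_lit 380) (nat_lit 6) (nat_lit 373987874945849967708) (ZL.cons (nat_lit 456) (nat_lit 3) (nat_lit 186443668778069839465) (ZL.cons (nat_lit 532) (nat_lit 6) (nat_lit 359247097667074446546) (ZL.cons (nat_lit 608) (nat_lit 6) (nat_lit 346635192078177885070) (ZL.cons (nat_lit 684) (nat_lit 3) (nat_lit 172808087988297142175) (ZL.cons (nat_lit 760) (nat_lit 6) (nat_lit 333014334042169598676) (ZL.cons (nat_lit 836) (nat_lit 6) (nat_lit 321366894281966761752) (ZL.cons (nat_lit 912) (nat_lit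 3) (nat_lit 160211680427287269433) (ZL.cons (nat_lit 988) (nat_lit 6) (nat_lit 308787659340947697878) (ZL.cons (nat_lit 1064) (nat_lit 6) (nat_lit 298038277196023138880) (ZL.cons (nat_lit 1140) (nat_lit 3) (nat_lit 148582317566811466250) (ZL.cons (nat_lit 1216) (nat_lit 6) (nat_lit 286428944479504615158) (ZL.cons (nat_lit 1292) (nat_lit 6) (nat_lit 276516968471012785456) (ZL.cons (nat_lit 1368) (nat_lit 3) (nat_lit 137854020317728519404) (ZL.cons (nat_lit 1444) (nat_lit 6) (nat_lit 265812034381841609378) (ZL.cons (nat_lit 1520) (nat_lit 6) (nat_lit 256682282718636902094) (ZL.cons (nat_lit 1596) (nat_lit 3) (nat_lit 127966637731746346119) (ZL.cons (nat_lit 1672) (nat_lit 6) (nat_lit 246822150922375818230) (ZL.cons (nat_lit 1748) (nat_lit 6) (nat_lit 238424668909358442916) (ZL.cons (nat_lit 1824) (nat_lit 3) (nat_lit 118865571836556902079) (ZL.cons (nat_lit 1900) (nat_lit 6) (nat_lit 229355388335299677578)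 (ZL.cons (nat_lit 1976) (nat_lit 6) (nat_lit 221645250803227873292) (ZL.cons (nat_lit 2052) (nat_lit 3) (nat_lit 110501548903352529814) (ZL.cons (nat_lit 2128) (nat_lit 6) (nat_lit 213318302268590324664) (ZL.cons (nat_lit 2204) (nat_lit 6) (nat_lit 206255462191840718698) (ZL.cons (nat_lit 2280) (nat_lit 3) (nat_lit 102830438041974612283) (ZL.cons (nat_lit 2356) (nat_lit 6) (nat_lit 198627594908951144256) (ZL.cons (nat_lit 2432) (nat_lit 6) (nat_lit 192176780040336835856) (ZL.cons (nat_lit 2508) (nat_lit 3) (nat_lit 95813118673922355828) (ZL.cons (nat_lit 2584) (nat_lit 6) (nat_lit 185209899982233382782) (ZL.cons (nat_lit 2660) (nat_lit 6) (nat_lit 179340560072172794198) (ZL.cons (nat_lit 2736) (nat_lit 3) (nat_lit 89415399159932635897) (ZL.cons (nat_lit 2812) (nat_lit 6) (nat_lit 173983436344121846124) (ZL.cons (nat_lit 2888) (nat_lit 6) (nat_lit 173001672969307358530) (ZL.cons (nat_lit 2964)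 (nat_lit 6) (nat_lit 167687980965519299798) (ZL.cons (nat_lit 3040) (nat_lit 3) (nat_lit 83607989671506167304) (ZL.cons (nat_lit 3116) (nat_lit 6) (nat_lit 162858233763293462662) (ZL.cons (nat_lit 3192) (nat_lit 6) (nat_lit 161949193601428196370) (ZL.cons (nat_lit 3268) (nat_lit 6) (nat_lit 157170105162382593364) (ZL.cons (nat_lit 3344) (nat_lit 3) (nat_lit 78366533311512146131) (ZL.cons (nat_lit 3420) (nat_lit 6) (nat_lit 152850393501792292390) (ZL.cons (nat_lit 3496) (nat_lit 6) (nat_lit 152008689648213342118) (ZL.cons (nat_lit 3572) (nat_lit 6) (nat_lit 147748066368996466234) (ZL.cons (nat_lit 3648) (nat_lit 3) (nat_lit 73671700527387908532) (ZL.cons (nat_lit 3724) (nat_lit 6) (nat_lit 143925948647422749786) (ZL.cons (nat_lit 3800) (nat_lit 6) (nat_lit 143146593227442240276) (ZL.cons (nat_lit 3876) (nat_lit 6) (nat_lit 140519686896993978162) (ZL.cons (nat_lit 3952) (nat_lit 6) (nat_lit 139393396193902486856)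 (ZL.cons (nat_lit 4028) (nat_lit 3) (nat_lit 69509353044071313258) (ZL.cons (nat_lit 4104) (nat_lit 6) (nat_lit 136061568786550395298) (ZL.cons (nat_lit 4180) (nat_lit 6) (nat_lit 135339943397679553162) (ZL.cons (nat_lit 4256) (nat_lit 6) (nat_lit 133131366842972027286) (ZL.cons (nat_lit 4332) (nat_lit 6) (nat_lit 132088505080850276076) (ZL.cons (nat_lit 4408) (nat_lit 3) (nat_lit 65870784898869647140) (ZL.cons (nat_lit 4484) (nat_lit 6) (nat_lit 130585426203501733230) (ZL.cons (nat_lit 4560) (nat_lit 6) (nat_lit 129245123355036547696) (ZL.cons (nat_lit 4636) (nat_lit 6) (nat_lit 128576951698674656826) (ZL.cons (nat_lit 4712) (nat_lit 6) (nat_lit 126792948550752064442) (ZL.cons (nat_lit 4788) (nat_lit 6) (nat_lit 125827335808046739248) (ZL.cons (nat_lit 4864) (nat_lit 3) (nat_lit 62753049717397915087) (ZL.cons (nat_lit 4940) (nat_lit 6) (nat_lit 124717449261749214560) (ZL.cons (nat_lit 5016)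 (nat_lit 6) (nat_lit 123476428105762931658) (ZL.cons (nat_lit 5092) (nat_lit 6) (nat_lit 122857750646168588260) (ZL.cons (nat_lit 5168) (nat_lit 6) (nat_lit 123006326232982055240) (ZL.cons (nat_lit 5244) (nat_lit 6) (nat_lit 121510297286920811494) (ZL.cons (nat_lit 5320) (nat_lit 6) (nat_lit 120616211414045510388) (ZL.cons (nat_lit 5396) (nat_lit 3) (nat_lit 60159385163851038032) (ZL.cons (nat_lit 5472) (nat_lit 6) (nat_lit 119968263065199922384) (ZL.cons (nat_lit 5548) (nat_lit 6) (nat_lit 120638748180787984178) (ZL.cons (nat_lit 5624) (nat_lit 6) (nat_lit 121649439476131966276) (ZL.cons (nat_lit 5700) (nat_lit 6) (nat_lit 119917292205927240270) (ZL.cons (nat_lit 5776) (nat_lit 6) (nat_lit 118768198542976978320) (ZL.cons (nat_lit 5852) (nat_lit 6) (nat_lit 118195349043352586288) (ZL.cons (nat_lit 5928) (nat_lit 3) (nat_lit 58559904887605864442) (ZL.cons (nat_lit 6004) (nat_lit 6) (nat_lit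 117293363792249457920) (ZL.cons (nat_lit 6080) (nat_lit 6) (nat_lit 117815054311611757506) (ZL.cons (nat_lit 6156) (nat_lit 6) (nat_lit 118687972832672626450) (ZL.cons (nat_lit 6232) (nat_lit 6) (nat_lit 117302760845578882240) (ZL.cons (nat_lit 6308) (nat_lit 6) (nat_lit 116474903555879529364) (ZL.cons (nat_lit 6384) (nat_lit 3) (nat_lit 58099747571299285828) (ZL.cons (nat_lit 6460) (nat_lit 6) (nat_lit 115126097966333798438) (ZL.cons (nat_lit 6536) (nat_lit 6) (nat_lit 115487090321772274838) (ZL.cons (nat_lit 6612) (nat_lit 6) (nat_lit 116211214246607381574) (ZL.cons (nat_lit 6688) (nat_lit 6) (nat_lit 115147238632764546438) (ZL.cons (nat_lit 6764) (nat_lit 6) (nat_lit 114616822429408627886) (ZL.cons (nat_lit 6840) (nat_lit 3) (nat_lit 56726811265353388533) (ZL.cons (nat_lit 6916) (nat_lit 6) (nat_lit 113641060869107524430) (ZL.cons (nat_lit 6992) (nat_lit 6) (nat_lit 114204486630018807980)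 (ZL.cons (nat_lit 7068) (nat_lit 6) (nat_lit 113437952102519407168) (ZL.cons (nat_lit 7144) (nat_lit 3) (nat_lit 56591472156222223162) (ZL.cons (nat_lit 7220) (nat_lit 6) (nat_lit 112266026519823937382) (ZL.cons (nat_lit 7296) (nat_lit 6) (nat_lit 112655898263697491896) (ZL.cons (nat_lit 7372) (nat_lit 6) (nat_lit 112164772149479048792) (ZL.cons (nat_lit 7448) (nat_lit 3) (nat_lit 55676919461111027703) (ZL.cons (nat_lit 7524) (nat_lit 6) (nat_lit 111556272327694862556) (ZL.cons (nat_lit 7600) (nat_lit 3) (nat_lit 55660077001775690148) (ZL.cons (nat_lit 7676) (nat_lit 6) (nat_lit 110899092520167941424) (ZL.cons (nat_lit 7752) (nat_lit 1) (nat_lit 18446744073709551617) ZL.nil))))))))))))))))))))))))))))))))))))))))))))))))))))))))))))))))))))))))))))))))))))))))))))))))))))))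

noncomputable def vl : XL := ⟨(nat_lit 0), (nat_lit 76), (nat_lit 252510928), (nat_lit 152), (nat_lit 19771525), (nat_lit 152), (nat_lit 19771525), (nat_lit 1), (nat_lit 4), (nat_lit 2), (nat_lit 5), (nat_lit 2), (nat_lit 4), (nat_lit 0), (nat_lit 0), (nat_lit 0)⟩

noncomputable def cp0 : Nat := (nat_lit 2323267145730620752264908565764218606337281894885489358630623282508319072969919040516005083453129462029613706949205563640024200076671165961070805505552018027540897920360729408181364734451794628481032208845349090339577365376290161659295775884073613702784584221362702087374686323543081550140139868025935194782165441765183232640808797683869973414908591983099947390546575050587025563567446078970823806048757754688484965466358158993545190659306225165748513113774421084819719662376715645256105257169178751781464142351012514331227382197686565745472876978596256327242641737106087458915252696707919902979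019657495526371958139333056139781157568787309325965786764143060150131489340454786117235255165539444092394281763529296807953180327549458211861629394639042216314423764715159436381562558594482237627069825994627570046995053830897837448167371120812757590619495387347777034955343113542775178985910493110883061392369666898948763487572419677279073474032024971414061133573650203070848559865506028220450713465824103593295735174046798516156492727888617988527904448652850975681502991830646694128426056267931696391063369094322030193858620317464403102074657802039823013260980955826278267295994904177197529588496407146985147937689443974303500957528164112999494980821085130774843057987977766030747556234000991973332136739784969956940882401075444165852561191420679331690806926533333512069979288223206972304677153140026548699337149629075873055534697333734763468557533023418596231627803541690925452940986064802039654759657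029733846003206737408619770017974281097349575958084367409148458492432622858095933666449274067700357756682275722946498659559516368598347423028256840133226149585762403265063803824060781171153064234800840488061556681183059744184326293096547609401710922071382728443014615274648790588094980974056167773203021995834681097224797213129135753882525491546002540490204097397216207207077795945343310199904528009584153433023410760436032335919935245332849000911003807644191857391530211765105443943622590505701763329189951655955910981296269654253891998460996671151357302572760797774994888507268905725735995999860042188593890309680143694610878422261109001177656187521340265645246533051776535098811778310964009189975377350181075625095603650375729428020532401200237826188825160681158364232696203232139931992653043876438408744696198263724377902688208943193488528503574888448)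

noncomputable def cp1 : Nat := (nat_lit 602535821241987201645150760804327009674729467495021145388836996583812714549226131103327325958371428430849481087950115414905991594708322610828613256755984685818517405208463643997894575936816750784336844058331849816920327759429575207300854382329133466333332053623277140621880090333275553898500975973444359284819901217878073722299605321395783636799195111628396009183127177938760317431552984272366714202742726035702644425065491165893751457313540131725571733231708875164867014207175944375689296717706354547525119598344311538864310067642876504201050918933257740272886388241718888675876838143824724512449991680188779387860572808630574601161017102529275735802408516206149558938321015368653589024646403088344139419093851860270888863778989294470651614849565187149739245856475102861138534424227274456999992634271525769451105540301760622464785876927302394915607063738047289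726168661762203504634553266448354910214486872821570556555295662144288019573129831379448611590831664245045628883151820567951442471646512972741354525077668683472321129448313736735071394928187490155470732942693944064112181325805064704829025511254159769309583951073903082824699194350600554021124325220026945785671929825368043483200155757133121628308441606260948607034684565384973383608928154780009247375171223820431075353386131809305373004379119117392417930841181444981552328639711509883846954339555792885690222853121421146453770387210605504050656309855975494425308118825713330848813676310034174150817157225167612865418937271207984958564356124466576512315276575514009666298711163397295009194907793581422854836024045597543489418059583655606603189282651831911756248880201151722958165250473605095588774688383347766873290150916895730004074614270538856964427298225583673586201767886320805908073016916340990883489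568677680666142286558743408677335686126245893265862499846115179488266368822922815620040233437330075663583281048876969117615743108322900034402909491098078717078883036188158594692977571334978186907673797555133465012869243994355247814511554596184182161119367459014324508489433432047621309737109933677240013800982364744756253109886486117806810749832567244813777828527371628314144423078830023386863036720486933786194654310692614414955079273314557474776563610796128600221980332702320861138692560088135694203190018993089760076899050314369906178100396238282126360523419409652463903873071327669458508618667259322878954661720228004887938221411249043245864352679912973274240585230081598573662471142077650844617658403262639583651034675501537551780599363398401179653574369548845209639669342953098274737639842340938319887071669329132143306818196610765958207248045506978795303461183164673857091441232975053850181747616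537938995013744691015139686436177994057080854595686108068484556564955101354144568137726486831843778095360095240203009814273602371301325666974487758035609813430787751617974449209449184948060661718969923533950586206418111191608356100564168250474633188041614056126806643014023684046892735912527573642203014714917914678152232437265891811487958736646999057157486827195440048383957164727675858203544396996883657153697123430158986642615299540333645450242971413483913321993127098401127034137235047945219255089586508393696259291628656697024099186549969050742557417335352470477938083490410481650933359764521218241796881679660164536389819524611926316134264604450774957336271521679515872887718741833537928416527923723033984482624688132854049132403392172762788466186631585657097848796441206111723971874506612335192631382962680424260163441787520989567913639785295538799706211600245863541853916506418912727834757007581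46739911799241302261345939634477378907169752342131392988964302894376101145973193775828003277117386049655621369153138048442656277828739596633102884808969540558304395362803912459007869989134749909548845251255145165559356313000034302192145557574169175624556105922505623410802615734663107941095524051578412857741295162657548208474158091394681581025348249205208326474989026725305892481446193107969359648490555531684496325699448526944326406958862014157343507159750618465629512756033916438848852201104656968835200366810727719971178613766598711943950358677325714198595126292725913383908788121122270282766983177684091678570871228363718005162439317256044465298960793402523508956699488368889391004804030087668293408563953950435700882875704269577923545059171898002678761874313509233095045244971124561401377424538746630108944282603911696854305968050527510787513465379627655007310510362519191319816680861232889647751101521380802014354843603059323104316135983391547850752)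

noncomputable def rc0 : Nat := (nat_lit 602535821241987201645150760804327009674729467495021145388836996583812714549226131103327325958371428430849481087950115414905991594708322610828613256755984685818517405208463643997894575936816750784336844058331849816920327759429575207300854382329133466333332053623277140621880090333275553898500975973444359284819901217878073722299605321395783636799195111628396009183127177938760317431552984272366714202742726035702644425065491165893751457313540131725571733231708875164867014207175944375689296717706354547525119598344311538864310067642876504201050918933257740272886388241718888675876838143824724512449991680188779387860572808630574601161017102529275735802408516206149558938321015368653589024646403088344139419093851860270888863778989294470651614849565187149739245856475102861138534424227274456999992634271525769451105540301760622464785876927302394915607063738047289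726168661762203504634553266448354910214486872821570556555295662144288019573129831379448611590831664245045628883151820567951442471646512972741354525077668683472321129448313736735071394928187490155470732942693944064112181325805064704829025511254159769309583951073903082824699194350600554021124325220026945785671929825368043483200155757133121628308441606260948607034684565384973383608928154780009247375171223820431075353386131809305373004379119117392417930841181444981552328639711509883846954339555792885690222853121421146453770387210605504050656309855975494425308118825713330848813676310034174150817157225167612865418937271207984958564356124466576512315276575514009666298711163397295009194907793581422854836024045597543489418059583655606603189282651831911756248880201151722958165250473605095588774688383347766873290150916895730004074614270538856964427298225583673586201767886320805908073016916340990883489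568677680666142286558743408677335686126245893265862499846115179488266368822922815620040233437330075663583281048876969117615743108322900034402909491098078717078883036188158594692977571334978186907673797555133465012869243994355247814511554596184182161119367459014324508489433432047621309737109933677240013800982364744756253109886486117806810749832567244813777828527371628314144423078830023386863036720486933786194654310692614414955079273314557474776563610796128600221980332702320861138692560088135694203190018993089760076899050314369906178100396238282126360523419409652463903873071327669458508618667259322878954661720228004887938221411249043245864352679912973274240585230081598573662471142077650844617658403262639583651034675501537551780599363398401179653574369548845209639669342953098274737639842340938319887071669329132143306818196610765958207248045506978795303461183164673857091441232975053850181747616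537938995013744691015139686436177994057080854595686108068484556564955101354144568137726486831843778095360095240203009814273602371301325666974487758035609813430787751617974449209449184948060661718969923533950586206418111191608356100564168250474633188041614056126806643014023684046892735912527573642203014714917914678152232437265891811487958736646999057157486827195440048383957164727675858203544396996883657153697123430158986642615299540333645450242971413483913321993127098401127034137235047945219255089586508393696259291628656697024099186549969050742557417335352470477938083490410481650933359764521218241796881679660164536389819524611926316134264604450774957336271521679515872887718741833537928416527923723033984482624688132854049132403392172762788466186631585657097848796441206111723971874506612335192631382962680424260163441787520989567913639785295538799706211600245863541853916506418912727834757007581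46739911799241302261345939634477378907169752342131392988964302894376101145973193775828003277117386049655621369153138048442656277828739596633102884808969540558304395362803912459007869989134749909548845251255145165559356313000034302192145557574169175624556105922505623410802615734663107941095524051578412857741295162657548208474158091394681581025348249205208326474989026725305892481446193107969359648490555531684496325699448526944326406958862014157343507159750618465629512756033916438848852201104656968835200366810727719971178613766598711943950358677325714198595126292725913383908788121122270282766983177684091678570871228363718005162439317256044465298960793402523508956699488368889391004804030087668293408563953950435700882875704269577923545059171898002678761874313509233095045244971124561401377424538746630108944282603911696854305968050527510787513465379627655007310510362519191319816680861232889647751101521380802014354843603059323104316135983391547850752)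

end Vale.Agent.Lib.P154.PChain.BD.S3
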